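import Vale.Agent.Lib.P154.PChain.BQ.R4_0

set_option linter.all false

namespace Vale.Agent.Lib.P154.PChain.BQ.S5

open Vale.Agent.Lib.P154.Chain

noncomputable def pc0 : PT := (PT.nd (nat_lit 4075110) (PT.nd (nat_lit 3912636) (PT.nd (nat_lit 3831438) (PT.nd (nat_lit 3750318) (PT.nd (nat_lit 3709758) (PT.nd (nat_lit 3709680) PT.nil (PT.lf (nat_lit 76) (nat_lit 6) (nat_lit 1) (nat_lit 3) (nat_lit 149) (nat_lit 91) (nat_lit 150))) (PT.lf (nat_lit 76) (nat_lit 6) (nat_lit 1) (nat_lit 1) (nat_lit 150) (nat_lit 91) (nat_lit 149))) (PT.nd (nat_lit 40560) (PT.lf (nat_lit 228) (nat_lit 3) (nat_lit 3) (nat_lit 1) (nat_lit 149) (nat_lit 92) (nat_lit 149)) (PT.nd (nat_lit 78) (PT.lf (nat_lit 304) (nat_lit 6) (nat_lit 4) (nat_lit 3) (nat_lit 148) (nat_lit 93) (nat_lit 149)) (PT.lf (nat_lit 304) (nat_lit 6) (nat_lit 4) (nat_lit 1) (nat_lit 149) (nat_lit 93) (nat_lit 148))))) (PT.nd (nat_lit 156) (PT.nd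 (nat_lit 78) (PT.lf (nat_lit 380) (nat_lit 6) (nat_lit 5) (nat_lit 3) (nat_lit 147) (nat_lit 94) (nat_lit 149)) (PT.lf (nat_lit 456) (nat_lit 3) (nat_lit 6) (nat_lit 1) (nat_lit 148) (nat_lit 94) (nat_lit 148))) (PT.nd (nat_lit 40482) (PT.lf (nat_lit 380) (nat_lit 6) (nat_lit 5) (nat_lit 1) (nat_lit 149) (nat_lit 94) (nat_lit 147)) (PT.nd (nat_lit 78) (PT.lf (nat_lit 532) (nat_lit 6) (nat_lit 7) (nat_lit 3) (nat_lit 147) (nat_lit 95) (nat_lit 148)) (PT.lf (nat_lit 532) (nat_lit 6) (nat_lit 7) (nat_lit 1) (nat_lit 148) (nat_lit 95) (nat_lit 147)))))) (PT.nd (nat_lit 81198) (PT.nd (nat_lit 156) (PT.nd (nat_lit 78) (PT.lf (nat_lit 608) (nat_lit 6) (nat_lit 8) (nat_lit 3) (nat_lit 146) (nat_lit 96) (nat_lit 148)) (PT.lf (nat_lit 684) (nat_lit 3) (nat_lit 9) (nat_lit 1) (nat_lit 147) (nat_lit 96) (nat_lit 147))) (PT.nd (nat_lit 40482) (PT.lf (nat_lit 608) (nat_lit 6) (nat_lit 8) (nat_lit 1) (nat_lit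 148) (nat_lit 96) (nat_lit 146)) (PT.nd (nat_lit 78) (PT.lf (nat_lit 760) (nat_lit 6) (nat_lit 10) (nat_lit 3) (nat_lit 146) (nat_lit 97) (nat_lit 147)) (PT.lf (nat_lit 760) (nat_lit 6) (nat_lit 10) (nat_lit 1) (nat_lit 147) (nat_lit 97) (nat_lit 146))))) (PT.nd (nat_lit 40638) (PT.nd (nat_lit 78) (PT.lf (nat_lit 836) (nat_lit 6) (nat_lit 11) (nat_lit 3) (nat_lit 145) (nat_lit 98) (nat_lit 147)) (PT.nd (nat_lit 78) (PT.lf (nat_lit 912) (nat_lit 3) (nat_lit 12) (nat_lit 1) (nat_lit 146) (nat_lit 98) (nat_lit 146)) (PT.lf (nat_lit 836) (nat_lit 6) (nat_lit 11) (nat_lit 1) (nat_lit 147) (nat_lit 98) (nat_lit 145)))) (PT.nd (nat_lit 78) (PT.lf (nat_lit 988) (nat_lit 6) (nat_lit 13) (nat_lit 3) (nat_lit 145) (nat_lit 99) (nat_lit 146)) (PT.nd (nat_lit 40482) (PT.lf (nat_lit 988) (nat_lit 6) (nat_lit 13) (nat_lit 1) (nat_lit 146) (nat_lit 99) (nat_lit 145)) (PT.lf (nat_lit 1064) (nat_lit 6) (nat_lit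 14) (nat_lit 3) (nat_lit 144) (nat_lit 100) (nat_lit 146))))))) (PT.nd (nat_lit 121836) (PT.nd (nat_lit 40716) (PT.nd (nat_lit 40482) (PT.nd (nat_lit 78) (PT.lf (nat_lit 1140) (nat_lit 3) (nat_lit 15) (nat_lit 1) (nat_lit 145) (nat_lit 100) (nat_lit 145)) (PT.lf (nat_lit 1064) (nat_lit 6) (nat_lit 14) (nat_lit 1) (nat_lit 146) (nat_lit 100) (nat_lit 144))) (PT.nd (nat_lit 78) (PT.lf (nat_lit 1216) (nat_lit 6) (nat_lit 16) (nat_lit 3) (nat_lit 143) (nat_lit 101) (nat_lit 146)) (PT.nd (nat_lit 78) (PT.lf (nat_lit 1292) (nat_lit 6) (nat_lit 17) (nat_lit 3) (nat_lit 144) (nat_lit 101) (nat_lit 145)) (PT.lf (nat_lit 1292) (nat_lit 6) (nat_lit 17) (nat_lit 1) (nat_lit 145) (nat_lit 101) (nat_lit 144))))) (PT.nd (nat_lit 40560) (PT.nd (nat_lit 40404) (PT.lf (nat_lit 1216) (nat_lit 6) (nat_lit 16) (nat_lit 1) (nat_lit 146) (nat_lit 101) (nat_lit 143)) (PT.nd (nat_lit 78) (PT.lf (nat_lit 1368) (nat_lit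 6) (nat_lit 18) (nat_lit 3) (nat_lit 143) (nat_lit 102) (nat_lit 145)) (PT.lf (nat_lit 1444) (nat_lit 3) (nat_lit 19) (nat_lit 1) (nat_lit 144) (nat_lit 102) (nat_lit 144)))) (PT.nd (nat_lit 40404) (PT.lf (nat_lit 1368) (nat_lit 6) (nat_lit 18) (nat_lit 1) (nat_lit 145) (nat_lit 102) (nat_lit 143)) (PT.nd (nat_lit 78) (PT.lf (nat_lit 1520) (nat_lit 6) (nat_lit 20) (nat_lit 3) (nat_lit 142) (nat_lit 103) (nat_lit 145)) (PT.lf (nat_lit 1596) (nat_lit 6) (nat_lit 21) (nat_lit 3) (nat_lit 143) (nat_lit 103) (nat_lit 144)))))) (PT.nd (nat_lit 81042) (PT.nd (nat_lit 40482) (PT.nd (nat_lit 78) (PT.lf (nat_lit 1596) (nat_lit 6) (nat_lit 21) (nat_lit 1) (nat_lit 144) (nat_lit 103) (nat_lit 143)) (PT.lf (nat_lit 1520) (nat_lit 6) (nat_lit 20) (nat_lit 1) (nat_lit 145) (nat_lit 103) (nat_lit 142))) (PT.nd (nat_lit 78) (PT.lf (nat_lit 1672) (nat_lit 6) (nat_lit 22) (nat_lit 3) (nat_lit 142) (nat_lit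 104) (nat_lit 144)) (PT.nd (nat_lit 78) (PT.lf (nat_lit 1748) (nat_lit 3) (nat_lit 23) (nat_lit 1) (nat_lit 143) (nat_lit 104) (nat_lit 143)) (PT.lf (nat_lit 1672) (nat_lit 6) (nat_lit 22) (nat_lit 1) (nat_lit 144) (nat_lit 104) (nat_lit 142))))) (PT.nd (nat_lit 234) (PT.nd (nat_lit 78) (PT.lf (nat_lit 1824) (nat_lit 6) (nat_lit 24) (nat_lit 3) (nat_lit 141) (nat_lit 105) (nat_lit 144)) (PT.nd (nat_lit 78) (PT.lf (nat_lit 1900) (nat_lit 6) (nat_lit 25) (nat_lit 3) (nat_lit 142) (nat_lit 105) (nat_lit 143)) (PT.lf (nat_lit 1900) (nat_lit 6) (nat_lit 25) (nat_lit 1) (nat_lit 143) (nat_lit 105) (nat_lit 142)))) (PT.nd (nat_lit 40326) (PT.lf (nat_lit 1824) (nat_lit 6) (nat_lit 24) (nat_lit 1) (nat_lit 144) (nat_lit 105) (nat_lit 141)) (PT.nd (nat_lit 78) (PT.lf (nat_lit 1976) (nat_lit 6) (nat_lit 26) (nat_lit 3) (nat_lit 140) (nat_lit 106) (nat_lit 144)) (PT.lf (nat_lit 2052) (nat_lit 6) (nat_lit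 27) (nat_lit 3) (nat_lit 141) (nat_lit 106) (nat_lit 143))))))))
noncomputable def pc1 : PT := (PT.nd (nat_lit 162552) (PT.nd (nat_lit 81354) (PT.nd (nat_lit 40638) (PT.nd (nat_lit 156) (PT.nd (nat_lit 78) (PT.lf (nat_lit 2128) (nat_lit 3) (nat_lit 28) (nat_lit 1) (nat_lit 142) (nat_lit 106) (nat_lit 142)) (PT.lf (nat_lit 2052) (nat_lit 6) (nat_lit 27) (nat_lit 1) (nat_lit 143) (nat_lit 106) (nat_lit 141))) (PT.nd (nat_lit 40326) (PT.lf (nat_lit 1976) (nat_lit 6) (nat_lit 26) (nat_lit 1) (nat_lit 144) (nat_lit 106) (nat_lit 140)) (PT.nd (nat_lit 78) (PT.lf (nat_lit 2204) (nat_lit 6) (nat_lit 29) (nat_lit 3) (nat_lit 140) (nat_lit 107) (nat_lit 143)) (PT.lf (nat_lit 2280) (nat_lit 6) (nat_lit 30) (nat_lit 3) (nat_lit 141) (nat_lit 107) (nat_lit 142))))) (PT.nd (nat_lit 40482) (PT.nd (nat_lit 78) (PT.lf (nat_lit 2280) (nat_lit 6) (nat_lit 30) (nat_lit 1) (nat_lit 142) (nat_lit 107) (nat_lit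 141)) (PT.nd (nat_lit 40326) (PT.lf (nat_lit 2204) (nat_lit 6) (nat_lit 29) (nat_lit 1) (nat_lit 143) (nat_lit 107) (nat_lit 140)) (PT.lf (nat_lit 2356) (nat_lit 6) (nat_lit 31) (nat_lit 3) (nat_lit 139) (nat_lit 108) (nat_lit 143)))) (PT.nd (nat_lit 78) (PT.lf (nat_lit 2432) (nat_lit 6) (nat_lit 32) (nat_lit 3) (nat_lit 140) (nat_lit 108) (nat_lit 142)) (PT.nd (nat_lit 78) (PT.lf (nat_lit 2508) (nat_lit 3) (nat_lit 33) (nat_lit 1) (nat_lit 141) (nat_lit 108) (nat_lit 141)) (PT.lf (nat_lit 2432) (nat_lit 6) (nat_lit 32) (nat_lit 1) (nat_lit 142) (nat_lit 108) (nat_lit 140)))))) (PT.nd (nat_lit 40560) (PT.nd (nat_lit 40326) (PT.nd (nat_lit 40248) (PT.lf (nat_lit 2356) (nat_lit 6) (nat_lit 31) (nat_lit 1) (nat_lit 143) (nat_lit 108) (nat_lit 139)) (PT.lf (nat_lit 2584) (nat_lit 6) (nat_lit 34) (nat_lit 3) (nat_lit 138) (nat_lit 109) (nat_lit 143))) (PT.nd (nat_lit 78) (PT.lf (nat_lit 2660)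 (nat_lit 6) (nat_lit 35) (nat_lit 3) (nat_lit 139) (nat_lit 109) (nat_lit 142)) (PT.nd (nat_lit 78) (PT.lf (nat_lit 2736) (nat_lit 6) (nat_lit 36) (nat_lit 3) (nat_lit 140) (nat_lit 109) (nat_lit 141)) (PT.lf (nat_lit 2736) (nat_lit 6) (nat_lit 36) (nat_lit 1) (nat_lit 141) (nat_lit 109) (nat_lit 140))))) (PT.nd (nat_lit 40404) (PT.nd (nat_lit 78) (PT.lf (nat_lit 2660) (nat_lit 6) (nat_lit 35) (nat_lit 1) (nat_lit 142) (nat_lit 109) (nat_lit 139)) (PT.nd (nat_lit 40248) (PT.lf (nat_lit 2584) (nat_lit 6) (nat_lit 34) (nat_lit 1) (nat_lit 143) (nat_lit 109) (nat_lit 138)) (PT.lf (nat_lit 2812) (nat_lit 6) (nat_lit 37) (nat_lit 3) (nat_lit 138) (nat_lit 110) (nat_lit 142)))) (PT.nd (nat_lit 78) (PT.lf (nat_lit 2888) (nat_lit 6) (nat_lit 38) (nat_lit 3) (nat_lit 139) (nat_lit 110) (nat_lit 141)) (PT.nd (nat_lit 78) (PT.lf (nat_lit 2964) (nat_lit 3) (nat_lit 39) (nat_lit 1) (nat_lit 140) (nat_lit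 110) (nat_lit 140)) (PT.lf (nat_lit 2888) (nat_lit 6) (nat_lit 38) (nat_lit 1) (nat_lit 141) (nat_lit 110) (nat_lit 139))))))) (PT.nd (nat_lit 81198) (PT.nd (nat_lit 40560) (PT.nd (nat_lit 40326) (PT.nd (nat_lit 40248) (PT.lf (nat_lit 2812) (nat_lit 6) (nat_lit 37) (nat_lit 1) (nat_lit 142) (nat_lit 110) (nat_lit 138)) (PT.lf (nat_lit 3040) (nat_lit 6) (nat_lit 40) (nat_lit 3) (nat_lit 137) (nat_lit 111) (nat_lit 142))) (PT.nd (nat_lit 78) (PT.lf (nat_lit 3116) (nat_lit 6) (nat_lit 41) (nat_lit 3) (nat_lit 138) (nat_lit 111) (nat_lit 141)) (PT.nd (nat_lit 78) (PT.lf (nat_lit 3192) (nat_lit 6) (nat_lit 42) (nat_lit 3) (nat_lit 139) (nat_lit 111) (nat_lit 140)) (PT.lf (nat_lit 3192) (nat_lit 6) (nat_lit 42) (nat_lit 1) (nat_lit 140) (nat_lit 111) (nat_lit 139))))) (PT.nd (nat_lit 40404) (PT.nd (nat_lit 78) (PT.lf (nat_lit 3116) (nat_lit 6) (nat_lit 41) (nat_lit 1) (nat_lit 141) (nat_lit 111)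 (nat_lit 138)) (PT.nd (nat_lit 40248) (PT.lf (nat_lit 3040) (nat_lit 6) (nat_lit 40) (nat_lit 1) (nat_lit 142) (nat_lit 111) (nat_lit 137)) (PT.lf (nat_lit 3268) (nat_lit 6) (nat_lit 43) (nat_lit 3) (nat_lit 137) (nat_lit 112) (nat_lit 141)))) (PT.nd (nat_lit 78) (PT.lf (nat_lit 3344) (nat_lit 6) (nat_lit 44) (nat_lit 3) (nat_lit 138) (nat_lit 112) (nat_lit 140)) (PT.nd (nat_lit 78) (PT.lf (nat_lit 3420) (nat_lit 3) (nat_lit 45) (nat_lit 1) (nat_lit 139) (nat_lit 112) (nat_lit 139)) (PT.lf (nat_lit 3344) (nat_lit 6) (nat_lit 44) (nat_lit 1) (nat_lit 140) (nat_lit 112) (nat_lit 138)))))) (PT.nd (nat_lit 40560) (PT.nd (nat_lit 40326) (PT.nd (nat_lit 40248) (PT.lf (nat_lit 3268) (nat_lit 6) (nat_lit 43) (nat_lit 1) (nat_lit 141) (nat_lit 112) (nat_lit 137)) (PT.lf (nat_lit 3496) (nat_lit 6) (nat_lit 46) (nat_lit 3) (nat_lit 136) (nat_lit 113) (nat_lit 141))) (PT.nd (nat_lit 78) (PT.lf (nat_lit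 3572) (nat_lit 6) (nat_lit 47) (nat_lit 3) (nat_lit 137) (nat_lit 113) (nat_lit 140)) (PT.nd (nat_lit 78) (PT.lf (nat_lit 3648) (nat_lit 6) (nat_lit 48) (nat_lit 3) (nat_lit 138) (nat_lit 113) (nat_lit 139)) (PT.lf (nat_lit 3648) (nat_lit 6) (nat_lit 48) (nat_lit 1) (nat_lit 139) (nat_lit 113) (nat_lit 138))))) (PT.nd (nat_lit 40326) (PT.nd (nat_lit 78) (PT.lf (nat_lit 3572) (nat_lit 6) (nat_lit 47) (nat_lit 1) (nat_lit 140) (nat_lit 113) (nat_lit 137)) (PT.nd (nat_lit 40170) (PT.lf (nat_lit 3496) (nat_lit 6) (nat_lit 46) (nat_lit 1) (nat_lit 141) (nat_lit 113) (nat_lit 136)) (PT.lf (nat_lit 3724) (nat_lit 6) (nat_lit 49) (nat_lit 3) (nat_lit 135) (nat_lit 114) (nat_lit 141)))) (PT.nd (nat_lit 78) (PT.lf (nat_lit 3800) (nat_lit 6) (nat_lit 50) (nat_lit 3) (nat_lit 136) (nat_lit 114) (nat_lit 140)) (PT.nd (nat_lit 78) (PT.lf (nat_lit 3876) (nat_lit 6) (nat_lit 51) (nat_lit 3) (nat_lit 137)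 (nat_lit 114) (nat_lit 139)) (PT.lf (nat_lit 3952) (nat_lit 3) (nat_lit 52) (nat_lit 1) (nat_lit 138) (nat_lit 114) (nat_lit 138))))))))
noncomputable def pc2 : PT := (PT.nd (nat_lit 121758) (PT.nd (nat_lit 80886) (PT.nd (nat_lit 40404) (PT.nd (nat_lit 156) (PT.nd (nat_lit 78) (PT.lf (nat_lit 3876) (nat_lit 6) (nat_lit 51) (nat_lit 1) (nat_lit 139) (nat_lit 114) (nat_lit 137)) (PT.lf (nat_lit 3800) (nat_lit 6) (nat_lit 50) (nat_lit 1) (nat_lit 140) (nat_lit 114) (nat_lit 136))) (PT.nd (nat_lit 40092) (PT.lf (nat_lit 3724) (nat_lit 6) (nat_lit 49) (nat_lit 1) (nat_lit 141) (nat_lit 114) (nat_lit 135)) (PT.nd (nat_lit 78) (PT.lf (nat_lit 4028) (nat_lit 6) (nat_lit 53) (nat_lit 3) (nat_lit 134) (nat_lit 115) (nat_lit 141)) (PT.lf (nat_lit 4104) (nat_lit 6) (nat_lit 54) (nat_lit 3) (nat_lit 135) (nat_lit 115) (nat_lit 140))))) (PT.nd (nat_lit 234) (PT.nd (nat_lit 78) (PT.lf (nat_lit 4180) (nat_lit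 6) (nat_lit 55) (nat_lit 3) (nat_lit 136) (nat_lit 115) (nat_lit 139)) (PT.nd (nat_lit 78) (PT.lf (nat_lit 4256) (nat_lit 6) (nat_lit 56) (nat_lit 3) (nat_lit 137) (nat_lit 115) (nat_lit 138)) (PT.lf (nat_lit 4256) (nat_lit 6) (nat_lit 56) (nat_lit 1) (nat_lit 138) (nat_lit 115) (nat_lit 137)))) (PT.nd (nat_lit 78) (PT.lf (nat_lit 4180) (nat_lit 6) (nat_lit 55) (nat_lit 1) (nat_lit 139) (nat_lit 115) (nat_lit 136)) (PT.nd (nat_lit 78) (PT.lf (nat_lit 4104) (nat_lit 6) (nat_lit 54) (nat_lit 1) (nat_lit 140) (nat_lit 115) (nat_lit 135)) (PT.lf (nat_lit 4028) (nat_lit 6) (nat_lit 53) (nat_lit 1) (nat_lit 141) (nat_lit 115) (nat_lit 134)))))) (PT.nd (nat_lit 390) (PT.nd (nat_lit 156) (PT.nd (nat_lit 78) (PT.lf (nat_lit 4332) (nat_lit 6) (nat_lit 57) (nat_lit 3) (nat_lit 134) (nat_lit 116) (nat_lit 140)) (PT.lf (nat_lit 4408) (nat_lit 6) (nat_lit 58) (nat_lit 3) (nat_lit 135) (nat_lit 116) (nat_lit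 139))) (PT.nd (nat_lit 78) (PT.lf (nat_lit 4484) (nat_lit 6) (nat_lit 59) (nat_lit 3) (nat_lit 136) (nat_lit 116) (nat_lit 138)) (PT.nd (nat_lit 78) (PT.lf (nat_lit 4560) (nat_lit 3) (nat_lit 60) (nat_lit 1) (nat_lit 137) (nat_lit 116) (nat_lit 137)) (PT.lf (nat_lit 4484) (nat_lit 6) (nat_lit 59) (nat_lit 1) (nat_lit 138) (nat_lit 116) (nat_lit 136))))) (PT.nd (nat_lit 40248) (PT.nd (nat_lit 78) (PT.lf (nat_lit 4408) (nat_lit 6) (nat_lit 58) (nat_lit 1) (nat_lit 139) (nat_lit 116) (nat_lit 135)) (PT.nd (nat_lit 40092) (PT.lf (nat_lit 4332) (nat_lit 6) (nat_lit 57) (nat_lit 1) (nat_lit 140) (nat_lit 116) (nat_lit 134)) (PT.lf (nat_lit 4636) (nat_lit 6) (nat_lit 61) (nat_lit 3) (nat_lit 133) (nat_lit 117) (nat_lit 140)))) (PT.nd (nat_lit 78) (PT.lf (nat_lit 4712) (nat_lit 6) (nat_lit 62) (nat_lit 3) (nat_lit 134) (nat_lit 117) (nat_lit 139)) (PT.nd (nat_lit 78) (PT.lf (nat_lit 4788) (nat_lit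 6) (nat_lit 63) (nat_lit 3) (nat_lit 135) (nat_lit 117) (nat_lit 138)) (PT.lf (nat_lit 4864) (nat_lit 6) (nat_lit 64) (nat_lit 3) (nat_lit 136) (nat_lit 117) (nat_lit 137))))))) (PT.nd (nat_lit 40794) (PT.nd (nat_lit 40326) (PT.nd (nat_lit 156) (PT.nd (nat_lit 78) (PT.lf (nat_lit 4864) (nat_lit 6) (nat_lit 64) (nat_lit 1) (nat_lit 137) (nat_lit 117) (nat_lit 136)) (PT.lf (nat_lit 4788) (nat_lit 6) (nat_lit 63) (nat_lit 1) (nat_lit 138) (nat_lit 117) (nat_lit 135))) (PT.nd (nat_lit 78) (PT.lf (nat_lit 4712) (nat_lit 6) (nat_lit 62) (nat_lit 1) (nat_lit 139) (nat_lit 117) (nat_lit 134)) (PT.nd (nat_lit 40014) (PT.lf (nat_lit 4636) (nat_lit 6) (nat_lit 61) (nat_lit 1) (nat_lit 140) (nat_lit 117) (nat_lit 133)) (PT.lf (nat_lit 4940) (nat_lit 6) (nat_lit 65) (nat_lit 3) (nat_lit 132) (nat_lit 118) (nat_lit 140))))) (PT.nd (nat_lit 234) (PT.nd (nat_lit 78) (PT.lf (nat_lit 5016) (nat_lit 6) (nat_lit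 66) (nat_lit 3) (nat_lit 133) (nat_lit 118) (nat_lit 139)) (PT.nd (nat_lit 78) (PT.lf (nat_lit 5092) (nat_lit 6) (nat_lit 67) (nat_lit 3) (nat_lit 134) (nat_lit 118) (nat_lit 138)) (PT.lf (nat_lit 5168) (nat_lit 6) (nat_lit 68) (nat_lit 3) (nat_lit 135) (nat_lit 118) (nat_lit 137)))) (PT.nd (nat_lit 78) (PT.lf (nat_lit 5244) (nat_lit 3) (nat_lit 69) (nat_lit 1) (nat_lit 136) (nat_lit 118) (nat_lit 136)) (PT.nd (nat_lit 78) (PT.lf (nat_lit 5168) (nat_lit 6) (nat_lit 68) (nat_lit 1) (nat_lit 137) (nat_lit 118) (nat_lit 135)) (PT.lf (nat_lit 5092) (nat_lit 6) (nat_lit 67) (nat_lit 1) (nat_lit 138) (nat_lit 118) (nat_lit 134)))))) (PT.nd (nat_lit 40248) (PT.nd (nat_lit 40014) (PT.nd (nat_lit 78) (PT.lf (nat_lit 5016) (nat_lit 6) (nat_lit 66) (nat_lit 1) (nat_lit 139) (nat_lit 118) (nat_lit 133)) (PT.lf (nat_lit 4940) (nat_lit 6) (nat_lit 65) (nat_lit 1) (nat_lit 140) (nat_lit 118) (nat_lit 132)))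 (PT.nd (nat_lit 78) (PT.lf (nat_lit 5320) (nat_lit 6) (nat_lit 70) (nat_lit 3) (nat_lit 131) (nat_lit 119) (nat_lit 140)) (PT.nd (nat_lit 78) (PT.lf (nat_lit 5396) (nat_lit 6) (nat_lit 71) (nat_lit 3) (nat_lit 132) (nat_lit 119) (nat_lit 139)) (PT.lf (nat_lit 5472) (nat_lit 6) (nat_lit 72) (nat_lit 3) (nat_lit 133) (nat_lit 119) (nat_lit 138))))) (PT.nd (nat_lit 234) (PT.nd (nat_lit 78) (PT.lf (nat_lit 5548) (nat_lit 6) (nat_lit 73) (nat_lit 3) (nat_lit 134) (nat_lit 119) (nat_lit 137)) (PT.nd (nat_lit 78) (PT.lf (nat_lit 5624) (nat_lit 6) (nat_lit 74) (nat_lit 3) (nat_lit 135) (nat_lit 119) (nat_lit 136)) (PT.lf (nat_lit 5624) (nat_lit 6) (nat_lit 74) (nat_lit 1) (nat_lit 136) (nat_lit 119) (nat_lit 135)))) (PT.nd (nat_lit 78) (PT.lf (nat_lit 5548) (nat_lit 6) (nat_lit 73) (nat_lit 1) (nat_lit 137) (nat_lit 119) (nat_lit 134)) (PT.nd (nat_lit 78) (PT.lf (nat_lit 5472) (nat_lit 6) (nat_lit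 72) (nat_lit 1) (nat_lit 138) (nat_lit 119) (nat_lit 133)) (PT.lf (nat_lit 5396) (nat_lit 6) (nat_lit 71) (nat_lit 1) (nat_lit 139) (nat_lit 119) (nat_lit 132))))))))
noncomputable def pc3 : PT := (PT.nd (nat_lit 121056) (PT.nd (nat_lit 40638) (PT.nd (nat_lit 40170) (PT.nd (nat_lit 39936) (PT.nd (nat_lit 39858) (PT.lf (nat_lit 5320) (nat_lit 6) (nat_lit 70) (nat_lit 1) (nat_lit 140) (nat_lit 119) (nat_lit 131)) (PT.lf (nat_lit 5700) (nat_lit 6) (nat_lit 75) (nat_lit 3) (nat_lit 130) (nat_lit 120) (nat_lit 140))) (PT.nd (nat_lit 78) (PT.lf (nat_lit 5776) (nat_lit 6) (nat_lit 76) (nat_lit 3) (nat_lit 131) (nat_lit 120) (nat_lit 139)) (PT.nd (nat_lit 78) (PT.lf (nat_lit 5852) (nat_lit 6) (nat_lit 77) (nat_lit 3) (nat_lit 132) (nat_lit 120) (nat_lit 138)) (PT.lf (nat_lit 5928) (nat_lit 6) (nat_lit 78) (nat_lit 3) (nat_lit 133) (nat_lit 120) (nat_lit 137))))) (PT.nd (nat_lit 234) (PT.nd (nat_lit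 78) (PT.lf (nat_lit 6004) (nat_lit 6) (nat_lit 79) (nat_lit 3) (nat_lit 134) (nat_lit 120) (nat_lit 136)) (PT.nd (nat_lit 78) (PT.lf (nat_lit 6080) (nat_lit 3) (nat_lit 80) (nat_lit 1) (nat_lit 135) (nat_lit 120) (nat_lit 135)) (PT.lf (nat_lit 6004) (nat_lit 6) (nat_lit 79) (nat_lit 1) (nat_lit 136) (nat_lit 120) (nat_lit 134)))) (PT.nd (nat_lit 78) (PT.lf (nat_lit 5928) (nat_lit 6) (nat_lit 78) (nat_lit 1) (nat_lit 137) (nat_lit 120) (nat_lit 133)) (PT.nd (nat_lit 78) (PT.lf (nat_lit 5852) (nat_lit 6) (nat_lit 77) (nat_lit 1) (nat_lit 138) (nat_lit 120) (nat_lit 132)) (PT.lf (nat_lit 5776) (nat_lit 6) (nat_lit 76) (nat_lit 1) (nat_lit 139) (nat_lit 120) (nat_lit 131)))))) (PT.nd (nat_lit 40170) (PT.nd (nat_lit 39936) (PT.nd (nat_lit 39858) (PT.lf (nat_lit 5700) (nat_lit 6) (nat_lit 75) (nat_lit 1) (nat_lit 140) (nat_lit 120) (nat_lit 130)) (PT.lf (nat_lit 6460) (nat_lit 6) (nat_lit 85)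 (nat_lit 3) (nat_lit 130) (nat_lit 121) (nat_lit 139))) (PT.nd (nat_lit 78) (PT.lf (nat_lit 6536) (nat_lit 6) (nat_lit 86) (nat_lit 3) (nat_lit 131) (nat_lit 121) (nat_lit 138)) (PT.nd (nat_lit 78) (PT.lf (nat_lit 6612) (nat_lit 6) (nat_lit 87) (nat_lit 3) (nat_lit 132) (nat_lit 121) (nat_lit 137)) (PT.lf (nat_lit 6688) (nat_lit 6) (nat_lit 88) (nat_lit 3) (nat_lit 133) (nat_lit 121) (nat_lit 136))))) (PT.nd (nat_lit 234) (PT.nd (nat_lit 78) (PT.lf (nat_lit 6764) (nat_lit 6) (nat_lit 89) (nat_lit 3) (nat_lit 134) (nat_lit 121) (nat_lit 135)) (PT.nd (nat_lit 78) (PT.lf (nat_lit 6764) (nat_lit 6) (nat_lit 89) (nat_lit 1) (nat_lit 135) (nat_lit 121) (nat_lit 134)) (PT.lf (nat_lit 6688) (nat_lit 6) (nat_lit 88) (nat_lit 1) (nat_lit 136) (nat_lit 121) (nat_lit 133)))) (PT.nd (nat_lit 78) (PT.lf (nat_lit 6612) (nat_lit 6) (nat_lit 87) (nat_lit 1) (nat_lit 137) (nat_lit 121) (nat_lit 132)) (PT.nd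 (nat_lit 78) (PT.lf (nat_lit 6536) (nat_lit 6) (nat_lit 86) (nat_lit 1) (nat_lit 138) (nat_lit 121) (nat_lit 131)) (PT.lf (nat_lit 6460) (nat_lit 6) (nat_lit 85) (nat_lit 1) (nat_lit 139) (nat_lit 121) (nat_lit 130))))))) (PT.nd (nat_lit 40560) (PT.nd (nat_lit 390) (PT.nd (nat_lit 156) (PT.nd (nat_lit 78) (PT.lf (nat_lit 6384) (nat_lit 6) (nat_lit 84) (nat_lit 3) (nat_lit 129) (nat_lit 122) (nat_lit 139)) (PT.lf (nat_lit 7144) (nat_lit 6) (nat_lit 94) (nat_lit 3) (nat_lit 130) (nat_lit 122) (nat_lit 138))) (PT.nd (nat_lit 78) (PT.lf (nat_lit 7220) (nat_lit 6) (nat_lit 95) (nat_lit 3) (nat_lit 131) (nat_lit 122) (nat_lit 137)) (PT.nd (nat_lit 78) (PT.lf (nat_lit 7296) (nat_lit 6) (nat_lit 96) (nat_lit 3) (nat_lit 132) (nat_lit 122) (nat_lit 136)) (PT.lf (nat_lit 7372) (nat_lit 6) (nat_lit 97) (nat_lit 3) (nat_lit 133) (nat_lit 122) (nat_lit 135))))) (PT.nd (nat_lit 234) (PT.nd (nat_lit 78)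 (PT.lf (nat_lit 7448) (nat_lit 3) (nat_lit 98) (nat_lit 1) (nat_lit 134) (nat_lit 122) (nat_lit 134)) (PT.nd (nat_lit 78) (PT.lf (nat_lit 7372) (nat_lit 6) (nat_lit 97) (nat_lit 1) (nat_lit 135) (nat_lit 122) (nat_lit 133)) (PT.lf (nat_lit 7296) (nat_lit 6) (nat_lit 96) (nat_lit 1) (nat_lit 136) (nat_lit 122) (nat_lit 132)))) (PT.nd (nat_lit 78) (PT.lf (nat_lit 7220) (nat_lit 6) (nat_lit 95) (nat_lit 1) (nat_lit 137) (nat_lit 122) (nat_lit 131)) (PT.nd (nat_lit 78) (PT.lf (nat_lit 7144) (nat_lit 6) (nat_lit 94) (nat_lit 1) (nat_lit 138) (nat_lit 122) (nat_lit 130)) (PT.lf (nat_lit 6384) (nat_lit 6) (nat_lit 84) (nat_lit 1) (nat_lit 139) (nat_lit 122) (nat_lit 129)))))) (PT.nd (nat_lit 390) (PT.nd (nat_lit 156) (PT.nd (nat_lit 78) (PT.lf (nat_lit 6308) (nat_lit 6) (nat_lit 83) (nat_lit 3) (nat_lit 128) (nat_lit 123) (nat_lit 139)) (PT.lf (nat_lit 7068) (nat_lit 6) (nat_lit 93) (nat_lit 3)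 (nat_lit 129) (nat_lit 123) (nat_lit 138))) (PT.nd (nat_lit 78) (PT.lf (nat_lit 7752) (nat_lit 6) (nat_lit 102) (nat_lit 3) (nat_lit 130) (nat_lit 123) (nat_lit 137)) (PT.nd (nat_lit 78) (PT.lf (nat_lit 7828) (nat_lit 6) (nat_lit 103) (nat_lit 3) (nat_lit 131) (nat_lit 123) (nat_lit 136)) (PT.lf (nat_lit 7904) (nat_lit 6) (nat_lit 104) (nat_lit 3) (nat_lit 132) (nat_lit 123) (nat_lit 135))))) (PT.nd (nat_lit 234) (PT.nd (nat_lit 78) (PT.lf (nat_lit 7980) (nat_lit 6) (nat_lit 105) (nat_lit 3) (nat_lit 133) (nat_lit 123) (nat_lit 134)) (PT.nd (nat_lit 78) (PT.lf (nat_lit 7980) (nat_lit 6) (nat_lit 105) (nat_lit 1) (nat_lit 134) (nat_lit 123) (nat_lit 133)) (PT.lf (nat_lit 7904) (nat_lit 6) (nat_lit 104) (nat_lit 1) (nat_lit 135) (nat_lit 123) (nat_lit 132)))) (PT.nd (nat_lit 78) (PT.lf (nat_lit 7828) (nat_lit 6) (nat_lit 103) (nat_lit 1) (nat_lit 136) (nat_lit 123) (nat_lit 131)) (PT.nd (nat_lit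 78) (PT.lf (nat_lit 7752) (nat_lit 6) (nat_lit 102) (nat_lit 1) (nat_lit 137) (nat_lit 123) (nat_lit 130)) (PT.lf (nat_lit 7068) (nat_lit 6) (nat_lit 93) (nat_lit 1) (nat_lit 138) (nat_lit 123) (nat_lit 129))))))))
noncomputable def pc4 : PT := (PT.nd (nat_lit 80808) (PT.nd (nat_lit 40404) (PT.nd (nat_lit 40014) (PT.nd (nat_lit 39780) (PT.nd (nat_lit 39702) (PT.lf (nat_lit 6308) (nat_lit 6) (nat_lit 83) (nat_lit 1) (nat_lit 139) (nat_lit 123) (nat_lit 128)) (PT.lf (nat_lit 6232) (nat_lit 6) (nat_lit 82) (nat_lit 3) (nat_lit 127) (nat_lit 124) (nat_lit 139))) (PT.nd (nat_lit 78) (PT.lf (nat_lit 6992) (nat_lit 6) (nat_lit 92) (nat_lit 3) (nat_lit 128) (nat_lit 124) (nat_lit 138)) (PT.nd (nat_lit 78) (PT.lf (nat_lit 7676) (nat_lit 6) (nat_lit 101) (nat_lit 3) (nat_lit 129) (nat_lit 124) (nat_lit 137)) (PT.lf (nat_lit 8284) (nat_lit 6) (nat_lit 109) (nat_lit 3) (nat_lit 130) (nat_lit 124) (nat_lit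 136))))) (PT.nd (nat_lit 156) (PT.nd (nat_lit 78) (PT.lf (nat_lit 8360) (nat_lit 6) (nat_lit 110) (nat_lit 3) (nat_lit 131) (nat_lit 124) (nat_lit 135)) (PT.lf (nat_lit 8436) (nat_lit 6) (nat_lit 111) (nat_lit 3) (nat_lit 132) (nat_lit 124) (nat_lit 134))) (PT.nd (nat_lit 78) (PT.lf (nat_lit 8512) (nat_lit 3) (nat_lit 112) (nat_lit 1) (nat_lit 133) (nat_lit 124) (nat_lit 133)) (PT.nd (nat_lit 78) (PT.lf (nat_lit 8436) (nat_lit 6) (nat_lit 111) (nat_lit 1) (nat_lit 134) (nat_lit 124) (nat_lit 132)) (PT.lf (nat_lit 8360) (nat_lit 6) (nat_lit 110) (nat_lit 1) (nat_lit 135) (nat_lit 124) (nat_lit 131)))))) (PT.nd (nat_lit 39936) (PT.nd (nat_lit 156) (PT.nd (nat_lit 78) (PT.lf (nat_lit 8284) (nat_lit 6) (nat_lit 109) (nat_lit 1) (nat_lit 136) (nat_lit 124) (nat_lit 130)) (PT.lf (nat_lit 7676) (nat_lit 6) (nat_lit 101) (nat_lit 1) (nat_lit 137) (nat_lit 124) (nat_lit 129))) (PT.nd (nat_lit 78)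 (PT.lf (nat_lit 6992) (nat_lit 6) (nat_lit 92) (nat_lit 1) (nat_lit 138) (nat_lit 124) (nat_lit 128)) (PT.nd (nat_lit 39624) (PT.lf (nat_lit 6232) (nat_lit 6) (nat_lit 82) (nat_lit 1) (nat_lit 139) (nat_lit 124) (nat_lit 127)) (PT.lf (nat_lit 6156) (nat_lit 6) (nat_lit 81) (nat_lit 3) (nat_lit 126) (nat_lit 125) (nat_lit 139))))) (PT.nd (nat_lit 234) (PT.nd (nat_lit 78) (PT.lf (nat_lit 6916) (nat_lit 6) (nat_lit 91) (nat_lit 3) (nat_lit 127) (nat_lit 125) (nat_lit 138)) (PT.nd (nat_lit 78) (PT.lf (nat_lit 7600) (nat_lit 6) (nat_lit 100) (nat_lit 3) (nat_lit 128) (nat_lit 125) (nat_lit 137)) (PT.lf (nat_lit 8208) (nat_lit 6) (nat_lit 108) (nat_lit 3) (nat_lit 129) (nat_lit 125) (nat_lit 136)))) (PT.nd (nat_lit 78) (PT.lf (nat_lit 8740) (nat_lit 6) (nat_lit 115) (nat_lit 3) (nat_lit 130) (nat_lit 125) (nat_lit 135)) (PT.nd (nat_lit 78) (PT.lf (nat_lit 8816) (nat_lit 6) (nat_lit 116) (nat_lit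 3) (nat_lit 131) (nat_lit 125) (nat_lit 134)) (PT.lf (nat_lit 8892) (nat_lit 6) (nat_lit 117) (nat_lit 3) (nat_lit 132) (nat_lit 125) (nat_lit 133))))))) (PT.nd (nat_lit 40326) (PT.nd (nat_lit 390) (PT.nd (nat_lit 156) (PT.nd (nat_lit 78) (PT.lf (nat_lit 8892) (nat_lit 6) (nat_lit 117) (nat_lit 1) (nat_lit 133) (nat_lit 125) (nat_lit 132)) (PT.lf (nat_lit 8816) (nat_lit 6) (nat_lit 116) (nat_lit 1) (nat_lit 134) (nat_lit 125) (nat_lit 131))) (PT.nd (nat_lit 78) (PT.lf (nat_lit 8740) (nat_lit 6) (nat_lit 115) (nat_lit 1) (nat_lit 135) (nat_lit 125) (nat_lit 130)) (PT.nd (nat_lit 78) (PT.lf (nat_lit 8208) (nat_lit 6) (nat_lit 108) (nat_lit 1) (nat_lit 136) (nat_lit 125) (nat_lit 129)) (PT.lf (nat_lit 7600) (nat_lit 6) (nat_lit 100) (nat_lit 1) (nat_lit 137) (nat_lit 125) (nat_lit 128))))) (PT.nd (nat_lit 39702) (PT.nd (nat_lit 78) (PT.lf (nat_lit 6916) (nat_lit 6) (nat_lit 91) (nat_lit 1)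 (nat_lit 138) (nat_lit 125) (nat_lit 127)) (PT.nd (nat_lit 39546) (PT.lf (nat_lit 6156) (nat_lit 6) (nat_lit 81) (nat_lit 1) (nat_lit 139) (nat_lit 125) (nat_lit 126)) (PT.lf (nat_lit 6156) (nat_lit 6) (nat_lit 81) (nat_lit 5) (nat_lit 125) (nat_lit 126) (nat_lit 139)))) (PT.nd (nat_lit 78) (PT.lf (nat_lit 6840) (nat_lit 3) (nat_lit 90) (nat_lit 3) (nat_lit 126) (nat_lit 126) (nat_lit 138)) (PT.nd (nat_lit 78) (PT.lf (nat_lit 7524) (nat_lit 6) (nat_lit 99) (nat_lit 3) (nat_lit 127) (nat_lit 126) (nat_lit 137)) (PT.lf (nat_lit 8132) (nat_lit 6) (nat_lit 107) (nat_lit 3) (nat_lit 128) (nat_lit 126) (nat_lit 136)))))) (PT.nd (nat_lit 390) (PT.nd (nat_lit 156) (PT.nd (nat_lit 78) (PT.lf (nat_lit 8664) (nat_lit 6) (nat_lit 114) (nat_lit 3) (nat_lit 129) (nat_lit 126) (nat_lit 135)) (PT.lf (nat_lit 9120) (nat_lit 6) (nat_lit 120) (nat_lit 3) (nat_lit 130) (nat_lit 126) (nat_lit 134))) (PT.nd (nat_lit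 78) (PT.lf (nat_lit 9196) (nat_lit 6) (nat_lit 121) (nat_lit 3) (nat_lit 131) (nat_lit 126) (nat_lit 133)) (PT.nd (nat_lit 78) (PT.lf (nat_lit 9272) (nat_lit 3) (nat_lit 122) (nat_lit 1) (nat_lit 132) (nat_lit 126) (nat_lit 132)) (PT.lf (nat_lit 9196) (nat_lit 6) (nat_lit 121) (nat_lit 1) (nat_lit 133) (nat_lit 126) (nat_lit 131))))) (PT.nd (nat_lit 234) (PT.nd (nat_lit 78) (PT.lf (nat_lit 9120) (nat_lit 6) (nat_lit 120) (nat_lit 1) (nat_lit 134) (nat_lit 126) (nat_lit 130)) (PT.nd (nat_lit 78) (PT.lf (nat_lit 8664) (nat_lit 6) (nat_lit 114) (nat_lit 1) (nat_lit 135) (nat_lit 126) (nat_lit 129)) (PT.lf (nat_lit 8132) (nat_lit 6) (nat_lit 107) (nat_lit 1) (nat_lit 136) (nat_lit 126) (nat_lit 128)))) (PT.nd (nat_lit 78) (PT.lf (nat_lit 7524) (nat_lit 6) (nat_lit 99) (nat_lit 1) (nat_lit 137) (nat_lit 126) (nat_lit 127)) (PT.nd (nat_lit 78) (PT.lf (nat_lit 6840) (nat_lit 3) (nat_lit 90) (nat_lit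 0) (nat_lit 138) (nat_lit 126) (nat_lit 126)) (PT.lf (nat_lit 6156) (nat_lit 6) (nat_lit 81) (nat_lit 0) (nat_lit 139) (nat_lit 126) (nat_lit 125))))))))
noncomputable def pc5 : PT := (PT.nd (nat_lit 41028) (PT.nd (nat_lit 858) (PT.nd (nat_lit 390) (PT.nd (nat_lit 156) (PT.nd (nat_lit 78) (PT.lf (nat_lit 6232) (nat_lit 6) (nat_lit 82) (nat_lit 5) (nat_lit 124) (nat_lit 127) (nat_lit 139)) (PT.lf (nat_lit 6916) (nat_lit 6) (nat_lit 91) (nat_lit 5) (nat_lit 125) (nat_lit 127) (nat_lit 138))) (PT.nd (nat_lit 78) (PT.lf (nat_lit 7524) (nat_lit 6) (nat_lit 99) (nat_lit 5) (nat_lit 126) (nat_lit 127) (nat_lit 137)) (PT.nd (nat_lit 78) (PT.lf (nat_lit 8056) (nat_lit 3) (nat_lit 106) (nat_lit 3) (nat_lit 127) (nat_lit 127) (nat_lit 136)) (PT.lf (nat_lit 8588) (nat_lit 6) (nat_lit 113) (nat_lit 3) (nat_lit 128) (nat_lit 127) (nat_lit 135))))) (PT.nd (nat_lit 234) (PT.nd (nat_lit 78) (PT.lf (nat_lit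 9044) (nat_lit 6) (nat_lit 119) (nat_lit 3) (nat_lit 129) (nat_lit 127) (nat_lit 134)) (PT.nd (nat_lit 78) (PT.lf (nat_lit 9424) (nat_lit 6) (nat_lit 124) (nat_lit 3) (nat_lit 130) (nat_lit 127) (nat_lit 133)) (PT.lf (nat_lit 9500) (nat_lit 6) (nat_lit 125) (nat_lit 3) (nat_lit 131) (nat_lit 127) (nat_lit 132)))) (PT.nd (nat_lit 78) (PT.lf (nat_lit 9500) (nat_lit 6) (nat_lit 125) (nat_lit 1) (nat_lit 132) (nat_lit 127) (nat_lit 131)) (PT.nd (nat_lit 78) (PT.lf (nat_lit 9424) (nat_lit 6) (nat_lit 124) (nat_lit 1) (nat_lit 133) (nat_lit 127) (nat_lit 130)) (PT.lf (nat_lit 9044) (nat_lit 6) (nat_lit 119) (nat_lit 1) (nat_lit 134) (nat_lit 127) (nat_lit 129)))))) (PT.nd (nat_lit 39702) (PT.nd (nat_lit 156) (PT.nd (nat_lit 78) (PT.lf (nat_lit 8588) (nat_lit 6) (nat_lit 113) (nat_lit 1) (nat_lit 135) (nat_lit 127) (nat_lit 128)) (PT.lf (nat_lit 8056) (nat_lit 3) (nat_lit 106) (nat_lit 0) (nat_lit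 136) (nat_lit 127) (nat_lit 127))) (PT.nd (nat_lit 78) (PT.lf (nat_lit 7524) (nat_lit 6) (nat_lit 99) (nat_lit 0) (nat_lit 137) (nat_lit 127) (nat_lit 126)) (PT.nd (nat_lit 78) (PT.lf (nat_lit 6916) (nat_lit 6) (nat_lit 91) (nat_lit 0) (nat_lit 138) (nat_lit 127) (nat_lit 125)) (PT.lf (nat_lit 6232) (nat_lit 6) (nat_lit 82) (nat_lit 0) (nat_lit 139) (nat_lit 127) (nat_lit 124))))) (PT.nd (nat_lit 234) (PT.nd (nat_lit 78) (PT.lf (nat_lit 6308) (nat_lit 6) (nat_lit 83) (nat_lit 5) (nat_lit 123) (nat_lit 128) (nat_lit 139)) (PT.nd (nat_lit 78) (PT.lf (nat_lit 6992) (nat_lit 6) (nat_lit 92) (nat_lit 5) (nat_lit 124) (nat_lit 128) (nat_lit 138)) (PT.lf (nat_lit 7600) (nat_lit 6) (nat_lit 100) (nat_lit 5) (nat_lit 125) (nat_lit 128) (nat_lit 137)))) (PT.nd (nat_lit 78) (PT.lf (nat_lit 8132) (nat_lit 6) (nat_lit 107) (nat_lit 5) (nat_lit 126) (nat_lit 128) (nat_lit 136)) (PT.nd (nat_lit 78) (PT.lf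 (nat_lit 8588) (nat_lit 6) (nat_lit 113) (nat_lit 5) (nat_lit 127) (nat_lit 128) (nat_lit 135)) (PT.lf (nat_lit 8968) (nat_lit 3) (nat_lit 118) (nat_lit 3) (nat_lit 128) (nat_lit 128) (nat_lit 134))))))) (PT.nd (nat_lit 40092) (PT.nd (nat_lit 390) (PT.nd (nat_lit 156) (PT.nd (nat_lit 78) (PT.lf (nat_lit 9348) (nat_lit 6) (nat_lit 123) (nat_lit 3) (nat_lit 129) (nat_lit 128) (nat_lit 133)) (PT.lf (nat_lit 9652) (nat_lit 6) (nat_lit 127) (nat_lit 3) (nat_lit 130) (nat_lit 128) (nat_lit 132))) (PT.nd (nat_lit 78) (PT.lf (nat_lit 9728) (nat_lit 3) (nat_lit 128) (nat_lit 1) (nat_lit 131) (nat_lit 128) (nat_lit 131)) (PT.nd (nat_lit 78) (PT.lf (nat_lit 9652) (nat_lit 6) (nat_lit 127) (nat_lit 1) (nat_lit 132) (nat_lit 128) (nat_lit 130)) (PT.lf (nat_lit 9348) (nat_lit 6) (nat_lit 123) (nat_lit 1) (nat_lit 133) (nat_lit 128) (nat_lit 129))))) (PT.nd (nat_lit 234) (PT.nd (nat_lit 78) (PT.lf (nat_lit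 8968) (nat_lit 3) (nat_lit 118) (nat_lit 0) (nat_lit 134) (nat_lit 128) (nat_lit 128)) (PT.nd (nat_lit 78) (PT.lf (nat_lit 8588) (nat_lit 6) (nat_lit 113) (nat_lit 0) (nat_lit 135) (nat_lit 128) (nat_lit 127)) (PT.lf (nat_lit 8132) (nat_lit 6) (nat_lit 107) (nat_lit 0) (nat_lit 136) (nat_lit 128) (nat_lit 126)))) (PT.nd (nat_lit 78) (PT.lf (nat_lit 7600) (nat_lit 6) (nat_lit 100) (nat_lit 0) (nat_lit 137) (nat_lit 128) (nat_lit 125)) (PT.nd (nat_lit 78) (PT.lf (nat_lit 6992) (nat_lit 6) (nat_lit 92) (nat_lit 0) (nat_lit 138) (nat_lit 128) (nat_lit 124)) (PT.lf (nat_lit 6308) (nat_lit 6) (nat_lit 83) (nat_lit 0) (nat_lit 139) (nat_lit 128) (nat_lit 123)))))) (PT.nd (nat_lit 390) (PT.nd (nat_lit 156) (PT.nd (nat_lit 78) (PT.lf (nat_lit 6384) (nat_lit 6) (nat_lit 84) (nat_lit 5) (nat_lit 122) (nat_lit 129) (nat_lit 139)) (PT.lf (nat_lit 7068) (nat_lit 6) (nat_lit 93) (nat_lit 5) (nat_lit 123)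 (nat_lit 129) (nat_lit 138))) (PT.nd (nat_lit 78) (PT.lf (nat_lit 7676) (nat_lit 6) (nat_lit 101) (nat_lit 5) (nat_lit 124) (nat_lit 129) (nat_lit 137)) (PT.nd (nat_lit 78) (PT.lf (nat_lit 8208) (nat_lit 6) (nat_lit 108) (nat_lit 5) (nat_lit 125) (nat_lit 129) (nat_lit 136)) (PT.lf (nat_lit 8664) (nat_lit 6) (nat_lit 114) (nat_lit 5) (nat_lit 126) (nat_lit 129) (nat_lit 135))))) (PT.nd (nat_lit 234) (PT.nd (nat_lit 78) (PT.lf (nat_lit 9044) (nat_lit 6) (nat_lit 119) (nat_lit 5) (nat_lit 127) (nat_lit 129) (nat_lit 134)) (PT.nd (nat_lit 78) (PT.lf (nat_lit 9348) (nat_lit 6) (nat_lit 123) (nat_lit 5) (nat_lit 128) (nat_lit 129) (nat_lit 133)) (PT.lf (nat_lit 9576) (nat_lit 3) (nat_lit 126) (nat_lit 3) (nat_lit 129) (nat_lit 129) (nat_lit 132)))) (PT.nd (nat_lit 78) (PT.lf (nat_lit 9804) (nat_lit 6) (nat_lit 129) (nat_lit 3) (nat_lit 130) (nat_lit 129) (nat_lit 131)) (PT.nd (nat_lit 78) (PT.lf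 (nat_lit 9804) (nat_lit 6) (nat_lit 129) (nat_lit 1) (nat_lit 131) (nat_lit 129) (nat_lit 130)) (PT.lf (nat_lit 9576) (nat_lit 3) (nat_lit 126) (nat_lit 0) (nat_lit 132) (nat_lit 129) (nat_lit 129))))))))
noncomputable def pc6 : PT := (PT.nd (nat_lit 40794) (PT.nd (nat_lit 39936) (PT.nd (nat_lit 390) (PT.nd (nat_lit 156) (PT.nd (nat_lit 78) (PT.lf (nat_lit 9348) (nat_lit 6) (nat_lit 123) (nat_lit 0) (nat_lit 133) (nat_lit 129) (nat_lit 128)) (PT.lf (nat_lit 9044) (nat_lit 6) (nat_lit 119) (nat_lit 0) (nat_lit 134) (nat_lit 129) (nat_lit 127))) (PT.nd (nat_lit 78) (PT.lf (nat_lit 8664) (nat_lit 6) (nat_lit 114) (nat_lit 0) (nat_lit 135) (nat_lit 129) (nat_lit 126)) (PT.nd (nat_lit 78) (PT.lf (nat_lit 8208) (nat_lit 6) (nat_lit 108) (nat_lit 0) (nat_lit 136) (nat_lit 129) (nat_lit 125)) (PT.lf (nat_lit 7676) (nat_lit 6) (nat_lit 101) (nat_lit 0) (nat_lit 137) (nat_lit 129) (nat_lit 124)))))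 (PT.nd (nat_lit 39312) (PT.nd (nat_lit 78) (PT.lf (nat_lit 7068) (nat_lit 6) (nat_lit 93) (nat_lit 0) (nat_lit 138) (nat_lit 129) (nat_lit 123)) (PT.nd (nat_lit 39156) (PT.lf (nat_lit 6384) (nat_lit 6) (nat_lit 84) (nat_lit 0) (nat_lit 139) (nat_lit 129) (nat_lit 122)) (PT.lf (nat_lit 5700) (nat_lit 6) (nat_lit 75) (nat_lit 5) (nat_lit 120) (nat_lit 130) (nat_lit 140)))) (PT.nd (nat_lit 78) (PT.lf (nat_lit 6460) (nat_lit 6) (nat_lit 85) (nat_lit 5) (nat_lit 121) (nat_lit 130) (nat_lit 139)) (PT.nd (nat_lit 78) (PT.lf (nat_lit 7144) (nat_lit 6) (nat_lit 94) (nat_lit 5) (nat_lit 122) (nat_lit 130) (nat_lit 138)) (PT.lf (nat_lit 7752) (nat_lit 6) (nat_lit 102) (nat_lit 5) (nat_lit 123) (nat_lit 130) (nat_lit 137)))))) (PT.nd (nat_lit 390) (PT.nd (nat_lit 156) (PT.nd (nat_lit 78) (PT.lf (nat_lit 8284) (nat_lit 6) (nat_lit 109) (nat_lit 5) (nat_lit 124) (nat_lit 130) (nat_lit 136)) (PT.lf (nat_lit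 8740) (nat_lit 6) (nat_lit 115) (nat_lit 5) (nat_lit 125) (nat_lit 130) (nat_lit 135))) (PT.nd (nat_lit 78) (PT.lf (nat_lit 9120) (nat_lit 6) (nat_lit 120) (nat_lit 5) (nat_lit 126) (nat_lit 130) (nat_lit 134)) (PT.nd (nat_lit 78) (PT.lf (nat_lit 9424) (nat_lit 6) (nat_lit 124) (nat_lit 5) (nat_lit 127) (nat_lit 130) (nat_lit 133)) (PT.lf (nat_lit 9652) (nat_lit 6) (nat_lit 127) (nat_lit 5) (nat_lit 128) (nat_lit 130) (nat_lit 132))))) (PT.nd (nat_lit 234) (PT.nd (nat_lit 78) (PT.lf (nat_lit 9804) (nat_lit 6) (nat_lit 129) (nat_lit 5) (nat_lit 129) (nat_lit 130) (nat_lit 131)) (PT.nd (nat_lit 78) (PT.lf (nat_lit 9880) (nat_lit 1) (nat_lit 130) (nat_lit 0) (nat_lit 130) (nat_lit 130) (nat_lit 130)) (PT.lf (nat_lit 9804) (nat_lit 6) (nat_lit 129) (nat_lit 0) (nat_lit 131) (nat_lit 130) (nat_lit 129)))) (PT.nd (nat_lit 78) (PT.lf (nat_lit 9652) (nat_lit 6) (nat_lit 127) (nat_lit 0) (nat_lit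 132) (nat_lit 130) (nat_lit 128)) (PT.nd (nat_lit 78) (PT.lf (nat_lit 9424) (nat_lit 6) (nat_lit 124) (nat_lit 0) (nat_lit 133) (nat_lit 130) (nat_lit 127)) (PT.lf (nat_lit 9120) (nat_lit 6) (nat_lit 120) (nat_lit 0) (nat_lit 134) (nat_lit 130) (nat_lit 126))))))) (PT.nd (nat_lit 39780) (PT.nd (nat_lit 390) (PT.nd (nat_lit 156) (PT.nd (nat_lit 78) (PT.lf (nat_lit 8740) (nat_lit 6) (nat_lit 115) (nat_lit 0) (nat_lit 135) (nat_lit 130) (nat_lit 125)) (PT.lf (nat_lit 8284) (nat_lit 6) (nat_lit 109) (nat_lit 0) (nat_lit 136) (nat_lit 130) (nat_lit 124))) (PT.nd (nat_lit 78) (PT.lf (nat_lit 7752) (nat_lit 6) (nat_lit 102) (nat_lit 0) (nat_lit 137) (nat_lit 130) (nat_lit 123)) (PT.nd (nat_lit 78) (PT.lf (nat_lit 7144) (nat_lit 6) (nat_lit 94) (nat_lit 0) (nat_lit 138) (nat_lit 130) (nat_lit 122)) (PT.lf (nat_lit 6460) (nat_lit 6) (nat_lit 85) (nat_lit 0) (nat_lit 139) (nat_lit 130) (nat_lit 121)))))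 (PT.nd (nat_lit 39156) (PT.nd (nat_lit 39000) (PT.lf (nat_lit 5700) (nat_lit 6) (nat_lit 75) (nat_lit 0) (nat_lit 140) (nat_lit 130) (nat_lit 120)) (PT.nd (nat_lit 78) (PT.lf (nat_lit 5320) (nat_lit 6) (nat_lit 70) (nat_lit 5) (nat_lit 119) (nat_lit 131) (nat_lit 140)) (PT.lf (nat_lit 5776) (nat_lit 6) (nat_lit 76) (nat_lit 5) (nat_lit 120) (nat_lit 131) (nat_lit 139)))) (PT.nd (nat_lit 78) (PT.lf (nat_lit 6536) (nat_lit 6) (nat_lit 86) (nat_lit 5) (nat_lit 121) (nat_lit 131) (nat_lit 138)) (PT.nd (nat_lit 78) (PT.lf (nat_lit 7220) (nat_lit 6) (nat_lit 95) (nat_lit 5) (nat_lit 122) (nat_lit 131) (nat_lit 137)) (PT.lf (nat_lit 7828) (nat_lit 6) (nat_lit 103) (nat_lit 5) (nat_lit 123) (nat_lit 131) (nat_lit 136)))))) (PT.nd (nat_lit 390) (PT.nd (nat_lit 156) (PT.nd (nat_lit 78) (PT.lf (nat_lit 8360) (nat_lit 6) (nat_lit 110) (nat_lit 5) (nat_lit 124) (nat_lit 131) (nat_lit 135)) (PT.lf (nat_lit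 8816) (nat_lit 6) (nat_lit 116) (nat_lit 5) (nat_lit 125) (nat_lit 131) (nat_lit 134))) (PT.nd (nat_lit 78) (PT.lf (nat_lit 9196) (nat_lit 6) (nat_lit 121) (nat_lit 5) (nat_lit 126) (nat_lit 131) (nat_lit 133)) (PT.nd (nat_lit 78) (PT.lf (nat_lit 9500) (nat_lit 6) (nat_lit 125) (nat_lit 5) (nat_lit 127) (nat_lit 131) (nat_lit 132)) (PT.lf (nat_lit 9728) (nat_lit 3) (nat_lit 128) (nat_lit 4) (nat_lit 128) (nat_lit 131) (nat_lit 131))))) (PT.nd (nat_lit 234) (PT.nd (nat_lit 78) (PT.lf (nat_lit 9804) (nat_lit 6) (nat_lit 129) (nat_lit 4) (nat_lit 129) (nat_lit 131) (nat_lit 130)) (PT.nd (nat_lit 78) (PT.lf (nat_lit 9804) (nat_lit 6) (nat_lit 129) (nat_lit 2) (nat_lit 130) (nat_lit 131) (nat_lit 129)) (PT.lf (nat_lit 9728) (nat_lit 3) (nat_lit 128) (nat_lit 0) (nat_lit 131) (nat_lit 131) (nat_lit 128)))) (PT.nd (nat_lit 78) (PT.lf (nat_lit 9500) (nat_lit 6) (nat_lit 125) (nat_lit 0) (nat_lit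 132) (nat_lit 131) (nat_lit 127)) (PT.nd (nat_lit 78) (PT.lf (nat_lit 9196) (nat_lit 6) (nat_lit 121) (nat_lit 0) (nat_lit 133) (nat_lit 131) (nat_lit 126)) (PT.lf (nat_lit 8816) (nat_lit 6) (nat_lit 116) (nat_lit 0) (nat_lit 134) (nat_lit 131) (nat_lit 125))))))))
noncomputable def pc7 : PT := (PT.nd (nat_lit 40560) (PT.nd (nat_lit 39702) (PT.nd (nat_lit 390) (PT.nd (nat_lit 156) (PT.nd (nat_lit 78) (PT.lf (nat_lit 8360) (nat_lit 6) (nat_lit 110) (nat_lit 0) (nat_lit 135) (nat_lit 131) (nat_lit 124)) (PT.lf (nat_lit 7828) (nat_lit 6) (nat_lit 103) (nat_lit 0) (nat_lit 136) (nat_lit 131) (nat_lit 123))) (PT.nd (nat_lit 78) (PT.lf (nat_lit 7220) (nat_lit 6) (nat_lit 95) (nat_lit 0) (nat_lit 137) (nat_lit 131) (nat_lit 122)) (PT.nd (nat_lit 78) (PT.lf (nat_lit 6536) (nat_lit 6) (nat_lit 86) (nat_lit 0) (nat_lit 138) (nat_lit 131) (nat_lit 121)) (PT.lf (nat_lit 5776) (nat_lit 6) (nat_lit 76)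 (nat_lit 0) (nat_lit 139) (nat_lit 131) (nat_lit 120))))) (PT.nd (nat_lit 39078) (PT.nd (nat_lit 38922) (PT.lf (nat_lit 5320) (nat_lit 6) (nat_lit 70) (nat_lit 0) (nat_lit 140) (nat_lit 131) (nat_lit 119)) (PT.nd (nat_lit 78) (PT.lf (nat_lit 4940) (nat_lit 6) (nat_lit 65) (nat_lit 5) (nat_lit 118) (nat_lit 132) (nat_lit 140)) (PT.lf (nat_lit 5396) (nat_lit 6) (nat_lit 71) (nat_lit 5) (nat_lit 119) (nat_lit 132) (nat_lit 139)))) (PT.nd (nat_lit 78) (PT.lf (nat_lit 5852) (nat_lit 6) (nat_lit 77) (nat_lit 5) (nat_lit 120) (nat_lit 132) (nat_lit 138)) (PT.nd (nat_lit 78) (PT.lf (nat_lit 6612) (nat_lit 6) (nat_lit 87) (nat_lit 5) (nat_lit 121) (nat_lit 132) (nat_lit 137)) (PT.lf (nat_lit 7296) (nat_lit 6) (nat_lit 96) (nat_lit 5) (nat_lit 122) (nat_lit 132) (nat_lit 136)))))) (PT.nd (nat_lit 390) (PT.nd (nat_lit 156) (PT.nd (nat_lit 78) (PT.lf (nat_lit 7904) (nat_lit 6) (nat_lit 104) (nat_lit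 5) (nat_lit 123) (nat_lit 132) (nat_lit 135)) (PT.lf (nat_lit 8436) (nat_lit 6) (nat_lit 111) (nat_lit 5) (nat_lit 124) (nat_lit 132) (nat_lit 134))) (PT.nd (nat_lit 78) (PT.lf (nat_lit 8892) (nat_lit 6) (nat_lit 117) (nat_lit 5) (nat_lit 125) (nat_lit 132) (nat_lit 133)) (PT.nd (nat_lit 78) (PT.lf (nat_lit 9272) (nat_lit 3) (nat_lit 122) (nat_lit 4) (nat_lit 126) (nat_lit 132) (nat_lit 132)) (PT.lf (nat_lit 9500) (nat_lit 6) (nat_lit 125) (nat_lit 4) (nat_lit 127) (nat_lit 132) (nat_lit 131))))) (PT.nd (nat_lit 234) (PT.nd (nat_lit 78) (PT.lf (nat_lit 9652) (nat_lit 6) (nat_lit 127) (nat_lit 4) (nat_lit 128) (nat_lit 132) (nat_lit 130)) (PT.nd (nat_lit 78) (PT.lf (nat_lit 9576) (nat_lit 3) (nat_lit 126) (nat_lit 2) (nat_lit 129) (nat_lit 132) (nat_lit 129)) (PT.lf (nat_lit 9652) (nat_lit 6) (nat_lit 127) (nat_lit 2) (nat_lit 130) (nat_lit 132) (nat_lit 128)))) (PT.nd (nat_lit 78) (PT.lf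 (nat_lit 9500) (nat_lit 6) (nat_lit 125) (nat_lit 2) (nat_lit 131) (nat_lit 132) (nat_lit 127)) (PT.nd (nat_lit 78) (PT.lf (nat_lit 9272) (nat_lit 3) (nat_lit 122) (nat_lit 0) (nat_lit 132) (nat_lit 132) (nat_lit 126)) (PT.lf (nat_lit 8892) (nat_lit 6) (nat_lit 117) (nat_lit 0) (nat_lit 133) (nat_lit 132) (nat_lit 125))))))) (PT.nd (nat_lit 39624) (PT.nd (nat_lit 390) (PT.nd (nat_lit 156) (PT.nd (nat_lit 78) (PT.lf (nat_lit 8436) (nat_lit 6) (nat_lit 111) (nat_lit 0) (nat_lit 134) (nat_lit 132) (nat_lit 124)) (PT.lf (nat_lit 7904) (nat_lit 6) (nat_lit 104) (nat_lit 0) (nat_lit 135) (nat_lit 132) (nat_lit 123))) (PT.nd (nat_lit 78) (PT.lf (nat_lit 7296) (nat_lit 6) (nat_lit 96) (nat_lit 0) (nat_lit 136) (nat_lit 132) (nat_lit 122)) (PT.nd (nat_lit 78) (PT.lf (nat_lit 6612) (nat_lit 6) (nat_lit 87) (nat_lit 0) (nat_lit 137) (nat_lit 132) (nat_lit 121)) (PT.lf (nat_lit 5852) (nat_lit 6) (nat_lit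 77) (nat_lit 0) (nat_lit 138) (nat_lit 132) (nat_lit 120))))) (PT.nd (nat_lit 39000) (PT.nd (nat_lit 78) (PT.lf (nat_lit 5396) (nat_lit 6) (nat_lit 71) (nat_lit 0) (nat_lit 139) (nat_lit 132) (nat_lit 119)) (PT.nd (nat_lit 38844) (PT.lf (nat_lit 4940) (nat_lit 6) (nat_lit 65) (nat_lit 0) (nat_lit 140) (nat_lit 132) (nat_lit 118)) (PT.lf (nat_lit 4636) (nat_lit 6) (nat_lit 61) (nat_lit 5) (nat_lit 117) (nat_lit 133) (nat_lit 140)))) (PT.nd (nat_lit 78) (PT.lf (nat_lit 5016) (nat_lit 6) (nat_lit 66) (nat_lit 5) (nat_lit 118) (nat_lit 133) (nat_lit 139)) (PT.nd (nat_lit 78) (PT.lf (nat_lit 5472) (nat_lit 6) (nat_lit 72) (nat_lit 5) (nat_lit 119) (nat_lit 133) (nat_lit 138)) (PT.lf (nat_lit 5928) (nat_lit 6) (nat_lit 78) (nat_lit 5) (nat_lit 120) (nat_lit 133) (nat_lit 137)))))) (PT.nd (nat_lit 390) (PT.nd (nat_lit 156) (PT.nd (nat_lit 78) (PT.lf (nat_lit 6688) (nat_lit 6) (nat_lit 88) (nat_lit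 5) (nat_lit 121) (nat_lit 133) (nat_lit 136)) (PT.lf (nat_lit 7372) (nat_lit 6) (nat_lit 97) (nat_lit 5) (nat_lit 122) (nat_lit 133) (nat_lit 135))) (PT.nd (nat_lit 78) (PT.lf (nat_lit 7980) (nat_lit 6) (nat_lit 105) (nat_lit 5) (nat_lit 123) (nat_lit 133) (nat_lit 134)) (PT.nd (nat_lit 78) (PT.lf (nat_lit 8512) (nat_lit 3) (nat_lit 112) (nat_lit 4) (nat_lit 124) (nat_lit 133) (nat_lit 133)) (PT.lf (nat_lit 8892) (nat_lit 6) (nat_lit 117) (nat_lit 4) (nat_lit 125) (nat_lit 133) (nat_lit 132))))) (PT.nd (nat_lit 234) (PT.nd (nat_lit 78) (PT.lf (nat_lit 9196) (nat_lit 6) (nat_lit 121) (nat_lit 4) (nat_lit 126) (nat_lit 133) (nat_lit 131)) (PT.nd (nat_lit 78) (PT.lf (nat_lit 9424) (nat_lit 6) (nat_lit 124) (nat_lit 4) (nat_lit 127) (nat_lit 133) (nat_lit 130)) (PT.lf (nat_lit 9348) (nat_lit 6) (nat_lit 123) (nat_lit 4) (nat_lit 128) (nat_lit 133) (nat_lit 129)))) (PT.nd (nat_lit 78) (PT.lf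 (nat_lit 9348) (nat_lit 6) (nat_lit 123) (nat_lit 2) (nat_lit 129) (nat_lit 133) (nat_lit 128)) (PT.nd (nat_lit 78) (PT.lf (nat_lit 9424) (nat_lit 6) (nat_lit 124) (nat_lit 2) (nat_lit 130) (nat_lit 133) (nat_lit 127)) (PT.lf (nat_lit 9196) (nat_lit 6) (nat_lit 121) (nat_lit 2) (nat_lit 131) (nat_lit 133) (nat_lit 126))))))))
noncomputable def pc8 : PT := (PT.nd (nat_lit 40248) (PT.nd (nat_lit 39390) (PT.nd (nat_lit 390) (PT.nd (nat_lit 156) (PT.nd (nat_lit 78) (PT.lf (nat_lit 8892) (nat_lit 6) (nat_lit 117) (nat_lit 2) (nat_lit 132) (nat_lit 133) (nat_lit 125)) (PT.lf (nat_lit 8512) (nat_lit 3) (nat_lit 112) (nat_lit 0) (nat_lit 133) (nat_lit 133) (nat_lit 124))) (PT.nd (nat_lit 78) (PT.lf (nat_lit 7980) (nat_lit 6) (nat_lit 105) (nat_lit 0) (nat_lit 134) (nat_lit 133) (nat_lit 123)) (PT.nd (nat_lit 78) (PT.lf (nat_lit 7372) (nat_lit 6) (nat_lit 97) (nat_lit 0) (nat_lit 135) (nat_lit 133)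 (nat_lit 122)) (PT.lf (nat_lit 6688) (nat_lit 6) (nat_lit 88) (nat_lit 0) (nat_lit 136) (nat_lit 133) (nat_lit 121))))) (PT.nd (nat_lit 156) (PT.nd (nat_lit 78) (PT.lf (nat_lit 5928) (nat_lit 6) (nat_lit 78) (nat_lit 0) (nat_lit 137) (nat_lit 133) (nat_lit 120)) (PT.lf (nat_lit 5472) (nat_lit 6) (nat_lit 72) (nat_lit 0) (nat_lit 138) (nat_lit 133) (nat_lit 119))) (PT.nd (nat_lit 78) (PT.lf (nat_lit 5016) (nat_lit 6) (nat_lit 66) (nat_lit 0) (nat_lit 139) (nat_lit 133) (nat_lit 118)) (PT.nd (nat_lit 38688) (PT.lf (nat_lit 4636) (nat_lit 6) (nat_lit 61) (nat_lit 0) (nat_lit 140) (nat_lit 133) (nat_lit 117)) (PT.lf (nat_lit 4028) (nat_lit 6) (nat_lit 53) (nat_lit 5) (nat_lit 115) (nat_lit 134) (nat_lit 141)))))) (PT.nd (nat_lit 390) (PT.nd (nat_lit 156) (PT.nd (nat_lit 78) (PT.lf (nat_lit 4332) (nat_lit 6) (nat_lit 57) (nat_lit 5) (nat_lit 116) (nat_lit 134) (nat_lit 140)) (PT.lf (nat_lit 4712)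 (nat_lit 6) (nat_lit 62) (nat_lit 5) (nat_lit 117) (nat_lit 134) (nat_lit 139))) (PT.nd (nat_lit 78) (PT.lf (nat_lit 5092) (nat_lit 6) (nat_lit 67) (nat_lit 5) (nat_lit 118) (nat_lit 134) (nat_lit 138)) (PT.nd (nat_lit 78) (PT.lf (nat_lit 5548) (nat_lit 6) (nat_lit 73) (nat_lit 5) (nat_lit 119) (nat_lit 134) (nat_lit 137)) (PT.lf (nat_lit 6004) (nat_lit 6) (nat_lit 79) (nat_lit 5) (nat_lit 120) (nat_lit 134) (nat_lit 136))))) (PT.nd (nat_lit 234) (PT.nd (nat_lit 78) (PT.lf (nat_lit 6764) (nat_lit 6) (nat_lit 89) (nat_lit 5) (nat_lit 121) (nat_lit 134) (nat_lit 135)) (PT.nd (nat_lit 78) (PT.lf (nat_lit 7448) (nat_lit 3) (nat_lit 98) (nat_lit 4) (nat_lit 122) (nat_lit 134) (nat_lit 134)) (PT.lf (nat_lit 7980) (nat_lit 6) (nat_lit 105) (nat_lit 4) (nat_lit 123) (nat_lit 134) (nat_lit 133)))) (PT.nd (nat_lit 78) (PT.lf (nat_lit 8436) (nat_lit 6) (nat_lit 111) (nat_lit 4) (nat_lit 124) (nat_lit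 134) (nat_lit 132)) (PT.nd (nat_lit 78) (PT.lf (nat_lit 8816) (nat_lit 6) (nat_lit 116) (nat_lit 4) (nat_lit 125) (nat_lit 134) (nat_lit 131)) (PT.lf (nat_lit 9120) (nat_lit 6) (nat_lit 120) (nat_lit 4) (nat_lit 126) (nat_lit 134) (nat_lit 130))))))) (PT.nd (nat_lit 858) (PT.nd (nat_lit 390) (PT.nd (nat_lit 156) (PT.nd (nat_lit 78) (PT.lf (nat_lit 9044) (nat_lit 6) (nat_lit 119) (nat_lit 4) (nat_lit 127) (nat_lit 134) (nat_lit 129)) (PT.lf (nat_lit 8968) (nat_lit 3) (nat_lit 118) (nat_lit 2) (nat_lit 128) (nat_lit 134) (nat_lit 128))) (PT.nd (nat_lit 78) (PT.lf (nat_lit 9044) (nat_lit 6) (nat_lit 119) (nat_lit 2) (nat_lit 129) (nat_lit 134) (nat_lit 127)) (PT.nd (nat_lit 78) (PT.lf (nat_lit 9120) (nat_lit 6) (nat_lit 120) (nat_lit 2) (nat_lit 130) (nat_lit 134) (nat_lit 126)) (PT.lf (nat_lit 8816) (nat_lit 6) (nat_lit 116) (nat_lit 2) (nat_lit 131) (nat_lit 134) (nat_lit 125))))) (PT.nd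 (nat_lit 234) (PT.nd (nat_lit 78) (PT.lf (nat_lit 8436) (nat_lit 6) (nat_lit 111) (nat_lit 2) (nat_lit 132) (nat_lit 134) (nat_lit 124)) (PT.nd (nat_lit 78) (PT.lf (nat_lit 7980) (nat_lit 6) (nat_lit 105) (nat_lit 2) (nat_lit 133) (nat_lit 134) (nat_lit 123)) (PT.lf (nat_lit 7448) (nat_lit 3) (nat_lit 98) (nat_lit 0) (nat_lit 134) (nat_lit 134) (nat_lit 122)))) (PT.nd (nat_lit 78) (PT.lf (nat_lit 6764) (nat_lit 6) (nat_lit 89) (nat_lit 0) (nat_lit 135) (nat_lit 134) (nat_lit 121)) (PT.nd (nat_lit 78) (PT.lf (nat_lit 6004) (nat_lit 6) (nat_lit 79) (nat_lit 0) (nat_lit 136) (nat_lit 134) (nat_lit 120)) (PT.lf (nat_lit 5548) (nat_lit 6) (nat_lit 73) (nat_lit 0) (nat_lit 137) (nat_lit 134) (nat_lit 119)))))) (PT.nd (nat_lit 38844) (PT.nd (nat_lit 156) (PT.nd (nat_lit 78) (PT.lf (nat_lit 5092) (nat_lit 6) (nat_lit 67) (nat_lit 0) (nat_lit 138) (nat_lit 134) (nat_lit 118)) (PT.lf (nat_lit 4712)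 (nat_lit 6) (nat_lit 62) (nat_lit 0) (nat_lit 139) (nat_lit 134) (nat_lit 117))) (PT.nd (nat_lit 78) (PT.lf (nat_lit 4332) (nat_lit 6) (nat_lit 57) (nat_lit 0) (nat_lit 140) (nat_lit 134) (nat_lit 116)) (PT.nd (nat_lit 38532) (PT.lf (nat_lit 4028) (nat_lit 6) (nat_lit 53) (nat_lit 0) (nat_lit 141) (nat_lit 134) (nat_lit 115)) (PT.lf (nat_lit 3724) (nat_lit 6) (nat_lit 49) (nat_lit 5) (nat_lit 114) (nat_lit 135) (nat_lit 141))))) (PT.nd (nat_lit 234) (PT.nd (nat_lit 78) (PT.lf (nat_lit 4104) (nat_lit 6) (nat_lit 54) (nat_lit 5) (nat_lit 115) (nat_lit 135) (nat_lit 140)) (PT.nd (nat_lit 78) (PT.lf (nat_lit 4408) (nat_lit 6) (nat_lit 58) (nat_lit 5) (nat_lit 116) (nat_lit 135) (nat_lit 139)) (PT.lf (nat_lit 4788) (nat_lit 6) (nat_lit 63) (nat_lit 5) (nat_lit 117) (nat_lit 135) (nat_lit 138)))) (PT.nd (nat_lit 78) (PT.lf (nat_lit 5168) (nat_lit 6) (nat_lit 68) (nat_lit 5) (nat_lit 118) (nat_lit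 135) (nat_lit 137)) (PT.nd (nat_lit 78) (PT.lf (nat_lit 5624) (nat_lit 6) (nat_lit 74) (nat_lit 5) (nat_lit 119) (nat_lit 135) (nat_lit 136)) (PT.lf (nat_lit 6080) (nat_lit 3) (nat_lit 80) (nat_lit 4) (nat_lit 120) (nat_lit 135) (nat_lit 135))))))))
noncomputable def pc9 : PT := (PT.nd (nat_lit 40092) (PT.nd (nat_lit 858) (PT.nd (nat_lit 390) (PT.nd (nat_lit 156) (PT.nd (nat_lit 78) (PT.lf (nat_lit 6764) (nat_lit 6) (nat_lit 89) (nat_lit 4) (nat_lit 121) (nat_lit 135) (nat_lit 134)) (PT.lf (nat_lit 7372) (nat_lit 6) (nat_lit 97) (nat_lit 4) (nat_lit 122) (nat_lit 135) (nat_lit 133))) (PT.nd (nat_lit 78) (PT.lf (nat_lit 7904) (nat_lit 6) (nat_lit 104) (nat_lit 4) (nat_lit 123) (nat_lit 135) (nat_lit 132)) (PT.nd (nat_lit 78) (PT.lf (nat_lit 8360) (nat_lit 6) (nat_lit 110) (nat_lit 4) (nat_lit 124) (nat_lit 135) (nat_lit 131)) (PT.lf (nat_lit 8740) (nat_lit 6) (nat_lit 115) (nat_lit 4) (nat_lit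 125) (nat_lit 135) (nat_lit 130))))) (PT.nd (nat_lit 234) (PT.nd (nat_lit 78) (PT.lf (nat_lit 8664) (nat_lit 6) (nat_lit 114) (nat_lit 4) (nat_lit 126) (nat_lit 135) (nat_lit 129)) (PT.nd (nat_lit 78) (PT.lf (nat_lit 8588) (nat_lit 6) (nat_lit 113) (nat_lit 4) (nat_lit 127) (nat_lit 135) (nat_lit 128)) (PT.lf (nat_lit 8588) (nat_lit 6) (nat_lit 113) (nat_lit 2) (nat_lit 128) (nat_lit 135) (nat_lit 127)))) (PT.nd (nat_lit 78) (PT.lf (nat_lit 8664) (nat_lit 6) (nat_lit 114) (nat_lit 2) (nat_lit 129) (nat_lit 135) (nat_lit 126)) (PT.nd (nat_lit 78) (PT.lf (nat_lit 8740) (nat_lit 6) (nat_lit 115) (nat_lit 2) (nat_lit 130) (nat_lit 135) (nat_lit 125)) (PT.lf (nat_lit 8360) (nat_lit 6) (nat_lit 110) (nat_lit 2) (nat_lit 131) (nat_lit 135) (nat_lit 124)))))) (PT.nd (nat_lit 390) (PT.nd (nat_lit 156) (PT.nd (nat_lit 78) (PT.lf (nat_lit 7904) (nat_lit 6) (nat_lit 104) (nat_lit 2) (nat_lit 132) (nat_lit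 135) (nat_lit 123)) (PT.lf (nat_lit 7372) (nat_lit 6) (nat_lit 97) (nat_lit 2) (nat_lit 133) (nat_lit 135) (nat_lit 122))) (PT.nd (nat_lit 78) (PT.lf (nat_lit 6764) (nat_lit 6) (nat_lit 89) (nat_lit 2) (nat_lit 134) (nat_lit 135) (nat_lit 121)) (PT.nd (nat_lit 78) (PT.lf (nat_lit 6080) (nat_lit 3) (nat_lit 80) (nat_lit 0) (nat_lit 135) (nat_lit 135) (nat_lit 120)) (PT.lf (nat_lit 5624) (nat_lit 6) (nat_lit 74) (nat_lit 0) (nat_lit 136) (nat_lit 135) (nat_lit 119))))) (PT.nd (nat_lit 234) (PT.nd (nat_lit 78) (PT.lf (nat_lit 5168) (nat_lit 6) (nat_lit 68) (nat_lit 0) (nat_lit 137) (nat_lit 135) (nat_lit 118)) (PT.nd (nat_lit 78) (PT.lf (nat_lit 4788) (nat_lit 6) (nat_lit 63) (nat_lit 0) (nat_lit 138) (nat_lit 135) (nat_lit 117)) (PT.lf (nat_lit 4408) (nat_lit 6) (nat_lit 58) (nat_lit 0) (nat_lit 139) (nat_lit 135) (nat_lit 116)))) (PT.nd (nat_lit 78) (PT.lf (nat_lit 4104) (nat_lit 6) (nat_lit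 54) (nat_lit 0) (nat_lit 140) (nat_lit 135) (nat_lit 115)) (PT.nd (nat_lit 38454) (PT.lf (nat_lit 3724) (nat_lit 6) (nat_lit 49) (nat_lit 0) (nat_lit 141) (nat_lit 135) (nat_lit 114)) (PT.lf (nat_lit 3496) (nat_lit 6) (nat_lit 46) (nat_lit 5) (nat_lit 113) (nat_lit 136) (nat_lit 141))))))) (PT.nd (nat_lit 858) (PT.nd (nat_lit 390) (PT.nd (nat_lit 156) (PT.nd (nat_lit 78) (PT.lf (nat_lit 3800) (nat_lit 6) (nat_lit 50) (nat_lit 5) (nat_lit 114) (nat_lit 136) (nat_lit 140)) (PT.lf (nat_lit 4180) (nat_lit 6) (nat_lit 55) (nat_lit 5) (nat_lit 115) (nat_lit 136) (nat_lit 139))) (PT.nd (nat_lit 78) (PT.lf (nat_lit 4484) (nat_lit 6) (nat_lit 59) (nat_lit 5) (nat_lit 116) (nat_lit 136) (nat_lit 138)) (PT.nd (nat_lit 78) (PT.lf (nat_lit 4864) (nat_lit 6) (nat_lit 64) (nat_lit 5) (nat_lit 117) (nat_lit 136) (nat_lit 137)) (PT.lf (nat_lit 5244) (nat_lit 3) (nat_lit 69) (nat_lit 4) (nat_lit 118) (nat_lit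 136) (nat_lit 136))))) (PT.nd (nat_lit 234) (PT.nd (nat_lit 78) (PT.lf (nat_lit 5624) (nat_lit 6) (nat_lit 74) (nat_lit 4) (nat_lit 119) (nat_lit 136) (nat_lit 135)) (PT.nd (nat_lit 78) (PT.lf (nat_lit 6004) (nat_lit 6) (nat_lit 79) (nat_lit 4) (nat_lit 120) (nat_lit 136) (nat_lit 134)) (PT.lf (nat_lit 6688) (nat_lit 6) (nat_lit 88) (nat_lit 4) (nat_lit 121) (nat_lit 136) (nat_lit 133)))) (PT.nd (nat_lit 78) (PT.lf (nat_lit 7296) (nat_lit 6) (nat_lit 96) (nat_lit 4) (nat_lit 122) (nat_lit 136) (nat_lit 132)) (PT.nd (nat_lit 78) (PT.lf (nat_lit 7828) (nat_lit 6) (nat_lit 103) (nat_lit 4) (nat_lit 123) (nat_lit 136) (nat_lit 131)) (PT.lf (nat_lit 8284) (nat_lit 6) (nat_lit 109) (nat_lit 4) (nat_lit 124) (nat_lit 136) (nat_lit 130)))))) (PT.nd (nat_lit 390) (PT.nd (nat_lit 156) (PT.nd (nat_lit 78) (PT.lf (nat_lit 8208) (nat_lit 6) (nat_lit 108) (nat_lit 4) (nat_lit 125) (nat_lit 136) (nat_lit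 129)) (PT.lf (nat_lit 8132) (nat_lit 6) (nat_lit 107) (nat_lit 4) (nat_lit 126) (nat_lit 136) (nat_lit 128))) (PT.nd (nat_lit 78) (PT.lf (nat_lit 8056) (nat_lit 3) (nat_lit 106) (nat_lit 2) (nat_lit 127) (nat_lit 136) (nat_lit 127)) (PT.nd (nat_lit 78) (PT.lf (nat_lit 8132) (nat_lit 6) (nat_lit 107) (nat_lit 2) (nat_lit 128) (nat_lit 136) (nat_lit 126)) (PT.lf (nat_lit 8208) (nat_lit 6) (nat_lit 108) (nat_lit 2) (nat_lit 129) (nat_lit 136) (nat_lit 125))))) (PT.nd (nat_lit 234) (PT.nd (nat_lit 78) (PT.lf (nat_lit 8284) (nat_lit 6) (nat_lit 109) (nat_lit 2) (nat_lit 130) (nat_lit 136) (nat_lit 124)) (PT.nd (nat_lit 78) (PT.lf (nat_lit 7828) (nat_lit 6) (nat_lit 103) (nat_lit 2) (nat_lit 131) (nat_lit 136) (nat_lit 123)) (PT.lf (nat_lit 7296) (nat_lit 6) (nat_lit 96) (nat_lit 2) (nat_lit 132) (nat_lit 136) (nat_lit 122)))) (PT.nd (nat_lit 78) (PT.lf (nat_lit 6688) (nat_lit 6) (nat_lit 88)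 (nat_lit 2) (nat_lit 133) (nat_lit 136) (nat_lit 121)) (PT.nd (nat_lit 78) (PT.lf (nat_lit 6004) (nat_lit 6) (nat_lit 79) (nat_lit 2) (nat_lit 134) (nat_lit 136) (nat_lit 120)) (PT.lf (nat_lit 5624) (nat_lit 6) (nat_lit 74) (nat_lit 2) (nat_lit 135) (nat_lit 136) (nat_lit 119))))))))
noncomputable def pc10 : PT := (PT.nd (nat_lit 39936) (PT.nd (nat_lit 39078) (PT.nd (nat_lit 390) (PT.nd (nat_lit 156) (PT.nd (nat_lit 78) (PT.lf (nat_lit 5244) (nat_lit 3) (nat_lit 69) (nat_lit 0) (nat_lit 136) (nat_lit 136) (nat_lit 118)) (PT.lf (nat_lit 4864) (nat_lit 6) (nat_lit 64) (nat_lit 0) (nat_lit 137) (nat_lit 136) (nat_lit 117))) (PT.nd (nat_lit 78) (PT.lf (nat_lit 4484) (nat_lit 6) (nat_lit 59) (nat_lit 0) (nat_lit 138) (nat_lit 136) (nat_lit 116)) (PT.nd (nat_lit 78) (PT.lf (nat_lit 4180) (nat_lit 6) (nat_lit 55) (nat_lit 0) (nat_lit 139) (nat_lit 136) (nat_lit 115)) (PT.lf (nat_lit 3800) (nat_lit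 6) (nat_lit 50) (nat_lit 0) (nat_lit 140) (nat_lit 136) (nat_lit 114))))) (PT.nd (nat_lit 38454) (PT.nd (nat_lit 38298) (PT.lf (nat_lit 3496) (nat_lit 6) (nat_lit 46) (nat_lit 0) (nat_lit 141) (nat_lit 136) (nat_lit 113)) (PT.nd (nat_lit 78) (PT.lf (nat_lit 3040) (nat_lit 6) (nat_lit 40) (nat_lit 5) (nat_lit 111) (nat_lit 137) (nat_lit 142)) (PT.lf (nat_lit 3268) (nat_lit 6) (nat_lit 43) (nat_lit 5) (nat_lit 112) (nat_lit 137) (nat_lit 141)))) (PT.nd (nat_lit 78) (PT.lf (nat_lit 3572) (nat_lit 6) (nat_lit 47) (nat_lit 5) (nat_lit 113) (nat_lit 137) (nat_lit 140)) (PT.nd (nat_lit 78) (PT.lf (nat_lit 3876) (nat_lit 6) (nat_lit 51) (nat_lit 5) (nat_lit 114) (nat_lit 137) (nat_lit 139)) (PT.lf (nat_lit 4256) (nat_lit 6) (nat_lit 56) (nat_lit 5) (nat_lit 115) (nat_lit 137) (nat_lit 138)))))) (PT.nd (nat_lit 390) (PT.nd (nat_lit 156) (PT.nd (nat_lit 78) (PT.lf (nat_lit 4560) (nat_lit 3) (nat_lit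 60) (nat_lit 4) (nat_lit 116) (nat_lit 137) (nat_lit 137)) (PT.lf (nat_lit 4864) (nat_lit 6) (nat_lit 64) (nat_lit 4) (nat_lit 117) (nat_lit 137) (nat_lit 136))) (PT.nd (nat_lit 78) (PT.lf (nat_lit 5168) (nat_lit 6) (nat_lit 68) (nat_lit 4) (nat_lit 118) (nat_lit 137) (nat_lit 135)) (PT.nd (nat_lit 78) (PT.lf (nat_lit 5548) (nat_lit 6) (nat_lit 73) (nat_lit 4) (nat_lit 119) (nat_lit 137) (nat_lit 134)) (PT.lf (nat_lit 5928) (nat_lit 6) (nat_lit 78) (nat_lit 4) (nat_lit 120) (nat_lit 137) (nat_lit 133))))) (PT.nd (nat_lit 234) (PT.nd (nat_lit 78) (PT.lf (nat_lit 6612) (nat_lit 6) (nat_lit 87) (nat_lit 4) (nat_lit 121) (nat_lit 137) (nat_lit 132)) (PT.nd (nat_lit 78) (PT.lf (nat_lit 7220) (nat_lit 6) (nat_lit 95) (nat_lit 4) (nat_lit 122) (nat_lit 137) (nat_lit 131)) (PT.lf (nat_lit 7752) (nat_lit 6) (nat_lit 102) (nat_lit 4) (nat_lit 123) (nat_lit 137) (nat_lit 130)))) (PT.nd (nat_lit 78)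 (PT.lf (nat_lit 7676) (nat_lit 6) (nat_lit 101) (nat_lit 4) (nat_lit 124) (nat_lit 137) (nat_lit 129)) (PT.nd (nat_lit 78) (PT.lf (nat_lit 7600) (nat_lit 6) (nat_lit 100) (nat_lit 4) (nat_lit 125) (nat_lit 137) (nat_lit 128)) (PT.lf (nat_lit 7524) (nat_lit 6) (nat_lit 99) (nat_lit 4) (nat_lit 126) (nat_lit 137) (nat_lit 127))))))) (PT.nd (nat_lit 858) (PT.nd (nat_lit 390) (PT.nd (nat_lit 156) (PT.nd (nat_lit 78) (PT.lf (nat_lit 7524) (nat_lit 6) (nat_lit 99) (nat_lit 2) (nat_lit 127) (nat_lit 137) (nat_lit 126)) (PT.lf (nat_lit 7600) (nat_lit 6) (nat_lit 100) (nat_lit 2) (nat_lit 128) (nat_lit 137) (nat_lit 125))) (PT.nd (nat_lit 78) (PT.lf (nat_lit 7676) (nat_lit 6) (nat_lit 101) (nat_lit 2) (nat_lit 129) (nat_lit 137) (nat_lit 124)) (PT.nd (nat_lit 78) (PT.lf (nat_lit 7752) (nat_lit 6) (nat_lit 102) (nat_lit 2) (nat_lit 130) (nat_lit 137) (nat_lit 123)) (PT.lf (nat_lit 7220) (nat_lit 6)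 (nat_lit 95) (nat_lit 2) (nat_lit 131) (nat_lit 137) (nat_lit 122))))) (PT.nd (nat_lit 234) (PT.nd (nat_lit 78) (PT.lf (nat_lit 6612) (nat_lit 6) (nat_lit 87) (nat_lit 2) (nat_lit 132) (nat_lit 137) (nat_lit 121)) (PT.nd (nat_lit 78) (PT.lf (nat_lit 5928) (nat_lit 6) (nat_lit 78) (nat_lit 2) (nat_lit 133) (nat_lit 137) (nat_lit 120)) (PT.lf (nat_lit 5548) (nat_lit 6) (nat_lit 73) (nat_lit 2) (nat_lit 134) (nat_lit 137) (nat_lit 119)))) (PT.nd (nat_lit 78) (PT.lf (nat_lit 5168) (nat_lit 6) (nat_lit 68) (nat_lit 2) (nat_lit 135) (nat_lit 137) (nat_lit 118)) (PT.nd (nat_lit 78) (PT.lf (nat_lit 4864) (nat_lit 6) (nat_lit 64) (nat_lit 2) (nat_lit 136) (nat_lit 137) (nat_lit 117)) (PT.lf (nat_lit 4560) (nat_lit 3) (nat_lit 60) (nat_lit 0) (nat_lit 137) (nat_lit 137) (nat_lit 116)))))) (PT.nd (nat_lit 38376) (PT.nd (nat_lit 156) (PT.nd (nat_lit 78) (PT.lf (nat_lit 4256) (nat_lit 6) (nat_lit 56)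 (nat_lit 0) (nat_lit 138) (nat_lit 137) (nat_lit 115)) (PT.lf (nat_lit 3876) (nat_lit 6) (nat_lit 51) (nat_lit 0) (nat_lit 139) (nat_lit 137) (nat_lit 114))) (PT.nd (nat_lit 78) (PT.lf (nat_lit 3572) (nat_lit 6) (nat_lit 47) (nat_lit 0) (nat_lit 140) (nat_lit 137) (nat_lit 113)) (PT.nd (nat_lit 78) (PT.lf (nat_lit 3268) (nat_lit 6) (nat_lit 43) (nat_lit 0) (nat_lit 141) (nat_lit 137) (nat_lit 112)) (PT.lf (nat_lit 3040) (nat_lit 6) (nat_lit 40) (nat_lit 0) (nat_lit 142) (nat_lit 137) (nat_lit 111))))) (PT.nd (nat_lit 234) (PT.nd (nat_lit 78) (PT.lf (nat_lit 2584) (nat_lit 6) (nat_lit 34) (nat_lit 5) (nat_lit 109) (nat_lit 138) (nat_lit 143)) (PT.nd (nat_lit 78) (PT.lf (nat_lit 2812) (nat_lit 6) (nat_lit 37) (nat_lit 5) (nat_lit 110) (nat_lit 138) (nat_lit 142)) (PT.lf (nat_lit 3116) (nat_lit 6) (nat_lit 41) (nat_lit 5) (nat_lit 111) (nat_lit 138) (nat_lit 141)))) (PT.nd (nat_lit 78) (PT.lf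 (nat_lit 3344) (nat_lit 6) (nat_lit 44) (nat_lit 5) (nat_lit 112) (nat_lit 138) (nat_lit 140)) (PT.nd (nat_lit 78) (PT.lf (nat_lit 3648) (nat_lit 6) (nat_lit 48) (nat_lit 5) (nat_lit 113) (nat_lit 138) (nat_lit 139)) (PT.lf (nat_lit 3952) (nat_lit 3) (nat_lit 52) (nat_lit 4) (nat_lit 114) (nat_lit 138) (nat_lit 138))))))))
noncomputable def pc11 : PT := (PT.nd (nat_lit 1716) (PT.nd (nat_lit 858) (PT.nd (nat_lit 390) (PT.nd (nat_lit 156) (PT.nd (nat_lit 78) (PT.lf (nat_lit 4256) (nat_lit 6) (nat_lit 56) (nat_lit 4) (nat_lit 115) (nat_lit 138) (nat_lit 137)) (PT.lf (nat_lit 4484) (nat_lit 6) (nat_lit 59) (nat_lit 4) (nat_lit 116) (nat_lit 138) (nat_lit 136))) (PT.nd (nat_lit 78) (PT.lf (nat_lit 4788) (nat_lit 6) (nat_lit 63) (nat_lit 4) (nat_lit 117) (nat_lit 138) (nat_lit 135)) (PT.nd (nat_lit 78) (PT.lf (nat_lit 5092) (nat_lit 6) (nat_lit 67) (nat_lit 4) (nat_lit 118) (nat_lit 138) (nat_lit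 134)) (PT.lf (nat_lit 5472) (nat_lit 6) (nat_lit 72) (nat_lit 4) (nat_lit 119) (nat_lit 138) (nat_lit 133))))) (PT.nd (nat_lit 234) (PT.nd (nat_lit 78) (PT.lf (nat_lit 5852) (nat_lit 6) (nat_lit 77) (nat_lit 4) (nat_lit 120) (nat_lit 138) (nat_lit 132)) (PT.nd (nat_lit 78) (PT.lf (nat_lit 6536) (nat_lit 6) (nat_lit 86) (nat_lit 4) (nat_lit 121) (nat_lit 138) (nat_lit 131)) (PT.lf (nat_lit 7144) (nat_lit 6) (nat_lit 94) (nat_lit 4) (nat_lit 122) (nat_lit 138) (nat_lit 130)))) (PT.nd (nat_lit 78) (PT.lf (nat_lit 7068) (nat_lit 6) (nat_lit 93) (nat_lit 4) (nat_lit 123) (nat_lit 138) (nat_lit 129)) (PT.nd (nat_lit 78) (PT.lf (nat_lit 6992) (nat_lit 6) (nat_lit 92) (nat_lit 4) (nat_lit 124) (nat_lit 138) (nat_lit 128)) (PT.lf (nat_lit 6916) (nat_lit 6) (nat_lit 91) (nat_lit 4) (nat_lit 125) (nat_lit 138) (nat_lit 127)))))) (PT.nd (nat_lit 390) (PT.nd (nat_lit 156) (PT.nd (nat_lit 78) (PT.lf (nat_lit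 6840) (nat_lit 3) (nat_lit 90) (nat_lit 2) (nat_lit 126) (nat_lit 138) (nat_lit 126)) (PT.lf (nat_lit 6916) (nat_lit 6) (nat_lit 91) (nat_lit 2) (nat_lit 127) (nat_lit 138) (nat_lit 125))) (PT.nd (nat_lit 78) (PT.lf (nat_lit 6992) (nat_lit 6) (nat_lit 92) (nat_lit 2) (nat_lit 128) (nat_lit 138) (nat_lit 124)) (PT.nd (nat_lit 78) (PT.lf (nat_lit 7068) (nat_lit 6) (nat_lit 93) (nat_lit 2) (nat_lit 129) (nat_lit 138) (nat_lit 123)) (PT.lf (nat_lit 7144) (nat_lit 6) (nat_lit 94) (nat_lit 2) (nat_lit 130) (nat_lit 138) (nat_lit 122))))) (PT.nd (nat_lit 234) (PT.nd (nat_lit 78) (PT.lf (nat_lit 6536) (nat_lit 6) (nat_lit 86) (nat_lit 2) (nat_lit 131) (nat_lit 138) (nat_lit 121)) (PT.nd (nat_lit 78) (PT.lf (nat_lit 5852) (nat_lit 6) (nat_lit 77) (nat_lit 2) (nat_lit 132) (nat_lit 138) (nat_lit 120)) (PT.lf (nat_lit 5472) (nat_lit 6) (nat_lit 72) (nat_lit 2) (nat_lit 133) (nat_lit 138) (nat_lit 119))))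 (PT.nd (nat_lit 78) (PT.lf (nat_lit 5092) (nat_lit 6) (nat_lit 67) (nat_lit 2) (nat_lit 134) (nat_lit 138) (nat_lit 118)) (PT.nd (nat_lit 78) (PT.lf (nat_lit 4788) (nat_lit 6) (nat_lit 63) (nat_lit 2) (nat_lit 135) (nat_lit 138) (nat_lit 117)) (PT.lf (nat_lit 4484) (nat_lit 6) (nat_lit 59) (nat_lit 2) (nat_lit 136) (nat_lit 138) (nat_lit 116))))))) (PT.nd (nat_lit 38688) (PT.nd (nat_lit 390) (PT.nd (nat_lit 156) (PT.nd (nat_lit 78) (PT.lf (nat_lit 4256) (nat_lit 6) (nat_lit 56) (nat_lit 2) (nat_lit 137) (nat_lit 138) (nat_lit 115)) (PT.lf (nat_lit 3952) (nat_lit 3) (nat_lit 52) (nat_lit 0) (nat_lit 138) (nat_lit 138) (nat_lit 114))) (PT.nd (nat_lit 78) (PT.lf (nat_lit 3648) (nat_lit 6) (nat_lit 48) (nat_lit 0) (nat_lit 139) (nat_lit 138) (nat_lit 113)) (PT.nd (nat_lit 78) (PT.lf (nat_lit 3344) (nat_lit 6) (nat_lit 44) (nat_lit 0) (nat_lit 140) (nat_lit 138) (nat_lit 112)) (PT.lf (nat_lit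 3116) (nat_lit 6) (nat_lit 41) (nat_lit 0) (nat_lit 141) (nat_lit 138) (nat_lit 111))))) (PT.nd (nat_lit 38064) (PT.nd (nat_lit 78) (PT.lf (nat_lit 2812) (nat_lit 6) (nat_lit 37) (nat_lit 0) (nat_lit 142) (nat_lit 138) (nat_lit 110)) (PT.nd (nat_lit 37908) (PT.lf (nat_lit 2584) (nat_lit 6) (nat_lit 34) (nat_lit 0) (nat_lit 143) (nat_lit 138) (nat_lit 109)) (PT.lf (nat_lit 2356) (nat_lit 6) (nat_lit 31) (nat_lit 5) (nat_lit 108) (nat_lit 139) (nat_lit 143)))) (PT.nd (nat_lit 78) (PT.lf (nat_lit 2660) (nat_lit 6) (nat_lit 35) (nat_lit 5) (nat_lit 109) (nat_lit 139) (nat_lit 142)) (PT.nd (nat_lit 78) (PT.lf (nat_lit 2888) (nat_lit 6) (nat_lit 38) (nat_lit 5) (nat_lit 110) (nat_lit 139) (nat_lit 141)) (PT.lf (nat_lit 3192) (nat_lit 6) (nat_lit 42) (nat_lit 5) (nat_lit 111) (nat_lit 139) (nat_lit 140)))))) (PT.nd (nat_lit 390) (PT.nd (nat_lit 156) (PT.nd (nat_lit 78) (PT.lf (nat_lit 3420) (nat_lit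 3) (nat_lit 45) (nat_lit 4) (nat_lit 112) (nat_lit 139) (nat_lit 139)) (PT.lf (nat_lit 3648) (nat_lit 6) (nat_lit 48) (nat_lit 4) (nat_lit 113) (nat_lit 139) (nat_lit 138))) (PT.nd (nat_lit 78) (PT.lf (nat_lit 3876) (nat_lit 6) (nat_lit 51) (nat_lit 4) (nat_lit 114) (nat_lit 139) (nat_lit 137)) (PT.nd (nat_lit 78) (PT.lf (nat_lit 4180) (nat_lit 6) (nat_lit 55) (nat_lit 4) (nat_lit 115) (nat_lit 139) (nat_lit 136)) (PT.lf (nat_lit 4408) (nat_lit 6) (nat_lit 58) (nat_lit 4) (nat_lit 116) (nat_lit 139) (nat_lit 135))))) (PT.nd (nat_lit 234) (PT.nd (nat_lit 78) (PT.lf (nat_lit 4712) (nat_lit 6) (nat_lit 62) (nat_lit 4) (nat_lit 117) (nat_lit 139) (nat_lit 134)) (PT.nd (nat_lit 78) (PT.lf (nat_lit 5016) (nat_lit 6) (nat_lit 66) (nat_lit 4) (nat_lit 118) (nat_lit 139) (nat_lit 133)) (PT.lf (nat_lit 5396) (nat_lit 6) (nat_lit 71) (nat_lit 4) (nat_lit 119) (nat_lit 139) (nat_lit 132)))) (PT.nd (nat_lit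 78) (PT.lf (nat_lit 5776) (nat_lit 6) (nat_lit 76) (nat_lit 4) (nat_lit 120) (nat_lit 139) (nat_lit 131)) (PT.nd (nat_lit 78) (PT.lf (nat_lit 6460) (nat_lit 6) (nat_lit 85) (nat_lit 4) (nat_lit 121) (nat_lit 139) (nat_lit 130)) (PT.lf (nat_lit 6384) (nat_lit 6) (nat_lit 84) (nat_lit 4) (nat_lit 122) (nat_lit 139) (nat_lit 129))))))))
noncomputable def pc12 : PT := (PT.nd (nat_lit 39312) (PT.nd (nat_lit 780) (PT.nd (nat_lit 390) (PT.nd (nat_lit 156) (PT.nd (nat_lit 78) (PT.lf (nat_lit 6308) (nat_lit 6) (nat_lit 83) (nat_lit 4) (nat_lit 123) (nat_lit 139) (nat_lit 128)) (PT.lf (nat_lit 6232) (nat_lit 6) (nat_lit 82) (nat_lit 4) (nat_lit 124) (nat_lit 139) (nat_lit 127))) (PT.nd (nat_lit 78) (PT.lf (nat_lit 6156) (nat_lit 6) (nat_lit 81) (nat_lit 4) (nat_lit 125) (nat_lit 139) (nat_lit 126)) (PT.nd (nat_lit 78) (PT.lf (nat_lit 6156) (nat_lit 6) (nat_lit 81) (nat_lit 2) (nat_lit 126) (nat_lit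 139) (nat_lit 125)) (PT.lf (nat_lit 6232) (nat_lit 6) (nat_lit 82) (nat_lit 2) (nat_lit 127) (nat_lit 139) (nat_lit 124))))) (PT.nd (nat_lit 156) (PT.nd (nat_lit 78) (PT.lf (nat_lit 6308) (nat_lit 6) (nat_lit 83) (nat_lit 2) (nat_lit 128) (nat_lit 139) (nat_lit 123)) (PT.lf (nat_lit 6384) (nat_lit 6) (nat_lit 84) (nat_lit 2) (nat_lit 129) (nat_lit 139) (nat_lit 122))) (PT.nd (nat_lit 78) (PT.lf (nat_lit 6460) (nat_lit 6) (nat_lit 85) (nat_lit 2) (nat_lit 130) (nat_lit 139) (nat_lit 121)) (PT.nd (nat_lit 78) (PT.lf (nat_lit 5776) (nat_lit 6) (nat_lit 76) (nat_lit 2) (nat_lit 131) (nat_lit 139) (nat_lit 120)) (PT.lf (nat_lit 5396) (nat_lit 6) (nat_lit 71) (nat_lit 2) (nat_lit 132) (nat_lit 139) (nat_lit 119)))))) (PT.nd (nat_lit 390) (PT.nd (nat_lit 156) (PT.nd (nat_lit 78) (PT.lf (nat_lit 5016) (nat_lit 6) (nat_lit 66) (nat_lit 2) (nat_lit 133) (nat_lit 139) (nat_lit 118)) (PT.lf (nat_lit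 4712) (nat_lit 6) (nat_lit 62) (nat_lit 2) (nat_lit 134) (nat_lit 139) (nat_lit 117))) (PT.nd (nat_lit 78) (PT.lf (nat_lit 4408) (nat_lit 6) (nat_lit 58) (nat_lit 2) (nat_lit 135) (nat_lit 139) (nat_lit 116)) (PT.nd (nat_lit 78) (PT.lf (nat_lit 4180) (nat_lit 6) (nat_lit 55) (nat_lit 2) (nat_lit 136) (nat_lit 139) (nat_lit 115)) (PT.lf (nat_lit 3876) (nat_lit 6) (nat_lit 51) (nat_lit 2) (nat_lit 137) (nat_lit 139) (nat_lit 114))))) (PT.nd (nat_lit 234) (PT.nd (nat_lit 78) (PT.lf (nat_lit 3648) (nat_lit 6) (nat_lit 48) (nat_lit 2) (nat_lit 138) (nat_lit 139) (nat_lit 113)) (PT.nd (nat_lit 78) (PT.lf (nat_lit 3420) (nat_lit 3) (nat_lit 45) (nat_lit 0) (nat_lit 139) (nat_lit 139) (nat_lit 112)) (PT.lf (nat_lit 3192) (nat_lit 6) (nat_lit 42) (nat_lit 0) (nat_lit 140) (nat_lit 139) (nat_lit 111)))) (PT.nd (nat_lit 78) (PT.lf (nat_lit 2888) (nat_lit 6) (nat_lit 38) (nat_lit 0) (nat_lit 141) (nat_lit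 139) (nat_lit 110)) (PT.nd (nat_lit 78) (PT.lf (nat_lit 2660) (nat_lit 6) (nat_lit 35) (nat_lit 0) (nat_lit 142) (nat_lit 139) (nat_lit 109)) (PT.lf (nat_lit 2356) (nat_lit 6) (nat_lit 31) (nat_lit 0) (nat_lit 143) (nat_lit 139) (nat_lit 108))))))) (PT.nd (nat_lit 858) (PT.nd (nat_lit 390) (PT.nd (nat_lit 156) (PT.nd (nat_lit 78) (PT.lf (nat_lit 1976) (nat_lit 6) (nat_lit 26) (nat_lit 5) (nat_lit 106) (nat_lit 140) (nat_lit 144)) (PT.lf (nat_lit 2204) (nat_lit 6) (nat_lit 29) (nat_lit 5) (nat_lit 107) (nat_lit 140) (nat_lit 143))) (PT.nd (nat_lit 78) (PT.lf (nat_lit 2432) (nat_lit 6) (nat_lit 32) (nat_lit 5) (nat_lit 108) (nat_lit 140) (nat_lit 142)) (PT.nd (nat_lit 78) (PT.lf (nat_lit 2736) (nat_lit 6) (nat_lit 36) (nat_lit 5) (nat_lit 109) (nat_lit 140) (nat_lit 141)) (PT.lf (nat_lit 2964) (nat_lit 3) (nat_lit 39) (nat_lit 4) (nat_lit 110) (nat_lit 140) (nat_lit 140))))) (PT.nd (nat_lit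 234) (PT.nd (nat_lit 78) (PT.lf (nat_lit 3192) (nat_lit 6) (nat_lit 42) (nat_lit 4) (nat_lit 111) (nat_lit 140) (nat_lit 139)) (PT.nd (nat_lit 78) (PT.lf (nat_lit 3344) (nat_lit 6) (nat_lit 44) (nat_lit 4) (nat_lit 112) (nat_lit 140) (nat_lit 138)) (PT.lf (nat_lit 3572) (nat_lit 6) (nat_lit 47) (nat_lit 4) (nat_lit 113) (nat_lit 140) (nat_lit 137)))) (PT.nd (nat_lit 78) (PT.lf (nat_lit 3800) (nat_lit 6) (nat_lit 50) (nat_lit 4) (nat_lit 114) (nat_lit 140) (nat_lit 136)) (PT.nd (nat_lit 78) (PT.lf (nat_lit 4104) (nat_lit 6) (nat_lit 54) (nat_lit 4) (nat_lit 115) (nat_lit 140) (nat_lit 135)) (PT.lf (nat_lit 4332) (nat_lit 6) (nat_lit 57) (nat_lit 4) (nat_lit 116) (nat_lit 140) (nat_lit 134)))))) (PT.nd (nat_lit 1092) (PT.nd (nat_lit 156) (PT.nd (nat_lit 78) (PT.lf (nat_lit 4636) (nat_lit 6) (nat_lit 61) (nat_lit 4) (nat_lit 117) (nat_lit 140) (nat_lit 133)) (PT.lf (nat_lit 4940) (nat_lit 6)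 (nat_lit 65) (nat_lit 4) (nat_lit 118) (nat_lit 140) (nat_lit 132))) (PT.nd (nat_lit 78) (PT.lf (nat_lit 5320) (nat_lit 6) (nat_lit 70) (nat_lit 4) (nat_lit 119) (nat_lit 140) (nat_lit 131)) (PT.nd (nat_lit 780) (PT.lf (nat_lit 5700) (nat_lit 6) (nat_lit 75) (nat_lit 4) (nat_lit 120) (nat_lit 140) (nat_lit 130)) (PT.lf (nat_lit 5700) (nat_lit 6) (nat_lit 75) (nat_lit 2) (nat_lit 130) (nat_lit 140) (nat_lit 120))))) (PT.nd (nat_lit 234) (PT.nd (nat_lit 78) (PT.lf (nat_lit 5320) (nat_lit 6) (nat_lit 70) (nat_lit 2) (nat_lit 131) (nat_lit 140) (nat_lit 119)) (PT.nd (nat_lit 78) (PT.lf (nat_lit 4940) (nat_lit 6) (nat_lit 65) (nat_lit 2) (nat_lit 132) (nat_lit 140) (nat_lit 118)) (PT.lf (nat_lit 4636) (nat_lit 6) (nat_lit 61) (nat_lit 2) (nat_lit 133) (nat_lit 140) (nat_lit 117)))) (PT.nd (nat_lit 78) (PT.lf (nat_lit 4332) (nat_lit 6) (nat_lit 57) (nat_lit 2) (nat_lit 134) (nat_lit 140) (nat_lit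 116)) (PT.nd (nat_lit 78) (PT.lf (nat_lit 4104) (nat_lit 6) (nat_lit 54) (nat_lit 2) (nat_lit 135) (nat_lit 140) (nat_lit 115)) (PT.lf (nat_lit 3800) (nat_lit 6) (nat_lit 50) (nat_lit 2) (nat_lit 136) (nat_lit 140) (nat_lit 114))))))))
noncomputable def pc13 : PT := (PT.nd (nat_lit 40638) (PT.nd (nat_lit 38376) (PT.nd (nat_lit 390) (PT.nd (nat_lit 156) (PT.nd (nat_lit 78) (PT.lf (nat_lit 3572) (nat_lit 6) (nat_lit 47) (nat_lit 2) (nat_lit 137) (nat_lit 140) (nat_lit 113)) (PT.lf (nat_lit 3344) (nat_lit 6) (nat_lit 44) (nat_lit 2) (nat_lit 138) (nat_lit 140) (nat_lit 112))) (PT.nd (nat_lit 78) (PT.lf (nat_lit 3192) (nat_lit 6) (nat_lit 42) (nat_lit 2) (nat_lit 139) (nat_lit 140) (nat_lit 111)) (PT.nd (nat_lit 78) (PT.lf (nat_lit 2964) (nat_lit 3) (nat_lit 39) (nat_lit 0) (nat_lit 140) (nat_lit 140) (nat_lit 110)) (PT.lf (nat_lit 2736) (nat_lit 6) (nat_lit 36) (nat_lit 0) (nat_lit 141) (nat_lit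 140) (nat_lit 109))))) (PT.nd (nat_lit 37752) (PT.nd (nat_lit 78) (PT.lf (nat_lit 2432) (nat_lit 6) (nat_lit 32) (nat_lit 0) (nat_lit 142) (nat_lit 140) (nat_lit 108)) (PT.nd (nat_lit 78) (PT.lf (nat_lit 2204) (nat_lit 6) (nat_lit 29) (nat_lit 0) (nat_lit 143) (nat_lit 140) (nat_lit 107)) (PT.lf (nat_lit 1976) (nat_lit 6) (nat_lit 26) (nat_lit 0) (nat_lit 144) (nat_lit 140) (nat_lit 106)))) (PT.nd (nat_lit 78) (PT.lf (nat_lit 1824) (nat_lit 6) (nat_lit 24) (nat_lit 5) (nat_lit 105) (nat_lit 141) (nat_lit 144)) (PT.nd (nat_lit 78) (PT.lf (nat_lit 2052) (nat_lit 6) (nat_lit 27) (nat_lit 5) (nat_lit 106) (nat_lit 141) (nat_lit 143)) (PT.lf (nat_lit 2280) (nat_lit 6) (nat_lit 30) (nat_lit 5) (nat_lit 107) (nat_lit 141) (nat_lit 142)))))) (PT.nd (nat_lit 390) (PT.nd (nat_lit 156) (PT.nd (nat_lit 78) (PT.lf (nat_lit 2508) (nat_lit 3) (nat_lit 33) (nat_lit 4) (nat_lit 108) (nat_lit 141) (nat_lit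 141)) (PT.lf (nat_lit 2736) (nat_lit 6) (nat_lit 36) (nat_lit 4) (nat_lit 109) (nat_lit 141) (nat_lit 140))) (PT.nd (nat_lit 78) (PT.lf (nat_lit 2888) (nat_lit 6) (nat_lit 38) (nat_lit 4) (nat_lit 110) (nat_lit 141) (nat_lit 139)) (PT.nd (nat_lit 78) (PT.lf (nat_lit 3116) (nat_lit 6) (nat_lit 41) (nat_lit 4) (nat_lit 111) (nat_lit 141) (nat_lit 138)) (PT.lf (nat_lit 3268) (nat_lit 6) (nat_lit 43) (nat_lit 4) (nat_lit 112) (nat_lit 141) (nat_lit 137))))) (PT.nd (nat_lit 1638) (PT.nd (nat_lit 78) (PT.lf (nat_lit 3496) (nat_lit 6) (nat_lit 46) (nat_lit 4) (nat_lit 113) (nat_lit 141) (nat_lit 136)) (PT.nd (nat_lit 78) (PT.lf (nat_lit 3724) (nat_lit 6) (nat_lit 49) (nat_lit 4) (nat_lit 114) (nat_lit 141) (nat_lit 135)) (PT.lf (nat_lit 4028) (nat_lit 6) (nat_lit 53) (nat_lit 4) (nat_lit 115) (nat_lit 141) (nat_lit 134)))) (PT.nd (nat_lit 78) (PT.lf (nat_lit 4028) (nat_lit 6) (nat_lit 53) (nat_lit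 2) (nat_lit 134) (nat_lit 141) (nat_lit 115)) (PT.nd (nat_lit 78) (PT.lf (nat_lit 3724) (nat_lit 6) (nat_lit 49) (nat_lit 2) (nat_lit 135) (nat_lit 141) (nat_lit 114)) (PT.lf (nat_lit 3496) (nat_lit 6) (nat_lit 46) (nat_lit 2) (nat_lit 136) (nat_lit 141) (nat_lit 113))))))) (PT.nd (nat_lit 38220) (PT.nd (nat_lit 390) (PT.nd (nat_lit 156) (PT.nd (nat_lit 78) (PT.lf (nat_lit 3268) (nat_lit 6) (nat_lit 43) (nat_lit 2) (nat_lit 137) (nat_lit 141) (nat_lit 112)) (PT.lf (nat_lit 3116) (nat_lit 6) (nat_lit 41) (nat_lit 2) (nat_lit 138) (nat_lit 141) (nat_lit 111))) (PT.nd (nat_lit 78) (PT.lf (nat_lit 2888) (nat_lit 6) (nat_lit 38) (nat_lit 2) (nat_lit 139) (nat_lit 141) (nat_lit 110)) (PT.nd (nat_lit 78) (PT.lf (nat_lit 2736) (nat_lit 6) (nat_lit 36) (nat_lit 2) (nat_lit 140) (nat_lit 141) (nat_lit 109)) (PT.lf (nat_lit 2508) (nat_lit 3) (nat_lit 33) (nat_lit 0) (nat_lit 141) (nat_lit 141) (nat_lit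 108))))) (PT.nd (nat_lit 37596) (PT.nd (nat_lit 78) (PT.lf (nat_lit 2280) (nat_lit 6) (nat_lit 30) (nat_lit 0) (nat_lit 142) (nat_lit 141) (nat_lit 107)) (PT.nd (nat_lit 78) (PT.lf (nat_lit 2052) (nat_lit 6) (nat_lit 27) (nat_lit 0) (nat_lit 143) (nat_lit 141) (nat_lit 106)) (PT.lf (nat_lit 1824) (nat_lit 6) (nat_lit 24) (nat_lit 0) (nat_lit 144) (nat_lit 141) (nat_lit 105)))) (PT.nd (nat_lit 78) (PT.lf (nat_lit 1520) (nat_lit 6) (nat_lit 20) (nat_lit 5) (nat_lit 103) (nat_lit 142) (nat_lit 145)) (PT.nd (nat_lit 78) (PT.lf (nat_lit 1672) (nat_lit 6) (nat_lit 22) (nat_lit 5) (nat_lit 104) (nat_lit 142) (nat_lit 144)) (PT.lf (nat_lit 1900) (nat_lit 6) (nat_lit 25) (nat_lit 5) (nat_lit 105) (nat_lit 142) (nat_lit 143)))))) (PT.nd (nat_lit 390) (PT.nd (nat_lit 156) (PT.nd (nat_lit 78) (PT.lf (nat_lit 2128) (nat_lit 3) (nat_lit 28) (nat_lit 4) (nat_lit 106) (nat_lit 142) (nat_lit 142)) (PT.lf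 (nat_lit 2280) (nat_lit 6) (nat_lit 30) (nat_lit 4) (nat_lit 107) (nat_lit 142) (nat_lit 141))) (PT.nd (nat_lit 78) (PT.lf (nat_lit 2432) (nat_lit 6) (nat_lit 32) (nat_lit 4) (nat_lit 108) (nat_lit 142) (nat_lit 140)) (PT.nd (nat_lit 78) (PT.lf (nat_lit 2660) (nat_lit 6) (nat_lit 35) (nat_lit 4) (nat_lit 109) (nat_lit 142) (nat_lit 139)) (PT.lf (nat_lit 2812) (nat_lit 6) (nat_lit 37) (nat_lit 4) (nat_lit 110) (nat_lit 142) (nat_lit 138))))) (PT.nd (nat_lit 2184) (PT.nd (nat_lit 2028) (PT.lf (nat_lit 3040) (nat_lit 6) (nat_lit 40) (nat_lit 4) (nat_lit 111) (nat_lit 142) (nat_lit 137)) (PT.nd (nat_lit 78) (PT.lf (nat_lit 3040) (nat_lit 6) (nat_lit 40) (nat_lit 2) (nat_lit 137) (nat_lit 142) (nat_lit 111)) (PT.lf (nat_lit 2812) (nat_lit 6) (nat_lit 37) (nat_lit 2) (nat_lit 138) (nat_lit 142) (nat_lit 110)))) (PT.nd (nat_lit 78) (PT.lf (nat_lit 2660) (nat_lit 6) (nat_lit 35) (nat_lit 2) (nat_lit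 139) (nat_lit 142) (nat_lit 109)) (PT.nd (nat_lit 78) (PT.lf (nat_lit 2432) (nat_lit 6) (nat_lit 32) (nat_lit 2) (nat_lit 140) (nat_lit 142) (nat_lit 108)) (PT.lf (nat_lit 2280) (nat_lit 6) (nat_lit 30) (nat_lit 2) (nat_lit 141) (nat_lit 142) (nat_lit 107))))))))
noncomputable def pc14 : PT := (PT.nd (nat_lit 78000) (PT.nd (nat_lit 37986) (PT.nd (nat_lit 37518) (PT.nd (nat_lit 156) (PT.nd (nat_lit 78) (PT.lf (nat_lit 2128) (nat_lit 3) (nat_lit 28) (nat_lit 0) (nat_lit 142) (nat_lit 142) (nat_lit 106)) (PT.lf (nat_lit 1900) (nat_lit 6) (nat_lit 25) (nat_lit 0) (nat_lit 143) (nat_lit 142) (nat_lit 105))) (PT.nd (nat_lit 78) (PT.lf (nat_lit 1672) (nat_lit 6) (nat_lit 22) (nat_lit 0) (nat_lit 144) (nat_lit 142) (nat_lit 104)) (PT.nd (nat_lit 37206) (PT.lf (nat_lit 1520) (nat_lit 6) (nat_lit 20) (nat_lit 0) (nat_lit 145) (nat_lit 142) (nat_lit 103)) (PT.lf (nat_lit 1216) (nat_lit 6) (nat_lit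 16) (nat_lit 5) (nat_lit 101) (nat_lit 143) (nat_lit 146))))) (PT.nd (nat_lit 234) (PT.nd (nat_lit 78) (PT.lf (nat_lit 1368) (nat_lit 6) (nat_lit 18) (nat_lit 5) (nat_lit 102) (nat_lit 143) (nat_lit 145)) (PT.nd (nat_lit 78) (PT.lf (nat_lit 1596) (nat_lit 6) (nat_lit 21) (nat_lit 5) (nat_lit 103) (nat_lit 143) (nat_lit 144)) (PT.lf (nat_lit 1748) (nat_lit 3) (nat_lit 23) (nat_lit 4) (nat_lit 104) (nat_lit 143) (nat_lit 143)))) (PT.nd (nat_lit 78) (PT.lf (nat_lit 1900) (nat_lit 6) (nat_lit 25) (nat_lit 4) (nat_lit 105) (nat_lit 143) (nat_lit 142)) (PT.nd (nat_lit 78) (PT.lf (nat_lit 2052) (nat_lit 6) (nat_lit 27) (nat_lit 4) (nat_lit 106) (nat_lit 143) (nat_lit 141)) (PT.lf (nat_lit 2204) (nat_lit 6) (nat_lit 29) (nat_lit 4) (nat_lit 107) (nat_lit 143) (nat_lit 140)))))) (PT.nd (nat_lit 2574) (PT.nd (nat_lit 2340) (PT.nd (nat_lit 78) (PT.lf (nat_lit 2356) (nat_lit 6) (nat_lit 31) (nat_lit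 4) (nat_lit 108) (nat_lit 143) (nat_lit 139)) (PT.lf (nat_lit 2584) (nat_lit 6) (nat_lit 34) (nat_lit 4) (nat_lit 109) (nat_lit 143) (nat_lit 138))) (PT.nd (nat_lit 78) (PT.lf (nat_lit 2584) (nat_lit 6) (nat_lit 34) (nat_lit 2) (nat_lit 138) (nat_lit 143) (nat_lit 109)) (PT.nd (nat_lit 78) (PT.lf (nat_lit 2356) (nat_lit 6) (nat_lit 31) (nat_lit 2) (nat_lit 139) (nat_lit 143) (nat_lit 108)) (PT.lf (nat_lit 2204) (nat_lit 6) (nat_lit 29) (nat_lit 2) (nat_lit 140) (nat_lit 143) (nat_lit 107))))) (PT.nd (nat_lit 234) (PT.nd (nat_lit 78) (PT.lf (nat_lit 2052) (nat_lit 6) (nat_lit 27) (nat_lit 2) (nat_lit 141) (nat_lit 143) (nat_lit 106)) (PT.nd (nat_lit 78) (PT.lf (nat_lit 1900) (nat_lit 6) (nat_lit 25) (nat_lit 2) (nat_lit 142) (nat_lit 143) (nat_lit 105)) (PT.lf (nat_lit 1748) (nat_lit 3) (nat_lit 23) (nat_lit 0) (nat_lit 143) (nat_lit 143) (nat_lit 104)))) (PT.nd (nat_lit 78) (PT.lf (nat_lit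 1596) (nat_lit 6) (nat_lit 21) (nat_lit 0) (nat_lit 144) (nat_lit 143) (nat_lit 103)) (PT.nd (nat_lit 78) (PT.lf (nat_lit 1368) (nat_lit 6) (nat_lit 18) (nat_lit 0) (nat_lit 145) (nat_lit 143) (nat_lit 102)) (PT.lf (nat_lit 1216) (nat_lit 6) (nat_lit 16) (nat_lit 0) (nat_lit 146) (nat_lit 143) (nat_lit 101))))))) (PT.nd (nat_lit 3432) (PT.nd (nat_lit 390) (PT.nd (nat_lit 156) (PT.nd (nat_lit 78) (PT.lf (nat_lit 1064) (nat_lit 6) (nat_lit 14) (nat_lit 5) (nat_lit 100) (nat_lit 144) (nat_lit 146)) (PT.lf (nat_lit 1292) (nat_lit 6) (nat_lit 17) (nat_lit 5) (nat_lit 101) (nat_lit 144) (nat_lit 145))) (PT.nd (nat_lit 78) (PT.lf (nat_lit 1444) (nat_lit 3) (nat_lit 19) (nat_lit 4) (nat_lit 102) (nat_lit 144) (nat_lit 144)) (PT.nd (nat_lit 78) (PT.lf (nat_lit 1596) (nat_lit 6) (nat_lit 21) (nat_lit 4) (nat_lit 103) (nat_lit 144) (nat_lit 143)) (PT.lf (nat_lit 1672) (nat_lit 6) (nat_lit 22) (nat_lit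 4) (nat_lit 104) (nat_lit 144) (nat_lit 142))))) (PT.nd (nat_lit 2808) (PT.nd (nat_lit 78) (PT.lf (nat_lit 1824) (nat_lit 6) (nat_lit 24) (nat_lit 4) (nat_lit 105) (nat_lit 144) (nat_lit 141)) (PT.nd (nat_lit 2652) (PT.lf (nat_lit 1976) (nat_lit 6) (nat_lit 26) (nat_lit 4) (nat_lit 106) (nat_lit 144) (nat_lit 140)) (PT.lf (nat_lit 1976) (nat_lit 6) (nat_lit 26) (nat_lit 2) (nat_lit 140) (nat_lit 144) (nat_lit 106)))) (PT.nd (nat_lit 78) (PT.lf (nat_lit 1824) (nat_lit 6) (nat_lit 24) (nat_lit 2) (nat_lit 141) (nat_lit 144) (nat_lit 105)) (PT.nd (nat_lit 78) (PT.lf (nat_lit 1672) (nat_lit 6) (nat_lit 22) (nat_lit 2) (nat_lit 142) (nat_lit 144) (nat_lit 104)) (PT.lf (nat_lit 1596) (nat_lit 6) (nat_lit 21) (nat_lit 2) (nat_lit 143) (nat_lit 144) (nat_lit 103)))))) (PT.nd (nat_lit 37206) (PT.nd (nat_lit 156) (PT.nd (nat_lit 78) (PT.lf (nat_lit 1444) (nat_lit 3) (nat_lit 19) (nat_lit 0) (nat_lit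 144) (nat_lit 144) (nat_lit 102)) (PT.lf (nat_lit 1292) (nat_lit 6) (nat_lit 17) (nat_lit 0) (nat_lit 145) (nat_lit 144) (nat_lit 101))) (PT.nd (nat_lit 36894) (PT.lf (nat_lit 1064) (nat_lit 6) (nat_lit 14) (nat_lit 0) (nat_lit 146) (nat_lit 144) (nat_lit 100)) (PT.nd (nat_lit 78) (PT.lf (nat_lit 836) (nat_lit 6) (nat_lit 11) (nat_lit 5) (nat_lit 98) (nat_lit 145) (nat_lit 147)) (PT.lf (nat_lit 988) (nat_lit 6) (nat_lit 13) (nat_lit 5) (nat_lit 99) (nat_lit 145) (nat_lit 146))))) (PT.nd (nat_lit 234) (PT.nd (nat_lit 78) (PT.lf (nat_lit 1140) (nat_lit 3) (nat_lit 15) (nat_lit 4) (nat_lit 100) (nat_lit 145) (nat_lit 145)) (PT.nd (nat_lit 78) (PT.lf (nat_lit 1292) (nat_lit 6) (nat_lit 17) (nat_lit 4) (nat_lit 101) (nat_lit 145) (nat_lit 144)) (PT.lf (nat_lit 1368) (nat_lit 6) (nat_lit 18) (nat_lit 4) (nat_lit 102) (nat_lit 145) (nat_lit 143)))) (PT.nd (nat_lit 3042) (PT.lf (nat_lit 1520) (nat_lit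 6) (nat_lit 20) (nat_lit 4) (nat_lit 103) (nat_lit 145) (nat_lit 142)) (PT.nd (nat_lit 78) (PT.lf (nat_lit 1520) (nat_lit 6) (nat_lit 20) (nat_lit 2) (nat_lit 142) (nat_lit 145) (nat_lit 103)) (PT.lf (nat_lit 1368) (nat_lit 6) (nat_lit 18) (nat_lit 2) (nat_lit 143) (nat_lit 145) (nat_lit 102))))))))
noncomputable def pc15 : PT := (PT.nd (nat_lit 81432) (PT.nd (nat_lit 40638) (PT.nd (nat_lit 36972) (PT.nd (nat_lit 156) (PT.nd (nat_lit 78) (PT.lf (nat_lit 1292) (nat_lit 6) (nat_lit 17) (nat_lit 2) (nat_lit 144) (nat_lit 145) (nat_lit 101)) (PT.lf (nat_lit 1140) (nat_lit 3) (nat_lit 15) (nat_lit 0) (nat_lit 145) (nat_lit 145) (nat_lit 100))) (PT.nd (nat_lit 78) (PT.lf (nat_lit 988) (nat_lit 6) (nat_lit 13) (nat_lit 0) (nat_lit 146) (nat_lit 145) (nat_lit 99)) (PT.nd (nat_lit 36660) (PT.lf (nat_lit 836) (nat_lit 6) (nat_lit 11) (nat_lit 0) (nat_lit 147) (nat_lit 145) (nat_lit 98)) (PT.lf (nat_lit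 608) (nat_lit 6) (nat_lit 8) (nat_lit 5) (nat_lit 96) (nat_lit 146) (nat_lit 148))))) (PT.nd (nat_lit 234) (PT.nd (nat_lit 78) (PT.lf (nat_lit 760) (nat_lit 6) (nat_lit 10) (nat_lit 5) (nat_lit 97) (nat_lit 146) (nat_lit 147)) (PT.nd (nat_lit 78) (PT.lf (nat_lit 912) (nat_lit 3) (nat_lit 12) (nat_lit 4) (nat_lit 98) (nat_lit 146) (nat_lit 146)) (PT.lf (nat_lit 988) (nat_lit 6) (nat_lit 13) (nat_lit 4) (nat_lit 99) (nat_lit 146) (nat_lit 145)))) (PT.nd (nat_lit 78) (PT.lf (nat_lit 1064) (nat_lit 6) (nat_lit 14) (nat_lit 4) (nat_lit 100) (nat_lit 146) (nat_lit 144)) (PT.nd (nat_lit 3276) (PT.lf (nat_lit 1216) (nat_lit 6) (nat_lit 16) (nat_lit 4) (nat_lit 101) (nat_lit 146) (nat_lit 143)) (PT.lf (nat_lit 1216) (nat_lit 6) (nat_lit 16) (nat_lit 2) (nat_lit 143) (nat_lit 146) (nat_lit 101)))))) (PT.nd (nat_lit 36738) (PT.nd (nat_lit 156) (PT.nd (nat_lit 78) (PT.lf (nat_lit 1064) (nat_lit 6) (nat_lit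 14) (nat_lit 2) (nat_lit 144) (nat_lit 146) (nat_lit 100)) (PT.lf (nat_lit 988) (nat_lit 6) (nat_lit 13) (nat_lit 2) (nat_lit 145) (nat_lit 146) (nat_lit 99))) (PT.nd (nat_lit 78) (PT.lf (nat_lit 912) (nat_lit 3) (nat_lit 12) (nat_lit 0) (nat_lit 146) (nat_lit 146) (nat_lit 98)) (PT.nd (nat_lit 78) (PT.lf (nat_lit 760) (nat_lit 6) (nat_lit 10) (nat_lit 0) (nat_lit 147) (nat_lit 146) (nat_lit 97)) (PT.lf (nat_lit 608) (nat_lit 6) (nat_lit 8) (nat_lit 0) (nat_lit 148) (nat_lit 146) (nat_lit 96))))) (PT.nd (nat_lit 234) (PT.nd (nat_lit 78) (PT.lf (nat_lit 380) (nat_lit 6) (nat_lit 5) (nat_lit 5) (nat_lit 94) (nat_lit 147) (nat_lit 149)) (PT.nd (nat_lit 78) (PT.lf (nat_lit 532) (nat_lit 6) (nat_lit 7) (nat_lit 5) (nat_lit 95) (nat_lit 147) (nat_lit 148)) (PT.lf (nat_lit 684) (nat_lit 3) (nat_lit 9) (nat_lit 4) (nat_lit 96) (nat_lit 147) (nat_lit 147)))) (PT.nd (nat_lit 78) (PT.lf (nat_lit 760)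 (nat_lit 6) (nat_lit 10) (nat_lit 4) (nat_lit 97) (nat_lit 147) (nat_lit 146)) (PT.nd (nat_lit 3666) (PT.lf (nat_lit 836) (nat_lit 6) (nat_lit 11) (nat_lit 4) (nat_lit 98) (nat_lit 147) (nat_lit 145)) (PT.lf (nat_lit 836) (nat_lit 6) (nat_lit 11) (nat_lit 2) (nat_lit 145) (nat_lit 147) (nat_lit 98))))))) (PT.nd (nat_lit 40872) (PT.nd (nat_lit 36582) (PT.nd (nat_lit 156) (PT.nd (nat_lit 78) (PT.lf (nat_lit 760) (nat_lit 6) (nat_lit 10) (nat_lit 2) (nat_lit 146) (nat_lit 147) (nat_lit 97)) (PT.lf (nat_lit 684) (nat_lit 3) (nat_lit 9) (nat_lit 0) (nat_lit 147) (nat_lit 147) (nat_lit 96))) (PT.nd (nat_lit 78) (PT.lf (nat_lit 532) (nat_lit 6) (nat_lit 7) (nat_lit 0) (nat_lit 148) (nat_lit 147) (nat_lit 95)) (PT.nd (nat_lit 36270) (PT.lf (nat_lit 380) (nat_lit 6) (nat_lit 5) (nat_lit 0) (nat_lit 149) (nat_lit 147) (nat_lit 94)) (PT.lf (nat_lit 304) (nat_lit 6) (nat_lit 4) (nat_lit 5) (nat_lit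 93) (nat_lit 148) (nat_lit 149))))) (PT.nd (nat_lit 4056) (PT.nd (nat_lit 78) (PT.lf (nat_lit 456) (nat_lit 3) (nat_lit 6) (nat_lit 4) (nat_lit 94) (nat_lit 148) (nat_lit 148)) (PT.nd (nat_lit 78) (PT.lf (nat_lit 532) (nat_lit 6) (nat_lit 7) (nat_lit 4) (nat_lit 95) (nat_lit 148) (nat_lit 147)) (PT.lf (nat_lit 608) (nat_lit 6) (nat_lit 8) (nat_lit 4) (nat_lit 96) (nat_lit 148) (nat_lit 146)))) (PT.nd (nat_lit 78) (PT.lf (nat_lit 608) (nat_lit 6) (nat_lit 8) (nat_lit 2) (nat_lit 146) (nat_lit 148) (nat_lit 96)) (PT.nd (nat_lit 78) (PT.lf (nat_lit 532) (nat_lit 6) (nat_lit 7) (nat_lit 2) (nat_lit 147) (nat_lit 148) (nat_lit 95)) (PT.lf (nat_lit 456) (nat_lit 3) (nat_lit 6) (nat_lit 0) (nat_lit 148) (nat_lit 148) (nat_lit 94)))))) (PT.nd (nat_lit 40482) (PT.nd (nat_lit 36192) (PT.nd (nat_lit 36114) (PT.lf (nat_lit 304) (nat_lit 6) (nat_lit 4) (nat_lit 0) (nat_lit 149) (nat_lit 148) (nat_lit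 93)) (PT.lf (nat_lit 76) (nat_lit 6) (nat_lit 1) (nat_lit 5) (nat_lit 91) (nat_lit 149) (nat_lit 150))) (PT.nd (nat_lit 78) (PT.lf (nat_lit 228) (nat_lit 3) (nat_lit 3) (nat_lit 4) (nat_lit 92) (nat_lit 149) (nat_lit 149)) (PT.nd (nat_lit 78) (PT.lf (nat_lit 304) (nat_lit 6) (nat_lit 4) (nat_lit 4) (nat_lit 93) (nat_lit 149) (nat_lit 148)) (PT.lf (nat_lit 380) (nat_lit 6) (nat_lit 5) (nat_lit 4) (nat_lit 94) (nat_lit 149) (nat_lit 147))))) (PT.nd (nat_lit 234) (PT.nd (nat_lit 78) (PT.lf (nat_lit 380) (nat_lit 6) (nat_lit 5) (nat_lit 2) (nat_lit 147) (nat_lit 149) (nat_lit 94)) (PT.nd (nat_lit 78) (PT.lf (nat_lit 304) (nat_lit 6) (nat_lit 4) (nat_lit 2) (nat_lit 148) (nat_lit 149) (nat_lit 93)) (PT.lf (nat_lit 228) (nat_lit 3) (nat_lit 3) (nat_lit 0) (nat_lit 149) (nat_lit 149) (nat_lit 92)))) (PT.nd (nat_lit 36036) (PT.lf (nat_lit 76) (nat_lit 6) (nat_lit 1) (nat_lit 0) (nat_lit 150) (nat_lit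 149) (nat_lit 91)) (PT.nd (nat_lit 4524) (PT.lf (nat_lit 76) (nat_lit 6) (nat_lit 1) (nat_lit 4) (nat_lit 91) (nat_lit 150) (nat_lit 149)) (PT.lf (nat_lit 76) (nat_lit 6) (nat_lit 1) (nat_lit 2) (nat_lit 149) (nat_lit 150) (nat_lit 91))))))))
noncomputable def xc0 : XT := (XT.nd (nat_lit 162396) (nat_lit 0) (nat_lit 0) (XT.nd (nat_lit 121524) (nat_lit 0) (nat_lit 0) (XT.nd (nat_lit 80964) (nat_lit 0) (nat_lit 0) (XT.nd (nat_lit 40560) (nat_lit 0) (nat_lit 0) (XT.nd (nat_lit 40404) (nat_lit 0) (nat_lit 0) (XT.lf (nat_lit 0) (nat_lit 37443571454) (nat_lit 152) (nat_lit 114509298332) (nat_lit 0) (nat_lit 37289005532) (nat_lit 1) (nat_lit 5) (nat_lit 3) (nat_lit 4) (nat_lit 1) (nat_lit 4) (nat_lit 363) (nat_lit 209) (nat_lit 208)) (XT.nd (nat_lit 78) (nat_lit 0) (nat_lit 0) (XT.lf (nat_lit 0) (nat_lit 12468821223) (nat_lit 152) (nat_lit 56920985166) (nat_lit 0) (nat_lit 12468821223) (nat_lit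 1) (nat_lit 5) (nat_lit 3) (nat_lit 4) (nat_lit 1) (nat_lit 4) (nat_lit 360) (nat_lit 210) (nat_lit 210)) (XT.lf (nat_lit 0) (nat_lit 29017614756) (nat_lit 152) (nat_lit 113939082555) (nat_lit 0) (nat_lit 28855320538) (nat_lit 1) (nat_lit 5) (nat_lit 3) (nat_lit 4) (nat_lit 1) (nat_lit 4) (nat_lit 361) (nat_lit 210) (nat_lit 209)))) (XT.nd (nat_lit 78) (nat_lit 0) (nat_lit 0) (XT.lf (nat_lit 0) (nat_lit 33207005447) (nat_lit 152) (nat_lit 114217236593) (nat_lit 0) (nat_lit 32890145307) (nat_lit 1) (nat_lit 5) (nat_lit 3) (nat_lit 4) (nat_lit 1) (nat_lit 4) (nat_lit 362) (nat_lit 210) (nat_lit 208)) (XT.nd (nat_lit 40248) (nat_lit 0) (nat_lit 0) (XT.lf (nat_lit 0) (nat_lit 37515789260) (nat_lit 152) (nat_lit 114677094717) (nat_lit 0) (nat_lit 37051723479) (nat_lit 1) (nat_lit 5) (nat_lit 3) (nat_lit 4) (nat_lit 1) (nat_lit 4) (nat_lit 363) (nat_lit 210) (nat_lit 207)) (XT.lf (nat_lit 0) (nat_lit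 8644304064) (nat_lit 152) (nat_lit 57047811579) (nat_lit 0) (nat_lit 8644304064) (nat_lit 1) (nat_lit 5) (nat_lit 3) (nat_lit 4) (nat_lit 1) (nat_lit 4) (nat_lit 358) (nat_lit 211) (nat_lit 211))))) (XT.nd (nat_lit 234) (nat_lit 0) (nat_lit 0) (XT.nd (nat_lit 78) (nat_lit 0) (nat_lit 0) (XT.lf (nat_lit 0) (nat_lit 21127783230) (nat_lit 152) (nat_lit 113925668707) (nat_lit 0) (nat_lit 20957374301) (nat_lit 1) (nat_lit 5) (nat_lit 3) (nat_lit 4) (nat_lit 1) (nat_lit 4) (nat_lit 359) (nat_lit 211) (nat_lit 210)) (XT.nd (nat_lit 78) (nat_lit 0) (nat_lit 0) (XT.lf (nat_lit 0) (nat_lit 25059607842) (nat_lit 152) (nat_lit 113932212048) (nat_lit 0) (nat_lit 24726904695) (nat_lit 1) (nat_lit 5) (nat_lit 3) (nat_lit 4) (nat_lit 1) (nat_lit 4) (nat_lit 360) (nat_lit 211) (nat_lit 209)) (XT.lf (nat_lit 0) (nat_lit 29093443452) (nat_lit 152) (nat_lit 114115268759) (nat_lit 0) (nat_lit 28606174383) (nat_lit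 1) (nat_lit 5) (nat_lit 3) (nat_lit 4) (nat_lit 1) (nat_lit 4) (nat_lit 361) (nat_lit 211) (nat_lit 208)))) (XT.nd (nat_lit 40170) (nat_lit 0) (nat_lit 0) (XT.nd (nat_lit 78) (nat_lit 0) (nat_lit 0) (XT.lf (nat_lit 0) (nat_lit 33238894429) (nat_lit 152) (nat_lit 114475274692) (nat_lit 0) (nat_lit 32604419720) (nat_lit 1) (nat_lit 5) (nat_lit 3) (nat_lit 4) (nat_lit 1) (nat_lit 4) (nat_lit 362) (nat_lit 211) (nat_lit 207)) (XT.lf (nat_lit 0) (nat_lit 37505830896) (nat_lit 152) (nat_lit 115013087002) (nat_lit 0) (nat_lit 36731160339) (nat_lit 1) (nat_lit 5) (nat_lit 3) (nat_lit 4) (nat_lit 1) (nat_lit 4) (nat_lit 363) (nat_lit 211) (nat_lit 206))) (XT.nd (nat_lit 78) (nat_lit 0) (nat_lit 0) (XT.lf (nat_lit 0) (nat_lit 5042090042) (nat_lit 152) (nat_lit 57433786878) (nat_lit 0) (nat_lit 5042090042) (nat_lit 1) (nat_lit 5) (nat_lit 3) (nat_lit 4) (nat_lit 1) (nat_lit 4) (nat_lit 356) (nat_lit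 212) (nat_lit 212)) (XT.lf (nat_lit 0) (nat_lit 13711871019) (nat_lit 152) (nat_lit 114442480055) (nat_lit 0) (nat_lit 13532941643) (nat_lit 1) (nat_lit 5) (nat_lit 3) (nat_lit 4) (nat_lit 1) (nat_lit 4) (nat_lit 357) (nat_lit 212) (nat_lit 211)))))) (XT.nd (nat_lit 40326) (nat_lit 0) (nat_lit 0) (XT.nd (nat_lit 234) (nat_lit 0) (nat_lit 0) (XT.nd (nat_lit 78) (nat_lit 0) (nat_lit 0) (XT.lf (nat_lit 0) (nat_lit 17416671793) (nat_lit 152) (nat_lit 114190376959) (nat_lit 0) (nat_lit 17067333488) (nat_lit 1) (nat_lit 5) (nat_lit 3) (nat_lit 4) (nat_lit 1) (nat_lit 4) (nat_lit 358) (nat_lit 212) (nat_lit 210)) (XT.nd (nat_lit 78) (nat_lit 0) (nat_lit 0) (XT.lf (nat_lit 0) (nat_lit 21207403361) (nat_lit 152) (nat_lit 114110664222) (nat_lit 0) (nat_lit 20695770838) (nat_lit 1) (nat_lit 5) (nat_lit 3) (nat_lit 4) (nat_lit 1) (nat_lit 4) (nat_lit 359) (nat_lit 212) (nat_lit 209)) (XT.lf (nat_lit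 0) (nat_lit 25093091274) (nat_lit 152) (nat_lit 114203152052) (nat_lit 0) (nat_lit 24426892829) (nat_lit 1) (nat_lit 5) (nat_lit 3) (nat_lit 4) (nat_lit 1) (nat_lit 4) (nat_lit 360) (nat_lit 212) (nat_lit 208)))) (XT.nd (nat_lit 78) (nat_lit 0) (nat_lit 0) (XT.lf (nat_lit 0) (nat_lit 29082987170) (nat_lit 152) (nat_lit 114468060659) (nat_lit 0) (nat_lit 28269583085) (nat_lit 1) (nat_lit 5) (nat_lit 3) (nat_lit 4) (nat_lit 1) (nat_lit 4) (nat_lit 361) (nat_lit 212) (nat_lit 207)) (XT.nd (nat_lit 78) (nat_lit 0) (nat_lit 0) (XT.lf (nat_lit 0) (nat_lit 33186590801) (nat_lit 152) (nat_lit 114906020778) (nat_lit 0) (nat_lit 32232990868) (nat_lit 1) (nat_lit 5) (nat_lit 3) (nat_lit 4) (nat_lit 1) (nat_lit 4) (nat_lit 362) (nat_lit 212) (nat_lit 206)) (XT.lf (nat_lit 0) (nat_lit 37413672652) (nat_lit 152) (nat_lit 115518075170) (nat_lit 0) (nat_lit 36326552865) (nat_lit 1) (nat_lit 5) (nat_lit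 3) (nat_lit 4) (nat_lit 1) (nat_lit 4) (nat_lit 363) (nat_lit 212) (nat_lit 205))))) (XT.nd (nat_lit 234) (nat_lit 0) (nat_lit 0) (XT.nd (nat_lit 78) (nat_lit 0) (nat_lit 0) (XT.lf (nat_lit 0) (nat_lit 1634848308) (nat_lit 152) (nat_lit 58068364858) (nat_lit 0) (nat_lit 1634848308) (nat_lit 1) (nat_lit 5) (nat_lit 3) (nat_lit 4) (nat_lit 1) (nat_lit 4) (nat_lit 354) (nat_lit 213) (nat_lit 213)) (XT.nd (nat_lit 78) (nat_lit 0) (nat_lit 0) (XT.lf (nat_lit 0) (nat_lit 6712837474) (nat_lit 152) (nat_lit 115466670192) (nat_lit 0) (nat_lit 6524961629) (nat_lit 1) (nat_lit 5) (nat_lit 3) (nat_lit 4) (nat_lit 1) (nat_lit 4) (nat_lit 355) (nat_lit 213) (nat_lit 212)) (XT.lf (nat_lit 0) (nat_lit 10218646932) (nat_lit 152) (nat_lit 114967065248) (nat_lit 0) (nat_lit 9851841712) (nat_lit 1) (nat_lit 5) (nat_lit 3) (nat_lit 4) (nat_lit 1) (nat_lit 4) (nat_lit 356) (nat_lit 213) (nat_lit 211)))) (XT.nd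 (nat_lit 156) (nat_lit 0) (nat_lit 0) (XT.nd (nat_lit 78) (nat_lit 0) (nat_lit 0) (XT.lf (nat_lit 0) (nat_lit 13795472156) (nat_lit 152) (nat_lit 114636725346) (nat_lit 0) (nat_lit 13258258007) (nat_lit 1) (nat_lit 5) (nat_lit 3) (nat_lit 4) (nat_lit 1) (nat_lit 4) (nat_lit 357) (nat_lit 213) (nat_lit 210)) (XT.lf (nat_lit 0) (nat_lit 17451829396) (nat_lit 152) (nat_lit 114474863963) (nat_lit 0) (nat_lit 16752321029) (nat_lit 1) (nat_lit 5) (nat_lit 3) (nat_lit 4) (nat_lit 1) (nat_lit 4) (nat_lit 358) (nat_lit 213) (nat_lit 209))) (XT.nd (nat_lit 78) (nat_lit 0) (nat_lit 0) (XT.lf (nat_lit 0) (nat_lit 21196424265) (nat_lit 152) (nat_lit 114481095716) (nat_lit 0) (nat_lit 20342349975) (nat_lit 1) (nat_lit 5) (nat_lit 3) (nat_lit 4) (nat_lit 1) (nat_lit 4) (nat_lit 359) (nat_lit 213) (nat_lit 208)) (XT.lf (nat_lit 0) (nat_lit 25038172464) (nat_lit 152) (nat_lit 114655435442) (nat_lit 0) (nat_lit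 24036892535) (nat_lit 1) (nat_lit 5) (nat_lit 3) (nat_lit 4) (nat_lit 1) (nat_lit 4) (nat_lit 360) (nat_lit 213) (nat_lit 207))))))) (XT.nd (nat_lit 40716) (nat_lit 0) (nat_lit 0) (XT.nd (nat_lit 40170) (nat_lit 0) (nat_lit 0) (XT.nd (nat_lit 39936) (nat_lit 0) (nat_lit 0) (XT.nd (nat_lit 78) (nat_lit 0) (nat_lit 0) (XT.lf (nat_lit 0) (nat_lit 28986221014) (nat_lit 152) (nat_lit 114998298235) (nat_lit 0) (nat_lit 27844745237) (nat_lit 1) (nat_lit 5) (nat_lit 3) (nat_lit 4) (nat_lit 1) (nat_lit 4) (nat_lit 361) (nat_lit 213) (nat_lit 206)) (XT.nd (nat_lit 78) (nat_lit 0) (nat_lit 0) (XT.lf (nat_lit 0) (nat_lit 33049970030) (nat_lit 152) (nat_lit 115510500435) (nat_lit 0) (nat_lit 31774974398) (nat_lit 1) (nat_lit 5) (nat_lit 3) (nat_lit 4) (nat_lit 1) (nat_lit 4) (nat_lit 362) (nat_lit 213) (nat_lit 205)) (XT.lf (nat_lit 0) (nat_lit 37239095104) (nat_lit 152) (nat_lit 116193261572) (nat_lit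 0) (nat_lit 35836937706) (nat_lit 1) (nat_lit 5) (nat_lit 3) (nat_lit 4) (nat_lit 1) (nat_lit 4) (nat_lit 363) (nat_lit 213) (nat_lit 204)))) (XT.nd (nat_lit 78) (nat_lit 152) (nat_lit 0) (XT.lf (nat_lit 0) (nat_lit 52562044954) (nat_lit 76) (nat_lit 1586832966) (nat_lit 76) (nat_lit 1586832966) (nat_lit 3) (nat_lit 4) (nat_lit 4) (nat_lit 5) (nat_lit 4) (nat_lit 4) (nat_lit 352) (nat_lit 214) (nat_lit 214)) (XT.nd (nat_lit 78) (nat_lit 76) (nat_lit 0) (XT.lf (nat_lit 0) (nat_lit 79865015) (nat_lit 152) (nat_lit 41061745) (nat_lit 76) (nat_lit 116817187815) (nat_lit 2) (nat_lit 5) (nat_lit 4) (nat_lit 5) (nat_lit 3) (nat_lit 4) (nat_lit 353) (nat_lit 214) (nat_lit 213)) (XT.lf (nat_lit 0) (nat_lit 3410886806) (nat_lit 152) (nat_lit 116241195781) (nat_lit 0) (nat_lit 3025741325) (nat_lit 1) (nat_lit 5) (nat_lit 3) (nat_lit 4) (nat_lit 1) (nat_lit 4) (nat_lit 354) (nat_lit 214) (nat_lit 212)))))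 (XT.nd (nat_lit 234) (nat_lit 0) (nat_lit 0) (XT.nd (nat_lit 78) (nat_lit 0) (nat_lit 0) (XT.lf (nat_lit 0) (nat_lit 6800618668) (nat_lit 152) (nat_lit 115670627747) (nat_lit 0) (nat_lit 6236543811) (nat_lit 1) (nat_lit 5) (nat_lit 3) (nat_lit 4) (nat_lit 1) (nat_lit 4) (nat_lit 355) (nat_lit 214) (nat_lit 211)) (XT.nd (nat_lit 78) (nat_lit 0) (nat_lit 0) (XT.lf (nat_lit 0) (nat_lit 10255562415) (nat_lit 152) (nat_lit 115265776603) (nat_lit 0) (nat_lit 9521078630) (nat_lit 1) (nat_lit 5) (nat_lit 3) (nat_lit 4) (nat_lit 1) (nat_lit 4) (nat_lit 356) (nat_lit 214) (nat_lit 210)) (XT.lf (nat_lit 0) (nat_lit 13783944105) (nat_lit 152) (nat_lit 115025678415) (nat_lit 0) (nat_lit 12887166101) (nat_lit 1) (nat_lit 5) (nat_lit 3) (nat_lit 4) (nat_lit 1) (nat_lit 4) (nat_lit 357) (nat_lit 214) (nat_lit 209)))) (XT.nd (nat_lit 156) (nat_lit 0) (nat_lit 0) (XT.nd (nat_lit 78) (nat_lit 0) (nat_lit 0)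 (XT.lf (nat_lit 0) (nat_lit 17394164646) (nat_lit 152) (nat_lit 114949761523) (nat_lit 0) (nat_lit 16342820720) (nat_lit 1) (nat_lit 5) (nat_lit 3) (nat_lit 4) (nat_lit 1) (nat_lit 4) (nat_lit 358) (nat_lit 214) (nat_lit 208)) (XT.lf (nat_lit 0) (nat_lit 21094819801) (nat_lit 152) (nat_lit 115037845171) (nat_lit 0) (nat_lit 19896270235) (nat_lit 1) (nat_lit 5) (nat_lit 3) (nat_lit 4) (nat_lit 1) (nat_lit 4) (nat_lit 359) (nat_lit 214) (nat_lit 207))) (XT.nd (nat_lit 78) (nat_lit 0) (nat_lit 0) (XT.lf (nat_lit 0) (nat_lit 24894720654) (nat_lit 152) (nat_lit 115290139082) (nat_lit 0) (nat_lit 23555975241) (nat_lit 1) (nat_lit 5) (nat_lit 3) (nat_lit 4) (nat_lit 1) (nat_lit 4) (nat_lit 360) (nat_lit 214) (nat_lit 206)) (XT.lf (nat_lit 0) (nat_lit 28802914589) (nat_lit 152) (nat_lit 115707243957) (nat_lit 0) (nat_lit 27330649320) (nat_lit 1) (nat_lit 5) (nat_lit 3) (nat_lit 4) (nat_lit 1) (nat_lit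 4) (nat_lit 361) (nat_lit 214) (nat_lit 205)))))) (XT.nd (nat_lit 40014) (nat_lit 0) (nat_lit 0) (XT.nd (nat_lit 39780) (nat_lit 0) (nat_lit 76) (XT.nd (nat_lit 78) (nat_lit 0) (nat_lit 0) (XT.lf (nat_lit 0) (nat_lit 32828706828) (nat_lit 152) (nat_lit 116290152902) (nat_lit 0) (nat_lit 31229279793) (nat_lit 1) (nat_lit 5) (nat_lit 3) (nat_lit 4) (nat_lit 1) (nat_lit 4) (nat_lit 362) (nat_lit 214) (nat_lit 204)) (XT.nd (nat_lit 39624) (nat_lit 0) (nat_lit 152) (XT.lf (nat_lit 0) (nat_lit 36981682592) (nat_lit 152) (nat_lit 117040253795) (nat_lit 0) (nat_lit 35261149112) (nat_lit 1) (nat_lit 5) (nat_lit 3) (nat_lit 4) (nat_lit 1) (nat_lit 4) (nat_lit 363) (nat_lit 214) (nat_lit 203)) (XT.lf (nat_lit 0) (nat_lit 41362997536) (nat_lit 76) (nat_lit 4647212592) (nat_lit 76) (nat_lit 4647212592) (nat_lit 3) (nat_lit 4) (nat_lit 4) (nat_lit 5) (nat_lit 4) (nat_lit 4) (nat_lit 350) (nat_lit 215)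 (nat_lit 215)))) (XT.nd (nat_lit 78) (nat_lit 76) (nat_lit 0) (XT.lf (nat_lit 0) (nat_lit 93705737975) (nat_lit 76) (nat_lit 6387999653) (nat_lit 76) (nat_lit 6174652542) (nat_lit 3) (nat_lit 4) (nat_lit 4) (nat_lit 5) (nat_lit 4) (nat_lit 4) (nat_lit 351) (nat_lit 215) (nat_lit 214)) (XT.nd (nat_lit 78) (nat_lit 76) (nat_lit 0) (XT.lf (nat_lit 0) (nat_lit 105018967895) (nat_lit 76) (nat_lit 3435356092) (nat_lit 76) (nat_lit 3018821254) (nat_lit 3) (nat_lit 4) (nat_lit 4) (nat_lit 5) (nat_lit 4) (nat_lit 4) (nat_lit 352) (nat_lit 215) (nat_lit 213)) (XT.lf (nat_lit 0) (nat_lit 177058745) (nat_lit 152) (nat_lit 250617703) (nat_lit 76) (nat_lit 116513774399) (nat_lit 2) (nat_lit 5) (nat_lit 4) (nat_lit 5) (nat_lit 3) (nat_lit 4) (nat_lit 353) (nat_lit 215) (nat_lit 212))))) (XT.nd (nat_lit 234) (nat_lit 0) (nat_lit 0) (XT.nd (nat_lit 78) (nat_lit 0) (nat_lit 0) (XT.lf (nat_lit 0) (nat_lit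 3449648064) (nat_lit 152) (nat_lit 116554842703) (nat_lit 0) (nat_lit 2678440089) (nat_lit 1) (nat_lit 5) (nat_lit 3) (nat_lit 4) (nat_lit 1) (nat_lit 4) (nat_lit 354) (nat_lit 215) (nat_lit 211)) (XT.nd (nat_lit 78) (nat_lit 0) (nat_lit 0) (XT.lf (nat_lit 0) (nat_lit 6788514214) (nat_lit 152) (nat_lit 116079028470) (nat_lit 0) (nat_lit 5846897310) (nat_lit 1) (nat_lit 5) (nat_lit 3) (nat_lit 4) (nat_lit 1) (nat_lit 4) (nat_lit 355) (nat_lit 215) (nat_lit 210)) (XT.lf (nat_lit 0) (nat_lit 10195014427) (nat_lit 152) (nat_lit 115764419040) (nat_lit 0) (nat_lit 9091103305) (nat_lit 1) (nat_lit 5) (nat_lit 3) (nat_lit 4) (nat_lit 1) (nat_lit 4) (nat_lit 356) (nat_lit 215) (nat_lit 209)))) (XT.nd (nat_lit 156) (nat_lit 0) (nat_lit 0) (XT.nd (nat_lit 78) (nat_lit 0) (nat_lit 0) (XT.lf (nat_lit 0) (nat_lit 13677259418) (nat_lit 152) (nat_lit 115610265342) (nat_lit 0) (nat_lit 12418782374) (nat_lit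 1) (nat_lit 5) (nat_lit 3) (nat_lit 4) (nat_lit 1) (nat_lit 4) (nat_lit 357) (nat_lit 215) (nat_lit 208)) (XT.lf (nat_lit 0) (nat_lit 17243540245) (nat_lit 152) (nat_lit 115616200345) (nat_lit 0) (nat_lit 15837857561) (nat_lit 1) (nat_lit 5) (nat_lit 3) (nat_lit 4) (nat_lit 1) (nat_lit 4) (nat_lit 358) (nat_lit 215) (nat_lit 207))) (XT.nd (nat_lit 78) (nat_lit 0) (nat_lit 0) (XT.lf (nat_lit 0) (nat_lit 20902348055) (nat_lit 152) (nat_lit 115782238179) (nat_lit 0) (nat_lit 19356469523) (nat_lit 1) (nat_lit 5) (nat_lit 3) (nat_lit 4) (nat_lit 1) (nat_lit 4) (nat_lit 359) (nat_lit 215) (nat_lit 206)) (XT.lf (nat_lit 0) (nat_lit 24662394293) (nat_lit 152) (nat_lit 116108774172) (nat_lit 0) (nat_lit 22982995906) (nat_lit 1) (nat_lit 5) (nat_lit 3) (nat_lit 4) (nat_lit 1) (nat_lit 4) (nat_lit 360) (nat_lit 215) (nat_lit 205))))))))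
noncomputable def xc1 : XT := (XT.nd (nat_lit 80652) (nat_lit 0) (nat_lit 0) (XT.nd (nat_lit 40404) (nat_lit 0) (nat_lit 0) (XT.nd (nat_lit 39858) (nat_lit 0) (nat_lit 0) (XT.nd (nat_lit 39624) (nat_lit 0) (nat_lit 152) (XT.nd (nat_lit 78) (nat_lit 0) (nat_lit 0) (XT.lf (nat_lit 0) (nat_lit 28532631450) (nat_lit 152) (nat_lit 116596585792) (nat_lit 0) (nat_lit 26726071297) (nat_lit 1) (nat_lit 5) (nat_lit 3) (nat_lit 4) (nat_lit 1) (nat_lit 4) (nat_lit 361) (nat_lit 215) (nat_lit 204)) (XT.nd (nat_lit 78) (nat_lit 0) (nat_lit 0) (XT.lf (nat_lit 0) (nat_lit 32522274379) (nat_lit 152) (nat_lit 117246834493) (nat_lit 0) (nat_lit 30594607781) (nat_lit 1) (nat_lit 5) (nat_lit 3) (nat_lit 4) (nat_lit 1) (nat_lit 4) (nat_lit 362) (nat_lit 215) (nat_lit 203)) (XT.lf (nat_lit 0) (nat_lit 36640822227) (nat_lit 152) (nat_lit 118061068488) (nat_lit 0) (nat_lit 34597816158) (nat_lit 1) (nat_lit 5) (nat_lit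 3) (nat_lit 4) (nat_lit 1) (nat_lit 4) (nat_lit 363) (nat_lit 215) (nat_lit 202)))) (XT.nd (nat_lit 78) (nat_lit 0) (nat_lit 0) (XT.lf (nat_lit 0) (nat_lit 30889515062) (nat_lit 76) (nat_lit 7583462543) (nat_lit 76) (nat_lit 7583462543) (nat_lit 3) (nat_lit 4) (nat_lit 4) (nat_lit 5) (nat_lit 4) (nat_lit 4) (nat_lit 348) (nat_lit 216) (nat_lit 216)) (XT.nd (nat_lit 78) (nat_lit 0) (nat_lit 0) (XT.lf (nat_lit 0) (nat_lit 72053596938) (nat_lit 76) (nat_lit 12385567211) (nat_lit 76) (nat_lit 12161552744) (nat_lit 3) (nat_lit 4) (nat_lit 4) (nat_lit 5) (nat_lit 4) (nat_lit 4) (nat_lit 349) (nat_lit 216) (nat_lit 215)) (XT.lf (nat_lit 0) (nat_lit 82615616956) (nat_lit 76) (nat_lit 9569199850) (nat_lit 76) (nat_lit 9131838271) (nat_lit 3) (nat_lit 4) (nat_lit 4) (nat_lit 5) (nat_lit 4) (nat_lit 4) (nat_lit 350) (nat_lit 216) (nat_lit 214))))) (XT.nd (nat_lit 234) (nat_lit 76) (nat_lit 0) (XT.nd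 (nat_lit 78) (nat_lit 76) (nat_lit 0) (XT.lf (nat_lit 0) (nat_lit 93490237846) (nat_lit 76) (nat_lit 6711117366) (nat_lit 76) (nat_lit 6070568061) (nat_lit 3) (nat_lit 4) (nat_lit 4) (nat_lit 5) (nat_lit 4) (nat_lit 4) (nat_lit 351) (nat_lit 216) (nat_lit 213)) (XT.nd (nat_lit 78) (nat_lit 76) (nat_lit 0) (XT.lf (nat_lit 0) (nat_lit 104703351560) (nat_lit 76) (nat_lit 3804514801) (nat_lit 76) (nat_lit 2970453376) (nat_lit 3) (nat_lit 4) (nat_lit 4) (nat_lit 5) (nat_lit 4) (nat_lit 4) (nat_lit 352) (nat_lit 216) (nat_lit 212)) (XT.lf (nat_lit 0) (nat_lit 172454819) (nat_lit 152) (nat_lit 668275397) (nat_lit 76) (nat_lit 116107459715) (nat_lit 2) (nat_lit 5) (nat_lit 4) (nat_lit 5) (nat_lit 3) (nat_lit 4) (nat_lit 353) (nat_lit 216) (nat_lit 211)))) (XT.nd (nat_lit 156) (nat_lit 0) (nat_lit 0) (XT.nd (nat_lit 78) (nat_lit 0) (nat_lit 0) (XT.lf (nat_lit 0) (nat_lit 3386072677) (nat_lit 152)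 (nat_lit 117078417263) (nat_lit 0) (nat_lit 2226965998) (nat_lit 1) (nat_lit 5) (nat_lit 3) (nat_lit 4) (nat_lit 1) (nat_lit 4) (nat_lit 354) (nat_lit 216) (nat_lit 210)) (XT.lf (nat_lit 0) (nat_lit 6676495293) (nat_lit 152) (nat_lit 116692844744) (nat_lit 0) (nat_lit 5355094397) (nat_lit 1) (nat_lit 5) (nat_lit 3) (nat_lit 4) (nat_lit 1) (nat_lit 4) (nat_lit 355) (nat_lit 216) (nat_lit 209))) (XT.nd (nat_lit 78) (nat_lit 0) (nat_lit 0) (XT.lf (nat_lit 0) (nat_lit 10036858807) (nat_lit 152) (nat_lit 116464179803) (nat_lit 0) (nat_lit 8560891989) (nat_lit 1) (nat_lit 5) (nat_lit 3) (nat_lit 4) (nat_lit 1) (nat_lit 4) (nat_lit 356) (nat_lit 216) (nat_lit 208)) (XT.lf (nat_lit 0) (nat_lit 13475164084) (nat_lit 152) (nat_lit 116391878001) (nat_lit 0) (nat_lit 11851991626) (nat_lit 1) (nat_lit 5) (nat_lit 3) (nat_lit 4) (nat_lit 1) (nat_lit 4) (nat_lit 357) (nat_lit 216) (nat_lit 207)))))) (XT.nd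 (nat_lit 39702) (nat_lit 0) (nat_lit 152) (XT.nd (nat_lit 234) (nat_lit 0) (nat_lit 0) (XT.nd (nat_lit 78) (nat_lit 0) (nat_lit 0) (XT.lf (nat_lit 0) (nat_lit 16999597565) (nat_lit 152) (nat_lit 116475767190) (nat_lit 0) (nat_lit 15236229259) (nat_lit 1) (nat_lit 5) (nat_lit 3) (nat_lit 4) (nat_lit 1) (nat_lit 4) (nat_lit 358) (nat_lit 216) (nat_lit 206)) (XT.nd (nat_lit 78) (nat_lit 0) (nat_lit 0) (XT.lf (nat_lit 0) (nat_lit 20618550759) (nat_lit 152) (nat_lit 116716047105) (nat_lit 0) (nat_lit 18721662598) (nat_lit 1) (nat_lit 5) (nat_lit 3) (nat_lit 4) (nat_lit 1) (nat_lit 4) (nat_lit 359) (nat_lit 216) (nat_lit 205)) (XT.lf (nat_lit 0) (nat_lit 24340640221) (nat_lit 152) (nat_lit 117113289843) (nat_lit 0) (nat_lit 22316590293) (nat_lit 1) (nat_lit 5) (nat_lit 3) (nat_lit 4) (nat_lit 1) (nat_lit 4) (nat_lit 360) (nat_lit 216) (nat_lit 204)))) (XT.nd (nat_lit 78) (nat_lit 0) (nat_lit 0)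 (XT.lf (nat_lit 0) (nat_lit 28174728067) (nat_lit 152) (nat_lit 117668441219) (nat_lit 0) (nat_lit 26029571695) (nat_lit 1) (nat_lit 5) (nat_lit 3) (nat_lit 4) (nat_lit 1) (nat_lit 4) (nat_lit 361) (nat_lit 216) (nat_lit 203)) (XT.nd (nat_lit 78) (nat_lit 0) (nat_lit 0) (XT.lf (nat_lit 0) (nat_lit 32129943080) (nat_lit 152) (nat_lit 118382823023) (nat_lit 0) (nat_lit 29869447237) (nat_lit 1) (nat_lit 5) (nat_lit 3) (nat_lit 4) (nat_lit 1) (nat_lit 4) (nat_lit 362) (nat_lit 216) (nat_lit 202)) (XT.lf (nat_lit 0) (nat_lit 36215702438) (nat_lit 152) (nat_lit 119258136162) (nat_lit 0) (nat_lit 33845359480) (nat_lit 1) (nat_lit 5) (nat_lit 3) (nat_lit 4) (nat_lit 1) (nat_lit 4) (nat_lit 363) (nat_lit 216) (nat_lit 201))))) (XT.nd (nat_lit 234) (nat_lit 0) (nat_lit 0) (XT.nd (nat_lit 78) (nat_lit 0) (nat_lit 0) (XT.lf (nat_lit 0) (nat_lit 21058360565) (nat_lit 76) (nat_lit 10415142991) (nat_lit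 76) (nat_lit 10415142991) (nat_lit 3) (nat_lit 4) (nat_lit 4) (nat_lit 5) (nat_lit 4) (nat_lit 4) (nat_lit 346) (nat_lit 217) (nat_lit 217)) (XT.nd (nat_lit 78) (nat_lit 0) (nat_lit 0) (XT.lf (nat_lit 0) (nat_lit 51767453260) (nat_lit 76) (nat_lit 18155110947) (nat_lit 76) (nat_lit 17919895756) (nat_lit 3) (nat_lit 4) (nat_lit 4) (nat_lit 5) (nat_lit 4) (nat_lit 4) (nat_lit 347) (nat_lit 217) (nat_lit 216)) (XT.lf (nat_lit 0) (nat_lit 61663133103) (nat_lit 76) (nat_lit 15455438486) (nat_lit 76) (nat_lit 14996208828) (nat_lit 3) (nat_lit 4) (nat_lit 4) (nat_lit 5) (nat_lit 4) (nat_lit 4) (nat_lit 348) (nat_lit 217) (nat_lit 215)))) (XT.nd (nat_lit 156) (nat_lit 0) (nat_lit 0) (XT.nd (nat_lit 78) (nat_lit 0) (nat_lit 0) (XT.lf (nat_lit 0) (nat_lit 71827321802) (nat_lit 76) (nat_lit 12724840810) (nat_lit 76) (nat_lit 12052264039) (nat_lit 3) (nat_lit 4) (nat_lit 4) (nat_lit 5) (nat_lit 4) (nat_lit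 4) (nat_lit 349) (nat_lit 217) (nat_lit 214)) (XT.lf (nat_lit 0) (nat_lit 82284219805) (nat_lit 76) (nat_lit 9956816495) (nat_lit 76) (nat_lit 9081051999) (nat_lit 3) (nat_lit 4) (nat_lit 4) (nat_lit 5) (nat_lit 4) (nat_lit 4) (nat_lit 350) (nat_lit 217) (nat_lit 213))) (XT.nd (nat_lit 78) (nat_lit 0) (nat_lit 0) (XT.lf (nat_lit 0) (nat_lit 93058724490) (nat_lit 76) (nat_lit 7144775007) (nat_lit 76) (nat_lit 6075498392) (nat_lit 3) (nat_lit 4) (nat_lit 4) (nat_lit 5) (nat_lit 4) (nat_lit 4) (nat_lit 351) (nat_lit 217) (nat_lit 212)) (XT.lf (nat_lit 0) (nat_lit 104176489439) (nat_lit 76) (nat_lit 4282021010) (nat_lit 76) (nat_lit 3028447138) (nat_lit 3) (nat_lit 4) (nat_lit 4) (nat_lit 5) (nat_lit 4) (nat_lit 4) (nat_lit 352) (nat_lit 217) (nat_lit 211))))))) (XT.nd (nat_lit 40092) (nat_lit 0) (nat_lit 0) (XT.nd (nat_lit 468) (nat_lit 0) (nat_lit 0) (XT.nd (nat_lit 234) (nat_lit 0) (nat_lit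 0) (XT.nd (nat_lit 78) (nat_lit 76) (nat_lit 0) (XT.lf (nat_lit 0) (nat_lit 66042275) (nat_lit 152) (nat_lit 1295029250) (nat_lit 76) (nat_lit 115597276347) (nat_lit 2) (nat_lit 5) (nat_lit 4) (nat_lit 5) (nat_lit 3) (nat_lit 4) (nat_lit 353) (nat_lit 217) (nat_lit 210)) (XT.nd (nat_lit 78) (nat_lit 0) (nat_lit 0) (XT.lf (nat_lit 0) (nat_lit 3220009275) (nat_lit 152) (nat_lit 117813166064) (nat_lit 0) (nat_lit 1670244116) (nat_lit 1) (nat_lit 5) (nat_lit 3) (nat_lit 4) (nat_lit 1) (nat_lit 4) (nat_lit 354) (nat_lit 217) (nat_lit 209)) (XT.lf (nat_lit 0) (nat_lit 6464295193) (nat_lit 152) (nat_lit 117513538035) (nat_lit 0) (nat_lit 4759964111) (nat_lit 1) (nat_lit 5) (nat_lit 3) (nat_lit 4) (nat_lit 1) (nat_lit 4) (nat_lit 355) (nat_lit 217) (nat_lit 208)))) (XT.nd (nat_lit 78) (nat_lit 0) (nat_lit 0) (XT.lf (nat_lit 0) (nat_lit 9780718993) (nat_lit 152) (nat_lit 117366724990) (nat_lit 0)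 (nat_lit 7929182272) (nat_lit 1) (nat_lit 5) (nat_lit 3) (nat_lit 4) (nat_lit 1) (nat_lit 4) (nat_lit 356) (nat_lit 217) (nat_lit 207)) (XT.nd (nat_lit 78) (nat_lit 0) (nat_lit 0) (XT.lf (nat_lit 0) (nat_lit 13177176924) (nat_lit 152) (nat_lit 117372377374) (nat_lit 0) (nat_lit 11185444355) (nat_lit 1) (nat_lit 5) (nat_lit 3) (nat_lit 4) (nat_lit 1) (nat_lit 4) (nat_lit 357) (nat_lit 217) (nat_lit 206)) (XT.lf (nat_lit 0) (nat_lit 16661755790) (nat_lit 152) (nat_lit 117530508644) (nat_lit 0) (nat_lit 14536503366) (nat_lit 1) (nat_lit 5) (nat_lit 3) (nat_lit 4) (nat_lit 1) (nat_lit 4) (nat_lit 358) (nat_lit 217) (nat_lit 205))))) (XT.nd (nat_lit 234) (nat_lit 0) (nat_lit 0) (XT.nd (nat_lit 78) (nat_lit 0) (nat_lit 0) (XT.lf (nat_lit 0) (nat_lit 20242752207) (nat_lit 152) (nat_lit 117841495305) (nat_lit 0) (nat_lit 17990338016) (nat_lit 1) (nat_lit 5) (nat_lit 3) (nat_lit 4) (nat_lit 1) (nat_lit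 4) (nat_lit 359) (nat_lit 217) (nat_lit 204)) (XT.nd (nat_lit 78) (nat_lit 0) (nat_lit 0) (XT.lf (nat_lit 0) (nat_lit 23928692357) (nat_lit 152) (nat_lit 118306077799) (nat_lit 0) (nat_lit 21555171722) (nat_lit 1) (nat_lit 5) (nat_lit 3) (nat_lit 4) (nat_lit 1) (nat_lit 4) (nat_lit 360) (nat_lit 217) (nat_lit 203)) (XT.lf (nat_lit 0) (nat_lit 27728352289) (nat_lit 152) (nat_lit 118925362277) (nat_lit 0) (nat_lit 25239492183) (nat_lit 1) (nat_lit 5) (nat_lit 3) (nat_lit 4) (nat_lit 1) (nat_lit 4) (nat_lit 361) (nat_lit 217) (nat_lit 202)))) (XT.nd (nat_lit 39234) (nat_lit 0) (nat_lit 152) (XT.nd (nat_lit 78) (nat_lit 0) (nat_lit 0) (XT.lf (nat_lit 0) (nat_lit 31650778811) (nat_lit 152) (nat_lit 119700823225) (nat_lit 0) (nat_lit 29052071590) (nat_lit 1) (nat_lit 5) (nat_lit 3) (nat_lit 4) (nat_lit 1) (nat_lit 4) (nat_lit 362) (nat_lit 217) (nat_lit 201)) (XT.lf (nat_lit 0) (nat_lit 35705311035)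 (nat_lit 152) (nat_lit 120634306978) (nat_lit 0) (nat_lit 33001987514) (nat_lit 1) (nat_lit 5) (nat_lit 3) (nat_lit 4) (nat_lit 1) (nat_lit 4) (nat_lit 363) (nat_lit 217) (nat_lit 200))) (XT.nd (nat_lit 78) (nat_lit 0) (nat_lit 0) (XT.lf (nat_lit 0) (nat_lit 11793246620) (nat_lit 76) (nat_lit 13160396577) (nat_lit 76) (nat_lit 13160396577) (nat_lit 3) (nat_lit 4) (nat_lit 4) (nat_lit 5) (nat_lit 4) (nat_lit 4) (nat_lit 344) (nat_lit 218) (nat_lit 218)) (XT.lf (nat_lit 0) (nat_lit 32687958780) (nat_lit 76) (nat_lit 23734309010) (nat_lit 76) (nat_lit 23487333060) (nat_lit 3) (nat_lit 4) (nat_lit 4) (nat_lit 5) (nat_lit 4) (nat_lit 4) (nat_lit 345) (nat_lit 218) (nat_lit 217)))))) (XT.nd (nat_lit 546) (nat_lit 152) (nat_lit 0) (XT.nd (nat_lit 234) (nat_lit 0) (nat_lit 0) (XT.nd (nat_lit 78) (nat_lit 0) (nat_lit 0) (XT.lf (nat_lit 0) (nat_lit 41995029258) (nat_lit 76) (nat_lit 21133225053) (nat_lit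 76) (nat_lit 20651033911) (nat_lit 3) (nat_lit 4) (nat_lit 4) (nat_lit 5) (nat_lit 4) (nat_lit 4) (nat_lit 346) (nat_lit 218) (nat_lit 216)) (XT.nd (nat_lit 78) (nat_lit 0) (nat_lit 0) (XT.lf (nat_lit 0) (nat_lit 51529864367) (nat_lit 76) (nat_lit 18511348225) (nat_lit 76) (nat_lit 17805142616) (nat_lit 3) (nat_lit 4) (nat_lit 4) (nat_lit 5) (nat_lit 4) (nat_lit 4) (nat_lit 347) (nat_lit 218) (nat_lit 215)) (XT.lf (nat_lit 0) (nat_lit 61315166094) (nat_lit 76) (nat_lit 15862435963) (nat_lit 76) (nat_lit 14942883242) (nat_lit 3) (nat_lit 4) (nat_lit 4) (nat_lit 5) (nat_lit 4) (nat_lit 4) (nat_lit 348) (nat_lit 218) (nat_lit 214)))) (XT.nd (nat_lit 156) (nat_lit 0) (nat_lit 0) (XT.nd (nat_lit 78) (nat_lit 0) (nat_lit 0) (XT.lf (nat_lit 0) (nat_lit 71374232778) (nat_lit 76) (nat_lit 13180181333) (nat_lit 76) (nat_lit 12057440887) (nat_lit 3) (nat_lit 4) (nat_lit 4) (nat_lit 5) (nat_lit 4) (nat_lit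 4) (nat_lit 349) (nat_lit 218) (nat_lit 213)) (XT.lf (nat_lit 0) (nat_lit 81731014578) (nat_lit 76) (nat_lit 10458198015) (nat_lit 76) (nat_lit 9141945449) (nat_lit 3) (nat_lit 4) (nat_lit 4) (nat_lit 5) (nat_lit 4) (nat_lit 4) (nat_lit 350) (nat_lit 218) (nat_lit 212))) (XT.nd (nat_lit 78) (nat_lit 0) (nat_lit 0) (XT.lf (nat_lit 0) (nat_lit 92410170497) (nat_lit 76) (nat_lit 7690005096) (nat_lit 76) (nat_lit 6189455273) (nat_lit 3) (nat_lit 4) (nat_lit 4) (nat_lit 5) (nat_lit 4) (nat_lit 4) (nat_lit 351) (nat_lit 218) (nat_lit 211)) (XT.lf (nat_lit 0) (nat_lit 103437127097) (nat_lit 76) (nat_lit 4869011640) (nat_lit 76) (nat_lit 3192940620) (nat_lit 3) (nat_lit 4) (nat_lit 4) (nat_lit 5) (nat_lit 4) (nat_lit 4) (nat_lit 352) (nat_lit 218) (nat_lit 210))))) (XT.nd (nat_lit 234) (nat_lit 0) (nat_lit 0) (XT.nd (nat_lit 78) (nat_lit 152) (nat_lit 0) (XT.lf (nat_lit 0) (nat_lit 114838139036)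 (nat_lit 76) (nat_lit 1988500996) (nat_lit 76) (nat_lit 145266931) (nat_lit 3) (nat_lit 4) (nat_lit 4) (nat_lit 5) (nat_lit 4) (nat_lit 4) (nat_lit 353) (nat_lit 218) (nat_lit 209)) (XT.nd (nat_lit 78) (nat_lit 0) (nat_lit 0) (XT.lf (nat_lit 0) (nat_lit 2951062471) (nat_lit 152) (nat_lit 118760838510) (nat_lit 0) (nat_lit 1006948913) (nat_lit 1) (nat_lit 5) (nat_lit 3) (nat_lit 4) (nat_lit 1) (nat_lit 4) (nat_lit 354) (nat_lit 218) (nat_lit 208)) (XT.lf (nat_lit 0) (nat_lit 6151408675) (nat_lit 152) (nat_lit 118543062377) (nat_lit 0) (nat_lit 4060089477) (nat_lit 1) (nat_lit 5) (nat_lit 3) (nat_lit 4) (nat_lit 1) (nat_lit 4) (nat_lit 355) (nat_lit 218) (nat_lit 207)))) (XT.nd (nat_lit 156) (nat_lit 0) (nat_lit 0) (XT.nd (nat_lit 78) (nat_lit 0) (nat_lit 0) (XT.lf (nat_lit 0) (nat_lit 9425985129) (nat_lit 152) (nat_lit 118474203517) (nat_lit 0) (nat_lit 7194470083) (nat_lit 1) (nat_lit 5)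 (nat_lit 3) (nat_lit 4) (nat_lit 1) (nat_lit 4) (nat_lit 356) (nat_lit 218) (nat_lit 206)) (XT.lf (nat_lit 0) (nat_lit 12782588444) (nat_lit 152) (nat_lit 118554097983) (nat_lit 0) (nat_lit 10417553544) (nat_lit 1) (nat_lit 5) (nat_lit 3) (nat_lit 4) (nat_lit 1) (nat_lit 4) (nat_lit 357) (nat_lit 218) (nat_lit 205))) (XT.nd (nat_lit 78) (nat_lit 0) (nat_lit 0) (XT.lf (nat_lit 0) (nat_lit 16229210534) (nat_lit 152) (nat_lit 118782935998) (nat_lit 0) (nat_lit 13737013867) (nat_lit 1) (nat_lit 5) (nat_lit 3) (nat_lit 4) (nat_lit 1) (nat_lit 4) (nat_lit 358) (nat_lit 218) (nat_lit 204)) (XT.lf (nat_lit 0) (nat_lit 19774057640) (nat_lit 152) (nat_lit 119161262415) (nat_lit 0) (nat_lit 17160754528) (nat_lit 1) (nat_lit 5) (nat_lit 3) (nat_lit 4) (nat_lit 1) (nat_lit 4) (nat_lit 359) (nat_lit 218) (nat_lit 203))))))))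
noncomputable def xc2 : XT := (XT.nd (nat_lit 79716) (nat_lit 0) (nat_lit 0) (XT.nd (nat_lit 39936) (nat_lit 0) (nat_lit 0) (XT.nd (nat_lit 39390) (nat_lit 0) (nat_lit 152) (XT.nd (nat_lit 234) (nat_lit 0) (nat_lit 0) (XT.nd (nat_lit 78) (nat_lit 0) (nat_lit 0) (XT.lf (nat_lit 0) (nat_lit 23425569875) (nat_lit 152) (nat_lit 119689978011) (nat_lit 0) (nat_lit 20696927293) (nat_lit 1) (nat_lit 5) (nat_lit 3) (nat_lit 4) (nat_lit 1) (nat_lit 4) (nat_lit 360) (nat_lit 218) (nat_lit 202)) (XT.nd (nat_lit 78) (nat_lit 0) (nat_lit 0) (XT.lf (nat_lit 0) (nat_lit 27192441316) (nat_lit 152) (nat_lit 120370341633) (nat_lit 0) (nat_lit 24353951618) (nat_lit 1) (nat_lit 5) (nat_lit 3) (nat_lit 4) (nat_lit 1) (nat_lit 4) (nat_lit 361) (nat_lit 218) (nat_lit 201)) (XT.lf (nat_lit 0) (nat_lit 31083640704) (nat_lit 152) (nat_lit 121203973195) (nat_lit 0) (nat_lit 28140534707) (nat_lit 1) (nat_lit 5) (nat_lit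 3) (nat_lit 4) (nat_lit 1) (nat_lit 4) (nat_lit 362) (nat_lit 218) (nat_lit 200)))) (XT.nd (nat_lit 39000) (nat_lit 0) (nat_lit 152) (XT.lf (nat_lit 0) (nat_lit 35108432800) (nat_lit 152) (nat_lit 122192857532) (nat_lit 0) (nat_lit 32065692231) (nat_lit 1) (nat_lit 5) (nat_lit 3) (nat_lit 4) (nat_lit 1) (nat_lit 4) (nat_lit 363) (nat_lit 218) (nat_lit 199)) (XT.nd (nat_lit 78) (nat_lit 0) (nat_lit 0) (XT.lf (nat_lit 0) (nat_lit 3024149792) (nat_lit 76) (nat_lit 15836100249) (nat_lit 76) (nat_lit 15836100249) (nat_lit 3) (nat_lit 4) (nat_lit 4) (nat_lit 5) (nat_lit 4) (nat_lit 4) (nat_lit 342) (nat_lit 219) (nat_lit 219)) (XT.lf (nat_lit 0) (nat_lit 14668962485) (nat_lit 76) (nat_lit 29158160530) (nat_lit 76) (nat_lit 28898835782) (nat_lit 3) (nat_lit 4) (nat_lit 4) (nat_lit 5) (nat_lit 4) (nat_lit 4) (nat_lit 343) (nat_lit 219) (nat_lit 218))))) (XT.nd (nat_lit 234) (nat_lit 0) (nat_lit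 0) (XT.nd (nat_lit 78) (nat_lit 0) (nat_lit 0) (XT.lf (nat_lit 0) (nat_lit 23458716776) (nat_lit 76) (nat_lit 26638879178) (nat_lit 76) (nat_lit 26132578480) (nat_lit 3) (nat_lit 4) (nat_lit 4) (nat_lit 5) (nat_lit 4) (nat_lit 4) (nat_lit 344) (nat_lit 219) (nat_lit 217)) (XT.nd (nat_lit 78) (nat_lit 0) (nat_lit 0) (XT.lf (nat_lit 0) (nat_lit 32438490442) (nat_lit 76) (nat_lit 24108358153) (nat_lit 76) (nat_lit 23366842263) (nat_lit 3) (nat_lit 4) (nat_lit 4) (nat_lit 5) (nat_lit 4) (nat_lit 4) (nat_lit 345) (nat_lit 219) (nat_lit 216)) (XT.lf (nat_lit 0) (nat_lit 41629663899) (nat_lit 76) (nat_lit 21560572403) (nat_lit 76) (nat_lit 20595042047) (nat_lit 3) (nat_lit 4) (nat_lit 4) (nat_lit 5) (nat_lit 4) (nat_lit 4) (nat_lit 346) (nat_lit 219) (nat_lit 215)))) (XT.nd (nat_lit 156) (nat_lit 0) (nat_lit 0) (XT.nd (nat_lit 78) (nat_lit 0) (nat_lit 0) (XT.lf (nat_lit 0) (nat_lit 51054120892)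 (nat_lit 76) (nat_lit 18989455774) (nat_lit 76) (nat_lit 17810578306) (nat_lit 3) (nat_lit 4) (nat_lit 4) (nat_lit 5) (nat_lit 4) (nat_lit 4) (nat_lit 347) (nat_lit 219) (nat_lit 214)) (XT.lf (nat_lit 0) (nat_lit 60734300605) (nat_lit 76) (nat_lit 16388886559) (nat_lit 76) (nat_lit 15006821365) (nat_lit 3) (nat_lit 4) (nat_lit 4) (nat_lit 5) (nat_lit 4) (nat_lit 4) (nat_lit 348) (nat_lit 219) (nat_lit 213))) (XT.nd (nat_lit 78) (nat_lit 0) (nat_lit 0) (XT.lf (nat_lit 0) (nat_lit 70693251085) (nat_lit 76) (nat_lit 13752672926) (nat_lit 76) (nat_lit 12177095612) (nat_lit 3) (nat_lit 4) (nat_lit 4) (nat_lit 5) (nat_lit 4) (nat_lit 4) (nat_lit 349) (nat_lit 219) (nat_lit 212)) (XT.lf (nat_lit 0) (nat_lit 80954684118) (nat_lit 76) (nat_lit 11074538176) (nat_lit 76) (nat_lit 9314663605) (nat_lit 3) (nat_lit 4) (nat_lit 4) (nat_lit 5) (nat_lit 4) (nat_lit 4) (nat_lit 350) (nat_lit 219) (nat_lit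 211)))))) (XT.nd (nat_lit 468) (nat_lit 0) (nat_lit 0) (XT.nd (nat_lit 234) (nat_lit 152) (nat_lit 0) (XT.nd (nat_lit 78) (nat_lit 0) (nat_lit 0) (XT.lf (nat_lit 0) (nat_lit 91543031689) (nat_lit 76) (nat_lit 8348105798) (nat_lit 76) (nat_lit 6412710030) (nat_lit 3) (nat_lit 4) (nat_lit 4) (nat_lit 5) (nat_lit 4) (nat_lit 4) (nat_lit 351) (nat_lit 219) (nat_lit 210)) (XT.nd (nat_lit 78) (nat_lit 0) (nat_lit 0) (XT.lf (nat_lit 0) (nat_lit 102483504147) (nat_lit 76) (nat_lit 5566884286) (nat_lit 76) (nat_lit 3464325473) (nat_lit 3) (nat_lit 4) (nat_lit 4) (nat_lit 5) (nat_lit 4) (nat_lit 4) (nat_lit 352) (nat_lit 219) (nat_lit 209)) (XT.lf (nat_lit 0) (nat_lit 113802150238) (nat_lit 76) (nat_lit 2724251684) (nat_lit 76) (nat_lit 462489971) (nat_lit 3) (nat_lit 4) (nat_lit 4) (nat_lit 5) (nat_lit 4) (nat_lit 4) (nat_lit 353) (nat_lit 219) (nat_lit 208)))) (XT.nd (nat_lit 78) (nat_lit 0) (nat_lit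 0) (XT.lf (nat_lit 0) (nat_lit 2578591913) (nat_lit 152) (nat_lit 119923690964) (nat_lit 0) (nat_lit 235501116) (nat_lit 1) (nat_lit 5) (nat_lit 3) (nat_lit 4) (nat_lit 1) (nat_lit 4) (nat_lit 354) (nat_lit 219) (nat_lit 207)) (XT.nd (nat_lit 78) (nat_lit 0) (nat_lit 0) (XT.lf (nat_lit 0) (nat_lit 5737090771) (nat_lit 152) (nat_lit 119783869016) (nat_lit 0) (nat_lit 3253804125) (nat_lit 1) (nat_lit 5) (nat_lit 3) (nat_lit 4) (nat_lit 1) (nat_lit 4) (nat_lit 355) (nat_lit 219) (nat_lit 206)) (XT.lf (nat_lit 0) (nat_lit 8971812610) (nat_lit 152) (nat_lit 119789252239) (nat_lit 0) (nat_lit 6355006109) (nat_lit 1) (nat_lit 5) (nat_lit 3) (nat_lit 4) (nat_lit 1) (nat_lit 4) (nat_lit 356) (nat_lit 219) (nat_lit 205))))) (XT.nd (nat_lit 234) (nat_lit 0) (nat_lit 0) (XT.nd (nat_lit 78) (nat_lit 0) (nat_lit 0) (XT.lf (nat_lit 0) (nat_lit 12290459149) (nat_lit 152) (nat_lit 119939853449) (nat_lit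 0) (nat_lit 9546490882) (nat_lit 1) (nat_lit 5) (nat_lit 3) (nat_lit 4) (nat_lit 1) (nat_lit 4) (nat_lit 357) (nat_lit 219) (nat_lit 204)) (XT.nd (nat_lit 78) (nat_lit 0) (nat_lit 0) (XT.lf (nat_lit 0) (nat_lit 15700931927) (nat_lit 152) (nat_lit 120236031220) (nat_lit 0) (nat_lit 12835857216) (nat_lit 1) (nat_lit 5) (nat_lit 3) (nat_lit 4) (nat_lit 1) (nat_lit 4) (nat_lit 358) (nat_lit 219) (nat_lit 203)) (XT.lf (nat_lit 0) (nat_lit 19211351118) (nat_lit 152) (nat_lit 120678490739) (nat_lit 0) (nat_lit 16230936936) (nat_lit 1) (nat_lit 5) (nat_lit 3) (nat_lit 4) (nat_lit 1) (nat_lit 4) (nat_lit 359) (nat_lit 219) (nat_lit 202)))) (XT.nd (nat_lit 156) (nat_lit 0) (nat_lit 0) (XT.nd (nat_lit 78) (nat_lit 0) (nat_lit 0) (XT.lf (nat_lit 0) (nat_lit 22830074862) (nat_lit 152) (nat_lit 121268285480) (nat_lit 0) (nat_lit 19739813565) (nat_lit 1) (nat_lit 5) (nat_lit 3) (nat_lit 4) (nat_lit 1)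 (nat_lit 4) (nat_lit 360) (nat_lit 219) (nat_lit 201)) (XT.lf (nat_lit 0) (nat_lit 26565719169) (nat_lit 152) (nat_lit 122006819716) (nat_lit 0) (nat_lit 23370841572) (nat_lit 1) (nat_lit 5) (nat_lit 3) (nat_lit 4) (nat_lit 1) (nat_lit 4) (nat_lit 361) (nat_lit 219) (nat_lit 200))) (XT.nd (nat_lit 78) (nat_lit 0) (nat_lit 0) (XT.lf (nat_lit 0) (nat_lit 30427178430) (nat_lit 152) (nat_lit 122895851861) (nat_lit 0) (nat_lit 27132666261) (nat_lit 1) (nat_lit 5) (nat_lit 3) (nat_lit 4) (nat_lit 1) (nat_lit 4) (nat_lit 362) (nat_lit 219) (nat_lit 199)) (XT.lf (nat_lit 0) (nat_lit 34423646594) (nat_lit 152) (nat_lit 123937498661) (nat_lit 0) (nat_lit 31034244357) (nat_lit 1) (nat_lit 5) (nat_lit 3) (nat_lit 4) (nat_lit 1) (nat_lit 4) (nat_lit 363) (nat_lit 219) (nat_lit 198))))))) (XT.nd (nat_lit 1014) (nat_lit 152) (nat_lit 0) (XT.nd (nat_lit 468) (nat_lit 0) (nat_lit 0) (XT.nd (nat_lit 234)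 (nat_lit 0) (nat_lit 0) (XT.nd (nat_lit 78) (nat_lit 76) (nat_lit 0) (XT.lf (nat_lit 0) (nat_lit 13195765645) (nat_lit 152) (nat_lit 5209631278) (nat_lit 0) (nat_lit 13195765645) (nat_lit 4) (nat_lit 5) (nat_lit 6) (nat_lit 4) (nat_lit 4) (nat_lit 4) (nat_lit 340) (nat_lit 220) (nat_lit 220)) (XT.nd (nat_lit 78) (nat_lit 76) (nat_lit 0) (XT.lf (nat_lit 0) (nat_lit 32058777587) (nat_lit 152) (nat_lit 2376500295) (nat_lit 0) (nat_lit 31786486602) (nat_lit 4) (nat_lit 5) (nat_lit 6) (nat_lit 4) (nat_lit 4) (nat_lit 4) (nat_lit 341) (nat_lit 220) (nat_lit 219)) (XT.lf (nat_lit 0) (nat_lit 5914134296) (nat_lit 76) (nat_lit 32006190822) (nat_lit 76) (nat_lit 31474575089) (nat_lit 3) (nat_lit 4) (nat_lit 4) (nat_lit 5) (nat_lit 4) (nat_lit 4) (nat_lit 342) (nat_lit 220) (nat_lit 218)))) (XT.nd (nat_lit 78) (nat_lit 0) (nat_lit 0) (XT.lf (nat_lit 0) (nat_lit 14407020731) (nat_lit 76) (nat_lit 29550912130)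 (nat_lit 76) (nat_lit 28772320446) (nat_lit 3) (nat_lit 4) (nat_lit 4) (nat_lit 5) (nat_lit 4) (nat_lit 4) (nat_lit 343) (nat_lit 220) (nat_lit 217)) (XT.nd (nat_lit 78) (nat_lit 0) (nat_lit 0) (XT.lf (nat_lit 0) (nat_lit 23075083149) (nat_lit 76) (nat_lit 27087593897) (nat_lit 76) (nat_lit 26073787022) (nat_lit 3) (nat_lit 4) (nat_lit 4) (nat_lit 5) (nat_lit 4) (nat_lit 4) (nat_lit 344) (nat_lit 220) (nat_lit 216)) (XT.lf (nat_lit 0) (nat_lit 31938959794) (nat_lit 76) (nat_lit 24610371080) (nat_lit 76) (nat_lit 23372549737) (nat_lit 3) (nat_lit 4) (nat_lit 4) (nat_lit 5) (nat_lit 4) (nat_lit 4) (nat_lit 345) (nat_lit 220) (nat_lit 215))))) (XT.nd (nat_lit 234) (nat_lit 0) (nat_lit 0) (XT.nd (nat_lit 78) (nat_lit 0) (nat_lit 0) (XT.lf (nat_lit 0) (nat_lit 41019755136) (nat_lit 76) (nat_lit 22113345529) (nat_lit 76) (nat_lit 20662177075) (nat_lit 3) (nat_lit 4) (nat_lit 4) (nat_lit 5) (nat_lit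 4) (nat_lit 4) (nat_lit 346) (nat_lit 220) (nat_lit 214)) (XT.nd (nat_lit 78) (nat_lit 0) (nat_lit 0) (XT.lf (nat_lit 0) (nat_lit 50339090114) (nat_lit 76) (nat_lit 19590571947) (nat_lit 76) (nat_lit 17936215767) (nat_lit 3) (nat_lit 4) (nat_lit 4) (nat_lit 5) (nat_lit 4) (nat_lit 4) (nat_lit 347) (nat_lit 220) (nat_lit 213)) (XT.lf (nat_lit 0) (nat_lit 59919153623) (nat_lit 76) (nat_lit 17036043728) (nat_lit 76) (nat_lit 15188175428) (nat_lit 3) (nat_lit 4) (nat_lit 4) (nat_lit 5) (nat_lit 4) (nat_lit 4) (nat_lit 348) (nat_lit 220) (nat_lit 212)))) (XT.nd (nat_lit 156) (nat_lit 0) (nat_lit 0) (XT.nd (nat_lit 78) (nat_lit 0) (nat_lit 0) (XT.lf (nat_lit 0) (nat_lit 69782755337) (nat_lit 76) (nat_lit 14443678663) (nat_lit 76) (nat_lit 12411513107) (nat_lit 3) (nat_lit 4) (nat_lit 4) (nat_lit 5) (nat_lit 4) (nat_lit 4) (nat_lit 349) (nat_lit 220) (nat_lit 211)) (XT.lf (nat_lit 0) (nat_lit 79953380021)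 (nat_lit 76) (nat_lit 11807304454) (nat_lit 76) (nat_lit 9599617701) (nat_lit 3) (nat_lit 4) (nat_lit 4) (nat_lit 5) (nat_lit 4) (nat_lit 4) (nat_lit 350) (nat_lit 220) (nat_lit 210))) (XT.nd (nat_lit 78) (nat_lit 0) (nat_lit 0) (XT.lf (nat_lit 0) (nat_lit 90455243450) (nat_lit 76) (nat_lit 9120644020) (nat_lit 76) (nat_lit 6745794222) (nat_lit 3) (nat_lit 4) (nat_lit 4) (nat_lit 5) (nat_lit 4) (nat_lit 4) (nat_lit 351) (nat_lit 220) (nat_lit 209)) (XT.lf (nat_lit 0) (nat_lit 101313350059) (nat_lit 76) (nat_lit 6377300549) (nat_lit 76) (nat_lit 3843247852) (nat_lit 3) (nat_lit 4) (nat_lit 4) (nat_lit 5) (nat_lit 4) (nat_lit 4) (nat_lit 352) (nat_lit 220) (nat_lit 208)))))) (XT.nd (nat_lit 546) (nat_lit 0) (nat_lit 0) (XT.nd (nat_lit 234) (nat_lit 0) (nat_lit 0) (XT.nd (nat_lit 78) (nat_lit 152) (nat_lit 0) (XT.lf (nat_lit 0) (nat_lit 112553552484) (nat_lit 76) (nat_lit 3570742273) (nat_lit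 76) (nat_lit 885067766) (nat_lit 3) (nat_lit 4) (nat_lit 4) (nat_lit 5) (nat_lit 4) (nat_lit 4) (nat_lit 353) (nat_lit 220) (nat_lit 207)) (XT.nd (nat_lit 78) (nat_lit 0) (nat_lit 0) (XT.lf (nat_lit 0) (nat_lit 1449252024) (nat_lit 76) (nat_lit 658791450) (nat_lit 152) (nat_lit 120652033377) (nat_lit 1) (nat_lit 5) (nat_lit 2) (nat_lit 5) (nat_lit 3) (nat_lit 4) (nat_lit 354) (nat_lit 220) (nat_lit 206)) (XT.lf (nat_lit 0) (nat_lit 5220355010) (nat_lit 152) (nat_lit 121238912255) (nat_lit 0) (nat_lit 2339188330) (nat_lit 1) (nat_lit 5) (nat_lit 3) (nat_lit 4) (nat_lit 1) (nat_lit 4) (nat_lit 355) (nat_lit 220) (nat_lit 205)))) (XT.nd (nat_lit 156) (nat_lit 0) (nat_lit 0) (XT.nd (nat_lit 78) (nat_lit 0) (nat_lit 0) (XT.lf (nat_lit 0) (nat_lit 8417120073) (nat_lit 152) (nat_lit 121315002222) (nat_lit 0) (nat_lit 5408791626) (nat_lit 1) (nat_lit 5) (nat_lit 3) (nat_lit 4) (nat_lit 1) (nat_lit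 4) (nat_lit 356) (nat_lit 220) (nat_lit 204)) (XT.lf (nat_lit 0) (nat_lit 11699617301) (nat_lit 152) (nat_lit 121532943189) (nat_lit 0) (nat_lit 8570182409) (nat_lit 1) (nat_lit 5) (nat_lit 3) (nat_lit 4) (nat_lit 1) (nat_lit 4) (nat_lit 357) (nat_lit 220) (nat_lit 203))) (XT.nd (nat_lit 78) (nat_lit 0) (nat_lit 0) (XT.lf (nat_lit 0) (nat_lit 15075662164) (nat_lit 152) (nat_lit 121893254062) (nat_lit 0) (nat_lit 11830887801) (nat_lit 1) (nat_lit 5) (nat_lit 3) (nat_lit 4) (nat_lit 1) (nat_lit 4) (nat_lit 358) (nat_lit 220) (nat_lit 202)) (XT.lf (nat_lit 0) (nat_lit 18553292864) (nat_lit 152) (nat_lit 122396792725) (nat_lit 0) (nat_lit 15198671386) (nat_lit 1) (nat_lit 5) (nat_lit 3) (nat_lit 4) (nat_lit 1) (nat_lit 4) (nat_lit 359) (nat_lit 220) (nat_lit 201))))) (XT.nd (nat_lit 234) (nat_lit 0) (nat_lit 0) (XT.nd (nat_lit 78) (nat_lit 0) (nat_lit 0) (XT.lf (nat_lit 0) (nat_lit 22140789474)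 (nat_lit 152) (nat_lit 123044758080) (nat_lit 0) (nat_lit 18681551697) (nat_lit 1) (nat_lit 5) (nat_lit 3) (nat_lit 4) (nat_lit 1) (nat_lit 4) (nat_lit 360) (nat_lit 220) (nat_lit 200)) (XT.nd (nat_lit 78) (nat_lit 0) (nat_lit 0) (XT.lf (nat_lit 0) (nat_lit 25846693653) (nat_lit 152) (nat_lit 123838692900) (nat_lit 0) (nat_lit 22287821304) (nat_lit 1) (nat_lit 5) (nat_lit 3) (nat_lit 4) (nat_lit 1) (nat_lit 4) (nat_lit 361) (nat_lit 220) (nat_lit 199)) (XT.lf (nat_lit 0) (nat_lit 29679828983) (nat_lit 152) (nat_lit 124780487508) (nat_lit 0) (nat_lit 26026066566) (nat_lit 1) (nat_lit 5) (nat_lit 3) (nat_lit 4) (nat_lit 1) (nat_lit 4) (nat_lit 362) (nat_lit 220) (nat_lit 198)))) (XT.nd (nat_lit 38766) (nat_lit 0) (nat_lit 228) (XT.nd (nat_lit 38688) (nat_lit 0) (nat_lit 228) (XT.lf (nat_lit 0) (nat_lit 33649321975) (nat_lit 152) (nat_lit 125872384270) (nat_lit 0) (nat_lit 29905188065) (nat_lit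 1) (nat_lit 5) (nat_lit 3) (nat_lit 4) (nat_lit 1) (nat_lit 4) (nat_lit 363) (nat_lit 220) (nat_lit 197)) (XT.lf (nat_lit 0) (nat_lit 7890045154) (nat_lit 152) (nat_lit 13019342687) (nat_lit 0) (nat_lit 7890045154) (nat_lit 4) (nat_lit 5) (nat_lit 6) (nat_lit 4) (nat_lit 4) (nat_lit 4) (nat_lit 338) (nat_lit 221) (nat_lit 221))) (XT.nd (nat_lit 78) (nat_lit 0) (nat_lit 0) (XT.lf (nat_lit 0) (nat_lit 21134148043) (nat_lit 152) (nat_lit 18348707984) (nat_lit 0) (nat_lit 20848242508) (nat_lit 4) (nat_lit 5) (nat_lit 6) (nat_lit 4) (nat_lit 4) (nat_lit 4) (nat_lit 339) (nat_lit 221) (nat_lit 220)) (XT.lf (nat_lit 0) (nat_lit 26602701740) (nat_lit 152) (nat_lit 10557387160) (nat_lit 0) (nat_lit 26044505220) (nat_lit 4) (nat_lit 5) (nat_lit 6) (nat_lit 4) (nat_lit 4) (nat_lit 4) (nat_lit 340) (nat_lit 221) (nat_lit 219))))))))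
noncomputable def xc3 : XT := (XT.nd (nat_lit 40482) (nat_lit 0) (nat_lit 0) (XT.nd (nat_lit 1014) (nat_lit 152) (nat_lit 0) (XT.nd (nat_lit 468) (nat_lit 0) (nat_lit 0) (XT.nd (nat_lit 234) (nat_lit 0) (nat_lit 0) (XT.nd (nat_lit 78) (nat_lit 76) (nat_lit 0) (XT.lf (nat_lit 0) (nat_lit 32198771765) (nat_lit 152) (nat_lit 2646172139) (nat_lit 0) (nat_lit 31381250497) (nat_lit 4) (nat_lit 5) (nat_lit 6) (nat_lit 4) (nat_lit 4) (nat_lit 4) (nat_lit 341) (nat_lit 221) (nat_lit 218)) (XT.nd (nat_lit 78) (nat_lit 0) (nat_lit 0) (XT.lf (nat_lit 0) (nat_lit 5511318988) (nat_lit 76) (nat_lit 32477341276) (nat_lit 76) (nat_lit 31412844058) (nat_lit 3) (nat_lit 4) (nat_lit 4) (nat_lit 5) (nat_lit 4) (nat_lit 4) (nat_lit 342) (nat_lit 221) (nat_lit 217)) (XT.lf (nat_lit 0) (nat_lit 13882513550) (nat_lit 76) (nat_lit 30078025703) (nat_lit 76) (nat_lit 28778313294) (nat_lit 3) (nat_lit 4) (nat_lit 4)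 (nat_lit 5) (nat_lit 4) (nat_lit 4) (nat_lit 343) (nat_lit 221) (nat_lit 216)))) (XT.nd (nat_lit 78) (nat_lit 0) (nat_lit 0) (XT.lf (nat_lit 0) (nat_lit 22434678947) (nat_lit 76) (nat_lit 27668005679) (nat_lit 76) (nat_lit 26144278802) (nat_lit 3) (nat_lit 4) (nat_lit 4) (nat_lit 5) (nat_lit 4) (nat_lit 4) (nat_lit 344) (nat_lit 221) (nat_lit 215)) (XT.nd (nat_lit 78) (nat_lit 0) (nat_lit 0) (XT.lf (nat_lit 0) (nat_lit 31188177477) (nat_lit 76) (nat_lit 25241543060) (nat_lit 76) (nat_lit 23504469072) (nat_lit 3) (nat_lit 4) (nat_lit 4) (nat_lit 5) (nat_lit 4) (nat_lit 4) (nat_lit 345) (nat_lit 221) (nat_lit 214)) (XT.lf (nat_lit 0) (nat_lit 40163850804) (nat_lit 76) (nat_lit 22792860557) (nat_lit 76) (nat_lit 20852598842) (nat_lit 3) (nat_lit 4) (nat_lit 4) (nat_lit 5) (nat_lit 4) (nat_lit 4) (nat_lit 346) (nat_lit 221) (nat_lit 213))))) (XT.nd (nat_lit 234) (nat_lit 0) (nat_lit 0) (XT.nd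 (nat_lit 78) (nat_lit 0) (nat_lit 0) (XT.lf (nat_lit 0) (nat_lit 49383069579) (nat_lit 76) (nat_lit 20316127970) (nat_lit 76) (nat_lit 18182354136) (nat_lit 3) (nat_lit 4) (nat_lit 4) (nat_lit 5) (nat_lit 4) (nat_lit 4) (nat_lit 347) (nat_lit 221) (nat_lit 212)) (XT.nd (nat_lit 78) (nat_lit 0) (nat_lit 0) (XT.lf (nat_lit 0) (nat_lit 58867784321) (nat_lit 76) (nat_lit 17805448320) (nat_lit 76) (nat_lit 15487377229) (nat_lit 3) (nat_lit 4) (nat_lit 4) (nat_lit 5) (nat_lit 4) (nat_lit 4) (nat_lit 348) (nat_lit 221) (nat_lit 211)) (XT.lf (nat_lit 0) (nat_lit 68640577686) (nat_lit 76) (nat_lit 15254843796) (nat_lit 76) (nat_lit 12761251508) (nat_lit 3) (nat_lit 4) (nat_lit 4) (nat_lit 5) (nat_lit 4) (nat_lit 4) (nat_lit 349) (nat_lit 221) (nat_lit 210)))) (XT.nd (nat_lit 156) (nat_lit 0) (nat_lit 0) (XT.nd (nat_lit 78) (nat_lit 0) (nat_lit 0) (XT.lf (nat_lit 0) (nat_lit 78724718229) (nat_lit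 76) (nat_lit 12658241531) (nat_lit 76) (nat_lit 9997486198) (nat_lit 3) (nat_lit 4) (nat_lit 4) (nat_lit 5) (nat_lit 4) (nat_lit 4) (nat_lit 350) (nat_lit 221) (nat_lit 209)) (XT.lf (nat_lit 0) (nat_lit 89144215809) (nat_lit 76) (nat_lit 10009459139) (nat_lit 76) (nat_lit 7189500906) (nat_lit 3) (nat_lit 4) (nat_lit 4) (nat_lit 5) (nat_lit 4) (nat_lit 4) (nat_lit 351) (nat_lit 221) (nat_lit 208))) (XT.nd (nat_lit 78) (nat_lit 0) (nat_lit 0) (XT.lf (nat_lit 0) (nat_lit 99923878752) (nat_lit 76) (nat_lit 7302189994) (nat_lit 76) (nat_lit 4330609952) (nat_lit 3) (nat_lit 4) (nat_lit 4) (nat_lit 5) (nat_lit 4) (nat_lit 4) (nat_lit 352) (nat_lit 221) (nat_lit 207)) (XT.lf (nat_lit 0) (nat_lit 111089372924) (nat_lit 76) (nat_lit 4529988218) (nat_lit 76) (nat_lit 1414006453) (nat_lit 3) (nat_lit 4) (nat_lit 4) (nat_lit 5) (nat_lit 4) (nat_lit 4) (nat_lit 353) (nat_lit 221) (nat_lit 206)))))) (XT.nd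 (nat_lit 468) (nat_lit 0) (nat_lit 0) (XT.nd (nat_lit 234) (nat_lit 0) (nat_lit 0) (XT.nd (nat_lit 78) (nat_lit 76) (nat_lit 0) (XT.lf (nat_lit 0) (nat_lit 1536671115) (nat_lit 152) (nat_lit 134064850) (nat_lit 76) (nat_lit 121115094353) (nat_lit 2) (nat_lit 5) (nat_lit 4) (nat_lit 5) (nat_lit 3) (nat_lit 4) (nat_lit 354) (nat_lit 221) (nat_lit 205)) (XT.nd (nat_lit 78) (nat_lit 0) (nat_lit 0) (XT.lf (nat_lit 0) (nat_lit 4599971070) (nat_lit 152) (nat_lit 122911656483) (nat_lit 0) (nat_lit 1314064434) (nat_lit 1) (nat_lit 5) (nat_lit 3) (nat_lit 4) (nat_lit 1) (nat_lit 4) (nat_lit 355) (nat_lit 221) (nat_lit 204)) (XT.lf (nat_lit 0) (nat_lit 7760586821) (nat_lit 152) (nat_lit 123055086207) (nat_lit 0) (nat_lit 4353573741) (nat_lit 1) (nat_lit 5) (nat_lit 3) (nat_lit 4) (nat_lit 1) (nat_lit 4) (nat_lit 356) (nat_lit 221) (nat_lit 203)))) (XT.nd (nat_lit 78) (nat_lit 0) (nat_lit 0) (XT.lf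 (nat_lit 0) (nat_lit 11008656134) (nat_lit 152) (nat_lit 123337160275) (nat_lit 0) (nat_lit 7486303583) (nat_lit 1) (nat_lit 5) (nat_lit 3) (nat_lit 4) (nat_lit 1) (nat_lit 4) (nat_lit 357) (nat_lit 221) (nat_lit 202)) (XT.nd (nat_lit 78) (nat_lit 0) (nat_lit 0) (XT.lf (nat_lit 0) (nat_lit 14351912506) (nat_lit 152) (nat_lit 123758550293) (nat_lit 0) (nat_lit 10719712840) (nat_lit 1) (nat_lit 5) (nat_lit 3) (nat_lit 4) (nat_lit 1) (nat_lit 4) (nat_lit 358) (nat_lit 221) (nat_lit 201)) (XT.lf (nat_lit 0) (nat_lit 17798316072) (nat_lit 152) (nat_lit 124320259569) (nat_lit 0) (nat_lit 14061500106) (nat_lit 1) (nat_lit 5) (nat_lit 3) (nat_lit 4) (nat_lit 1) (nat_lit 4) (nat_lit 359) (nat_lit 221) (nat_lit 200))))) (XT.nd (nat_lit 234) (nat_lit 0) (nat_lit 0) (XT.nd (nat_lit 78) (nat_lit 0) (nat_lit 0) (XT.lf (nat_lit 0) (nat_lit 21356072555) (nat_lit 152) (nat_lit 125023625508) (nat_lit 0) (nat_lit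 17519622017) (nat_lit 1) (nat_lit 5) (nat_lit 3) (nat_lit 4) (nat_lit 1) (nat_lit 4) (nat_lit 360) (nat_lit 221) (nat_lit 199)) (XT.nd (nat_lit 78) (nat_lit 0) (nat_lit 0) (XT.lf (nat_lit 0) (nat_lit 25033652803) (nat_lit 152) (nat_lit 125870322790) (nat_lit 0) (nat_lit 21102312197) (nat_lit 1) (nat_lit 5) (nat_lit 3) (nat_lit 4) (nat_lit 1) (nat_lit 4) (nat_lit 361) (nat_lit 221) (nat_lit 198)) (XT.lf (nat_lit 0) (nat_lit 28839812960) (nat_lit 152) (nat_lit 126862367361) (nat_lit 0) (nat_lit 24818100861) (nat_lit 1) (nat_lit 5) (nat_lit 3) (nat_lit 4) (nat_lit 1) (nat_lit 4) (nat_lit 362) (nat_lit 221) (nat_lit 197)))) (XT.nd (nat_lit 38610) (nat_lit 0) (nat_lit 228) (XT.nd (nat_lit 38532) (nat_lit 0) (nat_lit 228) (XT.lf (nat_lit 0) (nat_lit 32783615312) (nat_lit 152) (nat_lit 128002121231) (nat_lit 0) (nat_lit 28675835124) (nat_lit 1) (nat_lit 5) (nat_lit 3) (nat_lit 4) (nat_lit 1) (nat_lit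 4) (nat_lit 363) (nat_lit 221) (nat_lit 196)) (XT.lf (nat_lit 0) (nat_lit 2873655100) (nat_lit 152) (nat_lit 20517683830) (nat_lit 0) (nat_lit 2873655100) (nat_lit 4) (nat_lit 5) (nat_lit 6) (nat_lit 4) (nat_lit 4) (nat_lit 4) (nat_lit 336) (nat_lit 222) (nat_lit 222))) (XT.nd (nat_lit 78) (nat_lit 0) (nat_lit 0) (XT.lf (nat_lit 0) (nat_lit 10827981591) (nat_lit 152) (nat_lit 33645628802) (nat_lit 0) (nat_lit 10527780780) (nat_lit 4) (nat_lit 5) (nat_lit 6) (nat_lit 4) (nat_lit 4) (nat_lit 4) (nat_lit 337) (nat_lit 222) (nat_lit 221)) (XT.lf (nat_lit 0) (nat_lit 16001819280) (nat_lit 152) (nat_lit 26183716208) (nat_lit 0) (nat_lit 15415712934) (nat_lit 4) (nat_lit 5) (nat_lit 6) (nat_lit 4) (nat_lit 4) (nat_lit 4) (nat_lit 338) (nat_lit 222) (nat_lit 220))))))) (XT.nd (nat_lit 1014) (nat_lit 152) (nat_lit 0) (XT.nd (nat_lit 468) (nat_lit 0) (nat_lit 0) (XT.nd (nat_lit 234) (nat_lit 76) (nat_lit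 0) (XT.nd (nat_lit 78) (nat_lit 0) (nat_lit 0) (XT.lf (nat_lit 0) (nat_lit 21281141930) (nat_lit 152) (nat_lit 18631863420) (nat_lit 0) (nat_lit 20422744599) (nat_lit 4) (nat_lit 5) (nat_lit 6) (nat_lit 4) (nat_lit 4) (nat_lit 4) (nat_lit 339) (nat_lit 222) (nat_lit 219)) (XT.nd (nat_lit 78) (nat_lit 0) (nat_lit 0) (XT.lf (nat_lit 0) (nat_lit 26678519356) (nat_lit 152) (nat_lit 10972089838) (nat_lit 0) (nat_lit 25560797276) (nat_lit 4) (nat_lit 5) (nat_lit 6) (nat_lit 4) (nat_lit 4) (nat_lit 4) (nat_lit 340) (nat_lit 222) (nat_lit 218)) (XT.lf (nat_lit 0) (nat_lit 32206802456) (nat_lit 152) (nat_lit 3186157903) (nat_lit 0) (nat_lit 30842104426) (nat_lit 4) (nat_lit 5) (nat_lit 6) (nat_lit 4) (nat_lit 4) (nat_lit 4) (nat_lit 341) (nat_lit 222) (nat_lit 217)))) (XT.nd (nat_lit 78) (nat_lit 0) (nat_lit 0) (XT.lf (nat_lit 0) (nat_lit 4838894577) (nat_lit 76) (nat_lit 33086773648) (nat_lit 76)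 (nat_lit 31486860427) (nat_lit 3) (nat_lit 4) (nat_lit 4) (nat_lit 5) (nat_lit 4) (nat_lit 4) (nat_lit 342) (nat_lit 222) (nat_lit 216)) (XT.nd (nat_lit 78) (nat_lit 0) (nat_lit 0) (XT.lf (nat_lit 0) (nat_lit 13094192118) (nat_lit 76) (nat_lit 30740756283) (nat_lit 76) (nat_lit 28916828595) (nat_lit 3) (nat_lit 4) (nat_lit 4) (nat_lit 5) (nat_lit 4) (nat_lit 4) (nat_lit 343) (nat_lit 222) (nat_lit 215)) (XT.lf (nat_lit 0) (nat_lit 21535979399) (nat_lit 76) (nat_lit 28381496457) (nat_lit 76) (nat_lit 26344221657) (nat_lit 3) (nat_lit 4) (nat_lit 4) (nat_lit 5) (nat_lit 4) (nat_lit 4) (nat_lit 344) (nat_lit 222) (nat_lit 214))))) (XT.nd (nat_lit 234) (nat_lit 0) (nat_lit 0) (XT.nd (nat_lit 78) (nat_lit 0) (nat_lit 0) (XT.lf (nat_lit 0) (nat_lit 30184355915) (nat_lit 76) (nat_lit 26003376885) (nat_lit 76) (nat_lit 23762914360) (nat_lit 3) (nat_lit 4) (nat_lit 4) (nat_lit 5) (nat_lit 4) (nat_lit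 4) (nat_lit 345) (nat_lit 222) (nat_lit 213)) (XT.nd (nat_lit 78) (nat_lit 0) (nat_lit 0) (XT.lf (nat_lit 0) (nat_lit 39059913037) (nat_lit 76) (nat_lit 23600735378) (nat_lit 76) (nat_lit 21166760733) (nat_lit 3) (nat_lit 4) (nat_lit 4) (nat_lit 5) (nat_lit 4) (nat_lit 4) (nat_lit 346) (nat_lit 222) (nat_lit 212)) (XT.lf (nat_lit 0) (nat_lit 48183783046) (nat_lit 76) (nat_lit 21167851360) (nat_lit 76) (nat_lit 18549579458) (nat_lit 3) (nat_lit 4) (nat_lit 4) (nat_lit 5) (nat_lit 4) (nat_lit 4) (nat_lit 347) (nat_lit 222) (nat_lit 211)))) (XT.nd (nat_lit 156) (nat_lit 0) (nat_lit 0) (XT.nd (nat_lit 78) (nat_lit 0) (nat_lit 0) (XT.lf (nat_lit 0) (nat_lit 57577689439) (nat_lit 76) (nat_lit 18698932251) (nat_lit 76) (nat_lit 15905139152) (nat_lit 3) (nat_lit 4) (nat_lit 4) (nat_lit 5) (nat_lit 4) (nat_lit 4) (nat_lit 348) (nat_lit 222) (nat_lit 210)) (XT.lf (nat_lit 0) (nat_lit 67263998663)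 (nat_lit 76) (nat_lit 16188099671) (nat_lit 76) (nat_lit 13227143527) (nat_lit 3) (nat_lit 4) (nat_lit 4) (nat_lit 5) (nat_lit 4) (nat_lit 4) (nat_lit 349) (nat_lit 222) (nat_lit 209))) (XT.nd (nat_lit 78) (nat_lit 0) (nat_lit 0) (XT.lf (nat_lit 0) (nat_lit 77265773357) (nat_lit 76) (nat_lit 13629375448) (nat_lit 76) (nat_lit 10509216404) (nat_lit 3) (nat_lit 4) (nat_lit 4) (nat_lit 5) (nat_lit 4) (nat_lit 4) (nat_lit 350) (nat_lit 222) (nat_lit 208)) (XT.lf (nat_lit 0) (nat_lit 87606827270) (nat_lit 76) (nat_lit 11016667381) (nat_lit 76) (nat_lit 7744886528) (nat_lit 3) (nat_lit 4) (nat_lit 4) (nat_lit 5) (nat_lit 4) (nat_lit 4) (nat_lit 351) (nat_lit 222) (nat_lit 207)))))) (XT.nd (nat_lit 546) (nat_lit 0) (nat_lit 0) (XT.nd (nat_lit 234) (nat_lit 76) (nat_lit 0) (XT.nd (nat_lit 78) (nat_lit 76) (nat_lit 0) (XT.lf (nat_lit 0) (nat_lit 98311781961) (nat_lit 76) (nat_lit 8343754737) (nat_lit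 76) (nat_lit 4927572161) (nat_lit 3) (nat_lit 4) (nat_lit 4) (nat_lit 5) (nat_lit 4) (nat_lit 4) (nat_lit 352) (nat_lit 222) (nat_lit 206)) (XT.nd (nat_lit 78) (nat_lit 76) (nat_lit 0) (XT.lf (nat_lit 0) (nat_lit 109406125415) (nat_lit 76) (nat_lit 5604273438) (nat_lit 76) (nat_lit 2050565411) (nat_lit 3) (nat_lit 4) (nat_lit 4) (nat_lit 5) (nat_lit 4) (nat_lit 4) (nat_lit 353) (nat_lit 222) (nat_lit 205)) (XT.lf (nat_lit 0) (nat_lit 875558407) (nat_lit 152) (nat_lit 1907301079) (nat_lit 76) (nat_lit 120031872907) (nat_lit 2) (nat_lit 5) (nat_lit 4) (nat_lit 5) (nat_lit 3) (nat_lit 4) (nat_lit 354) (nat_lit 222) (nat_lit 204)))) (XT.nd (nat_lit 156) (nat_lit 0) (nat_lit 0) (XT.nd (nat_lit 78) (nat_lit 0) (nat_lit 0) (XT.lf (nat_lit 0) (nat_lit 3874461845) (nat_lit 152) (nat_lit 124806084423) (nat_lit 0) (nat_lit 175991666) (nat_lit 1) (nat_lit 5) (nat_lit 3) (nat_lit 4) (nat_lit 1) (nat_lit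 4) (nat_lit 355) (nat_lit 222) (nat_lit 203)) (XT.lf (nat_lit 0) (nat_lit 7000649681) (nat_lit 152) (nat_lit 125013647248) (nat_lit 0) (nat_lit 3186840031) (nat_lit 1) (nat_lit 5) (nat_lit 3) (nat_lit 4) (nat_lit 1) (nat_lit 4) (nat_lit 356) (nat_lit 222) (nat_lit 202))) (XT.nd (nat_lit 78) (nat_lit 0) (nat_lit 0) (XT.lf (nat_lit 0) (nat_lit 10215930503) (nat_lit 152) (nat_lit 125356800461) (nat_lit 0) (nat_lit 6292273738) (nat_lit 1) (nat_lit 5) (nat_lit 3) (nat_lit 4) (nat_lit 1) (nat_lit 4) (nat_lit 357) (nat_lit 222) (nat_lit 201)) (XT.lf (nat_lit 0) (nat_lit 13527959741) (nat_lit 152) (nat_lit 125836361092) (nat_lit 0) (nat_lit 9499686676) (nat_lit 1) (nat_lit 5) (nat_lit 3) (nat_lit 4) (nat_lit 1) (nat_lit 4) (nat_lit 358) (nat_lit 222) (nat_lit 200))))) (XT.nd (nat_lit 234) (nat_lit 0) (nat_lit 0) (XT.nd (nat_lit 78) (nat_lit 0) (nat_lit 0) (XT.lf (nat_lit 0) (nat_lit 16944623179)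 (nat_lit 152) (nat_lit 126453470954) (nat_lit 0) (nat_lit 12816715543) (nat_lit 1) (nat_lit 5) (nat_lit 3) (nat_lit 4) (nat_lit 1) (nat_lit 4) (nat_lit 359) (nat_lit 222) (nat_lit 199)) (XT.nd (nat_lit 78) (nat_lit 0) (nat_lit 0) (XT.lf (nat_lit 0) (nat_lit 20474055731) (nat_lit 152) (nat_lit 127209599354) (nat_lit 0) (nat_lit 16251258027) (nat_lit 1) (nat_lit 5) (nat_lit 3) (nat_lit 4) (nat_lit 1) (nat_lit 4) (nat_lit 360) (nat_lit 222) (nat_lit 198)) (XT.lf (nat_lit 0) (nat_lit 24124660807) (nat_lit 152) (nat_lit 128106546599) (nat_lit 0) (nat_lit 19811491609) (nat_lit 1) (nat_lit 5) (nat_lit 3) (nat_lit 4) (nat_lit 1) (nat_lit 4) (nat_lit 361) (nat_lit 222) (nat_lit 197)))) (XT.nd (nat_lit 38454) (nat_lit 0) (nat_lit 228) (XT.nd (nat_lit 78) (nat_lit 0) (nat_lit 0) (XT.lf (nat_lit 0) (nat_lit 27905130323) (nat_lit 152) (nat_lit 129146448278) (nat_lit 0) (nat_lit 23505893036) (nat_lit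 1) (nat_lit 5) (nat_lit 3) (nat_lit 4) (nat_lit 1) (nat_lit 4) (nat_lit 362) (nat_lit 222) (nat_lit 196)) (XT.lf (nat_lit 0) (nat_lit 31824465399) (nat_lit 152) (nat_lit 130331780346) (nat_lit 0) (nat_lit 27343258503) (nat_lit 1) (nat_lit 5) (nat_lit 3) (nat_lit 4) (nat_lit 1) (nat_lit 4) (nat_lit 363) (nat_lit 222) (nat_lit 195))) (XT.nd (nat_lit 78) (nat_lit 152) (nat_lit 0) (XT.lf (nat_lit 0) (nat_lit 20227211115) (nat_lit 76) (nat_lit 1871966651) (nat_lit 76) (nat_lit 1871966651) (nat_lit 6) (nat_lit 4) (nat_lit 7) (nat_lit 5) (nat_lit 7) (nat_lit 4) (nat_lit 334) (nat_lit 223) (nat_lit 223)) (XT.lf (nat_lit 0) (nat_lit 1062919126) (nat_lit 152) (nat_lit 48370527402) (nat_lit 0) (nat_lit 747708274) (nat_lit 4) (nat_lit 5) (nat_lit 6) (nat_lit 4) (nat_lit 4) (nat_lit 4) (nat_lit 335) (nat_lit 223) (nat_lit 222))))))))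
noncomputable def xc4 : XT := (XT.nd (nat_lit 2028) (nat_lit 0) (nat_lit 0) (XT.nd (nat_lit 1014) (nat_lit 152) (nat_lit 0) (XT.nd (nat_lit 468) (nat_lit 76) (nat_lit 0) (XT.nd (nat_lit 234) (nat_lit 0) (nat_lit 0) (XT.nd (nat_lit 78) (nat_lit 0) (nat_lit 0) (XT.lf (nat_lit 0) (nat_lit 5980125622) (nat_lit 152) (nat_lit 41187650036) (nat_lit 0) (nat_lit 5364713959) (nat_lit 4) (nat_lit 5) (nat_lit 6) (nat_lit 4) (nat_lit 4) (nat_lit 4) (nat_lit 336) (nat_lit 223) (nat_lit 221)) (XT.nd (nat_lit 78) (nat_lit 0) (nat_lit 0) (XT.lf (nat_lit 0) (nat_lit 10982325173) (nat_lit 152) (nat_lit 33942942010) (nat_lit 0) (nat_lit 10081007975) (nat_lit 4) (nat_lit 5) (nat_lit 6) (nat_lit 4) (nat_lit 4) (nat_lit 4) (nat_lit 337) (nat_lit 223) (nat_lit 220)) (XT.lf (nat_lit 0) (nat_lit 16081427777) (nat_lit 152) (nat_lit 26619154019) (nat_lit 0) (nat_lit 14907819594) (nat_lit 4) (nat_lit 5) (nat_lit 6)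 (nat_lit 4) (nat_lit 4) (nat_lit 4) (nat_lit 338) (nat_lit 223) (nat_lit 219)))) (XT.nd (nat_lit 78) (nat_lit 0) (nat_lit 0) (XT.lf (nat_lit 0) (nat_lit 21289574155) (nat_lit 152) (nat_lit 19198848473) (nat_lit 0) (nat_lit 19856641224) (nat_lit 4) (nat_lit 5) (nat_lit 6) (nat_lit 4) (nat_lit 4) (nat_lit 4) (nat_lit 339) (nat_lit 223) (nat_lit 218)) (XT.nd (nat_lit 78) (nat_lit 0) (nat_lit 0) (XT.lf (nat_lit 0) (nat_lit 26619164656) (nat_lit 152) (nat_lit 11664357977) (nat_lit 0) (nat_lit 24939255774) (nat_lit 4) (nat_lit 5) (nat_lit 6) (nat_lit 4) (nat_lit 4) (nat_lit 4) (nat_lit 340) (nat_lit 223) (nat_lit 217)) (XT.lf (nat_lit 0) (nat_lit 32082888780) (nat_lit 152) (nat_lit 3997743268) (nat_lit 0) (nat_lit 30167764707) (nat_lit 4) (nat_lit 5) (nat_lit 6) (nat_lit 4) (nat_lit 4) (nat_lit 4) (nat_lit 341) (nat_lit 223) (nat_lit 216))))) (XT.nd (nat_lit 234) (nat_lit 0) (nat_lit 0) (XT.nd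 (nat_lit 78) (nat_lit 0) (nat_lit 0) (XT.lf (nat_lit 0) (nat_lit 3895260051) (nat_lit 76) (nat_lit 33835938965) (nat_lit 76) (nat_lit 31696800425) (nat_lit 3) (nat_lit 4) (nat_lit 4) (nat_lit 5) (nat_lit 4) (nat_lit 4) (nat_lit 342) (nat_lit 223) (nat_lit 215)) (XT.nd (nat_lit 78) (nat_lit 0) (nat_lit 0) (XT.lf (nat_lit 0) (nat_lit 12040179477) (nat_lit 76) (nat_lit 31540681799) (nat_lit 76) (nat_lit 29188196147) (nat_lit 3) (nat_lit 4) (nat_lit 4) (nat_lit 5) (nat_lit 4) (nat_lit 4) (nat_lit 343) (nat_lit 223) (nat_lit 214)) (XT.lf (nat_lit 0) (nat_lit 20376844744) (nat_lit 76) (nat_lit 29229765020) (nat_lit 76) (nat_lit 26674091642) (nat_lit 3) (nat_lit 4) (nat_lit 4) (nat_lit 5) (nat_lit 4) (nat_lit 4) (nat_lit 344) (nat_lit 223) (nat_lit 213)))) (XT.nd (nat_lit 156) (nat_lit 0) (nat_lit 0) (XT.nd (nat_lit 78) (nat_lit 0) (nat_lit 0) (XT.lf (nat_lit 0) (nat_lit 28925105055) (nat_lit 76)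 (nat_lit 26897686445) (nat_lit 76) (nat_lit 24148500947) (nat_lit 3) (nat_lit 4) (nat_lit 4) (nat_lit 5) (nat_lit 4) (nat_lit 4) (nat_lit 345) (nat_lit 223) (nat_lit 212)) (XT.lf (nat_lit 0) (nat_lit 37705313412) (nat_lit 76) (nat_lit 24538893506) (nat_lit 76) (nat_lit 21605410752) (nat_lit 3) (nat_lit 4) (nat_lit 4) (nat_lit 5) (nat_lit 4) (nat_lit 4) (nat_lit 346) (nat_lit 223) (nat_lit 211))) (XT.nd (nat_lit 78) (nat_lit 0) (nat_lit 0) (XT.lf (nat_lit 0) (nat_lit 46738375071) (nat_lit 76) (nat_lit 22147770029) (nat_lit 76) (nat_lit 19038766078) (nat_lit 3) (nat_lit 4) (nat_lit 4) (nat_lit 5) (nat_lit 4) (nat_lit 4) (nat_lit 347) (nat_lit 223) (nat_lit 210)) (XT.lf (nat_lit 0) (nat_lit 56045797323) (nat_lit 76) (nat_lit 19718622863) (nat_lit 76) (nat_lit 16442455868) (nat_lit 3) (nat_lit 4) (nat_lit 4) (nat_lit 5) (nat_lit 4) (nat_lit 4) (nat_lit 348) (nat_lit 223) (nat_lit 209)))))) (XT.nd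 (nat_lit 468) (nat_lit 76) (nat_lit 0) (XT.nd (nat_lit 234) (nat_lit 76) (nat_lit 0) (XT.nd (nat_lit 78) (nat_lit 0) (nat_lit 0) (XT.lf (nat_lit 0) (nat_lit 65649740698) (nat_lit 76) (nat_lit 17245668325) (nat_lit 76) (nat_lit 13810298430) (nat_lit 3) (nat_lit 4) (nat_lit 4) (nat_lit 5) (nat_lit 4) (nat_lit 4) (nat_lit 349) (nat_lit 223) (nat_lit 208)) (XT.nd (nat_lit 78) (nat_lit 0) (nat_lit 0) (XT.lf (nat_lit 0) (nat_lit 75573071726) (nat_lit 76) (nat_lit 14723018428) (nat_lit 76) (nat_lit 11136026723) (nat_lit 3) (nat_lit 4) (nat_lit 4) (nat_lit 5) (nat_lit 4) (nat_lit 4) (nat_lit 350) (nat_lit 223) (nat_lit 207)) (XT.lf (nat_lit 0) (nat_lit 85839417386) (nat_lit 76) (nat_lit 12144666861) (nat_lit 76) (nat_lit 8413273433) (nat_lit 3) (nat_lit 4) (nat_lit 4) (nat_lit 5) (nat_lit 4) (nat_lit 4) (nat_lit 351) (nat_lit 223) (nat_lit 206)))) (XT.nd (nat_lit 78) (nat_lit 76) (nat_lit 0) (XT.lf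 (nat_lit 0) (nat_lit 96473221359) (nat_lit 76) (nat_lit 9504474694) (nat_lit 76) (nat_lit 5635555815) (nat_lit 3) (nat_lit 4) (nat_lit 4) (nat_lit 5) (nat_lit 4) (nat_lit 4) (nat_lit 352) (nat_lit 223) (nat_lit 205)) (XT.nd (nat_lit 78) (nat_lit 76) (nat_lit 0) (XT.lf (nat_lit 0) (nat_lit 107499802226) (nat_lit 76) (nat_lit 6796155754) (nat_lit 76) (nat_lit 2796260255) (nat_lit 3) (nat_lit 4) (nat_lit 4) (nat_lit 5) (nat_lit 4) (nat_lit 4) (nat_lit 353) (nat_lit 223) (nat_lit 204)) (XT.lf (nat_lit 0) (nat_lit 109200175) (nat_lit 152) (nat_lit 3902958779) (nat_lit 76) (nat_lit 118835110867) (nat_lit 2) (nat_lit 5) (nat_lit 4) (nat_lit 5) (nat_lit 3) (nat_lit 4) (nat_lit 354) (nat_lit 223) (nat_lit 203))))) (XT.nd (nat_lit 234) (nat_lit 0) (nat_lit 0) (XT.nd (nat_lit 78) (nat_lit 0) (nat_lit 0) (XT.lf (nat_lit 0) (nat_lit 1953477204) (nat_lit 76) (nat_lit 1099188802) (nat_lit 152) (nat_lit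 125838083891) (nat_lit 1) (nat_lit 5) (nat_lit 2) (nat_lit 5) (nat_lit 3) (nat_lit 4) (nat_lit 355) (nat_lit 223) (nat_lit 202)) (XT.nd (nat_lit 78) (nat_lit 0) (nat_lit 0) (XT.lf (nat_lit 0) (nat_lit 6135499277) (nat_lit 152) (nat_lit 127195348588) (nat_lit 0) (nat_lit 1905812559) (nat_lit 1) (nat_lit 5) (nat_lit 3) (nat_lit 4) (nat_lit 1) (nat_lit 4) (nat_lit 356) (nat_lit 223) (nat_lit 201)) (XT.lf (nat_lit 0) (nat_lit 9319552965) (nat_lit 152) (nat_lit 127596672415) (nat_lit 0) (nat_lit 4985249947) (nat_lit 1) (nat_lit 5) (nat_lit 3) (nat_lit 4) (nat_lit 1) (nat_lit 4) (nat_lit 357) (nat_lit 223) (nat_lit 200)))) (XT.nd (nat_lit 156) (nat_lit 0) (nat_lit 0) (XT.nd (nat_lit 78) (nat_lit 0) (nat_lit 0) (XT.lf (nat_lit 0) (nat_lit 12601842076) (nat_lit 152) (nat_lit 128131633631) (nat_lit 0) (nat_lit 8167904486) (nat_lit 1) (nat_lit 5) (nat_lit 3) (nat_lit 4) (nat_lit 1) (nat_lit 4) (nat_lit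 358) (nat_lit 223) (nat_lit 199)) (XT.lf (nat_lit 0) (nat_lit 15990181583) (nat_lit 152) (nat_lit 128801505953) (nat_lit 0) (nat_lit 11461353926) (nat_lit 1) (nat_lit 5) (nat_lit 3) (nat_lit 4) (nat_lit 1) (nat_lit 4) (nat_lit 359) (nat_lit 223) (nat_lit 198))) (XT.nd (nat_lit 78) (nat_lit 0) (nat_lit 0) (XT.lf (nat_lit 0) (nat_lit 19492638962) (nat_lit 152) (nat_lit 129607884317) (nat_lit 0) (nat_lit 14873439811) (nat_lit 1) (nat_lit 5) (nat_lit 3) (nat_lit 4) (nat_lit 1) (nat_lit 4) (nat_lit 360) (nat_lit 223) (nat_lit 197)) (XT.lf (nat_lit 0) (nat_lit 23117553398) (nat_lit 152) (nat_lit 130552688670) (nat_lit 0) (nat_lit 18412286158) (nat_lit 1) (nat_lit 5) (nat_lit 3) (nat_lit 4) (nat_lit 1) (nat_lit 4) (nat_lit 361) (nat_lit 223) (nat_lit 196))))))) (XT.nd (nat_lit 39156) (nat_lit 0) (nat_lit 0) (XT.nd (nat_lit 38610) (nat_lit 0) (nat_lit 152) (XT.nd (nat_lit 38376) (nat_lit 0) (nat_lit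 228) (XT.nd (nat_lit 78) (nat_lit 0) (nat_lit 0) (XT.lf (nat_lit 0) (nat_lit 26873555638) (nat_lit 152) (nat_lit 131638168547) (nat_lit 0) (nat_lit 22086318789) (nat_lit 1) (nat_lit 5) (nat_lit 3) (nat_lit 4) (nat_lit 1) (nat_lit 4) (nat_lit 362) (nat_lit 223) (nat_lit 195)) (XT.nd (nat_lit 38220) (nat_lit 0) (nat_lit 380) (XT.lf (nat_lit 0) (nat_lit 30769588545) (nat_lit 152) (nat_lit 132866908422) (nat_lit 0) (nat_lit 25904285402) (nat_lit 1) (nat_lit 5) (nat_lit 3) (nat_lit 4) (nat_lit 1) (nat_lit 4) (nat_lit 363) (nat_lit 223) (nat_lit 194)) (XT.lf (nat_lit 0) (nat_lit 9147829761) (nat_lit 76) (nat_lit 6373476788) (nat_lit 76) (nat_lit 6373476788) (nat_lit 6) (nat_lit 4) (nat_lit 7) (nat_lit 5) (nat_lit 7) (nat_lit 4) (nat_lit 332) (nat_lit 224) (nat_lit 224)))) (XT.nd (nat_lit 78) (nat_lit 152) (nat_lit 0) (XT.lf (nat_lit 0) (nat_lit 29183276532) (nat_lit 76) (nat_lit 8485805077) (nat_lit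 76) (nat_lit 8144904541) (nat_lit 6) (nat_lit 4) (nat_lit 7) (nat_lit 5) (nat_lit 7) (nat_lit 4) (nat_lit 333) (nat_lit 224) (nat_lit 223)) (XT.nd (nat_lit 78) (nat_lit 152) (nat_lit 0) (XT.lf (nat_lit 0) (nat_lit 40301229696) (nat_lit 76) (nat_lit 4154581161) (nat_lit 76) (nat_lit 3489013447) (nat_lit 6) (nat_lit 4) (nat_lit 7) (nat_lit 5) (nat_lit 7) (nat_lit 4) (nat_lit 334) (nat_lit 224) (nat_lit 222)) (XT.lf (nat_lit 0) (nat_lit 1224979886) (nat_lit 152) (nat_lit 48682706270) (nat_lit 0) (nat_lit 278596828) (nat_lit 4) (nat_lit 5) (nat_lit 6) (nat_lit 4) (nat_lit 4) (nat_lit 4) (nat_lit 335) (nat_lit 224) (nat_lit 221))))) (XT.nd (nat_lit 234) (nat_lit 76) (nat_lit 0) (XT.nd (nat_lit 78) (nat_lit 0) (nat_lit 0) (XT.lf (nat_lit 0) (nat_lit 6063714543) (nat_lit 152) (nat_lit 41644859738) (nat_lit 0) (nat_lit 4831425951) (nat_lit 4) (nat_lit 5) (nat_lit 6) (nat_lit 4) (nat_lit 4) (nat_lit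 4) (nat_lit 336) (nat_lit 224) (nat_lit 220)) (XT.nd (nat_lit 78) (nat_lit 0) (nat_lit 0) (XT.lf (nat_lit 0) (nat_lit 10991179009) (nat_lit 152) (nat_lit 34538276315) (nat_lit 0) (nat_lit 9486599432) (nat_lit 4) (nat_lit 5) (nat_lit 6) (nat_lit 4) (nat_lit 4) (nat_lit 4) (nat_lit 337) (nat_lit 224) (nat_lit 219)) (XT.lf (nat_lit 0) (nat_lit 16019105342) (nat_lit 152) (nat_lit 27346035565) (nat_lit 0) (nat_lit 14255201016) (nat_lit 4) (nat_lit 5) (nat_lit 6) (nat_lit 4) (nat_lit 4) (nat_lit 4) (nat_lit 338) (nat_lit 224) (nat_lit 218)))) (XT.nd (nat_lit 156) (nat_lit 76) (nat_lit 0) (XT.nd (nat_lit 78) (nat_lit 0) (nat_lit 0) (XT.lf (nat_lit 0) (nat_lit 21159464795) (nat_lit 152) (nat_lit 20051013105) (nat_lit 0) (nat_lit 19148584519) (nat_lit 4) (nat_lit 5) (nat_lit 6) (nat_lit 4) (nat_lit 4) (nat_lit 4) (nat_lit 339) (nat_lit 224) (nat_lit 217)) (XT.lf (nat_lit 0) (nat_lit 26424496319)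 (nat_lit 152) (nat_lit 12635839834) (nat_lit 0) (nat_lit 24178400852) (nat_lit 4) (nat_lit 5) (nat_lit 6) (nat_lit 4) (nat_lit 4) (nat_lit 4) (nat_lit 340) (nat_lit 224) (nat_lit 216))) (XT.nd (nat_lit 78) (nat_lit 76) (nat_lit 0) (XT.lf (nat_lit 0) (nat_lit 31826735704) (nat_lit 152) (nat_lit 5082860578) (nat_lit 0) (nat_lit 29356625769) (nat_lit 4) (nat_lit 5) (nat_lit 6) (nat_lit 4) (nat_lit 4) (nat_lit 4) (nat_lit 341) (nat_lit 224) (nat_lit 215)) (XT.lf (nat_lit 0) (nat_lit 2678168663) (nat_lit 76) (nat_lit 34726620956) (nat_lit 76) (nat_lit 32043163910) (nat_lit 3) (nat_lit 4) (nat_lit 4) (nat_lit 5) (nat_lit 4) (nat_lit 4) (nat_lit 342) (nat_lit 224) (nat_lit 214)))))) (XT.nd (nat_lit 546) (nat_lit 152) (nat_lit 0) (XT.nd (nat_lit 234) (nat_lit 0) (nat_lit 0) (XT.nd (nat_lit 78) (nat_lit 0) (nat_lit 0) (XT.lf (nat_lit 0) (nat_lit 10717966074) (nat_lit 76) (nat_lit 32479706836) (nat_lit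 76) (nat_lit 29593062064) (nat_lit 3) (nat_lit 4) (nat_lit 4) (nat_lit 5) (nat_lit 4) (nat_lit 4) (nat_lit 343) (nat_lit 224) (nat_lit 213)) (XT.nd (nat_lit 78) (nat_lit 0) (nat_lit 0) (XT.lf (nat_lit 0) (nat_lit 18954515137) (nat_lit 76) (nat_lit 30214831054) (nat_lit 76) (nat_lit 27134674162) (nat_lit 3) (nat_lit 4) (nat_lit 4) (nat_lit 5) (nat_lit 4) (nat_lit 4) (nat_lit 344) (nat_lit 224) (nat_lit 212)) (XT.lf (nat_lit 0) (nat_lit 27407426682) (nat_lit 76) (nat_lit 27926601047) (nat_lit 76) (nat_lit 24662146898) (nat_lit 3) (nat_lit 4) (nat_lit 4) (nat_lit 5) (nat_lit 4) (nat_lit 4) (nat_lit 345) (nat_lit 224) (nat_lit 211)))) (XT.nd (nat_lit 156) (nat_lit 0) (nat_lit 0) (XT.nd (nat_lit 78) (nat_lit 0) (nat_lit 0) (XT.lf (nat_lit 0) (nat_lit 36096826690) (nat_lit 76) (nat_lit 25609568649) (nat_lit 76) (nat_lit 22169593303) (nat_lit 3) (nat_lit 4) (nat_lit 4) (nat_lit 5) (nat_lit 4) (nat_lit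 4) (nat_lit 346) (nat_lit 224) (nat_lit 210)) (XT.lf (nat_lit 0) (nat_lit 45043404208) (nat_lit 76) (nat_lit 23258217116) (nat_lit 76) (nat_lit 19651078726) (nat_lit 3) (nat_lit 4) (nat_lit 4) (nat_lit 5) (nat_lit 4) (nat_lit 4) (nat_lit 347) (nat_lit 224) (nat_lit 209))) (XT.nd (nat_lit 78) (nat_lit 0) (nat_lit 0) (XT.lf (nat_lit 0) (nat_lit 54268460611) (nat_lit 76) (nat_lit 20866947992) (nat_lit 76) (nat_lit 17100606702) (nat_lit 3) (nat_lit 4) (nat_lit 4) (nat_lit 5) (nat_lit 4) (nat_lit 4) (nat_lit 348) (nat_lit 224) (nat_lit 208)) (XT.lf (nat_lit 0) (nat_lit 63793960319) (nat_lit 76) (nat_lit 18430067780) (nat_lit 76) (nat_lit 14512104680) (nat_lit 3) (nat_lit 4) (nat_lit 4) (nat_lit 5) (nat_lit 4) (nat_lit 4) (nat_lit 349) (nat_lit 224) (nat_lit 207))))) (XT.nd (nat_lit 234) (nat_lit 152) (nat_lit 0) (XT.nd (nat_lit 78) (nat_lit 0) (nat_lit 0) (XT.lf (nat_lit 0) (nat_lit 73642583094)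 (nat_lit 76) (nat_lit 15941774383) (nat_lit 76) (nat_lit 11879409560) (nat_lit 3) (nat_lit 4) (nat_lit 4) (nat_lit 5) (nat_lit 4) (nat_lit 4) (nat_lit 350) (nat_lit 224) (nat_lit 206)) (XT.nd (nat_lit 78) (nat_lit 0) (nat_lit 0) (XT.lf (nat_lit 0) (nat_lit 83837778038) (nat_lit 76) (nat_lit 13396143293) (nat_lit 76) (nat_lit 9196253020) (nat_lit 3) (nat_lit 4) (nat_lit 4) (nat_lit 5) (nat_lit 4) (nat_lit 4) (nat_lit 351) (nat_lit 224) (nat_lit 205)) (XT.lf (nat_lit 0) (nat_lit 94403819423) (nat_lit 76) (nat_lit 10787113485) (nat_lit 76) (nat_lit 6456246592) (nat_lit 3) (nat_lit 4) (nat_lit 4) (nat_lit 5) (nat_lit 4) (nat_lit 4) (nat_lit 352) (nat_lit 224) (nat_lit 204)))) (XT.nd (nat_lit 156) (nat_lit 152) (nat_lit 0) (XT.nd (nat_lit 78) (nat_lit 0) (nat_lit 0) (XT.lf (nat_lit 0) (nat_lit 105365864491) (nat_lit 76) (nat_lit 8108472981) (nat_lit 76) (nat_lit 3652866451) (nat_lit 3) (nat_lit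 4) (nat_lit 4) (nat_lit 5) (nat_lit 4) (nat_lit 4) (nat_lit 353) (nat_lit 224) (nat_lit 203)) (XT.lf (nat_lit 0) (nat_lit 116750013351) (nat_lit 76) (nat_lit 5353844068) (nat_lit 76) (nat_lit 779437882) (nat_lit 3) (nat_lit 4) (nat_lit 4) (nat_lit 5) (nat_lit 4) (nat_lit 4) (nat_lit 354) (nat_lit 224) (nat_lit 202))) (XT.nd (nat_lit 78) (nat_lit 76) (nat_lit 0) (XT.lf (nat_lit 0) (nat_lit 2128518910) (nat_lit 152) (nat_lit 366655326) (nat_lit 76) (nat_lit 126433358339) (nat_lit 2) (nat_lit 5) (nat_lit 4) (nat_lit 5) (nat_lit 3) (nat_lit 4) (nat_lit 355) (nat_lit 224) (nat_lit 201)) (XT.lf (nat_lit 0) (nat_lit 5163075729) (nat_lit 152) (nat_lit 129605384753) (nat_lit 0) (nat_lit 507441260) (nat_lit 1) (nat_lit 5) (nat_lit 3) (nat_lit 4) (nat_lit 1) (nat_lit 4) (nat_lit 356) (nat_lit 224) (nat_lit 200))))))))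
noncomputable def xc5 : XT := (XT.nd (nat_lit 40014) (nat_lit 0) (nat_lit 0) (XT.nd (nat_lit 39000) (nat_lit 0) (nat_lit 152) (XT.nd (nat_lit 468) (nat_lit 0) (nat_lit 0) (XT.nd (nat_lit 234) (nat_lit 0) (nat_lit 0) (XT.nd (nat_lit 78) (nat_lit 0) (nat_lit 0) (XT.lf (nat_lit 0) (nat_lit 8317389289) (nat_lit 152) (nat_lit 130062109164) (nat_lit 0) (nat_lit 3562120249) (nat_lit 1) (nat_lit 5) (nat_lit 3) (nat_lit 4) (nat_lit 1) (nat_lit 4) (nat_lit 357) (nat_lit 224) (nat_lit 199)) (XT.nd (nat_lit 78) (nat_lit 0) (nat_lit 0) (XT.lf (nat_lit 0) (nat_lit 11571354469) (nat_lit 152) (nat_lit 130649832842) (nat_lit 0) (nat_lit 6721195360) (nat_lit 1) (nat_lit 5) (nat_lit 3) (nat_lit 4) (nat_lit 1) (nat_lit 4) (nat_lit 358) (nat_lit 224) (nat_lit 198)) (XT.lf (nat_lit 0) (nat_lit 14932718804) (nat_lit 152) (nat_lit 131369955128) (nat_lit 0) (nat_lit 9992188202) (nat_lit 1) (nat_lit 5) (nat_lit 3)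 (nat_lit 4) (nat_lit 1) (nat_lit 4) (nat_lit 359) (nat_lit 224) (nat_lit 197)))) (XT.nd (nat_lit 78) (nat_lit 0) (nat_lit 0) (XT.lf (nat_lit 0) (nat_lit 18409485542) (nat_lit 152) (nat_lit 132224190599) (nat_lit 0) (nat_lit 13382886851) (nat_lit 1) (nat_lit 5) (nat_lit 3) (nat_lit 4) (nat_lit 1) (nat_lit 4) (nat_lit 360) (nat_lit 224) (nat_lit 196)) (XT.nd (nat_lit 78) (nat_lit 0) (nat_lit 0) (XT.lf (nat_lit 0) (nat_lit 22009932701) (nat_lit 152) (nat_lit 133214573150) (nat_lit 0) (nat_lit 16901364401) (nat_lit 1) (nat_lit 5) (nat_lit 3) (nat_lit 4) (nat_lit 1) (nat_lit 4) (nat_lit 361) (nat_lit 224) (nat_lit 195)) (XT.lf (nat_lit 0) (nat_lit 25742632773) (nat_lit 152) (nat_lit 134343460834) (nat_lit 0) (nat_lit 20555998179) (nat_lit 1) (nat_lit 5) (nat_lit 3) (nat_lit 4) (nat_lit 1) (nat_lit 4) (nat_lit 362) (nat_lit 224) (nat_lit 194))))) (XT.nd (nat_lit 38220) (nat_lit 0) (nat_lit 228)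 (XT.nd (nat_lit 38064) (nat_lit 0) (nat_lit 380) (XT.lf (nat_lit 0) (nat_lit 29616473139) (nat_lit 152) (nat_lit 135613541479) (nat_lit 0) (nat_lit 24355489694) (nat_lit 1) (nat_lit 5) (nat_lit 3) (nat_lit 4) (nat_lit 1) (nat_lit 4) (nat_lit 363) (nat_lit 224) (nat_lit 193)) (XT.nd (nat_lit 78) (nat_lit 76) (nat_lit 0) (XT.lf (nat_lit 0) (nat_lit 9341905469) (nat_lit 152) (nat_lit 1334871518) (nat_lit 0) (nat_lit 9341905469) (nat_lit 7) (nat_lit 5) (nat_lit 9) (nat_lit 4) (nat_lit 7) (nat_lit 4) (nat_lit 330) (nat_lit 225) (nat_lit 225)) (XT.lf (nat_lit 0) (nat_lit 7612455768) (nat_lit 76) (nat_lit 17306117815) (nat_lit 76) (nat_lit 16948172252) (nat_lit 6) (nat_lit 4) (nat_lit 7) (nat_lit 5) (nat_lit 7) (nat_lit 4) (nat_lit 331) (nat_lit 225) (nat_lit 224)))) (XT.nd (nat_lit 156) (nat_lit 152) (nat_lit 0) (XT.nd (nat_lit 78) (nat_lit 0) (nat_lit 0) (XT.lf (nat_lit 0) (nat_lit 18134807360)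 (nat_lit 76) (nat_lit 13178133827) (nat_lit 76) (nat_lit 12479287728) (nat_lit 6) (nat_lit 4) (nat_lit 7) (nat_lit 5) (nat_lit 7) (nat_lit 4) (nat_lit 332) (nat_lit 225) (nat_lit 223)) (XT.lf (nat_lit 0) (nat_lit 28869231835) (nat_lit 76) (nat_lit 8986732649) (nat_lit 76) (nat_lit 7963219372) (nat_lit 6) (nat_lit 4) (nat_lit 7) (nat_lit 5) (nat_lit 7) (nat_lit 4) (nat_lit 333) (nat_lit 225) (nat_lit 222))) (XT.nd (nat_lit 78) (nat_lit 152) (nat_lit 0) (XT.lf (nat_lit 0) (nat_lit 39841287347) (nat_lit 76) (nat_lit 4721934753) (nat_lit 76) (nat_lit 3389214640) (nat_lit 6) (nat_lit 4) (nat_lit 7) (nat_lit 5) (nat_lit 7) (nat_lit 4) (nat_lit 334) (nat_lit 225) (nat_lit 221)) (XT.lf (nat_lit 0) (nat_lit 885255076) (nat_lit 76) (nat_lit 352408908) (nat_lit 152) (nat_lit 48958785952) (nat_lit 4) (nat_lit 5) (nat_lit 5) (nat_lit 5) (nat_lit 6) (nat_lit 4) (nat_lit 335) (nat_lit 225) (nat_lit 220))))))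 (XT.nd (nat_lit 468) (nat_lit 76) (nat_lit 0) (XT.nd (nat_lit 234) (nat_lit 0) (nat_lit 0) (XT.nd (nat_lit 78) (nat_lit 0) (nat_lit 0) (XT.lf (nat_lit 0) (nat_lit 5998275987) (nat_lit 152) (nat_lit 42408085361) (nat_lit 0) (nat_lit 4146176445) (nat_lit 4) (nat_lit 5) (nat_lit 6) (nat_lit 4) (nat_lit 4) (nat_lit 4) (nat_lit 336) (nat_lit 225) (nat_lit 219)) (XT.nd (nat_lit 78) (nat_lit 0) (nat_lit 0) (XT.lf (nat_lit 0) (nat_lit 10854564181) (nat_lit 152) (nat_lit 35433049179) (nat_lit 0) (nat_lit 8743139891) (nat_lit 4) (nat_lit 5) (nat_lit 6) (nat_lit 4) (nat_lit 4) (nat_lit 4) (nat_lit 337) (nat_lit 225) (nat_lit 218)) (XT.lf (nat_lit 0) (nat_lit 15814703589) (nat_lit 152) (nat_lit 28366091516) (nat_lit 0) (nat_lit 13456303349) (nat_lit 4) (nat_lit 5) (nat_lit 6) (nat_lit 4) (nat_lit 4) (nat_lit 4) (nat_lit 338) (nat_lit 225) (nat_lit 217)))) (XT.nd (nat_lit 78) (nat_lit 0) (nat_lit 0)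 (XT.lf (nat_lit 0) (nat_lit 20890504066) (nat_lit 152) (nat_lit 21190386281) (nat_lit 0) (nat_lit 18296888634) (nat_lit 4) (nat_lit 5) (nat_lit 6) (nat_lit 4) (nat_lit 4) (nat_lit 4) (nat_lit 339) (nat_lit 225) (nat_lit 216)) (XT.nd (nat_lit 78) (nat_lit 0) (nat_lit 0) (XT.lf (nat_lit 0) (nat_lit 26094050851) (nat_lit 152) (nat_lit 13888848463) (nat_lit 0) (nat_lit 23276420952) (nat_lit 4) (nat_lit 5) (nat_lit 6) (nat_lit 4) (nat_lit 4) (nat_lit 4) (nat_lit 340) (nat_lit 225) (nat_lit 215)) (XT.lf (nat_lit 0) (nat_lit 31437733341) (nat_lit 152) (nat_lit 6444093448) (nat_lit 0) (nat_lit 28406756330) (nat_lit 4) (nat_lit 5) (nat_lit 6) (nat_lit 4) (nat_lit 4) (nat_lit 4) (nat_lit 341) (nat_lit 225) (nat_lit 214))))) (XT.nd (nat_lit 234) (nat_lit 0) (nat_lit 0) (XT.nd (nat_lit 78) (nat_lit 0) (nat_lit 0) (XT.lf (nat_lit 0) (nat_lit 1184722576) (nat_lit 76) (nat_lit 35760940292) (nat_lit 76)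 (nat_lit 32526775555) (nat_lit 3) (nat_lit 4) (nat_lit 4) (nat_lit 5) (nat_lit 4) (nat_lit 4) (nat_lit 342) (nat_lit 225) (nat_lit 213)) (XT.nd (nat_lit 78) (nat_lit 0) (nat_lit 0) (XT.lf (nat_lit 0) (nat_lit 9124403782) (nat_lit 76) (nat_lit 33560067169) (nat_lit 76) (nat_lit 30132390313) (nat_lit 3) (nat_lit 4) (nat_lit 4) (nat_lit 5) (nat_lit 4) (nat_lit 4) (nat_lit 343) (nat_lit 225) (nat_lit 212)) (XT.lf (nat_lit 0) (nat_lit 17265604079) (nat_lit 76) (nat_lit 31339039954) (nat_lit 76) (nat_lit 27727065841) (nat_lit 3) (nat_lit 4) (nat_lit 4) (nat_lit 5) (nat_lit 4) (nat_lit 4) (nat_lit 344) (nat_lit 225) (nat_lit 211)))) (XT.nd (nat_lit 156) (nat_lit 0) (nat_lit 0) (XT.nd (nat_lit 78) (nat_lit 0) (nat_lit 0) (XT.lf (nat_lit 0) (nat_lit 25627707275) (nat_lit 76) (nat_lit 29092570488) (nat_lit 76) (nat_lit 25305075178) (nat_lit 3) (nat_lit 4) (nat_lit 4) (nat_lit 5) (nat_lit 4) (nat_lit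 4) (nat_lit 345) (nat_lit 225) (nat_lit 210)) (XT.lf (nat_lit 0) (nat_lit 34230623142) (nat_lit 76) (nat_lit 26815310034) (nat_lit 76) (nat_lit 22860651680) (nat_lit 3) (nat_lit 4) (nat_lit 4) (nat_lit 5) (nat_lit 4) (nat_lit 4) (nat_lit 346) (nat_lit 225) (nat_lit 209))) (XT.nd (nat_lit 78) (nat_lit 0) (nat_lit 0) (XT.lf (nat_lit 0) (nat_lit 43094834811) (nat_lit 76) (nat_lit 24501836543) (nat_lit 76) (nat_lit 20387975289) (nat_lit 3) (nat_lit 4) (nat_lit 4) (nat_lit 5) (nat_lit 4) (nat_lit 4) (nat_lit 347) (nat_lit 225) (nat_lit 208)) (XT.lf (nat_lit 0) (nat_lit 52241447548) (nat_lit 76) (nat_lit 22146641745) (nat_lit 76) (nat_lit 17881158682) (nat_lit 3) (nat_lit 4) (nat_lit 4) (nat_lit 5) (nat_lit 4) (nat_lit 4) (nat_lit 348) (nat_lit 225) (nat_lit 207))))))) (XT.nd (nat_lit 1014) (nat_lit 0) (nat_lit 0) (XT.nd (nat_lit 468) (nat_lit 152) (nat_lit 0) (XT.nd (nat_lit 234) (nat_lit 0)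 (nat_lit 0) (XT.nd (nat_lit 78) (nat_lit 0) (nat_lit 0) (XT.lf (nat_lit 0) (nat_lit 61692239003) (nat_lit 76) (nat_lit 19744118033) (nat_lit 76) (nat_lit 15334233246) (nat_lit 3) (nat_lit 4) (nat_lit 4) (nat_lit 5) (nat_lit 4) (nat_lit 4) (nat_lit 349) (nat_lit 225) (nat_lit 206)) (XT.nd (nat_lit 78) (nat_lit 0) (nat_lit 0) (XT.lf (nat_lit 0) (nat_lit 71469711061) (nat_lit 76) (nat_lit 17288545113) (nat_lit 76) (nat_lit 12741134876) (nat_lit 3) (nat_lit 4) (nat_lit 4) (nat_lit 5) (nat_lit 4) (nat_lit 4) (nat_lit 350) (nat_lit 225) (nat_lit 205)) (XT.lf (nat_lit 0) (nat_lit 81597143416) (nat_lit 76) (nat_lit 14774076382) (nat_lit 76) (nat_lit 10095689525) (nat_lit 3) (nat_lit 4) (nat_lit 4) (nat_lit 5) (nat_lit 4) (nat_lit 4) (nat_lit 351) (nat_lit 225) (nat_lit 204)))) (XT.nd (nat_lit 78) (nat_lit 0) (nat_lit 0) (XT.lf (nat_lit 0) (nat_lit 92098649003) (nat_lit 76) (nat_lit 12194725010)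 (nat_lit 76) (nat_lit 7391598516) (nat_lit 3) (nat_lit 4) (nat_lit 4) (nat_lit 5) (nat_lit 4) (nat_lit 4) (nat_lit 352) (nat_lit 225) (nat_lit 203)) (XT.nd (nat_lit 78) (nat_lit 0) (nat_lit 0) (XT.lf (nat_lit 0) (nat_lit 102999231407) (nat_lit 76) (nat_lit 9544349685) (nat_lit 76) (nat_lit 4622423535) (nat_lit 3) (nat_lit 4) (nat_lit 4) (nat_lit 5) (nat_lit 4) (nat_lit 4) (nat_lit 353) (nat_lit 225) (nat_lit 202)) (XT.lf (nat_lit 0) (nat_lit 114324844395) (nat_lit 76) (nat_lit 6816639988) (nat_lit 76) (nat_lit 1781571310) (nat_lit 3) (nat_lit 4) (nat_lit 4) (nat_lit 5) (nat_lit 4) (nat_lit 4) (nat_lit 354) (nat_lit 225) (nat_lit 201))))) (XT.nd (nat_lit 234) (nat_lit 0) (nat_lit 0) (XT.nd (nat_lit 78) (nat_lit 76) (nat_lit 0) (XT.lf (nat_lit 0) (nat_lit 1115521036) (nat_lit 152) (nat_lit 2878315762) (nat_lit 76) (nat_lit 124975668101) (nat_lit 2) (nat_lit 5) (nat_lit 4) (nat_lit 5) (nat_lit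 3) (nat_lit 4) (nat_lit 355) (nat_lit 225) (nat_lit 200)) (XT.nd (nat_lit 78) (nat_lit 0) (nat_lit 0) (XT.lf (nat_lit 0) (nat_lit 3059245210) (nat_lit 76) (nat_lit 1031736211) (nat_lit 152) (nat_lit 131227675393) (nat_lit 1) (nat_lit 5) (nat_lit 2) (nat_lit 5) (nat_lit 3) (nat_lit 4) (nat_lit 356) (nat_lit 225) (nat_lit 199)) (XT.lf (nat_lit 0) (nat_lit 7207053371) (nat_lit 152) (nat_lit 132758980797) (nat_lit 0) (nat_lit 2019496239) (nat_lit 1) (nat_lit 5) (nat_lit 3) (nat_lit 4) (nat_lit 1) (nat_lit 4) (nat_lit 357) (nat_lit 225) (nat_lit 198)))) (XT.nd (nat_lit 156) (nat_lit 0) (nat_lit 0) (XT.nd (nat_lit 78) (nat_lit 0) (nat_lit 0) (XT.lf (nat_lit 0) (nat_lit 10434043378) (nat_lit 152) (nat_lit 133396954438) (nat_lit 0) (nat_lit 5156114752) (nat_lit 1) (nat_lit 5) (nat_lit 3) (nat_lit 4) (nat_lit 1) (nat_lit 4) (nat_lit 358) (nat_lit 225) (nat_lit 197)) (XT.lf (nat_lit 0) (nat_lit 13769717072)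 (nat_lit 152) (nat_lit 134164933832) (nat_lit 0) (nat_lit 8405720358) (nat_lit 1) (nat_lit 5) (nat_lit 3) (nat_lit 4) (nat_lit 1) (nat_lit 4) (nat_lit 359) (nat_lit 225) (nat_lit 196))) (XT.nd (nat_lit 78) (nat_lit 0) (nat_lit 0) (XT.lf (nat_lit 0) (nat_lit 17222016534) (nat_lit 152) (nat_lit 135064747501) (nat_lit 0) (nat_lit 11776050211) (nat_lit 1) (nat_lit 5) (nat_lit 3) (nat_lit 4) (nat_lit 1) (nat_lit 4) (nat_lit 360) (nat_lit 225) (nat_lit 195)) (XT.lf (nat_lit 0) (nat_lit 20799161525) (nat_lit 152) (nat_lit 136098537860) (nat_lit 0) (nat_lit 15275128908) (nat_lit 1) (nat_lit 5) (nat_lit 3) (nat_lit 4) (nat_lit 1) (nat_lit 4) (nat_lit 361) (nat_lit 225) (nat_lit 194)))))) (XT.nd (nat_lit 38376) (nat_lit 0) (nat_lit 228) (XT.nd (nat_lit 38064) (nat_lit 0) (nat_lit 380) (XT.nd (nat_lit 78) (nat_lit 0) (nat_lit 0) (XT.lf (nat_lit 0) (nat_lit 24509669055) (nat_lit 152) (nat_lit 137268766313)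 (nat_lit 0) (nat_lit 18911287587) (nat_lit 1) (nat_lit 5) (nat_lit 3) (nat_lit 4) (nat_lit 1) (nat_lit 4) (nat_lit 362) (nat_lit 225) (nat_lit 193)) (XT.nd (nat_lit 37908) (nat_lit 0) (nat_lit 456) (XT.lf (nat_lit 0) (nat_lit 28362373668) (nat_lit 152) (nat_lit 138578219119) (nat_lit 0) (nat_lit 22693183770) (nat_lit 1) (nat_lit 5) (nat_lit 3) (nat_lit 4) (nat_lit 1) (nat_lit 4) (nat_lit 363) (nat_lit 225) (nat_lit 192)) (XT.lf (nat_lit 0) (nat_lit 3583934850) (nat_lit 152) (nat_lit 11154594963) (nat_lit 0) (nat_lit 3583934850) (nat_lit 7) (nat_lit 5) (nat_lit 9) (nat_lit 4) (nat_lit 7) (nat_lit 4) (nat_lit 328) (nat_lit 226) (nat_lit 226)))) (XT.nd (nat_lit 156) (nat_lit 76) (nat_lit 0) (XT.nd (nat_lit 78) (nat_lit 0) (nat_lit 0) (XT.lf (nat_lit 0) (nat_lit 13015029529) (nat_lit 152) (nat_lit 12644152919) (nat_lit 0) (nat_lit 12639186688) (nat_lit 7) (nat_lit 5) (nat_lit 9) (nat_lit 4)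 (nat_lit 7) (nat_lit 4) (nat_lit 329) (nat_lit 226) (nat_lit 225)) (XT.lf (nat_lit 0) (nat_lit 18969278951) (nat_lit 152) (nat_lit 2835342062) (nat_lit 0) (nat_lit 18235490546) (nat_lit 7) (nat_lit 5) (nat_lit 9) (nat_lit 4) (nat_lit 7) (nat_lit 4) (nat_lit 330) (nat_lit 226) (nat_lit 224))) (XT.nd (nat_lit 78) (nat_lit 0) (nat_lit 0) (XT.lf (nat_lit 0) (nat_lit 7282708836) (nat_lit 76) (nat_lit 17832091765) (nat_lit 76) (nat_lit 16757402824) (nat_lit 6) (nat_lit 4) (nat_lit 7) (nat_lit 5) (nat_lit 7) (nat_lit 4) (nat_lit 331) (nat_lit 226) (nat_lit 223)) (XT.lf (nat_lit 0) (nat_lit 17651867894) (nat_lit 76) (nat_lit 13773855099) (nat_lit 76) (nat_lit 12374498981) (nat_lit 6) (nat_lit 4) (nat_lit 7) (nat_lit 5) (nat_lit 7) (nat_lit 4) (nat_lit 332) (nat_lit 226) (nat_lit 222))))) (XT.nd (nat_lit 234) (nat_lit 76) (nat_lit 0) (XT.nd (nat_lit 78) (nat_lit 76) (nat_lit 0) (XT.lf (nat_lit 0)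 (nat_lit 28240394716) (nat_lit 76) (nat_lit 9648879941) (nat_lit 76) (nat_lit 7940316987) (nat_lit 6) (nat_lit 4) (nat_lit 7) (nat_lit 5) (nat_lit 7) (nat_lit 4) (nat_lit 333) (nat_lit 226) (nat_lit 221)) (XT.nd (nat_lit 78) (nat_lit 76) (nat_lit 0) (XT.lf (nat_lit 0) (nat_lit 39073500082) (nat_lit 76) (nat_lit 5447344921) (nat_lit 76) (nat_lit 3444299267) (nat_lit 6) (nat_lit 4) (nat_lit 7) (nat_lit 5) (nat_lit 7) (nat_lit 4) (nat_lit 334) (nat_lit 226) (nat_lit 220)) (XT.lf (nat_lit 0) (nat_lit 1102320641) (nat_lit 152) (nat_lit 45794468) (nat_lit 76) (nat_lit 49063525181) (nat_lit 5) (nat_lit 5) (nat_lit 7) (nat_lit 5) (nat_lit 6) (nat_lit 4) (nat_lit 335) (nat_lit 226) (nat_lit 219)))) (XT.nd (nat_lit 156) (nat_lit 0) (nat_lit 0) (XT.nd (nat_lit 78) (nat_lit 0) (nat_lit 0) (XT.lf (nat_lit 0) (nat_lit 5783654146) (nat_lit 152) (nat_lit 43479144109) (nat_lit 0) (nat_lit 3307333894) (nat_lit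 4) (nat_lit 5) (nat_lit 6) (nat_lit 4) (nat_lit 4) (nat_lit 4) (nat_lit 336) (nat_lit 226) (nat_lit 218)) (XT.lf (nat_lit 0) (nat_lit 10572155415) (nat_lit 152) (nat_lit 36629391014) (nat_lit 0) (nat_lit 7848859212) (nat_lit 4) (nat_lit 5) (nat_lit 6) (nat_lit 4) (nat_lit 4) (nat_lit 4) (nat_lit 337) (nat_lit 226) (nat_lit 217))) (XT.nd (nat_lit 78) (nat_lit 0) (nat_lit 0) (XT.lf (nat_lit 0) (nat_lit 15467735847) (nat_lit 152) (nat_lit 29681750576) (nat_lit 0) (nat_lit 12509224453) (nat_lit 4) (nat_lit 5) (nat_lit 6) (nat_lit 4) (nat_lit 4) (nat_lit 4) (nat_lit 338) (nat_lit 226) (nat_lit 216)) (XT.lf (nat_lit 0) (nat_lit 20482051584) (nat_lit 152) (nat_lit 22619680794) (nat_lit 0) (nat_lit 17299525723) (nat_lit 4) (nat_lit 5) (nat_lit 6) (nat_lit 4) (nat_lit 4) (nat_lit 4) (nat_lit 339) (nat_lit 226) (nat_lit 215))))))))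
noncomputable def xc6 : XT := (XT.nd (nat_lit 39702) (nat_lit 0) (nat_lit 152) (XT.nd (nat_lit 1014) (nat_lit 152) (nat_lit 0) (XT.nd (nat_lit 468) (nat_lit 0) (nat_lit 0) (XT.nd (nat_lit 234) (nat_lit 76) (nat_lit 0) (XT.nd (nat_lit 78) (nat_lit 0) (nat_lit 0) (XT.lf (nat_lit 0) (nat_lit 25627041474) (nat_lit 152) (nat_lit 15426367217) (nat_lit 0) (nat_lit 22231168501) (nat_lit 4) (nat_lit 5) (nat_lit 6) (nat_lit 4) (nat_lit 4) (nat_lit 4) (nat_lit 340) (nat_lit 226) (nat_lit 214)) (XT.nd (nat_lit 78) (nat_lit 0) (nat_lit 0) (XT.lf (nat_lit 0) (nat_lit 30914955493) (nat_lit 152) (nat_lit 8084682907) (nat_lit 0) (nat_lit 27315894794) (nat_lit 4) (nat_lit 5) (nat_lit 6) (nat_lit 4) (nat_lit 4) (nat_lit 4) (nat_lit 341) (nat_lit 226) (nat_lit 213)) (XT.lf (nat_lit 0) (nat_lit 36358383913) (nat_lit 152) (nat_lit 577147664) (nat_lit 0) (nat_lit 32565811094) (nat_lit 4) (nat_lit 5) (nat_lit 6)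 (nat_lit 4) (nat_lit 4) (nat_lit 4) (nat_lit 342) (nat_lit 226) (nat_lit 212)))) (XT.nd (nat_lit 78) (nat_lit 0) (nat_lit 0) (XT.lf (nat_lit 0) (nat_lit 7255698405) (nat_lit 76) (nat_lit 34784335082) (nat_lit 76) (nat_lit 30807465007) (nat_lit 3) (nat_lit 4) (nat_lit 4) (nat_lit 5) (nat_lit 4) (nat_lit 4) (nat_lit 343) (nat_lit 226) (nat_lit 211)) (XT.nd (nat_lit 78) (nat_lit 0) (nat_lit 0) (XT.lf (nat_lit 0) (nat_lit 15306090353) (nat_lit 76) (nat_lit 32605068409) (nat_lit 76) (nat_lit 28452677137) (nat_lit 3) (nat_lit 4) (nat_lit 4) (nat_lit 5) (nat_lit 4) (nat_lit 4) (nat_lit 344) (nat_lit 226) (nat_lit 210)) (XT.lf (nat_lit 0) (nat_lit 23581709408) (nat_lit 76) (nat_lit 30398370887) (nat_lit 76) (nat_lit 26078816570) (nat_lit 3) (nat_lit 4) (nat_lit 4) (nat_lit 5) (nat_lit 4) (nat_lit 4) (nat_lit 345) (nat_lit 226) (nat_lit 209))))) (XT.nd (nat_lit 234) (nat_lit 0) (nat_lit 0) (XT.nd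 (nat_lit 78) (nat_lit 0) (nat_lit 0) (XT.lf (nat_lit 0) (nat_lit 32102259425) (nat_lit 76) (nat_lit 28158988475) (nat_lit 76) (nat_lit 23680231258) (nat_lit 3) (nat_lit 4) (nat_lit 4) (nat_lit 5) (nat_lit 4) (nat_lit 4) (nat_lit 346) (nat_lit 226) (nat_lit 208)) (XT.nd (nat_lit 78) (nat_lit 0) (nat_lit 0) (XT.lf (nat_lit 0) (nat_lit 40888027429) (nat_lit 76) (nat_lit 25881589309) (nat_lit 76) (nat_lit 21251210283) (nat_lit 3) (nat_lit 4) (nat_lit 4) (nat_lit 5) (nat_lit 4) (nat_lit 4) (nat_lit 347) (nat_lit 226) (nat_lit 207)) (XT.lf (nat_lit 0) (nat_lit 49959931913) (nat_lit 76) (nat_lit 23560751012) (nat_lit 76) (nat_lit 18785970262) (nat_lit 3) (nat_lit 4) (nat_lit 4) (nat_lit 5) (nat_lit 4) (nat_lit 4) (nat_lit 348) (nat_lit 226) (nat_lit 206)))) (XT.nd (nat_lit 156) (nat_lit 0) (nat_lit 0) (XT.nd (nat_lit 78) (nat_lit 0) (nat_lit 0) (XT.lf (nat_lit 0) (nat_lit 59339572651) (nat_lit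 76) (nat_lit 21190947777) (nat_lit 76) (nat_lit 16278641577) (nat_lit 3) (nat_lit 4) (nat_lit 4) (nat_lit 5) (nat_lit 4) (nat_lit 4) (nat_lit 349) (nat_lit 226) (nat_lit 205)) (XT.lf (nat_lit 0) (nat_lit 69049282121) (nat_lit 76) (nat_lit 18766537215) (nat_lit 76) (nat_lit 13723254395) (nat_lit 3) (nat_lit 4) (nat_lit 4) (nat_lit 5) (nat_lit 4) (nat_lit 4) (nat_lit 350) (nat_lit 226) (nat_lit 204))) (XT.nd (nat_lit 78) (nat_lit 0) (nat_lit 0) (XT.lf (nat_lit 0) (nat_lit 79112178678) (nat_lit 76) (nat_lit 16281746921) (nat_lit 76) (nat_lit 11113724464) (nat_lit 3) (nat_lit 4) (nat_lit 4) (nat_lit 5) (nat_lit 4) (nat_lit 4) (nat_lit 351) (nat_lit 226) (nat_lit 203)) (XT.lf (nat_lit 0) (nat_lit 89552221600) (nat_lit 76) (nat_lit 13730660727) (nat_lit 76) (nat_lit 8443838615) (nat_lit 3) (nat_lit 4) (nat_lit 4) (nat_lit 5) (nat_lit 4) (nat_lit 4) (nat_lit 352) (nat_lit 226) (nat_lit 202))))))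 (XT.nd (nat_lit 468) (nat_lit 0) (nat_lit 0) (XT.nd (nat_lit 234) (nat_lit 152) (nat_lit 0) (XT.nd (nat_lit 78) (nat_lit 0) (nat_lit 0) (XT.lf (nat_lit 0) (nat_lit 100394268133) (nat_lit 76) (nat_lit 11107204619) (nat_lit 76) (nat_lit 5707239978) (nat_lit 3) (nat_lit 4) (nat_lit 4) (nat_lit 5) (nat_lit 4) (nat_lit 4) (nat_lit 353) (nat_lit 226) (nat_lit 201)) (XT.nd (nat_lit 78) (nat_lit 0) (nat_lit 0) (XT.lf (nat_lit 0) (nat_lit 111664132672) (nat_lit 76) (nat_lit 8405132272) (nat_lit 76) (nat_lit 2897412842) (nat_lit 3) (nat_lit 4) (nat_lit 4) (nat_lit 5) (nat_lit 4) (nat_lit 4) (nat_lit 354) (nat_lit 226) (nat_lit 200)) (XT.lf (nat_lit 0) (nat_lit 123388648229) (nat_lit 76) (nat_lit 5618010181) (nat_lit 76) (nat_lit 7667143) (nat_lit 3) (nat_lit 4) (nat_lit 4) (nat_lit 5) (nat_lit 4) (nat_lit 4) (nat_lit 355) (nat_lit 226) (nat_lit 199)))) (XT.nd (nat_lit 78) (nat_lit 0) (nat_lit 0) (XT.lf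 (nat_lit 0) (nat_lit 205139468) (nat_lit 76) (nat_lit 2707776431) (nat_lit 152) (nat_lit 132452223973) (nat_lit 1) (nat_lit 5) (nat_lit 2) (nat_lit 5) (nat_lit 3) (nat_lit 4) (nat_lit 356) (nat_lit 226) (nat_lit 198)) (XT.nd (nat_lit 78) (nat_lit 0) (nat_lit 0) (XT.lf (nat_lit 0) (nat_lit 5985901553) (nat_lit 152) (nat_lit 135693708436) (nat_lit 0) (nat_lit 353705002) (nat_lit 1) (nat_lit 5) (nat_lit 3) (nat_lit 4) (nat_lit 1) (nat_lit 4) (nat_lit 357) (nat_lit 226) (nat_lit 197)) (XT.lf (nat_lit 0) (nat_lit 9187200919) (nat_lit 152) (nat_lit 136379539185) (nat_lit 0) (nat_lit 3468936280) (nat_lit 1) (nat_lit 5) (nat_lit 3) (nat_lit 4) (nat_lit 1) (nat_lit 4) (nat_lit 358) (nat_lit 226) (nat_lit 196))))) (XT.nd (nat_lit 234) (nat_lit 0) (nat_lit 0) (XT.nd (nat_lit 78) (nat_lit 0) (nat_lit 0) (XT.lf (nat_lit 0) (nat_lit 12498407337) (nat_lit 152) (nat_lit 137193096777) (nat_lit 0) (nat_lit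 6698173089) (nat_lit 1) (nat_lit 5) (nat_lit 3) (nat_lit 4) (nat_lit 1) (nat_lit 4) (nat_lit 359) (nat_lit 226) (nat_lit 195)) (XT.nd (nat_lit 78) (nat_lit 0) (nat_lit 0) (XT.lf (nat_lit 0) (nat_lit 15927404631) (nat_lit 152) (nat_lit 138136318254) (nat_lit 0) (nat_lit 10049104089) (nat_lit 1) (nat_lit 5) (nat_lit 3) (nat_lit 4) (nat_lit 1) (nat_lit 4) (nat_lit 360) (nat_lit 226) (nat_lit 194)) (XT.lf (nat_lit 0) (nat_lit 19482357080) (nat_lit 152) (nat_lit 139211449382) (nat_lit 0) (nat_lit 13529707687) (nat_lit 1) (nat_lit 5) (nat_lit 3) (nat_lit 4) (nat_lit 1) (nat_lit 4) (nat_lit 361) (nat_lit 226) (nat_lit 193)))) (XT.nd (nat_lit 37830) (nat_lit 0) (nat_lit 456) (XT.nd (nat_lit 78) (nat_lit 0) (nat_lit 0) (XT.lf (nat_lit 0) (nat_lit 23171728858) (nat_lit 152) (nat_lit 140421049996) (nat_lit 0) (nat_lit 17148271035) (nat_lit 1) (nat_lit 5) (nat_lit 3) (nat_lit 4) (nat_lit 1) (nat_lit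 4) (nat_lit 362) (nat_lit 226) (nat_lit 192)) (XT.lf (nat_lit 0) (nat_lit 27004304181) (nat_lit 152) (nat_lit 141768000099) (nat_lit 0) (nat_lit 20913409758) (nat_lit 1) (nat_lit 5) (nat_lit 3) (nat_lit 4) (nat_lit 1) (nat_lit 4) (nat_lit 363) (nat_lit 226) (nat_lit 191))) (XT.nd (nat_lit 78) (nat_lit 152) (nat_lit 0) (XT.lf (nat_lit 0) (nat_lit 13060560230) (nat_lit 76) (nat_lit 1864724061) (nat_lit 76) (nat_lit 1864724061) (nat_lit 9) (nat_lit 4) (nat_lit 10) (nat_lit 5) (nat_lit 10) (nat_lit 4) (nat_lit 326) (nat_lit 227) (nat_lit 227)) (XT.lf (nat_lit 0) (nat_lit 1808512640) (nat_lit 152) (nat_lit 31853465077) (nat_lit 0) (nat_lit 1413877657) (nat_lit 7) (nat_lit 5) (nat_lit 9) (nat_lit 4) (nat_lit 7) (nat_lit 4) (nat_lit 327) (nat_lit 227) (nat_lit 226))))))) (XT.nd (nat_lit 1014) (nat_lit 76) (nat_lit 0) (XT.nd (nat_lit 468) (nat_lit 152) (nat_lit 0) (XT.nd (nat_lit 234) (nat_lit 76)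 (nat_lit 0) (XT.nd (nat_lit 78) (nat_lit 0) (nat_lit 0) (XT.lf (nat_lit 0) (nat_lit 7467611114) (nat_lit 152) (nat_lit 22483068902) (nat_lit 0) (nat_lit 6697133290) (nat_lit 7) (nat_lit 5) (nat_lit 9) (nat_lit 4) (nat_lit 7) (nat_lit 4) (nat_lit 328) (nat_lit 227) (nat_lit 225)) (XT.nd (nat_lit 78) (nat_lit 0) (nat_lit 0) (XT.lf (nat_lit 0) (nat_lit 13224396114) (nat_lit 152) (nat_lit 12983630920) (nat_lit 0) (nat_lit 12095972726) (nat_lit 7) (nat_lit 5) (nat_lit 9) (nat_lit 4) (nat_lit 7) (nat_lit 4) (nat_lit 329) (nat_lit 227) (nat_lit 224)) (XT.lf (nat_lit 0) (nat_lit 19092574271) (nat_lit 152) (nat_lit 3332533419) (nat_lit 0) (nat_lit 17623250346) (nat_lit 7) (nat_lit 5) (nat_lit 9) (nat_lit 4) (nat_lit 7) (nat_lit 4) (nat_lit 330) (nat_lit 227) (nat_lit 223)))) (XT.nd (nat_lit 78) (nat_lit 0) (nat_lit 0) (XT.lf (nat_lit 0) (nat_lit 6622429861) (nat_lit 76) (nat_lit 18527346422) (nat_lit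 76) (nat_lit 16733355320) (nat_lit 6) (nat_lit 4) (nat_lit 7) (nat_lit 5) (nat_lit 7) (nat_lit 4) (nat_lit 331) (nat_lit 227) (nat_lit 222)) (XT.nd (nat_lit 78) (nat_lit 0) (nat_lit 0) (XT.lf (nat_lit 0) (nat_lit 16845691266) (nat_lit 76) (nat_lit 14535535776) (nat_lit 76) (nat_lit 12432337838) (nat_lit 6) (nat_lit 4) (nat_lit 7) (nat_lit 5) (nat_lit 7) (nat_lit 4) (nat_lit 332) (nat_lit 227) (nat_lit 221)) (XT.lf (nat_lit 0) (nat_lit 27295267943) (nat_lit 76) (nat_lit 10473823494) (nat_lit 76) (nat_lit 8076142856) (nat_lit 6) (nat_lit 4) (nat_lit 7) (nat_lit 5) (nat_lit 7) (nat_lit 4) (nat_lit 333) (nat_lit 227) (nat_lit 220))))) (XT.nd (nat_lit 234) (nat_lit 0) (nat_lit 0) (XT.nd (nat_lit 78) (nat_lit 152) (nat_lit 0) (XT.lf (nat_lit 0) (nat_lit 37996039837) (nat_lit 76) (nat_lit 6332538833) (nat_lit 76) (nat_lit 3654398480) (nat_lit 6) (nat_lit 4) (nat_lit 7) (nat_lit 5) (nat_lit 7) (nat_lit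 4) (nat_lit 334) (nat_lit 227) (nat_lit 219)) (XT.nd (nat_lit 78) (nat_lit 76) (nat_lit 0) (XT.lf (nat_lit 0) (nat_lit 826965025) (nat_lit 152) (nat_lit 1266505840) (nat_lit 76) (nat_lit 48138169226) (nat_lit 5) (nat_lit 5) (nat_lit 7) (nat_lit 5) (nat_lit 6) (nat_lit 4) (nat_lit 335) (nat_lit 227) (nat_lit 218)) (XT.lf (nat_lit 0) (nat_lit 5419338017) (nat_lit 152) (nat_lit 44860586122) (nat_lit 0) (nat_lit 2312901053) (nat_lit 4) (nat_lit 5) (nat_lit 6) (nat_lit 4) (nat_lit 4) (nat_lit 4) (nat_lit 336) (nat_lit 227) (nat_lit 217)))) (XT.nd (nat_lit 156) (nat_lit 0) (nat_lit 0) (XT.nd (nat_lit 78) (nat_lit 0) (nat_lit 0) (XT.lf (nat_lit 0) (nat_lit 10143280310) (nat_lit 152) (nat_lit 38130150253) (nat_lit 0) (nat_lit 6801628155) (nat_lit 4) (nat_lit 5) (nat_lit 6) (nat_lit 4) (nat_lit 4) (nat_lit 4) (nat_lit 337) (nat_lit 227) (nat_lit 216)) (XT.lf (nat_lit 0) (nat_lit 14977376002) (nat_lit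 152) (nat_lit 31296145268) (nat_lit 0) (nat_lit 11411709380) (nat_lit 4) (nat_lit 5) (nat_lit 6) (nat_lit 4) (nat_lit 4) (nat_lit 4) (nat_lit 338) (nat_lit 227) (nat_lit 215))) (XT.nd (nat_lit 78) (nat_lit 0) (nat_lit 0) (XT.lf (nat_lit 0) (nat_lit 19933134845) (nat_lit 152) (nat_lit 24342299727) (nat_lit 0) (nat_lit 16154121111) (nat_lit 4) (nat_lit 5) (nat_lit 6) (nat_lit 4) (nat_lit 4) (nat_lit 4) (nat_lit 339) (nat_lit 227) (nat_lit 214)) (XT.lf (nat_lit 0) (nat_lit 25022356264) (nat_lit 152) (nat_lit 17252056855) (nat_lit 0) (nat_lit 21040154804) (nat_lit 4) (nat_lit 5) (nat_lit 6) (nat_lit 4) (nat_lit 4) (nat_lit 4) (nat_lit 340) (nat_lit 227) (nat_lit 213)))))) (XT.nd (nat_lit 546) (nat_lit 0) (nat_lit 0) (XT.nd (nat_lit 234) (nat_lit 0) (nat_lit 0) (XT.nd (nat_lit 78) (nat_lit 76) (nat_lit 0) (XT.lf (nat_lit 0) (nat_lit 30257157453) (nat_lit 152) (nat_lit 10008535122) (nat_lit 0)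 (nat_lit 26081443874) (nat_lit 4) (nat_lit 5) (nat_lit 6) (nat_lit 4) (nat_lit 4) (nat_lit 4) (nat_lit 341) (nat_lit 227) (nat_lit 212)) (XT.nd (nat_lit 78) (nat_lit 76) (nat_lit 0) (XT.lf (nat_lit 0) (nat_lit 35650002225) (nat_lit 152) (nat_lit 2594488047) (nat_lit 0) (nat_lit 31289991389) (nat_lit 4) (nat_lit 5) (nat_lit 6) (nat_lit 4) (nat_lit 4) (nat_lit 4) (nat_lit 342) (nat_lit 227) (nat_lit 211)) (XT.lf (nat_lit 0) (nat_lit 5107400645) (nat_lit 76) (nat_lit 36155425501) (nat_lit 76) (nat_lit 31619893468) (nat_lit 3) (nat_lit 4) (nat_lit 4) (nat_lit 5) (nat_lit 4) (nat_lit 4) (nat_lit 343) (nat_lit 227) (nat_lit 210)))) (XT.nd (nat_lit 156) (nat_lit 0) (nat_lit 0) (XT.nd (nat_lit 78) (nat_lit 0) (nat_lit 0) (XT.lf (nat_lit 0) (nat_lit 13071308451) (nat_lit 76) (nat_lit 34015930771) (nat_lit 76) (nat_lit 29313235694) (nat_lit 3) (nat_lit 4) (nat_lit 4) (nat_lit 5) (nat_lit 4) (nat_lit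 4) (nat_lit 344) (nat_lit 227) (nat_lit 209)) (XT.lf (nat_lit 0) (nat_lit 21264561657) (nat_lit 76) (nat_lit 31847111291) (nat_lit 76) (nat_lit 26985213314) (nat_lit 3) (nat_lit 4) (nat_lit 4) (nat_lit 5) (nat_lit 4) (nat_lit 4) (nat_lit 345) (nat_lit 227) (nat_lit 208))) (XT.nd (nat_lit 78) (nat_lit 0) (nat_lit 0) (XT.lf (nat_lit 0) (nat_lit 29706668009) (nat_lit 76) (nat_lit 29643803205) (nat_lit 76) (nat_lit 24630283418) (nat_lit 3) (nat_lit 4) (nat_lit 4) (nat_lit 5) (nat_lit 4) (nat_lit 4) (nat_lit 346) (nat_lit 227) (nat_lit 207)) (XT.lf (nat_lit 0) (nat_lit 38417727758) (nat_lit 76) (nat_lit 27400760540) (nat_lit 76) (nat_lit 22242839030) (nat_lit 3) (nat_lit 4) (nat_lit 4) (nat_lit 5) (nat_lit 4) (nat_lit 4) (nat_lit 347) (nat_lit 227) (nat_lit 206))))) (XT.nd (nat_lit 234) (nat_lit 0) (nat_lit 0) (XT.nd (nat_lit 78) (nat_lit 0) (nat_lit 0) (XT.lf (nat_lit 0) (nat_lit 47418481525)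 (nat_lit 76) (nat_lit 25112642719) (nat_lit 76) (nat_lit 19817195758) (nat_lit 3) (nat_lit 4) (nat_lit 4) (nat_lit 5) (nat_lit 4) (nat_lit 4) (nat_lit 348) (nat_lit 227) (nat_lit 205)) (XT.nd (nat_lit 78) (nat_lit 0) (nat_lit 0) (XT.lf (nat_lit 0) (nat_lit 56730359676) (nat_lit 76) (nat_lit 22774001842) (nat_lit 76) (nat_lit 17347578262) (nat_lit 3) (nat_lit 4) (nat_lit 4) (nat_lit 5) (nat_lit 4) (nat_lit 4) (nat_lit 349) (nat_lit 227) (nat_lit 204)) (XT.lf (nat_lit 0) (nat_lit 66375533347) (nat_lit 76) (nat_lit 20379269718) (nat_lit 76) (nat_lit 14828106500) (nat_lit 3) (nat_lit 4) (nat_lit 4) (nat_lit 5) (nat_lit 4) (nat_lit 4) (nat_lit 350) (nat_lit 227) (nat_lit 203)))) (XT.nd (nat_lit 156) (nat_lit 0) (nat_lit 0) (XT.nd (nat_lit 78) (nat_lit 0) (nat_lit 0) (XT.lf (nat_lit 0) (nat_lit 76376967240) (nat_lit 76) (nat_lit 17922744602) (nat_lit 76) (nat_lit 12252781729) (nat_lit 3) (nat_lit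 4) (nat_lit 4) (nat_lit 5) (nat_lit 4) (nat_lit 4) (nat_lit 351) (nat_lit 227) (nat_lit 202)) (XT.lf (nat_lit 0) (nat_lit 86758474291) (nat_lit 76) (nat_lit 15398577625) (nat_lit 76) (nat_lit 9615472224) (nat_lit 3) (nat_lit 4) (nat_lit 4) (nat_lit 5) (nat_lit 4) (nat_lit 4) (nat_lit 352) (nat_lit 227) (nat_lit 201))) (XT.nd (nat_lit 78) (nat_lit 0) (nat_lit 0) (XT.lf (nat_lit 0) (nat_lit 97544772375) (nat_lit 76) (nat_lit 12800758867) (nat_lit 76) (nat_lit 6909898676) (nat_lit 3) (nat_lit 4) (nat_lit 4) (nat_lit 5) (nat_lit 4) (nat_lit 4) (nat_lit 353) (nat_lit 227) (nat_lit 200)) (XT.lf (nat_lit 0) (nat_lit 108761543153) (nat_lit 76) (nat_lit 10123103043) (nat_lit 76) (nat_lit 4129619244) (nat_lit 3) (nat_lit 4) (nat_lit 4) (nat_lit 5) (nat_lit 4) (nat_lit 4) (nat_lit 354) (nat_lit 227) (nat_lit 199))))))))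
noncomputable def xc7 : XT := (XT.nd (nat_lit 39546) (nat_lit 0) (nat_lit 0) (XT.nd (nat_lit 38532) (nat_lit 0) (nat_lit 228) (XT.nd (nat_lit 468) (nat_lit 0) (nat_lit 0) (XT.nd (nat_lit 234) (nat_lit 0) (nat_lit 0) (XT.nd (nat_lit 78) (nat_lit 152) (nat_lit 0) (XT.lf (nat_lit 0) (nat_lit 120435493224) (nat_lit 76) (nat_lit 7359234784) (nat_lit 76) (nat_lit 1268014215) (nat_lit 3) (nat_lit 4) (nat_lit 4) (nat_lit 5) (nat_lit 4) (nat_lit 4) (nat_lit 355) (nat_lit 227) (nat_lit 198)) (XT.nd (nat_lit 78) (nat_lit 76) (nat_lit 0) (XT.lf (nat_lit 0) (nat_lit 1648913151) (nat_lit 152) (nat_lit 2837009510) (nat_lit 76) (nat_lit 130928853764) (nat_lit 2) (nat_lit 5) (nat_lit 4) (nat_lit 5) (nat_lit 3) (nat_lit 4) (nat_lit 356) (nat_lit 227) (nat_lit 197)) (XT.lf (nat_lit 0) (nat_lit 3197273406) (nat_lit 76) (nat_lit 1467862921) (nat_lit 152) (nat_lit 137419526604) (nat_lit 1) (nat_lit 5) (nat_lit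 2) (nat_lit 5) (nat_lit 3) (nat_lit 4) (nat_lit 357) (nat_lit 227) (nat_lit 196)))) (XT.nd (nat_lit 78) (nat_lit 0) (nat_lit 0) (XT.lf (nat_lit 0) (nat_lit 7827858421) (nat_lit 152) (nat_lit 139604688476) (nat_lit 0) (nat_lit 1655642852) (nat_lit 1) (nat_lit 5) (nat_lit 3) (nat_lit 4) (nat_lit 1) (nat_lit 4) (nat_lit 358) (nat_lit 227) (nat_lit 195)) (XT.nd (nat_lit 78) (nat_lit 0) (nat_lit 0) (XT.lf (nat_lit 0) (nat_lit 11115762671) (nat_lit 152) (nat_lit 140461653875) (nat_lit 0) (nat_lit 4865480808) (nat_lit 1) (nat_lit 5) (nat_lit 3) (nat_lit 4) (nat_lit 1) (nat_lit 4) (nat_lit 359) (nat_lit 227) (nat_lit 194)) (XT.lf (nat_lit 0) (nat_lit 14522567423) (nat_lit 152) (nat_lit 141446216121) (nat_lit 0) (nat_lit 8197936709) (nat_lit 1) (nat_lit 5) (nat_lit 3) (nat_lit 4) (nat_lit 1) (nat_lit 4) (nat_lit 360) (nat_lit 227) (nat_lit 193))))) (XT.nd (nat_lit 37752) (nat_lit 0) (nat_lit 456)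 (XT.nd (nat_lit 78) (nat_lit 0) (nat_lit 0) (XT.lf (nat_lit 0) (nat_lit 18056384119) (nat_lit 152) (nat_lit 142560719410) (nat_lit 0) (nat_lit 11660944975) (nat_lit 1) (nat_lit 5) (nat_lit 3) (nat_lit 4) (nat_lit 1) (nat_lit 4) (nat_lit 361) (nat_lit 227) (nat_lit 192)) (XT.nd (nat_lit 78) (nat_lit 0) (nat_lit 0) (XT.lf (nat_lit 0) (nat_lit 21725626607) (nat_lit 152) (nat_lit 143807817321) (nat_lit 0) (nat_lit 15262750864) (nat_lit 1) (nat_lit 5) (nat_lit 3) (nat_lit 4) (nat_lit 1) (nat_lit 4) (nat_lit 362) (nat_lit 227) (nat_lit 191)) (XT.lf (nat_lit 0) (nat_lit 25539031179) (nat_lit 152) (nat_lit 145190479134) (nat_lit 0) (nat_lit 19011930102) (nat_lit 1) (nat_lit 5) (nat_lit 3) (nat_lit 4) (nat_lit 1) (nat_lit 4) (nat_lit 363) (nat_lit 227) (nat_lit 190)))) (XT.nd (nat_lit 156) (nat_lit 152) (nat_lit 0) (XT.nd (nat_lit 78) (nat_lit 0) (nat_lit 0) (XT.lf (nat_lit 0) (nat_lit 1346362211)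 (nat_lit 76) (nat_lit 7029127800) (nat_lit 76) (nat_lit 7029127800) (nat_lit 9) (nat_lit 4) (nat_lit 10) (nat_lit 5) (nat_lit 10) (nat_lit 4) (nat_lit 324) (nat_lit 228) (nat_lit 228)) (XT.lf (nat_lit 0) (nat_lit 14210772940) (nat_lit 76) (nat_lit 9187681618) (nat_lit 76) (nat_lit 8760883883) (nat_lit 9) (nat_lit 4) (nat_lit 10) (nat_lit 5) (nat_lit 10) (nat_lit 4) (nat_lit 325) (nat_lit 228) (nat_lit 227))) (XT.nd (nat_lit 78) (nat_lit 152) (nat_lit 0) (XT.lf (nat_lit 0) (nat_lit 25946260057) (nat_lit 76) (nat_lit 4234976259) (nat_lit 76) (nat_lit 3401704492) (nat_lit 9) (nat_lit 4) (nat_lit 10) (nat_lit 5) (nat_lit 10) (nat_lit 4) (nat_lit 326) (nat_lit 228) (nat_lit 226)) (XT.lf (nat_lit 0) (nat_lit 2028347554) (nat_lit 152) (nat_lit 32209916977) (nat_lit 0) (nat_lit 843502997) (nat_lit 7) (nat_lit 5) (nat_lit 9) (nat_lit 4) (nat_lit 7) (nat_lit 4) (nat_lit 327) (nat_lit 228) (nat_lit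 225)))))) (XT.nd (nat_lit 468) (nat_lit 152) (nat_lit 0) (XT.nd (nat_lit 234) (nat_lit 76) (nat_lit 0) (XT.nd (nat_lit 78) (nat_lit 0) (nat_lit 0) (XT.lf (nat_lit 0) (nat_lit 7597071200) (nat_lit 152) (nat_lit 23005119827) (nat_lit 0) (nat_lit 6054281080) (nat_lit 7) (nat_lit 5) (nat_lit 9) (nat_lit 4) (nat_lit 7) (nat_lit 4) (nat_lit 328) (nat_lit 228) (nat_lit 224)) (XT.nd (nat_lit 78) (nat_lit 0) (nat_lit 0) (XT.lf (nat_lit 0) (nat_lit 13267784935) (nat_lit 152) (nat_lit 13663395202) (nat_lit 0) (nat_lit 11384094278) (nat_lit 7) (nat_lit 5) (nat_lit 9) (nat_lit 4) (nat_lit 7) (nat_lit 4) (nat_lit 329) (nat_lit 228) (nat_lit 223)) (XT.lf (nat_lit 0) (nat_lit 19053990458) (nat_lit 152) (nat_lit 4162500898) (nat_lit 0) (nat_lit 16845632624) (nat_lit 7) (nat_lit 5) (nat_lit 9) (nat_lit 4) (nat_lit 7) (nat_lit 4) (nat_lit 330) (nat_lit 228) (nat_lit 222)))) (XT.nd (nat_lit 78) (nat_lit 0)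 (nat_lit 0) (XT.lf (nat_lit 0) (nat_lit 5630046750) (nat_lit 76) (nat_lit 19393537153) (nat_lit 76) (nat_lit 16875972483) (nat_lit 6) (nat_lit 4) (nat_lit 7) (nat_lit 5) (nat_lit 7) (nat_lit 4) (nat_lit 331) (nat_lit 228) (nat_lit 221)) (XT.nd (nat_lit 78) (nat_lit 0) (nat_lit 0) (XT.lf (nat_lit 0) (nat_lit 15714358009) (nat_lit 76) (nat_lit 15464989383) (nat_lit 76) (nat_lit 12652942012) (nat_lit 6) (nat_lit 4) (nat_lit 7) (nat_lit 5) (nat_lit 7) (nat_lit 4) (nat_lit 332) (nat_lit 228) (nat_lit 220)) (XT.lf (nat_lit 0) (nat_lit 26031601215) (nat_lit 76) (nat_lit 11463527460) (nat_lit 76) (nat_lit 8371020374) (nat_lit 6) (nat_lit 4) (nat_lit 7) (nat_lit 5) (nat_lit 7) (nat_lit 4) (nat_lit 333) (nat_lit 228) (nat_lit 219))))) (XT.nd (nat_lit 234) (nat_lit 0) (nat_lit 0) (XT.nd (nat_lit 78) (nat_lit 152) (nat_lit 0) (XT.lf (nat_lit 0) (nat_lit 36606341231) (nat_lit 76) (nat_lit 7379624093)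 (nat_lit 76) (nat_lit 4020012517) (nat_lit 6) (nat_lit 4) (nat_lit 7) (nat_lit 5) (nat_lit 7) (nat_lit 4) (nat_lit 334) (nat_lit 228) (nat_lit 218)) (XT.nd (nat_lit 78) (nat_lit 76) (nat_lit 0) (XT.lf (nat_lit 0) (nat_lit 402431917) (nat_lit 152) (nat_lit 2797060011) (nat_lit 76) (nat_lit 47057260320) (nat_lit 5) (nat_lit 5) (nat_lit 7) (nat_lit 5) (nat_lit 6) (nat_lit 4) (nat_lit 335) (nat_lit 228) (nat_lit 217)) (XT.lf (nat_lit 0) (nat_lit 4904460179) (nat_lit 152) (nat_lit 46555700549) (nat_lit 0) (nat_lit 1160510226) (nat_lit 4) (nat_lit 5) (nat_lit 6) (nat_lit 4) (nat_lit 4) (nat_lit 4) (nat_lit 336) (nat_lit 228) (nat_lit 216)))) (XT.nd (nat_lit 156) (nat_lit 0) (nat_lit 0) (XT.nd (nat_lit 78) (nat_lit 0) (nat_lit 0) (XT.lf (nat_lit 0) (nat_lit 9566917733) (nat_lit 152) (nat_lit 39938900132) (nat_lit 0) (nat_lit 5598953313) (nat_lit 4) (nat_lit 5) (nat_lit 6) (nat_lit 4) (nat_lit 4)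 (nat_lit 4) (nat_lit 337) (nat_lit 228) (nat_lit 215)) (XT.lf (nat_lit 0) (nat_lit 14342456531) (nat_lit 152) (nat_lit 33213119387) (nat_lit 0) (nat_lit 10161144998) (nat_lit 4) (nat_lit 5) (nat_lit 6) (nat_lit 4) (nat_lit 4) (nat_lit 4) (nat_lit 338) (nat_lit 228) (nat_lit 214))) (XT.nd (nat_lit 78) (nat_lit 0) (nat_lit 0) (XT.lf (nat_lit 0) (nat_lit 19242446902) (nat_lit 152) (nat_lit 26362344552) (nat_lit 0) (nat_lit 14857947644) (nat_lit 4) (nat_lit 5) (nat_lit 6) (nat_lit 4) (nat_lit 4) (nat_lit 4) (nat_lit 339) (nat_lit 228) (nat_lit 213)) (XT.lf (nat_lit 0) (nat_lit 24278555492) (nat_lit 152) (nat_lit 19370264257) (nat_lit 0) (nat_lit 19700544114) (nat_lit 4) (nat_lit 5) (nat_lit 6) (nat_lit 4) (nat_lit 4) (nat_lit 4) (nat_lit 340) (nat_lit 228) (nat_lit 212))))))) (XT.nd (nat_lit 1014) (nat_lit 152) (nat_lit 0) (XT.nd (nat_lit 468) (nat_lit 0) (nat_lit 0) (XT.nd (nat_lit 234) (nat_lit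 0) (nat_lit 0) (XT.nd (nat_lit 78) (nat_lit 76) (nat_lit 0) (XT.lf (nat_lit 0) (nat_lit 29462773034) (nat_lit 152) (nat_lit 12220230692) (nat_lit 0) (nat_lit 24700464399) (nat_lit 4) (nat_lit 5) (nat_lit 6) (nat_lit 4) (nat_lit 4) (nat_lit 4) (nat_lit 341) (nat_lit 228) (nat_lit 211)) (XT.nd (nat_lit 78) (nat_lit 76) (nat_lit 0) (XT.lf (nat_lit 0) (nat_lit 34807442904) (nat_lit 152) (nat_lit 4895219967) (nat_lit 0) (nat_lit 29869613073) (nat_lit 4) (nat_lit 5) (nat_lit 6) (nat_lit 4) (nat_lit 4) (nat_lit 4) (nat_lit 342) (nat_lit 228) (nat_lit 210)) (XT.lf (nat_lit 0) (nat_lit 2674395506) (nat_lit 76) (nat_lit 37676602925) (nat_lit 76) (nat_lit 32571610049) (nat_lit 3) (nat_lit 4) (nat_lit 4) (nat_lit 5) (nat_lit 4) (nat_lit 4) (nat_lit 343) (nat_lit 228) (nat_lit 209)))) (XT.nd (nat_lit 78) (nat_lit 0) (nat_lit 0) (XT.lf (nat_lit 0) (nat_lit 10555937463) (nat_lit 76) (nat_lit 35574986238)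 (nat_lit 76) (nat_lit 30310790462) (nat_lit 3) (nat_lit 4) (nat_lit 4) (nat_lit 5) (nat_lit 4) (nat_lit 4) (nat_lit 344) (nat_lit 228) (nat_lit 208)) (XT.nd (nat_lit 78) (nat_lit 0) (nat_lit 0) (XT.lf (nat_lit 0) (nat_lit 18670747004) (nat_lit 76) (nat_lit 33442241083) (nat_lit 76) (nat_lit 28026423498) (nat_lit 3) (nat_lit 4) (nat_lit 4) (nat_lit 5) (nat_lit 4) (nat_lit 4) (nat_lit 345) (nat_lit 228) (nat_lit 207)) (XT.lf (nat_lit 0) (nat_lit 27038145102) (nat_lit 76) (nat_lit 31273289497) (nat_lit 76) (nat_lit 25713070189) (nat_lit 3) (nat_lit 4) (nat_lit 4) (nat_lit 5) (nat_lit 4) (nat_lit 4) (nat_lit 346) (nat_lit 228) (nat_lit 206))))) (XT.nd (nat_lit 234) (nat_lit 0) (nat_lit 0) (XT.nd (nat_lit 78) (nat_lit 0) (nat_lit 0) (XT.lf (nat_lit 0) (nat_lit 35678054134) (nat_lit 76) (nat_lit 29062967309) (nat_lit 76) (nat_lit 23365222550) (nat_lit 3) (nat_lit 4) (nat_lit 4) (nat_lit 5) (nat_lit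 4) (nat_lit 4) (nat_lit 347) (nat_lit 228) (nat_lit 205)) (XT.nd (nat_lit 78) (nat_lit 0) (nat_lit 0) (XT.lf (nat_lit 0) (nat_lit 44611045313) (nat_lit 76) (nat_lit 26806011847) (nat_lit 76) (nat_lit 20977290468) (nat_lit 3) (nat_lit 4) (nat_lit 4) (nat_lit 5) (nat_lit 4) (nat_lit 4) (nat_lit 348) (nat_lit 228) (nat_lit 204)) (XT.lf (nat_lit 0) (nat_lit 53858387666) (nat_lit 76) (nat_lit 24497049407) (nat_lit 76) (nat_lit 18543588391) (nat_lit 3) (nat_lit 4) (nat_lit 4) (nat_lit 5) (nat_lit 4) (nat_lit 4) (nat_lit 349) (nat_lit 228) (nat_lit 203)))) (XT.nd (nat_lit 156) (nat_lit 0) (nat_lit 0) (XT.nd (nat_lit 78) (nat_lit 0) (nat_lit 0) (XT.lf (nat_lit 0) (nat_lit 63442098673) (nat_lit 76) (nat_lit 22130582461) (nat_lit 76) (nat_lit 16058321789) (nat_lit 3) (nat_lit 4) (nat_lit 4) (nat_lit 5) (nat_lit 4) (nat_lit 4) (nat_lit 350) (nat_lit 228) (nat_lit 202)) (XT.lf (nat_lit 0) (nat_lit 73384996694)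 (nat_lit 76) (nat_lit 19700976562) (nat_lit 76) (nat_lit 13515573362) (nat_lit 3) (nat_lit 4) (nat_lit 4) (nat_lit 5) (nat_lit 4) (nat_lit 4) (nat_lit 351) (nat_lit 228) (nat_lit 201))) (XT.nd (nat_lit 78) (nat_lit 0) (nat_lit 0) (XT.lf (nat_lit 0) (nat_lit 83710755296) (nat_lit 76) (nat_lit 17202446935) (nat_lit 76) (nat_lit 10909288946) (nat_lit 3) (nat_lit 4) (nat_lit 4) (nat_lit 5) (nat_lit 4) (nat_lit 4) (nat_lit 352) (nat_lit 228) (nat_lit 200)) (XT.lf (nat_lit 0) (nat_lit 94443959619) (nat_lit 76) (nat_lit 14629044700) (nat_lit 76) (nat_lit 8233263102) (nat_lit 3) (nat_lit 4) (nat_lit 4) (nat_lit 5) (nat_lit 4) (nat_lit 4) (nat_lit 353) (nat_lit 228) (nat_lit 199)))))) (XT.nd (nat_lit 546) (nat_lit 0) (nat_lit 0) (XT.nd (nat_lit 234) (nat_lit 76) (nat_lit 0) (XT.nd (nat_lit 78) (nat_lit 76) (nat_lit 0) (XT.lf (nat_lit 0) (nat_lit 105610164912) (nat_lit 76) (nat_lit 11974642709) (nat_lit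 76) (nat_lit 5481124341) (nat_lit 3) (nat_lit 4) (nat_lit 4) (nat_lit 5) (nat_lit 4) (nat_lit 4) (nat_lit 354) (nat_lit 228) (nat_lit 198)) (XT.nd (nat_lit 78) (nat_lit 76) (nat_lit 0) (XT.lf (nat_lit 0) (nat_lit 117235957376) (nat_lit 76) (nat_lit 9232920956) (nat_lit 76) (nat_lit 2646319950) (nat_lit 3) (nat_lit 4) (nat_lit 4) (nat_lit 5) (nat_lit 4) (nat_lit 4) (nat_lit 355) (nat_lit 228) (nat_lit 197)) (XT.lf (nat_lit 0) (nat_lit 272476781) (nat_lit 152) (nat_lit 6122123271) (nat_lit 76) (nat_lit 129073789208) (nat_lit 2) (nat_lit 5) (nat_lit 4) (nat_lit 5) (nat_lit 3) (nat_lit 4) (nat_lit 356) (nat_lit 228) (nat_lit 196)))) (XT.nd (nat_lit 156) (nat_lit 0) (nat_lit 0) (XT.nd (nat_lit 78) (nat_lit 76) (nat_lit 0) (XT.lf (nat_lit 0) (nat_lit 3234131196) (nat_lit 152) (nat_lit 194393505) (nat_lit 76) (nat_lit 138711396234) (nat_lit 2) (nat_lit 5) (nat_lit 4) (nat_lit 5) (nat_lit 3) (nat_lit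 4) (nat_lit 357) (nat_lit 228) (nat_lit 195)) (XT.lf (nat_lit 0) (nat_lit 6061787384) (nat_lit 76) (nat_lit 293816310) (nat_lit 152) (nat_lit 142789089267) (nat_lit 1) (nat_lit 5) (nat_lit 2) (nat_lit 5) (nat_lit 3) (nat_lit 4) (nat_lit 358) (nat_lit 228) (nat_lit 194))) (XT.nd (nat_lit 78) (nat_lit 0) (nat_lit 0) (XT.lf (nat_lit 0) (nat_lit 9618491061) (nat_lit 152) (nat_lit 143978387405) (nat_lit 0) (nat_lit 2903279960) (nat_lit 1) (nat_lit 5) (nat_lit 3) (nat_lit 4) (nat_lit 1) (nat_lit 4) (nat_lit 359) (nat_lit 228) (nat_lit 193)) (XT.lf (nat_lit 0) (nat_lit 13004160061) (nat_lit 152) (nat_lit 145002321812) (nat_lit 0) (nat_lit 6218140530) (nat_lit 1) (nat_lit 5) (nat_lit 3) (nat_lit 4) (nat_lit 1) (nat_lit 4) (nat_lit 360) (nat_lit 228) (nat_lit 192))))) (XT.nd (nat_lit 37596) (nat_lit 0) (nat_lit 608) (XT.nd (nat_lit 78) (nat_lit 0) (nat_lit 0) (XT.lf (nat_lit 0) (nat_lit 16517847467)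 (nat_lit 152) (nat_lit 146154322397) (nat_lit 0) (nat_lit 9664391337) (nat_lit 1) (nat_lit 5) (nat_lit 3) (nat_lit 4) (nat_lit 1) (nat_lit 4) (nat_lit 361) (nat_lit 228) (nat_lit 191)) (XT.nd (nat_lit 78) (nat_lit 0) (nat_lit 0) (XT.lf (nat_lit 0) (nat_lit 20167919204) (nat_lit 152) (nat_lit 147437132018) (nat_lit 0) (nat_lit 13250237740) (nat_lit 1) (nat_lit 5) (nat_lit 3) (nat_lit 4) (nat_lit 1) (nat_lit 4) (nat_lit 362) (nat_lit 228) (nat_lit 190)) (XT.lf (nat_lit 0) (nat_lit 23963065918) (nat_lit 152) (nat_lit 148853804985) (nat_lit 0) (nat_lit 16984217470) (nat_lit 1) (nat_lit 5) (nat_lit 3) (nat_lit 4) (nat_lit 1) (nat_lit 4) (nat_lit 363) (nat_lit 228) (nat_lit 189)))) (XT.nd (nat_lit 156) (nat_lit 76) (nat_lit 0) (XT.nd (nat_lit 78) (nat_lit 0) (nat_lit 0) (XT.lf (nat_lit 0) (nat_lit 2270764101) (nat_lit 152) (nat_lit 9612451620) (nat_lit 0) (nat_lit 2270764101) (nat_lit 10) (nat_lit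 5) (nat_lit 12) (nat_lit 4) (nat_lit 10) (nat_lit 4) (nat_lit 322) (nat_lit 229) (nat_lit 229)) (XT.lf (nat_lit 0) (nat_lit 10754130886) (nat_lit 152) (nat_lit 8466803433) (nat_lit 0) (nat_lit 10305993264) (nat_lit 10) (nat_lit 5) (nat_lit 12) (nat_lit 4) (nat_lit 10) (nat_lit 4) (nat_lit 323) (nat_lit 229) (nat_lit 228))) (XT.nd (nat_lit 78) (nat_lit 0) (nat_lit 0) (XT.lf (nat_lit 0) (nat_lit 2509120997) (nat_lit 76) (nat_lit 14589060143) (nat_lit 76) (nat_lit 13714124787) (nat_lit 9) (nat_lit 4) (nat_lit 10) (nat_lit 5) (nat_lit 10) (nat_lit 4) (nat_lit 324) (nat_lit 229) (nat_lit 227)) (XT.lf (nat_lit 0) (nat_lit 13852309112) (nat_lit 76) (nat_lit 9797216562) (nat_lit 76) (nat_lit 8515807173) (nat_lit 9) (nat_lit 4) (nat_lit 10) (nat_lit 5) (nat_lit 10) (nat_lit 4) (nat_lit 325) (nat_lit 229) (nat_lit 226))))))))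
noncomputable def xc8 : XT := (XT.nd (nat_lit 2028) (nat_lit 152) (nat_lit 0) (XT.nd (nat_lit 1014) (nat_lit 76) (nat_lit 0) (XT.nd (nat_lit 468) (nat_lit 152) (nat_lit 0) (XT.nd (nat_lit 234) (nat_lit 76) (nat_lit 0) (XT.nd (nat_lit 78) (nat_lit 152) (nat_lit 0) (XT.lf (nat_lit 0) (nat_lit 25421262510) (nat_lit 76) (nat_lit 4919492538) (nat_lit 76) (nat_lit 3250965023) (nat_lit 9) (nat_lit 4) (nat_lit 10) (nat_lit 5) (nat_lit 10) (nat_lit 4) (nat_lit 326) (nat_lit 229) (nat_lit 225)) (XT.nd (nat_lit 78) (nat_lit 0) (nat_lit 0) (XT.lf (nat_lit 0) (nat_lit 2073905817) (nat_lit 152) (nat_lit 32923669473) (nat_lit 0) (nat_lit 96030627) (nat_lit 7) (nat_lit 5) (nat_lit 9) (nat_lit 4) (nat_lit 7) (nat_lit 4) (nat_lit 327) (nat_lit 229) (nat_lit 224)) (XT.lf (nat_lit 0) (nat_lit 7556558197) (nat_lit 152) (nat_lit 23876585680) (nat_lit 0) (nat_lit 5237782471) (nat_lit 7) (nat_lit 5) (nat_lit 9)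 (nat_lit 4) (nat_lit 7) (nat_lit 4) (nat_lit 328) (nat_lit 229) (nat_lit 223)))) (XT.nd (nat_lit 78) (nat_lit 76) (nat_lit 0) (XT.lf (nat_lit 0) (nat_lit 13145299299) (nat_lit 152) (nat_lit 14685064251) (nat_lit 0) (nat_lit 10501856395) (nat_lit 7) (nat_lit 5) (nat_lit 9) (nat_lit 4) (nat_lit 7) (nat_lit 4) (nat_lit 329) (nat_lit 229) (nat_lit 222)) (XT.nd (nat_lit 78) (nat_lit 76) (nat_lit 0) (XT.lf (nat_lit 0) (nat_lit 18853435647) (nat_lit 152) (nat_lit 5327220612) (nat_lit 0) (nat_lit 15900785908) (nat_lit 7) (nat_lit 5) (nat_lit 9) (nat_lit 4) (nat_lit 7) (nat_lit 4) (nat_lit 330) (nat_lit 229) (nat_lit 221)) (XT.lf (nat_lit 0) (nat_lit 4303196685) (nat_lit 76) (nat_lit 20432726317) (nat_lit 76) (nat_lit 17185593877) (nat_lit 6) (nat_lit 4) (nat_lit 7) (nat_lit 5) (nat_lit 7) (nat_lit 4) (nat_lit 331) (nat_lit 229) (nat_lit 220))))) (XT.nd (nat_lit 234) (nat_lit 152) (nat_lit 0) (XT.nd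 (nat_lit 78) (nat_lit 0) (nat_lit 0) (XT.lf (nat_lit 0) (nat_lit 14255174473) (nat_lit 76) (nat_lit 16564428906) (nat_lit 76) (nat_lit 13036836751) (nat_lit 6) (nat_lit 4) (nat_lit 7) (nat_lit 5) (nat_lit 7) (nat_lit 4) (nat_lit 332) (nat_lit 229) (nat_lit 219)) (XT.nd (nat_lit 78) (nat_lit 0) (nat_lit 0) (XT.lf (nat_lit 0) (nat_lit 24446385801) (nat_lit 76) (nat_lit 12620348276) (nat_lit 76) (nat_lit 8825651631) (nat_lit 6) (nat_lit 4) (nat_lit 7) (nat_lit 5) (nat_lit 7) (nat_lit 4) (nat_lit 333) (nat_lit 229) (nat_lit 218)) (XT.lf (nat_lit 0) (nat_lit 34901095457) (nat_lit 76) (nat_lit 8591093761) (nat_lit 76) (nat_lit 4542011886) (nat_lit 6) (nat_lit 4) (nat_lit 7) (nat_lit 5) (nat_lit 7) (nat_lit 4) (nat_lit 334) (nat_lit 229) (nat_lit 217)))) (XT.nd (nat_lit 156) (nat_lit 0) (nat_lit 0) (XT.nd (nat_lit 78) (nat_lit 152) (nat_lit 0) (XT.lf (nat_lit 0) (nat_lit 45644195609) (nat_lit 76)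 (nat_lit 4467071895) (nat_lit 76) (nat_lit 175718374) (nat_lit 6) (nat_lit 4) (nat_lit 7) (nat_lit 5) (nat_lit 7) (nat_lit 4) (nat_lit 335) (nat_lit 229) (nat_lit 216)) (XT.lf (nat_lit 0) (nat_lit 4083671578) (nat_lit 76) (nat_lit 155619062) (nat_lit 152) (nat_lit 48414400218) (nat_lit 4) (nat_lit 5) (nat_lit 5) (nat_lit 5) (nat_lit 6) (nat_lit 4) (nat_lit 336) (nat_lit 229) (nat_lit 215))) (XT.nd (nat_lit 78) (nat_lit 0) (nat_lit 0) (XT.lf (nat_lit 0) (nat_lit 8841695394) (nat_lit 152) (nat_lit 42059947198) (nat_lit 0) (nat_lit 4237971173) (nat_lit 4) (nat_lit 5) (nat_lit 6) (nat_lit 4) (nat_lit 4) (nat_lit 4) (nat_lit 337) (nat_lit 229) (nat_lit 214)) (XT.lf (nat_lit 0) (nat_lit 13561465720) (nat_lit 152) (nat_lit 35437237159) (nat_lit 0) (nat_lit 8754553774) (nat_lit 4) (nat_lit 5) (nat_lit 6) (nat_lit 4) (nat_lit 4) (nat_lit 4) (nat_lit 338) (nat_lit 229) (nat_lit 213)))))) (XT.nd (nat_lit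 468) (nat_lit 0) (nat_lit 0) (XT.nd (nat_lit 234) (nat_lit 76) (nat_lit 0) (XT.nd (nat_lit 78) (nat_lit 0) (nat_lit 0) (XT.lf (nat_lit 0) (nat_lit 18408343262) (nat_lit 152) (nat_lit 28684624900) (nat_lit 0) (nat_lit 13407919196) (nat_lit 4) (nat_lit 5) (nat_lit 6) (nat_lit 4) (nat_lit 4) (nat_lit 4) (nat_lit 339) (nat_lit 229) (nat_lit 212)) (XT.nd (nat_lit 78) (nat_lit 0) (nat_lit 0) (XT.lf (nat_lit 0) (nat_lit 23393868205) (nat_lit 152) (nat_lit 21786032773) (nat_lit 0) (nat_lit 18209146881) (nat_lit 4) (nat_lit 5) (nat_lit 6) (nat_lit 4) (nat_lit 4) (nat_lit 4) (nat_lit 340) (nat_lit 229) (nat_lit 211)) (XT.lf (nat_lit 0) (nat_lit 28529910845) (nat_lit 152) (nat_lit 14725035559) (nat_lit 0) (nat_lit 23169668325) (nat_lit 4) (nat_lit 5) (nat_lit 6) (nat_lit 4) (nat_lit 4) (nat_lit 4) (nat_lit 341) (nat_lit 229) (nat_lit 210)))) (XT.nd (nat_lit 78) (nat_lit 76) (nat_lit 0) (XT.lf (nat_lit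 0) (nat_lit 33828699856) (nat_lit 152) (nat_lit 7484821359) (nat_lit 0) (nat_lit 28301294291) (nat_lit 4) (nat_lit 5) (nat_lit 6) (nat_lit 4) (nat_lit 4) (nat_lit 4) (nat_lit 342) (nat_lit 229) (nat_lit 209)) (XT.nd (nat_lit 78) (nat_lit 76) (nat_lit 0) (XT.lf (nat_lit 0) (nat_lit 39302851402) (nat_lit 152) (nat_lit 48151568) (nat_lit 0) (nat_lit 33616242937) (nat_lit 4) (nat_lit 5) (nat_lit 6) (nat_lit 4) (nat_lit 4) (nat_lit 4) (nat_lit 343) (nat_lit 229) (nat_lit 208)) (XT.lf (nat_lit 0) (nat_lit 7753988411) (nat_lit 76) (nat_lit 37285946845) (nat_lit 76) (nat_lit 31447716571) (nat_lit 3) (nat_lit 4) (nat_lit 4) (nat_lit 5) (nat_lit 4) (nat_lit 4) (nat_lit 344) (nat_lit 229) (nat_lit 207))))) (XT.nd (nat_lit 234) (nat_lit 0) (nat_lit 0) (XT.nd (nat_lit 78) (nat_lit 0) (nat_lit 0) (XT.lf (nat_lit 0) (nat_lit 15794089698) (nat_lit 76) (nat_lit 35187558191) (nat_lit 76) (nat_lit 29204926194)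 (nat_lit 3) (nat_lit 4) (nat_lit 4) (nat_lit 5) (nat_lit 4) (nat_lit 4) (nat_lit 345) (nat_lit 229) (nat_lit 206)) (XT.nd (nat_lit 78) (nat_lit 0) (nat_lit 0) (XT.lf (nat_lit 0) (nat_lit 24090337079) (nat_lit 76) (nat_lit 33051327082) (nat_lit 76) (nat_lit 26931169634) (nat_lit 3) (nat_lit 4) (nat_lit 4) (nat_lit 5) (nat_lit 4) (nat_lit 4) (nat_lit 346) (nat_lit 229) (nat_lit 205)) (XT.lf (nat_lit 0) (nat_lit 32662483524) (nat_lit 76) (nat_lit 30872167252) (nat_lit 76) (nat_lit 24621033185) (nat_lit 3) (nat_lit 4) (nat_lit 4) (nat_lit 5) (nat_lit 4) (nat_lit 4) (nat_lit 347) (nat_lit 229) (nat_lit 204)))) (XT.nd (nat_lit 156) (nat_lit 0) (nat_lit 0) (XT.nd (nat_lit 78) (nat_lit 0) (nat_lit 0) (XT.lf (nat_lit 0) (nat_lit 41530938905) (nat_lit 76) (nat_lit 28644890227) (nat_lit 76) (nat_lit 22269016522) (nat_lit 3) (nat_lit 4) (nat_lit 4) (nat_lit 5) (nat_lit 4) (nat_lit 4) (nat_lit 348) (nat_lit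 229) (nat_lit 203)) (XT.lf (nat_lit 0) (nat_lit 50716818592) (nat_lit 76) (nat_lit 26364192965) (nat_lit 76) (nat_lit 19869519605) (nat_lit 3) (nat_lit 4) (nat_lit 4) (nat_lit 5) (nat_lit 4) (nat_lit 4) (nat_lit 349) (nat_lit 229) (nat_lit 202))) (XT.nd (nat_lit 78) (nat_lit 0) (nat_lit 0) (XT.lf (nat_lit 0) (nat_lit 60241993728) (nat_lit 76) (nat_lit 24024645236) (nat_lit 76) (nat_lit 17416829347) (nat_lit 3) (nat_lit 4) (nat_lit 4) (nat_lit 5) (nat_lit 4) (nat_lit 4) (nat_lit 350) (nat_lit 229) (nat_lit 201)) (XT.lf (nat_lit 0) (nat_lit 70129143301) (nat_lit 76) (nat_lit 21620676687) (nat_lit 76) (nat_lit 14905106009) (nat_lit 3) (nat_lit 4) (nat_lit 4) (nat_lit 5) (nat_lit 4) (nat_lit 4) (nat_lit 351) (nat_lit 229) (nat_lit 200))))))) (XT.nd (nat_lit 38220) (nat_lit 0) (nat_lit 380) (XT.nd (nat_lit 468) (nat_lit 76) (nat_lit 0) (XT.nd (nat_lit 234) (nat_lit 76) (nat_lit 0) (XT.nd (nat_lit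 78) (nat_lit 0) (nat_lit 0) (XT.lf (nat_lit 0) (nat_lit 80401808142) (nat_lit 76) (nat_lit 19146563583) (nat_lit 76) (nat_lit 12328369297) (nat_lit 3) (nat_lit 4) (nat_lit 4) (nat_lit 5) (nat_lit 4) (nat_lit 4) (nat_lit 352) (nat_lit 229) (nat_lit 199)) (XT.nd (nat_lit 78) (nat_lit 0) (nat_lit 0) (XT.lf (nat_lit 0) (nat_lit 91084446979) (nat_lit 76) (nat_lit 16596415180) (nat_lit 76) (nat_lit 9680484124) (nat_lit 3) (nat_lit 4) (nat_lit 4) (nat_lit 5) (nat_lit 4) (nat_lit 4) (nat_lit 353) (nat_lit 229) (nat_lit 198)) (XT.lf (nat_lit 0) (nat_lit 102202494665) (nat_lit 76) (nat_lit 13964159695) (nat_lit 76) (nat_lit 6955146001) (nat_lit 3) (nat_lit 4) (nat_lit 4) (nat_lit 5) (nat_lit 4) (nat_lit 4) (nat_lit 354) (nat_lit 229) (nat_lit 197)))) (XT.nd (nat_lit 78) (nat_lit 76) (nat_lit 0) (XT.lf (nat_lit 0) (nat_lit 113782422743) (nat_lit 76) (nat_lit 11243529854) (nat_lit 76) (nat_lit 4145866028)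 (nat_lit 3) (nat_lit 4) (nat_lit 4) (nat_lit 5) (nat_lit 4) (nat_lit 4) (nat_lit 355) (nat_lit 229) (nat_lit 196)) (XT.nd (nat_lit 78) (nat_lit 76) (nat_lit 0) (XT.lf (nat_lit 0) (nat_lit 125851802469) (nat_lit 76) (nat_lit 8428047966) (nat_lit 76) (nat_lit 1245955443) (nat_lit 3) (nat_lit 4) (nat_lit 4) (nat_lit 5) (nat_lit 4) (nat_lit 4) (nat_lit 356) (nat_lit 229) (nat_lit 195)) (XT.lf (nat_lit 0) (nat_lit 1717312418) (nat_lit 152) (nat_lit 3776356596) (nat_lit 76) (nat_lit 136704716556) (nat_lit 2) (nat_lit 5) (nat_lit 4) (nat_lit 5) (nat_lit 3) (nat_lit 4) (nat_lit 357) (nat_lit 229) (nat_lit 194))))) (XT.nd (nat_lit 234) (nat_lit 0) (nat_lit 0) (XT.nd (nat_lit 78) (nat_lit 0) (nat_lit 0) (XT.lf (nat_lit 0) (nat_lit 2367682002) (nat_lit 76) (nat_lit 2413974216) (nat_lit 152) (nat_lit 144423222592) (nat_lit 1) (nat_lit 5) (nat_lit 2) (nat_lit 5) (nat_lit 3) (nat_lit 4) (nat_lit 358)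 (nat_lit 229) (nat_lit 193)) (XT.nd (nat_lit 78) (nat_lit 0) (nat_lit 0) (XT.lf (nat_lit 0) (nat_lit 8003027577) (nat_lit 152) (nat_lit 147751670541) (nat_lit 0) (nat_lit 806898640) (nat_lit 1) (nat_lit 5) (nat_lit 3) (nat_lit 4) (nat_lit 1) (nat_lit 4) (nat_lit 359) (nat_lit 229) (nat_lit 192)) (XT.lf (nat_lit 0) (nat_lit 11368567287) (nat_lit 152) (nat_lit 148813102245) (nat_lit 0) (nat_lit 4105001750) (nat_lit 1) (nat_lit 5) (nat_lit 3) (nat_lit 4) (nat_lit 1) (nat_lit 4) (nat_lit 360) (nat_lit 229) (nat_lit 191)))) (XT.nd (nat_lit 156) (nat_lit 0) (nat_lit 0) (XT.nd (nat_lit 78) (nat_lit 0) (nat_lit 0) (XT.lf (nat_lit 0) (nat_lit 14863083943) (nat_lit 152) (nat_lit 150000814541) (nat_lit 0) (nat_lit 7535293072) (nat_lit 1) (nat_lit 5) (nat_lit 3) (nat_lit 4) (nat_lit 1) (nat_lit 4) (nat_lit 361) (nat_lit 229) (nat_lit 190)) (XT.lf (nat_lit 0) (nat_lit 18494897821) (nat_lit 152) (nat_lit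 151317635315) (nat_lit 0) (nat_lit 11105939966) (nat_lit 1) (nat_lit 5) (nat_lit 3) (nat_lit 4) (nat_lit 1) (nat_lit 4) (nat_lit 362) (nat_lit 229) (nat_lit 189))) (XT.nd (nat_lit 37284) (nat_lit 0) (nat_lit 836) (XT.lf (nat_lit 0) (nat_lit 22272656097) (nat_lit 152) (nat_lit 152766699856) (nat_lit 0) (nat_lit 14825443973) (nat_lit 1) (nat_lit 5) (nat_lit 3) (nat_lit 4) (nat_lit 1) (nat_lit 4) (nat_lit 363) (nat_lit 229) (nat_lit 188)) (XT.lf (nat_lit 0) (nat_lit 6052508930) (nat_lit 76) (nat_lit 3485865578) (nat_lit 76) (nat_lit 3485865578) (nat_lit 12) (nat_lit 4) (nat_lit 13) (nat_lit 5) (nat_lit 13) (nat_lit 4) (nat_lit 320) (nat_lit 230) (nat_lit 230)))))) (XT.nd (nat_lit 468) (nat_lit 228) (nat_lit 0) (XT.nd (nat_lit 234) (nat_lit 76) (nat_lit 0) (XT.nd (nat_lit 78) (nat_lit 152) (nat_lit 0) (XT.lf (nat_lit 0) (nat_lit 24491473084) (nat_lit 76) (nat_lit 1572426920) (nat_lit 76) (nat_lit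 1087766082) (nat_lit 12) (nat_lit 4) (nat_lit 13) (nat_lit 5) (nat_lit 13) (nat_lit 4) (nat_lit 321) (nat_lit 230) (nat_lit 229)) (XT.nd (nat_lit 78) (nat_lit 0) (nat_lit 0) (XT.lf (nat_lit 0) (nat_lit 4907942531) (nat_lit 152) (nat_lit 19413924933) (nat_lit 0) (nat_lit 3989260408) (nat_lit 10) (nat_lit 5) (nat_lit 12) (nat_lit 4) (nat_lit 10) (nat_lit 4) (nat_lit 322) (nat_lit 230) (nat_lit 228)) (XT.lf (nat_lit 0) (nat_lit 11021373620) (nat_lit 152) (nat_lit 8835845787) (nat_lit 0) (nat_lit 9675893762) (nat_lit 10) (nat_lit 5) (nat_lit 12) (nat_lit 4) (nat_lit 10) (nat_lit 4) (nat_lit 323) (nat_lit 230) (nat_lit 227)))) (XT.nd (nat_lit 78) (nat_lit 0) (nat_lit 0) (XT.lf (nat_lit 0) (nat_lit 1957873574) (nat_lit 76) (nat_lit 15307802236) (nat_lit 76) (nat_lit 13555848345) (nat_lit 9) (nat_lit 4) (nat_lit 10) (nat_lit 5) (nat_lit 10) (nat_lit 4) (nat_lit 324) (nat_lit 230) (nat_lit 226))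 (XT.nd (nat_lit 78) (nat_lit 0) (nat_lit 0) (XT.lf (nat_lit 0) (nat_lit 13134527971) (nat_lit 76) (nat_lit 10590939990) (nat_lit 76) (nat_lit 8451867972) (nat_lit 9) (nat_lit 4) (nat_lit 10) (nat_lit 5) (nat_lit 10) (nat_lit 4) (nat_lit 325) (nat_lit 230) (nat_lit 225)) (XT.lf (nat_lit 0) (nat_lit 24544877828) (nat_lit 76) (nat_lit 5784626761) (nat_lit 76) (nat_lit 3276870814) (nat_lit 9) (nat_lit 4) (nat_lit 10) (nat_lit 5) (nat_lit 10) (nat_lit 4) (nat_lit 326) (nat_lit 230) (nat_lit 224))))) (XT.nd (nat_lit 234) (nat_lit 76) (nat_lit 0) (XT.nd (nat_lit 78) (nat_lit 0) (nat_lit 0) (XT.lf (nat_lit 0) (nat_lit 1106592153) (nat_lit 76) (nat_lit 846844129) (nat_lit 152) (nat_lit 33157718230) (nat_lit 7) (nat_lit 5) (nat_lit 8) (nat_lit 5) (nat_lit 9) (nat_lit 4) (nat_lit 327) (nat_lit 230) (nat_lit 223)) (XT.nd (nat_lit 78) (nat_lit 0) (nat_lit 0) (XT.lf (nat_lit 0) (nat_lit 7345975646) (nat_lit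 152) (nat_lit 25099541380) (nat_lit 0) (nat_lit 4245693419) (nat_lit 7) (nat_lit 5) (nat_lit 9) (nat_lit 4) (nat_lit 7) (nat_lit 4) (nat_lit 328) (nat_lit 230) (nat_lit 222)) (XT.lf (nat_lit 0) (nat_lit 12856647572) (nat_lit 152) (nat_lit 16051070614) (nat_lit 0) (nat_lit 9447158510) (nat_lit 7) (nat_lit 5) (nat_lit 9) (nat_lit 4) (nat_lit 7) (nat_lit 4) (nat_lit 329) (nat_lit 230) (nat_lit 221)))) (XT.nd (nat_lit 156) (nat_lit 0) (nat_lit 0) (XT.nd (nat_lit 78) (nat_lit 76) (nat_lit 0) (XT.lf (nat_lit 0) (nat_lit 18490432326) (nat_lit 152) (nat_lit 6829465702) (nat_lit 0) (nat_lit 14786460563) (nat_lit 7) (nat_lit 5) (nat_lit 9) (nat_lit 4) (nat_lit 7) (nat_lit 4) (nat_lit 330) (nat_lit 230) (nat_lit 220)) (XT.lf (nat_lit 0) (nat_lit 2638720500) (nat_lit 76) (nat_lit 21647388174) (nat_lit 76) (nat_lit 17662956697) (nat_lit 6) (nat_lit 4) (nat_lit 7) (nat_lit 5) (nat_lit 7) (nat_lit 4) (nat_lit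 331) (nat_lit 230) (nat_lit 219))) (XT.nd (nat_lit 78) (nat_lit 0) (nat_lit 0) (XT.lf (nat_lit 0) (nat_lit 12464666410) (nat_lit 76) (nat_lit 17836472057) (nat_lit 76) (nat_lit 13584936089) (nat_lit 6) (nat_lit 4) (nat_lit 7) (nat_lit 5) (nat_lit 7) (nat_lit 4) (nat_lit 332) (nat_lit 230) (nat_lit 218)) (XT.lf (nat_lit 0) (nat_lit 22535847378) (nat_lit 76) (nat_lit 13947040279) (nat_lit 76) (nat_lit 9441119082) (nat_lit 6) (nat_lit 4) (nat_lit 7) (nat_lit 5) (nat_lit 7) (nat_lit 4) (nat_lit 333) (nat_lit 230) (nat_lit 217))))))))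
noncomputable def xc9 : XT := (XT.nd (nat_lit 2028) (nat_lit 0) (nat_lit 0) (XT.nd (nat_lit 1014) (nat_lit 152) (nat_lit 0) (XT.nd (nat_lit 468) (nat_lit 76) (nat_lit 0) (XT.nd (nat_lit 234) (nat_lit 0) (nat_lit 0) (XT.nd (nat_lit 78) (nat_lit 152) (nat_lit 0) (XT.lf (nat_lit 0) (nat_lit 32876242407) (nat_lit 76) (nat_lit 9969832288) (nat_lit 76) (nat_lit 5221639445) (nat_lit 6) (nat_lit 4) (nat_lit 7) (nat_lit 5) (nat_lit 7) (nat_lit 4) (nat_lit 334) (nat_lit 230) (nat_lit 216)) (XT.nd (nat_lit 78) (nat_lit 152) (nat_lit 0) (XT.lf (nat_lit 0) (nat_lit 43510471484) (nat_lit 76) (nat_lit 5895378542) (nat_lit 76) (nat_lit 916450797) (nat_lit 6) (nat_lit 4) (nat_lit 7) (nat_lit 5) (nat_lit 7) (nat_lit 4) (nat_lit 335) (nat_lit 230) (nat_lit 215)) (XT.lf (nat_lit 0) (nat_lit 1771796437) (nat_lit 76) (nat_lit 1661933467) (nat_lit 152) (nat_lit 49257889088) (nat_lit 4) (nat_lit 5) (nat_lit 5)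 (nat_lit 5) (nat_lit 6) (nat_lit 4) (nat_lit 336) (nat_lit 230) (nat_lit 214)))) (XT.nd (nat_lit 78) (nat_lit 0) (nat_lit 0) (XT.lf (nat_lit 0) (nat_lit 7965886572) (nat_lit 152) (nat_lit 44498341564) (nat_lit 0) (nat_lit 2715441302) (nat_lit 4) (nat_lit 5) (nat_lit 6) (nat_lit 4) (nat_lit 4) (nat_lit 4) (nat_lit 337) (nat_lit 230) (nat_lit 213)) (XT.nd (nat_lit 78) (nat_lit 0) (nat_lit 0) (XT.lf (nat_lit 0) (nat_lit 12632544069) (nat_lit 152) (nat_lit 37973794102) (nat_lit 0) (nat_lit 7188586679) (nat_lit 4) (nat_lit 5) (nat_lit 6) (nat_lit 4) (nat_lit 4) (nat_lit 4) (nat_lit 338) (nat_lit 230) (nat_lit 212)) (XT.lf (nat_lit 0) (nat_lit 17428837963) (nat_lit 152) (nat_lit 31314670011) (nat_lit 0) (nat_lit 11800583317) (nat_lit 4) (nat_lit 5) (nat_lit 6) (nat_lit 4) (nat_lit 4) (nat_lit 4) (nat_lit 339) (nat_lit 230) (nat_lit 211))))) (XT.nd (nat_lit 234) (nat_lit 76) (nat_lit 0) (XT.nd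 (nat_lit 78) (nat_lit 0) (nat_lit 0) (XT.lf (nat_lit 0) (nat_lit 22366188004) (nat_lit 152) (nat_lit 24505114235) (nat_lit 0) (nat_lit 16562412161) (nat_lit 4) (nat_lit 5) (nat_lit 6) (nat_lit 4) (nat_lit 4) (nat_lit 4) (nat_lit 340) (nat_lit 230) (nat_lit 210)) (XT.nd (nat_lit 78) (nat_lit 0) (nat_lit 0) (XT.lf (nat_lit 0) (nat_lit 27456349785) (nat_lit 152) (nat_lit 17528913545) (nat_lit 0) (nat_lit 21485410897) (nat_lit 4) (nat_lit 5) (nat_lit 6) (nat_lit 4) (nat_lit 4) (nat_lit 4) (nat_lit 341) (nat_lit 230) (nat_lit 209)) (XT.lf (nat_lit 0) (nat_lit 32711442739) (nat_lit 152) (nat_lit 10369457940) (nat_lit 0) (nat_lit 26581300952) (nat_lit 4) (nat_lit 5) (nat_lit 6) (nat_lit 4) (nat_lit 4) (nat_lit 4) (nat_lit 342) (nat_lit 230) (nat_lit 208)))) (XT.nd (nat_lit 156) (nat_lit 0) (nat_lit 0) (XT.nd (nat_lit 78) (nat_lit 76) (nat_lit 0) (XT.lf (nat_lit 0) (nat_lit 38143978993) (nat_lit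 152) (nat_lit 3009701096) (nat_lit 0) (nat_lit 31862215397) (nat_lit 4) (nat_lit 5) (nat_lit 6) (nat_lit 4) (nat_lit 4) (nat_lit 4) (nat_lit 343) (nat_lit 230) (nat_lit 207)) (XT.lf (nat_lit 0) (nat_lit 4658789988) (nat_lit 76) (nat_lit 39152886308) (nat_lit 76) (nat_lit 32726720989) (nat_lit 3) (nat_lit 4) (nat_lit 4) (nat_lit 5) (nat_lit 4) (nat_lit 4) (nat_lit 344) (nat_lit 230) (nat_lit 206))) (XT.nd (nat_lit 78) (nat_lit 0) (nat_lit 0) (XT.lf (nat_lit 0) (nat_lit 12627740557) (nat_lit 76) (nat_lit 37087218131) (nat_lit 76) (nat_lit 30523527361) (nat_lit 3) (nat_lit 4) (nat_lit 4) (nat_lit 5) (nat_lit 4) (nat_lit 4) (nat_lit 345) (nat_lit 230) (nat_lit 205)) (XT.lf (nat_lit 0) (nat_lit 20856225350) (nat_lit 76) (nat_lit 34982149381) (nat_lit 76) (nat_lit 28287481990) (nat_lit 3) (nat_lit 4) (nat_lit 4) (nat_lit 5) (nat_lit 4) (nat_lit 4) (nat_lit 346) (nat_lit 230) (nat_lit 204))))))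 (XT.nd (nat_lit 468) (nat_lit 152) (nat_lit 0) (XT.nd (nat_lit 234) (nat_lit 0) (nat_lit 0) (XT.nd (nat_lit 78) (nat_lit 0) (nat_lit 0) (XT.lf (nat_lit 0) (nat_lit 29363835997) (nat_lit 76) (nat_lit 32832667988) (nat_lit 76) (nat_lit 26013260960) (nat_lit 3) (nat_lit 4) (nat_lit 4) (nat_lit 5) (nat_lit 4) (nat_lit 4) (nat_lit 347) (nat_lit 230) (nat_lit 203)) (XT.nd (nat_lit 78) (nat_lit 0) (nat_lit 0) (XT.lf (nat_lit 0) (nat_lit 38170828713) (nat_lit 76) (nat_lit 30633656141) (nat_lit 76) (nat_lit 23695449458) (nat_lit 3) (nat_lit 4) (nat_lit 4) (nat_lit 5) (nat_lit 4) (nat_lit 4) (nat_lit 348) (nat_lit 230) (nat_lit 202)) (XT.lf (nat_lit 0) (nat_lit 47298172530) (nat_lit 76) (nat_lit 28379878096) (nat_lit 76) (nat_lit 21328528885) (nat_lit 3) (nat_lit 4) (nat_lit 4) (nat_lit 5) (nat_lit 4) (nat_lit 4) (nat_lit 349) (nat_lit 230) (nat_lit 201)))) (XT.nd (nat_lit 78) (nat_lit 0) (nat_lit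 0) (XT.lf (nat_lit 0) (nat_lit 56767599217) (nat_lit 76) (nat_lit 26065967717) (nat_lit 76) (nat_lit 18906863716) (nat_lit 3) (nat_lit 4) (nat_lit 4) (nat_lit 5) (nat_lit 4) (nat_lit 4) (nat_lit 350) (nat_lit 230) (nat_lit 200)) (XT.nd (nat_lit 78) (nat_lit 0) (nat_lit 0) (XT.lf (nat_lit 0) (nat_lit 66601655028) (nat_lit 76) (nat_lit 23686415691) (nat_lit 76) (nat_lit 16424688082) (nat_lit 3) (nat_lit 4) (nat_lit 4) (nat_lit 5) (nat_lit 4) (nat_lit 4) (nat_lit 351) (nat_lit 230) (nat_lit 199)) (XT.lf (nat_lit 0) (nat_lit 76823754384) (nat_lit 76) (nat_lit 21235556420) (nat_lit 76) (nat_lit 13876092040) (nat_lit 3) (nat_lit 4) (nat_lit 4) (nat_lit 5) (nat_lit 4) (nat_lit 4) (nat_lit 352) (nat_lit 230) (nat_lit 198))))) (XT.nd (nat_lit 234) (nat_lit 152) (nat_lit 0) (XT.nd (nat_lit 78) (nat_lit 0) (nat_lit 0) (XT.lf (nat_lit 0) (nat_lit 87458235614) (nat_lit 76) (nat_lit 18707554523) (nat_lit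 76) (nat_lit 11255007505) (nat_lit 3) (nat_lit 4) (nat_lit 4) (nat_lit 5) (nat_lit 4) (nat_lit 4) (nat_lit 353) (nat_lit 230) (nat_lit 197)) (XT.nd (nat_lit 78) (nat_lit 0) (nat_lit 0) (XT.lf (nat_lit 0) (nat_lit 98530418914) (nat_lit 76) (nat_lit 16096390949) (nat_lit 76) (nat_lit 8555193800) (nat_lit 3) (nat_lit 4) (nat_lit 4) (nat_lit 5) (nat_lit 4) (nat_lit 4) (nat_lit 354) (nat_lit 230) (nat_lit 196)) (XT.lf (nat_lit 0) (nat_lit 110066666623) (nat_lit 76) (nat_lit 13395848642) (nat_lit 76) (nat_lit 5770222796) (nat_lit 3) (nat_lit 4) (nat_lit 4) (nat_lit 5) (nat_lit 4) (nat_lit 4) (nat_lit 355) (nat_lit 230) (nat_lit 195)))) (XT.nd (nat_lit 156) (nat_lit 76) (nat_lit 0) (XT.nd (nat_lit 78) (nat_lit 76) (nat_lit 0) (XT.lf (nat_lit 0) (nat_lit 122094445998) (nat_lit 76) (nat_lit 10599497739) (nat_lit 76) (nat_lit 2893463610) (nat_lit 3) (nat_lit 4) (nat_lit 4) (nat_lit 5) (nat_lit 4)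 (nat_lit 4) (nat_lit 356) (nat_lit 230) (nat_lit 194)) (XT.lf (nat_lit 0) (nat_lit 80334372) (nat_lit 152) (nat_lit 7619534669) (nat_lit 76) (nat_lit 134561249018) (nat_lit 2) (nat_lit 5) (nat_lit 4) (nat_lit 5) (nat_lit 3) (nat_lit 4) (nat_lit 357) (nat_lit 230) (nat_lit 193))) (XT.nd (nat_lit 78) (nat_lit 76) (nat_lit 0) (XT.lf (nat_lit 0) (nat_lit 3101329329) (nat_lit 152) (nat_lit 1559847588) (nat_lit 76) (nat_lit 144607741851) (nat_lit 2) (nat_lit 5) (nat_lit 4) (nat_lit 5) (nat_lit 3) (nat_lit 4) (nat_lit 358) (nat_lit 230) (nat_lit 192)) (XT.lf (nat_lit 0) (nat_lit 4822444729) (nat_lit 76) (nat_lit 1457087563) (nat_lit 152) (nat_lit 150347406145) (nat_lit 1) (nat_lit 5) (nat_lit 2) (nat_lit 5) (nat_lit 3) (nat_lit 4) (nat_lit 359) (nat_lit 230) (nat_lit 191))))))) (XT.nd (nat_lit 38064) (nat_lit 0) (nat_lit 228) (XT.nd (nat_lit 37518) (nat_lit 0) (nat_lit 608) (XT.nd (nat_lit 234)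 (nat_lit 0) (nat_lit 0) (XT.nd (nat_lit 78) (nat_lit 0) (nat_lit 0) (XT.lf (nat_lit 0) (nat_lit 9611894835) (nat_lit 152) (nat_lit 152887630706) (nat_lit 0) (nat_lit 1853489088) (nat_lit 1) (nat_lit 5) (nat_lit 3) (nat_lit 4) (nat_lit 1) (nat_lit 4) (nat_lit 360) (nat_lit 230) (nat_lit 190)) (XT.nd (nat_lit 78) (nat_lit 0) (nat_lit 0) (XT.lf (nat_lit 0) (nat_lit 13088153632) (nat_lit 152) (nat_lit 154109354155) (nat_lit 0) (nat_lit 5268580901) (nat_lit 1) (nat_lit 5) (nat_lit 3) (nat_lit 4) (nat_lit 1) (nat_lit 4) (nat_lit 361) (nat_lit 230) (nat_lit 189)) (XT.lf (nat_lit 0) (nat_lit 16702579073) (nat_lit 152) (nat_lit 155458566504) (nat_lit 0) (nat_lit 8824752072) (nat_lit 1) (nat_lit 5) (nat_lit 3) (nat_lit 4) (nat_lit 1) (nat_lit 4) (nat_lit 362) (nat_lit 230) (nat_lit 188)))) (XT.nd (nat_lit 37128) (nat_lit 0) (nat_lit 912) (XT.lf (nat_lit 0) (nat_lit 20463776934) (nat_lit 152) (nat_lit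 156938480163) (nat_lit 0) (nat_lit 12530469675) (nat_lit 1) (nat_lit 5) (nat_lit 3) (nat_lit 4) (nat_lit 1) (nat_lit 4) (nat_lit 363) (nat_lit 230) (nat_lit 187)) (XT.nd (nat_lit 78) (nat_lit 0) (nat_lit 0) (XT.lf (nat_lit 0) (nat_lit 3099872491) (nat_lit 152) (nat_lit 5804881482) (nat_lit 0) (nat_lit 3099872491) (nat_lit 13) (nat_lit 5) (nat_lit 15) (nat_lit 4) (nat_lit 13) (nat_lit 4) (nat_lit 318) (nat_lit 231) (nat_lit 231)) (XT.lf (nat_lit 0) (nat_lit 12725800892) (nat_lit 152) (nat_lit 61374983) (nat_lit 0) (nat_lit 12216907013) (nat_lit 13) (nat_lit 5) (nat_lit 15) (nat_lit 4) (nat_lit 13) (nat_lit 4) (nat_lit 319) (nat_lit 231) (nat_lit 230))))) (XT.nd (nat_lit 234) (nat_lit 76) (nat_lit 0) (XT.nd (nat_lit 78) (nat_lit 152) (nat_lit 0) (XT.lf (nat_lit 0) (nat_lit 11914998436) (nat_lit 76) (nat_lit 7565124987) (nat_lit 76) (nat_lit 6571570270) (nat_lit 12) (nat_lit 4) (nat_lit 13)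 (nat_lit 5) (nat_lit 13) (nat_lit 4) (nat_lit 320) (nat_lit 231) (nat_lit 229)) (XT.nd (nat_lit 78) (nat_lit 152) (nat_lit 0) (XT.lf (nat_lit 0) (nat_lit 24120482779) (nat_lit 76) (nat_lit 2246296892) (nat_lit 76) (nat_lit 791160426) (nat_lit 12) (nat_lit 4) (nat_lit 13) (nat_lit 5) (nat_lit 13) (nat_lit 4) (nat_lit 321) (nat_lit 231) (nat_lit 228)) (XT.lf (nat_lit 0) (nat_lit 5089375808) (nat_lit 152) (nat_lit 19981440064) (nat_lit 0) (nat_lit 3249824223) (nat_lit 10) (nat_lit 5) (nat_lit 12) (nat_lit 4) (nat_lit 10) (nat_lit 4) (nat_lit 322) (nat_lit 231) (nat_lit 227)))) (XT.nd (nat_lit 156) (nat_lit 0) (nat_lit 0) (XT.nd (nat_lit 78) (nat_lit 76) (nat_lit 0) (XT.lf (nat_lit 0) (nat_lit 11108357760) (nat_lit 152) (nat_lit 9574809165) (nat_lit 0) (nat_lit 8862332141) (nat_lit 10) (nat_lit 5) (nat_lit 12) (nat_lit 4) (nat_lit 10) (nat_lit 4) (nat_lit 323) (nat_lit 231) (nat_lit 226)) (XT.lf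 (nat_lit 0) (nat_lit 1037669657) (nat_lit 76) (nat_lit 16216193170) (nat_lit 76) (nat_lit 13583049425) (nat_lit 9) (nat_lit 4) (nat_lit 10) (nat_lit 5) (nat_lit 10) (nat_lit 4) (nat_lit 324) (nat_lit 231) (nat_lit 225))) (XT.nd (nat_lit 78) (nat_lit 0) (nat_lit 0) (XT.lf (nat_lit 0) (nat_lit 12055720513) (nat_lit 76) (nat_lit 11570741719) (nat_lit 76) (nat_lit 8568914044) (nat_lit 9) (nat_lit 4) (nat_lit 10) (nat_lit 5) (nat_lit 10) (nat_lit 4) (nat_lit 325) (nat_lit 231) (nat_lit 224)) (XT.lf (nat_lit 0) (nat_lit 23315019379) (nat_lit 76) (nat_lit 6832438772) (nat_lit 76) (nat_lit 3479483544) (nat_lit 9) (nat_lit 4) (nat_lit 10) (nat_lit 5) (nat_lit 10) (nat_lit 4) (nat_lit 326) (nat_lit 231) (nat_lit 223)))))) (XT.nd (nat_lit 546) (nat_lit 152) (nat_lit 0) (XT.nd (nat_lit 234) (nat_lit 76) (nat_lit 0) (XT.nd (nat_lit 78) (nat_lit 76) (nat_lit 0) (XT.lf (nat_lit 0) (nat_lit 1664238163)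 (nat_lit 152) (nat_lit 308958949) (nat_lit 76) (nat_lit 33161330404) (nat_lit 8) (nat_lit 5) (nat_lit 10) (nat_lit 5) (nat_lit 9) (nat_lit 4) (nat_lit 327) (nat_lit 231) (nat_lit 222)) (XT.nd (nat_lit 78) (nat_lit 0) (nat_lit 0) (XT.lf (nat_lit 0) (nat_lit 6964822158) (nat_lit 152) (nat_lit 26676898724) (nat_lit 0) (nat_lit 3075651808) (nat_lit 7) (nat_lit 5) (nat_lit 9) (nat_lit 4) (nat_lit 7) (nat_lit 4) (nat_lit 328) (nat_lit 231) (nat_lit 221)) (XT.lf (nat_lit 0) (nat_lit 12401142490) (nat_lit 152) (nat_lit 17764666687) (nat_lit 0) (nat_lit 8217489439) (nat_lit 7) (nat_lit 5) (nat_lit 9) (nat_lit 4) (nat_lit 7) (nat_lit 4) (nat_lit 329) (nat_lit 231) (nat_lit 220)))) (XT.nd (nat_lit 156) (nat_lit 0) (nat_lit 0) (XT.nd (nat_lit 78) (nat_lit 76) (nat_lit 0) (XT.lf (nat_lit 0) (nat_lit 17964116201) (nat_lit 152) (nat_lit 8672812943) (nat_lit 0) (nat_lit 13500003434) (nat_lit 7) (nat_lit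 5) (nat_lit 9) (nat_lit 4) (nat_lit 7) (nat_lit 4) (nat_lit 330) (nat_lit 231) (nat_lit 219)) (XT.lf (nat_lit 0) (nat_lit 632655156) (nat_lit 76) (nat_lit 23040414777) (nat_lit 76) (nat_lit 18309197520) (nat_lit 6) (nat_lit 4) (nat_lit 7) (nat_lit 5) (nat_lit 7) (nat_lit 4) (nat_lit 331) (nat_lit 231) (nat_lit 218))) (XT.nd (nat_lit 78) (nat_lit 0) (nat_lit 0) (XT.lf (nat_lit 0) (nat_lit 10338570707) (nat_lit 76) (nat_lit 19284147511) (nat_lit 76) (nat_lit 14298545025) (nat_lit 6) (nat_lit 4) (nat_lit 7) (nat_lit 5) (nat_lit 7) (nat_lit 4) (nat_lit 332) (nat_lit 231) (nat_lit 217)) (XT.lf (nat_lit 0) (nat_lit 20295437047) (nat_lit 76) (nat_lit 15446762258) (nat_lit 76) (nat_lit 10218888125) (nat_lit 6) (nat_lit 4) (nat_lit 7) (nat_lit 5) (nat_lit 7) (nat_lit 4) (nat_lit 333) (nat_lit 231) (nat_lit 216))))) (XT.nd (nat_lit 234) (nat_lit 76) (nat_lit 0) (XT.nd (nat_lit 78) (nat_lit 76) (nat_lit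 0) (XT.lf (nat_lit 0) (nat_lit 30526961001) (nat_lit 76) (nat_lit 11519122386) (nat_lit 76) (nat_lit 6060513352) (nat_lit 6) (nat_lit 4) (nat_lit 7) (nat_lit 5) (nat_lit 7) (nat_lit 4) (nat_lit 334) (nat_lit 231) (nat_lit 215)) (XT.nd (nat_lit 78) (nat_lit 76) (nat_lit 0) (XT.lf (nat_lit 0) (nat_lit 41057503340) (nat_lit 76) (nat_lit 7491876372) (nat_lit 76) (nat_lit 1813519813) (nat_lit 6) (nat_lit 4) (nat_lit 7) (nat_lit 5) (nat_lit 7) (nat_lit 4) (nat_lit 335) (nat_lit 231) (nat_lit 214)) (XT.lf (nat_lit 0) (nat_lit 2482791952) (nat_lit 152) (nat_lit 847572252) (nat_lit 76) (nat_lit 49404273501) (nat_lit 5) (nat_lit 5) (nat_lit 7) (nat_lit 5) (nat_lit 6) (nat_lit 4) (nat_lit 336) (nat_lit 231) (nat_lit 213)))) (XT.nd (nat_lit 156) (nat_lit 0) (nat_lit 0) (XT.nd (nat_lit 78) (nat_lit 0) (nat_lit 0) (XT.lf (nat_lit 0) (nat_lit 6937406008) (nat_lit 152) (nat_lit 47259888930) (nat_lit 0)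 (nat_lit 1027738630) (nat_lit 4) (nat_lit 5) (nat_lit 6) (nat_lit 4) (nat_lit 4) (nat_lit 4) (nat_lit 337) (nat_lit 231) (nat_lit 212)) (XT.lf (nat_lit 0) (nat_lit 11553479858) (nat_lit 152) (nat_lit 40828829636) (nat_lit 0) (nat_lit 5459515222) (nat_lit 4) (nat_lit 5) (nat_lit 6) (nat_lit 4) (nat_lit 4) (nat_lit 4) (nat_lit 338) (nat_lit 231) (nat_lit 211))) (XT.nd (nat_lit 78) (nat_lit 0) (nat_lit 0) (XT.lf (nat_lit 0) (nat_lit 16301598850) (nat_lit 152) (nat_lit 34258741896) (nat_lit 0) (nat_lit 10032113018) (nat_lit 4) (nat_lit 5) (nat_lit 6) (nat_lit 4) (nat_lit 4) (nat_lit 4) (nat_lit 339) (nat_lit 231) (nat_lit 210)) (XT.lf (nat_lit 0) (nat_lit 21193068031) (nat_lit 152) (nat_lit 27533982644) (nat_lit 0) (nat_lit 14756419154) (nat_lit 4) (nat_lit 5) (nat_lit 6) (nat_lit 4) (nat_lit 4) (nat_lit 4) (nat_lit 340) (nat_lit 231) (nat_lit 209))))))))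
noncomputable def xc10 : XT := (XT.nd (nat_lit 38922) (nat_lit 0) (nat_lit 152) (XT.nd (nat_lit 1014) (nat_lit 152) (nat_lit 0) (XT.nd (nat_lit 468) (nat_lit 0) (nat_lit 0) (XT.nd (nat_lit 234) (nat_lit 76) (nat_lit 0) (XT.nd (nat_lit 78) (nat_lit 0) (nat_lit 0) (XT.lf (nat_lit 0) (nat_lit 26239533756) (nat_lit 152) (nat_lit 20638540549) (nat_lit 0) (nat_lit 19643681979) (nat_lit 4) (nat_lit 5) (nat_lit 6) (nat_lit 4) (nat_lit 4) (nat_lit 4) (nat_lit 341) (nat_lit 231) (nat_lit 208)) (XT.nd (nat_lit 78) (nat_lit 0) (nat_lit 0) (XT.lf (nat_lit 0) (nat_lit 31453011419) (nat_lit 152) (nat_lit 13555997891) (nat_lit 0) (nat_lit 24705537833) (nat_lit 4) (nat_lit 5) (nat_lit 6) (nat_lit 4) (nat_lit 4) (nat_lit 4) (nat_lit 342) (nat_lit 231) (nat_lit 207)) (XT.lf (nat_lit 0) (nat_lit 36845914062) (nat_lit 152) (nat_lit 6269491474) (nat_lit 0) (nat_lit 29954038753) (nat_lit 4) (nat_lit 5) (nat_lit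 6) (nat_lit 4) (nat_lit 4) (nat_lit 4) (nat_lit 343) (nat_lit 231) (nat_lit 206)))) (XT.nd (nat_lit 78) (nat_lit 0) (nat_lit 0) (XT.lf (nat_lit 0) (nat_lit 1262972672) (nat_lit 76) (nat_lit 41180249722) (nat_lit 76) (nat_lit 34150848963) (nat_lit 3) (nat_lit 4) (nat_lit 4) (nat_lit 5) (nat_lit 4) (nat_lit 4) (nat_lit 344) (nat_lit 231) (nat_lit 205)) (XT.nd (nat_lit 78) (nat_lit 0) (nat_lit 0) (XT.lf (nat_lit 0) (nat_lit 9164160654) (nat_lit 76) (nat_lit 39145743904) (nat_lit 76) (nat_lit 31985366525) (nat_lit 3) (nat_lit 4) (nat_lit 4) (nat_lit 5) (nat_lit 4) (nat_lit 4) (nat_lit 345) (nat_lit 231) (nat_lit 204)) (XT.lf (nat_lit 0) (nat_lit 17328109649) (nat_lit 76) (nat_lit 37070353590) (nat_lit 76) (nat_lit 29785236573) (nat_lit 3) (nat_lit 4) (nat_lit 4) (nat_lit 5) (nat_lit 4) (nat_lit 4) (nat_lit 346) (nat_lit 231) (nat_lit 203))))) (XT.nd (nat_lit 234) (nat_lit 0) (nat_lit 0) (XT.nd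 (nat_lit 78) (nat_lit 0) (nat_lit 0) (XT.lf (nat_lit 0) (nat_lit 25774257631) (nat_lit 76) (nat_lit 34949137376) (nat_lit 76) (nat_lit 27545220704) (nat_lit 3) (nat_lit 4) (nat_lit 4) (nat_lit 5) (nat_lit 4) (nat_lit 4) (nat_lit 347) (nat_lit 231) (nat_lit 202)) (XT.nd (nat_lit 78) (nat_lit 0) (nat_lit 0) (XT.lf (nat_lit 0) (nat_lit 34522714476) (nat_lit 76) (nat_lit 32777044746) (nat_lit 76) (nat_lit 25259985545) (nat_lit 3) (nat_lit 4) (nat_lit 4) (nat_lit 5) (nat_lit 4) (nat_lit 4) (nat_lit 348) (nat_lit 231) (nat_lit 201)) (XT.lf (nat_lit 0) (nat_lit 43594309844) (nat_lit 76) (nat_lit 30548904051) (nat_lit 76) (nat_lit 22924090061) (nat_lit 3) (nat_lit 4) (nat_lit 4) (nat_lit 5) (nat_lit 4) (nat_lit 4) (nat_lit 349) (nat_lit 231) (nat_lit 200)))) (XT.nd (nat_lit 156) (nat_lit 0) (nat_lit 0) (XT.nd (nat_lit 78) (nat_lit 0) (nat_lit 0) (XT.lf (nat_lit 0) (nat_lit 53010642770) (nat_lit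 76) (nat_lit 28259410195) (nat_lit 76) (nat_lit 20531972596) (nat_lit 3) (nat_lit 4) (nat_lit 4) (nat_lit 5) (nat_lit 4) (nat_lit 4) (nat_lit 350) (nat_lit 231) (nat_lit 199)) (XT.lf (nat_lit 0) (nat_lit 62794133095) (nat_lit 76) (nat_lit 25903112001) (nat_lit 76) (nat_lit 18077937632) (nat_lit 3) (nat_lit 4) (nat_lit 4) (nat_lit 5) (nat_lit 4) (nat_lit 4) (nat_lit 351) (nat_lit 231) (nat_lit 198))) (XT.nd (nat_lit 78) (nat_lit 0) (nat_lit 0) (XT.lf (nat_lit 0) (nat_lit 72968074845) (nat_lit 76) (nat_lit 23474399236) (nat_lit 76) (nat_lit 15556142229) (nat_lit 3) (nat_lit 4) (nat_lit 4) (nat_lit 5) (nat_lit 4) (nat_lit 4) (nat_lit 352) (nat_lit 231) (nat_lit 197)) (XT.lf (nat_lit 0) (nat_lit 83556691688) (nat_lit 76) (nat_lit 20967489250) (nat_lit 76) (nat_lit 12960582112) (nat_lit 3) (nat_lit 4) (nat_lit 4) (nat_lit 5) (nat_lit 4) (nat_lit 4) (nat_lit 353) (nat_lit 231) (nat_lit 196))))))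 (XT.nd (nat_lit 468) (nat_lit 0) (nat_lit 0) (XT.nd (nat_lit 234) (nat_lit 152) (nat_lit 0) (XT.nd (nat_lit 78) (nat_lit 0) (nat_lit 0) (XT.lf (nat_lit 0) (nat_lit 94585194619) (nat_lit 76) (nat_lit 18376413211) (nat_lit 76) (nat_lit 10285077376) (nat_lit 3) (nat_lit 4) (nat_lit 4) (nat_lit 5) (nat_lit 4) (nat_lit 4) (nat_lit 354) (nat_lit 231) (nat_lit 195)) (XT.nd (nat_lit 78) (nat_lit 0) (nat_lit 0) (XT.lf (nat_lit 0) (nat_lit 106079841978) (nat_lit 76) (nat_lit 15695001889) (nat_lit 76) (nat_lit 7523257771) (nat_lit 3) (nat_lit 4) (nat_lit 4) (nat_lit 5) (nat_lit 4) (nat_lit 4) (nat_lit 355) (nat_lit 231) (nat_lit 194)) (XT.lf (nat_lit 0) (nat_lit 118068001971) (nat_lit 76) (nat_lit 12916870972) (nat_lit 76) (nat_lit 4668547537) (nat_lit 3) (nat_lit 4) (nat_lit 4) (nat_lit 5) (nat_lit 4) (nat_lit 4) (nat_lit 356) (nat_lit 231) (nat_lit 193)))) (XT.nd (nat_lit 78) (nat_lit 152) (nat_lit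 0) (XT.lf (nat_lit 0) (nat_lit 130578217838) (nat_lit 76) (nat_lit 10035405861) (nat_lit 76) (nat_lit 1714149744) (nat_lit 3) (nat_lit 4) (nat_lit 4) (nat_lit 5) (nat_lit 4) (nat_lit 4) (nat_lit 357) (nat_lit 231) (nat_lit 192)) (XT.nd (nat_lit 78) (nat_lit 76) (nat_lit 0) (XT.lf (nat_lit 0) (nat_lit 1320685653) (nat_lit 152) (nat_lit 5709723939) (nat_lit 76) (nat_lit 142306253819) (nat_lit 2) (nat_lit 5) (nat_lit 4) (nat_lit 5) (nat_lit 3) (nat_lit 4) (nat_lit 358) (nat_lit 231) (nat_lit 191)) (XT.lf (nat_lit 0) (nat_lit 554686306) (nat_lit 76) (nat_lit 3884502961) (nat_lit 152) (nat_lit 152257291144) (nat_lit 1) (nat_lit 5) (nat_lit 2) (nat_lit 5) (nat_lit 3) (nat_lit 4) (nat_lit 359) (nat_lit 231) (nat_lit 190))))) (XT.nd (nat_lit 234) (nat_lit 0) (nat_lit 0) (XT.nd (nat_lit 78) (nat_lit 0) (nat_lit 0) (XT.lf (nat_lit 0) (nat_lit 7182731253) (nat_lit 76) (nat_lit 552540251) (nat_lit 152)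 (nat_lit 156688379558) (nat_lit 1) (nat_lit 5) (nat_lit 2) (nat_lit 5) (nat_lit 3) (nat_lit 4) (nat_lit 360) (nat_lit 231) (nat_lit 189)) (XT.nd (nat_lit 78) (nat_lit 0) (nat_lit 0) (XT.lf (nat_lit 0) (nat_lit 11188830510) (nat_lit 152) (nat_lit 158489723478) (nat_lit 0) (nat_lit 2858857888) (nat_lit 1) (nat_lit 5) (nat_lit 3) (nat_lit 4) (nat_lit 1) (nat_lit 4) (nat_lit 361) (nat_lit 231) (nat_lit 188)) (XT.lf (nat_lit 0) (nat_lit 14786695535) (nat_lit 152) (nat_lit 159869784945) (nat_lit 0) (nat_lit 6401242656) (nat_lit 1) (nat_lit 5) (nat_lit 3) (nat_lit 4) (nat_lit 1) (nat_lit 4) (nat_lit 362) (nat_lit 231) (nat_lit 187)))) (XT.nd (nat_lit 37050) (nat_lit 0) (nat_lit 912) (XT.nd (nat_lit 36972) (nat_lit 0) (nat_lit 1064) (XT.lf (nat_lit 0) (nat_lit 18532121571) (nat_lit 152) (nat_lit 161379078717) (nat_lit 0) (nat_lit 10093830352) (nat_lit 1) (nat_lit 5) (nat_lit 3) (nat_lit 4) (nat_lit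 1) (nat_lit 4) (nat_lit 363) (nat_lit 231) (nat_lit 186)) (XT.lf (nat_lit 0) (nat_lit 5217926956) (nat_lit 152) (nat_lit 2933173114) (nat_lit 152) (nat_lit 2933173114) (nat_lit 15) (nat_lit 4) (nat_lit 17) (nat_lit 5) (nat_lit 17) (nat_lit 4) (nat_lit 316) (nat_lit 232) (nat_lit 232))) (XT.nd (nat_lit 78) (nat_lit 0) (nat_lit 0) (XT.lf (nat_lit 0) (nat_lit 75801465) (nat_lit 76) (nat_lit 232656759) (nat_lit 152) (nat_lit 22759745883) (nat_lit 13) (nat_lit 5) (nat_lit 14) (nat_lit 5) (nat_lit 15) (nat_lit 4) (nat_lit 317) (nat_lit 232) (nat_lit 231)) (XT.lf (nat_lit 0) (nat_lit 6625206019) (nat_lit 152) (nat_lit 11805389998) (nat_lit 0) (nat_lit 5581973567) (nat_lit 13) (nat_lit 5) (nat_lit 15) (nat_lit 4) (nat_lit 13) (nat_lit 4) (nat_lit 318) (nat_lit 232) (nat_lit 230))))))) (XT.nd (nat_lit 1014) (nat_lit 304) (nat_lit 0) (XT.nd (nat_lit 468) (nat_lit 228) (nat_lit 0) (XT.nd (nat_lit 234)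 (nat_lit 152) (nat_lit 0) (XT.nd (nat_lit 78) (nat_lit 76) (nat_lit 0) (XT.lf (nat_lit 0) (nat_lit 13047569038) (nat_lit 152) (nat_lit 443313478) (nat_lit 0) (nat_lit 11519675748) (nat_lit 13) (nat_lit 5) (nat_lit 15) (nat_lit 4) (nat_lit 13) (nat_lit 4) (nat_lit 319) (nat_lit 232) (nat_lit 229)) (XT.nd (nat_lit 78) (nat_lit 0) (nat_lit 0) (XT.lf (nat_lit 0) (nat_lit 11344487735) (nat_lit 76) (nat_lit 8353164601) (nat_lit 76) (nat_lit 6363689561) (nat_lit 12) (nat_lit 4) (nat_lit 13) (nat_lit 5) (nat_lit 13) (nat_lit 4) (nat_lit 320) (nat_lit 232) (nat_lit 228)) (XT.lf (nat_lit 0) (nat_lit 23377618858) (nat_lit 76) (nat_lit 3110980452) (nat_lit 76) (nat_lit 681903746) (nat_lit 12) (nat_lit 4) (nat_lit 13) (nat_lit 5) (nat_lit 13) (nat_lit 4) (nat_lit 321) (nat_lit 232) (nat_lit 227)))) (XT.nd (nat_lit 78) (nat_lit 0) (nat_lit 0) (XT.lf (nat_lit 0) (nat_lit 5086260018) (nat_lit 152) (nat_lit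 20928799859) (nat_lit 0) (nat_lit 2321459085) (nat_lit 10) (nat_lit 5) (nat_lit 12) (nat_lit 4) (nat_lit 10) (nat_lit 4) (nat_lit 322) (nat_lit 232) (nat_lit 226)) (XT.nd (nat_lit 78) (nat_lit 0) (nat_lit 0) (XT.lf (nat_lit 0) (nat_lit 11015290410) (nat_lit 152) (nat_lit 10685453005) (nat_lit 0) (nat_lit 7863371351) (nat_lit 10) (nat_lit 5) (nat_lit 12) (nat_lit 4) (nat_lit 10) (nat_lit 4) (nat_lit 323) (nat_lit 232) (nat_lit 225)) (XT.lf (nat_lit 0) (nat_lit 17065152611) (nat_lit 152) (nat_lit 248731469) (nat_lit 0) (nat_lit 13544549622) (nat_lit 10) (nat_lit 5) (nat_lit 12) (nat_lit 4) (nat_lit 10) (nat_lit 4) (nat_lit 324) (nat_lit 232) (nat_lit 224))))) (XT.nd (nat_lit 234) (nat_lit 76) (nat_lit 0) (XT.nd (nat_lit 78) (nat_lit 76) (nat_lit 0) (XT.lf (nat_lit 0) (nat_lit 10613318150) (nat_lit 76) (nat_lit 12738954611) (nat_lit 76) (nat_lit 8867224070) (nat_lit 9) (nat_lit 4) (nat_lit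 10) (nat_lit 5) (nat_lit 10) (nat_lit 4) (nat_lit 325) (nat_lit 232) (nat_lit 223)) (XT.nd (nat_lit 78) (nat_lit 76) (nat_lit 0) (XT.lf (nat_lit 0) (nat_lit 21728758929) (nat_lit 76) (nat_lit 8065423360) (nat_lit 76) (nat_lit 3859285626) (nat_lit 9) (nat_lit 4) (nat_lit 10) (nat_lit 5) (nat_lit 10) (nat_lit 4) (nat_lit 326) (nat_lit 232) (nat_lit 222)) (XT.lf (nat_lit 0) (nat_lit 1215750386) (nat_lit 152) (nat_lit 2056647491) (nat_lit 76) (nat_lit 31891078876) (nat_lit 8) (nat_lit 5) (nat_lit 10) (nat_lit 5) (nat_lit 9) (nat_lit 4) (nat_lit 327) (nat_lit 232) (nat_lit 221)))) (XT.nd (nat_lit 156) (nat_lit 0) (nat_lit 0) (XT.nd (nat_lit 78) (nat_lit 0) (nat_lit 0) (XT.lf (nat_lit 0) (nat_lit 6412190227) (nat_lit 152) (nat_lit 28612413328) (nat_lit 0) (nat_lit 1724871822) (nat_lit 7) (nat_lit 5) (nat_lit 9) (nat_lit 4) (nat_lit 7) (nat_lit 4) (nat_lit 328) (nat_lit 232) (nat_lit 220)) (XT.lf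 (nat_lit 0) (nat_lit 11777699516) (nat_lit 152) (nat_lit 19829932459) (nat_lit 0) (nat_lit 6809921396) (nat_lit 7) (nat_lit 5) (nat_lit 9) (nat_lit 4) (nat_lit 7) (nat_lit 4) (nat_lit 329) (nat_lit 232) (nat_lit 219))) (XT.nd (nat_lit 78) (nat_lit 0) (nat_lit 0) (XT.lf (nat_lit 0) (nat_lit 17273234138) (nat_lit 152) (nat_lit 10861651257) (nat_lit 0) (nat_lit 12038351528) (nat_lit 7) (nat_lit 5) (nat_lit 9) (nat_lit 4) (nat_lit 7) (nat_lit 4) (nat_lit 330) (nat_lit 232) (nat_lit 218)) (XT.lf (nat_lit 0) (nat_lit 22911878699) (nat_lit 152) (nat_lit 1686216673) (nat_lit 0) (nat_lit 17422610861) (nat_lit 7) (nat_lit 5) (nat_lit 9) (nat_lit 4) (nat_lit 7) (nat_lit 4) (nat_lit 331) (nat_lit 232) (nat_lit 217)))))) (XT.nd (nat_lit 546) (nat_lit 76) (nat_lit 0) (XT.nd (nat_lit 234) (nat_lit 152) (nat_lit 0) (XT.nd (nat_lit 78) (nat_lit 0) (nat_lit 0) (XT.lf (nat_lit 0) (nat_lit 7871825230) (nat_lit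 76) (nat_lit 20910902114) (nat_lit 76) (nat_lit 15179362628) (nat_lit 6) (nat_lit 4) (nat_lit 7) (nat_lit 5) (nat_lit 7) (nat_lit 4) (nat_lit 332) (nat_lit 232) (nat_lit 216)) (XT.nd (nat_lit 78) (nat_lit 0) (nat_lit 0) (XT.lf (nat_lit 0) (nat_lit 17719820496) (nat_lit 76) (nat_lit 17123084980) (nat_lit 76) (nat_lit 11160810592) (nat_lit 6) (nat_lit 4) (nat_lit 7) (nat_lit 5) (nat_lit 7) (nat_lit 4) (nat_lit 333) (nat_lit 232) (nat_lit 215)) (XT.lf (nat_lit 0) (nat_lit 27847657712) (nat_lit 76) (nat_lit 13242652840) (nat_lit 76) (nat_lit 7060630928) (nat_lit 6) (nat_lit 4) (nat_lit 7) (nat_lit 5) (nat_lit 7) (nat_lit 4) (nat_lit 334) (nat_lit 232) (nat_lit 214)))) (XT.nd (nat_lit 156) (nat_lit 76) (nat_lit 0) (XT.nd (nat_lit 78) (nat_lit 76) (nat_lit 0) (XT.lf (nat_lit 0) (nat_lit 38279450777) (nat_lit 76) (nat_lit 9260366572) (nat_lit 76) (nat_lit 2869061302) (nat_lit 6) (nat_lit 4) (nat_lit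 7) (nat_lit 5) (nat_lit 7) (nat_lit 4) (nat_lit 335) (nat_lit 232) (nat_lit 213)) (XT.lf (nat_lit 0) (nat_lit 1396093220) (nat_lit 152) (nat_lit 3756553515) (nat_lit 76) (nat_lit 47629846270) (nat_lit 5) (nat_lit 5) (nat_lit 7) (nat_lit 5) (nat_lit 6) (nat_lit 4) (nat_lit 336) (nat_lit 232) (nat_lit 212))) (XT.nd (nat_lit 78) (nat_lit 0) (nat_lit 0) (XT.lf (nat_lit 0) (nat_lit 4916276914) (nat_lit 76) (nat_lit 845656998) (nat_lit 152) (nat_lit 49513636384) (nat_lit 4) (nat_lit 5) (nat_lit 5) (nat_lit 5) (nat_lit 6) (nat_lit 4) (nat_lit 337) (nat_lit 232) (nat_lit 211)) (XT.lf (nat_lit 0) (nat_lit 10321703887) (nat_lit 152) (nat_lit 44009141466) (nat_lit 0) (nat_lit 3563222566) (nat_lit 4) (nat_lit 5) (nat_lit 6) (nat_lit 4) (nat_lit 4) (nat_lit 4) (nat_lit 338) (nat_lit 232) (nat_lit 210))))) (XT.nd (nat_lit 234) (nat_lit 76) (nat_lit 0) (XT.nd (nat_lit 78) (nat_lit 0) (nat_lit 0) (XT.lf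 (nat_lit 0) (nat_lit 15023942020) (nat_lit 152) (nat_lit 37523850251) (nat_lit 0) (nat_lit 8098297655) (nat_lit 4) (nat_lit 5) (nat_lit 6) (nat_lit 4) (nat_lit 4) (nat_lit 4) (nat_lit 339) (nat_lit 232) (nat_lit 209)) (XT.nd (nat_lit 78) (nat_lit 0) (nat_lit 0) (XT.lf (nat_lit 0) (nat_lit 19871715145) (nat_lit 152) (nat_lit 30879849594) (nat_lit 0) (nat_lit 12786867880) (nat_lit 4) (nat_lit 5) (nat_lit 6) (nat_lit 4) (nat_lit 4) (nat_lit 4) (nat_lit 340) (nat_lit 232) (nat_lit 208)) (XT.lf (nat_lit 0) (nat_lit 24876565578) (nat_lit 152) (nat_lit 24061320446) (nat_lit 0) (nat_lit 17640096503) (nat_lit 4) (nat_lit 5) (nat_lit 6) (nat_lit 4) (nat_lit 4) (nat_lit 4) (nat_lit 341) (nat_lit 232) (nat_lit 207)))) (XT.nd (nat_lit 156) (nat_lit 76) (nat_lit 0) (XT.nd (nat_lit 78) (nat_lit 0) (nat_lit 0) (XT.lf (nat_lit 0) (nat_lit 30050409630) (nat_lit 152) (nat_lit 17052028214) (nat_lit 0) (nat_lit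 22669538832) (nat_lit 4) (nat_lit 5) (nat_lit 6) (nat_lit 4) (nat_lit 4) (nat_lit 4) (nat_lit 342) (nat_lit 232) (nat_lit 206)) (XT.lf (nat_lit 0) (nat_lit 35405565976) (nat_lit 152) (nat_lit 9835284107) (nat_lit 0) (nat_lit 27887169728) (nat_lit 4) (nat_lit 5) (nat_lit 6) (nat_lit 4) (nat_lit 4) (nat_lit 4) (nat_lit 343) (nat_lit 232) (nat_lit 205))) (XT.nd (nat_lit 78) (nat_lit 76) (nat_lit 0) (XT.lf (nat_lit 0) (nat_lit 40954784990) (nat_lit 152) (nat_lit 2393905401) (nat_lit 0) (nat_lit 33305412122) (nat_lit 4) (nat_lit 5) (nat_lit 6) (nat_lit 4) (nat_lit 4) (nat_lit 4) (nat_lit 344) (nat_lit 232) (nat_lit 204)) (XT.lf (nat_lit 0) (nat_lit 5395103370) (nat_lit 76) (nat_lit 41368036761) (nat_lit 76) (nat_lit 33593924255) (nat_lit 3) (nat_lit 4) (nat_lit 4) (nat_lit 5) (nat_lit 4) (nat_lit 4) (nat_lit 345) (nat_lit 232) (nat_lit 203))))))))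
noncomputable def xc11 : XT := (XT.nd (nat_lit 38766) (nat_lit 0) (nat_lit 152) (XT.nd (nat_lit 1014) (nat_lit 152) (nat_lit 0) (XT.nd (nat_lit 468) (nat_lit 0) (nat_lit 0) (XT.nd (nat_lit 234) (nat_lit 0) (nat_lit 0) (XT.nd (nat_lit 78) (nat_lit 0) (nat_lit 0) (XT.lf (nat_lit 0) (nat_lit 13497589700) (nat_lit 76) (nat_lit 39320911625) (nat_lit 76) (nat_lit 31427999465) (nat_lit 3) (nat_lit 4) (nat_lit 4) (nat_lit 5) (nat_lit 4) (nat_lit 4) (nat_lit 346) (nat_lit 232) (nat_lit 202)) (XT.nd (nat_lit 78) (nat_lit 0) (nat_lit 0) (XT.lf (nat_lit 0) (nat_lit 21885201811) (nat_lit 76) (nat_lit 37226614628) (nat_lit 76) (nat_lit 29220559939) (nat_lit 3) (nat_lit 4) (nat_lit 4) (nat_lit 5) (nat_lit 4) (nat_lit 4) (nat_lit 347) (nat_lit 232) (nat_lit 201)) (XT.lf (nat_lit 0) (nat_lit 30577910207) (nat_lit 76) (nat_lit 35080159348) (nat_lit 76) (nat_lit 26966349869) (nat_lit 3) (nat_lit 4) (nat_lit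 4) (nat_lit 5) (nat_lit 4) (nat_lit 4) (nat_lit 348) (nat_lit 232) (nat_lit 200)))) (XT.nd (nat_lit 78) (nat_lit 0) (nat_lit 0) (XT.lf (nat_lit 0) (nat_lit 39596411814) (nat_lit 76) (nat_lit 32876435176) (nat_lit 76) (nat_lit 24660002089) (nat_lit 3) (nat_lit 4) (nat_lit 4) (nat_lit 5) (nat_lit 4) (nat_lit 4) (nat_lit 349) (nat_lit 232) (nat_lit 199)) (XT.nd (nat_lit 78) (nat_lit 0) (nat_lit 0) (XT.lf (nat_lit 0) (nat_lit 48962179254) (nat_lit 76) (nat_lit 30610195152) (nat_lit 76) (nat_lit 22296025295) (nat_lit 3) (nat_lit 4) (nat_lit 4) (nat_lit 5) (nat_lit 4) (nat_lit 4) (nat_lit 350) (nat_lit 232) (nat_lit 198)) (XT.lf (nat_lit 0) (nat_lit 58697511973) (nat_lit 76) (nat_lit 28276043465) (nat_lit 76) (nat_lit 19868790970) (nat_lit 3) (nat_lit 4) (nat_lit 4) (nat_lit 5) (nat_lit 4) (nat_lit 4) (nat_lit 351) (nat_lit 232) (nat_lit 197))))) (XT.nd (nat_lit 234) (nat_lit 0) (nat_lit 0) (XT.nd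 (nat_lit 78) (nat_lit 0) (nat_lit 0) (XT.lf (nat_lit 0) (nat_lit 68825589336) (nat_lit 76) (nat_lit 25868422611) (nat_lit 76) (nat_lit 17372519984) (nat_lit 3) (nat_lit 4) (nat_lit 4) (nat_lit 5) (nat_lit 4) (nat_lit 4) (nat_lit 352) (nat_lit 232) (nat_lit 196)) (XT.nd (nat_lit 78) (nat_lit 0) (nat_lit 0) (XT.lf (nat_lit 0) (nat_lit 79370525811) (nat_lit 76) (nat_lit 23381600160) (nat_lit 76) (nat_lit 14801268836) (nat_lit 3) (nat_lit 4) (nat_lit 4) (nat_lit 5) (nat_lit 4) (nat_lit 4) (nat_lit 353) (nat_lit 232) (nat_lit 195)) (XT.lf (nat_lit 0) (nat_lit 90357428391) (nat_lit 76) (nat_lit 20809655105) (nat_lit 76) (nat_lit 12148915499) (nat_lit 3) (nat_lit 4) (nat_lit 4) (nat_lit 5) (nat_lit 4) (nat_lit 4) (nat_lit 354) (nat_lit 232) (nat_lit 194)))) (XT.nd (nat_lit 156) (nat_lit 0) (nat_lit 0) (XT.nd (nat_lit 78) (nat_lit 0) (nat_lit 0) (XT.lf (nat_lit 0) (nat_lit 101812456368) (nat_lit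 76) (nat_lit 18146463769) (nat_lit 76) (nat_lit 9409144846) (nat_lit 3) (nat_lit 4) (nat_lit 4) (nat_lit 5) (nat_lit 4) (nat_lit 4) (nat_lit 355) (nat_lit 232) (nat_lit 193)) (XT.lf (nat_lit 0) (nat_lit 113762883617) (nat_lit 76) (nat_lit 15385685219) (nat_lit 76) (nat_lit 6575433613) (nat_lit 3) (nat_lit 4) (nat_lit 4) (nat_lit 5) (nat_lit 4) (nat_lit 4) (nat_lit 356) (nat_lit 232) (nat_lit 192))) (XT.nd (nat_lit 78) (nat_lit 0) (nat_lit 0) (XT.lf (nat_lit 0) (nat_lit 126237163537) (nat_lit 76) (nat_lit 12520746173) (nat_lit 76) (nat_lit 3641034869) (nat_lit 3) (nat_lit 4) (nat_lit 4) (nat_lit 5) (nat_lit 4) (nat_lit 4) (nat_lit 357) (nat_lit 232) (nat_lit 191)) (XT.lf (nat_lit 0) (nat_lit 139264996794) (nat_lit 76) (nat_lit 9544825348) (nat_lit 76) (nat_lit 598961951) (nat_lit 3) (nat_lit 4) (nat_lit 4) (nat_lit 5) (nat_lit 4) (nat_lit 4) (nat_lit 358) (nat_lit 232) (nat_lit 190))))))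 (XT.nd (nat_lit 37206) (nat_lit 0) (nat_lit 836) (XT.nd (nat_lit 234) (nat_lit 0) (nat_lit 0) (XT.nd (nat_lit 78) (nat_lit 76) (nat_lit 0) (XT.lf (nat_lit 0) (nat_lit 2508111829) (nat_lit 152) (nat_lit 3917398376) (nat_lit 76) (nat_lit 150343963199) (nat_lit 2) (nat_lit 5) (nat_lit 4) (nat_lit 5) (nat_lit 3) (nat_lit 4) (nat_lit 359) (nat_lit 232) (nat_lit 189)) (XT.nd (nat_lit 78) (nat_lit 0) (nat_lit 0) (XT.lf (nat_lit 0) (nat_lit 2600672324) (nat_lit 76) (nat_lit 3147869357) (nat_lit 152) (nat_lit 158749777706) (nat_lit 1) (nat_lit 5) (nat_lit 2) (nat_lit 5) (nat_lit 3) (nat_lit 4) (nat_lit 360) (nat_lit 232) (nat_lit 188)) (XT.lf (nat_lit 0) (nat_lit 9160592379) (nat_lit 152) (nat_lit 163152351959) (nat_lit 0) (nat_lit 300386598) (nat_lit 1) (nat_lit 5) (nat_lit 3) (nat_lit 4) (nat_lit 1) (nat_lit 4) (nat_lit 361) (nat_lit 232) (nat_lit 187)))) (XT.nd (nat_lit 78) (nat_lit 0) (nat_lit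 0) (XT.lf (nat_lit 0) (nat_lit 12742685580) (nat_lit 152) (nat_lit 164561793539) (nat_lit 0) (nat_lit 3829641459) (nat_lit 1) (nat_lit 5) (nat_lit 3) (nat_lit 4) (nat_lit 1) (nat_lit 4) (nat_lit 362) (nat_lit 232) (nat_lit 186)) (XT.nd (nat_lit 36816) (nat_lit 0) (nat_lit 1216) (XT.lf (nat_lit 0) (nat_lit 16473090831) (nat_lit 152) (nat_lit 166099068371) (nat_lit 0) (nat_lit 7509724480) (nat_lit 1) (nat_lit 5) (nat_lit 3) (nat_lit 4) (nat_lit 1) (nat_lit 4) (nat_lit 363) (nat_lit 232) (nat_lit 185)) (XT.lf (nat_lit 0) (nat_lit 1660201650) (nat_lit 152) (nat_lit 6933406583) (nat_lit 0) (nat_lit 1660201650) (nat_lit 17) (nat_lit 5) (nat_lit 19) (nat_lit 4) (nat_lit 17) (nat_lit 4) (nat_lit 314) (nat_lit 233) (nat_lit 233))))) (XT.nd (nat_lit 234) (nat_lit 152) (nat_lit 0) (XT.nd (nat_lit 78) (nat_lit 228) (nat_lit 0) (XT.lf (nat_lit 0) (nat_lit 9941510275) (nat_lit 152) (nat_lit 2012467793)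 (nat_lit 0) (nat_lit 9363623108) (nat_lit 17) (nat_lit 5) (nat_lit 19) (nat_lit 4) (nat_lit 17) (nat_lit 4) (nat_lit 315) (nat_lit 233) (nat_lit 232)) (XT.nd (nat_lit 78) (nat_lit 76) (nat_lit 0) (XT.lf (nat_lit 0) (nat_lit 10239273120) (nat_lit 152) (nat_lit 6530447293) (nat_lit 152) (nat_lit 5402191395) (nat_lit 15) (nat_lit 4) (nat_lit 17) (nat_lit 5) (nat_lit 17) (nat_lit 4) (nat_lit 316) (nat_lit 233) (nat_lit 231)) (XT.lf (nat_lit 0) (nat_lit 656624211) (nat_lit 228) (nat_lit 319469443) (nat_lit 76) (nat_lit 22098600315) (nat_lit 14) (nat_lit 5) (nat_lit 17) (nat_lit 5) (nat_lit 15) (nat_lit 4) (nat_lit 317) (nat_lit 233) (nat_lit 230)))) (XT.nd (nat_lit 156) (nat_lit 76) (nat_lit 0) (XT.nd (nat_lit 78) (nat_lit 0) (nat_lit 0) (XT.lf (nat_lit 0) (nat_lit 6859369681) (nat_lit 152) (nat_lit 12392736880) (nat_lit 0) (nat_lit 4770420889) (nat_lit 13) (nat_lit 5) (nat_lit 15) (nat_lit 4)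 (nat_lit 13) (nat_lit 4) (nat_lit 318) (nat_lit 233) (nat_lit 229)) (XT.lf (nat_lit 0) (nat_lit 13182977565) (nat_lit 152) (nat_lit 1208099847) (nat_lit 0) (nat_lit 10632447023) (nat_lit 13) (nat_lit 5) (nat_lit 15) (nat_lit 4) (nat_lit 13) (nat_lit 4) (nat_lit 319) (nat_lit 233) (nat_lit 228))) (XT.nd (nat_lit 78) (nat_lit 0) (nat_lit 0) (XT.lf (nat_lit 0) (nat_lit 10392127399) (nat_lit 76) (nat_lit 9337726285) (nat_lit 76) (nat_lit 6347594077) (nat_lit 12) (nat_lit 4) (nat_lit 13) (nat_lit 5) (nat_lit 13) (nat_lit 4) (nat_lit 320) (nat_lit 233) (nat_lit 227)) (XT.lf (nat_lit 0) (nat_lit 22261112598) (nat_lit 76) (nat_lit 4168536371) (nat_lit 76) (nat_lit 759735908) (nat_lit 12) (nat_lit 4) (nat_lit 13) (nat_lit 5) (nat_lit 13) (nat_lit 4) (nat_lit 321) (nat_lit 233) (nat_lit 226))))))) (XT.nd (nat_lit 1014) (nat_lit 228) (nat_lit 0) (XT.nd (nat_lit 468) (nat_lit 152) (nat_lit 0) (XT.nd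 (nat_lit 234) (nat_lit 152) (nat_lit 0) (XT.nd (nat_lit 78) (nat_lit 0) (nat_lit 0) (XT.lf (nat_lit 0) (nat_lit 4898587742) (nat_lit 152) (nat_lit 22258259936) (nat_lit 0) (nat_lit 1201954603) (nat_lit 10) (nat_lit 5) (nat_lit 12) (nat_lit 4) (nat_lit 10) (nat_lit 4) (nat_lit 322) (nat_lit 233) (nat_lit 225)) (XT.nd (nat_lit 78) (nat_lit 0) (nat_lit 0) (XT.lf (nat_lit 0) (nat_lit 10741949982) (nat_lit 152) (nat_lit 12170421698) (nat_lit 0) (nat_lit 6676632914) (nat_lit 10) (nat_lit 5) (nat_lit 12) (nat_lit 4) (nat_lit 10) (nat_lit 4) (nat_lit 323) (nat_lit 233) (nat_lit 224)) (XT.lf (nat_lit 0) (nat_lit 16710223467) (nat_lit 152) (nat_lit 1881803604) (nat_lit 0) (nat_lit 12293778846) (nat_lit 10) (nat_lit 5) (nat_lit 12) (nat_lit 4) (nat_lit 10) (nat_lit 4) (nat_lit 324) (nat_lit 233) (nat_lit 223)))) (XT.nd (nat_lit 78) (nat_lit 76) (nat_lit 0) (XT.lf (nat_lit 0) (nat_lit 8803886590) (nat_lit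 76) (nat_lit 14098360125) (nat_lit 76) (nat_lit 9347508311) (nat_lit 9) (nat_lit 4) (nat_lit 10) (nat_lit 5) (nat_lit 10) (nat_lit 4) (nat_lit 325) (nat_lit 233) (nat_lit 222)) (XT.nd (nat_lit 78) (nat_lit 76) (nat_lit 0) (XT.lf (nat_lit 0) (nat_lit 19782319667) (nat_lit 76) (nat_lit 9486516203) (nat_lit 76) (nat_lit 4417181349) (nat_lit 9) (nat_lit 4) (nat_lit 10) (nat_lit 5) (nat_lit 10) (nat_lit 4) (nat_lit 326) (nat_lit 233) (nat_lit 221)) (XT.lf (nat_lit 0) (nat_lit 596267882) (nat_lit 152) (nat_lit 4162228234) (nat_lit 76) (nat_lit 30439894151) (nat_lit 8) (nat_lit 5) (nat_lit 10) (nat_lit 5) (nat_lit 9) (nat_lit 4) (nat_lit 327) (nat_lit 233) (nat_lit 220))))) (XT.nd (nat_lit 234) (nat_lit 76) (nat_lit 0) (XT.nd (nat_lit 78) (nat_lit 0) (nat_lit 0) (XT.lf (nat_lit 0) (nat_lit 5686764061) (nat_lit 152) (nat_lit 30910693558) (nat_lit 0) (nat_lit 190137320) (nat_lit 7) (nat_lit 5) (nat_lit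 9) (nat_lit 4) (nat_lit 7) (nat_lit 4) (nat_lit 328) (nat_lit 233) (nat_lit 219)) (XT.nd (nat_lit 78) (nat_lit 0) (nat_lit 0) (XT.lf (nat_lit 0) (nat_lit 10984834261) (nat_lit 152) (nat_lit 22251785230) (nat_lit 0) (nat_lit 5221103031) (nat_lit 7) (nat_lit 5) (nat_lit 9) (nat_lit 4) (nat_lit 7) (nat_lit 4) (nat_lit 329) (nat_lit 233) (nat_lit 218)) (XT.lf (nat_lit 0) (nat_lit 16416141180) (nat_lit 152) (nat_lit 13401192164) (nat_lit 0) (nat_lit 10398024721) (nat_lit 7) (nat_lit 5) (nat_lit 9) (nat_lit 4) (nat_lit 7) (nat_lit 4) (nat_lit 330) (nat_lit 233) (nat_lit 217)))) (XT.nd (nat_lit 156) (nat_lit 0) (nat_lit 0) (XT.nd (nat_lit 78) (nat_lit 76) (nat_lit 0) (XT.lf (nat_lit 0) (nat_lit 21993616501) (nat_lit 152) (nat_lit 4337841518) (nat_lit 0) (nat_lit 15733228394) (nat_lit 7) (nat_lit 5) (nat_lit 9) (nat_lit 4) (nat_lit 7) (nat_lit 4) (nat_lit 331) (nat_lit 233) (nat_lit 216)) (XT.lf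 (nat_lit 0) (nat_lit 5058556777) (nat_lit 76) (nat_lit 22720609091) (nat_lit 76) (nat_lit 16229486083) (nat_lit 6) (nat_lit 4) (nat_lit 7) (nat_lit 5) (nat_lit 7) (nat_lit 4) (nat_lit 332) (nat_lit 233) (nat_lit 215))) (XT.nd (nat_lit 78) (nat_lit 0) (nat_lit 0) (XT.lf (nat_lit 0) (nat_lit 14802865305) (nat_lit 76) (nat_lit 18979999689) (nat_lit 76) (nat_lit 12269129156) (nat_lit 6) (nat_lit 4) (nat_lit 7) (nat_lit 5) (nat_lit 7) (nat_lit 4) (nat_lit 333) (nat_lit 233) (nat_lit 214)) (XT.lf (nat_lit 0) (nat_lit 24831953247) (nat_lit 76) (nat_lit 15144527295) (nat_lit 76) (nat_lit 8224373404) (nat_lit 6) (nat_lit 4) (nat_lit 7) (nat_lit 5) (nat_lit 7) (nat_lit 4) (nat_lit 334) (nat_lit 233) (nat_lit 213)))))) (XT.nd (nat_lit 546) (nat_lit 76) (nat_lit 0) (XT.nd (nat_lit 234) (nat_lit 0) (nat_lit 0) (XT.nd (nat_lit 78) (nat_lit 152) (nat_lit 0) (XT.lf (nat_lit 0) (nat_lit 35169699385) (nat_lit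 76) (nat_lit 11205059831) (nat_lit 76) (nat_lit 4085588457) (nat_lit 6) (nat_lit 4) (nat_lit 7) (nat_lit 5) (nat_lit 7) (nat_lit 4) (nat_lit 335) (nat_lit 233) (nat_lit 212)) (XT.nd (nat_lit 78) (nat_lit 76) (nat_lit 0) (XT.lf (nat_lit 0) (nat_lit 154014739) (nat_lit 152) (nat_lit 6996647628) (nat_lit 76) (nat_lit 45685147413) (nat_lit 5) (nat_lit 5) (nat_lit 7) (nat_lit 5) (nat_lit 6) (nat_lit 4) (nat_lit 336) (nat_lit 233) (nat_lit 211)) (XT.lf (nat_lit 0) (nat_lit 1523726980) (nat_lit 76) (nat_lit 2916574182) (nat_lit 152) (nat_lit 50890989894) (nat_lit 4) (nat_lit 5) (nat_lit 5) (nat_lit 5) (nat_lit 6) (nat_lit 4) (nat_lit 337) (nat_lit 233) (nat_lit 210)))) (XT.nd (nat_lit 156) (nat_lit 0) (nat_lit 0) (XT.nd (nat_lit 78) (nat_lit 0) (nat_lit 0) (XT.lf (nat_lit 0) (nat_lit 8934283356) (nat_lit 152) (nat_lit 47522301763) (nat_lit 0) (nat_lit 1495193728) (nat_lit 4) (nat_lit 5) (nat_lit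 6) (nat_lit 4) (nat_lit 4) (nat_lit 4) (nat_lit 338) (nat_lit 233) (nat_lit 209)) (XT.lf (nat_lit 0) (nat_lit 13592825433) (nat_lit 152) (nat_lit 41117769142) (nat_lit 0) (nat_lit 5994532905) (nat_lit 4) (nat_lit 5) (nat_lit 6) (nat_lit 4) (nat_lit 4) (nat_lit 4) (nat_lit 339) (nat_lit 233) (nat_lit 208))) (XT.nd (nat_lit 78) (nat_lit 0) (nat_lit 0) (XT.lf (nat_lit 0) (nat_lit 18398983266) (nat_lit 152) (nat_lit 34550681432) (nat_lit 0) (nat_lit 10649068929) (nat_lit 4) (nat_lit 5) (nat_lit 6) (nat_lit 4) (nat_lit 4) (nat_lit 4) (nat_lit 340) (nat_lit 233) (nat_lit 207)) (XT.lf (nat_lit 0) (nat_lit 23364200088) (nat_lit 152) (nat_lit 27805402711) (nat_lit 0) (nat_lit 15469884027) (nat_lit 4) (nat_lit 5) (nat_lit 6) (nat_lit 4) (nat_lit 4) (nat_lit 4) (nat_lit 341) (nat_lit 233) (nat_lit 206))))) (XT.nd (nat_lit 234) (nat_lit 76) (nat_lit 0) (XT.nd (nat_lit 78) (nat_lit 0) (nat_lit 0) (XT.lf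 (nat_lit 0) (nat_lit 28500297843) (nat_lit 152) (nat_lit 20865872789) (nat_lit 0) (nat_lit 20468456332) (nat_lit 4) (nat_lit 5) (nat_lit 6) (nat_lit 4) (nat_lit 4) (nat_lit 4) (nat_lit 342) (nat_lit 233) (nat_lit 205)) (XT.nd (nat_lit 78) (nat_lit 0) (nat_lit 0) (XT.lf (nat_lit 0) (nat_lit 33819505336) (nat_lit 152) (nat_lit 13715568978) (nat_lit 0) (nat_lit 25656687205) (nat_lit 4) (nat_lit 5) (nat_lit 6) (nat_lit 4) (nat_lit 4) (nat_lit 4) (nat_lit 343) (nat_lit 233) (nat_lit 204)) (XT.lf (nat_lit 0) (nat_lit 39334487347) (nat_lit 152) (nat_lit 6337466745) (nat_lit 0) (nat_lit 31046929578) (nat_lit 4) (nat_lit 5) (nat_lit 6) (nat_lit 4) (nat_lit 4) (nat_lit 4) (nat_lit 344) (nat_lit 233) (nat_lit 203)))) (XT.nd (nat_lit 156) (nat_lit 0) (nat_lit 0) (XT.nd (nat_lit 78) (nat_lit 0) (nat_lit 0) (XT.lf (nat_lit 0) (nat_lit 1311594759) (nat_lit 76) (nat_lit 43759387876) (nat_lit 76) (nat_lit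 35353030452) (nat_lit 3) (nat_lit 4) (nat_lit 4) (nat_lit 5) (nat_lit 4) (nat_lit 4) (nat_lit 345) (nat_lit 233) (nat_lit 202)) (XT.lf (nat_lit 0) (nat_lit 9355545218) (nat_lit 76) (nat_lit 41739181957) (nat_lit 76) (nat_lit 33219682005) (nat_lit 3) (nat_lit 4) (nat_lit 4) (nat_lit 5) (nat_lit 4) (nat_lit 4) (nat_lit 346) (nat_lit 233) (nat_lit 201))) (XT.nd (nat_lit 78) (nat_lit 0) (nat_lit 0) (XT.lf (nat_lit 0) (nat_lit 17687408880) (nat_lit 76) (nat_lit 39670522310) (nat_lit 76) (nat_lit 31043267568) (nat_lit 3) (nat_lit 4) (nat_lit 4) (nat_lit 5) (nat_lit 4) (nat_lit 4) (nat_lit 347) (nat_lit 233) (nat_lit 200)) (XT.lf (nat_lit 0) (nat_lit 26327023515) (nat_lit 76) (nat_lit 37548483553) (nat_lit 76) (nat_lit 28818605203) (nat_lit 3) (nat_lit 4) (nat_lit 4) (nat_lit 5) (nat_lit 4) (nat_lit 4) (nat_lit 348) (nat_lit 233) (nat_lit 199))))))))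
noncomputable def xc12 : XT := (XT.nd (nat_lit 38610) (nat_lit 0) (nat_lit 152) (XT.nd (nat_lit 1014) (nat_lit 0) (nat_lit 0) (XT.nd (nat_lit 468) (nat_lit 152) (nat_lit 0) (XT.nd (nat_lit 234) (nat_lit 0) (nat_lit 0) (XT.nd (nat_lit 78) (nat_lit 0) (nat_lit 0) (XT.lf (nat_lit 0) (nat_lit 35294959636) (nat_lit 76) (nat_lit 35368013213) (nat_lit 76) (nat_lit 26540398093) (nat_lit 3) (nat_lit 4) (nat_lit 4) (nat_lit 5) (nat_lit 4) (nat_lit 4) (nat_lit 349) (nat_lit 233) (nat_lit 198)) (XT.nd (nat_lit 78) (nat_lit 0) (nat_lit 0) (XT.lf (nat_lit 0) (nat_lit 44612569469) (nat_lit 76) (nat_lit 33123919696) (nat_lit 76) (nat_lit 24203221937) (nat_lit 3) (nat_lit 4) (nat_lit 4) (nat_lit 5) (nat_lit 4) (nat_lit 4) (nat_lit 350) (nat_lit 233) (nat_lit 197)) (XT.lf (nat_lit 0) (nat_lit 54302037802) (nat_lit 76) (nat_lit 30810859920) (nat_lit 76) (nat_lit 21801512030) (nat_lit 3) (nat_lit 4) (nat_lit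 4) (nat_lit 5) (nat_lit 4) (nat_lit 4) (nat_lit 351) (nat_lit 233) (nat_lit 196)))) (XT.nd (nat_lit 78) (nat_lit 0) (nat_lit 0) (XT.lf (nat_lit 0) (nat_lit 64386434796) (nat_lit 76) (nat_lit 28423326600) (nat_lit 76) (nat_lit 19329550013) (nat_lit 3) (nat_lit 4) (nat_lit 4) (nat_lit 5) (nat_lit 4) (nat_lit 4) (nat_lit 352) (nat_lit 233) (nat_lit 195)) (XT.nd (nat_lit 78) (nat_lit 0) (nat_lit 0) (XT.lf (nat_lit 0) (nat_lit 74889770921) (nat_lit 76) (nat_lit 25955635134) (nat_lit 76) (nat_lit 16781450264) (nat_lit 3) (nat_lit 4) (nat_lit 4) (nat_lit 5) (nat_lit 4) (nat_lit 4) (nat_lit 353) (nat_lit 233) (nat_lit 194)) (XT.lf (nat_lit 0) (nat_lit 85837054119) (nat_lit 76) (nat_lit 23401910065) (nat_lit 76) (nat_lit 14151145879) (nat_lit 3) (nat_lit 4) (nat_lit 4) (nat_lit 5) (nat_lit 4) (nat_lit 4) (nat_lit 354) (nat_lit 233) (nat_lit 193))))) (XT.nd (nat_lit 234) (nat_lit 152) (nat_lit 0)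 (XT.nd (nat_lit 78) (nat_lit 0) (nat_lit 0) (XT.lf (nat_lit 0) (nat_lit 97254349351) (nat_lit 76) (nat_lit 20756071096) (nat_lit 76) (nat_lit 11432374227) (nat_lit 3) (nat_lit 4) (nat_lit 4) (nat_lit 5) (nat_lit 4) (nat_lit 4) (nat_lit 355) (nat_lit 233) (nat_lit 192)) (XT.nd (nat_lit 78) (nat_lit 0) (nat_lit 0) (XT.lf (nat_lit 0) (nat_lit 109168840653) (nat_lit 76) (nat_lit 18011818610) (nat_lit 76) (nat_lit 8618662043) (nat_lit 3) (nat_lit 4) (nat_lit 4) (nat_lit 5) (nat_lit 4) (nat_lit 4) (nat_lit 356) (nat_lit 233) (nat_lit 191)) (XT.lf (nat_lit 0) (nat_lit 121608895862) (nat_lit 76) (nat_lit 15162618673) (nat_lit 76) (nat_lit 5703310013) (nat_lit 3) (nat_lit 4) (nat_lit 4) (nat_lit 5) (nat_lit 4) (nat_lit 4) (nat_lit 357) (nat_lit 233) (nat_lit 190)))) (XT.nd (nat_lit 156) (nat_lit 76) (nat_lit 0) (XT.nd (nat_lit 78) (nat_lit 76) (nat_lit 0) (XT.lf (nat_lit 0) (nat_lit 134604134156)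 (nat_lit 76) (nat_lit 12201687475) (nat_lit 76) (nat_lit 2679376822) (nat_lit 3) (nat_lit 4) (nat_lit 4) (nat_lit 5) (nat_lit 4) (nat_lit 4) (nat_lit 358) (nat_lit 233) (nat_lit 189)) (XT.lf (nat_lit 0) (nat_lit 451354530) (nat_lit 152) (nat_lit 8666062854) (nat_lit 76) (nat_lit 147729584252) (nat_lit 2) (nat_lit 5) (nat_lit 4) (nat_lit 5) (nat_lit 3) (nat_lit 4) (nat_lit 359) (nat_lit 233) (nat_lit 188))) (XT.nd (nat_lit 78) (nat_lit 76) (nat_lit 0) (XT.lf (nat_lit 0) (nat_lit 3650652925) (nat_lit 152) (nat_lit 2228631779) (nat_lit 76) (nat_lit 158697802346) (nat_lit 2) (nat_lit 5) (nat_lit 4) (nat_lit 5) (nat_lit 3) (nat_lit 4) (nat_lit 360) (nat_lit 233) (nat_lit 187)) (XT.lf (nat_lit 0) (nat_lit 4561319729) (nat_lit 76) (nat_lit 2460946495) (nat_lit 152) (nat_lit 165671050723) (nat_lit 1) (nat_lit 5) (nat_lit 2) (nat_lit 5) (nat_lit 3) (nat_lit 4) (nat_lit 361) (nat_lit 233) (nat_lit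 186)))))) (XT.nd (nat_lit 37050) (nat_lit 0) (nat_lit 684) (XT.nd (nat_lit 36816) (nat_lit 0) (nat_lit 1216) (XT.nd (nat_lit 78) (nat_lit 0) (nat_lit 0) (XT.lf (nat_lit 0) (nat_lit 10565682517) (nat_lit 152) (nat_lit 169545763736) (nat_lit 0) (nat_lit 1103825620) (nat_lit 1) (nat_lit 5) (nat_lit 3) (nat_lit 4) (nat_lit 1) (nat_lit 4) (nat_lit 362) (nat_lit 233) (nat_lit 185)) (XT.nd (nat_lit 36660) (nat_lit 0) (nat_lit 1368) (XT.lf (nat_lit 0) (nat_lit 14281782258) (nat_lit 152) (nat_lit 171109687196) (nat_lit 0) (nat_lit 4771999428) (nat_lit 1) (nat_lit 5) (nat_lit 3) (nat_lit 4) (nat_lit 1) (nat_lit 4) (nat_lit 363) (nat_lit 233) (nat_lit 184)) (XT.lf (nat_lit 0) (nat_lit 659278812) (nat_lit 152) (nat_lit 4422333960) (nat_lit 152) (nat_lit 4422333960) (nat_lit 19) (nat_lit 4) (nat_lit 21) (nat_lit 5) (nat_lit 21) (nat_lit 4) (nat_lit 312) (nat_lit 234) (nat_lit 234)))) (XT.nd (nat_lit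 78) (nat_lit 152) (nat_lit 0) (XT.lf (nat_lit 0) (nat_lit 13987772792) (nat_lit 152) (nat_lit 3188418417) (nat_lit 152) (nat_lit 2563433446) (nat_lit 19) (nat_lit 4) (nat_lit 21) (nat_lit 5) (nat_lit 21) (nat_lit 4) (nat_lit 313) (nat_lit 234) (nat_lit 233)) (XT.nd (nat_lit 78) (nat_lit 0) (nat_lit 0) (XT.lf (nat_lit 0) (nat_lit 3813283723) (nat_lit 152) (nat_lit 14069195199) (nat_lit 0) (nat_lit 2628615031) (nat_lit 17) (nat_lit 5) (nat_lit 19) (nat_lit 4) (nat_lit 17) (nat_lit 4) (nat_lit 314) (nat_lit 234) (nat_lit 232)) (XT.lf (nat_lit 0) (nat_lit 10325913458) (nat_lit 152) (nat_lit 2407594619) (nat_lit 0) (nat_lit 8590876035) (nat_lit 17) (nat_lit 5) (nat_lit 19) (nat_lit 4) (nat_lit 17) (nat_lit 4) (nat_lit 315) (nat_lit 234) (nat_lit 231))))) (XT.nd (nat_lit 234) (nat_lit 228) (nat_lit 0) (XT.nd (nat_lit 78) (nat_lit 152) (nat_lit 0) (XT.lf (nat_lit 0) (nat_lit 9649062694) (nat_lit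 152) (nat_lit 7396075782) (nat_lit 152) (nat_lit 5136877663) (nat_lit 15) (nat_lit 4) (nat_lit 17) (nat_lit 5) (nat_lit 17) (nat_lit 4) (nat_lit 316) (nat_lit 234) (nat_lit 230)) (XT.nd (nat_lit 78) (nat_lit 76) (nat_lit 0) (XT.lf (nat_lit 0) (nat_lit 815615133) (nat_lit 228) (nat_lit 1102700060) (nat_lit 76) (nat_lit 21169488897) (nat_lit 14) (nat_lit 5) (nat_lit 17) (nat_lit 5) (nat_lit 15) (nat_lit 4) (nat_lit 317) (nat_lit 234) (nat_lit 229)) (XT.lf (nat_lit 0) (nat_lit 6902793499) (nat_lit 152) (nat_lit 13373202054) (nat_lit 0) (nat_lit 3763154681) (nat_lit 13) (nat_lit 5) (nat_lit 15) (nat_lit 4) (nat_lit 13) (nat_lit 4) (nat_lit 318) (nat_lit 234) (nat_lit 228)))) (XT.nd (nat_lit 156) (nat_lit 152) (nat_lit 0) (XT.nd (nat_lit 78) (nat_lit 76) (nat_lit 0) (XT.lf (nat_lit 0) (nat_lit 13132348874) (nat_lit 152) (nat_lit 2357555008) (nat_lit 0) (nat_lit 9553108388) (nat_lit 13) (nat_lit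 5) (nat_lit 15) (nat_lit 4) (nat_lit 13) (nat_lit 4) (nat_lit 319) (nat_lit 234) (nat_lit 227)) (XT.lf (nat_lit 0) (nat_lit 9055649902) (nat_lit 76) (nat_lit 10521154233) (nat_lit 76) (nat_lit 6523245494) (nat_lit 12) (nat_lit 4) (nat_lit 13) (nat_lit 5) (nat_lit 13) (nat_lit 4) (nat_lit 320) (nat_lit 234) (nat_lit 226))) (XT.nd (nat_lit 78) (nat_lit 152) (nat_lit 0) (XT.lf (nat_lit 0) (nat_lit 20768305650) (nat_lit 76) (nat_lit 5421482637) (nat_lit 76) (nat_lit 1024842227) (nat_lit 12) (nat_lit 4) (nat_lit 13) (nat_lit 5) (nat_lit 13) (nat_lit 4) (nat_lit 321) (nat_lit 234) (nat_lit 225)) (XT.lf (nat_lit 0) (nat_lit 4413432965) (nat_lit 76) (nat_lit 113570888) (nat_lit 152) (nat_lit 23860506503) (nat_lit 10) (nat_lit 5) (nat_lit 11) (nat_lit 5) (nat_lit 12) (nat_lit 4) (nat_lit 322) (nat_lit 234) (nat_lit 224))))))) (XT.nd (nat_lit 1014) (nat_lit 228) (nat_lit 0) (XT.nd (nat_lit 468) (nat_lit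 76) (nat_lit 0) (XT.nd (nat_lit 234) (nat_lit 152) (nat_lit 0) (XT.nd (nat_lit 78) (nat_lit 76) (nat_lit 0) (XT.lf (nat_lit 0) (nat_lit 10287685665) (nat_lit 152) (nat_lit 14033250882) (nat_lit 0) (nat_lit 5299291261) (nat_lit 10) (nat_lit 5) (nat_lit 12) (nat_lit 4) (nat_lit 10) (nat_lit 4) (nat_lit 323) (nat_lit 234) (nat_lit 223)) (XT.nd (nat_lit 78) (nat_lit 76) (nat_lit 0) (XT.lf (nat_lit 0) (nat_lit 16178255611) (nat_lit 152) (nat_lit 3885683686) (nat_lit 0) (nat_lit 10855454014) (nat_lit 10) (nat_lit 5) (nat_lit 12) (nat_lit 4) (nat_lit 10) (nat_lit 4) (nat_lit 324) (nat_lit 234) (nat_lit 222)) (XT.lf (nat_lit 0) (nat_lit 6623117664) (nat_lit 76) (nat_lit 15652194940) (nat_lit 76) (nat_lit 10010910302) (nat_lit 9) (nat_lit 4) (nat_lit 10) (nat_lit 5) (nat_lit 10) (nat_lit 4) (nat_lit 325) (nat_lit 234) (nat_lit 221)))) (XT.nd (nat_lit 78) (nat_lit 152) (nat_lit 0) (XT.lf (nat_lit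 0) (nat_lit 17471067215) (nat_lit 76) (nat_lit 11099100856) (nat_lit 76) (nat_lit 5154499037) (nat_lit 9) (nat_lit 4) (nat_lit 10) (nat_lit 5) (nat_lit 10) (nat_lit 4) (nat_lit 326) (nat_lit 234) (nat_lit 220)) (XT.nd (nat_lit 78) (nat_lit 152) (nat_lit 0) (XT.lf (nat_lit 0) (nat_lit 28606660693) (nat_lit 76) (nat_lit 6433054133) (nat_lit 76) (nat_lit 199578807) (nat_lit 9) (nat_lit 4) (nat_lit 10) (nat_lit 5) (nat_lit 10) (nat_lit 4) (nat_lit 327) (nat_lit 234) (nat_lit 219)) (XT.lf (nat_lit 0) (nat_lit 3239138354) (nat_lit 76) (nat_lit 1562699726) (nat_lit 152) (nat_lit 32029533408) (nat_lit 7) (nat_lit 5) (nat_lit 8) (nat_lit 5) (nat_lit 9) (nat_lit 4) (nat_lit 328) (nat_lit 234) (nat_lit 218))))) (XT.nd (nat_lit 234) (nat_lit 76) (nat_lit 0) (XT.nd (nat_lit 78) (nat_lit 0) (nat_lit 0) (XT.lf (nat_lit 0) (nat_lit 10020658953) (nat_lit 152) (nat_lit 25035991318) (nat_lit 0) (nat_lit 3447251441)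 (nat_lit 7) (nat_lit 5) (nat_lit 9) (nat_lit 4) (nat_lit 7) (nat_lit 4) (nat_lit 329) (nat_lit 234) (nat_lit 217)) (XT.nd (nat_lit 78) (nat_lit 0) (nat_lit 0) (XT.lf (nat_lit 0) (nat_lit 15390796631) (nat_lit 152) (nat_lit 16297482189) (nat_lit 0) (nat_lit 8575117472) (nat_lit 7) (nat_lit 5) (nat_lit 9) (nat_lit 4) (nat_lit 7) (nat_lit 4) (nat_lit 330) (nat_lit 234) (nat_lit 216)) (XT.lf (nat_lit 0) (nat_lit 20910015531) (nat_lit 152) (nat_lit 7340878151) (nat_lit 0) (nat_lit 13863601471) (nat_lit 7) (nat_lit 5) (nat_lit 9) (nat_lit 4) (nat_lit 7) (nat_lit 4) (nat_lit 331) (nat_lit 234) (nat_lit 215)))) (XT.nd (nat_lit 156) (nat_lit 0) (nat_lit 0) (XT.nd (nat_lit 78) (nat_lit 0) (nat_lit 0) (XT.lf (nat_lit 0) (nat_lit 1892067089) (nat_lit 76) (nat_lit 24717577268) (nat_lit 76) (nat_lit 17451415683) (nat_lit 6) (nat_lit 4) (nat_lit 7) (nat_lit 5) (nat_lit 7) (nat_lit 4) (nat_lit 332) (nat_lit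 234) (nat_lit 214)) (XT.lf (nat_lit 0) (nat_lit 11537626343) (nat_lit 76) (nat_lit 21021927612) (nat_lit 76) (nat_lit 13546482669) (nat_lit 6) (nat_lit 4) (nat_lit 7) (nat_lit 5) (nat_lit 7) (nat_lit 4) (nat_lit 333) (nat_lit 234) (nat_lit 213))) (XT.nd (nat_lit 78) (nat_lit 0) (nat_lit 0) (XT.lf (nat_lit 0) (nat_lit 21472667357) (nat_lit 76) (nat_lit 17229274022) (nat_lit 76) (nat_lit 9554511597) (nat_lit 6) (nat_lit 4) (nat_lit 7) (nat_lit 5) (nat_lit 7) (nat_lit 4) (nat_lit 334) (nat_lit 234) (nat_lit 212)) (XT.lf (nat_lit 0) (nat_lit 31720844992) (nat_lit 76) (nat_lit 13330586373) (nat_lit 76) (nat_lit 5465997773) (nat_lit 6) (nat_lit 4) (nat_lit 7) (nat_lit 5) (nat_lit 7) (nat_lit 4) (nat_lit 335) (nat_lit 234) (nat_lit 211)))))) (XT.nd (nat_lit 546) (nat_lit 76) (nat_lit 0) (XT.nd (nat_lit 234) (nat_lit 0) (nat_lit 0) (XT.nd (nat_lit 78) (nat_lit 152) (nat_lit 0) (XT.lf (nat_lit 0)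 (nat_lit 42306559671) (nat_lit 76) (nat_lit 9316582074) (nat_lit 76) (nat_lit 1271206640) (nat_lit 6) (nat_lit 4) (nat_lit 7) (nat_lit 5) (nat_lit 7) (nat_lit 4) (nat_lit 336) (nat_lit 234) (nat_lit 210)) (XT.nd (nat_lit 78) (nat_lit 76) (nat_lit 0) (XT.lf (nat_lit 0) (nat_lit 2980530986) (nat_lit 152) (nat_lit 2167075465) (nat_lit 76) (nat_lit 50244386970) (nat_lit 5) (nat_lit 5) (nat_lit 7) (nat_lit 5) (nat_lit 6) (nat_lit 4) (nat_lit 337) (nat_lit 234) (nat_lit 209)) (XT.lf (nat_lit 0) (nat_lit 6630851281) (nat_lit 76) (nat_lit 764411594) (nat_lit 152) (nat_lit 50619611591) (nat_lit 4) (nat_lit 5) (nat_lit 5) (nat_lit 5) (nat_lit 6) (nat_lit 4) (nat_lit 338) (nat_lit 234) (nat_lit 208)))) (XT.nd (nat_lit 156) (nat_lit 0) (nat_lit 0) (XT.nd (nat_lit 78) (nat_lit 0) (nat_lit 0) (XT.lf (nat_lit 0) (nat_lit 12004841669) (nat_lit 152) (nat_lit 45049055520) (nat_lit 0) (nat_lit 3715809805)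 (nat_lit 4) (nat_lit 5) (nat_lit 6) (nat_lit 4) (nat_lit 4) (nat_lit 4) (nat_lit 339) (nat_lit 234) (nat_lit 207)) (XT.lf (nat_lit 0) (nat_lit 16771365891) (nat_lit 152) (nat_lit 38555218237) (nat_lit 0) (nat_lit 8337932304) (nat_lit 4) (nat_lit 5) (nat_lit 6) (nat_lit 4) (nat_lit 4) (nat_lit 4) (nat_lit 340) (nat_lit 234) (nat_lit 206))) (XT.nd (nat_lit 78) (nat_lit 0) (nat_lit 0) (XT.lf (nat_lit 0) (nat_lit 21698836416) (nat_lit 152) (nat_lit 31879701825) (nat_lit 0) (nat_lit 13127877379) (nat_lit 4) (nat_lit 5) (nat_lit 6) (nat_lit 4) (nat_lit 4) (nat_lit 4) (nat_lit 341) (nat_lit 234) (nat_lit 205)) (XT.lf (nat_lit 0) (nat_lit 26798985318) (nat_lit 152) (nat_lit 25006612200) (nat_lit 0) (nat_lit 18097049660) (nat_lit 4) (nat_lit 5) (nat_lit 6) (nat_lit 4) (nat_lit 4) (nat_lit 4) (nat_lit 342) (nat_lit 234) (nat_lit 204))))) (XT.nd (nat_lit 234) (nat_lit 76) (nat_lit 0) (XT.nd (nat_lit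 78) (nat_lit 0) (nat_lit 0) (XT.lf (nat_lit 0) (nat_lit 32083955807) (nat_lit 152) (nat_lit 17919584861) (nat_lit 0) (nat_lit 23257280512) (nat_lit 4) (nat_lit 5) (nat_lit 6) (nat_lit 4) (nat_lit 4) (nat_lit 4) (nat_lit 343) (nat_lit 234) (nat_lit 203)) (XT.nd (nat_lit 78) (nat_lit 0) (nat_lit 0) (XT.lf (nat_lit 0) (nat_lit 37566331147) (nat_lit 152) (nat_lit 10601745934) (nat_lit 0) (nat_lit 28620856198) (nat_lit 4) (nat_lit 5) (nat_lit 6) (nat_lit 4) (nat_lit 4) (nat_lit 4) (nat_lit 344) (nat_lit 234) (nat_lit 202)) (XT.lf (nat_lit 0) (nat_lit 43259164613) (nat_lit 152) (nat_lit 3035671993) (nat_lit 0) (nat_lit 34200547135) (nat_lit 4) (nat_lit 5) (nat_lit 6) (nat_lit 4) (nat_lit 4) (nat_lit 4) (nat_lit 345) (nat_lit 234) (nat_lit 201)))) (XT.nd (nat_lit 156) (nat_lit 0) (nat_lit 0) (XT.nd (nat_lit 78) (nat_lit 0) (nat_lit 0) (XT.lf (nat_lit 0) (nat_lit 4892114191) (nat_lit 76) (nat_lit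 44330922373) (nat_lit 76) (nat_lit 35164550105) (nat_lit 3) (nat_lit 4) (nat_lit 4) (nat_lit 5) (nat_lit 4) (nat_lit 4) (nat_lit 346) (nat_lit 234) (nat_lit 200)) (XT.lf (nat_lit 0) (nat_lit 13170884092) (nat_lit 76) (nat_lit 42286679249) (nat_lit 76) (nat_lit 33017683372) (nat_lit 3) (nat_lit 4) (nat_lit 4) (nat_lit 5) (nat_lit 4) (nat_lit 4) (nat_lit 347) (nat_lit 234) (nat_lit 199))) (XT.nd (nat_lit 78) (nat_lit 0) (nat_lit 0) (XT.lf (nat_lit 0) (nat_lit 21759933242) (nat_lit 76) (nat_lit 40187894324) (nat_lit 76) (nat_lit 30821161677) (nat_lit 3) (nat_lit 4) (nat_lit 4) (nat_lit 5) (nat_lit 4) (nat_lit 4) (nat_lit 348) (nat_lit 234) (nat_lit 198)) (XT.lf (nat_lit 0) (nat_lit 30679711756) (nat_lit 76) (nat_lit 38029570491) (nat_lit 76) (nat_lit 28569755206) (nat_lit 3) (nat_lit 4) (nat_lit 4) (nat_lit 5) (nat_lit 4) (nat_lit 4) (nat_lit 349) (nat_lit 234) (nat_lit 197))))))))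
noncomputable def xc13 : XT := (XT.nd (nat_lit 38454) (nat_lit 0) (nat_lit 152) (XT.nd (nat_lit 1014) (nat_lit 0) (nat_lit 0) (XT.nd (nat_lit 468) (nat_lit 152) (nat_lit 0) (XT.nd (nat_lit 234) (nat_lit 0) (nat_lit 0) (XT.nd (nat_lit 78) (nat_lit 0) (nat_lit 0) (XT.lf (nat_lit 0) (nat_lit 39951457203) (nat_lit 76) (nat_lit 35806568884) (nat_lit 76) (nat_lit 26258103468) (nat_lit 3) (nat_lit 4) (nat_lit 4) (nat_lit 5) (nat_lit 4) (nat_lit 4) (nat_lit 350) (nat_lit 234) (nat_lit 196)) (XT.nd (nat_lit 78) (nat_lit 0) (nat_lit 0) (XT.lf (nat_lit 0) (nat_lit 49597245167) (nat_lit 76) (nat_lit 33513596642) (nat_lit 76) (nat_lit 23880702529) (nat_lit 3) (nat_lit 4) (nat_lit 4) (nat_lit 5) (nat_lit 4) (nat_lit 4) (nat_lit 351) (nat_lit 234) (nat_lit 195)) (XT.lf (nat_lit 0) (nat_lit 59640041810) (nat_lit 76) (nat_lit 31145194308) (nat_lit 76) (nat_lit 21431891912) (nat_lit 3) (nat_lit 4) (nat_lit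 4) (nat_lit 5) (nat_lit 4) (nat_lit 4) (nat_lit 352) (nat_lit 234) (nat_lit 194)))) (XT.nd (nat_lit 78) (nat_lit 0) (nat_lit 0) (XT.lf (nat_lit 0) (nat_lit 70103758553) (nat_lit 76) (nat_lit 28695722827) (nat_lit 76) (nat_lit 18905841115) (nat_lit 3) (nat_lit 4) (nat_lit 4) (nat_lit 5) (nat_lit 4) (nat_lit 4) (nat_lit 353) (nat_lit 234) (nat_lit 193)) (XT.nd (nat_lit 78) (nat_lit 0) (nat_lit 0) (XT.lf (nat_lit 0) (nat_lit 81013309007) (nat_lit 76) (nat_lit 26159350126) (nat_lit 76) (nat_lit 16296535731) (nat_lit 3) (nat_lit 4) (nat_lit 4) (nat_lit 5) (nat_lit 4) (nat_lit 4) (nat_lit 354) (nat_lit 234) (nat_lit 192)) (XT.lf (nat_lit 0) (nat_lit 92394668292) (nat_lit 76) (nat_lit 23530037221) (nat_lit 76) (nat_lit 13597763128) (nat_lit 3) (nat_lit 4) (nat_lit 4) (nat_lit 5) (nat_lit 4) (nat_lit 4) (nat_lit 355) (nat_lit 234) (nat_lit 191))))) (XT.nd (nat_lit 234) (nat_lit 152) (nat_lit 0)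 (XT.nd (nat_lit 78) (nat_lit 0) (nat_lit 0) (XT.lf (nat_lit 0) (nat_lit 104274934883) (nat_lit 76) (nat_lit 20801523844) (nat_lit 76) (nat_lit 10803097658) (nat_lit 3) (nat_lit 4) (nat_lit 4) (nat_lit 5) (nat_lit 4) (nat_lit 4) (nat_lit 356) (nat_lit 234) (nat_lit 190)) (XT.nd (nat_lit 78) (nat_lit 0) (nat_lit 0) (XT.lf (nat_lit 0) (nat_lit 116682395128) (nat_lit 76) (nat_lit 17967313534) (nat_lit 76) (nat_lit 7905885355) (nat_lit 3) (nat_lit 4) (nat_lit 4) (nat_lit 5) (nat_lit 4) (nat_lit 4) (nat_lit 357) (nat_lit 234) (nat_lit 189)) (XT.lf (nat_lit 0) (nat_lit 129646590599) (nat_lit 76) (nat_lit 15020658172) (nat_lit 76) (nat_lit 4899228094) (nat_lit 3) (nat_lit 4) (nat_lit 4) (nat_lit 5) (nat_lit 4) (nat_lit 4) (nat_lit 358) (nat_lit 234) (nat_lit 188)))) (XT.nd (nat_lit 156) (nat_lit 76) (nat_lit 0) (XT.nd (nat_lit 78) (nat_lit 76) (nat_lit 0) (XT.lf (nat_lit 0) (nat_lit 143198388430)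 (nat_lit 76) (nat_lit 11954541911) (nat_lit 76) (nat_lit 1775967168) (nat_lit 3) (nat_lit 4) (nat_lit 4) (nat_lit 5) (nat_lit 4) (nat_lit 4) (nat_lit 359) (nat_lit 234) (nat_lit 187)) (XT.lf (nat_lit 0) (nat_lit 1442622737) (nat_lit 152) (nat_lit 7304474076) (nat_lit 76) (nat_lit 155912864405) (nat_lit 2) (nat_lit 5) (nat_lit 4) (nat_lit 5) (nat_lit 3) (nat_lit 4) (nat_lit 360) (nat_lit 234) (nat_lit 186))) (XT.nd (nat_lit 78) (nat_lit 76) (nat_lit 0) (XT.lf (nat_lit 0) (nat_lit 4755757457) (nat_lit 152) (nat_lit 630642492) (nat_lit 76) (nat_lit 167391550503) (nat_lit 2) (nat_lit 5) (nat_lit 4) (nat_lit 5) (nat_lit 3) (nat_lit 4) (nat_lit 361) (nat_lit 234) (nat_lit 185)) (XT.lf (nat_lit 0) (nat_lit 6449806385) (nat_lit 76) (nat_lit 1818174021) (nat_lit 152) (nat_lit 173032865510) (nat_lit 1) (nat_lit 5) (nat_lit 2) (nat_lit 5) (nat_lit 3) (nat_lit 4) (nat_lit 362) (nat_lit 234) (nat_lit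 184)))))) (XT.nd (nat_lit 36894) (nat_lit 0) (nat_lit 836) (XT.nd (nat_lit 36660) (nat_lit 0) (nat_lit 1216) (XT.nd (nat_lit 36504) (nat_lit 0) (nat_lit 1520) (XT.lf (nat_lit 0) (nat_lit 11952978452) (nat_lit 152) (nat_lit 176422865237) (nat_lit 0) (nat_lit 1874136803) (nat_lit 1) (nat_lit 5) (nat_lit 3) (nat_lit 4) (nat_lit 1) (nat_lit 4) (nat_lit 363) (nat_lit 234) (nat_lit 183)) (XT.nd (nat_lit 78) (nat_lit 152) (nat_lit 0) (XT.lf (nat_lit 0) (nat_lit 6299228458) (nat_lit 152) (nat_lit 1264040789) (nat_lit 152) (nat_lit 1264040789) (nat_lit 23) (nat_lit 4) (nat_lit 25) (nat_lit 5) (nat_lit 25) (nat_lit 4) (nat_lit 310) (nat_lit 235) (nat_lit 235)) (XT.lf (nat_lit 0) (nat_lit 4022068877) (nat_lit 152) (nat_lit 10926775042) (nat_lit 0) (nat_lit 3365834658) (nat_lit 21) (nat_lit 5) (nat_lit 23) (nat_lit 4) (nat_lit 21) (nat_lit 4) (nat_lit 311) (nat_lit 235) (nat_lit 234)))) (XT.nd (nat_lit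 78) (nat_lit 152) (nat_lit 0) (XT.lf (nat_lit 0) (nat_lit 1115278798) (nat_lit 152) (nat_lit 9588680344) (nat_lit 152) (nat_lit 8307461153) (nat_lit 19) (nat_lit 4) (nat_lit 21) (nat_lit 5) (nat_lit 21) (nat_lit 4) (nat_lit 312) (nat_lit 235) (nat_lit 233)) (XT.nd (nat_lit 78) (nat_lit 152) (nat_lit 0) (XT.lf (nat_lit 0) (nat_lit 13590895081) (nat_lit 152) (nat_lit 4016029131) (nat_lit 152) (nat_lit 2139586159) (nat_lit 19) (nat_lit 4) (nat_lit 21) (nat_lit 5) (nat_lit 21) (nat_lit 4) (nat_lit 313) (nat_lit 235) (nat_lit 232)) (XT.lf (nat_lit 0) (nat_lit 4108429825) (nat_lit 152) (nat_lit 14676823160) (nat_lit 0) (nat_lit 1736271801) (nat_lit 17) (nat_lit 5) (nat_lit 19) (nat_lit 4) (nat_lit 17) (nat_lit 4) (nat_lit 314) (nat_lit 235) (nat_lit 231))))) (XT.nd (nat_lit 234) (nat_lit 152) (nat_lit 0) (XT.nd (nat_lit 78) (nat_lit 228) (nat_lit 0) (XT.lf (nat_lit 0) (nat_lit 10517747903) (nat_lit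 152) (nat_lit 3198789049) (nat_lit 0) (nat_lit 7621429183) (nat_lit 17) (nat_lit 5) (nat_lit 19) (nat_lit 4) (nat_lit 17) (nat_lit 4) (nat_lit 315) (nat_lit 235) (nat_lit 230)) (XT.nd (nat_lit 78) (nat_lit 76) (nat_lit 0) (XT.lf (nat_lit 0) (nat_lit 8663817370) (nat_lit 152) (nat_lit 8465292715) (nat_lit 152) (nat_lit 5069773332) (nat_lit 15) (nat_lit 4) (nat_lit 17) (nat_lit 5) (nat_lit 17) (nat_lit 4) (nat_lit 316) (nat_lit 235) (nat_lit 229)) (XT.lf (nat_lit 0) (nat_lit 785080889) (nat_lit 228) (nat_lit 2277234379) (nat_lit 76) (nat_lit 20045272273) (nat_lit 14) (nat_lit 5) (nat_lit 17) (nat_lit 5) (nat_lit 15) (nat_lit 4) (nat_lit 317) (nat_lit 235) (nat_lit 228)))) (XT.nd (nat_lit 156) (nat_lit 76) (nat_lit 0) (XT.nd (nat_lit 78) (nat_lit 0) (nat_lit 0) (XT.lf (nat_lit 0) (nat_lit 6755580865) (nat_lit 152) (nat_lit 14749119961) (nat_lit 0) (nat_lit 2557776689) (nat_lit 13) (nat_lit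 5) (nat_lit 15) (nat_lit 4) (nat_lit 13) (nat_lit 4) (nat_lit 318) (nat_lit 235) (nat_lit 227)) (XT.lf (nat_lit 0) (nat_lit 12895562421) (nat_lit 152) (nat_lit 3894415761) (nat_lit 0) (nat_lit 8279089991) (nat_lit 13) (nat_lit 5) (nat_lit 15) (nat_lit 4) (nat_lit 13) (nat_lit 4) (nat_lit 319) (nat_lit 235) (nat_lit 226))) (XT.nd (nat_lit 78) (nat_lit 0) (nat_lit 0) (XT.lf (nat_lit 0) (nat_lit 7331873156) (nat_lit 76) (nat_lit 11906266131) (nat_lit 76) (nat_lit 6891062031) (nat_lit 12) (nat_lit 4) (nat_lit 13) (nat_lit 5) (nat_lit 13) (nat_lit 4) (nat_lit 320) (nat_lit 235) (nat_lit 225)) (XT.lf (nat_lit 0) (nat_lit 18895643713) (nat_lit 76) (nat_lit 6872802457) (nat_lit 76) (nat_lit 1477853908) (nat_lit 12) (nat_lit 4) (nat_lit 13) (nat_lit 5) (nat_lit 13) (nat_lit 4) (nat_lit 321) (nat_lit 235) (nat_lit 224))))))) (XT.nd (nat_lit 1014) (nat_lit 228) (nat_lit 0) (XT.nd (nat_lit 468) (nat_lit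 228) (nat_lit 0) (XT.nd (nat_lit 234) (nat_lit 76) (nat_lit 0) (XT.nd (nat_lit 78) (nat_lit 0) (nat_lit 0) (XT.lf (nat_lit 0) (nat_lit 2329375169) (nat_lit 76) (nat_lit 1653868720) (nat_lit 152) (nat_lit 24439089041) (nat_lit 10) (nat_lit 5) (nat_lit 11) (nat_lit 5) (nat_lit 12) (nat_lit 4) (nat_lit 322) (nat_lit 235) (nat_lit 223)) (XT.nd (nat_lit 78) (nat_lit 0) (nat_lit 0) (XT.lf (nat_lit 0) (nat_lit 9651415878) (nat_lit 152) (nat_lit 16278375866) (nat_lit 0) (nat_lit 3728067007) (nat_lit 10) (nat_lit 5) (nat_lit 12) (nat_lit 4) (nat_lit 10) (nat_lit 4) (nat_lit 323) (nat_lit 235) (nat_lit 222)) (XT.lf (nat_lit 0) (nat_lit 15467982453) (nat_lit 152) (nat_lit 6265142858) (nat_lit 0) (nat_lit 9226150543) (nat_lit 10) (nat_lit 5) (nat_lit 12) (nat_lit 4) (nat_lit 10) (nat_lit 4) (nat_lit 324) (nat_lit 235) (nat_lit 221)))) (XT.nd (nat_lit 78) (nat_lit 0) (nat_lit 0) (XT.lf (nat_lit 0) (nat_lit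 4065819063) (nat_lit 76) (nat_lit 17404158664) (nat_lit 76) (nat_lit 10859009571) (nat_lit 9) (nat_lit 4) (nat_lit 10) (nat_lit 5) (nat_lit 10) (nat_lit 4) (nat_lit 325) (nat_lit 235) (nat_lit 220)) (XT.nd (nat_lit 78) (nat_lit 0) (nat_lit 0) (XT.lf (nat_lit 0) (nat_lit 14789498590) (nat_lit 76) (nat_lit 12907016807) (nat_lit 76) (nat_lit 6072994208) (nat_lit 9) (nat_lit 4) (nat_lit 10) (nat_lit 5) (nat_lit 10) (nat_lit 4) (nat_lit 326) (nat_lit 235) (nat_lit 219)) (XT.lf (nat_lit 0) (nat_lit 25806739664) (nat_lit 76) (nat_lit 8294257918) (nat_lit 76) (nat_lit 1185117694) (nat_lit 9) (nat_lit 4) (nat_lit 10) (nat_lit 5) (nat_lit 10) (nat_lit 4) (nat_lit 327) (nat_lit 235) (nat_lit 218))))) (XT.nd (nat_lit 234) (nat_lit 76) (nat_lit 0) (XT.nd (nat_lit 78) (nat_lit 0) (nat_lit 0) (XT.lf (nat_lit 0) (nat_lit 229145788) (nat_lit 76) (nat_lit 3514845737) (nat_lit 152) (nat_lit 33137257146) (nat_lit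 7) (nat_lit 5) (nat_lit 8) (nat_lit 5) (nat_lit 9) (nat_lit 4) (nat_lit 328) (nat_lit 235) (nat_lit 217)) (XT.nd (nat_lit 78) (nat_lit 0) (nat_lit 0) (XT.lf (nat_lit 0) (nat_lit 8882877935) (nat_lit 152) (nat_lit 28189179782) (nat_lit 0) (nat_lit 1484143172) (nat_lit 7) (nat_lit 5) (nat_lit 9) (nat_lit 4) (nat_lit 7) (nat_lit 4) (nat_lit 329) (nat_lit 235) (nat_lit 216)) (XT.lf (nat_lit 0) (nat_lit 14194759192) (nat_lit 152) (nat_lit 19557417262) (nat_lit 0) (nat_lit 6565289528) (nat_lit 7) (nat_lit 5) (nat_lit 9) (nat_lit 4) (nat_lit 7) (nat_lit 4) (nat_lit 330) (nat_lit 235) (nat_lit 215)))) (XT.nd (nat_lit 156) (nat_lit 76) (nat_lit 0) (XT.nd (nat_lit 78) (nat_lit 0) (nat_lit 0) (XT.lf (nat_lit 0) (nat_lit 19658495787) (nat_lit 152) (nat_lit 10702476659) (nat_lit 0) (nat_lit 11809278598) (nat_lit 7) (nat_lit 5) (nat_lit 9) (nat_lit 4) (nat_lit 7) (nat_lit 4) (nat_lit 331) (nat_lit 235)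 (nat_lit 214)) (XT.lf (nat_lit 0) (nat_lit 25287096617) (nat_lit 152) (nat_lit 1603274782) (nat_lit 0) (nat_lit 17228596070) (nat_lit 7) (nat_lit 5) (nat_lit 9) (nat_lit 4) (nat_lit 7) (nat_lit 4) (nat_lit 332) (nat_lit 235) (nat_lit 213))) (XT.nd (nat_lit 78) (nat_lit 0) (nat_lit 0) (XT.lf (nat_lit 0) (nat_lit 7916329231) (nat_lit 76) (nat_lit 23253730480) (nat_lit 76) (nat_lit 14995912450) (nat_lit 6) (nat_lit 4) (nat_lit 7) (nat_lit 5) (nat_lit 7) (nat_lit 4) (nat_lit 333) (nat_lit 235) (nat_lit 212)) (XT.lf (nat_lit 0) (nat_lit 17761801743) (nat_lit 76) (nat_lit 19501856705) (nat_lit 76) (nat_lit 11054212500) (nat_lit 6) (nat_lit 4) (nat_lit 7) (nat_lit 5) (nat_lit 7) (nat_lit 4) (nat_lit 334) (nat_lit 235) (nat_lit 211)))))) (XT.nd (nat_lit 546) (nat_lit 76) (nat_lit 0) (XT.nd (nat_lit 234) (nat_lit 76) (nat_lit 0) (XT.nd (nat_lit 78) (nat_lit 76) (nat_lit 0) (XT.lf (nat_lit 0) (nat_lit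 27924676042) (nat_lit 76) (nat_lit 15642006974) (nat_lit 76) (nat_lit 7013575936) (nat_lit 6) (nat_lit 4) (nat_lit 7) (nat_lit 5) (nat_lit 7) (nat_lit 4) (nat_lit 335) (nat_lit 235) (nat_lit 210)) (XT.nd (nat_lit 78) (nat_lit 76) (nat_lit 0) (XT.lf (nat_lit 0) (nat_lit 38429149449) (nat_lit 76) (nat_lit 11664991169) (nat_lit 76) (nat_lit 2864382195) (nat_lit 6) (nat_lit 4) (nat_lit 7) (nat_lit 5) (nat_lit 7) (nat_lit 4) (nat_lit 336) (nat_lit 235) (nat_lit 209)) (XT.lf (nat_lit 0) (nat_lit 1375865339) (nat_lit 152) (nat_lit 6171581321) (nat_lit 76) (nat_lit 47910473732) (nat_lit 5) (nat_lit 5) (nat_lit 7) (nat_lit 5) (nat_lit 6) (nat_lit 4) (nat_lit 337) (nat_lit 235) (nat_lit 208)))) (XT.nd (nat_lit 156) (nat_lit 0) (nat_lit 0) (XT.nd (nat_lit 78) (nat_lit 0) (nat_lit 0) (XT.lf (nat_lit 0) (nat_lit 2470654735) (nat_lit 76) (nat_lit 3239401008) (nat_lit 152) (nat_lit 52373176934) (nat_lit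 4) (nat_lit 5) (nat_lit 5) (nat_lit 5) (nat_lit 6) (nat_lit 4) (nat_lit 338) (nat_lit 235) (nat_lit 207)) (XT.lf (nat_lit 0) (nat_lit 10256209813) (nat_lit 152) (nat_lit 49327069591) (nat_lit 0) (nat_lit 1256702824) (nat_lit 4) (nat_lit 5) (nat_lit 6) (nat_lit 4) (nat_lit 4) (nat_lit 4) (nat_lit 339) (nat_lit 235) (nat_lit 206))) (XT.nd (nat_lit 78) (nat_lit 0) (nat_lit 0) (XT.lf (nat_lit 0) (nat_lit 14984987739) (nat_lit 152) (nat_lit 42902994618) (nat_lit 0) (nat_lit 5847955299) (nat_lit 4) (nat_lit 5) (nat_lit 6) (nat_lit 4) (nat_lit 4) (nat_lit 4) (nat_lit 340) (nat_lit 235) (nat_lit 205)) (XT.lf (nat_lit 0) (nat_lit 19876509410) (nat_lit 152) (nat_lit 36293918502) (nat_lit 0) (nat_lit 10608500351) (nat_lit 4) (nat_lit 5) (nat_lit 6) (nat_lit 4) (nat_lit 4) (nat_lit 4) (nat_lit 341) (nat_lit 235) (nat_lit 204))))) (XT.nd (nat_lit 234) (nat_lit 76) (nat_lit 0) (XT.nd (nat_lit 78) (nat_lit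 0) (nat_lit 0) (XT.lf (nat_lit 0) (nat_lit 24942421308) (nat_lit 152) (nat_lit 29484105349) (nat_lit 0) (nat_lit 15549672611) (nat_lit 4) (nat_lit 5) (nat_lit 6) (nat_lit 4) (nat_lit 4) (nat_lit 4) (nat_lit 342) (nat_lit 235) (nat_lit 203)) (XT.nd (nat_lit 78) (nat_lit 0) (nat_lit 0) (XT.lf (nat_lit 0) (nat_lit 30194785128) (nat_lit 152) (nat_lit 22457341317) (nat_lit 0) (nat_lit 20683236775) (nat_lit 4) (nat_lit 5) (nat_lit 6) (nat_lit 4) (nat_lit 4) (nat_lit 4) (nat_lit 343) (nat_lit 235) (nat_lit 202)) (XT.lf (nat_lit 0) (nat_lit 35646106497) (nat_lit 152) (nat_lit 15196896015) (nat_lit 0) (nat_lit 26021415616) (nat_lit 4) (nat_lit 5) (nat_lit 6) (nat_lit 4) (nat_lit 4) (nat_lit 4) (nat_lit 344) (nat_lit 235) (nat_lit 201)))) (XT.nd (nat_lit 156) (nat_lit 0) (nat_lit 0) (XT.nd (nat_lit 78) (nat_lit 76) (nat_lit 0) (XT.lf (nat_lit 0) (nat_lit 41309364752) (nat_lit 152) (nat_lit 7685482670)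 (nat_lit 0) (nat_lit 31576919082) (nat_lit 4) (nat_lit 5) (nat_lit 6) (nat_lit 4) (nat_lit 4) (nat_lit 4) (nat_lit 345) (nat_lit 235) (nat_lit 200)) (XT.lf (nat_lit 0) (nat_lit 96669404) (nat_lit 76) (nat_lit 47102303682) (nat_lit 76) (nat_lit 37267234404) (nat_lit 3) (nat_lit 4) (nat_lit 4) (nat_lit 5) (nat_lit 4) (nat_lit 4) (nat_lit 346) (nat_lit 235) (nat_lit 199))) (XT.nd (nat_lit 78) (nat_lit 0) (nat_lit 0) (XT.lf (nat_lit 0) (nat_lit 8324873819) (nat_lit 76) (nat_lit 45081314390) (nat_lit 76) (nat_lit 35148508341) (nat_lit 3) (nat_lit 4) (nat_lit 4) (nat_lit 5) (nat_lit 4) (nat_lit 4) (nat_lit 347) (nat_lit 235) (nat_lit 198)) (XT.lf (nat_lit 0) (nat_lit 16865765362) (nat_lit 76) (nat_lit 43004675971) (nat_lit 76) (nat_lit 32978787284) (nat_lit 3) (nat_lit 4) (nat_lit 4) (nat_lit 5) (nat_lit 4) (nat_lit 4) (nat_lit 348) (nat_lit 235) (nat_lit 197))))))))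
noncomputable def xc14 : XT := (XT.nd (nat_lit 38298) (nat_lit 0) (nat_lit 228) (XT.nd (nat_lit 1014) (nat_lit 76) (nat_lit 0) (XT.nd (nat_lit 468) (nat_lit 76) (nat_lit 0) (XT.nd (nat_lit 234) (nat_lit 0) (nat_lit 0) (XT.nd (nat_lit 78) (nat_lit 0) (nat_lit 0) (XT.lf (nat_lit 0) (nat_lit 25739679489) (nat_lit 76) (nat_lit 40867444050) (nat_lit 76) (nat_lit 30752905231) (nat_lit 3) (nat_lit 4) (nat_lit 4) (nat_lit 5) (nat_lit 4) (nat_lit 4) (nat_lit 349) (nat_lit 235) (nat_lit 196)) (XT.nd (nat_lit 78) (nat_lit 0) (nat_lit 0) (XT.lf (nat_lit 0) (nat_lit 34967744568) (nat_lit 76) (nat_lit 38664529977) (nat_lit 76) (nat_lit 28465562462) (nat_lit 3) (nat_lit 4) (nat_lit 4) (nat_lit 5) (nat_lit 4) (nat_lit 4) (nat_lit 350) (nat_lit 235) (nat_lit 195)) (XT.lf (nat_lit 0) (nat_lit 44571932181) (nat_lit 76) (nat_lit 36390688721) (nat_lit 76) (nat_lit 26111312922) (nat_lit 3) (nat_lit 4) (nat_lit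 4) (nat_lit 5) (nat_lit 4) (nat_lit 4) (nat_lit 351) (nat_lit 235) (nat_lit 194)))) (XT.nd (nat_lit 78) (nat_lit 0) (nat_lit 0) (XT.lf (nat_lit 0) (nat_lit 54575109443) (nat_lit 76) (nat_lit 34040506372) (nat_lit 76) (nat_lit 23684551257) (nat_lit 3) (nat_lit 4) (nat_lit 4) (nat_lit 5) (nat_lit 4) (nat_lit 4) (nat_lit 352) (nat_lit 235) (nat_lit 193)) (XT.nd (nat_lit 78) (nat_lit 0) (nat_lit 0) (XT.lf (nat_lit 0) (nat_lit 65001093441) (nat_lit 76) (nat_lit 31608387259) (nat_lit 76) (nat_lit 21179499461) (nat_lit 3) (nat_lit 4) (nat_lit 4) (nat_lit 5) (nat_lit 4) (nat_lit 4) (nat_lit 353) (nat_lit 235) (nat_lit 192)) (XT.lf (nat_lit 0) (nat_lit 75874707948) (nat_lit 76) (nat_lit 29088540622) (nat_lit 76) (nat_lit 18590193126) (nat_lit 3) (nat_lit 4) (nat_lit 4) (nat_lit 5) (nat_lit 4) (nat_lit 4) (nat_lit 354) (nat_lit 235) (nat_lit 191))))) (XT.nd (nat_lit 234) (nat_lit 76) (nat_lit 0) (XT.nd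 (nat_lit 78) (nat_lit 0) (nat_lit 0) (XT.lf (nat_lit 0) (nat_lit 87221842521) (nat_lit 76) (nat_lit 26474966826) (nat_lit 76) (nat_lit 15910467237) (nat_lit 3) (nat_lit 4) (nat_lit 4) (nat_lit 5) (nat_lit 4) (nat_lit 4) (nat_lit 355) (nat_lit 235) (nat_lit 190)) (XT.nd (nat_lit 78) (nat_lit 0) (nat_lit 0) (XT.lf (nat_lit 0) (nat_lit 99069514149) (nat_lit 76) (nat_lit 23761443076) (nat_lit 76) (nat_lit 13133941494) (nat_lit 3) (nat_lit 4) (nat_lit 4) (nat_lit 5) (nat_lit 4) (nat_lit 4) (nat_lit 356) (nat_lit 235) (nat_lit 189)) (XT.lf (nat_lit 0) (nat_lit 111445931571) (nat_lit 76) (nat_lit 20941508602) (nat_lit 76) (nat_lit 10254005121) (nat_lit 3) (nat_lit 4) (nat_lit 4) (nat_lit 5) (nat_lit 4) (nat_lit 4) (nat_lit 357) (nat_lit 235) (nat_lit 188)))) (XT.nd (nat_lit 156) (nat_lit 76) (nat_lit 0) (XT.nd (nat_lit 78) (nat_lit 0) (nat_lit 0) (XT.lf (nat_lit 0) (nat_lit 124380562450) (nat_lit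 76) (nat_lit 18008449273) (nat_lit 76) (nat_lit 7263801127) (nat_lit 3) (nat_lit 4) (nat_lit 4) (nat_lit 5) (nat_lit 4) (nat_lit 4) (nat_lit 358) (nat_lit 235) (nat_lit 187)) (XT.lf (nat_lit 0) (nat_lit 137904203526) (nat_lit 76) (nat_lit 14955281616) (nat_lit 76) (nat_lit 4156209980) (nat_lit 3) (nat_lit 4) (nat_lit 4) (nat_lit 5) (nat_lit 4) (nat_lit 4) (nat_lit 359) (nat_lit 235) (nat_lit 186))) (XT.nd (nat_lit 78) (nat_lit 76) (nat_lit 0) (XT.lf (nat_lit 0) (nat_lit 152049053943) (nat_lit 76) (nat_lit 11774736184) (nat_lit 76) (nat_lit 923832651) (nat_lit 3) (nat_lit 4) (nat_lit 4) (nat_lit 5) (nat_lit 4) (nat_lit 4) (nat_lit 360) (nat_lit 235) (nat_lit 185)) (XT.lf (nat_lit 0) (nat_lit 2393393765) (nat_lit 152) (nat_lit 6041677898) (nat_lit 76) (nat_lit 164431229567) (nat_lit 2) (nat_lit 5) (nat_lit 4) (nat_lit 5) (nat_lit 3) (nat_lit 4) (nat_lit 361) (nat_lit 235) (nat_lit 184))))))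 (XT.nd (nat_lit 36738) (nat_lit 0) (nat_lit 912) (XT.nd (nat_lit 36504) (nat_lit 0) (nat_lit 1520) (XT.nd (nat_lit 78) (nat_lit 0) (nat_lit 0) (XT.lf (nat_lit 0) (nat_lit 905999829) (nat_lit 76) (nat_lit 4933054422) (nat_lit 152) (nat_lit 175552143834) (nat_lit 1) (nat_lit 5) (nat_lit 2) (nat_lit 5) (nat_lit 3) (nat_lit 4) (nat_lit 362) (nat_lit 235) (nat_lit 183)) (XT.nd (nat_lit 36348) (nat_lit 0) (nat_lit 1824) (XT.lf (nat_lit 0) (nat_lit 8278347199) (nat_lit 76) (nat_lit 1214461588) (nat_lit 152) (nat_lit 180848465476) (nat_lit 1) (nat_lit 5) (nat_lit 2) (nat_lit 5) (nat_lit 3) (nat_lit 4) (nat_lit 363) (nat_lit 235) (nat_lit 182)) (XT.lf (nat_lit 0) (nat_lit 1018747558) (nat_lit 152) (nat_lit 6178830862) (nat_lit 0) (nat_lit 1018747558) (nat_lit 25) (nat_lit 5) (nat_lit 27) (nat_lit 4) (nat_lit 25) (nat_lit 4) (nat_lit 308) (nat_lit 236) (nat_lit 236)))) (XT.nd (nat_lit 78) (nat_lit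 304) (nat_lit 0) (XT.lf (nat_lit 0) (nat_lit 8767535072) (nat_lit 152) (nat_lit 203378774) (nat_lit 0) (nat_lit 8057817764) (nat_lit 25) (nat_lit 5) (nat_lit 27) (nat_lit 4) (nat_lit 25) (nat_lit 4) (nat_lit 309) (nat_lit 236) (nat_lit 235)) (XT.nd (nat_lit 78) (nat_lit 152) (nat_lit 0) (XT.lf (nat_lit 0) (nat_lit 12398359264) (nat_lit 152) (nat_lit 3322710892) (nat_lit 152) (nat_lit 1937072338) (nat_lit 23) (nat_lit 4) (nat_lit 25) (nat_lit 5) (nat_lit 25) (nat_lit 4) (nat_lit 310) (nat_lit 236) (nat_lit 234)) (XT.lf (nat_lit 0) (nat_lit 4478344314) (nat_lit 152) (nat_lit 11335364898) (nat_lit 0) (nat_lit 2508079193) (nat_lit 21) (nat_lit 5) (nat_lit 23) (nat_lit 4) (nat_lit 21) (nat_lit 4) (nat_lit 311) (nat_lit 236) (nat_lit 233))))) (XT.nd (nat_lit 234) (nat_lit 304) (nat_lit 0) (XT.nd (nat_lit 78) (nat_lit 152) (nat_lit 0) (XT.lf (nat_lit 0) (nat_lit 504958319) (nat_lit 152) (nat_lit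 10541269884) (nat_lit 152) (nat_lit 7975780981) (nat_lit 19) (nat_lit 4) (nat_lit 21) (nat_lit 5) (nat_lit 21) (nat_lit 4) (nat_lit 312) (nat_lit 236) (nat_lit 232)) (XT.nd (nat_lit 78) (nat_lit 152) (nat_lit 0) (XT.lf (nat_lit 0) (nat_lit 12796194714) (nat_lit 152) (nat_lit 5048236090) (nat_lit 152) (nat_lit 1915867395) (nat_lit 19) (nat_lit 4) (nat_lit 21) (nat_lit 5) (nat_lit 21) (nat_lit 4) (nat_lit 313) (nat_lit 236) (nat_lit 231)) (XT.lf (nat_lit 0) (nat_lit 4206544334) (nat_lit 152) (nat_lit 15691143781) (nat_lit 0) (nat_lit 641248983) (nat_lit 17) (nat_lit 5) (nat_lit 19) (nat_lit 4) (nat_lit 17) (nat_lit 4) (nat_lit 314) (nat_lit 236) (nat_lit 230)))) (XT.nd (nat_lit 156) (nat_lit 152) (nat_lit 0) (XT.nd (nat_lit 78) (nat_lit 152) (nat_lit 0) (XT.lf (nat_lit 0) (nat_lit 10517470358) (nat_lit 152) (nat_lit 4387934879) (nat_lit 0) (nat_lit 6452974343) (nat_lit 17) (nat_lit 5) (nat_lit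 19) (nat_lit 4) (nat_lit 17) (nat_lit 4) (nat_lit 315) (nat_lit 236) (nat_lit 229)) (XT.lf (nat_lit 0) (nat_lit 7281191326) (nat_lit 152) (nat_lit 9740643847) (nat_lit 152) (nat_lit 5200718631) (nat_lit 15) (nat_lit 4) (nat_lit 17) (nat_lit 5) (nat_lit 17) (nat_lit 4) (nat_lit 316) (nat_lit 236) (nat_lit 228))) (XT.nd (nat_lit 78) (nat_lit 76) (nat_lit 0) (XT.lf (nat_lit 0) (nat_lit 564948778) (nat_lit 228) (nat_lit 3845868911) (nat_lit 76) (nat_lit 18723273738) (nat_lit 14) (nat_lit 5) (nat_lit 17) (nat_lit 5) (nat_lit 15) (nat_lit 4) (nat_lit 317) (nat_lit 236) (nat_lit 227)) (XT.lf (nat_lit 0) (nat_lit 6417381271) (nat_lit 152) (nat_lit 16523766596) (nat_lit 0) (nat_lit 1151416965) (nat_lit 13) (nat_lit 5) (nat_lit 15) (nat_lit 4) (nat_lit 13) (nat_lit 4) (nat_lit 318) (nat_lit 236) (nat_lit 226))))))) (XT.nd (nat_lit 1014) (nat_lit 228) (nat_lit 0) (XT.nd (nat_lit 468) (nat_lit 228)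 (nat_lit 0) (XT.nd (nat_lit 234) (nat_lit 152) (nat_lit 0) (XT.nd (nat_lit 78) (nat_lit 76) (nat_lit 0) (XT.lf (nat_lit 0) (nat_lit 12472054429) (nat_lit 152) (nat_lit 5822341297) (nat_lit 0) (nat_lit 6807358453) (nat_lit 13) (nat_lit 5) (nat_lit 15) (nat_lit 4) (nat_lit 13) (nat_lit 4) (nat_lit 319) (nat_lit 236) (nat_lit 225)) (XT.nd (nat_lit 78) (nat_lit 0) (nat_lit 0) (XT.lf (nat_lit 0) (nat_lit 5216692931) (nat_lit 76) (nat_lit 13496359864) (nat_lit 76) (nat_lit 7451919441) (nat_lit 12) (nat_lit 4) (nat_lit 13) (nat_lit 5) (nat_lit 13) (nat_lit 4) (nat_lit 320) (nat_lit 236) (nat_lit 224)) (XT.lf (nat_lit 0) (nat_lit 16638668067) (nat_lit 76) (nat_lit 8525951354) (nat_lit 76) (nat_lit 2119849551) (nat_lit 12) (nat_lit 4) (nat_lit 13) (nat_lit 5) (nat_lit 13) (nat_lit 4) (nat_lit 321) (nat_lit 236) (nat_lit 223)))) (XT.nd (nat_lit 78) (nat_lit 76) (nat_lit 0) (XT.lf (nat_lit 0) (nat_lit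 3255617912) (nat_lit 152) (nat_lit 141636849) (nat_lit 76) (nat_lit 25066410013) (nat_lit 11) (nat_lit 5) (nat_lit 13) (nat_lit 5) (nat_lit 12) (nat_lit 4) (nat_lit 322) (nat_lit 236) (nat_lit 222)) (XT.nd (nat_lit 78) (nat_lit 0) (nat_lit 0) (XT.lf (nat_lit 0) (nat_lit 8831625691) (nat_lit 152) (nat_lit 18911142184) (nat_lit 0) (nat_lit 1959219144) (nat_lit 10) (nat_lit 5) (nat_lit 12) (nat_lit 4) (nat_lit 10) (nat_lit 4) (nat_lit 323) (nat_lit 236) (nat_lit 221)) (XT.lf (nat_lit 0) (nat_lit 14577712867) (nat_lit 152) (nat_lit 9025846499) (nat_lit 0) (nat_lit 7401989138) (nat_lit 10) (nat_lit 5) (nat_lit 12) (nat_lit 4) (nat_lit 10) (nat_lit 4) (nat_lit 324) (nat_lit 236) (nat_lit 220))))) (XT.nd (nat_lit 234) (nat_lit 152) (nat_lit 0) (XT.nd (nat_lit 78) (nat_lit 0) (nat_lit 0) (XT.lf (nat_lit 0) (nat_lit 1125901982) (nat_lit 76) (nat_lit 19358422638) (nat_lit 76) (nat_lit 11893825403)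 (nat_lit 9) (nat_lit 4) (nat_lit 10) (nat_lit 5) (nat_lit 10) (nat_lit 4) (nat_lit 325) (nat_lit 236) (nat_lit 219)) (XT.nd (nat_lit 78) (nat_lit 0) (nat_lit 0) (XT.lf (nat_lit 0) (nat_lit 11731229105) (nat_lit 76) (nat_lit 14914568615) (nat_lit 76) (nat_lit 7174853755) (nat_lit 9) (nat_lit 4) (nat_lit 10) (nat_lit 5) (nat_lit 10) (nat_lit 4) (nat_lit 326) (nat_lit 236) (nat_lit 218)) (XT.lf (nat_lit 0) (nat_lit 22635753603) (nat_lit 76) (nat_lit 10352560045) (nat_lit 76) (nat_lit 2350828399) (nat_lit 9) (nat_lit 4) (nat_lit 10) (nat_lit 5) (nat_lit 10) (nat_lit 4) (nat_lit 327) (nat_lit 236) (nat_lit 217)))) (XT.nd (nat_lit 156) (nat_lit 0) (nat_lit 0) (XT.nd (nat_lit 78) (nat_lit 76) (nat_lit 0) (XT.lf (nat_lit 0) (nat_lit 2539201353) (nat_lit 152) (nat_lit 3096692694) (nat_lit 76) (nat_lit 31300596324) (nat_lit 8) (nat_lit 5) (nat_lit 10) (nat_lit 5) (nat_lit 9) (nat_lit 4) (nat_lit 328)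 (nat_lit 236) (nat_lit 216)) (XT.lf (nat_lit 0) (nat_lit 6889091430) (nat_lit 76) (nat_lit 686287791) (nat_lit 152) (nat_lit 31039167443) (nat_lit 7) (nat_lit 5) (nat_lit 8) (nat_lit 5) (nat_lit 9) (nat_lit 4) (nat_lit 329) (nat_lit 236) (nat_lit 215))) (XT.nd (nat_lit 78) (nat_lit 0) (nat_lit 0) (XT.lf (nat_lit 0) (nat_lit 12825181156) (nat_lit 152) (nat_lit 23188759132) (nat_lit 0) (nat_lit 4363755582) (nat_lit 7) (nat_lit 5) (nat_lit 9) (nat_lit 4) (nat_lit 7) (nat_lit 4) (nat_lit 330) (nat_lit 236) (nat_lit 214)) (XT.lf (nat_lit 0) (nat_lit 18236077461) (nat_lit 152) (nat_lit 14430640849) (nat_lit 0) (nat_lit 9565368530) (nat_lit 7) (nat_lit 5) (nat_lit 9) (nat_lit 4) (nat_lit 7) (nat_lit 4) (nat_lit 331) (nat_lit 236) (nat_lit 213)))))) (XT.nd (nat_lit 546) (nat_lit 76) (nat_lit 0) (XT.nd (nat_lit 234) (nat_lit 76) (nat_lit 0) (XT.nd (nat_lit 78) (nat_lit 76) (nat_lit 0) (XT.lf (nat_lit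 0) (nat_lit 23814354205) (nat_lit 152) (nat_lit 5423650706) (nat_lit 0) (nat_lit 14944327790) (nat_lit 7) (nat_lit 5) (nat_lit 9) (nat_lit 4) (nat_lit 7) (nat_lit 4) (nat_lit 332) (nat_lit 236) (nat_lit 212)) (XT.nd (nat_lit 78) (nat_lit 0) (nat_lit 0) (XT.lf (nat_lit 0) (nat_lit 3930351833) (nat_lit 76) (nat_lit 25680722112) (nat_lit 76) (nat_lit 16620869522) (nat_lit 6) (nat_lit 4) (nat_lit 7) (nat_lit 5) (nat_lit 7) (nat_lit 4) (nat_lit 333) (nat_lit 236) (nat_lit 211)) (XT.lf (nat_lit 0) (nat_lit 13690521009) (nat_lit 76) (nat_lit 21967686255) (nat_lit 76) (nat_lit 12727046833) (nat_lit 6) (nat_lit 4) (nat_lit 7) (nat_lit 5) (nat_lit 7) (nat_lit 4) (nat_lit 334) (nat_lit 236) (nat_lit 210)))) (XT.nd (nat_lit 156) (nat_lit 76) (nat_lit 0) (XT.nd (nat_lit 78) (nat_lit 0) (nat_lit 0) (XT.lf (nat_lit 0) (nat_lit 23772154037) (nat_lit 76) (nat_lit 18144825018) (nat_lit 76) (nat_lit 8732007659)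 (nat_lit 6) (nat_lit 4) (nat_lit 7) (nat_lit 5) (nat_lit 7) (nat_lit 4) (nat_lit 335) (nat_lit 236) (nat_lit 209)) (XT.lf (nat_lit 0) (nat_lit 34199254803) (nat_lit 76) (nat_lit 14203036349) (nat_lit 76) (nat_lit 4626240003) (nat_lit 6) (nat_lit 4) (nat_lit 7) (nat_lit 5) (nat_lit 7) (nat_lit 4) (nat_lit 336) (nat_lit 236) (nat_lit 208))) (XT.nd (nat_lit 78) (nat_lit 76) (nat_lit 0) (XT.lf (nat_lit 0) (nat_lit 44996649739) (nat_lit 76) (nat_lit 10132935037) (nat_lit 76) (nat_lit 399968228) (nat_lit 6) (nat_lit 4) (nat_lit 7) (nat_lit 5) (nat_lit 7) (nat_lit 4) (nat_lit 337) (nat_lit 236) (nat_lit 207)) (XT.lf (nat_lit 0) (nat_lit 3879657427) (nat_lit 152) (nat_lit 2005996005) (nat_lit 76) (nat_lit 52271212567) (nat_lit 5) (nat_lit 5) (nat_lit 7) (nat_lit 5) (nat_lit 6) (nat_lit 4) (nat_lit 338) (nat_lit 236) (nat_lit 206))))) (XT.nd (nat_lit 234) (nat_lit 0) (nat_lit 0) (XT.nd (nat_lit 78)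 (nat_lit 0) (nat_lit 0) (XT.lf (nat_lit 0) (nat_lit 6940100830) (nat_lit 76) (nat_lit 1416279774) (nat_lit 152) (nat_lit 52559331474) (nat_lit 4) (nat_lit 5) (nat_lit 5) (nat_lit 5) (nat_lit 6) (nat_lit 4) (nat_lit 339) (nat_lit 236) (nat_lit 205)) (XT.nd (nat_lit 78) (nat_lit 0) (nat_lit 0) (XT.lf (nat_lit 0) (nat_lit 13035595529) (nat_lit 152) (nat_lit 47604362424) (nat_lit 0) (nat_lit 3173209397) (nat_lit 4) (nat_lit 5) (nat_lit 6) (nat_lit 4) (nat_lit 4) (nat_lit 4) (nat_lit 340) (nat_lit 236) (nat_lit 204)) (XT.lf (nat_lit 0) (nat_lit 17892880197) (nat_lit 152) (nat_lit 41058562780) (nat_lit 0) (nat_lit 7905754427) (nat_lit 4) (nat_lit 5) (nat_lit 6) (nat_lit 4) (nat_lit 4) (nat_lit 4) (nat_lit 341) (nat_lit 236) (nat_lit 203)))) (XT.nd (nat_lit 156) (nat_lit 0) (nat_lit 0) (XT.nd (nat_lit 78) (nat_lit 0) (nat_lit 0) (XT.lf (nat_lit 0) (nat_lit 22926185425) (nat_lit 152) (nat_lit 34309012934)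 (nat_lit 0) (nat_lit 12820260000) (nat_lit 4) (nat_lit 5) (nat_lit 6) (nat_lit 4) (nat_lit 4) (nat_lit 4) (nat_lit 342) (nat_lit 236) (nat_lit 202)) (XT.lf (nat_lit 0) (nat_lit 28147495273) (nat_lit 152) (nat_lit 27339642527) (nat_lit 0) (nat_lit 17928427320) (nat_lit 4) (nat_lit 5) (nat_lit 6) (nat_lit 4) (nat_lit 4) (nat_lit 4) (nat_lit 343) (nat_lit 236) (nat_lit 201))) (XT.nd (nat_lit 78) (nat_lit 0) (nat_lit 0) (XT.lf (nat_lit 0) (nat_lit 33569241431) (nat_lit 152) (nat_lit 20133857822) (nat_lit 0) (nat_lit 23242418689) (nat_lit 4) (nat_lit 5) (nat_lit 6) (nat_lit 4) (nat_lit 4) (nat_lit 4) (nat_lit 344) (nat_lit 236) (nat_lit 200)) (XT.lf (nat_lit 0) (nat_lit 39204332819) (nat_lit 152) (nat_lit 12674502187) (nat_lit 0) (nat_lit 28774886467) (nat_lit 4) (nat_lit 5) (nat_lit 6) (nat_lit 4) (nat_lit 4) (nat_lit 4) (nat_lit 345) (nat_lit 236) (nat_lit 199))))))))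
noncomputable def xc15 : XT := (XT.nd (nat_lit 38142) (nat_lit 0) (nat_lit 228) (XT.nd (nat_lit 1014) (nat_lit 152) (nat_lit 0) (XT.nd (nat_lit 468) (nat_lit 0) (nat_lit 0) (XT.nd (nat_lit 234) (nat_lit 0) (nat_lit 0) (XT.nd (nat_lit 78) (nat_lit 76) (nat_lit 0) (XT.lf (nat_lit 0) (nat_lit 45066186320) (nat_lit 152) (nat_lit 4943815252) (nat_lit 0) (nat_lit 34539003199) (nat_lit 4) (nat_lit 5) (nat_lit 6) (nat_lit 4) (nat_lit 4) (nat_lit 4) (nat_lit 346) (nat_lit 236) (nat_lit 198)) (XT.nd (nat_lit 78) (nat_lit 0) (nat_lit 0) (XT.lf (nat_lit 0) (nat_lit 3137839939) (nat_lit 76) (nat_lit 48061081627) (nat_lit 76) (nat_lit 37440815867) (nat_lit 3) (nat_lit 4) (nat_lit 4) (nat_lit 5) (nat_lit 4) (nat_lit 4) (nat_lit 347) (nat_lit 236) (nat_lit 197)) (XT.lf (nat_lit 0) (nat_lit 11632867095) (nat_lit 76) (nat_lit 46005535119) (nat_lit 76) (nat_lit 35296619228) (nat_lit 3) (nat_lit 4) (nat_lit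 4) (nat_lit 5) (nat_lit 4) (nat_lit 4) (nat_lit 348) (nat_lit 236) (nat_lit 196)))) (XT.nd (nat_lit 78) (nat_lit 0) (nat_lit 0) (XT.lf (nat_lit 0) (nat_lit 20463100854) (nat_lit 76) (nat_lit 43888390732) (nat_lit 76) (nat_lit 33095046144) (nat_lit 3) (nat_lit 4) (nat_lit 4) (nat_lit 5) (nat_lit 4) (nat_lit 4) (nat_lit 349) (nat_lit 236) (nat_lit 195)) (XT.nd (nat_lit 78) (nat_lit 0) (nat_lit 0) (XT.lf (nat_lit 0) (nat_lit 29649565582) (nat_lit 76) (nat_lit 41704607644) (nat_lit 76) (nat_lit 30830854774) (nat_lit 3) (nat_lit 4) (nat_lit 4) (nat_lit 5) (nat_lit 4) (nat_lit 4) (nat_lit 350) (nat_lit 236) (nat_lit 194)) (XT.lf (nat_lit 0) (nat_lit 39214133814) (nat_lit 76) (nat_lit 39448986374) (nat_lit 76) (nat_lit 28498654186) (nat_lit 3) (nat_lit 4) (nat_lit 4) (nat_lit 5) (nat_lit 4) (nat_lit 4) (nat_lit 351) (nat_lit 236) (nat_lit 193))))) (XT.nd (nat_lit 234) (nat_lit 0) (nat_lit 0) (XT.nd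 (nat_lit 78) (nat_lit 0) (nat_lit 0) (XT.lf (nat_lit 0) (nat_lit 49179578331) (nat_lit 76) (nat_lit 37116156392) (nat_lit 76) (nat_lit 26092891522) (nat_lit 3) (nat_lit 4) (nat_lit 4) (nat_lit 5) (nat_lit 4) (nat_lit 4) (nat_lit 352) (nat_lit 236) (nat_lit 192)) (XT.nd (nat_lit 78) (nat_lit 0) (nat_lit 0) (XT.lf (nat_lit 0) (nat_lit 59569626382) (nat_lit 76) (nat_lit 34700563343) (nat_lit 76) (nat_lit 23607838775) (nat_lit 3) (nat_lit 4) (nat_lit 4) (nat_lit 5) (nat_lit 4) (nat_lit 4) (nat_lit 353) (nat_lit 236) (nat_lit 191)) (XT.lf (nat_lit 0) (nat_lit 70409016177) (nat_lit 76) (nat_lit 32196455815) (nat_lit 76) (nat_lit 21037579154) (nat_lit 3) (nat_lit 4) (nat_lit 4) (nat_lit 5) (nat_lit 4) (nat_lit 4) (nat_lit 354) (nat_lit 236) (nat_lit 190)))) (XT.nd (nat_lit 156) (nat_lit 0) (nat_lit 0) (XT.nd (nat_lit 78) (nat_lit 0) (nat_lit 0) (XT.lf (nat_lit 0) (nat_lit 81723555787) (nat_lit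 76) (nat_lit 29597871646) (nat_lit 76) (nat_lit 18375992992) (nat_lit 3) (nat_lit 4) (nat_lit 4) (nat_lit 5) (nat_lit 4) (nat_lit 4) (nat_lit 355) (nat_lit 236) (nat_lit 189)) (XT.lf (nat_lit 0) (nat_lit 93540184592) (nat_lit 76) (nat_lit 26898623732) (nat_lit 76) (nat_lit 15616743179) (nat_lit 3) (nat_lit 4) (nat_lit 4) (nat_lit 5) (nat_lit 4) (nat_lit 4) (nat_lit 356) (nat_lit 236) (nat_lit 188))) (XT.nd (nat_lit 78) (nat_lit 0) (nat_lit 0) (XT.lf (nat_lit 0) (nat_lit 105887037422) (nat_lit 76) (nat_lit 24092285292) (nat_lit 76) (nat_lit 12753260073) (nat_lit 3) (nat_lit 4) (nat_lit 4) (nat_lit 5) (nat_lit 4) (nat_lit 4) (nat_lit 357) (nat_lit 236) (nat_lit 187)) (XT.lf (nat_lit 0) (nat_lit 118793511546) (nat_lit 76) (nat_lit 21172174567) (nat_lit 76) (nat_lit 9778725858) (nat_lit 3) (nat_lit 4) (nat_lit 4) (nat_lit 5) (nat_lit 4) (nat_lit 4) (nat_lit 358) (nat_lit 236) (nat_lit 186))))))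 (XT.nd (nat_lit 36582) (nat_lit 0) (nat_lit 1368) (XT.nd (nat_lit 234) (nat_lit 152) (nat_lit 0) (XT.nd (nat_lit 78) (nat_lit 0) (nat_lit 0) (XT.lf (nat_lit 0) (nat_lit 132290336665) (nat_lit 76) (nat_lit 18131338914) (nat_lit 76) (nat_lit 6686058308) (nat_lit 3) (nat_lit 4) (nat_lit 4) (nat_lit 5) (nat_lit 4) (nat_lit 4) (nat_lit 359) (nat_lit 236) (nat_lit 185)) (XT.nd (nat_lit 78) (nat_lit 0) (nat_lit 0) (XT.lf (nat_lit 0) (nat_lit 146409648075) (nat_lit 76) (nat_lit 14962538246) (nat_lit 76) (nat_lit 3467893931) (nat_lit 3) (nat_lit 4) (nat_lit 4) (nat_lit 5) (nat_lit 4) (nat_lit 4) (nat_lit 360) (nat_lit 236) (nat_lit 184)) (XT.lf (nat_lit 0) (nat_lit 161185063186) (nat_lit 76) (nat_lit 11658227801) (nat_lit 76) (nat_lit 116570428) (nat_lit 3) (nat_lit 4) (nat_lit 4) (nat_lit 5) (nat_lit 4) (nat_lit 4) (nat_lit 361) (nat_lit 236) (nat_lit 183)))) (XT.nd (nat_lit 78) (nat_lit 76) (nat_lit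 0) (XT.lf (nat_lit 0) (nat_lit 3310015736) (nat_lit 152) (nat_lit 4867099768) (nat_lit 76) (nat_lit 173308321152) (nat_lit 2) (nat_lit 5) (nat_lit 4) (nat_lit 5) (nat_lit 3) (nat_lit 4) (nat_lit 362) (nat_lit 236) (nat_lit 182)) (XT.nd (nat_lit 36192) (nat_lit 0) (nat_lit 2128) (XT.lf (nat_lit 0) (nat_lit 2385633624) (nat_lit 76) (nat_lit 4518163206) (nat_lit 152) (nat_lit 183533519302) (nat_lit 1) (nat_lit 5) (nat_lit 2) (nat_lit 5) (nat_lit 3) (nat_lit 4) (nat_lit 363) (nat_lit 236) (nat_lit 181)) (XT.lf (nat_lit 0) (nat_lit 2588100813) (nat_lit 228) (nat_lit 2487994167) (nat_lit 0) (nat_lit 2588100813) (nat_lit 29) (nat_lit 5) (nat_lit 32) (nat_lit 4) (nat_lit 29) (nat_lit 4) (nat_lit 306) (nat_lit 237) (nat_lit 237))))) (XT.nd (nat_lit 234) (nat_lit 456) (nat_lit 0) (XT.nd (nat_lit 78) (nat_lit 152) (nat_lit 0) (XT.lf (nat_lit 0) (nat_lit 7486822096) (nat_lit 152) (nat_lit 4573945487)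 (nat_lit 152) (nat_lit 3806386218) (nat_lit 27) (nat_lit 4) (nat_lit 29) (nat_lit 5) (nat_lit 29) (nat_lit 4) (nat_lit 307) (nat_lit 237) (nat_lit 236)) (XT.nd (nat_lit 78) (nat_lit 0) (nat_lit 0) (XT.lf (nat_lit 0) (nat_lit 2663772993) (nat_lit 152) (nat_lit 12563664403) (nat_lit 0) (nat_lit 1208852511) (nat_lit 25) (nat_lit 5) (nat_lit 27) (nat_lit 4) (nat_lit 25) (nat_lit 4) (nat_lit 308) (nat_lit 237) (nat_lit 235)) (XT.lf (nat_lit 0) (nat_lit 9280550763) (nat_lit 152) (nat_lit 605574479) (nat_lit 0) (nat_lit 7149709034) (nat_lit 25) (nat_lit 5) (nat_lit 27) (nat_lit 4) (nat_lit 25) (nat_lit 4) (nat_lit 309) (nat_lit 237) (nat_lit 234)))) (XT.nd (nat_lit 156) (nat_lit 152) (nat_lit 0) (XT.nd (nat_lit 78) (nat_lit 152) (nat_lit 0) (XT.lf (nat_lit 0) (nat_lit 11797589883) (nat_lit 152) (nat_lit 4322852251) (nat_lit 152) (nat_lit 1548276002) (nat_lit 23) (nat_lit 4) (nat_lit 25) (nat_lit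 5) (nat_lit 25) (nat_lit 4) (nat_lit 310) (nat_lit 237) (nat_lit 233)) (XT.lf (nat_lit 0) (nat_lit 4735747339) (nat_lit 152) (nat_lit 12153517444) (nat_lit 0) (nat_lit 1446760208) (nat_lit 21) (nat_lit 5) (nat_lit 23) (nat_lit 4) (nat_lit 21) (nat_lit 4) (nat_lit 311) (nat_lit 237) (nat_lit 232))) (XT.nd (nat_lit 78) (nat_lit 152) (nat_lit 0) (XT.lf (nat_lit 0) (nat_lit 11195787163) (nat_lit 152) (nat_lit 503829754) (nat_lit 0) (nat_lit 7339920240) (nat_lit 21) (nat_lit 5) (nat_lit 23) (nat_lit 4) (nat_lit 21) (nat_lit 4) (nat_lit 312) (nat_lit 237) (nat_lit 231)) (XT.lf (nat_lit 0) (nat_lit 11601779546) (nat_lit 152) (nat_lit 6287496929) (nat_lit 152) (nat_lit 1891744490) (nat_lit 19) (nat_lit 4) (nat_lit 21) (nat_lit 5) (nat_lit 21) (nat_lit 4) (nat_lit 313) (nat_lit 237) (nat_lit 230))))))) (XT.nd (nat_lit 1014) (nat_lit 380) (nat_lit 0) (XT.nd (nat_lit 468) (nat_lit 304) (nat_lit 0)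 (XT.nd (nat_lit 234) (nat_lit 152) (nat_lit 0) (XT.nd (nat_lit 78) (nat_lit 152) (nat_lit 0) (XT.lf (nat_lit 0) (nat_lit 3442145018) (nat_lit 76) (nat_lit 672177218) (nat_lit 152) (nat_lit 16448856272) (nat_lit 17) (nat_lit 5) (nat_lit 18) (nat_lit 5) (nat_lit 19) (nat_lit 4) (nat_lit 314) (nat_lit 237) (nat_lit 229)) (XT.nd (nat_lit 78) (nat_lit 152) (nat_lit 0) (XT.lf (nat_lit 0) (nat_lit 10325080162) (nat_lit 152) (nat_lit 5977863409) (nat_lit 0) (nat_lit 5082729482) (nat_lit 17) (nat_lit 5) (nat_lit 19) (nat_lit 4) (nat_lit 17) (nat_lit 4) (nat_lit 315) (nat_lit 237) (nat_lit 228)) (XT.lf (nat_lit 0) (nat_lit 5497892596) (nat_lit 152) (nat_lit 11225165729) (nat_lit 152) (nat_lit 5530025333) (nat_lit 15) (nat_lit 4) (nat_lit 17) (nat_lit 5) (nat_lit 17) (nat_lit 4) (nat_lit 316) (nat_lit 237) (nat_lit 227)))) (XT.nd (nat_lit 78) (nat_lit 76) (nat_lit 0) (XT.lf (nat_lit 0) (nat_lit 154694678)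 (nat_lit 228) (nat_lit 5812338501) (nat_lit 76) (nat_lit 17200345677) (nat_lit 14) (nat_lit 5) (nat_lit 17) (nat_lit 5) (nat_lit 15) (nat_lit 4) (nat_lit 317) (nat_lit 237) (nat_lit 226)) (XT.nd (nat_lit 78) (nat_lit 0) (nat_lit 0) (XT.lf (nat_lit 0) (nat_lit 5423478760) (nat_lit 76) (nat_lit 468413396) (nat_lit 152) (nat_lit 18237456589) (nat_lit 13) (nat_lit 5) (nat_lit 14) (nat_lit 5) (nat_lit 15) (nat_lit 4) (nat_lit 318) (nat_lit 237) (nat_lit 225)) (XT.lf (nat_lit 0) (nat_lit 11860816544) (nat_lit 152) (nat_lit 8145921914) (nat_lit 0) (nat_lit 5134409651) (nat_lit 13) (nat_lit 5) (nat_lit 15) (nat_lit 4) (nat_lit 13) (nat_lit 4) (nat_lit 319) (nat_lit 237) (nat_lit 224))))) (XT.nd (nat_lit 234) (nat_lit 152) (nat_lit 0) (XT.nd (nat_lit 78) (nat_lit 76) (nat_lit 0) (XT.lf (nat_lit 0) (nat_lit 2705073082) (nat_lit 76) (nat_lit 15295221370) (nat_lit 76) (nat_lit 8207153098) (nat_lit 12)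 (nat_lit 4) (nat_lit 13) (nat_lit 5) (nat_lit 13) (nat_lit 4) (nat_lit 320) (nat_lit 237) (nat_lit 223)) (XT.nd (nat_lit 78) (nat_lit 76) (nat_lit 0) (XT.lf (nat_lit 0) (nat_lit 13992004961) (nat_lit 76) (nat_lit 10384865397) (nat_lit 76) (nat_lit 2952357716) (nat_lit 12) (nat_lit 4) (nat_lit 13) (nat_lit 5) (nat_lit 13) (nat_lit 4) (nat_lit 321) (nat_lit 237) (nat_lit 222)) (XT.lf (nat_lit 0) (nat_lit 2367196310) (nat_lit 152) (nat_lit 2955136703) (nat_lit 76) (nat_lit 23188527200) (nat_lit 11) (nat_lit 5) (nat_lit 13) (nat_lit 5) (nat_lit 12) (nat_lit 4) (nat_lit 322) (nat_lit 237) (nat_lit 221)))) (XT.nd (nat_lit 156) (nat_lit 76) (nat_lit 0) (XT.nd (nat_lit 78) (nat_lit 0) (nat_lit 0) (XT.lf (nat_lit 0) (nat_lit 7814783590) (nat_lit 76) (nat_lit 11692025) (nat_lit 152) (nat_lit 21926238695) (nat_lit 10) (nat_lit 5) (nat_lit 11) (nat_lit 5) (nat_lit 12) (nat_lit 4) (nat_lit 323) (nat_lit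 237) (nat_lit 220)) (XT.lf (nat_lit 0) (nat_lit 13505327161) (nat_lit 152) (nat_lit 12174367713) (nat_lit 0) (nat_lit 5378626558) (nat_lit 10) (nat_lit 5) (nat_lit 12) (nat_lit 4) (nat_lit 10) (nat_lit 4) (nat_lit 324) (nat_lit 237) (nat_lit 219))) (XT.nd (nat_lit 78) (nat_lit 76) (nat_lit 0) (XT.lf (nat_lit 0) (nat_lit 19337189163) (nat_lit 152) (nat_lit 2160632556) (nat_lit 0) (nat_lit 10935370935) (nat_lit 10) (nat_lit 5) (nat_lit 12) (nat_lit 4) (nat_lit 10) (nat_lit 4) (nat_lit 325) (nat_lit 237) (nat_lit 218)) (XT.lf (nat_lit 0) (nat_lit 8288977165) (nat_lit 76) (nat_lit 17126536168) (nat_lit 76) (nat_lit 8462701154) (nat_lit 9) (nat_lit 4) (nat_lit 10) (nat_lit 5) (nat_lit 10) (nat_lit 4) (nat_lit 326) (nat_lit 237) (nat_lit 217)))))) (XT.nd (nat_lit 546) (nat_lit 228) (nat_lit 0) (XT.nd (nat_lit 234) (nat_lit 0) (nat_lit 0) (XT.nd (nat_lit 78) (nat_lit 152) (nat_lit 0) (XT.lf (nat_lit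 0) (nat_lit 19086152545) (nat_lit 76) (nat_lit 12612861235) (nat_lit 76) (nat_lit 3699486425) (nat_lit 9) (nat_lit 4) (nat_lit 10) (nat_lit 5) (nat_lit 10) (nat_lit 4) (nat_lit 327) (nat_lit 237) (nat_lit 216)) (XT.nd (nat_lit 78) (nat_lit 76) (nat_lit 0) (XT.lf (nat_lit 0) (nat_lit 1160075748) (nat_lit 152) (nat_lit 6796077988) (nat_lit 76) (nat_lit 29041810078) (nat_lit 8) (nat_lit 5) (nat_lit 10) (nat_lit 5) (nat_lit 9) (nat_lit 4) (nat_lit 328) (nat_lit 237) (nat_lit 215)) (XT.lf (nat_lit 0) (nat_lit 3015654570) (nat_lit 76) (nat_lit 3089284483) (nat_lit 152) (nat_lit 32573842224) (nat_lit 7) (nat_lit 5) (nat_lit 8) (nat_lit 5) (nat_lit 9) (nat_lit 4) (nat_lit 329) (nat_lit 237) (nat_lit 214)))) (XT.nd (nat_lit 156) (nat_lit 0) (nat_lit 0) (XT.nd (nat_lit 78) (nat_lit 0) (nat_lit 0) (XT.lf (nat_lit 0) (nat_lit 11278801624) (nat_lit 152) (nat_lit 27200153852) (nat_lit 0) (nat_lit 1965273888)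 (nat_lit 7) (nat_lit 5) (nat_lit 9) (nat_lit 4) (nat_lit 7) (nat_lit 4) (nat_lit 330) (nat_lit 237) (nat_lit 213)) (XT.lf (nat_lit 0) (nat_lit 16639373843) (nat_lit 152) (nat_lit 18534247302) (nat_lit 0) (nat_lit 7126528623) (nat_lit 7) (nat_lit 5) (nat_lit 9) (nat_lit 4) (nat_lit 7) (nat_lit 4) (nat_lit 331) (nat_lit 237) (nat_lit 212))) (XT.nd (nat_lit 78) (nat_lit 0) (nat_lit 0) (XT.lf (nat_lit 0) (nat_lit 22169722885) (nat_lit 152) (nat_lit 9615077857) (nat_lit 0) (nat_lit 12467051492) (nat_lit 7) (nat_lit 5) (nat_lit 9) (nat_lit 4) (nat_lit 7) (nat_lit 4) (nat_lit 332) (nat_lit 237) (nat_lit 211)) (XT.lf (nat_lit 0) (nat_lit 27883016250) (nat_lit 152) (nat_lit 421409399) (nat_lit 0) (nat_lit 17999558023) (nat_lit 7) (nat_lit 5) (nat_lit 9) (nat_lit 4) (nat_lit 7) (nat_lit 4) (nat_lit 333) (nat_lit 237) (nat_lit 210))))) (XT.nd (nat_lit 234) (nat_lit 152) (nat_lit 0) (XT.nd (nat_lit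 78) (nat_lit 0) (nat_lit 0) (XT.lf (nat_lit 0) (nat_lit 9249131631) (nat_lit 76) (nat_lit 24632633694) (nat_lit 76) (nat_lit 14576997532) (nat_lit 6) (nat_lit 4) (nat_lit 7) (nat_lit 5) (nat_lit 7) (nat_lit 4) (nat_lit 334) (nat_lit 237) (nat_lit 209)) (XT.nd (nat_lit 78) (nat_lit 0) (nat_lit 0) (XT.lf (nat_lit 0) (nat_lit 19253392019) (nat_lit 76) (nat_lit 20844999594) (nat_lit 76) (nat_lit 10625384444) (nat_lit 6) (nat_lit 4) (nat_lit 7) (nat_lit 5) (nat_lit 7) (nat_lit 4) (nat_lit 335) (nat_lit 237) (nat_lit 208)) (XT.lf (nat_lit 0) (nat_lit 29606804556) (nat_lit 76) (nat_lit 16936760579) (nat_lit 76) (nat_lit 6560974966) (nat_lit 6) (nat_lit 4) (nat_lit 7) (nat_lit 5) (nat_lit 7) (nat_lit 4) (nat_lit 336) (nat_lit 237) (nat_lit 207)))) (XT.nd (nat_lit 156) (nat_lit 76) (nat_lit 0) (XT.nd (nat_lit 78) (nat_lit 76) (nat_lit 0) (XT.lf (nat_lit 0) (nat_lit 40334020227) (nat_lit 76) (nat_lit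 12898611319) (nat_lit 76) (nat_lit 2374091931) (nat_lit 6) (nat_lit 4) (nat_lit 7) (nat_lit 5) (nat_lit 7) (nat_lit 4) (nat_lit 337) (nat_lit 237) (nat_lit 206)) (XT.lf (nat_lit 0) (nat_lit 1907274918) (nat_lit 152) (nat_lit 6794402517) (nat_lit 76) (nat_lit 49534045365) (nat_lit 5) (nat_lit 5) (nat_lit 7) (nat_lit 5) (nat_lit 6) (nat_lit 4) (nat_lit 338) (nat_lit 237) (nat_lit 205))) (XT.nd (nat_lit 78) (nat_lit 0) (nat_lit 0) (XT.lf (nat_lit 0) (nat_lit 1990749881) (nat_lit 76) (nat_lit 4310642434) (nat_lit 152) (nat_lit 54695667691) (nat_lit 4) (nat_lit 5) (nat_lit 5) (nat_lit 5) (nat_lit 6) (nat_lit 4) (nat_lit 339) (nat_lit 237) (nat_lit 204)) (XT.lf (nat_lit 0) (nat_lit 10918547852) (nat_lit 152) (nat_lit 52670515388) (nat_lit 0) (nat_lit 307326156) (nat_lit 4) (nat_lit 5) (nat_lit 6) (nat_lit 4) (nat_lit 4) (nat_lit 4) (nat_lit 340) (nat_lit 237) (nat_lit 203))))))))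
noncomputable def xc16 : XT := (XT.nd (nat_lit 37986) (nat_lit 0) (nat_lit 380) (XT.nd (nat_lit 1014) (nat_lit 76) (nat_lit 0) (XT.nd (nat_lit 468) (nat_lit 76) (nat_lit 0) (XT.nd (nat_lit 234) (nat_lit 0) (nat_lit 0) (XT.nd (nat_lit 78) (nat_lit 0) (nat_lit 0) (XT.lf (nat_lit 0) (nat_lit 15743225850) (nat_lit 152) (nat_lit 46184979052) (nat_lit 0) (nat_lit 5013204499) (nat_lit 4) (nat_lit 5) (nat_lit 6) (nat_lit 4) (nat_lit 4) (nat_lit 4) (nat_lit 341) (nat_lit 237) (nat_lit 202)) (XT.nd (nat_lit 78) (nat_lit 0) (nat_lit 0) (XT.lf (nat_lit 0) (nat_lit 20745477106) (nat_lit 152) (nat_lit 39492822831) (nat_lit 0) (nat_lit 9902313227) (nat_lit 4) (nat_lit 5) (nat_lit 6) (nat_lit 4) (nat_lit 4) (nat_lit 4) (nat_lit 342) (nat_lit 237) (nat_lit 201)) (XT.lf (nat_lit 0) (nat_lit 25937211743) (nat_lit 152) (nat_lit 32578113020) (nat_lit 0) (nat_lit 14986293075) (nat_lit 4) (nat_lit 5) (nat_lit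 6) (nat_lit 4) (nat_lit 4) (nat_lit 4) (nat_lit 343) (nat_lit 237) (nat_lit 200)))) (XT.nd (nat_lit 78) (nat_lit 0) (nat_lit 0) (XT.lf (nat_lit 0) (nat_lit 31330791034) (nat_lit 152) (nat_lit 25424386024) (nat_lit 0) (nat_lit 20277248757) (nat_lit 4) (nat_lit 5) (nat_lit 6) (nat_lit 4) (nat_lit 4) (nat_lit 4) (nat_lit 344) (nat_lit 237) (nat_lit 199)) (XT.nd (nat_lit 78) (nat_lit 0) (nat_lit 0) (XT.lf (nat_lit 0) (nat_lit 36939056833) (nat_lit 152) (nat_lit 18014609161) (nat_lit 0) (nat_lit 25787777786) (nat_lit 4) (nat_lit 5) (nat_lit 6) (nat_lit 4) (nat_lit 4) (nat_lit 4) (nat_lit 345) (nat_lit 237) (nat_lit 198)) (XT.lf (nat_lit 0) (nat_lit 42775362155) (nat_lit 152) (nat_lit 10331140104) (nat_lit 0) (nat_lit 31531000470) (nat_lit 4) (nat_lit 5) (nat_lit 6) (nat_lit 4) (nat_lit 4) (nat_lit 4) (nat_lit 346) (nat_lit 237) (nat_lit 197))))) (XT.nd (nat_lit 234) (nat_lit 0) (nat_lit 0) (XT.nd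 (nat_lit 78) (nat_lit 76) (nat_lit 0) (XT.lf (nat_lit 0) (nat_lit 48853602965) (nat_lit 152) (nat_lit 2355684879) (nat_lit 0) (nat_lit 37520591148) (nat_lit 4) (nat_lit 5) (nat_lit 6) (nat_lit 4) (nat_lit 4) (nat_lit 4) (nat_lit 347) (nat_lit 237) (nat_lit 196)) (XT.nd (nat_lit 78) (nat_lit 0) (nat_lit 0) (XT.lf (nat_lit 0) (nat_lit 6048779160) (nat_lit 76) (nat_lit 49197616670) (nat_lit 76) (nat_lit 37780176156) (nat_lit 3) (nat_lit 4) (nat_lit 4) (nat_lit 5) (nat_lit 4) (nat_lit 4) (nat_lit 348) (nat_lit 237) (nat_lit 195)) (XT.lf (nat_lit 0) (nat_lit 14837412568) (nat_lit 76) (nat_lit 47099603268) (nat_lit 76) (nat_lit 35601754471) (nat_lit 3) (nat_lit 4) (nat_lit 4) (nat_lit 5) (nat_lit 4) (nat_lit 4) (nat_lit 349) (nat_lit 237) (nat_lit 194)))) (XT.nd (nat_lit 156) (nat_lit 0) (nat_lit 0) (XT.nd (nat_lit 78) (nat_lit 0) (nat_lit 0) (XT.lf (nat_lit 0) (nat_lit 23984257914) (nat_lit 76)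 (nat_lit 44934040166) (nat_lit 76) (nat_lit 33359612052) (nat_lit 3) (nat_lit 4) (nat_lit 4) (nat_lit 5) (nat_lit 4) (nat_lit 4) (nat_lit 350) (nat_lit 237) (nat_lit 193)) (XT.lf (nat_lit 0) (nat_lit 33511093402) (nat_lit 76) (nat_lit 42695771262) (nat_lit 76) (nat_lit 31048410466) (nat_lit 3) (nat_lit 4) (nat_lit 4) (nat_lit 5) (nat_lit 4) (nat_lit 4) (nat_lit 351) (nat_lit 237) (nat_lit 192))) (XT.nd (nat_lit 78) (nat_lit 0) (nat_lit 0) (XT.lf (nat_lit 0) (nat_lit 43440601972) (nat_lit 76) (nat_lit 40379467345) (nat_lit 76) (nat_lit 28662646851) (nat_lit 3) (nat_lit 4) (nat_lit 4) (nat_lit 5) (nat_lit 4) (nat_lit 4) (nat_lit 352) (nat_lit 237) (nat_lit 191)) (XT.lf (nat_lit 0) (nat_lit 53796425311) (nat_lit 76) (nat_lit 37979613405) (nat_lit 76) (nat_lit 26196640818) (nat_lit 3) (nat_lit 4) (nat_lit 4) (nat_lit 5) (nat_lit 4) (nat_lit 4) (nat_lit 353) (nat_lit 237) (nat_lit 190)))))) (XT.nd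 (nat_lit 468) (nat_lit 76) (nat_lit 0) (XT.nd (nat_lit 234) (nat_lit 0) (nat_lit 0) (XT.nd (nat_lit 78) (nat_lit 0) (nat_lit 0) (XT.lf (nat_lit 0) (nat_lit 64603220143) (nat_lit 76) (nat_lit 35490495504) (nat_lit 76) (nat_lit 23644520923) (nat_lit 3) (nat_lit 4) (nat_lit 4) (nat_lit 5) (nat_lit 4) (nat_lit 4) (nat_lit 354) (nat_lit 237) (nat_lit 189)) (XT.nd (nat_lit 78) (nat_lit 0) (nat_lit 0) (XT.lf (nat_lit 0) (nat_lit 75886716931) (nat_lit 76) (nat_lit 32906187171) (nat_lit 76) (nat_lit 21000210692) (nat_lit 3) (nat_lit 4) (nat_lit 4) (nat_lit 5) (nat_lit 4) (nat_lit 4) (nat_lit 355) (nat_lit 237) (nat_lit 188)) (XT.lf (nat_lit 0) (nat_lit 87673781143) (nat_lit 76) (nat_lit 30220535291) (nat_lit 76) (nat_lit 18257414146) (nat_lit 3) (nat_lit 4) (nat_lit 4) (nat_lit 5) (nat_lit 4) (nat_lit 4) (nat_lit 356) (nat_lit 237) (nat_lit 187)))) (XT.nd (nat_lit 78) (nat_lit 0) (nat_lit 0) (XT.lf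 (nat_lit 0) (nat_lit 99992477218) (nat_lit 76) (nat_lit 27427145454) (nat_lit 76) (nat_lit 15409600819) (nat_lit 3) (nat_lit 4) (nat_lit 4) (nat_lit 5) (nat_lit 4) (nat_lit 4) (nat_lit 357) (nat_lit 237) (nat_lit 186)) (XT.nd (nat_lit 78) (nat_lit 0) (nat_lit 0) (XT.lf (nat_lit 0) (nat_lit 112872135385) (nat_lit 76) (nat_lit 24519366733) (nat_lit 76) (nat_lit 12449990202) (nat_lit 3) (nat_lit 4) (nat_lit 4) (nat_lit 5) (nat_lit 4) (nat_lit 4) (nat_lit 358) (nat_lit 237) (nat_lit 185)) (XT.lf (nat_lit 0) (nat_lit 126343421497) (nat_lit 76) (nat_lit 21490275845) (nat_lit 76) (nat_lit 9371535603) (nat_lit 3) (nat_lit 4) (nat_lit 4) (nat_lit 5) (nat_lit 4) (nat_lit 4) (nat_lit 359) (nat_lit 237) (nat_lit 184))))) (XT.nd (nat_lit 234) (nat_lit 0) (nat_lit 0) (XT.nd (nat_lit 78) (nat_lit 76) (nat_lit 0) (XT.lf (nat_lit 0) (nat_lit 140438410044) (nat_lit 76) (nat_lit 18332660668) (nat_lit 76) (nat_lit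 6166907369) (nat_lit 3) (nat_lit 4) (nat_lit 4) (nat_lit 5) (nat_lit 4) (nat_lit 4) (nat_lit 360) (nat_lit 237) (nat_lit 183)) (XT.nd (nat_lit 78) (nat_lit 76) (nat_lit 0) (XT.lf (nat_lit 0) (nat_lit 155190660523) (nat_lit 76) (nat_lit 15039003072) (nat_lit 76) (nat_lit 2828475432) (nat_lit 3) (nat_lit 4) (nat_lit 4) (nat_lit 5) (nat_lit 4) (nat_lit 4) (nat_lit 361) (nat_lit 237) (nat_lit 182)) (XT.lf (nat_lit 0) (nat_lit 638991667) (nat_lit 152) (nat_lit 10956016783) (nat_lit 76) (nat_lit 169989853108) (nat_lit 2) (nat_lit 5) (nat_lit 4) (nat_lit 5) (nat_lit 3) (nat_lit 4) (nat_lit 362) (nat_lit 237) (nat_lit 181)))) (XT.nd (nat_lit 36114) (nat_lit 0) (nat_lit 2052) (XT.nd (nat_lit 36036) (nat_lit 0) (nat_lit 2432) (XT.lf (nat_lit 0) (nat_lit 4198375736) (nat_lit 152) (nat_lit 3771078771) (nat_lit 76) (nat_lit 182568322339) (nat_lit 2) (nat_lit 5) (nat_lit 4) (nat_lit 5) (nat_lit 3) (nat_lit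 4) (nat_lit 363) (nat_lit 237) (nat_lit 180)) (XT.lf (nat_lit 0) (nat_lit 3573369734) (nat_lit 228) (nat_lit 19097466) (nat_lit 0) (nat_lit 3573369734) (nat_lit 34) (nat_lit 5) (nat_lit 37) (nat_lit 4) (nat_lit 34) (nat_lit 4) (nat_lit 304) (nat_lit 238) (nat_lit 238))) (XT.nd (nat_lit 78) (nat_lit 228) (nat_lit 0) (XT.lf (nat_lit 0) (nat_lit 12559822596) (nat_lit 152) (nat_lit 1544649822) (nat_lit 152) (nat_lit 714534473) (nat_lit 32) (nat_lit 4) (nat_lit 34) (nat_lit 5) (nat_lit 34) (nat_lit 4) (nat_lit 305) (nat_lit 238) (nat_lit 237)) (XT.lf (nat_lit 0) (nat_lit 5863433614) (nat_lit 228) (nat_lit 5178657930) (nat_lit 0) (nat_lit 4289937112) (nat_lit 29) (nat_lit 5) (nat_lit 32) (nat_lit 4) (nat_lit 29) (nat_lit 4) (nat_lit 306) (nat_lit 238) (nat_lit 236))))))) (XT.nd (nat_lit 1014) (nat_lit 456) (nat_lit 0) (XT.nd (nat_lit 468) (nat_lit 608) (nat_lit 0) (XT.nd (nat_lit 234) (nat_lit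 304) (nat_lit 0) (XT.nd (nat_lit 78) (nat_lit 152) (nat_lit 0) (XT.lf (nat_lit 0) (nat_lit 7083258864) (nat_lit 152) (nat_lit 5547808795) (nat_lit 152) (nat_lit 3243303466) (nat_lit 27) (nat_lit 4) (nat_lit 29) (nat_lit 5) (nat_lit 29) (nat_lit 4) (nat_lit 307) (nat_lit 238) (nat_lit 235)) (XT.nd (nat_lit 78) (nat_lit 0) (nat_lit 0) (XT.lf (nat_lit 0) (nat_lit 3089177281) (nat_lit 152) (nat_lit 13182162920) (nat_lit 0) (nat_lit 175872220) (nat_lit 25) (nat_lit 5) (nat_lit 27) (nat_lit 4) (nat_lit 25) (nat_lit 4) (nat_lit 308) (nat_lit 238) (nat_lit 234)) (XT.lf (nat_lit 0) (nat_lit 9598086301) (nat_lit 152) (nat_lit 1410923497) (nat_lit 0) (nat_lit 6041046720) (nat_lit 25) (nat_lit 5) (nat_lit 27) (nat_lit 4) (nat_lit 25) (nat_lit 4) (nat_lit 309) (nat_lit 238) (nat_lit 233)))) (XT.nd (nat_lit 78) (nat_lit 152) (nat_lit 0) (XT.lf (nat_lit 0) (nat_lit 10794718371) (nat_lit 152) (nat_lit 5530886945)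 (nat_lit 152) (nat_lit 1360766868) (nat_lit 23) (nat_lit 4) (nat_lit 25) (nat_lit 5) (nat_lit 25) (nat_lit 4) (nat_lit 310) (nat_lit 238) (nat_lit 232)) (XT.nd (nat_lit 78) (nat_lit 0) (nat_lit 0) (XT.lf (nat_lit 0) (nat_lit 4794890815) (nat_lit 152) (nat_lit 13383180661) (nat_lit 0) (nat_lit 179350754) (nat_lit 21) (nat_lit 5) (nat_lit 23) (nat_lit 4) (nat_lit 21) (nat_lit 4) (nat_lit 311) (nat_lit 238) (nat_lit 231)) (XT.lf (nat_lit 0) (nat_lit 11156844832) (nat_lit 152) (nat_lit 1905666279) (nat_lit 0) (nat_lit 6001419254) (nat_lit 21) (nat_lit 5) (nat_lit 23) (nat_lit 4) (nat_lit 21) (nat_lit 4) (nat_lit 312) (nat_lit 238) (nat_lit 230))))) (XT.nd (nat_lit 234) (nat_lit 304) (nat_lit 0) (XT.nd (nat_lit 78) (nat_lit 152) (nat_lit 0) (XT.lf (nat_lit 0) (nat_lit 10004805731) (nat_lit 152) (nat_lit 7736762270) (nat_lit 152) (nat_lit 2067160010) (nat_lit 19) (nat_lit 4) (nat_lit 21) (nat_lit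 5) (nat_lit 21) (nat_lit 4) (nat_lit 313) (nat_lit 238) (nat_lit 229)) (XT.nd (nat_lit 78) (nat_lit 0) (nat_lit 0) (XT.lf (nat_lit 0) (nat_lit 1622501397) (nat_lit 76) (nat_lit 2210895517) (nat_lit 152) (nat_lit 16760854231) (nat_lit 17) (nat_lit 5) (nat_lit 18) (nat_lit 5) (nat_lit 19) (nat_lit 4) (nat_lit 314) (nat_lit 238) (nat_lit 228)) (XT.lf (nat_lit 0) (nat_lit 9940119244) (nat_lit 152) (nat_lit 7972360184) (nat_lit 0) (nat_lit 3507432111) (nat_lit 17) (nat_lit 5) (nat_lit 19) (nat_lit 4) (nat_lit 17) (nat_lit 4) (nat_lit 315) (nat_lit 238) (nat_lit 227)))) (XT.nd (nat_lit 156) (nat_lit 152) (nat_lit 0) (XT.nd (nat_lit 78) (nat_lit 0) (nat_lit 0) (XT.lf (nat_lit 0) (nat_lit 3309675231) (nat_lit 152) (nat_lit 12922392937) (nat_lit 152) (nat_lit 6058477502) (nat_lit 15) (nat_lit 4) (nat_lit 17) (nat_lit 5) (nat_lit 17) (nat_lit 4) (nat_lit 316) (nat_lit 238) (nat_lit 226)) (XT.lf (nat_lit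 0) (nat_lit 15021693488) (nat_lit 152) (nat_lit 7730156637) (nat_lit 152) (nat_lit 455547582) (nat_lit 15) (nat_lit 4) (nat_lit 17) (nat_lit 5) (nat_lit 17) (nat_lit 4) (nat_lit 317) (nat_lit 238) (nat_lit 225))) (XT.nd (nat_lit 78) (nat_lit 0) (nat_lit 0) (XT.lf (nat_lit 0) (nat_lit 2863210905) (nat_lit 76) (nat_lit 2323467292) (nat_lit 152) (nat_lit 18985974159) (nat_lit 13) (nat_lit 5) (nat_lit 14) (nat_lit 5) (nat_lit 15) (nat_lit 4) (nat_lit 318) (nat_lit 238) (nat_lit 224)) (XT.lf (nat_lit 0) (nat_lit 11060393440) (nat_lit 152) (nat_lit 10870689949) (nat_lit 0) (nat_lit 3256260376) (nat_lit 13) (nat_lit 5) (nat_lit 15) (nat_lit 4) (nat_lit 13) (nat_lit 4) (nat_lit 319) (nat_lit 238) (nat_lit 223)))))) (XT.nd (nat_lit 468) (nat_lit 228) (nat_lit 0) (XT.nd (nat_lit 234) (nat_lit 76) (nat_lit 0) (XT.nd (nat_lit 78) (nat_lit 152) (nat_lit 0) (XT.lf (nat_lit 0) (nat_lit 17100175929) (nat_lit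 152) (nat_lit 204888748) (nat_lit 0) (nat_lit 8951603456) (nat_lit 13) (nat_lit 5) (nat_lit 15) (nat_lit 4) (nat_lit 13) (nat_lit 4) (nat_lit 320) (nat_lit 238) (nat_lit 222)) (XT.nd (nat_lit 78) (nat_lit 76) (nat_lit 0) (XT.lf (nat_lit 0) (nat_lit 10949352817) (nat_lit 76) (nat_lit 12453970571) (nat_lit 76) (nat_lit 3977360566) (nat_lit 12) (nat_lit 4) (nat_lit 13) (nat_lit 5) (nat_lit 13) (nat_lit 4) (nat_lit 321) (nat_lit 238) (nat_lit 221)) (XT.lf (nat_lit 0) (nat_lit 1293472414) (nat_lit 152) (nat_lit 6163277700) (nat_lit 76) (nat_lit 21107953241) (nat_lit 11) (nat_lit 5) (nat_lit 13) (nat_lit 5) (nat_lit 12) (nat_lit 4) (nat_lit 322) (nat_lit 238) (nat_lit 220)))) (XT.nd (nat_lit 78) (nat_lit 0) (nat_lit 0) (XT.lf (nat_lit 0) (nat_lit 4422459535) (nat_lit 76) (nat_lit 2232233050) (nat_lit 152) (nat_lit 23154835211) (nat_lit 10) (nat_lit 5) (nat_lit 11) (nat_lit 5) (nat_lit 12) (nat_lit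 4) (nat_lit 323) (nat_lit 238) (nat_lit 219)) (XT.nd (nat_lit 78) (nat_lit 0) (nat_lit 0) (XT.lf (nat_lit 0) (nat_lit 12248272039) (nat_lit 152) (nat_lit 15718202978) (nat_lit 0) (nat_lit 3151245274) (nat_lit 10) (nat_lit 5) (nat_lit 12) (nat_lit 4) (nat_lit 10) (nat_lit 4) (nat_lit 324) (nat_lit 238) (nat_lit 218)) (XT.lf (nat_lit 0) (nat_lit 18019251284) (nat_lit 152) (nat_lit 5814984891) (nat_lit 0) (nat_lit 8660207734) (nat_lit 10) (nat_lit 5) (nat_lit 12) (nat_lit 4) (nat_lit 10) (nat_lit 4) (nat_lit 325) (nat_lit 238) (nat_lit 217))))) (XT.nd (nat_lit 234) (nat_lit 152) (nat_lit 0) (XT.nd (nat_lit 78) (nat_lit 0) (nat_lit 0) (XT.lf (nat_lit 0) (nat_lit 4454546934) (nat_lit 76) (nat_lit 19548186055) (nat_lit 76) (nat_lit 9939602708) (nat_lit 9) (nat_lit 4) (nat_lit 10) (nat_lit 5) (nat_lit 10) (nat_lit 4) (nat_lit 326) (nat_lit 238) (nat_lit 216)) (XT.nd (nat_lit 78) (nat_lit 0) (nat_lit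 0) (XT.lf (nat_lit 0) (nat_lit 15149485057) (nat_lit 76) (nat_lit 15080543157) (nat_lit 76) (nat_lit 5234302861) (nat_lit 9) (nat_lit 4) (nat_lit 10) (nat_lit 5) (nat_lit 10) (nat_lit 4) (nat_lit 327) (nat_lit 238) (nat_lit 215)) (XT.lf (nat_lit 0) (nat_lit 26179564013) (nat_lit 76) (nat_lit 10479390183) (nat_lit 76) (nat_lit 406809936) (nat_lit 9) (nat_lit 4) (nat_lit 10) (nat_lit 5) (nat_lit 10) (nat_lit 4) (nat_lit 328) (nat_lit 238) (nat_lit 214)))) (XT.nd (nat_lit 156) (nat_lit 0) (nat_lit 0) (XT.nd (nat_lit 78) (nat_lit 76) (nat_lit 0) (XT.lf (nat_lit 0) (nat_lit 4465497933) (nat_lit 152) (nat_lit 1223181300) (nat_lit 76) (nat_lit 33060455189) (nat_lit 8) (nat_lit 5) (nat_lit 10) (nat_lit 5) (nat_lit 9) (nat_lit 4) (nat_lit 329) (nat_lit 238) (nat_lit 213)) (XT.lf (nat_lit 0) (nat_lit 8909651511) (nat_lit 76) (nat_lit 648521209) (nat_lit 152) (nat_lit 30958865133) (nat_lit 7) (nat_lit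 5) (nat_lit 8) (nat_lit 5) (nat_lit 9) (nat_lit 4) (nat_lit 330) (nat_lit 238) (nat_lit 212))) (XT.nd (nat_lit 78) (nat_lit 0) (nat_lit 0) (XT.lf (nat_lit 0) (nat_lit 14864583256) (nat_lit 152) (nat_lit 23023066509) (nat_lit 0) (nat_lit 4486952118) (nat_lit 7) (nat_lit 5) (nat_lit 9) (nat_lit 4) (nat_lit 7) (nat_lit 4) (nat_lit 331) (nat_lit 238) (nat_lit 211)) (XT.lf (nat_lit 0) (nat_lit 20349286869) (nat_lit 152) (nat_lit 14187535825) (nat_lit 0) (nat_lit 9790868898) (nat_lit 7) (nat_lit 5) (nat_lit 9) (nat_lit 4) (nat_lit 7) (nat_lit 4) (nat_lit 332) (nat_lit 238) (nat_lit 210))))))))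
noncomputable def xc17 : XT := (XT.nd (nat_lit 2028) (nat_lit 76) (nat_lit 0) (XT.nd (nat_lit 1014) (nat_lit 76) (nat_lit 0) (XT.nd (nat_lit 468) (nat_lit 152) (nat_lit 0) (XT.nd (nat_lit 234) (nat_lit 0) (nat_lit 0) (XT.nd (nat_lit 78) (nat_lit 76) (nat_lit 0) (XT.lf (nat_lit 0) (nat_lit 26019108395) (nat_lit 152) (nat_lit 5073523328) (nat_lit 0) (nat_lit 15288512489) (nat_lit 7) (nat_lit 5) (nat_lit 9) (nat_lit 4) (nat_lit 7) (nat_lit 4) (nat_lit 333) (nat_lit 238) (nat_lit 209)) (XT.nd (nat_lit 78) (nat_lit 0) (nat_lit 0) (XT.lf (nat_lit 0) (nat_lit 4427058872) (nat_lit 76) (nat_lit 27503044136) (nat_lit 76) (nat_lit 16608469242) (nat_lit 6) (nat_lit 4) (nat_lit 7) (nat_lit 5) (nat_lit 7) (nat_lit 4) (nat_lit 334) (nat_lit 238) (nat_lit 208)) (XT.lf (nat_lit 0) (nat_lit 14357631031) (nat_lit 76) (nat_lit 23748959689) (nat_lit 76) (nat_lit 12698214332) (nat_lit 6) (nat_lit 4) (nat_lit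 7) (nat_lit 5) (nat_lit 7) (nat_lit 4) (nat_lit 335) (nat_lit 238) (nat_lit 207)))) (XT.nd (nat_lit 78) (nat_lit 0) (nat_lit 0) (XT.lf (nat_lit 0) (nat_lit 24640864303) (nat_lit 76) (nat_lit 19872672726) (nat_lit 76) (nat_lit 8673193594) (nat_lit 6) (nat_lit 4) (nat_lit 7) (nat_lit 5) (nat_lit 7) (nat_lit 4) (nat_lit 336) (nat_lit 238) (nat_lit 206)) (XT.nd (nat_lit 78) (nat_lit 0) (nat_lit 0) (XT.lf (nat_lit 0) (nat_lit 35301242578) (nat_lit 76) (nat_lit 15864953991) (nat_lit 76) (nat_lit 4523823645) (nat_lit 6) (nat_lit 4) (nat_lit 7) (nat_lit 5) (nat_lit 7) (nat_lit 4) (nat_lit 337) (nat_lit 238) (nat_lit 205)) (XT.lf (nat_lit 0) (nat_lit 46364147709) (nat_lit 76) (nat_lit 11716261297) (nat_lit 76) (nat_lit 240225033) (nat_lit 6) (nat_lit 4) (nat_lit 7) (nat_lit 5) (nat_lit 7) (nat_lit 4) (nat_lit 338) (nat_lit 238) (nat_lit 204))))) (XT.nd (nat_lit 234) (nat_lit 0) (nat_lit 0) (XT.nd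 (nat_lit 78) (nat_lit 76) (nat_lit 0) (XT.lf (nat_lit 0) (nat_lit 4106082198) (nat_lit 152) (nat_lit 3269171227) (nat_lit 76) (nat_lit 53708374367) (nat_lit 5) (nat_lit 5) (nat_lit 7) (nat_lit 5) (nat_lit 6) (nat_lit 4) (nat_lit 339) (nat_lit 238) (nat_lit 203)) (XT.nd (nat_lit 78) (nat_lit 0) (nat_lit 0) (XT.lf (nat_lit 0) (nat_lit 5844450734) (nat_lit 76) (nat_lit 2811378068) (nat_lit 152) (nat_lit 55329162397) (nat_lit 4) (nat_lit 5) (nat_lit 5) (nat_lit 5) (nat_lit 6) (nat_lit 4) (nat_lit 340) (nat_lit 238) (nat_lit 202)) (XT.lf (nat_lit 0) (nat_lit 13422428144) (nat_lit 152) (nat_lit 51685373069) (nat_lit 0) (nat_lit 1923963541) (nat_lit 4) (nat_lit 5) (nat_lit 6) (nat_lit 4) (nat_lit 4) (nat_lit 4) (nat_lit 341) (nat_lit 238) (nat_lit 201)))) (XT.nd (nat_lit 156) (nat_lit 0) (nat_lit 0) (XT.nd (nat_lit 78) (nat_lit 0) (nat_lit 0) (XT.lf (nat_lit 0) (nat_lit 18395104189) (nat_lit 152)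 (nat_lit 45047877444) (nat_lit 0) (nat_lit 6788884798) (nat_lit 4) (nat_lit 5) (nat_lit 6) (nat_lit 4) (nat_lit 4) (nat_lit 4) (nat_lit 342) (nat_lit 238) (nat_lit 200)) (XT.lf (nat_lit 0) (nat_lit 23558671959) (nat_lit 152) (nat_lit 38185225343) (nat_lit 0) (nat_lit 11849828959) (nat_lit 4) (nat_lit 5) (nat_lit 6) (nat_lit 4) (nat_lit 4) (nat_lit 4) (nat_lit 343) (nat_lit 238) (nat_lit 199))) (XT.nd (nat_lit 78) (nat_lit 0) (nat_lit 0) (XT.lf (nat_lit 0) (nat_lit 28925425661) (nat_lit 152) (nat_lit 31081077119) (nat_lit 0) (nat_lit 17118845891) (nat_lit 4) (nat_lit 5) (nat_lit 6) (nat_lit 4) (nat_lit 4) (nat_lit 4) (nat_lit 344) (nat_lit 238) (nat_lit 198)) (XT.lf (nat_lit 0) (nat_lit 34508143281) (nat_lit 152) (nat_lit 23718518133) (nat_lit 0) (nat_lit 22608480873) (nat_lit 4) (nat_lit 5) (nat_lit 6) (nat_lit 4) (nat_lit 4) (nat_lit 4) (nat_lit 345) (nat_lit 238) (nat_lit 197)))))) (XT.nd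 (nat_lit 468) (nat_lit 0) (nat_lit 0) (XT.nd (nat_lit 234) (nat_lit 0) (nat_lit 0) (XT.nd (nat_lit 78) (nat_lit 76) (nat_lit 0) (XT.lf (nat_lit 0) (nat_lit 40320117004) (nat_lit 152) (nat_lit 16080018484) (nat_lit 0) (nat_lit 28331804464) (nat_lit 4) (nat_lit 5) (nat_lit 6) (nat_lit 4) (nat_lit 4) (nat_lit 4) (nat_lit 346) (nat_lit 238) (nat_lit 196)) (XT.nd (nat_lit 78) (nat_lit 76) (nat_lit 0) (XT.lf (nat_lit 0) (nat_lit 46375184863) (nat_lit 152) (nat_lit 8147391266) (nat_lit 0) (nat_lit 34302443626) (nat_lit 4) (nat_lit 5) (nat_lit 6) (nat_lit 4) (nat_lit 4) (nat_lit 4) (nat_lit 347) (nat_lit 238) (nat_lit 195)) (XT.lf (nat_lit 0) (nat_lit 100206109) (nat_lit 76) (nat_lit 52588520817) (nat_lit 76) (nat_lit 40435371298) (nat_lit 3) (nat_lit 4) (nat_lit 4) (nat_lit 5) (nat_lit 4) (nat_lit 4) (nat_lit 348) (nat_lit 238) (nat_lit 194)))) (XT.nd (nat_lit 78) (nat_lit 0) (nat_lit 0) (XT.lf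 (nat_lit 0) (nat_lit 8849220135) (nat_lit 76) (nat_lit 50508727401) (nat_lit 76) (nat_lit 38278998564) (nat_lit 3) (nat_lit 4) (nat_lit 4) (nat_lit 5) (nat_lit 4) (nat_lit 4) (nat_lit 349) (nat_lit 238) (nat_lit 193)) (XT.nd (nat_lit 78) (nat_lit 0) (nat_lit 0) (XT.lf (nat_lit 0) (nat_lit 17958332737) (nat_lit 76) (nat_lit 48360516667) (nat_lit 76) (nat_lit 36057855147) (nat_lit 3) (nat_lit 4) (nat_lit 4) (nat_lit 5) (nat_lit 4) (nat_lit 4) (nat_lit 350) (nat_lit 238) (nat_lit 192)) (XT.lf (nat_lit 0) (nat_lit 27449232277) (nat_lit 76) (nat_lit 46138773827) (nat_lit 76) (nat_lit 33766652610) (nat_lit 3) (nat_lit 4) (nat_lit 4) (nat_lit 5) (nat_lit 4) (nat_lit 4) (nat_lit 351) (nat_lit 238) (nat_lit 191))))) (XT.nd (nat_lit 234) (nat_lit 0) (nat_lit 0) (XT.nd (nat_lit 78) (nat_lit 0) (nat_lit 0) (XT.lf (nat_lit 0) (nat_lit 37344516136) (nat_lit 76) (nat_lit 43838209019) (nat_lit 76) (nat_lit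 31399935709) (nat_lit 3) (nat_lit 4) (nat_lit 4) (nat_lit 5) (nat_lit 4) (nat_lit 4) (nat_lit 352) (nat_lit 238) (nat_lit 190)) (XT.nd (nat_lit 78) (nat_lit 0) (nat_lit 0) (XT.lf (nat_lit 0) (nat_lit 47667744512) (nat_lit 76) (nat_lit 41453344706) (nat_lit 76) (nat_lit 28952069403) (nat_lit 3) (nat_lit 4) (nat_lit 4) (nat_lit 5) (nat_lit 4) (nat_lit 4) (nat_lit 353) (nat_lit 238) (nat_lit 189)) (XT.lf (nat_lit 0) (nat_lit 58443496521) (nat_lit 76) (nat_lit 38978502641) (nat_lit 76) (nat_lit 26417225439) (nat_lit 3) (nat_lit 4) (nat_lit 4) (nat_lit 5) (nat_lit 4) (nat_lit 4) (nat_lit 354) (nat_lit 238) (nat_lit 188)))) (XT.nd (nat_lit 156) (nat_lit 0) (nat_lit 0) (XT.nd (nat_lit 78) (nat_lit 0) (nat_lit 0) (XT.lf (nat_lit 0) (nat_lit 69697428717) (nat_lit 76) (nat_lit 36407790342) (nat_lit 76) (nat_lit 23789368474) (nat_lit 3) (nat_lit 4) (nat_lit 4) (nat_lit 5) (nat_lit 4) (nat_lit 4) (nat_lit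 355) (nat_lit 238) (nat_lit 187)) (XT.lf (nat_lit 0) (nat_lit 81456336174) (nat_lit 76) (nat_lit 33735087065) (nat_lit 76) (nat_lit 21062241707) (nat_lit 3) (nat_lit 4) (nat_lit 4) (nat_lit 5) (nat_lit 4) (nat_lit 4) (nat_lit 356) (nat_lit 238) (nat_lit 186))) (XT.nd (nat_lit 78) (nat_lit 0) (nat_lit 0) (XT.lf (nat_lit 0) (nat_lit 93748216292) (nat_lit 76) (nat_lit 30954029232) (nat_lit 76) (nat_lit 18229351978) (nat_lit 3) (nat_lit 4) (nat_lit 4) (nat_lit 5) (nat_lit 4) (nat_lit 4) (nat_lit 357) (nat_lit 238) (nat_lit 185)) (XT.lf (nat_lit 0) (nat_lit 106602335452) (nat_lit 76) (nat_lit 28057995276) (nat_lit 76) (nat_lit 15283954312) (nat_lit 3) (nat_lit 4) (nat_lit 4) (nat_lit 5) (nat_lit 4) (nat_lit 4) (nat_lit 358) (nat_lit 238) (nat_lit 184))))))) (XT.nd (nat_lit 36816) (nat_lit 0) (nat_lit 608) (XT.nd (nat_lit 36270) (nat_lit 0) (nat_lit 1748) (XT.nd (nat_lit 234) (nat_lit 76) (nat_lit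 0) (XT.nd (nat_lit 78) (nat_lit 0) (nat_lit 0) (XT.lf (nat_lit 0) (nat_lit 120049298700) (nat_lit 76) (nat_lit 25040089879) (nat_lit 76) (nat_lit 12219035857) (nat_lit 3) (nat_lit 4) (nat_lit 4) (nat_lit 5) (nat_lit 4) (nat_lit 4) (nat_lit 359) (nat_lit 238) (nat_lit 183)) (XT.nd (nat_lit 78) (nat_lit 0) (nat_lit 0) (XT.lf (nat_lit 0) (nat_lit 134121122615) (nat_lit 76) (nat_lit 21893127550) (nat_lit 76) (nat_lit 9027299188) (nat_lit 3) (nat_lit 4) (nat_lit 4) (nat_lit 5) (nat_lit 4) (nat_lit 4) (nat_lit 360) (nat_lit 238) (nat_lit 182)) (XT.lf (nat_lit 0) (nat_lit 148851311540) (nat_lit 76) (nat_lit 18609615524) (nat_lit 76) (nat_lit 5701144932) (nat_lit 3) (nat_lit 4) (nat_lit 4) (nat_lit 5) (nat_lit 4) (nat_lit 4) (nat_lit 361) (nat_lit 238) (nat_lit 181)))) (XT.nd (nat_lit 78) (nat_lit 76) (nat_lit 0) (XT.lf (nat_lit 0) (nat_lit 164274937353) (nat_lit 76) (nat_lit 15181735913) (nat_lit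 76) (nat_lit 2232653674) (nat_lit 3) (nat_lit 4) (nat_lit 4) (nat_lit 5) (nat_lit 4) (nat_lit 4) (nat_lit 362) (nat_lit 238) (nat_lit 180)) (XT.nd (nat_lit 35880) (nat_lit 0) (nat_lit 2660) (XT.lf (nat_lit 0) (nat_lit 1359378597) (nat_lit 152) (nat_lit 10228221444) (nat_lit 76) (nat_lit 179055617316) (nat_lit 2) (nat_lit 5) (nat_lit 4) (nat_lit 5) (nat_lit 3) (nat_lit 4) (nat_lit 363) (nat_lit 238) (nat_lit 179)) (XT.lf (nat_lit 0) (nat_lit 1501755499) (nat_lit 152) (nat_lit 2606670772) (nat_lit 152) (nat_lit 2606670772) (nat_lit 37) (nat_lit 4) (nat_lit 39) (nat_lit 5) (nat_lit 39) (nat_lit 4) (nat_lit 302) (nat_lit 239) (nat_lit 239))))) (XT.nd (nat_lit 234) (nat_lit 532) (nat_lit 0) (XT.nd (nat_lit 78) (nat_lit 152) (nat_lit 0) (XT.lf (nat_lit 0) (nat_lit 1275439715) (nat_lit 228) (nat_lit 12191944412) (nat_lit 0) (nat_lit 403818598) (nat_lit 34) (nat_lit 5) (nat_lit 37) (nat_lit 4) (nat_lit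 34) (nat_lit 4) (nat_lit 303) (nat_lit 239) (nat_lit 238)) (XT.nd (nat_lit 78) (nat_lit 152) (nat_lit 0) (XT.lf (nat_lit 0) (nat_lit 7899791482) (nat_lit 228) (nat_lit 237466543) (nat_lit 0) (nat_lit 6198055015) (nat_lit 34) (nat_lit 5) (nat_lit 37) (nat_lit 4) (nat_lit 34) (nat_lit 4) (nat_lit 304) (nat_lit 239) (nat_lit 237)) (XT.lf (nat_lit 0) (nat_lit 12163025559) (nat_lit 152) (nat_lit 2577761662) (nat_lit 152) (nat_lit 85439149) (nat_lit 32) (nat_lit 4) (nat_lit 34) (nat_lit 5) (nat_lit 34) (nat_lit 4) (nat_lit 305) (nat_lit 239) (nat_lit 236)))) (XT.nd (nat_lit 156) (nat_lit 152) (nat_lit 0) (XT.nd (nat_lit 78) (nat_lit 152) (nat_lit 0) (XT.lf (nat_lit 0) (nat_lit 6353269341) (nat_lit 228) (nat_lit 5787149266) (nat_lit 0) (nat_lit 3202529917) (nat_lit 29) (nat_lit 5) (nat_lit 32) (nat_lit 4) (nat_lit 29) (nat_lit 4) (nat_lit 306) (nat_lit 239) (nat_lit 235)) (XT.lf (nat_lit 0) (nat_lit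 6275171535) (nat_lit 152) (nat_lit 6730294866) (nat_lit 152) (nat_lit 2883356558) (nat_lit 27) (nat_lit 4) (nat_lit 29) (nat_lit 5) (nat_lit 29) (nat_lit 4) (nat_lit 307) (nat_lit 239) (nat_lit 234))) (XT.nd (nat_lit 78) (nat_lit 0) (nat_lit 0) (XT.lf (nat_lit 0) (nat_lit 2240072258) (nat_lit 76) (nat_lit 1085079033) (nat_lit 152) (nat_lit 13139981301) (nat_lit 25) (nat_lit 5) (nat_lit 26) (nat_lit 5) (nat_lit 27) (nat_lit 4) (nat_lit 308) (nat_lit 239) (nat_lit 233)) (XT.lf (nat_lit 0) (nat_lit 9720897725) (nat_lit 152) (nat_lit 2621343327) (nat_lit 0) (nat_lit 4729191149) (nat_lit 25) (nat_lit 5) (nat_lit 27) (nat_lit 4) (nat_lit 25) (nat_lit 4) (nat_lit 309) (nat_lit 239) (nat_lit 232)))))) (XT.nd (nat_lit 546) (nat_lit 380) (nat_lit 0) (XT.nd (nat_lit 234) (nat_lit 456) (nat_lit 0) (XT.nd (nat_lit 78) (nat_lit 152) (nat_lit 0) (XT.lf (nat_lit 0) (nat_lit 9387356938) (nat_lit 152) (nat_lit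 6949691247) (nat_lit 152) (nat_lit 1374098485) (nat_lit 23) (nat_lit 4) (nat_lit 25) (nat_lit 5) (nat_lit 25) (nat_lit 4) (nat_lit 310) (nat_lit 239) (nat_lit 231)) (XT.nd (nat_lit 78) (nat_lit 0) (nat_lit 0) (XT.lf (nat_lit 0) (nat_lit 3345649908) (nat_lit 76) (nat_lit 1322982974) (nat_lit 152) (nat_lit 13717016667) (nat_lit 21) (nat_lit 5) (nat_lit 22) (nat_lit 5) (nat_lit 23) (nat_lit 4) (nat_lit 311) (nat_lit 239) (nat_lit 230)) (XT.lf (nat_lit 0) (nat_lit 10924454524) (nat_lit 152) (nat_lit 3713742516) (nat_lit 0) (nat_lit 4457195468) (nat_lit 21) (nat_lit 5) (nat_lit 23) (nat_lit 4) (nat_lit 21) (nat_lit 4) (nat_lit 312) (nat_lit 239) (nat_lit 229)))) (XT.nd (nat_lit 156) (nat_lit 228) (nat_lit 0) (XT.nd (nat_lit 78) (nat_lit 76) (nat_lit 0) (XT.lf (nat_lit 0) (nat_lit 8001470951) (nat_lit 152) (nat_lit 9399482744) (nat_lit 152) (nat_lit 2442531610) (nat_lit 19) (nat_lit 4) (nat_lit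 21) (nat_lit 5) (nat_lit 21) (nat_lit 4) (nat_lit 313) (nat_lit 239) (nat_lit 228)) (XT.lf (nat_lit 0) (nat_lit 3362666772) (nat_lit 228) (nat_lit 597110993) (nat_lit 76) (nat_lit 16672464205) (nat_lit 18) (nat_lit 5) (nat_lit 21) (nat_lit 5) (nat_lit 19) (nat_lit 4) (nat_lit 314) (nat_lit 239) (nat_lit 227))) (XT.nd (nat_lit 78) (nat_lit 152) (nat_lit 0) (XT.lf (nat_lit 0) (nat_lit 9361671030) (nat_lit 152) (nat_lit 10376174004) (nat_lit 0) (nat_lit 1723331523) (nat_lit 17) (nat_lit 5) (nat_lit 19) (nat_lit 4) (nat_lit 17) (nat_lit 4) (nat_lit 315) (nat_lit 239) (nat_lit 226)) (XT.lf (nat_lit 0) (nat_lit 711329189) (nat_lit 152) (nat_lit 14836366487) (nat_lit 152) (nat_lit 6787333359) (nat_lit 15) (nat_lit 4) (nat_lit 17) (nat_lit 5) (nat_lit 17) (nat_lit 4) (nat_lit 316) (nat_lit 239) (nat_lit 225))))) (XT.nd (nat_lit 234) (nat_lit 228) (nat_lit 0) (XT.nd (nat_lit 78) (nat_lit 152) (nat_lit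 0) (XT.lf (nat_lit 0) (nat_lit 12283641147) (nat_lit 152) (nat_lit 9705400794) (nat_lit 152) (nat_lit 1265230885) (nat_lit 15) (nat_lit 4) (nat_lit 17) (nat_lit 5) (nat_lit 17) (nat_lit 4) (nat_lit 317) (nat_lit 239) (nat_lit 224)) (XT.nd (nat_lit 78) (nat_lit 76) (nat_lit 0) (XT.lf (nat_lit 0) (nat_lit 4289795406) (nat_lit 228) (nat_lit 104396455) (nat_lit 76) (nat_lit 19828694858) (nat_lit 14) (nat_lit 5) (nat_lit 17) (nat_lit 5) (nat_lit 15) (nat_lit 4) (nat_lit 318) (nat_lit 239) (nat_lit 223)) (XT.lf (nat_lit 0) (nat_lit 10068879347) (nat_lit 152) (nat_lit 14003132943) (nat_lit 0) (nat_lit 1168438841) (nat_lit 13) (nat_lit 5) (nat_lit 15) (nat_lit 4) (nat_lit 13) (nat_lit 4) (nat_lit 319) (nat_lit 239) (nat_lit 222)))) (XT.nd (nat_lit 156) (nat_lit 152) (nat_lit 0) (XT.nd (nat_lit 78) (nat_lit 76) (nat_lit 0) (XT.lf (nat_lit 0) (nat_lit 16038478405) (nat_lit 152) (nat_lit 3463434673)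 (nat_lit 0) (nat_lit 6810000368) (nat_lit 13) (nat_lit 5) (nat_lit 15) (nat_lit 4) (nat_lit 13) (nat_lit 4) (nat_lit 320) (nat_lit 239) (nat_lit 221)) (XT.lf (nat_lit 0) (nat_lit 7503467223) (nat_lit 76) (nat_lit 14738193318) (nat_lit 76) (nat_lit 5197298583) (nat_lit 12) (nat_lit 4) (nat_lit 13) (nat_lit 5) (nat_lit 13) (nat_lit 4) (nat_lit 321) (nat_lit 239) (nat_lit 220))) (XT.nd (nat_lit 78) (nat_lit 76) (nat_lit 0) (XT.lf (nat_lit 0) (nat_lit 31889741) (nat_lit 152) (nat_lit 9773698271) (nat_lit 76) (nat_lit 18819734388) (nat_lit 11) (nat_lit 5) (nat_lit 13) (nat_lit 5) (nat_lit 12) (nat_lit 4) (nat_lit 322) (nat_lit 239) (nat_lit 219)) (XT.lf (nat_lit 0) (nat_lit 625579980) (nat_lit 76) (nat_lit 4668698630) (nat_lit 152) (nat_lit 24578860380) (nat_lit 10) (nat_lit 5) (nat_lit 11) (nat_lit 5) (nat_lit 12) (nat_lit 4) (nat_lit 323) (nat_lit 239) (nat_lit 218))))))))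
noncomputable def xc18 : XT := (XT.nd (nat_lit 2028) (nat_lit 0) (nat_lit 0) (XT.nd (nat_lit 1014) (nat_lit 228) (nat_lit 0) (XT.nd (nat_lit 468) (nat_lit 152) (nat_lit 0) (XT.nd (nat_lit 234) (nat_lit 76) (nat_lit 0) (XT.nd (nat_lit 78) (nat_lit 76) (nat_lit 0) (XT.lf (nat_lit 0) (nat_lit 10803554510) (nat_lit 152) (nat_lit 19665789999) (nat_lit 0) (nat_lit 714541996) (nat_lit 10) (nat_lit 5) (nat_lit 12) (nat_lit 4) (nat_lit 10) (nat_lit 4) (nat_lit 324) (nat_lit 239) (nat_lit 217)) (XT.nd (nat_lit 78) (nat_lit 76) (nat_lit 0) (XT.lf (nat_lit 0) (nat_lit 16516550179) (nat_lit 152) (nat_lit 9867826263) (nat_lit 0) (nat_lit 6177997869) (nat_lit 10) (nat_lit 5) (nat_lit 12) (nat_lit 4) (nat_lit 10) (nat_lit 4) (nat_lit 325) (nat_lit 239) (nat_lit 216)) (XT.lf (nat_lit 0) (nat_lit 218808815) (nat_lit 76) (nat_lit 22185284107) (nat_lit 76) (nat_lit 11609074849) (nat_lit 9) (nat_lit 4) (nat_lit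 10) (nat_lit 5) (nat_lit 10) (nat_lit 4) (nat_lit 326) (nat_lit 239) (nat_lit 215)))) (XT.nd (nat_lit 78) (nat_lit 76) (nat_lit 0) (XT.lf (nat_lit 0) (nat_lit 10816378122) (nat_lit 76) (nat_lit 17761481243) (nat_lit 76) (nat_lit 6958932033) (nat_lit 9) (nat_lit 4) (nat_lit 10) (nat_lit 5) (nat_lit 10) (nat_lit 4) (nat_lit 327) (nat_lit 239) (nat_lit 214)) (XT.nd (nat_lit 78) (nat_lit 76) (nat_lit 0) (XT.lf (nat_lit 0) (nat_lit 21753724873) (nat_lit 76) (nat_lit 13202080682) (nat_lit 76) (nat_lit 2183969614) (nat_lit 9) (nat_lit 4) (nat_lit 10) (nat_lit 5) (nat_lit 10) (nat_lit 4) (nat_lit 328) (nat_lit 239) (nat_lit 213)) (XT.lf (nat_lit 0) (nat_lit 2673964235) (nat_lit 152) (nat_lit 5795260677) (nat_lit 76) (nat_lit 30355924338) (nat_lit 8) (nat_lit 5) (nat_lit 10) (nat_lit 5) (nat_lit 9) (nat_lit 4) (nat_lit 329) (nat_lit 239) (nat_lit 212))))) (XT.nd (nat_lit 234) (nat_lit 76) (nat_lit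 0) (XT.nd (nat_lit 78) (nat_lit 0) (nat_lit 0) (XT.lf (nat_lit 0) (nat_lit 4159826564) (nat_lit 76) (nat_lit 3514437277) (nat_lit 152) (nat_lit 32921578870) (nat_lit 7) (nat_lit 5) (nat_lit 8) (nat_lit 5) (nat_lit 9) (nat_lit 4) (nat_lit 330) (nat_lit 239) (nat_lit 211)) (XT.nd (nat_lit 78) (nat_lit 0) (nat_lit 0) (XT.lf (nat_lit 0) (nat_lit 12907480009) (nat_lit 152) (nat_lit 27907786136) (nat_lit 0) (nat_lit 1640354307) (nat_lit 7) (nat_lit 5) (nat_lit 9) (nat_lit 4) (nat_lit 7) (nat_lit 4) (nat_lit 331) (nat_lit 239) (nat_lit 210)) (XT.lf (nat_lit 0) (nat_lit 18348711784) (nat_lit 152) (nat_lit 19151911413) (nat_lit 0) (nat_lit 6909408146) (nat_lit 7) (nat_lit 5) (nat_lit 9) (nat_lit 4) (nat_lit 7) (nat_lit 4) (nat_lit 332) (nat_lit 239) (nat_lit 209)))) (XT.nd (nat_lit 156) (nat_lit 76) (nat_lit 0) (XT.nd (nat_lit 78) (nat_lit 0) (nat_lit 0) (XT.lf (nat_lit 0) (nat_lit 23977131561) (nat_lit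 152) (nat_lit 10113761738) (nat_lit 0) (nat_lit 12373848936) (nat_lit 7) (nat_lit 5) (nat_lit 9) (nat_lit 4) (nat_lit 7) (nat_lit 4) (nat_lit 333) (nat_lit 239) (nat_lit 208)) (XT.lf (nat_lit 0) (nat_lit 29806140338) (nat_lit 152) (nat_lit 771817707) (nat_lit 0) (nat_lit 18046687249) (nat_lit 7) (nat_lit 5) (nat_lit 9) (nat_lit 4) (nat_lit 7) (nat_lit 4) (nat_lit 334) (nat_lit 239) (nat_lit 207))) (XT.nd (nat_lit 78) (nat_lit 0) (nat_lit 0) (XT.lf (nat_lit 0) (nat_lit 9073214500) (nat_lit 76) (nat_lit 26863619495) (nat_lit 76) (nat_lit 14955432632) (nat_lit 6) (nat_lit 4) (nat_lit 7) (nat_lit 5) (nat_lit 7) (nat_lit 4) (nat_lit 335) (nat_lit 239) (nat_lit 206)) (XT.lf (nat_lit 0) (nat_lit 19289610376) (nat_lit 76) (nat_lit 23017763057) (nat_lit 76) (nat_lit 10967924979) (nat_lit 6) (nat_lit 4) (nat_lit 7) (nat_lit 5) (nat_lit 7) (nat_lit 4) (nat_lit 336) (nat_lit 239) (nat_lit 205))))))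 (XT.nd (nat_lit 468) (nat_lit 76) (nat_lit 0) (XT.nd (nat_lit 234) (nat_lit 76) (nat_lit 0) (XT.nd (nat_lit 78) (nat_lit 76) (nat_lit 0) (XT.lf (nat_lit 0) (nat_lit 29886333989) (nat_lit 76) (nat_lit 19039025775) (nat_lit 76) (nat_lit 6854281779) (nat_lit 6) (nat_lit 4) (nat_lit 7) (nat_lit 5) (nat_lit 7) (nat_lit 4) (nat_lit 337) (nat_lit 239) (nat_lit 204)) (XT.nd (nat_lit 78) (nat_lit 76) (nat_lit 0) (XT.lf (nat_lit 0) (nat_lit 40888615631) (nat_lit 76) (nat_lit 14917934464) (nat_lit 76) (nat_lit 2604708642) (nat_lit 6) (nat_lit 4) (nat_lit 7) (nat_lit 5) (nat_lit 7) (nat_lit 4) (nat_lit 338) (nat_lit 239) (nat_lit 203)) (XT.lf (nat_lit 0) (nat_lit 1755965310) (nat_lit 152) (nat_lit 8870979887) (nat_lit 76) (nat_lit 50548954096) (nat_lit 5) (nat_lit 5) (nat_lit 7) (nat_lit 5) (nat_lit 6) (nat_lit 4) (nat_lit 339) (nat_lit 239) (nat_lit 202)))) (XT.nd (nat_lit 78) (nat_lit 0) (nat_lit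 0) (XT.lf (nat_lit 0) (nat_lit 74447823) (nat_lit 76) (nat_lit 6145539415) (nat_lit 152) (nat_lit 57859858392) (nat_lit 4) (nat_lit 5) (nat_lit 5) (nat_lit 5) (nat_lit 6) (nat_lit 4) (nat_lit 340) (nat_lit 239) (nat_lit 201)) (XT.nd (nat_lit 78) (nat_lit 0) (nat_lit 0) (XT.lf (nat_lit 0) (nat_lit 9541810105) (nat_lit 76) (nat_lit 1396576007) (nat_lit 152) (nat_lit 56189689743) (nat_lit 4) (nat_lit 5) (nat_lit 5) (nat_lit 5) (nat_lit 6) (nat_lit 4) (nat_lit 341) (nat_lit 239) (nat_lit 200)) (XT.lf (nat_lit 0) (nat_lit 15869470548) (nat_lit 152) (nat_lit 50987403093) (nat_lit 0) (nat_lit 3472561789) (nat_lit 4) (nat_lit 5) (nat_lit 6) (nat_lit 4) (nat_lit 4) (nat_lit 4) (nat_lit 342) (nat_lit 239) (nat_lit 199))))) (XT.nd (nat_lit 234) (nat_lit 76) (nat_lit 0) (XT.nd (nat_lit 78) (nat_lit 0) (nat_lit 0) (XT.lf (nat_lit 0) (nat_lit 21006212729) (nat_lit 152) (nat_lit 44174329764) (nat_lit 0)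 (nat_lit 8511567201) (nat_lit 4) (nat_lit 5) (nat_lit 6) (nat_lit 4) (nat_lit 4) (nat_lit 4) (nat_lit 343) (nat_lit 239) (nat_lit 198)) (XT.nd (nat_lit 78) (nat_lit 0) (nat_lit 0) (XT.lf (nat_lit 0) (nat_lit 26347418253) (nat_lit 152) (nat_lit 37117399418) (nat_lit 0) (nat_lit 13759690086) (nat_lit 4) (nat_lit 5) (nat_lit 6) (nat_lit 4) (nat_lit 4) (nat_lit 4) (nat_lit 344) (nat_lit 239) (nat_lit 197)) (XT.lf (nat_lit 0) (nat_lit 31905804274) (nat_lit 152) (nat_lit 29799809840) (nat_lit 0) (nat_lit 19229425975) (nat_lit 4) (nat_lit 5) (nat_lit 6) (nat_lit 4) (nat_lit 4) (nat_lit 4) (nat_lit 345) (nat_lit 239) (nat_lit 196)))) (XT.nd (nat_lit 156) (nat_lit 76) (nat_lit 0) (XT.nd (nat_lit 78) (nat_lit 0) (nat_lit 0) (XT.lf (nat_lit 0) (nat_lit 37694605045) (nat_lit 152) (nat_lit 22204138197) (nat_lit 0) (nat_lit 24933798049) (nat_lit 4) (nat_lit 5) (nat_lit 6) (nat_lit 4) (nat_lit 4) (nat_lit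 4) (nat_lit 346) (nat_lit 239) (nat_lit 195)) (XT.lf (nat_lit 0) (nat_lit 43727603425) (nat_lit 152) (nat_lit 14312299557) (nat_lit 0) (nat_lit 30886388147) (nat_lit 4) (nat_lit 5) (nat_lit 6) (nat_lit 4) (nat_lit 4) (nat_lit 4) (nat_lit 347) (nat_lit 239) (nat_lit 194))) (XT.nd (nat_lit 78) (nat_lit 76) (nat_lit 0) (XT.lf (nat_lit 0) (nat_lit 50019163697) (nat_lit 152) (nat_lit 6105503828) (nat_lit 0) (nat_lit 37101369102) (nat_lit 4) (nat_lit 5) (nat_lit 6) (nat_lit 4) (nat_lit 4) (nat_lit 4) (nat_lit 348) (nat_lit 239) (nat_lit 193)) (XT.lf (nat_lit 0) (nat_lit 2484265955) (nat_lit 76) (nat_lit 54123880094) (nat_lit 76) (nat_lit 41133152816) (nat_lit 3) (nat_lit 4) (nat_lit 4) (nat_lit 5) (nat_lit 4) (nat_lit 4) (nat_lit 349) (nat_lit 239) (nat_lit 192))))))) (XT.nd (nat_lit 1014) (nat_lit 0) (nat_lit 0) (XT.nd (nat_lit 468) (nat_lit 0) (nat_lit 0) (XT.nd (nat_lit 234) (nat_lit 0) (nat_lit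 0) (XT.nd (nat_lit 78) (nat_lit 0) (nat_lit 0) (XT.lf (nat_lit 0) (nat_lit 11557442609) (nat_lit 76) (nat_lit 51992195424) (nat_lit 76) (nat_lit 38932008448) (nat_lit 3) (nat_lit 4) (nat_lit 4) (nat_lit 5) (nat_lit 4) (nat_lit 4) (nat_lit 350) (nat_lit 239) (nat_lit 191)) (XT.nd (nat_lit 78) (nat_lit 0) (nat_lit 0) (XT.lf (nat_lit 0) (nat_lit 21014117438) (nat_lit 76) (nat_lit 49786191693) (nat_lit 76) (nat_lit 36659852624) (nat_lit 3) (nat_lit 4) (nat_lit 4) (nat_lit 5) (nat_lit 4) (nat_lit 4) (nat_lit 351) (nat_lit 239) (nat_lit 190)) (XT.lf (nat_lit 0) (nat_lit 30876806333) (nat_lit 76) (nat_lit 47500616512) (nat_lit 76) (nat_lit 34311275450) (nat_lit 3) (nat_lit 4) (nat_lit 4) (nat_lit 5) (nat_lit 4) (nat_lit 4) (nat_lit 352) (nat_lit 239) (nat_lit 189)))) (XT.nd (nat_lit 78) (nat_lit 0) (nat_lit 0) (XT.lf (nat_lit 0) (nat_lit 41168991887) (nat_lit 76) (nat_lit 45130028035) (nat_lit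 76) (nat_lit 31880685074) (nat_lit 3) (nat_lit 4) (nat_lit 4) (nat_lit 5) (nat_lit 4) (nat_lit 4) (nat_lit 353) (nat_lit 239) (nat_lit 188)) (XT.nd (nat_lit 78) (nat_lit 0) (nat_lit 0) (XT.lf (nat_lit 0) (nat_lit 51915179304) (nat_lit 76) (nat_lit 42668782004) (nat_lit 76) (nat_lit 29362294378) (nat_lit 3) (nat_lit 4) (nat_lit 4) (nat_lit 5) (nat_lit 4) (nat_lit 4) (nat_lit 354) (nat_lit 239) (nat_lit 187)) (XT.lf (nat_lit 0) (nat_lit 63140954744) (nat_lit 76) (nat_lit 40111018308) (nat_lit 76) (nat_lit 26750107191) (nat_lit 3) (nat_lit 4) (nat_lit 4) (nat_lit 5) (nat_lit 4) (nat_lit 4) (nat_lit 355) (nat_lit 239) (nat_lit 186))))) (XT.nd (nat_lit 234) (nat_lit 0) (nat_lit 0) (XT.nd (nat_lit 78) (nat_lit 0) (nat_lit 0) (XT.lf (nat_lit 0) (nat_lit 74873046244) (nat_lit 76) (nat_lit 37450647035) (nat_lit 76) (nat_lit 24037904023) (nat_lit 3) (nat_lit 4) (nat_lit 4) (nat_lit 5) (nat_lit 4)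 (nat_lit 4) (nat_lit 356) (nat_lit 239) (nat_lit 185)) (XT.nd (nat_lit 78) (nat_lit 0) (nat_lit 0) (XT.lf (nat_lit 0) (nat_lit 87139387356) (nat_lit 76) (nat_lit 34681333968) (nat_lit 76) (nat_lit 21219227244) (nat_lit 3) (nat_lit 4) (nat_lit 4) (nat_lit 5) (nat_lit 4) (nat_lit 4) (nat_lit 357) (nat_lit 239) (nat_lit 184)) (XT.lf (nat_lit 0) (nat_lit 99969183652) (nat_lit 76) (nat_lit 31796485502) (nat_lit 76) (nat_lit 18287365722) (nat_lit 3) (nat_lit 4) (nat_lit 4) (nat_lit 5) (nat_lit 4) (nat_lit 4) (nat_lit 358) (nat_lit 239) (nat_lit 183)))) (XT.nd (nat_lit 156) (nat_lit 0) (nat_lit 0) (XT.nd (nat_lit 78) (nat_lit 0) (nat_lit 0) (XT.lf (nat_lit 0) (nat_lit 113392982269) (nat_lit 76) (nat_lit 28789232953) (nat_lit 76) (nat_lit 15235338832) (nat_lit 3) (nat_lit 4) (nat_lit 4) (nat_lit 5) (nat_lit 4) (nat_lit 4) (nat_lit 359) (nat_lit 239) (nat_lit 182)) (XT.lf (nat_lit 0) (nat_lit 127442744629)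 (nat_lit 76) (nat_lit 25652416195) (nat_lit 76) (nat_lit 12055879844) (nat_lit 3) (nat_lit 4) (nat_lit 4) (nat_lit 5) (nat_lit 4) (nat_lit 4) (nat_lit 360) (nat_lit 239) (nat_lit 181))) (XT.nd (nat_lit 78) (nat_lit 0) (nat_lit 0) (XT.lf (nat_lit 0) (nat_lit 142151922550) (nat_lit 76) (nat_lit 22378566615) (nat_lit 76) (nat_lit 8741418618) (nat_lit 3) (nat_lit 4) (nat_lit 4) (nat_lit 5) (nat_lit 4) (nat_lit 4) (nat_lit 361) (nat_lit 239) (nat_lit 180)) (XT.lf (nat_lit 0) (nat_lit 157555537883) (nat_lit 76) (nat_lit 18959889336) (nat_lit 76) (nat_lit 5284063580) (nat_lit 3) (nat_lit 4) (nat_lit 4) (nat_lit 5) (nat_lit 4) (nat_lit 4) (nat_lit 362) (nat_lit 239) (nat_lit 179)))))) (XT.nd (nat_lit 36192) (nat_lit 0) (nat_lit 1368) (XT.nd (nat_lit 35880) (nat_lit 0) (nat_lit 2128) (XT.nd (nat_lit 35724) (nat_lit 0) (nat_lit 2736) (XT.lf (nat_lit 0) (nat_lit 173690265902) (nat_lit 76) (nat_lit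 15388244647) (nat_lit 76) (nat_lit 1675582931) (nat_lit 3) (nat_lit 4) (nat_lit 4) (nat_lit 5) (nat_lit 4) (nat_lit 4) (nat_lit 363) (nat_lit 239) (nat_lit 178)) (XT.nd (nat_lit 78) (nat_lit 228) (nat_lit 0) (XT.lf (nat_lit 0) (nat_lit 2236133494) (nat_lit 228) (nat_lit 2035754278) (nat_lit 228) (nat_lit 2035754278) (nat_lit 42) (nat_lit 4) (nat_lit 45) (nat_lit 5) (nat_lit 45) (nat_lit 4) (nat_lit 300) (nat_lit 240) (nat_lit 240)) (XT.lf (nat_lit 0) (nat_lit 2408622655) (nat_lit 228) (nat_lit 9139211554) (nat_lit 0) (nat_lit 1465964417) (nat_lit 39) (nat_lit 5) (nat_lit 42) (nat_lit 4) (nat_lit 39) (nat_lit 4) (nat_lit 301) (nat_lit 240) (nat_lit 239)))) (XT.nd (nat_lit 156) (nat_lit 228) (nat_lit 0) (XT.nd (nat_lit 78) (nat_lit 228) (nat_lit 0) (XT.lf (nat_lit 0) (nat_lit 2803812860) (nat_lit 152) (nat_lit 6235255638) (nat_lit 152) (nat_lit 4394827649) (nat_lit 37) (nat_lit 4) (nat_lit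 39) (nat_lit 5) (nat_lit 39) (nat_lit 4) (nat_lit 302) (nat_lit 240) (nat_lit 238)) (XT.lf (nat_lit 0) (nat_lit 1271452556) (nat_lit 152) (nat_lit 682685057) (nat_lit 228) (nat_lit 11924328545) (nat_lit 34) (nat_lit 5) (nat_lit 36) (nat_lit 5) (nat_lit 37) (nat_lit 4) (nat_lit 303) (nat_lit 240) (nat_lit 237))) (XT.nd (nat_lit 78) (nat_lit 228) (nat_lit 0) (XT.lf (nat_lit 0) (nat_lit 8459004038) (nat_lit 228) (nat_lit 835755833) (nat_lit 0) (nat_lit 5051479351) (nat_lit 34) (nat_lit 5) (nat_lit 37) (nat_lit 4) (nat_lit 34) (nat_lit 4) (nat_lit 304) (nat_lit 240) (nat_lit 236)) (XT.lf (nat_lit 0) (nat_lit 337418701) (nat_lit 228) (nat_lit 3475503814) (nat_lit 76) (nat_lit 11027660759) (nat_lit 31) (nat_lit 5) (nat_lit 34) (nat_lit 5) (nat_lit 32) (nat_lit 4) (nat_lit 305) (nat_lit 240) (nat_lit 235))))) (XT.nd (nat_lit 234) (nat_lit 304) (nat_lit 0) (XT.nd (nat_lit 78) (nat_lit 304) (nat_lit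 0) (XT.lf (nat_lit 0) (nat_lit 6646875084) (nat_lit 228) (nat_lit 6802911131) (nat_lit 0) (nat_lit 1911390978) (nat_lit 29) (nat_lit 5) (nat_lit 32) (nat_lit 4) (nat_lit 29) (nat_lit 4) (nat_lit 306) (nat_lit 240) (nat_lit 234)) (XT.nd (nat_lit 78) (nat_lit 152) (nat_lit 0) (XT.lf (nat_lit 0) (nat_lit 5060636092) (nat_lit 152) (nat_lit 8124219140) (nat_lit 152) (nat_lit 2725688478) (nat_lit 27) (nat_lit 4) (nat_lit 29) (nat_lit 5) (nat_lit 29) (nat_lit 4) (nat_lit 307) (nat_lit 240) (nat_lit 233)) (XT.lf (nat_lit 0) (nat_lit 802128268) (nat_lit 76) (nat_lit 2563453919) (nat_lit 152) (nat_lit 13124711138) (nat_lit 25) (nat_lit 5) (nat_lit 26) (nat_lit 5) (nat_lit 27) (nat_lit 4) (nat_lit 308) (nat_lit 240) (nat_lit 232)))) (XT.nd (nat_lit 156) (nat_lit 152) (nat_lit 0) (XT.nd (nat_lit 78) (nat_lit 152) (nat_lit 0) (XT.lf (nat_lit 0) (nat_lit 9649277442) (nat_lit 152) (nat_lit 4239715919)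 (nat_lit 0) (nat_lit 3211018855) (nat_lit 25) (nat_lit 5) (nat_lit 27) (nat_lit 4) (nat_lit 25) (nat_lit 4) (nat_lit 309) (nat_lit 240) (nat_lit 231)) (XT.lf (nat_lit 0) (nat_lit 7572154724) (nat_lit 152) (nat_lit 8582643263) (nat_lit 152) (nat_lit 1588302594) (nat_lit 23) (nat_lit 4) (nat_lit 25) (nat_lit 5) (nat_lit 25) (nat_lit 4) (nat_lit 310) (nat_lit 240) (nat_lit 230))) (XT.nd (nat_lit 78) (nat_lit 0) (nat_lit 0) (XT.lf (nat_lit 0) (nat_lit 1302026821) (nat_lit 76) (nat_lit 3045741391) (nat_lit 152) (nat_lit 14073273086) (nat_lit 21) (nat_lit 5) (nat_lit 22) (nat_lit 5) (nat_lit 23) (nat_lit 4) (nat_lit 311) (nat_lit 240) (nat_lit 229)) (XT.lf (nat_lit 0) (nat_lit 10498062928) (nat_lit 152) (nat_lit 5932363409) (nat_lit 0) (nat_lit 2703572158) (nat_lit 21) (nat_lit 5) (nat_lit 23) (nat_lit 4) (nat_lit 21) (nat_lit 4) (nat_lit 312) (nat_lit 240) (nat_lit 228))))))))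
noncomputable def xc19 : XT := (XT.nd (nat_lit 2028) (nat_lit 228) (nat_lit 0) (XT.nd (nat_lit 1014) (nat_lit 304) (nat_lit 0) (XT.nd (nat_lit 468) (nat_lit 304) (nat_lit 0) (XT.nd (nat_lit 234) (nat_lit 228) (nat_lit 0) (XT.nd (nat_lit 78) (nat_lit 152) (nat_lit 0) (XT.lf (nat_lit 0) (nat_lit 5587005362) (nat_lit 152) (nat_lit 11279617209) (nat_lit 152) (nat_lit 3018753032) (nat_lit 19) (nat_lit 4) (nat_lit 21) (nat_lit 5) (nat_lit 21) (nat_lit 4) (nat_lit 313) (nat_lit 240) (nat_lit 227)) (XT.nd (nat_lit 78) (nat_lit 76) (nat_lit 0) (XT.lf (nat_lit 0) (nat_lit 2714749584) (nat_lit 228) (nat_lit 3194087671) (nat_lit 76) (nat_lit 14767992029) (nat_lit 18) (nat_lit 5) (nat_lit 21) (nat_lit 5) (nat_lit 19) (nat_lit 4) (nat_lit 314) (nat_lit 240) (nat_lit 226)) (XT.lf (nat_lit 0) (nat_lit 8311773074) (nat_lit 76) (nat_lit 279269699) (nat_lit 152) (nat_lit 12918443047) (nat_lit 17) (nat_lit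 5) (nat_lit 18) (nat_lit 5) (nat_lit 19) (nat_lit 4) (nat_lit 315) (nat_lit 240) (nat_lit 225)))) (XT.nd (nat_lit 78) (nat_lit 228) (nat_lit 0) (XT.lf (nat_lit 0) (nat_lit 14690452428) (nat_lit 152) (nat_lit 2258385763) (nat_lit 0) (nat_lit 5437137241) (nat_lit 17) (nat_lit 5) (nat_lit 19) (nat_lit 4) (nat_lit 17) (nat_lit 4) (nat_lit 316) (nat_lit 240) (nat_lit 224)) (XT.nd (nat_lit 78) (nat_lit 76) (nat_lit 0) (XT.lf (nat_lit 0) (nat_lit 9135926271) (nat_lit 152) (nat_lit 11899030726) (nat_lit 152) (nat_lit 2273204319) (nat_lit 15) (nat_lit 4) (nat_lit 17) (nat_lit 5) (nat_lit 17) (nat_lit 4) (nat_lit 317) (nat_lit 240) (nat_lit 223)) (XT.lf (nat_lit 0) (nat_lit 3229608885) (nat_lit 228) (nat_lit 3424492959) (nat_lit 76) (nat_lit 17625154576) (nat_lit 14) (nat_lit 5) (nat_lit 17) (nat_lit 5) (nat_lit 15) (nat_lit 4) (nat_lit 318) (nat_lit 240) (nat_lit 222))))) (XT.nd (nat_lit 234) (nat_lit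 152) (nat_lit 0) (XT.nd (nat_lit 78) (nat_lit 76) (nat_lit 0) (XT.lf (nat_lit 0) (nat_lit 7738436122) (nat_lit 76) (nat_lit 1156595295) (nat_lit 152) (nat_lit 16405231702) (nat_lit 13) (nat_lit 5) (nat_lit 14) (nat_lit 5) (nat_lit 15) (nat_lit 4) (nat_lit 319) (nat_lit 240) (nat_lit 221)) (XT.nd (nat_lit 78) (nat_lit 76) (nat_lit 0) (XT.lf (nat_lit 0) (nat_lit 14786671212) (nat_lit 152) (nat_lit 7131108854) (nat_lit 0) (nat_lit 4456315044) (nat_lit 13) (nat_lit 5) (nat_lit 15) (nat_lit 4) (nat_lit 13) (nat_lit 4) (nat_lit 320) (nat_lit 240) (nat_lit 220)) (XT.lf (nat_lit 0) (nat_lit 3646143691) (nat_lit 76) (nat_lit 17242972263) (nat_lit 76) (nat_lit 6615076383) (nat_lit 12) (nat_lit 4) (nat_lit 13) (nat_lit 5) (nat_lit 13) (nat_lit 4) (nat_lit 321) (nat_lit 240) (nat_lit 219)))) (XT.nd (nat_lit 156) (nat_lit 76) (nat_lit 0) (XT.nd (nat_lit 78) (nat_lit 76) (nat_lit 0) (XT.lf (nat_lit 0)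 (nat_lit 14883522199) (nat_lit 76) (nat_lit 12360094352) (nat_lit 76) (nat_lit 1448827318) (nat_lit 12) (nat_lit 4) (nat_lit 13) (nat_lit 5) (nat_lit 13) (nat_lit 4) (nat_lit 322) (nat_lit 240) (nat_lit 218)) (XT.lf (nat_lit 0) (nat_lit 3776454816) (nat_lit 152) (nat_lit 3514941045) (nat_lit 76) (nat_lit 22651269680) (nat_lit 11) (nat_lit 5) (nat_lit 13) (nat_lit 5) (nat_lit 12) (nat_lit 4) (nat_lit 323) (nat_lit 240) (nat_lit 217))) (XT.nd (nat_lit 78) (nat_lit 0) (nat_lit 0) (XT.lf (nat_lit 0) (nat_lit 7210887044) (nat_lit 76) (nat_lit 1975840717) (nat_lit 152) (nat_lit 22069680063) (nat_lit 10) (nat_lit 5) (nat_lit 11) (nat_lit 5) (nat_lit 12) (nat_lit 4) (nat_lit 324) (nat_lit 240) (nat_lit 216)) (XT.lf (nat_lit 0) (nat_lit 14825507986) (nat_lit 152) (nat_lit 14328806295) (nat_lit 0) (nat_lit 3482831316) (nat_lit 10) (nat_lit 5) (nat_lit 12) (nat_lit 4) (nat_lit 10) (nat_lit 4) (nat_lit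 325) (nat_lit 240) (nat_lit 215)))))) (XT.nd (nat_lit 468) (nat_lit 76) (nat_lit 0) (XT.nd (nat_lit 234) (nat_lit 152) (nat_lit 0) (XT.nd (nat_lit 78) (nat_lit 76) (nat_lit 0) (XT.lf (nat_lit 0) (nat_lit 20658354593) (nat_lit 152) (nat_lit 4341909763) (nat_lit 0) (nat_lit 9089337972) (nat_lit 10) (nat_lit 5) (nat_lit 12) (nat_lit 4) (nat_lit 10) (nat_lit 4) (nat_lit 326) (nat_lit 240) (nat_lit 214)) (XT.nd (nat_lit 78) (nat_lit 0) (nat_lit 0) (XT.lf (nat_lit 0) (nat_lit 6076514819) (nat_lit 76) (nat_lit 20662058680) (nat_lit 76) (nat_lit 8877480201) (nat_lit 9) (nat_lit 4) (nat_lit 10) (nat_lit 5) (nat_lit 10) (nat_lit 4) (nat_lit 327) (nat_lit 240) (nat_lit 213)) (XT.lf (nat_lit 0) (nat_lit 16925545184) (nat_lit 76) (nat_lit 16142422322) (nat_lit 76) (nat_lit 4152546834) (nat_lit 9) (nat_lit 4) (nat_lit 10) (nat_lit 5) (nat_lit 10) (nat_lit 4) (nat_lit 328) (nat_lit 240) (nat_lit 212))))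 (XT.nd (nat_lit 78) (nat_lit 76) (nat_lit 0) (XT.lf (nat_lit 0) (nat_lit 697084088) (nat_lit 152) (nat_lit 10770315746) (nat_lit 76) (nat_lit 27440476565) (nat_lit 8) (nat_lit 5) (nat_lit 10) (nat_lit 5) (nat_lit 9) (nat_lit 4) (nat_lit 329) (nat_lit 240) (nat_lit 211)) (XT.nd (nat_lit 78) (nat_lit 76) (nat_lit 0) (XT.lf (nat_lit 0) (nat_lit 5612904556) (nat_lit 152) (nat_lit 977410634) (nat_lit 76) (nat_lit 34090806924) (nat_lit 8) (nat_lit 5) (nat_lit 10) (nat_lit 5) (nat_lit 9) (nat_lit 4) (nat_lit 330) (nat_lit 240) (nat_lit 210)) (XT.lf (nat_lit 0) (nat_lit 9329022265) (nat_lit 76) (nat_lit 1448304051) (nat_lit 152) (nat_lit 31765654399) (nat_lit 7) (nat_lit 5) (nat_lit 8) (nat_lit 5) (nat_lit 9) (nat_lit 4) (nat_lit 331) (nat_lit 240) (nat_lit 209))))) (XT.nd (nat_lit 234) (nat_lit 76) (nat_lit 0) (XT.nd (nat_lit 78) (nat_lit 0) (nat_lit 0) (XT.lf (nat_lit 0) (nat_lit 16163234358)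 (nat_lit 152) (nat_lit 24520024565) (nat_lit 0) (nat_lit 3815808615) (nat_lit 7) (nat_lit 5) (nat_lit 9) (nat_lit 4) (nat_lit 7) (nat_lit 4) (nat_lit 332) (nat_lit 240) (nat_lit 208)) (XT.nd (nat_lit 78) (nat_lit 0) (nat_lit 0) (XT.lf (nat_lit 0) (nat_lit 21752223896) (nat_lit 152) (nat_lit 15554125196) (nat_lit 0) (nat_lit 9248627689) (nat_lit 7) (nat_lit 5) (nat_lit 9) (nat_lit 4) (nat_lit 7) (nat_lit 4) (nat_lit 333) (nat_lit 240) (nat_lit 207)) (XT.lf (nat_lit 0) (nat_lit 27543680065) (nat_lit 152) (nat_lit 6280990979) (nat_lit 0) (nat_lit 14891350083) (nat_lit 7) (nat_lit 5) (nat_lit 9) (nat_lit 4) (nat_lit 7) (nat_lit 4) (nat_lit 334) (nat_lit 240) (nat_lit 206)))) (XT.nd (nat_lit 156) (nat_lit 0) (nat_lit 0) (XT.nd (nat_lit 78) (nat_lit 0) (nat_lit 0) (XT.lf (nat_lit 0) (nat_lit 3387560481) (nat_lit 76) (nat_lit 30196394868) (nat_lit 76) (nat_lit 17402413672) (nat_lit 6) (nat_lit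 4) (nat_lit 7) (nat_lit 5) (nat_lit 7) (nat_lit 4) (nat_lit 335) (nat_lit 240) (nat_lit 205)) (XT.lf (nat_lit 0) (nat_lit 13540301695) (nat_lit 76) (nat_lit 26379519882) (nat_lit 76) (nat_lit 13450632769) (nat_lit 6) (nat_lit 4) (nat_lit 7) (nat_lit 5) (nat_lit 7) (nat_lit 4) (nat_lit 336) (nat_lit 240) (nat_lit 204))) (XT.nd (nat_lit 78) (nat_lit 0) (nat_lit 0) (XT.lf (nat_lit 0) (nat_lit 24076401820) (nat_lit 76) (nat_lit 22428383984) (nat_lit 76) (nat_lit 9371015043) (nat_lit 6) (nat_lit 4) (nat_lit 7) (nat_lit 5) (nat_lit 7) (nat_lit 4) (nat_lit 337) (nat_lit 240) (nat_lit 203)) (XT.lf (nat_lit 0) (nat_lit 35020946807) (nat_lit 76) (nat_lit 18333579705) (nat_lit 76) (nat_lit 5153847120) (nat_lit 6) (nat_lit 4) (nat_lit 7) (nat_lit 5) (nat_lit 7) (nat_lit 4) (nat_lit 338) (nat_lit 240) (nat_lit 202))))))) (XT.nd (nat_lit 1014) (nat_lit 0) (nat_lit 0) (XT.nd (nat_lit 468) (nat_lit 76)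 (nat_lit 0) (XT.nd (nat_lit 234) (nat_lit 0) (nat_lit 0) (XT.nd (nat_lit 78) (nat_lit 152) (nat_lit 0) (XT.lf (nat_lit 0) (nat_lit 46399995097) (nat_lit 76) (nat_lit 14085357513) (nat_lit 76) (nat_lit 789088124) (nat_lit 6) (nat_lit 4) (nat_lit 7) (nat_lit 5) (nat_lit 7) (nat_lit 4) (nat_lit 339) (nat_lit 240) (nat_lit 201)) (XT.nd (nat_lit 78) (nat_lit 76) (nat_lit 0) (XT.lf (nat_lit 0) (nat_lit 3660797186) (nat_lit 152) (nat_lit 5975838532) (nat_lit 76) (nat_lit 54542875603) (nat_lit 5) (nat_lit 5) (nat_lit 7) (nat_lit 5) (nat_lit 6) (nat_lit 4) (nat_lit 340) (nat_lit 240) (nat_lit 200)) (XT.lf (nat_lit 0) (nat_lit 3321157675) (nat_lit 76) (nat_lit 4971510706) (nat_lit 152) (nat_lit 58937679146) (nat_lit 4) (nat_lit 5) (nat_lit 5) (nat_lit 5) (nat_lit 6) (nat_lit 4) (nat_lit 341) (nat_lit 240) (nat_lit 199)))) (XT.nd (nat_lit 78) (nat_lit 0) (nat_lit 0) (XT.lf (nat_lit 0) (nat_lit 13107460097)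 (nat_lit 76) (nat_lit 55637493) (nat_lit 152) (nat_lit 57270438835) (nat_lit 4) (nat_lit 5) (nat_lit 5) (nat_lit 5) (nat_lit 6) (nat_lit 4) (nat_lit 342) (nat_lit 240) (nat_lit 198)) (XT.nd (nat_lit 78) (nat_lit 0) (nat_lit 0) (XT.lf (nat_lit 0) (nat_lit 18273756771) (nat_lit 152) (nat_lit 50559686055) (nat_lit 0) (nat_lit 4963559558) (nat_lit 4) (nat_lit 5) (nat_lit 6) (nat_lit 4) (nat_lit 4) (nat_lit 4) (nat_lit 343) (nat_lit 240) (nat_lit 197)) (XT.lf (nat_lit 0) (nat_lit 23590630695) (nat_lit 152) (nat_lit 43547725117) (nat_lit 0) (nat_lit 10191783350) (nat_lit 4) (nat_lit 5) (nat_lit 6) (nat_lit 4) (nat_lit 4) (nat_lit 4) (nat_lit 344) (nat_lit 240) (nat_lit 196))))) (XT.nd (nat_lit 234) (nat_lit 76) (nat_lit 0) (XT.nd (nat_lit 78) (nat_lit 0) (nat_lit 0) (XT.lf (nat_lit 0) (nat_lit 29125843765) (nat_lit 152) (nat_lit 36272963546) (nat_lit 0) (nat_lit 15642567723) (nat_lit 4) (nat_lit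 5) (nat_lit 6) (nat_lit 4) (nat_lit 4) (nat_lit 4) (nat_lit 345) (nat_lit 240) (nat_lit 195)) (XT.nd (nat_lit 78) (nat_lit 0) (nat_lit 0) (XT.lf (nat_lit 0) (nat_lit 34892575058) (nat_lit 152) (nat_lit 28718080481) (nat_lit 0) (nat_lit 21328890733) (nat_lit 4) (nat_lit 5) (nat_lit 6) (nat_lit 4) (nat_lit 4) (nat_lit 4) (nat_lit 346) (nat_lit 240) (nat_lit 194)) (XT.lf (nat_lit 0) (nat_lit 40904554888) (nat_lit 152) (nat_lit 20865088106) (nat_lit 0) (nat_lit 27264291247) (nat_lit 4) (nat_lit 5) (nat_lit 6) (nat_lit 4) (nat_lit 4) (nat_lit 4) (nat_lit 347) (nat_lit 240) (nat_lit 193)))) (XT.nd (nat_lit 156) (nat_lit 76) (nat_lit 0) (XT.nd (nat_lit 78) (nat_lit 0) (nat_lit 0) (XT.lf (nat_lit 0) (nat_lit 47176097493) (nat_lit 152) (nat_lit 12695288820) (nat_lit 0) (nat_lit 33462901169) (nat_lit 4) (nat_lit 5) (nat_lit 6) (nat_lit 4) (nat_lit 4) (nat_lit 4) (nat_lit 348) (nat_lit 240) (nat_lit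 192)) (XT.lf (nat_lit 0) (nat_lit 53722135117) (nat_lit 152) (nat_lit 4189230720) (nat_lit 0) (nat_lit 39939479094) (nat_lit 4) (nat_lit 5) (nat_lit 6) (nat_lit 4) (nat_lit 4) (nat_lit 4) (nat_lit 349) (nat_lit 240) (nat_lit 191))) (XT.nd (nat_lit 78) (nat_lit 0) (nat_lit 0) (XT.lf (nat_lit 0) (nat_lit 4766347316) (nat_lit 76) (nat_lit 55837723292) (nat_lit 76) (nat_lit 41988915177) (nat_lit 3) (nat_lit 4) (nat_lit 4) (nat_lit 5) (nat_lit 4) (nat_lit 4) (nat_lit 350) (nat_lit 240) (nat_lit 190)) (XT.lf (nat_lit 0) (nat_lit 14190427182) (nat_lit 76) (nat_lit 53646709189) (nat_lit 76) (nat_lit 39734899080) (nat_lit 3) (nat_lit 4) (nat_lit 4) (nat_lit 5) (nat_lit 4) (nat_lit 4) (nat_lit 351) (nat_lit 240) (nat_lit 189)))))) (XT.nd (nat_lit 546) (nat_lit 0) (nat_lit 0) (XT.nd (nat_lit 234) (nat_lit 0) (nat_lit 0) (XT.nd (nat_lit 78) (nat_lit 0) (nat_lit 0) (XT.lf (nat_lit 0) (nat_lit 24022073254)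 (nat_lit 76) (nat_lit 51375409843) (nat_lit 76) (nat_lit 37403597836) (nat_lit 3) (nat_lit 4) (nat_lit 4) (nat_lit 5) (nat_lit 4) (nat_lit 4) (nat_lit 352) (nat_lit 240) (nat_lit 188)) (XT.nd (nat_lit 78) (nat_lit 0) (nat_lit 0) (XT.lf (nat_lit 0) (nat_lit 34284694216) (nat_lit 76) (nat_lit 49018417400) (nat_lit 76) (nat_lit 34989460727) (nat_lit 3) (nat_lit 4) (nat_lit 4) (nat_lit 5) (nat_lit 4) (nat_lit 4) (nat_lit 353) (nat_lit 240) (nat_lit 187)) (XT.lf (nat_lit 0) (nat_lit 45002724878) (nat_lit 76) (nat_lit 46570119972) (nat_lit 76) (nat_lit 32486739809) (nat_lit 3) (nat_lit 4) (nat_lit 4) (nat_lit 5) (nat_lit 4) (nat_lit 4) (nat_lit 354) (nat_lit 240) (nat_lit 186)))) (XT.nd (nat_lit 156) (nat_lit 0) (nat_lit 0) (XT.nd (nat_lit 78) (nat_lit 0) (nat_lit 0) (XT.lf (nat_lit 0) (nat_lit 56201684361) (nat_lit 76) (nat_lit 44024688280) (nat_lit 76) (nat_lit 29889476221) (nat_lit 3) (nat_lit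 4) (nat_lit 4) (nat_lit 5) (nat_lit 4) (nat_lit 4) (nat_lit 355) (nat_lit 240) (nat_lit 185)) (XT.lf (nat_lit 0) (nat_lit 67908236854) (nat_lit 76) (nat_lit 41376061773) (nat_lit 76) (nat_lit 27191486003) (nat_lit 3) (nat_lit 4) (nat_lit 4) (nat_lit 5) (nat_lit 4) (nat_lit 4) (nat_lit 356) (nat_lit 240) (nat_lit 184))) (XT.nd (nat_lit 78) (nat_lit 0) (nat_lit 0) (XT.lf (nat_lit 0) (nat_lit 80150255102) (nat_lit 76) (nat_lit 38617934196) (nat_lit 76) (nat_lit 24386345368) (nat_lit 3) (nat_lit 4) (nat_lit 4) (nat_lit 5) (nat_lit 4) (nat_lit 4) (nat_lit 357) (nat_lit 240) (nat_lit 183)) (XT.lf (nat_lit 0) (nat_lit 92956886767) (nat_lit 76) (nat_lit 35743738579) (nat_lit 76) (nat_lit 21467375411) (nat_lit 3) (nat_lit 4) (nat_lit 4) (nat_lit 5) (nat_lit 4) (nat_lit 4) (nat_lit 358) (nat_lit 240) (nat_lit 182))))) (XT.nd (nat_lit 234) (nat_lit 0) (nat_lit 0) (XT.nd (nat_lit 78) (nat_lit 0) (nat_lit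 0) (XT.lf (nat_lit 0) (nat_lit 106358623829) (nat_lit 76) (nat_lit 32746631600) (nat_lit 76) (nat_lit 18427626203) (nat_lit 3) (nat_lit 4) (nat_lit 4) (nat_lit 5) (nat_lit 4) (nat_lit 4) (nat_lit 359) (nat_lit 240) (nat_lit 181)) (XT.nd (nat_lit 78) (nat_lit 0) (nat_lit 0) (XT.lf (nat_lit 0) (nat_lit 120387375186) (nat_lit 76) (nat_lit 29619477288) (nat_lit 76) (nat_lit 15259860245) (nat_lit 3) (nat_lit 4) (nat_lit 4) (nat_lit 5) (nat_lit 4) (nat_lit 4) (nat_lit 360) (nat_lit 240) (nat_lit 180)) (XT.lf (nat_lit 0) (nat_lit 135076542626) (nat_lit 76) (nat_lit 26354830040) (nat_lit 76) (nat_lit 11956535238) (nat_lit 3) (nat_lit 4) (nat_lit 4) (nat_lit 5) (nat_lit 4) (nat_lit 4) (nat_lit 361) (nat_lit 240) (nat_lit 179)))) (XT.nd (nat_lit 35724) (nat_lit 0) (nat_lit 2964) (XT.nd (nat_lit 35646) (nat_lit 0) (nat_lit 3420) (XT.lf (nat_lit 0) (nat_lit 150461100359) (nat_lit 76) (nat_lit 22944916885)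 (nat_lit 76) (nat_lit 8509786122) (nat_lit 3) (nat_lit 4) (nat_lit 4) (nat_lit 5) (nat_lit 4) (nat_lit 4) (nat_lit 362) (nat_lit 240) (nat_lit 178)) (XT.lf (nat_lit 0) (nat_lit 2360139686) (nat_lit 228) (nat_lit 1789466444) (nat_lit 228) (nat_lit 1789466444) (nat_lit 48) (nat_lit 4) (nat_lit 51) (nat_lit 5) (nat_lit 51) (nat_lit 4) (nat_lit 298) (nat_lit 241) (nat_lit 241))) (XT.nd (nat_lit 78) (nat_lit 228) (nat_lit 0) (XT.lf (nat_lit 0) (nat_lit 2853504786) (nat_lit 228) (nat_lit 7551104650) (nat_lit 0) (nat_lit 1834019902) (nat_lit 45) (nat_lit 5) (nat_lit 48) (nat_lit 4) (nat_lit 45) (nat_lit 4) (nat_lit 299) (nat_lit 241) (nat_lit 240)) (XT.lf (nat_lit 0) (nat_lit 4276190131) (nat_lit 228) (nat_lit 5166613288) (nat_lit 228) (nat_lit 3176190419) (nat_lit 42) (nat_lit 4) (nat_lit 45) (nat_lit 5) (nat_lit 45) (nat_lit 4) (nat_lit 300) (nat_lit 241) (nat_lit 239))))))))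
noncomputable def xc20 : XT := (XT.nd (nat_lit 2028) (nat_lit 532) (nat_lit 0) (XT.nd (nat_lit 1014) (nat_lit 684) (nat_lit 0) (XT.nd (nat_lit 468) (nat_lit 760) (nat_lit 0) (XT.nd (nat_lit 234) (nat_lit 380) (nat_lit 0) (XT.nd (nat_lit 78) (nat_lit 380) (nat_lit 0) (XT.lf (nat_lit 0) (nat_lit 3155442346) (nat_lit 228) (nat_lit 9540604236) (nat_lit 0) (nat_lit 325223208) (nat_lit 39) (nat_lit 5) (nat_lit 42) (nat_lit 4) (nat_lit 39) (nat_lit 4) (nat_lit 301) (nat_lit 241) (nat_lit 238)) (XT.nd (nat_lit 78) (nat_lit 228) (nat_lit 0) (XT.lf (nat_lit 0) (nat_lit 2204242973) (nat_lit 152) (nat_lit 7463003057) (nat_lit 152) (nat_lit 3777765108) (nat_lit 37) (nat_lit 4) (nat_lit 39) (nat_lit 5) (nat_lit 39) (nat_lit 4) (nat_lit 302) (nat_lit 241) (nat_lit 237)) (XT.lf (nat_lit 0) (nat_lit 455506478) (nat_lit 152) (nat_lit 1985403894) (nat_lit 228) (nat_lit 11452118479) (nat_lit 34) (nat_lit 5)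 (nat_lit 36) (nat_lit 5) (nat_lit 37) (nat_lit 4) (nat_lit 303) (nat_lit 241) (nat_lit 236)))) (XT.nd (nat_lit 78) (nat_lit 380) (nat_lit 0) (XT.lf (nat_lit 0) (nat_lit 8825708595) (nat_lit 228) (nat_lit 1834487300) (nat_lit 0) (nat_lit 3704282534) (nat_lit 34) (nat_lit 5) (nat_lit 37) (nat_lit 4) (nat_lit 34) (nat_lit 4) (nat_lit 304) (nat_lit 241) (nat_lit 235)) (XT.nd (nat_lit 78) (nat_lit 152) (nat_lit 0) (XT.lf (nat_lit 0) (nat_lit 563983378) (nat_lit 228) (nat_lit 4693624652) (nat_lit 76) (nat_lit 9604635842) (nat_lit 31) (nat_lit 5) (nat_lit 34) (nat_lit 5) (nat_lit 32) (nat_lit 4) (nat_lit 305) (nat_lit 241) (nat_lit 234)) (XT.lf (nat_lit 0) (nat_lit 6744949904) (nat_lit 228) (nat_lit 8228362005) (nat_lit 0) (nat_lit 413446153) (nat_lit 29) (nat_lit 5) (nat_lit 32) (nat_lit 4) (nat_lit 29) (nat_lit 4) (nat_lit 306) (nat_lit 241) (nat_lit 233))))) (XT.nd (nat_lit 234) (nat_lit 456)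 (nat_lit 0) (XT.nd (nat_lit 78) (nat_lit 152) (nat_lit 0) (XT.lf (nat_lit 0) (nat_lit 3436760783) (nat_lit 152) (nat_lit 9732900487) (nat_lit 152) (nat_lit 2769923825) (nat_lit 27) (nat_lit 4) (nat_lit 29) (nat_lit 5) (nat_lit 29) (nat_lit 4) (nat_lit 307) (nat_lit 241) (nat_lit 232)) (XT.nd (nat_lit 78) (nat_lit 76) (nat_lit 0) (XT.lf (nat_lit 0) (nat_lit 3218939374) (nat_lit 228) (nat_lit 1029932503) (nat_lit 76) (nat_lit 12273631456) (nat_lit 26) (nat_lit 5) (nat_lit 29) (nat_lit 5) (nat_lit 27) (nat_lit 4) (nat_lit 308) (nat_lit 241) (nat_lit 231)) (XT.lf (nat_lit 0) (nat_lit 9383054927) (nat_lit 152) (nat_lit 6269894543) (nat_lit 0) (nat_lit 1482915143) (nat_lit 25) (nat_lit 5) (nat_lit 27) (nat_lit 4) (nat_lit 25) (nat_lit 4) (nat_lit 309) (nat_lit 241) (nat_lit 230)))) (XT.nd (nat_lit 156) (nat_lit 228) (nat_lit 0) (XT.nd (nat_lit 78) (nat_lit 76) (nat_lit 0) (XT.lf (nat_lit 0) (nat_lit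 5344789818) (nat_lit 152) (nat_lit 10433630972) (nat_lit 152) (nat_lit 2003889205) (nat_lit 23) (nat_lit 4) (nat_lit 25) (nat_lit 5) (nat_lit 25) (nat_lit 4) (nat_lit 310) (nat_lit 241) (nat_lit 229)) (XT.lf (nat_lit 0) (nat_lit 3840922077) (nat_lit 228) (nat_lit 1137052789) (nat_lit 76) (nat_lit 13485425197) (nat_lit 22) (nat_lit 5) (nat_lit 25) (nat_lit 5) (nat_lit 23) (nat_lit 4) (nat_lit 311) (nat_lit 241) (nat_lit 228))) (XT.nd (nat_lit 78) (nat_lit 152) (nat_lit 0) (XT.lf (nat_lit 0) (nat_lit 9876654826) (nat_lit 152) (nat_lit 8566811389) (nat_lit 0) (nat_lit 736374031) (nat_lit 21) (nat_lit 5) (nat_lit 23) (nat_lit 4) (nat_lit 21) (nat_lit 4) (nat_lit 312) (nat_lit 241) (nat_lit 227)) (XT.lf (nat_lit 0) (nat_lit 2755660235) (nat_lit 152) (nat_lit 13381642177) (nat_lit 152) (nat_lit 3797196232) (nat_lit 19) (nat_lit 4) (nat_lit 21) (nat_lit 5) (nat_lit 21) (nat_lit 4) (nat_lit 313)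 (nat_lit 241) (nat_lit 226)))))) (XT.nd (nat_lit 468) (nat_lit 228) (nat_lit 0) (XT.nd (nat_lit 234) (nat_lit 304) (nat_lit 0) (XT.nd (nat_lit 78) (nat_lit 76) (nat_lit 0) (XT.lf (nat_lit 0) (nat_lit 1872506213) (nat_lit 228) (nat_lit 6206272760) (nat_lit 76) (nat_lit 12649808168) (nat_lit 18) (nat_lit 5) (nat_lit 21) (nat_lit 5) (nat_lit 19) (nat_lit 4) (nat_lit 314) (nat_lit 241) (nat_lit 225)) (XT.nd (nat_lit 78) (nat_lit 0) (nat_lit 0) (XT.lf (nat_lit 0) (nat_lit 5104429937) (nat_lit 76) (nat_lit 2538309568) (nat_lit 152) (nat_lit 13921724654) (nat_lit 17) (nat_lit 5) (nat_lit 18) (nat_lit 5) (nat_lit 19) (nat_lit 4) (nat_lit 315) (nat_lit 241) (nat_lit 224)) (XT.lf (nat_lit 0) (nat_lit 13647012219) (nat_lit 152) (nat_lit 5629449228) (nat_lit 0) (nat_lit 3167383272) (nat_lit 17) (nat_lit 5) (nat_lit 19) (nat_lit 4) (nat_lit 17) (nat_lit 4) (nat_lit 316) (nat_lit 241) (nat_lit 223))))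 (XT.nd (nat_lit 78) (nat_lit 152) (nat_lit 0) (XT.lf (nat_lit 0) (nat_lit 5571054302) (nat_lit 152) (nat_lit 14316269360) (nat_lit 152) (nat_lit 3481867822) (nat_lit 15) (nat_lit 4) (nat_lit 17) (nat_lit 5) (nat_lit 17) (nat_lit 4) (nat_lit 317) (nat_lit 241) (nat_lit 222)) (XT.nd (nat_lit 78) (nat_lit 76) (nat_lit 0) (XT.lf (nat_lit 0) (nat_lit 1976071448) (nat_lit 228) (nat_lit 7160855156) (nat_lit 76) (nat_lit 15205794760) (nat_lit 14) (nat_lit 5) (nat_lit 17) (nat_lit 5) (nat_lit 15) (nat_lit 4) (nat_lit 318) (nat_lit 241) (nat_lit 221)) (XT.lf (nat_lit 0) (nat_lit 3809133875) (nat_lit 76) (nat_lit 3729389902) (nat_lit 152) (nat_lit 17828324289) (nat_lit 13) (nat_lit 5) (nat_lit 14) (nat_lit 5) (nat_lit 15) (nat_lit 4) (nat_lit 319) (nat_lit 241) (nat_lit 220))))) (XT.nd (nat_lit 234) (nat_lit 152) (nat_lit 0) (XT.nd (nat_lit 78) (nat_lit 76) (nat_lit 0) (XT.lf (nat_lit 0) (nat_lit 13341773857)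 (nat_lit 152) (nat_lit 11216643848) (nat_lit 0) (nat_lit 1884943471) (nat_lit 13) (nat_lit 5) (nat_lit 15) (nat_lit 4) (nat_lit 13) (nat_lit 4) (nat_lit 320) (nat_lit 241) (nat_lit 219)) (XT.nd (nat_lit 78) (nat_lit 76) (nat_lit 0) (XT.lf (nat_lit 0) (nat_lit 19348542549) (nat_lit 152) (nat_lit 619473152) (nat_lit 0) (nat_lit 7608341010) (nat_lit 13) (nat_lit 5) (nat_lit 15) (nat_lit 4) (nat_lit 13) (nat_lit 4) (nat_lit 321) (nat_lit 241) (nat_lit 218)) (XT.lf (nat_lit 0) (nat_lit 10499766700) (nat_lit 76) (nat_lit 15138445989) (nat_lit 76) (nat_lit 3128367160) (nat_lit 12) (nat_lit 4) (nat_lit 13) (nat_lit 5) (nat_lit 13) (nat_lit 4) (nat_lit 322) (nat_lit 241) (nat_lit 217)))) (XT.nd (nat_lit 156) (nat_lit 0) (nat_lit 0) (XT.nd (nat_lit 78) (nat_lit 76) (nat_lit 0) (XT.lf (nat_lit 0) (nat_lit 2073150640) (nat_lit 152) (nat_lit 8058609017) (nat_lit 76) (nat_lit 19887247030) (nat_lit 11)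 (nat_lit 5) (nat_lit 13) (nat_lit 5) (nat_lit 12) (nat_lit 4) (nat_lit 323) (nat_lit 241) (nat_lit 216)) (XT.lf (nat_lit 0) (nat_lit 2477791463) (nat_lit 76) (nat_lit 4906288802) (nat_lit 152) (nat_lit 23951672511) (nat_lit 10) (nat_lit 5) (nat_lit 11) (nat_lit 5) (nat_lit 12) (nat_lit 4) (nat_lit 324) (nat_lit 241) (nat_lit 215))) (XT.nd (nat_lit 78) (nat_lit 0) (nat_lit 0) (XT.lf (nat_lit 0) (nat_lit 12942098416) (nat_lit 152) (nat_lit 19208546367) (nat_lit 0) (nat_lit 568291013) (nat_lit 10) (nat_lit 5) (nat_lit 12) (nat_lit 4) (nat_lit 10) (nat_lit 4) (nat_lit 325) (nat_lit 241) (nat_lit 214)) (XT.lf (nat_lit 0) (nat_lit 18724856629) (nat_lit 152) (nat_lit 9312572502) (nat_lit 0) (nat_lit 6135487367) (nat_lit 10) (nat_lit 5) (nat_lit 12) (nat_lit 4) (nat_lit 10) (nat_lit 4) (nat_lit 326) (nat_lit 241) (nat_lit 213))))))) (XT.nd (nat_lit 1014) (nat_lit 228) (nat_lit 0) (XT.nd (nat_lit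 468) (nat_lit 76) (nat_lit 0) (XT.nd (nat_lit 234) (nat_lit 152) (nat_lit 0) (XT.nd (nat_lit 78) (nat_lit 0) (nat_lit 0) (XT.lf (nat_lit 0) (nat_lit 918609759) (nat_lit 76) (nat_lit 23789181605) (nat_lit 76) (nat_lit 10994515335) (nat_lit 9) (nat_lit 4) (nat_lit 10) (nat_lit 5) (nat_lit 10) (nat_lit 4) (nat_lit 327) (nat_lit 241) (nat_lit 212)) (XT.nd (nat_lit 78) (nat_lit 0) (nat_lit 0) (XT.lf (nat_lit 0) (nat_lit 11683529280) (nat_lit 76) (nat_lit 19307415916) (nat_lit 76) (nat_lit 6317228686) (nat_lit 9) (nat_lit 4) (nat_lit 10) (nat_lit 5) (nat_lit 10) (nat_lit 4) (nat_lit 328) (nat_lit 241) (nat_lit 211)) (XT.lf (nat_lit 0) (nat_lit 22822478366) (nat_lit 76) (nat_lit 14675499915) (nat_lit 76) (nat_lit 1499102248) (nat_lit 9) (nat_lit 4) (nat_lit 10) (nat_lit 5) (nat_lit 10) (nat_lit 4) (nat_lit 329) (nat_lit 241) (nat_lit 210)))) (XT.nd (nat_lit 78) (nat_lit 76) (nat_lit 0) (XT.lf (nat_lit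 0) (nat_lit 3403597445) (nat_lit 152) (nat_lit 6444438127) (nat_lit 76) (nat_lit 30924011220) (nat_lit 8) (nat_lit 5) (nat_lit 10) (nat_lit 5) (nat_lit 9) (nat_lit 4) (nat_lit 330) (nat_lit 241) (nat_lit 209)) (XT.nd (nat_lit 78) (nat_lit 0) (nat_lit 0) (XT.lf (nat_lit 0) (nat_lit 3678250372) (nat_lit 76) (nat_lit 4795094292) (nat_lit 152) (nat_lit 34163417184) (nat_lit 7) (nat_lit 5) (nat_lit 8) (nat_lit 5) (nat_lit 9) (nat_lit 4) (nat_lit 331) (nat_lit 241) (nat_lit 208)) (XT.lf (nat_lit 0) (nat_lit 13787651072) (nat_lit 152) (nat_lit 30304656501) (nat_lit 0) (nat_lit 502704591) (nat_lit 7) (nat_lit 5) (nat_lit 9) (nat_lit 4) (nat_lit 7) (nat_lit 4) (nat_lit 332) (nat_lit 241) (nat_lit 207))))) (XT.nd (nat_lit 234) (nat_lit 76) (nat_lit 0) (XT.nd (nat_lit 78) (nat_lit 0) (nat_lit 0) (XT.lf (nat_lit 0) (nat_lit 19339088002) (nat_lit 152) (nat_lit 21407566947) (nat_lit 0) (nat_lit 5905407746)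 (nat_lit 7) (nat_lit 5) (nat_lit 9) (nat_lit 4) (nat_lit 7) (nat_lit 4) (nat_lit 333) (nat_lit 241) (nat_lit 206)) (XT.nd (nat_lit 78) (nat_lit 0) (nat_lit 0) (XT.lf (nat_lit 0) (nat_lit 25094779782) (nat_lit 152) (nat_lit 12199965888) (nat_lit 0) (nat_lit 11519448313) (nat_lit 7) (nat_lit 5) (nat_lit 9) (nat_lit 4) (nat_lit 7) (nat_lit 4) (nat_lit 334) (nat_lit 241) (nat_lit 205)) (XT.lf (nat_lit 0) (nat_lit 31068430441) (nat_lit 152) (nat_lit 2659930464) (nat_lit 0) (nat_lit 17358193053) (nat_lit 7) (nat_lit 5) (nat_lit 9) (nat_lit 4) (nat_lit 7) (nat_lit 4) (nat_lit 335) (nat_lit 241) (nat_lit 204)))) (XT.nd (nat_lit 156) (nat_lit 0) (nat_lit 0) (XT.nd (nat_lit 78) (nat_lit 0) (nat_lit 0) (XT.lf (nat_lit 0) (nat_lit 7379249429) (nat_lit 76) (nat_lit 29965947385) (nat_lit 76) (nat_lit 16127228171) (nat_lit 6) (nat_lit 4) (nat_lit 7) (nat_lit 5) (nat_lit 7) (nat_lit 4) (nat_lit 336) (nat_lit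 241) (nat_lit 203)) (XT.lf (nat_lit 0) (nat_lit 17857612898) (nat_lit 76) (nat_lit 26041098519) (nat_lit 76) (nat_lit 12080015659) (nat_lit 6) (nat_lit 4) (nat_lit 7) (nat_lit 5) (nat_lit 7) (nat_lit 4) (nat_lit 337) (nat_lit 241) (nat_lit 202))) (XT.nd (nat_lit 78) (nat_lit 0) (nat_lit 0) (XT.lf (nat_lit 0) (nat_lit 28747170595) (nat_lit 76) (nat_lit 21971329509) (nat_lit 76) (nat_lit 7893709845) (nat_lit 6) (nat_lit 4) (nat_lit 7) (nat_lit 5) (nat_lit 7) (nat_lit 4) (nat_lit 338) (nat_lit 241) (nat_lit 201)) (XT.lf (nat_lit 0) (nat_lit 40073850037) (nat_lit 76) (nat_lit 17746950429) (nat_lit 76) (nat_lit 3558343333) (nat_lit 6) (nat_lit 4) (nat_lit 7) (nat_lit 5) (nat_lit 7) (nat_lit 4) (nat_lit 339) (nat_lit 241) (nat_lit 200)))))) (XT.nd (nat_lit 546) (nat_lit 76) (nat_lit 0) (XT.nd (nat_lit 234) (nat_lit 0) (nat_lit 0) (XT.nd (nat_lit 78) (nat_lit 76) (nat_lit 0) (XT.lf (nat_lit 0)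 (nat_lit 918133520) (nat_lit 152) (nat_lit 12430498367) (nat_lit 76) (nat_lit 50937214641) (nat_lit 5) (nat_lit 5) (nat_lit 7) (nat_lit 5) (nat_lit 6) (nat_lit 4) (nat_lit 340) (nat_lit 241) (nat_lit 199)) (XT.nd (nat_lit 78) (nat_lit 76) (nat_lit 0) (XT.lf (nat_lit 0) (nat_lit 5491940095) (nat_lit 152) (nat_lit 3246339893) (nat_lit 76) (nat_lit 58600154350) (nat_lit 5) (nat_lit 5) (nat_lit 7) (nat_lit 5) (nat_lit 6) (nat_lit 4) (nat_lit 341) (nat_lit 241) (nat_lit 198)) (XT.lf (nat_lit 0) (nat_lit 6428700784) (nat_lit 76) (nat_lit 3876498323) (nat_lit 152) (nat_lit 60238148441) (nat_lit 4) (nat_lit 5) (nat_lit 5) (nat_lit 5) (nat_lit 6) (nat_lit 4) (nat_lit 342) (nat_lit 241) (nat_lit 197)))) (XT.nd (nat_lit 156) (nat_lit 0) (nat_lit 0) (XT.nd (nat_lit 78) (nat_lit 0) (nat_lit 0) (XT.lf (nat_lit 0) (nat_lit 15354798237) (nat_lit 152) (nat_lit 57356497447) (nat_lit 0) (nat_lit 1197358393)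 (nat_lit 4) (nat_lit 5) (nat_lit 6) (nat_lit 4) (nat_lit 4) (nat_lit 4) (nat_lit 343) (nat_lit 241) (nat_lit 196)) (XT.lf (nat_lit 0) (nat_lit 20648499209) (nat_lit 152) (nat_lit 50387364515) (nat_lit 0) (nat_lit 6406630668) (nat_lit 4) (nat_lit 5) (nat_lit 6) (nat_lit 4) (nat_lit 4) (nat_lit 4) (nat_lit 344) (nat_lit 241) (nat_lit 195))) (XT.nd (nat_lit 78) (nat_lit 0) (nat_lit 0) (XT.lf (nat_lit 0) (nat_lit 26161642801) (nat_lit 152) (nat_lit 43153391522) (nat_lit 0) (nat_lit 11839365977) (nat_lit 4) (nat_lit 5) (nat_lit 6) (nat_lit 4) (nat_lit 4) (nat_lit 4) (nat_lit 345) (nat_lit 241) (nat_lit 194)) (XT.lf (nat_lit 0) (nat_lit 31907355544) (nat_lit 152) (nat_lit 35637354722) (nat_lit 0) (nat_lit 17508499404) (nat_lit 4) (nat_lit 5) (nat_lit 6) (nat_lit 4) (nat_lit 4) (nat_lit 4) (nat_lit 346) (nat_lit 241) (nat_lit 193))))) (XT.nd (nat_lit 234) (nat_lit 76) (nat_lit 0) (XT.nd (nat_lit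 78) (nat_lit 0) (nat_lit 0) (XT.lf (nat_lit 0) (nat_lit 37899317708) (nat_lit 152) (nat_lit 27821358790) (nat_lit 0) (nat_lit 23427528884) (nat_lit 4) (nat_lit 5) (nat_lit 6) (nat_lit 4) (nat_lit 4) (nat_lit 4) (nat_lit 347) (nat_lit 241) (nat_lit 192)) (XT.nd (nat_lit 78) (nat_lit 0) (nat_lit 0) (XT.lf (nat_lit 0) (nat_lit 44151795868) (nat_lit 152) (nat_lit 19686794212) (nat_lit 0) (nat_lit 29610547347) (nat_lit 4) (nat_lit 5) (nat_lit 6) (nat_lit 4) (nat_lit 4) (nat_lit 4) (nat_lit 348) (nat_lit 241) (nat_lit 191)) (XT.lf (nat_lit 0) (nat_lit 50679676877) (nat_lit 152) (nat_lit 11214292976) (nat_lit 0) (nat_lit 36072276263) (nat_lit 4) (nat_lit 5) (nat_lit 6) (nat_lit 4) (nat_lit 4) (nat_lit 4) (nat_lit 349) (nat_lit 241) (nat_lit 190)))) (XT.nd (nat_lit 156) (nat_lit 0) (nat_lit 0) (XT.nd (nat_lit 78) (nat_lit 76) (nat_lit 0) (XT.lf (nat_lit 0) (nat_lit 57498503310) (nat_lit 152) (nat_lit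 2383682460) (nat_lit 0) (nat_lit 42828100702) (nat_lit 4) (nat_lit 5) (nat_lit 6) (nat_lit 4) (nat_lit 4) (nat_lit 4) (nat_lit 350) (nat_lit 241) (nat_lit 189)) (XT.lf (nat_lit 0) (nat_lit 6961914627) (nat_lit 76) (nat_lit 57729518022) (nat_lit 76) (nat_lit 42999113516) (nat_lit 3) (nat_lit 4) (nat_lit 4) (nat_lit 5) (nat_lit 4) (nat_lit 4) (nat_lit 351) (nat_lit 241) (nat_lit 188))) (XT.nd (nat_lit 78) (nat_lit 0) (nat_lit 0) (XT.lf (nat_lit 0) (nat_lit 16763996107) (nat_lit 76) (nat_lit 55471814710) (nat_lit 76) (nat_lit 40684265539) (nat_lit 3) (nat_lit 4) (nat_lit 4) (nat_lit 5) (nat_lit 4) (nat_lit 4) (nat_lit 352) (nat_lit 241) (nat_lit 187)) (XT.lf (nat_lit 0) (nat_lit 26998460313) (nat_lit 76) (nat_lit 53127770871) (nat_lit 76) (nat_lit 38285798208) (nat_lit 3) (nat_lit 4) (nat_lit 4) (nat_lit 5) (nat_lit 4) (nat_lit 4) (nat_lit 353) (nat_lit 241) (nat_lit 186))))))))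
noncomputable def xc21 : XT := (XT.nd (nat_lit 37440) (nat_lit 0) (nat_lit 228) (XT.nd (nat_lit 36426) (nat_lit 0) (nat_lit 1368) (XT.nd (nat_lit 468) (nat_lit 0) (nat_lit 0) (XT.nd (nat_lit 234) (nat_lit 0) (nat_lit 0) (XT.nd (nat_lit 78) (nat_lit 0) (nat_lit 0) (XT.lf (nat_lit 0) (nat_lit 37689675018) (nat_lit 76) (nat_lit 50691805447) (nat_lit 76) (nat_lit 35798000888) (nat_lit 3) (nat_lit 4) (nat_lit 4) (nat_lit 5) (nat_lit 4) (nat_lit 4) (nat_lit 354) (nat_lit 241) (nat_lit 185)) (XT.nd (nat_lit 78) (nat_lit 0) (nat_lit 0) (XT.lf (nat_lit 0) (nat_lit 48863095495) (nat_lit 76) (nat_lit 48158118520) (nat_lit 76) (nat_lit 33214950251) (nat_lit 3) (nat_lit 4) (nat_lit 4) (nat_lit 5) (nat_lit 4) (nat_lit 4) (nat_lit 355) (nat_lit 241) (nat_lit 184)) (XT.lf (nat_lit 0) (nat_lit 60545325125) (nat_lit 76) (nat_lit 45520677503) (nat_lit 76) (nat_lit 30530496177) (nat_lit 3) (nat_lit 4) (nat_lit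 4) (nat_lit 5) (nat_lit 4) (nat_lit 4) (nat_lit 356) (nat_lit 241) (nat_lit 183)))) (XT.nd (nat_lit 78) (nat_lit 0) (nat_lit 0) (XT.lf (nat_lit 0) (nat_lit 72764178741) (nat_lit 76) (nat_lit 42773202774) (nat_lit 76) (nat_lit 27738247108) (nat_lit 3) (nat_lit 4) (nat_lit 4) (nat_lit 5) (nat_lit 4) (nat_lit 4) (nat_lit 357) (nat_lit 241) (nat_lit 182)) (XT.nd (nat_lit 78) (nat_lit 0) (nat_lit 0) (XT.lf (nat_lit 0) (nat_lit 85548748851) (nat_lit 76) (nat_lit 39909152728) (nat_lit 76) (nat_lit 24831554832) (nat_lit 3) (nat_lit 4) (nat_lit 4) (nat_lit 5) (nat_lit 4) (nat_lit 4) (nat_lit 358) (nat_lit 241) (nat_lit 181)) (XT.lf (nat_lit 0) (nat_lit 98929474909) (nat_lit 76) (nat_lit 36921708196) (nat_lit 76) (nat_lit 21803498653) (nat_lit 3) (nat_lit 4) (nat_lit 4) (nat_lit 5) (nat_lit 4) (nat_lit 4) (nat_lit 359) (nat_lit 241) (nat_lit 180))))) (XT.nd (nat_lit 35646) (nat_lit 0) (nat_lit 3192)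 (XT.nd (nat_lit 78) (nat_lit 0) (nat_lit 0) (XT.lf (nat_lit 0) (nat_lit 112938215786) (nat_lit 76) (nat_lit 33803756215) (nat_lit 76) (nat_lit 18646868914) (nat_lit 3) (nat_lit 4) (nat_lit 4) (nat_lit 5) (nat_lit 4) (nat_lit 4) (nat_lit 360) (nat_lit 241) (nat_lit 179)) (XT.nd (nat_lit 78) (nat_lit 0) (nat_lit 0) (XT.lf (nat_lit 0) (nat_lit 127608325627) (nat_lit 76) (nat_lit 30547873092) (nat_lit 76) (nat_lit 15354149830) (nat_lit 3) (nat_lit 4) (nat_lit 4) (nat_lit 5) (nat_lit 4) (nat_lit 4) (nat_lit 361) (nat_lit 241) (nat_lit 178)) (XT.lf (nat_lit 0) (nat_lit 142974733264) (nat_lit 76) (nat_lit 27146306722) (nat_lit 76) (nat_lit 11917501593) (nat_lit 3) (nat_lit 4) (nat_lit 4) (nat_lit 5) (nat_lit 4) (nat_lit 4) (nat_lit 362) (nat_lit 241) (nat_lit 177)))) (XT.nd (nat_lit 156) (nat_lit 456) (nat_lit 0) (XT.nd (nat_lit 78) (nat_lit 228) (nat_lit 0) (XT.lf (nat_lit 0) (nat_lit 2021958893)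 (nat_lit 228) (nat_lit 1791792166) (nat_lit 228) (nat_lit 1791792166) (nat_lit 54) (nat_lit 4) (nat_lit 57) (nat_lit 5) (nat_lit 57) (nat_lit 4) (nat_lit 296) (nat_lit 242) (nat_lit 242)) (XT.lf (nat_lit 0) (nat_lit 2771245390) (nat_lit 228) (nat_lit 7097498604) (nat_lit 0) (nat_lit 1668672487) (nat_lit 51) (nat_lit 5) (nat_lit 54) (nat_lit 4) (nat_lit 51) (nat_lit 4) (nat_lit 297) (nat_lit 242) (nat_lit 241))) (XT.nd (nat_lit 78) (nat_lit 228) (nat_lit 0) (XT.lf (nat_lit 0) (nat_lit 4527914505) (nat_lit 228) (nat_lit 4753297019) (nat_lit 228) (nat_lit 2600654685) (nat_lit 48) (nat_lit 4) (nat_lit 51) (nat_lit 5) (nat_lit 51) (nat_lit 4) (nat_lit 298) (nat_lit 242) (nat_lit 240)) (XT.lf (nat_lit 0) (nat_lit 3680890906) (nat_lit 228) (nat_lit 7945218569) (nat_lit 0) (nat_lit 620008908) (nat_lit 45) (nat_lit 5) (nat_lit 48) (nat_lit 4) (nat_lit 45) (nat_lit 4) (nat_lit 299) (nat_lit 242) (nat_lit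 239)))))) (XT.nd (nat_lit 468) (nat_lit 760) (nat_lit 0) (XT.nd (nat_lit 234) (nat_lit 456) (nat_lit 0) (XT.nd (nat_lit 78) (nat_lit 380) (nat_lit 0) (XT.lf (nat_lit 0) (nat_lit 3687492707) (nat_lit 228) (nat_lit 6464112008) (nat_lit 228) (nat_lit 2478527166) (nat_lit 42) (nat_lit 4) (nat_lit 45) (nat_lit 5) (nat_lit 45) (nat_lit 4) (nat_lit 300) (nat_lit 242) (nat_lit 238)) (XT.nd (nat_lit 78) (nat_lit 152) (nat_lit 0) (XT.lf (nat_lit 0) (nat_lit 2681621800) (nat_lit 152) (nat_lit 1036543724) (nat_lit 228) (nat_lit 9317765466) (nat_lit 39) (nat_lit 5) (nat_lit 41) (nat_lit 5) (nat_lit 42) (nat_lit 4) (nat_lit 301) (nat_lit 242) (nat_lit 237)) (XT.lf (nat_lit 0) (nat_lit 1203373789) (nat_lit 152) (nat_lit 8899507011) (nat_lit 152) (nat_lit 3360684725) (nat_lit 37) (nat_lit 4) (nat_lit 39) (nat_lit 5) (nat_lit 39) (nat_lit 4) (nat_lit 302) (nat_lit 242) (nat_lit 236)))) (XT.nd (nat_lit 78)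 (nat_lit 380) (nat_lit 0) (XT.lf (nat_lit 0) (nat_lit 2740325506) (nat_lit 228) (nat_lit 751488773) (nat_lit 76) (nat_lit 10423008945) (nat_lit 36) (nat_lit 5) (nat_lit 39) (nat_lit 5) (nat_lit 37) (nat_lit 4) (nat_lit 303) (nat_lit 242) (nat_lit 235)) (XT.nd (nat_lit 78) (nat_lit 228) (nat_lit 0) (XT.lf (nat_lit 0) (nat_lit 9000778258) (nat_lit 228) (nat_lit 3236038876) (nat_lit 0) (nat_lit 2153256951) (nat_lit 34) (nat_lit 5) (nat_lit 37) (nat_lit 4) (nat_lit 34) (nat_lit 4) (nat_lit 304) (nat_lit 242) (nat_lit 234)) (XT.lf (nat_lit 0) (nat_lit 596461547) (nat_lit 228) (nat_lit 6319642318) (nat_lit 76) (nat_lit 7975180507) (nat_lit 31) (nat_lit 5) (nat_lit 34) (nat_lit 5) (nat_lit 32) (nat_lit 4) (nat_lit 305) (nat_lit 242) (nat_lit 233))))) (XT.nd (nat_lit 234) (nat_lit 380) (nat_lit 0) (XT.nd (nat_lit 78) (nat_lit 228) (nat_lit 0) (XT.lf (nat_lit 0) (nat_lit 5339780561) (nat_lit 152)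 (nat_lit 1320641565) (nat_lit 228) (nat_lit 8758949067) (nat_lit 29) (nat_lit 5) (nat_lit 31) (nat_lit 5) (nat_lit 32) (nat_lit 4) (nat_lit 306) (nat_lit 242) (nat_lit 232)) (XT.nd (nat_lit 78) (nat_lit 76) (nat_lit 0) (XT.lf (nat_lit 0) (nat_lit 1399679239) (nat_lit 152) (nat_lit 11560169099) (nat_lit 152) (nat_lit 3016167923) (nat_lit 27) (nat_lit 4) (nat_lit 29) (nat_lit 5) (nat_lit 29) (nat_lit 4) (nat_lit 307) (nat_lit 242) (nat_lit 231)) (XT.lf (nat_lit 0) (nat_lit 2886490758) (nat_lit 228) (nat_lit 3257189480) (nat_lit 76) (nat_lit 10418110557) (nat_lit 26) (nat_lit 5) (nat_lit 29) (nat_lit 5) (nat_lit 27) (nat_lit 4) (nat_lit 308) (nat_lit 242) (nat_lit 230)))) (XT.nd (nat_lit 156) (nat_lit 152) (nat_lit 0) (XT.nd (nat_lit 78) (nat_lit 152) (nat_lit 0) (XT.lf (nat_lit 0) (nat_lit 8457724429) (nat_lit 76) (nat_lit 468374187) (nat_lit 152) (nat_lit 8252841068) (nat_lit 25) (nat_lit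 5) (nat_lit 26) (nat_lit 5) (nat_lit 27) (nat_lit 4) (nat_lit 309) (nat_lit 242) (nat_lit 229)) (XT.lf (nat_lit 0) (nat_lit 2699958971) (nat_lit 152) (nat_lit 12507061490) (nat_lit 152) (nat_lit 2621847811) (nat_lit 23) (nat_lit 4) (nat_lit 25) (nat_lit 5) (nat_lit 25) (nat_lit 4) (nat_lit 310) (nat_lit 242) (nat_lit 228))) (XT.nd (nat_lit 78) (nat_lit 76) (nat_lit 0) (XT.lf (nat_lit 0) (nat_lit 3152304701) (nat_lit 228) (nat_lit 3966399746) (nat_lit 76) (nat_lit 11393959747) (nat_lit 22) (nat_lit 5) (nat_lit 25) (nat_lit 5) (nat_lit 23) (nat_lit 4) (nat_lit 311) (nat_lit 242) (nat_lit 227)) (XT.lf (nat_lit 0) (nat_lit 7595035062) (nat_lit 76) (nat_lit 1477922305) (nat_lit 152) (nat_lit 10159643338) (nat_lit 21) (nat_lit 5) (nat_lit 22) (nat_lit 5) (nat_lit 23) (nat_lit 4) (nat_lit 312) (nat_lit 242) (nat_lit 226))))))) (XT.nd (nat_lit 1014) (nat_lit 304) (nat_lit 0) (XT.nd (nat_lit 468)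 (nat_lit 304) (nat_lit 0) (XT.nd (nat_lit 234) (nat_lit 228) (nat_lit 0) (XT.nd (nat_lit 78) (nat_lit 304) (nat_lit 0) (XT.lf (nat_lit 0) (nat_lit 15216056372) (nat_lit 152) (nat_lit 489562474) (nat_lit 0) (nat_lit 4285208550) (nat_lit 21) (nat_lit 5) (nat_lit 23) (nat_lit 4) (nat_lit 21) (nat_lit 4) (nat_lit 313) (nat_lit 242) (nat_lit 225)) (XT.nd (nat_lit 78) (nat_lit 76) (nat_lit 0) (XT.lf (nat_lit 0) (nat_lit 833931318) (nat_lit 228) (nat_lit 9640838129) (nat_lit 76) (nat_lit 10312869325) (nat_lit 18) (nat_lit 5) (nat_lit 21) (nat_lit 5) (nat_lit 19) (nat_lit 4) (nat_lit 314) (nat_lit 242) (nat_lit 224)) (XT.lf (nat_lit 0) (nat_lit 1472738878) (nat_lit 76) (nat_lit 5024869073) (nat_lit 152) (nat_lit 15129141380) (nat_lit 17) (nat_lit 5) (nat_lit 18) (nat_lit 5) (nat_lit 19) (nat_lit 4) (nat_lit 315) (nat_lit 242) (nat_lit 223)))) (XT.nd (nat_lit 78) (nat_lit 228) (nat_lit 0) (XT.lf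 (nat_lit 0) (nat_lit 12408052939) (nat_lit 152) (nat_lit 9423768141) (nat_lit 0) (nat_lit 677158733) (nat_lit 17) (nat_lit 5) (nat_lit 19) (nat_lit 4) (nat_lit 17) (nat_lit 4) (nat_lit 316) (nat_lit 242) (nat_lit 222)) (XT.nd (nat_lit 78) (nat_lit 76) (nat_lit 0) (XT.lf (nat_lit 0) (nat_lit 1580537449) (nat_lit 152) (nat_lit 16962872028) (nat_lit 152) (nat_lit 4894099164) (nat_lit 15) (nat_lit 4) (nat_lit 17) (nat_lit 5) (nat_lit 17) (nat_lit 4) (nat_lit 317) (nat_lit 242) (nat_lit 221)) (XT.lf (nat_lit 0) (nat_lit 526198481) (nat_lit 228) (nat_lit 11322379144) (nat_lit 76) (nat_lit 12564855031) (nat_lit 14) (nat_lit 5) (nat_lit 17) (nat_lit 5) (nat_lit 15) (nat_lit 4) (nat_lit 318) (nat_lit 242) (nat_lit 220))))) (XT.nd (nat_lit 234) (nat_lit 228) (nat_lit 0) (XT.nd (nat_lit 78) (nat_lit 76) (nat_lit 0) (XT.lf (nat_lit 0) (nat_lit 5989940471) (nat_lit 228) (nat_lit 537448807) (nat_lit 76)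 (nat_lit 18913160818) (nat_lit 14) (nat_lit 5) (nat_lit 17) (nat_lit 5) (nat_lit 15) (nat_lit 4) (nat_lit 319) (nat_lit 242) (nat_lit 219)) (XT.nd (nat_lit 78) (nat_lit 0) (nat_lit 0) (XT.lf (nat_lit 0) (nat_lit 10780917839) (nat_lit 76) (nat_lit 928352157) (nat_lit 152) (nat_lit 14810338852) (nat_lit 13) (nat_lit 5) (nat_lit 14) (nat_lit 5) (nat_lit 15) (nat_lit 4) (nat_lit 320) (nat_lit 242) (nat_lit 218)) (XT.lf (nat_lit 0) (nat_lit 17649374717) (nat_lit 152) (nat_lit 5236341617) (nat_lit 0) (nat_lit 4768914658) (nat_lit 13) (nat_lit 5) (nat_lit 15) (nat_lit 4) (nat_lit 13) (nat_lit 4) (nat_lit 321) (nat_lit 242) (nat_lit 217)))) (XT.nd (nat_lit 156) (nat_lit 76) (nat_lit 0) (XT.nd (nat_lit 78) (nat_lit 76) (nat_lit 0) (XT.lf (nat_lit 0) (nat_lit 5690242141) (nat_lit 76) (nat_lit 18147580069) (nat_lit 76) (nat_lit 5010094019) (nat_lit 12) (nat_lit 4) (nat_lit 13) (nat_lit 5) (nat_lit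 13) (nat_lit 4) (nat_lit 322) (nat_lit 242) (nat_lit 216)) (XT.lf (nat_lit 0) (nat_lit 174297139) (nat_lit 152) (nat_lit 13028449513) (nat_lit 76) (nat_lit 16899777949) (nat_lit 11) (nat_lit 5) (nat_lit 13) (nat_lit 5) (nat_lit 12) (nat_lit 4) (nat_lit 323) (nat_lit 242) (nat_lit 215))) (XT.nd (nat_lit 78) (nat_lit 76) (nat_lit 0) (XT.lf (nat_lit 0) (nat_lit 5410126897) (nat_lit 152) (nat_lit 2632845254) (nat_lit 76) (nat_lit 23378573919) (nat_lit 11) (nat_lit 5) (nat_lit 13) (nat_lit 5) (nat_lit 12) (nat_lit 4) (nat_lit 324) (nat_lit 242) (nat_lit 214)) (XT.lf (nat_lit 0) (nat_lit 8263296901) (nat_lit 76) (nat_lit 2623761458) (nat_lit 152) (nat_lit 21920124651) (nat_lit 10) (nat_lit 5) (nat_lit 11) (nat_lit 5) (nat_lit 12) (nat_lit 4) (nat_lit 325) (nat_lit 242) (nat_lit 213)))))) (XT.nd (nat_lit 546) (nat_lit 76) (nat_lit 0) (XT.nd (nat_lit 234) (nat_lit 152) (nat_lit 0) (XT.nd (nat_lit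 78) (nat_lit 76) (nat_lit 0) (XT.lf (nat_lit 0) (nat_lit 16596892140) (nat_lit 152) (nat_lit 14709284059) (nat_lit 0) (nat_lit 2957195550) (nat_lit 10) (nat_lit 5) (nat_lit 12) (nat_lit 4) (nat_lit 10) (nat_lit 4) (nat_lit 326) (nat_lit 242) (nat_lit 212)) (XT.nd (nat_lit 78) (nat_lit 76) (nat_lit 0) (XT.lf (nat_lit 0) (nat_lit 22525564987) (nat_lit 152) (nat_lit 4578496721) (nat_lit 0) (nat_lit 8690347437) (nat_lit 10) (nat_lit 5) (nat_lit 12) (nat_lit 4) (nat_lit 10) (nat_lit 4) (nat_lit 327) (nat_lit 242) (nat_lit 211)) (XT.lf (nat_lit 0) (nat_lit 6015196171) (nat_lit 76) (nat_lit 22704597162) (nat_lit 76) (nat_lit 8683169174) (nat_lit 9) (nat_lit 4) (nat_lit 10) (nat_lit 5) (nat_lit 10) (nat_lit 4) (nat_lit 328) (nat_lit 242) (nat_lit 210)))) (XT.nd (nat_lit 156) (nat_lit 76) (nat_lit 0) (XT.nd (nat_lit 78) (nat_lit 76) (nat_lit 0) (XT.lf (nat_lit 0) (nat_lit 17077854242) (nat_lit 76)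 (nat_lit 18107030976) (nat_lit 76) (nat_lit 3908259713) (nat_lit 9) (nat_lit 4) (nat_lit 10) (nat_lit 5) (nat_lit 10) (nat_lit 4) (nat_lit 329) (nat_lit 242) (nat_lit 209)) (XT.lf (nat_lit 0) (nat_lit 1001095454) (nat_lit 152) (nat_lit 12335445845) (nat_lit 76) (nat_lit 27533491536) (nat_lit 8) (nat_lit 5) (nat_lit 10) (nat_lit 5) (nat_lit 9) (nat_lit 4) (nat_lit 330) (nat_lit 242) (nat_lit 208))) (XT.nd (nat_lit 78) (nat_lit 76) (nat_lit 0) (XT.lf (nat_lit 0) (nat_lit 5997050924) (nat_lit 152) (nat_lit 2354511819) (nat_lit 76) (nat_lit 34385414346) (nat_lit 8) (nat_lit 5) (nat_lit 10) (nat_lit 5) (nat_lit 9) (nat_lit 4) (nat_lit 331) (nat_lit 242) (nat_lit 207)) (XT.lf (nat_lit 0) (nat_lit 8147837762) (nat_lit 76) (nat_lit 3098250290) (nat_lit 152) (nat_lit 33451112142) (nat_lit 7) (nat_lit 5) (nat_lit 8) (nat_lit 5) (nat_lit 9) (nat_lit 4) (nat_lit 332) (nat_lit 242) (nat_lit 206)))))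 (XT.nd (nat_lit 234) (nat_lit 76) (nat_lit 0) (XT.nd (nat_lit 78) (nat_lit 0) (nat_lit 0) (XT.lf (nat_lit 0) (nat_lit 16731978317) (nat_lit 152) (nat_lit 27688023759) (nat_lit 0) (nat_lit 2336229060) (nat_lit 7) (nat_lit 5) (nat_lit 9) (nat_lit 4) (nat_lit 7) (nat_lit 4) (nat_lit 333) (nat_lit 242) (nat_lit 205)) (XT.nd (nat_lit 78) (nat_lit 0) (nat_lit 0) (XT.lf (nat_lit 0) (nat_lit 22453608775) (nat_lit 152) (nat_lit 18542835230) (nat_lit 0) (nat_lit 7922953599) (nat_lit 7) (nat_lit 5) (nat_lit 9) (nat_lit 4) (nat_lit 7) (nat_lit 4) (nat_lit 334) (nat_lit 242) (nat_lit 204)) (XT.lf (nat_lit 0) (nat_lit 28394820079) (nat_lit 152) (nat_lit 9062240312) (nat_lit 0) (nat_lit 13735683077) (nat_lit 7) (nat_lit 5) (nat_lit 9) (nat_lit 4) (nat_lit 7) (nat_lit 4) (nat_lit 335) (nat_lit 242) (nat_lit 203)))) (XT.nd (nat_lit 156) (nat_lit 0) (nat_lit 0) (XT.nd (nat_lit 78) (nat_lit 0) (nat_lit 0)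 (XT.lf (nat_lit 0) (nat_lit 791784407) (nat_lit 76) (nat_lit 33785584679) (nat_lit 76) (nat_lit 19004084032) (nat_lit 6) (nat_lit 4) (nat_lit 7) (nat_lit 5) (nat_lit 7) (nat_lit 4) (nat_lit 336) (nat_lit 242) (nat_lit 202)) (XT.lf (nat_lit 0) (nat_lit 11215160585) (nat_lit 76) (nat_lit 29885771080) (nat_lit 76) (nat_lit 14987733629) (nat_lit 6) (nat_lit 4) (nat_lit 7) (nat_lit 5) (nat_lit 7) (nat_lit 4) (nat_lit 337) (nat_lit 242) (nat_lit 201))) (XT.nd (nat_lit 78) (nat_lit 0) (nat_lit 0) (XT.lf (nat_lit 0) (nat_lit 22052349433) (nat_lit 76) (nat_lit 25839845183) (nat_lit 76) (nat_lit 10830820299) (nat_lit 6) (nat_lit 4) (nat_lit 7) (nat_lit 5) (nat_lit 7) (nat_lit 4) (nat_lit 338) (nat_lit 242) (nat_lit 200)) (XT.lf (nat_lit 0) (nat_lit 33329153781) (nat_lit 76) (nat_lit 21638173830) (nat_lit 76) (nat_lit 6523446630) (nat_lit 6) (nat_lit 4) (nat_lit 7) (nat_lit 5) (nat_lit 7) (nat_lit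 4) (nat_lit 339) (nat_lit 242) (nat_lit 199))))))))
noncomputable def xc22 : XT := (XT.nd (nat_lit 37284) (nat_lit 0) (nat_lit 684) (XT.nd (nat_lit 1014) (nat_lit 0) (nat_lit 0) (XT.nd (nat_lit 468) (nat_lit 76) (nat_lit 0) (XT.nd (nat_lit 234) (nat_lit 76) (nat_lit 0) (XT.nd (nat_lit 78) (nat_lit 76) (nat_lit 0) (XT.lf (nat_lit 0) (nat_lit 45072423164) (nat_lit 76) (nat_lit 17270753043) (nat_lit 76) (nat_lit 2055356968) (nat_lit 6) (nat_lit 4) (nat_lit 7) (nat_lit 5) (nat_lit 7) (nat_lit 4) (nat_lit 340) (nat_lit 242) (nat_lit 198)) (XT.nd (nat_lit 78) (nat_lit 0) (nat_lit 0) (XT.lf (nat_lit 0) (nat_lit 2533662147) (nat_lit 152) (nat_lit 10167937032) (nat_lit 76) (nat_lit 54750870580) (nat_lit 5) (nat_lit 5) (nat_lit 7) (nat_lit 5) (nat_lit 6) (nat_lit 4) (nat_lit 341) (nat_lit 242) (nat_lit 197)) (XT.lf (nat_lit 0) (nat_lit 7261415148) (nat_lit 152) (nat_lit 661908074) (nat_lit 76) (nat_lit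 62736633693) (nat_lit 5) (nat_lit 5) (nat_lit 7) (nat_lit 5) (nat_lit 6) (nat_lit 4) (nat_lit 342) (nat_lit 242) (nat_lit 196)))) (XT.nd (nat_lit 78) (nat_lit 0) (nat_lit 0) (XT.lf (nat_lit 0) (nat_lit 9418149633) (nat_lit 76) (nat_lit 2851649390) (nat_lit 152) (nat_lit 61756709230) (nat_lit 4) (nat_lit 5) (nat_lit 5) (nat_lit 5) (nat_lit 6) (nat_lit 4) (nat_lit 343) (nat_lit 242) (nat_lit 195)) (XT.nd (nat_lit 78) (nat_lit 0) (nat_lit 0) (XT.lf (nat_lit 0) (nat_lit 17514018719) (nat_lit 152) (nat_lit 57652602468) (nat_lit 0) (nat_lit 2395219772) (nat_lit 4) (nat_lit 5) (nat_lit 6) (nat_lit 4) (nat_lit 4) (nat_lit 4) (nat_lit 344) (nat_lit 242) (nat_lit 194)) (XT.lf (nat_lit 0) (nat_lit 23006143761) (nat_lit 152) (nat_lit 50457475740) (nat_lit 0) (nat_lit 7810765497) (nat_lit 4) (nat_lit 5) (nat_lit 6) (nat_lit 4) (nat_lit 4) (nat_lit 4) (nat_lit 345) (nat_lit 242) (nat_lit 193))))) (XT.nd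 (nat_lit 234) (nat_lit 76) (nat_lit 0) (XT.nd (nat_lit 78) (nat_lit 0) (nat_lit 0) (XT.lf (nat_lit 0) (nat_lit 28731838837) (nat_lit 152) (nat_lit 42978435383) (nat_lit 0) (nat_lit 13463527890) (nat_lit 4) (nat_lit 5) (nat_lit 6) (nat_lit 4) (nat_lit 4) (nat_lit 4) (nat_lit 346) (nat_lit 242) (nat_lit 192)) (XT.nd (nat_lit 78) (nat_lit 0) (nat_lit 0) (XT.lf (nat_lit 0) (nat_lit 34704736556) (nat_lit 152) (nat_lit 35197674158) (nat_lit 0) (nat_lit 19366965911) (nat_lit 4) (nat_lit 5) (nat_lit 6) (nat_lit 4) (nat_lit 4) (nat_lit 4) (nat_lit 347) (nat_lit 242) (nat_lit 191)) (XT.lf (nat_lit 0) (nat_lit 40939058102) (nat_lit 152) (nat_lit 27096666444) (nat_lit 0) (nat_lit 25535135364) (nat_lit 4) (nat_lit 5) (nat_lit 6) (nat_lit 4) (nat_lit 4) (nat_lit 4) (nat_lit 348) (nat_lit 242) (nat_lit 190)))) (XT.nd (nat_lit 156) (nat_lit 76) (nat_lit 0) (XT.nd (nat_lit 78) (nat_lit 0) (nat_lit 0) (XT.lf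 (nat_lit 0) (nat_lit 47449647098) (nat_lit 152) (nat_lit 18656124126) (nat_lit 0) (nat_lit 31982722367) (nat_lit 4) (nat_lit 5) (nat_lit 6) (nat_lit 4) (nat_lit 4) (nat_lit 4) (nat_lit 349) (nat_lit 242) (nat_lit 189)) (XT.lf (nat_lit 0) (nat_lit 54252004947) (nat_lit 152) (nat_lit 9855950676) (nat_lit 0) (nat_lit 38725078317) (nat_lit 4) (nat_lit 5) (nat_lit 6) (nat_lit 4) (nat_lit 4) (nat_lit 4) (nat_lit 350) (nat_lit 242) (nat_lit 188))) (XT.nd (nat_lit 78) (nat_lit 76) (nat_lit 0) (XT.lf (nat_lit 0) (nat_lit 61362327738) (nat_lit 152) (nat_lit 675193299) (nat_lit 0) (nat_lit 45778256443) (nat_lit 4) (nat_lit 5) (nat_lit 6) (nat_lit 4) (nat_lit 4) (nat_lit 4) (nat_lit 351) (nat_lit 242) (nat_lit 187)) (XT.lf (nat_lit 0) (nat_lit 9085293755) (nat_lit 76) (nat_lit 59799584458) (nat_lit 76) (nat_lit 44161089672) (nat_lit 3) (nat_lit 4) (nat_lit 4) (nat_lit 5) (nat_lit 4) (nat_lit 4) (nat_lit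 352) (nat_lit 242) (nat_lit 186)))))) (XT.nd (nat_lit 468) (nat_lit 0) (nat_lit 0) (XT.nd (nat_lit 234) (nat_lit 0) (nat_lit 0) (XT.nd (nat_lit 78) (nat_lit 0) (nat_lit 0) (XT.lf (nat_lit 0) (nat_lit 19292942004) (nat_lit 76) (nat_lit 57467872622) (nat_lit 76) (nat_lit 41777545940) (nat_lit 3) (nat_lit 4) (nat_lit 4) (nat_lit 5) (nat_lit 4) (nat_lit 4) (nat_lit 353) (nat_lit 242) (nat_lit 185)) (XT.nd (nat_lit 78) (nat_lit 0) (nat_lit 0) (XT.lf (nat_lit 0) (nat_lit 29958617702) (nat_lit 76) (nat_lit 55043651963) (nat_lit 76) (nat_lit 39303961571) (nat_lit 3) (nat_lit 4) (nat_lit 4) (nat_lit 5) (nat_lit 4) (nat_lit 4) (nat_lit 354) (nat_lit 242) (nat_lit 184)) (XT.lf (nat_lit 0) (nat_lit 41107715315) (nat_lit 76) (nat_lit 52521150528) (nat_lit 76) (nat_lit 36734447078) (nat_lit 3) (nat_lit 4) (nat_lit 4) (nat_lit 5) (nat_lit 4) (nat_lit 4) (nat_lit 355) (nat_lit 242) (nat_lit 183)))) (XT.nd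 (nat_lit 78) (nat_lit 0) (nat_lit 0) (XT.lf (nat_lit 0) (nat_lit 52766780313) (nat_lit 76) (nat_lit 49894362359) (nat_lit 76) (nat_lit 34062884568) (nat_lit 3) (nat_lit 4) (nat_lit 4) (nat_lit 5) (nat_lit 4) (nat_lit 4) (nat_lit 356) (nat_lit 242) (nat_lit 182)) (XT.nd (nat_lit 78) (nat_lit 0) (nat_lit 0) (XT.lf (nat_lit 0) (nat_lit 64963572375) (nat_lit 76) (nat_lit 47157033200) (nat_lit 76) (nat_lit 31282913181) (nat_lit 3) (nat_lit 4) (nat_lit 4) (nat_lit 5) (nat_lit 4) (nat_lit 4) (nat_lit 357) (nat_lit 242) (nat_lit 181)) (XT.lf (nat_lit 0) (nat_lit 77727131482) (nat_lit 76) (nat_lit 44302645601) (nat_lit 76) (nat_lit 28387913934) (nat_lit 3) (nat_lit 4) (nat_lit 4) (nat_lit 5) (nat_lit 4) (nat_lit 4) (nat_lit 358) (nat_lit 242) (nat_lit 180))))) (XT.nd (nat_lit 234) (nat_lit 0) (nat_lit 0) (XT.nd (nat_lit 78) (nat_lit 0) (nat_lit 0) (XT.lf (nat_lit 0) (nat_lit 91087847060) (nat_lit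 76) (nat_lit 41324403400) (nat_lit 76) (nat_lit 25370993975) (nat_lit 3) (nat_lit 4) (nat_lit 4) (nat_lit 5) (nat_lit 4) (nat_lit 4) (nat_lit 359) (nat_lit 242) (nat_lit 179)) (XT.nd (nat_lit 78) (nat_lit 0) (nat_lit 0) (XT.lf (nat_lit 0) (nat_lit 105077530336) (nat_lit 76) (nat_lit 38215215544) (nat_lit 76) (nat_lit 22224970158) (nat_lit 3) (nat_lit 4) (nat_lit 4) (nat_lit 5) (nat_lit 4) (nat_lit 4) (nat_lit 360) (nat_lit 242) (nat_lit 178)) (XT.lf (nat_lit 0) (nat_lit 119729490082) (nat_lit 76) (nat_lit 34967679206) (nat_lit 76) (nat_lit 18942351953) (nat_lit 3) (nat_lit 4) (nat_lit 4) (nat_lit 5) (nat_lit 4) (nat_lit 4) (nat_lit 361) (nat_lit 242) (nat_lit 177)))) (XT.nd (nat_lit 35412) (nat_lit 0) (nat_lit 3876) (XT.nd (nat_lit 35334) (nat_lit 0) (nat_lit 4408) (XT.lf (nat_lit 0) (nat_lit 135078611914) (nat_lit 76) (nat_lit 31574062156) (nat_lit 76) (nat_lit 15515323600) (nat_lit 3)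 (nat_lit 4) (nat_lit 4) (nat_lit 5) (nat_lit 4) (nat_lit 4) (nat_lit 362) (nat_lit 242) (nat_lit 176)) (XT.lf (nat_lit 0) (nat_lit 1345880196) (nat_lit 228) (nat_lit 1978907783) (nat_lit 228) (nat_lit 1978907783) (nat_lit 61) (nat_lit 4) (nat_lit 64) (nat_lit 5) (nat_lit 64) (nat_lit 4) (nat_lit 294) (nat_lit 243) (nat_lit 243))) (XT.nd (nat_lit 78) (nat_lit 228) (nat_lit 0) (XT.lf (nat_lit 0) (nat_lit 2297144611) (nat_lit 304) (nat_lit 7501076679) (nat_lit 0) (nat_lit 1104712017) (nat_lit 57) (nat_lit 5) (nat_lit 61) (nat_lit 4) (nat_lit 57) (nat_lit 4) (nat_lit 295) (nat_lit 243) (nat_lit 242)) (XT.lf (nat_lit 0) (nat_lit 3855365112) (nat_lit 228) (nat_lit 4843770162) (nat_lit 228) (nat_lit 2515687478) (nat_lit 54) (nat_lit 4) (nat_lit 57) (nat_lit 5) (nat_lit 57) (nat_lit 4) (nat_lit 296) (nat_lit 243) (nat_lit 241))))))) (XT.nd (nat_lit 1014) (nat_lit 988) (nat_lit 0) (XT.nd (nat_lit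 468) (nat_lit 1064) (nat_lit 0) (XT.nd (nat_lit 234) (nat_lit 456) (nat_lit 0) (XT.nd (nat_lit 78) (nat_lit 456) (nat_lit 0) (XT.lf (nat_lit 0) (nat_lit 3685561693) (nat_lit 228) (nat_lit 7484151432) (nat_lit 0) (nat_lit 375217811) (nat_lit 51) (nat_lit 5) (nat_lit 54) (nat_lit 4) (nat_lit 51) (nat_lit 4) (nat_lit 297) (nat_lit 243) (nat_lit 240)) (XT.nd (nat_lit 78) (nat_lit 228) (nat_lit 0) (XT.lf (nat_lit 0) (nat_lit 3950361891) (nat_lit 228) (nat_lit 6126543185) (nat_lit 228) (nat_lit 1816133179) (nat_lit 48) (nat_lit 4) (nat_lit 51) (nat_lit 5) (nat_lit 51) (nat_lit 4) (nat_lit 298) (nat_lit 243) (nat_lit 239)) (XT.lf (nat_lit 0) (nat_lit 3518737755) (nat_lit 152) (nat_lit 807169481) (nat_lit 228) (nat_lit 7934974300) (nat_lit 45) (nat_lit 5) (nat_lit 47) (nat_lit 5) (nat_lit 48) (nat_lit 4) (nat_lit 299) (nat_lit 243) (nat_lit 238)))) (XT.nd (nat_lit 78) (nat_lit 228) (nat_lit 0) (XT.lf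 (nat_lit 0) (nat_lit 2704773058) (nat_lit 228) (nat_lit 7967093998) (nat_lit 228) (nat_lit 1976857696) (nat_lit 42) (nat_lit 4) (nat_lit 45) (nat_lit 5) (nat_lit 45) (nat_lit 4) (nat_lit 300) (nat_lit 243) (nat_lit 237)) (XT.nd (nat_lit 78) (nat_lit 0) (nat_lit 0) (XT.lf (nat_lit 0) (nat_lit 1480496521) (nat_lit 152) (nat_lit 2612836266) (nat_lit 228) (nat_lit 8964628323) (nat_lit 39) (nat_lit 5) (nat_lit 41) (nat_lit 5) (nat_lit 42) (nat_lit 4) (nat_lit 301) (nat_lit 243) (nat_lit 236)) (XT.lf (nat_lit 0) (nat_lit 10348943878) (nat_lit 228) (nat_lit 197252010) (nat_lit 0) (nat_lit 2943349584) (nat_lit 39) (nat_lit 5) (nat_lit 42) (nat_lit 4) (nat_lit 39) (nat_lit 4) (nat_lit 302) (nat_lit 243) (nat_lit 235))))) (XT.nd (nat_lit 234) (nat_lit 456) (nat_lit 0) (XT.nd (nat_lit 78) (nat_lit 380) (nat_lit 0) (XT.lf (nat_lit 0) (nat_lit 2854020174) (nat_lit 228) (nat_lit 2350530735) (nat_lit 76)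 (nat_lit 8739322529) (nat_lit 36) (nat_lit 5) (nat_lit 39) (nat_lit 5) (nat_lit 37) (nat_lit 4) (nat_lit 303) (nat_lit 243) (nat_lit 234)) (XT.nd (nat_lit 78) (nat_lit 228) (nat_lit 0) (XT.lf (nat_lit 0) (nat_lit 8984629861) (nat_lit 228) (nat_lit 5043747589) (nat_lit 0) (nat_lit 394709686) (nat_lit 34) (nat_lit 5) (nat_lit 37) (nat_lit 4) (nat_lit 34) (nat_lit 4) (nat_lit 304) (nat_lit 243) (nat_lit 233)) (XT.lf (nat_lit 0) (nat_lit 434930535) (nat_lit 228) (nat_lit 8357428284) (nat_lit 76) (nat_lit 6135415099) (nat_lit 31) (nat_lit 5) (nat_lit 34) (nat_lit 5) (nat_lit 32) (nat_lit 4) (nat_lit 305) (nat_lit 243) (nat_lit 232)))) (XT.nd (nat_lit 156) (nat_lit 304) (nat_lit 0) (XT.nd (nat_lit 78) (nat_lit 0) (nat_lit 0) (XT.lf (nat_lit 0) (nat_lit 3104855910) (nat_lit 152) (nat_lit 3281665290) (nat_lit 228) (nat_lit 9072770117) (nat_lit 29) (nat_lit 5) (nat_lit 31) (nat_lit 5) (nat_lit 32)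 (nat_lit 4) (nat_lit 306) (nat_lit 243) (nat_lit 231)) (XT.lf (nat_lit 0) (nat_lit 12565062598) (nat_lit 228) (nat_lit 1034862931) (nat_lit 0) (nat_lit 2419694047) (nat_lit 29) (nat_lit 5) (nat_lit 32) (nat_lit 4) (nat_lit 29) (nat_lit 4) (nat_lit 307) (nat_lit 243) (nat_lit 230))) (XT.nd (nat_lit 78) (nat_lit 76) (nat_lit 0) (XT.lf (nat_lit 0) (nat_lit 2359734248) (nat_lit 228) (nat_lit 5900598068) (nat_lit 76) (nat_lit 8348148255) (nat_lit 26) (nat_lit 5) (nat_lit 29) (nat_lit 5) (nat_lit 27) (nat_lit 4) (nat_lit 308) (nat_lit 243) (nat_lit 229)) (XT.lf (nat_lit 0) (nat_lit 5617291192) (nat_lit 76) (nat_lit 2672198518) (nat_lit 152) (nat_lit 8939485207) (nat_lit 25) (nat_lit 5) (nat_lit 26) (nat_lit 5) (nat_lit 27) (nat_lit 4) (nat_lit 309) (nat_lit 243) (nat_lit 228)))))) (XT.nd (nat_lit 546) (nat_lit 380) (nat_lit 0) (XT.nd (nat_lit 234) (nat_lit 304) (nat_lit 0) (XT.nd (nat_lit 78)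 (nat_lit 304) (nat_lit 0) (XT.lf (nat_lit 0) (nat_lit 14442780068) (nat_lit 152) (nat_lit 361441635) (nat_lit 0) (nat_lit 3078558254) (nat_lit 25) (nat_lit 5) (nat_lit 27) (nat_lit 4) (nat_lit 25) (nat_lit 4) (nat_lit 310) (nat_lit 243) (nat_lit 227)) (XT.nd (nat_lit 78) (nat_lit 76) (nat_lit 0) (XT.lf (nat_lit 0) (nat_lit 2267760640) (nat_lit 228) (nat_lit 7218157820) (nat_lit 76) (nat_lit 9083407996) (nat_lit 22) (nat_lit 5) (nat_lit 25) (nat_lit 5) (nat_lit 23) (nat_lit 4) (nat_lit 311) (nat_lit 243) (nat_lit 226)) (XT.lf (nat_lit 0) (nat_lit 4145443274) (nat_lit 76) (nat_lit 3934783354) (nat_lit 152) (nat_lit 11212323777) (nat_lit 21) (nat_lit 5) (nat_lit 22) (nat_lit 5) (nat_lit 23) (nat_lit 4) (nat_lit 312) (nat_lit 243) (nat_lit 225)))) (XT.nd (nat_lit 156) (nat_lit 152) (nat_lit 0) (XT.nd (nat_lit 78) (nat_lit 152) (nat_lit 0) (XT.lf (nat_lit 0) (nat_lit 14126515642) (nat_lit 152)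 (nat_lit 4103965483) (nat_lit 0) (nat_lit 1823240115) (nat_lit 21) (nat_lit 5) (nat_lit 23) (nat_lit 4) (nat_lit 21) (nat_lit 4) (nat_lit 313) (nat_lit 243) (nat_lit 224)) (XT.lf (nat_lit 0) (nat_lit 7344089433) (nat_lit 152) (nat_lit 13098439385) (nat_lit 152) (nat_lit 411477301) (nat_lit 19) (nat_lit 4) (nat_lit 21) (nat_lit 5) (nat_lit 21) (nat_lit 4) (nat_lit 314) (nat_lit 243) (nat_lit 223))) (XT.nd (nat_lit 78) (nat_lit 76) (nat_lit 0) (XT.lf (nat_lit 0) (nat_lit 5177836990) (nat_lit 228) (nat_lit 2541368762) (nat_lit 76) (nat_lit 13976536426) (nat_lit 18) (nat_lit 5) (nat_lit 21) (nat_lit 5) (nat_lit 19) (nat_lit 4) (nat_lit 315) (nat_lit 243) (nat_lit 222)) (XT.lf (nat_lit 0) (nat_lit 8910564597) (nat_lit 76) (nat_lit 2080054844) (nat_lit 152) (nat_lit 11590316509) (nat_lit 17) (nat_lit 5) (nat_lit 18) (nat_lit 5) (nat_lit 19) (nat_lit 4) (nat_lit 316) (nat_lit 243) (nat_lit 221)))))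 (XT.nd (nat_lit 234) (nat_lit 152) (nat_lit 0) (XT.nd (nat_lit 78) (nat_lit 228) (nat_lit 0) (XT.lf (nat_lit 0) (nat_lit 17027363733) (nat_lit 152) (nat_lit 2789606871) (nat_lit 0) (nat_lit 3695484369) (nat_lit 17) (nat_lit 5) (nat_lit 19) (nat_lit 4) (nat_lit 17) (nat_lit 4) (nat_lit 317) (nat_lit 243) (nat_lit 220)) (XT.nd (nat_lit 78) (nat_lit 76) (nat_lit 0) (XT.lf (nat_lit 0) (nat_lit 8561240577) (nat_lit 152) (nat_lit 14784166458) (nat_lit 152) (nat_lit 1145821192) (nat_lit 15) (nat_lit 4) (nat_lit 17) (nat_lit 5) (nat_lit 17) (nat_lit 4) (nat_lit 318) (nat_lit 243) (nat_lit 219)) (XT.lf (nat_lit 0) (nat_lit 4281142168) (nat_lit 228) (nat_lit 5239498953) (nat_lit 76) (nat_lit 15999837134) (nat_lit 14) (nat_lit 5) (nat_lit 17) (nat_lit 5) (nat_lit 15) (nat_lit 4) (nat_lit 319) (nat_lit 243) (nat_lit 218)))) (XT.nd (nat_lit 156) (nat_lit 76) (nat_lit 0) (XT.nd (nat_lit 78) (nat_lit 0)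 (nat_lit 0) (XT.lf (nat_lit 0) (nat_lit 5882854576) (nat_lit 76) (nat_lit 4014212290) (nat_lit 152) (nat_lit 16705598977) (nat_lit 13) (nat_lit 5) (nat_lit 14) (nat_lit 5) (nat_lit 15) (nat_lit 4) (nat_lit 320) (nat_lit 243) (nat_lit 217)) (XT.lf (nat_lit 0) (nat_lit 15752517858) (nat_lit 152) (nat_lit 10286603645) (nat_lit 0) (nat_lit 1701131516) (nat_lit 13) (nat_lit 5) (nat_lit 15) (nat_lit 4) (nat_lit 13) (nat_lit 4) (nat_lit 321) (nat_lit 243) (nat_lit 216))) (XT.nd (nat_lit 78) (nat_lit 0) (nat_lit 0) (XT.lf (nat_lit 0) (nat_lit 443497275) (nat_lit 76) (nat_lit 21394661198) (nat_lit 76) (nat_lit 7098488199) (nat_lit 12) (nat_lit 4) (nat_lit 13) (nat_lit 5) (nat_lit 13) (nat_lit 4) (nat_lit 322) (nat_lit 243) (nat_lit 215)) (XT.lf (nat_lit 0) (nat_lit 11737687689) (nat_lit 76) (nat_lit 16492233762) (nat_lit 76) (nat_lit 1962930613) (nat_lit 12) (nat_lit 4) (nat_lit 13) (nat_lit 5) (nat_lit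 13) (nat_lit 4) (nat_lit 323) (nat_lit 243) (nat_lit 214))))))))
noncomputable def xc23 : XT := (XT.nd (nat_lit 2028) (nat_lit 76) (nat_lit 0) (XT.nd (nat_lit 1014) (nat_lit 228) (nat_lit 0) (XT.nd (nat_lit 468) (nat_lit 152) (nat_lit 0) (XT.nd (nat_lit 234) (nat_lit 76) (nat_lit 0) (XT.nd (nat_lit 78) (nat_lit 76) (nat_lit 0) (XT.lf (nat_lit 0) (nat_lit 3262363162) (nat_lit 152) (nat_lit 8128734642) (nat_lit 76) (nat_lit 20122828310) (nat_lit 11) (nat_lit 5) (nat_lit 13) (nat_lit 5) (nat_lit 12) (nat_lit 4) (nat_lit 324) (nat_lit 243) (nat_lit 213)) (XT.nd (nat_lit 78) (nat_lit 0) (nat_lit 0) (XT.lf (nat_lit 0) (nat_lit 2572508870) (nat_lit 76) (nat_lit 6065568297) (nat_lit 152) (nat_lit 24264542715) (nat_lit 10) (nat_lit 5) (nat_lit 11) (nat_lit 5) (nat_lit 12) (nat_lit 4) (nat_lit 325) (nat_lit 243) (nat_lit 212)) (XT.lf (nat_lit 0) (nat_lit 13811714231) (nat_lit 76) (nat_lit 462122517)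 (nat_lit 152) (nat_lit 20087213436) (nat_lit 10) (nat_lit 5) (nat_lit 11) (nat_lit 5) (nat_lit 12) (nat_lit 4) (nat_lit 326) (nat_lit 243) (nat_lit 211)))) (XT.nd (nat_lit 78) (nat_lit 76) (nat_lit 0) (XT.lf (nat_lit 0) (nat_lit 20154799153) (nat_lit 152) (nat_lit 10492648828) (nat_lit 0) (nat_lit 5246089328) (nat_lit 10) (nat_lit 5) (nat_lit 12) (nat_lit 4) (nat_lit 10) (nat_lit 4) (nat_lit 327) (nat_lit 243) (nat_lit 210)) (XT.nd (nat_lit 78) (nat_lit 76) (nat_lit 0) (XT.lf (nat_lit 0) (nat_lit 26249997909) (nat_lit 152) (nat_lit 91136381) (nat_lit 0) (nat_lit 11163944809) (nat_lit 10) (nat_lit 5) (nat_lit 12) (nat_lit 4) (nat_lit 10) (nat_lit 4) (nat_lit 328) (nat_lit 243) (nat_lit 209)) (XT.lf (nat_lit 0) (nat_lit 10897049787) (nat_lit 76) (nat_lit 21777202510) (nat_lit 76) (nat_lit 6522251055) (nat_lit 9) (nat_lit 4) (nat_lit 10) (nat_lit 5) (nat_lit 10) (nat_lit 4) (nat_lit 329) (nat_lit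 243) (nat_lit 208))))) (XT.nd (nat_lit 234) (nat_lit 0) (nat_lit 0) (XT.nd (nat_lit 78) (nat_lit 152) (nat_lit 0) (XT.lf (nat_lit 0) (nat_lit 22294693438) (nat_lit 76) (nat_lit 17047978229) (nat_lit 76) (nat_lit 1632171196) (nat_lit 9) (nat_lit 4) (nat_lit 10) (nat_lit 5) (nat_lit 10) (nat_lit 4) (nat_lit 330) (nat_lit 243) (nat_lit 207)) (XT.nd (nat_lit 78) (nat_lit 76) (nat_lit 0) (XT.lf (nat_lit 0) (nat_lit 3359029853) (nat_lit 152) (nat_lit 8750172219) (nat_lit 76) (nat_lit 30734168556) (nat_lit 8) (nat_lit 5) (nat_lit 10) (nat_lit 5) (nat_lit 9) (nat_lit 4) (nat_lit 331) (nat_lit 243) (nat_lit 206)) (XT.lf (nat_lit 0) (nat_lit 1560155333) (nat_lit 76) (nat_lit 6949725900) (nat_lit 152) (nat_lit 36296672081) (nat_lit 7) (nat_lit 5) (nat_lit 8) (nat_lit 5) (nat_lit 9) (nat_lit 4) (nat_lit 332) (nat_lit 243) (nat_lit 205)))) (XT.nd (nat_lit 156) (nat_lit 0) (nat_lit 0) (XT.nd (nat_lit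 78) (nat_lit 0) (nat_lit 0) (XT.lf (nat_lit 0) (nat_lit 12442463093) (nat_lit 76) (nat_lit 1496610680) (nat_lit 152) (nat_lit 32928224756) (nat_lit 7) (nat_lit 5) (nat_lit 8) (nat_lit 5) (nat_lit 9) (nat_lit 4) (nat_lit 333) (nat_lit 243) (nat_lit 204)) (XT.lf (nat_lit 0) (nat_lit 19613878540) (nat_lit 152) (nat_lit 25324701076) (nat_lit 0) (nat_lit 4093302861) (nat_lit 7) (nat_lit 5) (nat_lit 9) (nat_lit 4) (nat_lit 7) (nat_lit 4) (nat_lit 334) (nat_lit 243) (nat_lit 203))) (XT.nd (nat_lit 78) (nat_lit 0) (nat_lit 0) (XT.lf (nat_lit 0) (nat_lit 25524195220) (nat_lit 152) (nat_lit 15900716163) (nat_lit 0) (nat_lit 9881255897) (nat_lit 7) (nat_lit 5) (nat_lit 9) (nat_lit 4) (nat_lit 7) (nat_lit 4) (nat_lit 335) (nat_lit 243) (nat_lit 202)) (XT.lf (nat_lit 0) (nat_lit 31669709661) (nat_lit 152) (nat_lit 6116056299) (nat_lit 0) (nat_lit 15910233533) (nat_lit 7) (nat_lit 5) (nat_lit 9) (nat_lit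 4) (nat_lit 7) (nat_lit 4) (nat_lit 336) (nat_lit 243) (nat_lit 201)))))) (XT.nd (nat_lit 468) (nat_lit 76) (nat_lit 0) (XT.nd (nat_lit 234) (nat_lit 76) (nat_lit 0) (XT.nd (nat_lit 78) (nat_lit 0) (nat_lit 0) (XT.lf (nat_lit 0) (nat_lit 4133229517) (nat_lit 76) (nat_lit 33971555651) (nat_lit 76) (nat_lit 18101092091) (nat_lit 6) (nat_lit 4) (nat_lit 7) (nat_lit 5) (nat_lit 7) (nat_lit 4) (nat_lit 337) (nat_lit 243) (nat_lit 200)) (XT.nd (nat_lit 78) (nat_lit 0) (nat_lit 0) (XT.lf (nat_lit 0) (nat_lit 14920543271) (nat_lit 76) (nat_lit 29948337481) (nat_lit 76) (nat_lit 13972171603) (nat_lit 6) (nat_lit 4) (nat_lit 7) (nat_lit 5) (nat_lit 7) (nat_lit 4) (nat_lit 338) (nat_lit 243) (nat_lit 199)) (XT.lf (nat_lit 0) (nat_lit 26149847530) (nat_lit 76) (nat_lit 25768292534) (nat_lit 76) (nat_lit 9691457783) (nat_lit 6) (nat_lit 4) (nat_lit 7) (nat_lit 5) (nat_lit 7) (nat_lit 4) (nat_lit 339)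 (nat_lit 243) (nat_lit 198)))) (XT.nd (nat_lit 78) (nat_lit 76) (nat_lit 0) (XT.lf (nat_lit 0) (nat_lit 37847878733) (nat_lit 76) (nat_lit 21421468324) (nat_lit 76) (nat_lit 5248758455) (nat_lit 6) (nat_lit 4) (nat_lit 7) (nat_lit 5) (nat_lit 7) (nat_lit 4) (nat_lit 340) (nat_lit 243) (nat_lit 197)) (XT.nd (nat_lit 78) (nat_lit 76) (nat_lit 0) (XT.lf (nat_lit 0) (nat_lit 50042489334) (nat_lit 76) (nat_lit 16897515268) (nat_lit 76) (nat_lit 633495764) (nat_lit 6) (nat_lit 4) (nat_lit 7) (nat_lit 5) (nat_lit 7) (nat_lit 4) (nat_lit 341) (nat_lit 243) (nat_lit 196)) (XT.lf (nat_lit 0) (nat_lit 4084038634) (nat_lit 152) (nat_lit 8060382633) (nat_lit 76) (nat_lit 58637434705) (nat_lit 5) (nat_lit 5) (nat_lit 7) (nat_lit 5) (nat_lit 6) (nat_lit 4) (nat_lit 342) (nat_lit 243) (nat_lit 195))))) (XT.nd (nat_lit 234) (nat_lit 0) (nat_lit 0) (XT.nd (nat_lit 78) (nat_lit 0) (nat_lit 0) (XT.lf (nat_lit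 0) (nat_lit 1832130122) (nat_lit 76) (nat_lit 7165865796) (nat_lit 152) (nat_lit 65153252140) (nat_lit 4) (nat_lit 5) (nat_lit 5) (nat_lit 5) (nat_lit 6) (nat_lit 4) (nat_lit 343) (nat_lit 243) (nat_lit 194)) (XT.nd (nat_lit 78) (nat_lit 0) (nat_lit 0) (XT.lf (nat_lit 0) (nat_lit 12309024289) (nat_lit 76) (nat_lit 1888858754) (nat_lit 152) (nat_lit 63490035274) (nat_lit 4) (nat_lit 5) (nat_lit 5) (nat_lit 5) (nat_lit 6) (nat_lit 4) (nat_lit 344) (nat_lit 243) (nat_lit 193)) (XT.lf (nat_lit 0) (nat_lit 19651833552) (nat_lit 152) (nat_lit 58202606877) (nat_lit 0) (nat_lit 3547174375) (nat_lit 4) (nat_lit 5) (nat_lit 6) (nat_lit 4) (nat_lit 4) (nat_lit 4) (nat_lit 345) (nat_lit 243) (nat_lit 192)))) (XT.nd (nat_lit 156) (nat_lit 0) (nat_lit 0) (XT.nd (nat_lit 78) (nat_lit 0) (nat_lit 0) (XT.lf (nat_lit 0) (nat_lit 25358464184) (nat_lit 152) (nat_lit 50758801227) (nat_lit 0) (nat_lit 9184345309)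 (nat_lit 4) (nat_lit 5) (nat_lit 6) (nat_lit 4) (nat_lit 4) (nat_lit 4) (nat_lit 346) (nat_lit 243) (nat_lit 191)) (XT.lf (nat_lit 0) (nat_lit 31313205288) (nat_lit 152) (nat_lit 43011596867) (nat_lit 0) (nat_lit 15072934320) (nat_lit 4) (nat_lit 5) (nat_lit 6) (nat_lit 4) (nat_lit 4) (nat_lit 4) (nat_lit 347) (nat_lit 243) (nat_lit 190))) (XT.nd (nat_lit 78) (nat_lit 0) (nat_lit 0) (XT.lf (nat_lit 0) (nat_lit 37530234821) (nat_lit 152) (nat_lit 34942548071) (nat_lit 0) (nat_lit 21226961860) (nat_lit 4) (nat_lit 5) (nat_lit 6) (nat_lit 4) (nat_lit 4) (nat_lit 4) (nat_lit 348) (nat_lit 243) (nat_lit 189)) (XT.lf (nat_lit 0) (nat_lit 44024355233) (nat_lit 152) (nat_lit 26532442818) (nat_lit 0) (nat_lit 27661080373) (nat_lit 4) (nat_lit 5) (nat_lit 6) (nat_lit 4) (nat_lit 4) (nat_lit 4) (nat_lit 349) (nat_lit 243) (nat_lit 188))))))) (XT.nd (nat_lit 36114) (nat_lit 0) (nat_lit 2128) (XT.nd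 (nat_lit 468) (nat_lit 0) (nat_lit 0) (XT.nd (nat_lit 234) (nat_lit 0) (nat_lit 0) (XT.nd (nat_lit 78) (nat_lit 76) (nat_lit 0) (XT.lf (nat_lit 0) (nat_lit 50811028716) (nat_lit 152) (nat_lit 17761257048) (nat_lit 0) (nat_lit 34390609191) (nat_lit 4) (nat_lit 5) (nat_lit 6) (nat_lit 4) (nat_lit 4) (nat_lit 4) (nat_lit 350) (nat_lit 243) (nat_lit 187)) (XT.nd (nat_lit 78) (nat_lit 76) (nat_lit 0) (XT.lf (nat_lit 0) (nat_lit 57906414016) (nat_lit 152) (nat_lit 8608106987) (nat_lit 0) (nat_lit 41431571000) (nat_lit 4) (nat_lit 5) (nat_lit 6) (nat_lit 4) (nat_lit 4) (nat_lit 4) (nat_lit 351) (nat_lit 243) (nat_lit 186)) (XT.lf (nat_lit 0) (nat_lit 967683573) (nat_lit 76) (nat_lit 64369023301) (nat_lit 76) (nat_lit 47842348389) (nat_lit 3) (nat_lit 4) (nat_lit 4) (nat_lit 5) (nat_lit 4) (nat_lit 4) (nat_lit 352) (nat_lit 243) (nat_lit 185)))) (XT.nd (nat_lit 78) (nat_lit 0) (nat_lit 0) (XT.lf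 (nat_lit 0) (nat_lit 11149792816) (nat_lit 76) (nat_lit 62049056230) (nat_lit 76) (nat_lit 45473017608) (nat_lit 3) (nat_lit 4) (nat_lit 4) (nat_lit 5) (nat_lit 4) (nat_lit 4) (nat_lit 353) (nat_lit 243) (nat_lit 184)) (XT.nd (nat_lit 78) (nat_lit 0) (nat_lit 0) (XT.lf (nat_lit 0) (nat_lit 21791145650) (nat_lit 76) (nat_lit 59636021062) (nat_lit 76) (nat_lit 43012969382) (nat_lit 3) (nat_lit 4) (nat_lit 4) (nat_lit 5) (nat_lit 4) (nat_lit 4) (nat_lit 354) (nat_lit 243) (nat_lit 183)) (XT.lf (nat_lit 0) (nat_lit 32917078631) (nat_lit 76) (nat_lit 57124172475) (nat_lit 76) (nat_lit 40456346454) (nat_lit 3) (nat_lit 4) (nat_lit 4) (nat_lit 5) (nat_lit 4) (nat_lit 4) (nat_lit 355) (nat_lit 243) (nat_lit 182))))) (XT.nd (nat_lit 234) (nat_lit 0) (nat_lit 0) (XT.nd (nat_lit 78) (nat_lit 0) (nat_lit 0) (XT.lf (nat_lit 0) (nat_lit 44554082075) (nat_lit 76) (nat_lit 54507529876) (nat_lit 76) (nat_lit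 37797061626) (nat_lit 3) (nat_lit 4) (nat_lit 4) (nat_lit 5) (nat_lit 4) (nat_lit 4) (nat_lit 356) (nat_lit 243) (nat_lit 181)) (XT.nd (nat_lit 78) (nat_lit 0) (nat_lit 0) (XT.lf (nat_lit 0) (nat_lit 56729863133) (nat_lit 76) (nat_lit 51779863165) (nat_lit 76) (nat_lit 35028783268) (nat_lit 3) (nat_lit 4) (nat_lit 4) (nat_lit 5) (nat_lit 4) (nat_lit 4) (nat_lit 357) (nat_lit 243) (nat_lit 180)) (XT.lf (nat_lit 0) (nat_lit 69473411759) (nat_lit 76) (nat_lit 48934677896) (nat_lit 76) (nat_lit 32144920241) (nat_lit 3) (nat_lit 4) (nat_lit 4) (nat_lit 5) (nat_lit 4) (nat_lit 4) (nat_lit 358) (nat_lit 243) (nat_lit 179)))) (XT.nd (nat_lit 156) (nat_lit 0) (nat_lit 0) (XT.nd (nat_lit 78) (nat_lit 0) (nat_lit 0) (XT.lf (nat_lit 0) (nat_lit 82815069737) (nat_lit 76) (nat_lit 45965199820) (nat_lit 76) (nat_lit 29138606204) (nat_lit 3) (nat_lit 4) (nat_lit 4) (nat_lit 5) (nat_lit 4) (nat_lit 4) (nat_lit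 359) (nat_lit 243) (nat_lit 178)) (XT.lf (nat_lit 0) (nat_lit 96786602919) (nat_lit 76) (nat_lit 42864358750) (nat_lit 76) (nat_lit 26002683266) (nat_lit 3) (nat_lit 4) (nat_lit 4) (nat_lit 5) (nat_lit 4) (nat_lit 4) (nat_lit 360) (nat_lit 243) (nat_lit 177))) (XT.nd (nat_lit 78) (nat_lit 0) (nat_lit 0) (XT.lf (nat_lit 0) (nat_lit 111421276859) (nat_lit 76) (nat_lit 39624771731) (nat_lit 76) (nat_lit 22729684945) (nat_lit 3) (nat_lit 4) (nat_lit 4) (nat_lit 5) (nat_lit 4) (nat_lit 4) (nat_lit 361) (nat_lit 243) (nat_lit 176)) (XT.lf (nat_lit 0) (nat_lit 126753936020) (nat_lit 76) (nat_lit 36238725461) (nat_lit 76) (nat_lit 19311818387) (nat_lit 3) (nat_lit 4) (nat_lit 4) (nat_lit 5) (nat_lit 4) (nat_lit 4) (nat_lit 362) (nat_lit 243) (nat_lit 175)))))) (XT.nd (nat_lit 546) (nat_lit 1292) (nat_lit 0) (XT.nd (nat_lit 234) (nat_lit 988) (nat_lit 0) (XT.nd (nat_lit 78) (nat_lit 532) (nat_lit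 0) (XT.lf (nat_lit 0) (nat_lit 436051222) (nat_lit 304) (nat_lit 2297272805) (nat_lit 304) (nat_lit 2297272805) (nat_lit 68) (nat_lit 4) (nat_lit 72) (nat_lit 5) (nat_lit 72) (nat_lit 4) (nat_lit 292) (nat_lit 244) (nat_lit 244)) (XT.nd (nat_lit 78) (nat_lit 228) (nat_lit 0) (XT.lf (nat_lit 0) (nat_lit 1544690183) (nat_lit 304) (nat_lit 8529104673) (nat_lit 0) (nat_lit 255074333) (nat_lit 64) (nat_lit 5) (nat_lit 68) (nat_lit 4) (nat_lit 64) (nat_lit 4) (nat_lit 293) (nat_lit 244) (nat_lit 243)) (XT.lf (nat_lit 0) (nat_lit 2507130361) (nat_lit 228) (nat_lit 5310919163) (nat_lit 228) (nat_lit 2793097740) (nat_lit 61) (nat_lit 4) (nat_lit 64) (nat_lit 5) (nat_lit 64) (nat_lit 4) (nat_lit 294) (nat_lit 244) (nat_lit 242)))) (XT.nd (nat_lit 156) (nat_lit 456) (nat_lit 0) (XT.nd (nat_lit 78) (nat_lit 228) (nat_lit 0) (XT.lf (nat_lit 0) (nat_lit 3027638685) (nat_lit 228) (nat_lit 280331610) (nat_lit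 304) (nat_lit 7602430118) (nat_lit 57) (nat_lit 5) (nat_lit 60) (nat_lit 5) (nat_lit 61) (nat_lit 4) (nat_lit 295) (nat_lit 244) (nat_lit 241)) (XT.lf (nat_lit 0) (nat_lit 3289258156) (nat_lit 228) (nat_lit 6299245407) (nat_lit 228) (nat_lit 1637536985) (nat_lit 54) (nat_lit 4) (nat_lit 57) (nat_lit 5) (nat_lit 57) (nat_lit 4) (nat_lit 296) (nat_lit 244) (nat_lit 240))) (XT.nd (nat_lit 78) (nat_lit 228) (nat_lit 0) (XT.lf (nat_lit 0) (nat_lit 3290369027) (nat_lit 152) (nat_lit 1134333217) (nat_lit 228) (nat_lit 7134948379) (nat_lit 51) (nat_lit 5) (nat_lit 53) (nat_lit 5) (nat_lit 54) (nat_lit 4) (nat_lit 297) (nat_lit 244) (nat_lit 239)) (XT.lf (nat_lit 0) (nat_lit 2986246406) (nat_lit 228) (nat_lit 7701941020) (nat_lit 228) (nat_lit 1223500460) (nat_lit 48) (nat_lit 4) (nat_lit 51) (nat_lit 5) (nat_lit 51) (nat_lit 4) (nat_lit 298) (nat_lit 244) (nat_lit 238))))) (XT.nd (nat_lit 234) (nat_lit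 760) (nat_lit 0) (XT.nd (nat_lit 78) (nat_lit 304) (nat_lit 0) (XT.lf (nat_lit 0) (nat_lit 2338898693) (nat_lit 152) (nat_lit 2451460276) (nat_lit 228) (nat_lit 7492586890) (nat_lit 45) (nat_lit 5) (nat_lit 47) (nat_lit 5) (nat_lit 48) (nat_lit 4) (nat_lit 299) (nat_lit 244) (nat_lit 237)) (XT.nd (nat_lit 78) (nat_lit 76) (nat_lit 0) (XT.lf (nat_lit 0) (nat_lit 1325691374) (nat_lit 228) (nat_lit 9679137786) (nat_lit 228) (nat_lit 1669987558) (nat_lit 42) (nat_lit 4) (nat_lit 45) (nat_lit 5) (nat_lit 45) (nat_lit 4) (nat_lit 300) (nat_lit 244) (nat_lit 236)) (XT.lf (nat_lit 0) (nat_lit 4279824416) (nat_lit 304) (nat_lit 119899746) (nat_lit 76) (nat_lit 8687748831) (nat_lit 41) (nat_lit 5) (nat_lit 45) (nat_lit 5) (nat_lit 42) (nat_lit 4) (nat_lit 301) (nat_lit 244) (nat_lit 235)))) (XT.nd (nat_lit 156) (nat_lit 380) (nat_lit 0) (XT.nd (nat_lit 78) (nat_lit 228) (nat_lit 0) (XT.lf (nat_lit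 0) (nat_lit 10419562831) (nat_lit 228) (nat_lit 1973479588) (nat_lit 0) (nat_lit 1129564162) (nat_lit 39) (nat_lit 5) (nat_lit 42) (nat_lit 4) (nat_lit 39) (nat_lit 4) (nat_lit 302) (nat_lit 244) (nat_lit 234)) (XT.lf (nat_lit 0) (nat_lit 2777886471) (nat_lit 228) (nat_lit 4354315223) (nat_lit 76) (nat_lit 6848178326) (nat_lit 36) (nat_lit 5) (nat_lit 39) (nat_lit 5) (nat_lit 37) (nat_lit 4) (nat_lit 303) (nat_lit 244) (nat_lit 233))) (XT.nd (nat_lit 78) (nat_lit 228) (nat_lit 0) (XT.lf (nat_lit 0) (nat_lit 7185768747) (nat_lit 152) (nat_lit 1606902739) (nat_lit 228) (nat_lit 5670461300) (nat_lit 34) (nat_lit 5) (nat_lit 36) (nat_lit 5) (nat_lit 37) (nat_lit 4) (nat_lit 304) (nat_lit 244) (nat_lit 232)) (XT.lf (nat_lit 0) (nat_lit 79005747) (nat_lit 228) (nat_lit 10811834421) (nat_lit 76) (nat_lit 4080959225) (nat_lit 31) (nat_lit 5) (nat_lit 34) (nat_lit 5) (nat_lit 32) (nat_lit 4) (nat_lit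 305) (nat_lit 244) (nat_lit 231))))))))
noncomputable def xc24 : XT := (XT.nd (nat_lit 2028) (nat_lit 380) (nat_lit 0) (XT.nd (nat_lit 1014) (nat_lit 532) (nat_lit 0) (XT.nd (nat_lit 468) (nat_lit 532) (nat_lit 0) (XT.nd (nat_lit 234) (nat_lit 304) (nat_lit 0) (XT.nd (nat_lit 78) (nat_lit 228) (nat_lit 0) (XT.lf (nat_lit 0) (nat_lit 452475852) (nat_lit 152) (nat_lit 5466065734) (nat_lit 228) (nat_lit 9588193497) (nat_lit 29) (nat_lit 5) (nat_lit 31) (nat_lit 5) (nat_lit 32) (nat_lit 4) (nat_lit 306) (nat_lit 244) (nat_lit 230)) (XT.nd (nat_lit 78) (nat_lit 228) (nat_lit 0) (XT.lf (nat_lit 0) (nat_lit 11991723590) (nat_lit 228) (nat_lit 3857722460) (nat_lit 0) (nat_lit 220832023) (nat_lit 29) (nat_lit 5) (nat_lit 32) (nat_lit 4) (nat_lit 29) (nat_lit 4) (nat_lit 307) (nat_lit 244) (nat_lit 229)) (XT.lf (nat_lit 0) (nat_lit 1637415662) (nat_lit 228) (nat_lit 8966452097) (nat_lit 76) (nat_lit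 6058816067) (nat_lit 26) (nat_lit 5) (nat_lit 29) (nat_lit 5) (nat_lit 27) (nat_lit 4) (nat_lit 308) (nat_lit 244) (nat_lit 228)))) (XT.nd (nat_lit 78) (nat_lit 228) (nat_lit 0) (XT.lf (nat_lit 0) (nat_lit 2352881956) (nat_lit 76) (nat_lit 5104292131) (nat_lit 152) (nat_lit 9829351504) (nat_lit 25) (nat_lit 5) (nat_lit 26) (nat_lit 5) (nat_lit 27) (nat_lit 4) (nat_lit 309) (nat_lit 244) (nat_lit 227)) (XT.nd (nat_lit 78) (nat_lit 228) (nat_lit 0) (XT.lf (nat_lit 0) (nat_lit 13510425367) (nat_lit 152) (nat_lit 3792813936) (nat_lit 0) (nat_lit 640137746) (nat_lit 25) (nat_lit 5) (nat_lit 27) (nat_lit 4) (nat_lit 25) (nat_lit 4) (nat_lit 310) (nat_lit 244) (nat_lit 226)) (XT.lf (nat_lit 0) (nat_lit 1185183837) (nat_lit 228) (nat_lit 10900069293) (nat_lit 76) (nat_lit 6548268633) (nat_lit 22) (nat_lit 5) (nat_lit 25) (nat_lit 5) (nat_lit 23) (nat_lit 4) (nat_lit 311) (nat_lit 244) (nat_lit 225)))))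 (XT.nd (nat_lit 234) (nat_lit 304) (nat_lit 0) (XT.nd (nat_lit 78) (nat_lit 152) (nat_lit 0) (XT.lf (nat_lit 0) (nat_lit 263476112) (nat_lit 76) (nat_lit 6625403496) (nat_lit 152) (nat_lit 12471169055) (nat_lit 21) (nat_lit 5) (nat_lit 22) (nat_lit 5) (nat_lit 23) (nat_lit 4) (nat_lit 312) (nat_lit 244) (nat_lit 224)) (XT.nd (nat_lit 78) (nat_lit 152) (nat_lit 0) (XT.lf (nat_lit 0) (nat_lit 11965458382) (nat_lit 76) (nat_lit 882622912) (nat_lit 152) (nat_lit 7275788770) (nat_lit 21) (nat_lit 5) (nat_lit 22) (nat_lit 5) (nat_lit 23) (nat_lit 4) (nat_lit 313) (nat_lit 244) (nat_lit 223)) (XT.lf (nat_lit 0) (nat_lit 3098752049) (nat_lit 152) (nat_lit 15949660995) (nat_lit 152) (nat_lit 1879248481) (nat_lit 19) (nat_lit 4) (nat_lit 21) (nat_lit 5) (nat_lit 21) (nat_lit 4) (nat_lit 314) (nat_lit 244) (nat_lit 222)))) (XT.nd (nat_lit 156) (nat_lit 152) (nat_lit 0) (XT.nd (nat_lit 78) (nat_lit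 76) (nat_lit 0) (XT.lf (nat_lit 0) (nat_lit 3673721713) (nat_lit 228) (nat_lit 6960772453) (nat_lit 76) (nat_lit 11137309678) (nat_lit 18) (nat_lit 5) (nat_lit 21) (nat_lit 5) (nat_lit 19) (nat_lit 4) (nat_lit 315) (nat_lit 244) (nat_lit 221)) (XT.lf (nat_lit 0) (nat_lit 4291968786) (nat_lit 76) (nat_lit 5088247564) (nat_lit 152) (nat_lit 13280001726) (nat_lit 17) (nat_lit 5) (nat_lit 18) (nat_lit 5) (nat_lit 19) (nat_lit 4) (nat_lit 316) (nat_lit 244) (nat_lit 220))) (XT.nd (nat_lit 78) (nat_lit 152) (nat_lit 0) (XT.lf (nat_lit 0) (nat_lit 15327639866) (nat_lit 152) (nat_lit 7565895732) (nat_lit 0) (nat_lit 700911433) (nat_lit 17) (nat_lit 5) (nat_lit 19) (nat_lit 4) (nat_lit 17) (nat_lit 4) (nat_lit 317) (nat_lit 244) (nat_lit 219)) (XT.lf (nat_lit 0) (nat_lit 3585643211) (nat_lit 152) (nat_lit 17954683675) (nat_lit 152) (nat_lit 3036082954) (nat_lit 15) (nat_lit 4) (nat_lit 17) (nat_lit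 5) (nat_lit 17) (nat_lit 4) (nat_lit 318) (nat_lit 244) (nat_lit 218)))))) (XT.nd (nat_lit 468) (nat_lit 228) (nat_lit 0) (XT.nd (nat_lit 234) (nat_lit 152) (nat_lit 0) (XT.nd (nat_lit 78) (nat_lit 76) (nat_lit 0) (XT.lf (nat_lit 0) (nat_lit 2371444575) (nat_lit 228) (nat_lit 10382541840) (nat_lit 76) (nat_lit 12853934904) (nat_lit 14) (nat_lit 5) (nat_lit 17) (nat_lit 5) (nat_lit 15) (nat_lit 4) (nat_lit 319) (nat_lit 244) (nat_lit 217)) (XT.nd (nat_lit 78) (nat_lit 0) (nat_lit 0) (XT.lf (nat_lit 0) (nat_lit 539899717) (nat_lit 76) (nat_lit 7342470142) (nat_lit 152) (nat_lit 18810914450) (nat_lit 13) (nat_lit 5) (nat_lit 14) (nat_lit 5) (nat_lit 15) (nat_lit 4) (nat_lit 320) (nat_lit 244) (nat_lit 216)) (XT.lf (nat_lit 0) (nat_lit 12034962768) (nat_lit 76) (nat_lit 1634201824) (nat_lit 152) (nat_lit 14163790791) (nat_lit 13) (nat_lit 5) (nat_lit 14) (nat_lit 5) (nat_lit 15) (nat_lit 4)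 (nat_lit 321) (nat_lit 244) (nat_lit 215)))) (XT.nd (nat_lit 78) (nat_lit 152) (nat_lit 0) (XT.lf (nat_lit 0) (nat_lit 19684955039) (nat_lit 152) (nat_lit 5150455975) (nat_lit 0) (nat_lit 4196056584) (nat_lit 13) (nat_lit 5) (nat_lit 15) (nat_lit 4) (nat_lit 13) (nat_lit 4) (nat_lit 322) (nat_lit 244) (nat_lit 214)) (XT.nd (nat_lit 78) (nat_lit 76) (nat_lit 0) (XT.lf (nat_lit 0) (nat_lit 5954180177) (nat_lit 76) (nat_lit 20023703486) (nat_lit 76) (nat_lit 4312776316) (nat_lit 12) (nat_lit 4) (nat_lit 13) (nat_lit 5) (nat_lit 13) (nat_lit 4) (nat_lit 323) (nat_lit 244) (nat_lit 213)) (XT.lf (nat_lit 0) (nat_lit 911857290) (nat_lit 152) (nat_lit 14071312787) (nat_lit 76) (nat_lit 16630657325) (nat_lit 11) (nat_lit 5) (nat_lit 13) (nat_lit 5) (nat_lit 12) (nat_lit 4) (nat_lit 324) (nat_lit 244) (nat_lit 212))))) (XT.nd (nat_lit 234) (nat_lit 152) (nat_lit 0) (XT.nd (nat_lit 78) (nat_lit 76)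 (nat_lit 0) (XT.lf (nat_lit 0) (nat_lit 6218543603) (nat_lit 152) (nat_lit 3500126161) (nat_lit 76) (nat_lit 23285941574) (nat_lit 11) (nat_lit 5) (nat_lit 13) (nat_lit 5) (nat_lit 12) (nat_lit 4) (nat_lit 325) (nat_lit 244) (nat_lit 211)) (XT.nd (nat_lit 78) (nat_lit 0) (nat_lit 0) (XT.lf (nat_lit 0) (nat_lit 7591850965) (nat_lit 76) (nat_lit 4185201937) (nat_lit 152) (nat_lit 22688324663) (nat_lit 10) (nat_lit 5) (nat_lit 11) (nat_lit 5) (nat_lit 12) (nat_lit 4) (nat_lit 326) (nat_lit 244) (nat_lit 210)) (XT.lf (nat_lit 0) (nat_lit 17581018944) (nat_lit 152) (nat_lit 16855853260) (nat_lit 0) (nat_lit 1563319916) (nat_lit 10) (nat_lit 5) (nat_lit 12) (nat_lit 4) (nat_lit 10) (nat_lit 4) (nat_lit 327) (nat_lit 244) (nat_lit 209)))) (XT.nd (nat_lit 156) (nat_lit 76) (nat_lit 0) (XT.nd (nat_lit 78) (nat_lit 76) (nat_lit 0) (XT.lf (nat_lit 0) (nat_lit 23636972133) (nat_lit 152) (nat_lit 6525581102)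 (nat_lit 0) (nat_lit 7450374748) (nat_lit 10) (nat_lit 5) (nat_lit 12) (nat_lit 4) (nat_lit 10) (nat_lit 4) (nat_lit 328) (nat_lit 244) (nat_lit 208)) (XT.lf (nat_lit 0) (nat_lit 4265348800) (nat_lit 76) (nat_lit 25694753023) (nat_lit 76) (nat_lit 9347300061) (nat_lit 9) (nat_lit 4) (nat_lit 10) (nat_lit 5) (nat_lit 10) (nat_lit 4) (nat_lit 329) (nat_lit 244) (nat_lit 207))) (XT.nd (nat_lit 78) (nat_lit 76) (nat_lit 0) (XT.lf (nat_lit 0) (nat_lit 15597089404) (nat_lit 76) (nat_lit 20995201402) (nat_lit 76) (nat_lit 4494552652) (nat_lit 9) (nat_lit 4) (nat_lit 10) (nat_lit 5) (nat_lit 10) (nat_lit 4) (nat_lit 330) (nat_lit 244) (nat_lit 206)) (XT.lf (nat_lit 0) (nat_lit 517642855) (nat_lit 152) (nat_lit 15595734503) (nat_lit 76) (nat_lit 26843879150) (nat_lit 8) (nat_lit 5) (nat_lit 10) (nat_lit 5) (nat_lit 9) (nat_lit 4) (nat_lit 331) (nat_lit 244) (nat_lit 205))))))) (XT.nd (nat_lit 1014)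 (nat_lit 76) (nat_lit 0) (XT.nd (nat_lit 468) (nat_lit 228) (nat_lit 0) (XT.nd (nat_lit 234) (nat_lit 0) (nat_lit 0) (XT.nd (nat_lit 78) (nat_lit 76) (nat_lit 0) (XT.lf (nat_lit 0) (nat_lit 5620296199) (nat_lit 152) (nat_lit 5376301312) (nat_lit 76) (nat_lit 33925300968) (nat_lit 8) (nat_lit 5) (nat_lit 10) (nat_lit 5) (nat_lit 9) (nat_lit 4) (nat_lit 332) (nat_lit 244) (nat_lit 204)) (XT.nd (nat_lit 78) (nat_lit 0) (nat_lit 0) (XT.lf (nat_lit 0) (nat_lit 5340290189) (nat_lit 76) (nat_lit 5624305410) (nat_lit 152) (nat_lit 36020607596) (nat_lit 7) (nat_lit 5) (nat_lit 8) (nat_lit 5) (nat_lit 9) (nat_lit 4) (nat_lit 333) (nat_lit 244) (nat_lit 203)) (XT.lf (nat_lit 0) (nat_lit 16568827815) (nat_lit 152) (nat_lit 32561710725) (nat_lit 0) (nat_lit 21377881) (nat_lit 7) (nat_lit 5) (nat_lit 9) (nat_lit 4) (nat_lit 7) (nat_lit 4) (nat_lit 334) (nat_lit 244) (nat_lit 202)))) (XT.nd (nat_lit 78)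 (nat_lit 0) (nat_lit 0) (XT.lf (nat_lit 0) (nat_lit 22449721045) (nat_lit 152) (nat_lit 23191640102) (nat_lit 0) (nat_lit 5785734306) (nat_lit 7) (nat_lit 5) (nat_lit 9) (nat_lit 4) (nat_lit 7) (nat_lit 4) (nat_lit 335) (nat_lit 244) (nat_lit 201)) (XT.nd (nat_lit 78) (nat_lit 0) (nat_lit 0) (XT.lf (nat_lit 0) (nat_lit 28567213151) (nat_lit 152) (nat_lit 13458327182) (nat_lit 0) (nat_lit 11792238980) (nat_lit 7) (nat_lit 5) (nat_lit 9) (nat_lit 4) (nat_lit 7) (nat_lit 4) (nat_lit 336) (nat_lit 244) (nat_lit 200)) (XT.lf (nat_lit 0) (nat_lit 34935869591) (nat_lit 152) (nat_lit 3338597411) (nat_lit 0) (nat_lit 18055193103) (nat_lit 7) (nat_lit 5) (nat_lit 9) (nat_lit 4) (nat_lit 7) (nat_lit 4) (nat_lit 337) (nat_lit 244) (nat_lit 199))))) (XT.nd (nat_lit 234) (nat_lit 152) (nat_lit 0) (XT.nd (nat_lit 78) (nat_lit 0) (nat_lit 0) (XT.lf (nat_lit 0) (nat_lit 7334771618) (nat_lit 76) (nat_lit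 34306588526) (nat_lit 76) (nat_lit 17325243164) (nat_lit 6) (nat_lit 4) (nat_lit 7) (nat_lit 5) (nat_lit 7) (nat_lit 4) (nat_lit 338) (nat_lit 244) (nat_lit 198)) (XT.nd (nat_lit 78) (nat_lit 0) (nat_lit 0) (XT.lf (nat_lit 0) (nat_lit 18518837697) (nat_lit 76) (nat_lit 30147140156) (nat_lit 76) (nat_lit 13069919677) (nat_lit 6) (nat_lit 4) (nat_lit 7) (nat_lit 5) (nat_lit 7) (nat_lit 4) (nat_lit 339) (nat_lit 244) (nat_lit 197)) (XT.lf (nat_lit 0) (nat_lit 30173784919) (nat_lit 76) (nat_lit 25819931734) (nat_lit 76) (nat_lit 8651401619) (nat_lit 6) (nat_lit 4) (nat_lit 7) (nat_lit 5) (nat_lit 7) (nat_lit 4) (nat_lit 340) (nat_lit 244) (nat_lit 196)))) (XT.nd (nat_lit 156) (nat_lit 76) (nat_lit 0) (XT.nd (nat_lit 78) (nat_lit 76) (nat_lit 0) (XT.lf (nat_lit 0) (nat_lit 42327363157) (nat_lit 76) (nat_lit 21314660381) (nat_lit 76) (nat_lit 4059168708) (nat_lit 6) (nat_lit 4) (nat_lit 7) (nat_lit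 5) (nat_lit 7) (nat_lit 4) (nat_lit 341) (nat_lit 244) (nat_lit 195)) (XT.lf (nat_lit 0) (nat_lit 703707777) (nat_lit 152) (nat_lit 15909785414) (nat_lit 76) (nat_lit 54297695657) (nat_lit 5) (nat_lit 5) (nat_lit 7) (nat_lit 5) (nat_lit 6) (nat_lit 4) (nat_lit 342) (nat_lit 244) (nat_lit 194))) (XT.nd (nat_lit 78) (nat_lit 76) (nat_lit 0) (XT.lf (nat_lit 0) (nat_lit 5579572430) (nat_lit 152) (nat_lit 6090656866) (nat_lit 76) (nat_lit 62611501992) (nat_lit 5) (nat_lit 5) (nat_lit 7) (nat_lit 5) (nat_lit 6) (nat_lit 4) (nat_lit 343) (nat_lit 244) (nat_lit 193)) (XT.lf (nat_lit 0) (nat_lit 4228467271) (nat_lit 76) (nat_lit 6471422795) (nat_lit 152) (nat_lit 67120905778) (nat_lit 4) (nat_lit 5) (nat_lit 5) (nat_lit 5) (nat_lit 6) (nat_lit 4) (nat_lit 344) (nat_lit 244) (nat_lit 192)))))) (XT.nd (nat_lit 546) (nat_lit 76) (nat_lit 0) (XT.nd (nat_lit 234) (nat_lit 0) (nat_lit 0) (XT.nd (nat_lit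 78) (nat_lit 0) (nat_lit 0) (XT.lf (nat_lit 0) (nat_lit 15119457067) (nat_lit 76) (nat_lit 980695700) (nat_lit 152) (nat_lit 65435957067) (nat_lit 4) (nat_lit 5) (nat_lit 5) (nat_lit 5) (nat_lit 6) (nat_lit 4) (nat_lit 345) (nat_lit 244) (nat_lit 191)) (XT.nd (nat_lit 78) (nat_lit 0) (nat_lit 0) (XT.lf (nat_lit 0) (nat_lit 21779199739) (nat_lit 152) (nat_lit 58996976935) (nat_lit 0) (nat_lit 4660763129) (nat_lit 4) (nat_lit 5) (nat_lit 6) (nat_lit 4) (nat_lit 4) (nat_lit 4) (nat_lit 346) (nat_lit 244) (nat_lit 190)) (XT.lf (nat_lit 0) (nat_lit 27716648830) (nat_lit 152) (nat_lit 51281731493) (nat_lit 0) (nat_lit 10535210227) (nat_lit 4) (nat_lit 5) (nat_lit 6) (nat_lit 4) (nat_lit 4) (nat_lit 4) (nat_lit 347) (nat_lit 244) (nat_lit 189)))) (XT.nd (nat_lit 156) (nat_lit 0) (nat_lit 0) (XT.nd (nat_lit 78) (nat_lit 0) (nat_lit 0) (XT.lf (nat_lit 0) (nat_lit 33917209779) (nat_lit 152) (nat_lit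 43243119762) (nat_lit 0) (nat_lit 16675769277) (nat_lit 4) (nat_lit 5) (nat_lit 6) (nat_lit 4) (nat_lit 4) (nat_lit 4) (nat_lit 348) (nat_lit 244) (nat_lit 188)) (XT.lf (nat_lit 0) (nat_lit 40395645825) (nat_lit 152) (nat_lit 34862002190) (nat_lit 0) (nat_lit 23097060658) (nat_lit 4) (nat_lit 5) (nat_lit 6) (nat_lit 4) (nat_lit 4) (nat_lit 4) (nat_lit 349) (nat_lit 244) (nat_lit 187))) (XT.nd (nat_lit 78) (nat_lit 0) (nat_lit 0) (XT.lf (nat_lit 0) (nat_lit 47167381817) (nat_lit 152) (nat_lit 26118423736) (nat_lit 0) (nat_lit 29814373159) (nat_lit 4) (nat_lit 5) (nat_lit 6) (nat_lit 4) (nat_lit 4) (nat_lit 4) (nat_lit 350) (nat_lit 244) (nat_lit 186)) (XT.lf (nat_lit 0) (nat_lit 54248540935) (nat_lit 152) (nat_lit 16991566355) (nat_lit 0) (nat_lit 36843700381) (nat_lit 4) (nat_lit 5) (nat_lit 6) (nat_lit 4) (nat_lit 4) (nat_lit 4) (nat_lit 351) (nat_lit 244) (nat_lit 185))))) (XT.nd (nat_lit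 234) (nat_lit 0) (nat_lit 0) (XT.nd (nat_lit 78) (nat_lit 76) (nat_lit 0) (XT.lf (nat_lit 0) (nat_lit 61655983082) (nat_lit 152) (nat_lit 7459699435) (nat_lit 0) (nat_lit 44201778817) (nat_lit 4) (nat_lit 5) (nat_lit 6) (nat_lit 4) (nat_lit 4) (nat_lit 4) (nat_lit 352) (nat_lit 244) (nat_lit 184)) (XT.nd (nat_lit 78) (nat_lit 0) (nat_lit 0) (XT.lf (nat_lit 0) (nat_lit 2549624297) (nat_lit 76) (nat_lit 66882229275) (nat_lit 76) (nat_lit 49381011953) (nat_lit 3) (nat_lit 4) (nat_lit 4) (nat_lit 5) (nat_lit 4) (nat_lit 4) (nat_lit 353) (nat_lit 244) (nat_lit 183)) (XT.lf (nat_lit 0) (nat_lit 13167812500) (nat_lit 76) (nat_lit 64479846955) (nat_lit 76) (nat_lit 46933855293) (nat_lit 3) (nat_lit 4) (nat_lit 4) (nat_lit 5) (nat_lit 4) (nat_lit 4) (nat_lit 354) (nat_lit 244) (nat_lit 182)))) (XT.nd (nat_lit 156) (nat_lit 0) (nat_lit 0) (XT.nd (nat_lit 78) (nat_lit 0) (nat_lit 0) (XT.lf (nat_lit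 0) (nat_lit 24271683927) (nat_lit 76) (nat_lit 61978143937) (nat_lit 76) (nat_lit 44389510046) (nat_lit 3) (nat_lit 4) (nat_lit 4) (nat_lit 5) (nat_lit 4) (nat_lit 4) (nat_lit 355) (nat_lit 244) (nat_lit 181)) (XT.lf (nat_lit 0) (nat_lit 35887676367) (nat_lit 76) (nat_lit 59371163786) (nat_lit 76) (nat_lit 41741918248) (nat_lit 3) (nat_lit 4) (nat_lit 4) (nat_lit 5) (nat_lit 4) (nat_lit 4) (nat_lit 356) (nat_lit 244) (nat_lit 180))) (XT.nd (nat_lit 78) (nat_lit 0) (nat_lit 0) (XT.lf (nat_lit 0) (nat_lit 48043446944) (nat_lit 76) (nat_lit 56652699406) (nat_lit 76) (nat_lit 38984776109) (nat_lit 3) (nat_lit 4) (nat_lit 4) (nat_lit 5) (nat_lit 4) (nat_lit 4) (nat_lit 357) (nat_lit 244) (nat_lit 179)) (XT.lf (nat_lit 0) (nat_lit 60767937971) (nat_lit 76) (nat_lit 53816278262) (nat_lit 76) (nat_lit 36111519004) (nat_lit 3) (nat_lit 4) (nat_lit 4) (nat_lit 5) (nat_lit 4) (nat_lit 4) (nat_lit 358)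 (nat_lit 244) (nat_lit 178))))))))
noncomputable def xc25 : XT := (XT.nd (nat_lit 36972) (nat_lit 0) (nat_lit 304) (XT.nd (nat_lit 35958) (nat_lit 0) (nat_lit 1520) (XT.nd (nat_lit 35412) (nat_lit 0) (nat_lit 3420) (XT.nd (nat_lit 234) (nat_lit 0) (nat_lit 0) (XT.nd (nat_lit 78) (nat_lit 0) (nat_lit 0) (XT.lf (nat_lit 0) (nat_lit 74091445853) (nat_lit 76) (nat_lit 50855146971) (nat_lit 76) (nat_lit 33115305846) (nat_lit 3) (nat_lit 4) (nat_lit 4) (nat_lit 5) (nat_lit 4) (nat_lit 4) (nat_lit 359) (nat_lit 244) (nat_lit 177)) (XT.nd (nat_lit 78) (nat_lit 0) (nat_lit 0) (XT.lf (nat_lit 0) (nat_lit 88045693230) (nat_lit 76) (nat_lit 47762255220) (nat_lit 76) (nat_lit 29989002793) (nat_lit 3) (nat_lit 4) (nat_lit 4) (nat_lit 5) (nat_lit 4) (nat_lit 4) (nat_lit 360) (nat_lit 244) (nat_lit 176)) (XT.lf (nat_lit 0) (nat_lit 102663904499) (nat_lit 76) (nat_lit 44530238982) (nat_lit 76) (nat_lit 26725166267)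 (nat_lit 3) (nat_lit 4) (nat_lit 4) (nat_lit 5) (nat_lit 4) (nat_lit 4) (nat_lit 361) (nat_lit 244) (nat_lit 175)))) (XT.nd (nat_lit 35022) (nat_lit 0) (nat_lit 5472) (XT.lf (nat_lit 0) (nat_lit 117980884925) (nat_lit 76) (nat_lit 41151402979) (nat_lit 76) (nat_lit 23316025228) (nat_lit 3) (nat_lit 4) (nat_lit 4) (nat_lit 5) (nat_lit 4) (nat_lit 4) (nat_lit 362) (nat_lit 244) (nat_lit 174)) (XT.nd (nat_lit 78) (nat_lit 380) (nat_lit 0) (XT.lf (nat_lit 0) (nat_lit 2087644913) (nat_lit 380) (nat_lit 608215810) (nat_lit 0) (nat_lit 2087644913) (nat_lit 80) (nat_lit 5) (nat_lit 85) (nat_lit 4) (nat_lit 80) (nat_lit 4) (nat_lit 290) (nat_lit 245) (nat_lit 245)) (XT.lf (nat_lit 0) (nat_lit 618486394) (nat_lit 380) (nat_lit 181033747) (nat_lit 76) (nat_lit 9009908750) (nat_lit 75) (nat_lit 5) (nat_lit 80) (nat_lit 5) (nat_lit 76) (nat_lit 4) (nat_lit 291) (nat_lit 245) (nat_lit 244))))) (XT.nd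 (nat_lit 234) (nat_lit 988) (nat_lit 0) (XT.nd (nat_lit 78) (nat_lit 532) (nat_lit 0) (XT.lf (nat_lit 0) (nat_lit 691516563) (nat_lit 304) (nat_lit 6048240332) (nat_lit 304) (nat_lit 3325216463) (nat_lit 68) (nat_lit 4) (nat_lit 72) (nat_lit 5) (nat_lit 72) (nat_lit 4) (nat_lit 292) (nat_lit 245) (nat_lit 243)) (XT.nd (nat_lit 78) (nat_lit 228) (nat_lit 0) (XT.lf (nat_lit 0) (nat_lit 1423951061) (nat_lit 228) (nat_lit 1242071928) (nat_lit 304) (nat_lit 7670078130) (nat_lit 64) (nat_lit 5) (nat_lit 67) (nat_lit 5) (nat_lit 68) (nat_lit 4) (nat_lit 293) (nat_lit 245) (nat_lit 242)) (XT.lf (nat_lit 0) (nat_lit 1952800672) (nat_lit 228) (nat_lit 6855630206) (nat_lit 228) (nat_lit 1813992547) (nat_lit 61) (nat_lit 4) (nat_lit 64) (nat_lit 5) (nat_lit 64) (nat_lit 4) (nat_lit 294) (nat_lit 245) (nat_lit 241)))) (XT.nd (nat_lit 156) (nat_lit 456) (nat_lit 0) (XT.nd (nat_lit 78) (nat_lit 228) (nat_lit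 0) (XT.lf (nat_lit 0) (nat_lit 2268015624) (nat_lit 228) (nat_lit 1881576465) (nat_lit 304) (nat_lit 6775460426) (nat_lit 57) (nat_lit 5) (nat_lit 60) (nat_lit 5) (nat_lit 61) (nat_lit 4) (nat_lit 295) (nat_lit 245) (nat_lit 240)) (XT.lf (nat_lit 0) (nat_lit 2344249045) (nat_lit 228) (nat_lit 7953475486) (nat_lit 228) (nat_lit 947042020) (nat_lit 54) (nat_lit 4) (nat_lit 57) (nat_lit 5) (nat_lit 57) (nat_lit 4) (nat_lit 296) (nat_lit 245) (nat_lit 239))) (XT.nd (nat_lit 78) (nat_lit 228) (nat_lit 0) (XT.lf (nat_lit 0) (nat_lit 2132326541) (nat_lit 152) (nat_lit 2852785406) (nat_lit 228) (nat_lit 6596658089) (nat_lit 51) (nat_lit 5) (nat_lit 53) (nat_lit 5) (nat_lit 54) (nat_lit 4) (nat_lit 297) (nat_lit 245) (nat_lit 238)) (XT.lf (nat_lit 0) (nat_lit 1633272536) (nat_lit 228) (nat_lit 9483241470) (nat_lit 228) (nat_lit 821345498) (nat_lit 48) (nat_lit 4) (nat_lit 51) (nat_lit 5) (nat_lit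 51) (nat_lit 4) (nat_lit 298) (nat_lit 245) (nat_lit 237)))))) (XT.nd (nat_lit 468) (nat_lit 836) (nat_lit 0) (XT.nd (nat_lit 234) (nat_lit 532) (nat_lit 0) (XT.nd (nat_lit 78) (nat_lit 304) (nat_lit 0) (XT.lf (nat_lit 0) (nat_lit 764834364) (nat_lit 152) (nat_lit 4304439062) (nat_lit 228) (nat_lit 7243272822) (nat_lit 45) (nat_lit 5) (nat_lit 47) (nat_lit 5) (nat_lit 48) (nat_lit 4) (nat_lit 299) (nat_lit 245) (nat_lit 236)) (XT.nd (nat_lit 78) (nat_lit 304) (nat_lit 0) (XT.lf (nat_lit 0) (nat_lit 11155638653) (nat_lit 228) (nat_lit 444195511) (nat_lit 0) (nat_lit 1108505092) (nat_lit 45) (nat_lit 5) (nat_lit 48) (nat_lit 4) (nat_lit 45) (nat_lit 4) (nat_lit 300) (nat_lit 245) (nat_lit 235)) (XT.lf (nat_lit 0) (nat_lit 4295035246) (nat_lit 304) (nat_lit 2088967327) (nat_lit 76) (nat_lit 6740025805) (nat_lit 41) (nat_lit 5) (nat_lit 45) (nat_lit 5) (nat_lit 42) (nat_lit 4) (nat_lit 301)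 (nat_lit 245) (nat_lit 234)))) (XT.nd (nat_lit 78) (nat_lit 380) (nat_lit 0) (XT.lf (nat_lit 0) (nat_lit 9401134980) (nat_lit 152) (nat_lit 910959961) (nat_lit 228) (nat_lit 3250816958) (nat_lit 39) (nat_lit 5) (nat_lit 41) (nat_lit 5) (nat_lit 42) (nat_lit 4) (nat_lit 302) (nat_lit 245) (nat_lit 233)) (XT.nd (nat_lit 78) (nat_lit 152) (nat_lit 0) (XT.lf (nat_lit 0) (nat_lit 2511743126) (nat_lit 228) (nat_lit 6767613152) (nat_lit 76) (nat_lit 4745073612) (nat_lit 36) (nat_lit 5) (nat_lit 39) (nat_lit 5) (nat_lit 37) (nat_lit 4) (nat_lit 303) (nat_lit 245) (nat_lit 232)) (XT.lf (nat_lit 0) (nat_lit 4577876823) (nat_lit 152) (nat_lit 3837077227) (nat_lit 228) (nat_lit 6095637092) (nat_lit 34) (nat_lit 5) (nat_lit 36) (nat_lit 5) (nat_lit 37) (nat_lit 4) (nat_lit 304) (nat_lit 245) (nat_lit 231))))) (XT.nd (nat_lit 234) (nat_lit 456) (nat_lit 0) (XT.nd (nat_lit 78) (nat_lit 228) (nat_lit 0)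 (XT.lf (nat_lit 0) (nat_lit 1329993171) (nat_lit 152) (nat_lit 13211776402) (nat_lit 152) (nat_lit 481557173) (nat_lit 32) (nat_lit 4) (nat_lit 34) (nat_lit 5) (nat_lit 34) (nat_lit 4) (nat_lit 305) (nat_lit 245) (nat_lit 230)) (XT.nd (nat_lit 78) (nat_lit 152) (nat_lit 0) (XT.lf (nat_lit 0) (nat_lit 5280589415) (nat_lit 228) (nat_lit 2572477459) (nat_lit 76) (nat_lit 7707991968) (nat_lit 31) (nat_lit 5) (nat_lit 34) (nat_lit 5) (nat_lit 32) (nat_lit 4) (nat_lit 306) (nat_lit 245) (nat_lit 229)) (XT.lf (nat_lit 0) (nat_lit 9003372862) (nat_lit 152) (nat_lit 2243201812) (nat_lit 228) (nat_lit 4881294440) (nat_lit 29) (nat_lit 5) (nat_lit 31) (nat_lit 5) (nat_lit 32) (nat_lit 4) (nat_lit 307) (nat_lit 245) (nat_lit 228)))) (XT.nd (nat_lit 156) (nat_lit 228) (nat_lit 0) (XT.nd (nat_lit 78) (nat_lit 0) (nat_lit 0) (XT.lf (nat_lit 0) (nat_lit 717815193) (nat_lit 228) (nat_lit 12462051219) (nat_lit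 76) (nat_lit 3544663202) (nat_lit 26) (nat_lit 5) (nat_lit 29) (nat_lit 5) (nat_lit 27) (nat_lit 4) (nat_lit 308) (nat_lit 245) (nat_lit 227)) (XT.lf (nat_lit 0) (nat_lit 6440082431) (nat_lit 228) (nat_lit 1317063534) (nat_lit 76) (nat_lit 9594195395) (nat_lit 26) (nat_lit 5) (nat_lit 29) (nat_lit 5) (nat_lit 27) (nat_lit 4) (nat_lit 309) (nat_lit 245) (nat_lit 226))) (XT.nd (nat_lit 78) (nat_lit 152) (nat_lit 0) (XT.lf (nat_lit 0) (nat_lit 10336117957) (nat_lit 76) (nat_lit 2065519892) (nat_lit 152) (nat_lit 5609348938) (nat_lit 25) (nat_lit 5) (nat_lit 26) (nat_lit 5) (nat_lit 27) (nat_lit 4) (nat_lit 310) (nat_lit 245) (nat_lit 225)) (XT.lf (nat_lit 0) (nat_lit 3683512699) (nat_lit 152) (nat_lit 14921907708) (nat_lit 152) (nat_lit 99953728) (nat_lit 23) (nat_lit 4) (nat_lit 25) (nat_lit 5) (nat_lit 25) (nat_lit 4) (nat_lit 311) (nat_lit 245) (nat_lit 224))))))) (XT.nd (nat_lit 1014) (nat_lit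 380) (nat_lit 0) (XT.nd (nat_lit 468) (nat_lit 380) (nat_lit 0) (XT.nd (nat_lit 234) (nat_lit 304) (nat_lit 0) (XT.nd (nat_lit 78) (nat_lit 76) (nat_lit 0) (XT.lf (nat_lit 0) (nat_lit 5535108022) (nat_lit 228) (nat_lit 3980881847) (nat_lit 76) (nat_lit 9918095472) (nat_lit 22) (nat_lit 5) (nat_lit 25) (nat_lit 5) (nat_lit 23) (nat_lit 4) (nat_lit 312) (nat_lit 245) (nat_lit 223)) (XT.nd (nat_lit 78) (nat_lit 0) (nat_lit 0) (XT.lf (nat_lit 0) (nat_lit 7526881293) (nat_lit 76) (nat_lit 3862483567) (nat_lit 152) (nat_lit 8811726369) (nat_lit 21) (nat_lit 5) (nat_lit 22) (nat_lit 5) (nat_lit 23) (nat_lit 4) (nat_lit 313) (nat_lit 245) (nat_lit 222)) (XT.lf (nat_lit 0) (nat_lit 17468038281) (nat_lit 152) (nat_lit 1559854222) (nat_lit 0) (nat_lit 1980674355) (nat_lit 21) (nat_lit 5) (nat_lit 23) (nat_lit 4) (nat_lit 21) (nat_lit 4) (nat_lit 314) (nat_lit 245) (nat_lit 221)))) (XT.nd (nat_lit 78)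 (nat_lit 76) (nat_lit 0) (XT.lf (nat_lit 0) (nat_lit 1967524027) (nat_lit 228) (nat_lit 11824733024) (nat_lit 76) (nat_lit 8063283083) (nat_lit 18) (nat_lit 5) (nat_lit 21) (nat_lit 5) (nat_lit 19) (nat_lit 4) (nat_lit 315) (nat_lit 245) (nat_lit 220)) (XT.nd (nat_lit 78) (nat_lit 76) (nat_lit 0) (XT.lf (nat_lit 0) (nat_lit 7573817781) (nat_lit 228) (nat_lit 759616584) (nat_lit 76) (nat_lit 14413556338) (nat_lit 18) (nat_lit 5) (nat_lit 21) (nat_lit 5) (nat_lit 19) (nat_lit 4) (nat_lit 316) (nat_lit 245) (nat_lit 219)) (XT.lf (nat_lit 0) (nat_lit 10868030371) (nat_lit 76) (nat_lit 2581785149) (nat_lit 152) (nat_lit 10233575776) (nat_lit 17) (nat_lit 5) (nat_lit 18) (nat_lit 5) (nat_lit 19) (nat_lit 4) (nat_lit 317) (nat_lit 245) (nat_lit 218))))) (XT.nd (nat_lit 234) (nat_lit 152) (nat_lit 0) (XT.nd (nat_lit 78) (nat_lit 228) (nat_lit 0) (XT.lf (nat_lit 0) (nat_lit 19548429070) (nat_lit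 152) (nat_lit 1806322317) (nat_lit 0) (nat_lit 3314052416) (nat_lit 17) (nat_lit 5) (nat_lit 19) (nat_lit 4) (nat_lit 17) (nat_lit 4) (nat_lit 318) (nat_lit 245) (nat_lit 217)) (XT.nd (nat_lit 78) (nat_lit 0) (nat_lit 0) (XT.lf (nat_lit 0) (nat_lit 256300794) (nat_lit 228) (nat_lit 15978822810) (nat_lit 76) (nat_lit 9467963883) (nat_lit 14) (nat_lit 5) (nat_lit 17) (nat_lit 5) (nat_lit 15) (nat_lit 4) (nat_lit 319) (nat_lit 245) (nat_lit 216)) (XT.lf (nat_lit 0) (nat_lit 5710950839) (nat_lit 228) (nat_lit 5158013475) (nat_lit 76) (nat_lit 15921198630) (nat_lit 14) (nat_lit 5) (nat_lit 17) (nat_lit 5) (nat_lit 15) (nat_lit 4) (nat_lit 320) (nat_lit 245) (nat_lit 215)))) (XT.nd (nat_lit 156) (nat_lit 76) (nat_lit 0) (XT.nd (nat_lit 78) (nat_lit 0) (nat_lit 0) (XT.lf (nat_lit 0) (nat_lit 6145909430) (nat_lit 76) (nat_lit 5251764049) (nat_lit 152) (nat_lit 16535185759) (nat_lit 13) (nat_lit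 5) (nat_lit 14) (nat_lit 5) (nat_lit 15) (nat_lit 4) (nat_lit 321) (nat_lit 245) (nat_lit 214)) (XT.lf (nat_lit 0) (nat_lit 17331186797) (nat_lit 152) (nat_lit 11189990373) (nat_lit 0) (nat_lit 612684555) (nat_lit 13) (nat_lit 5) (nat_lit 15) (nat_lit 4) (nat_lit 13) (nat_lit 4) (nat_lit 322) (nat_lit 245) (nat_lit 213))) (XT.nd (nat_lit 78) (nat_lit 76) (nat_lit 0) (XT.lf (nat_lit 0) (nat_lit 23521639334) (nat_lit 152) (nat_lit 282828795) (nat_lit 0) (nat_lit 6591681174) (nat_lit 13) (nat_lit 5) (nat_lit 15) (nat_lit 4) (nat_lit 13) (nat_lit 4) (nat_lit 323) (nat_lit 245) (nat_lit 212)) (XT.lf (nat_lit 0) (nat_lit 11230127770) (nat_lit 76) (nat_lit 18811110183) (nat_lit 76) (nat_lit 1679765434) (nat_lit 12) (nat_lit 4) (nat_lit 13) (nat_lit 5) (nat_lit 13) (nat_lit 4) (nat_lit 324) (nat_lit 245) (nat_lit 211)))))) (XT.nd (nat_lit 546) (nat_lit 152) (nat_lit 0) (XT.nd (nat_lit 234) (nat_lit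 76) (nat_lit 0) (XT.nd (nat_lit 78) (nat_lit 76) (nat_lit 0) (XT.lf (nat_lit 0) (nat_lit 3617509471) (nat_lit 152) (nat_lit 9979597271) (nat_lit 76) (nat_lit 19516449095) (nat_lit 11) (nat_lit 5) (nat_lit 13) (nat_lit 5) (nat_lit 12) (nat_lit 4) (nat_lit 325) (nat_lit 245) (nat_lit 210)) (XT.nd (nat_lit 78) (nat_lit 0) (nat_lit 0) (XT.lf (nat_lit 0) (nat_lit 909550571) (nat_lit 76) (nat_lit 8162053193) (nat_lit 152) (nat_lit 25505868290) (nat_lit 10) (nat_lit 5) (nat_lit 11) (nat_lit 5) (nat_lit 12) (nat_lit 4) (nat_lit 326) (nat_lit 245) (nat_lit 209)) (XT.lf (nat_lit 0) (nat_lit 12407467688) (nat_lit 76) (nat_lit 2413831851) (nat_lit 152) (nat_lit 21292631882) (nat_lit 10) (nat_lit 5) (nat_lit 11) (nat_lit 5) (nat_lit 12) (nat_lit 4) (nat_lit 327) (nat_lit 245) (nat_lit 208)))) (XT.nd (nat_lit 156) (nat_lit 76) (nat_lit 0) (XT.nd (nat_lit 78) (nat_lit 0) (nat_lit 0) (XT.lf (nat_lit 0)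 (nat_lit 20816672769) (nat_lit 152) (nat_lit 13420836240) (nat_lit 0) (nat_lit 3490991581) (nat_lit 10) (nat_lit 5) (nat_lit 12) (nat_lit 4) (nat_lit 10) (nat_lit 4) (nat_lit 328) (nat_lit 245) (nat_lit 207)) (XT.lf (nat_lit 0) (nat_lit 27063204432) (nat_lit 152) (nat_lit 2777755697) (nat_lit 0) (nat_lit 9584327456) (nat_lit 10) (nat_lit 5) (nat_lit 12) (nat_lit 4) (nat_lit 10) (nat_lit 4) (nat_lit 329) (nat_lit 245) (nat_lit 206))) (XT.nd (nat_lit 78) (nat_lit 0) (nat_lit 0) (XT.lf (nat_lit 0) (nat_lit 8435937314) (nat_lit 76) (nat_lit 25197718071) (nat_lit 76) (nat_lit 7572940344) (nat_lit 9) (nat_lit 4) (nat_lit 10) (nat_lit 5) (nat_lit 10) (nat_lit 4) (nat_lit 330) (nat_lit 245) (nat_lit 205)) (XT.lf (nat_lit 0) (nat_lit 20145821087) (nat_lit 76) (nat_lit 20348035183) (nat_lit 76) (nat_lit 2584304361) (nat_lit 9) (nat_lit 4) (nat_lit 10) (nat_lit 5) (nat_lit 10) (nat_lit 4) (nat_lit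 331) (nat_lit 245) (nat_lit 204))))) (XT.nd (nat_lit 234) (nat_lit 0) (nat_lit 0) (XT.nd (nat_lit 78) (nat_lit 76) (nat_lit 0) (XT.lf (nat_lit 0) (nat_lit 2537158192) (nat_lit 152) (nat_lit 12745635973) (nat_lit 76) (nat_lit 29761714997) (nat_lit 8) (nat_lit 5) (nat_lit 10) (nat_lit 5) (nat_lit 9) (nat_lit 4) (nat_lit 332) (nat_lit 245) (nat_lit 203)) (XT.nd (nat_lit 78) (nat_lit 76) (nat_lit 0) (XT.lf (nat_lit 0) (nat_lit 7800009288) (nat_lit 152) (nat_lit 2188082801) (nat_lit 76) (nat_lit 37122177340) (nat_lit 8) (nat_lit 5) (nat_lit 10) (nat_lit 5) (nat_lit 9) (nat_lit 4) (nat_lit 333) (nat_lit 245) (nat_lit 202)) (XT.lf (nat_lit 0) (nat_lit 8965243101) (nat_lit 76) (nat_lit 4388144912) (nat_lit 152) (nat_lit 35925131773) (nat_lit 7) (nat_lit 5) (nat_lit 8) (nat_lit 5) (nat_lit 9) (nat_lit 4) (nat_lit 334) (nat_lit 245) (nat_lit 201)))) (XT.nd (nat_lit 156) (nat_lit 0) (nat_lit 0) (XT.nd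 (nat_lit 78) (nat_lit 0) (nat_lit 0) (XT.lf (nat_lit 0) (nat_lit 19164077376) (nat_lit 152) (nat_lit 30952371472) (nat_lit 0) (nat_lit 1439367063) (nat_lit 7) (nat_lit 5) (nat_lit 9) (nat_lit 4) (nat_lit 7) (nat_lit 4) (nat_lit 335) (nat_lit 245) (nat_lit 200)) (XT.lf (nat_lit 0) (nat_lit 25254881545) (nat_lit 152) (nat_lit 21267960404) (nat_lit 0) (nat_lit 7424468915) (nat_lit 7) (nat_lit 5) (nat_lit 9) (nat_lit 4) (nat_lit 7) (nat_lit 4) (nat_lit 336) (nat_lit 245) (nat_lit 199))) (XT.nd (nat_lit 78) (nat_lit 0) (nat_lit 0) (XT.lf (nat_lit 0) (nat_lit 31598120901) (nat_lit 152) (nat_lit 11194803824) (nat_lit 0) (nat_lit 13667039398) (nat_lit 7) (nat_lit 5) (nat_lit 9) (nat_lit 4) (nat_lit 7) (nat_lit 4) (nat_lit 337) (nat_lit 245) (nat_lit 198)) (XT.lf (nat_lit 0) (nat_lit 38208898397) (nat_lit 152) (nat_lit 708918027) (nat_lit 0) (nat_lit 20181941777) (nat_lit 7) (nat_lit 5) (nat_lit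 9) (nat_lit 4) (nat_lit 7) (nat_lit 4) (nat_lit 338) (nat_lit 245) (nat_lit 197))))))))
noncomputable def xc26 : XT := (XT.nd (nat_lit 36816) (nat_lit 0) (nat_lit 1140) (XT.nd (nat_lit 1014) (nat_lit 76) (nat_lit 0) (XT.nd (nat_lit 468) (nat_lit 76) (nat_lit 0) (XT.nd (nat_lit 234) (nat_lit 76) (nat_lit 0) (XT.nd (nat_lit 78) (nat_lit 0) (nat_lit 0) (XT.lf (nat_lit 0) (nat_lit 10417955211) (nat_lit 76) (nat_lit 34785142525) (nat_lit 76) (nat_lit 16666876269) (nat_lit 6) (nat_lit 4) (nat_lit 7) (nat_lit 5) (nat_lit 7) (nat_lit 4) (nat_lit 339) (nat_lit 245) (nat_lit 196)) (XT.nd (nat_lit 78) (nat_lit 0) (nat_lit 0) (XT.lf (nat_lit 0) (nat_lit 22031870070) (nat_lit 76) (nat_lit 30476615805) (nat_lit 76) (nat_lit 12271387991) (nat_lit 6) (nat_lit 4) (nat_lit 7) (nat_lit 5) (nat_lit 7) (nat_lit 4) (nat_lit 340) (nat_lit 245) (nat_lit 195)) (XT.lf (nat_lit 0) (nat_lit 34146369867) (nat_lit 76)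 (nat_lit 25989136550) (nat_lit 76) (nat_lit 7701088205) (nat_lit 6) (nat_lit 4) (nat_lit 7) (nat_lit 5) (nat_lit 7) (nat_lit 4) (nat_lit 341) (nat_lit 245) (nat_lit 194)))) (XT.nd (nat_lit 78) (nat_lit 76) (nat_lit 0) (XT.lf (nat_lit 0) (nat_lit 46790298651) (nat_lit 76) (nat_lit 21312020285) (nat_lit 76) (nat_lit 2945095244) (nat_lit 6) (nat_lit 4) (nat_lit 7) (nat_lit 5) (nat_lit 7) (nat_lit 4) (nat_lit 342) (nat_lit 245) (nat_lit 193)) (XT.nd (nat_lit 78) (nat_lit 0) (nat_lit 0) (XT.lf (nat_lit 0) (nat_lit 1968733037) (nat_lit 152) (nat_lit 14445517639) (nat_lit 76) (nat_lit 58005147632) (nat_lit 5) (nat_lit 5) (nat_lit 7) (nat_lit 5) (nat_lit 6) (nat_lit 4) (nat_lit 343) (nat_lit 245) (nat_lit 192)) (XT.lf (nat_lit 0) (nat_lit 7029827118) (nat_lit 152) (nat_lit 4243040142) (nat_lit 76) (nat_lit 66687379179) (nat_lit 5) (nat_lit 5) (nat_lit 7) (nat_lit 5) (nat_lit 6) (nat_lit 4) (nat_lit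 344) (nat_lit 245) (nat_lit 191))))) (XT.nd (nat_lit 234) (nat_lit 0) (nat_lit 0) (XT.nd (nat_lit 78) (nat_lit 0) (nat_lit 0) (XT.lf (nat_lit 0) (nat_lit 6530349267) (nat_lit 76) (nat_lit 5840131085) (nat_lit 152) (nat_lit 69306874905) (nat_lit 4) (nat_lit 5) (nat_lit 5) (nat_lit 5) (nat_lit 6) (nat_lit 4) (nat_lit 345) (nat_lit 245) (nat_lit 190)) (XT.nd (nat_lit 78) (nat_lit 0) (nat_lit 0) (XT.lf (nat_lit 0) (nat_lit 17866342904) (nat_lit 76) (nat_lit 120337296) (nat_lit 152) (nat_lit 67593396670) (nat_lit 4) (nat_lit 5) (nat_lit 5) (nat_lit 5) (nat_lit 6) (nat_lit 4) (nat_lit 346) (nat_lit 245) (nat_lit 189)) (XT.lf (nat_lit 0) (nat_lit 23906503952) (nat_lit 152) (nat_lit 60027768833) (nat_lit 0) (nat_lit 5742989526) (nat_lit 4) (nat_lit 5) (nat_lit 6) (nat_lit 4) (nat_lit 4) (nat_lit 4) (nat_lit 347) (nat_lit 245) (nat_lit 188)))) (XT.nd (nat_lit 156) (nat_lit 0) (nat_lit 0) (XT.nd (nat_lit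 78) (nat_lit 0) (nat_lit 0) (XT.lf (nat_lit 0) (nat_lit 30091380535) (nat_lit 152) (nat_lit 52018144783) (nat_lit 0) (nat_lit 11870721444) (nat_lit 4) (nat_lit 5) (nat_lit 6) (nat_lit 4) (nat_lit 4) (nat_lit 4) (nat_lit 348) (nat_lit 245) (nat_lit 187)) (XT.lf (nat_lit 0) (nat_lit 36554879090) (nat_lit 152) (nat_lit 43664634527) (nat_lit 0) (nat_lit 18279796508) (nat_lit 4) (nat_lit 5) (nat_lit 6) (nat_lit 4) (nat_lit 4) (nat_lit 4) (nat_lit 349) (nat_lit 245) (nat_lit 186))) (XT.nd (nat_lit 78) (nat_lit 0) (nat_lit 0) (XT.lf (nat_lit 0) (nat_lit 43312388899) (nat_lit 152) (nat_lit 34947348754) (nat_lit 0) (nat_lit 24985474422) (nat_lit 4) (nat_lit 5) (nat_lit 6) (nat_lit 4) (nat_lit 4) (nat_lit 4) (nat_lit 350) (nat_lit 245) (nat_lit 185)) (XT.lf (nat_lit 0) (nat_lit 50379999272) (nat_lit 152) (nat_lit 25845532022) (nat_lit 0) (nat_lit 32003721085) (nat_lit 4) (nat_lit 5) (nat_lit 6) (nat_lit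 4) (nat_lit 4) (nat_lit 4) (nat_lit 351) (nat_lit 245) (nat_lit 184)))))) (XT.nd (nat_lit 468) (nat_lit 0) (nat_lit 0) (XT.nd (nat_lit 234) (nat_lit 0) (nat_lit 0) (XT.nd (nat_lit 78) (nat_lit 76) (nat_lit 0) (XT.lf (nat_lit 0) (nat_lit 57774537853) (nat_lit 152) (nat_lit 16337513339) (nat_lit 0) (nat_lit 39351246607) (nat_lit 4) (nat_lit 5) (nat_lit 6) (nat_lit 4) (nat_lit 4) (nat_lit 4) (nat_lit 352) (nat_lit 245) (nat_lit 183)) (XT.nd (nat_lit 78) (nat_lit 76) (nat_lit 0) (XT.lf (nat_lit 0) (nat_lit 65513610684) (nat_lit 152) (nat_lit 6400654565) (nat_lit 0) (nat_lit 47045545098) (nat_lit 4) (nat_lit 5) (nat_lit 6) (nat_lit 4) (nat_lit 4) (nat_lit 4) (nat_lit 353) (nat_lit 245) (nat_lit 182)) (XT.lf (nat_lit 0) (nat_lit 4068086506) (nat_lit 76) (nat_lit 69586662561) (nat_lit 76) (nat_lit 51075954746) (nat_lit 3) (nat_lit 4) (nat_lit 4) (nat_lit 5) (nat_lit 4) (nat_lit 4) (nat_lit 354)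 (nat_lit 245) (nat_lit 181)))) (XT.nd (nat_lit 78) (nat_lit 0) (nat_lit 0) (XT.lf (nat_lit 0) (nat_lit 15150946929) (nat_lit 76) (nat_lit 67094621990) (nat_lit 76) (nat_lit 48543302529) (nat_lit 3) (nat_lit 4) (nat_lit 4) (nat_lit 5) (nat_lit 4) (nat_lit 4) (nat_lit 355) (nat_lit 245) (nat_lit 180)) (XT.nd (nat_lit 78) (nat_lit 0) (nat_lit 0) (XT.lf (nat_lit 0) (nat_lit 26746928889) (nat_lit 76) (nat_lit 64496844170) (nat_lit 76) (nat_lit 45906846950) (nat_lit 3) (nat_lit 4) (nat_lit 4) (nat_lit 5) (nat_lit 4) (nat_lit 4) (nat_lit 356) (nat_lit 245) (nat_lit 179)) (XT.lf (nat_lit 0) (nat_lit 38883641866) (nat_lit 76) (nat_lit 61787143914) (nat_lit 76) (nat_lit 43160310733) (nat_lit 3) (nat_lit 4) (nat_lit 4) (nat_lit 5) (nat_lit 4) (nat_lit 4) (nat_lit 357) (nat_lit 245) (nat_lit 178))))) (XT.nd (nat_lit 234) (nat_lit 0) (nat_lit 0) (XT.nd (nat_lit 78) (nat_lit 0) (nat_lit 0) (XT.lf (nat_lit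 0) (nat_lit 51589982798) (nat_lit 76) (nat_lit 58959069556) (nat_lit 76) (nat_lit 40297154507) (nat_lit 3) (nat_lit 4) (nat_lit 4) (nat_lit 5) (nat_lit 4) (nat_lit 4) (nat_lit 358) (nat_lit 245) (nat_lit 177)) (XT.nd (nat_lit 78) (nat_lit 0) (nat_lit 0) (XT.lf (nat_lit 0) (nat_lit 64896204875) (nat_lit 76) (nat_lit 56005887584) (nat_lit 76) (nat_lit 37310561233) (nat_lit 3) (nat_lit 4) (nat_lit 4) (nat_lit 5) (nat_lit 4) (nat_lit 4) (nat_lit 359) (nat_lit 245) (nat_lit 176)) (XT.lf (nat_lit 0) (nat_lit 78833989580) (nat_lit 76) (nat_lit 52920566614) (nat_lit 76) (nat_lit 34193419975) (nat_lit 3) (nat_lit 4) (nat_lit 4) (nat_lit 5) (nat_lit 4) (nat_lit 4) (nat_lit 360) (nat_lit 245) (nat_lit 175)))) (XT.nd (nat_lit 34944) (nat_lit 0) (nat_lit 6232) (XT.nd (nat_lit 78) (nat_lit 0) (nat_lit 0) (XT.lf (nat_lit 0) (nat_lit 93436522114) (nat_lit 76) (nat_lit 49695760643) (nat_lit 76) (nat_lit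 30938308968) (nat_lit 3) (nat_lit 4) (nat_lit 4) (nat_lit 5) (nat_lit 4) (nat_lit 4) (nat_lit 361) (nat_lit 245) (nat_lit 174)) (XT.lf (nat_lit 0) (nat_lit 108738570412) (nat_lit 76) (nat_lit 46323791561) (nat_lit 76) (nat_lit 27537477947) (nat_lit 3) (nat_lit 4) (nat_lit 4) (nat_lit 5) (nat_lit 4) (nat_lit 4) (nat_lit 362) (nat_lit 245) (nat_lit 173))) (XT.nd (nat_lit 78) (nat_lit 380) (nat_lit 0) (XT.lf (nat_lit 0) (nat_lit 1422066835) (nat_lit 380) (nat_lit 1716084039) (nat_lit 0) (nat_lit 1422066835) (nat_lit 90) (nat_lit 5) (nat_lit 95) (nat_lit 4) (nat_lit 90) (nat_lit 4) (nat_lit 288) (nat_lit 246) (nat_lit 246)) (XT.lf (nat_lit 0) (nat_lit 6993731083) (nat_lit 380) (nat_lit 1949595488) (nat_lit 380) (nat_lit 395954627) (nat_lit 85) (nat_lit 4) (nat_lit 90) (nat_lit 5) (nat_lit 90) (nat_lit 4) (nat_lit 289) (nat_lit 246) (nat_lit 245))))))) (XT.nd (nat_lit 1014) (nat_lit 1596) (nat_lit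 0) (XT.nd (nat_lit 468) (nat_lit 1368) (nat_lit 0) (XT.nd (nat_lit 234) (nat_lit 836) (nat_lit 0) (XT.nd (nat_lit 78) (nat_lit 912) (nat_lit 0) (XT.lf (nat_lit 0) (nat_lit 5563160833) (nat_lit 380) (nat_lit 1389397544) (nat_lit 0) (nat_lit 2618210519) (nat_lit 80) (nat_lit 5) (nat_lit 85) (nat_lit 4) (nat_lit 80) (nat_lit 4) (nat_lit 290) (nat_lit 246) (nat_lit 244)) (XT.nd (nat_lit 78) (nat_lit 532) (nat_lit 0) (XT.lf (nat_lit 0) (nat_lit 1856198904) (nat_lit 380) (nat_lit 545019993) (nat_lit 76) (nat_lit 7415281595) (nat_lit 75) (nat_lit 5) (nat_lit 80) (nat_lit 5) (nat_lit 76) (nat_lit 4) (nat_lit 291) (nat_lit 246) (nat_lit 243)) (XT.lf (nat_lit 0) (nat_lit 149328952) (nat_lit 304) (nat_lit 7689761804) (nat_lit 304) (nat_lit 2237230677) (nat_lit 68) (nat_lit 4) (nat_lit 72) (nat_lit 5) (nat_lit 72) (nat_lit 4) (nat_lit 292) (nat_lit 246) (nat_lit 242)))) (XT.nd (nat_lit 78) (nat_lit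 532) (nat_lit 0) (XT.lf (nat_lit 0) (nat_lit 679294314) (nat_lit 228) (nat_lit 2934812395) (nat_lit 304) (nat_lit 6736704566) (nat_lit 64) (nat_lit 5) (nat_lit 67) (nat_lit 5) (nat_lit 68) (nat_lit 4) (nat_lit 293) (nat_lit 246) (nat_lit 241)) (XT.nd (nat_lit 78) (nat_lit 304) (nat_lit 0) (XT.lf (nat_lit 0) (nat_lit 1027451493) (nat_lit 228) (nat_lit 8595626578) (nat_lit 228) (nat_lit 1018168785) (nat_lit 61) (nat_lit 4) (nat_lit 64) (nat_lit 5) (nat_lit 64) (nat_lit 4) (nat_lit 294) (nat_lit 246) (nat_lit 240)) (XT.lf (nat_lit 0) (nat_lit 1132334244) (nat_lit 228) (nat_lit 3680849099) (nat_lit 304) (nat_lit 6134066071) (nat_lit 57) (nat_lit 5) (nat_lit 60) (nat_lit 5) (nat_lit 61) (nat_lit 4) (nat_lit 295) (nat_lit 246) (nat_lit 239))))) (XT.nd (nat_lit 234) (nat_lit 912) (nat_lit 0) (XT.nd (nat_lit 78) (nat_lit 228) (nat_lit 0) (XT.lf (nat_lit 0) (nat_lit 1018087756) (nat_lit 228) (nat_lit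 9810399041) (nat_lit 228) (nat_lit 442558547) (nat_lit 54) (nat_lit 4) (nat_lit 57) (nat_lit 5) (nat_lit 57) (nat_lit 4) (nat_lit 296) (nat_lit 246) (nat_lit 238)) (XT.nd (nat_lit 78) (nat_lit 0) (nat_lit 0) (XT.lf (nat_lit 0) (nat_lit 587683765) (nat_lit 152) (nat_lit 4776762736) (nat_lit 228) (nat_lit 6247005697) (nat_lit 51) (nat_lit 5) (nat_lit 53) (nat_lit 5) (nat_lit 54) (nat_lit 4) (nat_lit 297) (nat_lit 246) (nat_lit 237)) (XT.lf (nat_lit 0) (nat_lit 11363979151) (nat_lit 228) (nat_lit 109599832) (nat_lit 0) (nat_lit 498004205) (nat_lit 51) (nat_lit 5) (nat_lit 54) (nat_lit 4) (nat_lit 51) (nat_lit 4) (nat_lit 298) (nat_lit 246) (nat_lit 236)))) (XT.nd (nat_lit 156) (nat_lit 456) (nat_lit 0) (XT.nd (nat_lit 78) (nat_lit 152) (nat_lit 0) (XT.lf (nat_lit 0) (nat_lit 5174919061) (nat_lit 304) (nat_lit 1183646126) (nat_lit 76) (nat_lit 5990839856) (nat_lit 47) (nat_lit 5) (nat_lit 51)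 (nat_lit 5) (nat_lit 48) (nat_lit 4) (nat_lit 299) (nat_lit 246) (nat_lit 235)) (XT.lf (nat_lit 0) (nat_lit 10154974982) (nat_lit 152) (nat_lit 991470722) (nat_lit 228) (nat_lit 1602272745) (nat_lit 45) (nat_lit 5) (nat_lit 47) (nat_lit 5) (nat_lit 48) (nat_lit 4) (nat_lit 300) (nat_lit 246) (nat_lit 234))) (XT.nd (nat_lit 78) (nat_lit 152) (nat_lit 0) (XT.lf (nat_lit 0) (nat_lit 4124770056) (nat_lit 304) (nat_lit 4460284297) (nat_lit 76) (nat_lit 4583086895) (nat_lit 41) (nat_lit 5) (nat_lit 45) (nat_lit 5) (nat_lit 42) (nat_lit 4) (nat_lit 301) (nat_lit 246) (nat_lit 233)) (XT.lf (nat_lit 0) (nat_lit 6838678905) (nat_lit 152) (nat_lit 3191997901) (nat_lit 228) (nat_lit 3579748808) (nat_lit 39) (nat_lit 5) (nat_lit 41) (nat_lit 5) (nat_lit 42) (nat_lit 4) (nat_lit 302) (nat_lit 246) (nat_lit 232)))))) (XT.nd (nat_lit 546) (nat_lit 608) (nat_lit 0) (XT.nd (nat_lit 234) (nat_lit 608) (nat_lit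 0) (XT.nd (nat_lit 78) (nat_lit 152) (nat_lit 0) (XT.lf (nat_lit 0) (nat_lit 2054956465) (nat_lit 228) (nat_lit 9596170470) (nat_lit 76) (nat_lit 2425000995) (nat_lit 36) (nat_lit 5) (nat_lit 39) (nat_lit 5) (nat_lit 37) (nat_lit 4) (nat_lit 303) (nat_lit 246) (nat_lit 231)) (XT.nd (nat_lit 78) (nat_lit 0) (nat_lit 0) (XT.lf (nat_lit 0) (nat_lit 1553440302) (nat_lit 152) (nat_lit 6293268221) (nat_lit 228) (nat_lit 6718982771) (nat_lit 34) (nat_lit 5) (nat_lit 36) (nat_lit 5) (nat_lit 37) (nat_lit 4) (nat_lit 304) (nat_lit 246) (nat_lit 230)) (XT.lf (nat_lit 0) (nat_lit 13188539543) (nat_lit 152) (nat_lit 674823968) (nat_lit 228) (nat_lit 1218423770) (nat_lit 34) (nat_lit 5) (nat_lit 36) (nat_lit 5) (nat_lit 37) (nat_lit 4) (nat_lit 305) (nat_lit 246) (nat_lit 229)))) (XT.nd (nat_lit 156) (nat_lit 228) (nat_lit 0) (XT.nd (nat_lit 78) (nat_lit 152) (nat_lit 0) (XT.lf (nat_lit 0) (nat_lit 4454358757)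 (nat_lit 228) (nat_lit 6011283892) (nat_lit 76) (nat_lit 5157252894) (nat_lit 31) (nat_lit 5) (nat_lit 34) (nat_lit 5) (nat_lit 32) (nat_lit 4) (nat_lit 306) (nat_lit 246) (nat_lit 228)) (XT.lf (nat_lit 0) (nat_lit 5367306423) (nat_lit 152) (nat_lit 4943312989) (nat_lit 228) (nat_lit 5882427076) (nat_lit 29) (nat_lit 5) (nat_lit 31) (nat_lit 5) (nat_lit 32) (nat_lit 4) (nat_lit 307) (nat_lit 246) (nat_lit 227))) (XT.nd (nat_lit 78) (nat_lit 76) (nat_lit 0) (XT.lf (nat_lit 0) (nat_lit 394394993) (nat_lit 152) (nat_lit 15990409699) (nat_lit 152) (nat_lit 409242478) (nat_lit 27) (nat_lit 4) (nat_lit 29) (nat_lit 5) (nat_lit 29) (nat_lit 4) (nat_lit 308) (nat_lit 246) (nat_lit 226)) (XT.lf (nat_lit 0) (nat_lit 5249702129) (nat_lit 228) (nat_lit 5373047905) (nat_lit 76) (nat_lit 6800409243) (nat_lit 26) (nat_lit 5) (nat_lit 29) (nat_lit 5) (nat_lit 27) (nat_lit 4) (nat_lit 309) (nat_lit 246)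 (nat_lit 225))))) (XT.nd (nat_lit 234) (nat_lit 304) (nat_lit 0) (XT.nd (nat_lit 78) (nat_lit 228) (nat_lit 0) (XT.lf (nat_lit 0) (nat_lit 6080600442) (nat_lit 76) (nat_lit 5021837682) (nat_lit 152) (nat_lit 6983672203) (nat_lit 25) (nat_lit 5) (nat_lit 26) (nat_lit 5) (nat_lit 27) (nat_lit 4) (nat_lit 310) (nat_lit 246) (nat_lit 224)) (XT.nd (nat_lit 78) (nat_lit 228) (nat_lit 0) (XT.lf (nat_lit 0) (nat_lit 17176172515) (nat_lit 152) (nat_lit 805299019) (nat_lit 0) (nat_lit 802966671) (nat_lit 25) (nat_lit 5) (nat_lit 27) (nat_lit 4) (nat_lit 25) (nat_lit 4) (nat_lit 311) (nat_lit 246) (nat_lit 223)) (XT.lf (nat_lit 0) (nat_lit 3983444177) (nat_lit 228) (nat_lit 8663192404) (nat_lit 76) (nat_lit 6869167470) (nat_lit 22) (nat_lit 5) (nat_lit 25) (nat_lit 5) (nat_lit 23) (nat_lit 4) (nat_lit 312) (nat_lit 246) (nat_lit 222)))) (XT.nd (nat_lit 156) (nat_lit 228) (nat_lit 0) (XT.nd (nat_lit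 78) (nat_lit 0) (nat_lit 0) (XT.lf (nat_lit 0) (nat_lit 2641867600) (nat_lit 76) (nat_lit 7087150702) (nat_lit 152) (nat_lit 10557086538) (nat_lit 21) (nat_lit 5) (nat_lit 22) (nat_lit 5) (nat_lit 23) (nat_lit 4) (nat_lit 313) (nat_lit 246) (nat_lit 221)) (XT.lf (nat_lit 0) (nat_lit 14479398942) (nat_lit 76) (nat_lit 1249086110) (nat_lit 152) (nat_lit 5367504398) (nat_lit 21) (nat_lit 5) (nat_lit 22) (nat_lit 5) (nat_lit 23) (nat_lit 4) (nat_lit 314) (nat_lit 246) (nat_lit 220))) (XT.nd (nat_lit 78) (nat_lit 0) (nat_lit 0) (XT.lf (nat_lit 0) (nat_lit 55181556) (nat_lit 228) (nat_lit 17144831333) (nat_lit 76) (nat_lit 4747137531) (nat_lit 18) (nat_lit 5) (nat_lit 21) (nat_lit 5) (nat_lit 19) (nat_lit 4) (nat_lit 315) (nat_lit 246) (nat_lit 219)) (XT.lf (nat_lit 0) (nat_lit 5605338306) (nat_lit 228) (nat_lit 6178641588) (nat_lit 76) (nat_lit 11056334072) (nat_lit 18) (nat_lit 5) (nat_lit 21)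 (nat_lit 5) (nat_lit 19) (nat_lit 4) (nat_lit 316) (nat_lit 246) (nat_lit 218))))))))
noncomputable def xc27 : XT := (XT.nd (nat_lit 2028) (nat_lit 228) (nat_lit 0) (XT.nd (nat_lit 1014) (nat_lit 304) (nat_lit 0) (XT.nd (nat_lit 468) (nat_lit 228) (nat_lit 0) (XT.nd (nat_lit 234) (nat_lit 152) (nat_lit 0) (XT.nd (nat_lit 78) (nat_lit 152) (nat_lit 0) (XT.lf (nat_lit 0) (nat_lit 5245065164) (nat_lit 76) (nat_lit 6128755688) (nat_lit 152) (nat_lit 12406146656) (nat_lit 17) (nat_lit 5) (nat_lit 18) (nat_lit 5) (nat_lit 19) (nat_lit 4) (nat_lit 317) (nat_lit 246) (nat_lit 217)) (XT.nd (nat_lit 78) (nat_lit 152) (nat_lit 0) (XT.lf (nat_lit 0) (nat_lit 17181466490) (nat_lit 76) (nat_lit 206679583) (nat_lit 152) (nat_lit 7379788773) (nat_lit 17) (nat_lit 5) (nat_lit 18) (nat_lit 5) (nat_lit 19) (nat_lit 4) (nat_lit 318) (nat_lit 246) (nat_lit 216)) (XT.lf (nat_lit 0) (nat_lit 3743640878) (nat_lit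 152) (nat_lit 19951444981) (nat_lit 152) (nat_lit 2110508861) (nat_lit 15) (nat_lit 4) (nat_lit 17) (nat_lit 5) (nat_lit 17) (nat_lit 4) (nat_lit 319) (nat_lit 246) (nat_lit 215)))) (XT.nd (nat_lit 78) (nat_lit 76) (nat_lit 0) (XT.lf (nat_lit 0) (nat_lit 3336672058) (nat_lit 228) (nat_lit 11307615896) (nat_lit 76) (nat_lit 12250473488) (nat_lit 14) (nat_lit 5) (nat_lit 17) (nat_lit 5) (nat_lit 15) (nat_lit 4) (nat_lit 320) (nat_lit 246) (nat_lit 214)) (XT.nd (nat_lit 78) (nat_lit 76) (nat_lit 0) (XT.lf (nat_lit 0) (nat_lit 8917980500) (nat_lit 228) (nat_lit 206249334) (nat_lit 76) (nat_lit 18916412286) (nat_lit 14) (nat_lit 5) (nat_lit 17) (nat_lit 5) (nat_lit 15) (nat_lit 4) (nat_lit 321) (nat_lit 246) (nat_lit 213)) (XT.lf (nat_lit 0) (nat_lit 11513535720) (nat_lit 76) (nat_lit 3285028351) (nat_lit 152) (nat_lit 14444689343) (nat_lit 13) (nat_lit 5) (nat_lit 14) (nat_lit 5) (nat_lit 15)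 (nat_lit 4) (nat_lit 322) (nat_lit 246) (nat_lit 212))))) (XT.nd (nat_lit 234) (nat_lit 76) (nat_lit 0) (XT.nd (nat_lit 78) (nat_lit 152) (nat_lit 0) (XT.lf (nat_lit 0) (nat_lit 20914352368) (nat_lit 152) (nat_lit 6868394674) (nat_lit 0) (nat_lit 2725053794) (nat_lit 13) (nat_lit 5) (nat_lit 15) (nat_lit 4) (nat_lit 13) (nat_lit 4) (nat_lit 323) (nat_lit 246) (nat_lit 211)) (XT.nd (nat_lit 78) (nat_lit 76) (nat_lit 0) (XT.lf (nat_lit 0) (nat_lit 4438299078) (nat_lit 76) (nat_lit 22889329898) (nat_lit 76) (nat_lit 4508234572) (nat_lit 12) (nat_lit 4) (nat_lit 13) (nat_lit 5) (nat_lit 13) (nat_lit 4) (nat_lit 324) (nat_lit 246) (nat_lit 210)) (XT.lf (nat_lit 0) (nat_lit 804053306) (nat_lit 152) (nat_lit 16931530685) (nat_lit 76) (nat_lit 15494870636) (nat_lit 11) (nat_lit 5) (nat_lit 13) (nat_lit 5) (nat_lit 12) (nat_lit 4) (nat_lit 325) (nat_lit 246) (nat_lit 209)))) (XT.nd (nat_lit 156)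 (nat_lit 0) (nat_lit 0) (XT.nd (nat_lit 78) (nat_lit 76) (nat_lit 0) (XT.lf (nat_lit 0) (nat_lit 6211137159) (nat_lit 152) (nat_lit 6129115770) (nat_lit 76) (nat_lit 22355544932) (nat_lit 11) (nat_lit 5) (nat_lit 13) (nat_lit 5) (nat_lit 12) (nat_lit 4) (nat_lit 326) (nat_lit 246) (nat_lit 208)) (XT.lf (nat_lit 0) (nat_lit 5179813027) (nat_lit 76) (nat_lit 6683841394) (nat_lit 152) (nat_lit 24371534072) (nat_lit 10) (nat_lit 5) (nat_lit 11) (nat_lit 5) (nat_lit 12) (nat_lit 4) (nat_lit 327) (nat_lit 246) (nat_lit 207))) (XT.nd (nat_lit 78) (nat_lit 0) (nat_lit 0) (XT.lf (nat_lit 0) (nat_lit 17051445766) (nat_lit 76) (nat_lit 738033483) (nat_lit 152) (nat_lit 20062380016) (nat_lit 10) (nat_lit 5) (nat_lit 11) (nat_lit 5) (nat_lit 12) (nat_lit 4) (nat_lit 328) (nat_lit 246) (nat_lit 206)) (XT.lf (nat_lit 0) (nat_lit 23995014687) (nat_lit 152) (nat_lit 10211778566) (nat_lit 0) (nat_lit 5343097323)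 (nat_lit 10) (nat_lit 5) (nat_lit 12) (nat_lit 4) (nat_lit 10) (nat_lit 4) (nat_lit 329) (nat_lit 246) (nat_lit 205)))))) (XT.nd (nat_lit 468) (nat_lit 76) (nat_lit 0) (XT.nd (nat_lit 234) (nat_lit 152) (nat_lit 0) (XT.nd (nat_lit 78) (nat_lit 0) (nat_lit 0) (XT.lf (nat_lit 0) (nat_lit 794186806) (nat_lit 76) (nat_lit 29665534227) (nat_lit 76) (nat_lit 10874663768) (nat_lit 9) (nat_lit 4) (nat_lit 10) (nat_lit 5) (nat_lit 10) (nat_lit 4) (nat_lit 330) (nat_lit 246) (nat_lit 204)) (XT.nd (nat_lit 78) (nat_lit 0) (nat_lit 0) (XT.lf (nat_lit 0) (nat_lit 12447141049) (nat_lit 76) (nat_lit 24841483699) (nat_lit 76) (nat_lit 5918276958) (nat_lit 9) (nat_lit 4) (nat_lit 10) (nat_lit 5) (nat_lit 10) (nat_lit 4) (nat_lit 331) (nat_lit 246) (nat_lit 203)) (XT.lf (nat_lit 0) (nat_lit 24571594874) (nat_lit 76) (nat_lit 19826274776) (nat_lit 76) (nat_lit 777033481) (nat_lit 9) (nat_lit 4) (nat_lit 10)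 (nat_lit 5) (nat_lit 10) (nat_lit 4) (nat_lit 332) (nat_lit 246) (nat_lit 202)))) (XT.nd (nat_lit 78) (nat_lit 76) (nat_lit 0) (XT.lf (nat_lit 0) (nat_lit 4472300177) (nat_lit 152) (nat_lit 10090504842) (nat_lit 76) (nat_lit 32678954388) (nat_lit 8) (nat_lit 5) (nat_lit 10) (nat_lit 5) (nat_lit 9) (nat_lit 4) (nat_lit 333) (nat_lit 246) (nat_lit 201)) (XT.nd (nat_lit 78) (nat_lit 0) (nat_lit 0) (XT.lf (nat_lit 0) (nat_lit 854825137) (nat_lit 76) (nat_lit 9065577028) (nat_lit 152) (nat_lit 39492776878) (nat_lit 7) (nat_lit 5) (nat_lit 8) (nat_lit 5) (nat_lit 9) (nat_lit 4) (nat_lit 334) (nat_lit 246) (nat_lit 200)) (XT.lf (nat_lit 0) (nat_lit 12459254374) (nat_lit 76) (nat_lit 3231247605) (nat_lit 152) (nat_lit 36001201329) (nat_lit 7) (nat_lit 5) (nat_lit 8) (nat_lit 5) (nat_lit 9) (nat_lit 4) (nat_lit 335) (nat_lit 246) (nat_lit 199))))) (XT.nd (nat_lit 234) (nat_lit 76) (nat_lit 0) (XT.nd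 (nat_lit 78) (nat_lit 0) (nat_lit 0) (XT.lf (nat_lit 0) (nat_lit 21724828337) (nat_lit 152) (nat_lit 29563550329) (nat_lit 0) (nat_lit 2796523886) (nat_lit 7) (nat_lit 5) (nat_lit 9) (nat_lit 4) (nat_lit 7) (nat_lit 4) (nat_lit 336) (nat_lit 246) (nat_lit 198)) (XT.nd (nat_lit 78) (nat_lit 0) (nat_lit 0) (XT.lf (nat_lit 0) (nat_lit 28043860948) (nat_lit 152) (nat_lit 19534749169) (nat_lit 0) (nat_lit 9019681379) (nat_lit 7) (nat_lit 5) (nat_lit 9) (nat_lit 4) (nat_lit 7) (nat_lit 4) (nat_lit 337) (nat_lit 246) (nat_lit 197)) (XT.lf (nat_lit 0) (nat_lit 34631584400) (nat_lit 152) (nat_lit 9091106630) (nat_lit 0) (nat_lit 15516095196) (nat_lit 7) (nat_lit 5) (nat_lit 9) (nat_lit 4) (nat_lit 7) (nat_lit 4) (nat_lit 338) (nat_lit 246) (nat_lit 196)))) (XT.nd (nat_lit 156) (nat_lit 0) (nat_lit 0) (XT.nd (nat_lit 78) (nat_lit 0) (nat_lit 0) (XT.lf (nat_lit 0) (nat_lit 1827912256) (nat_lit 76)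 (nat_lit 39693342503) (nat_lit 76) (nat_lit 20490891741) (nat_lit 6) (nat_lit 4) (nat_lit 7) (nat_lit 5) (nat_lit 7) (nat_lit 4) (nat_lit 339) (nat_lit 246) (nat_lit 195)) (XT.lf (nat_lit 0) (nat_lit 13402748674) (nat_lit 76) (nat_lit 35402607881) (nat_lit 76) (nat_lit 16117336587) (nat_lit 6) (nat_lit 4) (nat_lit 7) (nat_lit 5) (nat_lit 7) (nat_lit 4) (nat_lit 340) (nat_lit 246) (nat_lit 194))) (XT.nd (nat_lit 78) (nat_lit 0) (nat_lit 0) (XT.lf (nat_lit 0) (nat_lit 25480030909) (nat_lit 76) (nat_lit 30932073481) (nat_lit 76) (nat_lit 11567925491) (nat_lit 6) (nat_lit 4) (nat_lit 7) (nat_lit 5) (nat_lit 7) (nat_lit 4) (nat_lit 341) (nat_lit 246) (nat_lit 193)) (XT.lf (nat_lit 0) (nat_lit 38088514394) (nat_lit 76) (nat_lit 26271095173) (nat_lit 76) (nat_lit 6831826520) (nat_lit 6) (nat_lit 4) (nat_lit 7) (nat_lit 5) (nat_lit 7) (nat_lit 4) (nat_lit 342) (nat_lit 246) (nat_lit 192))))))) (XT.nd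 (nat_lit 1014) (nat_lit 0) (nat_lit 0) (XT.nd (nat_lit 468) (nat_lit 76) (nat_lit 0) (XT.nd (nat_lit 234) (nat_lit 76) (nat_lit 0) (XT.nd (nat_lit 78) (nat_lit 76) (nat_lit 0) (XT.lf (nat_lit 0) (nat_lit 51258219330) (nat_lit 76) (nat_lit 21408575390) (nat_lit 76) (nat_lit 1897763248) (nat_lit 6) (nat_lit 4) (nat_lit 7) (nat_lit 5) (nat_lit 7) (nat_lit 4) (nat_lit 343) (nat_lit 246) (nat_lit 191)) (XT.nd (nat_lit 78) (nat_lit 0) (nat_lit 0) (XT.lf (nat_lit 0) (nat_lit 3182670705) (nat_lit 152) (nat_lit 13118127265) (nat_lit 76) (nat_lit 61805692716) (nat_lit 5) (nat_lit 5) (nat_lit 7) (nat_lit 5) (nat_lit 6) (nat_lit 4) (nat_lit 344) (nat_lit 246) (nat_lit 190)) (XT.lf (nat_lit 0) (nat_lit 8443700395) (nat_lit 152) (nat_lit 2503129049) (nat_lit 76) (nat_lit 70879164998) (nat_lit 5) (nat_lit 5) (nat_lit 7) (nat_lit 5) (nat_lit 6) (nat_lit 4) (nat_lit 345) (nat_lit 246) (nat_lit 189)))) (XT.nd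 (nat_lit 78) (nat_lit 0) (nat_lit 0) (XT.lf (nat_lit 0) (nat_lit 8752974333) (nat_lit 76) (nat_lit 5266048888) (nat_lit 152) (nat_lit 71710925079) (nat_lit 4) (nat_lit 5) (nat_lit 5) (nat_lit 5) (nat_lit 6) (nat_lit 4) (nat_lit 346) (nat_lit 246) (nat_lit 188)) (XT.nd (nat_lit 78) (nat_lit 0) (nat_lit 0) (XT.lf (nat_lit 0) (nat_lit 19873698879) (nat_lit 152) (nat_lit 69270532787) (nat_lit 0) (nat_lit 684862169) (nat_lit 4) (nat_lit 5) (nat_lit 6) (nat_lit 4) (nat_lit 4) (nat_lit 4) (nat_lit 347) (nat_lit 246) (nat_lit 187)) (XT.lf (nat_lit 0) (nat_lit 26043637971) (nat_lit 152) (nat_lit 61288516052) (nat_lit 0) (nat_lit 6800377770) (nat_lit 4) (nat_lit 5) (nat_lit 6) (nat_lit 4) (nat_lit 4) (nat_lit 4) (nat_lit 348) (nat_lit 246) (nat_lit 186))))) (XT.nd (nat_lit 234) (nat_lit 76) (nat_lit 0) (XT.nd (nat_lit 78) (nat_lit 0) (nat_lit 0) (XT.lf (nat_lit 0) (nat_lit 32492910344) (nat_lit 152)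 (nat_lit 52961298477) (nat_lit 0) (nat_lit 13197818247) (nat_lit 4) (nat_lit 5) (nat_lit 6) (nat_lit 4) (nat_lit 4) (nat_lit 4) (nat_lit 349) (nat_lit 246) (nat_lit 185)) (XT.nd (nat_lit 78) (nat_lit 0) (nat_lit 0) (XT.lf (nat_lit 0) (nat_lit 39236871409) (nat_lit 152) (nat_lit 44269053352) (nat_lit 0) (nat_lit 19892415601) (nat_lit 4) (nat_lit 5) (nat_lit 6) (nat_lit 4) (nat_lit 4) (nat_lit 4) (nat_lit 350) (nat_lit 246) (nat_lit 184)) (XT.lf (nat_lit 0) (nat_lit 46291578215) (nat_lit 152) (nat_lit 35191084857) (nat_lit 0) (nat_lit 26900109350) (nat_lit 4) (nat_lit 5) (nat_lit 6) (nat_lit 4) (nat_lit 4) (nat_lit 4) (nat_lit 351) (nat_lit 246) (nat_lit 183)))) (XT.nd (nat_lit 156) (nat_lit 76) (nat_lit 0) (XT.nd (nat_lit 78) (nat_lit 0) (nat_lit 0) (XT.lf (nat_lit 0) (nat_lit 53673827684) (nat_lit 152) (nat_lit 25705778781) (nat_lit 0) (nat_lit 34237584479) (nat_lit 4) (nat_lit 5) (nat_lit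 6) (nat_lit 4) (nat_lit 4) (nat_lit 4) (nat_lit 352) (nat_lit 246) (nat_lit 182)) (XT.lf (nat_lit 0) (nat_lit 61401196601) (nat_lit 152) (nat_lit 15790551061) (nat_lit 0) (nat_lit 41922311166) (nat_lit 4) (nat_lit 5) (nat_lit 6) (nat_lit 4) (nat_lit 4) (nat_lit 4) (nat_lit 353) (nat_lit 246) (nat_lit 181))) (XT.nd (nat_lit 78) (nat_lit 76) (nat_lit 0) (XT.lf (nat_lit 0) (nat_lit 69492083462) (nat_lit 152) (nat_lit 5421794013) (nat_lit 0) (nat_lit 49972586380) (nat_lit 4) (nat_lit 5) (nat_lit 6) (nat_lit 4) (nat_lit 4) (nat_lit 4) (nat_lit 354) (nat_lit 246) (nat_lit 180)) (XT.lf (nat_lit 0) (nat_lit 5533151597) (nat_lit 76) (nat_lit 72485788724) (nat_lit 76) (nat_lit 52927613884) (nat_lit 3) (nat_lit 4) (nat_lit 4) (nat_lit 5) (nat_lit 4) (nat_lit 4) (nat_lit 355) (nat_lit 246) (nat_lit 179)))))) (XT.nd (nat_lit 35178) (nat_lit 0) (nat_lit 5244) (XT.nd (nat_lit 234) (nat_lit 0) (nat_lit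 0) (XT.nd (nat_lit 78) (nat_lit 0) (nat_lit 0) (XT.lf (nat_lit 0) (nat_lit 17110075957) (nat_lit 76) (nat_lit 69896775029) (nat_lit 76) (nat_lit 50301764228) (nat_lit 3) (nat_lit 4) (nat_lit 4) (nat_lit 5) (nat_lit 4) (nat_lit 4) (nat_lit 356) (nat_lit 246) (nat_lit 178)) (XT.nd (nat_lit 78) (nat_lit 0) (nat_lit 0) (XT.lf (nat_lit 0) (nat_lit 29228638839) (nat_lit 76) (nat_lit 67195421558) (nat_lit 76) (nat_lit 47565328890) (nat_lit 3) (nat_lit 4) (nat_lit 4) (nat_lit 5) (nat_lit 4) (nat_lit 4) (nat_lit 357) (nat_lit 246) (nat_lit 177)) (XT.lf (nat_lit 0) (nat_lit 41917693966) (nat_lit 76) (nat_lit 64375296519) (nat_lit 76) (nat_lit 44711792549) (nat_lit 3) (nat_lit 4) (nat_lit 4) (nat_lit 5) (nat_lit 4) (nat_lit 4) (nat_lit 358) (nat_lit 246) (nat_lit 176)))) (XT.nd (nat_lit 156) (nat_lit 0) (nat_lit 0) (XT.nd (nat_lit 78) (nat_lit 0) (nat_lit 0) (XT.lf (nat_lit 0) (nat_lit 55207453372)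 (nat_lit 76) (nat_lit 61429685328) (nat_lit 76) (nat_lit 41734361070) (nat_lit 3) (nat_lit 4) (nat_lit 4) (nat_lit 5) (nat_lit 4) (nat_lit 4) (nat_lit 359) (nat_lit 246) (nat_lit 175)) (XT.lf (nat_lit 0) (nat_lit 69129559342) (nat_lit 76) (nat_lit 58351574625) (nat_lit 76) (nat_lit 38625945330) (nat_lit 3) (nat_lit 4) (nat_lit 4) (nat_lit 5) (nat_lit 4) (nat_lit 4) (nat_lit 360) (nat_lit 246) (nat_lit 174))) (XT.nd (nat_lit 78) (nat_lit 0) (nat_lit 0) (XT.lf (nat_lit 0) (nat_lit 83717159748) (nat_lit 76) (nat_lit 55133635575) (nat_lit 76) (nat_lit 35379144341) (nat_lit 3) (nat_lit 4) (nat_lit 4) (nat_lit 5) (nat_lit 4) (nat_lit 4) (nat_lit 361) (nat_lit 246) (nat_lit 173)) (XT.lf (nat_lit 0) (nat_lit 99004986971) (nat_lit 76) (nat_lit 51768206418) (nat_lit 76) (nat_lit 31986227623) (nat_lit 3) (nat_lit 4) (nat_lit 4) (nat_lit 5) (nat_lit 4) (nat_lit 4) (nat_lit 362) (nat_lit 246) (nat_lit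 172))))) (XT.nd (nat_lit 234) (nat_lit 1368) (nat_lit 0) (XT.nd (nat_lit 78) (nat_lit 760) (nat_lit 0) (XT.lf (nat_lit 0) (nat_lit 761393542) (nat_lit 456) (nat_lit 2836139055) (nat_lit 0) (nat_lit 761393542) (nat_lit 100) (nat_lit 5) (nat_lit 106) (nat_lit 4) (nat_lit 100) (nat_lit 4) (nat_lit 286) (nat_lit 247) (nat_lit 247)) (XT.nd (nat_lit 78) (nat_lit 380) (nat_lit 0) (XT.lf (nat_lit 0) (nat_lit 4316783883) (nat_lit 380) (nat_lit 3139141113) (nat_lit 380) (nat_lit 1458878522) (nat_lit 95) (nat_lit 4) (nat_lit 100) (nat_lit 5) (nat_lit 100) (nat_lit 4) (nat_lit 287) (nat_lit 247) (nat_lit 246)) (XT.lf (nat_lit 0) (nat_lit 4354148815) (nat_lit 380) (nat_lit 3600894445) (nat_lit 0) (nat_lit 1169185051) (nat_lit 90) (nat_lit 5) (nat_lit 95) (nat_lit 4) (nat_lit 90) (nat_lit 4) (nat_lit 288) (nat_lit 247) (nat_lit 245)))) (XT.nd (nat_lit 156) (nat_lit 608) (nat_lit 0) (XT.nd (nat_lit 78)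 (nat_lit 304) (nat_lit 0) (XT.lf (nat_lit 0) (nat_lit 968522183) (nat_lit 456) (nat_lit 2698521693) (nat_lit 76) (nat_lit 5679454514) (nat_lit 84) (nat_lit 5) (nat_lit 90) (nat_lit 5) (nat_lit 85) (nat_lit 4) (nat_lit 289) (nat_lit 247) (nat_lit 244)) (XT.lf (nat_lit 0) (nat_lit 6785127993) (nat_lit 380) (nat_lit 1908707141) (nat_lit 0) (nat_lit 888215578) (nat_lit 80) (nat_lit 5) (nat_lit 85) (nat_lit 4) (nat_lit 80) (nat_lit 4) (nat_lit 290) (nat_lit 247) (nat_lit 243))) (XT.nd (nat_lit 78) (nat_lit 228) (nat_lit 0) (XT.lf (nat_lit 0) (nat_lit 2926042212) (nat_lit 380) (nat_lit 1260050014) (nat_lit 76) (nat_lit 5644982577) (nat_lit 75) (nat_lit 5) (nat_lit 80) (nat_lit 5) (nat_lit 76) (nat_lit 4) (nat_lit 291) (nat_lit 247) (nat_lit 242)) (XT.lf (nat_lit 0) (nat_lit 8774531846) (nat_lit 304) (nat_lit 741003880) (nat_lit 0) (nat_lit 579511243) (nat_lit 72) (nat_lit 5) (nat_lit 76) (nat_lit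 4) (nat_lit 72) (nat_lit 4) (nat_lit 292) (nat_lit 247) (nat_lit 241))))))))
noncomputable def xc28 : XT := (XT.nd (nat_lit 2028) (nat_lit 912) (nat_lit 0) (XT.nd (nat_lit 1014) (nat_lit 1292) (nat_lit 0) (XT.nd (nat_lit 468) (nat_lit 1292) (nat_lit 0) (XT.nd (nat_lit 234) (nat_lit 684) (nat_lit 0) (XT.nd (nat_lit 78) (nat_lit 532) (nat_lit 0) (XT.lf (nat_lit 0) (nat_lit 4392864093) (nat_lit 380) (nat_lit 424945712) (nat_lit 76) (nat_lit 5555174914) (nat_lit 67) (nat_lit 5) (nat_lit 72) (nat_lit 5) (nat_lit 68) (nat_lit 4) (nat_lit 293) (nat_lit 247) (nat_lit 240)) (XT.nd (nat_lit 78) (nat_lit 304) (nat_lit 0) (XT.lf (nat_lit 0) (nat_lit 10266536913) (nat_lit 304) (nat_lit 265829853) (nat_lit 0) (nat_lit 135217420) (nat_lit 64) (nat_lit 5) (nat_lit 68) (nat_lit 4) (nat_lit 64) (nat_lit 4) (nat_lit 294) (nat_lit 247) (nat_lit 239)) (XT.lf (nat_lit 0) (nat_lit 5303997109) (nat_lit 304) (nat_lit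 374653125) (nat_lit 76) (nat_lit 5298283536) (nat_lit 60) (nat_lit 5) (nat_lit 64) (nat_lit 5) (nat_lit 61) (nat_lit 4) (nat_lit 295) (nat_lit 247) (nat_lit 238)))) (XT.nd (nat_lit 78) (nat_lit 456) (nat_lit 0) (XT.lf (nat_lit 0) (nat_lit 10620183882) (nat_lit 228) (nat_lit 574043872) (nat_lit 304) (nat_lit 110346533) (nat_lit 57) (nat_lit 5) (nat_lit 60) (nat_lit 5) (nat_lit 61) (nat_lit 4) (nat_lit 296) (nat_lit 247) (nat_lit 237)) (XT.nd (nat_lit 78) (nat_lit 152) (nat_lit 0) (XT.lf (nat_lit 0) (nat_lit 5576559552) (nat_lit 304) (nat_lit 1320947573) (nat_lit 76) (nat_lit 4750872142) (nat_lit 53) (nat_lit 5) (nat_lit 57) (nat_lit 5) (nat_lit 54) (nat_lit 4) (nat_lit 297) (nat_lit 247) (nat_lit 236)) (XT.lf (nat_lit 0) (nat_lit 9786657816) (nat_lit 152) (nat_lit 1679086451) (nat_lit 228) (nat_lit 546157801) (nat_lit 51) (nat_lit 5) (nat_lit 53) (nat_lit 5) (nat_lit 54) (nat_lit 4) (nat_lit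 298) (nat_lit 247) (nat_lit 235))))) (XT.nd (nat_lit 234) (nat_lit 532) (nat_lit 0) (XT.nd (nat_lit 78) (nat_lit 456) (nat_lit 0) (XT.lf (nat_lit 0) (nat_lit 5107138160) (nat_lit 304) (nat_lit 3512012800) (nat_lit 76) (nat_lit 3774471325) (nat_lit 47) (nat_lit 5) (nat_lit 51) (nat_lit 5) (nat_lit 48) (nat_lit 4) (nat_lit 299) (nat_lit 247) (nat_lit 234)) (XT.nd (nat_lit 78) (nat_lit 304) (nat_lit 0) (XT.lf (nat_lit 0) (nat_lit 7639007225) (nat_lit 152) (nat_lit 3328862346) (nat_lit 228) (nat_lit 1828461633) (nat_lit 45) (nat_lit 5) (nat_lit 47) (nat_lit 5) (nat_lit 48) (nat_lit 4) (nat_lit 300) (nat_lit 247) (nat_lit 233)) (XT.lf (nat_lit 0) (nat_lit 3768623454) (nat_lit 304) (nat_lit 7239496649) (nat_lit 76) (nat_lit 2211796530) (nat_lit 41) (nat_lit 5) (nat_lit 45) (nat_lit 5) (nat_lit 42) (nat_lit 4) (nat_lit 301) (nat_lit 247) (nat_lit 232)))) (XT.nd (nat_lit 156) (nat_lit 152) (nat_lit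 0) (XT.nd (nat_lit 78) (nat_lit 228) (nat_lit 0) (XT.lf (nat_lit 0) (nat_lit 3867064066) (nat_lit 152) (nat_lit 5696500157) (nat_lit 228) (nat_lit 4102028856) (nat_lit 39) (nat_lit 5) (nat_lit 41) (nat_lit 5) (nat_lit 42) (nat_lit 4) (nat_lit 302) (nat_lit 247) (nat_lit 231)) (XT.lf (nat_lit 0) (nat_lit 1287688231) (nat_lit 152) (nat_lit 119903252) (nat_lit 228) (nat_lit 12727971168) (nat_lit 36) (nat_lit 5) (nat_lit 38) (nat_lit 5) (nat_lit 39) (nat_lit 5) (nat_lit 303) (nat_lit 247) (nat_lit 230))) (XT.nd (nat_lit 78) (nat_lit 152) (nat_lit 0) (XT.lf (nat_lit 0) (nat_lit 7104795358) (nat_lit 228) (nat_lit 1857768615) (nat_lit 76) (nat_lit 5665454056) (nat_lit 36) (nat_lit 5) (nat_lit 39) (nat_lit 5) (nat_lit 37) (nat_lit 4) (nat_lit 304) (nat_lit 247) (nat_lit 229)) (XT.lf (nat_lit 0) (nat_lit 9613749345) (nat_lit 152) (nat_lit 3413543898) (nat_lit 228) (nat_lit 2119698407) (nat_lit 34)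 (nat_lit 5) (nat_lit 36) (nat_lit 5) (nat_lit 37) (nat_lit 4) (nat_lit 305) (nat_lit 247) (nat_lit 228)))))) (XT.nd (nat_lit 468) (nat_lit 608) (nat_lit 0) (XT.nd (nat_lit 234) (nat_lit 304) (nat_lit 0) (XT.nd (nat_lit 78) (nat_lit 152) (nat_lit 0) (XT.lf (nat_lit 0) (nat_lit 3433532923) (nat_lit 228) (nat_lit 9880960514) (nat_lit 76) (nat_lit 2378029467) (nat_lit 31) (nat_lit 5) (nat_lit 34) (nat_lit 5) (nat_lit 32) (nat_lit 4) (nat_lit 306) (nat_lit 247) (nat_lit 227)) (XT.nd (nat_lit 78) (nat_lit 0) (nat_lit 0) (XT.lf (nat_lit 0) (nat_lit 1297928968) (nat_lit 152) (nat_lit 7881535352) (nat_lit 228) (nat_lit 7086566011) (nat_lit 29) (nat_lit 5) (nat_lit 31) (nat_lit 5) (nat_lit 32) (nat_lit 4) (nat_lit 307) (nat_lit 247) (nat_lit 226)) (XT.lf (nat_lit 0) (nat_lit 13002714800) (nat_lit 152) (nat_lit 2170357953) (nat_lit 228) (nat_lit 1696419950) (nat_lit 29) (nat_lit 5) (nat_lit 31) (nat_lit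 5) (nat_lit 32) (nat_lit 4) (nat_lit 308) (nat_lit 247) (nat_lit 225)))) (XT.nd (nat_lit 78) (nat_lit 76) (nat_lit 0) (XT.lf (nat_lit 0) (nat_lit 3860581603) (nat_lit 228) (nat_lit 9870641465) (nat_lit 76) (nat_lit 3771605792) (nat_lit 26) (nat_lit 5) (nat_lit 29) (nat_lit 5) (nat_lit 27) (nat_lit 4) (nat_lit 309) (nat_lit 247) (nat_lit 224)) (XT.nd (nat_lit 78) (nat_lit 0) (nat_lit 0) (XT.lf (nat_lit 0) (nat_lit 1380342522) (nat_lit 76) (nat_lit 8223114477) (nat_lit 152) (nat_lit 8565657813) (nat_lit 25) (nat_lit 5) (nat_lit 26) (nat_lit 5) (nat_lit 27) (nat_lit 4) (nat_lit 310) (nat_lit 247) (nat_lit 223)) (XT.lf (nat_lit 0) (nat_lit 13179224485) (nat_lit 76) (nat_lit 2427459880) (nat_lit 152) (nat_lit 3262910761) (nat_lit 25) (nat_lit 5) (nat_lit 26) (nat_lit 5) (nat_lit 27) (nat_lit 4) (nat_lit 311) (nat_lit 247) (nat_lit 222))))) (XT.nd (nat_lit 234) (nat_lit 304) (nat_lit 0) (XT.nd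 (nat_lit 78) (nat_lit 76) (nat_lit 0) (XT.lf (nat_lit 0) (nat_lit 2227660943) (nat_lit 228) (nat_lit 13799745284) (nat_lit 76) (nat_lit 3578069115) (nat_lit 22) (nat_lit 5) (nat_lit 25) (nat_lit 5) (nat_lit 23) (nat_lit 4) (nat_lit 312) (nat_lit 247) (nat_lit 221)) (XT.nd (nat_lit 78) (nat_lit 76) (nat_lit 0) (XT.lf (nat_lit 0) (nat_lit 7889054130) (nat_lit 228) (nat_lit 2648503274) (nat_lit 76) (nat_lit 9840776934) (nat_lit 22) (nat_lit 5) (nat_lit 25) (nat_lit 5) (nat_lit 23) (nat_lit 4) (nat_lit 313) (nat_lit 247) (nat_lit 220)) (XT.lf (nat_lit 0) (nat_lit 9036983441) (nat_lit 76) (nat_lit 4768630488) (nat_lit 152) (nat_lit 7385123447) (nat_lit 21) (nat_lit 5) (nat_lit 22) (nat_lit 5) (nat_lit 23) (nat_lit 4) (nat_lit 314) (nat_lit 247) (nat_lit 219)))) (XT.nd (nat_lit 156) (nat_lit 76) (nat_lit 0) (XT.nd (nat_lit 78) (nat_lit 228) (nat_lit 0) (XT.lf (nat_lit 0) (nat_lit 19945957260)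 (nat_lit 152) (nat_lit 890049056) (nat_lit 0) (nat_lit 1209976534) (nat_lit 21) (nat_lit 5) (nat_lit 23) (nat_lit 4) (nat_lit 21) (nat_lit 4) (nat_lit 315) (nat_lit 247) (nat_lit 218)) (XT.lf (nat_lit 0) (nat_lit 3428834042) (nat_lit 228) (nat_lit 12061760436) (nat_lit 76) (nat_lit 7451053297) (nat_lit 18) (nat_lit 5) (nat_lit 21) (nat_lit 5) (nat_lit 19) (nat_lit 4) (nat_lit 316) (nat_lit 247) (nat_lit 217))) (XT.nd (nat_lit 78) (nat_lit 76) (nat_lit 0) (XT.lf (nat_lit 0) (nat_lit 9095979896) (nat_lit 228) (nat_lit 830133225) (nat_lit 76) (nat_lit 13958254480) (nat_lit 18) (nat_lit 5) (nat_lit 21) (nat_lit 5) (nat_lit 19) (nat_lit 4) (nat_lit 317) (nat_lit 247) (nat_lit 216)) (XT.lf (nat_lit 0) (nat_lit 11002589469) (nat_lit 76) (nat_lit 4050246022) (nat_lit 152) (nat_lit 9821248472) (nat_lit 17) (nat_lit 5) (nat_lit 18) (nat_lit 5) (nat_lit 19) (nat_lit 4) (nat_lit 318) (nat_lit 247) (nat_lit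 215))))))) (XT.nd (nat_lit 1014) (nat_lit 304) (nat_lit 0) (XT.nd (nat_lit 468) (nat_lit 304) (nat_lit 0) (XT.nd (nat_lit 234) (nat_lit 76) (nat_lit 0) (XT.nd (nat_lit 78) (nat_lit 228) (nat_lit 0) (XT.lf (nat_lit 0) (nat_lit 21239514139) (nat_lit 152) (nat_lit 2661584380) (nat_lit 0) (nat_lit 2014276902) (nat_lit 17) (nat_lit 5) (nat_lit 19) (nat_lit 4) (nat_lit 17) (nat_lit 4) (nat_lit 319) (nat_lit 247) (nat_lit 214)) (XT.nd (nat_lit 78) (nat_lit 0) (nat_lit 0) (XT.lf (nat_lit 0) (nat_lit 748690625) (nat_lit 228) (nat_lit 17934084843) (nat_lit 76) (nat_lit 8324709073) (nat_lit 14) (nat_lit 5) (nat_lit 17) (nat_lit 5) (nat_lit 15) (nat_lit 4) (nat_lit 320) (nat_lit 247) (nat_lit 213)) (XT.lf (nat_lit 0) (nat_lit 6285869583) (nat_lit 228) (nat_lit 6911411153) (nat_lit 76) (nat_lit 14957429281) (nat_lit 14) (nat_lit 5) (nat_lit 17) (nat_lit 5) (nat_lit 15) (nat_lit 4) (nat_lit 321) (nat_lit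 247) (nat_lit 212)))) (XT.nd (nat_lit 78) (nat_lit 0) (nat_lit 0) (XT.lf (nat_lit 0) (nat_lit 4598490877) (nat_lit 76) (nat_lit 7459462556) (nat_lit 152) (nat_lit 17302642786) (nat_lit 13) (nat_lit 5) (nat_lit 14) (nat_lit 5) (nat_lit 15) (nat_lit 4) (nat_lit 322) (nat_lit 247) (nat_lit 211)) (XT.nd (nat_lit 78) (nat_lit 0) (nat_lit 0) (XT.lf (nat_lit 0) (nat_lit 16679081729) (nat_lit 76) (nat_lit 1427217274) (nat_lit 152) (nat_lit 12520886890) (nat_lit 13) (nat_lit 5) (nat_lit 14) (nat_lit 5) (nat_lit 15) (nat_lit 4) (nat_lit 323) (nat_lit 247) (nat_lit 210)) (XT.lf (nat_lit 0) (nat_lit 24424111920) (nat_lit 152) (nat_lit 2784517157) (nat_lit 0) (nat_lit 4749501505) (nat_lit 13) (nat_lit 5) (nat_lit 15) (nat_lit 4) (nat_lit 13) (nat_lit 4) (nat_lit 324) (nat_lit 247) (nat_lit 209))))) (XT.nd (nat_lit 234) (nat_lit 152) (nat_lit 0) (XT.nd (nat_lit 78) (nat_lit 76) (nat_lit 0) (XT.lf (nat_lit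 0) (nat_lit 8960603695) (nat_lit 76) (nat_lit 22121451309) (nat_lit 76) (nat_lit 2272875586) (nat_lit 12) (nat_lit 4) (nat_lit 13) (nat_lit 5) (nat_lit 13) (nat_lit 4) (nat_lit 325) (nat_lit 247) (nat_lit 208)) (XT.nd (nat_lit 78) (nat_lit 0) (nat_lit 0) (XT.lf (nat_lit 0) (nat_lit 3142115223) (nat_lit 152) (nat_lit 13635763062) (nat_lit 76) (nat_lit 18044160247) (nat_lit 11) (nat_lit 5) (nat_lit 13) (nat_lit 5) (nat_lit 12) (nat_lit 4) (nat_lit 326) (nat_lit 247) (nat_lit 207)) (XT.lf (nat_lit 0) (nat_lit 8710131400) (nat_lit 152) (nat_lit 2490481885) (nat_lit 76) (nat_lit 25163366063) (nat_lit 11) (nat_lit 5) (nat_lit 13) (nat_lit 5) (nat_lit 12) (nat_lit 4) (nat_lit 327) (nat_lit 247) (nat_lit 206)))) (XT.nd (nat_lit 156) (nat_lit 76) (nat_lit 0) (XT.nd (nat_lit 78) (nat_lit 0) (nat_lit 0) (XT.lf (nat_lit 0) (nat_lit 9270808149) (nat_lit 76) (nat_lit 5307090644) (nat_lit 152) (nat_lit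 23404507480) (nat_lit 10) (nat_lit 5) (nat_lit 11) (nat_lit 5) (nat_lit 12) (nat_lit 4) (nat_lit 328) (nat_lit 247) (nat_lit 205)) (XT.lf (nat_lit 0) (nat_lit 20707226232) (nat_lit 152) (nat_lit 18137652180) (nat_lit 0) (nat_lit 837859154) (nat_lit 10) (nat_lit 5) (nat_lit 12) (nat_lit 4) (nat_lit 10) (nat_lit 4) (nat_lit 329) (nat_lit 247) (nat_lit 204))) (XT.nd (nat_lit 78) (nat_lit 76) (nat_lit 0) (XT.lf (nat_lit 0) (nat_lit 27133548441) (nat_lit 152) (nat_lit 7203002882) (nat_lit 0) (nat_lit 7131845081) (nat_lit 10) (nat_lit 5) (nat_lit 12) (nat_lit 4) (nat_lit 10) (nat_lit 4) (nat_lit 330) (nat_lit 247) (nat_lit 203)) (XT.lf (nat_lit 0) (nat_lit 4252378879) (nat_lit 76) (nat_lit 29609648772) (nat_lit 76) (nat_lit 9481910858) (nat_lit 9) (nat_lit 4) (nat_lit 10) (nat_lit 5) (nat_lit 10) (nat_lit 4) (nat_lit 331) (nat_lit 247) (nat_lit 202)))))) (XT.nd (nat_lit 546) (nat_lit 152) (nat_lit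 0) (XT.nd (nat_lit 234) (nat_lit 76) (nat_lit 0) (XT.nd (nat_lit 78) (nat_lit 76) (nat_lit 0) (XT.lf (nat_lit 0) (nat_lit 16325195943) (nat_lit 76) (nat_lit 24617689154) (nat_lit 76) (nat_lit 4369918332) (nat_lit 9) (nat_lit 4) (nat_lit 10) (nat_lit 5) (nat_lit 10) (nat_lit 4) (nat_lit 332) (nat_lit 247) (nat_lit 201)) (XT.nd (nat_lit 78) (nat_lit 0) (nat_lit 0) (XT.lf (nat_lit 0) (nat_lit 922211013) (nat_lit 152) (nat_lit 18489999520) (nat_lit 76) (nat_lit 27969315692) (nat_lit 8) (nat_lit 5) (nat_lit 10) (nat_lit 5) (nat_lit 9) (nat_lit 4) (nat_lit 333) (nat_lit 247) (nat_lit 200)) (XT.lf (nat_lit 0) (nat_lit 6336082148) (nat_lit 152) (nat_lit 7608714502) (nat_lit 76) (nat_lit 35609186590) (nat_lit 8) (nat_lit 5) (nat_lit 10) (nat_lit 5) (nat_lit 9) (nat_lit 4) (nat_lit 334) (nat_lit 247) (nat_lit 199)))) (XT.nd (nat_lit 156) (nat_lit 0) (nat_lit 0) (XT.nd (nat_lit 78) (nat_lit 0) (nat_lit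 0) (XT.lf (nat_lit 0) (nat_lit 3798279840) (nat_lit 76) (nat_lit 8208089639) (nat_lit 152) (nat_lit 39829142358) (nat_lit 7) (nat_lit 5) (nat_lit 8) (nat_lit 5) (nat_lit 9) (nat_lit 4) (nat_lit 335) (nat_lit 247) (nat_lit 198)) (XT.lf (nat_lit 0) (nat_lit 15844801327) (nat_lit 76) (nat_lit 2144461185) (nat_lit 152) (nat_lit 36241001048) (nat_lit 7) (nat_lit 5) (nat_lit 8) (nat_lit 5) (nat_lit 9) (nat_lit 4) (nat_lit 336) (nat_lit 247) (nat_lit 197))) (XT.nd (nat_lit 78) (nat_lit 0) (nat_lit 0) (XT.lf (nat_lit 0) (nat_lit 24264627208) (nat_lit 152) (nat_lit 28378290460) (nat_lit 0) (nat_lit 4102053907) (nat_lit 7) (nat_lit 5) (nat_lit 9) (nat_lit 4) (nat_lit 7) (nat_lit 4) (nat_lit 337) (nat_lit 247) (nat_lit 196)) (XT.lf (nat_lit 0) (nat_lit 30830394428) (nat_lit 152) (nat_lit 17974879594) (nat_lit 0) (nat_lit 10580859569) (nat_lit 7) (nat_lit 5) (nat_lit 9) (nat_lit 4) (nat_lit 7) (nat_lit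 4) (nat_lit 338) (nat_lit 247) (nat_lit 195))))) (XT.nd (nat_lit 234) (nat_lit 76) (nat_lit 0) (XT.nd (nat_lit 78) (nat_lit 76) (nat_lit 0) (XT.lf (nat_lit 0) (nat_lit 37681583079) (nat_lit 152) (nat_lit 7129845739) (nat_lit 0) (nat_lit 17349227690) (nat_lit 7) (nat_lit 5) (nat_lit 9) (nat_lit 4) (nat_lit 7) (nat_lit 4) (nat_lit 339) (nat_lit 247) (nat_lit 194)) (XT.nd (nat_lit 78) (nat_lit 0) (nat_lit 0) (XT.lf (nat_lit 0) (nat_lit 4265875205) (nat_lit 76) (nat_lit 40609636513) (nat_lit 76) (nat_lit 20198404428) (nat_lit 6) (nat_lit 4) (nat_lit 7) (nat_lit 5) (nat_lit 7) (nat_lit 4) (nat_lit 340) (nat_lit 247) (nat_lit 193)) (XT.lf (nat_lit 0) (nat_lit 16307712142) (nat_lit 76) (nat_lit 36155240070) (nat_lit 76) (nat_lit 15668887322) (nat_lit 6) (nat_lit 4) (nat_lit 7) (nat_lit 5) (nat_lit 7) (nat_lit 4) (nat_lit 341) (nat_lit 247) (nat_lit 192)))) (XT.nd (nat_lit 156) (nat_lit 76) (nat_lit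 0) (XT.nd (nat_lit 78) (nat_lit 0) (nat_lit 0) (XT.lf (nat_lit 0) (nat_lit 28882438201) (nat_lit 76) (nat_lit 31509631246) (nat_lit 76) (nat_lit 10951735008) (nat_lit 6) (nat_lit 4) (nat_lit 7) (nat_lit 5) (nat_lit 7) (nat_lit 4) (nat_lit 342) (nat_lit 247) (nat_lit 191)) (XT.lf (nat_lit 0) (nat_lit 42019993206) (nat_lit 76) (nat_lit 26661749066) (nat_lit 76) (nat_lit 6035716172) (nat_lit 6) (nat_lit 4) (nat_lit 7) (nat_lit 5) (nat_lit 7) (nat_lit 4) (nat_lit 343) (nat_lit 247) (nat_lit 190))) (XT.nd (nat_lit 78) (nat_lit 76) (nat_lit 0) (XT.lf (nat_lit 0) (nat_lit 55751657051) (nat_lit 76) (nat_lit 21600050954) (nat_lit 76) (nat_lit 909126007) (nat_lit 6) (nat_lit 4) (nat_lit 7) (nat_lit 5) (nat_lit 7) (nat_lit 4) (nat_lit 344) (nat_lit 247) (nat_lit 189)) (XT.lf (nat_lit 0) (nat_lit 4353596545) (nat_lit 152) (nat_lit 11914925915) (nat_lit 76) (nat_lit 65712564838) (nat_lit 5) (nat_lit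 5) (nat_lit 7) (nat_lit 5) (nat_lit 6) (nat_lit 4) (nat_lit 345) (nat_lit 247) (nat_lit 188))))))))
noncomputable def xc29 : XT := (XT.nd (nat_lit 36504) (nat_lit 0) (nat_lit 1064) (XT.nd (nat_lit 1014) (nat_lit 0) (nat_lit 0) (XT.nd (nat_lit 468) (nat_lit 76) (nat_lit 0) (XT.nd (nat_lit 234) (nat_lit 0) (nat_lit 0) (XT.nd (nat_lit 78) (nat_lit 76) (nat_lit 0) (XT.lf (nat_lit 0) (nat_lit 9829497133) (nat_lit 152) (nat_lit 857706726) (nat_lit 76) (nat_lit 75200825615) (nat_lit 5) (nat_lit 5) (nat_lit 7) (nat_lit 5) (nat_lit 6) (nat_lit 4) (nat_lit 346) (nat_lit 247) (nat_lit 187)) (XT.nd (nat_lit 78) (nat_lit 0) (nat_lit 0) (XT.lf (nat_lit 0) (nat_lit 10910448540) (nat_lit 76) (nat_lit 4743783303) (nat_lit 152) (nat_lit 74333846778) (nat_lit 4) (nat_lit 5) (nat_lit 5) (nat_lit 5) (nat_lit 6) (nat_lit 4) (nat_lit 347) (nat_lit 247) (nat_lit 186)) (XT.lf (nat_lit 0) (nat_lit 21764344606) (nat_lit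 152) (nat_lit 71076305881) (nat_lit 0) (nat_lit 1452666008) (nat_lit 4) (nat_lit 5) (nat_lit 6) (nat_lit 4) (nat_lit 4) (nat_lit 4) (nat_lit 348) (nat_lit 247) (nat_lit 185)))) (XT.nd (nat_lit 78) (nat_lit 0) (nat_lit 0) (XT.lf (nat_lit 0) (nat_lit 28200068234) (nat_lit 152) (nat_lit 62774128954) (nat_lit 0) (nat_lit 7839025926) (nat_lit 4) (nat_lit 5) (nat_lit 6) (nat_lit 4) (nat_lit 4) (nat_lit 4) (nat_lit 349) (nat_lit 247) (nat_lit 184)) (XT.nd (nat_lit 78) (nat_lit 0) (nat_lit 0) (XT.lf (nat_lit 0) (nat_lit 34931125732) (nat_lit 152) (nat_lit 54105732067) (nat_lit 0) (nat_lit 14523070366) (nat_lit 4) (nat_lit 5) (nat_lit 6) (nat_lit 4) (nat_lit 4) (nat_lit 4) (nat_lit 350) (nat_lit 247) (nat_lit 183)) (XT.lf (nat_lit 0) (nat_lit 41973543428) (nat_lit 152) (nat_lit 45050476178) (nat_lit 0) (nat_lit 21520713721) (nat_lit 4) (nat_lit 5) (nat_lit 6) (nat_lit 4) (nat_lit 4) (nat_lit 4) (nat_lit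 351) (nat_lit 247) (nat_lit 182))))) (XT.nd (nat_lit 234) (nat_lit 76) (nat_lit 0) (XT.nd (nat_lit 78) (nat_lit 0) (nat_lit 0) (XT.lf (nat_lit 0) (nat_lit 49344088982) (nat_lit 152) (nat_lit 35586801155) (nat_lit 0) (nat_lit 28848617046) (nat_lit 4) (nat_lit 5) (nat_lit 6) (nat_lit 4) (nat_lit 4) (nat_lit 4) (nat_lit 352) (nat_lit 247) (nat_lit 181)) (XT.nd (nat_lit 78) (nat_lit 0) (nat_lit 0) (XT.lf (nat_lit 0) (nat_lit 57060311312) (nat_lit 152) (nat_lit 25692174439) (nat_lit 0) (nat_lit 36524227730) (nat_lit 4) (nat_lit 5) (nat_lit 6) (nat_lit 4) (nat_lit 4) (nat_lit 4) (nat_lit 353) (nat_lit 247) (nat_lit 180)) (XT.lf (nat_lit 0) (nat_lit 65140582377) (nat_lit 152) (nat_lit 15343037394) (nat_lit 0) (nat_lit 44565821036) (nat_lit 4) (nat_lit 5) (nat_lit 6) (nat_lit 4) (nat_lit 4) (nat_lit 4) (nat_lit 354) (nat_lit 247) (nat_lit 179)))) (XT.nd (nat_lit 156) (nat_lit 0) (nat_lit 0) (XT.nd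 (nat_lit 78) (nat_lit 76) (nat_lit 0) (XT.lf (nat_lit 0) (nat_lit 73604140917) (nat_lit 152) (nat_lit 4514749218) (nat_lit 0) (nat_lit 52992543615) (nat_lit 4) (nat_lit 5) (nat_lit 6) (nat_lit 4) (nat_lit 4) (nat_lit 4) (nat_lit 355) (nat_lit 247) (nat_lit 178)) (XT.lf (nat_lit 0) (nat_lit 6954172683) (nat_lit 76) (nat_lit 75583813341) (nat_lit 76) (nat_lit 54937134171) (nat_lit 3) (nat_lit 4) (nat_lit 4) (nat_lit 5) (nat_lit 4) (nat_lit 4) (nat_lit 356) (nat_lit 247) (nat_lit 177))) (XT.nd (nat_lit 78) (nat_lit 0) (nat_lit 0) (XT.lf (nat_lit 0) (nat_lit 19055449761) (nat_lit 76) (nat_lit 72890409190) (nat_lit 76) (nat_lit 52210318718) (nat_lit 3) (nat_lit 4) (nat_lit 4) (nat_lit 5) (nat_lit 4) (nat_lit 4) (nat_lit 357) (nat_lit 247) (nat_lit 176)) (XT.lf (nat_lit 0) (nat_lit 31728042215) (nat_lit 76) (nat_lit 70077854931) (nat_lit 76) (nat_lit 49365944172) (nat_lit 3) (nat_lit 4) (nat_lit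 4) (nat_lit 5) (nat_lit 4) (nat_lit 4) (nat_lit 358) (nat_lit 247) (nat_lit 175)))))) (XT.nd (nat_lit 34944) (nat_lit 0) (nat_lit 5244) (XT.nd (nat_lit 234) (nat_lit 0) (nat_lit 0) (XT.nd (nat_lit 78) (nat_lit 0) (nat_lit 0) (XT.lf (nat_lit 0) (nat_lit 45002122887) (nat_lit 76) (nat_lit 67139454007) (nat_lit 76) (nat_lit 46397238211) (nat_lit 3) (nat_lit 4) (nat_lit 4) (nat_lit 5) (nat_lit 4) (nat_lit 4) (nat_lit 359) (nat_lit 247) (nat_lit 174)) (XT.nd (nat_lit 78) (nat_lit 0) (nat_lit 0) (XT.lf (nat_lit 0) (nat_lit 58909296729) (nat_lit 76) (nat_lit 64068210225) (nat_lit 76) (nat_lit 43297132490) (nat_lit 3) (nat_lit 4) (nat_lit 4) (nat_lit 5) (nat_lit 4) (nat_lit 4) (nat_lit 360) (nat_lit 247) (nat_lit 173)) (XT.lf (nat_lit 0) (nat_lit 73482676060) (nat_lit 76) (nat_lit 60856811099) (nat_lit 76) (nat_lit 40058245804) (nat_lit 3) (nat_lit 4) (nat_lit 4) (nat_lit 5) (nat_lit 4) (nat_lit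 4) (nat_lit 361) (nat_lit 247) (nat_lit 172)))) (XT.nd (nat_lit 34554) (nat_lit 0) (nat_lit 7828) (XT.lf (nat_lit 0) (nat_lit 88756959403) (nat_lit 76) (nat_lit 57497610442) (nat_lit 76) (nat_lit 36672866517) (nat_lit 3) (nat_lit 4) (nat_lit 4) (nat_lit 5) (nat_lit 4) (nat_lit 4) (nat_lit 362) (nat_lit 247) (nat_lit 171)) (XT.nd (nat_lit 78) (nat_lit 380) (nat_lit 0) (XT.lf (nat_lit 0) (nat_lit 129894128) (nat_lit 456) (nat_lit 3918159441) (nat_lit 0) (nat_lit 129894128) (nat_lit 111) (nat_lit 5) (nat_lit 117) (nat_lit 4) (nat_lit 111) (nat_lit 4) (nat_lit 284) (nat_lit 248) (nat_lit 248)) (XT.lf (nat_lit 0) (nat_lit 1710430798) (nat_lit 380) (nat_lit 4319679302) (nat_lit 380) (nat_lit 2502475310) (nat_lit 106) (nat_lit 4) (nat_lit 111) (nat_lit 5) (nat_lit 111) (nat_lit 4) (nat_lit 285) (nat_lit 248) (nat_lit 247))))) (XT.nd (nat_lit 234) (nat_lit 1368) (nat_lit 0) (XT.nd (nat_lit 78) (nat_lit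 760) (nat_lit 0) (XT.lf (nat_lit 0) (nat_lit 2882253585) (nat_lit 380) (nat_lit 285297176) (nat_lit 456) (nat_lit 5554053062) (nat_lit 100) (nat_lit 5) (nat_lit 105) (nat_lit 5) (nat_lit 106) (nat_lit 4) (nat_lit 286) (nat_lit 248) (nat_lit 246)) (XT.nd (nat_lit 78) (nat_lit 304) (nat_lit 0) (XT.lf (nat_lit 0) (nat_lit 54892518) (nat_lit 456) (nat_lit 4933356585) (nat_lit 76) (nat_lit 3934117701) (nat_lit 94) (nat_lit 5) (nat_lit 100) (nat_lit 5) (nat_lit 95) (nat_lit 4) (nat_lit 287) (nat_lit 248) (nat_lit 245)) (XT.lf (nat_lit 0) (nat_lit 5021327743) (nat_lit 304) (nat_lit 688112573) (nat_lit 380) (nat_lit 3425977258) (nat_lit 90) (nat_lit 5) (nat_lit 94) (nat_lit 5) (nat_lit 95) (nat_lit 4) (nat_lit 288) (nat_lit 248) (nat_lit 244)))) (XT.nd (nat_lit 156) (nat_lit 608) (nat_lit 0) (XT.nd (nat_lit 78) (nat_lit 304) (nat_lit 0) (XT.lf (nat_lit 0) (nat_lit 2161929430) (nat_lit 456) (nat_lit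 3397992091) (nat_lit 76) (nat_lit 3801247836) (nat_lit 84) (nat_lit 5) (nat_lit 90) (nat_lit 5) (nat_lit 85) (nat_lit 4) (nat_lit 289) (nat_lit 248) (nat_lit 243)) (XT.lf (nat_lit 0) (nat_lit 6814998696) (nat_lit 304) (nat_lit 1039090427) (nat_lit 380) (nat_lit 1746494806) (nat_lit 80) (nat_lit 5) (nat_lit 84) (nat_lit 5) (nat_lit 85) (nat_lit 4) (nat_lit 290) (nat_lit 248) (nat_lit 242))) (XT.nd (nat_lit 78) (nat_lit 228) (nat_lit 0) (XT.lf (nat_lit 0) (nat_lit 3830563563) (nat_lit 380) (nat_lit 2327826263) (nat_lit 76) (nat_lit 3694796699) (nat_lit 75) (nat_lit 5) (nat_lit 80) (nat_lit 5) (nat_lit 76) (nat_lit 4) (nat_lit 291) (nat_lit 248) (nat_lit 241)) (XT.lf (nat_lit 0) (nat_lit 8120668835) (nat_lit 228) (nat_lit 1439134873) (nat_lit 304) (nat_lit 561045950) (nat_lit 72) (nat_lit 5) (nat_lit 75) (nat_lit 5) (nat_lit 76) (nat_lit 4) (nat_lit 292) (nat_lit 248) (nat_lit 240))))))) (XT.nd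 (nat_lit 1014) (nat_lit 1292) (nat_lit 0) (XT.nd (nat_lit 468) (nat_lit 1292) (nat_lit 0) (XT.nd (nat_lit 234) (nat_lit 684) (nat_lit 0) (XT.nd (nat_lit 78) (nat_lit 532) (nat_lit 0) (XT.lf (nat_lit 0) (nat_lit 5010066359) (nat_lit 380) (nat_lit 1879386580) (nat_lit 76) (nat_lit 3513043795) (nat_lit 67) (nat_lit 5) (nat_lit 72) (nat_lit 5) (nat_lit 68) (nat_lit 4) (nat_lit 293) (nat_lit 248) (nat_lit 239)) (XT.nd (nat_lit 78) (nat_lit 228) (nat_lit 0) (XT.lf (nat_lit 0) (nat_lit 68459559) (nat_lit 304) (nat_lit 1927901268) (nat_lit 76) (nat_lit 8704214814) (nat_lit 63) (nat_lit 5) (nat_lit 67) (nat_lit 5) (nat_lit 64) (nat_lit 5) (nat_lit 294) (nat_lit 248) (nat_lit 238)) (XT.lf (nat_lit 0) (nat_lit 5634080418) (nat_lit 304) (nat_lit 2234451337) (nat_lit 76) (nat_lit 3145318149) (nat_lit 60) (nat_lit 5) (nat_lit 64) (nat_lit 5) (nat_lit 61) (nat_lit 4) (nat_lit 295) (nat_lit 248) (nat_lit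 237)))) (XT.nd (nat_lit 78) (nat_lit 380) (nat_lit 0) (XT.lf (nat_lit 0) (nat_lit 67083129) (nat_lit 304) (nat_lit 2764653984) (nat_lit 76) (nat_lit 8513151127) (nat_lit 56) (nat_lit 5) (nat_lit 60) (nat_lit 5) (nat_lit 57) (nat_lit 5) (nat_lit 296) (nat_lit 248) (nat_lit 236)) (XT.nd (nat_lit 78) (nat_lit 152) (nat_lit 0) (XT.lf (nat_lit 0) (nat_lit 5618419881) (nat_lit 304) (nat_lit 3605290422) (nat_lit 76) (nat_lit 2469034950) (nat_lit 53) (nat_lit 5) (nat_lit 57) (nat_lit 5) (nat_lit 54) (nat_lit 4) (nat_lit 297) (nat_lit 248) (nat_lit 235)) (XT.lf (nat_lit 0) (nat_lit 7318343854) (nat_lit 152) (nat_lit 4078755629) (nat_lit 228) (nat_lit 662561220) (nat_lit 51) (nat_lit 5) (nat_lit 53) (nat_lit 5) (nat_lit 54) (nat_lit 4) (nat_lit 298) (nat_lit 248) (nat_lit 234))))) (XT.nd (nat_lit 234) (nat_lit 532) (nat_lit 0) (XT.nd (nat_lit 78) (nat_lit 456) (nat_lit 0) (XT.lf (nat_lit 0) (nat_lit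 4858417282) (nat_lit 304) (nat_lit 6240734062) (nat_lit 76) (nat_lit 1346372469) (nat_lit 47) (nat_lit 5) (nat_lit 51) (nat_lit 5) (nat_lit 48) (nat_lit 4) (nat_lit 299) (nat_lit 248) (nat_lit 233)) (XT.nd (nat_lit 78) (nat_lit 304) (nat_lit 0) (XT.lf (nat_lit 0) (nat_lit 4721443802) (nat_lit 152) (nat_lit 5887173572) (nat_lit 228) (nat_lit 2242999541) (nat_lit 45) (nat_lit 5) (nat_lit 47) (nat_lit 5) (nat_lit 48) (nat_lit 4) (nat_lit 300) (nat_lit 248) (nat_lit 232)) (XT.lf (nat_lit 0) (nat_lit 2842424136) (nat_lit 228) (nat_lit 387043836) (nat_lit 304) (nat_lit 10049898219) (nat_lit 41) (nat_lit 5) (nat_lit 44) (nat_lit 5) (nat_lit 45) (nat_lit 5) (nat_lit 301) (nat_lit 248) (nat_lit 231)))) (XT.nd (nat_lit 156) (nat_lit 304) (nat_lit 0) (XT.nd (nat_lit 78) (nat_lit 76) (nat_lit 0) (XT.lf (nat_lit 0) (nat_lit 479215190) (nat_lit 152) (nat_lit 8430429830) (nat_lit 228) (nat_lit 4818900626)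 (nat_lit 39) (nat_lit 5) (nat_lit 41) (nat_lit 5) (nat_lit 42) (nat_lit 4) (nat_lit 302) (nat_lit 248) (nat_lit 230)) (XT.lf (nat_lit 0) (nat_lit 615587044) (nat_lit 228) (nat_lit 2307277865) (nat_lit 76) (nat_lit 11278586251) (nat_lit 38) (nat_lit 5) (nat_lit 41) (nat_lit 5) (nat_lit 39) (nat_lit 5) (nat_lit 303) (nat_lit 248) (nat_lit 229))) (XT.nd (nat_lit 78) (nat_lit 152) (nat_lit 0) (XT.lf (nat_lit 0) (nat_lit 6188276149) (nat_lit 228) (nat_lit 5662190902) (nat_lit 76) (nat_lit 2847227851) (nat_lit 36) (nat_lit 5) (nat_lit 39) (nat_lit 5) (nat_lit 37) (nat_lit 4) (nat_lit 304) (nat_lit 248) (nat_lit 228)) (XT.lf (nat_lit 0) (nat_lit 5613032508) (nat_lit 152) (nat_lit 6388115951) (nat_lit 228) (nat_lit 3218859234) (nat_lit 34) (nat_lit 5) (nat_lit 36) (nat_lit 5) (nat_lit 37) (nat_lit 4) (nat_lit 305) (nat_lit 248) (nat_lit 227)))))) (XT.nd (nat_lit 546) (nat_lit 380) (nat_lit 0) (XT.nd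 (nat_lit 234) (nat_lit 532) (nat_lit 0) (XT.nd (nat_lit 78) (nat_lit 152) (nat_lit 0) (XT.lf (nat_lit 0) (nat_lit 1572960525) (nat_lit 152) (nat_lit 648959041) (nat_lit 228) (nat_lit 13547999992) (nat_lit 31) (nat_lit 5) (nat_lit 33) (nat_lit 5) (nat_lit 34) (nat_lit 5) (nat_lit 306) (nat_lit 248) (nat_lit 226)) (XT.nd (nat_lit 78) (nat_lit 152) (nat_lit 0) (XT.lf (nat_lit 0) (nat_lit 7881315415) (nat_lit 228) (nat_lit 3151723029) (nat_lit 76) (nat_lit 5313028991) (nat_lit 31) (nat_lit 5) (nat_lit 34) (nat_lit 5) (nat_lit 32) (nat_lit 4) (nat_lit 307) (nat_lit 248) (nat_lit 225)) (XT.lf (nat_lit 0) (nat_lit 8379056898) (nat_lit 152) (nat_lit 5399306705) (nat_lit 228) (nat_lit 3174105283) (nat_lit 29) (nat_lit 5) (nat_lit 31) (nat_lit 5) (nat_lit 32) (nat_lit 4) (nat_lit 308) (nat_lit 248) (nat_lit 224)))) (XT.nd (nat_lit 156) (nat_lit 304) (nat_lit 0) (XT.nd (nat_lit 78) (nat_lit 0) (nat_lit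 0) (XT.lf (nat_lit 0) (nat_lit 2269413421) (nat_lit 228) (nat_lit 14820552770) (nat_lit 76) (nat_lit 500573603) (nat_lit 26) (nat_lit 5) (nat_lit 29) (nat_lit 5) (nat_lit 27) (nat_lit 4) (nat_lit 309) (nat_lit 248) (nat_lit 223)) (XT.lf (nat_lit 0) (nat_lit 7937421223) (nat_lit 228) (nat_lit 3702166520) (nat_lit 76) (nat_lit 6619521256) (nat_lit 26) (nat_lit 5) (nat_lit 29) (nat_lit 5) (nat_lit 27) (nat_lit 4) (nat_lit 310) (nat_lit 248) (nat_lit 222))) (XT.nd (nat_lit 78) (nat_lit 228) (nat_lit 0) (XT.lf (nat_lit 0) (nat_lit 7920401573) (nat_lit 76) (nat_lit 5924299072) (nat_lit 152) (nat_lit 5117802559) (nat_lit 25) (nat_lit 5) (nat_lit 26) (nat_lit 5) (nat_lit 27) (nat_lit 4) (nat_lit 311) (nat_lit 248) (nat_lit 221)) (XT.lf (nat_lit 0) (nat_lit 263577883) (nat_lit 228) (nat_lit 19402770374) (nat_lit 76) (nat_lit 36964458) (nat_lit 22) (nat_lit 5) (nat_lit 25) (nat_lit 5) (nat_lit 23)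 (nat_lit 4) (nat_lit 312) (nat_lit 248) (nat_lit 220))))) (XT.nd (nat_lit 234) (nat_lit 304) (nat_lit 0) (XT.nd (nat_lit 78) (nat_lit 76) (nat_lit 0) (XT.lf (nat_lit 0) (nat_lit 5868984699) (nat_lit 228) (nat_lit 8348924214) (nat_lit 76) (nat_lit 6259973610) (nat_lit 22) (nat_lit 5) (nat_lit 25) (nat_lit 5) (nat_lit 23) (nat_lit 4) (nat_lit 313) (nat_lit 248) (nat_lit 219)) (XT.nd (nat_lit 78) (nat_lit 0) (nat_lit 0) (XT.lf (nat_lit 0) (nat_lit 3128508929) (nat_lit 76) (nat_lit 8546919344) (nat_lit 152) (nat_lit 9618190507) (nat_lit 21) (nat_lit 5) (nat_lit 22) (nat_lit 5) (nat_lit 23) (nat_lit 4) (nat_lit 314) (nat_lit 248) (nat_lit 218)) (XT.lf (nat_lit 0) (nat_lit 15169578609) (nat_lit 76) (nat_lit 2582683102) (nat_lit 152) (nat_lit 4398536156) (nat_lit 21) (nat_lit 5) (nat_lit 22) (nat_lit 5) (nat_lit 23) (nat_lit 4) (nat_lit 315) (nat_lit 248) (nat_lit 217)))) (XT.nd (nat_lit 156) (nat_lit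 76) (nat_lit 0) (XT.nd (nat_lit 78) (nat_lit 0) (nat_lit 0) (XT.lf (nat_lit 0) (nat_lit 1039122834) (nat_lit 228) (nat_lit 18422980554) (nat_lit 76) (nat_lit 3589130013) (nat_lit 18) (nat_lit 5) (nat_lit 21) (nat_lit 5) (nat_lit 19) (nat_lit 4) (nat_lit 316) (nat_lit 248) (nat_lit 216)) (XT.lf (nat_lit 0) (nat_lit 6657775433) (nat_lit 228) (nat_lit 7276809941) (nat_lit 76) (nat_lit 10060847586) (nat_lit 18) (nat_lit 5) (nat_lit 21) (nat_lit 5) (nat_lit 19) (nat_lit 4) (nat_lit 317) (nat_lit 248) (nat_lit 215))) (XT.nd (nat_lit 78) (nat_lit 0) (nat_lit 0) (XT.lf (nat_lit 0) (nat_lit 4344604244) (nat_lit 76) (nat_lit 8159842106) (nat_lit 152) (nat_lit 12484032262) (nat_lit 17) (nat_lit 5) (nat_lit 18) (nat_lit 5) (nat_lit 19) (nat_lit 4) (nat_lit 318) (nat_lit 248) (nat_lit 214)) (XT.lf (nat_lit 0) (nat_lit 16537091775) (nat_lit 76) (nat_lit 2089540680) (nat_lit 152) (nat_lit 7405095008) (nat_lit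 17) (nat_lit 5) (nat_lit 18) (nat_lit 5) (nat_lit 19) (nat_lit 4) (nat_lit 319) (nat_lit 248) (nat_lit 213))))))))
noncomputable def xc30 : XT := (XT.nd (nat_lit 2028) (nat_lit 152) (nat_lit 0) (XT.nd (nat_lit 1014) (nat_lit 304) (nat_lit 0) (XT.nd (nat_lit 468) (nat_lit 228) (nat_lit 0) (XT.nd (nat_lit 234) (nat_lit 152) (nat_lit 0) (XT.nd (nat_lit 78) (nat_lit 76) (nat_lit 0) (XT.lf (nat_lit 0) (nat_lit 2054609576) (nat_lit 152) (nat_lit 22973248873) (nat_lit 152) (nat_lit 2100136548) (nat_lit 15) (nat_lit 4) (nat_lit 17) (nat_lit 5) (nat_lit 17) (nat_lit 4) (nat_lit 320) (nat_lit 248) (nat_lit 212)) (XT.nd (nat_lit 78) (nat_lit 0) (nat_lit 0) (XT.lf (nat_lit 0) (nat_lit 3435995558) (nat_lit 228) (nat_lit 14105469526) (nat_lit 76) (nat_lit 10735641783) (nat_lit 14) (nat_lit 5) (nat_lit 17) (nat_lit 5) (nat_lit 15) (nat_lit 4) (nat_lit 321) (nat_lit 248) (nat_lit 211)) (XT.lf (nat_lit 0)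 (nat_lit 9123849160) (nat_lit 228) (nat_lit 2756677369) (nat_lit 76) (nat_lit 17605012418) (nat_lit 14) (nat_lit 5) (nat_lit 17) (nat_lit 5) (nat_lit 15) (nat_lit 4) (nat_lit 322) (nat_lit 248) (nat_lit 210)))) (XT.nd (nat_lit 78) (nat_lit 76) (nat_lit 0) (XT.lf (nat_lit 0) (nat_lit 9199719443) (nat_lit 76) (nat_lit 5906661880) (nat_lit 152) (nat_lit 15647739764) (nat_lit 13) (nat_lit 5) (nat_lit 14) (nat_lit 5) (nat_lit 15) (nat_lit 4) (nat_lit 323) (nat_lit 248) (nat_lit 209)) (XT.nd (nat_lit 78) (nat_lit 76) (nat_lit 0) (XT.lf (nat_lit 0) (nat_lit 21343915306) (nat_lit 152) (nat_lit 10414630551) (nat_lit 0) (nat_lit 328945491) (nat_lit 13) (nat_lit 5) (nat_lit 15) (nat_lit 4) (nat_lit 13) (nat_lit 4) (nat_lit 324) (nat_lit 248) (nat_lit 208)) (XT.lf (nat_lit 0) (nat_lit 1113677968) (nat_lit 76) (nat_lit 26777303571) (nat_lit 76) (nat_lit 5596652511) (nat_lit 12) (nat_lit 4) (nat_lit 13)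 (nat_lit 5) (nat_lit 13) (nat_lit 4) (nat_lit 325) (nat_lit 248) (nat_lit 207))))) (XT.nd (nat_lit 234) (nat_lit 76) (nat_lit 0) (XT.nd (nat_lit 78) (nat_lit 152) (nat_lit 0) (XT.lf (nat_lit 0) (nat_lit 13309214074) (nat_lit 76) (nat_lit 21492970510) (nat_lit 76) (nat_lit 154527788) (nat_lit 12) (nat_lit 4) (nat_lit 13) (nat_lit 5) (nat_lit 13) (nat_lit 4) (nat_lit 326) (nat_lit 248) (nat_lit 206)) (XT.nd (nat_lit 78) (nat_lit 76) (nat_lit 0) (XT.lf (nat_lit 0) (nat_lit 5383447063) (nat_lit 152) (nat_lit 10560322955) (nat_lit 76) (nat_lit 20555933863) (nat_lit 11) (nat_lit 5) (nat_lit 13) (nat_lit 5) (nat_lit 12) (nat_lit 4) (nat_lit 327) (nat_lit 248) (nat_lit 205)) (XT.lf (nat_lit 0) (nat_lit 982478340) (nat_lit 76) (nat_lit 10157581030) (nat_lit 152) (nat_lit 26981419831) (nat_lit 10) (nat_lit 5) (nat_lit 11) (nat_lit 5) (nat_lit 12) (nat_lit 4) (nat_lit 328) (nat_lit 248) (nat_lit 204))))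 (XT.nd (nat_lit 156) (nat_lit 76) (nat_lit 0) (XT.nd (nat_lit 78) (nat_lit 0) (nat_lit 0) (XT.lf (nat_lit 0) (nat_lit 13210089572) (nat_lit 76) (nat_lit 4020569602) (nat_lit 152) (nat_lit 22592326238) (nat_lit 10) (nat_lit 5) (nat_lit 11) (nat_lit 5) (nat_lit 12) (nat_lit 4) (nat_lit 329) (nat_lit 248) (nat_lit 203)) (XT.lf (nat_lit 0) (nat_lit 23589047562) (nat_lit 152) (nat_lit 15692758967) (nat_lit 0) (nat_lit 2328888199) (nat_lit 10) (nat_lit 5) (nat_lit 12) (nat_lit 4) (nat_lit 10) (nat_lit 4) (nat_lit 330) (nat_lit 248) (nat_lit 202))) (XT.nd (nat_lit 78) (nat_lit 76) (nat_lit 0) (XT.lf (nat_lit 0) (nat_lit 30248759214) (nat_lit 152) (nat_lit 4370985576) (nat_lit 0) (nat_lit 8868566942) (nat_lit 10) (nat_lit 5) (nat_lit 12) (nat_lit 4) (nat_lit 10) (nat_lit 4) (nat_lit 331) (nat_lit 248) (nat_lit 201)) (XT.lf (nat_lit 0) (nat_lit 7565662434) (nat_lit 76) (nat_lit 29694065753) (nat_lit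 76) (nat_lit 8199556425) (nat_lit 9) (nat_lit 4) (nat_lit 10) (nat_lit 5) (nat_lit 10) (nat_lit 4) (nat_lit 332) (nat_lit 248) (nat_lit 200)))))) (XT.nd (nat_lit 468) (nat_lit 152) (nat_lit 0) (XT.nd (nat_lit 234) (nat_lit 76) (nat_lit 0) (XT.nd (nat_lit 78) (nat_lit 76) (nat_lit 0) (XT.lf (nat_lit 0) (nat_lit 20094469654) (nat_lit 76) (nat_lit 24518987461) (nat_lit 76) (nat_lit 2915604747) (nat_lit 9) (nat_lit 4) (nat_lit 10) (nat_lit 5) (nat_lit 10) (nat_lit 4) (nat_lit 333) (nat_lit 248) (nat_lit 199)) (XT.nd (nat_lit 78) (nat_lit 0) (nat_lit 0) (XT.lf (nat_lit 0) (nat_lit 2530385337) (nat_lit 152) (nat_lit 16570389418) (nat_lit 76) (nat_lit 30602338126) (nat_lit 8) (nat_lit 5) (nat_lit 10) (nat_lit 5) (nat_lit 9) (nat_lit 4) (nat_lit 334) (nat_lit 248) (nat_lit 198)) (XT.lf (nat_lit 0) (nat_lit 8140566040) (nat_lit 152) (nat_lit 5280473961) (nat_lit 76) (nat_lit 38565414157) (nat_lit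 8) (nat_lit 5) (nat_lit 10) (nat_lit 5) (nat_lit 9) (nat_lit 4) (nat_lit 335) (nat_lit 248) (nat_lit 197)))) (XT.nd (nat_lit 78) (nat_lit 0) (nat_lit 0) (XT.lf (nat_lit 0) (nat_lit 6619226436) (nat_lit 76) (nat_lit 7429590502) (nat_lit 152) (nat_lit 40334637240) (nat_lit 7) (nat_lit 5) (nat_lit 8) (nat_lit 5) (nat_lit 9) (nat_lit 4) (nat_lit 336) (nat_lit 248) (nat_lit 196)) (XT.nd (nat_lit 78) (nat_lit 0) (nat_lit 0) (XT.lf (nat_lit 0) (nat_lit 19142786731) (nat_lit 76) (nat_lit 1119395083) (nat_lit 152) (nat_lit 36637848972) (nat_lit 7) (nat_lit 5) (nat_lit 8) (nat_lit 5) (nat_lit 9) (nat_lit 4) (nat_lit 337) (nat_lit 248) (nat_lit 195)) (XT.lf (nat_lit 0) (nat_lit 26796278027) (nat_lit 152) (nat_lit 27381388760) (nat_lit 0) (nat_lit 5364484337) (nat_lit 7) (nat_lit 5) (nat_lit 9) (nat_lit 4) (nat_lit 7) (nat_lit 4) (nat_lit 338) (nat_lit 248) (nat_lit 194))))) (XT.nd (nat_lit 234) (nat_lit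 76) (nat_lit 0) (XT.nd (nat_lit 78) (nat_lit 76) (nat_lit 0) (XT.lf (nat_lit 0) (nat_lit 33627551729) (nat_lit 152) (nat_lit 16572846219) (nat_lit 0) (nat_lit 12116881343) (nat_lit 7) (nat_lit 5) (nat_lit 9) (nat_lit 4) (nat_lit 7) (nat_lit 4) (nat_lit 339) (nat_lit 248) (nat_lit 193)) (XT.nd (nat_lit 78) (nat_lit 76) (nat_lit 0) (XT.lf (nat_lit 0) (nat_lit 40761507548) (nat_lit 152) (nat_lit 5295121497) (nat_lit 0) (nat_lit 19175716498) (nat_lit 7) (nat_lit 5) (nat_lit 9) (nat_lit 4) (nat_lit 7) (nat_lit 4) (nat_lit 340) (nat_lit 248) (nat_lit 192)) (XT.lf (nat_lit 0) (nat_lit 6607574712) (nat_lit 76) (nat_lit 41671072430) (nat_lit 76) (nat_lit 20013737892) (nat_lit 6) (nat_lit 4) (nat_lit 7) (nat_lit 5) (nat_lit 7) (nat_lit 4) (nat_lit 341) (nat_lit 248) (nat_lit 191)))) (XT.nd (nat_lit 156) (nat_lit 76) (nat_lit 0) (XT.nd (nat_lit 78) (nat_lit 0) (nat_lit 0) (XT.lf (nat_lit 0) (nat_lit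 19150150841) (nat_lit 76) (nat_lit 37040101208) (nat_lit 76) (nat_lit 15314630014) (nat_lit 6) (nat_lit 4) (nat_lit 7) (nat_lit 5) (nat_lit 7) (nat_lit 4) (nat_lit 342) (nat_lit 248) (nat_lit 190)) (XT.lf (nat_lit 0) (nat_lit 32257086865) (nat_lit 76) (nat_lit 32206159603) (nat_lit 76) (nat_lit 10415796355) (nat_lit 6) (nat_lit 4) (nat_lit 7) (nat_lit 5) (nat_lit 7) (nat_lit 4) (nat_lit 343) (nat_lit 248) (nat_lit 189))) (XT.nd (nat_lit 78) (nat_lit 76) (nat_lit 0) (XT.lf (nat_lit 0) (nat_lit 45959589775) (nat_lit 76) (nat_lit 27157738228) (nat_lit 76) (nat_lit 5305573025) (nat_lit 6) (nat_lit 4) (nat_lit 7) (nat_lit 5) (nat_lit 7) (nat_lit 4) (nat_lit 344) (nat_lit 248) (nat_lit 188)) (XT.lf (nat_lit 0) (nat_lit 27656749) (nat_lit 152) (nat_lit 21854881006) (nat_lit 76) (nat_lit 60262348549) (nat_lit 5) (nat_lit 5) (nat_lit 7) (nat_lit 5) (nat_lit 6) (nat_lit 4) (nat_lit 345) (nat_lit 248)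 (nat_lit 187))))))) (XT.nd (nat_lit 1014) (nat_lit 0) (nat_lit 0) (XT.nd (nat_lit 468) (nat_lit 76) (nat_lit 0) (XT.nd (nat_lit 234) (nat_lit 0) (nat_lit 0) (XT.nd (nat_lit 78) (nat_lit 76) (nat_lit 0) (XT.lf (nat_lit 0) (nat_lit 5489001819) (nat_lit 152) (nat_lit 10824406710) (nat_lit 76) (nat_lit 69738862001) (nat_lit 5) (nat_lit 5) (nat_lit 7) (nat_lit 5) (nat_lit 6) (nat_lit 4) (nat_lit 346) (nat_lit 248) (nat_lit 186)) (XT.nd (nat_lit 78) (nat_lit 0) (nat_lit 0) (XT.lf (nat_lit 0) (nat_lit 719413428) (nat_lit 76) (nat_lit 10482498239) (nat_lit 152) (nat_lit 78953767882) (nat_lit 4) (nat_lit 5) (nat_lit 5) (nat_lit 5) (nat_lit 6) (nat_lit 4) (nat_lit 347) (nat_lit 248) (nat_lit 185)) (XT.lf (nat_lit 0) (nat_lit 13015903385) (nat_lit 76) (nat_lit 4268439109) (nat_lit 152) (nat_lit 77177410269) (nat_lit 4) (nat_lit 5) (nat_lit 5) (nat_lit 5) (nat_lit 6) (nat_lit 4) (nat_lit 348) (nat_lit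 248) (nat_lit 184)))) (XT.nd (nat_lit 78) (nat_lit 0) (nat_lit 0) (XT.lf (nat_lit 0) (nat_lit 23666131707) (nat_lit 152) (nat_lit 73126489841) (nat_lit 0) (nat_lit 2190660516) (nat_lit 4) (nat_lit 5) (nat_lit 6) (nat_lit 4) (nat_lit 4) (nat_lit 4) (nat_lit 349) (nat_lit 248) (nat_lit 183)) (XT.nd (nat_lit 78) (nat_lit 0) (nat_lit 0) (XT.lf (nat_lit 0) (nat_lit 30384900095) (nat_lit 152) (nat_lit 64480805560) (nat_lit 0) (nat_lit 8864654562) (nat_lit 4) (nat_lit 5) (nat_lit 6) (nat_lit 4) (nat_lit 4) (nat_lit 4) (nat_lit 350) (nat_lit 248) (nat_lit 182)) (XT.lf (nat_lit 0) (nat_lit 37415613875) (nat_lit 152) (nat_lit 55447180725) (nat_lit 0) (nat_lit 15852726113) (nat_lit 4) (nat_lit 5) (nat_lit 6) (nat_lit 4) (nat_lit 4) (nat_lit 4) (nat_lit 351) (nat_lit 248) (nat_lit 181))))) (XT.nd (nat_lit 234) (nat_lit 76) (nat_lit 0) (XT.nd (nat_lit 78) (nat_lit 0) (nat_lit 0) (XT.lf (nat_lit 0) (nat_lit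 44775012843) (nat_lit 152) (nat_lit 46004106706) (nat_lit 0) (nat_lit 23171513435) (nat_lit 4) (nat_lit 5) (nat_lit 6) (nat_lit 4) (nat_lit 4) (nat_lit 4) (nat_lit 352) (nat_lit 248) (nat_lit 180)) (XT.nd (nat_lit 78) (nat_lit 0) (nat_lit 0) (XT.lf (nat_lit 0) (nat_lit 52480619377) (nat_lit 152) (nat_lit 36129099994) (nat_lit 0) (nat_lit 30838442210) (nat_lit 4) (nat_lit 5) (nat_lit 6) (nat_lit 4) (nat_lit 4) (nat_lit 4) (nat_lit 353) (nat_lit 248) (nat_lit 179)) (XT.lf (nat_lit 0) (nat_lit 60550780160) (nat_lit 152) (nat_lit 25798648666) (nat_lit 0) (nat_lit 38871767032) (nat_lit 4) (nat_lit 5) (nat_lit 6) (nat_lit 4) (nat_lit 4) (nat_lit 4) (nat_lit 354) (nat_lit 248) (nat_lit 178)))) (XT.nd (nat_lit 156) (nat_lit 76) (nat_lit 0) (XT.nd (nat_lit 78) (nat_lit 0) (nat_lit 0) (XT.lf (nat_lit 0) (nat_lit 69004709860) (nat_lit 152) (nat_lit 14988156412) (nat_lit 0) (nat_lit 47290614865) (nat_lit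 4) (nat_lit 5) (nat_lit 6) (nat_lit 4) (nat_lit 4) (nat_lit 4) (nat_lit 355) (nat_lit 248) (nat_lit 177)) (XT.lf (nat_lit 0) (nat_lit 77862536881) (nat_lit 152) (nat_lit 3671883963) (nat_lit 0) (nat_lit 56115030584) (nat_lit 4) (nat_lit 5) (nat_lit 6) (nat_lit 4) (nat_lit 4) (nat_lit 4) (nat_lit 356) (nat_lit 248) (nat_lit 176))) (XT.nd (nat_lit 78) (nat_lit 0) (nat_lit 0) (XT.lf (nat_lit 0) (nat_lit 8339852751) (nat_lit 76) (nat_lit 78885666302) (nat_lit 76) (nat_lit 57106339717) (nat_lit 3) (nat_lit 4) (nat_lit 4) (nat_lit 5) (nat_lit 4) (nat_lit 4) (nat_lit 357) (nat_lit 248) (nat_lit 175)) (XT.lf (nat_lit 0) (nat_lit 20996766472) (nat_lit 76) (nat_lit 76080322311) (nat_lit 76) (nat_lit 54270690689) (nat_lit 3) (nat_lit 4) (nat_lit 4) (nat_lit 5) (nat_lit 4) (nat_lit 4) (nat_lit 358) (nat_lit 248) (nat_lit 174)))))) (XT.nd (nat_lit 34866) (nat_lit 0) (nat_lit 5472) (XT.nd (nat_lit 234)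 (nat_lit 0) (nat_lit 0) (XT.nd (nat_lit 78) (nat_lit 0) (nat_lit 0) (XT.lf (nat_lit 0) (nat_lit 34255915015) (nat_lit 76) (nat_lit 73148788308) (nat_lit 76) (nat_lit 51310294747) (nat_lit 3) (nat_lit 4) (nat_lit 4) (nat_lit 5) (nat_lit 4) (nat_lit 4) (nat_lit 359) (nat_lit 248) (nat_lit 173)) (XT.nd (nat_lit 78) (nat_lit 0) (nat_lit 0) (XT.lf (nat_lit 0) (nat_lit 48148867782) (nat_lit 76) (nat_lit 70084084450) (nat_lit 76) (nat_lit 48218103329) (nat_lit 3) (nat_lit 4) (nat_lit 4) (nat_lit 5) (nat_lit 4) (nat_lit 4) (nat_lit 360) (nat_lit 248) (nat_lit 172)) (XT.lf (nat_lit 0) (nat_lit 62708703233) (nat_lit 76) (nat_lit 66878913825) (nat_lit 76) (nat_lit 44986754073) (nat_lit 3) (nat_lit 4) (nat_lit 4) (nat_lit 5) (nat_lit 4) (nat_lit 4) (nat_lit 361) (nat_lit 248) (nat_lit 171)))) (XT.nd (nat_lit 34476) (nat_lit 0) (nat_lit 8208) (XT.nd (nat_lit 34398) (nat_lit 0) (nat_lit 9652) (XT.lf (nat_lit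 0) (nat_lit 77970087642) (nat_lit 76) (nat_lit 63525645072) (nat_lit 76) (nat_lit 41608553293) (nat_lit 3) (nat_lit 4) (nat_lit 4) (nat_lit 5) (nat_lit 4) (nat_lit 4) (nat_lit 362) (nat_lit 248) (nat_lit 170)) (XT.lf (nat_lit 0) (nat_lit 3120016958) (nat_lit 456) (nat_lit 447639503) (nat_lit 456) (nat_lit 447639503) (nat_lit 130) (nat_lit 4) (nat_lit 136) (nat_lit 5) (nat_lit 136) (nat_lit 4) (nat_lit 282) (nat_lit 249) (nat_lit 249))) (XT.nd (nat_lit 78) (nat_lit 912) (nat_lit 0) (XT.lf (nat_lit 0) (nat_lit 4716483476) (nat_lit 532) (nat_lit 721628153) (nat_lit 0) (nat_lit 2751177358) (nat_lit 123) (nat_lit 5) (nat_lit 130) (nat_lit 4) (nat_lit 123) (nat_lit 4) (nat_lit 283) (nat_lit 249) (nat_lit 248)) (XT.lf (nat_lit 0) (nat_lit 346723588) (nat_lit 380) (nat_lit 1714236912) (nat_lit 456) (nat_lit 6298321375) (nat_lit 111) (nat_lit 5) (nat_lit 116) (nat_lit 5) (nat_lit 117) (nat_lit 4)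 (nat_lit 284) (nat_lit 249) (nat_lit 247))))) (XT.nd (nat_lit 234) (nat_lit 1444) (nat_lit 0) (XT.nd (nat_lit 78) (nat_lit 912) (nat_lit 0) (XT.lf (nat_lit 0) (nat_lit 1392308534) (nat_lit 380) (nat_lit 6301942064) (nat_lit 380) (nat_lit 846003411) (nat_lit 106) (nat_lit 4) (nat_lit 111) (nat_lit 5) (nat_lit 111) (nat_lit 4) (nat_lit 285) (nat_lit 249) (nat_lit 246)) (XT.nd (nat_lit 78) (nat_lit 456) (nat_lit 0) (XT.lf (nat_lit 0) (nat_lit 2380517949) (nat_lit 380) (nat_lit 2291755050) (nat_lit 456) (nat_lit 4060262776) (nat_lit 100) (nat_lit 5) (nat_lit 105) (nat_lit 5) (nat_lit 106) (nat_lit 4) (nat_lit 286) (nat_lit 249) (nat_lit 245)) (XT.lf (nat_lit 0) (nat_lit 1381560471) (nat_lit 456) (nat_lit 5616757847) (nat_lit 76) (nat_lit 1938835194) (nat_lit 94) (nat_lit 5) (nat_lit 100) (nat_lit 5) (nat_lit 95) (nat_lit 4) (nat_lit 287) (nat_lit 249) (nat_lit 244)))) (XT.nd (nat_lit 156) (nat_lit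 684) (nat_lit 0) (XT.nd (nat_lit 78) (nat_lit 456) (nat_lit 0) (XT.lf (nat_lit 0) (nat_lit 4174326353) (nat_lit 304) (nat_lit 2745440129) (nat_lit 380) (nat_lit 2234067425) (nat_lit 90) (nat_lit 5) (nat_lit 94) (nat_lit 5) (nat_lit 95) (nat_lit 4) (nat_lit 288) (nat_lit 249) (nat_lit 243)) (XT.lf (nat_lit 0) (nat_lit 3194835060) (nat_lit 456) (nat_lit 4441820555) (nat_lit 76) (nat_lit 1746787597) (nat_lit 84) (nat_lit 5) (nat_lit 90) (nat_lit 5) (nat_lit 85) (nat_lit 4) (nat_lit 289) (nat_lit 249) (nat_lit 242))) (XT.nd (nat_lit 78) (nat_lit 380) (nat_lit 0) (XT.lf (nat_lit 0) (nat_lit 5603802779) (nat_lit 304) (nat_lit 3169262583) (nat_lit 380) (nat_lit 853333035) (nat_lit 80) (nat_lit 5) (nat_lit 84) (nat_lit 5) (nat_lit 85) (nat_lit 4) (nat_lit 290) (nat_lit 249) (nat_lit 241)) (XT.lf (nat_lit 0) (nat_lit 4571916580) (nat_lit 380) (nat_lit 3750891065) (nat_lit 76) (nat_lit 1560080661)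 (nat_lit 75) (nat_lit 5) (nat_lit 80) (nat_lit 5) (nat_lit 76) (nat_lit 4) (nat_lit 291) (nat_lit 249) (nat_lit 240))))))))
noncomputable def xc31 : XT := (XT.nd (nat_lit 2028) (nat_lit 912) (nat_lit 0) (XT.nd (nat_lit 1014) (nat_lit 1368) (nat_lit 0) (XT.nd (nat_lit 468) (nat_lit 1292) (nat_lit 0) (XT.nd (nat_lit 234) (nat_lit 760) (nat_lit 0) (XT.nd (nat_lit 78) (nat_lit 608) (nat_lit 0) (XT.lf (nat_lit 0) (nat_lit 34308428) (nat_lit 304) (nat_lit 3628124627) (nat_lit 76) (nat_lit 6491580624) (nat_lit 71) (nat_lit 5) (nat_lit 75) (nat_lit 5) (nat_lit 72) (nat_lit 5) (nat_lit 292) (nat_lit 249) (nat_lit 239)) (XT.nd (nat_lit 78) (nat_lit 304) (nat_lit 0) (XT.lf (nat_lit 0) (nat_lit 5460653243) (nat_lit 380) (nat_lit 3700746721) (nat_lit 76) (nat_lit 1278213515) (nat_lit 67) (nat_lit 5) (nat_lit 72) (nat_lit 5) (nat_lit 68) (nat_lit 4) (nat_lit 293) (nat_lit 249) (nat_lit 238)) (XT.lf (nat_lit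 0) (nat_lit 361730851) (nat_lit 304) (nat_lit 3968322477) (nat_lit 76) (nat_lit 6410976142) (nat_lit 63) (nat_lit 5) (nat_lit 67) (nat_lit 5) (nat_lit 64) (nat_lit 5) (nat_lit 294) (nat_lit 249) (nat_lit 237)))) (XT.nd (nat_lit 78) (nat_lit 532) (nat_lit 0) (XT.lf (nat_lit 0) (nat_lit 5793334496) (nat_lit 304) (nat_lit 4473584401) (nat_lit 76) (nat_lit 791493357) (nat_lit 60) (nat_lit 5) (nat_lit 64) (nat_lit 5) (nat_lit 61) (nat_lit 4) (nat_lit 295) (nat_lit 249) (nat_lit 236)) (XT.nd (nat_lit 78) (nat_lit 228) (nat_lit 0) (XT.lf (nat_lit 0) (nat_lit 68075574) (nat_lit 304) (nat_lit 5231991239) (nat_lit 76) (nat_lit 6092775911) (nat_lit 56) (nat_lit 5) (nat_lit 60) (nat_lit 5) (nat_lit 57) (nat_lit 5) (nat_lit 296) (nat_lit 249) (nat_lit 235)) (XT.lf (nat_lit 0) (nat_lit 5462352556) (nat_lit 228) (nat_lit 22340171) (nat_lit 304) (nat_lit 6260126094) (nat_lit 53) (nat_lit 5) (nat_lit 56)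 (nat_lit 5) (nat_lit 57) (nat_lit 5) (nat_lit 297) (nat_lit 249) (nat_lit 234))))) (XT.nd (nat_lit 234) (nat_lit 684) (nat_lit 0) (XT.nd (nat_lit 78) (nat_lit 456) (nat_lit 0) (XT.lf (nat_lit 0) (nat_lit 4456193401) (nat_lit 152) (nat_lit 6696805565) (nat_lit 228) (nat_lit 962120313) (nat_lit 51) (nat_lit 5) (nat_lit 53) (nat_lit 5) (nat_lit 54) (nat_lit 4) (nat_lit 298) (nat_lit 249) (nat_lit 233)) (XT.nd (nat_lit 78) (nat_lit 152) (nat_lit 0) (XT.lf (nat_lit 0) (nat_lit 3115806581) (nat_lit 228) (nat_lit 1325095281) (nat_lit 304) (nat_lit 8063949212) (nat_lit 47) (nat_lit 5) (nat_lit 50) (nat_lit 5) (nat_lit 51) (nat_lit 5) (nat_lit 299) (nat_lit 249) (nat_lit 232)) (XT.lf (nat_lit 0) (nat_lit 1395338134) (nat_lit 152) (nat_lit 8672495618) (nat_lit 228) (nat_lit 2846873465) (nat_lit 45) (nat_lit 5) (nat_lit 47) (nat_lit 5) (nat_lit 48) (nat_lit 4) (nat_lit 300) (nat_lit 249) (nat_lit 231))))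 (XT.nd (nat_lit 156) (nat_lit 380) (nat_lit 0) (XT.nd (nat_lit 78) (nat_lit 228) (nat_lit 0) (XT.lf (nat_lit 0) (nat_lit 2533251457) (nat_lit 228) (nat_lit 720049036) (nat_lit 76) (nat_lit 10092514031) (nat_lit 44) (nat_lit 5) (nat_lit 47) (nat_lit 5) (nat_lit 45) (nat_lit 5) (nat_lit 301) (nat_lit 249) (nat_lit 230)) (XT.lf (nat_lit 0) (nat_lit 8099400448) (nat_lit 304) (nat_lit 3267896481) (nat_lit 76) (nat_lit 2431175127) (nat_lit 41) (nat_lit 5) (nat_lit 45) (nat_lit 5) (nat_lit 42) (nat_lit 4) (nat_lit 302) (nat_lit 249) (nat_lit 229))) (XT.nd (nat_lit 78) (nat_lit 228) (nat_lit 0) (XT.lf (nat_lit 0) (nat_lit 7969816186) (nat_lit 152) (nat_lit 5945052242) (nat_lit 228) (nat_lit 359875436) (nat_lit 39) (nat_lit 5) (nat_lit 41) (nat_lit 5) (nat_lit 42) (nat_lit 4) (nat_lit 303) (nat_lit 249) (nat_lit 228)) (XT.lf (nat_lit 0) (nat_lit 4874078897) (nat_lit 152) (nat_lit 207956197) (nat_lit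 228) (nat_lit 9693240725) (nat_lit 36) (nat_lit 5) (nat_lit 38) (nat_lit 5) (nat_lit 39) (nat_lit 5) (nat_lit 304) (nat_lit 249) (nat_lit 227)))))) (XT.nd (nat_lit 468) (nat_lit 608) (nat_lit 0) (XT.nd (nat_lit 234) (nat_lit 380) (nat_lit 0) (XT.nd (nat_lit 78) (nat_lit 228) (nat_lit 0) (XT.lf (nat_lit 0) (nat_lit 1176863516) (nat_lit 152) (nat_lit 9605622441) (nat_lit 228) (nat_lit 4518523298) (nat_lit 34) (nat_lit 5) (nat_lit 36) (nat_lit 5) (nat_lit 37) (nat_lit 4) (nat_lit 305) (nat_lit 249) (nat_lit 226)) (XT.nd (nat_lit 78) (nat_lit 152) (nat_lit 0) (XT.lf (nat_lit 0) (nat_lit 866199002) (nat_lit 228) (nat_lit 3073143606) (nat_lit 76) (nat_lit 11914440220) (nat_lit 33) (nat_lit 5) (nat_lit 36) (nat_lit 5) (nat_lit 34) (nat_lit 5) (nat_lit 306) (nat_lit 249) (nat_lit 225)) (XT.lf (nat_lit 0) (nat_lit 6398947202) (nat_lit 228) (nat_lit 8020937350) (nat_lit 76) (nat_lit 2013887854) (nat_lit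 31) (nat_lit 5) (nat_lit 34) (nat_lit 5) (nat_lit 32) (nat_lit 4) (nat_lit 307) (nat_lit 249) (nat_lit 224)))) (XT.nd (nat_lit 78) (nat_lit 228) (nat_lit 0) (XT.lf (nat_lit 0) (nat_lit 3306954297) (nat_lit 152) (nat_lit 8878769411) (nat_lit 228) (nat_lit 4857798557) (nat_lit 29) (nat_lit 5) (nat_lit 31) (nat_lit 5) (nat_lit 32) (nat_lit 4) (nat_lit 308) (nat_lit 249) (nat_lit 223)) (XT.nd (nat_lit 78) (nat_lit 152) (nat_lit 0) (XT.lf (nat_lit 0) (nat_lit 526808360) (nat_lit 228) (nat_lit 2528250148) (nat_lit 76) (nat_lit 14629810432) (nat_lit 28) (nat_lit 5) (nat_lit 31) (nat_lit 5) (nat_lit 29) (nat_lit 5) (nat_lit 309) (nat_lit 249) (nat_lit 222)) (XT.lf (nat_lit 0) (nat_lit 6081751274) (nat_lit 228) (nat_lit 9216811820) (nat_lit 76) (nat_lit 3058302450) (nat_lit 26) (nat_lit 5) (nat_lit 29) (nat_lit 5) (nat_lit 27) (nat_lit 4) (nat_lit 310) (nat_lit 249) (nat_lit 221))))) (XT.nd (nat_lit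 234) (nat_lit 304) (nat_lit 0) (XT.nd (nat_lit 78) (nat_lit 228) (nat_lit 0) (XT.lf (nat_lit 0) (nat_lit 2198257832) (nat_lit 76) (nat_lit 9679896100) (nat_lit 152) (nat_lit 7185465881) (nat_lit 25) (nat_lit 5) (nat_lit 26) (nat_lit 5) (nat_lit 27) (nat_lit 4) (nat_lit 311) (nat_lit 249) (nat_lit 220)) (XT.nd (nat_lit 78) (nat_lit 228) (nat_lit 0) (XT.lf (nat_lit 0) (nat_lit 14185847434) (nat_lit 76) (nat_lit 3762490325) (nat_lit 152) (nat_lit 1857921127) (nat_lit 25) (nat_lit 5) (nat_lit 26) (nat_lit 5) (nat_lit 27) (nat_lit 4) (nat_lit 312) (nat_lit 249) (nat_lit 219)) (XT.lf (nat_lit 0) (nat_lit 3638605071) (nat_lit 228) (nat_lit 14524520004) (nat_lit 76) (nat_lit 2422623195) (nat_lit 22) (nat_lit 5) (nat_lit 25) (nat_lit 5) (nat_lit 23) (nat_lit 4) (nat_lit 313) (nat_lit 249) (nat_lit 218)))) (XT.nd (nat_lit 156) (nat_lit 228) (nat_lit 0) (XT.nd (nat_lit 78) (nat_lit 76) (nat_lit 0)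 (XT.lf (nat_lit 0) (nat_lit 9364194214) (nat_lit 228) (nat_lit 3196476244) (nat_lit 76) (nat_lit 8843268017) (nat_lit 22) (nat_lit 5) (nat_lit 25) (nat_lit 5) (nat_lit 23) (nat_lit 4) (nat_lit 314) (nat_lit 249) (nat_lit 217)) (XT.lf (nat_lit 0) (nat_lit 8695168657) (nat_lit 76) (nat_lit 6665333015) (nat_lit 152) (nat_lit 6903058639) (nat_lit 21) (nat_lit 5) (nat_lit 22) (nat_lit 5) (nat_lit 23) (nat_lit 4) (nat_lit 315) (nat_lit 249) (nat_lit 216))) (XT.nd (nat_lit 78) (nat_lit 228) (nat_lit 0) (XT.lf (nat_lit 0) (nat_lit 21080661617) (nat_lit 76) (nat_lit 512834119) (nat_lit 152) (nat_lit 1574614017) (nat_lit 21) (nat_lit 5) (nat_lit 22) (nat_lit 5) (nat_lit 23) (nat_lit 4) (nat_lit 316) (nat_lit 249) (nat_lit 215)) (XT.lf (nat_lit 0) (nat_lit 4002983442) (nat_lit 228) (nat_lit 14212664328) (nat_lit 76) (nat_lit 5899292822) (nat_lit 18) (nat_lit 5) (nat_lit 21) (nat_lit 5) (nat_lit 19)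 (nat_lit 4) (nat_lit 317) (nat_lit 249) (nat_lit 214))))))) (XT.nd (nat_lit 1014) (nat_lit 304) (nat_lit 0) (XT.nd (nat_lit 468) (nat_lit 228) (nat_lit 0) (XT.nd (nat_lit 234) (nat_lit 304) (nat_lit 0) (XT.nd (nat_lit 78) (nat_lit 76) (nat_lit 0) (XT.lf (nat_lit 0) (nat_lit 9763906554) (nat_lit 228) (nat_lit 2753540673) (nat_lit 76) (nat_lit 12593134069) (nat_lit 18) (nat_lit 5) (nat_lit 21) (nat_lit 5) (nat_lit 19) (nat_lit 4) (nat_lit 318) (nat_lit 249) (nat_lit 213)) (XT.nd (nat_lit 78) (nat_lit 0) (nat_lit 0) (XT.lf (nat_lit 0) (nat_lit 9308856201) (nat_lit 76) (nat_lit 6507626933) (nat_lit 152) (nat_lit 10339456839) (nat_lit 17) (nat_lit 5) (nat_lit 18) (nat_lit 5) (nat_lit 19) (nat_lit 4) (nat_lit 319) (nat_lit 249) (nat_lit 212)) (XT.lf (nat_lit 0) (nat_lit 21884919454) (nat_lit 76) (nat_lit 231915544) (nat_lit 152) (nat_lit 5138419247) (nat_lit 17) (nat_lit 5) (nat_lit 18) (nat_lit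 5) (nat_lit 19) (nat_lit 4) (nat_lit 320) (nat_lit 249) (nat_lit 211)))) (XT.nd (nat_lit 78) (nat_lit 76) (nat_lit 0) (XT.lf (nat_lit 0) (nat_lit 361573010) (nat_lit 228) (nat_lit 21805553163) (nat_lit 76) (nat_lit 6240997916) (nat_lit 14) (nat_lit 5) (nat_lit 17) (nat_lit 5) (nat_lit 15) (nat_lit 4) (nat_lit 321) (nat_lit 249) (nat_lit 210)) (XT.nd (nat_lit 78) (nat_lit 76) (nat_lit 0) (XT.lf (nat_lit 0) (nat_lit 6011305905) (nat_lit 228) (nat_lit 10524738867) (nat_lit 76) (nat_lit 13081673084) (nat_lit 14) (nat_lit 5) (nat_lit 17) (nat_lit 5) (nat_lit 15) (nat_lit 4) (nat_lit 322) (nat_lit 249) (nat_lit 209)) (XT.lf (nat_lit 0) (nat_lit 1211029000) (nat_lit 76) (nat_lit 10669711453) (nat_lit 152) (nat_lit 19008969677) (nat_lit 13) (nat_lit 5) (nat_lit 14) (nat_lit 5) (nat_lit 15) (nat_lit 4) (nat_lit 323) (nat_lit 249) (nat_lit 208))))) (XT.nd (nat_lit 234) (nat_lit 152) (nat_lit 0) (XT.nd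 (nat_lit 78) (nat_lit 76) (nat_lit 0) (XT.lf (nat_lit 0) (nat_lit 13624607022) (nat_lit 76) (nat_lit 4455261364) (nat_lit 152) (nat_lit 14144380574) (nat_lit 13) (nat_lit 5) (nat_lit 14) (nat_lit 5) (nat_lit 15) (nat_lit 4) (nat_lit 324) (nat_lit 249) (nat_lit 207)) (XT.nd (nat_lit 78) (nat_lit 76) (nat_lit 0) (XT.lf (nat_lit 0) (nat_lit 24539643138) (nat_lit 152) (nat_lit 7110896255) (nat_lit 0) (nat_lit 1976486618) (nat_lit 13) (nat_lit 5) (nat_lit 15) (nat_lit 4) (nat_lit 13) (nat_lit 4) (nat_lit 325) (nat_lit 249) (nat_lit 206)) (XT.lf (nat_lit 0) (nat_lit 4884200146) (nat_lit 76) (nat_lit 26464213164) (nat_lit 76) (nat_lit 3750778872) (nat_lit 12) (nat_lit 4) (nat_lit 13) (nat_lit 5) (nat_lit 13) (nat_lit 4) (nat_lit 326) (nat_lit 249) (nat_lit 205)))) (XT.nd (nat_lit 156) (nat_lit 76) (nat_lit 0) (XT.nd (nat_lit 78) (nat_lit 0) (nat_lit 0) (XT.lf (nat_lit 0) (nat_lit 1825889203) (nat_lit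 152) (nat_lit 19150000898) (nat_lit 76) (nat_lit 15668288892) (nat_lit 11) (nat_lit 5) (nat_lit 13) (nat_lit 5) (nat_lit 12) (nat_lit 4) (nat_lit 327) (nat_lit 249) (nat_lit 204)) (XT.lf (nat_lit 0) (nat_lit 7543073910) (nat_lit 152) (nat_lit 7680422313) (nat_lit 76) (nat_lit 23043654006) (nat_lit 11) (nat_lit 5) (nat_lit 13) (nat_lit 5) (nat_lit 12) (nat_lit 4) (nat_lit 328) (nat_lit 249) (nat_lit 203))) (XT.nd (nat_lit 78) (nat_lit 0) (nat_lit 0) (XT.lf (nat_lit 0) (nat_lit 4341831796) (nat_lit 76) (nat_lit 9187483345) (nat_lit 152) (nat_lit 26442484521) (nat_lit 10) (nat_lit 5) (nat_lit 11) (nat_lit 5) (nat_lit 12) (nat_lit 4) (nat_lit 329) (nat_lit 249) (nat_lit 202)) (XT.lf (nat_lit 0) (nat_lit 17023193612) (nat_lit 76) (nat_lit 2814001190) (nat_lit 152) (nat_lit 21923841310) (nat_lit 10) (nat_lit 5) (nat_lit 11) (nat_lit 5) (nat_lit 12) (nat_lit 4) (nat_lit 330) (nat_lit 249) (nat_lit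 201)))))) (XT.nd (nat_lit 546) (nat_lit 76) (nat_lit 0) (XT.nd (nat_lit 234) (nat_lit 152) (nat_lit 0) (XT.nd (nat_lit 78) (nat_lit 76) (nat_lit 0) (XT.lf (nat_lit 0) (nat_lit 26443293608) (nat_lit 152) (nat_lit 13437237440) (nat_lit 0) (nat_lit 3759741758) (nat_lit 10) (nat_lit 5) (nat_lit 12) (nat_lit 4) (nat_lit 10) (nat_lit 4) (nat_lit 331) (nat_lit 249) (nat_lit 200)) (XT.nd (nat_lit 78) (nat_lit 76) (nat_lit 0) (XT.lf (nat_lit 0) (nat_lit 33356238763) (nat_lit 152) (nat_lit 1694144878) (nat_lit 0) (nat_lit 10563813527) (nat_lit 10) (nat_lit 5) (nat_lit 12) (nat_lit 4) (nat_lit 10) (nat_lit 4) (nat_lit 332) (nat_lit 249) (nat_lit 199)) (XT.lf (nat_lit 0) (nat_lit 10756339760) (nat_lit 76) (nat_lit 29912496516) (nat_lit 76) (nat_lit 7016382341) (nat_lit 9) (nat_lit 4) (nat_lit 10) (nat_lit 5) (nat_lit 10) (nat_lit 4) (nat_lit 333) (nat_lit 249) (nat_lit 198)))) (XT.nd (nat_lit 156) (nat_lit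 76) (nat_lit 0) (XT.nd (nat_lit 78) (nat_lit 76) (nat_lit 0) (XT.lf (nat_lit 0) (nat_lit 23777663808) (nat_lit 76) (nat_lit 24538963002) (nat_lit 76) (nat_lit 1544097456) (nat_lit 9) (nat_lit 4) (nat_lit 10) (nat_lit 5) (nat_lit 10) (nat_lit 4) (nat_lit 334) (nat_lit 249) (nat_lit 197)) (XT.lf (nat_lit 0) (nat_lit 4073742494) (nat_lit 152) (nat_lit 14819217207) (nat_lit 76) (nat_lit 33252234307) (nat_lit 8) (nat_lit 5) (nat_lit 10) (nat_lit 5) (nat_lit 9) (nat_lit 4) (nat_lit 335) (nat_lit 249) (nat_lit 196))) (XT.nd (nat_lit 78) (nat_lit 76) (nat_lit 0) (XT.lf (nat_lit 0) (nat_lit 9896963761) (nat_lit 152) (nat_lit 3087648439) (nat_lit 76) (nat_lit 41560141316) (nat_lit 8) (nat_lit 5) (nat_lit 10) (nat_lit 5) (nat_lit 9) (nat_lit 4) (nat_lit 336) (nat_lit 249) (nat_lit 195)) (XT.lf (nat_lit 0) (nat_lit 9336611888) (nat_lit 76) (nat_lit 6722699397) (nat_lit 152) (nat_lit 41003557551) (nat_lit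 7) (nat_lit 5) (nat_lit 8) (nat_lit 5) (nat_lit 9) (nat_lit 4) (nat_lit 337) (nat_lit 249) (nat_lit 194))))) (XT.nd (nat_lit 234) (nat_lit 76) (nat_lit 0) (XT.nd (nat_lit 78) (nat_lit 0) (nat_lit 0) (XT.lf (nat_lit 0) (nat_lit 22372710954) (nat_lit 76) (nat_lit 148345190) (nat_lit 152) (nat_lit 37186111372) (nat_lit 7) (nat_lit 5) (nat_lit 8) (nat_lit 5) (nat_lit 9) (nat_lit 4) (nat_lit 338) (nat_lit 249) (nat_lit 193)) (XT.nd (nat_lit 78) (nat_lit 0) (nat_lit 0) (XT.lf (nat_lit 0) (nat_lit 29331937243) (nat_lit 152) (nat_lit 26559241669) (nat_lit 0) (nat_lit 6591735978) (nat_lit 7) (nat_lit 5) (nat_lit 9) (nat_lit 4) (nat_lit 7) (nat_lit 4) (nat_lit 339) (nat_lit 249) (nat_lit 192)) (XT.lf (nat_lit 0) (nat_lit 36447829615) (nat_lit 152) (nat_lit 15314615645) (nat_lit 0) (nat_lit 13636084861) (nat_lit 7) (nat_lit 5) (nat_lit 9) (nat_lit 4) (nat_lit 7) (nat_lit 4) (nat_lit 340) (nat_lit 249)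 (nat_lit 191)))) (XT.nd (nat_lit 156) (nat_lit 0) (nat_lit 0) (XT.nd (nat_lit 78) (nat_lit 76) (nat_lit 0) (XT.lf (nat_lit 0) (nat_lit 43884249877) (nat_lit 152) (nat_lit 3572379587) (nat_lit 0) (nat_lit 21004368467) (nat_lit 7) (nat_lit 5) (nat_lit 9) (nat_lit 4) (nat_lit 7) (nat_lit 4) (nat_lit 341) (nat_lit 249) (nat_lit 190)) (XT.lf (nat_lit 0) (nat_lit 8868480202) (nat_lit 76) (nat_lit 42875672846) (nat_lit 76) (nat_lit 19930899383) (nat_lit 6) (nat_lit 4) (nat_lit 7) (nat_lit 5) (nat_lit 7) (nat_lit 4) (nat_lit 342) (nat_lit 249) (nat_lit 189))) (XT.nd (nat_lit 78) (nat_lit 0) (nat_lit 0) (XT.lf (nat_lit 0) (nat_lit 21946255292) (nat_lit 76) (nat_lit 38055007978) (nat_lit 76) (nat_lit 15048432559) (nat_lit 6) (nat_lit 4) (nat_lit 7) (nat_lit 5) (nat_lit 7) (nat_lit 4) (nat_lit 343) (nat_lit 249) (nat_lit 188)) (XT.lf (nat_lit 0) (nat_lit 35620985883) (nat_lit 76) (nat_lit 33019231115)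 (nat_lit 76) (nat_lit 9953796691) (nat_lit 6) (nat_lit 4) (nat_lit 7) (nat_lit 5) (nat_lit 7) (nat_lit 4) (nat_lit 344) (nat_lit 249) (nat_lit 187))))))))
noncomputable def xc32 : XT := (XT.nd (nat_lit 36192) (nat_lit 0) (nat_lit 1596) (XT.nd (nat_lit 1014) (nat_lit 76) (nat_lit 0) (XT.nd (nat_lit 468) (nat_lit 0) (nat_lit 0) (XT.nd (nat_lit 234) (nat_lit 76) (nat_lit 0) (XT.nd (nat_lit 78) (nat_lit 76) (nat_lit 0) (XT.lf (nat_lit 0) (nat_lit 49925230859) (nat_lit 76) (nat_lit 27756352313) (nat_lit 76) (nat_lit 4634861694) (nat_lit 6) (nat_lit 4) (nat_lit 7) (nat_lit 5) (nat_lit 7) (nat_lit 4) (nat_lit 345) (nat_lit 249) (nat_lit 186)) (XT.nd (nat_lit 78) (nat_lit 0) (nat_lit 0) (XT.lf (nat_lit 0) (nat_lit 903063822) (nat_lit 152) (nat_lit 21341657913) (nat_lit 76) (nat_lit 63980864949) (nat_lit 5) (nat_lit 5) (nat_lit 7) (nat_lit 5) (nat_lit 6) (nat_lit 4) (nat_lit 346) (nat_lit 249) (nat_lit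 185)) (XT.lf (nat_lit 0) (nat_lit 6595855943) (nat_lit 152) (nat_lit 9836134528) (nat_lit 76) (nat_lit 73897613646) (nat_lit 5) (nat_lit 5) (nat_lit 7) (nat_lit 5) (nat_lit 6) (nat_lit 4) (nat_lit 347) (nat_lit 249) (nat_lit 184)))) (XT.nd (nat_lit 78) (nat_lit 0) (nat_lit 0) (XT.lf (nat_lit 0) (nat_lit 2241034021) (nat_lit 76) (nat_lit 10328019951) (nat_lit 152) (nat_lit 82069904993) (nat_lit 4) (nat_lit 5) (nat_lit 5) (nat_lit 5) (nat_lit 6) (nat_lit 4) (nat_lit 348) (nat_lit 249) (nat_lit 183)) (XT.nd (nat_lit 78) (nat_lit 0) (nat_lit 0) (XT.lf (nat_lit 0) (nat_lit 15081603241) (nat_lit 76) (nat_lit 3835572303) (nat_lit 152) (nat_lit 80244327180) (nat_lit 4) (nat_lit 5) (nat_lit 5) (nat_lit 5) (nat_lit 6) (nat_lit 4) (nat_lit 349) (nat_lit 249) (nat_lit 182)) (XT.lf (nat_lit 0) (nat_lit 25587370149) (nat_lit 152) (nat_lit 75418976388) (nat_lit 0) (nat_lit 2903695770) (nat_lit 4) (nat_lit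 5) (nat_lit 6) (nat_lit 4) (nat_lit 4) (nat_lit 4) (nat_lit 350) (nat_lit 249) (nat_lit 181))))) (XT.nd (nat_lit 234) (nat_lit 0) (nat_lit 0) (XT.nd (nat_lit 78) (nat_lit 0) (nat_lit 0) (XT.lf (nat_lit 0) (nat_lit 32606937343) (nat_lit 152) (nat_lit 66405952557) (nat_lit 0) (nat_lit 9882651317) (nat_lit 4) (nat_lit 5) (nat_lit 6) (nat_lit 4) (nat_lit 4) (nat_lit 4) (nat_lit 351) (nat_lit 249) (nat_lit 180)) (XT.nd (nat_lit 78) (nat_lit 0) (nat_lit 0) (XT.lf (nat_lit 0) (nat_lit 39955720515) (nat_lit 152) (nat_lit 56982498542) (nat_lit 0) (nat_lit 17192756731) (nat_lit 4) (nat_lit 5) (nat_lit 6) (nat_lit 4) (nat_lit 4) (nat_lit 4) (nat_lit 352) (nat_lit 249) (nat_lit 179)) (XT.lf (nat_lit 0) (nat_lit 47651216767) (nat_lit 152) (nat_lit 47126177547) (nat_lit 0) (nat_lit 24851417022) (nat_lit 4) (nat_lit 5) (nat_lit 6) (nat_lit 4) (nat_lit 4) (nat_lit 4) (nat_lit 353) (nat_lit 249) (nat_lit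 178)))) (XT.nd (nat_lit 156) (nat_lit 0) (nat_lit 0) (XT.nd (nat_lit 78) (nat_lit 0) (nat_lit 0) (XT.lf (nat_lit 0) (nat_lit 55711748710) (nat_lit 152) (nat_lit 36813522141) (nat_lit 0) (nat_lit 32876867098) (nat_lit 4) (nat_lit 5) (nat_lit 6) (nat_lit 4) (nat_lit 4) (nat_lit 4) (nat_lit 354) (nat_lit 249) (nat_lit 177)) (XT.lf (nat_lit 0) (nat_lit 64156508086) (nat_lit 152) (nat_lit 26019978383) (nat_lit 0) (nat_lit 41288215171) (nat_lit 4) (nat_lit 5) (nat_lit 6) (nat_lit 4) (nat_lit 4) (nat_lit 4) (nat_lit 355) (nat_lit 249) (nat_lit 176))) (XT.nd (nat_lit 78) (nat_lit 0) (nat_lit 0) (XT.lf (nat_lit 0) (nat_lit 73005601465) (nat_lit 152) (nat_lit 14719847360) (nat_lit 0) (nat_lit 50105488263) (nat_lit 4) (nat_lit 5) (nat_lit 6) (nat_lit 4) (nat_lit 4) (nat_lit 4) (nat_lit 356) (nat_lit 249) (nat_lit 175)) (XT.lf (nat_lit 0) (nat_lit 82280098118) (nat_lit 152) (nat_lit 2886223996) (nat_lit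 0) (nat_lit 59349679879) (nat_lit 4) (nat_lit 5) (nat_lit 6) (nat_lit 4) (nat_lit 4) (nat_lit 4) (nat_lit 357) (nat_lit 249) (nat_lit 174)))))) (XT.nd (nat_lit 34632) (nat_lit 0) (nat_lit 6916) (XT.nd (nat_lit 234) (nat_lit 0) (nat_lit 0) (XT.nd (nat_lit 78) (nat_lit 0) (nat_lit 0) (XT.lf (nat_lit 0) (nat_lit 9698316078) (nat_lit 76) (nat_lit 82396990247) (nat_lit 76) (nat_lit 59437710070) (nat_lit 3) (nat_lit 4) (nat_lit 4) (nat_lit 5) (nat_lit 4) (nat_lit 4) (nat_lit 358) (nat_lit 249) (nat_lit 173)) (XT.nd (nat_lit 78) (nat_lit 0) (nat_lit 0) (XT.lf (nat_lit 0) (nat_lit 22943243546) (nat_lit 76) (nat_lit 79471996169) (nat_lit 76) (nat_lit 56485228430) (nat_lit 3) (nat_lit 4) (nat_lit 4) (nat_lit 5) (nat_lit 4) (nat_lit 4) (nat_lit 359) (nat_lit 249) (nat_lit 172)) (XT.lf (nat_lit 0) (nat_lit 36822652433) (nat_lit 76) (nat_lit 76413520812) (nat_lit 76) (nat_lit 53400574443) (nat_lit 3)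 (nat_lit 4) (nat_lit 4) (nat_lit 5) (nat_lit 4) (nat_lit 4) (nat_lit 360) (nat_lit 249) (nat_lit 171)))) (XT.nd (nat_lit 78) (nat_lit 0) (nat_lit 0) (XT.lf (nat_lit 0) (nat_lit 51369588950) (nat_lit 76) (nat_lit 73214282090) (nat_lit 76) (nat_lit 50176403694) (nat_lit 3) (nat_lit 4) (nat_lit 4) (nat_lit 5) (nat_lit 4) (nat_lit 4) (nat_lit 361) (nat_lit 249) (nat_lit 170)) (XT.nd (nat_lit 34242) (nat_lit 0) (nat_lit 10640) (XT.lf (nat_lit 0) (nat_lit 66618688660) (nat_lit 76) (nat_lit 69866662771) (nat_lit 76) (nat_lit 46805039585) (nat_lit 3) (nat_lit 4) (nat_lit 4) (nat_lit 5) (nat_lit 4) (nat_lit 4) (nat_lit 362) (nat_lit 249) (nat_lit 169)) (XT.lf (nat_lit 0) (nat_lit 1954413163) (nat_lit 532) (nat_lit 957871392) (nat_lit 532) (nat_lit 957871392) (nat_lit 143) (nat_lit 4) (nat_lit 150) (nat_lit 5) (nat_lit 150) (nat_lit 4) (nat_lit 280) (nat_lit 250) (nat_lit 250))))) (XT.nd (nat_lit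 234) (nat_lit 2204) (nat_lit 0) (XT.nd (nat_lit 78) (nat_lit 988) (nat_lit 0) (XT.lf (nat_lit 0) (nat_lit 3558791970) (nat_lit 532) (nat_lit 2889884380) (nat_lit 0) (nat_lit 1433313404) (nat_lit 136) (nat_lit 5) (nat_lit 143) (nat_lit 4) (nat_lit 136) (nat_lit 4) (nat_lit 281) (nat_lit 250) (nat_lit 249)) (XT.nd (nat_lit 78) (nat_lit 456) (nat_lit 0) (XT.lf (nat_lit 0) (nat_lit 1083239700) (nat_lit 532) (nat_lit 1950767273) (nat_lit 76) (nat_lit 5000113189) (nat_lit 129) (nat_lit 5) (nat_lit 136) (nat_lit 5) (nat_lit 130) (nat_lit 4) (nat_lit 282) (nat_lit 250) (nat_lit 248)) (XT.lf (nat_lit 0) (nat_lit 6536655810) (nat_lit 532) (nat_lit 1024256478) (nat_lit 0) (nat_lit 636058158) (nat_lit 123) (nat_lit 5) (nat_lit 130) (nat_lit 4) (nat_lit 123) (nat_lit 4) (nat_lit 283) (nat_lit 250) (nat_lit 247)))) (XT.nd (nat_lit 156) (nat_lit 836) (nat_lit 0) (XT.nd (nat_lit 78) (nat_lit 836) (nat_lit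 0) (XT.lf (nat_lit 0) (nat_lit 3715992062) (nat_lit 532) (nat_lit 139724348) (nat_lit 76) (nat_lit 4514558139) (nat_lit 116) (nat_lit 5) (nat_lit 123) (nat_lit 5) (nat_lit 117) (nat_lit 4) (nat_lit 284) (nat_lit 250) (nat_lit 246)) (XT.lf (nat_lit 0) (nat_lit 640924715) (nat_lit 456) (nat_lit 7806586470) (nat_lit 76) (nat_lit 107909775) (nat_lit 105) (nat_lit 5) (nat_lit 111) (nat_lit 5) (nat_lit 106) (nat_lit 4) (nat_lit 285) (nat_lit 250) (nat_lit 245))) (XT.nd (nat_lit 78) (nat_lit 456) (nat_lit 0) (XT.lf (nat_lit 0) (nat_lit 1554549818) (nat_lit 380) (nat_lit 4471057370) (nat_lit 456) (nat_lit 2725514860) (nat_lit 100) (nat_lit 5) (nat_lit 105) (nat_lit 5) (nat_lit 106) (nat_lit 4) (nat_lit 286) (nat_lit 250) (nat_lit 244)) (XT.lf (nat_lit 0) (nat_lit 2321480585) (nat_lit 380) (nat_lit 233516160) (nat_lit 456) (nat_lit 6404555476) (nat_lit 94) (nat_lit 5) (nat_lit 99) (nat_lit 5) (nat_lit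 100) (nat_lit 5) (nat_lit 287) (nat_lit 250) (nat_lit 243))))))) (XT.nd (nat_lit 1014) (nat_lit 1748) (nat_lit 0) (XT.nd (nat_lit 468) (nat_lit 1520) (nat_lit 0) (XT.nd (nat_lit 234) (nat_lit 988) (nat_lit 0) (XT.nd (nat_lit 78) (nat_lit 760) (nat_lit 0) (XT.lf (nat_lit 0) (nat_lit 2992119503) (nat_lit 304) (nat_lit 4984426941) (nat_lit 380) (nat_lit 1203318595) (nat_lit 90) (nat_lit 5) (nat_lit 94) (nat_lit 5) (nat_lit 95) (nat_lit 4) (nat_lit 288) (nat_lit 250) (nat_lit 242)) (XT.nd (nat_lit 78) (nat_lit 304) (nat_lit 0) (XT.lf (nat_lit 0) (nat_lit 3575944494) (nat_lit 380) (nat_lit 498546207) (nat_lit 456) (nat_lit 5338738515) (nat_lit 84) (nat_lit 5) (nat_lit 89) (nat_lit 5) (nat_lit 90) (nat_lit 5) (nat_lit 289) (nat_lit 250) (nat_lit 241)) (XT.lf (nat_lit 0) (nat_lit 4045841256) (nat_lit 304) (nat_lit 5489695496) (nat_lit 380) (nat_lit 124280065) (nat_lit 80) (nat_lit 5) (nat_lit 84)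 (nat_lit 5) (nat_lit 85) (nat_lit 4) (nat_lit 290) (nat_lit 250) (nat_lit 240)))) (XT.nd (nat_lit 78) (nat_lit 608) (nat_lit 0) (XT.lf (nat_lit 0) (nat_lit 4379900787) (nat_lit 304) (nat_lit 779458231) (nat_lit 380) (nat_lit 4760667066) (nat_lit 75) (nat_lit 5) (nat_lit 79) (nat_lit 5) (nat_lit 80) (nat_lit 5) (nat_lit 291) (nat_lit 250) (nat_lit 239)) (XT.nd (nat_lit 78) (nat_lit 304) (nat_lit 0) (XT.lf (nat_lit 0) (nat_lit 454125646) (nat_lit 304) (nat_lit 5626472204) (nat_lit 76) (nat_lit 4114087316) (nat_lit 71) (nat_lit 5) (nat_lit 75) (nat_lit 5) (nat_lit 72) (nat_lit 5) (nat_lit 292) (nat_lit 250) (nat_lit 238)) (XT.lf (nat_lit 0) (nat_lit 4579401053) (nat_lit 304) (nat_lit 1177616490) (nat_lit 380) (nat_lit 4727066187) (nat_lit 67) (nat_lit 5) (nat_lit 71) (nat_lit 5) (nat_lit 72) (nat_lit 5) (nat_lit 293) (nat_lit 250) (nat_lit 237))))) (XT.nd (nat_lit 234) (nat_lit 760) (nat_lit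 0) (XT.nd (nat_lit 78) (nat_lit 456) (nat_lit 0) (XT.lf (nat_lit 0) (nat_lit 485951959) (nat_lit 304) (nat_lit 6386757727) (nat_lit 76) (nat_lit 3916488125) (nat_lit 63) (nat_lit 5) (nat_lit 67) (nat_lit 5) (nat_lit 64) (nat_lit 5) (nat_lit 294) (nat_lit 250) (nat_lit 236)) (XT.nd (nat_lit 78) (nat_lit 228) (nat_lit 0) (XT.lf (nat_lit 0) (nat_lit 3995481971) (nat_lit 228) (nat_lit 1803997675) (nat_lit 304) (nat_lit 5310727039) (nat_lit 60) (nat_lit 5) (nat_lit 63) (nat_lit 5) (nat_lit 64) (nat_lit 5) (nat_lit 295) (nat_lit 250) (nat_lit 235)) (XT.lf (nat_lit 0) (nat_lit 3356305223) (nat_lit 228) (nat_lit 7984940035) (nat_lit 304) (nat_lit 107307533) (nat_lit 57) (nat_lit 5) (nat_lit 60) (nat_lit 5) (nat_lit 61) (nat_lit 4) (nat_lit 296) (nat_lit 250) (nat_lit 234)))) (XT.nd (nat_lit 156) (nat_lit 304) (nat_lit 0) (XT.nd (nat_lit 78) (nat_lit 152) (nat_lit 0) (XT.lf (nat_lit 0) (nat_lit 2418992520)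 (nat_lit 228) (nat_lit 2782166304) (nat_lit 304) (nat_lit 6602782158) (nat_lit 53) (nat_lit 5) (nat_lit 56) (nat_lit 5) (nat_lit 57) (nat_lit 5) (nat_lit 297) (nat_lit 250) (nat_lit 233)) (XT.lf (nat_lit 0) (nat_lit 1193391812) (nat_lit 152) (nat_lit 9539469712) (nat_lit 228) (nat_lit 1445548315) (nat_lit 51) (nat_lit 5) (nat_lit 53) (nat_lit 5) (nat_lit 54) (nat_lit 4) (nat_lit 298) (nat_lit 250) (nat_lit 232))) (XT.nd (nat_lit 78) (nat_lit 228) (nat_lit 0) (XT.lf (nat_lit 0) (nat_lit 3860024636) (nat_lit 228) (nat_lit 387683855) (nat_lit 76) (nat_lit 8323844027) (nat_lit 50) (nat_lit 5) (nat_lit 53) (nat_lit 5) (nat_lit 51) (nat_lit 5) (nat_lit 299) (nat_lit 250) (nat_lit 231)) (XT.lf (nat_lit 0) (nat_lit 9366794127) (nat_lit 304) (nat_lit 2301426183) (nat_lit 76) (nat_lit 1316855122) (nat_lit 47) (nat_lit 5) (nat_lit 51) (nat_lit 5) (nat_lit 48) (nat_lit 4) (nat_lit 300) (nat_lit 250)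 (nat_lit 230)))))) (XT.nd (nat_lit 468) (nat_lit 760) (nat_lit 0) (XT.nd (nat_lit 234) (nat_lit 380) (nat_lit 0) (XT.nd (nat_lit 78) (nat_lit 380) (nat_lit 0) (XT.lf (nat_lit 0) (nat_lit 1680964232) (nat_lit 228) (nat_lit 4643752310) (nat_lit 76) (nat_lit 7094623861) (nat_lit 44) (nat_lit 5) (nat_lit 47) (nat_lit 5) (nat_lit 45) (nat_lit 5) (nat_lit 301) (nat_lit 250) (nat_lit 229)) (XT.nd (nat_lit 78) (nat_lit 152) (nat_lit 0) (XT.lf (nat_lit 0) (nat_lit 6438978114) (nat_lit 228) (nat_lit 675070339) (nat_lit 304) (nat_lit 6761995934) (nat_lit 41) (nat_lit 5) (nat_lit 44) (nat_lit 5) (nat_lit 45) (nat_lit 5) (nat_lit 302) (nat_lit 250) (nat_lit 228)) (XT.lf (nat_lit 0) (nat_lit 3611505208) (nat_lit 152) (nat_lit 9201835776) (nat_lit 228) (nat_lit 1542512387) (nat_lit 39) (nat_lit 5) (nat_lit 41) (nat_lit 5) (nat_lit 42) (nat_lit 4) (nat_lit 303) (nat_lit 250) (nat_lit 227)))) (XT.nd (nat_lit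 78) (nat_lit 152) (nat_lit 0) (XT.lf (nat_lit 0) (nat_lit 246953214) (nat_lit 152) (nat_lit 3564749861) (nat_lit 228) (nat_lit 11048394478) (nat_lit 36) (nat_lit 5) (nat_lit 38) (nat_lit 5) (nat_lit 39) (nat_lit 5) (nat_lit 304) (nat_lit 250) (nat_lit 226)) (XT.nd (nat_lit 78) (nat_lit 152) (nat_lit 0) (XT.lf (nat_lit 0) (nat_lit 9404021962) (nat_lit 228) (nat_lit 3633015799) (nat_lit 76) (nat_lit 2352082903) (nat_lit 36) (nat_lit 5) (nat_lit 39) (nat_lit 5) (nat_lit 37) (nat_lit 4) (nat_lit 305) (nat_lit 250) (nat_lit 225)) (XT.lf (nat_lit 0) (nat_lit 7803041930) (nat_lit 152) (nat_lit 7457872870) (nat_lit 228) (nat_lit 684220647) (nat_lit 34) (nat_lit 5) (nat_lit 36) (nat_lit 5) (nat_lit 37) (nat_lit 4) (nat_lit 306) (nat_lit 250) (nat_lit 224))))) (XT.nd (nat_lit 234) (nat_lit 380) (nat_lit 0) (XT.nd (nat_lit 78) (nat_lit 152) (nat_lit 0) (XT.lf (nat_lit 0) (nat_lit 3167610810) (nat_lit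 152) (nat_lit 1563774895) (nat_lit 228) (nat_lit 11797891695) (nat_lit 31) (nat_lit 5) (nat_lit 33) (nat_lit 5) (nat_lit 34) (nat_lit 5) (nat_lit 307) (nat_lit 250) (nat_lit 223)) (XT.nd (nat_lit 78) (nat_lit 152) (nat_lit 0) (XT.lf (nat_lit 0) (nat_lit 10412755566) (nat_lit 228) (nat_lit 2182238609) (nat_lit 76) (nat_lit 4547233625) (nat_lit 31) (nat_lit 5) (nat_lit 34) (nat_lit 5) (nat_lit 32) (nat_lit 4) (nat_lit 308) (nat_lit 250) (nat_lit 222)) (XT.lf (nat_lit 0) (nat_lit 9533186566) (nat_lit 152) (nat_lit 6838047119) (nat_lit 228) (nat_lit 1414875697) (nat_lit 29) (nat_lit 5) (nat_lit 31) (nat_lit 5) (nat_lit 32) (nat_lit 4) (nat_lit 309) (nat_lit 250) (nat_lit 221)))) (XT.nd (nat_lit 156) (nat_lit 152) (nat_lit 0) (XT.nd (nat_lit 78) (nat_lit 0) (nat_lit 0) (XT.lf (nat_lit 0) (nat_lit 3251687831) (nat_lit 152) (nat_lit 774517497) (nat_lit 228) (nat_lit 14436586576) (nat_lit 26) (nat_lit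 5) (nat_lit 28) (nat_lit 5) (nat_lit 29) (nat_lit 5) (nat_lit 310) (nat_lit 250) (nat_lit 220)) (XT.lf (nat_lit 0) (nat_lit 9740820408) (nat_lit 228) (nat_lit 3922760267) (nat_lit 76) (nat_lit 5508451283) (nat_lit 26) (nat_lit 5) (nat_lit 29) (nat_lit 5) (nat_lit 27) (nat_lit 4) (nat_lit 311) (nat_lit 250) (nat_lit 219))) (XT.nd (nat_lit 78) (nat_lit 76) (nat_lit 0) (XT.lf (nat_lit 0) (nat_lit 7898100040) (nat_lit 76) (nat_lit 7822915953) (nat_lit 152) (nat_lit 4196385309) (nat_lit 25) (nat_lit 5) (nat_lit 26) (nat_lit 5) (nat_lit 27) (nat_lit 4) (nat_lit 312) (nat_lit 250) (nat_lit 218)) (XT.lf (nat_lit 0) (nat_lit 1213931640) (nat_lit 152) (nat_lit 494924916) (nat_lit 76) (nat_lit 18992692041) (nat_lit 24) (nat_lit 5) (nat_lit 26) (nat_lit 5) (nat_lit 25) (nat_lit 5) (nat_lit 313) (nat_lit 250) (nat_lit 217))))))))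
noncomputable def xc33 : XT := (XT.nd (nat_lit 2028) (nat_lit 304) (nat_lit 0) (XT.nd (nat_lit 1014) (nat_lit 456) (nat_lit 0) (XT.nd (nat_lit 468) (nat_lit 304) (nat_lit 0) (XT.nd (nat_lit 234) (nat_lit 304) (nat_lit 0) (XT.nd (nat_lit 78) (nat_lit 76) (nat_lit 0) (XT.lf (nat_lit 0) (nat_lit 6869830830) (nat_lit 228) (nat_lit 9946084880) (nat_lit 76) (nat_lit 4705940761) (nat_lit 22) (nat_lit 5) (nat_lit 25) (nat_lit 5) (nat_lit 23) (nat_lit 4) (nat_lit 314) (nat_lit 250) (nat_lit 216)) (XT.nd (nat_lit 78) (nat_lit 0) (nat_lit 0) (XT.lf (nat_lit 0) (nat_lit 1729507068) (nat_lit 76) (nat_lit 11023612893) (nat_lit 152) (nat_lit 9631774579) (nat_lit 21) (nat_lit 5) (nat_lit 22) (nat_lit 5) (nat_lit 23) (nat_lit 4) (nat_lit 315) (nat_lit 250) (nat_lit 215)) (XT.lf (nat_lit 0) (nat_lit 14037169069) (nat_lit 76) (nat_lit 4904330010) (nat_lit 152) (nat_lit 4349307812) (nat_lit 21) (nat_lit 5)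 (nat_lit 22) (nat_lit 5) (nat_lit 23) (nat_lit 4) (nat_lit 316) (nat_lit 250) (nat_lit 214)))) (XT.nd (nat_lit 78) (nat_lit 76) (nat_lit 0) (XT.lf (nat_lit 0) (nat_lit 1125282987) (nat_lit 228) (nat_lit 21654210324) (nat_lit 76) (nat_lit 1463681726) (nat_lit 18) (nat_lit 5) (nat_lit 21) (nat_lit 5) (nat_lit 19) (nat_lit 4) (nat_lit 317) (nat_lit 250) (nat_lit 213)) (XT.nd (nat_lit 78) (nat_lit 76) (nat_lit 0) (XT.lf (nat_lit 0) (nat_lit 6844315803) (nat_lit 228) (nat_lit 10268907292) (nat_lit 76) (nat_lit 8126870895) (nat_lit 18) (nat_lit 5) (nat_lit 21) (nat_lit 5) (nat_lit 19) (nat_lit 4) (nat_lit 318) (nat_lit 250) (nat_lit 212)) (XT.lf (nat_lit 0) (nat_lit 1572214481) (nat_lit 76) (nat_lit 11210413048) (nat_lit 152) (nat_lit 13506273598) (nat_lit 17) (nat_lit 5) (nat_lit 18) (nat_lit 5) (nat_lit 19) (nat_lit 4) (nat_lit 319) (nat_lit 250) (nat_lit 211))))) (XT.nd (nat_lit 234) (nat_lit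 76) (nat_lit 0) (XT.nd (nat_lit 78) (nat_lit 228) (nat_lit 0) (XT.lf (nat_lit 0) (nat_lit 14079987669) (nat_lit 76) (nat_lit 4964339546) (nat_lit 152) (nat_lit 8345067290) (nat_lit 17) (nat_lit 5) (nat_lit 18) (nat_lit 5) (nat_lit 19) (nat_lit 4) (nat_lit 320) (nat_lit 250) (nat_lit 210)) (XT.nd (nat_lit 78) (nat_lit 228) (nat_lit 0) (XT.lf (nat_lit 0) (nat_lit 25558414742) (nat_lit 152) (nat_lit 1482159954) (nat_lit 0) (nat_lit 1506196914) (nat_lit 17) (nat_lit 5) (nat_lit 19) (nat_lit 4) (nat_lit 17) (nat_lit 4) (nat_lit 321) (nat_lit 250) (nat_lit 209)) (XT.lf (nat_lit 0) (nat_lit 2668709345) (nat_lit 228) (nat_lit 18813922121) (nat_lit 76) (nat_lit 8276142299) (nat_lit 14) (nat_lit 5) (nat_lit 17) (nat_lit 5) (nat_lit 15) (nat_lit 4) (nat_lit 322) (nat_lit 250) (nat_lit 208)))) (XT.nd (nat_lit 156) (nat_lit 0) (nat_lit 0) (XT.nd (nat_lit 78) (nat_lit 76) (nat_lit 0) (XT.lf (nat_lit 0)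 (nat_lit 8491926138) (nat_lit 228) (nat_lit 7163443715) (nat_lit 76) (nat_lit 15376799107) (nat_lit 14) (nat_lit 5) (nat_lit 17) (nat_lit 5) (nat_lit 15) (nat_lit 4) (nat_lit 323) (nat_lit 250) (nat_lit 207)) (XT.lf (nat_lit 0) (nat_lit 5047677219) (nat_lit 76) (nat_lit 9539641207) (nat_lit 152) (nat_lit 17782517039) (nat_lit 13) (nat_lit 5) (nat_lit 14) (nat_lit 5) (nat_lit 15) (nat_lit 4) (nat_lit 324) (nat_lit 250) (nat_lit 206))) (XT.nd (nat_lit 78) (nat_lit 0) (nat_lit 0) (XT.lf (nat_lit 0) (nat_lit 17902120010) (nat_lit 76) (nat_lit 3093685558) (nat_lit 152) (nat_lit 12778360438) (nat_lit 13) (nat_lit 5) (nat_lit 14) (nat_lit 5) (nat_lit 15) (nat_lit 4) (nat_lit 325) (nat_lit 250) (nat_lit 205)) (XT.lf (nat_lit 0) (nat_lit 27697266625) (nat_lit 152) (nat_lit 3997537825) (nat_lit 0) (nat_lit 3554761156) (nat_lit 13) (nat_lit 5) (nat_lit 15) (nat_lit 4) (nat_lit 13) (nat_lit 4) (nat_lit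 326) (nat_lit 250) (nat_lit 204)))))) (XT.nd (nat_lit 468) (nat_lit 228) (nat_lit 0) (XT.nd (nat_lit 234) (nat_lit 76) (nat_lit 0) (XT.nd (nat_lit 78) (nat_lit 76) (nat_lit 0) (XT.lf (nat_lit 0) (nat_lit 8497877980) (nat_lit 76) (nat_lit 26289051410) (nat_lit 76) (nat_lit 2010239571) (nat_lit 12) (nat_lit 4) (nat_lit 13) (nat_lit 5) (nat_lit 13) (nat_lit 4) (nat_lit 327) (nat_lit 250) (nat_lit 203)) (XT.nd (nat_lit 78) (nat_lit 0) (nat_lit 0) (XT.lf (nat_lit 0) (nat_lit 3717616514) (nat_lit 152) (nat_lit 16861865905) (nat_lit 76) (nat_lit 17842106622) (nat_lit 11) (nat_lit 5) (nat_lit 13) (nat_lit 5) (nat_lit 12) (nat_lit 4) (nat_lit 328) (nat_lit 250) (nat_lit 202)) (XT.lf (nat_lit 0) (nat_lit 9634925559) (nat_lit 152) (nat_lit 4973362440) (nat_lit 76) (nat_lit 25520030312) (nat_lit 11) (nat_lit 5) (nat_lit 13) (nat_lit 5) (nat_lit 12) (nat_lit 4) (nat_lit 329) (nat_lit 250) (nat_lit 201))))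 (XT.nd (nat_lit 78) (nat_lit 0) (nat_lit 0) (XT.lf (nat_lit 0) (nat_lit 7561399158) (nat_lit 76) (nat_lit 8306289044) (nat_lit 152) (nat_lit 26052131376) (nat_lit 10) (nat_lit 5) (nat_lit 11) (nat_lit 5) (nat_lit 12) (nat_lit 4) (nat_lit 330) (nat_lit 250) (nat_lit 200)) (XT.nd (nat_lit 78) (nat_lit 0) (nat_lit 0) (XT.lf (nat_lit 0) (nat_lit 20733854028) (nat_lit 76) (nat_lit 1677969375) (nat_lit 152) (nat_lit 21389102546) (nat_lit 10) (nat_lit 5) (nat_lit 11) (nat_lit 5) (nat_lit 12) (nat_lit 4) (nat_lit 331) (nat_lit 250) (nat_lit 199)) (XT.lf (nat_lit 0) (nat_lit 29284545516) (nat_lit 152) (nat_lit 11351585049) (nat_lit 0) (nat_lit 5139936692) (nat_lit 10) (nat_lit 5) (nat_lit 12) (nat_lit 4) (nat_lit 10) (nat_lit 4) (nat_lit 332) (nat_lit 250) (nat_lit 198))))) (XT.nd (nat_lit 234) (nat_lit 152) (nat_lit 0) (XT.nd (nat_lit 78) (nat_lit 0) (nat_lit 0) (XT.lf (nat_lit 0) (nat_lit 864215902)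 (nat_lit 76) (nat_lit 35614891910) (nat_lit 76) (nat_lit 11371531715) (nat_lit 9) (nat_lit 4) (nat_lit 10) (nat_lit 5) (nat_lit 10) (nat_lit 4) (nat_lit 333) (nat_lit 250) (nat_lit 197)) (XT.nd (nat_lit 78) (nat_lit 0) (nat_lit 0) (XT.lf (nat_lit 0) (nat_lit 13845081196) (nat_lit 76) (nat_lit 30259574835) (nat_lit 76) (nat_lit 5922165716) (nat_lit 9) (nat_lit 4) (nat_lit 10) (nat_lit 5) (nat_lit 10) (nat_lit 4) (nat_lit 334) (nat_lit 250) (nat_lit 196)) (XT.lf (nat_lit 0) (nat_lit 27395998854) (nat_lit 76) (nat_lit 24672057336) (nat_lit 76) (nat_lit 245077812) (nat_lit 9) (nat_lit 4) (nat_lit 10) (nat_lit 5) (nat_lit 10) (nat_lit 4) (nat_lit 335) (nat_lit 250) (nat_lit 195)))) (XT.nd (nat_lit 156) (nat_lit 76) (nat_lit 0) (XT.nd (nat_lit 78) (nat_lit 0) (nat_lit 0) (XT.lf (nat_lit 0) (nat_lit 5562543351) (nat_lit 152) (nat_lit 13220321668) (nat_lit 76) (nat_lit 35930518833) (nat_lit 8) (nat_lit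 5) (nat_lit 10) (nat_lit 5) (nat_lit 9) (nat_lit 4) (nat_lit 336) (nat_lit 250) (nat_lit 194)) (XT.lf (nat_lit 0) (nat_lit 11615729789) (nat_lit 152) (nat_lit 1013596194) (nat_lit 76) (nat_lit 44605455821) (nat_lit 8) (nat_lit 5) (nat_lit 10) (nat_lit 5) (nat_lit 9) (nat_lit 4) (nat_lit 337) (nat_lit 250) (nat_lit 193))) (XT.nd (nat_lit 78) (nat_lit 0) (nat_lit 0) (XT.lf (nat_lit 0) (nat_lit 11967999517) (nat_lit 76) (nat_lit 6080720417) (nat_lit 152) (nat_lit 41831230621) (nat_lit 7) (nat_lit 5) (nat_lit 8) (nat_lit 5) (nat_lit 9) (nat_lit 4) (nat_lit 338) (nat_lit 250) (nat_lit 192)) (XT.lf (nat_lit 0) (nat_lit 24784511967) (nat_lit 152) (nat_lit 37112809223) (nat_lit 0) (nat_lit 760636487) (nat_lit 7) (nat_lit 5) (nat_lit 9) (nat_lit 4) (nat_lit 7) (nat_lit 4) (nat_lit 339) (nat_lit 250) (nat_lit 191))))))) (XT.nd (nat_lit 1014) (nat_lit 76) (nat_lit 0) (XT.nd (nat_lit 468) (nat_lit 152)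 (nat_lit 0) (XT.nd (nat_lit 234) (nat_lit 76) (nat_lit 0) (XT.nd (nat_lit 78) (nat_lit 0) (nat_lit 0) (XT.lf (nat_lit 0) (nat_lit 31883201057) (nat_lit 152) (nat_lit 25899705768) (nat_lit 0) (nat_lit 7791188921) (nat_lit 7) (nat_lit 5) (nat_lit 9) (nat_lit 4) (nat_lit 7) (nat_lit 4) (nat_lit 340) (nat_lit 250) (nat_lit 190)) (XT.nd (nat_lit 78) (nat_lit 0) (nat_lit 0) (XT.lf (nat_lit 0) (nat_lit 39303237240) (nat_lit 152) (nat_lit 14187491204) (nat_lit 0) (nat_lit 15146333051) (nat_lit 7) (nat_lit 5) (nat_lit 9) (nat_lit 4) (nat_lit 7) (nat_lit 4) (nat_lit 341) (nat_lit 250) (nat_lit 189)) (XT.lf (nat_lit 0) (nat_lit 47062287270) (nat_lit 152) (nat_lit 1948279305) (nat_lit 0) (nat_lit 22843581125) (nat_lit 7) (nat_lit 5) (nat_lit 9) (nat_lit 4) (nat_lit 7) (nat_lit 4) (nat_lit 342) (nat_lit 250) (nat_lit 188)))) (XT.nd (nat_lit 78) (nat_lit 0) (nat_lit 0) (XT.lf (nat_lit 0) (nat_lit 11062948887)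 (nat_lit 76) (nat_lit 44222220021) (nat_lit 76) (nat_lit 19944654870) (nat_lit 6) (nat_lit 4) (nat_lit 7) (nat_lit 5) (nat_lit 7) (nat_lit 4) (nat_lit 343) (nat_lit 250) (nat_lit 187)) (XT.nd (nat_lit 78) (nat_lit 0) (nat_lit 0) (XT.lf (nat_lit 0) (nat_lit 24711229651) (nat_lit 76) (nat_lit 39198485550) (nat_lit 76) (nat_lit 14864864204) (nat_lit 6) (nat_lit 4) (nat_lit 7) (nat_lit 5) (nat_lit 7) (nat_lit 4) (nat_lit 344) (nat_lit 250) (nat_lit 186)) (XT.lf (nat_lit 0) (nat_lit 38990284316) (nat_lit 76) (nat_lit 33947075694) (nat_lit 76) (nat_lit 9560067495) (nat_lit 6) (nat_lit 4) (nat_lit 7) (nat_lit 5) (nat_lit 7) (nat_lit 4) (nat_lit 345) (nat_lit 250) (nat_lit 185))))) (XT.nd (nat_lit 234) (nat_lit 76) (nat_lit 0) (XT.nd (nat_lit 78) (nat_lit 76) (nat_lit 0) (XT.lf (nat_lit 0) (nat_lit 53934110629) (nat_lit 76) (nat_lit 28455487094) (nat_lit 76) (nat_lit 4017634273) (nat_lit 6) (nat_lit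 4) (nat_lit 7) (nat_lit 5) (nat_lit 7) (nat_lit 4) (nat_lit 346) (nat_lit 250) (nat_lit 184)) (XT.nd (nat_lit 78) (nat_lit 0) (nat_lit 0) (XT.lf (nat_lit 0) (nat_lit 1740982759) (nat_lit 152) (nat_lit 20952081268) (nat_lit 76) (nat_lit 67819725859) (nat_lit 5) (nat_lit 5) (nat_lit 7) (nat_lit 5) (nat_lit 6) (nat_lit 4) (nat_lit 347) (nat_lit 250) (nat_lit 183)) (XT.lf (nat_lit 0) (nat_lit 7680663737) (nat_lit 152) (nat_lit 8940646454) (nat_lit 76) (nat_lit 78201844483) (nat_lit 5) (nat_lit 5) (nat_lit 7) (nat_lit 5) (nat_lit 6) (nat_lit 4) (nat_lit 348) (nat_lit 250) (nat_lit 182)))) (XT.nd (nat_lit 156) (nat_lit 0) (nat_lit 0) (XT.nd (nat_lit 78) (nat_lit 0) (nat_lit 0) (XT.lf (nat_lit 0) (nat_lit 3700613995) (nat_lit 76) (nat_lit 10228907842) (nat_lit 152) (nat_lit 85419158716) (nat_lit 4) (nat_lit 5) (nat_lit 5) (nat_lit 5) (nat_lit 6) (nat_lit 4) (nat_lit 349) (nat_lit 250) (nat_lit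 181)) (XT.lf (nat_lit 0) (nat_lit 17119043663) (nat_lit 76) (nat_lit 3441147959) (nat_lit 152) (nat_lit 83538218275) (nat_lit 4) (nat_lit 5) (nat_lit 5) (nat_lit 5) (nat_lit 6) (nat_lit 4) (nat_lit 350) (nat_lit 250) (nat_lit 180))) (XT.nd (nat_lit 78) (nat_lit 0) (nat_lit 0) (XT.lf (nat_lit 0) (nat_lit 27536064602) (nat_lit 152) (nat_lit 77952883988) (nat_lit 0) (nat_lit 3596274870) (nat_lit 4) (nat_lit 5) (nat_lit 6) (nat_lit 4) (nat_lit 4) (nat_lit 4) (nat_lit 351) (nat_lit 250) (nat_lit 179)) (XT.lf (nat_lit 0) (nat_lit 34874737492) (nat_lit 152) (nat_lit 68548115690) (nat_lit 0) (nat_lit 10898111799) (nat_lit 4) (nat_lit 5) (nat_lit 6) (nat_lit 4) (nat_lit 4) (nat_lit 4) (nat_lit 352) (nat_lit 250) (nat_lit 178)))))) (XT.nd (nat_lit 546) (nat_lit 0) (nat_lit 0) (XT.nd (nat_lit 234) (nat_lit 76) (nat_lit 0) (XT.nd (nat_lit 78) (nat_lit 0) (nat_lit 0) (XT.lf (nat_lit 0) (nat_lit 42560604904)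 (nat_lit 152) (nat_lit 58709590617) (nat_lit 0) (nat_lit 18548897344) (nat_lit 4) (nat_lit 5) (nat_lit 6) (nat_lit 4) (nat_lit 4) (nat_lit 4) (nat_lit 353) (nat_lit 250) (nat_lit 177)) (XT.nd (nat_lit 78) (nat_lit 0) (nat_lit 0) (XT.lf (nat_lit 0) (nat_lit 50611966523) (nat_lit 152) (nat_lit 48413883708) (nat_lit 0) (nat_lit 26566847661) (nat_lit 4) (nat_lit 5) (nat_lit 6) (nat_lit 4) (nat_lit 4) (nat_lit 4) (nat_lit 354) (nat_lit 250) (nat_lit 176)) (XT.lf (nat_lit 0) (nat_lit 59047992258) (nat_lit 152) (nat_lit 37636481375) (nat_lit 0) (nat_lit 34971053107) (nat_lit 4) (nat_lit 5) (nat_lit 6) (nat_lit 4) (nat_lit 4) (nat_lit 4) (nat_lit 355) (nat_lit 250) (nat_lit 175)))) (XT.nd (nat_lit 156) (nat_lit 76) (nat_lit 0) (XT.nd (nat_lit 78) (nat_lit 0) (nat_lit 0) (XT.lf (nat_lit 0) (nat_lit 67888767883) (nat_lit 152) (nat_lit 26351723138) (nat_lit 0) (nat_lit 43781523697) (nat_lit 4) (nat_lit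 5) (nat_lit 6) (nat_lit 4) (nat_lit 4) (nat_lit 4) (nat_lit 356) (nat_lit 250) (nat_lit 174)) (XT.lf (nat_lit 0) (nat_lit 77155342865) (nat_lit 152) (nat_lit 14532740523) (nat_lit 0) (nat_lit 53019236739) (nat_lit 4) (nat_lit 5) (nat_lit 6) (nat_lit 4) (nat_lit 4) (nat_lit 4) (nat_lit 357) (nat_lit 250) (nat_lit 173))) (XT.nd (nat_lit 78) (nat_lit 76) (nat_lit 0) (XT.lf (nat_lit 0) (nat_lit 86869780478) (nat_lit 152) (nat_lit 2151393097) (nat_lit 0) (nat_lit 62706186791) (nat_lit 4) (nat_lit 5) (nat_lit 6) (nat_lit 4) (nat_lit 4) (nat_lit 4) (nat_lit 358) (nat_lit 250) (nat_lit 172)) (XT.lf (nat_lit 0) (nat_lit 11037173549) (nat_lit 76) (nat_lit 86124132848) (nat_lit 76) (nat_lit 61934360532) (nat_lit 3) (nat_lit 4) (nat_lit 4) (nat_lit 5) (nat_lit 4) (nat_lit 4) (nat_lit 359) (nat_lit 250) (nat_lit 171))))) (XT.nd (nat_lit 34242) (nat_lit 0) (nat_lit 10108) (XT.nd (nat_lit 78) (nat_lit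 0) (nat_lit 0) (XT.lf (nat_lit 0) (nat_lit 24903683502) (nat_lit 76) (nat_lit 83071589395) (nat_lit 76) (nat_lit 58856885051) (nat_lit 3) (nat_lit 4) (nat_lit 4) (nat_lit 5) (nat_lit 4) (nat_lit 4) (nat_lit 360) (nat_lit 250) (nat_lit 170)) (XT.nd (nat_lit 78) (nat_lit 0) (nat_lit 0) (XT.lf (nat_lit 0) (nat_lit 39438335320) (nat_lit 76) (nat_lit 79878000107) (nat_lit 76) (nat_lit 55639550974) (nat_lit 3) (nat_lit 4) (nat_lit 4) (nat_lit 5) (nat_lit 4) (nat_lit 4) (nat_lit 361) (nat_lit 250) (nat_lit 169)) (XT.lf (nat_lit 0) (nat_lit 54675735317) (nat_lit 76) (nat_lit 76535761200) (nat_lit 76) (nat_lit 52274697982) (nat_lit 3) (nat_lit 4) (nat_lit 4) (nat_lit 5) (nat_lit 4) (nat_lit 4) (nat_lit 362) (nat_lit 250) (nat_lit 168)))) (XT.nd (nat_lit 156) (nat_lit 1064) (nat_lit 0) (XT.nd (nat_lit 78) (nat_lit 608) (nat_lit 0) (XT.lf (nat_lit 0) (nat_lit 966236428) (nat_lit 608) (nat_lit 1387684235)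 (nat_lit 608) (nat_lit 1387684235) (nat_lit 158) (nat_lit 4) (nat_lit 166) (nat_lit 5) (nat_lit 166) (nat_lit 4) (nat_lit 278) (nat_lit 251) (nat_lit 251)) (XT.lf (nat_lit 0) (nat_lit 2571012497) (nat_lit 608) (nat_lit 4765537647) (nat_lit 0) (nat_lit 272307428) (nat_lit 150) (nat_lit 5) (nat_lit 158) (nat_lit 4) (nat_lit 150) (nat_lit 4) (nat_lit 279) (nat_lit 251) (nat_lit 250))) (XT.nd (nat_lit 78) (nat_lit 456) (nat_lit 0) (XT.lf (nat_lit 0) (nat_lit 250928981) (nat_lit 608) (nat_lit 3978562159) (nat_lit 76) (nat_lit 3514657341) (nat_lit 142) (nat_lit 5) (nat_lit 150) (nat_lit 5) (nat_lit 143) (nat_lit 4) (nat_lit 280) (nat_lit 251) (nat_lit 249)) (XT.lf (nat_lit 0) (nat_lit 4698508615) (nat_lit 456) (nat_lit 853929743) (nat_lit 532) (nat_lit 2337104994) (nat_lit 136) (nat_lit 5) (nat_lit 142) (nat_lit 5) (nat_lit 143) (nat_lit 4) (nat_lit 281) (nat_lit 251) (nat_lit 248))))))))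
noncomputable def xc34 : XT := (XT.nd (nat_lit 2028) (nat_lit 1824) (nat_lit 0) (XT.nd (nat_lit 1014) (nat_lit 2280) (nat_lit 0) (XT.nd (nat_lit 468) (nat_lit 2356) (nat_lit 0) (XT.nd (nat_lit 234) (nat_lit 1672) (nat_lit 0) (XT.nd (nat_lit 78) (nat_lit 988) (nat_lit 0) (XT.lf (nat_lit 0) (nat_lit 2902287214) (nat_lit 532) (nat_lit 2417725030) (nat_lit 76) (nat_lit 2725122568) (nat_lit 129) (nat_lit 5) (nat_lit 136) (nat_lit 5) (nat_lit 130) (nat_lit 4) (nat_lit 282) (nat_lit 251) (nat_lit 247)) (XT.nd (nat_lit 78) (nat_lit 456) (nat_lit 0) (XT.lf (nat_lit 0) (nat_lit 19782038) (nat_lit 532) (nat_lit 1646446340) (nat_lit 76) (nat_lit 6545636894) (nat_lit 122) (nat_lit 5) (nat_lit 129) (nat_lit 5) (nat_lit 123) (nat_lit 5) (nat_lit 283) (nat_lit 251) (nat_lit 246)) (XT.lf (nat_lit 0) (nat_lit 5231263536) (nat_lit 532) (nat_lit 928178567) (nat_lit 76) (nat_lit 2229384283) (nat_lit 116) (nat_lit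 5) (nat_lit 123) (nat_lit 5) (nat_lit 117) (nat_lit 4) (nat_lit 284) (nat_lit 251) (nat_lit 245)))) (XT.nd (nat_lit 78) (nat_lit 1216) (nat_lit 0) (XT.lf (nat_lit 0) (nat_lit 1984863626) (nat_lit 456) (nat_lit 239179194) (nat_lit 76) (nat_lit 6353356315) (nat_lit 110) (nat_lit 5) (nat_lit 116) (nat_lit 5) (nat_lit 111) (nat_lit 5) (nat_lit 285) (nat_lit 251) (nat_lit 244)) (XT.nd (nat_lit 78) (nat_lit 456) (nat_lit 0) (XT.lf (nat_lit 0) (nat_lit 402382601) (nat_lit 380) (nat_lit 6828392949) (nat_lit 456) (nat_lit 1546631342) (nat_lit 100) (nat_lit 5) (nat_lit 105) (nat_lit 5) (nat_lit 106) (nat_lit 4) (nat_lit 286) (nat_lit 251) (nat_lit 243)) (XT.lf (nat_lit 0) (nat_lit 970831565) (nat_lit 380) (nat_lit 2625663710) (nat_lit 456) (nat_lit 5392565982) (nat_lit 94) (nat_lit 5) (nat_lit 99) (nat_lit 5) (nat_lit 100) (nat_lit 5) (nat_lit 287) (nat_lit 251) (nat_lit 242))))) (XT.nd (nat_lit 234)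 (nat_lit 1216) (nat_lit 0) (XT.nd (nat_lit 78) (nat_lit 836) (nat_lit 0) (XT.lf (nat_lit 0) (nat_lit 1471892415) (nat_lit 304) (nat_lit 7410403931) (nat_lit 380) (nat_lit 331276602) (nat_lit 90) (nat_lit 5) (nat_lit 94) (nat_lit 5) (nat_lit 95) (nat_lit 4) (nat_lit 288) (nat_lit 251) (nat_lit 241)) (XT.nd (nat_lit 78) (nat_lit 380) (nat_lit 0) (XT.lf (nat_lit 0) (nat_lit 1848316927) (nat_lit 380) (nat_lit 2968823591) (nat_lit 456) (nat_lit 4633033281) (nat_lit 84) (nat_lit 5) (nat_lit 89) (nat_lit 5) (nat_lit 90) (nat_lit 5) (nat_lit 289) (nat_lit 251) (nat_lit 240)) (XT.lf (nat_lit 0) (nat_lit 433767125) (nat_lit 380) (nat_lit 7567766683) (nat_lit 76) (nat_lit 1699257371) (nat_lit 79) (nat_lit 5) (nat_lit 84) (nat_lit 5) (nat_lit 80) (nat_lit 5) (nat_lit 290) (nat_lit 251) (nat_lit 239)))) (XT.nd (nat_lit 156) (nat_lit 608) (nat_lit 0) (XT.nd (nat_lit 78) (nat_lit 304) (nat_lit 0) (XT.lf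 (nat_lit 0) (nat_lit 2254910668) (nat_lit 304) (nat_lit 3349076528) (nat_lit 380) (nat_lit 4360410159) (nat_lit 75) (nat_lit 5) (nat_lit 79) (nat_lit 5) (nat_lit 80) (nat_lit 5) (nat_lit 291) (nat_lit 251) (nat_lit 238)) (XT.lf (nat_lit 0) (nat_lit 710353297) (nat_lit 304) (nat_lit 7994588407) (nat_lit 76) (nat_lit 1538181048) (nat_lit 71) (nat_lit 5) (nat_lit 75) (nat_lit 5) (nat_lit 72) (nat_lit 5) (nat_lit 292) (nat_lit 251) (nat_lit 237))) (XT.nd (nat_lit 78) (nat_lit 304) (nat_lit 0) (XT.lf (nat_lit 0) (nat_lit 2036293223) (nat_lit 304) (nat_lit 3866754411) (nat_lit 380) (nat_lit 4632870251) (nat_lit 67) (nat_lit 5) (nat_lit 71) (nat_lit 5) (nat_lit 72) (nat_lit 5) (nat_lit 293) (nat_lit 251) (nat_lit 236)) (XT.lf (nat_lit 0) (nat_lit 441418647) (nat_lit 304) (nat_lit 9188965197) (nat_lit 76) (nat_lit 1214811505) (nat_lit 63) (nat_lit 5) (nat_lit 67) (nat_lit 5) (nat_lit 64) (nat_lit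 5) (nat_lit 294) (nat_lit 251) (nat_lit 235)))))) (XT.nd (nat_lit 468) (nat_lit 1064) (nat_lit 0) (XT.nd (nat_lit 234) (nat_lit 684) (nat_lit 0) (XT.nd (nat_lit 78) (nat_lit 304) (nat_lit 0) (XT.lf (nat_lit 0) (nat_lit 1012960735) (nat_lit 228) (nat_lit 4632031007) (nat_lit 304) (nat_lit 5524590941) (nat_lit 60) (nat_lit 5) (nat_lit 63) (nat_lit 5) (nat_lit 64) (nat_lit 5) (nat_lit 295) (nat_lit 251) (nat_lit 234)) (XT.nd (nat_lit 78) (nat_lit 76) (nat_lit 0) (XT.lf (nat_lit 0) (nat_lit 158531460) (nat_lit 228) (nat_lit 10891362818) (nat_lit 304) (nat_lit 462216425) (nat_lit 57) (nat_lit 5) (nat_lit 60) (nat_lit 5) (nat_lit 61) (nat_lit 4) (nat_lit 296) (nat_lit 251) (nat_lit 233)) (XT.lf (nat_lit 0) (nat_lit 4752789207) (nat_lit 304) (nat_lit 1004938710) (nat_lit 76) (nat_lit 6112955205) (nat_lit 56) (nat_lit 5) (nat_lit 60) (nat_lit 5) (nat_lit 57) (nat_lit 5) (nat_lit 297) (nat_lit 251)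 (nat_lit 232)))) (XT.nd (nat_lit 78) (nat_lit 456) (nat_lit 0) (XT.lf (nat_lit 0) (nat_lit 9816056930) (nat_lit 228) (nat_lit 346781790) (nat_lit 304) (nat_lit 2086029797) (nat_lit 53) (nat_lit 5) (nat_lit 56) (nat_lit 5) (nat_lit 57) (nat_lit 5) (nat_lit 298) (nat_lit 251) (nat_lit 231)) (XT.nd (nat_lit 78) (nat_lit 228) (nat_lit 0) (XT.lf (nat_lit 0) (nat_lit 3131352336) (nat_lit 228) (nat_lit 4239223988) (nat_lit 76) (nat_lit 5274702141) (nat_lit 50) (nat_lit 5) (nat_lit 53) (nat_lit 5) (nat_lit 51) (nat_lit 5) (nat_lit 299) (nat_lit 251) (nat_lit 230)) (XT.lf (nat_lit 0) (nat_lit 6656592399) (nat_lit 228) (nat_lit 1860001489) (nat_lit 304) (nat_lit 4545912283) (nat_lit 47) (nat_lit 5) (nat_lit 50) (nat_lit 5) (nat_lit 51) (nat_lit 5) (nat_lit 300) (nat_lit 251) (nat_lit 229))))) (XT.nd (nat_lit 234) (nat_lit 608) (nat_lit 0) (XT.nd (nat_lit 78) (nat_lit 228) (nat_lit 0) (XT.lf (nat_lit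 0) (nat_lit 643253922) (nat_lit 228) (nat_lit 8993493769) (nat_lit 76) (nat_lit 3864190890) (nat_lit 44) (nat_lit 5) (nat_lit 47) (nat_lit 5) (nat_lit 45) (nat_lit 5) (nat_lit 301) (nat_lit 251) (nat_lit 228)) (XT.nd (nat_lit 78) (nat_lit 0) (nat_lit 0) (XT.lf (nat_lit 0) (nat_lit 1893758841) (nat_lit 228) (nat_lit 4072542357) (nat_lit 304) (nat_lit 7994694389) (nat_lit 41) (nat_lit 5) (nat_lit 44) (nat_lit 5) (nat_lit 45) (nat_lit 5) (nat_lit 302) (nat_lit 251) (nat_lit 227)) (XT.lf (nat_lit 0) (nat_lit 11533655814) (nat_lit 304) (nat_lit 1161798282) (nat_lit 76) (nat_lit 1749358054) (nat_lit 41) (nat_lit 5) (nat_lit 45) (nat_lit 5) (nat_lit 42) (nat_lit 4) (nat_lit 303) (nat_lit 251) (nat_lit 226)))) (XT.nd (nat_lit 156) (nat_lit 228) (nat_lit 0) (XT.nd (nat_lit 78) (nat_lit 152) (nat_lit 0) (XT.lf (nat_lit 0) (nat_lit 2392752516) (nat_lit 228) (nat_lit 4733924220) (nat_lit 76) (nat_lit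 7825130414) (nat_lit 38) (nat_lit 5) (nat_lit 41) (nat_lit 5) (nat_lit 39) (nat_lit 5) (nat_lit 304) (nat_lit 251) (nat_lit 225)) (XT.lf (nat_lit 0) (nat_lit 6604132731) (nat_lit 152) (nat_lit 1250370238) (nat_lit 228) (nat_lit 7630287884) (nat_lit 36) (nat_lit 5) (nat_lit 38) (nat_lit 5) (nat_lit 39) (nat_lit 5) (nat_lit 305) (nat_lit 251) (nat_lit 224))) (XT.nd (nat_lit 78) (nat_lit 76) (nat_lit 0) (XT.lf (nat_lit 0) (nat_lit 2364019054) (nat_lit 152) (nat_lit 11224523928) (nat_lit 228) (nat_lit 2455989704) (nat_lit 34) (nat_lit 5) (nat_lit 36) (nat_lit 5) (nat_lit 37) (nat_lit 4) (nat_lit 306) (nat_lit 251) (nat_lit 223)) (XT.lf (nat_lit 0) (nat_lit 2906471072) (nat_lit 228) (nat_lit 2511244472) (nat_lit 76) (nat_lit 11214139951) (nat_lit 33) (nat_lit 5) (nat_lit 36) (nat_lit 5) (nat_lit 34) (nat_lit 5) (nat_lit 307) (nat_lit 251) (nat_lit 222))))))) (XT.nd (nat_lit 1014) (nat_lit 608)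 (nat_lit 0) (XT.nd (nat_lit 468) (nat_lit 608) (nat_lit 0) (XT.nd (nat_lit 234) (nat_lit 228) (nat_lit 0) (XT.nd (nat_lit 78) (nat_lit 228) (nat_lit 0) (XT.lf (nat_lit 0) (nat_lit 8470134293) (nat_lit 228) (nat_lit 8071351496) (nat_lit 76) (nat_lit 706887820) (nat_lit 31) (nat_lit 5) (nat_lit 34) (nat_lit 5) (nat_lit 32) (nat_lit 4) (nat_lit 308) (nat_lit 251) (nat_lit 221)) (XT.nd (nat_lit 78) (nat_lit 76) (nat_lit 0) (XT.lf (nat_lit 0) (nat_lit 3435318095) (nat_lit 152) (nat_lit 10881538449) (nat_lit 228) (nat_lit 3578786100) (nat_lit 29) (nat_lit 5) (nat_lit 31) (nat_lit 5) (nat_lit 32) (nat_lit 4) (nat_lit 309) (nat_lit 251) (nat_lit 220)) (XT.lf (nat_lit 0) (nat_lit 1821274435) (nat_lit 228) (nat_lit 3086623183) (nat_lit 76) (nat_lit 13667581113) (nat_lit 28) (nat_lit 5) (nat_lit 31) (nat_lit 5) (nat_lit 29) (nat_lit 5) (nat_lit 310) (nat_lit 251) (nat_lit 219)))) (XT.nd (nat_lit 78)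 (nat_lit 76) (nat_lit 0) (XT.lf (nat_lit 0) (nat_lit 7414918745) (nat_lit 228) (nat_lit 10482992224) (nat_lit 76) (nat_lit 1390467564) (nat_lit 26) (nat_lit 5) (nat_lit 29) (nat_lit 5) (nat_lit 27) (nat_lit 4) (nat_lit 311) (nat_lit 251) (nat_lit 218)) (XT.nd (nat_lit 78) (nat_lit 0) (nat_lit 0) (XT.lf (nat_lit 0) (nat_lit 1122869773) (nat_lit 76) (nat_lit 12158852550) (nat_lit 152) (nat_lit 6755456480) (nat_lit 25) (nat_lit 5) (nat_lit 26) (nat_lit 5) (nat_lit 27) (nat_lit 4) (nat_lit 312) (nat_lit 251) (nat_lit 217)) (XT.lf (nat_lit 0) (nat_lit 13363235714) (nat_lit 76) (nat_lit 6090728460) (nat_lit 152) (nat_lit 1369148913) (nat_lit 25) (nat_lit 5) (nat_lit 26) (nat_lit 5) (nat_lit 27) (nat_lit 4) (nat_lit 313) (nat_lit 251) (nat_lit 216))))) (XT.nd (nat_lit 234) (nat_lit 304) (nat_lit 0) (XT.nd (nat_lit 78) (nat_lit 76) (nat_lit 0) (XT.lf (nat_lit 0) (nat_lit 4156326017) (nat_lit 228)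 (nat_lit 17197435950) (nat_lit 76) (nat_lit 294793748) (nat_lit 22) (nat_lit 5) (nat_lit 25) (nat_lit 5) (nat_lit 23) (nat_lit 4) (nat_lit 314) (nat_lit 251) (nat_lit 215)) (XT.nd (nat_lit 78) (nat_lit 76) (nat_lit 0) (XT.lf (nat_lit 0) (nat_lit 9979123282) (nat_lit 228) (nat_lit 5631905111) (nat_lit 76) (nat_lit 6902404608) (nat_lit 22) (nat_lit 5) (nat_lit 25) (nat_lit 5) (nat_lit 23) (nat_lit 4) (nat_lit 315) (nat_lit 251) (nat_lit 214)) (XT.lf (nat_lit 0) (nat_lit 6489546211) (nat_lit 76) (nat_lit 9580251008) (nat_lit 152) (nat_lit 7352502585) (nat_lit 21) (nat_lit 5) (nat_lit 22) (nat_lit 5) (nat_lit 23) (nat_lit 4) (nat_lit 316) (nat_lit 251) (nat_lit 213)))) (XT.nd (nat_lit 156) (nat_lit 76) (nat_lit 0) (XT.nd (nat_lit 78) (nat_lit 228) (nat_lit 0) (XT.lf (nat_lit 0) (nat_lit 19190040655) (nat_lit 76) (nat_lit 3249982197) (nat_lit 152) (nat_lit 1937382039) (nat_lit 21) (nat_lit 5)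 (nat_lit 22) (nat_lit 5) (nat_lit 23) (nat_lit 4) (nat_lit 317) (nat_lit 251) (nat_lit 212)) (XT.lf (nat_lit 0) (nat_lit 3696959698) (nat_lit 228) (nat_lit 18304168219) (nat_lit 76) (nat_lit 3377450033) (nat_lit 18) (nat_lit 5) (nat_lit 21) (nat_lit 5) (nat_lit 19) (nat_lit 4) (nat_lit 318) (nat_lit 251) (nat_lit 211))) (XT.nd (nat_lit 78) (nat_lit 76) (nat_lit 0) (XT.lf (nat_lit 0) (nat_lit 9582162604) (nat_lit 228) (nat_lit 6560683493) (nat_lit 76) (nat_lit 10286151793) (nat_lit 18) (nat_lit 5) (nat_lit 21) (nat_lit 5) (nat_lit 19) (nat_lit 4) (nat_lit 319) (nat_lit 251) (nat_lit 210)) (XT.lf (nat_lit 0) (nat_lit 5751481070) (nat_lit 76) (nat_lit 9991249193) (nat_lit 152) (nat_lit 11789813572) (nat_lit 17) (nat_lit 5) (nat_lit 18) (nat_lit 5) (nat_lit 19) (nat_lit 4) (nat_lit 320) (nat_lit 251) (nat_lit 209)))))) (XT.nd (nat_lit 546) (nat_lit 304) (nat_lit 0) (XT.nd (nat_lit 234) (nat_lit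 76) (nat_lit 0) (XT.nd (nat_lit 78) (nat_lit 228) (nat_lit 0) (XT.lf (nat_lit 0) (nat_lit 18689373590) (nat_lit 76) (nat_lit 3517618896) (nat_lit 152) (nat_lit 6484440934) (nat_lit 17) (nat_lit 5) (nat_lit 18) (nat_lit 5) (nat_lit 19) (nat_lit 4) (nat_lit 321) (nat_lit 251) (nat_lit 208)) (XT.nd (nat_lit 78) (nat_lit 76) (nat_lit 0) (XT.lf (nat_lit 0) (nat_lit 2255870851) (nat_lit 152) (nat_lit 26722855808) (nat_lit 152) (nat_lit 930047661) (nat_lit 15) (nat_lit 4) (nat_lit 17) (nat_lit 5) (nat_lit 17) (nat_lit 4) (nat_lit 322) (nat_lit 251) (nat_lit 207)) (XT.lf (nat_lit 0) (nat_lit 4878387610) (nat_lit 228) (nat_lit 16052206708) (nat_lit 76) (nat_lit 10252846909) (nat_lit 14) (nat_lit 5) (nat_lit 17) (nat_lit 5) (nat_lit 15) (nat_lit 4) (nat_lit 323) (nat_lit 251) (nat_lit 206)))) (XT.nd (nat_lit 156) (nat_lit 0) (nat_lit 0) (XT.nd (nat_lit 78) (nat_lit 76) (nat_lit 0) (XT.lf (nat_lit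 0) (nat_lit 10893896538) (nat_lit 228) (nat_lit 3995509691) (nat_lit 76) (nat_lit 17634112866) (nat_lit 14) (nat_lit 5) (nat_lit 17) (nat_lit 5) (nat_lit 15) (nat_lit 4) (nat_lit 324) (nat_lit 251) (nat_lit 205)) (XT.lf (nat_lit 0) (nat_lit 8725092162) (nat_lit 76) (nat_lit 8507729101) (nat_lit 152) (nat_lit 16697129401) (nat_lit 13) (nat_lit 5) (nat_lit 14) (nat_lit 5) (nat_lit 15) (nat_lit 4) (nat_lit 325) (nat_lit 251) (nat_lit 204))) (XT.nd (nat_lit 78) (nat_lit 0) (nat_lit 0) (XT.lf (nat_lit 0) (nat_lit 22059160375) (nat_lit 76) (nat_lit 1811327772) (nat_lit 152) (nat_lit 11536789423) (nat_lit 13) (nat_lit 5) (nat_lit 14) (nat_lit 5) (nat_lit 15) (nat_lit 4) (nat_lit 326) (nat_lit 251) (nat_lit 203)) (XT.lf (nat_lit 0) (nat_lit 30833278554) (nat_lit 152) (nat_lit 1051017218) (nat_lit 0) (nat_lit 5074404163) (nat_lit 13) (nat_lit 5) (nat_lit 15) (nat_lit 4) (nat_lit 13) (nat_lit 4) (nat_lit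 327) (nat_lit 251) (nat_lit 202))))) (XT.nd (nat_lit 234) (nat_lit 152) (nat_lit 0) (XT.nd (nat_lit 78) (nat_lit 76) (nat_lit 0) (XT.lf (nat_lit 0) (nat_lit 11978978525) (nat_lit 76) (nat_lit 26244436032) (nat_lit 76) (nat_lit 361927745) (nat_lit 12) (nat_lit 4) (nat_lit 13) (nat_lit 5) (nat_lit 13) (nat_lit 4) (nat_lit 328) (nat_lit 251) (nat_lit 201)) (XT.nd (nat_lit 78) (nat_lit 0) (nat_lit 0) (XT.lf (nat_lit 0) (nat_lit 5536543009) (nat_lit 152) (nat_lit 14761072545) (nat_lit 76) (nat_lit 19995348721) (nat_lit 11) (nat_lit 5) (nat_lit 13) (nat_lit 5) (nat_lit 12) (nat_lit 4) (nat_lit 329) (nat_lit 251) (nat_lit 200)) (XT.lf (nat_lit 0) (nat_lit 11671953427) (nat_lit 152) (nat_lit 2418328986) (nat_lit 76) (nat_lit 27997114463) (nat_lit 11) (nat_lit 5) (nat_lit 13) (nat_lit 5) (nat_lit 12) (nat_lit 4) (nat_lit 330) (nat_lit 251) (nat_lit 199)))) (XT.nd (nat_lit 156) (nat_lit 76) (nat_lit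 0) (XT.nd (nat_lit 78) (nat_lit 0) (nat_lit 0) (XT.lf (nat_lit 0) (nat_lit 10662803150) (nat_lit 76) (nat_lit 7505668377) (nat_lit 152) (nat_lit 25801470488) (nat_lit 10) (nat_lit 5) (nat_lit 11) (nat_lit 5) (nat_lit 12) (nat_lit 4) (nat_lit 331) (nat_lit 251) (nat_lit 198)) (XT.lf (nat_lit 0) (nat_lit 24364198190) (nat_lit 76) (nat_lit 603834397) (nat_lit 152) (nat_lit 20979255333) (nat_lit 10) (nat_lit 5) (nat_lit 11) (nat_lit 5) (nat_lit 12) (nat_lit 4) (nat_lit 332) (nat_lit 251) (nat_lit 197))) (XT.nd (nat_lit 78) (nat_lit 76) (nat_lit 0) (XT.lf (nat_lit 0) (nat_lit 32126629687) (nat_lit 152) (nat_lit 9418017577) (nat_lit 0) (nat_lit 6478301186) (nat_lit 10) (nat_lit 5) (nat_lit 12) (nat_lit 4) (nat_lit 10) (nat_lit 4) (nat_lit 333) (nat_lit 251) (nat_lit 196)) (XT.lf (nat_lit 0) (nat_lit 3336878553) (nat_lit 76) (nat_lit 36301782690) (nat_lit 76) (nat_lit 10563883785) (nat_lit 9) (nat_lit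 4) (nat_lit 10) (nat_lit 5) (nat_lit 10) (nat_lit 4) (nat_lit 334) (nat_lit 251) (nat_lit 195))))))))
noncomputable def xc35 : XT := (XT.nd (nat_lit 2028) (nat_lit 0) (nat_lit 0) (XT.nd (nat_lit 1014) (nat_lit 228) (nat_lit 0) (XT.nd (nat_lit 468) (nat_lit 76) (nat_lit 0) (XT.nd (nat_lit 234) (nat_lit 76) (nat_lit 0) (XT.nd (nat_lit 78) (nat_lit 76) (nat_lit 0) (XT.lf (nat_lit 0) (nat_lit 16851098928) (nat_lit 76) (nat_lit 30730788038) (nat_lit 76) (nat_lit 4907583986) (nat_lit 9) (nat_lit 4) (nat_lit 10) (nat_lit 5) (nat_lit 10) (nat_lit 4) (nat_lit 335) (nat_lit 251) (nat_lit 194)) (XT.nd (nat_lit 78) (nat_lit 0) (nat_lit 0) (XT.lf (nat_lit 0) (nat_lit 971607605) (nat_lit 152) (nat_lit 23932083610) (nat_lit 76) (nat_lit 29987964309) (nat_lit 8) (nat_lit 5) (nat_lit 10) (nat_lit 5) (nat_lit 9) (nat_lit 4) (nat_lit 336) (nat_lit 251) (nat_lit 193)) (XT.lf (nat_lit 0) (nat_lit 7006306557)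 (nat_lit 152) (nat_lit 11759019020) (nat_lit 76) (nat_lit 38648289954) (nat_lit 8) (nat_lit 5) (nat_lit 10) (nat_lit 5) (nat_lit 9) (nat_lit 4) (nat_lit 337) (nat_lit 251) (nat_lit 192)))) (XT.nd (nat_lit 78) (nat_lit 0) (nat_lit 0) (XT.lf (nat_lit 0) (nat_lit 976025706) (nat_lit 76) (nat_lit 12340002289) (nat_lit 152) (nat_lit 46746461424) (nat_lit 7) (nat_lit 5) (nat_lit 8) (nat_lit 5) (nat_lit 9) (nat_lit 4) (nat_lit 338) (nat_lit 251) (nat_lit 191)) (XT.nd (nat_lit 78) (nat_lit 0) (nat_lit 0) (XT.lf (nat_lit 0) (nat_lit 14529716531) (nat_lit 76) (nat_lit 5497578252) (nat_lit 152) (nat_lit 42813944253) (nat_lit 7) (nat_lit 5) (nat_lit 8) (nat_lit 5) (nat_lit 9) (nat_lit 4) (nat_lit 339) (nat_lit 251) (nat_lit 190)) (XT.lf (nat_lit 0) (nat_lit 27056753710) (nat_lit 152) (nat_lit 37075594460) (nat_lit 0) (nat_lit 1627112258) (nat_lit 7) (nat_lit 5) (nat_lit 9) (nat_lit 4) (nat_lit 7) (nat_lit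 4) (nat_lit 340) (nat_lit 251) (nat_lit 189))))) (XT.nd (nat_lit 234) (nat_lit 76) (nat_lit 0) (XT.nd (nat_lit 78) (nat_lit 0) (nat_lit 0) (XT.lf (nat_lit 0) (nat_lit 34461186009) (nat_lit 152) (nat_lit 25391971796) (nat_lit 0) (nat_lit 8969742601) (nat_lit 7) (nat_lit 5) (nat_lit 9) (nat_lit 4) (nat_lit 7) (nat_lit 4) (nat_lit 341) (nat_lit 251) (nat_lit 188)) (XT.nd (nat_lit 78) (nat_lit 0) (nat_lit 0) (XT.lf (nat_lit 0) (nat_lit 42205375197) (nat_lit 152) (nat_lit 13179990278) (nat_lit 0) (nat_lit 16655072784) (nat_lit 7) (nat_lit 5) (nat_lit 9) (nat_lit 4) (nat_lit 7) (nat_lit 4) (nat_lit 342) (nat_lit 251) (nat_lit 187)) (XT.lf (nat_lit 0) (nat_lit 50307759819) (nat_lit 152) (nat_lit 410573760) (nat_lit 0) (nat_lit 24701401211) (nat_lit 7) (nat_lit 5) (nat_lit 9) (nat_lit 4) (nat_lit 7) (nat_lit 4) (nat_lit 343) (nat_lit 251) (nat_lit 186)))) (XT.nd (nat_lit 156) (nat_lit 0) (nat_lit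 0) (XT.nd (nat_lit 78) (nat_lit 0) (nat_lit 0) (XT.lf (nat_lit 0) (nat_lit 13204345470) (nat_lit 76) (nat_lit 45710214044) (nat_lit 76) (nat_lit 20050468583) (nat_lit 6) (nat_lit 4) (nat_lit 7) (nat_lit 5) (nat_lit 7) (nat_lit 4) (nat_lit 344) (nat_lit 251) (nat_lit 185)) (XT.lf (nat_lit 0) (nat_lit 27459409361) (nat_lit 76) (nat_lit 40469726992) (nat_lit 76) (nat_lit 14759136909) (nat_lit 6) (nat_lit 4) (nat_lit 7) (nat_lit 5) (nat_lit 7) (nat_lit 4) (nat_lit 345) (nat_lit 251) (nat_lit 184))) (XT.nd (nat_lit 78) (nat_lit 0) (nat_lit 0) (XT.lf (nat_lit 0) (nat_lit 42380387319) (nat_lit 76) (nat_lit 34988541063) (nat_lit 76) (nat_lit 9229527531) (nat_lit 6) (nat_lit 4) (nat_lit 7) (nat_lit 5) (nat_lit 7) (nat_lit 4) (nat_lit 346) (nat_lit 251) (nat_lit 183)) (XT.lf (nat_lit 0) (nat_lit 58002805482) (nat_lit 76) (nat_lit 29253605815) (nat_lit 76) (nat_lit 3448474712) (nat_lit 6) (nat_lit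 4) (nat_lit 7) (nat_lit 5) (nat_lit 7) (nat_lit 4) (nat_lit 347) (nat_lit 251) (nat_lit 182)))))) (XT.nd (nat_lit 468) (nat_lit 76) (nat_lit 0) (XT.nd (nat_lit 234) (nat_lit 0) (nat_lit 0) (XT.nd (nat_lit 78) (nat_lit 76) (nat_lit 0) (XT.lf (nat_lit 0) (nat_lit 2547093798) (nat_lit 152) (nat_lit 20678452188) (nat_lit 76) (nat_lit 71791045632) (nat_lit 5) (nat_lit 5) (nat_lit 7) (nat_lit 5) (nat_lit 6) (nat_lit 4) (nat_lit 348) (nat_lit 251) (nat_lit 181)) (XT.nd (nat_lit 78) (nat_lit 76) (nat_lit 0) (XT.lf (nat_lit 0) (nat_lit 8749517782) (nat_lit 152) (nat_lit 8129361497) (nat_lit 76) (nat_lit 82664635260) (nat_lit 5) (nat_lit 5) (nat_lit 7) (nat_lit 5) (nat_lit 6) (nat_lit 4) (nat_lit 349) (nat_lit 251) (nat_lit 180)) (XT.lf (nat_lit 0) (nat_lit 5107892562) (nat_lit 76) (nat_lit 10182064703) (nat_lit 152) (nat_lit 89005997353) (nat_lit 4) (nat_lit 5) (nat_lit 5) (nat_lit 5) (nat_lit 6)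 (nat_lit 4) (nat_lit 350) (nat_lit 251) (nat_lit 179)))) (XT.nd (nat_lit 78) (nat_lit 0) (nat_lit 0) (XT.lf (nat_lit 0) (nat_lit 19139041434) (nat_lit 76) (nat_lit 3081501994) (nat_lit 152) (nat_lit 87063586999) (nat_lit 4) (nat_lit 5) (nat_lit 5) (nat_lit 5) (nat_lit 6) (nat_lit 4) (nat_lit 351) (nat_lit 251) (nat_lit 178)) (XT.nd (nat_lit 78) (nat_lit 0) (nat_lit 0) (XT.lf (nat_lit 0) (nat_lit 29519966196) (nat_lit 152) (nat_lit 80728495335) (nat_lit 0) (nat_lit 4272591391) (nat_lit 4) (nat_lit 5) (nat_lit 6) (nat_lit 4) (nat_lit 4) (nat_lit 4) (nat_lit 352) (nat_lit 251) (nat_lit 177)) (XT.lf (nat_lit 0) (nat_lit 37196663285) (nat_lit 152) (nat_lit 70906918758) (nat_lit 0) (nat_lit 11915877177) (nat_lit 4) (nat_lit 5) (nat_lit 6) (nat_lit 4) (nat_lit 4) (nat_lit 4) (nat_lit 353) (nat_lit 251) (nat_lit 176))))) (XT.nd (nat_lit 234) (nat_lit 76) (nat_lit 0) (XT.nd (nat_lit 78) (nat_lit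 0) (nat_lit 0) (XT.lf (nat_lit 0) (nat_lit 45239291262) (nat_lit 152) (nat_lit 60627353275) (nat_lit 0) (nat_lit 19926684866) (nat_lit 4) (nat_lit 5) (nat_lit 6) (nat_lit 4) (nat_lit 4) (nat_lit 4) (nat_lit 354) (nat_lit 251) (nat_lit 175)) (XT.nd (nat_lit 78) (nat_lit 0) (nat_lit 0) (XT.lf (nat_lit 0) (nat_lit 53666999242) (nat_lit 152) (nat_lit 49865323728) (nat_lit 0) (nat_lit 28324087810) (nat_lit 4) (nat_lit 5) (nat_lit 6) (nat_lit 4) (nat_lit 4) (nat_lit 4) (nat_lit 355) (nat_lit 251) (nat_lit 174)) (XT.lf (nat_lit 0) (nat_lit 62499853197) (nat_lit 152) (nat_lit 38595206240) (nat_lit 0) (nat_lit 37128079826) (nat_lit 4) (nat_lit 5) (nat_lit 6) (nat_lit 4) (nat_lit 4) (nat_lit 4) (nat_lit 356) (nat_lit 251) (nat_lit 173)))) (XT.nd (nat_lit 156) (nat_lit 76) (nat_lit 0) (XT.nd (nat_lit 78) (nat_lit 0) (nat_lit 0) (XT.lf (nat_lit 0) (nat_lit 71758883731) (nat_lit 152) (nat_lit 26790167195)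 (nat_lit 0) (nat_lit 46359622799) (nat_lit 4) (nat_lit 5) (nat_lit 6) (nat_lit 4) (nat_lit 4) (nat_lit 4) (nat_lit 357) (nat_lit 251) (nat_lit 172)) (XT.lf (nat_lit 0) (nat_lit 81466136155) (nat_lit 152) (nat_lit 14422099359) (nat_lit 0) (nat_lit 56040696593) (nat_lit 4) (nat_lit 5) (nat_lit 6) (nat_lit 4) (nat_lit 4) (nat_lit 4) (nat_lit 358) (nat_lit 251) (nat_lit 171))) (XT.nd (nat_lit 78) (nat_lit 76) (nat_lit 0) (XT.lf (nat_lit 0) (nat_lit 91644722974) (nat_lit 152) (nat_lit 1461554952) (nat_lit 0) (nat_lit 66194351384) (nat_lit 4) (nat_lit 5) (nat_lit 6) (nat_lit 4) (nat_lit 4) (nat_lit 4) (nat_lit 359) (nat_lit 251) (nat_lit 170)) (XT.lf (nat_lit 0) (nat_lit 12363582492) (nat_lit 76) (nat_lit 90074142746) (nat_lit 76) (nat_lit 64600026367) (nat_lit 3) (nat_lit 4) (nat_lit 4) (nat_lit 5) (nat_lit 4) (nat_lit 4) (nat_lit 360) (nat_lit 251) (nat_lit 169))))))) (XT.nd (nat_lit 34866)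 (nat_lit 0) (nat_lit 3344) (XT.nd (nat_lit 34320) (nat_lit 0) (nat_lit 7752) (XT.nd (nat_lit 34086) (nat_lit 0) (nat_lit 11172) (XT.nd (nat_lit 78) (nat_lit 0) (nat_lit 0) (XT.lf (nat_lit 0) (nat_lit 26886534597) (nat_lit 76) (nat_lit 86885933870) (nat_lit 76) (nat_lit 61389203407) (nat_lit 3) (nat_lit 4) (nat_lit 4) (nat_lit 5) (nat_lit 4) (nat_lit 4) (nat_lit 361) (nat_lit 251) (nat_lit 168)) (XT.nd (nat_lit 33930) (nat_lit 0) (nat_lit 12996) (XT.lf (nat_lit 0) (nat_lit 42112792010) (nat_lit 76) (nat_lit 83548819165) (nat_lit 76) (nat_lit 58030551478) (nat_lit 3) (nat_lit 4) (nat_lit 4) (nat_lit 5) (nat_lit 4) (nat_lit 4) (nat_lit 362) (nat_lit 251) (nat_lit 167)) (XT.lf (nat_lit 0) (nat_lit 179182715) (nat_lit 1140) (nat_lit 1724771057) (nat_lit 1140) (nat_lit 1724771057) (nat_lit 174) (nat_lit 4) (nat_lit 189) (nat_lit 5) (nat_lit 189) (nat_lit 4) (nat_lit 276) (nat_lit 252) (nat_lit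 252)))) (XT.nd (nat_lit 78) (nat_lit 1216) (nat_lit 0) (XT.lf (nat_lit 0) (nat_lit 1065085432) (nat_lit 532) (nat_lit 720981784) (nat_lit 608) (nat_lit 5581622518) (nat_lit 166) (nat_lit 5) (nat_lit 173) (nat_lit 5) (nat_lit 174) (nat_lit 4) (nat_lit 277) (nat_lit 252) (nat_lit 251)) (XT.nd (nat_lit 78) (nat_lit 608) (nat_lit 0) (XT.lf (nat_lit 0) (nat_lit 1797039736) (nat_lit 608) (nat_lit 5271933750) (nat_lit 608) (nat_lit 418217997) (nat_lit 158) (nat_lit 4) (nat_lit 166) (nat_lit 5) (nat_lit 166) (nat_lit 4) (nat_lit 278) (nat_lit 252) (nat_lit 250)) (XT.lf (nat_lit 0) (nat_lit 2546555973) (nat_lit 532) (nat_lit 2209696212) (nat_lit 608) (nat_lit 2859901269) (nat_lit 150) (nat_lit 5) (nat_lit 157) (nat_lit 5) (nat_lit 158) (nat_lit 4) (nat_lit 279) (nat_lit 252) (nat_lit 249))))) (XT.nd (nat_lit 234) (nat_lit 1824) (nat_lit 0) (XT.nd (nat_lit 78) (nat_lit 988) (nat_lit 0) (XT.lf (nat_lit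 0) (nat_lit 2243492930) (nat_lit 608) (nat_lit 4432290926) (nat_lit 76) (nat_lit 1079519048) (nat_lit 142) (nat_lit 5) (nat_lit 150) (nat_lit 5) (nat_lit 143) (nat_lit 4) (nat_lit 280) (nat_lit 252) (nat_lit 248)) (XT.nd (nat_lit 78) (nat_lit 532) (nat_lit 0) (XT.lf (nat_lit 0) (nat_lit 4103097449) (nat_lit 456) (nat_lit 3323201511) (nat_lit 532) (nat_lit 478150583) (nat_lit 136) (nat_lit 5) (nat_lit 142) (nat_lit 5) (nat_lit 143) (nat_lit 4) (nat_lit 281) (nat_lit 252) (nat_lit 247)) (XT.lf (nat_lit 0) (nat_lit 4583664717) (nat_lit 532) (nat_lit 3183937118) (nat_lit 76) (nat_lit 296318447) (nat_lit 129) (nat_lit 5) (nat_lit 136) (nat_lit 5) (nat_lit 130) (nat_lit 4) (nat_lit 282) (nat_lit 252) (nat_lit 246)))) (XT.nd (nat_lit 156) (nat_lit 836) (nat_lit 0) (XT.nd (nat_lit 78) (nat_lit 456) (nat_lit 0) (XT.lf (nat_lit 0) (nat_lit 1533646823) (nat_lit 532) (nat_lit 2595882723) (nat_lit 76)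 (nat_lit 4104293277) (nat_lit 122) (nat_lit 5) (nat_lit 129) (nat_lit 5) (nat_lit 123) (nat_lit 5) (nat_lit 283) (nat_lit 252) (nat_lit 245)) (XT.lf (nat_lit 0) (nat_lit 6385585378) (nat_lit 456) (nat_lit 223613927) (nat_lit 532) (nat_lit 1805817754) (nat_lit 116) (nat_lit 5) (nat_lit 122) (nat_lit 5) (nat_lit 123) (nat_lit 5) (nat_lit 284) (nat_lit 252) (nat_lit 244))) (XT.nd (nat_lit 78) (nat_lit 380) (nat_lit 0) (XT.lf (nat_lit 0) (nat_lit 3194796213) (nat_lit 456) (nat_lit 1530295699) (nat_lit 76) (nat_lit 3881714687) (nat_lit 110) (nat_lit 5) (nat_lit 116) (nat_lit 5) (nat_lit 111) (nat_lit 5) (nat_lit 285) (nat_lit 252) (nat_lit 243)) (XT.lf (nat_lit 0) (nat_lit 7747935499) (nat_lit 380) (nat_lit 558449579) (nat_lit 456) (nat_lit 504595687) (nat_lit 105) (nat_lit 5) (nat_lit 110) (nat_lit 5) (nat_lit 111) (nat_lit 5) (nat_lit 286) (nat_lit 252) (nat_lit 242)))))) (XT.nd (nat_lit 546)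 (nat_lit 1824) (nat_lit 0) (XT.nd (nat_lit 234) (nat_lit 1368) (nat_lit 0) (XT.nd (nat_lit 78) (nat_lit 760) (nat_lit 0) (XT.lf (nat_lit 0) (nat_lit 4496402466) (nat_lit 456) (nat_lit 701232881) (nat_lit 76) (nat_lit 3828479534) (nat_lit 99) (nat_lit 5) (nat_lit 105) (nat_lit 5) (nat_lit 100) (nat_lit 5) (nat_lit 287) (nat_lit 252) (nat_lit 241)) (XT.nd (nat_lit 78) (nat_lit 304) (nat_lit 0) (XT.lf (nat_lit 0) (nat_lit 388052109) (nat_lit 456) (nat_lit 393721680) (nat_lit 76) (nat_lit 8472810931) (nat_lit 93) (nat_lit 5) (nat_lit 99) (nat_lit 5) (nat_lit 94) (nat_lit 5) (nat_lit 288) (nat_lit 252) (nat_lit 240)) (XT.lf (nat_lit 0) (nat_lit 5409616479) (nat_lit 380) (nat_lit 223290396) (nat_lit 76) (nat_lit 3861906136) (nat_lit 89) (nat_lit 5) (nat_lit 94) (nat_lit 5) (nat_lit 90) (nat_lit 5) (nat_lit 289) (nat_lit 252) (nat_lit 239)))) (XT.nd (nat_lit 156) (nat_lit 608) (nat_lit 0) (XT.nd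 (nat_lit 78) (nat_lit 304) (nat_lit 0) (XT.lf (nat_lit 0) (nat_lit 842363895) (nat_lit 456) (nat_lit 141387756) (nat_lit 76) (nat_lit 8765480179) (nat_lit 83) (nat_lit 5) (nat_lit 89) (nat_lit 5) (nat_lit 84) (nat_lit 5) (nat_lit 290) (nat_lit 252) (nat_lit 238)) (XT.lf (nat_lit 0) (nat_lit 5893797649) (nat_lit 380) (nat_lit 227746264) (nat_lit 76) (nat_lit 3894955714) (nat_lit 79) (nat_lit 5) (nat_lit 84) (nat_lit 5) (nat_lit 80) (nat_lit 5) (nat_lit 291) (nat_lit 252) (nat_lit 237))) (XT.nd (nat_lit 78) (nat_lit 228) (nat_lit 0) (XT.lf (nat_lit 0) (nat_lit 820117923) (nat_lit 380) (nat_lit 442409533) (nat_lit 76) (nat_lit 9036418810) (nat_lit 74) (nat_lit 5) (nat_lit 79) (nat_lit 5) (nat_lit 75) (nat_lit 5) (nat_lit 292) (nat_lit 252) (nat_lit 236)) (XT.lf (nat_lit 0) (nat_lit 5895053447) (nat_lit 304) (nat_lit 866361996) (nat_lit 76) (nat_lit 3833945048) (nat_lit 71) (nat_lit 5) (nat_lit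 75) (nat_lit 5) (nat_lit 72) (nat_lit 5) (nat_lit 293) (nat_lit 252) (nat_lit 235))))) (XT.nd (nat_lit 234) (nat_lit 988) (nat_lit 0) (XT.nd (nat_lit 78) (nat_lit 456) (nat_lit 0) (XT.lf (nat_lit 0) (nat_lit 259015581) (nat_lit 380) (nat_lit 1460564869) (nat_lit 76) (nat_lit 9188645241) (nat_lit 66) (nat_lit 5) (nat_lit 71) (nat_lit 5) (nat_lit 67) (nat_lit 5) (nat_lit 294) (nat_lit 252) (nat_lit 234)) (XT.nd (nat_lit 78) (nat_lit 228) (nat_lit 0) (XT.lf (nat_lit 0) (nat_lit 5344446710) (nat_lit 304) (nat_lit 2315756470) (nat_lit 76) (nat_lit 3576030125) (nat_lit 63) (nat_lit 5) (nat_lit 67) (nat_lit 5) (nat_lit 64) (nat_lit 5) (nat_lit 295) (nat_lit 252) (nat_lit 233)) (XT.lf (nat_lit 0) (nat_lit 8186076618) (nat_lit 228) (nat_lit 2458160829) (nat_lit 304) (nat_lit 937749631) (nat_lit 60) (nat_lit 5) (nat_lit 63) (nat_lit 5) (nat_lit 64) (nat_lit 5) (nat_lit 296) (nat_lit 252) (nat_lit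 232)))) (XT.nd (nat_lit 156) (nat_lit 456) (nat_lit 0) (XT.nd (nat_lit 78) (nat_lit 228) (nat_lit 0) (XT.lf (nat_lit 0) (nat_lit 4155822724) (nat_lit 304) (nat_lit 4782461365) (nat_lit 76) (nat_lit 3006400865) (nat_lit 56) (nat_lit 5) (nat_lit 60) (nat_lit 5) (nat_lit 57) (nat_lit 5) (nat_lit 297) (nat_lit 252) (nat_lit 231)) (XT.lf (nat_lit 0) (nat_lit 5853447219) (nat_lit 228) (nat_lit 3604371686) (nat_lit 304) (nat_lit 2868356803) (nat_lit 53) (nat_lit 5) (nat_lit 56) (nat_lit 5) (nat_lit 57) (nat_lit 5) (nat_lit 298) (nat_lit 252) (nat_lit 230))) (XT.nd (nat_lit 78) (nat_lit 228) (nat_lit 0) (XT.lf (nat_lit 0) (nat_lit 2223198988) (nat_lit 228) (nat_lit 8508784760) (nat_lit 76) (nat_lit 1995119235) (nat_lit 50) (nat_lit 5) (nat_lit 53) (nat_lit 5) (nat_lit 51) (nat_lit 5) (nat_lit 299) (nat_lit 252) (nat_lit 229)) (XT.lf (nat_lit 0) (nat_lit 2195238831) (nat_lit 228) (nat_lit 5303860034)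 (nat_lit 304) (nat_lit 5648568219) (nat_lit 47) (nat_lit 5) (nat_lit 50) (nat_lit 5) (nat_lit 51) (nat_lit 5) (nat_lit 300) (nat_lit 252) (nat_lit 228))))))))
noncomputable def xc36 : XT := (XT.nd (nat_lit 2028) (nat_lit 684) (nat_lit 0) (XT.nd (nat_lit 1014) (nat_lit 912) (nat_lit 0) (XT.nd (nat_lit 468) (nat_lit 836) (nat_lit 0) (XT.nd (nat_lit 234) (nat_lit 380) (nat_lit 0) (XT.nd (nat_lit 78) (nat_lit 456) (nat_lit 0) (XT.lf (nat_lit 0) (nat_lit 12998563584) (nat_lit 304) (nat_lit 190907755) (nat_lit 76) (nat_lit 401104572) (nat_lit 47) (nat_lit 5) (nat_lit 51) (nat_lit 5) (nat_lit 48) (nat_lit 4) (nat_lit 301) (nat_lit 252) (nat_lit 227)) (XT.nd (nat_lit 78) (nat_lit 228) (nat_lit 0) (XT.lf (nat_lit 0) (nat_lit 4659306891) (nat_lit 228) (nat_lit 3031030637) (nat_lit 76) (nat_lit 6363013966) (nat_lit 44) (nat_lit 5) (nat_lit 47) (nat_lit 5) (nat_lit 45) (nat_lit 5) (nat_lit 302) (nat_lit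 252) (nat_lit 226)) (XT.lf (nat_lit 0) (nat_lit 8216781960) (nat_lit 228) (nat_lit 1901886078) (nat_lit 304) (nat_lit 4421786911) (nat_lit 41) (nat_lit 5) (nat_lit 44) (nat_lit 5) (nat_lit 45) (nat_lit 5) (nat_lit 303) (nat_lit 252) (nat_lit 225)))) (XT.nd (nat_lit 78) (nat_lit 152) (nat_lit 0) (XT.lf (nat_lit 0) (nat_lit 782079582) (nat_lit 228) (nat_lit 10161055161) (nat_lit 76) (nat_lit 4108679983) (nat_lit 38) (nat_lit 5) (nat_lit 41) (nat_lit 5) (nat_lit 39) (nat_lit 5) (nat_lit 304) (nat_lit 252) (nat_lit 224)) (XT.nd (nat_lit 78) (nat_lit 0) (nat_lit 0) (XT.lf (nat_lit 0) (nat_lit 973151481) (nat_lit 152) (nat_lit 5159283030) (nat_lit 228) (nat_lit 9455747250) (nat_lit 36) (nat_lit 5) (nat_lit 38) (nat_lit 5) (nat_lit 39) (nat_lit 5) (nat_lit 305) (nat_lit 252) (nat_lit 223)) (XT.lf (nat_lit 0) (nat_lit 11750413089) (nat_lit 228) (nat_lit 3471542055) (nat_lit 76) (nat_lit 929489783)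 (nat_lit 36) (nat_lit 5) (nat_lit 39) (nat_lit 5) (nat_lit 37) (nat_lit 4) (nat_lit 306) (nat_lit 252) (nat_lit 222))))) (XT.nd (nat_lit 234) (nat_lit 456) (nat_lit 0) (XT.nd (nat_lit 78) (nat_lit 152) (nat_lit 0) (XT.lf (nat_lit 0) (nat_lit 910469002) (nat_lit 228) (nat_lit 8595895447) (nat_lit 76) (nat_lit 7235668153) (nat_lit 33) (nat_lit 5) (nat_lit 36) (nat_lit 5) (nat_lit 34) (nat_lit 5) (nat_lit 307) (nat_lit 252) (nat_lit 221)) (XT.nd (nat_lit 78) (nat_lit 0) (nat_lit 0) (XT.lf (nat_lit 0) (nat_lit 2889924198) (nat_lit 152) (nat_lit 3464827981) (nat_lit 228) (nat_lit 11007414715) (nat_lit 31) (nat_lit 5) (nat_lit 33) (nat_lit 5) (nat_lit 34) (nat_lit 5) (nat_lit 308) (nat_lit 252) (nat_lit 220)) (XT.lf (nat_lit 0) (nat_lit 12084537028) (nat_lit 228) (nat_lit 3084792208) (nat_lit 76) (nat_lit 2843647935) (nat_lit 31) (nat_lit 5) (nat_lit 34) (nat_lit 5) (nat_lit 32) (nat_lit 4) (nat_lit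 309) (nat_lit 252) (nat_lit 219)))) (XT.nd (nat_lit 156) (nat_lit 76) (nat_lit 0) (XT.nd (nat_lit 78) (nat_lit 228) (nat_lit 0) (XT.lf (nat_lit 0) (nat_lit 8842703957) (nat_lit 152) (nat_lit 9279271985) (nat_lit 228) (nat_lit 573781737) (nat_lit 29) (nat_lit 5) (nat_lit 31) (nat_lit 5) (nat_lit 32) (nat_lit 4) (nat_lit 310) (nat_lit 252) (nat_lit 218)) (XT.lf (nat_lit 0) (nat_lit 1842311056) (nat_lit 152) (nat_lit 3060892196) (nat_lit 228) (nat_lit 14509484537) (nat_lit 26) (nat_lit 5) (nat_lit 28) (nat_lit 5) (nat_lit 29) (nat_lit 5) (nat_lit 311) (nat_lit 252) (nat_lit 217))) (XT.nd (nat_lit 78) (nat_lit 76) (nat_lit 0) (XT.lf (nat_lit 0) (nat_lit 10683823905) (nat_lit 228) (nat_lit 6035849625) (nat_lit 76) (nat_lit 3444427794) (nat_lit 26) (nat_lit 5) (nat_lit 29) (nat_lit 5) (nat_lit 27) (nat_lit 4) (nat_lit 312) (nat_lit 252) (nat_lit 216)) (XT.lf (nat_lit 0) (nat_lit 6007804378) (nat_lit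 76) (nat_lit 10744572997) (nat_lit 152) (nat_lit 4200795341) (nat_lit 25) (nat_lit 5) (nat_lit 26) (nat_lit 5) (nat_lit 27) (nat_lit 4) (nat_lit 313) (nat_lit 252) (nat_lit 215)))))) (XT.nd (nat_lit 468) (nat_lit 380) (nat_lit 0) (XT.nd (nat_lit 234) (nat_lit 304) (nat_lit 0) (XT.nd (nat_lit 78) (nat_lit 152) (nat_lit 0) (XT.lf (nat_lit 0) (nat_lit 1291391431) (nat_lit 152) (nat_lit 3164907043) (nat_lit 76) (nat_lit 17325814229) (nat_lit 24) (nat_lit 5) (nat_lit 26) (nat_lit 5) (nat_lit 25) (nat_lit 5) (nat_lit 314) (nat_lit 252) (nat_lit 214)) (XT.nd (nat_lit 78) (nat_lit 0) (nat_lit 0) (XT.lf (nat_lit 0) (nat_lit 6998238424) (nat_lit 228) (nat_lit 13474942021) (nat_lit 76) (nat_lit 2177311348) (nat_lit 22) (nat_lit 5) (nat_lit 25) (nat_lit 5) (nat_lit 23) (nat_lit 4) (nat_lit 315) (nat_lit 252) (nat_lit 213)) (XT.lf (nat_lit 0) (nat_lit 12986742405) (nat_lit 228) (nat_lit 1549342531) (nat_lit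 76) (nat_lit 9026360947) (nat_lit 22) (nat_lit 5) (nat_lit 25) (nat_lit 5) (nat_lit 23) (nat_lit 4) (nat_lit 316) (nat_lit 252) (nat_lit 212)))) (XT.nd (nat_lit 78) (nat_lit 228) (nat_lit 0) (XT.lf (nat_lit 0) (nat_lit 11053083649) (nat_lit 76) (nat_lit 8250154689) (nat_lit 152) (nat_lit 5215945654) (nat_lit 21) (nat_lit 5) (nat_lit 22) (nat_lit 5) (nat_lit 23) (nat_lit 4) (nat_lit 317) (nat_lit 252) (nat_lit 211)) (XT.nd (nat_lit 78) (nat_lit 152) (nat_lit 0) (XT.lf (nat_lit 0) (nat_lit 343841043) (nat_lit 152) (nat_lit 1342207314) (nat_lit 76) (nat_lit 23839429645) (nat_lit 20) (nat_lit 5) (nat_lit 22) (nat_lit 5) (nat_lit 21) (nat_lit 5) (nat_lit 318) (nat_lit 252) (nat_lit 210)) (XT.lf (nat_lit 0) (nat_lit 6163361027) (nat_lit 228) (nat_lit 15198739331) (nat_lit 76) (nat_lit 5215786680) (nat_lit 18) (nat_lit 5) (nat_lit 21) (nat_lit 5) (nat_lit 19) (nat_lit 4) (nat_lit 319) (nat_lit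 252) (nat_lit 209))))) (XT.nd (nat_lit 234) (nat_lit 304) (nat_lit 0) (XT.nd (nat_lit 78) (nat_lit 76) (nat_lit 0) (XT.lf (nat_lit 0) (nat_lit 12234178680) (nat_lit 228) (nat_lit 3059539288) (nat_lit 76) (nat_lit 12390425236) (nat_lit 18) (nat_lit 5) (nat_lit 21) (nat_lit 5) (nat_lit 19) (nat_lit 4) (nat_lit 320) (nat_lit 252) (nat_lit 208)) (XT.nd (nat_lit 78) (nat_lit 0) (nat_lit 0) (XT.lf (nat_lit 0) (nat_lit 9758470873) (nat_lit 76) (nat_lit 8876585341) (nat_lit 152) (nat_lit 10209894994) (nat_lit 17) (nat_lit 5) (nat_lit 18) (nat_lit 5) (nat_lit 19) (nat_lit 4) (nat_lit 321) (nat_lit 252) (nat_lit 207)) (XT.lf (nat_lit 0) (nat_lit 23166142983) (nat_lit 76) (nat_lit 2156141450) (nat_lit 152) (nat_lit 4742558926) (nat_lit 17) (nat_lit 5) (nat_lit 18) (nat_lit 5) (nat_lit 19) (nat_lit 4) (nat_lit 322) (nat_lit 252) (nat_lit 206)))) (XT.nd (nat_lit 156) (nat_lit 76) (nat_lit 0) (XT.nd (nat_lit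 78) (nat_lit 0) (nat_lit 0) (XT.lf (nat_lit 0) (nat_lit 1019880057) (nat_lit 228) (nat_lit 25500055237) (nat_lit 76) (nat_lit 4824301045) (nat_lit 14) (nat_lit 5) (nat_lit 17) (nat_lit 5) (nat_lit 15) (nat_lit 4) (nat_lit 323) (nat_lit 252) (nat_lit 205)) (XT.lf (nat_lit 0) (nat_lit 7005520413) (nat_lit 228) (nat_lit 13496620653) (nat_lit 76) (nat_lit 12183083353) (nat_lit 14) (nat_lit 5) (nat_lit 17) (nat_lit 5) (nat_lit 15) (nat_lit 4) (nat_lit 324) (nat_lit 252) (nat_lit 204))) (XT.nd (nat_lit 78) (nat_lit 76) (nat_lit 0) (XT.lf (nat_lit 0) (nat_lit 13232127957) (nat_lit 228) (nat_lit 997002900) (nat_lit 76) (nat_lit 19865908128) (nat_lit 14) (nat_lit 5) (nat_lit 17) (nat_lit 5) (nat_lit 15) (nat_lit 4) (nat_lit 325) (nat_lit 252) (nat_lit 203)) (XT.lf (nat_lit 0) (nat_lit 12267950927) (nat_lit 76) (nat_lit 7564504067) (nat_lit 152) (nat_lit 15741043930) (nat_lit 13) (nat_lit 5) (nat_lit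 14) (nat_lit 5) (nat_lit 15) (nat_lit 4) (nat_lit 326) (nat_lit 252) (nat_lit 202))))))) (XT.nd (nat_lit 1014) (nat_lit 228) (nat_lit 0) (XT.nd (nat_lit 468) (nat_lit 228) (nat_lit 0) (XT.nd (nat_lit 234) (nat_lit 76) (nat_lit 0) (XT.nd (nat_lit 78) (nat_lit 152) (nat_lit 0) (XT.lf (nat_lit 0) (nat_lit 26120789019) (nat_lit 76) (nat_lit 598454648) (nat_lit 152) (nat_lit 10407969903) (nat_lit 13) (nat_lit 5) (nat_lit 14) (nat_lit 5) (nat_lit 15) (nat_lit 4) (nat_lit 327) (nat_lit 252) (nat_lit 201)) (XT.nd (nat_lit 78) (nat_lit 76) (nat_lit 0) (XT.lf (nat_lit 0) (nat_lit 1785141748) (nat_lit 76) (nat_lit 32195304008) (nat_lit 76) (nat_lit 4777289843) (nat_lit 12) (nat_lit 4) (nat_lit 13) (nat_lit 5) (nat_lit 13) (nat_lit 4) (nat_lit 328) (nat_lit 252) (nat_lit 200)) (XT.lf (nat_lit 0) (nat_lit 1182673097) (nat_lit 152) (nat_lit 25129327365) (nat_lit 76) (nat_lit 14155381195) (nat_lit 11)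 (nat_lit 5) (nat_lit 13) (nat_lit 5) (nat_lit 12) (nat_lit 4) (nat_lit 329) (nat_lit 252) (nat_lit 199)))) (XT.nd (nat_lit 78) (nat_lit 76) (nat_lit 0) (XT.lf (nat_lit 0) (nat_lit 7294590722) (nat_lit 152) (nat_lit 12828934194) (nat_lit 76) (nat_lit 22139004381) (nat_lit 11) (nat_lit 5) (nat_lit 13) (nat_lit 5) (nat_lit 12) (nat_lit 4) (nat_lit 330) (nat_lit 252) (nat_lit 198)) (XT.nd (nat_lit 78) (nat_lit 0) (nat_lit 0) (XT.lf (nat_lit 0) (nat_lit 3870062) (nat_lit 76) (nat_lit 13662404487) (nat_lit 152) (nat_lit 30482554682) (nat_lit 10) (nat_lit 5) (nat_lit 11) (nat_lit 5) (nat_lit 12) (nat_lit 4) (nat_lit 331) (nat_lit 252) (nat_lit 197)) (XT.lf (nat_lit 0) (nat_lit 13666087556) (nat_lit 76) (nat_lit 6778062799) (nat_lit 152) (nat_lit 25682684641) (nat_lit 10) (nat_lit 5) (nat_lit 11) (nat_lit 5) (nat_lit 12) (nat_lit 4) (nat_lit 332) (nat_lit 252) (nat_lit 196))))) (XT.nd (nat_lit 234)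 (nat_lit 152) (nat_lit 0) (XT.nd (nat_lit 78) (nat_lit 76) (nat_lit 0) (XT.lf (nat_lit 0) (nat_lit 27522584232) (nat_lit 152) (nat_lit 20274105071) (nat_lit 0) (nat_lit 408219977) (nat_lit 10) (nat_lit 5) (nat_lit 12) (nat_lit 4) (nat_lit 10) (nat_lit 4) (nat_lit 333) (nat_lit 252) (nat_lit 195)) (XT.nd (nat_lit 78) (nat_lit 76) (nat_lit 0) (XT.lf (nat_lit 0) (nat_lit 34982717992) (nat_lit 152) (nat_lit 7620304646) (nat_lit 0) (nat_lit 7783048591) (nat_lit 10) (nat_lit 5) (nat_lit 12) (nat_lit 4) (nat_lit 10) (nat_lit 4) (nat_lit 334) (nat_lit 252) (nat_lit 194)) (XT.lf (nat_lit 0) (nat_lit 5707306930) (nat_lit 76) (nat_lit 37124714168) (nat_lit 76) (nat_lit 9843801769) (nat_lit 9) (nat_lit 4) (nat_lit 10) (nat_lit 5) (nat_lit 10) (nat_lit 4) (nat_lit 335) (nat_lit 252) (nat_lit 193)))) (XT.nd (nat_lit 156) (nat_lit 76) (nat_lit 0) (XT.nd (nat_lit 78) (nat_lit 76) (nat_lit 0) (XT.lf (nat_lit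 0) (nat_lit 19792305731) (nat_lit 76) (nat_lit 31322415386) (nat_lit 76) (nat_lit 3964128705) (nat_lit 9) (nat_lit 4) (nat_lit 10) (nat_lit 5) (nat_lit 10) (nat_lit 4) (nat_lit 336) (nat_lit 252) (nat_lit 192)) (XT.lf (nat_lit 0) (nat_lit 2130317545) (nat_lit 152) (nat_lit 23107431857) (nat_lit 76) (nat_lit 32364738887) (nat_lit 8) (nat_lit 5) (nat_lit 10) (nat_lit 5) (nat_lit 9) (nat_lit 4) (nat_lit 337) (nat_lit 252) (nat_lit 191))) (XT.nd (nat_lit 78) (nat_lit 76) (nat_lit 0) (XT.lf (nat_lit 0) (nat_lit 8413888132) (nat_lit 152) (nat_lit 10421964320) (nat_lit 76) (nat_lit 41416300987) (nat_lit 8) (nat_lit 5) (nat_lit 10) (nat_lit 5) (nat_lit 9) (nat_lit 4) (nat_lit 338) (nat_lit 252) (nat_lit 190)) (XT.lf (nat_lit 0) (nat_lit 2894652742) (nat_lit 76) (nat_lit 12112070798) (nat_lit 152) (nat_lit 48027738877) (nat_lit 7) (nat_lit 5) (nat_lit 8) (nat_lit 5) (nat_lit 9) (nat_lit 4) (nat_lit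 339) (nat_lit 252) (nat_lit 189)))))) (XT.nd (nat_lit 546) (nat_lit 152) (nat_lit 0) (XT.nd (nat_lit 234) (nat_lit 76) (nat_lit 0) (XT.nd (nat_lit 78) (nat_lit 0) (nat_lit 0) (XT.lf (nat_lit 0) (nat_lit 17036988787) (nat_lit 76) (nat_lit 4967760398) (nat_lit 152) (nat_lit 43948883735) (nat_lit 7) (nat_lit 5) (nat_lit 8) (nat_lit 5) (nat_lit 9) (nat_lit 4) (nat_lit 340) (nat_lit 252) (nat_lit 188)) (XT.nd (nat_lit 78) (nat_lit 0) (nat_lit 0) (XT.lf (nat_lit 0) (nat_lit 29346567491) (nat_lit 152) (nat_lit 37212498697) (nat_lit 0) (nat_lit 2459890951) (nat_lit 7) (nat_lit 5) (nat_lit 9) (nat_lit 4) (nat_lit 7) (nat_lit 4) (nat_lit 341) (nat_lit 252) (nat_lit 187)) (XT.lf (nat_lit 0) (nat_lit 37076603495) (nat_lit 152) (nat_lit 25026450874) (nat_lit 0) (nat_lit 10133870761) (nat_lit 7) (nat_lit 5) (nat_lit 9) (nat_lit 4) (nat_lit 7) (nat_lit 4) (nat_lit 342) (nat_lit 252) (nat_lit 186)))) (XT.nd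 (nat_lit 156) (nat_lit 0) (nat_lit 0) (XT.nd (nat_lit 78) (nat_lit 76) (nat_lit 0) (XT.lf (nat_lit 0) (nat_lit 45165508896) (nat_lit 152) (nat_lit 12281733114) (nat_lit 0) (nat_lit 18169389308) (nat_lit 7) (nat_lit 5) (nat_lit 9) (nat_lit 4) (nat_lit 7) (nat_lit 4) (nat_lit 343) (nat_lit 252) (nat_lit 185)) (XT.lf (nat_lit 0) (nat_lit 1072935994) (nat_lit 76) (nat_lit 52569920713) (nat_lit 76) (nat_lit 25522956504) (nat_lit 6) (nat_lit 4) (nat_lit 7) (nat_lit 5) (nat_lit 7) (nat_lit 4) (nat_lit 344) (nat_lit 252) (nat_lit 184))) (XT.nd (nat_lit 78) (nat_lit 0) (nat_lit 0) (XT.lf (nat_lit 0) (nat_lit 15305151531) (nat_lit 76) (nat_lit 47339836332) (nat_lit 76) (nat_lit 20244448673) (nat_lit 6) (nat_lit 4) (nat_lit 7) (nat_lit 5) (nat_lit 7) (nat_lit 4) (nat_lit 345) (nat_lit 252) (nat_lit 183)) (XT.lf (nat_lit 0) (nat_lit 30204369151) (nat_lit 76) (nat_lit 41868557709) (nat_lit 76) (nat_lit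 14727052480) (nat_lit 6) (nat_lit 4) (nat_lit 7) (nat_lit 5) (nat_lit 7) (nat_lit 4) (nat_lit 346) (nat_lit 252) (nat_lit 182))))) (XT.nd (nat_lit 234) (nat_lit 76) (nat_lit 0) (XT.nd (nat_lit 78) (nat_lit 76) (nat_lit 0) (XT.lf (nat_lit 0) (nat_lit 45806063182) (nat_lit 76) (nat_lit 36143057990) (nat_lit 76) (nat_lit 8957631265) (nat_lit 6) (nat_lit 4) (nat_lit 7) (nat_lit 5) (nat_lit 7) (nat_lit 4) (nat_lit 347) (nat_lit 252) (nat_lit 181)) (XT.nd (nat_lit 78) (nat_lit 76) (nat_lit 0) (XT.lf (nat_lit 0) (nat_lit 62147380515) (nat_lit 76) (nat_lit 30149705033) (nat_lit 76) (nat_lit 2922448311) (nat_lit 6) (nat_lit 4) (nat_lit 7) (nat_lit 5) (nat_lit 7) (nat_lit 4) (nat_lit 348) (nat_lit 252) (nat_lit 180)) (XT.lf (nat_lit 0) (nat_lit 3326658829) (nat_lit 152) (nat_lit 20513977389) (nat_lit 76) (nat_lit 75906977488) (nat_lit 5) (nat_lit 5) (nat_lit 7) (nat_lit 5) (nat_lit 6) (nat_lit 4)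 (nat_lit 349) (nat_lit 252) (nat_lit 179)))) (XT.nd (nat_lit 156) (nat_lit 0) (nat_lit 0) (XT.nd (nat_lit 78) (nat_lit 76) (nat_lit 0) (XT.lf (nat_lit 0) (nat_lit 9808146376) (nat_lit 152) (nat_lit 7394498707) (nat_lit 76) (nat_lit 87299180903) (nat_lit 5) (nat_lit 5) (nat_lit 7) (nat_lit 5) (nat_lit 6) (nat_lit 4) (nat_lit 350) (nat_lit 252) (nat_lit 178)) (XT.lf (nat_lit 0) (nat_lit 6471902035) (nat_lit 76) (nat_lit 10184783782) (nat_lit 152) (nat_lit 92835780849) (nat_lit 4) (nat_lit 5) (nat_lit 5) (nat_lit 5) (nat_lit 6) (nat_lit 4) (nat_lit 351) (nat_lit 252) (nat_lit 177))) (XT.nd (nat_lit 78) (nat_lit 0) (nat_lit 0) (XT.lf (nat_lit 0) (nat_lit 21151817168) (nat_lit 76) (nat_lit 2753306469) (nat_lit 152) (nat_lit 90825798377) (nat_lit 4) (nat_lit 5) (nat_lit 5) (nat_lit 5) (nat_lit 6) (nat_lit 4) (nat_lit 352) (nat_lit 252) (nat_lit 176)) (XT.lf (nat_lit 0) (nat_lit 31546620619) (nat_lit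 152) (nat_lit 83747203229) (nat_lit 0) (nat_lit 4936563615) (nat_lit 4) (nat_lit 5) (nat_lit 6) (nat_lit 4) (nat_lit 4) (nat_lit 4) (nat_lit 353) (nat_lit 252) (nat_lit 175))))))))
noncomputable def xc37 : XT := (XT.nd (nat_lit 35724) (nat_lit 0) (nat_lit 1368) (XT.nd (nat_lit 34710) (nat_lit 0) (nat_lit 6080) (XT.nd (nat_lit 468) (nat_lit 76) (nat_lit 0) (XT.nd (nat_lit 234) (nat_lit 0) (nat_lit 0) (XT.nd (nat_lit 78) (nat_lit 0) (nat_lit 0) (XT.lf (nat_lit 0) (nat_lit 39580930842) (nat_lit 152) (nat_lit 73483010531) (nat_lit 0) (nat_lit 12940568802) (nat_lit 4) (nat_lit 5) (nat_lit 6) (nat_lit 4) (nat_lit 4) (nat_lit 4) (nat_lit 354) (nat_lit 252) (nat_lit 174)) (XT.nd (nat_lit 78) (nat_lit 0) (nat_lit 0) (XT.lf (nat_lit 0) (nat_lit 48000717152) (nat_lit 152) (nat_lit 62735621734) (nat_lit 0) (nat_lit 21331493173) (nat_lit 4) (nat_lit 5) (nat_lit 6) (nat_lit 4) (nat_lit 4) (nat_lit 4)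 (nat_lit 355) (nat_lit 252) (nat_lit 173)) (XT.lf (nat_lit 0) (nat_lit 56826026658) (nat_lit 152) (nat_lit 51479447815) (nat_lit 0) (nat_lit 30129315118) (nat_lit 4) (nat_lit 5) (nat_lit 6) (nat_lit 4) (nat_lit 4) (nat_lit 4) (nat_lit 356) (nat_lit 252) (nat_lit 172)))) (XT.nd (nat_lit 78) (nat_lit 0) (nat_lit 0) (XT.lf (nat_lit 0) (nat_lit 66077872004) (nat_lit 152) (nat_lit 39687688362) (nat_lit 0) (nat_lit 39354981834) (nat_lit 4) (nat_lit 5) (nat_lit 6) (nat_lit 4) (nat_lit 4) (nat_lit 4) (nat_lit 357) (nat_lit 252) (nat_lit 171)) (XT.nd (nat_lit 78) (nat_lit 0) (nat_lit 0) (XT.lf (nat_lit 0) (nat_lit 75778281390) (nat_lit 152) (nat_lit 27332267755) (nat_lit 0) (nat_lit 49030459193) (nat_lit 4) (nat_lit 5) (nat_lit 6) (nat_lit 4) (nat_lit 4) (nat_lit 4) (nat_lit 358) (nat_lit 252) (nat_lit 170)) (XT.lf (nat_lit 0) (nat_lit 85950351032) (nat_lit 152) (nat_lit 14383768328) (nat_lit 0)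 (nat_lit 59178784046) (nat_lit 4) (nat_lit 5) (nat_lit 6) (nat_lit 4) (nat_lit 4) (nat_lit 4) (nat_lit 359) (nat_lit 252) (nat_lit 169))))) (XT.nd (nat_lit 33930) (nat_lit 0) (nat_lit 12388) (XT.nd (nat_lit 78) (nat_lit 76) (nat_lit 0) (XT.lf (nat_lit 0) (nat_lit 96618300142) (nat_lit 152) (nat_lit 811360319) (nat_lit 0) (nat_lit 69824119071) (nat_lit 4) (nat_lit 5) (nat_lit 6) (nat_lit 4) (nat_lit 4) (nat_lit 4) (nat_lit 360) (nat_lit 252) (nat_lit 168)) (XT.nd (nat_lit 78) (nat_lit 0) (nat_lit 0) (XT.lf (nat_lit 0) (nat_lit 13684301540) (nat_lit 76) (nat_lit 94254768935) (nat_lit 76) (nat_lit 67439050641) (nat_lit 3) (nat_lit 4) (nat_lit 4) (nat_lit 5) (nat_lit 4) (nat_lit 4) (nat_lit 361) (nat_lit 252) (nat_lit 167)) (XT.lf (nat_lit 0) (nat_lit 28899946968) (nat_lit 76) (nat_lit 90922534422) (nat_lit 76) (nat_lit 64086304487) (nat_lit 3) (nat_lit 4) (nat_lit 4) (nat_lit 5) (nat_lit 4)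 (nat_lit 4) (nat_lit 362) (nat_lit 252) (nat_lit 166)))) (XT.nd (nat_lit 156) (nat_lit 2812) (nat_lit 0) (XT.nd (nat_lit 78) (nat_lit 1064) (nat_lit 0) (XT.lf (nat_lit 0) (nat_lit 1575975900) (nat_lit 988) (nat_lit 378675304) (nat_lit 0) (nat_lit 1575975900) (nat_lit 217) (nat_lit 5) (nat_lit 230) (nat_lit 4) (nat_lit 217) (nat_lit 4) (nat_lit 274) (nat_lit 253) (nat_lit 253)) (XT.lf (nat_lit 0) (nat_lit 1222997728) (nat_lit 1064) (nat_lit 286637058) (nat_lit 76) (nat_lit 5647256471) (nat_lit 203) (nat_lit 5) (nat_lit 217) (nat_lit 5) (nat_lit 204) (nat_lit 4) (nat_lit 275) (nat_lit 253) (nat_lit 252))) (XT.nd (nat_lit 78) (nat_lit 608) (nat_lit 0) (XT.lf (nat_lit 0) (nat_lit 228463054) (nat_lit 1140) (nat_lit 6141170766) (nat_lit 1140) (nat_lit 891877179) (nat_lit 174) (nat_lit 4) (nat_lit 189) (nat_lit 5) (nat_lit 189) (nat_lit 4) (nat_lit 276) (nat_lit 253) (nat_lit 251)) (XT.lf (nat_lit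 0) (nat_lit 774479893) (nat_lit 532) (nat_lit 3394224386) (nat_lit 608) (nat_lit 3206296941) (nat_lit 166) (nat_lit 5) (nat_lit 173) (nat_lit 5) (nat_lit 174) (nat_lit 4) (nat_lit 277) (nat_lit 253) (nat_lit 250)))))) (XT.nd (nat_lit 468) (nat_lit 2964) (nat_lit 0) (XT.nd (nat_lit 234) (nat_lit 1520) (nat_lit 0) (XT.nd (nat_lit 78) (nat_lit 1140) (nat_lit 0) (XT.lf (nat_lit 0) (nat_lit 1368532782) (nat_lit 608) (nat_lit 405268248) (nat_lit 684) (nat_lit 5724707560) (nat_lit 157) (nat_lit 5) (nat_lit 165) (nat_lit 5) (nat_lit 166) (nat_lit 5) (nat_lit 278) (nat_lit 253) (nat_lit 249)) (XT.nd (nat_lit 78) (nat_lit 608) (nat_lit 0) (XT.lf (nat_lit 0) (nat_lit 1970027812) (nat_lit 532) (nat_lit 4846011026) (nat_lit 608) (nat_lit 815239470) (nat_lit 150) (nat_lit 5) (nat_lit 157) (nat_lit 5) (nat_lit 158) (nat_lit 4) (nat_lit 279) (nat_lit 253) (nat_lit 248)) (XT.lf (nat_lit 0) (nat_lit 2583819151)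 (nat_lit 532) (nat_lit 1535012631) (nat_lit 608) (nat_lit 3655079735) (nat_lit 142) (nat_lit 5) (nat_lit 149) (nat_lit 5) (nat_lit 150) (nat_lit 5) (nat_lit 280) (nat_lit 253) (nat_lit 247)))) (XT.nd (nat_lit 78) (nat_lit 988) (nat_lit 0) (XT.lf (nat_lit 0) (nat_lit 1219350412) (nat_lit 532) (nat_lit 4720191910) (nat_lit 76) (nat_lit 1987264426) (nat_lit 135) (nat_lit 5) (nat_lit 142) (nat_lit 5) (nat_lit 136) (nat_lit 5) (nat_lit 281) (nat_lit 253) (nat_lit 246)) (XT.nd (nat_lit 78) (nat_lit 532) (nat_lit 0) (XT.lf (nat_lit 0) (nat_lit 3816147915) (nat_lit 456) (nat_lit 2337698968) (nat_lit 532) (nat_lit 1936000274) (nat_lit 129) (nat_lit 5) (nat_lit 135) (nat_lit 5) (nat_lit 136) (nat_lit 5) (nat_lit 282) (nat_lit 253) (nat_lit 245)) (XT.lf (nat_lit 0) (nat_lit 2910985270) (nat_lit 532) (nat_lit 3852568625) (nat_lit 76) (nat_lit 1500009211) (nat_lit 122) (nat_lit 5) (nat_lit 129) (nat_lit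 5) (nat_lit 123) (nat_lit 5) (nat_lit 283) (nat_lit 253) (nat_lit 244))))) (XT.nd (nat_lit 234) (nat_lit 1596) (nat_lit 0) (XT.nd (nat_lit 78) (nat_lit 912) (nat_lit 0) (XT.lf (nat_lit 0) (nat_lit 4980800561) (nat_lit 456) (nat_lit 2893641402) (nat_lit 532) (nat_lit 573826111) (nat_lit 116) (nat_lit 5) (nat_lit 122) (nat_lit 5) (nat_lit 123) (nat_lit 5) (nat_lit 284) (nat_lit 253) (nat_lit 243)) (XT.nd (nat_lit 78) (nat_lit 456) (nat_lit 0) (XT.lf (nat_lit 0) (nat_lit 4265336599) (nat_lit 456) (nat_lit 3141133155) (nat_lit 76) (nat_lit 1237491616) (nat_lit 110) (nat_lit 5) (nat_lit 116) (nat_lit 5) (nat_lit 111) (nat_lit 5) (nat_lit 285) (nat_lit 253) (nat_lit 242)) (XT.lf (nat_lit 0) (nat_lit 407438070) (nat_lit 456) (nat_lit 2871418428) (nat_lit 76) (nat_lit 5572583959) (nat_lit 104) (nat_lit 5) (nat_lit 110) (nat_lit 5) (nat_lit 105) (nat_lit 5) (nat_lit 286) (nat_lit 253) (nat_lit 241))))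 (XT.nd (nat_lit 156) (nat_lit 760) (nat_lit 0) (XT.nd (nat_lit 78) (nat_lit 456) (nat_lit 0) (XT.lf (nat_lit 0) (nat_lit 5262564360) (nat_lit 456) (nat_lit 2687115941) (nat_lit 76) (nat_lit 1120949913) (nat_lit 99) (nat_lit 5) (nat_lit 105) (nat_lit 5) (nat_lit 100) (nat_lit 5) (nat_lit 287) (nat_lit 253) (nat_lit 240)) (XT.lf (nat_lit 0) (nat_lit 986233507) (nat_lit 456) (nat_lit 2591374437) (nat_lit 76) (nat_lit 5724676821) (nat_lit 93) (nat_lit 5) (nat_lit 99) (nat_lit 5) (nat_lit 94) (nat_lit 5) (nat_lit 288) (nat_lit 253) (nat_lit 239))) (XT.nd (nat_lit 78) (nat_lit 456) (nat_lit 0) (XT.lf (nat_lit 0) (nat_lit 5872298835) (nat_lit 380) (nat_lit 2605301596) (nat_lit 76) (nat_lit 1069083616) (nat_lit 89) (nat_lit 5) (nat_lit 94) (nat_lit 5) (nat_lit 90) (nat_lit 5) (nat_lit 289) (nat_lit 253) (nat_lit 238)) (XT.lf (nat_lit 0) (nat_lit 1136802492) (nat_lit 456) (nat_lit 2744821694) (nat_lit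 76) (nat_lit 5922708931) (nat_lit 83) (nat_lit 5) (nat_lit 89) (nat_lit 5) (nat_lit 84) (nat_lit 5) (nat_lit 290) (nat_lit 253) (nat_lit 237))))))) (XT.nd (nat_lit 1014) (nat_lit 1520) (nat_lit 0) (XT.nd (nat_lit 468) (nat_lit 1444) (nat_lit 0) (XT.nd (nat_lit 234) (nat_lit 836) (nat_lit 0) (XT.nd (nat_lit 78) (nat_lit 608) (nat_lit 0) (XT.lf (nat_lit 0) (nat_lit 6052456466) (nat_lit 380) (nat_lit 3027339685) (nat_lit 76) (nat_lit 995971518) (nat_lit 79) (nat_lit 5) (nat_lit 84) (nat_lit 5) (nat_lit 80) (nat_lit 5) (nat_lit 291) (nat_lit 253) (nat_lit 236)) (XT.nd (nat_lit 78) (nat_lit 228) (nat_lit 0) (XT.lf (nat_lit 0) (nat_lit 809654007) (nat_lit 380) (nat_lit 3473423759) (nat_lit 76) (nat_lit 6078431665) (nat_lit 74) (nat_lit 5) (nat_lit 79) (nat_lit 5) (nat_lit 75) (nat_lit 5) (nat_lit 292) (nat_lit 253) (nat_lit 235)) (XT.lf (nat_lit 0) (nat_lit 5747764836) (nat_lit 304) (nat_lit 4105535445)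 (nat_lit 76) (nat_lit 808810332) (nat_lit 71) (nat_lit 5) (nat_lit 75) (nat_lit 5) (nat_lit 72) (nat_lit 5) (nat_lit 293) (nat_lit 253) (nat_lit 234)))) (XT.nd (nat_lit 78) (nat_lit 532) (nat_lit 0) (XT.lf (nat_lit 0) (nat_lit 6036185474) (nat_lit 304) (nat_lit 4882104456) (nat_lit 380) (nat_lit 60047180) (nat_lit 67) (nat_lit 5) (nat_lit 71) (nat_lit 5) (nat_lit 72) (nat_lit 5) (nat_lit 294) (nat_lit 253) (nat_lit 233)) (XT.nd (nat_lit 78) (nat_lit 228) (nat_lit 0) (XT.lf (nat_lit 0) (nat_lit 4887956727) (nat_lit 304) (nat_lit 6017214806) (nat_lit 76) (nat_lit 405420876) (nat_lit 63) (nat_lit 5) (nat_lit 67) (nat_lit 5) (nat_lit 64) (nat_lit 5) (nat_lit 295) (nat_lit 253) (nat_lit 232)) (XT.lf (nat_lit 0) (nat_lit 4303365918) (nat_lit 228) (nat_lit 5776841713) (nat_lit 304) (nat_lit 1579433700) (nat_lit 60) (nat_lit 5) (nat_lit 63) (nat_lit 5) (nat_lit 64) (nat_lit 5) (nat_lit 296) (nat_lit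 253) (nat_lit 231))))) (XT.nd (nat_lit 234) (nat_lit 836) (nat_lit 0) (XT.nd (nat_lit 78) (nat_lit 304) (nat_lit 0) (XT.lf (nat_lit 0) (nat_lit 3053729873) (nat_lit 228) (nat_lit 335076277) (nat_lit 304) (nat_lit 8637917483) (nat_lit 56) (nat_lit 5) (nat_lit 59) (nat_lit 5) (nat_lit 60) (nat_lit 5) (nat_lit 297) (nat_lit 253) (nat_lit 230)) (XT.nd (nat_lit 78) (nat_lit 76) (nat_lit 0) (XT.lf (nat_lit 0) (nat_lit 1478126788) (nat_lit 228) (nat_lit 7100765562) (nat_lit 304) (nat_lit 3832740057) (nat_lit 53) (nat_lit 5) (nat_lit 56) (nat_lit 5) (nat_lit 57) (nat_lit 5) (nat_lit 298) (nat_lit 253) (nat_lit 229)) (XT.lf (nat_lit 0) (nat_lit 1152220987) (nat_lit 304) (nat_lit 396790407) (nat_lit 76) (nat_lit 11267644942) (nat_lit 52) (nat_lit 5) (nat_lit 56) (nat_lit 5) (nat_lit 53) (nat_lit 5) (nat_lit 299) (nat_lit 253) (nat_lit 228)))) (XT.nd (nat_lit 156) (nat_lit 456) (nat_lit 0) (XT.nd (nat_lit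 78) (nat_lit 228) (nat_lit 0) (XT.lf (nat_lit 0) (nat_lit 6324908399) (nat_lit 228) (nat_lit 2645093519) (nat_lit 76) (nat_lit 4270368363) (nat_lit 50) (nat_lit 5) (nat_lit 53) (nat_lit 5) (nat_lit 51) (nat_lit 5) (nat_lit 300) (nat_lit 253) (nat_lit 227)) (XT.lf (nat_lit 0) (nat_lit 8413854590) (nat_lit 228) (nat_lit 3319444556) (nat_lit 304) (nat_lit 1952763106) (nat_lit 47) (nat_lit 5) (nat_lit 50) (nat_lit 5) (nat_lit 51) (nat_lit 5) (nat_lit 301) (nat_lit 253) (nat_lit 226))) (XT.nd (nat_lit 78) (nat_lit 228) (nat_lit 0) (XT.lf (nat_lit 0) (nat_lit 3182713490) (nat_lit 228) (nat_lit 8361813513) (nat_lit 76) (nat_lit 2609022203) (nat_lit 44) (nat_lit 5) (nat_lit 47) (nat_lit 5) (nat_lit 45) (nat_lit 5) (nat_lit 302) (nat_lit 253) (nat_lit 225)) (XT.lf (nat_lit 0) (nat_lit 2685825992) (nat_lit 228) (nat_lit 5845769962) (nat_lit 304) (nat_lit 6112415913) (nat_lit 41) (nat_lit 5) (nat_lit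 44) (nat_lit 5) (nat_lit 45) (nat_lit 5) (nat_lit 303) (nat_lit 253) (nat_lit 224)))))) (XT.nd (nat_lit 546) (nat_lit 608) (nat_lit 0) (XT.nd (nat_lit 234) (nat_lit 532) (nat_lit 0) (XT.nd (nat_lit 78) (nat_lit 380) (nat_lit 0) (XT.lf (nat_lit 0) (nat_lit 14121845012) (nat_lit 304) (nat_lit 884513023) (nat_lit 76) (nat_lit 153509507) (nat_lit 41) (nat_lit 5) (nat_lit 45) (nat_lit 5) (nat_lit 42) (nat_lit 4) (nat_lit 304) (nat_lit 253) (nat_lit 223)) (XT.nd (nat_lit 78) (nat_lit 152) (nat_lit 0) (XT.lf (nat_lit 0) (nat_lit 4259935792) (nat_lit 228) (nat_lit 5026458184) (nat_lit 76) (nat_lit 6412359001) (nat_lit 38) (nat_lit 5) (nat_lit 41) (nat_lit 5) (nat_lit 39) (nat_lit 5) (nat_lit 305) (nat_lit 253) (nat_lit 222)) (XT.lf (nat_lit 0) (nat_lit 6502713369) (nat_lit 152) (nat_lit 3264030798) (nat_lit 228) (nat_lit 6498644694) (nat_lit 36) (nat_lit 5) (nat_lit 38) (nat_lit 5) (nat_lit 39)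 (nat_lit 5) (nat_lit 306) (nat_lit 253) (nat_lit 221)))) (XT.nd (nat_lit 156) (nat_lit 304) (nat_lit 0) (XT.nd (nat_lit 78) (nat_lit 76) (nat_lit 0) (XT.lf (nat_lit 0) (nat_lit 1685298775) (nat_lit 152) (nat_lit 13857774103) (nat_lit 228) (nat_lit 1317531692) (nat_lit 34) (nat_lit 5) (nat_lit 36) (nat_lit 5) (nat_lit 37) (nat_lit 4) (nat_lit 307) (nat_lit 253) (nat_lit 220)) (XT.lf (nat_lit 0) (nat_lit 4075209437) (nat_lit 228) (nat_lit 3815844444) (nat_lit 76) (nat_lit 9592415604) (nat_lit 33) (nat_lit 5) (nat_lit 36) (nat_lit 5) (nat_lit 34) (nat_lit 5) (nat_lit 308) (nat_lit 253) (nat_lit 219))) (XT.nd (nat_lit 78) (nat_lit 152) (nat_lit 0) (XT.lf (nat_lit 0) (nat_lit 8094927000) (nat_lit 152) (nat_lit 1596890316) (nat_lit 228) (nat_lit 8445889298) (nat_lit 31) (nat_lit 5) (nat_lit 33) (nat_lit 5) (nat_lit 34) (nat_lit 5) (nat_lit 309) (nat_lit 253) (nat_lit 218)) (XT.lf (nat_lit 0) (nat_lit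 1682809818) (nat_lit 152) (nat_lit 13916367011) (nat_lit 228) (nat_lit 3225242719) (nat_lit 29) (nat_lit 5) (nat_lit 31) (nat_lit 5) (nat_lit 32) (nat_lit 4) (nat_lit 310) (nat_lit 253) (nat_lit 217))))) (XT.nd (nat_lit 234) (nat_lit 380) (nat_lit 0) (XT.nd (nat_lit 78) (nat_lit 152) (nat_lit 0) (XT.lf (nat_lit 0) (nat_lit 2240862383) (nat_lit 228) (nat_lit 5532948163) (nat_lit 76) (nat_lit 11770210095) (nat_lit 28) (nat_lit 5) (nat_lit 31) (nat_lit 5) (nat_lit 29) (nat_lit 5) (nat_lit 311) (nat_lit 253) (nat_lit 216)) (XT.nd (nat_lit 78) (nat_lit 0) (nat_lit 0) (XT.lf (nat_lit 0) (nat_lit 6603602796) (nat_lit 152) (nat_lit 1286383438) (nat_lit 228) (nat_lit 12409419301) (nat_lit 26) (nat_lit 5) (nat_lit 28) (nat_lit 5) (nat_lit 29) (nat_lit 5) (nat_lit 312) (nat_lit 253) (nat_lit 215)) (XT.lf (nat_lit 0) (nat_lit 13846730949) (nat_lit 228) (nat_lit 1828533526) (nat_lit 76) (nat_lit 5416591907)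 (nat_lit 26) (nat_lit 5) (nat_lit 29) (nat_lit 5) (nat_lit 27) (nat_lit 4) (nat_lit 313) (nat_lit 253) (nat_lit 214)))) (XT.nd (nat_lit 156) (nat_lit 76) (nat_lit 0) (XT.nd (nat_lit 78) (nat_lit 228) (nat_lit 0) (XT.lf (nat_lit 0) (nat_lit 10688050485) (nat_lit 76) (nat_lit 9447586516) (nat_lit 152) (nat_lit 1787312238) (nat_lit 25) (nat_lit 5) (nat_lit 26) (nat_lit 5) (nat_lit 27) (nat_lit 4) (nat_lit 314) (nat_lit 253) (nat_lit 213)) (XT.lf (nat_lit 0) (nat_lit 916172178) (nat_lit 152) (nat_lit 2898432287) (nat_lit 228) (nat_lit 18981455689) (nat_lit 22) (nat_lit 5) (nat_lit 24) (nat_lit 5) (nat_lit 25) (nat_lit 5) (nat_lit 315) (nat_lit 253) (nat_lit 212))) (XT.nd (nat_lit 78) (nat_lit 76) (nat_lit 0) (XT.lf (nat_lit 0) (nat_lit 9737353163) (nat_lit 228) (nat_lit 9992348327) (nat_lit 76) (nat_lit 3980306542) (nat_lit 22) (nat_lit 5) (nat_lit 25) (nat_lit 5) (nat_lit 23) (nat_lit 4) (nat_lit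 316) (nat_lit 253) (nat_lit 211)) (XT.lf (nat_lit 0) (nat_lit 2378013760) (nat_lit 76) (nat_lit 13556355943) (nat_lit 152) (nat_lit 8735980944) (nat_lit 21) (nat_lit 5) (nat_lit 22) (nat_lit 5) (nat_lit 23) (nat_lit 4) (nat_lit 317) (nat_lit 253) (nat_lit 210))))))))
noncomputable def xc38 : XT := (XT.nd (nat_lit 2028) (nat_lit 228) (nat_lit 0) (XT.nd (nat_lit 1014) (nat_lit 304) (nat_lit 0) (XT.nd (nat_lit 468) (nat_lit 456) (nat_lit 0) (XT.nd (nat_lit 234) (nat_lit 76) (nat_lit 0) (XT.nd (nat_lit 78) (nat_lit 228) (nat_lit 0) (XT.lf (nat_lit 0) (nat_lit 15450690327) (nat_lit 76) (nat_lit 7021747348) (nat_lit 152) (nat_lit 3205375988) (nat_lit 21) (nat_lit 5) (nat_lit 22) (nat_lit 5) (nat_lit 23) (nat_lit 4) (nat_lit 318) (nat_lit 253) (nat_lit 209)) (XT.nd (nat_lit 78) (nat_lit 0) (nat_lit 0) (XT.lf (nat_lit 0) (nat_lit 2341563471) (nat_lit 152) (nat_lit 162972830) (nat_lit 228) (nat_lit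 24231793164) (nat_lit 18) (nat_lit 5) (nat_lit 20) (nat_lit 5) (nat_lit 21) (nat_lit 5) (nat_lit 319) (nat_lit 253) (nat_lit 208)) (XT.lf (nat_lit 0) (nat_lit 8540965217) (nat_lit 228) (nat_lit 12311839746) (nat_lit 76) (nat_lit 6990829207) (nat_lit 18) (nat_lit 5) (nat_lit 21) (nat_lit 5) (nat_lit 19) (nat_lit 4) (nat_lit 320) (nat_lit 253) (nat_lit 207)))) (XT.nd (nat_lit 78) (nat_lit 0) (nat_lit 0) (XT.lf (nat_lit 0) (nat_lit 265849088) (nat_lit 76) (nat_lit 14553485591) (nat_lit 152) (nat_lit 14188798811) (nat_lit 17) (nat_lit 5) (nat_lit 18) (nat_lit 5) (nat_lit 19) (nat_lit 4) (nat_lit 321) (nat_lit 253) (nat_lit 206)) (XT.nd (nat_lit 78) (nat_lit 0) (nat_lit 0) (XT.lf (nat_lit 0) (nat_lit 13620014145) (nat_lit 76) (nat_lit 7856263759) (nat_lit 152) (nat_lit 8752671596) (nat_lit 17) (nat_lit 5) (nat_lit 18) (nat_lit 5) (nat_lit 19) (nat_lit 4) (nat_lit 322) (nat_lit 253) (nat_lit 205))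 (XT.lf (nat_lit 0) (nat_lit 27537421302) (nat_lit 76) (nat_lit 869519142) (nat_lit 152) (nat_lit 3105669590) (nat_lit 17) (nat_lit 5) (nat_lit 18) (nat_lit 5) (nat_lit 19) (nat_lit 4) (nat_lit 323) (nat_lit 253) (nat_lit 204))))) (XT.nd (nat_lit 234) (nat_lit 152) (nat_lit 0) (XT.nd (nat_lit 78) (nat_lit 76) (nat_lit 0) (XT.lf (nat_lit 0) (nat_lit 2864410652) (nat_lit 228) (nat_lit 23576775723) (nat_lit 76) (nat_lit 6415605716) (nat_lit 14) (nat_lit 5) (nat_lit 17) (nat_lit 5) (nat_lit 15) (nat_lit 4) (nat_lit 324) (nat_lit 253) (nat_lit 203)) (XT.nd (nat_lit 78) (nat_lit 76) (nat_lit 0) (XT.lf (nat_lit 0) (nat_lit 9063926522) (nat_lit 228) (nat_lit 11125468566) (nat_lit 76) (nat_lit 14078037157) (nat_lit 14) (nat_lit 5) (nat_lit 17) (nat_lit 5) (nat_lit 15) (nat_lit 4) (nat_lit 325) (nat_lit 253) (nat_lit 202)) (XT.lf (nat_lit 0) (nat_lit 1890983151) (nat_lit 76) (nat_lit 13647719051) (nat_lit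 152) (nat_lit 20210968752) (nat_lit 13) (nat_lit 5) (nat_lit 14) (nat_lit 5) (nat_lit 15) (nat_lit 4) (nat_lit 326) (nat_lit 253) (nat_lit 201)))) (XT.nd (nat_lit 156) (nat_lit 152) (nat_lit 0) (XT.nd (nat_lit 78) (nat_lit 0) (nat_lit 0) (XT.lf (nat_lit 0) (nat_lit 15699130021) (nat_lit 76) (nat_lit 6701358306) (nat_lit 152) (nat_lit 14903658993) (nat_lit 13) (nat_lit 5) (nat_lit 14) (nat_lit 5) (nat_lit 15) (nat_lit 4) (nat_lit 327) (nat_lit 253) (nat_lit 200)) (XT.lf (nat_lit 0) (nat_lit 29561873503) (nat_lit 152) (nat_lit 8832728972) (nat_lit 0) (nat_lit 543072474) (nat_lit 13) (nat_lit 5) (nat_lit 15) (nat_lit 4) (nat_lit 13) (nat_lit 4) (nat_lit 328) (nat_lit 253) (nat_lit 199))) (XT.nd (nat_lit 78) (nat_lit 76) (nat_lit 0) (XT.lf (nat_lit 0) (nat_lit 4514465045) (nat_lit 76) (nat_lit 32631055216) (nat_lit 76) (nat_lit 3505454580) (nat_lit 12) (nat_lit 4) (nat_lit 13) (nat_lit 5) (nat_lit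 13) (nat_lit 4) (nat_lit 329) (nat_lit 253) (nat_lit 198)) (XT.lf (nat_lit 0) (nat_lit 2652493001) (nat_lit 152) (nat_lit 23842753755) (nat_lit 76) (nat_lit 15952567611) (nat_lit 11) (nat_lit 5) (nat_lit 13) (nat_lit 5) (nat_lit 12) (nat_lit 4) (nat_lit 330) (nat_lit 253) (nat_lit 197)))))) (XT.nd (nat_lit 468) (nat_lit 152) (nat_lit 0) (XT.nd (nat_lit 234) (nat_lit 76) (nat_lit 0) (XT.nd (nat_lit 78) (nat_lit 76) (nat_lit 0) (XT.lf (nat_lit 0) (nat_lit 9002830972) (nat_lit 152) (nat_lit 11048438067) (nat_lit 76) (nat_lit 24283494940) (nat_lit 11) (nat_lit 5) (nat_lit 13) (nat_lit 5) (nat_lit 12) (nat_lit 4) (nat_lit 331) (nat_lit 253) (nat_lit 196)) (XT.nd (nat_lit 78) (nat_lit 0) (nat_lit 0) (XT.lf (nat_lit 0) (nat_lit 2356581897) (nat_lit 76) (nat_lit 13295154238) (nat_lit 152) (nat_lit 30664911587) (nat_lit 10) (nat_lit 5) (nat_lit 11) (nat_lit 5) (nat_lit 12) (nat_lit 4) (nat_lit 332)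 (nat_lit 253) (nat_lit 195)) (XT.lf (nat_lit 0) (nat_lit 16589885583) (nat_lit 76) (nat_lit 6116613107) (nat_lit 152) (nat_lit 25688941892) (nat_lit 10) (nat_lit 5) (nat_lit 11) (nat_lit 5) (nat_lit 12) (nat_lit 4) (nat_lit 333) (nat_lit 253) (nat_lit 194)))) (XT.nd (nat_lit 78) (nat_lit 76) (nat_lit 0) (XT.lf (nat_lit 0) (nat_lit 30088958035) (nat_lit 152) (nat_lit 19127225745) (nat_lit 0) (nat_lit 1362757019) (nat_lit 10) (nat_lit 5) (nat_lit 12) (nat_lit 4) (nat_lit 10) (nat_lit 4) (nat_lit 334) (nat_lit 253) (nat_lit 193)) (XT.nd (nat_lit 78) (nat_lit 76) (nat_lit 0) (XT.lf (nat_lit 0) (nat_lit 37865420169) (nat_lit 152) (nat_lit 5943620279) (nat_lit 0) (nat_lit 9061844870) (nat_lit 10) (nat_lit 5) (nat_lit 12) (nat_lit 4) (nat_lit 10) (nat_lit 4) (nat_lit 335) (nat_lit 253) (nat_lit 192)) (XT.lf (nat_lit 0) (nat_lit 7991388331) (nat_lit 76) (nat_lit 38081033635) (nat_lit 76) (nat_lit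 9203768542) (nat_lit 9) (nat_lit 4) (nat_lit 10) (nat_lit 5) (nat_lit 10) (nat_lit 4) (nat_lit 336) (nat_lit 253) (nat_lit 191))))) (XT.nd (nat_lit 234) (nat_lit 76) (nat_lit 0) (XT.nd (nat_lit 78) (nat_lit 76) (nat_lit 0) (XT.lf (nat_lit 0) (nat_lit 22685460117) (nat_lit 76) (nat_lit 32031473068) (nat_lit 76) (nat_lit 3084027221) (nat_lit 9) (nat_lit 4) (nat_lit 10) (nat_lit 5) (nat_lit 10) (nat_lit 4) (nat_lit 337) (nat_lit 253) (nat_lit 190)) (XT.nd (nat_lit 78) (nat_lit 0) (nat_lit 0) (XT.lf (nat_lit 0) (nat_lit 3243753659) (nat_lit 152) (nat_lit 22429464734) (nat_lit 76) (nat_lit 34778782055) (nat_lit 8) (nat_lit 5) (nat_lit 10) (nat_lit 5) (nat_lit 9) (nat_lit 4) (nat_lit 338) (nat_lit 253) (nat_lit 189)) (XT.lf (nat_lit 0) (nat_lit 9793554193) (nat_lit 152) (nat_lit 9197025665) (nat_lit 76) (nat_lit 44245026726) (nat_lit 8) (nat_lit 5) (nat_lit 10) (nat_lit 5) (nat_lit 9) (nat_lit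 4) (nat_lit 339) (nat_lit 253) (nat_lit 188)))) (XT.nd (nat_lit 156) (nat_lit 0) (nat_lit 0) (XT.nd (nat_lit 78) (nat_lit 0) (nat_lit 0) (XT.lf (nat_lit 0) (nat_lit 4735372454) (nat_lit 76) (nat_lit 11951296465) (nat_lit 152) (nat_lit 49471261315) (nat_lit 7) (nat_lit 5) (nat_lit 8) (nat_lit 5) (nat_lit 9) (nat_lit 4) (nat_lit 340) (nat_lit 253) (nat_lit 187)) (XT.lf (nat_lit 0) (nat_lit 19504064012) (nat_lit 76) (nat_lit 4486264729) (nat_lit 152) (nat_lit 45234076011) (nat_lit 7) (nat_lit 5) (nat_lit 8) (nat_lit 5) (nat_lit 9) (nat_lit 4) (nat_lit 341) (nat_lit 253) (nat_lit 186))) (XT.nd (nat_lit 78) (nat_lit 0) (nat_lit 0) (XT.lf (nat_lit 0) (nat_lit 31663760804) (nat_lit 152) (nat_lit 37515866955) (nat_lit 0) (nat_lit 3264448384) (nat_lit 7) (nat_lit 5) (nat_lit 9) (nat_lit 4) (nat_lit 7) (nat_lit 4) (nat_lit 342) (nat_lit 253) (nat_lit 185)) (XT.lf (nat_lit 0) (nat_lit 39739828850)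 (nat_lit 152) (nat_lit 24794671821) (nat_lit 0) (nat_lit 11289671809) (nat_lit 7) (nat_lit 5) (nat_lit 9) (nat_lit 4) (nat_lit 7) (nat_lit 4) (nat_lit 343) (nat_lit 253) (nat_lit 184))))))) (XT.nd (nat_lit 1014) (nat_lit 0) (nat_lit 0) (XT.nd (nat_lit 468) (nat_lit 152) (nat_lit 0) (XT.nd (nat_lit 234) (nat_lit 0) (nat_lit 0) (XT.nd (nat_lit 78) (nat_lit 76) (nat_lit 0) (XT.lf (nat_lit 0) (nat_lit 48194636893) (nat_lit 152) (nat_lit 11483342059) (nat_lit 0) (nat_lit 19696056402) (nat_lit 7) (nat_lit 5) (nat_lit 9) (nat_lit 4) (nat_lit 7) (nat_lit 4) (nat_lit 344) (nat_lit 253) (nat_lit 183)) (XT.nd (nat_lit 78) (nat_lit 0) (nat_lit 0) (XT.lf (nat_lit 0) (nat_lit 2498572115) (nat_lit 76) (nat_lit 54573761115) (nat_lit 76) (nat_lit 26029063054) (nat_lit 6) (nat_lit 4) (nat_lit 7) (nat_lit 5) (nat_lit 7) (nat_lit 4) (nat_lit 345) (nat_lit 253) (nat_lit 182)) (XT.lf (nat_lit 0) (nat_lit 17377065604)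 (nat_lit 76) (nat_lit 49111918021) (nat_lit 76) (nat_lit 20523298464) (nat_lit 6) (nat_lit 4) (nat_lit 7) (nat_lit 5) (nat_lit 7) (nat_lit 4) (nat_lit 346) (nat_lit 253) (nat_lit 181)))) (XT.nd (nat_lit 78) (nat_lit 0) (nat_lit 0) (XT.lf (nat_lit 0) (nat_lit 32959022367) (nat_lit 76) (nat_lit 43395404521) (nat_lit 76) (nat_lit 14764954967) (nat_lit 6) (nat_lit 4) (nat_lit 7) (nat_lit 5) (nat_lit 7) (nat_lit 4) (nat_lit 347) (nat_lit 253) (nat_lit 180)) (XT.nd (nat_lit 78) (nat_lit 0) (nat_lit 0) (XT.lf (nat_lit 0) (nat_lit 49281542302) (nat_lit 76) (nat_lit 37410609867) (nat_lit 76) (nat_lit 8740322222) (nat_lit 6) (nat_lit 4) (nat_lit 7) (nat_lit 5) (nat_lit 7) (nat_lit 4) (nat_lit 348) (nat_lit 253) (nat_lit 179)) (XT.lf (nat_lit 0) (nat_lit 66383488551) (nat_lit 76) (nat_lit 31143284549) (nat_lit 76) (nat_lit 2435055864) (nat_lit 6) (nat_lit 4) (nat_lit 7) (nat_lit 5) (nat_lit 7) (nat_lit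 4) (nat_lit 349) (nat_lit 253) (nat_lit 178))))) (XT.nd (nat_lit 234) (nat_lit 0) (nat_lit 0) (XT.nd (nat_lit 78) (nat_lit 76) (nat_lit 0) (XT.lf (nat_lit 0) (nat_lit 4084565776) (nat_lit 152) (nat_lit 20452694482) (nat_lit 76) (nat_lit 80179768153) (nat_lit 5) (nat_lit 5) (nat_lit 7) (nat_lit 5) (nat_lit 6) (nat_lit 4) (nat_lit 350) (nat_lit 253) (nat_lit 177)) (XT.nd (nat_lit 78) (nat_lit 76) (nat_lit 0) (XT.lf (nat_lit 0) (nat_lit 10861957510) (nat_lit 152) (nat_lit 6729002902) (nat_lit 76) (nat_lit 92118846415) (nat_lit 5) (nat_lit 5) (nat_lit 7) (nat_lit 5) (nat_lit 6) (nat_lit 4) (nat_lit 351) (nat_lit 253) (nat_lit 176)) (XT.lf (nat_lit 0) (nat_lit 7801043482) (nat_lit 76) (nat_lit 10234717615) (nat_lit 152) (nat_lit 96914743252) (nat_lit 4) (nat_lit 5) (nat_lit 5) (nat_lit 5) (nat_lit 6) (nat_lit 4) (nat_lit 352) (nat_lit 253) (nat_lit 175)))) (XT.nd (nat_lit 156) (nat_lit 0) (nat_lit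 0) (XT.nd (nat_lit 78) (nat_lit 0) (nat_lit 0) (XT.lf (nat_lit 0) (nat_lit 23167071213) (nat_lit 76) (nat_lit 2453538119) (nat_lit 152) (nat_lit 94831062924) (nat_lit 4) (nat_lit 5) (nat_lit 5) (nat_lit 5) (nat_lit 6) (nat_lit 4) (nat_lit 353) (nat_lit 253) (nat_lit 174)) (XT.lf (nat_lit 0) (nat_lit 33623412976) (nat_lit 152) (nat_lit 87011464186) (nat_lit 0) (nat_lit 5591865859) (nat_lit 4) (nat_lit 5) (nat_lit 6) (nat_lit 4) (nat_lit 4) (nat_lit 4) (nat_lit 354) (nat_lit 253) (nat_lit 173))) (XT.nd (nat_lit 78) (nat_lit 0) (nat_lit 0) (XT.lf (nat_lit 0) (nat_lit 42035654838) (nat_lit 152) (nat_lit 76278018959) (nat_lit 0) (nat_lit 13976620160) (nat_lit 4) (nat_lit 5) (nat_lit 6) (nat_lit 4) (nat_lit 4) (nat_lit 4) (nat_lit 355) (nat_lit 253) (nat_lit 172)) (XT.lf (nat_lit 0) (nat_lit 50853779156) (nat_lit 152) (nat_lit 65035124631) (nat_lit 0) (nat_lit 22768565848) (nat_lit 4) (nat_lit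 5) (nat_lit 6) (nat_lit 4) (nat_lit 4) (nat_lit 4) (nat_lit 356) (nat_lit 253) (nat_lit 171)))))) (XT.nd (nat_lit 34164) (nat_lit 0) (nat_lit 10488) (XT.nd (nat_lit 234) (nat_lit 0) (nat_lit 0) (XT.nd (nat_lit 78) (nat_lit 0) (nat_lit 0) (XT.lf (nat_lit 0) (nat_lit 60098781464) (nat_lit 152) (nat_lit 53256012406) (nat_lit 0) (nat_lit 31988636128) (nat_lit 4) (nat_lit 5) (nat_lit 6) (nat_lit 4) (nat_lit 4) (nat_lit 4) (nat_lit 357) (nat_lit 253) (nat_lit 170)) (XT.nd (nat_lit 78) (nat_lit 0) (nat_lit 0) (XT.lf (nat_lit 0) (nat_lit 69792673673) (nat_lit 152) (nat_lit 40912636780) (nat_lit 0) (nat_lit 41658783549) (nat_lit 4) (nat_lit 5) (nat_lit 6) (nat_lit 4) (nat_lit 4) (nat_lit 4) (nat_lit 358) (nat_lit 253) (nat_lit 169)) (XT.lf (nat_lit 0) (nat_lit 79958536478) (nat_lit 152) (nat_lit 27975608762) (nat_lit 0) (nat_lit 51802032269) (nat_lit 4) (nat_lit 5) (nat_lit 6) (nat_lit 4) (nat_lit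 4) (nat_lit 4) (nat_lit 359) (nat_lit 253) (nat_lit 168)))) (XT.nd (nat_lit 33774) (nat_lit 0) (nat_lit 17100) (XT.nd (nat_lit 78) (nat_lit 0) (nat_lit 0) (XT.lf (nat_lit 0) (nat_lit 90620574315) (nat_lit 152) (nat_lit 14414125905) (nat_lit 0) (nat_lit 62442532883) (nat_lit 4) (nat_lit 5) (nat_lit 6) (nat_lit 4) (nat_lit 4) (nat_lit 4) (nat_lit 360) (nat_lit 253) (nat_lit 167)) (XT.lf (nat_lit 0) (nat_lit 101804172988) (nat_lit 152) (nat_lit 195898964) (nat_lit 0) (nat_lit 73605619915) (nat_lit 4) (nat_lit 5) (nat_lit 6) (nat_lit 4) (nat_lit 4) (nat_lit 4) (nat_lit 361) (nat_lit 253) (nat_lit 166))) (XT.nd (nat_lit 78) (nat_lit 912) (nat_lit 0) (XT.lf (nat_lit 0) (nat_lit 1374422561) (nat_lit 836) (nat_lit 697946499) (nat_lit 0) (nat_lit 1374422561) (nat_lit 241) (nat_lit 5) (nat_lit 252) (nat_lit 4) (nat_lit 241) (nat_lit 4) (nat_lit 272) (nat_lit 254) (nat_lit 254)) (XT.lf (nat_lit 0)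 (nat_lit 901705048) (nat_lit 912) (nat_lit 1164560977) (nat_lit 76) (nat_lit 4908763159) (nat_lit 229) (nat_lit 5) (nat_lit 241) (nat_lit 5) (nat_lit 230) (nat_lit 4) (nat_lit 273) (nat_lit 254) (nat_lit 253))))) (XT.nd (nat_lit 234) (nat_lit 3496) (nat_lit 0) (XT.nd (nat_lit 78) (nat_lit 2204) (nat_lit 0) (XT.lf (nat_lit 0) (nat_lit 5931729593) (nat_lit 988) (nat_lit 879020250) (nat_lit 0) (nat_lit 254618578) (nat_lit 217) (nat_lit 5) (nat_lit 230) (nat_lit 4) (nat_lit 217) (nat_lit 4) (nat_lit 274) (nat_lit 254) (nat_lit 252)) (XT.nd (nat_lit 78) (nat_lit 1140) (nat_lit 0) (XT.lf (nat_lit 0) (nat_lit 3818768317) (nat_lit 1064) (nat_lit 562461278) (nat_lit 76) (nat_lit 2783000575) (nat_lit 203) (nat_lit 5) (nat_lit 217) (nat_lit 5) (nat_lit 204) (nat_lit 4) (nat_lit 275) (nat_lit 254) (nat_lit 251)) (XT.lf (nat_lit 0) (nat_lit 1526282841) (nat_lit 1140) (nat_lit 190010652) (nat_lit 76)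 (nat_lit 5556416308) (nat_lit 188) (nat_lit 5) (nat_lit 203) (nat_lit 5) (nat_lit 189) (nat_lit 5) (nat_lit 276) (nat_lit 254) (nat_lit 250)))) (XT.nd (nat_lit 156) (nat_lit 1140) (nat_lit 0) (XT.nd (nat_lit 78) (nat_lit 684) (nat_lit 0) (XT.lf (nat_lit 0) (nat_lit 217681121) (nat_lit 532) (nat_lit 6211547662) (nat_lit 608) (nat_lit 961144009) (nat_lit 166) (nat_lit 5) (nat_lit 173) (nat_lit 5) (nat_lit 174) (nat_lit 4) (nat_lit 277) (nat_lit 254) (nat_lit 249)) (XT.lf (nat_lit 0) (nat_lit 641208372) (nat_lit 608) (nat_lit 3213548784) (nat_lit 684) (nat_lit 3662293334) (nat_lit 157) (nat_lit 5) (nat_lit 165) (nat_lit 5) (nat_lit 166) (nat_lit 5) (nat_lit 278) (nat_lit 254) (nat_lit 248))) (XT.nd (nat_lit 78) (nat_lit 532) (nat_lit 0) (XT.lf (nat_lit 0) (nat_lit 1076827809) (nat_lit 608) (nat_lit 6549792842) (nat_lit 76) (nat_lit 27410869) (nat_lit 149) (nat_lit 5) (nat_lit 157) (nat_lit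 5) (nat_lit 150) (nat_lit 5) (nat_lit 279) (nat_lit 254) (nat_lit 247)) (XT.lf (nat_lit 0) (nat_lit 1549009974) (nat_lit 532) (nat_lit 4329718991) (nat_lit 608) (nat_lit 1921370111) (nat_lit 142) (nat_lit 5) (nat_lit 149) (nat_lit 5) (nat_lit 150) (nat_lit 5) (nat_lit 280) (nat_lit 254) (nat_lit 246))))))))
noncomputable def xc39 : XT := (XT.nd (nat_lit 2028) (nat_lit 2128) (nat_lit 0) (XT.nd (nat_lit 1014) (nat_lit 2508) (nat_lit 0) (XT.nd (nat_lit 468) (nat_lit 2508) (nat_lit 0) (XT.nd (nat_lit 234) (nat_lit 1368) (nat_lit 0) (XT.nd (nat_lit 78) (nat_lit 988) (nat_lit 0) (XT.lf (nat_lit 0) (nat_lit 2008165773) (nat_lit 456) (nat_lit 776328230) (nat_lit 532) (nat_lit 5172210299) (nat_lit 135) (nat_lit 5) (nat_lit 141) (nat_lit 5) (nat_lit 142) (nat_lit 5) (nat_lit 281) (nat_lit 254) (nat_lit 245)) (XT.nd (nat_lit 78) (nat_lit 532) (nat_lit 0) (XT.lf (nat_lit 0) (nat_lit 2451905655) (nat_lit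 456) (nat_lit 5146671861) (nat_lit 532) (nat_lit 524939491) (nat_lit 129) (nat_lit 5) (nat_lit 135) (nat_lit 5) (nat_lit 136) (nat_lit 5) (nat_lit 282) (nat_lit 254) (nat_lit 244)) (XT.lf (nat_lit 0) (nat_lit 2868801771) (nat_lit 456) (nat_lit 1298759455) (nat_lit 532) (nat_lit 4133221170) (nat_lit 122) (nat_lit 5) (nat_lit 128) (nat_lit 5) (nat_lit 129) (nat_lit 5) (nat_lit 283) (nat_lit 254) (nat_lit 243)))) (XT.nd (nat_lit 78) (nat_lit 836) (nat_lit 0) (XT.lf (nat_lit 0) (nat_lit 508708680) (nat_lit 532) (nat_lit 5228840590) (nat_lit 76) (nat_lit 2751615411) (nat_lit 115) (nat_lit 5) (nat_lit 122) (nat_lit 5) (nat_lit 116) (nat_lit 5) (nat_lit 284) (nat_lit 254) (nat_lit 242)) (XT.nd (nat_lit 78) (nat_lit 456) (nat_lit 0) (XT.lf (nat_lit 0) (nat_lit 3597413485) (nat_lit 380) (nat_lit 1617165388) (nat_lit 456) (nat_lit 3473906686) (nat_lit 110) (nat_lit 5) (nat_lit 115) (nat_lit 5) (nat_lit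 116) (nat_lit 5) (nat_lit 285) (nat_lit 254) (nat_lit 241)) (XT.lf (nat_lit 0) (nat_lit 1169093792) (nat_lit 456) (nat_lit 5015293127) (nat_lit 76) (nat_lit 2715199460) (nat_lit 104) (nat_lit 5) (nat_lit 110) (nat_lit 5) (nat_lit 105) (nat_lit 5) (nat_lit 286) (nat_lit 254) (nat_lit 240))))) (XT.nd (nat_lit 234) (nat_lit 1368) (nat_lit 0) (XT.nd (nat_lit 78) (nat_lit 760) (nat_lit 0) (XT.lf (nat_lit 0) (nat_lit 4094579167) (nat_lit 380) (nat_lit 1810295426) (nat_lit 456) (nat_lit 3217596568) (nat_lit 99) (nat_lit 5) (nat_lit 104) (nat_lit 5) (nat_lit 105) (nat_lit 5) (nat_lit 287) (nat_lit 254) (nat_lit 239)) (XT.nd (nat_lit 78) (nat_lit 304) (nat_lit 0) (XT.lf (nat_lit 0) (nat_lit 1439154342) (nat_lit 456) (nat_lit 5133982692) (nat_lit 76) (nat_lit 2784705208) (nat_lit 93) (nat_lit 5) (nat_lit 99) (nat_lit 5) (nat_lit 94) (nat_lit 5) (nat_lit 288) (nat_lit 254) (nat_lit 238)) (XT.lf (nat_lit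 0) (nat_lit 4247584250) (nat_lit 304) (nat_lit 1959776375) (nat_lit 380) (nat_lit 3398517641) (nat_lit 89) (nat_lit 5) (nat_lit 93) (nat_lit 5) (nat_lit 94) (nat_lit 5) (nat_lit 289) (nat_lit 254) (nat_lit 237)))) (XT.nd (nat_lit 156) (nat_lit 608) (nat_lit 0) (XT.nd (nat_lit 78) (nat_lit 304) (nat_lit 0) (XT.lf (nat_lit 0) (nat_lit 1280455692) (nat_lit 456) (nat_lit 5708274631) (nat_lit 76) (nat_lit 2878615759) (nat_lit 83) (nat_lit 5) (nat_lit 89) (nat_lit 5) (nat_lit 84) (nat_lit 5) (nat_lit 290) (nat_lit 254) (nat_lit 236)) (XT.lf (nat_lit 0) (nat_lit 3927147164) (nat_lit 304) (nat_lit 2152206993) (nat_lit 380) (nat_lit 4063018059) (nat_lit 79) (nat_lit 5) (nat_lit 83) (nat_lit 5) (nat_lit 84) (nat_lit 5) (nat_lit 291) (nat_lit 254) (nat_lit 235))) (XT.nd (nat_lit 78) (nat_lit 228) (nat_lit 0) (XT.lf (nat_lit 0) (nat_lit 642092832) (nat_lit 380) (nat_lit 6880372521) (nat_lit 76) (nat_lit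 2909601167) (nat_lit 74) (nat_lit 5) (nat_lit 79) (nat_lit 5) (nat_lit 75) (nat_lit 5) (nat_lit 292) (nat_lit 254) (nat_lit 234)) (XT.lf (nat_lit 0) (nat_lit 2983670841) (nat_lit 228) (nat_lit 2481439290) (nat_lit 304) (nat_lit 5271088678) (nat_lit 71) (nat_lit 5) (nat_lit 74) (nat_lit 5) (nat_lit 75) (nat_lit 5) (nat_lit 293) (nat_lit 254) (nat_lit 233)))))) (XT.nd (nat_lit 468) (nat_lit 1140) (nat_lit 0) (XT.nd (nat_lit 234) (nat_lit 532) (nat_lit 0) (XT.nd (nat_lit 78) (nat_lit 532) (nat_lit 0) (XT.lf (nat_lit 0) (nat_lit 2235746536) (nat_lit 304) (nat_lit 8268955337) (nat_lit 380) (nat_lit 551726005) (nat_lit 67) (nat_lit 5) (nat_lit 71) (nat_lit 5) (nat_lit 72) (nat_lit 5) (nat_lit 294) (nat_lit 254) (nat_lit 232)) (XT.nd (nat_lit 78) (nat_lit 228) (nat_lit 0) (XT.lf (nat_lit 0) (nat_lit 1242926464) (nat_lit 228) (nat_lit 3051100295) (nat_lit 304) (nat_lit 7098222529) (nat_lit 63) (nat_lit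 5) (nat_lit 66) (nat_lit 5) (nat_lit 67) (nat_lit 5) (nat_lit 295) (nat_lit 254) (nat_lit 231)) (XT.lf (nat_lit 0) (nat_lit 16470657) (nat_lit 228) (nat_lit 9332396518) (nat_lit 304) (nat_lit 2396619017) (nat_lit 60) (nat_lit 5) (nat_lit 63) (nat_lit 5) (nat_lit 64) (nat_lit 5) (nat_lit 296) (nat_lit 254) (nat_lit 230)))) (XT.nd (nat_lit 78) (nat_lit 456) (nat_lit 0) (XT.lf (nat_lit 0) (nat_lit 2492884770) (nat_lit 304) (nat_lit 1469688859) (nat_lit 76) (nat_lit 8153131715) (nat_lit 59) (nat_lit 5) (nat_lit 63) (nat_lit 5) (nat_lit 60) (nat_lit 5) (nat_lit 297) (nat_lit 254) (nat_lit 229)) (XT.nd (nat_lit 78) (nat_lit 228) (nat_lit 0) (XT.lf (nat_lit 0) (nat_lit 7555883339) (nat_lit 304) (nat_lit 3255530353) (nat_lit 76) (nat_lit 1693070883) (nat_lit 56) (nat_lit 5) (nat_lit 60) (nat_lit 5) (nat_lit 57) (nat_lit 5) (nat_lit 298) (nat_lit 254) (nat_lit 228)) (XT.lf (nat_lit 0) (nat_lit 7538110768)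 (nat_lit 228) (nat_lit 5337762217) (nat_lit 304) (nat_lit 36827453) (nat_lit 53) (nat_lit 5) (nat_lit 56) (nat_lit 5) (nat_lit 57) (nat_lit 5) (nat_lit 299) (nat_lit 254) (nat_lit 227))))) (XT.nd (nat_lit 234) (nat_lit 456) (nat_lit 0) (XT.nd (nat_lit 78) (nat_lit 456) (nat_lit 0) (XT.lf (nat_lit 0) (nat_lit 4990595737) (nat_lit 228) (nat_lit 7877210307) (nat_lit 76) (nat_lit 473049371) (nat_lit 50) (nat_lit 5) (nat_lit 53) (nat_lit 5) (nat_lit 51) (nat_lit 5) (nat_lit 300) (nat_lit 254) (nat_lit 226)) (XT.nd (nat_lit 78) (nat_lit 228) (nat_lit 0) (XT.lf (nat_lit 0) (nat_lit 2985333145) (nat_lit 228) (nat_lit 7304063520) (nat_lit 304) (nat_lit 3500486916) (nat_lit 47) (nat_lit 5) (nat_lit 50) (nat_lit 5) (nat_lit 51) (nat_lit 5) (nat_lit 301) (nat_lit 254) (nat_lit 225)) (XT.lf (nat_lit 0) (nat_lit 99993268) (nat_lit 152) (nat_lit 1428540062) (nat_lit 228) (nat_lit 12733428120) (nat_lit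 44) (nat_lit 5) (nat_lit 46) (nat_lit 5) (nat_lit 47) (nat_lit 5) (nat_lit 302) (nat_lit 254) (nat_lit 224)))) (XT.nd (nat_lit 156) (nat_lit 228) (nat_lit 0) (XT.nd (nat_lit 78) (nat_lit 228) (nat_lit 0) (XT.lf (nat_lit 0) (nat_lit 6783283371) (nat_lit 228) (nat_lit 3240858453) (nat_lit 76) (nat_lit 4731148970) (nat_lit 44) (nat_lit 5) (nat_lit 47) (nat_lit 5) (nat_lit 45) (nat_lit 5) (nat_lit 303) (nat_lit 254) (nat_lit 223)) (XT.lf (nat_lit 0) (nat_lit 8200387394) (nat_lit 228) (nat_lit 4087063193) (nat_lit 304) (nat_lit 2986319013) (nat_lit 41) (nat_lit 5) (nat_lit 44) (nat_lit 5) (nat_lit 45) (nat_lit 5) (nat_lit 304) (nat_lit 254) (nat_lit 222))) (XT.nd (nat_lit 78) (nat_lit 0) (nat_lit 0) (XT.lf (nat_lit 0) (nat_lit 2197151371) (nat_lit 228) (nat_lit 11480837181) (nat_lit 76) (nat_lit 2139841127) (nat_lit 38) (nat_lit 5) (nat_lit 41) (nat_lit 5) (nat_lit 39) (nat_lit 5) (nat_lit 305)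 (nat_lit 254) (nat_lit 221)) (XT.lf (nat_lit 0) (nat_lit 7591982224) (nat_lit 228) (nat_lit 159731446) (nat_lit 76) (nat_lit 8636147037) (nat_lit 38) (nat_lit 5) (nat_lit 41) (nat_lit 5) (nat_lit 39) (nat_lit 5) (nat_lit 306) (nat_lit 254) (nat_lit 220))))))) (XT.nd (nat_lit 1014) (nat_lit 836) (nat_lit 0) (XT.nd (nat_lit 468) (nat_lit 532) (nat_lit 0) (XT.nd (nat_lit 234) (nat_lit 228) (nat_lit 0) (XT.nd (nat_lit 78) (nat_lit 380) (nat_lit 0) (XT.lf (nat_lit 0) (nat_lit 11799190818) (nat_lit 152) (nat_lit 1474201604) (nat_lit 228) (nat_lit 3712565664) (nat_lit 36) (nat_lit 5) (nat_lit 38) (nat_lit 5) (nat_lit 39) (nat_lit 5) (nat_lit 307) (nat_lit 254) (nat_lit 219)) (XT.nd (nat_lit 78) (nat_lit 152) (nat_lit 0) (XT.lf (nat_lit 0) (nat_lit 1614269844) (nat_lit 228) (nat_lit 10959015037) (nat_lit 76) (nat_lit 5039639580) (nat_lit 33) (nat_lit 5) (nat_lit 36) (nat_lit 5) (nat_lit 34) (nat_lit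 5) (nat_lit 308) (nat_lit 254) (nat_lit 218)) (XT.lf (nat_lit 0) (nat_lit 733153495) (nat_lit 152) (nat_lit 6382085689) (nat_lit 228) (nat_lit 11155421604) (nat_lit 31) (nat_lit 5) (nat_lit 33) (nat_lit 5) (nat_lit 34) (nat_lit 5) (nat_lit 309) (nat_lit 254) (nat_lit 217)))) (XT.nd (nat_lit 78) (nat_lit 228) (nat_lit 0) (XT.lf (nat_lit 0) (nat_lit 12916706336) (nat_lit 228) (nat_lit 5872606550) (nat_lit 76) (nat_lit 171266215) (nat_lit 31) (nat_lit 5) (nat_lit 34) (nat_lit 5) (nat_lit 32) (nat_lit 4) (nat_lit 310) (nat_lit 254) (nat_lit 216)) (XT.nd (nat_lit 78) (nat_lit 76) (nat_lit 0) (XT.lf (nat_lit 0) (nat_lit 6289675680) (nat_lit 152) (nat_lit 12758093245) (nat_lit 228) (nat_lit 636094603) (nat_lit 29) (nat_lit 5) (nat_lit 31) (nat_lit 5) (nat_lit 32) (nat_lit 4) (nat_lit 311) (nat_lit 254) (nat_lit 215)) (XT.lf (nat_lit 0) (nat_lit 4921229161) (nat_lit 228) (nat_lit 1449534864) (nat_lit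 76) (nat_lit 14071819405) (nat_lit 28) (nat_lit 5) (nat_lit 31) (nat_lit 5) (nat_lit 29) (nat_lit 5) (nat_lit 312) (nat_lit 254) (nat_lit 214))))) (XT.nd (nat_lit 234) (nat_lit 228) (nat_lit 0) (XT.nd (nat_lit 78) (nat_lit 152) (nat_lit 0) (XT.lf (nat_lit 0) (nat_lit 10775040670) (nat_lit 228) (nat_lit 10073219973) (nat_lit 76) (nat_lit 389885627) (nat_lit 26) (nat_lit 5) (nat_lit 29) (nat_lit 5) (nat_lit 27) (nat_lit 4) (nat_lit 313) (nat_lit 254) (nat_lit 213)) (XT.nd (nat_lit 78) (nat_lit 76) (nat_lit 0) (XT.lf (nat_lit 0) (nat_lit 2213120145) (nat_lit 76) (nat_lit 14731543981) (nat_lit 152) (nat_lit 5128176330) (nat_lit 25) (nat_lit 5) (nat_lit 26) (nat_lit 5) (nat_lit 27) (nat_lit 4) (nat_lit 314) (nat_lit 254) (nat_lit 212)) (XT.lf (nat_lit 0) (nat_lit 493120660) (nat_lit 152) (nat_lit 7758178436) (nat_lit 76) (nat_lit 14697011198) (nat_lit 24) (nat_lit 5) (nat_lit 26) (nat_lit 5)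 (nat_lit 25) (nat_lit 5) (nat_lit 315) (nat_lit 254) (nat_lit 211)))) (XT.nd (nat_lit 156) (nat_lit 76) (nat_lit 0) (XT.nd (nat_lit 78) (nat_lit 0) (nat_lit 0) (XT.lf (nat_lit 0) (nat_lit 4867161579) (nat_lit 152) (nat_lit 1397786161) (nat_lit 228) (nat_lit 17601858205) (nat_lit 22) (nat_lit 5) (nat_lit 24) (nat_lit 5) (nat_lit 25) (nat_lit 5) (nat_lit 316) (nat_lit 254) (nat_lit 210)) (XT.lf (nat_lit 0) (nat_lit 12391298206) (nat_lit 228) (nat_lit 6722042120) (nat_lit 76) (nat_lit 5715947381) (nat_lit 22) (nat_lit 5) (nat_lit 25) (nat_lit 5) (nat_lit 23) (nat_lit 4) (nat_lit 317) (nat_lit 254) (nat_lit 209))) (XT.nd (nat_lit 78) (nat_lit 0) (nat_lit 0) (XT.lf (nat_lit 0) (nat_lit 6158773967) (nat_lit 76) (nat_lit 12671397478) (nat_lit 152) (nat_lit 7009573373) (nat_lit 21) (nat_lit 5) (nat_lit 22) (nat_lit 5) (nat_lit 23) (nat_lit 4) (nat_lit 318) (nat_lit 254) (nat_lit 208)) (XT.lf (nat_lit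 0) (nat_lit 19710710100) (nat_lit 76) (nat_lit 5884476371) (nat_lit 152) (nat_lit 1305448008) (nat_lit 21) (nat_lit 5) (nat_lit 22) (nat_lit 5) (nat_lit 23) (nat_lit 4) (nat_lit 319) (nat_lit 254) (nat_lit 207)))))) (XT.nd (nat_lit 546) (nat_lit 304) (nat_lit 0) (XT.nd (nat_lit 234) (nat_lit 228) (nat_lit 0) (XT.nd (nat_lit 78) (nat_lit 76) (nat_lit 0) (XT.lf (nat_lit 0) (nat_lit 4599009753) (nat_lit 228) (nat_lit 22139681701) (nat_lit 76) (nat_lit 1274363622) (nat_lit 18) (nat_lit 5) (nat_lit 21) (nat_lit 5) (nat_lit 19) (nat_lit 4) (nat_lit 320) (nat_lit 254) (nat_lit 206)) (XT.nd (nat_lit 78) (nat_lit 76) (nat_lit 0) (XT.lf (nat_lit 0) (nat_lit 10845053060) (nat_lit 228) (nat_lit 9619643477) (nat_lit 76) (nat_lit 8713842952) (nat_lit 18) (nat_lit 5) (nat_lit 21) (nat_lit 5) (nat_lit 19) (nat_lit 4) (nat_lit 321) (nat_lit 254) (nat_lit 205)) (XT.lf (nat_lit 0) (nat_lit 3492112712) (nat_lit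 76) (nat_lit 13886730490) (nat_lit 152) (nat_lit 13024221469) (nat_lit 17) (nat_lit 5) (nat_lit 18) (nat_lit 5) (nat_lit 19) (nat_lit 4) (nat_lit 322) (nat_lit 254) (nat_lit 204)))) (XT.nd (nat_lit 156) (nat_lit 228) (nat_lit 0) (XT.nd (nat_lit 78) (nat_lit 0) (nat_lit 0) (XT.lf (nat_lit 0) (nat_lit 17360987394) (nat_lit 76) (nat_lit 6921048966) (nat_lit 152) (nat_lit 7405526812) (nat_lit 17) (nat_lit 5) (nat_lit 18) (nat_lit 5) (nat_lit 19) (nat_lit 4) (nat_lit 323) (nat_lit 254) (nat_lit 203)) (XT.lf (nat_lit 0) (nat_lit 31480140131) (nat_lit 152) (nat_lit 1212752351) (nat_lit 0) (nat_lit 344928696) (nat_lit 17) (nat_lit 5) (nat_lit 19) (nat_lit 4) (nat_lit 17) (nat_lit 4) (nat_lit 324) (nat_lit 254) (nat_lit 202))) (XT.nd (nat_lit 78) (nat_lit 0) (nat_lit 0) (XT.lf (nat_lit 0) (nat_lit 4634421745) (nat_lit 228) (nat_lit 21854678204) (nat_lit 76) (nat_lit 7960957084) (nat_lit 14) (nat_lit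 5) (nat_lit 17) (nat_lit 5) (nat_lit 15) (nat_lit 4) (nat_lit 325) (nat_lit 254) (nat_lit 201)) (XT.lf (nat_lit 0) (nat_lit 11066447191) (nat_lit 228) (nat_lit 8918945514) (nat_lit 76) (nat_lit 15948197189) (nat_lit 14) (nat_lit 5) (nat_lit 17) (nat_lit 5) (nat_lit 15) (nat_lit 4) (nat_lit 326) (nat_lit 254) (nat_lit 200))))) (XT.nd (nat_lit 234) (nat_lit 228) (nat_lit 0) (XT.nd (nat_lit 78) (nat_lit 0) (nat_lit 0) (XT.lf (nat_lit 0) (nat_lit 4669133783) (nat_lit 76) (nat_lit 13147846941) (nat_lit 152) (nat_lit 19674434204) (nat_lit 13) (nat_lit 5) (nat_lit 14) (nat_lit 5) (nat_lit 15) (nat_lit 4) (nat_lit 327) (nat_lit 254) (nat_lit 199)) (XT.nd (nat_lit 78) (nat_lit 0) (nat_lit 0) (XT.lf (nat_lit 0) (nat_lit 19039897450) (nat_lit 76) (nat_lit 5910466162) (nat_lit 152) (nat_lit 14175429576) (nat_lit 13) (nat_lit 5) (nat_lit 14) (nat_lit 5) (nat_lit 15) (nat_lit 4) (nat_lit 328) (nat_lit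 254) (nat_lit 198)) (XT.lf (nat_lit 0) (nat_lit 32412037926) (nat_lit 152) (nat_lit 6809080650) (nat_lit 0) (nat_lit 1621643738) (nat_lit 13) (nat_lit 5) (nat_lit 15) (nat_lit 4) (nat_lit 13) (nat_lit 4) (nat_lit 329) (nat_lit 254) (nat_lit 197)))) (XT.nd (nat_lit 156) (nat_lit 76) (nat_lit 0) (XT.nd (nat_lit 78) (nat_lit 76) (nat_lit 0) (XT.lf (nat_lit 0) (nat_lit 7134806174) (nat_lit 76) (nat_lit 33197742678) (nat_lit 76) (nat_lit 2310478097) (nat_lit 12) (nat_lit 4) (nat_lit 13) (nat_lit 5) (nat_lit 13) (nat_lit 4) (nat_lit 330) (nat_lit 254) (nat_lit 196)) (XT.lf (nat_lit 0) (nat_lit 4064651664) (nat_lit 152) (nat_lit 22728279217) (nat_lit 76) (nat_lit 17738329649) (nat_lit 11) (nat_lit 5) (nat_lit 13) (nat_lit 5) (nat_lit 12) (nat_lit 4) (nat_lit 331) (nat_lit 254) (nat_lit 195))) (XT.nd (nat_lit 78) (nat_lit 76) (nat_lit 0) (XT.lf (nat_lit 0) (nat_lit 10671576342) (nat_lit 152) (nat_lit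 9404086422) (nat_lit 76) (nat_lit 26438749360) (nat_lit 11) (nat_lit 5) (nat_lit 13) (nat_lit 5) (nat_lit 12) (nat_lit 4) (nat_lit 332) (nat_lit 254) (nat_lit 194)) (XT.lf (nat_lit 0) (nat_lit 4608214467) (nat_lit 76) (nat_lit 13007194967) (nat_lit 152) (nat_lit 30981131470) (nat_lit 10) (nat_lit 5) (nat_lit 11) (nat_lit 5) (nat_lit 12) (nat_lit 4) (nat_lit 333) (nat_lit 254) (nat_lit 193))))))))
noncomputable def xc40 : XT := (XT.nd (nat_lit 2028) (nat_lit 0) (nat_lit 0) (XT.nd (nat_lit 1014) (nat_lit 152) (nat_lit 0) (XT.nd (nat_lit 468) (nat_lit 152) (nat_lit 0) (XT.nd (nat_lit 234) (nat_lit 152) (nat_lit 0) (XT.nd (nat_lit 78) (nat_lit 0) (nat_lit 0) (XT.lf (nat_lit 0) (nat_lit 19451573648) (nat_lit 76) (nat_lit 5515094255) (nat_lit 152) (nat_lit 25814316896) (nat_lit 10) (nat_lit 5) (nat_lit 11) (nat_lit 5) (nat_lit 12) (nat_lit 4) (nat_lit 334) (nat_lit 254) (nat_lit 192)) (XT.nd (nat_lit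 78) (nat_lit 0) (nat_lit 0) (XT.lf (nat_lit 0) (nat_lit 32672992868) (nat_lit 152) (nat_lit 18123873127) (nat_lit 0) (nat_lit 2278174727) (nat_lit 10) (nat_lit 5) (nat_lit 12) (nat_lit 4) (nat_lit 10) (nat_lit 4) (nat_lit 335) (nat_lit 254) (nat_lit 191)) (XT.lf (nat_lit 0) (nat_lit 40786869207) (nat_lit 152) (nat_lit 4374407098) (nat_lit 0) (nat_lit 10321870311) (nat_lit 10) (nat_lit 5) (nat_lit 12) (nat_lit 4) (nat_lit 10) (nat_lit 4) (nat_lit 336) (nat_lit 254) (nat_lit 190)))) (XT.nd (nat_lit 78) (nat_lit 76) (nat_lit 0) (XT.lf (nat_lit 0) (nat_lit 10203852127) (nat_lit 76) (nat_lit 39168834757) (nat_lit 76) (nat_lit 8636997046) (nat_lit 9) (nat_lit 4) (nat_lit 10) (nat_lit 5) (nat_lit 10) (nat_lit 4) (nat_lit 337) (nat_lit 254) (nat_lit 189)) (XT.nd (nat_lit 78) (nat_lit 76) (nat_lit 0) (XT.lf (nat_lit 0) (nat_lit 25546299199) (nat_lit 76) (nat_lit 32855665237) (nat_lit 76) (nat_lit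 2260171512) (nat_lit 9) (nat_lit 4) (nat_lit 10) (nat_lit 5) (nat_lit 10) (nat_lit 4) (nat_lit 338) (nat_lit 254) (nat_lit 188)) (XT.lf (nat_lit 0) (nat_lit 4319247678) (nat_lit 152) (nat_lit 21888045712) (nat_lit 76) (nat_lit 37239540862) (nat_lit 8) (nat_lit 5) (nat_lit 10) (nat_lit 5) (nat_lit 9) (nat_lit 4) (nat_lit 339) (nat_lit 254) (nat_lit 187))))) (XT.nd (nat_lit 234) (nat_lit 76) (nat_lit 0) (XT.nd (nat_lit 78) (nat_lit 76) (nat_lit 0) (XT.lf (nat_lit 0) (nat_lit 11153047461) (nat_lit 152) (nat_lit 8073170035) (nat_lit 76) (nat_lit 47144725400) (nat_lit 8) (nat_lit 5) (nat_lit 10) (nat_lit 5) (nat_lit 9) (nat_lit 4) (nat_lit 340) (nat_lit 254) (nat_lit 186)) (XT.nd (nat_lit 78) (nat_lit 0) (nat_lit 0) (XT.lf (nat_lit 0) (nat_lit 6510451349) (nat_lit 76) (nat_lit 11853733965) (nat_lit 152) (nat_lit 51076013038) (nat_lit 7) (nat_lit 5) (nat_lit 8) (nat_lit 5) (nat_lit 9) (nat_lit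 4) (nat_lit 341) (nat_lit 254) (nat_lit 185)) (XT.lf (nat_lit 0) (nat_lit 21944324615) (nat_lit 76) (nat_lit 4048551943) (nat_lit 152) (nat_lit 46668340437) (nat_lit 7) (nat_lit 5) (nat_lit 8) (nat_lit 5) (nat_lit 9) (nat_lit 4) (nat_lit 342) (nat_lit 254) (nat_lit 184)))) (XT.nd (nat_lit 156) (nat_lit 76) (nat_lit 0) (XT.nd (nat_lit 78) (nat_lit 0) (nat_lit 0) (XT.lf (nat_lit 0) (nat_lit 34017801396) (nat_lit 152) (nat_lit 37979182591) (nat_lit 0) (nat_lit 4045868432) (nat_lit 7) (nat_lit 5) (nat_lit 9) (nat_lit 4) (nat_lit 7) (nat_lit 4) (nat_lit 343) (nat_lit 254) (nat_lit 183)) (XT.lf (nat_lit 0) (nat_lit 42460965580) (nat_lit 152) (nat_lit 24689188544) (nat_lit 0) (nat_lit 12442915045) (nat_lit 7) (nat_lit 5) (nat_lit 9) (nat_lit 4) (nat_lit 7) (nat_lit 4) (nat_lit 344) (nat_lit 254) (nat_lit 182))) (XT.nd (nat_lit 78) (nat_lit 76) (nat_lit 0) (XT.lf (nat_lit 0) (nat_lit 51303554726)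 (nat_lit 152) (nat_lit 10776350239) (nat_lit 0) (nat_lit 21241582694) (nat_lit 7) (nat_lit 5) (nat_lit 9) (nat_lit 4) (nat_lit 7) (nat_lit 4) (nat_lit 345) (nat_lit 254) (nat_lit 181)) (XT.lf (nat_lit 0) (nat_lit 3867935480) (nat_lit 76) (nat_lit 56735868098) (nat_lit 76) (nat_lit 26632066070) (nat_lit 6) (nat_lit 4) (nat_lit 7) (nat_lit 5) (nat_lit 7) (nat_lit 4) (nat_lit 346) (nat_lit 254) (nat_lit 180)))))) (XT.nd (nat_lit 468) (nat_lit 76) (nat_lit 0) (XT.nd (nat_lit 234) (nat_lit 76) (nat_lit 0) (XT.nd (nat_lit 78) (nat_lit 0) (nat_lit 0) (XT.lf (nat_lit 0) (nat_lit 19431094845) (nat_lit 76) (nat_lit 51027912900) (nat_lit 76) (nat_lit 20884272782) (nat_lit 6) (nat_lit 4) (nat_lit 7) (nat_lit 5) (nat_lit 7) (nat_lit 4) (nat_lit 347) (nat_lit 254) (nat_lit 179)) (XT.nd (nat_lit 78) (nat_lit 0) (nat_lit 0) (XT.lf (nat_lit 0) (nat_lit 35735712496) (nat_lit 76) (nat_lit 45051269012) (nat_lit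 76) (nat_lit 14869687853) (nat_lit 6) (nat_lit 4) (nat_lit 7) (nat_lit 5) (nat_lit 7) (nat_lit 4) (nat_lit 348) (nat_lit 254) (nat_lit 178)) (XT.lf (nat_lit 0) (nat_lit 52820608951) (nat_lit 76) (nat_lit 38791706327) (nat_lit 76) (nat_lit 8573990845) (nat_lit 6) (nat_lit 4) (nat_lit 7) (nat_lit 5) (nat_lit 7) (nat_lit 4) (nat_lit 349) (nat_lit 254) (nat_lit 177)))) (XT.nd (nat_lit 78) (nat_lit 76) (nat_lit 0) (XT.lf (nat_lit 0) (nat_lit 70726462535) (nat_lit 76) (nat_lit 32234321125) (nat_lit 76) (nat_lit 1982192002) (nat_lit 6) (nat_lit 4) (nat_lit 7) (nat_lit 5) (nat_lit 7) (nat_lit 4) (nat_lit 350) (nat_lit 254) (nat_lit 176)) (XT.nd (nat_lit 78) (nat_lit 0) (nat_lit 0) (XT.lf (nat_lit 0) (nat_lit 4825369126) (nat_lit 152) (nat_lit 20489404692) (nat_lit 76) (nat_lit 84621810339) (nat_lit 5) (nat_lit 5) (nat_lit 7) (nat_lit 5) (nat_lit 6) (nat_lit 4) (nat_lit 351) (nat_lit 254) (nat_lit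 175)) (XT.lf (nat_lit 0) (nat_lit 11916079254) (nat_lit 152) (nat_lit 6126477320) (nat_lit 76) (nat_lit 97137220905) (nat_lit 5) (nat_lit 5) (nat_lit 7) (nat_lit 5) (nat_lit 6) (nat_lit 4) (nat_lit 352) (nat_lit 254) (nat_lit 174))))) (XT.nd (nat_lit 234) (nat_lit 0) (nat_lit 0) (XT.nd (nat_lit 78) (nat_lit 0) (nat_lit 0) (XT.lf (nat_lit 0) (nat_lit 9103155833) (nat_lit 76) (nat_lit 10329849997) (nat_lit 152) (nat_lit 101249980060) (nat_lit 4) (nat_lit 5) (nat_lit 5) (nat_lit 5) (nat_lit 6) (nat_lit 4) (nat_lit 353) (nat_lit 254) (nat_lit 173)) (XT.nd (nat_lit 78) (nat_lit 0) (nat_lit 0) (XT.lf (nat_lit 0) (nat_lit 25194053513) (nat_lit 76) (nat_lit 2179449789) (nat_lit 152) (nat_lit 99086425257) (nat_lit 4) (nat_lit 5) (nat_lit 5) (nat_lit 5) (nat_lit 6) (nat_lit 4) (nat_lit 354) (nat_lit 254) (nat_lit 172)) (XT.lf (nat_lit 0) (nat_lit 35757609771) (nat_lit 152) (nat_lit 90524759205) (nat_lit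 0) (nat_lit 6241957169) (nat_lit 4) (nat_lit 5) (nat_lit 6) (nat_lit 4) (nat_lit 4) (nat_lit 4) (nat_lit 355) (nat_lit 254) (nat_lit 171)))) (XT.nd (nat_lit 156) (nat_lit 0) (nat_lit 0) (XT.nd (nat_lit 78) (nat_lit 0) (nat_lit 0) (XT.lf (nat_lit 0) (nat_lit 44568891052) (nat_lit 152) (nat_lit 79294512107) (nat_lit 0) (nat_lit 15028306422) (nat_lit 4) (nat_lit 5) (nat_lit 6) (nat_lit 4) (nat_lit 4) (nat_lit 4) (nat_lit 356) (nat_lit 254) (nat_lit 170)) (XT.lf (nat_lit 0) (nat_lit 53807376183) (nat_lit 152) (nat_lit 67527444862) (nat_lit 0) (nat_lit 24243046763) (nat_lit 4) (nat_lit 5) (nat_lit 6) (nat_lit 4) (nat_lit 4) (nat_lit 4) (nat_lit 357) (nat_lit 254) (nat_lit 169))) (XT.nd (nat_lit 78) (nat_lit 0) (nat_lit 0) (XT.lf (nat_lit 0) (nat_lit 63495061556) (nat_lit 152) (nat_lit 55195540646) (nat_lit 0) (nat_lit 33908118052) (nat_lit 4) (nat_lit 5) (nat_lit 6) (nat_lit 4) (nat_lit 4) (nat_lit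 4) (nat_lit 358) (nat_lit 254) (nat_lit 168)) (XT.lf (nat_lit 0) (nat_lit 73655013089) (nat_lit 152) (nat_lit 42269437780) (nat_lit 0) (nat_lit 44046532361) (nat_lit 4) (nat_lit 5) (nat_lit 6) (nat_lit 4) (nat_lit 4) (nat_lit 4) (nat_lit 359) (nat_lit 254) (nat_lit 167))))))) (XT.nd (nat_lit 34476) (nat_lit 0) (nat_lit 5320) (XT.nd (nat_lit 33930) (nat_lit 0) (nat_lit 10488) (XT.nd (nat_lit 33696) (nat_lit 0) (nat_lit 17100) (XT.nd (nat_lit 78) (nat_lit 0) (nat_lit 0) (XT.lf (nat_lit 0) (nat_lit 84311421142) (nat_lit 152) (nat_lit 28718359830) (nat_lit 0) (nat_lit 54682428774) (nat_lit 4) (nat_lit 5) (nat_lit 6) (nat_lit 4) (nat_lit 4) (nat_lit 4) (nat_lit 360) (nat_lit 254) (nat_lit 166)) (XT.nd (nat_lit 33540) (nat_lit 0) (nat_lit 19532) (XT.lf (nat_lit 0) (nat_lit 95489658117) (nat_lit 152) (nat_lit 14510042324) (nat_lit 0) (nat_lit 65841130852) (nat_lit 4) (nat_lit 5) (nat_lit 6) (nat_lit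 4) (nat_lit 4) (nat_lit 4) (nat_lit 361) (nat_lit 254) (nat_lit 165)) (XT.lf (nat_lit 0) (nat_lit 1305306888) (nat_lit 684) (nat_lit 766129924) (nat_lit 0) (nat_lit 1305306888) (nat_lit 261) (nat_lit 5) (nat_lit 270) (nat_lit 4) (nat_lit 261) (nat_lit 4) (nat_lit 270) (nat_lit 255) (nat_lit 255)))) (XT.nd (nat_lit 78) (nat_lit 1672) (nat_lit 0) (XT.lf (nat_lit 0) (nat_lit 829189328) (nat_lit 760) (nat_lit 1555862200) (nat_lit 76) (nat_lit 4436191337) (nat_lit 251) (nat_lit 5) (nat_lit 261) (nat_lit 5) (nat_lit 252) (nat_lit 4) (nat_lit 271) (nat_lit 255) (nat_lit 254)) (XT.nd (nat_lit 78) (nat_lit 912) (nat_lit 0) (XT.lf (nat_lit 0) (nat_lit 5382427252) (nat_lit 760) (nat_lit 384280472) (nat_lit 836) (nat_lit 1130979053) (nat_lit 241) (nat_lit 5) (nat_lit 251) (nat_lit 5) (nat_lit 252) (nat_lit 4) (nat_lit 272) (nat_lit 255) (nat_lit 253)) (XT.lf (nat_lit 0) (nat_lit 3724794756) (nat_lit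 912) (nat_lit 1430864325) (nat_lit 76) (nat_lit 1826834224) (nat_lit 229) (nat_lit 5) (nat_lit 241) (nat_lit 5) (nat_lit 230) (nat_lit 4) (nat_lit 273) (nat_lit 255) (nat_lit 252))))) (XT.nd (nat_lit 234) (nat_lit 3496) (nat_lit 0) (XT.nd (nat_lit 78) (nat_lit 2128) (nat_lit 0) (XT.lf (nat_lit 0) (nat_lit 1520531045) (nat_lit 988) (nat_lit 1286355136) (nat_lit 76) (nat_lit 4269573585) (nat_lit 216) (nat_lit 5) (nat_lit 229) (nat_lit 5) (nat_lit 217) (nat_lit 5) (nat_lit 274) (nat_lit 255) (nat_lit 251)) (XT.nd (nat_lit 78) (nat_lit 1140) (nat_lit 0) (XT.lf (nat_lit 0) (nat_lit 6089461223) (nat_lit 988) (nat_lit 213800873) (nat_lit 1064) (nat_lit 876400334) (nat_lit 203) (nat_lit 5) (nat_lit 216) (nat_lit 5) (nat_lit 217) (nat_lit 5) (nat_lit 275) (nat_lit 255) (nat_lit 250)) (XT.lf (nat_lit 0) (nat_lit 3824506385) (nat_lit 1140) (nat_lit 879842930) (nat_lit 76) (nat_lit 2586983467) (nat_lit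 188) (nat_lit 5) (nat_lit 203) (nat_lit 5) (nat_lit 189) (nat_lit 5) (nat_lit 276) (nat_lit 255) (nat_lit 249)))) (XT.nd (nat_lit 156) (nat_lit 1748) (nat_lit 0) (XT.nd (nat_lit 78) (nat_lit 532) (nat_lit 0) (XT.lf (nat_lit 0) (nat_lit 1159876780) (nat_lit 1216) (nat_lit 623425044) (nat_lit 76) (nat_lit 5629505500) (nat_lit 172) (nat_lit 5) (nat_lit 188) (nat_lit 5) (nat_lit 173) (nat_lit 5) (nat_lit 277) (nat_lit 255) (nat_lit 248)) (XT.lf (nat_lit 0) (nat_lit 5819549594) (nat_lit 608) (nat_lit 353166576) (nat_lit 76) (nat_lit 1370812257) (nat_lit 165) (nat_lit 5) (nat_lit 173) (nat_lit 5) (nat_lit 166) (nat_lit 5) (nat_lit 278) (nat_lit 255) (nat_lit 247))) (XT.nd (nat_lit 78) (nat_lit 1064) (nat_lit 0) (XT.lf (nat_lit 0) (nat_lit 2857810319) (nat_lit 684) (nat_lit 76330631) (nat_lit 76) (nat_lit 4749576383) (nat_lit 156) (nat_lit 5) (nat_lit 165) (nat_lit 5) (nat_lit 157) (nat_lit 5)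 (nat_lit 279) (nat_lit 255) (nat_lit 246)) (XT.lf (nat_lit 0) (nat_lit 227021640) (nat_lit 532) (nat_lit 7289769550) (nat_lit 608) (nat_lit 317454249) (nat_lit 142) (nat_lit 5) (nat_lit 149) (nat_lit 5) (nat_lit 150) (nat_lit 5) (nat_lit 280) (nat_lit 255) (nat_lit 245)))))) (XT.nd (nat_lit 468) (nat_lit 2280) (nat_lit 0) (XT.nd (nat_lit 234) (nat_lit 1368) (nat_lit 0) (XT.nd (nat_lit 78) (nat_lit 988) (nat_lit 0) (XT.lf (nat_lit 0) (nat_lit 495595972) (nat_lit 456) (nat_lit 3748367399) (nat_lit 532) (nat_lit 3749979119) (nat_lit 135) (nat_lit 5) (nat_lit 141) (nat_lit 5) (nat_lit 142) (nat_lit 5) (nat_lit 281) (nat_lit 255) (nat_lit 244)) (XT.nd (nat_lit 78) (nat_lit 456) (nat_lit 0) (XT.lf (nat_lit 0) (nat_lit 738594731) (nat_lit 532) (nat_lit 7385337855) (nat_lit 76) (nat_lit 40947336) (nat_lit 128) (nat_lit 5) (nat_lit 135) (nat_lit 5) (nat_lit 129) (nat_lit 5) (nat_lit 282) (nat_lit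 255) (nat_lit 243)) (XT.lf (nat_lit 0) (nat_lit 1003657877) (nat_lit 456) (nat_lit 4306623426) (nat_lit 532) (nat_lit 3035170564) (nat_lit 122) (nat_lit 5) (nat_lit 128) (nat_lit 5) (nat_lit 129) (nat_lit 5) (nat_lit 283) (nat_lit 255) (nat_lit 242)))) (XT.nd (nat_lit 78) (nat_lit 836) (nat_lit 0) (XT.lf (nat_lit 0) (nat_lit 1218608025) (nat_lit 456) (nat_lit 229582049) (nat_lit 532) (nat_lit 7089571899) (nat_lit 115) (nat_lit 5) (nat_lit 121) (nat_lit 5) (nat_lit 122) (nat_lit 5) (nat_lit 284) (nat_lit 255) (nat_lit 241)) (XT.nd (nat_lit 78) (nat_lit 456) (nat_lit 0) (XT.lf (nat_lit 0) (nat_lit 1357409242) (nat_lit 380) (nat_lit 4685743564) (nat_lit 456) (nat_lit 2697381274) (nat_lit 110) (nat_lit 5) (nat_lit 115) (nat_lit 5) (nat_lit 116) (nat_lit 5) (nat_lit 285) (nat_lit 255) (nat_lit 240)) (XT.lf (nat_lit 0) (nat_lit 1457410095) (nat_lit 380) (nat_lit 337869133) (nat_lit 456) (nat_lit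 7160302016) (nat_lit 104) (nat_lit 5) (nat_lit 109) (nat_lit 5) (nat_lit 110) (nat_lit 5) (nat_lit 286) (nat_lit 255) (nat_lit 239))))) (XT.nd (nat_lit 234) (nat_lit 1140) (nat_lit 0) (XT.nd (nat_lit 78) (nat_lit 760) (nat_lit 0) (XT.lf (nat_lit 0) (nat_lit 1457301833) (nat_lit 380) (nat_lit 4963021811) (nat_lit 456) (nat_lit 2761573675) (nat_lit 99) (nat_lit 5) (nat_lit 104) (nat_lit 5) (nat_lit 105) (nat_lit 5) (nat_lit 287) (nat_lit 255) (nat_lit 238)) (XT.nd (nat_lit 78) (nat_lit 304) (nat_lit 0) (XT.lf (nat_lit 0) (nat_lit 1390213403) (nat_lit 380) (nat_lit 361151199) (nat_lit 456) (nat_lit 7669920682) (nat_lit 93) (nat_lit 5) (nat_lit 98) (nat_lit 5) (nat_lit 99) (nat_lit 5) (nat_lit 288) (nat_lit 255) (nat_lit 237)) (XT.lf (nat_lit 0) (nat_lit 1190299238) (nat_lit 304) (nat_lit 5218907148) (nat_lit 380) (nat_lit 3263522021) (nat_lit 89) (nat_lit 5) (nat_lit 93) (nat_lit 5) (nat_lit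 94) (nat_lit 5) (nat_lit 289) (nat_lit 255) (nat_lit 236)))) (XT.nd (nat_lit 156) (nat_lit 380) (nat_lit 0) (XT.nd (nat_lit 78) (nat_lit 304) (nat_lit 0) (XT.lf (nat_lit 0) (nat_lit 895841207) (nat_lit 380) (nat_lit 381491449) (nat_lit 456) (nat_lit 8660978086) (nat_lit 83) (nat_lit 5) (nat_lit 88) (nat_lit 5) (nat_lit 89) (nat_lit 5) (nat_lit 290) (nat_lit 255) (nat_lit 235)) (XT.lf (nat_lit 0) (nat_lit 426614671) (nat_lit 304) (nat_lit 5539070782) (nat_lit 380) (nat_lit 4251052476) (nat_lit 79) (nat_lit 5) (nat_lit 83) (nat_lit 5) (nat_lit 84) (nat_lit 5) (nat_lit 291) (nat_lit 255) (nat_lit 234))) (XT.nd (nat_lit 78) (nat_lit 304) (nat_lit 0) (XT.lf (nat_lit 0) (nat_lit 323307941) (nat_lit 380) (nat_lit 162177427) (nat_lit 76) (nat_lit 10025111981) (nat_lit 78) (nat_lit 5) (nat_lit 83) (nat_lit 5) (nat_lit 79) (nat_lit 5) (nat_lit 292) (nat_lit 255) (nat_lit 233)) (XT.lf (nat_lit 0) (nat_lit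 5042095144) (nat_lit 380) (nat_lit 964825790) (nat_lit 76) (nat_lit 4811010179) (nat_lit 74) (nat_lit 5) (nat_lit 79) (nat_lit 5) (nat_lit 75) (nat_lit 5) (nat_lit 293) (nat_lit 255) (nat_lit 232))))))))
noncomputable def xc41 : XT := (XT.nd (nat_lit 2028) (nat_lit 1064) (nat_lit 0) (XT.nd (nat_lit 1014) (nat_lit 1292) (nat_lit 0) (XT.nd (nat_lit 468) (nat_lit 1140) (nat_lit 0) (XT.nd (nat_lit 234) (nat_lit 760) (nat_lit 0) (XT.nd (nat_lit 78) (nat_lit 608) (nat_lit 0) (XT.lf (nat_lit 0) (nat_lit 9212990555) (nat_lit 228) (nat_lit 743723615) (nat_lit 304) (nat_lit 1185266217) (nat_lit 71) (nat_lit 5) (nat_lit 74) (nat_lit 5) (nat_lit 75) (nat_lit 5) (nat_lit 294) (nat_lit 255) (nat_lit 231)) (XT.nd (nat_lit 78) (nat_lit 228) (nat_lit 0) (XT.lf (nat_lit 0) (nat_lit 3569038073) (nat_lit 380) (nat_lit 3153931810) (nat_lit 76) (nat_lit 4758194614) (nat_lit 66) (nat_lit 5) (nat_lit 71) (nat_lit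 5) (nat_lit 67) (nat_lit 5) (nat_lit 295) (nat_lit 255) (nat_lit 230)) (XT.lf (nat_lit 0) (nat_lit 7232368917) (nat_lit 228) (nat_lit 1273379699) (nat_lit 304) (nat_lit 3332259225) (nat_lit 63) (nat_lit 5) (nat_lit 66) (nat_lit 5) (nat_lit 67) (nat_lit 5) (nat_lit 296) (nat_lit 255) (nat_lit 229)))) (XT.nd (nat_lit 78) (nat_lit 456) (nat_lit 0) (XT.lf (nat_lit 0) (nat_lit 1455444265) (nat_lit 304) (nat_lit 6349887401) (nat_lit 76) (nat_lit 4406824715) (nat_lit 59) (nat_lit 5) (nat_lit 63) (nat_lit 5) (nat_lit 60) (nat_lit 5) (nat_lit 297) (nat_lit 255) (nat_lit 228)) (XT.nd (nat_lit 78) (nat_lit 228) (nat_lit 0) (XT.lf (nat_lit 0) (nat_lit 4197195048) (nat_lit 228) (nat_lit 2196669711) (nat_lit 304) (nat_lit 6210863271) (nat_lit 56) (nat_lit 5) (nat_lit 59) (nat_lit 5) (nat_lit 60) (nat_lit 5) (nat_lit 298) (nat_lit 255) (nat_lit 227)) (XT.lf (nat_lit 0) (nat_lit 2214688443) (nat_lit 228)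 (nat_lit 9369320076) (nat_lit 304) (nat_lit 1432883203) (nat_lit 53) (nat_lit 5) (nat_lit 56) (nat_lit 5) (nat_lit 57) (nat_lit 5) (nat_lit 299) (nat_lit 255) (nat_lit 226))))) (XT.nd (nat_lit 234) (nat_lit 684) (nat_lit 0) (XT.nd (nat_lit 78) (nat_lit 380) (nat_lit 0) (XT.lf (nat_lit 0) (nat_lit 3508333498) (nat_lit 304) (nat_lit 139763352) (nat_lit 76) (nat_lit 9800804398) (nat_lit 52) (nat_lit 5) (nat_lit 56) (nat_lit 5) (nat_lit 53) (nat_lit 5) (nat_lit 300) (nat_lit 255) (nat_lit 225)) (XT.nd (nat_lit 78) (nat_lit 228) (nat_lit 0) (XT.lf (nat_lit 0) (nat_lit 8687312187) (nat_lit 228) (nat_lit 2838283452) (nat_lit 76) (nat_lit 2375974632) (nat_lit 50) (nat_lit 5) (nat_lit 53) (nat_lit 5) (nat_lit 51) (nat_lit 5) (nat_lit 301) (nat_lit 255) (nat_lit 224)) (XT.lf (nat_lit 0) (nat_lit 8411657413) (nat_lit 228) (nat_lit 5725970309) (nat_lit 304) (nat_lit 238963569) (nat_lit 47) (nat_lit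 5) (nat_lit 50) (nat_lit 5) (nat_lit 51) (nat_lit 5) (nat_lit 302) (nat_lit 255) (nat_lit 223)))) (XT.nd (nat_lit 156) (nat_lit 228) (nat_lit 0) (XT.nd (nat_lit 78) (nat_lit 228) (nat_lit 0) (XT.lf (nat_lit 0) (nat_lit 4868097783) (nat_lit 228) (nat_lit 9580366338) (nat_lit 76) (nat_lit 426136652) (nat_lit 44) (nat_lit 5) (nat_lit 47) (nat_lit 5) (nat_lit 45) (nat_lit 5) (nat_lit 303) (nat_lit 255) (nat_lit 222)) (XT.lf (nat_lit 0) (nat_lit 1653440978) (nat_lit 228) (nat_lit 8606382721) (nat_lit 304) (nat_lit 5136667858) (nat_lit 41) (nat_lit 5) (nat_lit 44) (nat_lit 5) (nat_lit 45) (nat_lit 5) (nat_lit 304) (nat_lit 255) (nat_lit 221))) (XT.nd (nat_lit 78) (nat_lit 228) (nat_lit 0) (XT.lf (nat_lit 0) (nat_lit 13490470348) (nat_lit 228) (nat_lit 2431103185) (nat_lit 304) (nat_lit 22965852) (nat_lit 41) (nat_lit 5) (nat_lit 44) (nat_lit 5) (nat_lit 45) (nat_lit 5) (nat_lit 305) (nat_lit 255)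 (nat_lit 220)) (XT.lf (nat_lit 0) (nat_lit 5277532408) (nat_lit 228) (nat_lit 7180546043) (nat_lit 76) (nat_lit 4059376122) (nat_lit 38) (nat_lit 5) (nat_lit 41) (nat_lit 5) (nat_lit 39) (nat_lit 5) (nat_lit 306) (nat_lit 255) (nat_lit 219)))))) (XT.nd (nat_lit 468) (nat_lit 532) (nat_lit 0) (XT.nd (nat_lit 234) (nat_lit 380) (nat_lit 0) (XT.nd (nat_lit 78) (nat_lit 228) (nat_lit 0) (XT.lf (nat_lit 0) (nat_lit 4563555283) (nat_lit 152) (nat_lit 6280963707) (nat_lit 228) (nat_lit 6274498160) (nat_lit 36) (nat_lit 5) (nat_lit 38) (nat_lit 5) (nat_lit 39) (nat_lit 5) (nat_lit 307) (nat_lit 255) (nat_lit 218)) (XT.nd (nat_lit 78) (nat_lit 228) (nat_lit 0) (XT.lf (nat_lit 0) (nat_lit 16676907989) (nat_lit 228) (nat_lit 855019109) (nat_lit 76) (nat_lit 219182599) (nat_lit 36) (nat_lit 5) (nat_lit 39) (nat_lit 5) (nat_lit 37) (nat_lit 4) (nat_lit 308) (nat_lit 255) (nat_lit 217)) (XT.lf (nat_lit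 0) (nat_lit 4389480245) (nat_lit 228) (nat_lit 7006505126) (nat_lit 76) (nat_lit 7014946506) (nat_lit 33) (nat_lit 5) (nat_lit 36) (nat_lit 5) (nat_lit 34) (nat_lit 5) (nat_lit 309) (nat_lit 255) (nat_lit 216)))) (XT.nd (nat_lit 78) (nat_lit 228) (nat_lit 0) (XT.lf (nat_lit 0) (nat_lit 5141267031) (nat_lit 152) (nat_lit 4937942753) (nat_lit 228) (nat_lit 9025019785) (nat_lit 31) (nat_lit 5) (nat_lit 33) (nat_lit 5) (nat_lit 34) (nat_lit 5) (nat_lit 310) (nat_lit 255) (nat_lit 215)) (XT.nd (nat_lit 78) (nat_lit 228) (nat_lit 0) (XT.lf (nat_lit 0) (nat_lit 16062692179) (nat_lit 228) (nat_lit 1942931440) (nat_lit 76) (nat_lit 1826343733) (nat_lit 31) (nat_lit 5) (nat_lit 34) (nat_lit 5) (nat_lit 32) (nat_lit 4) (nat_lit 311) (nat_lit 255) (nat_lit 214)) (XT.lf (nat_lit 0) (nat_lit 1791156319) (nat_lit 228) (nat_lit 9905038216) (nat_lit 76) (nat_lit 8897161212) (nat_lit 28) (nat_lit 5) (nat_lit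 31) (nat_lit 5) (nat_lit 29) (nat_lit 5) (nat_lit 312) (nat_lit 255) (nat_lit 213))))) (XT.nd (nat_lit 234) (nat_lit 304) (nat_lit 0) (XT.nd (nat_lit 78) (nat_lit 76) (nat_lit 0) (XT.lf (nat_lit 0) (nat_lit 2481107320) (nat_lit 152) (nat_lit 5039578487) (nat_lit 228) (nat_lit 13871984092) (nat_lit 26) (nat_lit 5) (nat_lit 28) (nat_lit 5) (nat_lit 29) (nat_lit 5) (nat_lit 313) (nat_lit 255) (nat_lit 212)) (XT.nd (nat_lit 78) (nat_lit 76) (nat_lit 0) (XT.lf (nat_lit 0) (nat_lit 13584576289) (nat_lit 228) (nat_lit 6681743444) (nat_lit 76) (nat_lit 1964238107) (nat_lit 26) (nat_lit 5) (nat_lit 29) (nat_lit 5) (nat_lit 27) (nat_lit 4) (nat_lit 314) (nat_lit 255) (nat_lit 211)) (XT.lf (nat_lit 0) (nat_lit 6107260345) (nat_lit 76) (nat_lit 13883657186) (nat_lit 152) (nat_lit 3118287452) (nat_lit 25) (nat_lit 5) (nat_lit 26) (nat_lit 5) (nat_lit 27) (nat_lit 4) (nat_lit 315) (nat_lit 255) (nat_lit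 210)))) (XT.nd (nat_lit 156) (nat_lit 76) (nat_lit 0) (XT.nd (nat_lit 78) (nat_lit 152) (nat_lit 0) (XT.lf (nat_lit 0) (nat_lit 2634037707) (nat_lit 152) (nat_lit 4499442931) (nat_lit 76) (nat_lit 16897548936) (nat_lit 24) (nat_lit 5) (nat_lit 26) (nat_lit 5) (nat_lit 25) (nat_lit 5) (nat_lit 316) (nat_lit 255) (nat_lit 209)) (XT.lf (nat_lit 0) (nat_lit 8627970157) (nat_lit 228) (nat_lit 16345114940) (nat_lit 76) (nat_lit 24417033) (nat_lit 22) (nat_lit 5) (nat_lit 25) (nat_lit 5) (nat_lit 23) (nat_lit 4) (nat_lit 317) (nat_lit 255) (nat_lit 208))) (XT.nd (nat_lit 78) (nat_lit 76) (nat_lit 0) (XT.lf (nat_lit 0) (nat_lit 14976466187) (nat_lit 228) (nat_lit 3638712368) (nat_lit 76) (nat_lit 7395509386) (nat_lit 22) (nat_lit 5) (nat_lit 25) (nat_lit 5) (nat_lit 23) (nat_lit 4) (nat_lit 318) (nat_lit 255) (nat_lit 207)) (XT.lf (nat_lit 0) (nat_lit 9788127196) (nat_lit 76) (nat_lit 11887483214)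 (nat_lit 152) (nat_lit 5397959872) (nat_lit 21) (nat_lit 5) (nat_lit 22) (nat_lit 5) (nat_lit 23) (nat_lit 4) (nat_lit 319) (nat_lit 255) (nat_lit 206))))))) (XT.nd (nat_lit 1014) (nat_lit 304) (nat_lit 0) (XT.nd (nat_lit 468) (nat_lit 304) (nat_lit 0) (XT.nd (nat_lit 234) (nat_lit 228) (nat_lit 0) (XT.nd (nat_lit 78) (nat_lit 152) (nat_lit 0) (XT.lf (nat_lit 0) (nat_lit 488222221) (nat_lit 152) (nat_lit 4335562988) (nat_lit 76) (nat_lit 23366345230) (nat_lit 20) (nat_lit 5) (nat_lit 22) (nat_lit 5) (nat_lit 21) (nat_lit 5) (nat_lit 320) (nat_lit 255) (nat_lit 205)) (XT.nd (nat_lit 78) (nat_lit 0) (nat_lit 0) (XT.lf (nat_lit 0) (nat_lit 6616616986) (nat_lit 228) (nat_lit 20096391257) (nat_lit 76) (nat_lit 2646150645) (nat_lit 18) (nat_lit 5) (nat_lit 21) (nat_lit 5) (nat_lit 19) (nat_lit 4) (nat_lit 321) (nat_lit 255) (nat_lit 204)) (XT.lf (nat_lit 0) (nat_lit 13089835946) (nat_lit 228)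 (nat_lit 7100364195) (nat_lit 76) (nat_lit 10395314949) (nat_lit 18) (nat_lit 5) (nat_lit 21) (nat_lit 5) (nat_lit 19) (nat_lit 4) (nat_lit 322) (nat_lit 255) (nat_lit 203)))) (XT.nd (nat_lit 78) (nat_lit 152) (nat_lit 0) (XT.lf (nat_lit 0) (nat_lit 6580977912) (nat_lit 76) (nat_lit 13316278462) (nat_lit 152) (nat_lit 11975643624) (nat_lit 17) (nat_lit 5) (nat_lit 18) (nat_lit 5) (nat_lit 19) (nat_lit 4) (nat_lit 323) (nat_lit 255) (nat_lit 202)) (XT.nd (nat_lit 78) (nat_lit 152) (nat_lit 0) (XT.lf (nat_lit 0) (nat_lit 21004522063) (nat_lit 76) (nat_lit 6062540887) (nat_lit 152) (nat_lit 6156956563) (nat_lit 17) (nat_lit 5) (nat_lit 18) (nat_lit 5) (nat_lit 19) (nat_lit 4) (nat_lit 324) (nat_lit 255) (nat_lit 201)) (XT.lf (nat_lit 0) (nat_lit 1432494728) (nat_lit 152) (nat_lit 33142568849) (nat_lit 152) (nat_lit 68264906) (nat_lit 15) (nat_lit 4) (nat_lit 17) (nat_lit 5) (nat_lit 17) (nat_lit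 4) (nat_lit 325) (nat_lit 255) (nat_lit 200))))) (XT.nd (nat_lit 234) (nat_lit 152) (nat_lit 0) (XT.nd (nat_lit 78) (nat_lit 76) (nat_lit 0) (XT.lf (nat_lit 0) (nat_lit 6341689826) (nat_lit 228) (nat_lit 20316177371) (nat_lit 76) (nat_lit 9469727008) (nat_lit 14) (nat_lit 5) (nat_lit 17) (nat_lit 5) (nat_lit 15) (nat_lit 4) (nat_lit 326) (nat_lit 255) (nat_lit 199)) (XT.nd (nat_lit 78) (nat_lit 76) (nat_lit 0) (XT.lf (nat_lit 0) (nat_lit 13025052401) (nat_lit 228) (nat_lit 6858954939) (nat_lit 76) (nat_lit 17803437591) (nat_lit 14) (nat_lit 5) (nat_lit 17) (nat_lit 5) (nat_lit 15) (nat_lit 4) (nat_lit 327) (nat_lit 255) (nat_lit 198)) (XT.lf (nat_lit 0) (nat_lit 7336696117) (nat_lit 76) (nat_lit 12732896375) (nat_lit 152) (nat_lit 19254906041) (nat_lit 13) (nat_lit 5) (nat_lit 14) (nat_lit 5) (nat_lit 15) (nat_lit 4) (nat_lit 328) (nat_lit 255) (nat_lit 197)))) (XT.nd (nat_lit 156) (nat_lit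 152) (nat_lit 0) (XT.nd (nat_lit 78) (nat_lit 0) (nat_lit 0) (XT.lf (nat_lit 0) (nat_lit 22310088175) (nat_lit 76) (nat_lit 5184710505) (nat_lit 152) (nat_lit 13547772604) (nat_lit 13) (nat_lit 5) (nat_lit 14) (nat_lit 5) (nat_lit 15) (nat_lit 4) (nat_lit 329) (nat_lit 255) (nat_lit 196)) (XT.lf (nat_lit 0) (nat_lit 35277148438) (nat_lit 152) (nat_lit 4913448723) (nat_lit 0) (nat_lit 2656392719) (nat_lit 13) (nat_lit 5) (nat_lit 15) (nat_lit 4) (nat_lit 13) (nat_lit 4) (nat_lit 330) (nat_lit 255) (nat_lit 195))) (XT.nd (nat_lit 78) (nat_lit 76) (nat_lit 0) (XT.lf (nat_lit 0) (nat_lit 9663535487) (nat_lit 76) (nat_lit 33891765595) (nat_lit 76) (nat_lit 1183145575) (nat_lit 12) (nat_lit 4) (nat_lit 13) (nat_lit 5) (nat_lit 13) (nat_lit 4) (nat_lit 331) (nat_lit 255) (nat_lit 194)) (XT.lf (nat_lit 0) (nat_lit 5428459316) (nat_lit 152) (nat_lit 21772527894) (nat_lit 76) (nat_lit 19521512486)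 (nat_lit 11) (nat_lit 5) (nat_lit 13) (nat_lit 5) (nat_lit 12) (nat_lit 4) (nat_lit 332) (nat_lit 255) (nat_lit 193)))))) (XT.nd (nat_lit 546) (nat_lit 152) (nat_lit 0) (XT.nd (nat_lit 234) (nat_lit 76) (nat_lit 0) (XT.nd (nat_lit 78) (nat_lit 76) (nat_lit 0) (XT.lf (nat_lit 0) (nat_lit 12310464749) (nat_lit 152) (nat_lit 7881752378) (nat_lit 76) (nat_lit 28614273833) (nat_lit 11) (nat_lit 5) (nat_lit 13) (nat_lit 5) (nat_lit 12) (nat_lit 4) (nat_lit 333) (nat_lit 255) (nat_lit 192)) (XT.nd (nat_lit 78) (nat_lit 0) (nat_lit 0) (XT.lf (nat_lit 0) (nat_lit 6774047844) (nat_lit 76) (nat_lit 12793412328) (nat_lit 152) (nat_lit 31426309861) (nat_lit 10) (nat_lit 5) (nat_lit 11) (nat_lit 5) (nat_lit 12) (nat_lit 4) (nat_lit 334) (nat_lit 255) (nat_lit 191)) (XT.lf (nat_lit 0) (nat_lit 22267412001) (nat_lit 76) (nat_lit 4967856218) (nat_lit 152) (nat_lit 26053720186) (nat_lit 10) (nat_lit 5) (nat_lit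 11) (nat_lit 5) (nat_lit 12) (nat_lit 4) (nat_lit 335) (nat_lit 255) (nat_lit 190)))) (XT.nd (nat_lit 156) (nat_lit 76) (nat_lit 0) (XT.nd (nat_lit 78) (nat_lit 0) (nat_lit 0) (XT.lf (nat_lit 0) (nat_lit 35285859682) (nat_lit 152) (nat_lit 17252548503) (nat_lit 0) (nat_lit 3160591271) (nat_lit 10) (nat_lit 5) (nat_lit 12) (nat_lit 4) (nat_lit 10) (nat_lit 4) (nat_lit 336) (nat_lit 255) (nat_lit 189)) (XT.lf (nat_lit 0) (nat_lit 43758800450) (nat_lit 152) (nat_lit 2900252899) (nat_lit 0) (nat_lit 11569876024) (nat_lit 10) (nat_lit 5) (nat_lit 12) (nat_lit 4) (nat_lit 10) (nat_lit 4) (nat_lit 337) (nat_lit 255) (nat_lit 188))) (XT.nd (nat_lit 78) (nat_lit 0) (nat_lit 0) (XT.lf (nat_lit 0) (nat_lit 12358393378) (nat_lit 76) (nat_lit 40386913176) (nat_lit 76) (nat_lit 8137363975) (nat_lit 9) (nat_lit 4) (nat_lit 10) (nat_lit 5) (nat_lit 10) (nat_lit 4) (nat_lit 338) (nat_lit 255) (nat_lit 187))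 (XT.lf (nat_lit 0) (nat_lit 28389660487) (nat_lit 76) (nat_lit 33793340576) (nat_lit 76) (nat_lit 1486053494) (nat_lit 9) (nat_lit 4) (nat_lit 10) (nat_lit 5) (nat_lit 10) (nat_lit 4) (nat_lit 339) (nat_lit 255) (nat_lit 186))))) (XT.nd (nat_lit 234) (nat_lit 0) (nat_lit 0) (XT.nd (nat_lit 78) (nat_lit 76) (nat_lit 0) (XT.lf (nat_lit 0) (nat_lit 5363605832) (nat_lit 152) (nat_lit 21474155699) (nat_lit 76) (nat_lit 39756229655) (nat_lit 8) (nat_lit 5) (nat_lit 10) (nat_lit 5) (nat_lit 9) (nat_lit 4) (nat_lit 340) (nat_lit 255) (nat_lit 185)) (XT.nd (nat_lit 78) (nat_lit 76) (nat_lit 0) (XT.lf (nat_lit 0) (nat_lit 12499648187) (nat_lit 152) (nat_lit 7040359681) (nat_lit 76) (nat_lit 50125496670) (nat_lit 8) (nat_lit 5) (nat_lit 10) (nat_lit 5) (nat_lit 9) (nat_lit 4) (nat_lit 341) (nat_lit 255) (nat_lit 184)) (XT.lf (nat_lit 0) (nat_lit 8231266681) (nat_lit 76) (nat_lit 11815919690) (nat_lit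 152) (nat_lit 52841776190) (nat_lit 7) (nat_lit 5) (nat_lit 8) (nat_lit 5) (nat_lit 9) (nat_lit 4) (nat_lit 342) (nat_lit 255) (nat_lit 183)))) (XT.nd (nat_lit 156) (nat_lit 0) (nat_lit 0) (XT.nd (nat_lit 78) (nat_lit 0) (nat_lit 0) (XT.lf (nat_lit 0) (nat_lit 24370391098) (nat_lit 76) (nat_lit 3650502423) (nat_lit 152) (nat_lit 48251245554) (nat_lit 7) (nat_lit 5) (nat_lit 8) (nat_lit 5) (nat_lit 9) (nat_lit 4) (nat_lit 343) (nat_lit 255) (nat_lit 182)) (XT.lf (nat_lit 0) (nat_lit 36417877454) (nat_lit 152) (nat_lit 38596982798) (nat_lit 0) (nat_lit 4808885325) (nat_lit 7) (nat_lit 5) (nat_lit 9) (nat_lit 4) (nat_lit 7) (nat_lit 4) (nat_lit 344) (nat_lit 255) (nat_lit 181))) (XT.nd (nat_lit 78) (nat_lit 0) (nat_lit 0) (XT.lf (nat_lit 0) (nat_lit 45249905277) (nat_lit 152) (nat_lit 24703496617) (nat_lit 0) (nat_lit 13599083152) (nat_lit 7) (nat_lit 5) (nat_lit 9) (nat_lit 4) (nat_lit 7)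 (nat_lit 4) (nat_lit 345) (nat_lit 255) (nat_lit 180)) (XT.lf (nat_lit 0) (nat_lit 54502914764) (nat_lit 152) (nat_lit 10153118843) (nat_lit 0) (nat_lit 22812254548) (nat_lit 7) (nat_lit 5) (nat_lit 9) (nat_lit 4) (nat_lit 7) (nat_lit 4) (nat_lit 346) (nat_lit 255) (nat_lit 179))))))))
noncomputable def xc42 : XT := (XT.nd (nat_lit 35334) (nat_lit 0) (nat_lit 2812) (XT.nd (nat_lit 1014) (nat_lit 0) (nat_lit 0) (XT.nd (nat_lit 468) (nat_lit 76) (nat_lit 0) (XT.nd (nat_lit 234) (nat_lit 76) (nat_lit 0) (XT.nd (nat_lit 78) (nat_lit 0) (nat_lit 0) (XT.lf (nat_lit 0) (nat_lit 5190071264) (nat_lit 76) (nat_lit 59058755767) (nat_lit 76) (nat_lit 27330154511) (nat_lit 6) (nat_lit 4) (nat_lit 7) (nat_lit 5) (nat_lit 7) (nat_lit 4) (nat_lit 347) (nat_lit 255) (nat_lit 178)) (XT.nd (nat_lit 78) (nat_lit 0) (nat_lit 0) (XT.lf (nat_lit 0) (nat_lit 21477639121) (nat_lit 76) (nat_lit 53089874512) (nat_lit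 76) (nat_lit 21325138933) (nat_lit 6) (nat_lit 4) (nat_lit 7) (nat_lit 5) (nat_lit 7) (nat_lit 4) (nat_lit 348) (nat_lit 255) (nat_lit 177)) (XT.lf (nat_lit 0) (nat_lit 38546297676) (nat_lit 76) (nat_lit 46837704811) (nat_lit 76) (nat_lit 15038555591) (nat_lit 6) (nat_lit 4) (nat_lit 7) (nat_lit 5) (nat_lit 7) (nat_lit 4) (nat_lit 349) (nat_lit 255) (nat_lit 176)))) (XT.nd (nat_lit 78) (nat_lit 76) (nat_lit 0) (XT.lf (nat_lit 0) (nat_lit 56436686594) (nat_lit 76) (nat_lit 40287360547) (nat_lit 76) (nat_lit 8455436430) (nat_lit 6) (nat_lit 4) (nat_lit 7) (nat_lit 5) (nat_lit 7) (nat_lit 4) (nat_lit 350) (nat_lit 255) (nat_lit 175)) (XT.nd (nat_lit 78) (nat_lit 76) (nat_lit 0) (XT.lf (nat_lit 0) (nat_lit 75191402038) (nat_lit 76) (nat_lit 33423245661) (nat_lit 76) (nat_lit 1560107357) (nat_lit 6) (nat_lit 4) (nat_lit 7) (nat_lit 5) (nat_lit 7) (nat_lit 4) (nat_lit 351) (nat_lit 255) (nat_lit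 174)) (XT.lf (nat_lit 0) (nat_lit 5553326981) (nat_lit 152) (nat_lit 20619612328) (nat_lit 76) (nat_lit 89245693398) (nat_lit 5) (nat_lit 5) (nat_lit 7) (nat_lit 5) (nat_lit 6) (nat_lit 4) (nat_lit 352) (nat_lit 255) (nat_lit 173))))) (XT.nd (nat_lit 234) (nat_lit 0) (nat_lit 0) (XT.nd (nat_lit 78) (nat_lit 76) (nat_lit 0) (XT.lf (nat_lit 0) (nat_lit 12975396929) (nat_lit 152) (nat_lit 5581122521) (nat_lit 76) (nat_lit 102368170086) (nat_lit 5) (nat_lit 5) (nat_lit 7) (nat_lit 5) (nat_lit 6) (nat_lit 4) (nat_lit 353) (nat_lit 255) (nat_lit 172)) (XT.nd (nat_lit 78) (nat_lit 0) (nat_lit 0) (XT.lf (nat_lit 0) (nat_lit 10385579092) (nat_lit 76) (nat_lit 10468470843) (nat_lit 152) (nat_lit 105849440194) (nat_lit 4) (nat_lit 5) (nat_lit 5) (nat_lit 5) (nat_lit 6) (nat_lit 4) (nat_lit 354) (nat_lit 255) (nat_lit 171)) (XT.lf (nat_lit 0) (nat_lit 27241628062) (nat_lit 76) (nat_lit 1928544513) (nat_lit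 152) (nat_lit 103599757120) (nat_lit 4) (nat_lit 5) (nat_lit 5) (nat_lit 5) (nat_lit 6) (nat_lit 4) (nat_lit 355) (nat_lit 255) (nat_lit 170)))) (XT.nd (nat_lit 156) (nat_lit 0) (nat_lit 0) (XT.nd (nat_lit 78) (nat_lit 0) (nat_lit 0) (XT.lf (nat_lit 0) (nat_lit 37956398329) (nat_lit 152) (nat_lit 94291561166) (nat_lit 0) (nat_lit 6890107650) (nat_lit 4) (nat_lit 5) (nat_lit 6) (nat_lit 4) (nat_lit 4) (nat_lit 4) (nat_lit 356) (nat_lit 255) (nat_lit 169)) (XT.lf (nat_lit 0) (nat_lit 47188676623) (nat_lit 152) (nat_lit 82535965331) (nat_lit 0) (nat_lit 16099771860) (nat_lit 4) (nat_lit 5) (nat_lit 6) (nat_lit 4) (nat_lit 4) (nat_lit 4) (nat_lit 357) (nat_lit 255) (nat_lit 168))) (XT.nd (nat_lit 78) (nat_lit 0) (nat_lit 0) (XT.lf (nat_lit 0) (nat_lit 56870450724) (nat_lit 152) (nat_lit 70214986266) (nat_lit 0) (nat_lit 25760008737) (nat_lit 4) (nat_lit 5) (nat_lit 6) (nat_lit 4) (nat_lit 4)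 (nat_lit 4) (nat_lit 358) (nat_lit 255) (nat_lit 167)) (XT.lf (nat_lit 0) (nat_lit 67024772473) (nat_lit 152) (nat_lit 57299288307) (nat_lit 0) (nat_lit 35893818845) (nat_lit 4) (nat_lit 5) (nat_lit 6) (nat_lit 4) (nat_lit 4) (nat_lit 4) (nat_lit 359) (nat_lit 255) (nat_lit 166)))))) (XT.nd (nat_lit 33774) (nat_lit 0) (nat_lit 12160) (XT.nd (nat_lit 33540) (nat_lit 0) (nat_lit 18772) (XT.nd (nat_lit 78) (nat_lit 0) (nat_lit 0) (XT.lf (nat_lit 0) (nat_lit 77675818829) (nat_lit 152) (nat_lit 43758119792) (nat_lit 0) (nat_lit 46525330304) (nat_lit 4) (nat_lit 5) (nat_lit 6) (nat_lit 4) (nat_lit 4) (nat_lit 4) (nat_lit 360) (nat_lit 255) (nat_lit 165)) (XT.nd (nat_lit 33384) (nat_lit 0) (nat_lit 20748) (XT.lf (nat_lit 0) (nat_lit 88848949424) (nat_lit 152) (nat_lit 29559239843) (nat_lit 0) (nat_lit 57679856236) (nat_lit 4) (nat_lit 5) (nat_lit 6) (nat_lit 4) (nat_lit 4) (nat_lit 4) (nat_lit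 361) (nat_lit 255) (nat_lit 164)) (XT.lf (nat_lit 0) (nat_lit 1375808094) (nat_lit 532) (nat_lit 568449623) (nat_lit 0) (nat_lit 1375808094) (nat_lit 277) (nat_lit 5) (nat_lit 284) (nat_lit 4) (nat_lit 277) (nat_lit 4) (nat_lit 268) (nat_lit 256) (nat_lit 256)))) (XT.nd (nat_lit 78) (nat_lit 1368) (nat_lit 0) (XT.lf (nat_lit 0) (nat_lit 1021285943) (nat_lit 608) (nat_lit 1429894068) (nat_lit 76) (nat_lit 4243410290) (nat_lit 269) (nat_lit 5) (nat_lit 277) (nat_lit 5) (nat_lit 270) (nat_lit 4) (nat_lit 269) (nat_lit 256) (nat_lit 255)) (XT.nd (nat_lit 78) (nat_lit 760) (nat_lit 0) (XT.lf (nat_lit 0) (nat_lit 5108507714) (nat_lit 608) (nat_lit 777158434) (nat_lit 684) (nat_lit 871922207) (nat_lit 261) (nat_lit 5) (nat_lit 269) (nat_lit 5) (nat_lit 270) (nat_lit 4) (nat_lit 270) (nat_lit 256) (nat_lit 254)) (XT.lf (nat_lit 0) (nat_lit 3897962702) (nat_lit 760) (nat_lit 1812197507) (nat_lit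 76) (nat_lit 1118687047) (nat_lit 251) (nat_lit 5) (nat_lit 261) (nat_lit 5) (nat_lit 252) (nat_lit 4) (nat_lit 271) (nat_lit 256) (nat_lit 253))))) (XT.nd (nat_lit 234) (nat_lit 3952) (nat_lit 0) (XT.nd (nat_lit 78) (nat_lit 1824) (nat_lit 0) (XT.lf (nat_lit 0) (nat_lit 1763912913) (nat_lit 836) (nat_lit 1911655054) (nat_lit 76) (nat_lit 3233298828) (nat_lit 240) (nat_lit 5) (nat_lit 251) (nat_lit 5) (nat_lit 241) (nat_lit 5) (nat_lit 272) (nat_lit 256) (nat_lit 252)) (XT.nd (nat_lit 78) (nat_lit 988) (nat_lit 0) (XT.lf (nat_lit 0) (nat_lit 5049071525) (nat_lit 836) (nat_lit 1405556808) (nat_lit 912) (nat_lit 543269354) (nat_lit 229) (nat_lit 5) (nat_lit 240) (nat_lit 5) (nat_lit 241) (nat_lit 5) (nat_lit 273) (nat_lit 256) (nat_lit 251)) (XT.lf (nat_lit 0) (nat_lit 4045755924) (nat_lit 988) (nat_lit 1951825628) (nat_lit 76) (nat_lit 1097828083) (nat_lit 216) (nat_lit 5) (nat_lit 229) (nat_lit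 5) (nat_lit 217) (nat_lit 5) (nat_lit 274) (nat_lit 256) (nat_lit 250)))) (XT.nd (nat_lit 156) (nat_lit 1824) (nat_lit 0) (XT.nd (nat_lit 78) (nat_lit 1064) (nat_lit 0) (XT.lf (nat_lit 0) (nat_lit 1477121378) (nat_lit 1064) (nat_lit 1912147611) (nat_lit 76) (nat_lit 3812724761) (nat_lit 202) (nat_lit 5) (nat_lit 216) (nat_lit 5) (nat_lit 203) (nat_lit 5) (nat_lit 275) (nat_lit 256) (nat_lit 249)) (XT.lf (nat_lit 0) (nat_lit 5485342665) (nat_lit 1064) (nat_lit 532153261) (nat_lit 1140) (nat_lit 1300430748) (nat_lit 188) (nat_lit 5) (nat_lit 202) (nat_lit 5) (nat_lit 203) (nat_lit 5) (nat_lit 276) (nat_lit 256) (nat_lit 248))) (XT.nd (nat_lit 78) (nat_lit 608) (nat_lit 0) (XT.lf (nat_lit 0) (nat_lit 3162537503) (nat_lit 1216) (nat_lit 1745747977) (nat_lit 76) (nat_lit 2534331205) (nat_lit 172) (nat_lit 5) (nat_lit 188) (nat_lit 5) (nat_lit 173) (nat_lit 5) (nat_lit 277) (nat_lit 256) (nat_lit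 247)) (XT.lf (nat_lit 0) (nat_lit 115299275) (nat_lit 608) (nat_lit 1623958366) (nat_lit 76) (nat_lit 5838051474) (nat_lit 164) (nat_lit 5) (nat_lit 172) (nat_lit 5) (nat_lit 165) (nat_lit 5) (nat_lit 278) (nat_lit 256) (nat_lit 246))))))) (XT.nd (nat_lit 1014) (nat_lit 3192) (nat_lit 0) (XT.nd (nat_lit 468) (nat_lit 2888) (nat_lit 0) (XT.nd (nat_lit 234) (nat_lit 1520) (nat_lit 0) (XT.nd (nat_lit 78) (nat_lit 1140) (nat_lit 0) (XT.lf (nat_lit 0) (nat_lit 4534026693) (nat_lit 684) (nat_lit 1513640356) (nat_lit 76) (nat_lit 1673389376) (nat_lit 156) (nat_lit 5) (nat_lit 165) (nat_lit 5) (nat_lit 157) (nat_lit 5) (nat_lit 279) (nat_lit 256) (nat_lit 245)) (XT.nd (nat_lit 78) (nat_lit 532) (nat_lit 0) (XT.lf (nat_lit 0) (nat_lit 1176363454) (nat_lit 608) (nat_lit 1394622426) (nat_lit 76) (nat_lit 5303955706) (nat_lit 148) (nat_lit 5) (nat_lit 156) (nat_lit 5) (nat_lit 149) (nat_lit 5) (nat_lit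 280) (nat_lit 256) (nat_lit 244)) (XT.lf (nat_lit 0) (nat_lit 5594387469) (nat_lit 608) (nat_lit 1288975309) (nat_lit 76) (nat_lit 1155452575) (nat_lit 141) (nat_lit 5) (nat_lit 149) (nat_lit 5) (nat_lit 142) (nat_lit 5) (nat_lit 281) (nat_lit 256) (nat_lit 243)))) (XT.nd (nat_lit 78) (nat_lit 988) (nat_lit 0) (XT.lf (nat_lit 0) (nat_lit 1906538986) (nat_lit 532) (nat_lit 1208274493) (nat_lit 76) (nat_lit 5098067561) (nat_lit 134) (nat_lit 5) (nat_lit 141) (nat_lit 5) (nat_lit 135) (nat_lit 5) (nat_lit 282) (nat_lit 256) (nat_lit 242)) (XT.nd (nat_lit 78) (nat_lit 532) (nat_lit 0) (XT.lf (nat_lit 0) (nat_lit 6338442909) (nat_lit 532) (nat_lit 1150827151) (nat_lit 76) (nat_lit 908510517) (nat_lit 128) (nat_lit 5) (nat_lit 135) (nat_lit 5) (nat_lit 129) (nat_lit 5) (nat_lit 283) (nat_lit 256) (nat_lit 241)) (XT.lf (nat_lit 0) (nat_lit 2295898957) (nat_lit 532) (nat_lit 1148067409) (nat_lit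 76) (nat_lit 5149239374) (nat_lit 121) (nat_lit 5) (nat_lit 128) (nat_lit 5) (nat_lit 122) (nat_lit 5) (nat_lit 284) (nat_lit 256) (nat_lit 240))))) (XT.nd (nat_lit 234) (nat_lit 1596) (nat_lit 0) (XT.nd (nat_lit 78) (nat_lit 836) (nat_lit 0) (XT.lf (nat_lit 0) (nat_lit 6752530393) (nat_lit 532) (nat_lit 1186409735) (nat_lit 76) (nat_lit 861305758) (nat_lit 115) (nat_lit 5) (nat_lit 122) (nat_lit 5) (nat_lit 116) (nat_lit 5) (nat_lit 285) (nat_lit 256) (nat_lit 239)) (XT.nd (nat_lit 78) (nat_lit 380) (nat_lit 0) (XT.lf (nat_lit 0) (nat_lit 2325582665) (nat_lit 456) (nat_lit 1306452452) (nat_lit 76) (nat_lit 5386380335) (nat_lit 109) (nat_lit 5) (nat_lit 115) (nat_lit 5) (nat_lit 110) (nat_lit 5) (nat_lit 286) (nat_lit 256) (nat_lit 238)) (XT.lf (nat_lit 0) (nat_lit 6813791743) (nat_lit 456) (nat_lit 1493552932) (nat_lit 76) (nat_lit 941595914) (nat_lit 104) (nat_lit 5) (nat_lit 110) (nat_lit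 5) (nat_lit 105) (nat_lit 5) (nat_lit 287) (nat_lit 256) (nat_lit 237)))) (XT.nd (nat_lit 156) (nat_lit 760) (nat_lit 0) (XT.nd (nat_lit 78) (nat_lit 380) (nat_lit 0) (XT.lf (nat_lit 0) (nat_lit 1966979040) (nat_lit 456) (nat_lit 1787813032) (nat_lit 76) (nat_lit 5736671731) (nat_lit 98) (nat_lit 5) (nat_lit 104) (nat_lit 5) (nat_lit 99) (nat_lit 5) (nat_lit 288) (nat_lit 256) (nat_lit 236)) (XT.lf (nat_lit 0) (nat_lit 6489242354) (nat_lit 456) (nat_lit 2183500250) (nat_lit 76) (nat_lit 1074323261) (nat_lit 93) (nat_lit 5) (nat_lit 99) (nat_lit 5) (nat_lit 94) (nat_lit 5) (nat_lit 289) (nat_lit 256) (nat_lit 235))) (XT.nd (nat_lit 78) (nat_lit 380) (nat_lit 0) (XT.lf (nat_lit 0) (nat_lit 1180675405) (nat_lit 380) (nat_lit 2711452276) (nat_lit 76) (nat_lit 6123670895) (nat_lit 88) (nat_lit 5) (nat_lit 93) (nat_lit 5) (nat_lit 89) (nat_lit 5) (nat_lit 290) (nat_lit 256) (nat_lit 234)) (XT.lf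 (nat_lit 0) (nat_lit 5734592704) (nat_lit 456) (nat_lit 3384096578) (nat_lit 76) (nat_lit 1179650196) (nat_lit 83) (nat_lit 5) (nat_lit 89) (nat_lit 5) (nat_lit 84) (nat_lit 5) (nat_lit 291) (nat_lit 256) (nat_lit 233)))))) (XT.nd (nat_lit 546) (nat_lit 1368) (nat_lit 0) (XT.nd (nat_lit 234) (nat_lit 912) (nat_lit 0) (XT.nd (nat_lit 78) (nat_lit 608) (nat_lit 0) (XT.lf (nat_lit 0) (nat_lit 6379545573) (nat_lit 304) (nat_lit 4129293656) (nat_lit 380) (nat_lit 86546656) (nat_lit 79) (nat_lit 5) (nat_lit 83) (nat_lit 5) (nat_lit 84) (nat_lit 5) (nat_lit 292) (nat_lit 256) (nat_lit 232)) (XT.nd (nat_lit 78) (nat_lit 228) (nat_lit 0) (XT.lf (nat_lit 0) (nat_lit 4492789757) (nat_lit 380) (nat_lit 5243445166) (nat_lit 76) (nat_lit 1170814895) (nat_lit 74) (nat_lit 5) (nat_lit 79) (nat_lit 5) (nat_lit 75) (nat_lit 5) (nat_lit 293) (nat_lit 256) (nat_lit 231)) (XT.lf (nat_lit 0) (nat_lit 4757376776)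 (nat_lit 228) (nat_lit 4544365888) (nat_lit 304) (nat_lit 1932594051) (nat_lit 71) (nat_lit 5) (nat_lit 74) (nat_lit 5) (nat_lit 75) (nat_lit 5) (nat_lit 294) (nat_lit 256) (nat_lit 230)))) (XT.nd (nat_lit 156) (nat_lit 304) (nat_lit 0) (XT.nd (nat_lit 78) (nat_lit 228) (nat_lit 0) (XT.lf (nat_lit 0) (nat_lit 2692239011) (nat_lit 380) (nat_lit 7934125061) (nat_lit 76) (nat_lit 951756437) (nat_lit 66) (nat_lit 5) (nat_lit 71) (nat_lit 5) (nat_lit 67) (nat_lit 5) (nat_lit 295) (nat_lit 256) (nat_lit 229)) (XT.lf (nat_lit 0) (nat_lit 2267507633) (nat_lit 228) (nat_lit 5254201608) (nat_lit 304) (nat_lit 4416531386) (nat_lit 63) (nat_lit 5) (nat_lit 66) (nat_lit 5) (nat_lit 67) (nat_lit 5) (nat_lit 296) (nat_lit 256) (nat_lit 228))) (XT.nd (nat_lit 78) (nat_lit 0) (nat_lit 0) (XT.lf (nat_lit 0) (nat_lit 244660221) (nat_lit 304) (nat_lit 11658074541) (nat_lit 76) (nat_lit 414452258) (nat_lit 59)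 (nat_lit 5) (nat_lit 63) (nat_lit 5) (nat_lit 60) (nat_lit 5) (nat_lit 297) (nat_lit 256) (nat_lit 227)) (XT.lf (nat_lit 0) (nat_lit 5086301950) (nat_lit 304) (nat_lit 1278366573) (nat_lit 76) (nat_lit 6348045962) (nat_lit 59) (nat_lit 5) (nat_lit 63) (nat_lit 5) (nat_lit 60) (nat_lit 5) (nat_lit 298) (nat_lit 256) (nat_lit 226))))) (XT.nd (nat_lit 234) (nat_lit 684) (nat_lit 0) (XT.nd (nat_lit 78) (nat_lit 456) (nat_lit 0) (XT.lf (nat_lit 0) (nat_lit 9641594960) (nat_lit 228) (nat_lit 510933469) (nat_lit 304) (nat_lit 2976117222) (nat_lit 56) (nat_lit 5) (nat_lit 59) (nat_lit 5) (nat_lit 60) (nat_lit 5) (nat_lit 299) (nat_lit 256) (nat_lit 225)) (XT.nd (nat_lit 78) (nat_lit 152) (nat_lit 0) (XT.lf (nat_lit 0) (nat_lit 1902210200) (nat_lit 304) (nat_lit 6086723298) (nat_lit 76) (nat_lit 5575003005) (nat_lit 52) (nat_lit 5) (nat_lit 56) (nat_lit 5) (nat_lit 53) (nat_lit 5) (nat_lit 300) (nat_lit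 256) (nat_lit 224)) (XT.lf (nat_lit 0) (nat_lit 4941219671) (nat_lit 152) (nat_lit 2006579781) (nat_lit 228) (nat_lit 7072851748) (nat_lit 50) (nat_lit 5) (nat_lit 52) (nat_lit 5) (nat_lit 53) (nat_lit 5) (nat_lit 301) (nat_lit 256) (nat_lit 223)))) (XT.nd (nat_lit 156) (nat_lit 380) (nat_lit 0) (XT.nd (nat_lit 78) (nat_lit 76) (nat_lit 0) (XT.lf (nat_lit 0) (nat_lit 1986259751) (nat_lit 228) (nat_lit 10281211111) (nat_lit 304) (nat_lit 2232162577) (nat_lit 47) (nat_lit 5) (nat_lit 50) (nat_lit 5) (nat_lit 51) (nat_lit 5) (nat_lit 302) (nat_lit 256) (nat_lit 222)) (XT.lf (nat_lit 0) (nat_lit 2810209632) (nat_lit 304) (nat_lit 1411054477) (nat_lit 76) (nat_lit 10780099856) (nat_lit 46) (nat_lit 5) (nat_lit 50) (nat_lit 5) (nat_lit 47) (nat_lit 5) (nat_lit 303) (nat_lit 256) (nat_lit 221))) (XT.nd (nat_lit 78) (nat_lit 228) (nat_lit 0) (XT.lf (nat_lit 0) (nat_lit 8084342933) (nat_lit 228)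 (nat_lit 5274548688) (nat_lit 76) (nat_lit 2167927801) (nat_lit 44) (nat_lit 5) (nat_lit 47) (nat_lit 5) (nat_lit 45) (nat_lit 5) (nat_lit 304) (nat_lit 256) (nat_lit 220)) (XT.lf (nat_lit 0) (nat_lit 6383792631) (nat_lit 228) (nat_lit 7264975031) (nat_lit 304) (nat_lit 2429054478) (nat_lit 41) (nat_lit 5) (nat_lit 44) (nat_lit 5) (nat_lit 45) (nat_lit 5) (nat_lit 305) (nat_lit 256) (nat_lit 219))))))))
noncomputable def xc43 : XT := (XT.nd (nat_lit 2028) (nat_lit 684) (nat_lit 0) (XT.nd (nat_lit 1014) (nat_lit 684) (nat_lit 0) (XT.nd (nat_lit 468) (nat_lit 684) (nat_lit 0) (XT.nd (nat_lit 234) (nat_lit 380) (nat_lit 0) (XT.nd (nat_lit 78) (nat_lit 152) (nat_lit 0) (XT.lf (nat_lit 0) (nat_lit 1944913991) (nat_lit 152) (nat_lit 818328348) (nat_lit 228) (nat_lit 13892875929) (nat_lit 38) (nat_lit 5) (nat_lit 40) (nat_lit 5) (nat_lit 41) (nat_lit 5) (nat_lit 306) (nat_lit 256) (nat_lit 218))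 (XT.nd (nat_lit 78) (nat_lit 152) (nat_lit 0) (XT.lf (nat_lit 0) (nat_lit 8235761382) (nat_lit 228) (nat_lit 3118409629) (nat_lit 76) (nat_lit 5906374804) (nat_lit 38) (nat_lit 5) (nat_lit 41) (nat_lit 5) (nat_lit 39) (nat_lit 5) (nat_lit 307) (nat_lit 256) (nat_lit 217)) (XT.lf (nat_lit 0) (nat_lit 9086164993) (nat_lit 152) (nat_lit 4907910514) (nat_lit 228) (nat_lit 3900814568) (nat_lit 36) (nat_lit 5) (nat_lit 38) (nat_lit 5) (nat_lit 39) (nat_lit 5) (nat_lit 308) (nat_lit 256) (nat_lit 216)))) (XT.nd (nat_lit 78) (nat_lit 152) (nat_lit 0) (XT.lf (nat_lit 0) (nat_lit 1451396548) (nat_lit 228) (nat_lit 15257484345) (nat_lit 76) (nat_lit 1851672593) (nat_lit 33) (nat_lit 5) (nat_lit 36) (nat_lit 5) (nat_lit 34) (nat_lit 5) (nat_lit 309) (nat_lit 256) (nat_lit 215)) (XT.nd (nat_lit 78) (nat_lit 152) (nat_lit 0) (XT.lf (nat_lit 0) (nat_lit 7052942385) (nat_lit 228) (nat_lit 3274779894) (nat_lit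 76) (nat_lit 8928800360) (nat_lit 33) (nat_lit 5) (nat_lit 36) (nat_lit 5) (nat_lit 34) (nat_lit 5) (nat_lit 310) (nat_lit 256) (nat_lit 214)) (XT.lf (nat_lit 0) (nat_lit 9363369714) (nat_lit 152) (nat_lit 3585522683) (nat_lit 228) (nat_lit 7038018711) (nat_lit 31) (nat_lit 5) (nat_lit 33) (nat_lit 5) (nat_lit 34) (nat_lit 5) (nat_lit 311) (nat_lit 256) (nat_lit 213))))) (XT.nd (nat_lit 234) (nat_lit 304) (nat_lit 0) (XT.nd (nat_lit 78) (nat_lit 228) (nat_lit 0) (XT.lf (nat_lit 0) (nat_lit 1826220657) (nat_lit 152) (nat_lit 17324871107) (nat_lit 228) (nat_lit 1602431933) (nat_lit 29) (nat_lit 5) (nat_lit 31) (nat_lit 5) (nat_lit 32) (nat_lit 4) (nat_lit 312) (nat_lit 256) (nat_lit 212)) (XT.nd (nat_lit 78) (nat_lit 152) (nat_lit 0) (XT.lf (nat_lit 0) (nat_lit 4099328676) (nat_lit 228) (nat_lit 6633905757) (nat_lit 76) (nat_lit 10821858431) (nat_lit 28) (nat_lit 5) (nat_lit 31) (nat_lit 5)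 (nat_lit 29) (nat_lit 5) (nat_lit 313) (nat_lit 256) (nat_lit 211)) (XT.lf (nat_lit 0) (nat_lit 6263584405) (nat_lit 152) (nat_lit 3781268911) (nat_lit 228) (nat_lit 12351699192) (nat_lit 26) (nat_lit 5) (nat_lit 28) (nat_lit 5) (nat_lit 29) (nat_lit 5) (nat_lit 314) (nat_lit 256) (nat_lit 210)))) (XT.nd (nat_lit 156) (nat_lit 228) (nat_lit 0) (XT.nd (nat_lit 78) (nat_lit 76) (nat_lit 0) (XT.lf (nat_lit 0) (nat_lit 16323472755) (nat_lit 228) (nat_lit 3482826056) (nat_lit 76) (nat_lit 3472752234) (nat_lit 26) (nat_lit 5) (nat_lit 29) (nat_lit 5) (nat_lit 27) (nat_lit 4) (nat_lit 315) (nat_lit 256) (nat_lit 209)) (XT.lf (nat_lit 0) (nat_lit 9844355056) (nat_lit 76) (nat_lit 13140684496) (nat_lit 152) (nat_lit 1218603008) (nat_lit 25) (nat_lit 5) (nat_lit 26) (nat_lit 5) (nat_lit 27) (nat_lit 4) (nat_lit 316) (nat_lit 256) (nat_lit 208))) (XT.nd (nat_lit 78) (nat_lit 152) (nat_lit 0) (XT.lf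 (nat_lit 0) (nat_lit 4685250715) (nat_lit 152) (nat_lit 1416801085) (nat_lit 76) (nat_lit 19071847860) (nat_lit 24) (nat_lit 5) (nat_lit 26) (nat_lit 5) (nat_lit 25) (nat_lit 5) (nat_lit 317) (nat_lit 256) (nat_lit 207)) (XT.lf (nat_lit 0) (nat_lit 10931371589) (nat_lit 228) (nat_lit 13905768917) (nat_lit 76) (nat_lit 1353032776) (nat_lit 22) (nat_lit 5) (nat_lit 25) (nat_lit 5) (nat_lit 23) (nat_lit 4) (nat_lit 318) (nat_lit 256) (nat_lit 206)))))) (XT.nd (nat_lit 468) (nat_lit 304) (nat_lit 0) (XT.nd (nat_lit 234) (nat_lit 228) (nat_lit 0) (XT.nd (nat_lit 78) (nat_lit 152) (nat_lit 0) (XT.lf (nat_lit 0) (nat_lit 17508149424) (nat_lit 228) (nat_lit 719122491) (nat_lit 76) (nat_lit 9029470467) (nat_lit 22) (nat_lit 5) (nat_lit 25) (nat_lit 5) (nat_lit 23) (nat_lit 4) (nat_lit 319) (nat_lit 256) (nat_lit 205)) (XT.nd (nat_lit 78) (nat_lit 76) (nat_lit 0) (XT.lf (nat_lit 0) (nat_lit 13290154445)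 (nat_lit 76) (nat_lit 11196157477) (nat_lit 152) (nat_lit 3888182427) (nat_lit 21) (nat_lit 5) (nat_lit 22) (nat_lit 5) (nat_lit 23) (nat_lit 4) (nat_lit 320) (nat_lit 256) (nat_lit 204)) (XT.lf (nat_lit 0) (nat_lit 2174488151) (nat_lit 152) (nat_lit 1649228750) (nat_lit 76) (nat_lit 25725188949) (nat_lit 20) (nat_lit 5) (nat_lit 22) (nat_lit 5) (nat_lit 21) (nat_lit 5) (nat_lit 321) (nat_lit 256) (nat_lit 203)))) (XT.nd (nat_lit 78) (nat_lit 76) (nat_lit 0) (XT.lf (nat_lit 0) (nat_lit 8568905200) (nat_lit 228) (nat_lit 18243818957) (nat_lit 76) (nat_lit 3964915177) (nat_lit 18) (nat_lit 5) (nat_lit 21) (nat_lit 5) (nat_lit 19) (nat_lit 4) (nat_lit 322) (nat_lit 256) (nat_lit 202)) (XT.nd (nat_lit 78) (nat_lit 76) (nat_lit 0) (XT.lf (nat_lit 0) (nat_lit 15288572853) (nat_lit 228) (nat_lit 4734056821) (nat_lit 76) (nat_lit 12045039744) (nat_lit 18) (nat_lit 5) (nat_lit 21) (nat_lit 5) (nat_lit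 19) (nat_lit 4) (nat_lit 323) (nat_lit 256) (nat_lit 201)) (XT.lf (nat_lit 0) (nat_lit 9553346140) (nat_lit 76) (nat_lit 12834891883) (nat_lit 152) (nat_lit 11032667149) (nat_lit 17) (nat_lit 5) (nat_lit 18) (nat_lit 5) (nat_lit 19) (nat_lit 4) (nat_lit 324) (nat_lit 256) (nat_lit 200))))) (XT.nd (nat_lit 234) (nat_lit 76) (nat_lit 0) (XT.nd (nat_lit 78) (nat_lit 228) (nat_lit 0) (XT.lf (nat_lit 0) (nat_lit 24572195150) (nat_lit 76) (nat_lit 5273096025) (nat_lit 152) (nat_lit 4996462814) (nat_lit 17) (nat_lit 5) (nat_lit 18) (nat_lit 5) (nat_lit 19) (nat_lit 4) (nat_lit 325) (nat_lit 256) (nat_lit 199)) (XT.nd (nat_lit 78) (nat_lit 0) (nat_lit 0) (XT.lf (nat_lit 0) (nat_lit 1335003397) (nat_lit 228) (nat_lit 32364748579) (nat_lit 76) (nat_lit 2632939145) (nat_lit 14) (nat_lit 5) (nat_lit 17) (nat_lit 5) (nat_lit 15) (nat_lit 4) (nat_lit 326) (nat_lit 256) (nat_lit 198)) (XT.lf (nat_lit 0)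 (nat_lit 7997138937) (nat_lit 228) (nat_lit 18945378763) (nat_lit 76) (nat_lit 10950671018) (nat_lit 14) (nat_lit 5) (nat_lit 17) (nat_lit 5) (nat_lit 15) (nat_lit 4) (nat_lit 327) (nat_lit 256) (nat_lit 197)))) (XT.nd (nat_lit 156) (nat_lit 0) (nat_lit 0) (XT.nd (nat_lit 78) (nat_lit 76) (nat_lit 0) (XT.lf (nat_lit 0) (nat_lit 14950937992) (nat_lit 228) (nat_lit 4928943184) (nat_lit 76) (nat_lit 19653092956) (nat_lit 14) (nat_lit 5) (nat_lit 17) (nat_lit 5) (nat_lit 15) (nat_lit 4) (nat_lit 328) (nat_lit 256) (nat_lit 196)) (XT.lf (nat_lit 0) (nat_lit 9911336497) (nat_lit 76) (nat_lit 12396894561) (nat_lit 152) (nat_lit 18944862343) (nat_lit 13) (nat_lit 5) (nat_lit 14) (nat_lit 5) (nat_lit 15) (nat_lit 4) (nat_lit 329) (nat_lit 256) (nat_lit 195))) (XT.nd (nat_lit 78) (nat_lit 0) (nat_lit 0) (XT.lf (nat_lit 0) (nat_lit 25528264559) (nat_lit 76) (nat_lit 4517615904) (nat_lit 152) (nat_lit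 13012981233) (nat_lit 13) (nat_lit 5) (nat_lit 14) (nat_lit 5) (nat_lit 15) (nat_lit 4) (nat_lit 330) (nat_lit 256) (nat_lit 194)) (XT.lf (nat_lit 0) (nat_lit 38169811860) (nat_lit 152) (nat_lit 3130925278) (nat_lit 0) (nat_lit 3654216250) (nat_lit 13) (nat_lit 5) (nat_lit 15) (nat_lit 4) (nat_lit 13) (nat_lit 4) (nat_lit 331) (nat_lit 256) (nat_lit 193))))))) (XT.nd (nat_lit 1014) (nat_lit 228) (nat_lit 0) (XT.nd (nat_lit 468) (nat_lit 228) (nat_lit 0) (XT.nd (nat_lit 234) (nat_lit 76) (nat_lit 0) (XT.nd (nat_lit 78) (nat_lit 76) (nat_lit 0) (XT.lf (nat_lit 0) (nat_lit 12116770316) (nat_lit 76) (nat_lit 34710286558) (nat_lit 76) (nat_lit 114995436) (nat_lit 12) (nat_lit 4) (nat_lit 13) (nat_lit 5) (nat_lit 13) (nat_lit 4) (nat_lit 332) (nat_lit 256) (nat_lit 192)) (XT.nd (nat_lit 78) (nat_lit 0) (nat_lit 0) (XT.lf (nat_lit 0) (nat_lit 6752558081) (nat_lit 152) (nat_lit 20963498702) (nat_lit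 76) (nat_lit 21310528115) (nat_lit 11) (nat_lit 5) (nat_lit 13) (nat_lit 5) (nat_lit 12) (nat_lit 4) (nat_lit 333) (nat_lit 256) (nat_lit 191)) (XT.lf (nat_lit 0) (nat_lit 13928536366) (nat_lit 152) (nat_lit 6468548962) (nat_lit 76) (nat_lit 30819216100) (nat_lit 11) (nat_lit 5) (nat_lit 13) (nat_lit 5) (nat_lit 12) (nat_lit 4) (nat_lit 334) (nat_lit 256) (nat_lit 190)))) (XT.nd (nat_lit 78) (nat_lit 0) (nat_lit 0) (XT.lf (nat_lit 0) (nat_lit 8868235636) (nat_lit 76) (nat_lit 12649280325) (nat_lit 152) (nat_lit 31996375303) (nat_lit 10) (nat_lit 5) (nat_lit 11) (nat_lit 5) (nat_lit 12) (nat_lit 4) (nat_lit 335) (nat_lit 256) (nat_lit 189)) (XT.nd (nat_lit 78) (nat_lit 0) (nat_lit 0) (XT.lf (nat_lit 0) (nat_lit 25052673458) (nat_lit 76) (nat_lit 4469770343) (nat_lit 152) (nat_lit 26402834717) (nat_lit 10) (nat_lit 5) (nat_lit 11) (nat_lit 5) (nat_lit 12) (nat_lit 4) (nat_lit 336) (nat_lit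 256) (nat_lit 188)) (XT.lf (nat_lit 0) (nat_lit 37938331506) (nat_lit 152) (nat_lit 16502914449) (nat_lit 0) (nat_lit 4015680070) (nat_lit 10) (nat_lit 5) (nat_lit 12) (nat_lit 4) (nat_lit 10) (nat_lit 4) (nat_lit 337) (nat_lit 256) (nat_lit 187))))) (XT.nd (nat_lit 234) (nat_lit 152) (nat_lit 0) (XT.nd (nat_lit 78) (nat_lit 76) (nat_lit 0) (XT.lf (nat_lit 0) (nat_lit 46792625081) (nat_lit 152) (nat_lit 1509778421) (nat_lit 0) (nat_lit 12812235764) (nat_lit 10) (nat_lit 5) (nat_lit 12) (nat_lit 4) (nat_lit 10) (nat_lit 4) (nat_lit 338) (nat_lit 256) (nat_lit 186)) (XT.nd (nat_lit 78) (nat_lit 0) (nat_lit 0) (XT.lf (nat_lit 0) (nat_lit 14467785740) (nat_lit 76) (nat_lit 41734727480) (nat_lit 76) (nat_lit 7699349704) (nat_lit 9) (nat_lit 4) (nat_lit 10) (nat_lit 5) (nat_lit 10) (nat_lit 4) (nat_lit 339) (nat_lit 256) (nat_lit 185)) (XT.lf (nat_lit 0) (nat_lit 31229593695) (nat_lit 76) (nat_lit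 34843453933) (nat_lit 76) (nat_lit 755706197) (nat_lit 9) (nat_lit 4) (nat_lit 10) (nat_lit 5) (nat_lit 10) (nat_lit 4) (nat_lit 340) (nat_lit 256) (nat_lit 184)))) (XT.nd (nat_lit 156) (nat_lit 76) (nat_lit 0) (XT.nd (nat_lit 78) (nat_lit 0) (nat_lit 0) (XT.lf (nat_lit 0) (nat_lit 6383165507) (nat_lit 152) (nat_lit 21179797908) (nat_lit 76) (nat_lit 42337883995) (nat_lit 8) (nat_lit 5) (nat_lit 10) (nat_lit 5) (nat_lit 9) (nat_lit 4) (nat_lit 341) (nat_lit 256) (nat_lit 183)) (XT.lf (nat_lit 0) (nat_lit 13840230009) (nat_lit 152) (nat_lit 6089458068) (nat_lit 76) (nat_lit 53197336129) (nat_lit 8) (nat_lit 5) (nat_lit 10) (nat_lit 5) (nat_lit 9) (nat_lit 4) (nat_lit 342) (nat_lit 256) (nat_lit 182))) (XT.nd (nat_lit 78) (nat_lit 0) (nat_lit 0) (XT.lf (nat_lit 0) (nat_lit 9908401683) (nat_lit 76) (nat_lit 11834832706) (nat_lit 152) (nat_lit 54769091758) (nat_lit 7) (nat_lit 5) (nat_lit 8)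 (nat_lit 5) (nat_lit 9) (nat_lit 4) (nat_lit 343) (nat_lit 256) (nat_lit 181)) (XT.lf (nat_lit 0) (nat_lit 26794217003) (nat_lit 76) (nat_lit 3288377098) (nat_lit 152) (nat_lit 49983071411) (nat_lit 7) (nat_lit 5) (nat_lit 8) (nat_lit 5) (nat_lit 9) (nat_lit 4) (nat_lit 344) (nat_lit 256) (nat_lit 180)))))) (XT.nd (nat_lit 546) (nat_lit 152) (nat_lit 0) (XT.nd (nat_lit 234) (nat_lit 76) (nat_lit 0) (XT.nd (nat_lit 78) (nat_lit 0) (nat_lit 0) (XT.lf (nat_lit 0) (nat_lit 38872953629) (nat_lit 152) (nat_lit 39364783029) (nat_lit 0) (nat_lit 5557922310) (nat_lit 7) (nat_lit 5) (nat_lit 9) (nat_lit 4) (nat_lit 7) (nat_lit 4) (nat_lit 345) (nat_lit 256) (nat_lit 179)) (XT.nd (nat_lit 78) (nat_lit 0) (nat_lit 0) (XT.lf (nat_lit 0) (nat_lit 48116383685) (nat_lit 152) (nat_lit 24831958201) (nat_lit 0) (nat_lit 14763411327) (nat_lit 7) (nat_lit 5) (nat_lit 9) (nat_lit 4) (nat_lit 7) (nat_lit 4) (nat_lit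 346) (nat_lit 256) (nat_lit 178)) (XT.lf (nat_lit 0) (nat_lit 57803282545) (nat_lit 152) (nat_lit 9606762169) (nat_lit 0) (nat_lit 24414175864) (nat_lit 7) (nat_lit 5) (nat_lit 9) (nat_lit 4) (nat_lit 7) (nat_lit 4) (nat_lit 347) (nat_lit 256) (nat_lit 177)))) (XT.nd (nat_lit 156) (nat_lit 0) (nat_lit 0) (XT.nd (nat_lit 78) (nat_lit 0) (nat_lit 0) (XT.lf (nat_lit 0) (nat_lit 6473374383) (nat_lit 76) (nat_lit 61545565905) (nat_lit 76) (nat_lit 28122045581) (nat_lit 6) (nat_lit 4) (nat_lit 7) (nat_lit 5) (nat_lit 7) (nat_lit 4) (nat_lit 348) (nat_lit 256) (nat_lit 176)) (XT.lf (nat_lit 0) (nat_lit 23526568273) (nat_lit 76) (nat_lit 55300437141) (nat_lit 76) (nat_lit 21844141922) (nat_lit 6) (nat_lit 4) (nat_lit 7) (nat_lit 5) (nat_lit 7) (nat_lit 4) (nat_lit 349) (nat_lit 256) (nat_lit 175))) (XT.nd (nat_lit 78) (nat_lit 0) (nat_lit 0) (XT.lf (nat_lit 0) (nat_lit 41402228937) (nat_lit 76)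 (nat_lit 48756798532) (nat_lit 76) (nat_lit 15269289125) (nat_lit 6) (nat_lit 4) (nat_lit 7) (nat_lit 5) (nat_lit 7) (nat_lit 4) (nat_lit 350) (nat_lit 256) (nat_lit 174)) (XT.lf (nat_lit 0) (nat_lit 60142917474) (nat_lit 76) (nat_lit 41899069984) (nat_lit 76) (nat_lit 8381832780) (nat_lit 6) (nat_lit 4) (nat_lit 7) (nat_lit 5) (nat_lit 7) (nat_lit 4) (nat_lit 351) (nat_lit 256) (nat_lit 173))))) (XT.nd (nat_lit 234) (nat_lit 76) (nat_lit 0) (XT.nd (nat_lit 78) (nat_lit 76) (nat_lit 0) (XT.lf (nat_lit 0) (nat_lit 79793254569) (nat_lit 76) (nat_lit 34710923572) (nat_lit 76) (nat_lit 1165374180) (nat_lit 6) (nat_lit 4) (nat_lit 7) (nat_lit 5) (nat_lit 7) (nat_lit 4) (nat_lit 352) (nat_lit 256) (nat_lit 172)) (XT.nd (nat_lit 78) (nat_lit 0) (nat_lit 0) (XT.lf (nat_lit 0) (nat_lit 6272434961) (nat_lit 152) (nat_lit 20839470407) (nat_lit 76) (nat_lit 94064252483) (nat_lit 5) (nat_lit 5) (nat_lit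 7) (nat_lit 5) (nat_lit 6) (nat_lit 4) (nat_lit 353) (nat_lit 256) (nat_lit 171)) (XT.lf (nat_lit 0) (nat_lit 14044587377) (nat_lit 152) (nat_lit 5087680992) (nat_lit 76) (nat_lit 107825887558) (nat_lit 5) (nat_lit 5) (nat_lit 7) (nat_lit 5) (nat_lit 6) (nat_lit 4) (nat_lit 354) (nat_lit 256) (nat_lit 170)))) (XT.nd (nat_lit 156) (nat_lit 0) (nat_lit 0) (XT.nd (nat_lit 78) (nat_lit 0) (nat_lit 0) (XT.lf (nat_lit 0) (nat_lit 11655212211) (nat_lit 76) (nat_lit 10649153657) (nat_lit 152) (nat_lit 110721922299) (nat_lit 4) (nat_lit 5) (nat_lit 5) (nat_lit 5) (nat_lit 6) (nat_lit 4) (nat_lit 355) (nat_lit 256) (nat_lit 169)) (XT.lf (nat_lit 0) (nat_lit 29318332479) (nat_lit 76) (nat_lit 1698551997) (nat_lit 152) (nat_lit 108379754591) (nat_lit 4) (nat_lit 5) (nat_lit 5) (nat_lit 5) (nat_lit 6) (nat_lit 4) (nat_lit 356) (nat_lit 256) (nat_lit 168))) (XT.nd (nat_lit 78) (nat_lit 0) (nat_lit 0)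 (XT.lf (nat_lit 0) (nat_lit 40226923977) (nat_lit 152) (nat_lit 98317308385) (nat_lit 0) (nat_lit 7539422668) (nat_lit 4) (nat_lit 5) (nat_lit 6) (nat_lit 4) (nat_lit 4) (nat_lit 4) (nat_lit 357) (nat_lit 256) (nat_lit 167)) (XT.lf (nat_lit 0) (nat_lit 49903068294) (nat_lit 152) (nat_lit 86006734227) (nat_lit 0) (nat_lit 17195055343) (nat_lit 4) (nat_lit 5) (nat_lit 6) (nat_lit 4) (nat_lit 4) (nat_lit 4) (nat_lit 358) (nat_lit 256) (nat_lit 166))))))))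
noncomputable def xc44 : XT := (XT.nd (nat_lit 35178) (nat_lit 0) (nat_lit 1672) (XT.nd (nat_lit 34164) (nat_lit 0) (nat_lit 7144) (XT.nd (nat_lit 33618) (nat_lit 0) (nat_lit 15048) (XT.nd (nat_lit 33384) (nat_lit 0) (nat_lit 20748) (XT.nd (nat_lit 78) (nat_lit 0) (nat_lit 0) (XT.lf (nat_lit 0) (nat_lit 60052028346) (nat_lit 152) (nat_lit 73100945703) (nat_lit 0) (nat_lit 27324480498) (nat_lit 4) (nat_lit 5) (nat_lit 6) (nat_lit 4) (nat_lit 4) (nat_lit 4) (nat_lit 359) (nat_lit 256) (nat_lit 165)) (XT.nd (nat_lit 78) (nat_lit 0) (nat_lit 0) (XT.lf (nat_lit 0) (nat_lit 70697968321) (nat_lit 152) (nat_lit 59569214745) (nat_lit 0) (nat_lit 37951815811) (nat_lit 4) (nat_lit 5) (nat_lit 6) (nat_lit 4) (nat_lit 4) (nat_lit 4) (nat_lit 360) (nat_lit 256) (nat_lit 164)) (XT.lf (nat_lit 0) (nat_lit 81866235698) (nat_lit 152) (nat_lit 45379322946) (nat_lit 0) (nat_lit 49102364460) (nat_lit 4) (nat_lit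 5) (nat_lit 6) (nat_lit 4) (nat_lit 4) (nat_lit 4) (nat_lit 361) (nat_lit 256) (nat_lit 163)))) (XT.nd (nat_lit 78) (nat_lit 912) (nat_lit 0) (XT.lf (nat_lit 0) (nat_lit 1592779666) (nat_lit 380) (nat_lit 90882863) (nat_lit 0) (nat_lit 1592779666) (nat_lit 289) (nat_lit 5) (nat_lit 294) (nat_lit 4) (nat_lit 289) (nat_lit 4) (nat_lit 266) (nat_lit 257) (nat_lit 257)) (XT.nd (nat_lit 78) (nat_lit 456) (nat_lit 0) (XT.lf (nat_lit 0) (nat_lit 1492925651) (nat_lit 456) (nat_lit 757968482) (nat_lit 76) (nat_lit 4343445625) (nat_lit 283) (nat_lit 5) (nat_lit 289) (nat_lit 5) (nat_lit 284) (nat_lit 4) (nat_lit 267) (nat_lit 257) (nat_lit 256)) (XT.lf (nat_lit 0) (nat_lit 5396036204) (nat_lit 456) (nat_lit 905856125) (nat_lit 532) (nat_lit 342425264) (nat_lit 277) (nat_lit 5) (nat_lit 283) (nat_lit 5) (nat_lit 284) (nat_lit 4) (nat_lit 268) (nat_lit 257) (nat_lit 255))))) (XT.nd (nat_lit 234) (nat_lit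 3648) (nat_lit 0) (XT.nd (nat_lit 78) (nat_lit 1444) (nat_lit 0) (XT.lf (nat_lit 0) (nat_lit 4355605903) (nat_lit 608) (nat_lit 1675774344) (nat_lit 76) (nat_lit 670970957) (nat_lit 269) (nat_lit 5) (nat_lit 277) (nat_lit 5) (nat_lit 270) (nat_lit 4) (nat_lit 269) (nat_lit 257) (nat_lit 254)) (XT.nd (nat_lit 78) (nat_lit 760) (nat_lit 0) (XT.lf (nat_lit 0) (nat_lit 2275343453) (nat_lit 684) (nat_lit 2033872258) (nat_lit 76) (nat_lit 2459663731) (nat_lit 260) (nat_lit 5) (nat_lit 269) (nat_lit 5) (nat_lit 261) (nat_lit 5) (nat_lit 270) (nat_lit 257) (nat_lit 253)) (XT.lf (nat_lit 0) (nat_lit 44403869) (nat_lit 760) (nat_lit 2317485643) (nat_lit 76) (nat_lit 4482424416) (nat_lit 250) (nat_lit 5) (nat_lit 260) (nat_lit 5) (nat_lit 251) (nat_lit 5) (nat_lit 271) (nat_lit 257) (nat_lit 252)))) (XT.nd (nat_lit 156) (nat_lit 1976) (nat_lit 0) (XT.nd (nat_lit 78) (nat_lit 912) (nat_lit 0) (XT.lf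 (nat_lit 0) (nat_lit 4374984209) (nat_lit 760) (nat_lit 160793321) (nat_lit 836) (nat_lit 2392358531) (nat_lit 240) (nat_lit 5) (nat_lit 250) (nat_lit 5) (nat_lit 251) (nat_lit 5) (nat_lit 272) (nat_lit 257) (nat_lit 251)) (XT.lf (nat_lit 0) (nat_lit 2041611670) (nat_lit 912) (nat_lit 2745343465) (nat_lit 76) (nat_lit 2233553959) (nat_lit 228) (nat_lit 5) (nat_lit 240) (nat_lit 5) (nat_lit 229) (nat_lit 5) (nat_lit 273) (nat_lit 257) (nat_lit 250))) (XT.nd (nat_lit 78) (nat_lit 1064) (nat_lit 0) (XT.lf (nat_lit 0) (nat_lit 4236765386) (nat_lit 912) (nat_lit 2252536017) (nat_lit 988) (nat_lit 632714709) (nat_lit 216) (nat_lit 5) (nat_lit 228) (nat_lit 5) (nat_lit 229) (nat_lit 5) (nat_lit 274) (nat_lit 257) (nat_lit 249)) (XT.lf (nat_lit 0) (nat_lit 3707088555) (nat_lit 1064) (nat_lit 2995837965) (nat_lit 76) (nat_lit 529383367) (nat_lit 202) (nat_lit 5) (nat_lit 216) (nat_lit 5) (nat_lit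 203) (nat_lit 5) (nat_lit 275) (nat_lit 257) (nat_lit 248)))))) (XT.nd (nat_lit 468) (nat_lit 3268) (nat_lit 0) (XT.nd (nat_lit 234) (nat_lit 1748) (nat_lit 0) (XT.nd (nat_lit 78) (nat_lit 1748) (nat_lit 0) (XT.lf (nat_lit 0) (nat_lit 765016415) (nat_lit 1140) (nat_lit 3079675948) (nat_lit 76) (nat_lit 3506987227) (nat_lit 187) (nat_lit 5) (nat_lit 202) (nat_lit 5) (nat_lit 188) (nat_lit 5) (nat_lit 276) (nat_lit 257) (nat_lit 247)) (XT.nd (nat_lit 78) (nat_lit 608) (nat_lit 0) (XT.lf (nat_lit 0) (nat_lit 4338081903) (nat_lit 1140) (nat_lit 725489709) (nat_lit 1216) (nat_lit 2416781119) (nat_lit 172) (nat_lit 5) (nat_lit 187) (nat_lit 5) (nat_lit 188) (nat_lit 5) (nat_lit 277) (nat_lit 257) (nat_lit 246)) (XT.lf (nat_lit 0) (nat_lit 1822358447) (nat_lit 608) (nat_lit 3199396631) (nat_lit 76) (nat_lit 2596522065) (nat_lit 164) (nat_lit 5) (nat_lit 172) (nat_lit 5) (nat_lit 165) (nat_lit 5)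 (nat_lit 278) (nat_lit 257) (nat_lit 245)))) (XT.nd (nat_lit 78) (nat_lit 1140) (nat_lit 0) (XT.lf (nat_lit 0) (nat_lit 4518276892) (nat_lit 608) (nat_lit 1595643318) (nat_lit 684) (nat_lit 1652083922) (nat_lit 156) (nat_lit 5) (nat_lit 164) (nat_lit 5) (nat_lit 165) (nat_lit 5) (nat_lit 279) (nat_lit 257) (nat_lit 244)) (XT.nd (nat_lit 78) (nat_lit 532) (nat_lit 0) (XT.lf (nat_lit 0) (nat_lit 2556020949) (nat_lit 608) (nat_lit 3309227234) (nat_lit 76) (nat_lit 2058110840) (nat_lit 148) (nat_lit 5) (nat_lit 156) (nat_lit 5) (nat_lit 149) (nat_lit 5) (nat_lit 280) (nat_lit 257) (nat_lit 243)) (XT.lf (nat_lit 0) (nat_lit 4710402155) (nat_lit 532) (nat_lit 2144190247) (nat_lit 608) (nat_lit 1236369007) (nat_lit 141) (nat_lit 5) (nat_lit 148) (nat_lit 5) (nat_lit 149) (nat_lit 5) (nat_lit 281) (nat_lit 257) (nat_lit 242))))) (XT.nd (nat_lit 234) (nat_lit 1748) (nat_lit 0) (XT.nd (nat_lit 78)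 (nat_lit 988) (nat_lit 0) (XT.lf (nat_lit 0) (nat_lit 2962589990) (nat_lit 532) (nat_lit 3485148665) (nat_lit 76) (nat_lit 1820927203) (nat_lit 134) (nat_lit 5) (nat_lit 141) (nat_lit 5) (nat_lit 135) (nat_lit 5) (nat_lit 282) (nat_lit 257) (nat_lit 241)) (XT.nd (nat_lit 78) (nat_lit 532) (nat_lit 0) (XT.lf (nat_lit 0) (nat_lit 4836704559) (nat_lit 456) (nat_lit 2442659439) (nat_lit 532) (nat_lit 1177783020) (nat_lit 128) (nat_lit 5) (nat_lit 134) (nat_lit 5) (nat_lit 135) (nat_lit 5) (nat_lit 283) (nat_lit 257) (nat_lit 240)) (XT.lf (nat_lit 0) (nat_lit 3030439643) (nat_lit 532) (nat_lit 3810319190) (nat_lit 76) (nat_lit 1815571578) (nat_lit 121) (nat_lit 5) (nat_lit 128) (nat_lit 5) (nat_lit 122) (nat_lit 5) (nat_lit 284) (nat_lit 257) (nat_lit 239)))) (XT.nd (nat_lit 156) (nat_lit 836) (nat_lit 0) (XT.nd (nat_lit 78) (nat_lit 456) (nat_lit 0) (XT.lf (nat_lit 0) (nat_lit 4811485820) (nat_lit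 456) (nat_lit 2562138924) (nat_lit 532) (nat_lit 1493261680) (nat_lit 115) (nat_lit 5) (nat_lit 121) (nat_lit 5) (nat_lit 122) (nat_lit 5) (nat_lit 285) (nat_lit 257) (nat_lit 238)) (XT.lf (nat_lit 0) (nat_lit 2739107272) (nat_lit 456) (nat_lit 4377402730) (nat_lit 76) (nat_lit 1972393391) (nat_lit 109) (nat_lit 5) (nat_lit 115) (nat_lit 5) (nat_lit 110) (nat_lit 5) (nat_lit 286) (nat_lit 257) (nat_lit 237))) (XT.nd (nat_lit 78) (nat_lit 456) (nat_lit 0) (XT.lf (nat_lit 0) (nat_lit 4538652797) (nat_lit 380) (nat_lit 2575014722) (nat_lit 456) (nat_lit 2209269524) (nat_lit 104) (nat_lit 5) (nat_lit 109) (nat_lit 5) (nat_lit 110) (nat_lit 5) (nat_lit 287) (nat_lit 257) (nat_lit 236)) (XT.lf (nat_lit 0) (nat_lit 2058459925) (nat_lit 456) (nat_lit 5291189059) (nat_lit 76) (nat_lit 2219737440) (nat_lit 98) (nat_lit 5) (nat_lit 104) (nat_lit 5) (nat_lit 99) (nat_lit 5) (nat_lit 288) (nat_lit 257)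 (nat_lit 235))))))) (XT.nd (nat_lit 1014) (nat_lit 1976) (nat_lit 0) (XT.nd (nat_lit 468) (nat_lit 1672) (nat_lit 0) (XT.nd (nat_lit 234) (nat_lit 684) (nat_lit 0) (XT.nd (nat_lit 78) (nat_lit 760) (nat_lit 0) (XT.lf (nat_lit 0) (nat_lit 3908950663) (nat_lit 380) (nat_lit 2556808552) (nat_lit 456) (nat_lit 3362765416) (nat_lit 93) (nat_lit 5) (nat_lit 98) (nat_lit 5) (nat_lit 99) (nat_lit 5) (nat_lit 289) (nat_lit 257) (nat_lit 234)) (XT.nd (nat_lit 78) (nat_lit 380) (nat_lit 0) (XT.lf (nat_lit 0) (nat_lit 947627741) (nat_lit 380) (nat_lit 6671570225) (nat_lit 76) (nat_lit 2482074896) (nat_lit 88) (nat_lit 5) (nat_lit 93) (nat_lit 5) (nat_lit 89) (nat_lit 5) (nat_lit 290) (nat_lit 257) (nat_lit 233)) (XT.lf (nat_lit 0) (nat_lit 2796810671) (nat_lit 380) (nat_lit 2588156225) (nat_lit 456) (nat_lit 5002421021) (nat_lit 83) (nat_lit 5) (nat_lit 88) (nat_lit 5) (nat_lit 89) (nat_lit 5) (nat_lit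 291) (nat_lit 257) (nat_lit 232)))) (XT.nd (nat_lit 78) (nat_lit 380) (nat_lit 0) (XT.lf (nat_lit 0) (nat_lit 2025123944) (nat_lit 304) (nat_lit 8004094967) (nat_lit 380) (nat_lit 659188401) (nat_lit 79) (nat_lit 5) (nat_lit 83) (nat_lit 5) (nat_lit 84) (nat_lit 5) (nat_lit 292) (nat_lit 257) (nat_lit 231)) (XT.nd (nat_lit 78) (nat_lit 0) (nat_lit 0) (XT.lf (nat_lit 0) (nat_lit 1056734137) (nat_lit 304) (nat_lit 2756972803) (nat_lit 380) (nat_lit 7190125544) (nat_lit 74) (nat_lit 5) (nat_lit 78) (nat_lit 5) (nat_lit 79) (nat_lit 5) (nat_lit 293) (nat_lit 257) (nat_lit 230)) (XT.lf (nat_lit 0) (nat_lit 8490583480) (nat_lit 380) (nat_lit 98369519) (nat_lit 76) (nat_lit 2746193091) (nat_lit 74) (nat_lit 5) (nat_lit 79) (nat_lit 5) (nat_lit 75) (nat_lit 5) (nat_lit 294) (nat_lit 257) (nat_lit 229))))) (XT.nd (nat_lit 234) (nat_lit 836) (nat_lit 0) (XT.nd (nat_lit 78) (nat_lit 532) (nat_lit 0)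 (XT.lf (nat_lit 0) (nat_lit 1694213369) (nat_lit 304) (nat_lit 1451980416) (nat_lit 76) (nat_lit 8536174242) (nat_lit 70) (nat_lit 5) (nat_lit 74) (nat_lit 5) (nat_lit 71) (nat_lit 5) (nat_lit 295) (nat_lit 257) (nat_lit 228)) (XT.nd (nat_lit 78) (nat_lit 228) (nat_lit 0) (XT.lf (nat_lit 0) (nat_lit 6400586766) (nat_lit 380) (nat_lit 3059508653) (nat_lit 76) (nat_lit 2586142358) (nat_lit 66) (nat_lit 5) (nat_lit 71) (nat_lit 5) (nat_lit 67) (nat_lit 5) (nat_lit 296) (nat_lit 257) (nat_lit 227)) (XT.lf (nat_lit 0) (nat_lit 7501104270) (nat_lit 228) (nat_lit 3849467040) (nat_lit 304) (nat_lit 1077591684) (nat_lit 63) (nat_lit 5) (nat_lit 66) (nat_lit 5) (nat_lit 67) (nat_lit 5) (nat_lit 297) (nat_lit 257) (nat_lit 226)))) (XT.nd (nat_lit 156) (nat_lit 304) (nat_lit 0) (XT.nd (nat_lit 78) (nat_lit 228) (nat_lit 0) (XT.lf (nat_lit 0) (nat_lit 3645546062) (nat_lit 304) (nat_lit 7108582841) (nat_lit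 76) (nat_lit 2074108215) (nat_lit 59) (nat_lit 5) (nat_lit 63) (nat_lit 5) (nat_lit 60) (nat_lit 5) (nat_lit 298) (nat_lit 257) (nat_lit 225)) (XT.lf (nat_lit 0) (nat_lit 3616277338) (nat_lit 228) (nat_lit 4986389988) (nat_lit 304) (nat_lit 4644821691) (nat_lit 56) (nat_lit 5) (nat_lit 59) (nat_lit 5) (nat_lit 60) (nat_lit 5) (nat_lit 299) (nat_lit 257) (nat_lit 224))) (XT.nd (nat_lit 78) (nat_lit 0) (nat_lit 0) (XT.lf (nat_lit 0) (nat_lit 111198182) (nat_lit 304) (nat_lit 12493325895) (nat_lit 76) (nat_lit 1083427102) (nat_lit 52) (nat_lit 5) (nat_lit 56) (nat_lit 5) (nat_lit 53) (nat_lit 5) (nat_lit 300) (nat_lit 257) (nat_lit 223)) (XT.lf (nat_lit 0) (nat_lit 5060702856) (nat_lit 304) (nat_lit 1637202131) (nat_lit 76) (nat_lit 7449685322) (nat_lit 52) (nat_lit 5) (nat_lit 56) (nat_lit 5) (nat_lit 53) (nat_lit 5) (nat_lit 301) (nat_lit 257) (nat_lit 222)))))) (XT.nd (nat_lit 546) (nat_lit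 760) (nat_lit 0) (XT.nd (nat_lit 234) (nat_lit 608) (nat_lit 0) (XT.nd (nat_lit 78) (nat_lit 456) (nat_lit 0) (XT.lf (nat_lit 0) (nat_lit 9805869620) (nat_lit 152) (nat_lit 451213700) (nat_lit 228) (nat_lit 4373227857) (nat_lit 50) (nat_lit 5) (nat_lit 52) (nat_lit 5) (nat_lit 53) (nat_lit 5) (nat_lit 302) (nat_lit 257) (nat_lit 221)) (XT.nd (nat_lit 78) (nat_lit 152) (nat_lit 0) (XT.lf (nat_lit 0) (nat_lit 612655357) (nat_lit 304) (nat_lit 8497737208) (nat_lit 76) (nat_lit 6025251537) (nat_lit 46) (nat_lit 5) (nat_lit 50) (nat_lit 5) (nat_lit 47) (nat_lit 5) (nat_lit 303) (nat_lit 257) (nat_lit 220)) (XT.lf (nat_lit 0) (nat_lit 2975285047) (nat_lit 152) (nat_lit 2776121664) (nat_lit 228) (nat_lit 9913789442) (nat_lit 44) (nat_lit 5) (nat_lit 46) (nat_lit 5) (nat_lit 47) (nat_lit 5) (nat_lit 304) (nat_lit 257) (nat_lit 219)))) (XT.nd (nat_lit 156) (nat_lit 304) (nat_lit 0) (XT.nd (nat_lit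 78) (nat_lit 304) (nat_lit 0) (XT.lf (nat_lit 0) (nat_lit 11185013830) (nat_lit 228) (nat_lit 1198288851) (nat_lit 76) (nat_lit 3836854183) (nat_lit 44) (nat_lit 5) (nat_lit 47) (nat_lit 5) (nat_lit 45) (nat_lit 5) (nat_lit 305) (nat_lit 257) (nat_lit 218)) (XT.lf (nat_lit 0) (nat_lit 135634025) (nat_lit 304) (nat_lit 5884211660) (nat_lit 76) (nat_lit 10781561007) (nat_lit 40) (nat_lit 5) (nat_lit 44) (nat_lit 5) (nat_lit 41) (nat_lit 5) (nat_lit 306) (nat_lit 257) (nat_lit 217))) (XT.nd (nat_lit 78) (nat_lit 152) (nat_lit 0) (XT.lf (nat_lit 0) (nat_lit 5459194730) (nat_lit 228) (nat_lit 11227872795) (nat_lit 76) (nat_lit 723264933) (nat_lit 38) (nat_lit 5) (nat_lit 41) (nat_lit 5) (nat_lit 39) (nat_lit 5) (nat_lit 307) (nat_lit 257) (nat_lit 216)) (XT.lf (nat_lit 0) (nat_lit 750439486) (nat_lit 152) (nat_lit 10348180658) (nat_lit 228) (nat_lit 6949651302) (nat_lit 36) (nat_lit 5) (nat_lit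 38) (nat_lit 5) (nat_lit 39) (nat_lit 5) (nat_lit 308) (nat_lit 257) (nat_lit 215))))) (XT.nd (nat_lit 234) (nat_lit 380) (nat_lit 0) (XT.nd (nat_lit 78) (nat_lit 380) (nat_lit 0) (XT.lf (nat_lit 0) (nat_lit 13435649611) (nat_lit 152) (nat_lit 3623055356) (nat_lit 228) (nat_lit 1658296567) (nat_lit 36) (nat_lit 5) (nat_lit 38) (nat_lit 5) (nat_lit 39) (nat_lit 5) (nat_lit 309) (nat_lit 257) (nat_lit 214)) (XT.nd (nat_lit 78) (nat_lit 152) (nat_lit 0) (XT.lf (nat_lit 0) (nat_lit 3851574115) (nat_lit 228) (nat_lit 12132691431) (nat_lit 76) (nat_lit 3432929107) (nat_lit 33) (nat_lit 5) (nat_lit 36) (nat_lit 5) (nat_lit 34) (nat_lit 5) (nat_lit 310) (nat_lit 257) (nat_lit 213)) (XT.lf (nat_lit 0) (nat_lit 269275776) (nat_lit 152) (nat_lit 9355671447) (nat_lit 228) (nat_lit 10526336744) (nat_lit 31) (nat_lit 5) (nat_lit 33) (nat_lit 5) (nat_lit 34) (nat_lit 5) (nat_lit 311) (nat_lit 257) (nat_lit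 212)))) (XT.nd (nat_lit 156) (nat_lit 152) (nat_lit 0) (XT.nd (nat_lit 78) (nat_lit 228) (nat_lit 0) (XT.lf (nat_lit 0) (nat_lit 13427945755) (nat_lit 152) (nat_lit 2314170965) (nat_lit 228) (nat_lit 5178353150) (nat_lit 31) (nat_lit 5) (nat_lit 33) (nat_lit 5) (nat_lit 34) (nat_lit 5) (nat_lit 312) (nat_lit 257) (nat_lit 211)) (XT.lf (nat_lit 0) (nat_lit 463245378) (nat_lit 228) (nat_lit 16270461726) (nat_lit 76) (nat_lit 4993282114) (nat_lit 28) (nat_lit 5) (nat_lit 31) (nat_lit 5) (nat_lit 29) (nat_lit 5) (nat_lit 313) (nat_lit 257) (nat_lit 210))) (XT.nd (nat_lit 78) (nat_lit 152) (nat_lit 0) (XT.lf (nat_lit 0) (nat_lit 6316643900) (nat_lit 228) (nat_lit 3549379394) (nat_lit 76) (nat_lit 12705209092) (nat_lit 28) (nat_lit 5) (nat_lit 31) (nat_lit 5) (nat_lit 29) (nat_lit 5) (nat_lit 314) (nat_lit 257) (nat_lit 209)) (XT.lf (nat_lit 0) (nat_lit 9895059968) (nat_lit 152) (nat_lit 2600456165)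 (nat_lit 228) (nat_lit 10961226008) (nat_lit 26) (nat_lit 5) (nat_lit 28) (nat_lit 5) (nat_lit 29) (nat_lit 5) (nat_lit 315) (nat_lit 257) (nat_lit 208))))))))
noncomputable def xc45 : XT := (XT.nd (nat_lit 2028) (nat_lit 380) (nat_lit 0) (XT.nd (nat_lit 1014) (nat_lit 380) (nat_lit 0) (XT.nd (nat_lit 468) (nat_lit 532) (nat_lit 0) (XT.nd (nat_lit 234) (nat_lit 76) (nat_lit 0) (XT.nd (nat_lit 78) (nat_lit 304) (nat_lit 0) (XT.lf (nat_lit 0) (nat_lit 19007825668) (nat_lit 228) (nat_lit 452428075) (nat_lit 76) (nat_lit 4925575534) (nat_lit 26) (nat_lit 5) (nat_lit 29) (nat_lit 5) (nat_lit 27) (nat_lit 4) (nat_lit 316) (nat_lit 257) (nat_lit 207)) (XT.nd (nat_lit 78) (nat_lit 152) (nat_lit 0) (XT.lf (nat_lit 0) (nat_lit 573540973) (nat_lit 152) (nat_lit 11914843660) (nat_lit 76) (nat_lit 12869922004) (nat_lit 24) (nat_lit 5) (nat_lit 26) (nat_lit 5) (nat_lit 25) (nat_lit 5) (nat_lit 317) (nat_lit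 257) (nat_lit 206)) (XT.lf (nat_lit 0) (nat_lit 1542563219) (nat_lit 152) (nat_lit 5132831265) (nat_lit 228) (nat_lit 19703529563) (nat_lit 22) (nat_lit 5) (nat_lit 24) (nat_lit 5) (nat_lit 25) (nat_lit 5) (nat_lit 318) (nat_lit 257) (nat_lit 205)))) (XT.nd (nat_lit 78) (nat_lit 76) (nat_lit 0) (XT.lf (nat_lit 0) (nat_lit 13175902005) (nat_lit 228) (nat_lit 11647223558) (nat_lit 76) (nat_lit 2624670711) (nat_lit 22) (nat_lit 5) (nat_lit 25) (nat_lit 5) (nat_lit 23) (nat_lit 4) (nat_lit 319) (nat_lit 257) (nat_lit 204)) (XT.nd (nat_lit 78) (nat_lit 0) (nat_lit 0) (XT.lf (nat_lit 0) (nat_lit 2099056590) (nat_lit 76) (nat_lit 17921784232) (nat_lit 152) (nat_lit 8548718431) (nat_lit 21) (nat_lit 5) (nat_lit 22) (nat_lit 5) (nat_lit 23) (nat_lit 4) (nat_lit 320) (nat_lit 257) (nat_lit 203)) (XT.lf (nat_lit 0) (nat_lit 16687198122) (nat_lit 76) (nat_lit 10589797642) (nat_lit 152) (nat_lit 2468373464)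 (nat_lit 21) (nat_lit 5) (nat_lit 22) (nat_lit 5) (nat_lit 23) (nat_lit 4) (nat_lit 321) (nat_lit 257) (nat_lit 202))))) (XT.nd (nat_lit 234) (nat_lit 304) (nat_lit 0) (XT.nd (nat_lit 78) (nat_lit 0) (nat_lit 0) (XT.lf (nat_lit 0) (nat_lit 919460309) (nat_lit 152) (nat_lit 2879941974) (nat_lit 228) (nat_lit 27180669094) (nat_lit 18) (nat_lit 5) (nat_lit 20) (nat_lit 5) (nat_lit 21) (nat_lit 5) (nat_lit 322) (nat_lit 257) (nat_lit 201)) (XT.nd (nat_lit 78) (nat_lit 0) (nat_lit 0) (XT.lf (nat_lit 0) (nat_lit 10468060088) (nat_lit 228) (nat_lit 16564271253) (nat_lit 76) (nat_lit 5239312410) (nat_lit 18) (nat_lit 5) (nat_lit 21) (nat_lit 5) (nat_lit 19) (nat_lit 4) (nat_lit 323) (nat_lit 257) (nat_lit 200)) (XT.lf (nat_lit 0) (nat_lit 17453677332) (nat_lit 228) (nat_lit 2502437136) (nat_lit 76) (nat_lit 13672197897) (nat_lit 18) (nat_lit 5) (nat_lit 21) (nat_lit 5) (nat_lit 19) (nat_lit 4) (nat_lit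 324) (nat_lit 257) (nat_lit 199)))) (XT.nd (nat_lit 156) (nat_lit 228) (nat_lit 0) (XT.nd (nat_lit 78) (nat_lit 0) (nat_lit 0) (XT.lf (nat_lit 0) (nat_lit 12428582003) (nat_lit 76) (nat_lit 12436091804) (nat_lit 152) (nat_lit 10185879956) (nat_lit 17) (nat_lit 5) (nat_lit 18) (nat_lit 5) (nat_lit 19) (nat_lit 4) (nat_lit 325) (nat_lit 257) (nat_lit 198)) (XT.lf (nat_lit 0) (nat_lit 28084203532) (nat_lit 76) (nat_lit 4545755900) (nat_lit 152) (nat_lit 3914456859) (nat_lit 17) (nat_lit 5) (nat_lit 18) (nat_lit 5) (nat_lit 19) (nat_lit 4) (nat_lit 326) (nat_lit 257) (nat_lit 197))) (XT.nd (nat_lit 78) (nat_lit 0) (nat_lit 0) (XT.lf (nat_lit 0) (nat_lit 2676386538) (nat_lit 228) (nat_lit 31710026506) (nat_lit 76) (nat_lit 3724069588) (nat_lit 14) (nat_lit 5) (nat_lit 17) (nat_lit 5) (nat_lit 15) (nat_lit 4) (nat_lit 327) (nat_lit 257) (nat_lit 196)) (XT.lf (nat_lit 0) (nat_lit 9610932046) (nat_lit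 228) (nat_lit 17727924366) (nat_lit 76) (nat_lit 12411998365) (nat_lit 14) (nat_lit 5) (nat_lit 17) (nat_lit 5) (nat_lit 15) (nat_lit 4) (nat_lit 328) (nat_lit 257) (nat_lit 195)))))) (XT.nd (nat_lit 468) (nat_lit 152) (nat_lit 0) (XT.nd (nat_lit 234) (nat_lit 152) (nat_lit 0) (XT.nd (nat_lit 78) (nat_lit 76) (nat_lit 0) (XT.lf (nat_lit 0) (nat_lit 16854614571) (nat_lit 228) (nat_lit 3113749071) (nat_lit 76) (nat_lit 21506027409) (nat_lit 14) (nat_lit 5) (nat_lit 17) (nat_lit 5) (nat_lit 15) (nat_lit 4) (nat_lit 329) (nat_lit 257) (nat_lit 194)) (XT.nd (nat_lit 78) (nat_lit 0) (nat_lit 0) (XT.lf (nat_lit 0) (nat_lit 12409448061) (nat_lit 76) (nat_lit 12134520120) (nat_lit 152) (nat_lit 18737648317) (nat_lit 13) (nat_lit 5) (nat_lit 14) (nat_lit 5) (nat_lit 15) (nat_lit 4) (nat_lit 330) (nat_lit 257) (nat_lit 193)) (XT.lf (nat_lit 0) (nat_lit 28711863252) (nat_lit 76) (nat_lit 3903287967)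 (nat_lit 152) (nat_lit 12564147301) (nat_lit 13) (nat_lit 5) (nat_lit 14) (nat_lit 5) (nat_lit 15) (nat_lit 4) (nat_lit 331) (nat_lit 257) (nat_lit 192)))) (XT.nd (nat_lit 78) (nat_lit 152) (nat_lit 0) (XT.lf (nat_lit 0) (nat_lit 41102162770) (nat_lit 152) (nat_lit 1447838089) (nat_lit 0) (nat_lit 4621511094) (nat_lit 13) (nat_lit 5) (nat_lit 15) (nat_lit 4) (nat_lit 13) (nat_lit 4) (nat_lit 332) (nat_lit 257) (nat_lit 191)) (XT.nd (nat_lit 78) (nat_lit 0) (nat_lit 0) (XT.lf (nat_lit 0) (nat_lit 884159345) (nat_lit 152) (nat_lit 34758094383) (nat_lit 76) (nat_lit 13616421939) (nat_lit 11) (nat_lit 5) (nat_lit 13) (nat_lit 5) (nat_lit 12) (nat_lit 4) (nat_lit 333) (nat_lit 257) (nat_lit 190)) (XT.lf (nat_lit 0) (nat_lit 8044993967) (nat_lit 152) (nat_lit 20290444080) (nat_lit 76) (nat_lit 23113415070) (nat_lit 11) (nat_lit 5) (nat_lit 13) (nat_lit 5) (nat_lit 12) (nat_lit 4) (nat_lit 334)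 (nat_lit 257) (nat_lit 189))))) (XT.nd (nat_lit 234) (nat_lit 76) (nat_lit 0) (XT.nd (nat_lit 78) (nat_lit 76) (nat_lit 0) (XT.lf (nat_lit 0) (nat_lit 15534304119) (nat_lit 152) (nat_lit 5152710165) (nat_lit 76) (nat_lit 33062425047) (nat_lit 11) (nat_lit 5) (nat_lit 13) (nat_lit 5) (nat_lit 12) (nat_lit 4) (nat_lit 335) (nat_lit 257) (nat_lit 188)) (XT.nd (nat_lit 78) (nat_lit 0) (nat_lit 0) (XT.lf (nat_lit 0) (nat_lit 10903924425) (nat_lit 76) (nat_lit 12570812260) (nat_lit 152) (nat_lit 32688030755) (nat_lit 10) (nat_lit 5) (nat_lit 11) (nat_lit 5) (nat_lit 12) (nat_lit 4) (nat_lit 336) (nat_lit 257) (nat_lit 187)) (XT.lf (nat_lit 0) (nat_lit 27821761423) (nat_lit 76) (nat_lit 4016180688) (nat_lit 152) (nat_lit 26858059013) (nat_lit 10) (nat_lit 5) (nat_lit 11) (nat_lit 5) (nat_lit 12) (nat_lit 4) (nat_lit 337) (nat_lit 257) (nat_lit 186)))) (XT.nd (nat_lit 156) (nat_lit 76) (nat_lit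 0) (XT.nd (nat_lit 78) (nat_lit 0) (nat_lit 0) (XT.lf (nat_lit 0) (nat_lit 40640852471) (nat_lit 152) (nat_lit 15865691482) (nat_lit 0) (nat_lit 4848717348) (nat_lit 10) (nat_lit 5) (nat_lit 12) (nat_lit 4) (nat_lit 10) (nat_lit 4) (nat_lit 338) (nat_lit 257) (nat_lit 185)) (XT.lf (nat_lit 0) (nat_lit 49899498612) (nat_lit 152) (nat_lit 192535258) (nat_lit 0) (nat_lit 14054993528) (nat_lit 10) (nat_lit 5) (nat_lit 12) (nat_lit 4) (nat_lit 10) (nat_lit 4) (nat_lit 339) (nat_lit 257) (nat_lit 184))) (XT.nd (nat_lit 78) (nat_lit 0) (nat_lit 0) (XT.lf (nat_lit 0) (nat_lit 16543984726) (nat_lit 76) (nat_lit 43212365119) (nat_lit 76) (nat_lit 7317983882) (nat_lit 9) (nat_lit 4) (nat_lit 10) (nat_lit 5) (nat_lit 10) (nat_lit 4) (nat_lit 340) (nat_lit 257) (nat_lit 183)) (XT.lf (nat_lit 0) (nat_lit 34079463569) (nat_lit 76) (nat_lit 36005532597) (nat_lit 76) (nat_lit 63650262) (nat_lit 9) (nat_lit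 4) (nat_lit 10) (nat_lit 5) (nat_lit 10) (nat_lit 4) (nat_lit 341) (nat_lit 257) (nat_lit 182))))))) (XT.nd (nat_lit 1014) (nat_lit 76) (nat_lit 0) (XT.nd (nat_lit 468) (nat_lit 152) (nat_lit 0) (XT.nd (nat_lit 234) (nat_lit 0) (nat_lit 0) (XT.nd (nat_lit 78) (nat_lit 76) (nat_lit 0) (XT.lf (nat_lit 0) (nat_lit 7383847033) (nat_lit 152) (nat_lit 20997911996) (nat_lit 76) (nat_lit 44993411171) (nat_lit 8) (nat_lit 5) (nat_lit 10) (nat_lit 5) (nat_lit 9) (nat_lit 4) (nat_lit 342) (nat_lit 257) (nat_lit 181)) (XT.nd (nat_lit 78) (nat_lit 76) (nat_lit 0) (XT.lf (nat_lit 0) (nat_lit 15181311271) (nat_lit 152) (nat_lit 5212144489) (nat_lit 76) (nat_lit 56370186723) (nat_lit 8) (nat_lit 5) (nat_lit 10) (nat_lit 5) (nat_lit 9) (nat_lit 4) (nat_lit 343) (nat_lit 257) (nat_lit 180)) (XT.lf (nat_lit 0) (nat_lit 11551732578) (nat_lit 76) (nat_lit 11907859630) (nat_lit 152) (nat_lit 56859225945) (nat_lit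 7) (nat_lit 5) (nat_lit 8) (nat_lit 5) (nat_lit 9) (nat_lit 4) (nat_lit 344) (nat_lit 257) (nat_lit 179)))) (XT.nd (nat_lit 78) (nat_lit 0) (nat_lit 0) (XT.lf (nat_lit 0) (nat_lit 29227176244) (nat_lit 76) (nat_lit 2958781942) (nat_lit 152) (nat_lit 51864776981) (nat_lit 7) (nat_lit 5) (nat_lit 8) (nat_lit 5) (nat_lit 9) (nat_lit 4) (nat_lit 345) (nat_lit 257) (nat_lit 178)) (XT.nd (nat_lit 78) (nat_lit 0) (nat_lit 0) (XT.lf (nat_lit 0) (nat_lit 41391823353) (nat_lit 152) (nat_lit 40279009565) (nat_lit 0) (nat_lit 6297127014) (nat_lit 7) (nat_lit 5) (nat_lit 9) (nat_lit 4) (nat_lit 7) (nat_lit 4) (nat_lit 346) (nat_lit 257) (nat_lit 177)) (XT.lf (nat_lit 0) (nat_lit 51070033387) (nat_lit 152) (nat_lit 25069734572) (nat_lit 0) (nat_lit 15940923406) (nat_lit 7) (nat_lit 5) (nat_lit 9) (nat_lit 4) (nat_lit 7) (nat_lit 4) (nat_lit 347) (nat_lit 257) (nat_lit 176))))) (XT.nd (nat_lit 234) (nat_lit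 76) (nat_lit 0) (XT.nd (nat_lit 78) (nat_lit 76) (nat_lit 0) (XT.lf (nat_lit 0) (nat_lit 61215190022) (nat_lit 152) (nat_lit 9131079764) (nat_lit 0) (nat_lit 26053305145) (nat_lit 7) (nat_lit 5) (nat_lit 9) (nat_lit 4) (nat_lit 7) (nat_lit 4) (nat_lit 348) (nat_lit 257) (nat_lit 175)) (XT.nd (nat_lit 78) (nat_lit 0) (nat_lit 0) (XT.lf (nat_lit 0) (nat_lit 7725659480) (nat_lit 76) (nat_lit 64200052680) (nat_lit 76) (nat_lit 29006953615) (nat_lit 6) (nat_lit 4) (nat_lit 7) (nat_lit 5) (nat_lit 7) (nat_lit 4) (nat_lit 349) (nat_lit 257) (nat_lit 174)) (XT.lf (nat_lit 0) (nat_lit 25587293236) (nat_lit 76) (nat_lit 57662800408) (nat_lit 76) (nat_lit 22439973546) (nat_lit 6) (nat_lit 4) (nat_lit 7) (nat_lit 5) (nat_lit 7) (nat_lit 4) (nat_lit 350) (nat_lit 257) (nat_lit 173)))) (XT.nd (nat_lit 156) (nat_lit 76) (nat_lit 0) (XT.nd (nat_lit 78) (nat_lit 0) (nat_lit 0) (XT.lf (nat_lit 0) (nat_lit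 44314622812) (nat_lit 76) (nat_lit 50811154086) (nat_lit 76) (nat_lit 15560015037) (nat_lit 6) (nat_lit 4) (nat_lit 7) (nat_lit 5) (nat_lit 7) (nat_lit 4) (nat_lit 351) (nat_lit 257) (nat_lit 172)) (XT.lf (nat_lit 0) (nat_lit 63952237088) (nat_lit 76) (nat_lit 43628800271) (nat_lit 76) (nat_lit 8350697233) (nat_lit 6) (nat_lit 4) (nat_lit 7) (nat_lit 5) (nat_lit 7) (nat_lit 4) (nat_lit 352) (nat_lit 257) (nat_lit 171))) (XT.nd (nat_lit 78) (nat_lit 76) (nat_lit 0) (XT.lf (nat_lit 0) (nat_lit 84546892289) (nat_lit 76) (nat_lit 36098638121) (nat_lit 76) (nat_lit 794855094) (nat_lit 6) (nat_lit 4) (nat_lit 7) (nat_lit 5) (nat_lit 7) (nat_lit 4) (nat_lit 353) (nat_lit 257) (nat_lit 170)) (XT.lf (nat_lit 0) (nat_lit 6986457282) (nat_lit 152) (nat_lit 21145731875) (nat_lit 76) (nat_lit 99090616504) (nat_lit 5) (nat_lit 5) (nat_lit 7) (nat_lit 5) (nat_lit 6) (nat_lit 4) (nat_lit 354) (nat_lit 257)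 (nat_lit 169)))))) (XT.nd (nat_lit 33540) (nat_lit 0) (nat_lit 19456) (XT.nd (nat_lit 234) (nat_lit 0) (nat_lit 0) (XT.nd (nat_lit 78) (nat_lit 76) (nat_lit 0) (XT.lf (nat_lit 0) (nat_lit 15128150625) (nat_lit 152) (nat_lit 4641386897) (nat_lit 76) (nat_lit 113524945171) (nat_lit 5) (nat_lit 5) (nat_lit 7) (nat_lit 5) (nat_lit 6) (nat_lit 4) (nat_lit 355) (nat_lit 257) (nat_lit 168)) (XT.nd (nat_lit 78) (nat_lit 0) (nat_lit 0) (XT.lf (nat_lit 0) (nat_lit 12918566168) (nat_lit 76) (nat_lit 10870735395) (nat_lit 152) (nat_lit 115877075190) (nat_lit 4) (nat_lit 5) (nat_lit 5) (nat_lit 5) (nat_lit 6) (nat_lit 4) (nat_lit 356) (nat_lit 257) (nat_lit 167)) (XT.lf (nat_lit 0) (nat_lit 31432433243) (nat_lit 76) (nat_lit 1487407269) (nat_lit 152) (nat_lit 113435939250) (nat_lit 4) (nat_lit 5) (nat_lit 5) (nat_lit 5) (nat_lit 6) (nat_lit 4) (nat_lit 357) (nat_lit 257) (nat_lit 166)))) (XT.nd (nat_lit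 156) (nat_lit 0) (nat_lit 0) (XT.nd (nat_lit 78) (nat_lit 0) (nat_lit 0) (XT.lf (nat_lit 0) (nat_lit 42576325262) (nat_lit 152) (nat_lit 102608383928) (nat_lit 0) (nat_lit 8192865126) (nat_lit 4) (nat_lit 5) (nat_lit 6) (nat_lit 4) (nat_lit 4) (nat_lit 4) (nat_lit 358) (nat_lit 257) (nat_lit 165)) (XT.lf (nat_lit 0) (nat_lit 52720178934) (nat_lit 152) (nat_lit 89712032961) (nat_lit 0) (nat_lit 18318114134) (nat_lit 4) (nat_lit 5) (nat_lit 6) (nat_lit 4) (nat_lit 4) (nat_lit 4) (nat_lit 359) (nat_lit 257) (nat_lit 164))) (XT.nd (nat_lit 78) (nat_lit 0) (nat_lit 0) (XT.lf (nat_lit 0) (nat_lit 63361255691) (nat_lit 152) (nat_lit 76189290153) (nat_lit 0) (nat_lit 28941472164) (nat_lit 4) (nat_lit 5) (nat_lit 6) (nat_lit 4) (nat_lit 4) (nat_lit 4) (nat_lit 360) (nat_lit 257) (nat_lit 163)) (XT.lf (nat_lit 0) (nat_lit 74524891431) (nat_lit 152) (nat_lit 62007958496) (nat_lit 0) (nat_lit 40088232926)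 (nat_lit 4) (nat_lit 5) (nat_lit 6) (nat_lit 4) (nat_lit 4) (nat_lit 4) (nat_lit 361) (nat_lit 257) (nat_lit 162))))) (XT.nd (nat_lit 234) (nat_lit 2128) (nat_lit 0) (XT.nd (nat_lit 78) (nat_lit 456) (nat_lit 0) (XT.lf (nat_lit 0) (nat_lit 693788943) (nat_lit 228) (nat_lit 1275832076) (nat_lit 228) (nat_lit 1275832076) (nat_lit 294) (nat_lit 4) (nat_lit 297) (nat_lit 5) (nat_lit 297) (nat_lit 4) (nat_lit 264) (nat_lit 258) (nat_lit 258)) (XT.nd (nat_lit 78) (nat_lit 76) (nat_lit 0) (XT.lf (nat_lit 0) (nat_lit 497223030) (nat_lit 304) (nat_lit 1766127757) (nat_lit 380) (nat_lit 4256462859) (nat_lit 289) (nat_lit 5) (nat_lit 293) (nat_lit 5) (nat_lit 294) (nat_lit 4) (nat_lit 265) (nat_lit 258) (nat_lit 257)) (XT.lf (nat_lit 0) (nat_lit 464167283) (nat_lit 380) (nat_lit 289218254) (nat_lit 76) (nat_lit 5803725376) (nat_lit 288) (nat_lit 5) (nat_lit 293) (nat_lit 5) (nat_lit 289) (nat_lit 5)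 (nat_lit 266) (nat_lit 258) (nat_lit 256)))) (XT.nd (nat_lit 156) (nat_lit 1216) (nat_lit 0) (XT.nd (nat_lit 78) (nat_lit 532) (nat_lit 0) (XT.lf (nat_lit 0) (nat_lit 5114275592) (nat_lit 456) (nat_lit 992863704) (nat_lit 76) (nat_lit 495135391) (nat_lit 283) (nat_lit 5) (nat_lit 289) (nat_lit 5) (nat_lit 284) (nat_lit 4) (nat_lit 267) (nat_lit 258) (nat_lit 255)) (XT.lf (nat_lit 0) (nat_lit 3072677952) (nat_lit 532) (nat_lit 1623405894) (nat_lit 76) (nat_lit 1959580236) (nat_lit 276) (nat_lit 5) (nat_lit 283) (nat_lit 5) (nat_lit 277) (nat_lit 5) (nat_lit 268) (nat_lit 258) (nat_lit 254))) (XT.nd (nat_lit 78) (nat_lit 608) (nat_lit 0) (XT.lf (nat_lit 0) (nat_lit 891224724) (nat_lit 608) (nat_lit 2172722888) (nat_lit 76) (nat_lit 3653805799) (nat_lit 268) (nat_lit 5) (nat_lit 276) (nat_lit 5) (nat_lit 269) (nat_lit 5) (nat_lit 269) (nat_lit 258) (nat_lit 253)) (XT.lf (nat_lit 0) (nat_lit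 4129756811) (nat_lit 608) (nat_lit 1192029738) (nat_lit 684) (nat_lit 1466472459) (nat_lit 260) (nat_lit 5) (nat_lit 268) (nat_lit 5) (nat_lit 269) (nat_lit 5) (nat_lit 270) (nat_lit 258) (nat_lit 252))))))))
noncomputable def xc46 : XT := (XT.nd (nat_lit 2028) (nat_lit 3648) (nat_lit 0) (XT.nd (nat_lit 1014) (nat_lit 4712) (nat_lit 0) (XT.nd (nat_lit 468) (nat_lit 4484) (nat_lit 0) (XT.nd (nat_lit 234) (nat_lit 3116) (nat_lit 0) (XT.nd (nat_lit 78) (nat_lit 1672) (nat_lit 0) (XT.lf (nat_lit 0) (nat_lit 2875441803) (nat_lit 760) (nat_lit 3089249850) (nat_lit 76) (nat_lit 902498450) (nat_lit 250) (nat_lit 5) (nat_lit 260) (nat_lit 5) (nat_lit 251) (nat_lit 5) (nat_lit 271) (nat_lit 258) (nat_lit 251)) (XT.nd (nat_lit 78) (nat_lit 836) (nat_lit 0) (XT.lf (nat_lit 0) (nat_lit 284127475) (nat_lit 836) (nat_lit 3464613353) (nat_lit 76) (nat_lit 3206099545) (nat_lit 239) (nat_lit 5) (nat_lit 250)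 (nat_lit 5) (nat_lit 240) (nat_lit 5) (nat_lit 272) (nat_lit 258) (nat_lit 250)) (XT.lf (nat_lit 0) (nat_lit 3250141250) (nat_lit 836) (nat_lit 1278904665) (nat_lit 912) (nat_lit 2521978338) (nat_lit 228) (nat_lit 5) (nat_lit 239) (nat_lit 5) (nat_lit 240) (nat_lit 5) (nat_lit 273) (nat_lit 258) (nat_lit 249)))) (XT.nd (nat_lit 78) (nat_lit 2128) (nat_lit 0) (XT.lf (nat_lit 0) (nat_lit 1657818861) (nat_lit 988) (nat_lit 4095562122) (nat_lit 76) (nat_lit 1402760283) (nat_lit 215) (nat_lit 5) (nat_lit 228) (nat_lit 5) (nat_lit 216) (nat_lit 5) (nat_lit 274) (nat_lit 258) (nat_lit 248)) (XT.nd (nat_lit 78) (nat_lit 1140) (nat_lit 0) (XT.lf (nat_lit 0) (nat_lit 2906219370) (nat_lit 988) (nat_lit 2958128339) (nat_lit 1064) (nat_lit 1405734987) (nat_lit 202) (nat_lit 5) (nat_lit 215) (nat_lit 5) (nat_lit 216) (nat_lit 5) (nat_lit 275) (nat_lit 258) (nat_lit 247)) (XT.lf (nat_lit 0) (nat_lit 2700280714)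 (nat_lit 1140) (nat_lit 4602680430) (nat_lit 76) (nat_lit 90352975) (nat_lit 187) (nat_lit 5) (nat_lit 202) (nat_lit 5) (nat_lit 188) (nat_lit 5) (nat_lit 276) (nat_lit 258) (nat_lit 246))))) (XT.nd (nat_lit 234) (nat_lit 2128) (nat_lit 0) (XT.nd (nat_lit 78) (nat_lit 1216) (nat_lit 0) (XT.lf (nat_lit 0) (nat_lit 2689797363) (nat_lit 1140) (nat_lit 4197115098) (nat_lit 1216) (nat_lit 638610635) (nat_lit 172) (nat_lit 5) (nat_lit 187) (nat_lit 5) (nat_lit 188) (nat_lit 5) (nat_lit 277) (nat_lit 258) (nat_lit 245)) (XT.nd (nat_lit 78) (nat_lit 608) (nat_lit 0) (XT.lf (nat_lit 0) (nat_lit 2606197342) (nat_lit 532) (nat_lit 823046028) (nat_lit 608) (nat_lit 4237953670) (nat_lit 164) (nat_lit 5) (nat_lit 171) (nat_lit 5) (nat_lit 172) (nat_lit 5) (nat_lit 278) (nat_lit 258) (nat_lit 244)) (XT.lf (nat_lit 0) (nat_lit 2533174729) (nat_lit 608) (nat_lit 5070769714) (nat_lit 684) (nat_lit 214642270)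 (nat_lit 156) (nat_lit 5) (nat_lit 164) (nat_lit 5) (nat_lit 165) (nat_lit 5) (nat_lit 279) (nat_lit 258) (nat_lit 243)))) (XT.nd (nat_lit 156) (nat_lit 988) (nat_lit 0) (XT.nd (nat_lit 78) (nat_lit 532) (nat_lit 0) (XT.lf (nat_lit 0) (nat_lit 2448851073) (nat_lit 532) (nat_lit 1387915102) (nat_lit 608) (nat_lit 4142765346) (nat_lit 148) (nat_lit 5) (nat_lit 155) (nat_lit 5) (nat_lit 156) (nat_lit 5) (nat_lit 280) (nat_lit 258) (nat_lit 242)) (XT.lf (nat_lit 0) (nat_lit 2364633725) (nat_lit 532) (nat_lit 5650615250) (nat_lit 608) (nat_lit 135625727) (nat_lit 141) (nat_lit 5) (nat_lit 148) (nat_lit 5) (nat_lit 149) (nat_lit 5) (nat_lit 281) (nat_lit 258) (nat_lit 241))) (XT.nd (nat_lit 78) (nat_lit 456) (nat_lit 0) (XT.lf (nat_lit 0) (nat_lit 2244734871) (nat_lit 456) (nat_lit 1672707512) (nat_lit 532) (nat_lit 4414679407) (nat_lit 134) (nat_lit 5) (nat_lit 140) (nat_lit 5) (nat_lit 141)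 (nat_lit 5) (nat_lit 282) (nat_lit 258) (nat_lit 240)) (XT.lf (nat_lit 0) (nat_lit 2106471363) (nat_lit 456) (nat_lit 6006406055) (nat_lit 532) (nat_lit 411487345) (nat_lit 128) (nat_lit 5) (nat_lit 134) (nat_lit 5) (nat_lit 135) (nat_lit 5) (nat_lit 283) (nat_lit 258) (nat_lit 239)))))) (XT.nd (nat_lit 468) (nat_lit 2432) (nat_lit 0) (XT.nd (nat_lit 234) (nat_lit 836) (nat_lit 0) (XT.nd (nat_lit 78) (nat_lit 912) (nat_lit 0) (XT.lf (nat_lit 0) (nat_lit 1912079624) (nat_lit 456) (nat_lit 1746556379) (nat_lit 532) (nat_lit 5068498032) (nat_lit 121) (nat_lit 5) (nat_lit 127) (nat_lit 5) (nat_lit 128) (nat_lit 5) (nat_lit 284) (nat_lit 258) (nat_lit 238)) (XT.nd (nat_lit 78) (nat_lit 456) (nat_lit 0) (XT.lf (nat_lit 0) (nat_lit 1672824036) (nat_lit 456) (nat_lit 6207770078) (nat_lit 532) (nat_lit 1060839864) (nat_lit 115) (nat_lit 5) (nat_lit 121) (nat_lit 5) (nat_lit 122) (nat_lit 5) (nat_lit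 285) (nat_lit 258) (nat_lit 237)) (XT.lf (nat_lit 0) (nat_lit 1359816057) (nat_lit 380) (nat_lit 1679153104) (nat_lit 456) (nat_lit 6128179788) (nat_lit 109) (nat_lit 5) (nat_lit 114) (nat_lit 5) (nat_lit 115) (nat_lit 5) (nat_lit 286) (nat_lit 258) (nat_lit 236)))) (XT.nd (nat_lit 78) (nat_lit 456) (nat_lit 0) (XT.lf (nat_lit 0) (nat_lit 967232181) (nat_lit 380) (nat_lit 6325916094) (nat_lit 456) (nat_lit 2111740089) (nat_lit 104) (nat_lit 5) (nat_lit 109) (nat_lit 5) (nat_lit 110) (nat_lit 5) (nat_lit 287) (nat_lit 258) (nat_lit 235)) (XT.nd (nat_lit 78) (nat_lit 0) (nat_lit 0) (XT.lf (nat_lit 0) (nat_lit 484983131) (nat_lit 380) (nat_lit 1542505865) (nat_lit 456) (nat_lit 7627705764) (nat_lit 98) (nat_lit 5) (nat_lit 103) (nat_lit 5) (nat_lit 104) (nat_lit 5) (nat_lit 288) (nat_lit 258) (nat_lit 234)) (XT.lf (nat_lit 0) (nat_lit 6316483872) (nat_lit 456) (nat_lit 117770759) (nat_lit 76)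 (nat_lit 3483710537) (nat_lit 98) (nat_lit 5) (nat_lit 104) (nat_lit 5) (nat_lit 99) (nat_lit 5) (nat_lit 289) (nat_lit 258) (nat_lit 233))))) (XT.nd (nat_lit 234) (nat_lit 1292) (nat_lit 0) (XT.nd (nat_lit 78) (nat_lit 684) (nat_lit 0) (XT.lf (nat_lit 0) (nat_lit 590584840) (nat_lit 456) (nat_lit 814014948) (nat_lit 76) (nat_lit 8789948819) (nat_lit 92) (nat_lit 5) (nat_lit 98) (nat_lit 5) (nat_lit 93) (nat_lit 5) (nat_lit 290) (nat_lit 258) (nat_lit 232)) (XT.nd (nat_lit 78) (nat_lit 380) (nat_lit 0) (XT.lf (nat_lit 0) (nat_lit 4917269191) (nat_lit 380) (nat_lit 1682044248) (nat_lit 76) (nat_lit 3884743021) (nat_lit 88) (nat_lit 5) (nat_lit 93) (nat_lit 5) (nat_lit 89) (nat_lit 5) (nat_lit 291) (nat_lit 258) (nat_lit 231)) (XT.lf (nat_lit 0) (nat_lit 8107169972) (nat_lit 380) (nat_lit 1332233234) (nat_lit 456) (nat_lit 1349405857) (nat_lit 83) (nat_lit 5) (nat_lit 88) (nat_lit 5) (nat_lit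 89) (nat_lit 5) (nat_lit 292) (nat_lit 258) (nat_lit 230)))) (XT.nd (nat_lit 156) (nat_lit 608) (nat_lit 0) (XT.nd (nat_lit 78) (nat_lit 304) (nat_lit 0) (XT.lf (nat_lit 0) (nat_lit 3028643881) (nat_lit 380) (nat_lit 3888011102) (nat_lit 76) (nat_lit 4191092140) (nat_lit 78) (nat_lit 5) (nat_lit 83) (nat_lit 5) (nat_lit 79) (nat_lit 5) (nat_lit 293) (nat_lit 258) (nat_lit 229)) (XT.lf (nat_lit 0) (nat_lit 6162245862) (nat_lit 304) (nat_lit 1421463833) (nat_lit 380) (nat_lit 3859066706) (nat_lit 74) (nat_lit 5) (nat_lit 78) (nat_lit 5) (nat_lit 79) (nat_lit 5) (nat_lit 294) (nat_lit 258) (nat_lit 228))) (XT.nd (nat_lit 78) (nat_lit 304) (nat_lit 0) (XT.lf (nat_lit 0) (nat_lit 578888373) (nat_lit 304) (nat_lit 6903012345) (nat_lit 76) (nat_lit 4312065435) (nat_lit 70) (nat_lit 5) (nat_lit 74) (nat_lit 5) (nat_lit 71) (nat_lit 5) (nat_lit 295) (nat_lit 258) (nat_lit 227)) (XT.lf (nat_lit 0)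 (nat_lit 3375133159) (nat_lit 304) (nat_lit 1777585887) (nat_lit 380) (nat_lit 7009147166) (nat_lit 66) (nat_lit 5) (nat_lit 70) (nat_lit 5) (nat_lit 71) (nat_lit 5) (nat_lit 296) (nat_lit 258) (nat_lit 226))))))) (XT.nd (nat_lit 1014) (nat_lit 1368) (nat_lit 0) (XT.nd (nat_lit 468) (nat_lit 1064) (nat_lit 0) (XT.nd (nat_lit 234) (nat_lit 684) (nat_lit 0) (XT.nd (nat_lit 78) (nat_lit 304) (nat_lit 0) (XT.lf (nat_lit 0) (nat_lit 1599982376) (nat_lit 228) (nat_lit 8377497459) (nat_lit 304) (nat_lit 2570119761) (nat_lit 63) (nat_lit 5) (nat_lit 66) (nat_lit 5) (nat_lit 67) (nat_lit 5) (nat_lit 297) (nat_lit 258) (nat_lit 225)) (XT.nd (nat_lit 78) (nat_lit 228) (nat_lit 0) (XT.lf (nat_lit 0) (nat_lit 2056414985) (nat_lit 304) (nat_lit 452338198) (nat_lit 76) (nat_lit 10443170354) (nat_lit 62) (nat_lit 5) (nat_lit 66) (nat_lit 5) (nat_lit 63) (nat_lit 5) (nat_lit 298) (nat_lit 258) (nat_lit 224))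 (XT.lf (nat_lit 0) (nat_lit 6901431374) (nat_lit 304) (nat_lit 2808778036) (nat_lit 76) (nat_lit 3664374482) (nat_lit 59) (nat_lit 5) (nat_lit 63) (nat_lit 5) (nat_lit 60) (nat_lit 5) (nat_lit 299) (nat_lit 258) (nat_lit 223)))) (XT.nd (nat_lit 78) (nat_lit 456) (nat_lit 0) (XT.lf (nat_lit 0) (nat_lit 8318883805) (nat_lit 228) (nat_lit 3684628847) (nat_lit 304) (nat_lit 1814508656) (nat_lit 56) (nat_lit 5) (nat_lit 59) (nat_lit 5) (nat_lit 60) (nat_lit 5) (nat_lit 300) (nat_lit 258) (nat_lit 222)) (XT.nd (nat_lit 78) (nat_lit 152) (nat_lit 0) (XT.lf (nat_lit 0) (nat_lit 3034264897) (nat_lit 304) (nat_lit 8590509016) (nat_lit 76) (nat_lit 2657533854) (nat_lit 52) (nat_lit 5) (nat_lit 56) (nat_lit 5) (nat_lit 53) (nat_lit 5) (nat_lit 301) (nat_lit 258) (nat_lit 221)) (XT.lf (nat_lit 0) (nat_lit 2644428829) (nat_lit 152) (nat_lit 5473306947) (nat_lit 228) (nat_lit 6650718147) (nat_lit 50) (nat_lit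 5) (nat_lit 52) (nat_lit 5) (nat_lit 53) (nat_lit 5) (nat_lit 302) (nat_lit 258) (nat_lit 220))))) (XT.nd (nat_lit 234) (nat_lit 608) (nat_lit 0) (XT.nd (nat_lit 78) (nat_lit 456) (nat_lit 0) (XT.lf (nat_lit 0) (nat_lit 13466344229) (nat_lit 228) (nat_lit 804378365) (nat_lit 76) (nat_lit 1007930065) (nat_lit 50) (nat_lit 5) (nat_lit 53) (nat_lit 5) (nat_lit 51) (nat_lit 5) (nat_lit 303) (nat_lit 258) (nat_lit 219)) (XT.nd (nat_lit 78) (nat_lit 152) (nat_lit 0) (XT.lf (nat_lit 0) (nat_lit 3283370352) (nat_lit 304) (nat_lit 4733258619) (nat_lit 76) (nat_lit 7794484953) (nat_lit 46) (nat_lit 5) (nat_lit 50) (nat_lit 5) (nat_lit 47) (nat_lit 5) (nat_lit 304) (nat_lit 258) (nat_lit 218)) (XT.lf (nat_lit 0) (nat_lit 7193327429) (nat_lit 152) (nat_lit 1399130034) (nat_lit 228) (nat_lit 7777384642) (nat_lit 44) (nat_lit 5) (nat_lit 46) (nat_lit 5) (nat_lit 47) (nat_lit 5) (nat_lit 305) (nat_lit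 258) (nat_lit 217)))) (XT.nd (nat_lit 156) (nat_lit 304) (nat_lit 0) (XT.nd (nat_lit 78) (nat_lit 76) (nat_lit 0) (XT.lf (nat_lit 0) (nat_lit 2731596381) (nat_lit 228) (nat_lit 11484688955) (nat_lit 304) (nat_lit 2738804991) (nat_lit 41) (nat_lit 5) (nat_lit 44) (nat_lit 5) (nat_lit 45) (nat_lit 5) (nat_lit 306) (nat_lit 258) (nat_lit 216)) (XT.lf (nat_lit 0) (nat_lit 2533682525) (nat_lit 304) (nat_lit 2305404294) (nat_lit 76) (nat_lit 12728882666) (nat_lit 40) (nat_lit 5) (nat_lit 44) (nat_lit 5) (nat_lit 41) (nat_lit 5) (nat_lit 307) (nat_lit 258) (nat_lit 215))) (XT.nd (nat_lit 78) (nat_lit 152) (nat_lit 0) (XT.lf (nat_lit 0) (nat_lit 8059637333) (nat_lit 228) (nat_lit 7970098987) (nat_lit 76) (nat_lit 2179603000) (nat_lit 38) (nat_lit 5) (nat_lit 41) (nat_lit 5) (nat_lit 39) (nat_lit 5) (nat_lit 308) (nat_lit 258) (nat_lit 214)) (XT.lf (nat_lit 0) (nat_lit 4497653239) (nat_lit 152) (nat_lit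 9408208087) (nat_lit 228) (nat_lit 4975649362) (nat_lit 36) (nat_lit 5) (nat_lit 38) (nat_lit 5) (nat_lit 39) (nat_lit 5) (nat_lit 309) (nat_lit 258) (nat_lit 213)))))) (XT.nd (nat_lit 546) (nat_lit 608) (nat_lit 0) (XT.nd (nat_lit 234) (nat_lit 380) (nat_lit 0) (XT.nd (nat_lit 78) (nat_lit 304) (nat_lit 0) (XT.lf (nat_lit 0) (nat_lit 460560177) (nat_lit 228) (nat_lit 1951014712) (nat_lit 76) (nat_lit 17175260949) (nat_lit 35) (nat_lit 5) (nat_lit 38) (nat_lit 5) (nat_lit 36) (nat_lit 5) (nat_lit 310) (nat_lit 258) (nat_lit 212)) (XT.nd (nat_lit 78) (nat_lit 152) (nat_lit 0) (XT.lf (nat_lit 0) (nat_lit 6155361655) (nat_lit 228) (nat_lit 9213097312) (nat_lit 76) (nat_lit 4954845752) (nat_lit 33) (nat_lit 5) (nat_lit 36) (nat_lit 5) (nat_lit 34) (nat_lit 5) (nat_lit 311) (nat_lit 258) (nat_lit 211)) (XT.lf (nat_lit 0) (nat_lit 3707889618) (nat_lit 152) (nat_lit 8441904683) (nat_lit 228) (nat_lit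 8946399775) (nat_lit 31) (nat_lit 5) (nat_lit 33) (nat_lit 5) (nat_lit 34) (nat_lit 5) (nat_lit 312) (nat_lit 258) (nat_lit 210)))) (XT.nd (nat_lit 156) (nat_lit 152) (nat_lit 0) (XT.nd (nat_lit 78) (nat_lit 228) (nat_lit 0) (XT.lf (nat_lit 0) (nat_lit 17361390713) (nat_lit 152) (nat_lit 1114117289) (nat_lit 228) (nat_lit 3431314802) (nat_lit 31) (nat_lit 5) (nat_lit 33) (nat_lit 5) (nat_lit 34) (nat_lit 5) (nat_lit 313) (nat_lit 258) (nat_lit 209)) (XT.lf (nat_lit 0) (nat_lit 2402930304) (nat_lit 228) (nat_lit 13830440383) (nat_lit 76) (nat_lit 6521286924) (nat_lit 28) (nat_lit 5) (nat_lit 31) (nat_lit 5) (nat_lit 29) (nat_lit 5) (nat_lit 314) (nat_lit 258) (nat_lit 208))) (XT.nd (nat_lit 78) (nat_lit 152) (nat_lit 0) (XT.lf (nat_lit 0) (nat_lit 8457735768) (nat_lit 228) (nat_lit 628234621) (nat_lit 76) (nat_lit 14557936885) (nat_lit 28) (nat_lit 5) (nat_lit 31) (nat_lit 5) (nat_lit 29)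 (nat_lit 5) (nat_lit 315) (nat_lit 258) (nat_lit 207)) (XT.lf (nat_lit 0) (nat_lit 13399605568) (nat_lit 152) (nat_lit 1487960885) (nat_lit 228) (nat_lit 9687919377) (nat_lit 26) (nat_lit 5) (nat_lit 28) (nat_lit 5) (nat_lit 29) (nat_lit 5) (nat_lit 316) (nat_lit 258) (nat_lit 206))))) (XT.nd (nat_lit 234) (nat_lit 304) (nat_lit 0) (XT.nd (nat_lit 78) (nat_lit 228) (nat_lit 0) (XT.lf (nat_lit 0) (nat_lit 2479954969) (nat_lit 76) (nat_lit 19196594501) (nat_lit 152) (nat_lit 3875997314) (nat_lit 25) (nat_lit 5) (nat_lit 26) (nat_lit 5) (nat_lit 27) (nat_lit 4) (nat_lit 317) (nat_lit 258) (nat_lit 205)) (XT.nd (nat_lit 78) (nat_lit 152) (nat_lit 0) (XT.lf (nat_lit 0) (nat_lit 2260363901) (nat_lit 152) (nat_lit 9653344514) (nat_lit 76) (nat_lit 14661822360) (nat_lit 24) (nat_lit 5) (nat_lit 26) (nat_lit 5) (nat_lit 25) (nat_lit 5) (nat_lit 318) (nat_lit 258) (nat_lit 204)) (XT.lf (nat_lit 0)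 (nat_lit 4395030460) (nat_lit 152) (nat_lit 4219998558) (nat_lit 228) (nat_lit 19033763558) (nat_lit 22) (nat_lit 5) (nat_lit 24) (nat_lit 5) (nat_lit 25) (nat_lit 5) (nat_lit 319) (nat_lit 258) (nat_lit 203)))) (XT.nd (nat_lit 156) (nat_lit 228) (nat_lit 0) (XT.nd (nat_lit 78) (nat_lit 76) (nat_lit 0) (XT.lf (nat_lit 0) (nat_lit 15374798544) (nat_lit 228) (nat_lit 9550370401) (nat_lit 76) (nat_lit 3847955309) (nat_lit 22) (nat_lit 5) (nat_lit 25) (nat_lit 5) (nat_lit 23) (nat_lit 4) (nat_lit 320) (nat_lit 258) (nat_lit 202)) (XT.lf (nat_lit 0) (nat_lit 4806424613) (nat_lit 76) (nat_lit 17707237531) (nat_lit 152) (nat_lit 7438803797) (nat_lit 21) (nat_lit 5) (nat_lit 22) (nat_lit 5) (nat_lit 23) (nat_lit 4) (nat_lit 321) (nat_lit 258) (nat_lit 201))) (XT.nd (nat_lit 78) (nat_lit 228) (nat_lit 0) (XT.lf (nat_lit 0) (nat_lit 20000048689) (nat_lit 76) (nat_lit 10061539037) (nat_lit 152) (nat_lit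 1127648750) (nat_lit 21) (nat_lit 5) (nat_lit 22) (nat_lit 5) (nat_lit 23) (nat_lit 4) (nat_lit 322) (nat_lit 258) (nat_lit 200)) (XT.lf (nat_lit 0) (nat_lit 3401364869) (nat_lit 152) (nat_lit 1978635265) (nat_lit 228) (nat_lit 27106635731) (nat_lit 18) (nat_lit 5) (nat_lit 20) (nat_lit 5) (nat_lit 21) (nat_lit 5) (nat_lit 323) (nat_lit 258) (nat_lit 199))))))))
noncomputable def xc47 : XT := (XT.nd (nat_lit 2028) (nat_lit 228) (nat_lit 0) (XT.nd (nat_lit 1014) (nat_lit 304) (nat_lit 0) (XT.nd (nat_lit 468) (nat_lit 228) (nat_lit 0) (XT.nd (nat_lit 234) (nat_lit 228) (nat_lit 0) (XT.nd (nat_lit 78) (nat_lit 76) (nat_lit 0) (XT.lf (nat_lit 0) (nat_lit 12325440079) (nat_lit 228) (nat_lit 15041701458) (nat_lit 76) (nat_lit 6477379140) (nat_lit 18) (nat_lit 5) (nat_lit 21) (nat_lit 5) (nat_lit 19) (nat_lit 4) (nat_lit 324) (nat_lit 258) (nat_lit 198)) (XT.nd (nat_lit 78) (nat_lit 76) (nat_lit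 0) (XT.lf (nat_lit 0) (nat_lit 19596815472) (nat_lit 228) (nat_lit 388717701) (nat_lit 76) (nat_lit 15285427896) (nat_lit 18) (nat_lit 5) (nat_lit 21) (nat_lit 5) (nat_lit 19) (nat_lit 4) (nat_lit 325) (nat_lit 258) (nat_lit 197)) (XT.lf (nat_lit 0) (nat_lit 15224676459) (nat_lit 76) (nat_lit 12114091702) (nat_lit 152) (nat_lit 9426765292) (nat_lit 17) (nat_lit 5) (nat_lit 18) (nat_lit 5) (nat_lit 19) (nat_lit 4) (nat_lit 326) (nat_lit 258) (nat_lit 196)))) (XT.nd (nat_lit 78) (nat_lit 228) (nat_lit 0) (XT.lf (nat_lit 0) (nat_lit 31559523572) (nat_lit 76) (nat_lit 3874182083) (nat_lit 152) (nat_lit 2902171452) (nat_lit 17) (nat_lit 5) (nat_lit 18) (nat_lit 5) (nat_lit 19) (nat_lit 4) (nat_lit 327) (nat_lit 258) (nat_lit 195)) (XT.nd (nat_lit 78) (nat_lit 0) (nat_lit 0) (XT.lf (nat_lit 0) (nat_lit 3966335544) (nat_lit 228) (nat_lit 31233886559) (nat_lit 76) (nat_lit 4780552873) (nat_lit 14)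 (nat_lit 5) (nat_lit 17) (nat_lit 5) (nat_lit 15) (nat_lit 4) (nat_lit 328) (nat_lit 258) (nat_lit 194)) (XT.lf (nat_lit 0) (nat_lit 11192554534) (nat_lit 228) (nat_lit 16650852706) (nat_lit 76) (nat_lit 13861436193) (nat_lit 14) (nat_lit 5) (nat_lit 17) (nat_lit 5) (nat_lit 15) (nat_lit 4) (nat_lit 329) (nat_lit 258) (nat_lit 193))))) (XT.nd (nat_lit 234) (nat_lit 152) (nat_lit 0) (XT.nd (nat_lit 78) (nat_lit 76) (nat_lit 0) (XT.lf (nat_lit 0) (nat_lit 18745988999) (nat_lit 228) (nat_lit 1399467117) (nat_lit 76) (nat_lit 23370698218) (nat_lit 14) (nat_lit 5) (nat_lit 17) (nat_lit 5) (nat_lit 15) (nat_lit 4) (nat_lit 330) (nat_lit 258) (nat_lit 192)) (XT.nd (nat_lit 78) (nat_lit 0) (nat_lit 0) (XT.lf (nat_lit 0) (nat_lit 14846287573) (nat_lit 76) (nat_lit 11941047334) (nat_lit 152) (nat_lit 18627404072) (nat_lit 13) (nat_lit 5) (nat_lit 14) (nat_lit 5) (nat_lit 15) (nat_lit 4) (nat_lit 331)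 (nat_lit 258) (nat_lit 191)) (XT.lf (nat_lit 0) (nat_lit 31877329853) (nat_lit 76) (nat_lit 3336358277) (nat_lit 152) (nat_lit 12195091180) (nat_lit 13) (nat_lit 5) (nat_lit 14) (nat_lit 5) (nat_lit 15) (nat_lit 4) (nat_lit 332) (nat_lit 258) (nat_lit 190)))) (XT.nd (nat_lit 156) (nat_lit 0) (nat_lit 0) (XT.nd (nat_lit 78) (nat_lit 76) (nat_lit 0) (XT.lf (nat_lit 0) (nat_lit 151324666) (nat_lit 76) (nat_lit 43936072358) (nat_lit 76) (nat_lit 5414357453) (nat_lit 12) (nat_lit 4) (nat_lit 13) (nat_lit 5) (nat_lit 13) (nat_lit 4) (nat_lit 333) (nat_lit 258) (nat_lit 189)) (XT.lf (nat_lit 0) (nat_lit 1837708247) (nat_lit 152) (nat_lit 34856732857) (nat_lit 76) (nat_lit 14999491178) (nat_lit 11) (nat_lit 5) (nat_lit 13) (nat_lit 5) (nat_lit 12) (nat_lit 4) (nat_lit 334) (nat_lit 258) (nat_lit 188))) (XT.nd (nat_lit 78) (nat_lit 0) (nat_lit 0) (XT.lf (nat_lit 0) (nat_lit 9313282650) (nat_lit 152)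 (nat_lit 19743760337) (nat_lit 76) (nat_lit 24937893577) (nat_lit 11) (nat_lit 5) (nat_lit 13) (nat_lit 5) (nat_lit 12) (nat_lit 4) (nat_lit 335) (nat_lit 258) (nat_lit 187)) (XT.lf (nat_lit 0) (nat_lit 17135818359) (nat_lit 152) (nat_lit 3923482867) (nat_lit 76) (nat_lit 35352506065) (nat_lit 11) (nat_lit 5) (nat_lit 13) (nat_lit 5) (nat_lit 12) (nat_lit 4) (nat_lit 336) (nat_lit 258) (nat_lit 186)))))) (XT.nd (nat_lit 468) (nat_lit 76) (nat_lit 0) (XT.nd (nat_lit 234) (nat_lit 152) (nat_lit 0) (XT.nd (nat_lit 78) (nat_lit 0) (nat_lit 0) (XT.lf (nat_lit 0) (nat_lit 12893362829) (nat_lit 76) (nat_lit 12554516518) (nat_lit 152) (nat_lit 33498701398) (nat_lit 10) (nat_lit 5) (nat_lit 11) (nat_lit 5) (nat_lit 12) (nat_lit 4) (nat_lit 337) (nat_lit 258) (nat_lit 185)) (XT.nd (nat_lit 78) (nat_lit 0) (nat_lit 0) (XT.lf (nat_lit 0) (nat_lit 30588318240) (nat_lit 76) (nat_lit 3602859861) (nat_lit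 152) (nat_lit 27416456349) (nat_lit 10) (nat_lit 5) (nat_lit 11) (nat_lit 5) (nat_lit 12) (nat_lit 4) (nat_lit 338) (nat_lit 258) (nat_lit 184)) (XT.lf (nat_lit 0) (nat_lit 43403602025) (nat_lit 152) (nat_lit 15332564547) (nat_lit 0) (nat_lit 5664625573) (nat_lit 10) (nat_lit 5) (nat_lit 12) (nat_lit 4) (nat_lit 10) (nat_lit 4) (nat_lit 339) (nat_lit 258) (nat_lit 183)))) (XT.nd (nat_lit 78) (nat_lit 76) (nat_lit 0) (XT.lf (nat_lit 0) (nat_lit 1082204747) (nat_lit 76) (nat_lit 52018582970) (nat_lit 76) (nat_lit 14232105422) (nat_lit 9) (nat_lit 4) (nat_lit 10) (nat_lit 5) (nat_lit 10) (nat_lit 4) (nat_lit 340) (nat_lit 258) (nat_lit 182)) (XT.nd (nat_lit 78) (nat_lit 76) (nat_lit 0) (XT.lf (nat_lit 0) (nat_lit 18598222238) (nat_lit 76) (nat_lit 44820512867) (nat_lit 76) (nat_lit 6988796177) (nat_lit 9) (nat_lit 4) (nat_lit 10) (nat_lit 5) (nat_lit 10) (nat_lit 4) (nat_lit 341) (nat_lit 258)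 (nat_lit 181)) (XT.lf (nat_lit 0) (nat_lit 583541134) (nat_lit 152) (nat_lit 36690213083) (nat_lit 76) (nat_lit 36362610873) (nat_lit 8) (nat_lit 5) (nat_lit 10) (nat_lit 5) (nat_lit 9) (nat_lit 4) (nat_lit 342) (nat_lit 258) (nat_lit 180))))) (XT.nd (nat_lit 234) (nat_lit 0) (nat_lit 0) (XT.nd (nat_lit 78) (nat_lit 76) (nat_lit 0) (XT.lf (nat_lit 0) (nat_lit 8371201063) (nat_lit 152) (nat_lit 20922296661) (nat_lit 76) (nat_lit 47731637718) (nat_lit 8) (nat_lit 5) (nat_lit 10) (nat_lit 5) (nat_lit 9) (nat_lit 4) (nat_lit 343) (nat_lit 258) (nat_lit 179)) (XT.nd (nat_lit 78) (nat_lit 76) (nat_lit 0) (XT.lf (nat_lit 0) (nat_lit 16529102243) (nat_lit 152) (nat_lit 4400836537) (nat_lit 76) (nat_lit 59653987476) (nat_lit 8) (nat_lit 5) (nat_lit 10) (nat_lit 5) (nat_lit 9) (nat_lit 4) (nat_lit 344) (nat_lit 258) (nat_lit 178)) (XT.lf (nat_lit 0) (nat_lit 13170508150) (nat_lit 76) (nat_lit 12032763078)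 (nat_lit 152) (nat_lit 59114141526) (nat_lit 7) (nat_lit 5) (nat_lit 8) (nat_lit 5) (nat_lit 9) (nat_lit 4) (nat_lit 345) (nat_lit 258) (nat_lit 177)))) (XT.nd (nat_lit 156) (nat_lit 0) (nat_lit 0) (XT.nd (nat_lit 78) (nat_lit 0) (nat_lit 0) (XT.lf (nat_lit 0) (nat_lit 31680143574) (nat_lit 76) (nat_lit 2658635769) (nat_lit 152) (nat_lit 53897972291) (nat_lit 7) (nat_lit 5) (nat_lit 8) (nat_lit 5) (nat_lit 9) (nat_lit 4) (nat_lit 346) (nat_lit 258) (nat_lit 176)) (XT.lf (nat_lit 0) (nat_lit 43983157871) (nat_lit 152) (nat_lit 41336939530) (nat_lit 0) (nat_lit 7030403853) (nat_lit 7) (nat_lit 5) (nat_lit 9) (nat_lit 4) (nat_lit 7) (nat_lit 4) (nat_lit 347) (nat_lit 258) (nat_lit 175))) (XT.nd (nat_lit 78) (nat_lit 0) (nat_lit 0) (XT.lf (nat_lit 0) (nat_lit 54120433484) (nat_lit 152) (nat_lit 25412725574) (nat_lit 0) (nat_lit 17136465280) (nat_lit 7) (nat_lit 5) (nat_lit 9) (nat_lit 4) (nat_lit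 7) (nat_lit 4) (nat_lit 348) (nat_lit 258) (nat_lit 174)) (XT.lf (nat_lit 0) (nat_lit 64749186122) (nat_lit 152) (nat_lit 8720494965) (nat_lit 0) (nat_lit 27735490120) (nat_lit 7) (nat_lit 5) (nat_lit 9) (nat_lit 4) (nat_lit 7) (nat_lit 4) (nat_lit 349) (nat_lit 258) (nat_lit 173))))))) (XT.nd (nat_lit 33852) (nat_lit 0) (nat_lit 13908) (XT.nd (nat_lit 468) (nat_lit 76) (nat_lit 0) (XT.nd (nat_lit 234) (nat_lit 76) (nat_lit 0) (XT.nd (nat_lit 78) (nat_lit 0) (nat_lit 0) (XT.lf (nat_lit 0) (nat_lit 8954224882) (nat_lit 76) (nat_lit 67026570941) (nat_lit 76) (nat_lit 29984562752) (nat_lit 6) (nat_lit 4) (nat_lit 7) (nat_lit 5) (nat_lit 7) (nat_lit 4) (nat_lit 350) (nat_lit 258) (nat_lit 172)) (XT.nd (nat_lit 78) (nat_lit 0) (nat_lit 0) (XT.lf (nat_lit 0) (nat_lit 27668831639) (nat_lit 76) (nat_lit 60180717216) (nat_lit 76) (nat_lit 23111745038) (nat_lit 6) (nat_lit 4) (nat_lit 7) (nat_lit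 5) (nat_lit 7) (nat_lit 4) (nat_lit 351) (nat_lit 258) (nat_lit 171)) (XT.lf (nat_lit 0) (nat_lit 47294328945) (nat_lit 76) (nat_lit 53003880160) (nat_lit 76) (nat_lit 15909227993) (nat_lit 6) (nat_lit 4) (nat_lit 7) (nat_lit 5) (nat_lit 7) (nat_lit 4) (nat_lit 352) (nat_lit 258) (nat_lit 170)))) (XT.nd (nat_lit 78) (nat_lit 76) (nat_lit 0) (XT.lf (nat_lit 0) (nat_lit 67877444173) (nat_lit 76) (nat_lit 45478972066) (nat_lit 76) (nat_lit 8359862766) (nat_lit 6) (nat_lit 4) (nat_lit 7) (nat_lit 5) (nat_lit 7) (nat_lit 4) (nat_lit 353) (nat_lit 258) (nat_lit 169)) (XT.nd (nat_lit 78) (nat_lit 76) (nat_lit 0) (XT.lf (nat_lit 0) (nat_lit 89467184741) (nat_lit 76) (nat_lit 37588076485) (nat_lit 76) (nat_lit 445674678) (nat_lit 6) (nat_lit 4) (nat_lit 7) (nat_lit 5) (nat_lit 7) (nat_lit 4) (nat_lit 354) (nat_lit 258) (nat_lit 168)) (XT.lf (nat_lit 0) (nat_lit 7698955269) (nat_lit 152) (nat_lit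 21535705950) (nat_lit 76) (nat_lit 104338255173) (nat_lit 5) (nat_lit 5) (nat_lit 7) (nat_lit 5) (nat_lit 6) (nat_lit 4) (nat_lit 355) (nat_lit 258) (nat_lit 167))))) (XT.nd (nat_lit 234) (nat_lit 0) (nat_lit 0) (XT.nd (nat_lit 78) (nat_lit 76) (nat_lit 0) (XT.lf (nat_lit 0) (nat_lit 16230439225) (nat_lit 152) (nat_lit 4237920509) (nat_lit 76) (nat_lit 119480342756) (nat_lit 5) (nat_lit 5) (nat_lit 7) (nat_lit 5) (nat_lit 6) (nat_lit 4) (nat_lit 356) (nat_lit 258) (nat_lit 166)) (XT.nd (nat_lit 78) (nat_lit 0) (nat_lit 0) (XT.lf (nat_lit 0) (nat_lit 14181812705) (nat_lit 76) (nat_lit 11132298519) (nat_lit 152) (nat_lit 121325402215) (nat_lit 4) (nat_lit 5) (nat_lit 5) (nat_lit 5) (nat_lit 6) (nat_lit 4) (nat_lit 357) (nat_lit 258) (nat_lit 165)) (XT.lf (nat_lit 0) (nat_lit 33591977027) (nat_lit 76) (nat_lit 1293231303) (nat_lit 152) (nat_lit 118778663133) (nat_lit 4) (nat_lit 5) (nat_lit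 5) (nat_lit 5) (nat_lit 6) (nat_lit 4) (nat_lit 358) (nat_lit 258) (nat_lit 164)))) (XT.nd (nat_lit 156) (nat_lit 0) (nat_lit 0) (XT.nd (nat_lit 78) (nat_lit 0) (nat_lit 0) (XT.lf (nat_lit 0) (nat_lit 45011767453) (nat_lit 152) (nat_lit 107172100288) (nat_lit 0) (nat_lit 8853276023) (nat_lit 4) (nat_lit 5) (nat_lit 6) (nat_lit 4) (nat_lit 4) (nat_lit 4) (nat_lit 359) (nat_lit 258) (nat_lit 163)) (XT.lf (nat_lit 0) (nat_lit 55648212573) (nat_lit 152) (nat_lit 93657917622) (nat_lit 0) (nat_lit 19472846166) (nat_lit 4) (nat_lit 5) (nat_lit 6) (nat_lit 4) (nat_lit 4) (nat_lit 4) (nat_lit 360) (nat_lit 258) (nat_lit 162))) (XT.nd (nat_lit 32916) (nat_lit 0) (nat_lit 22496) (XT.lf (nat_lit 0) (nat_lit 66807437231) (nat_lit 152) (nat_lit 79484738482) (nat_lit 0) (nat_lit 30615999415) (nat_lit 4) (nat_lit 5) (nat_lit 6) (nat_lit 4) (nat_lit 4) (nat_lit 4) (nat_lit 361) (nat_lit 258) (nat_lit 161))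 (XT.lf (nat_lit 0) (nat_lit 1793652593) (nat_lit 76) (nat_lit 716700370) (nat_lit 76) (nat_lit 716700370) (nat_lit 300) (nat_lit 4) (nat_lit 301) (nat_lit 5) (nat_lit 301) (nat_lit 4) (nat_lit 262) (nat_lit 259) (nat_lit 259)))))) (XT.nd (nat_lit 546) (nat_lit 6156) (nat_lit 0) (XT.nd (nat_lit 234) (nat_lit 1596) (nat_lit 0) (XT.nd (nat_lit 78) (nat_lit 608) (nat_lit 0) (XT.lf (nat_lit 0) (nat_lit 2380316560) (nat_lit 152) (nat_lit 975167195) (nat_lit 228) (nat_lit 3114925090) (nat_lit 297) (nat_lit 5) (nat_lit 299) (nat_lit 5) (nat_lit 300) (nat_lit 4) (nat_lit 263) (nat_lit 259) (nat_lit 258)) (XT.nd (nat_lit 78) (nat_lit 304) (nat_lit 0) (XT.lf (nat_lit 0) (nat_lit 1278930015) (nat_lit 228) (nat_lit 293478749) (nat_lit 304) (nat_lit 4922706476) (nat_lit 293) (nat_lit 5) (nat_lit 296) (nat_lit 5) (nat_lit 297) (nat_lit 5) (nat_lit 264) (nat_lit 259) (nat_lit 257)) (XT.lf (nat_lit 0) (nat_lit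 269444614) (nat_lit 304) (nat_lit 5923332473) (nat_lit 380) (nat_lit 335230095) (nat_lit 289) (nat_lit 5) (nat_lit 293) (nat_lit 5) (nat_lit 294) (nat_lit 4) (nat_lit 265) (nat_lit 259) (nat_lit 256)))) (XT.nd (nat_lit 156) (nat_lit 1064) (nat_lit 0) (XT.nd (nat_lit 78) (nat_lit 456) (nat_lit 0) (XT.lf (nat_lit 0) (nat_lit 4173192480) (nat_lit 380) (nat_lit 652155549) (nat_lit 76) (nat_lit 1743242788) (nat_lit 288) (nat_lit 5) (nat_lit 293) (nat_lit 5) (nat_lit 289) (nat_lit 5) (nat_lit 266) (nat_lit 259) (nat_lit 255)) (XT.lf (nat_lit 0) (nat_lit 2026260660) (nat_lit 456) (nat_lit 1480566766) (nat_lit 76) (nat_lit 3110815412) (nat_lit 282) (nat_lit 5) (nat_lit 288) (nat_lit 5) (nat_lit 283) (nat_lit 5) (nat_lit 267) (nat_lit 259) (nat_lit 254))) (XT.nd (nat_lit 78) (nat_lit 608) (nat_lit 0) (XT.lf (nat_lit 0) (nat_lit 4447964584) (nat_lit 456) (nat_lit 1964417467) (nat_lit 532) (nat_lit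 262891755) (nat_lit 276) (nat_lit 5) (nat_lit 282) (nat_lit 5) (nat_lit 283) (nat_lit 5) (nat_lit 268) (nat_lit 259) (nat_lit 253)) (XT.lf (nat_lit 0) (nat_lit 3826320823) (nat_lit 532) (nat_lit 174823756) (nat_lit 608) (nat_lit 2739904844) (nat_lit 268) (nat_lit 5) (nat_lit 275) (nat_lit 5) (nat_lit 276) (nat_lit 5) (nat_lit 269) (nat_lit 259) (nat_lit 252))))) (XT.nd (nat_lit 234) (nat_lit 3952) (nat_lit 0) (XT.nd (nat_lit 78) (nat_lit 1520) (nat_lit 0) (XT.lf (nat_lit 0) (nat_lit 1460843081) (nat_lit 684) (nat_lit 3544249185) (nat_lit 76) (nat_lit 1810087184) (nat_lit 259) (nat_lit 5) (nat_lit 268) (nat_lit 5) (nat_lit 260) (nat_lit 5) (nat_lit 270) (nat_lit 259) (nat_lit 251)) (XT.nd (nat_lit 78) (nat_lit 836) (nat_lit 0) (XT.lf (nat_lit 0) (nat_lit 2780289931) (nat_lit 684) (nat_lit 2862310160) (nat_lit 760) (nat_lit 1255282211) (nat_lit 250) (nat_lit 5) (nat_lit 259) (nat_lit 5) (nat_lit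 260) (nat_lit 5) (nat_lit 271) (nat_lit 259) (nat_lit 250)) (XT.lf (nat_lit 0) (nat_lit 2348930127) (nat_lit 760) (nat_lit 474731984) (nat_lit 836) (nat_lit 4165617025) (nat_lit 239) (nat_lit 5) (nat_lit 249) (nat_lit 5) (nat_lit 250) (nat_lit 5) (nat_lit 272) (nat_lit 259) (nat_lit 249)))) (XT.nd (nat_lit 156) (nat_lit 2128) (nat_lit 0) (XT.nd (nat_lit 78) (nat_lit 988) (nat_lit 0) (XT.lf (nat_lit 0) (nat_lit 1965638454) (nat_lit 836) (nat_lit 4980887761) (nat_lit 912) (nat_lit 142817197) (nat_lit 228) (nat_lit 5) (nat_lit 239) (nat_lit 5) (nat_lit 240) (nat_lit 5) (nat_lit 273) (nat_lit 259) (nat_lit 248)) (XT.lf (nat_lit 0) (nat_lit 1612548939) (nat_lit 912) (nat_lit 2248032294) (nat_lit 988) (nat_lit 3337294556) (nat_lit 215) (nat_lit 5) (nat_lit 227) (nat_lit 5) (nat_lit 228) (nat_lit 5) (nat_lit 274) (nat_lit 259) (nat_lit 247))) (XT.nd (nat_lit 78) (nat_lit 1064) (nat_lit 0) (XT.lf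 (nat_lit 0) (nat_lit 604158013) (nat_lit 1064) (nat_lit 6003606820) (nat_lit 76) (nat_lit 708113504) (nat_lit 201) (nat_lit 5) (nat_lit 215) (nat_lit 5) (nat_lit 202) (nat_lit 5) (nat_lit 275) (nat_lit 259) (nat_lit 246)) (XT.lf (nat_lit 0) (nat_lit 1015391998) (nat_lit 1064) (nat_lit 3554118369) (nat_lit 1140) (nat_lit 2872769112) (nat_lit 187) (nat_lit 5) (nat_lit 201) (nat_lit 5) (nat_lit 202) (nat_lit 5) (nat_lit 276) (nat_lit 259) (nat_lit 245))))))))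
noncomputable def xc48 : XT := (XT.nd (nat_lit 2028) (nat_lit 2660) (nat_lit 0) (XT.nd (nat_lit 1014) (nat_lit 3496) (nat_lit 0) (XT.nd (nat_lit 468) (nat_lit 3192) (nat_lit 0) (XT.nd (nat_lit 234) (nat_lit 1140) (nat_lit 0) (XT.nd (nat_lit 78) (nat_lit 1216) (nat_lit 0) (XT.lf (nat_lit 0) (nat_lit 760934848) (nat_lit 1140) (nat_lit 254426083) (nat_lit 1216) (nat_lit 6563248499) (nat_lit 171) (nat_lit 5) (nat_lit 186) (nat_lit 5) (nat_lit 187) (nat_lit 5) (nat_lit 277) (nat_lit 259) (nat_lit 244)) (XT.nd (nat_lit 78) (nat_lit 684) (nat_lit 0) (XT.lf (nat_lit 0) (nat_lit 491216422) (nat_lit 532) (nat_lit 4467756646) (nat_lit 608) (nat_lit 2764636418) (nat_lit 164) (nat_lit 5) (nat_lit 171) (nat_lit 5) (nat_lit 172) (nat_lit 5) (nat_lit 278) (nat_lit 259) (nat_lit 243)) (XT.lf (nat_lit 0) (nat_lit 244822426) (nat_lit 608) (nat_lit 853506140) (nat_lit 684) (nat_lit 6780526213) (nat_lit 155)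 (nat_lit 5) (nat_lit 163) (nat_lit 5) (nat_lit 164) (nat_lit 5) (nat_lit 279) (nat_lit 259) (nat_lit 242)))) (XT.nd (nat_lit 78) (nat_lit 1140) (nat_lit 0) (XT.lf (nat_lit 0) (nat_lit 5030513412) (nat_lit 684) (nat_lit 28941015) (nat_lit 76) (nat_lit 2983872454) (nat_lit 155) (nat_lit 5) (nat_lit 164) (nat_lit 5) (nat_lit 156) (nat_lit 5) (nat_lit 280) (nat_lit 259) (nat_lit 241)) (XT.nd (nat_lit 78) (nat_lit 532) (nat_lit 0) (XT.lf (nat_lit 0) (nat_lit 846087003) (nat_lit 608) (nat_lit 295240044) (nat_lit 76) (nat_lit 7077049087) (nat_lit 147) (nat_lit 5) (nat_lit 155) (nat_lit 5) (nat_lit 148) (nat_lit 5) (nat_lit 281) (nat_lit 259) (nat_lit 240)) (XT.lf (nat_lit 0) (nat_lit 4782962111) (nat_lit 608) (nat_lit 609383881) (nat_lit 76) (nat_lit 3010766156) (nat_lit 140) (nat_lit 5) (nat_lit 148) (nat_lit 5) (nat_lit 141) (nat_lit 5) (nat_lit 282) (nat_lit 259) (nat_lit 239))))) (XT.nd (nat_lit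 234) (nat_lit 1748) (nat_lit 0) (XT.nd (nat_lit 78) (nat_lit 912) (nat_lit 0) (XT.lf (nat_lit 0) (nat_lit 248331364) (nat_lit 532) (nat_lit 936557426) (nat_lit 76) (nat_lit 7414285431) (nat_lit 133) (nat_lit 5) (nat_lit 140) (nat_lit 5) (nat_lit 134) (nat_lit 5) (nat_lit 283) (nat_lit 259) (nat_lit 238)) (XT.nd (nat_lit 78) (nat_lit 456) (nat_lit 0) (XT.lf (nat_lit 0) (nat_lit 4198080003) (nat_lit 532) (nat_lit 1340020546) (nat_lit 76) (nat_lit 3267201753) (nat_lit 127) (nat_lit 5) (nat_lit 134) (nat_lit 5) (nat_lit 128) (nat_lit 5) (nat_lit 284) (nat_lit 259) (nat_lit 237)) (XT.lf (nat_lit 0) (nat_lit 7247662353) (nat_lit 456) (nat_lit 1045904508) (nat_lit 532) (nat_lit 729931543) (nat_lit 121) (nat_lit 5) (nat_lit 127) (nat_lit 5) (nat_lit 128) (nat_lit 5) (nat_lit 285) (nat_lit 259) (nat_lit 236)))) (XT.nd (nat_lit 156) (nat_lit 836) (nat_lit 0) (XT.nd (nat_lit 78) (nat_lit 380) (nat_lit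 0) (XT.lf (nat_lit 0) (nat_lit 3253784163) (nat_lit 532) (nat_lit 2310495096) (nat_lit 76) (nat_lit 3688222104) (nat_lit 114) (nat_lit 5) (nat_lit 121) (nat_lit 5) (nat_lit 115) (nat_lit 5) (nat_lit 286) (nat_lit 259) (nat_lit 235)) (XT.lf (nat_lit 0) (nat_lit 6586410784) (nat_lit 380) (nat_lit 793075609) (nat_lit 456) (nat_lit 2114698532) (nat_lit 109) (nat_lit 5) (nat_lit 114) (nat_lit 5) (nat_lit 115) (nat_lit 5) (nat_lit 287) (nat_lit 259) (nat_lit 234))) (XT.nd (nat_lit 78) (nat_lit 380) (nat_lit 0) (XT.lf (nat_lit 0) (nat_lit 1918601608) (nat_lit 456) (nat_lit 3622301707) (nat_lit 76) (nat_lit 4206851529) (nat_lit 103) (nat_lit 5) (nat_lit 109) (nat_lit 5) (nat_lit 104) (nat_lit 5) (nat_lit 288) (nat_lit 259) (nat_lit 233)) (XT.lf (nat_lit 0) (nat_lit 5575641885) (nat_lit 380) (nat_lit 499695052) (nat_lit 456) (nat_lit 3939235216) (nat_lit 98) (nat_lit 5) (nat_lit 103) (nat_lit 5)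 (nat_lit 104) (nat_lit 5) (nat_lit 289) (nat_lit 259) (nat_lit 232)))))) (XT.nd (nat_lit 468) (nat_lit 1672) (nat_lit 0) (XT.nd (nat_lit 234) (nat_lit 684) (nat_lit 0) (XT.nd (nat_lit 78) (nat_lit 684) (nat_lit 0) (XT.lf (nat_lit 0) (nat_lit 150619557) (nat_lit 456) (nat_lit 5391660854) (nat_lit 76) (nat_lit 4752309798) (nat_lit 92) (nat_lit 5) (nat_lit 98) (nat_lit 5) (nat_lit 93) (nat_lit 5) (nat_lit 290) (nat_lit 259) (nat_lit 231)) (XT.nd (nat_lit 78) (nat_lit 380) (nat_lit 0) (XT.lf (nat_lit 0) (nat_lit 4093736106) (nat_lit 304) (nat_lit 241546142) (nat_lit 380) (nat_lit 6253146132) (nat_lit 88) (nat_lit 5) (nat_lit 92) (nat_lit 5) (nat_lit 93) (nat_lit 5) (nat_lit 291) (nat_lit 259) (nat_lit 230)) (XT.lf (nat_lit 0) (nat_lit 3123007349) (nat_lit 380) (nat_lit 5627751058) (nat_lit 456) (nat_lit 2145688663) (nat_lit 83) (nat_lit 5) (nat_lit 88) (nat_lit 5) (nat_lit 89) (nat_lit 5) (nat_lit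 292) (nat_lit 259) (nat_lit 229)))) (XT.nd (nat_lit 78) (nat_lit 304) (nat_lit 0) (XT.lf (nat_lit 0) (nat_lit 1999684216) (nat_lit 304) (nat_lit 101486567) (nat_lit 380) (nat_lit 9118907188) (nat_lit 78) (nat_lit 5) (nat_lit 82) (nat_lit 5) (nat_lit 83) (nat_lit 5) (nat_lit 293) (nat_lit 259) (nat_lit 228)) (XT.nd (nat_lit 78) (nat_lit 0) (nat_lit 0) (XT.lf (nat_lit 0) (nat_lit 648411791) (nat_lit 304) (nat_lit 5900514362) (nat_lit 380) (nat_lit 5009458839) (nat_lit 74) (nat_lit 5) (nat_lit 78) (nat_lit 5) (nat_lit 79) (nat_lit 5) (nat_lit 294) (nat_lit 259) (nat_lit 227)) (XT.lf (nat_lit 0) (nat_lit 11053283342) (nat_lit 304) (nat_lit 156158241) (nat_lit 380) (nat_lit 704568690) (nat_lit 74) (nat_lit 5) (nat_lit 78) (nat_lit 5) (nat_lit 79) (nat_lit 5) (nat_lit 295) (nat_lit 259) (nat_lit 226))))) (XT.nd (nat_lit 234) (nat_lit 760) (nat_lit 0) (XT.nd (nat_lit 78) (nat_lit 608) (nat_lit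 0) (XT.lf (nat_lit 0) (nat_lit 3790071996) (nat_lit 304) (nat_lit 2644494780) (nat_lit 76) (nat_lit 5850386351) (nat_lit 70) (nat_lit 5) (nat_lit 74) (nat_lit 5) (nat_lit 71) (nat_lit 5) (nat_lit 296) (nat_lit 259) (nat_lit 225)) (XT.nd (nat_lit 78) (nat_lit 304) (nat_lit 0) (XT.lf (nat_lit 0) (nat_lit 8015594775) (nat_lit 304) (nat_lit 468448991) (nat_lit 380) (nat_lit 4190615419) (nat_lit 66) (nat_lit 5) (nat_lit 70) (nat_lit 5) (nat_lit 71) (nat_lit 5) (nat_lit 297) (nat_lit 259) (nat_lit 224)) (XT.lf (nat_lit 0) (nat_lit 369088610) (nat_lit 304) (nat_lit 6983155270) (nat_lit 76) (nat_lit 5730205446) (nat_lit 62) (nat_lit 5) (nat_lit 66) (nat_lit 5) (nat_lit 63) (nat_lit 5) (nat_lit 298) (nat_lit 259) (nat_lit 223)))) (XT.nd (nat_lit 156) (nat_lit 304) (nat_lit 0) (XT.nd (nat_lit 78) (nat_lit 228) (nat_lit 0) (XT.lf (nat_lit 0) (nat_lit 3872906843) (nat_lit 228) (nat_lit 1195038071) (nat_lit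 304) (nat_lit 8441592723) (nat_lit 59) (nat_lit 5) (nat_lit 62) (nat_lit 5) (nat_lit 63) (nat_lit 5) (nat_lit 299) (nat_lit 259) (nat_lit 222)) (XT.lf (nat_lit 0) (nat_lit 1298557004) (nat_lit 228) (nat_lit 8748281532) (nat_lit 304) (nat_lit 3909873244) (nat_lit 56) (nat_lit 5) (nat_lit 59) (nat_lit 5) (nat_lit 60) (nat_lit 5) (nat_lit 300) (nat_lit 259) (nat_lit 221))) (XT.nd (nat_lit 78) (nat_lit 228) (nat_lit 0) (XT.lf (nat_lit 0) (nat_lit 855565348) (nat_lit 304) (nat_lit 1597779543) (nat_lit 76) (nat_lit 11972022299) (nat_lit 55) (nat_lit 5) (nat_lit 59) (nat_lit 5) (nat_lit 56) (nat_lit 5) (nat_lit 301) (nat_lit 259) (nat_lit 220)) (XT.lf (nat_lit 0) (nat_lit 5832242818) (nat_lit 304) (nat_lit 4913473766) (nat_lit 76) (nat_lit 4169036757) (nat_lit 52) (nat_lit 5) (nat_lit 56) (nat_lit 5) (nat_lit 53) (nat_lit 5) (nat_lit 302) (nat_lit 259) (nat_lit 219))))))) (XT.nd (nat_lit 1014)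 (nat_lit 836) (nat_lit 0) (XT.nd (nat_lit 468) (nat_lit 760) (nat_lit 0) (XT.nd (nat_lit 234) (nat_lit 608) (nat_lit 0) (XT.nd (nat_lit 78) (nat_lit 304) (nat_lit 0) (XT.lf (nat_lit 0) (nat_lit 6765497233) (nat_lit 152) (nat_lit 4316720641) (nat_lit 228) (nat_lit 4345727672) (nat_lit 50) (nat_lit 5) (nat_lit 52) (nat_lit 5) (nat_lit 53) (nat_lit 5) (nat_lit 303) (nat_lit 259) (nat_lit 218)) (XT.nd (nat_lit 78) (nat_lit 0) (nat_lit 0) (XT.lf (nat_lit 0) (nat_lit 640210722) (nat_lit 304) (nat_lit 12895994222) (nat_lit 76) (nat_lit 2429739617) (nat_lit 46) (nat_lit 5) (nat_lit 50) (nat_lit 5) (nat_lit 47) (nat_lit 5) (nat_lit 304) (nat_lit 259) (nat_lit 217)) (XT.lf (nat_lit 0) (nat_lit 5842171275) (nat_lit 304) (nat_lit 1170043592) (nat_lit 76) (nat_lit 9515702025) (nat_lit 46) (nat_lit 5) (nat_lit 50) (nat_lit 5) (nat_lit 47) (nat_lit 5) (nat_lit 305) (nat_lit 259) (nat_lit 216)))) (XT.nd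 (nat_lit 78) (nat_lit 456) (nat_lit 0) (XT.lf (nat_lit 0) (nat_lit 11243949020) (nat_lit 152) (nat_lit 94213327) (nat_lit 228) (nat_lit 5778866778) (nat_lit 44) (nat_lit 5) (nat_lit 46) (nat_lit 5) (nat_lit 47) (nat_lit 5) (nat_lit 306) (nat_lit 259) (nat_lit 215)) (XT.nd (nat_lit 78) (nat_lit 228) (nat_lit 0) (XT.lf (nat_lit 0) (nat_lit 6509754783) (nat_lit 228) (nat_lit 10670729075) (nat_lit 304) (nat_lit 553023624) (nat_lit 41) (nat_lit 5) (nat_lit 44) (nat_lit 5) (nat_lit 45) (nat_lit 5) (nat_lit 307) (nat_lit 259) (nat_lit 214)) (XT.lf (nat_lit 0) (nat_lit 1114005195) (nat_lit 152) (nat_lit 3726019432) (nat_lit 228) (nat_lit 13539348568) (nat_lit 38) (nat_lit 5) (nat_lit 40) (nat_lit 5) (nat_lit 41) (nat_lit 5) (nat_lit 308) (nat_lit 259) (nat_lit 213))))) (XT.nd (nat_lit 234) (nat_lit 380) (nat_lit 0) (XT.nd (nat_lit 78) (nat_lit 380) (nat_lit 0) (XT.lf (nat_lit 0) (nat_lit 10573714770)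 (nat_lit 228) (nat_lit 4904506479) (nat_lit 76) (nat_lit 3576723576) (nat_lit 38) (nat_lit 5) (nat_lit 41) (nat_lit 5) (nat_lit 39) (nat_lit 5) (nat_lit 309) (nat_lit 259) (nat_lit 212)) (XT.nd (nat_lit 78) (nat_lit 228) (nat_lit 0) (XT.lf (nat_lit 0) (nat_lit 8087335701) (nat_lit 152) (nat_lit 8556730416) (nat_lit 228) (nat_lit 3118776951) (nat_lit 36) (nat_lit 5) (nat_lit 38) (nat_lit 5) (nat_lit 39) (nat_lit 5) (nat_lit 310) (nat_lit 259) (nat_lit 211)) (XT.lf (nat_lit 0) (nat_lit 1220296564) (nat_lit 152) (nat_lit 1241275162) (nat_lit 228) (nat_lit 18043920301) (nat_lit 33) (nat_lit 5) (nat_lit 35) (nat_lit 5) (nat_lit 36) (nat_lit 5) (nat_lit 311) (nat_lit 259) (nat_lit 210)))) (XT.nd (nat_lit 156) (nat_lit 228) (nat_lit 0) (XT.nd (nat_lit 78) (nat_lit 152) (nat_lit 0) (XT.lf (nat_lit 0) (nat_lit 8378058386) (nat_lit 228) (nat_lit 6475358807) (nat_lit 76) (nat_lit 6427322905) (nat_lit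 33) (nat_lit 5) (nat_lit 36) (nat_lit 5) (nat_lit 34) (nat_lit 5) (nat_lit 312) (nat_lit 259) (nat_lit 209)) (XT.lf (nat_lit 0) (nat_lit 6999996166) (nat_lit 152) (nat_lit 7610893037) (nat_lit 228) (nat_lit 7483285472) (nat_lit 31) (nat_lit 5) (nat_lit 33) (nat_lit 5) (nat_lit 34) (nat_lit 5) (nat_lit 313) (nat_lit 259) (nat_lit 208))) (XT.nd (nat_lit 78) (nat_lit 228) (nat_lit 0) (XT.lf (nat_lit 0) (nat_lit 21164848648) (nat_lit 228) (nat_lit 1760034314) (nat_lit 76) (nat_lit 23151215) (nat_lit 31) (nat_lit 5) (nat_lit 34) (nat_lit 5) (nat_lit 32) (nat_lit 4) (nat_lit 314) (nat_lit 259) (nat_lit 207)) (XT.lf (nat_lit 0) (nat_lit 4261419366) (nat_lit 228) (nat_lit 11570901695) (nat_lit 76) (nat_lit 8006843973) (nat_lit 28) (nat_lit 5) (nat_lit 31) (nat_lit 5) (nat_lit 29) (nat_lit 5) (nat_lit 315) (nat_lit 259) (nat_lit 206)))))) (XT.nd (nat_lit 468) (nat_lit 380) (nat_lit 0) (XT.nd (nat_lit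 234) (nat_lit 228) (nat_lit 0) (XT.nd (nat_lit 78) (nat_lit 76) (nat_lit 0) (XT.lf (nat_lit 0) (nat_lit 2193694535) (nat_lit 152) (nat_lit 8363579485) (nat_lit 228) (nat_lit 14217505092) (nat_lit 26) (nat_lit 5) (nat_lit 28) (nat_lit 5) (nat_lit 29) (nat_lit 5) (nat_lit 316) (nat_lit 259) (nat_lit 205)) (XT.nd (nat_lit 78) (nat_lit 76) (nat_lit 0) (XT.lf (nat_lit 0) (nat_lit 16799556460) (nat_lit 152) (nat_lit 435358397) (nat_lit 228) (nat_lit 8520280941) (nat_lit 26) (nat_lit 5) (nat_lit 28) (nat_lit 5) (nat_lit 29) (nat_lit 5) (nat_lit 317) (nat_lit 259) (nat_lit 204)) (XT.lf (nat_lit 0) (nat_lit 5292804295) (nat_lit 76) (nat_lit 19030375248) (nat_lit 152) (nat_lit 2459181720) (nat_lit 25) (nat_lit 5) (nat_lit 26) (nat_lit 5) (nat_lit 27) (nat_lit 4) (nat_lit 318) (nat_lit 259) (nat_lit 203)))) (XT.nd (nat_lit 78) (nat_lit 152) (nat_lit 0) (XT.lf (nat_lit 0) (nat_lit 3877369288) (nat_lit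 152) (nat_lit 7544409628) (nat_lit 76) (nat_lit 16436549991) (nat_lit 24) (nat_lit 5) (nat_lit 26) (nat_lit 5) (nat_lit 25) (nat_lit 5) (nat_lit 319) (nat_lit 259) (nat_lit 202)) (XT.nd (nat_lit 78) (nat_lit 0) (nat_lit 0) (XT.lf (nat_lit 0) (nat_lit 7132096340) (nat_lit 152) (nat_lit 3370250848) (nat_lit 228) (nat_lit 18484370118) (nat_lit 22) (nat_lit 5) (nat_lit 24) (nat_lit 5) (nat_lit 25) (nat_lit 5) (nat_lit 320) (nat_lit 259) (nat_lit 201)) (XT.lf (nat_lit 0) (nat_lit 17540455876) (nat_lit 228) (nat_lit 7597762540) (nat_lit 76) (nat_lit 5030875581) (nat_lit 22) (nat_lit 5) (nat_lit 25) (nat_lit 5) (nat_lit 23) (nat_lit 4) (nat_lit 321) (nat_lit 259) (nat_lit 200))))) (XT.nd (nat_lit 234) (nat_lit 76) (nat_lit 0) (XT.nd (nat_lit 78) (nat_lit 228) (nat_lit 0) (XT.lf (nat_lit 0) (nat_lit 7407213141) (nat_lit 76) (nat_lit 17585219895) (nat_lit 152) (nat_lit 6416321713) (nat_lit 21) (nat_lit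 5) (nat_lit 22) (nat_lit 5) (nat_lit 23) (nat_lit 4) (nat_lit 322) (nat_lit 259) (nat_lit 199)) (XT.nd (nat_lit 78) (nat_lit 152) (nat_lit 0) (XT.lf (nat_lit 0) (nat_lit 141180260) (nat_lit 152) (nat_lit 9462601025) (nat_lit 76) (nat_lit 23105509311) (nat_lit 20) (nat_lit 5) (nat_lit 22) (nat_lit 5) (nat_lit 21) (nat_lit 5) (nat_lit 323) (nat_lit 259) (nat_lit 198)) (XT.lf (nat_lit 0) (nat_lit 5780894831) (nat_lit 152) (nat_lit 1129445661) (nat_lit 228) (nat_lit 27162133670) (nat_lit 18) (nat_lit 5) (nat_lit 20) (nat_lit 5) (nat_lit 21) (nat_lit 5) (nat_lit 324) (nat_lit 259) (nat_lit 197)))) (XT.nd (nat_lit 156) (nat_lit 0) (nat_lit 0) (XT.nd (nat_lit 78) (nat_lit 76) (nat_lit 0) (XT.lf (nat_lit 0) (nat_lit 14151668534) (nat_lit 228) (nat_lit 13661556729) (nat_lit 76) (nat_lit 7686600578) (nat_lit 18) (nat_lit 5) (nat_lit 21) (nat_lit 5) (nat_lit 19) (nat_lit 4) (nat_lit 325) (nat_lit 259)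 (nat_lit 196)) (XT.lf (nat_lit 0) (nat_lit 1654833220) (nat_lit 76) (nat_lit 20090069771) (nat_lit 152) (nat_lit 15253966178) (nat_lit 17) (nat_lit 5) (nat_lit 18) (nat_lit 5) (nat_lit 19) (nat_lit 4) (nat_lit 326) (nat_lit 259) (nat_lit 195))) (XT.nd (nat_lit 78) (nat_lit 0) (nat_lit 0) (XT.lf (nat_lit 0) (nat_lit 17958395866) (nat_lit 76) (nat_lit 11863737610) (nat_lit 152) (nat_lit 8747619509) (nat_lit 17) (nat_lit 5) (nat_lit 18) (nat_lit 5) (nat_lit 19) (nat_lit 4) (nat_lit 327) (nat_lit 259) (nat_lit 194)) (XT.lf (nat_lit 0) (nat_lit 35016057450) (nat_lit 76) (nat_lit 3252597209) (nat_lit 152) (nat_lit 1951580932) (nat_lit 17) (nat_lit 5) (nat_lit 18) (nat_lit 5) (nat_lit 19) (nat_lit 4) (nat_lit 328) (nat_lit 259) (nat_lit 193))))))))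
noncomputable def xc49 : XT := (XT.nd (nat_lit 2028) (nat_lit 152) (nat_lit 0) (XT.nd (nat_lit 1014) (nat_lit 228) (nat_lit 0) (XT.nd (nat_lit 468) (nat_lit 228) (nat_lit 0) (XT.nd (nat_lit 234) (nat_lit 76) (nat_lit 0) (XT.nd (nat_lit 78) (nat_lit 76) (nat_lit 0) (XT.lf (nat_lit 0) (nat_lit 5213296021) (nat_lit 228) (nat_lit 30925611480) (nat_lit 76) (nat_lit 5808949954) (nat_lit 14) (nat_lit 5) (nat_lit 17) (nat_lit 5) (nat_lit 15) (nat_lit 4) (nat_lit 329) (nat_lit 259) (nat_lit 192)) (XT.nd (nat_lit 78) (nat_lit 76) (nat_lit 0) (XT.lf (nat_lit 0) (nat_lit 12750890546) (nat_lit 228) (nat_lit 15702472096) (nat_lit 76) (nat_lit 15306288420) (nat_lit 14) (nat_lit 5) (nat_lit 17) (nat_lit 5) (nat_lit 15) (nat_lit 4) (nat_lit 330) (nat_lit 259) (nat_lit 191)) (XT.lf (nat_lit 0) (nat_lit 231188217) (nat_lit 76) (nat_lit 20405473303) (nat_lit 152) (nat_lit 25026248584) (nat_lit 13) (nat_lit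 5) (nat_lit 14) (nat_lit 5) (nat_lit 15) (nat_lit 4) (nat_lit 331) (nat_lit 259) (nat_lit 190)))) (XT.nd (nat_lit 78) (nat_lit 76) (nat_lit 0) (XT.lf (nat_lit 0) (nat_lit 17236100464) (nat_lit 76) (nat_lit 11812295807) (nat_lit 152) (nat_lit 18608999527) (nat_lit 13) (nat_lit 5) (nat_lit 14) (nat_lit 5) (nat_lit 15) (nat_lit 4) (nat_lit 332) (nat_lit 259) (nat_lit 189)) (XT.nd (nat_lit 78) (nat_lit 76) (nat_lit 0) (XT.lf (nat_lit 0) (nat_lit 35040242548) (nat_lit 76) (nat_lit 2811934388) (nat_lit 152) (nat_lit 11900298359) (nat_lit 13) (nat_lit 5) (nat_lit 14) (nat_lit 5) (nat_lit 15) (nat_lit 4) (nat_lit 333) (nat_lit 259) (nat_lit 188)) (XT.lf (nat_lit 0) (nat_lit 1702482934) (nat_lit 76) (nat_lit 45446454309) (nat_lit 76) (nat_lit 4801800466) (nat_lit 12) (nat_lit 4) (nat_lit 13) (nat_lit 5) (nat_lit 13) (nat_lit 4) (nat_lit 334) (nat_lit 259) (nat_lit 187))))) (XT.nd (nat_lit 234) (nat_lit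 152) (nat_lit 0) (XT.nd (nat_lit 78) (nat_lit 0) (nat_lit 0) (XT.lf (nat_lit 0) (nat_lit 2754392693) (nat_lit 152) (nat_lit 35112706693) (nat_lit 76) (nat_lit 16386425502) (nat_lit 11) (nat_lit 5) (nat_lit 13) (nat_lit 5) (nat_lit 12) (nat_lit 4) (nat_lit 335) (nat_lit 259) (nat_lit 186)) (XT.nd (nat_lit 78) (nat_lit 0) (nat_lit 0) (XT.lf (nat_lit 0) (nat_lit 10564469672) (nat_lit 152) (nat_lit 19314888538) (nat_lit 76) (nat_lit 26791416604) (nat_lit 11) (nat_lit 5) (nat_lit 13) (nat_lit 5) (nat_lit 12) (nat_lit 4) (nat_lit 336) (nat_lit 259) (nat_lit 185)) (XT.lf (nat_lit 0) (nat_lit 18740726314) (nat_lit 152) (nat_lit 2771028614) (nat_lit 76) (nat_lit 37697872652) (nat_lit 11) (nat_lit 5) (nat_lit 13) (nat_lit 5) (nat_lit 12) (nat_lit 4) (nat_lit 337) (nat_lit 259) (nat_lit 184)))) (XT.nd (nat_lit 156) (nat_lit 76) (nat_lit 0) (XT.nd (nat_lit 78) (nat_lit 0) (nat_lit 0) (XT.lf (nat_lit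 0) (nat_lit 14848001205) (nat_lit 76) (nat_lit 12597356762) (nat_lit 152) (nat_lit 34426488263) (nat_lit 10) (nat_lit 5) (nat_lit 11) (nat_lit 5) (nat_lit 12) (nat_lit 4) (nat_lit 338) (nat_lit 259) (nat_lit 183)) (XT.lf (nat_lit 0) (nat_lit 33365324851) (nat_lit 76) (nat_lit 3225968966) (nat_lit 152) (nat_lit 28075709447) (nat_lit 10) (nat_lit 5) (nat_lit 11) (nat_lit 5) (nat_lit 12) (nat_lit 4) (nat_lit 339) (nat_lit 259) (nat_lit 182))) (XT.nd (nat_lit 78) (nat_lit 76) (nat_lit 0) (XT.lf (nat_lit 0) (nat_lit 46236554851) (nat_lit 152) (nat_lit 14896098435) (nat_lit 0) (nat_lit 6468013186) (nat_lit 10) (nat_lit 5) (nat_lit 12) (nat_lit 4) (nat_lit 10) (nat_lit 4) (nat_lit 340) (nat_lit 259) (nat_lit 181)) (XT.lf (nat_lit 0) (nat_lit 2304922866) (nat_lit 76) (nat_lit 54093349731) (nat_lit 76) (nat_lit 14281723170) (nat_lit 9) (nat_lit 4) (nat_lit 10) (nat_lit 5) (nat_lit 10) (nat_lit 4)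 (nat_lit 341) (nat_lit 259) (nat_lit 180)))))) (XT.nd (nat_lit 468) (nat_lit 76) (nat_lit 0) (XT.nd (nat_lit 234) (nat_lit 76) (nat_lit 0) (XT.nd (nat_lit 78) (nat_lit 76) (nat_lit 0) (XT.lf (nat_lit 0) (nat_lit 20641093237) (nat_lit 76) (nat_lit 46560431474) (nat_lit 76) (nat_lit 6707771679) (nat_lit 9) (nat_lit 4) (nat_lit 10) (nat_lit 5) (nat_lit 10) (nat_lit 4) (nat_lit 342) (nat_lit 259) (nat_lit 179)) (XT.nd (nat_lit 78) (nat_lit 0) (nat_lit 0) (XT.lf (nat_lit 0) (nat_lit 1201443598) (nat_lit 152) (nat_lit 37452808560) (nat_lit 76) (nat_lit 38646032834) (nat_lit 8) (nat_lit 5) (nat_lit 10) (nat_lit 5) (nat_lit 9) (nat_lit 4) (nat_lit 343) (nat_lit 259) (nat_lit 178)) (XT.lf (nat_lit 0) (nat_lit 9350451981) (nat_lit 152) (nat_lit 20947539897) (nat_lit 76) (nat_lit 50561354287) (nat_lit 8) (nat_lit 5) (nat_lit 10) (nat_lit 5) (nat_lit 9) (nat_lit 4) (nat_lit 344) (nat_lit 259) (nat_lit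 177)))) (XT.nd (nat_lit 78) (nat_lit 76) (nat_lit 0) (XT.lf (nat_lit 0) (nat_lit 17889548654) (nat_lit 152) (nat_lit 3648619700) (nat_lit 76) (nat_lit 63058719882) (nat_lit 8) (nat_lit 5) (nat_lit 10) (nat_lit 5) (nat_lit 9) (nat_lit 4) (nat_lit 345) (nat_lit 259) (nat_lit 176)) (XT.nd (nat_lit 78) (nat_lit 0) (nat_lit 0) (XT.lf (nat_lit 0) (nat_lit 14773422622) (nat_lit 76) (nat_lit 12207653355) (nat_lit 152) (nat_lit 61536473804) (nat_lit 7) (nat_lit 5) (nat_lit 8) (nat_lit 5) (nat_lit 9) (nat_lit 4) (nat_lit 346) (nat_lit 259) (nat_lit 175)) (XT.lf (nat_lit 0) (nat_lit 34163568909) (nat_lit 76) (nat_lit 2385141009) (nat_lit 152) (nat_lit 56084894907) (nat_lit 7) (nat_lit 5) (nat_lit 8) (nat_lit 5) (nat_lit 9) (nat_lit 4) (nat_lit 347) (nat_lit 259) (nat_lit 174))))) (XT.nd (nat_lit 234) (nat_lit 76) (nat_lit 0) (XT.nd (nat_lit 78) (nat_lit 0) (nat_lit 0) (XT.lf (nat_lit 0) (nat_lit 46655552363)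 (nat_lit 152) (nat_lit 42536647719) (nat_lit 0) (nat_lit 7761443763) (nat_lit 7) (nat_lit 5) (nat_lit 9) (nat_lit 4) (nat_lit 7) (nat_lit 4) (nat_lit 348) (nat_lit 259) (nat_lit 173)) (XT.nd (nat_lit 78) (nat_lit 0) (nat_lit 0) (XT.lf (nat_lit 0) (nat_lit 57277156681) (nat_lit 152) (nat_lit 25857515388) (nat_lit 0) (nat_lit 18354735893) (nat_lit 7) (nat_lit 5) (nat_lit 9) (nat_lit 4) (nat_lit 7) (nat_lit 4) (nat_lit 349) (nat_lit 259) (nat_lit 172)) (XT.lf (nat_lit 0) (nat_lit 68415884973) (nat_lit 152) (nat_lit 8369999271) (nat_lit 0) (nat_lit 29466500197) (nat_lit 7) (nat_lit 5) (nat_lit 9) (nat_lit 4) (nat_lit 7) (nat_lit 4) (nat_lit 350) (nat_lit 259) (nat_lit 171)))) (XT.nd (nat_lit 156) (nat_lit 0) (nat_lit 0) (XT.nd (nat_lit 78) (nat_lit 0) (nat_lit 0) (XT.lf (nat_lit 0) (nat_lit 10165911118) (nat_lit 76) (nat_lit 70030067858) (nat_lit 76) (nat_lit 31055003094) (nat_lit 6) (nat_lit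 4) (nat_lit 7) (nat_lit 5) (nat_lit 7) (nat_lit 4) (nat_lit 351) (nat_lit 259) (nat_lit 170)) (XT.lf (nat_lit 0) (nat_lit 29779868451) (nat_lit 76) (nat_lit 62858484858) (nat_lit 76) (nat_lit 23858962961) (nat_lit 6) (nat_lit 4) (nat_lit 7) (nat_lit 5) (nat_lit 7) (nat_lit 4) (nat_lit 352) (nat_lit 259) (nat_lit 169))) (XT.nd (nat_lit 78) (nat_lit 0) (nat_lit 0) (XT.lf (nat_lit 0) (nat_lit 50351993230) (nat_lit 76) (nat_lit 55338580626) (nat_lit 76) (nat_lit 16315766222) (nat_lit 6) (nat_lit 4) (nat_lit 7) (nat_lit 5) (nat_lit 7) (nat_lit 4) (nat_lit 353) (nat_lit 259) (nat_lit 168)) (XT.lf (nat_lit 0) (nat_lit 71931266704) (nat_lit 76) (nat_lit 47452450629) (nat_lit 76) (nat_lit 8407452885) (nat_lit 6) (nat_lit 4) (nat_lit 7) (nat_lit 5) (nat_lit 7) (nat_lit 4) (nat_lit 354) (nat_lit 259) (nat_lit 167))))))) (XT.nd (nat_lit 33696) (nat_lit 0) (nat_lit 12084) (XT.nd (nat_lit 468) (nat_lit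 0) (nat_lit 0) (XT.nd (nat_lit 234) (nat_lit 76) (nat_lit 0) (XT.nd (nat_lit 78) (nat_lit 76) (nat_lit 0) (XT.lf (nat_lit 0) (nat_lit 94569068095) (nat_lit 76) (nat_lit 39181318366) (nat_lit 76) (nat_lit 115193632) (nat_lit 6) (nat_lit 4) (nat_lit 7) (nat_lit 5) (nat_lit 7) (nat_lit 4) (nat_lit 355) (nat_lit 259) (nat_lit 166)) (XT.nd (nat_lit 78) (nat_lit 0) (nat_lit 0) (XT.lf (nat_lit 0) (nat_lit 8413313574) (nat_lit 152) (nat_lit 22007219121) (nat_lit 76) (nat_lit 109821025385) (nat_lit 5) (nat_lit 5) (nat_lit 7) (nat_lit 5) (nat_lit 6) (nat_lit 4) (nat_lit 356) (nat_lit 259) (nat_lit 165)) (XT.lf (nat_lit 0) (nat_lit 17355685512) (nat_lit 152) (nat_lit 3873366891) (nat_lit 76) (nat_lit 125707557469) (nat_lit 5) (nat_lit 5) (nat_lit 7) (nat_lit 5) (nat_lit 6) (nat_lit 4) (nat_lit 357) (nat_lit 259) (nat_lit 164)))) (XT.nd (nat_lit 78) (nat_lit 0) (nat_lit 0) (XT.lf (nat_lit 0) (nat_lit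 15450829171) (nat_lit 76) (nat_lit 11433155036) (nat_lit 152) (nat_lit 127078269393) (nat_lit 4) (nat_lit 5) (nat_lit 5) (nat_lit 5) (nat_lit 6) (nat_lit 4) (nat_lit 358) (nat_lit 259) (nat_lit 163)) (XT.nd (nat_lit 78) (nat_lit 0) (nat_lit 0) (XT.lf (nat_lit 0) (nat_lit 35804838574) (nat_lit 76) (nat_lit 1114313431) (nat_lit 152) (nat_lit 124419117305) (nat_lit 4) (nat_lit 5) (nat_lit 5) (nat_lit 5) (nat_lit 6) (nat_lit 4) (nat_lit 359) (nat_lit 259) (nat_lit 162)) (XT.lf (nat_lit 0) (nat_lit 47540474581) (nat_lit 152) (nat_lit 112016689125) (nat_lit 0) (nat_lit 9523393467) (nat_lit 4) (nat_lit 5) (nat_lit 6) (nat_lit 4) (nat_lit 4) (nat_lit 4) (nat_lit 360) (nat_lit 259) (nat_lit 161))))) (XT.nd (nat_lit 32916) (nat_lit 0) (nat_lit 21888) (XT.nd (nat_lit 32760) (nat_lit 0) (nat_lit 22572) (XT.lf (nat_lit 0) (nat_lit 58695498207) (nat_lit 152) (nat_lit 97851274287) (nat_lit 0) (nat_lit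 20663110991) (nat_lit 4) (nat_lit 5) (nat_lit 6) (nat_lit 4) (nat_lit 4) (nat_lit 4) (nat_lit 361) (nat_lit 259) (nat_lit 160)) (XT.nd (nat_lit 78) (nat_lit 76) (nat_lit 0) (XT.lf (nat_lit 0) (nat_lit 1073741823) (nat_lit 0) (nat_lit 0) (nat_lit 0) (nat_lit 0) (nat_lit 302) (nat_lit 0) (nat_lit 1) (nat_lit 0) (nat_lit 1) (nat_lit 0) (nat_lit 260) (nat_lit 260) (nat_lit 260)) (XT.lf (nat_lit 0) (nat_lit 4778032993) (nat_lit 76) (nat_lit 1542951138) (nat_lit 0) (nat_lit 125151756) (nat_lit 301) (nat_lit 5) (nat_lit 302) (nat_lit 0) (nat_lit 301) (nat_lit 4) (nat_lit 261) (nat_lit 260) (nat_lit 259)))) (XT.nd (nat_lit 156) (nat_lit 304) (nat_lit 0) (XT.nd (nat_lit 78) (nat_lit 228) (nat_lit 0) (XT.lf (nat_lit 0) (nat_lit 3005521498) (nat_lit 152) (nat_lit 2982988059) (nat_lit 76) (nat_lit 469628239) (nat_lit 299) (nat_lit 5) (nat_lit 301) (nat_lit 5) (nat_lit 300) (nat_lit 4) (nat_lit 262)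 (nat_lit 260) (nat_lit 258)) (XT.lf (nat_lit 0) (nat_lit 1119337600) (nat_lit 228) (nat_lit 4324816909) (nat_lit 76) (nat_lit 1034328375) (nat_lit 296) (nat_lit 5) (nat_lit 299) (nat_lit 5) (nat_lit 297) (nat_lit 5) (nat_lit 263) (nat_lit 260) (nat_lit 257))) (XT.nd (nat_lit 78) (nat_lit 76) (nat_lit 0) (XT.lf (nat_lit 0) (nat_lit 925357681) (nat_lit 228) (nat_lit 4677546242) (nat_lit 304) (nat_lit 904051300) (nat_lit 293) (nat_lit 5) (nat_lit 296) (nat_lit 5) (nat_lit 297) (nat_lit 5) (nat_lit 264) (nat_lit 260) (nat_lit 256)) (XT.lf (nat_lit 0) (nat_lit 3467593410) (nat_lit 304) (nat_lit 213341738) (nat_lit 76) (nat_lit 2862514902) (nat_lit 292) (nat_lit 5) (nat_lit 296) (nat_lit 5) (nat_lit 293) (nat_lit 5) (nat_lit 265) (nat_lit 260) (nat_lit 255)))))) (XT.nd (nat_lit 546) (nat_lit 5776) (nat_lit 0) (XT.nd (nat_lit 234) (nat_lit 2736) (nat_lit 0) (XT.nd (nat_lit 78) (nat_lit 912) (nat_lit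 0) (XT.lf (nat_lit 0) (nat_lit 1213772326) (nat_lit 380) (nat_lit 1243167930) (nat_lit 76) (nat_lit 4131259397) (nat_lit 287) (nat_lit 5) (nat_lit 292) (nat_lit 5) (nat_lit 288) (nat_lit 5) (nat_lit 266) (nat_lit 260) (nat_lit 254)) (XT.nd (nat_lit 78) (nat_lit 532) (nat_lit 0) (XT.lf (nat_lit 0) (nat_lit 4443754504) (nat_lit 380) (nat_lit 999670804) (nat_lit 456) (nat_lit 1197798577) (nat_lit 282) (nat_lit 5) (nat_lit 287) (nat_lit 5) (nat_lit 288) (nat_lit 5) (nat_lit 267) (nat_lit 260) (nat_lit 253)) (XT.lf (nat_lit 0) (nat_lit 2931188946) (nat_lit 532) (nat_lit 3088328084) (nat_lit 76) (nat_lit 682869459) (nat_lit 275) (nat_lit 5) (nat_lit 282) (nat_lit 5) (nat_lit 276) (nat_lit 5) (nat_lit 268) (nat_lit 260) (nat_lit 252)))) (XT.nd (nat_lit 156) (nat_lit 1520) (nat_lit 0) (XT.nd (nat_lit 78) (nat_lit 608) (nat_lit 0) (XT.lf (nat_lit 0) (nat_lit 287096657) (nat_lit 608) (nat_lit 3912522847)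 (nat_lit 76) (nat_lit 2572406263) (nat_lit 267) (nat_lit 5) (nat_lit 275) (nat_lit 5) (nat_lit 268) (nat_lit 5) (nat_lit 269) (nat_lit 260) (nat_lit 251)) (XT.lf (nat_lit 0) (nat_lit 2161355462) (nat_lit 608) (nat_lit 2131933771) (nat_lit 684) (nat_lit 2556557554) (nat_lit 259) (nat_lit 5) (nat_lit 267) (nat_lit 5) (nat_lit 268) (nat_lit 5) (nat_lit 270) (nat_lit 260) (nat_lit 250))) (XT.nd (nat_lit 78) (nat_lit 760) (nat_lit 0) (XT.lf (nat_lit 0) (nat_lit 1370819990) (nat_lit 760) (nat_lit 5401020858) (nat_lit 76) (nat_lit 164740983) (nat_lit 249) (nat_lit 5) (nat_lit 259) (nat_lit 5) (nat_lit 250) (nat_lit 5) (nat_lit 271) (nat_lit 260) (nat_lit 249)) (XT.lf (nat_lit 0) (nat_lit 942964500) (nat_lit 760) (nat_lit 4364261766) (nat_lit 836) (nat_lit 1724150457) (nat_lit 239) (nat_lit 5) (nat_lit 249) (nat_lit 5) (nat_lit 250) (nat_lit 5) (nat_lit 272) (nat_lit 260) (nat_lit 248))))) (XT.nd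 (nat_lit 234) (nat_lit 3876) (nat_lit 0) (XT.nd (nat_lit 78) (nat_lit 988) (nat_lit 0) (XT.lf (nat_lit 0) (nat_lit 402984248) (nat_lit 836) (nat_lit 1713389848) (nat_lit 912) (nat_lit 5018728914) (nat_lit 227) (nat_lit 5) (nat_lit 238) (nat_lit 5) (nat_lit 239) (nat_lit 5) (nat_lit 273) (nat_lit 260) (nat_lit 247)) (XT.nd (nat_lit 78) (nat_lit 988) (nat_lit 0) (XT.lf (nat_lit 0) (nat_lit 5987714980) (nat_lit 912) (nat_lit 96015844) (nat_lit 76) (nat_lit 1163934145) (nat_lit 227) (nat_lit 5) (nat_lit 239) (nat_lit 5) (nat_lit 228) (nat_lit 5) (nat_lit 274) (nat_lit 260) (nat_lit 246)) (XT.lf (nat_lit 0) (nat_lit 2525836276) (nat_lit 988) (nat_lit 570017094) (nat_lit 76) (nat_lit 4272847111) (nat_lit 214) (nat_lit 5) (nat_lit 227) (nat_lit 5) (nat_lit 215) (nat_lit 5) (nat_lit 275) (nat_lit 260) (nat_lit 245)))) (XT.nd (nat_lit 156) (nat_lit 1748) (nat_lit 0) (XT.nd (nat_lit 78) (nat_lit 1140)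 (nat_lit 0) (XT.lf (nat_lit 0) (nat_lit 6355288805) (nat_lit 1064) (nat_lit 1005267053) (nat_lit 76) (nat_lit 138792407) (nat_lit 201) (nat_lit 5) (nat_lit 215) (nat_lit 5) (nat_lit 202) (nat_lit 5) (nat_lit 276) (nat_lit 260) (nat_lit 244)) (XT.lf (nat_lit 0) (nat_lit 2604847567) (nat_lit 1140) (nat_lit 1452004410) (nat_lit 76) (nat_lit 3581649271) (nat_lit 186) (nat_lit 5) (nat_lit 201) (nat_lit 5) (nat_lit 187) (nat_lit 5) (nat_lit 277) (nat_lit 260) (nat_lit 243))) (XT.nd (nat_lit 78) (nat_lit 608) (nat_lit 0) (XT.lf (nat_lit 0) (nat_lit 5915229337) (nat_lit 1140) (nat_lit 497598391) (nat_lit 1216) (nat_lit 1374891929) (nat_lit 171) (nat_lit 5) (nat_lit 186) (nat_lit 5) (nat_lit 187) (nat_lit 5) (nat_lit 278) (nat_lit 260) (nat_lit 242)) (XT.lf (nat_lit 0) (nat_lit 2352818994) (nat_lit 608) (nat_lit 2317232334) (nat_lit 76) (nat_lit 3275895040) (nat_lit 163) (nat_lit 5) (nat_lit 171)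 (nat_lit 5) (nat_lit 164) (nat_lit 5) (nat_lit 279) (nat_lit 260) (nat_lit 241))))))))
noncomputable def xc50 : XT := (XT.nd (nat_lit 2028) (nat_lit 2508) (nat_lit 0) (XT.nd (nat_lit 1014) (nat_lit 3192) (nat_lit 0) (XT.nd (nat_lit 468) (nat_lit 2508) (nat_lit 0) (XT.nd (nat_lit 234) (nat_lit 1444) (nat_lit 0) (XT.nd (nat_lit 78) (nat_lit 1140) (nat_lit 0) (XT.lf (nat_lit 0) (nat_lit 5355481802) (nat_lit 608) (nat_lit 798240707) (nat_lit 684) (nat_lit 1960765958) (nat_lit 155) (nat_lit 5) (nat_lit 163) (nat_lit 5) (nat_lit 164) (nat_lit 5) (nat_lit 280) (nat_lit 260) (nat_lit 240)) (XT.nd (nat_lit 78) (nat_lit 532) (nat_lit 0) (XT.lf (nat_lit 0) (nat_lit 1765697588) (nat_lit 608) (nat_lit 3236406347) (nat_lit 76) (nat_lit 3290609273) (nat_lit 147) (nat_lit 5) (nat_lit 155) (nat_lit 5) (nat_lit 148) (nat_lit 5) (nat_lit 281) (nat_lit 260) (nat_lit 239)) (XT.lf (nat_lit 0) (nat_lit 4744170628)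 (nat_lit 532) (nat_lit 825750518) (nat_lit 608) (nat_lit 2911623473) (nat_lit 140) (nat_lit 5) (nat_lit 147) (nat_lit 5) (nat_lit 148) (nat_lit 5) (nat_lit 282) (nat_lit 260) (nat_lit 238)))) (XT.nd (nat_lit 78) (nat_lit 912) (nat_lit 0) (XT.lf (nat_lit 0) (nat_lit 831720729) (nat_lit 532) (nat_lit 4286451326) (nat_lit 76) (nat_lit 3562676774) (nat_lit 133) (nat_lit 5) (nat_lit 140) (nat_lit 5) (nat_lit 134) (nat_lit 5) (nat_lit 283) (nat_lit 260) (nat_lit 237)) (XT.nd (nat_lit 78) (nat_lit 456) (nat_lit 0) (XT.lf (nat_lit 0) (nat_lit 4002324824) (nat_lit 456) (nat_lit 644552258) (nat_lit 532) (nat_lit 4244239615) (nat_lit 127) (nat_lit 5) (nat_lit 133) (nat_lit 5) (nat_lit 134) (nat_lit 5) (nat_lit 284) (nat_lit 260) (nat_lit 236)) (XT.lf (nat_lit 0) (nat_lit 3555431888) (nat_lit 456) (nat_lit 5078756888) (nat_lit 532) (nat_lit 478466440) (nat_lit 121) (nat_lit 5) (nat_lit 127) (nat_lit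 5) (nat_lit 128) (nat_lit 5) (nat_lit 285) (nat_lit 260) (nat_lit 235))))) (XT.nd (nat_lit 234) (nat_lit 1140) (nat_lit 0) (XT.nd (nat_lit 78) (nat_lit 836) (nat_lit 0) (XT.lf (nat_lit 0) (nat_lit 3041852160) (nat_lit 456) (nat_lit 319711643) (nat_lit 532) (nat_lit 5984275048) (nat_lit 114) (nat_lit 5) (nat_lit 120) (nat_lit 5) (nat_lit 121) (nat_lit 5) (nat_lit 286) (nat_lit 260) (nat_lit 234)) (XT.nd (nat_lit 78) (nat_lit 456) (nat_lit 0) (XT.lf (nat_lit 0) (nat_lit 2438653714) (nat_lit 380) (nat_lit 4943148266) (nat_lit 456) (nat_lit 2208969918) (nat_lit 109) (nat_lit 5) (nat_lit 114) (nat_lit 5) (nat_lit 115) (nat_lit 5) (nat_lit 287) (nat_lit 260) (nat_lit 233)) (XT.lf (nat_lit 0) (nat_lit 1682433217) (nat_lit 456) (nat_lit 8086528006) (nat_lit 76) (nat_lit 79798991) (nat_lit 103) (nat_lit 5) (nat_lit 109) (nat_lit 5) (nat_lit 104) (nat_lit 5) (nat_lit 288) (nat_lit 260) (nat_lit 232))))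 (XT.nd (nat_lit 156) (nat_lit 380) (nat_lit 0) (XT.nd (nat_lit 78) (nat_lit 380) (nat_lit 0) (XT.lf (nat_lit 0) (nat_lit 946039752) (nat_lit 380) (nat_lit 4789749717) (nat_lit 456) (nat_lit 4382964773) (nat_lit 98) (nat_lit 5) (nat_lit 103) (nat_lit 5) (nat_lit 104) (nat_lit 5) (nat_lit 289) (nat_lit 260) (nat_lit 231)) (XT.lf (nat_lit 0) (nat_lit 42526243) (nat_lit 380) (nat_lit 9921275213) (nat_lit 456) (nat_lit 439433984) (nat_lit 93) (nat_lit 5) (nat_lit 98) (nat_lit 5) (nat_lit 99) (nat_lit 5) (nat_lit 290) (nat_lit 260) (nat_lit 230))) (XT.nd (nat_lit 78) (nat_lit 304) (nat_lit 0) (XT.lf (nat_lit 0) (nat_lit 3658928316) (nat_lit 456) (nat_lit 1024512215) (nat_lit 76) (nat_lit 6016672414) (nat_lit 92) (nat_lit 5) (nat_lit 98) (nat_lit 5) (nat_lit 93) (nat_lit 5) (nat_lit 291) (nat_lit 260) (nat_lit 229)) (XT.lf (nat_lit 0) (nat_lit 7937804091) (nat_lit 380) (nat_lit 2218691106) (nat_lit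 76) (nat_lit 855797640) (nat_lit 88) (nat_lit 5) (nat_lit 93) (nat_lit 5) (nat_lit 89) (nat_lit 5) (nat_lit 292) (nat_lit 260) (nat_lit 228)))))) (XT.nd (nat_lit 468) (nat_lit 1520) (nat_lit 0) (XT.nd (nat_lit 234) (nat_lit 608) (nat_lit 0) (XT.nd (nat_lit 78) (nat_lit 608) (nat_lit 0) (XT.lf (nat_lit 0) (nat_lit 1096872799) (nat_lit 456) (nat_lit 3604488713) (nat_lit 76) (nat_lit 6637697167) (nat_lit 82) (nat_lit 5) (nat_lit 88) (nat_lit 5) (nat_lit 83) (nat_lit 5) (nat_lit 293) (nat_lit 260) (nat_lit 227)) (XT.nd (nat_lit 78) (nat_lit 304) (nat_lit 0) (XT.lf (nat_lit 0) (nat_lit 5407697516) (nat_lit 380) (nat_lit 5186893306) (nat_lit 76) (nat_lit 1086938445) (nat_lit 78) (nat_lit 5) (nat_lit 83) (nat_lit 5) (nat_lit 79) (nat_lit 5) (nat_lit 294) (nat_lit 260) (nat_lit 226)) (XT.lf (nat_lit 0) (nat_lit 5045523034) (nat_lit 304) (nat_lit 4922798381) (nat_lit 380) (nat_lit 2071882875) (nat_lit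 74) (nat_lit 5) (nat_lit 78) (nat_lit 5) (nat_lit 79) (nat_lit 5) (nat_lit 295) (nat_lit 260) (nat_lit 225)))) (XT.nd (nat_lit 78) (nat_lit 304) (nat_lit 0) (XT.lf (nat_lit 0) (nat_lit 2294818691) (nat_lit 304) (nat_lit 9038505400) (nat_lit 76) (nat_lit 1082904972) (nat_lit 70) (nat_lit 5) (nat_lit 74) (nat_lit 5) (nat_lit 71) (nat_lit 5) (nat_lit 296) (nat_lit 260) (nat_lit 224)) (XT.nd (nat_lit 78) (nat_lit 0) (nat_lit 0) (XT.lf (nat_lit 0) (nat_lit 1426784944) (nat_lit 304) (nat_lit 5452890547) (nat_lit 380) (nat_lit 5929579749) (nat_lit 66) (nat_lit 5) (nat_lit 70) (nat_lit 5) (nat_lit 71) (nat_lit 5) (nat_lit 297) (nat_lit 260) (nat_lit 223)) (XT.lf (nat_lit 0) (nat_lit 11703633300) (nat_lit 380) (nat_lit 757070226) (nat_lit 76) (nat_lit 761024573) (nat_lit 66) (nat_lit 5) (nat_lit 71) (nat_lit 5) (nat_lit 67) (nat_lit 5) (nat_lit 298) (nat_lit 260) (nat_lit 222))))) (XT.nd (nat_lit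 234) (nat_lit 760) (nat_lit 0) (XT.nd (nat_lit 78) (nat_lit 456) (nat_lit 0) (XT.lf (nat_lit 0) (nat_lit 3122286308) (nat_lit 304) (nat_lit 3263467709) (nat_lit 76) (nat_lit 7266184238) (nat_lit 62) (nat_lit 5) (nat_lit 66) (nat_lit 5) (nat_lit 63) (nat_lit 5) (nat_lit 299) (nat_lit 260) (nat_lit 221)) (XT.nd (nat_lit 78) (nat_lit 228) (nat_lit 0) (XT.lf (nat_lit 0) (nat_lit 7964378513) (nat_lit 304) (nat_lit 6085034412) (nat_lit 76) (nat_lit 53842657) (nat_lit 59) (nat_lit 5) (nat_lit 63) (nat_lit 5) (nat_lit 60) (nat_lit 5) (nat_lit 300) (nat_lit 260) (nat_lit 220)) (XT.lf (nat_lit 0) (nat_lit 5269579315) (nat_lit 228) (nat_lit 7845813832) (nat_lit 304) (nat_lit 1459817511) (nat_lit 56) (nat_lit 5) (nat_lit 59) (nat_lit 5) (nat_lit 60) (nat_lit 5) (nat_lit 301) (nat_lit 260) (nat_lit 219)))) (XT.nd (nat_lit 156) (nat_lit 456) (nat_lit 0) (XT.nd (nat_lit 78) (nat_lit 0) (nat_lit 0) (XT.lf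 (nat_lit 0) (nat_lit 2135430498) (nat_lit 228) (nat_lit 1253845132) (nat_lit 304) (nat_lit 11680458745) (nat_lit 52) (nat_lit 5) (nat_lit 55) (nat_lit 5) (nat_lit 56) (nat_lit 5) (nat_lit 302) (nat_lit 260) (nat_lit 218)) (XT.lf (nat_lit 0) (nat_lit 8524095028) (nat_lit 304) (nat_lit 1434375843) (nat_lit 76) (nat_lit 5627943207) (nat_lit 52) (nat_lit 5) (nat_lit 56) (nat_lit 5) (nat_lit 53) (nat_lit 5) (nat_lit 303) (nat_lit 260) (nat_lit 217))) (XT.nd (nat_lit 78) (nat_lit 304) (nat_lit 0) (XT.lf (nat_lit 0) (nat_lit 10721773876) (nat_lit 152) (nat_lit 3235276262) (nat_lit 228) (nat_lit 2170699876) (nat_lit 50) (nat_lit 5) (nat_lit 52) (nat_lit 5) (nat_lit 53) (nat_lit 5) (nat_lit 304) (nat_lit 260) (nat_lit 216)) (XT.lf (nat_lit 0) (nat_lit 2952823549) (nat_lit 304) (nat_lit 9921862544) (nat_lit 76) (nat_lit 3819315002) (nat_lit 46) (nat_lit 5) (nat_lit 50) (nat_lit 5) (nat_lit 47) (nat_lit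 5) (nat_lit 305) (nat_lit 260) (nat_lit 215))))))) (XT.nd (nat_lit 1014) (nat_lit 988) (nat_lit 0) (XT.nd (nat_lit 468) (nat_lit 760) (nat_lit 0) (XT.nd (nat_lit 234) (nat_lit 304) (nat_lit 0) (XT.nd (nat_lit 78) (nat_lit 304) (nat_lit 0) (XT.lf (nat_lit 0) (nat_lit 2262199205) (nat_lit 152) (nat_lit 6065828457) (nat_lit 228) (nat_lit 8958736806) (nat_lit 44) (nat_lit 5) (nat_lit 46) (nat_lit 5) (nat_lit 47) (nat_lit 5) (nat_lit 306) (nat_lit 260) (nat_lit 214)) (XT.nd (nat_lit 78) (nat_lit 304) (nat_lit 0) (XT.lf (nat_lit 0) (nat_lit 14016861617) (nat_lit 228) (nat_lit 2765289603) (nat_lit 76) (nat_lit 1125722452) (nat_lit 44) (nat_lit 5) (nat_lit 47) (nat_lit 5) (nat_lit 45) (nat_lit 5) (nat_lit 307) (nat_lit 260) (nat_lit 213)) (XT.lf (nat_lit 0) (nat_lit 1496322419) (nat_lit 304) (nat_lit 8433700009) (nat_lit 76) (nat_lit 8626829304) (nat_lit 40) (nat_lit 5) (nat_lit 44) (nat_lit 5)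 (nat_lit 41) (nat_lit 5) (nat_lit 308) (nat_lit 260) (nat_lit 212)))) (XT.nd (nat_lit 78) (nat_lit 152) (nat_lit 0) (XT.lf (nat_lit 0) (nat_lit 4419461349) (nat_lit 152) (nat_lit 2661104264) (nat_lit 228) (nat_lit 12156364245) (nat_lit 38) (nat_lit 5) (nat_lit 40) (nat_lit 5) (nat_lit 41) (nat_lit 5) (nat_lit 309) (nat_lit 260) (nat_lit 211)) (XT.nd (nat_lit 78) (nat_lit 152) (nat_lit 0) (XT.lf (nat_lit 0) (nat_lit 13017226422) (nat_lit 228) (nat_lit 2007693292) (nat_lit 76) (nat_lit 4923941094) (nat_lit 38) (nat_lit 5) (nat_lit 41) (nat_lit 5) (nat_lit 39) (nat_lit 5) (nat_lit 310) (nat_lit 260) (nat_lit 210)) (XT.lf (nat_lit 0) (nat_lit 11543675093) (nat_lit 152) (nat_lit 7785575485) (nat_lit 228) (nat_lit 1364824751) (nat_lit 36) (nat_lit 5) (nat_lit 38) (nat_lit 5) (nat_lit 39) (nat_lit 5) (nat_lit 311) (nat_lit 260) (nat_lit 209))))) (XT.nd (nat_lit 234) (nat_lit 380) (nat_lit 0) (XT.nd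 (nat_lit 78) (nat_lit 152) (nat_lit 0) (XT.lf (nat_lit 0) (nat_lit 4283245615) (nat_lit 152) (nat_lit 113710834) (nat_lit 228) (nat_lit 17078220046) (nat_lit 33) (nat_lit 5) (nat_lit 35) (nat_lit 5) (nat_lit 36) (nat_lit 5) (nat_lit 312) (nat_lit 260) (nat_lit 208)) (XT.nd (nat_lit 78) (nat_lit 152) (nat_lit 0) (XT.lf (nat_lit 0) (nat_lit 10533858038) (nat_lit 228) (nat_lit 3898089676) (nat_lit 76) (nat_lit 7859559678) (nat_lit 33) (nat_lit 5) (nat_lit 36) (nat_lit 5) (nat_lit 34) (nat_lit 5) (nat_lit 313) (nat_lit 260) (nat_lit 207)) (XT.lf (nat_lit 0) (nat_lit 10167875400) (nat_lit 152) (nat_lit 6854832809) (nat_lit 228) (nat_lit 6124629527) (nat_lit 31) (nat_lit 5) (nat_lit 33) (nat_lit 5) (nat_lit 34) (nat_lit 5) (nat_lit 314) (nat_lit 260) (nat_lit 206)))) (XT.nd (nat_lit 156) (nat_lit 152) (nat_lit 0) (XT.nd (nat_lit 78) (nat_lit 76) (nat_lit 0) (XT.lf (nat_lit 0) (nat_lit 891745476)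 (nat_lit 152) (nat_lit 22951536928) (nat_lit 228) (nat_lit 202493041) (nat_lit 29) (nat_lit 5) (nat_lit 31) (nat_lit 5) (nat_lit 32) (nat_lit 4) (nat_lit 315) (nat_lit 260) (nat_lit 205)) (XT.lf (nat_lit 0) (nat_lit 6051218267) (nat_lit 228) (nat_lit 9472747726) (nat_lit 76) (nat_lit 9458880232) (nat_lit 28) (nat_lit 5) (nat_lit 31) (nat_lit 5) (nat_lit 29) (nat_lit 5) (nat_lit 316) (nat_lit 260) (nat_lit 204))) (XT.nd (nat_lit 78) (nat_lit 0) (nat_lit 0) (XT.lf (nat_lit 0) (nat_lit 4903351274) (nat_lit 152) (nat_lit 7708424618) (nat_lit 228) (nat_lit 13355014247) (nat_lit 26) (nat_lit 5) (nat_lit 28) (nat_lit 5) (nat_lit 29) (nat_lit 5) (nat_lit 317) (nat_lit 260) (nat_lit 203)) (XT.lf (nat_lit 0) (nat_lit 19556033768) (nat_lit 228) (nat_lit 6888186748) (nat_lit 76) (nat_lit 554069322) (nat_lit 26) (nat_lit 5) (nat_lit 29) (nat_lit 5) (nat_lit 27) (nat_lit 4) (nat_lit 318) (nat_lit 260)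 (nat_lit 202)))))) (XT.nd (nat_lit 546) (nat_lit 380) (nat_lit 0) (XT.nd (nat_lit 234) (nat_lit 304) (nat_lit 0) (XT.nd (nat_lit 78) (nat_lit 228) (nat_lit 0) (XT.lf (nat_lit 0) (nat_lit 7996312155) (nat_lit 76) (nat_lit 18960534393) (nat_lit 152) (nat_lit 1121265105) (nat_lit 25) (nat_lit 5) (nat_lit 26) (nat_lit 5) (nat_lit 27) (nat_lit 4) (nat_lit 319) (nat_lit 260) (nat_lit 201)) (XT.nd (nat_lit 78) (nat_lit 152) (nat_lit 0) (XT.lf (nat_lit 0) (nat_lit 5435398470) (nat_lit 152) (nat_lit 5570970597) (nat_lit 76) (nat_lit 18203172514) (nat_lit 24) (nat_lit 5) (nat_lit 26) (nat_lit 5) (nat_lit 25) (nat_lit 5) (nat_lit 320) (nat_lit 260) (nat_lit 200)) (XT.lf (nat_lit 0) (nat_lit 9771979486) (nat_lit 152) (nat_lit 2576634013) (nat_lit 228) (nat_lit 18047063347) (nat_lit 22) (nat_lit 5) (nat_lit 24) (nat_lit 5) (nat_lit 25) (nat_lit 5) (nat_lit 321) (nat_lit 260) (nat_lit 199)))) (XT.nd (nat_lit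 156) (nat_lit 228) (nat_lit 0) (XT.nd (nat_lit 78) (nat_lit 76) (nat_lit 0) (XT.lf (nat_lit 0) (nat_lit 19684523934) (nat_lit 228) (nat_lit 5773454402) (nat_lit 76) (nat_lit 6180852471) (nat_lit 22) (nat_lit 5) (nat_lit 25) (nat_lit 5) (nat_lit 23) (nat_lit 4) (nat_lit 322) (nat_lit 260) (nat_lit 198)) (XT.lf (nat_lit 0) (nat_lit 9918587218) (nat_lit 76) (nat_lit 17550757976) (nat_lit 152) (nat_lit 5472355691) (nat_lit 21) (nat_lit 5) (nat_lit 22) (nat_lit 5) (nat_lit 23) (nat_lit 4) (nat_lit 323) (nat_lit 260) (nat_lit 197))) (XT.nd (nat_lit 78) (nat_lit 152) (nat_lit 0) (XT.lf (nat_lit 0) (nat_lit 1329288466) (nat_lit 152) (nat_lit 7872543303) (nat_lit 76) (nat_lit 25106869703) (nat_lit 20) (nat_lit 5) (nat_lit 22) (nat_lit 5) (nat_lit 21) (nat_lit 5) (nat_lit 324) (nat_lit 260) (nat_lit 196)) (XT.lf (nat_lit 0) (nat_lit 8073986482) (nat_lit 152) (nat_lit 325943914) (nat_lit 228) (nat_lit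 27341252737) (nat_lit 18) (nat_lit 5) (nat_lit 20) (nat_lit 5) (nat_lit 21) (nat_lit 5) (nat_lit 325) (nat_lit 260) (nat_lit 195))))) (XT.nd (nat_lit 234) (nat_lit 304) (nat_lit 0) (XT.nd (nat_lit 78) (nat_lit 76) (nat_lit 0) (XT.lf (nat_lit 0) (nat_lit 15956718129) (nat_lit 228) (nat_lit 12410639279) (nat_lit 76) (nat_lit 8873971406) (nat_lit 18) (nat_lit 5) (nat_lit 21) (nat_lit 5) (nat_lit 19) (nat_lit 4) (nat_lit 326) (nat_lit 260) (nat_lit 194)) (XT.nd (nat_lit 78) (nat_lit 0) (nat_lit 0) (XT.lf (nat_lit 0) (nat_lit 3616132580) (nat_lit 76) (nat_lit 20279279281) (nat_lit 152) (nat_lit 14920965395) (nat_lit 17) (nat_lit 5) (nat_lit 18) (nat_lit 5) (nat_lit 19) (nat_lit 4) (nat_lit 327) (nat_lit 260) (nat_lit 193)) (XT.lf (nat_lit 0) (nat_lit 20645418230) (nat_lit 76) (nat_lit 11680454034) (nat_lit 152) (nat_lit 8141477539) (nat_lit 17) (nat_lit 5) (nat_lit 18) (nat_lit 5) (nat_lit 19)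 (nat_lit 4) (nat_lit 328) (nat_lit 260) (nat_lit 192)))) (XT.nd (nat_lit 156) (nat_lit 76) (nat_lit 0) (XT.nd (nat_lit 78) (nat_lit 228) (nat_lit 0) (XT.lf (nat_lit 0) (nat_lit 38470767532) (nat_lit 76) (nat_lit 2675731397) (nat_lit 152) (nat_lit 1055328602) (nat_lit 17) (nat_lit 5) (nat_lit 18) (nat_lit 5) (nat_lit 19) (nat_lit 4) (nat_lit 329) (nat_lit 260) (nat_lit 191)) (XT.lf (nat_lit 0) (nat_lit 6425111570) (nat_lit 228) (nat_lit 30775774678) (nat_lit 76) (nat_lit 6815378802) (nat_lit 14) (nat_lit 5) (nat_lit 17) (nat_lit 5) (nat_lit 15) (nat_lit 4) (nat_lit 330) (nat_lit 260) (nat_lit 190))) (XT.nd (nat_lit 78) (nat_lit 76) (nat_lit 0) (XT.lf (nat_lit 0) (nat_lit 14294292928) (nat_lit 228) (nat_lit 14872245819) (nat_lit 76) (nat_lit 16753489841) (nat_lit 14) (nat_lit 5) (nat_lit 17) (nat_lit 5) (nat_lit 15) (nat_lit 4) (nat_lit 331) (nat_lit 260) (nat_lit 189)) (XT.lf (nat_lit 0)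 (nat_lit 1811793830) (nat_lit 76) (nat_lit 20734505165) (nat_lit 152) (nat_lit 25373013633) (nat_lit 13) (nat_lit 5) (nat_lit 14) (nat_lit 5) (nat_lit 15) (nat_lit 4) (nat_lit 332) (nat_lit 260) (nat_lit 188))))))))
noncomputable def xc51 : XT := (XT.nd (nat_lit 2028) (nat_lit 76) (nat_lit 0) (XT.nd (nat_lit 1014) (nat_lit 228) (nat_lit 0) (XT.nd (nat_lit 468) (nat_lit 228) (nat_lit 0) (XT.nd (nat_lit 234) (nat_lit 76) (nat_lit 0) (XT.nd (nat_lit 78) (nat_lit 76) (nat_lit 0) (XT.lf (nat_lit 0) (nat_lit 19592235204) (nat_lit 76) (nat_lit 11744585071) (nat_lit 152) (nat_lit 18677975808) (nat_lit 13) (nat_lit 5) (nat_lit 14) (nat_lit 5) (nat_lit 15) (nat_lit 4) (nat_lit 333) (nat_lit 260) (nat_lit 187)) (XT.nd (nat_lit 78) (nat_lit 76) (nat_lit 0) (XT.lf (nat_lit 0) (nat_lit 38215425833) (nat_lit 76) (nat_lit 2325554415) (nat_lit 152) (nat_lit 11674862139) (nat_lit 13) (nat_lit 5) (nat_lit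 14) (nat_lit 5) (nat_lit 15) (nat_lit 4) (nat_lit 334) (nat_lit 260) (nat_lit 186)) (XT.lf (nat_lit 0) (nat_lit 3187690559) (nat_lit 76) (nat_lit 47096172338) (nat_lit 76) (nat_lit 4240734155) (nat_lit 12) (nat_lit 4) (nat_lit 13) (nat_lit 5) (nat_lit 13) (nat_lit 4) (nat_lit 335) (nat_lit 260) (nat_lit 185)))) (XT.nd (nat_lit 78) (nat_lit 0) (nat_lit 0) (XT.lf (nat_lit 0) (nat_lit 3640229364) (nat_lit 152) (nat_lit 35519713631) (nat_lit 76) (nat_lit 17783488061) (nat_lit 11) (nat_lit 5) (nat_lit 13) (nat_lit 5) (nat_lit 12) (nat_lit 4) (nat_lit 336) (nat_lit 260) (nat_lit 184)) (XT.nd (nat_lit 78) (nat_lit 0) (nat_lit 0) (XT.lf (nat_lit 0) (nat_lit 11805185572) (nat_lit 152) (nat_lit 18996224968) (nat_lit 76) (nat_lit 28681217229) (nat_lit 11) (nat_lit 5) (nat_lit 13) (nat_lit 5) (nat_lit 12) (nat_lit 4) (nat_lit 337) (nat_lit 260) (nat_lit 183)) (XT.lf (nat_lit 0) (nat_lit 20356326835)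 (nat_lit 152) (nat_lit 1686334333) (nat_lit 76) (nat_lit 40106794660) (nat_lit 11) (nat_lit 5) (nat_lit 13) (nat_lit 5) (nat_lit 12) (nat_lit 4) (nat_lit 338) (nat_lit 260) (nat_lit 182))))) (XT.nd (nat_lit 234) (nat_lit 152) (nat_lit 0) (XT.nd (nat_lit 78) (nat_lit 0) (nat_lit 0) (XT.lf (nat_lit 0) (nat_lit 16778582883) (nat_lit 76) (nat_lit 12696716135) (nat_lit 152) (nat_lit 35470127230) (nat_lit 10) (nat_lit 5) (nat_lit 11) (nat_lit 5) (nat_lit 12) (nat_lit 4) (nat_lit 339) (nat_lit 260) (nat_lit 181)) (XT.nd (nat_lit 78) (nat_lit 0) (nat_lit 0) (XT.lf (nat_lit 0) (nat_lit 36165192635) (nat_lit 76) (nat_lit 2882021258) (nat_lit 152) (nat_lit 28834080209) (nat_lit 10) (nat_lit 5) (nat_lit 11) (nat_lit 5) (nat_lit 12) (nat_lit 4) (nat_lit 340) (nat_lit 260) (nat_lit 180)) (XT.lf (nat_lit 0) (nat_lit 49149536993) (nat_lit 152) (nat_lit 14549661326) (nat_lit 0) (nat_lit 7263210974) (nat_lit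 10) (nat_lit 5) (nat_lit 12) (nat_lit 4) (nat_lit 10) (nat_lit 4) (nat_lit 341) (nat_lit 260) (nat_lit 179)))) (XT.nd (nat_lit 156) (nat_lit 76) (nat_lit 0) (XT.nd (nat_lit 78) (nat_lit 0) (nat_lit 0) (XT.lf (nat_lit 0) (nat_lit 3480130807) (nat_lit 76) (nat_lit 56320772420) (nat_lit 76) (nat_lit 14395367130) (nat_lit 9) (nat_lit 4) (nat_lit 10) (nat_lit 5) (nat_lit 10) (nat_lit 4) (nat_lit 342) (nat_lit 260) (nat_lit 178)) (XT.lf (nat_lit 0) (nat_lit 22682635325) (nat_lit 76) (nat_lit 48433934194) (nat_lit 76) (nat_lit 6471310550) (nat_lit 9) (nat_lit 4) (nat_lit 10) (nat_lit 5) (nat_lit 10) (nat_lit 4) (nat_lit 343) (nat_lit 260) (nat_lit 177))) (XT.nd (nat_lit 78) (nat_lit 0) (nat_lit 0) (XT.lf (nat_lit 0) (nat_lit 1795507078) (nat_lit 152) (nat_lit 38353190324) (nat_lit 76) (nat_lit 41000367508) (nat_lit 8) (nat_lit 5) (nat_lit 10) (nat_lit 5) (nat_lit 9) (nat_lit 4) (nat_lit 344) (nat_lit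 260) (nat_lit 176)) (XT.lf (nat_lit 0) (nat_lit 10326537722) (nat_lit 152) (nat_lit 21068956259) (nat_lit 76) (nat_lit 53491358222) (nat_lit 8) (nat_lit 5) (nat_lit 10) (nat_lit 5) (nat_lit 9) (nat_lit 4) (nat_lit 345) (nat_lit 260) (nat_lit 175)))))) (XT.nd (nat_lit 468) (nat_lit 152) (nat_lit 0) (XT.nd (nat_lit 234) (nat_lit 0) (nat_lit 0) (XT.nd (nat_lit 78) (nat_lit 76) (nat_lit 0) (XT.lf (nat_lit 0) (nat_lit 19268371937) (nat_lit 152) (nat_lit 2949183416) (nat_lit 76) (nat_lit 66594452276) (nat_lit 8) (nat_lit 5) (nat_lit 10) (nat_lit 5) (nat_lit 9) (nat_lit 4) (nat_lit 346) (nat_lit 260) (nat_lit 174)) (XT.nd (nat_lit 78) (nat_lit 0) (nat_lit 0) (XT.lf (nat_lit 0) (nat_lit 16368682473) (nat_lit 76) (nat_lit 12430963119) (nat_lit 152) (nat_lit 64129510829) (nat_lit 7) (nat_lit 5) (nat_lit 8) (nat_lit 5) (nat_lit 9) (nat_lit 4) (nat_lit 347) (nat_lit 260) (nat_lit 173)) (XT.lf (nat_lit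 0) (nat_lit 36687546136) (nat_lit 76) (nat_lit 2135757199) (nat_lit 152) (nat_lit 58428390448) (nat_lit 7) (nat_lit 5) (nat_lit 8) (nat_lit 5) (nat_lit 9) (nat_lit 4) (nat_lit 348) (nat_lit 260) (nat_lit 172)))) (XT.nd (nat_lit 78) (nat_lit 0) (nat_lit 0) (XT.lf (nat_lit 0) (nat_lit 49417569526) (nat_lit 152) (nat_lit 43876959663) (nat_lit 0) (nat_lit 8493751523) (nat_lit 7) (nat_lit 5) (nat_lit 9) (nat_lit 4) (nat_lit 7) (nat_lit 4) (nat_lit 349) (nat_lit 260) (nat_lit 171)) (XT.nd (nat_lit 78) (nat_lit 0) (nat_lit 0) (XT.lf (nat_lit 0) (nat_lit 60549814081) (nat_lit 152) (nat_lit 26401324070) (nat_lit 0) (nat_lit 19600316089) (nat_lit 7) (nat_lit 5) (nat_lit 9) (nat_lit 4) (nat_lit 7) (nat_lit 4) (nat_lit 350) (nat_lit 260) (nat_lit 170)) (XT.lf (nat_lit 0) (nat_lit 72226012142) (nat_lit 152) (nat_lit 8075102008) (nat_lit 0) (nat_lit 31252057017) (nat_lit 7) (nat_lit 5) (nat_lit 9) (nat_lit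 4) (nat_lit 7) (nat_lit 4) (nat_lit 351) (nat_lit 260) (nat_lit 169))))) (XT.nd (nat_lit 234) (nat_lit 76) (nat_lit 0) (XT.nd (nat_lit 78) (nat_lit 0) (nat_lit 0) (XT.lf (nat_lit 0) (nat_lit 11367154512) (nat_lit 76) (nat_lit 73216077709) (nat_lit 76) (nat_lit 32218830078) (nat_lit 6) (nat_lit 4) (nat_lit 7) (nat_lit 5) (nat_lit 7) (nat_lit 4) (nat_lit 352) (nat_lit 260) (nat_lit 168)) (XT.nd (nat_lit 78) (nat_lit 0) (nat_lit 0) (XT.lf (nat_lit 0) (nat_lit 31928812196) (nat_lit 76) (nat_lit 65700939061) (nat_lit 76) (nat_lit 24681508090) (nat_lit 6) (nat_lit 4) (nat_lit 7) (nat_lit 5) (nat_lit 7) (nat_lit 4) (nat_lit 353) (nat_lit 260) (nat_lit 167)) (XT.lf (nat_lit 0) (nat_lit 53498117008) (nat_lit 76) (nat_lit 57819347715) (nat_lit 76) (nat_lit 16778789753) (nat_lit 6) (nat_lit 4) (nat_lit 7) (nat_lit 5) (nat_lit 7) (nat_lit 4) (nat_lit 354) (nat_lit 260) (nat_lit 166)))) (XT.nd (nat_lit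 156) (nat_lit 0) (nat_lit 0) (XT.nd (nat_lit 78) (nat_lit 76) (nat_lit 0) (XT.lf (nat_lit 0) (nat_lit 76126424435) (nat_lit 76) (nat_lit 49552537977) (nat_lit 76) (nat_lit 8491859071) (nat_lit 6) (nat_lit 4) (nat_lit 7) (nat_lit 5) (nat_lit 7) (nat_lit 4) (nat_lit 355) (nat_lit 260) (nat_lit 165)) (XT.lf (nat_lit 0) (nat_lit 195131246) (nat_lit 152) (nat_lit 40683725277) (nat_lit 76) (nat_lit 99670509711) (nat_lit 5) (nat_lit 5) (nat_lit 7) (nat_lit 5) (nat_lit 6) (nat_lit 4) (nat_lit 356) (nat_lit 260) (nat_lit 164))) (XT.nd (nat_lit 78) (nat_lit 0) (nat_lit 0) (XT.lf (nat_lit 0) (nat_lit 9132764325) (nat_lit 152) (nat_lit 22558580417) (nat_lit 76) (nat_lit 115553217202) (nat_lit 5) (nat_lit 5) (nat_lit 7) (nat_lit 5) (nat_lit 6) (nat_lit 4) (nat_lit 357) (nat_lit 260) (nat_lit 163)) (XT.lf (nat_lit 0) (nat_lit 18508026999) (nat_lit 152) (nat_lit 3544178416) (nat_lit 76) (nat_lit 132222593007)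 (nat_lit 5) (nat_lit 5) (nat_lit 7) (nat_lit 5) (nat_lit 6) (nat_lit 4) (nat_lit 358) (nat_lit 260) (nat_lit 162))))))) (XT.nd (nat_lit 33774) (nat_lit 0) (nat_lit 9348) (XT.nd (nat_lit 33228) (nat_lit 0) (nat_lit 19304) (XT.nd (nat_lit 32994) (nat_lit 0) (nat_lit 22116) (XT.nd (nat_lit 78) (nat_lit 0) (nat_lit 0) (XT.lf (nat_lit 0) (nat_lit 16731239863) (nat_lit 76) (nat_lit 11772832371) (nat_lit 152) (nat_lit 133147917164) (nat_lit 4) (nat_lit 5) (nat_lit 5) (nat_lit 5) (nat_lit 6) (nat_lit 4) (nat_lit 359) (nat_lit 260) (nat_lit 161)) (XT.nd (nat_lit 78) (nat_lit 0) (nat_lit 0) (XT.lf (nat_lit 0) (nat_lit 38078765488) (nat_lit 76) (nat_lit 949095373) (nat_lit 152) (nat_lit 130369343933) (nat_lit 4) (nat_lit 5) (nat_lit 5) (nat_lit 5) (nat_lit 6) (nat_lit 4) (nat_lit 360) (nat_lit 260) (nat_lit 160)) (XT.lf (nat_lit 0) (nat_lit 50169760220) (nat_lit 152) (nat_lit 117151295756) (nat_lit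 0) (nat_lit 10205870300) (nat_lit 4) (nat_lit 5) (nat_lit 6) (nat_lit 4) (nat_lit 4) (nat_lit 4) (nat_lit 361) (nat_lit 260) (nat_lit 159)))) (XT.nd (nat_lit 78) (nat_lit 228) (nat_lit 0) (XT.lf (nat_lit 0) (nat_lit 1446043842) (nat_lit 228) (nat_lit 890467293) (nat_lit 228) (nat_lit 890467293) (nat_lit 298) (nat_lit 3) (nat_lit 301) (nat_lit 3) (nat_lit 301) (nat_lit 5) (nat_lit 261) (nat_lit 261) (nat_lit 258)) (XT.nd (nat_lit 78) (nat_lit 0) (nat_lit 0) (XT.lf (nat_lit 0) (nat_lit 894494600) (nat_lit 228) (nat_lit 3335387142) (nat_lit 304) (nat_lit 2240252157) (nat_lit 295) (nat_lit 5) (nat_lit 298) (nat_lit 3) (nat_lit 299) (nat_lit 5) (nat_lit 262) (nat_lit 261) (nat_lit 257)) (XT.lf (nat_lit 76) (nat_lit 1689290740) (nat_lit 0) (nat_lit 3560273627) (nat_lit 304) (nat_lit 1244778992) (nat_lit 296) (nat_lit 5) (nat_lit 295) (nat_lit 5) (nat_lit 299) (nat_lit 5) (nat_lit 263) (nat_lit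 261) (nat_lit 256))))) (XT.nd (nat_lit 234) (nat_lit 2128) (nat_lit 0) (XT.nd (nat_lit 78) (nat_lit 380) (nat_lit 0) (XT.lf (nat_lit 76) (nat_lit 334407964) (nat_lit 0) (nat_lit 2664519033) (nat_lit 380) (nat_lit 3527771671) (nat_lit 292) (nat_lit 5) (nat_lit 291) (nat_lit 5) (nat_lit 296) (nat_lit 5) (nat_lit 264) (nat_lit 261) (nat_lit 255)) (XT.nd (nat_lit 78) (nat_lit 0) (nat_lit 0) (XT.lf (nat_lit 0) (nat_lit 633197438) (nat_lit 380) (nat_lit 906944124) (nat_lit 456) (nat_lit 5027125294) (nat_lit 286) (nat_lit 5) (nat_lit 291) (nat_lit 5) (nat_lit 292) (nat_lit 5) (nat_lit 265) (nat_lit 261) (nat_lit 254)) (XT.lf (nat_lit 76) (nat_lit 4545547326) (nat_lit 0) (nat_lit 172182818) (nat_lit 456) (nat_lit 1898056658) (nat_lit 287) (nat_lit 5) (nat_lit 286) (nat_lit 5) (nat_lit 292) (nat_lit 5) (nat_lit 266) (nat_lit 261) (nat_lit 253)))) (XT.nd (nat_lit 156) (nat_lit 1292) (nat_lit 0) (XT.nd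 (nat_lit 78) (nat_lit 456) (nat_lit 0) (XT.lf (nat_lit 0) (nat_lit 2102950086) (nat_lit 456) (nat_lit 3168717128) (nat_lit 76) (nat_lit 1400703600) (nat_lit 281) (nat_lit 5) (nat_lit 287) (nat_lit 5) (nat_lit 282) (nat_lit 5) (nat_lit 267) (nat_lit 261) (nat_lit 252)) (XT.lf (nat_lit 0) (nat_lit 2541200708) (nat_lit 456) (nat_lit 3534751485) (nat_lit 532) (nat_lit 661482840) (nat_lit 275) (nat_lit 5) (nat_lit 281) (nat_lit 5) (nat_lit 282) (nat_lit 5) (nat_lit 268) (nat_lit 261) (nat_lit 251))) (XT.nd (nat_lit 78) (nat_lit 684) (nat_lit 0) (XT.lf (nat_lit 0) (nat_lit 1640398622) (nat_lit 532) (nat_lit 1553211491) (nat_lit 608) (nat_lit 3617091434) (nat_lit 267) (nat_lit 5) (nat_lit 274) (nat_lit 5) (nat_lit 275) (nat_lit 5) (nat_lit 269) (nat_lit 261) (nat_lit 250)) (XT.lf (nat_lit 0) (nat_lit 168613791) (nat_lit 684) (nat_lit 6080062772) (nat_lit 76) (nat_lit 644083707) (nat_lit 258) (nat_lit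 5) (nat_lit 267) (nat_lit 5) (nat_lit 259) (nat_lit 5) (nat_lit 270) (nat_lit 261) (nat_lit 249)))))) (XT.nd (nat_lit 546) (nat_lit 4484) (nat_lit 0) (XT.nd (nat_lit 234) (nat_lit 3952) (nat_lit 0) (XT.nd (nat_lit 78) (nat_lit 836) (nat_lit 0) (XT.lf (nat_lit 0) (nat_lit 13464167) (nat_lit 684) (nat_lit 3912369054) (nat_lit 760) (nat_lit 3056751717) (nat_lit 249) (nat_lit 5) (nat_lit 258) (nat_lit 5) (nat_lit 259) (nat_lit 5) (nat_lit 271) (nat_lit 261) (nat_lit 248)) (XT.nd (nat_lit 78) (nat_lit 760) (nat_lit 0) (XT.lf (nat_lit 0) (nat_lit 634729220) (nat_lit 760) (nat_lit 704163759) (nat_lit 76) (nat_lit 5742507245) (nat_lit 248) (nat_lit 5) (nat_lit 258) (nat_lit 5) (nat_lit 249) (nat_lit 5) (nat_lit 272) (nat_lit 261) (nat_lit 247)) (XT.lf (nat_lit 0) (nat_lit 4321204568) (nat_lit 836) (nat_lit 1398818706) (nat_lit 76) (nat_lit 1468410821) (nat_lit 238) (nat_lit 5) (nat_lit 249) (nat_lit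 5) (nat_lit 239) (nat_lit 5) (nat_lit 273) (nat_lit 261) (nat_lit 246)))) (XT.nd (nat_lit 156) (nat_lit 2128) (nat_lit 0) (XT.nd (nat_lit 78) (nat_lit 912) (nat_lit 0) (XT.lf (nat_lit 0) (nat_lit 754857679) (nat_lit 912) (nat_lit 2055026756) (nat_lit 76) (nat_lit 4494611478) (nat_lit 226) (nat_lit 5) (nat_lit 238) (nat_lit 5) (nat_lit 227) (nat_lit 5) (nat_lit 274) (nat_lit 261) (nat_lit 245)) (XT.lf (nat_lit 0) (nat_lit 4379600074) (nat_lit 988) (nat_lit 2689800878) (nat_lit 76) (nat_lit 360030510) (nat_lit 214) (nat_lit 5) (nat_lit 227) (nat_lit 5) (nat_lit 215) (nat_lit 5) (nat_lit 275) (nat_lit 261) (nat_lit 244))) (XT.nd (nat_lit 78) (nat_lit 1064) (nat_lit 0) (XT.lf (nat_lit 0) (nat_lit 526427439) (nat_lit 1064) (nat_lit 3312338973) (nat_lit 76) (nat_lit 3724579011) (nat_lit 200) (nat_lit 5) (nat_lit 214) (nat_lit 5) (nat_lit 201) (nat_lit 5) (nat_lit 276) (nat_lit 261) (nat_lit 243))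 (XT.lf (nat_lit 0) (nat_lit 3780239071) (nat_lit 1064) (nat_lit 332200212) (nat_lit 1140) (nat_lit 3594095708) (nat_lit 186) (nat_lit 5) (nat_lit 200) (nat_lit 5) (nat_lit 201) (nat_lit 5) (nat_lit 277) (nat_lit 261) (nat_lit 242))))) (XT.nd (nat_lit 234) (nat_lit 2128) (nat_lit 0) (XT.nd (nat_lit 78) (nat_lit 1216) (nat_lit 0) (XT.lf (nat_lit 0) (nat_lit 3317669648) (nat_lit 1140) (nat_lit 4494567240) (nat_lit 1216) (nat_lit 46904269) (nat_lit 171) (nat_lit 5) (nat_lit 186) (nat_lit 5) (nat_lit 187) (nat_lit 5) (nat_lit 278) (nat_lit 261) (nat_lit 241)) (XT.nd (nat_lit 78) (nat_lit 608) (nat_lit 0) (XT.lf (nat_lit 0) (nat_lit 2849895397) (nat_lit 532) (nat_lit 668039766) (nat_lit 608) (nat_lit 4503290030) (nat_lit 163) (nat_lit 5) (nat_lit 170) (nat_lit 5) (nat_lit 171) (nat_lit 5) (nat_lit 279) (nat_lit 261) (nat_lit 240)) (XT.lf (nat_lit 0) (nat_lit 2374119141) (nat_lit 608) (nat_lit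 4834846478) (nat_lit 684) (nat_lit 984223158) (nat_lit 155) (nat_lit 5) (nat_lit 163) (nat_lit 5) (nat_lit 164) (nat_lit 5) (nat_lit 280) (nat_lit 261) (nat_lit 239)))) (XT.nd (nat_lit 156) (nat_lit 988) (nat_lit 0) (XT.nd (nat_lit 78) (nat_lit 532) (nat_lit 0) (XT.lf (nat_lit 0) (nat_lit 1882597308) (nat_lit 532) (nat_lit 704733796) (nat_lit 608) (nat_lit 5787992253) (nat_lit 147) (nat_lit 5) (nat_lit 154) (nat_lit 5) (nat_lit 155) (nat_lit 5) (nat_lit 281) (nat_lit 261) (nat_lit 238)) (XT.lf (nat_lit 0) (nat_lit 1353515603) (nat_lit 532) (nat_lit 4928645229) (nat_lit 608) (nat_lit 2285386087) (nat_lit 140) (nat_lit 5) (nat_lit 147) (nat_lit 5) (nat_lit 148) (nat_lit 5) (nat_lit 282) (nat_lit 261) (nat_lit 237))) (XT.nd (nat_lit 78) (nat_lit 456) (nat_lit 0) (XT.lf (nat_lit 0) (nat_lit 802650475) (nat_lit 456) (nat_lit 505125493) (nat_lit 532) (nat_lit 7463135447) (nat_lit 133) (nat_lit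 5) (nat_lit 139) (nat_lit 5) (nat_lit 140) (nat_lit 5) (nat_lit 283) (nat_lit 261) (nat_lit 236)) (XT.lf (nat_lit 0) (nat_lit 176586565) (nat_lit 456) (nat_lit 4839042759) (nat_lit 532) (nat_lit 3968866213) (nat_lit 127) (nat_lit 5) (nat_lit 133) (nat_lit 5) (nat_lit 134) (nat_lit 5) (nat_lit 284) (nat_lit 261) (nat_lit 235))))))))
noncomputable def xc52 : XT := (XT.nd (nat_lit 2028) (nat_lit 2052) (nat_lit 0) (XT.nd (nat_lit 1014) (nat_lit 2432) (nat_lit 0) (XT.nd (nat_lit 468) (nat_lit 2128) (nat_lit 0) (XT.nd (nat_lit 234) (nat_lit 1216) (nat_lit 0) (XT.nd (nat_lit 78) (nat_lit 988) (nat_lit 0) (XT.lf (nat_lit 0) (nat_lit 8742378859) (nat_lit 456) (nat_lit 123935213) (nat_lit 532) (nat_lit 343911326) (nat_lit 127) (nat_lit 5) (nat_lit 133) (nat_lit 5) (nat_lit 134) (nat_lit 5) (nat_lit 285) (nat_lit 261) (nat_lit 234)) (XT.nd (nat_lit 78) (nat_lit 456) (nat_lit 0) (XT.lf (nat_lit 0) (nat_lit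 3396743203) (nat_lit 532) (nat_lit 1220964601) (nat_lit 76) (nat_lit 4828650491) (nat_lit 120) (nat_lit 5) (nat_lit 127) (nat_lit 5) (nat_lit 121) (nat_lit 5) (nat_lit 286) (nat_lit 261) (nat_lit 233)) (XT.lf (nat_lit 0) (nat_lit 7280592952) (nat_lit 532) (nat_lit 2028257530) (nat_lit 76) (nat_lit 386613999) (nat_lit 114) (nat_lit 5) (nat_lit 121) (nat_lit 5) (nat_lit 115) (nat_lit 5) (nat_lit 287) (nat_lit 261) (nat_lit 232)))) (XT.nd (nat_lit 78) (nat_lit 760) (nat_lit 0) (XT.lf (nat_lit 0) (nat_lit 1384706821) (nat_lit 456) (nat_lit 2953663200) (nat_lit 76) (nat_lit 5618092781) (nat_lit 108) (nat_lit 5) (nat_lit 114) (nat_lit 5) (nat_lit 109) (nat_lit 5) (nat_lit 288) (nat_lit 261) (nat_lit 231)) (XT.nd (nat_lit 78) (nat_lit 380) (nat_lit 0) (XT.lf (nat_lit 0) (nat_lit 5301949038) (nat_lit 456) (nat_lit 3985144023) (nat_lit 76) (nat_lit 943518948) (nat_lit 103) (nat_lit 5) (nat_lit 109)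 (nat_lit 5) (nat_lit 104) (nat_lit 5) (nat_lit 289) (nat_lit 261) (nat_lit 230)) (XT.lf (nat_lit 0) (nat_lit 5369896839) (nat_lit 380) (nat_lit 4061794286) (nat_lit 456) (nat_lit 1086418520) (nat_lit 98) (nat_lit 5) (nat_lit 103) (nat_lit 5) (nat_lit 104) (nat_lit 5) (nat_lit 290) (nat_lit 261) (nat_lit 229))))) (XT.nd (nat_lit 234) (nat_lit 988) (nat_lit 0) (XT.nd (nat_lit 78) (nat_lit 684) (nat_lit 0) (XT.lf (nat_lit 0) (nat_lit 2881672080) (nat_lit 456) (nat_lit 6458374408) (nat_lit 76) (nat_lit 1479477331) (nat_lit 92) (nat_lit 5) (nat_lit 98) (nat_lit 5) (nat_lit 93) (nat_lit 5) (nat_lit 291) (nat_lit 261) (nat_lit 228)) (XT.nd (nat_lit 78) (nat_lit 380) (nat_lit 0) (XT.lf (nat_lit 0) (nat_lit 3192205928) (nat_lit 304) (nat_lit 3855662885) (nat_lit 380) (nat_lit 4087275453) (nat_lit 88) (nat_lit 5) (nat_lit 92) (nat_lit 5) (nat_lit 93) (nat_lit 5) (nat_lit 292) (nat_lit 261) (nat_lit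 227)) (XT.lf (nat_lit 0) (nat_lit 1877808804) (nat_lit 380) (nat_lit 9548129529) (nat_lit 456) (nat_lit 40618012) (nat_lit 83) (nat_lit 5) (nat_lit 88) (nat_lit 5) (nat_lit 89) (nat_lit 5) (nat_lit 293) (nat_lit 261) (nat_lit 226)))) (XT.nd (nat_lit 156) (nat_lit 608) (nat_lit 0) (XT.nd (nat_lit 78) (nat_lit 0) (nat_lit 0) (XT.lf (nat_lit 0) (nat_lit 336100288) (nat_lit 304) (nat_lit 3817379629) (nat_lit 380) (nat_lit 7659137310) (nat_lit 78) (nat_lit 5) (nat_lit 82) (nat_lit 5) (nat_lit 83) (nat_lit 5) (nat_lit 294) (nat_lit 261) (nat_lit 225)) (XT.lf (nat_lit 0) (nat_lit 8582837514) (nat_lit 380) (nat_lit 1370504810) (nat_lit 76) (nat_lit 2221938388) (nat_lit 78) (nat_lit 5) (nat_lit 83) (nat_lit 5) (nat_lit 79) (nat_lit 5) (nat_lit 295) (nat_lit 261) (nat_lit 224))) (XT.nd (nat_lit 78) (nat_lit 228) (nat_lit 0) (XT.lf (nat_lit 0) (nat_lit 702202117) (nat_lit 380) (nat_lit 3305231078)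 (nat_lit 76) (nat_lit 8547409291) (nat_lit 73) (nat_lit 5) (nat_lit 78) (nat_lit 5) (nat_lit 74) (nat_lit 5) (nat_lit 296) (nat_lit 261) (nat_lit 223)) (XT.lf (nat_lit 0) (nat_lit 5158497497) (nat_lit 304) (nat_lit 5513609003) (nat_lit 76) (nat_lit 2279663455) (nat_lit 70) (nat_lit 5) (nat_lit 74) (nat_lit 5) (nat_lit 71) (nat_lit 5) (nat_lit 297) (nat_lit 261) (nat_lit 222)))))) (XT.nd (nat_lit 468) (nat_lit 1064) (nat_lit 0) (XT.nd (nat_lit 234) (nat_lit 532) (nat_lit 0) (XT.nd (nat_lit 78) (nat_lit 532) (nat_lit 0) (XT.lf (nat_lit 0) (nat_lit 5360951064) (nat_lit 304) (nat_lit 4517876126) (nat_lit 380) (nat_lit 3488566798) (nat_lit 66) (nat_lit 5) (nat_lit 70) (nat_lit 5) (nat_lit 71) (nat_lit 5) (nat_lit 298) (nat_lit 261) (nat_lit 221)) (XT.nd (nat_lit 78) (nat_lit 228) (nat_lit 0) (XT.lf (nat_lit 0) (nat_lit 1033751997) (nat_lit 304) (nat_lit 10803302139) (nat_lit 76) (nat_lit 1965852790)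 (nat_lit 62) (nat_lit 5) (nat_lit 66) (nat_lit 5) (nat_lit 63) (nat_lit 5) (nat_lit 299) (nat_lit 261) (nat_lit 220)) (XT.lf (nat_lit 0) (nat_lit 269174113) (nat_lit 228) (nat_lit 5492306735) (nat_lit 304) (nat_lit 8496211583) (nat_lit 59) (nat_lit 5) (nat_lit 62) (nat_lit 5) (nat_lit 63) (nat_lit 5) (nat_lit 300) (nat_lit 261) (nat_lit 219)))) (XT.nd (nat_lit 78) (nat_lit 532) (nat_lit 0) (XT.lf (nat_lit 0) (nat_lit 10770849739) (nat_lit 304) (nat_lit 2741788524) (nat_lit 76) (nat_lit 1221294119) (nat_lit 59) (nat_lit 5) (nat_lit 63) (nat_lit 5) (nat_lit 60) (nat_lit 5) (nat_lit 301) (nat_lit 261) (nat_lit 218)) (XT.nd (nat_lit 78) (nat_lit 228) (nat_lit 0) (XT.lf (nat_lit 0) (nat_lit 849868845) (nat_lit 304) (nat_lit 6164341401) (nat_lit 76) (nat_lit 8217550248) (nat_lit 55) (nat_lit 5) (nat_lit 59) (nat_lit 5) (nat_lit 56) (nat_lit 5) (nat_lit 302) (nat_lit 261) (nat_lit 217)) (XT.lf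 (nat_lit 0) (nat_lit 5731079948) (nat_lit 228) (nat_lit 101926807) (nat_lit 304) (nat_lit 9920015151) (nat_lit 52) (nat_lit 5) (nat_lit 55) (nat_lit 5) (nat_lit 56) (nat_lit 5) (nat_lit 303) (nat_lit 261) (nat_lit 216))))) (XT.nd (nat_lit 234) (nat_lit 608) (nat_lit 0) (XT.nd (nat_lit 78) (nat_lit 304) (nat_lit 0) (XT.lf (nat_lit 0) (nat_lit 1909647109) (nat_lit 152) (nat_lit 9236097864) (nat_lit 228) (nat_lit 5152249150) (nat_lit 50) (nat_lit 5) (nat_lit 52) (nat_lit 5) (nat_lit 53) (nat_lit 5) (nat_lit 304) (nat_lit 261) (nat_lit 215)) (XT.nd (nat_lit 78) (nat_lit 304) (nat_lit 0) (XT.lf (nat_lit 0) (nat_lit 14539496838) (nat_lit 152) (nat_lit 2220368500) (nat_lit 228) (nat_lit 109335388) (nat_lit 50) (nat_lit 5) (nat_lit 52) (nat_lit 5) (nat_lit 53) (nat_lit 5) (nat_lit 305) (nat_lit 261) (nat_lit 214)) (XT.lf (nat_lit 0) (nat_lit 5169038233) (nat_lit 304) (nat_lit 7135478221) (nat_lit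 76) (nat_lit 5160474316) (nat_lit 46) (nat_lit 5) (nat_lit 50) (nat_lit 5) (nat_lit 47) (nat_lit 5) (nat_lit 306) (nat_lit 261) (nat_lit 213)))) (XT.nd (nat_lit 156) (nat_lit 228) (nat_lit 0) (XT.nd (nat_lit 78) (nat_lit 228) (nat_lit 0) (XT.lf (nat_lit 0) (nat_lit 5563695058) (nat_lit 152) (nat_lit 5181452709) (nat_lit 228) (nat_lit 7344358911) (nat_lit 44) (nat_lit 5) (nat_lit 46) (nat_lit 5) (nat_lit 47) (nat_lit 5) (nat_lit 307) (nat_lit 261) (nat_lit 212)) (XT.lf (nat_lit 0) (nat_lit 184391994) (nat_lit 228) (nat_lit 16451404530) (nat_lit 304) (nat_lit 2108428599) (nat_lit 41) (nat_lit 5) (nat_lit 44) (nat_lit 5) (nat_lit 45) (nat_lit 5) (nat_lit 308) (nat_lit 261) (nat_lit 211))) (XT.nd (nat_lit 78) (nat_lit 152) (nat_lit 0) (XT.lf (nat_lit 0) (nat_lit 3444758648) (nat_lit 304) (nat_lit 5820774103) (nat_lit 76) (nat_lit 10161566484) (nat_lit 40) (nat_lit 5) (nat_lit 44) (nat_lit 5)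 (nat_lit 41) (nat_lit 5) (nat_lit 309) (nat_lit 261) (nat_lit 210)) (XT.lf (nat_lit 0) (nat_lit 7588058811) (nat_lit 152) (nat_lit 1659269555) (nat_lit 228) (nat_lit 10895745495) (nat_lit 38) (nat_lit 5) (nat_lit 40) (nat_lit 5) (nat_lit 41) (nat_lit 5) (nat_lit 310) (nat_lit 261) (nat_lit 209))))))) (XT.nd (nat_lit 1014) (nat_lit 836) (nat_lit 0) (XT.nd (nat_lit 468) (nat_lit 456) (nat_lit 0) (XT.nd (nat_lit 234) (nat_lit 380) (nat_lit 0) (XT.nd (nat_lit 78) (nat_lit 228) (nat_lit 0) (XT.lf (nat_lit 0) (nat_lit 756607736) (nat_lit 152) (nat_lit 14655556534) (nat_lit 228) (nat_lit 5480559705) (nat_lit 36) (nat_lit 5) (nat_lit 38) (nat_lit 5) (nat_lit 39) (nat_lit 5) (nat_lit 311) (nat_lit 261) (nat_lit 208)) (XT.nd (nat_lit 78) (nat_lit 152) (nat_lit 0) (XT.lf (nat_lit 0) (nat_lit 293421821) (nat_lit 228) (nat_lit 6790948861) (nat_lit 76) (nat_lit 14592703164) (nat_lit 35) (nat_lit 5) (nat_lit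 38) (nat_lit 5) (nat_lit 36) (nat_lit 5) (nat_lit 312) (nat_lit 261) (nat_lit 207)) (XT.lf (nat_lit 0) (nat_lit 6269843925) (nat_lit 228) (nat_lit 15287487264) (nat_lit 76) (nat_lit 940905503) (nat_lit 33) (nat_lit 5) (nat_lit 36) (nat_lit 5) (nat_lit 34) (nat_lit 5) (nat_lit 313) (nat_lit 261) (nat_lit 206)))) (XT.nd (nat_lit 78) (nat_lit 380) (nat_lit 0) (XT.lf (nat_lit 0) (nat_lit 12635967477) (nat_lit 228) (nat_lit 1461668019) (nat_lit 76) (nat_lit 9260130067) (nat_lit 33) (nat_lit 5) (nat_lit 36) (nat_lit 5) (nat_lit 34) (nat_lit 5) (nat_lit 314) (nat_lit 261) (nat_lit 205)) (XT.nd (nat_lit 78) (nat_lit 228) (nat_lit 0) (XT.lf (nat_lit 0) (nat_lit 13232168875) (nat_lit 152) (nat_lit 6166640318) (nat_lit 228) (nat_lit 4859141984) (nat_lit 31) (nat_lit 5) (nat_lit 33) (nat_lit 5) (nat_lit 34) (nat_lit 5) (nat_lit 315) (nat_lit 261) (nat_lit 204)) (XT.lf (nat_lit 0) (nat_lit 1293176894)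 (nat_lit 228) (nat_lit 21760450462) (nat_lit 76) (nat_lit 2148520023) (nat_lit 28) (nat_lit 5) (nat_lit 31) (nat_lit 5) (nat_lit 29) (nat_lit 5) (nat_lit 316) (nat_lit 261) (nat_lit 203))))) (XT.nd (nat_lit 234) (nat_lit 304) (nat_lit 0) (XT.nd (nat_lit 78) (nat_lit 152) (nat_lit 0) (XT.lf (nat_lit 0) (nat_lit 7783917895) (nat_lit 228) (nat_lit 7518540165) (nat_lit 76) (nat_lit 10885741760) (nat_lit 28) (nat_lit 5) (nat_lit 31) (nat_lit 5) (nat_lit 29) (nat_lit 5) (nat_lit 317) (nat_lit 261) (nat_lit 202)) (XT.nd (nat_lit 78) (nat_lit 0) (nat_lit 0) (XT.lf (nat_lit 0) (nat_lit 7506770097) (nat_lit 152) (nat_lit 7120300415) (nat_lit 228) (nat_lit 12595675526) (nat_lit 26) (nat_lit 5) (nat_lit 28) (nat_lit 5) (nat_lit 29) (nat_lit 5) (nat_lit 318) (nat_lit 261) (nat_lit 201)) (XT.lf (nat_lit 0) (nat_lit 21861515589) (nat_lit 228) (nat_lit 4955189845) (nat_lit 76) (nat_lit 1490866174) (nat_lit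 26) (nat_lit 5) (nat_lit 29) (nat_lit 5) (nat_lit 27) (nat_lit 4) (nat_lit 319) (nat_lit 261) (nat_lit 200)))) (XT.nd (nat_lit 156) (nat_lit 152) (nat_lit 0) (XT.nd (nat_lit 78) (nat_lit 0) (nat_lit 0) (XT.lf (nat_lit 0) (nat_lit 144846240) (nat_lit 152) (nat_lit 18835848927) (nat_lit 76) (nat_lit 10461943707) (nat_lit 24) (nat_lit 5) (nat_lit 26) (nat_lit 5) (nat_lit 25) (nat_lit 5) (nat_lit 320) (nat_lit 261) (nat_lit 199)) (XT.lf (nat_lit 0) (nat_lit 6944502379) (nat_lit 152) (nat_lit 3717401656) (nat_lit 76) (nat_lit 19970288078) (nat_lit 24) (nat_lit 5) (nat_lit 26) (nat_lit 5) (nat_lit 25) (nat_lit 5) (nat_lit 321) (nat_lit 261) (nat_lit 198))) (XT.nd (nat_lit 78) (nat_lit 0) (nat_lit 0) (XT.lf (nat_lit 0) (nat_lit 12331579213) (nat_lit 152) (nat_lit 1832786007) (nat_lit 228) (nat_lit 17714472953) (nat_lit 22) (nat_lit 5) (nat_lit 24) (nat_lit 5) (nat_lit 25) (nat_lit 5) (nat_lit 322)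 (nat_lit 261) (nat_lit 197)) (XT.lf (nat_lit 0) (nat_lit 21817997537) (nat_lit 228) (nat_lit 4062856135) (nat_lit 76) (nat_lit 7304800412) (nat_lit 22) (nat_lit 5) (nat_lit 25) (nat_lit 5) (nat_lit 23) (nat_lit 4) (nat_lit 323) (nat_lit 261) (nat_lit 196)))))) (XT.nd (nat_lit 546) (nat_lit 456) (nat_lit 0) (XT.nd (nat_lit 234) (nat_lit 76) (nat_lit 0) (XT.nd (nat_lit 78) (nat_lit 228) (nat_lit 0) (XT.lf (nat_lit 0) (nat_lit 12356478866) (nat_lit 76) (nat_lit 17599522257) (nat_lit 152) (nat_lit 4598778820) (nat_lit 21) (nat_lit 5) (nat_lit 22) (nat_lit 5) (nat_lit 23) (nat_lit 4) (nat_lit 324) (nat_lit 261) (nat_lit 195)) (XT.nd (nat_lit 78) (nat_lit 152) (nat_lit 0) (XT.lf (nat_lit 0) (nat_lit 2466999323) (nat_lit 152) (nat_lit 6394798338) (nat_lit 76) (nat_lit 27129637157) (nat_lit 20) (nat_lit 5) (nat_lit 22) (nat_lit 5) (nat_lit 21) (nat_lit 5) (nat_lit 325) (nat_lit 261) (nat_lit 194))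 (XT.lf (nat_lit 0) (nat_lit 9861842960) (nat_lit 228) (nat_lit 27205366381) (nat_lit 76) (nat_lit 429238007) (nat_lit 18) (nat_lit 5) (nat_lit 21) (nat_lit 5) (nat_lit 19) (nat_lit 4) (nat_lit 326) (nat_lit 261) (nat_lit 193)))) (XT.nd (nat_lit 156) (nat_lit 0) (nat_lit 0) (XT.nd (nat_lit 78) (nat_lit 76) (nat_lit 0) (XT.lf (nat_lit 0) (nat_lit 17749988202) (nat_lit 228) (nat_lit 11276980508) (nat_lit 76) (nat_lit 10046051653) (nat_lit 18) (nat_lit 5) (nat_lit 21) (nat_lit 5) (nat_lit 19) (nat_lit 4) (nat_lit 327) (nat_lit 261) (nat_lit 192)) (XT.lf (nat_lit 0) (nat_lit 5500846420) (nat_lit 76) (nat_lit 20553747573) (nat_lit 152) (nat_lit 14673182288) (nat_lit 17) (nat_lit 5) (nat_lit 18) (nat_lit 5) (nat_lit 19) (nat_lit 4) (nat_lit 328) (nat_lit 261) (nat_lit 191))) (XT.nd (nat_lit 78) (nat_lit 0) (nat_lit 0) (XT.lf (nat_lit 0) (nat_lit 23300457914) (nat_lit 76) (nat_lit 11560195143) (nat_lit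 152) (nat_lit 7602045343) (nat_lit 17) (nat_lit 5) (nat_lit 18) (nat_lit 5) (nat_lit 19) (nat_lit 4) (nat_lit 329) (nat_lit 261) (nat_lit 190)) (XT.lf (nat_lit 0) (nat_lit 41939799977) (nat_lit 76) (nat_lit 2138773593) (nat_lit 152) (nat_lit 206660677) (nat_lit 17) (nat_lit 5) (nat_lit 18) (nat_lit 5) (nat_lit 19) (nat_lit 4) (nat_lit 330) (nat_lit 261) (nat_lit 189))))) (XT.nd (nat_lit 234) (nat_lit 152) (nat_lit 0) (XT.nd (nat_lit 78) (nat_lit 76) (nat_lit 0) (XT.lf (nat_lit 0) (nat_lit 7609088916) (nat_lit 228) (nat_lit 30776134952) (nat_lit 76) (nat_lit 7805563932) (nat_lit 14) (nat_lit 5) (nat_lit 17) (nat_lit 5) (nat_lit 15) (nat_lit 4) (nat_lit 331) (nat_lit 261) (nat_lit 188)) (XT.nd (nat_lit 78) (nat_lit 76) (nat_lit 0) (XT.lf (nat_lit 0) (nat_lit 15830647353) (nat_lit 228) (nat_lit 14150688149) (nat_lit 76) (nat_lit 18209655943) (nat_lit 14) (nat_lit 5) (nat_lit 17) (nat_lit 5)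 (nat_lit 15) (nat_lit 4) (nat_lit 332) (nat_lit 261) (nat_lit 187)) (XT.lf (nat_lit 0) (nat_lit 3325554680) (nat_lit 76) (nat_lit 21144253731) (nat_lit 152) (nat_lit 25821213177) (nat_lit 13) (nat_lit 5) (nat_lit 14) (nat_lit 5) (nat_lit 15) (nat_lit 4) (nat_lit 333) (nat_lit 261) (nat_lit 186)))) (XT.nd (nat_lit 156) (nat_lit 152) (nat_lit 0) (XT.nd (nat_lit 78) (nat_lit 0) (nat_lit 0) (XT.lf (nat_lit 0) (nat_lit 21927248067) (nat_lit 76) (nat_lit 11734693665) (nat_lit 152) (nat_lit 18830492562) (nat_lit 13) (nat_lit 5) (nat_lit 14) (nat_lit 5) (nat_lit 15) (nat_lit 4) (nat_lit 334) (nat_lit 261) (nat_lit 185)) (XT.lf (nat_lit 0) (nat_lit 41417055319) (nat_lit 76) (nat_lit 1873145794) (nat_lit 152) (nat_lit 11514431878) (nat_lit 13) (nat_lit 5) (nat_lit 14) (nat_lit 5) (nat_lit 15) (nat_lit 4) (nat_lit 335) (nat_lit 261) (nat_lit 184))) (XT.nd (nat_lit 78) (nat_lit 76) (nat_lit 0) (XT.lf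 (nat_lit 0) (nat_lit 4616992074) (nat_lit 76) (nat_lit 48886260152) (nat_lit 76) (nat_lit 3726098450) (nat_lit 12) (nat_lit 4) (nat_lit 13) (nat_lit 5) (nat_lit 13) (nat_lit 4) (nat_lit 336) (nat_lit 261) (nat_lit 183)) (XT.lf (nat_lit 0) (nat_lit 4500805039) (nat_lit 152) (nat_lit 36072453602) (nat_lit 76) (nat_lit 19196690840) (nat_lit 11) (nat_lit 5) (nat_lit 13) (nat_lit 5) (nat_lit 12) (nat_lit 4) (nat_lit 337) (nat_lit 261) (nat_lit 182))))))))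
noncomputable def xc53 : XT := (XT.nd (nat_lit 34866) (nat_lit 0) (nat_lit 7524) (XT.nd (nat_lit 1014) (nat_lit 228) (nat_lit 0) (XT.nd (nat_lit 468) (nat_lit 152) (nat_lit 0) (XT.nd (nat_lit 234) (nat_lit 76) (nat_lit 0) (XT.nd (nat_lit 78) (nat_lit 76) (nat_lit 0) (XT.lf (nat_lit 0) (nat_lit 13041696475) (nat_lit 152) (nat_lit 18781040301) (nat_lit 76) (nat_lit 30614352733) (nat_lit 11) (nat_lit 5) (nat_lit 13) (nat_lit 5) (nat_lit 12) (nat_lit 4) (nat_lit 338) (nat_lit 261) (nat_lit 181)) (XT.nd (nat_lit 78) (nat_lit 76) (nat_lit 0) (XT.lf (nat_lit 0) (nat_lit 21989620915) (nat_lit 152) (nat_lit 661131131) (nat_lit 76) (nat_lit 42587443577) (nat_lit 11) (nat_lit 5) (nat_lit 13) (nat_lit 5) (nat_lit 12) (nat_lit 4) (nat_lit 339) (nat_lit 261) (nat_lit 180)) (XT.lf (nat_lit 0) (nat_lit 18695227781) (nat_lit 76) (nat_lit 12850365126) (nat_lit 152) (nat_lit 36628952914) (nat_lit 10) (nat_lit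 5) (nat_lit 11) (nat_lit 5) (nat_lit 12) (nat_lit 4) (nat_lit 340) (nat_lit 261) (nat_lit 179)))) (XT.nd (nat_lit 78) (nat_lit 76) (nat_lit 0) (XT.lf (nat_lit 0) (nat_lit 38999848223) (nat_lit 76) (nat_lit 2567849162) (nat_lit 152) (nat_lit 29690374051) (nat_lit 10) (nat_lit 5) (nat_lit 11) (nat_lit 5) (nat_lit 12) (nat_lit 4) (nat_lit 341) (nat_lit 261) (nat_lit 178)) (XT.nd (nat_lit 78) (nat_lit 76) (nat_lit 0) (XT.lf (nat_lit 0) (nat_lit 52152278604) (nat_lit 152) (nat_lit 14287355702) (nat_lit 0) (nat_lit 8054305425) (nat_lit 10) (nat_lit 5) (nat_lit 12) (nat_lit 4) (nat_lit 10) (nat_lit 4) (nat_lit 342) (nat_lit 261) (nat_lit 177)) (XT.lf (nat_lit 0) (nat_lit 4615553943) (nat_lit 76) (nat_lit 58703935942) (nat_lit 76) (nat_lit 14570516713) (nat_lit 9) (nat_lit 4) (nat_lit 10) (nat_lit 5) (nat_lit 10) (nat_lit 4) (nat_lit 343) (nat_lit 261) (nat_lit 176))))) (XT.nd (nat_lit 234) (nat_lit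 76) (nat_lit 0) (XT.nd (nat_lit 78) (nat_lit 76) (nat_lit 0) (XT.lf (nat_lit 0) (nat_lit 24732401944) (nat_lit 76) (nat_lit 50443368904) (nat_lit 76) (nat_lit 6276191532) (nat_lit 9) (nat_lit 4) (nat_lit 10) (nat_lit 5) (nat_lit 10) (nat_lit 4) (nat_lit 344) (nat_lit 261) (nat_lit 175)) (XT.nd (nat_lit 78) (nat_lit 0) (nat_lit 0) (XT.lf (nat_lit 0) (nat_lit 2369628282) (nat_lit 152) (nat_lit 39388982572) (nat_lit 76) (nat_lit 43433182283) (nat_lit 8) (nat_lit 5) (nat_lit 10) (nat_lit 5) (nat_lit 9) (nat_lit 4) (nat_lit 345) (nat_lit 261) (nat_lit 174)) (XT.lf (nat_lit 0) (nat_lit 11304146370) (nat_lit 152) (nat_lit 21282530483) (nat_lit 76) (nat_lit 56530494133) (nat_lit 8) (nat_lit 5) (nat_lit 10) (nat_lit 5) (nat_lit 9) (nat_lit 4) (nat_lit 346) (nat_lit 261) (nat_lit 173)))) (XT.nd (nat_lit 156) (nat_lit 0) (nat_lit 0) (XT.nd (nat_lit 78) (nat_lit 76) (nat_lit 0) (XT.lf (nat_lit 0) (nat_lit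 20671106498) (nat_lit 152) (nat_lit 2296762978) (nat_lit 76) (nat_lit 70271382510) (nat_lit 8) (nat_lit 5) (nat_lit 10) (nat_lit 5) (nat_lit 9) (nat_lit 4) (nat_lit 347) (nat_lit 261) (nat_lit 172)) (XT.lf (nat_lit 0) (nat_lit 17964067818) (nat_lit 76) (nat_lit 12701424741) (nat_lit 152) (nat_lit 66897177604) (nat_lit 7) (nat_lit 5) (nat_lit 8) (nat_lit 5) (nat_lit 9) (nat_lit 4) (nat_lit 348) (nat_lit 261) (nat_lit 171))) (XT.nd (nat_lit 78) (nat_lit 0) (nat_lit 0) (XT.lf (nat_lit 0) (nat_lit 39261876986) (nat_lit 76) (nat_lit 1908176931) (nat_lit 152) (nat_lit 60931896859) (nat_lit 7) (nat_lit 5) (nat_lit 8) (nat_lit 5) (nat_lit 9) (nat_lit 4) (nat_lit 349) (nat_lit 261) (nat_lit 170)) (XT.lf (nat_lit 0) (nat_lit 52277780922) (nat_lit 152) (nat_lit 45357410419) (nat_lit 0) (nat_lit 9230670909) (nat_lit 7) (nat_lit 5) (nat_lit 9) (nat_lit 4) (nat_lit 7) (nat_lit 4) (nat_lit 350) (nat_lit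 261) (nat_lit 169)))))) (XT.nd (nat_lit 468) (nat_lit 152) (nat_lit 0) (XT.nd (nat_lit 234) (nat_lit 0) (nat_lit 0) (XT.nd (nat_lit 78) (nat_lit 76) (nat_lit 0) (XT.lf (nat_lit 0) (nat_lit 63948098043) (nat_lit 152) (nat_lit 27041964344) (nat_lit 0) (nat_lit 20877695523) (nat_lit 7) (nat_lit 5) (nat_lit 9) (nat_lit 4) (nat_lit 7) (nat_lit 4) (nat_lit 351) (nat_lit 261) (nat_lit 168)) (XT.nd (nat_lit 78) (nat_lit 76) (nat_lit 0) (XT.lf (nat_lit 0) (nat_lit 76190449185) (nat_lit 152) (nat_lit 7831784794) (nat_lit 0) (nat_lit 33097863325) (nat_lit 7) (nat_lit 5) (nat_lit 9) (nat_lit 4) (nat_lit 7) (nat_lit 4) (nat_lit 352) (nat_lit 261) (nat_lit 167)) (XT.lf (nat_lit 0) (nat_lit 12564036353) (nat_lit 76) (nat_lit 76590719652) (nat_lit 76) (nat_lit 33477006801) (nat_lit 6) (nat_lit 4) (nat_lit 7) (nat_lit 5) (nat_lit 7) (nat_lit 4) (nat_lit 353) (nat_lit 261) (nat_lit 166)))) (XT.nd (nat_lit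 78) (nat_lit 0) (nat_lit 0) (XT.lf (nat_lit 0) (nat_lit 34123847202) (nat_lit 76) (nat_lit 68713450830) (nat_lit 76) (nat_lit 25579617036) (nat_lit 6) (nat_lit 4) (nat_lit 7) (nat_lit 5) (nat_lit 7) (nat_lit 4) (nat_lit 354) (nat_lit 261) (nat_lit 165)) (XT.nd (nat_lit 78) (nat_lit 0) (nat_lit 0) (XT.lf (nat_lit 0) (nat_lit 56743112760) (nat_lit 76) (nat_lit 60450757783) (nat_lit 76) (nat_lit 17297761186) (nat_lit 6) (nat_lit 4) (nat_lit 7) (nat_lit 5) (nat_lit 7) (nat_lit 4) (nat_lit 355) (nat_lit 261) (nat_lit 164)) (XT.lf (nat_lit 0) (nat_lit 80475688420) (nat_lit 76) (nat_lit 51782967430) (nat_lit 76) (nat_lit 8611720544) (nat_lit 6) (nat_lit 4) (nat_lit 7) (nat_lit 5) (nat_lit 7) (nat_lit 4) (nat_lit 356) (nat_lit 261) (nat_lit 163))))) (XT.nd (nat_lit 234) (nat_lit 76) (nat_lit 0) (XT.nd (nat_lit 78) (nat_lit 0) (nat_lit 0) (XT.lf (nat_lit 0) (nat_lit 489445020) (nat_lit 152) (nat_lit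 42195054721) (nat_lit 76) (nat_lit 104883692861) (nat_lit 5) (nat_lit 5) (nat_lit 7) (nat_lit 5) (nat_lit 6) (nat_lit 4) (nat_lit 357) (nat_lit 261) (nat_lit 162)) (XT.nd (nat_lit 78) (nat_lit 0) (nat_lit 0) (XT.lf (nat_lit 0) (nat_lit 9860409409) (nat_lit 152) (nat_lit 23188550561) (nat_lit 76) (nat_lit 121549599648) (nat_lit 5) (nat_lit 5) (nat_lit 7) (nat_lit 5) (nat_lit 6) (nat_lit 4) (nat_lit 358) (nat_lit 261) (nat_lit 161)) (XT.lf (nat_lit 0) (nat_lit 19691530128) (nat_lit 152) (nat_lit 3247140788) (nat_lit 76) (nat_lit 139042028929) (nat_lit 5) (nat_lit 5) (nat_lit 7) (nat_lit 5) (nat_lit 6) (nat_lit 4) (nat_lit 359) (nat_lit 261) (nat_lit 160)))) (XT.nd (nat_lit 32994) (nat_lit 0) (nat_lit 21736) (XT.nd (nat_lit 78) (nat_lit 0) (nat_lit 0) (XT.lf (nat_lit 0) (nat_lit 18028454223) (nat_lit 76) (nat_lit 12151060914) (nat_lit 152) (nat_lit 139547475653) (nat_lit 4) (nat_lit 5) (nat_lit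 5) (nat_lit 5) (nat_lit 6) (nat_lit 4) (nat_lit 360) (nat_lit 261) (nat_lit 159)) (XT.lf (nat_lit 0) (nat_lit 40421420302) (nat_lit 76) (nat_lit 796156736) (nat_lit 152) (nat_lit 136642251731) (nat_lit 4) (nat_lit 5) (nat_lit 5) (nat_lit 5) (nat_lit 6) (nat_lit 4) (nat_lit 361) (nat_lit 261) (nat_lit 158))) (XT.nd (nat_lit 78) (nat_lit 380) (nat_lit 0) (XT.lf (nat_lit 0) (nat_lit 1282970466) (nat_lit 0) (nat_lit 1282970466) (nat_lit 228) (nat_lit 679130377) (nat_lit 295) (nat_lit 5) (nat_lit 295) (nat_lit 3) (nat_lit 298) (nat_lit 3) (nat_lit 262) (nat_lit 262) (nat_lit 256)) (XT.lf (nat_lit 76) (nat_lit 995468042) (nat_lit 0) (nat_lit 1770458344) (nat_lit 380) (nat_lit 3752374933) (nat_lit 291) (nat_lit 5) (nat_lit 290) (nat_lit 3) (nat_lit 295) (nat_lit 5) (nat_lit 263) (nat_lit 262) (nat_lit 255))))))) (XT.nd (nat_lit 1014) (nat_lit 7372) (nat_lit 0) (XT.nd (nat_lit 468) (nat_lit 5092)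 (nat_lit 0) (XT.nd (nat_lit 234) (nat_lit 988) (nat_lit 0) (XT.nd (nat_lit 78) (nat_lit 380) (nat_lit 0) (XT.lf (nat_lit 0) (nat_lit 283084094) (nat_lit 380) (nat_lit 467428936) (nat_lit 456) (nat_lit 5804283662) (nat_lit 285) (nat_lit 5) (nat_lit 290) (nat_lit 3) (nat_lit 291) (nat_lit 5) (nat_lit 264) (nat_lit 262) (nat_lit 254)) (XT.nd (nat_lit 78) (nat_lit 456) (nat_lit 0) (XT.lf (nat_lit 0) (nat_lit 4238543013) (nat_lit 380) (nat_lit 1846246619) (nat_lit 456) (nat_lit 513963131) (nat_lit 286) (nat_lit 5) (nat_lit 291) (nat_lit 5) (nat_lit 292) (nat_lit 5) (nat_lit 265) (nat_lit 262) (nat_lit 253)) (XT.lf (nat_lit 0) (nat_lit 1512765049) (nat_lit 456) (nat_lit 3149882313) (nat_lit 532) (nat_lit 1988334299) (nat_lit 280) (nat_lit 5) (nat_lit 286) (nat_lit 5) (nat_lit 287) (nat_lit 5) (nat_lit 266) (nat_lit 262) (nat_lit 252)))) (XT.nd (nat_lit 78) (nat_lit 988) (nat_lit 0) (XT.lf (nat_lit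 76) (nat_lit 2326310632) (nat_lit 0) (nat_lit 3009964229) (nat_lit 532) (nat_lit 1375225896) (nat_lit 281) (nat_lit 5) (nat_lit 280) (nat_lit 5) (nat_lit 287) (nat_lit 5) (nat_lit 267) (nat_lit 262) (nat_lit 251)) (XT.nd (nat_lit 78) (nat_lit 456) (nat_lit 0) (XT.lf (nat_lit 76) (nat_lit 1221668579) (nat_lit 0) (nat_lit 1119310218) (nat_lit 608) (nat_lit 4439373550) (nat_lit 274) (nat_lit 5) (nat_lit 273) (nat_lit 5) (nat_lit 281) (nat_lit 5) (nat_lit 268) (nat_lit 262) (nat_lit 250)) (XT.lf (nat_lit 0) (nat_lit 181282488) (nat_lit 532) (nat_lit 5870341225) (nat_lit 608) (nat_lit 805987191) (nat_lit 267) (nat_lit 5) (nat_lit 274) (nat_lit 5) (nat_lit 275) (nat_lit 5) (nat_lit 269) (nat_lit 262) (nat_lit 249))))) (XT.nd (nat_lit 234) (nat_lit 3648) (nat_lit 0) (XT.nd (nat_lit 78) (nat_lit 1368) (nat_lit 0) (XT.lf (nat_lit 0) (nat_lit 2807090783) (nat_lit 608) (nat_lit 802625986) (nat_lit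 76) (nat_lit 3332894136) (nat_lit 266) (nat_lit 5) (nat_lit 274) (nat_lit 5) (nat_lit 267) (nat_lit 5) (nat_lit 270) (nat_lit 262) (nat_lit 248)) (XT.nd (nat_lit 78) (nat_lit 760) (nat_lit 0) (XT.lf (nat_lit 0) (nat_lit 5318283093) (nat_lit 608) (nat_lit 1114914052) (nat_lit 684) (nat_lit 603380169) (nat_lit 258) (nat_lit 5) (nat_lit 266) (nat_lit 5) (nat_lit 267) (nat_lit 5) (nat_lit 271) (nat_lit 262) (nat_lit 247)) (XT.lf (nat_lit 0) (nat_lit 2916330243) (nat_lit 760) (nat_lit 2611468174) (nat_lit 76) (nat_lit 1610796223) (nat_lit 248) (nat_lit 5) (nat_lit 258) (nat_lit 5) (nat_lit 249) (nat_lit 5) (nat_lit 272) (nat_lit 262) (nat_lit 246)))) (XT.nd (nat_lit 156) (nat_lit 1976) (nat_lit 0) (XT.nd (nat_lit 78) (nat_lit 912) (nat_lit 0) (XT.lf (nat_lit 0) (nat_lit 3787153923) (nat_lit 760) (nat_lit 2690277054) (nat_lit 836) (nat_lit 772142248) (nat_lit 238) (nat_lit 5) (nat_lit 248) (nat_lit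 5) (nat_lit 249) (nat_lit 5) (nat_lit 273) (nat_lit 262) (nat_lit 245)) (XT.lf (nat_lit 0) (nat_lit 2673321806) (nat_lit 912) (nat_lit 4290489085) (nat_lit 76) (nat_lit 405461835) (nat_lit 226) (nat_lit 5) (nat_lit 238) (nat_lit 5) (nat_lit 227) (nat_lit 5) (nat_lit 274) (nat_lit 262) (nat_lit 244))) (XT.nd (nat_lit 78) (nat_lit 1064) (nat_lit 0) (XT.lf (nat_lit 0) (nat_lit 2390495103) (nat_lit 912) (nat_lit 3796234373) (nat_lit 988) (nat_lit 1310980411) (nat_lit 214) (nat_lit 5) (nat_lit 226) (nat_lit 5) (nat_lit 227) (nat_lit 5) (nat_lit 275) (nat_lit 262) (nat_lit 243)) (XT.lf (nat_lit 0) (nat_lit 1729845489) (nat_lit 988) (nat_lit 361194838) (nat_lit 1064) (nat_lit 5544440673) (nat_lit 200) (nat_lit 5) (nat_lit 213) (nat_lit 5) (nat_lit 214) (nat_lit 5) (nat_lit 276) (nat_lit 262) (nat_lit 242)))))) (XT.nd (nat_lit 546) (nat_lit 2736) (nat_lit 0) (XT.nd (nat_lit 234) (nat_lit 2356) (nat_lit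 0) (XT.nd (nat_lit 78) (nat_lit 1216) (nat_lit 0) (XT.lf (nat_lit 0) (nat_lit 1065709661) (nat_lit 1064) (nat_lit 4502393577) (nat_lit 1140) (nat_lit 2213978078) (nat_lit 186) (nat_lit 5) (nat_lit 200) (nat_lit 5) (nat_lit 201) (nat_lit 5) (nat_lit 277) (nat_lit 262) (nat_lit 241)) (XT.nd (nat_lit 78) (nat_lit 0) (nat_lit 0) (XT.lf (nat_lit 0) (nat_lit 420205296) (nat_lit 1140) (nat_lit 748666589) (nat_lit 1216) (nat_lit 6769712455) (nat_lit 170) (nat_lit 5) (nat_lit 185) (nat_lit 5) (nat_lit 186) (nat_lit 5) (nat_lit 278) (nat_lit 262) (nat_lit 240)) (XT.lf (nat_lit 0) (nat_lit 4624098412) (nat_lit 1216) (nat_lit 247575104) (nat_lit 76) (nat_lit 3232367557) (nat_lit 170) (nat_lit 5) (nat_lit 186) (nat_lit 5) (nat_lit 171) (nat_lit 5) (nat_lit 279) (nat_lit 262) (nat_lit 239)))) (XT.nd (nat_lit 156) (nat_lit 1140) (nat_lit 0) (XT.nd (nat_lit 78) (nat_lit 684) (nat_lit 0) (XT.lf (nat_lit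 0) (nat_lit 7383307606) (nat_lit 532) (nat_lit 802624748) (nat_lit 608) (nat_lit 94067525) (nat_lit 163) (nat_lit 5) (nat_lit 170) (nat_lit 5) (nat_lit 171) (nat_lit 5) (nat_lit 280) (nat_lit 262) (nat_lit 238)) (XT.lf (nat_lit 0) (nat_lit 3356125993) (nat_lit 684) (nat_lit 1601967623) (nat_lit 76) (nat_lit 3507014194) (nat_lit 154) (nat_lit 5) (nat_lit 163) (nat_lit 5) (nat_lit 155) (nat_lit 5) (nat_lit 281) (nat_lit 262) (nat_lit 237))) (XT.nd (nat_lit 78) (nat_lit 608) (nat_lit 0) (XT.lf (nat_lit 0) (nat_lit 6345910917) (nat_lit 532) (nat_lit 574113900) (nat_lit 608) (nat_lit 1741339562) (nat_lit 147) (nat_lit 5) (nat_lit 154) (nat_lit 5) (nat_lit 155) (nat_lit 5) (nat_lit 282) (nat_lit 262) (nat_lit 236)) (XT.lf (nat_lit 0) (nat_lit 1740130504) (nat_lit 608) (nat_lit 3092767980) (nat_lit 76) (nat_lit 4034802933) (nat_lit 139) (nat_lit 5) (nat_lit 147) (nat_lit 5) (nat_lit 140) (nat_lit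 5) (nat_lit 283) (nat_lit 262) (nat_lit 235))))) (XT.nd (nat_lit 234) (nat_lit 1292) (nat_lit 0) (XT.nd (nat_lit 78) (nat_lit 988) (nat_lit 0) (XT.lf (nat_lit 0) (nat_lit 5173867531) (nat_lit 456) (nat_lit 138987390) (nat_lit 532) (nat_lit 3772577020) (nat_lit 133) (nat_lit 5) (nat_lit 139) (nat_lit 5) (nat_lit 140) (nat_lit 5) (nat_lit 284) (nat_lit 262) (nat_lit 234)) (XT.nd (nat_lit 78) (nat_lit 532) (nat_lit 0) (XT.lf (nat_lit 0) (nat_lit 4509166173) (nat_lit 456) (nat_lit 4554476174) (nat_lit 532) (nat_lit 250604504) (nat_lit 127) (nat_lit 5) (nat_lit 133) (nat_lit 5) (nat_lit 134) (nat_lit 5) (nat_lit 285) (nat_lit 262) (nat_lit 233)) (XT.lf (nat_lit 0) (nat_lit 3343948307) (nat_lit 532) (nat_lit 5777326275) (nat_lit 76) (nat_lit 433488175) (nat_lit 120) (nat_lit 5) (nat_lit 127) (nat_lit 5) (nat_lit 121) (nat_lit 5) (nat_lit 286) (nat_lit 262) (nat_lit 232)))) (XT.nd (nat_lit 156)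 (nat_lit 380) (nat_lit 0) (XT.nd (nat_lit 78) (nat_lit 456) (nat_lit 0) (XT.lf (nat_lit 0) (nat_lit 2956440434) (nat_lit 456) (nat_lit 4166295579) (nat_lit 532) (nat_lit 2684362398) (nat_lit 114) (nat_lit 5) (nat_lit 120) (nat_lit 5) (nat_lit 121) (nat_lit 5) (nat_lit 287) (nat_lit 262) (nat_lit 231)) (XT.lf (nat_lit 0) (nat_lit 977411391) (nat_lit 456) (nat_lit 8010466854) (nat_lit 76) (nat_lit 1084659860) (nat_lit 108) (nat_lit 5) (nat_lit 114) (nat_lit 5) (nat_lit 109) (nat_lit 5) (nat_lit 288) (nat_lit 262) (nat_lit 230))) (XT.nd (nat_lit 78) (nat_lit 0) (nat_lit 0) (XT.lf (nat_lit 0) (nat_lit 1031031483) (nat_lit 380) (nat_lit 3751520021) (nat_lit 456) (nat_lit 5567567213) (nat_lit 103) (nat_lit 5) (nat_lit 108) (nat_lit 5) (nat_lit 109) (nat_lit 5) (nat_lit 289) (nat_lit 262) (nat_lit 229)) (XT.lf (nat_lit 0) (nat_lit 8773753211) (nat_lit 456) (nat_lit 97589086) (nat_lit 76) (nat_lit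 1770495355) (nat_lit 103) (nat_lit 5) (nat_lit 109) (nat_lit 5) (nat_lit 104) (nat_lit 5) (nat_lit 290) (nat_lit 262) (nat_lit 228))))))))
noncomputable def xc54 : XT := (XT.nd (nat_lit 2028) (nat_lit 1596) (nat_lit 0) (XT.nd (nat_lit 1014) (nat_lit 1824) (nat_lit 0) (XT.nd (nat_lit 468) (nat_lit 1444) (nat_lit 0) (XT.nd (nat_lit 234) (nat_lit 1064) (nat_lit 0) (XT.nd (nat_lit 78) (nat_lit 684) (nat_lit 0) (XT.lf (nat_lit 0) (nat_lit 2008133303) (nat_lit 456) (nat_lit 1358973243) (nat_lit 76) (nat_lit 7579644657) (nat_lit 97) (nat_lit 5) (nat_lit 103) (nat_lit 5) (nat_lit 98) (nat_lit 5) (nat_lit 291) (nat_lit 262) (nat_lit 227)) (XT.nd (nat_lit 78) (nat_lit 304) (nat_lit 0) (XT.lf (nat_lit 0) (nat_lit 6049859156) (nat_lit 456) (nat_lit 2775909968) (nat_lit 76) (nat_lit 2440393970) (nat_lit 92) (nat_lit 5) (nat_lit 98) (nat_lit 5) (nat_lit 93) (nat_lit 5) (nat_lit 292) (nat_lit 262) (nat_lit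 226)) (XT.lf (nat_lit 0) (nat_lit 7242385881) (nat_lit 304) (nat_lit 3075373452) (nat_lit 380) (nat_lit 1283175507) (nat_lit 88) (nat_lit 5) (nat_lit 92) (nat_lit 5) (nat_lit 93) (nat_lit 5) (nat_lit 293) (nat_lit 262) (nat_lit 225)))) (XT.nd (nat_lit 78) (nat_lit 608) (nat_lit 0) (XT.lf (nat_lit 0) (nat_lit 2813928727) (nat_lit 456) (nat_lit 6149436942) (nat_lit 76) (nat_lit 2987676067) (nat_lit 82) (nat_lit 5) (nat_lit 88) (nat_lit 5) (nat_lit 83) (nat_lit 5) (nat_lit 294) (nat_lit 262) (nat_lit 224)) (XT.nd (nat_lit 78) (nat_lit 304) (nat_lit 0) (XT.lf (nat_lit 0) (nat_lit 4158924939) (nat_lit 304) (nat_lit 2958572292) (nat_lit 380) (nat_lit 5200029734) (nat_lit 78) (nat_lit 5) (nat_lit 82) (nat_lit 5) (nat_lit 83) (nat_lit 5) (nat_lit 295) (nat_lit 262) (nat_lit 223)) (XT.lf (nat_lit 0) (nat_lit 2302714321) (nat_lit 304) (nat_lit 9366098691) (nat_lit 380) (nat_lit 1032640230) (nat_lit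 74) (nat_lit 5) (nat_lit 78) (nat_lit 5) (nat_lit 79) (nat_lit 5) (nat_lit 296) (nat_lit 262) (nat_lit 222))))) (XT.nd (nat_lit 234) (nat_lit 836) (nat_lit 0) (XT.nd (nat_lit 78) (nat_lit 304) (nat_lit 0) (XT.lf (nat_lit 0) (nat_lit 177665624) (nat_lit 228) (nat_lit 3132989572) (nat_lit 304) (nat_lit 9792060149) (nat_lit 70) (nat_lit 5) (nat_lit 73) (nat_lit 5) (nat_lit 74) (nat_lit 5) (nat_lit 297) (nat_lit 262) (nat_lit 221)) (XT.nd (nat_lit 78) (nat_lit 304) (nat_lit 0) (XT.lf (nat_lit 0) (nat_lit 7909790057) (nat_lit 304) (nat_lit 2182194970) (nat_lit 76) (nat_lit 3430030513) (nat_lit 70) (nat_lit 5) (nat_lit 74) (nat_lit 5) (nat_lit 71) (nat_lit 5) (nat_lit 298) (nat_lit 262) (nat_lit 220)) (XT.lf (nat_lit 0) (nat_lit 9132696461) (nat_lit 304) (nat_lit 3648387666) (nat_lit 380) (nat_lit 1180009254) (nat_lit 66) (nat_lit 5) (nat_lit 70) (nat_lit 5) (nat_lit 71) (nat_lit 5) (nat_lit 299)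 (nat_lit 262) (nat_lit 219)))) (XT.nd (nat_lit 156) (nat_lit 304) (nat_lit 0) (XT.nd (nat_lit 78) (nat_lit 228) (nat_lit 0) (XT.lf (nat_lit 0) (nat_lit 3447813653) (nat_lit 304) (nat_lit 7828645672) (nat_lit 76) (nat_lit 3143483315) (nat_lit 62) (nat_lit 5) (nat_lit 66) (nat_lit 5) (nat_lit 63) (nat_lit 5) (nat_lit 300) (nat_lit 262) (nat_lit 218)) (XT.lf (nat_lit 0) (nat_lit 3696702738) (nat_lit 228) (nat_lit 4635550335) (nat_lit 304) (nat_lit 6567711215) (nat_lit 59) (nat_lit 5) (nat_lit 62) (nat_lit 5) (nat_lit 63) (nat_lit 5) (nat_lit 301) (nat_lit 262) (nat_lit 217))) (XT.nd (nat_lit 78) (nat_lit 76) (nat_lit 0) (XT.lf (nat_lit 0) (nat_lit 438057991) (nat_lit 228) (nat_lit 13059900943) (nat_lit 304) (nat_lit 1904982761) (nat_lit 56) (nat_lit 5) (nat_lit 59) (nat_lit 5) (nat_lit 60) (nat_lit 5) (nat_lit 302) (nat_lit 262) (nat_lit 216)) (XT.lf (nat_lit 0) (nat_lit 3026390968) (nat_lit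 304) (nat_lit 3214656232) (nat_lit 76) (nat_lit 9686403155) (nat_lit 55) (nat_lit 5) (nat_lit 59) (nat_lit 5) (nat_lit 56) (nat_lit 5) (nat_lit 303) (nat_lit 262) (nat_lit 215)))))) (XT.nd (nat_lit 468) (nat_lit 760) (nat_lit 0) (XT.nd (nat_lit 234) (nat_lit 380) (nat_lit 0) (XT.nd (nat_lit 78) (nat_lit 456) (nat_lit 0) (XT.lf (nat_lit 0) (nat_lit 8197045938) (nat_lit 304) (nat_lit 7304412520) (nat_lit 76) (nat_lit 975254969) (nat_lit 52) (nat_lit 5) (nat_lit 56) (nat_lit 5) (nat_lit 53) (nat_lit 5) (nat_lit 304) (nat_lit 262) (nat_lit 214)) (XT.nd (nat_lit 78) (nat_lit 304) (nat_lit 0) (XT.lf (nat_lit 0) (nat_lit 5130495434) (nat_lit 152) (nat_lit 8577263163) (nat_lit 228) (nat_lit 3343290671) (nat_lit 50) (nat_lit 5) (nat_lit 52) (nat_lit 5) (nat_lit 53) (nat_lit 5) (nat_lit 305) (nat_lit 262) (nat_lit 213)) (XT.lf (nat_lit 0) (nat_lit 582806535) (nat_lit 228) (nat_lit 1239990654) (nat_lit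 304) (nat_lit 15830261454) (nat_lit 46) (nat_lit 5) (nat_lit 49) (nat_lit 5) (nat_lit 50) (nat_lit 5) (nat_lit 306) (nat_lit 262) (nat_lit 212)))) (XT.nd (nat_lit 78) (nat_lit 380) (nat_lit 0) (XT.lf (nat_lit 0) (nat_lit 7303747293) (nat_lit 304) (nat_lit 4514948322) (nat_lit 76) (nat_lit 6461757500) (nat_lit 46) (nat_lit 5) (nat_lit 50) (nat_lit 5) (nat_lit 47) (nat_lit 5) (nat_lit 307) (nat_lit 262) (nat_lit 211)) (XT.nd (nat_lit 78) (nat_lit 228) (nat_lit 0) (XT.lf (nat_lit 0) (nat_lit 8733839805) (nat_lit 152) (nat_lit 4363276210) (nat_lit 228) (nat_lit 5840996597) (nat_lit 44) (nat_lit 5) (nat_lit 46) (nat_lit 5) (nat_lit 47) (nat_lit 5) (nat_lit 308) (nat_lit 262) (nat_lit 210)) (XT.lf (nat_lit 0) (nat_lit 3046883701) (nat_lit 228) (nat_lit 16186288177) (nat_lit 304) (nat_lit 393936865) (nat_lit 41) (nat_lit 5) (nat_lit 44) (nat_lit 5) (nat_lit 45) (nat_lit 5) (nat_lit 309) (nat_lit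 262) (nat_lit 209))))) (XT.nd (nat_lit 234) (nat_lit 380) (nat_lit 0) (XT.nd (nat_lit 78) (nat_lit 304) (nat_lit 0) (XT.lf (nat_lit 0) (nat_lit 5316425250) (nat_lit 304) (nat_lit 3359331260) (nat_lit 76) (nat_lit 11670457249) (nat_lit 40) (nat_lit 5) (nat_lit 44) (nat_lit 5) (nat_lit 41) (nat_lit 5) (nat_lit 310) (nat_lit 262) (nat_lit 208)) (XT.nd (nat_lit 78) (nat_lit 152) (nat_lit 0) (XT.lf (nat_lit 0) (nat_lit 10641043968) (nat_lit 152) (nat_lit 712854418) (nat_lit 228) (nat_lit 9745805366) (nat_lit 38) (nat_lit 5) (nat_lit 40) (nat_lit 5) (nat_lit 41) (nat_lit 5) (nat_lit 311) (nat_lit 262) (nat_lit 207)) (XT.lf (nat_lit 0) (nat_lit 3430846810) (nat_lit 152) (nat_lit 14352600464) (nat_lit 228) (nat_lit 4104751995) (nat_lit 36) (nat_lit 5) (nat_lit 38) (nat_lit 5) (nat_lit 39) (nat_lit 5) (nat_lit 312) (nat_lit 262) (nat_lit 206)))) (XT.nd (nat_lit 156) (nat_lit 152) (nat_lit 0) (XT.nd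 (nat_lit 78) (nat_lit 152) (nat_lit 0) (XT.lf (nat_lit 0) (nat_lit 1848703825) (nat_lit 228) (nat_lit 4587915007) (nat_lit 76) (nat_lit 16277035677) (nat_lit 35) (nat_lit 5) (nat_lit 38) (nat_lit 5) (nat_lit 36) (nat_lit 5) (nat_lit 313) (nat_lit 262) (nat_lit 205)) (XT.lf (nat_lit 0) (nat_lit 8083732824) (nat_lit 228) (nat_lit 13545836731) (nat_lit 76) (nat_lit 1947562592) (nat_lit 33) (nat_lit 5) (nat_lit 36) (nat_lit 5) (nat_lit 34) (nat_lit 5) (nat_lit 314) (nat_lit 262) (nat_lit 204))) (XT.nd (nat_lit 78) (nat_lit 0) (nat_lit 0) (XT.lf (nat_lit 0) (nat_lit 868894212) (nat_lit 152) (nat_lit 13836173222) (nat_lit 228) (nat_lit 9776510714) (nat_lit 31) (nat_lit 5) (nat_lit 33) (nat_lit 5) (nat_lit 34) (nat_lit 5) (nat_lit 315) (nat_lit 262) (nat_lit 203)) (XT.lf (nat_lit 0) (nat_lit 16212053696) (nat_lit 152) (nat_lit 5539884686) (nat_lit 228) (nat_lit 3676503600) (nat_lit 31) (nat_lit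 5) (nat_lit 33) (nat_lit 5) (nat_lit 34) (nat_lit 5) (nat_lit 316) (nat_lit 262) (nat_lit 202))))))) (XT.nd (nat_lit 1014) (nat_lit 532) (nat_lit 0) (XT.nd (nat_lit 468) (nat_lit 532) (nat_lit 0) (XT.nd (nat_lit 234) (nat_lit 152) (nat_lit 0) (XT.nd (nat_lit 78) (nat_lit 152) (nat_lit 0) (XT.lf (nat_lit 0) (nat_lit 2719872610) (nat_lit 228) (nat_lit 20536239702) (nat_lit 76) (nat_lit 3164438897) (nat_lit 28) (nat_lit 5) (nat_lit 31) (nat_lit 5) (nat_lit 29) (nat_lit 5) (nat_lit 317) (nat_lit 262) (nat_lit 201)) (XT.nd (nat_lit 78) (nat_lit 152) (nat_lit 0) (XT.lf (nat_lit 0) (nat_lit 9470291763) (nat_lit 228) (nat_lit 5692340238) (nat_lit 76) (nat_lit 12295260155) (nat_lit 28) (nat_lit 5) (nat_lit 31) (nat_lit 5) (nat_lit 29) (nat_lit 5) (nat_lit 318) (nat_lit 262) (nat_lit 200)) (XT.lf (nat_lit 0) (nat_lit 10021112011) (nat_lit 152) (nat_lit 6593281029) (nat_lit 228) (nat_lit 11931047119)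 (nat_lit 26) (nat_lit 5) (nat_lit 28) (nat_lit 5) (nat_lit 29) (nat_lit 5) (nat_lit 319) (nat_lit 262) (nat_lit 199)))) (XT.nd (nat_lit 78) (nat_lit 152) (nat_lit 0) (XT.lf (nat_lit 0) (nat_lit 24158836387) (nat_lit 228) (nat_lit 3137274743) (nat_lit 76) (nat_lit 2389983984) (nat_lit 26) (nat_lit 5) (nat_lit 29) (nat_lit 5) (nat_lit 27) (nat_lit 4) (nat_lit 320) (nat_lit 262) (nat_lit 198)) (XT.nd (nat_lit 78) (nat_lit 0) (nat_lit 0) (XT.lf (nat_lit 0) (nat_lit 1330501871) (nat_lit 152) (nat_lit 17747053306) (nat_lit 76) (nat_lit 11801190356) (nat_lit 24) (nat_lit 5) (nat_lit 26) (nat_lit 5) (nat_lit 25) (nat_lit 5) (nat_lit 321) (nat_lit 262) (nat_lit 197)) (XT.lf (nat_lit 0) (nat_lit 8414025896) (nat_lit 152) (nat_lit 1969378341) (nat_lit 76) (nat_lit 21746087685) (nat_lit 24) (nat_lit 5) (nat_lit 26) (nat_lit 5) (nat_lit 25) (nat_lit 5) (nat_lit 322) (nat_lit 262) (nat_lit 196))))) (XT.nd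 (nat_lit 234) (nat_lit 304) (nat_lit 0) (XT.nd (nat_lit 78) (nat_lit 76) (nat_lit 0) (XT.lf (nat_lit 0) (nat_lit 14826616905) (nat_lit 152) (nat_lit 1132879088) (nat_lit 228) (nat_lit 17480066386) (nat_lit 22) (nat_lit 5) (nat_lit 24) (nat_lit 5) (nat_lit 25) (nat_lit 5) (nat_lit 323) (nat_lit 262) (nat_lit 195)) (XT.nd (nat_lit 78) (nat_lit 76) (nat_lit 0) (XT.lf (nat_lit 0) (nat_lit 23951298689) (nat_lit 228) (nat_lit 2452601220) (nat_lit 76) (nat_lit 8409183577) (nat_lit 22) (nat_lit 5) (nat_lit 25) (nat_lit 5) (nat_lit 23) (nat_lit 4) (nat_lit 324) (nat_lit 262) (nat_lit 194)) (XT.lf (nat_lit 0) (nat_lit 14735719849) (nat_lit 76) (nat_lit 17727776268) (nat_lit 152) (nat_lit 3788178392) (nat_lit 21) (nat_lit 5) (nat_lit 22) (nat_lit 5) (nat_lit 23) (nat_lit 4) (nat_lit 325) (nat_lit 262) (nat_lit 193)))) (XT.nd (nat_lit 156) (nat_lit 76) (nat_lit 0) (XT.nd (nat_lit 78) (nat_lit 152) (nat_lit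 0) (XT.lf (nat_lit 0) (nat_lit 3562001384) (nat_lit 152) (nat_lit 5017148568) (nat_lit 76) (nat_lit 29182195178) (nat_lit 20) (nat_lit 5) (nat_lit 22) (nat_lit 5) (nat_lit 21) (nat_lit 5) (nat_lit 326) (nat_lit 262) (nat_lit 192)) (XT.lf (nat_lit 0) (nat_lit 11302967648) (nat_lit 228) (nat_lit 26894976856) (nat_lit 76) (nat_lit 1144396742) (nat_lit 18) (nat_lit 5) (nat_lit 21) (nat_lit 5) (nat_lit 19) (nat_lit 4) (nat_lit 327) (nat_lit 262) (nat_lit 191))) (XT.nd (nat_lit 78) (nat_lit 76) (nat_lit 0) (XT.lf (nat_lit 0) (nat_lit 19540375745) (nat_lit 228) (nat_lit 10249726825) (nat_lit 76) (nat_lit 11209017888) (nat_lit 18) (nat_lit 5) (nat_lit 21) (nat_lit 5) (nat_lit 19) (nat_lit 4) (nat_lit 328) (nat_lit 262) (nat_lit 190)) (XT.lf (nat_lit 0) (nat_lit 7321382809) (nat_lit 76) (nat_lit 20910690578) (nat_lit 152) (nat_lit 14505407047) (nat_lit 17) (nat_lit 5) (nat_lit 18) (nat_lit 5) (nat_lit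 19) (nat_lit 4) (nat_lit 329) (nat_lit 262) (nat_lit 189)))))) (XT.nd (nat_lit 546) (nat_lit 228) (nat_lit 0) (XT.nd (nat_lit 234) (nat_lit 76) (nat_lit 0) (XT.nd (nat_lit 78) (nat_lit 228) (nat_lit 0) (XT.lf (nat_lit 0) (nat_lit 25937379922) (nat_lit 76) (nat_lit 11499400735) (nat_lit 152) (nat_lit 7123638700) (nat_lit 17) (nat_lit 5) (nat_lit 18) (nat_lit 5) (nat_lit 19) (nat_lit 4) (nat_lit 330) (nat_lit 262) (nat_lit 188)) (XT.nd (nat_lit 78) (nat_lit 152) (nat_lit 0) (XT.lf (nat_lit 0) (nat_lit 588913292) (nat_lit 152) (nat_lit 1042467191) (nat_lit 76) (nat_lit 44843738493) (nat_lit 16) (nat_lit 5) (nat_lit 18) (nat_lit 5) (nat_lit 17) (nat_lit 5) (nat_lit 331) (nat_lit 262) (nat_lit 187)) (XT.lf (nat_lit 0) (nat_lit 8772057436) (nat_lit 228) (nat_lit 30919541737) (nat_lit 76) (nat_lit 8784881757) (nat_lit 14) (nat_lit 5) (nat_lit 17) (nat_lit 5) (nat_lit 15) (nat_lit 4) (nat_lit 332)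 (nat_lit 262) (nat_lit 186)))) (XT.nd (nat_lit 156) (nat_lit 0) (nat_lit 0) (XT.nd (nat_lit 78) (nat_lit 76) (nat_lit 0) (XT.lf (nat_lit 0) (nat_lit 17367431220) (nat_lit 228) (nat_lit 13529270211) (nat_lit 76) (nat_lit 19681128862) (nat_lit 14) (nat_lit 5) (nat_lit 17) (nat_lit 5) (nat_lit 15) (nat_lit 4) (nat_lit 333) (nat_lit 262) (nat_lit 185)) (XT.lf (nat_lit 0) (nat_lit 4782690607) (nat_lit 76) (nat_lit 21632780075) (nat_lit 152) (nat_lit 26368100468) (nat_lit 13) (nat_lit 5) (nat_lit 14) (nat_lit 5) (nat_lit 15) (nat_lit 4) (nat_lit 334) (nat_lit 262) (nat_lit 184))) (XT.nd (nat_lit 78) (nat_lit 0) (nat_lit 0) (XT.lf (nat_lit 0) (nat_lit 24252999226) (nat_lit 76) (nat_lit 11779822308) (nat_lit 152) (nat_lit 19063280649) (nat_lit 13) (nat_lit 5) (nat_lit 14) (nat_lit 5) (nat_lit 15) (nat_lit 4) (nat_lit 335) (nat_lit 262) (nat_lit 183)) (XT.lf (nat_lit 0) (nat_lit 44658754519) (nat_lit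 76) (nat_lit 1450987808) (nat_lit 152) (nat_lit 11415166290) (nat_lit 13) (nat_lit 5) (nat_lit 14) (nat_lit 5) (nat_lit 15) (nat_lit 4) (nat_lit 336) (nat_lit 262) (nat_lit 182))))) (XT.nd (nat_lit 234) (nat_lit 76) (nat_lit 0) (XT.nd (nat_lit 78) (nat_lit 76) (nat_lit 0) (XT.lf (nat_lit 0) (nat_lit 5999693820) (nat_lit 76) (nat_lit 50818354743) (nat_lit 76) (nat_lit 3253290073) (nat_lit 12) (nat_lit 4) (nat_lit 13) (nat_lit 5) (nat_lit 13) (nat_lit 4) (nat_lit 337) (nat_lit 262) (nat_lit 181)) (XT.nd (nat_lit 78) (nat_lit 0) (nat_lit 0) (XT.lf (nat_lit 0) (nat_lit 5341323029) (nat_lit 152) (nat_lit 36766556363) (nat_lit 76) (nat_lit 20631834566) (nat_lit 11) (nat_lit 5) (nat_lit 13) (nat_lit 5) (nat_lit 12) (nat_lit 4) (nat_lit 338) (nat_lit 262) (nat_lit 180)) (XT.lf (nat_lit 0) (nat_lit 14279950573) (nat_lit 152) (nat_lit 18663406679) (nat_lit 76) (nat_lit 32597745783) (nat_lit 11) (nat_lit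 5) (nat_lit 13) (nat_lit 5) (nat_lit 12) (nat_lit 4) (nat_lit 339) (nat_lit 262) (nat_lit 179)))) (XT.nd (nat_lit 156) (nat_lit 0) (nat_lit 0) (XT.nd (nat_lit 78) (nat_lit 0) (nat_lit 0) (XT.lf (nat_lit 0) (nat_lit 318392571) (nat_lit 76) (nat_lit 23332026425) (nat_lit 152) (nat_lit 44832603209) (nat_lit 10) (nat_lit 5) (nat_lit 11) (nat_lit 5) (nat_lit 12) (nat_lit 4) (nat_lit 340) (nat_lit 262) (nat_lit 178)) (XT.lf (nat_lit 0) (nat_lit 20607509128) (nat_lit 76) (nat_lit 13056432755) (nat_lit 152) (nat_lit 37902867066) (nat_lit 10) (nat_lit 5) (nat_lit 11) (nat_lit 5) (nat_lit 12) (nat_lit 4) (nat_lit 341) (nat_lit 262) (nat_lit 177))) (XT.nd (nat_lit 78) (nat_lit 0) (nat_lit 0) (XT.lf (nat_lit 0) (nat_lit 41880812022) (nat_lit 76) (nat_lit 2280574357) (nat_lit 152) (nat_lit 30643908473) (nat_lit 10) (nat_lit 5) (nat_lit 11) (nat_lit 5) (nat_lit 12) (nat_lit 4) (nat_lit 342) (nat_lit 262)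 (nat_lit 176)) (XT.lf (nat_lit 0) (nat_lit 55254463746) (nat_lit 152) (nat_lit 14103955968) (nat_lit 0) (nat_lit 8845169362) (nat_lit 10) (nat_lit 5) (nat_lit 12) (nat_lit 4) (nat_lit 10) (nat_lit 4) (nat_lit 343) (nat_lit 262) (nat_lit 175))))))))
noncomputable def xc55 : XT := (XT.nd (nat_lit 34944) (nat_lit 0) (nat_lit 5244) (XT.nd (nat_lit 1014) (nat_lit 152) (nat_lit 0) (XT.nd (nat_lit 468) (nat_lit 76) (nat_lit 0) (XT.nd (nat_lit 234) (nat_lit 76) (nat_lit 0) (XT.nd (nat_lit 78) (nat_lit 76) (nat_lit 0) (XT.lf (nat_lit 0) (nat_lit 5718364834) (nat_lit 76) (nat_lit 61246502264) (nat_lit 76) (nat_lit 14805057267) (nat_lit 9) (nat_lit 4) (nat_lit 10) (nat_lit 5) (nat_lit 10) (nat_lit 4) (nat_lit 344) (nat_lit 262) (nat_lit 174)) (XT.nd (nat_lit 78) (nat_lit 76) (nat_lit 0) (XT.lf (nat_lit 0) (nat_lit 26799529845) (nat_lit 76) (nat_lit 52591603563) (nat_lit 76) (nat_lit 6119538935) (nat_lit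 9) (nat_lit 4) (nat_lit 10) (nat_lit 5) (nat_lit 10) (nat_lit 4) (nat_lit 345) (nat_lit 262) (nat_lit 173)) (XT.lf (nat_lit 0) (nat_lit 2927425660) (nat_lit 152) (nat_lit 40558552091) (nat_lit 76) (nat_lit 45952049017) (nat_lit 8) (nat_lit 5) (nat_lit 10) (nat_lit 5) (nat_lit 9) (nat_lit 4) (nat_lit 346) (nat_lit 262) (nat_lit 172)))) (XT.nd (nat_lit 78) (nat_lit 76) (nat_lit 0) (XT.lf (nat_lit 0) (nat_lit 12287749845) (nat_lit 152) (nat_lit 21584866904) (nat_lit 76) (nat_lit 59687692763) (nat_lit 8) (nat_lit 5) (nat_lit 10) (nat_lit 5) (nat_lit 9) (nat_lit 4) (nat_lit 347) (nat_lit 262) (nat_lit 171)) (XT.nd (nat_lit 78) (nat_lit 76) (nat_lit 0) (XT.lf (nat_lit 0) (nat_lit 22103134352) (nat_lit 152) (nat_lit 1686086743) (nat_lit 76) (nat_lit 74099879181) (nat_lit 8) (nat_lit 5) (nat_lit 10) (nat_lit 5) (nat_lit 9) (nat_lit 4) (nat_lit 348) (nat_lit 262) (nat_lit 170)) (XT.lf (nat_lit 0)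 (nat_lit 19566988869) (nat_lit 76) (nat_lit 13018050142) (nat_lit 152) (nat_lit 69844023998) (nat_lit 7) (nat_lit 5) (nat_lit 8) (nat_lit 5) (nat_lit 9) (nat_lit 4) (nat_lit 349) (nat_lit 262) (nat_lit 169))))) (XT.nd (nat_lit 234) (nat_lit 76) (nat_lit 0) (XT.nd (nat_lit 78) (nat_lit 0) (nat_lit 0) (XT.lf (nat_lit 0) (nat_lit 41896130512) (nat_lit 76) (nat_lit 1700304029) (nat_lit 152) (nat_lit 63599432191) (nat_lit 7) (nat_lit 5) (nat_lit 8) (nat_lit 5) (nat_lit 9) (nat_lit 4) (nat_lit 350) (nat_lit 262) (nat_lit 168)) (XT.nd (nat_lit 78) (nat_lit 0) (nat_lit 0) (XT.lf (nat_lit 0) (nat_lit 55244806404) (nat_lit 152) (nat_lit 46978208626) (nat_lit 0) (nat_lit 9975407911) (nat_lit 7) (nat_lit 5) (nat_lit 9) (nat_lit 4) (nat_lit 7) (nat_lit 4) (nat_lit 351) (nat_lit 262) (nat_lit 167)) (XT.lf (nat_lit 0) (nat_lit 67481823360) (nat_lit 152) (nat_lit 27777803214) (nat_lit 0) (nat_lit 22191297877)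 (nat_lit 7) (nat_lit 5) (nat_lit 9) (nat_lit 4) (nat_lit 7) (nat_lit 4) (nat_lit 352) (nat_lit 262) (nat_lit 166)))) (XT.nd (nat_lit 156) (nat_lit 0) (nat_lit 0) (XT.nd (nat_lit 78) (nat_lit 76) (nat_lit 0) (XT.lf (nat_lit 0) (nat_lit 80320276801) (nat_lit 152) (nat_lit 7636460370) (nat_lit 0) (nat_lit 35009630374) (nat_lit 7) (nat_lit 5) (nat_lit 9) (nat_lit 4) (nat_lit 7) (nat_lit 4) (nat_lit 353) (nat_lit 262) (nat_lit 165)) (XT.lf (nat_lit 0) (nat_lit 13762328073) (nat_lit 76) (nat_lit 80160698317) (nat_lit 76) (nat_lit 34830889087) (nat_lit 6) (nat_lit 4) (nat_lit 7) (nat_lit 5) (nat_lit 7) (nat_lit 4) (nat_lit 354) (nat_lit 262) (nat_lit 164))) (XT.nd (nat_lit 78) (nat_lit 0) (nat_lit 0) (XT.lf (nat_lit 0) (nat_lit 36372982325) (nat_lit 76) (nat_lit 71901925927) (nat_lit 76) (nat_lit 26553866408) (nat_lit 6) (nat_lit 4) (nat_lit 7) (nat_lit 5) (nat_lit 7) (nat_lit 4) (nat_lit 355)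 (nat_lit 262) (nat_lit 163)) (XT.lf (nat_lit 0) (nat_lit 60097356744) (nat_lit 76) (nat_lit 63237869533) (nat_lit 76) (nat_lit 17872428787) (nat_lit 6) (nat_lit 4) (nat_lit 7) (nat_lit 5) (nat_lit 7) (nat_lit 4) (nat_lit 356) (nat_lit 262) (nat_lit 162)))))) (XT.nd (nat_lit 33384) (nat_lit 0) (nat_lit 19836) (XT.nd (nat_lit 234) (nat_lit 76) (nat_lit 0) (XT.nd (nat_lit 78) (nat_lit 76) (nat_lit 0) (XT.lf (nat_lit 0) (nat_lit 84991937933) (nat_lit 76) (nat_lit 54147900432) (nat_lit 76) (nat_lit 8765906135) (nat_lit 6) (nat_lit 4) (nat_lit 7) (nat_lit 5) (nat_lit 7) (nat_lit 4) (nat_lit 357) (nat_lit 262) (nat_lit 161)) (XT.nd (nat_lit 78) (nat_lit 0) (nat_lit 0) (XT.lf (nat_lit 0) (nat_lit 772019050) (nat_lit 152) (nat_lit 43830560909) (nat_lit 76) (nat_lit 110336183776) (nat_lit 5) (nat_lit 5) (nat_lit 7) (nat_lit 5) (nat_lit 6) (nat_lit 4) (nat_lit 358) (nat_lit 262) (nat_lit 160)) (XT.lf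 (nat_lit 0) (nat_lit 10599241098) (nat_lit 152) (nat_lit 23896314710) (nat_lit 76) (nat_lit 127825466556) (nat_lit 5) (nat_lit 5) (nat_lit 7) (nat_lit 5) (nat_lit 6) (nat_lit 4) (nat_lit 359) (nat_lit 262) (nat_lit 159)))) (XT.nd (nat_lit 78) (nat_lit 76) (nat_lit 0) (XT.lf (nat_lit 0) (nat_lit 20910212556) (nat_lit 152) (nat_lit 2979342227) (nat_lit 76) (nat_lit 146183070304) (nat_lit 5) (nat_lit 5) (nat_lit 7) (nat_lit 5) (nat_lit 6) (nat_lit 4) (nat_lit 360) (nat_lit 262) (nat_lit 158)) (XT.nd (nat_lit 32994) (nat_lit 0) (nat_lit 21356) (XT.lf (nat_lit 0) (nat_lit 19347702210) (nat_lit 76) (nat_lit 12567763097) (nat_lit 152) (nat_lit 146290983342) (nat_lit 4) (nat_lit 5) (nat_lit 5) (nat_lit 5) (nat_lit 6) (nat_lit 4) (nat_lit 361) (nat_lit 262) (nat_lit 157)) (XT.lf (nat_lit 0) (nat_lit 40831774) (nat_lit 0) (nat_lit 40831774) (nat_lit 380) (nat_lit 3193705262) (nat_lit 285) (nat_lit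 5) (nat_lit 285) (nat_lit 3) (nat_lit 290) (nat_lit 3) (nat_lit 263) (nat_lit 263) (nat_lit 254))))) (XT.nd (nat_lit 234) (nat_lit 1064) (nat_lit 0) (XT.nd (nat_lit 78) (nat_lit 456) (nat_lit 0) (XT.lf (nat_lit 0) (nat_lit 4000065441) (nat_lit 380) (nat_lit 1516279546) (nat_lit 456) (nat_lit 1073875951) (nat_lit 285) (nat_lit 5) (nat_lit 290) (nat_lit 3) (nat_lit 291) (nat_lit 5) (nat_lit 264) (nat_lit 263) (nat_lit 253)) (XT.nd (nat_lit 78) (nat_lit 0) (nat_lit 0) (XT.lf (nat_lit 0) (nat_lit 1159219373) (nat_lit 456) (nat_lit 3027297694) (nat_lit 532) (nat_lit 2451651312) (nat_lit 279) (nat_lit 5) (nat_lit 285) (nat_lit 5) (nat_lit 286) (nat_lit 5) (nat_lit 265) (nat_lit 263) (nat_lit 252)) (XT.lf (nat_lit 76) (nat_lit 2222161055) (nat_lit 0) (nat_lit 2621970656) (nat_lit 532) (nat_lit 1850113792) (nat_lit 280) (nat_lit 5) (nat_lit 279) (nat_lit 5) (nat_lit 286) (nat_lit 5) (nat_lit 266)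 (nat_lit 263) (nat_lit 251)))) (XT.nd (nat_lit 156) (nat_lit 532) (nat_lit 0) (XT.nd (nat_lit 78) (nat_lit 0) (nat_lit 76) (XT.lf (nat_lit 76) (nat_lit 909586826) (nat_lit 0) (nat_lit 823801440) (nat_lit 608) (nat_lit 5025337972) (nat_lit 273) (nat_lit 5) (nat_lit 272) (nat_lit 5) (nat_lit 280) (nat_lit 5) (nat_lit 267) (nat_lit 263) (nat_lit 250)) (XT.lf (nat_lit 0) (nat_lit 5296632827) (nat_lit 532) (nat_lit 338854505) (nat_lit 608) (nat_lit 1195714243) (nat_lit 273) (nat_lit 5) (nat_lit 280) (nat_lit 5) (nat_lit 281) (nat_lit 5) (nat_lit 268) (nat_lit 263) (nat_lit 249))) (XT.nd (nat_lit 78) (nat_lit 0) (nat_lit 0) (XT.lf (nat_lit 0) (nat_lit 1939736304) (nat_lit 608) (nat_lit 1518612851) (nat_lit 684) (nat_lit 3453268263) (nat_lit 265) (nat_lit 5) (nat_lit 273) (nat_lit 5) (nat_lit 274) (nat_lit 5) (nat_lit 269) (nat_lit 263) (nat_lit 248)) (XT.lf (nat_lit 76) (nat_lit 4359818587) (nat_lit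 0) (nat_lit 1040338072) (nat_lit 684) (nat_lit 1600544577) (nat_lit 266) (nat_lit 5) (nat_lit 265) (nat_lit 5) (nat_lit 274) (nat_lit 5) (nat_lit 270) (nat_lit 263) (nat_lit 247))))))) (XT.nd (nat_lit 1014) (nat_lit 5016) (nat_lit 0) (XT.nd (nat_lit 468) (nat_lit 5624) (nat_lit 0) (XT.nd (nat_lit 234) (nat_lit 1824) (nat_lit 0) (XT.nd (nat_lit 78) (nat_lit 1520) (nat_lit 0) (XT.lf (nat_lit 0) (nat_lit 1769970472) (nat_lit 684) (nat_lit 3729594243) (nat_lit 76) (nat_lit 1598456523) (nat_lit 257) (nat_lit 5) (nat_lit 266) (nat_lit 5) (nat_lit 258) (nat_lit 5) (nat_lit 271) (nat_lit 263) (nat_lit 246)) (XT.nd (nat_lit 78) (nat_lit 836) (nat_lit 0) (XT.lf (nat_lit 0) (nat_lit 2418699890) (nat_lit 684) (nat_lit 2731817967) (nat_lit 760) (nat_lit 2053351848) (nat_lit 248) (nat_lit 5) (nat_lit 257) (nat_lit 5) (nat_lit 258) (nat_lit 5) (nat_lit 272) (nat_lit 263) (nat_lit 245)) (XT.lf (nat_lit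 0) (nat_lit 1232805990) (nat_lit 836) (nat_lit 5802787639) (nat_lit 76) (nat_lit 283122759) (nat_lit 237) (nat_lit 5) (nat_lit 248) (nat_lit 5) (nat_lit 238) (nat_lit 5) (nat_lit 273) (nat_lit 263) (nat_lit 244)))) (XT.nd (nat_lit 78) (nat_lit 988) (nat_lit 0) (XT.lf (nat_lit 0) (nat_lit 619847950) (nat_lit 836) (nat_lit 3931011561) (nat_lit 912) (nat_lit 2890865576) (nat_lit 226) (nat_lit 5) (nat_lit 237) (nat_lit 5) (nat_lit 238) (nat_lit 5) (nat_lit 274) (nat_lit 263) (nat_lit 243)) (XT.nd (nat_lit 78) (nat_lit 912) (nat_lit 0) (XT.lf (nat_lit 0) (nat_lit 346608507) (nat_lit 912) (nat_lit 226693351) (nat_lit 76) (nat_lit 7001002934) (nat_lit 225) (nat_lit 5) (nat_lit 237) (nat_lit 5) (nat_lit 226) (nat_lit 5) (nat_lit 275) (nat_lit 263) (nat_lit 242)) (XT.lf (nat_lit 0) (nat_lit 3619844938) (nat_lit 988) (nat_lit 1077100321) (nat_lit 76) (nat_lit 3017990938) (nat_lit 213) (nat_lit 5)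 (nat_lit 226) (nat_lit 5) (nat_lit 214) (nat_lit 5) (nat_lit 276) (nat_lit 263) (nat_lit 241))))) (XT.nd (nat_lit 234) (nat_lit 2356) (nat_lit 0) (XT.nd (nat_lit 78) (nat_lit 2280) (nat_lit 0) (XT.lf (nat_lit 0) (nat_lit 5966117931) (nat_lit 988) (nat_lit 1002234471) (nat_lit 1064) (nat_lit 897176279) (nat_lit 200) (nat_lit 5) (nat_lit 213) (nat_lit 5) (nat_lit 214) (nat_lit 5) (nat_lit 277) (nat_lit 263) (nat_lit 240)) (XT.nd (nat_lit 78) (nat_lit 1140) (nat_lit 0) (XT.lf (nat_lit 0) (nat_lit 2354012190) (nat_lit 1140) (nat_lit 2745710482) (nat_lit 76) (nat_lit 2925233567) (nat_lit 185) (nat_lit 5) (nat_lit 200) (nat_lit 5) (nat_lit 186) (nat_lit 5) (nat_lit 278) (nat_lit 263) (nat_lit 239)) (XT.lf (nat_lit 0) (nat_lit 4602545271) (nat_lit 1140) (nat_lit 1077463219) (nat_lit 1216) (nat_lit 2514400716) (nat_lit 170) (nat_lit 5) (nat_lit 185) (nat_lit 5) (nat_lit 186) (nat_lit 5) (nat_lit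 279) (nat_lit 263) (nat_lit 238)))) (XT.nd (nat_lit 156) (nat_lit 1140) (nat_lit 0) (XT.nd (nat_lit 78) (nat_lit 608) (nat_lit 0) (XT.lf (nat_lit 0) (nat_lit 742362620) (nat_lit 608) (nat_lit 4464387945) (nat_lit 76) (nat_lit 3166839653) (nat_lit 162) (nat_lit 5) (nat_lit 170) (nat_lit 5) (nat_lit 163) (nat_lit 5) (nat_lit 280) (nat_lit 263) (nat_lit 237)) (XT.lf (nat_lit 0) (nat_lit 3193073738) (nat_lit 608) (nat_lit 862276217) (nat_lit 684) (nat_lit 4507487265) (nat_lit 154) (nat_lit 5) (nat_lit 162) (nat_lit 5) (nat_lit 163) (nat_lit 5) (nat_lit 281) (nat_lit 263) (nat_lit 236))) (XT.nd (nat_lit 78) (nat_lit 608) (nat_lit 0) (XT.lf (nat_lit 0) (nat_lit 2445584958) (nat_lit 532) (nat_lit 5065025212) (nat_lit 608) (nat_lit 1251842855) (nat_lit 147) (nat_lit 5) (nat_lit 154) (nat_lit 5) (nat_lit 155) (nat_lit 5) (nat_lit 282) (nat_lit 263) (nat_lit 235)) (XT.lf (nat_lit 0) (nat_lit 1664386164)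 (nat_lit 532) (nat_lit 415066872) (nat_lit 608) (nat_lit 6893507071) (nat_lit 139) (nat_lit 5) (nat_lit 146) (nat_lit 5) (nat_lit 147) (nat_lit 5) (nat_lit 283) (nat_lit 263) (nat_lit 234)))))) (XT.nd (nat_lit 546) (nat_lit 2280) (nat_lit 0) (XT.nd (nat_lit 234) (nat_lit 1748) (nat_lit 0) (XT.nd (nat_lit 78) (nat_lit 532) (nat_lit 0) (XT.lf (nat_lit 0) (nat_lit 812806278) (nat_lit 456) (nat_lit 4734579295) (nat_lit 532) (nat_lit 3646536943) (nat_lit 133) (nat_lit 5) (nat_lit 139) (nat_lit 5) (nat_lit 140) (nat_lit 5) (nat_lit 284) (nat_lit 263) (nat_lit 233)) (XT.nd (nat_lit 78) (nat_lit 532) (nat_lit 0) (XT.lf (nat_lit 0) (nat_lit 9153922477) (nat_lit 532) (nat_lit 68236617) (nat_lit 76) (nat_lit 204989780) (nat_lit 133) (nat_lit 5) (nat_lit 140) (nat_lit 5) (nat_lit 134) (nat_lit 5) (nat_lit 285) (nat_lit 263) (nat_lit 232)) (XT.lf (nat_lit 0) (nat_lit 3225243511) (nat_lit 532) (nat_lit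 1046819834) (nat_lit 76) (nat_lit 5398581296) (nat_lit 126) (nat_lit 5) (nat_lit 133) (nat_lit 5) (nat_lit 127) (nat_lit 5) (nat_lit 286) (nat_lit 263) (nat_lit 231)))) (XT.nd (nat_lit 156) (nat_lit 760) (nat_lit 0) (XT.nd (nat_lit 78) (nat_lit 532) (nat_lit 0) (XT.lf (nat_lit 0) (nat_lit 6870894805) (nat_lit 532) (nat_lit 2084514051) (nat_lit 76) (nat_lit 971639443) (nat_lit 120) (nat_lit 5) (nat_lit 127) (nat_lit 5) (nat_lit 121) (nat_lit 5) (nat_lit 287) (nat_lit 263) (nat_lit 230)) (XT.lf (nat_lit 0) (nat_lit 509758874) (nat_lit 532) (nat_lit 3229097633) (nat_lit 76) (nat_lit 6456900537) (nat_lit 113) (nat_lit 5) (nat_lit 120) (nat_lit 5) (nat_lit 114) (nat_lit 5) (nat_lit 288) (nat_lit 263) (nat_lit 229))) (XT.nd (nat_lit 78) (nat_lit 380) (nat_lit 0) (XT.lf (nat_lit 0) (nat_lit 4186947139) (nat_lit 456) (nat_lit 4494553333) (nat_lit 76) (nat_lit 1795740827) (nat_lit 108) (nat_lit 5)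 (nat_lit 114) (nat_lit 5) (nat_lit 109) (nat_lit 5) (nat_lit 289) (nat_lit 263) (nat_lit 228)) (XT.lf (nat_lit 0) (nat_lit 4886756045) (nat_lit 380) (nat_lit 3181648386) (nat_lit 456) (nat_lit 2703910123) (nat_lit 103) (nat_lit 5) (nat_lit 108) (nat_lit 5) (nat_lit 109) (nat_lit 5) (nat_lit 290) (nat_lit 263) (nat_lit 227))))) (XT.nd (nat_lit 234) (nat_lit 1140) (nat_lit 0) (XT.nd (nat_lit 78) (nat_lit 684) (nat_lit 0) (XT.lf (nat_lit 0) (nat_lit 1053498995) (nat_lit 456) (nat_lit 7416093308) (nat_lit 76) (nat_lit 2611987711) (nat_lit 97) (nat_lit 5) (nat_lit 103) (nat_lit 5) (nat_lit 98) (nat_lit 5) (nat_lit 291) (nat_lit 263) (nat_lit 226)) (XT.nd (nat_lit 78) (nat_lit 304) (nat_lit 0) (XT.lf (nat_lit 0) (nat_lit 2278015384) (nat_lit 380) (nat_lit 2688352253) (nat_lit 456) (nat_lit 6438544570) (nat_lit 92) (nat_lit 5) (nat_lit 97) (nat_lit 5) (nat_lit 98) (nat_lit 5) (nat_lit 292) (nat_lit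 263) (nat_lit 225)) (XT.lf (nat_lit 0) (nat_lit 732590614) (nat_lit 304) (nat_lit 8369754603) (nat_lit 380) (nat_lit 2641348403) (nat_lit 88) (nat_lit 5) (nat_lit 92) (nat_lit 5) (nat_lit 93) (nat_lit 5) (nat_lit 293) (nat_lit 263) (nat_lit 224)))) (XT.nd (nat_lit 156) (nat_lit 684) (nat_lit 0) (XT.nd (nat_lit 78) (nat_lit 380) (nat_lit 0) (XT.lf (nat_lit 0) (nat_lit 1354474301) (nat_lit 380) (nat_lit 978384777) (nat_lit 76) (nat_lit 9765214706) (nat_lit 87) (nat_lit 5) (nat_lit 92) (nat_lit 5) (nat_lit 88) (nat_lit 5) (nat_lit 294) (nat_lit 263) (nat_lit 223)) (XT.lf (nat_lit 0) (nat_lit 5544870429) (nat_lit 456) (nat_lit 2902860707) (nat_lit 76) (nat_lit 4020268829) (nat_lit 82) (nat_lit 5) (nat_lit 88) (nat_lit 5) (nat_lit 83) (nat_lit 5) (nat_lit 295) (nat_lit 263) (nat_lit 222))) (XT.nd (nat_lit 78) (nat_lit 380) (nat_lit 0) (XT.lf (nat_lit 0) (nat_lit 7819043193) (nat_lit 304) (nat_lit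 2154413543) (nat_lit 380) (nat_lit 2882194992) (nat_lit 78) (nat_lit 5) (nat_lit 82) (nat_lit 5) (nat_lit 83) (nat_lit 5) (nat_lit 296) (nat_lit 263) (nat_lit 221)) (XT.lf (nat_lit 0) (nat_lit 1386062141) (nat_lit 380) (nat_lit 7437118549) (nat_lit 76) (nat_lit 4437640722) (nat_lit 73) (nat_lit 5) (nat_lit 78) (nat_lit 5) (nat_lit 74) (nat_lit 5) (nat_lit 297) (nat_lit 263) (nat_lit 220))))))))
noncomputable def xc56 : XT := (XT.nd (nat_lit 2028) (nat_lit 1292) (nat_lit 0) (XT.nd (nat_lit 1014) (nat_lit 1216) (nat_lit 0) (XT.nd (nat_lit 468) (nat_lit 1140) (nat_lit 0) (XT.nd (nat_lit 234) (nat_lit 760) (nat_lit 0) (XT.nd (nat_lit 78) (nat_lit 380) (nat_lit 0) (XT.lf (nat_lit 0) (nat_lit 3558184158) (nat_lit 228) (nat_lit 2282962902) (nat_lit 304) (nat_lit 7843334440) (nat_lit 70) (nat_lit 5) (nat_lit 73) (nat_lit 5) (nat_lit 74) (nat_lit 5) (nat_lit 298) (nat_lit 263) (nat_lit 219)) (XT.nd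 (nat_lit 78) (nat_lit 76) (nat_lit 0) (XT.lf (nat_lit 0) (nat_lit 999948913) (nat_lit 304) (nat_lit 9576500758) (nat_lit 380) (nat_lit 3551225980) (nat_lit 66) (nat_lit 5) (nat_lit 70) (nat_lit 5) (nat_lit 71) (nat_lit 5) (nat_lit 299) (nat_lit 263) (nat_lit 218)) (XT.lf (nat_lit 0) (nat_lit 993361827) (nat_lit 380) (nat_lit 1833870209) (nat_lit 76) (nat_lit 11763895677) (nat_lit 65) (nat_lit 5) (nat_lit 70) (nat_lit 5) (nat_lit 66) (nat_lit 5) (nat_lit 300) (nat_lit 263) (nat_lit 217)))) (XT.nd (nat_lit 78) (nat_lit 532) (nat_lit 0) (XT.lf (nat_lit 0) (nat_lit 5762947244) (nat_lit 304) (nat_lit 5032031177) (nat_lit 76) (nat_lit 4279648761) (nat_lit 62) (nat_lit 5) (nat_lit 66) (nat_lit 5) (nat_lit 63) (nat_lit 5) (nat_lit 301) (nat_lit 263) (nat_lit 216)) (XT.nd (nat_lit 78) (nat_lit 304) (nat_lit 0) (XT.lf (nat_lit 0) (nat_lit 6978199932) (nat_lit 228) (nat_lit 3841140335) (nat_lit 304)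 (nat_lit 4761574375) (nat_lit 59) (nat_lit 5) (nat_lit 62) (nat_lit 5) (nat_lit 63) (nat_lit 5) (nat_lit 302) (nat_lit 263) (nat_lit 215)) (XT.lf (nat_lit 0) (nat_lit 71208095) (nat_lit 304) (nat_lit 12591136401) (nat_lit 76) (nat_lit 3448560952) (nat_lit 55) (nat_lit 5) (nat_lit 59) (nat_lit 5) (nat_lit 56) (nat_lit 5) (nat_lit 303) (nat_lit 263) (nat_lit 214))))) (XT.nd (nat_lit 234) (nat_lit 760) (nat_lit 0) (XT.nd (nat_lit 78) (nat_lit 380) (nat_lit 0) (XT.lf (nat_lit 0) (nat_lit 5113337437) (nat_lit 304) (nat_lit 420375676) (nat_lit 76) (nat_lit 11130338183) (nat_lit 55) (nat_lit 5) (nat_lit 59) (nat_lit 5) (nat_lit 56) (nat_lit 5) (nat_lit 304) (nat_lit 263) (nat_lit 213)) (XT.nd (nat_lit 78) (nat_lit 152) (nat_lit 0) (XT.lf (nat_lit 0) (nat_lit 10487549135) (nat_lit 304) (nat_lit 4751177125) (nat_lit 76) (nat_lit 2003781626) (nat_lit 52) (nat_lit 5) (nat_lit 56) (nat_lit 5) (nat_lit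 53) (nat_lit 5) (nat_lit 305) (nat_lit 263) (nat_lit 212)) (XT.lf (nat_lit 0) (nat_lit 8221819271) (nat_lit 152) (nat_lit 7989673173) (nat_lit 228) (nat_lit 1636014447) (nat_lit 50) (nat_lit 5) (nat_lit 52) (nat_lit 5) (nat_lit 53) (nat_lit 5) (nat_lit 306) (nat_lit 263) (nat_lit 211)))) (XT.nd (nat_lit 156) (nat_lit 456) (nat_lit 0) (XT.nd (nat_lit 78) (nat_lit 0) (nat_lit 0) (XT.lf (nat_lit 0) (nat_lit 3402472092) (nat_lit 228) (nat_lit 288635541) (nat_lit 304) (nat_lit 14789860749) (nat_lit 46) (nat_lit 5) (nat_lit 49) (nat_lit 5) (nat_lit 50) (nat_lit 5) (nat_lit 307) (nat_lit 263) (nat_lit 210)) (XT.lf (nat_lit 0) (nat_lit 9370755201) (nat_lit 304) (nat_lit 2040193417) (nat_lit 76) (nat_lit 7731112467) (nat_lit 46) (nat_lit 5) (nat_lit 50) (nat_lit 5) (nat_lit 47) (nat_lit 5) (nat_lit 308) (nat_lit 263) (nat_lit 209))) (XT.nd (nat_lit 78) (nat_lit 304) (nat_lit 0) (XT.lf (nat_lit 0)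 (nat_lit 11793624760) (nat_lit 152) (nat_lit 3604343299) (nat_lit 228) (nat_lit 4436374991) (nat_lit 44) (nat_lit 5) (nat_lit 46) (nat_lit 5) (nat_lit 47) (nat_lit 5) (nat_lit 309) (nat_lit 263) (nat_lit 208)) (XT.lf (nat_lit 0) (nat_lit 1212941269) (nat_lit 304) (nat_lit 14783849196) (nat_lit 76) (nat_lit 4562040200) (nat_lit 40) (nat_lit 5) (nat_lit 44) (nat_lit 5) (nat_lit 41) (nat_lit 5) (nat_lit 310) (nat_lit 263) (nat_lit 207)))))) (XT.nd (nat_lit 468) (nat_lit 532) (nat_lit 0) (XT.nd (nat_lit 234) (nat_lit 380) (nat_lit 0) (XT.nd (nat_lit 78) (nat_lit 304) (nat_lit 0) (XT.lf (nat_lit 0) (nat_lit 7123678412) (nat_lit 304) (nat_lit 1030715920) (nat_lit 76) (nat_lit 13161746498) (nat_lit 40) (nat_lit 5) (nat_lit 44) (nat_lit 5) (nat_lit 41) (nat_lit 5) (nat_lit 311) (nat_lit 263) (nat_lit 206)) (XT.nd (nat_lit 78) (nat_lit 152) (nat_lit 0) (XT.lf (nat_lit 0) (nat_lit 13414714502) (nat_lit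 228) (nat_lit 8512528372) (nat_lit 76) (nat_lit 181566087) (nat_lit 38) (nat_lit 5) (nat_lit 41) (nat_lit 5) (nat_lit 39) (nat_lit 5) (nat_lit 312) (nat_lit 263) (nat_lit 205)) (XT.lf (nat_lit 0) (nat_lit 5993689548) (nat_lit 152) (nat_lit 14130789311) (nat_lit 228) (nat_lit 2813539984) (nat_lit 36) (nat_lit 5) (nat_lit 38) (nat_lit 5) (nat_lit 39) (nat_lit 5) (nat_lit 313) (nat_lit 263) (nat_lit 204)))) (XT.nd (nat_lit 78) (nat_lit 304) (nat_lit 0) (XT.lf (nat_lit 0) (nat_lit 3338518529) (nat_lit 228) (nat_lit 2511114570) (nat_lit 76) (nat_lit 17956826104) (nat_lit 35) (nat_lit 5) (nat_lit 38) (nat_lit 5) (nat_lit 36) (nat_lit 5) (nat_lit 314) (nat_lit 263) (nat_lit 203)) (XT.nd (nat_lit 78) (nat_lit 152) (nat_lit 0) (XT.lf (nat_lit 0) (nat_lit 9848823504) (nat_lit 228) (nat_lit 11950090113) (nat_lit 76) (nat_lit 2915336926) (nat_lit 33) (nat_lit 5) (nat_lit 36) (nat_lit 5) (nat_lit 34)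 (nat_lit 5) (nat_lit 315) (nat_lit 263) (nat_lit 202)) (XT.lf (nat_lit 0) (nat_lit 3120221187) (nat_lit 152) (nat_lit 13637422218) (nat_lit 228) (nat_lit 8907626266) (nat_lit 31) (nat_lit 5) (nat_lit 33) (nat_lit 5) (nat_lit 34) (nat_lit 5) (nat_lit 316) (nat_lit 263) (nat_lit 201))))) (XT.nd (nat_lit 234) (nat_lit 304) (nat_lit 0) (XT.nd (nat_lit 78) (nat_lit 228) (nat_lit 0) (XT.lf (nat_lit 0) (nat_lit 19125401394) (nat_lit 152) (nat_lit 4968726859) (nat_lit 228) (nat_lit 2567271653) (nat_lit 31) (nat_lit 5) (nat_lit 33) (nat_lit 5) (nat_lit 34) (nat_lit 5) (nat_lit 317) (nat_lit 263) (nat_lit 200)) (XT.nd (nat_lit 78) (nat_lit 0) (nat_lit 0) (XT.lf (nat_lit 0) (nat_lit 4091273833) (nat_lit 228) (nat_lit 19465787939) (nat_lit 76) (nat_lit 4146690658) (nat_lit 28) (nat_lit 5) (nat_lit 31) (nat_lit 5) (nat_lit 29) (nat_lit 5) (nat_lit 318) (nat_lit 263) (nat_lit 199)) (XT.lf (nat_lit 0)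 (nat_lit 11120385011) (nat_lit 228) (nat_lit 3979563204) (nat_lit 76) (nat_lit 13694813464) (nat_lit 28) (nat_lit 5) (nat_lit 31) (nat_lit 5) (nat_lit 29) (nat_lit 5) (nat_lit 319) (nat_lit 263) (nat_lit 198)))) (XT.nd (nat_lit 156) (nat_lit 152) (nat_lit 0) (XT.nd (nat_lit 78) (nat_lit 0) (nat_lit 0) (XT.lf (nat_lit 0) (nat_lit 12462306759) (nat_lit 152) (nat_lit 6122006843) (nat_lit 228) (nat_lit 11353529466) (nat_lit 26) (nat_lit 5) (nat_lit 28) (nat_lit 5) (nat_lit 29) (nat_lit 5) (nat_lit 320) (nat_lit 263) (nat_lit 197)) (XT.lf (nat_lit 0) (nat_lit 26459063937) (nat_lit 228) (nat_lit 1420510730) (nat_lit 76) (nat_lit 3257396562) (nat_lit 26) (nat_lit 5) (nat_lit 29) (nat_lit 5) (nat_lit 27) (nat_lit 4) (nat_lit 321) (nat_lit 263) (nat_lit 196))) (XT.nd (nat_lit 78) (nat_lit 0) (nat_lit 0) (XT.lf (nat_lit 0) (nat_lit 2465882582) (nat_lit 152) (nat_lit 16792602735) (nat_lit 76) (nat_lit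 13131521497) (nat_lit 24) (nat_lit 5) (nat_lit 26) (nat_lit 5) (nat_lit 25) (nat_lit 5) (nat_lit 322) (nat_lit 263) (nat_lit 195)) (XT.lf (nat_lit 0) (nat_lit 9852684923) (nat_lit 152) (nat_lit 313748938) (nat_lit 76) (nat_lit 23538412663) (nat_lit 24) (nat_lit 5) (nat_lit 26) (nat_lit 5) (nat_lit 25) (nat_lit 5) (nat_lit 323) (nat_lit 263) (nat_lit 194))))))) (XT.nd (nat_lit 1014) (nat_lit 456) (nat_lit 0) (XT.nd (nat_lit 468) (nat_lit 380) (nat_lit 0) (XT.nd (nat_lit 234) (nat_lit 228) (nat_lit 0) (XT.nd (nat_lit 78) (nat_lit 76) (nat_lit 0) (XT.lf (nat_lit 0) (nat_lit 17271765194) (nat_lit 152) (nat_lit 471567288) (nat_lit 228) (nat_lit 17338078581) (nat_lit 22) (nat_lit 5) (nat_lit 24) (nat_lit 5) (nat_lit 25) (nat_lit 5) (nat_lit 324) (nat_lit 263) (nat_lit 193)) (XT.nd (nat_lit 78) (nat_lit 76) (nat_lit 0) (XT.lf (nat_lit 0) (nat_lit 26094352309) (nat_lit 228) (nat_lit 930426091) (nat_lit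 76) (nat_lit 9500067376) (nat_lit 22) (nat_lit 5) (nat_lit 25) (nat_lit 5) (nat_lit 23) (nat_lit 4) (nat_lit 325) (nat_lit 263) (nat_lit 192)) (XT.lf (nat_lit 0) (nat_lit 17070163020) (nat_lit 76) (nat_lit 17932330975) (nat_lit 152) (nat_lit 3033787429) (nat_lit 21) (nat_lit 5) (nat_lit 22) (nat_lit 5) (nat_lit 23) (nat_lit 4) (nat_lit 326) (nat_lit 263) (nat_lit 191)))) (XT.nd (nat_lit 78) (nat_lit 152) (nat_lit 0) (XT.lf (nat_lit 0) (nat_lit 4621418545) (nat_lit 152) (nat_lit 3728423514) (nat_lit 76) (nat_lit 31272666536) (nat_lit 20) (nat_lit 5) (nat_lit 22) (nat_lit 5) (nat_lit 21) (nat_lit 5) (nat_lit 327) (nat_lit 263) (nat_lit 190)) (XT.nd (nat_lit 78) (nat_lit 0) (nat_lit 0) (XT.lf (nat_lit 0) (nat_lit 12728009490) (nat_lit 228) (nat_lit 26724389787) (nat_lit 76) (nat_lit 1830820058) (nat_lit 18) (nat_lit 5) (nat_lit 21) (nat_lit 5) (nat_lit 19) (nat_lit 4) (nat_lit 328) (nat_lit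 263) (nat_lit 189)) (XT.lf (nat_lit 0) (nat_lit 21336340685) (nat_lit 228) (nat_lit 9319036107) (nat_lit 76) (nat_lit 12368710190) (nat_lit 18) (nat_lit 5) (nat_lit 21) (nat_lit 5) (nat_lit 19) (nat_lit 4) (nat_lit 329) (nat_lit 263) (nat_lit 188))))) (XT.nd (nat_lit 234) (nat_lit 76) (nat_lit 0) (XT.nd (nat_lit 78) (nat_lit 228) (nat_lit 0) (XT.lf (nat_lit 0) (nat_lit 9089260628) (nat_lit 76) (nat_lit 21347840187) (nat_lit 152) (nat_lit 14413049866) (nat_lit 17) (nat_lit 5) (nat_lit 18) (nat_lit 5) (nat_lit 19) (nat_lit 4) (nat_lit 330) (nat_lit 263) (nat_lit 187)) (XT.nd (nat_lit 78) (nat_lit 228) (nat_lit 0) (XT.lf (nat_lit 0) (nat_lit 28569304802) (nat_lit 76) (nat_lit 11494956562) (nat_lit 152) (nat_lit 6701127747) (nat_lit 17) (nat_lit 5) (nat_lit 18) (nat_lit 5) (nat_lit 19) (nat_lit 4) (nat_lit 331) (nat_lit 263) (nat_lit 186)) (XT.lf (nat_lit 0) (nat_lit 195531472) (nat_lit 152)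 (nat_lit 1151847800) (nat_lit 228) (nat_lit 47429271864) (nat_lit 14) (nat_lit 5) (nat_lit 16) (nat_lit 5) (nat_lit 17) (nat_lit 5) (nat_lit 332) (nat_lit 263) (nat_lit 185)))) (XT.nd (nat_lit 156) (nat_lit 76) (nat_lit 0) (XT.nd (nat_lit 78) (nat_lit 0) (nat_lit 0) (XT.lf (nat_lit 0) (nat_lit 9920423641) (nat_lit 228) (nat_lit 31199849923) (nat_lit 76) (nat_lit 9758402152) (nat_lit 14) (nat_lit 5) (nat_lit 17) (nat_lit 5) (nat_lit 15) (nat_lit 4) (nat_lit 333) (nat_lit 263) (nat_lit 184)) (XT.lf (nat_lit 0) (nat_lit 18911767860) (nat_lit 228) (nat_lit 13000334768) (nat_lit 76) (nat_lit 21174019883) (nat_lit 14) (nat_lit 5) (nat_lit 17) (nat_lit 5) (nat_lit 15) (nat_lit 4) (nat_lit 334) (nat_lit 263) (nat_lit 183))) (XT.nd (nat_lit 78) (nat_lit 0) (nat_lit 0) (XT.lf (nat_lit 0) (nat_lit 6192671572) (nat_lit 76) (nat_lit 22198603803) (nat_lit 152) (nat_lit 27011518309) (nat_lit 13) (nat_lit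 5) (nat_lit 14) (nat_lit 5) (nat_lit 15) (nat_lit 4) (nat_lit 335) (nat_lit 263) (nat_lit 182)) (XT.lf (nat_lit 0) (nat_lit 26580741030) (nat_lit 76) (nat_lit 11877560780) (nat_lit 152) (nat_lit 19373599746) (nat_lit 13) (nat_lit 5) (nat_lit 14) (nat_lit 5) (nat_lit 15) (nat_lit 4) (nat_lit 336) (nat_lit 263) (nat_lit 181)))))) (XT.nd (nat_lit 546) (nat_lit 228) (nat_lit 0) (XT.nd (nat_lit 234) (nat_lit 76) (nat_lit 0) (XT.nd (nat_lit 78) (nat_lit 152) (nat_lit 0) (XT.lf (nat_lit 0) (nat_lit 47953684475) (nat_lit 76) (nat_lit 1055677537) (nat_lit 152) (nat_lit 11373691333) (nat_lit 13) (nat_lit 5) (nat_lit 14) (nat_lit 5) (nat_lit 15) (nat_lit 4) (nat_lit 337) (nat_lit 263) (nat_lit 180)) (XT.nd (nat_lit 78) (nat_lit 76) (nat_lit 0) (XT.lf (nat_lit 0) (nat_lit 7344442359) (nat_lit 76) (nat_lit 52894675277) (nat_lit 76) (nat_lit 2818119385) (nat_lit 12) (nat_lit 4) (nat_lit 13) (nat_lit 5)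 (nat_lit 13) (nat_lit 4) (nat_lit 338) (nat_lit 263) (nat_lit 179)) (XT.lf (nat_lit 0) (nat_lit 6166645632) (nat_lit 152) (nat_lit 37598516907) (nat_lit 76) (nat_lit 22094545735) (nat_lit 11) (nat_lit 5) (nat_lit 13) (nat_lit 5) (nat_lit 12) (nat_lit 4) (nat_lit 339) (nat_lit 263) (nat_lit 178)))) (XT.nd (nat_lit 156) (nat_lit 0) (nat_lit 0) (XT.nd (nat_lit 78) (nat_lit 76) (nat_lit 0) (XT.lf (nat_lit 0) (nat_lit 15525620913) (nat_lit 152) (nat_lit 18638131991) (nat_lit 76) (nat_lit 34638223017) (nat_lit 11) (nat_lit 5) (nat_lit 13) (nat_lit 5) (nat_lit 12) (nat_lit 4) (nat_lit 340) (nat_lit 263) (nat_lit 177)) (XT.lf (nat_lit 0) (nat_lit 1265283588) (nat_lit 76) (nat_lit 24082960483) (nat_lit 152) (nat_lit 46543249090) (nat_lit 10) (nat_lit 5) (nat_lit 11) (nat_lit 5) (nat_lit 12) (nat_lit 4) (nat_lit 341) (nat_lit 263) (nat_lit 176))) (XT.nd (nat_lit 78) (nat_lit 0) (nat_lit 0) (XT.lf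 (nat_lit 0) (nat_lit 22524524002) (nat_lit 76) (nat_lit 13313380809) (nat_lit 152) (nat_lit 39292311105) (nat_lit 10) (nat_lit 5) (nat_lit 11) (nat_lit 5) (nat_lit 12) (nat_lit 4) (nat_lit 342) (nat_lit 263) (nat_lit 175)) (XT.lf (nat_lit 0) (nat_lit 44819271116) (nat_lit 76) (nat_lit 2017580613) (nat_lit 152) (nat_lit 31694485503) (nat_lit 10) (nat_lit 5) (nat_lit 11) (nat_lit 5) (nat_lit 12) (nat_lit 4) (nat_lit 343) (nat_lit 263) (nat_lit 174))))) (XT.nd (nat_lit 234) (nat_lit 152) (nat_lit 0) (XT.nd (nat_lit 78) (nat_lit 76) (nat_lit 0) (XT.lf (nat_lit 0) (nat_lit 58465777602) (nat_lit 152) (nat_lit 13994852161) (nat_lit 0) (nat_lit 9639490111) (nat_lit 10) (nat_lit 5) (nat_lit 12) (nat_lit 4) (nat_lit 10) (nat_lit 4) (nat_lit 344) (nat_lit 263) (nat_lit 173)) (XT.nd (nat_lit 78) (nat_lit 0) (nat_lit 0) (XT.lf (nat_lit 0) (nat_lit 6795242889) (nat_lit 76) (nat_lit 63952699962) (nat_lit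 76) (nat_lit 15097250917) (nat_lit 9) (nat_lit 4) (nat_lit 10) (nat_lit 5) (nat_lit 10) (nat_lit 4) (nat_lit 345) (nat_lit 263) (nat_lit 172)) (XT.lf (nat_lit 0) (nat_lit 28892801398) (nat_lit 76) (nat_lit 54882014775) (nat_lit 76) (nat_lit 5998792822) (nat_lit 9) (nat_lit 4) (nat_lit 10) (nat_lit 5) (nat_lit 10) (nat_lit 4) (nat_lit 346) (nat_lit 263) (nat_lit 171)))) (XT.nd (nat_lit 156) (nat_lit 76) (nat_lit 0) (XT.nd (nat_lit 78) (nat_lit 0) (nat_lit 0) (XT.lf (nat_lit 0) (nat_lit 3472269472) (nat_lit 152) (nat_lit 41860965312) (nat_lit 76) (nat_lit 48564579014) (nat_lit 8) (nat_lit 5) (nat_lit 10) (nat_lit 5) (nat_lit 9) (nat_lit 4) (nat_lit 347) (nat_lit 263) (nat_lit 170)) (XT.lf (nat_lit 0) (nat_lit 13281634984) (nat_lit 152) (nat_lit 21973144169) (nat_lit 76) (nat_lit 62972008398) (nat_lit 8) (nat_lit 5) (nat_lit 10) (nat_lit 5) (nat_lit 9) (nat_lit 4) (nat_lit 348) (nat_lit 263)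 (nat_lit 169))) (XT.nd (nat_lit 78) (nat_lit 76) (nat_lit 0) (XT.lf (nat_lit 0) (nat_lit 23569717400) (nat_lit 152) (nat_lit 1112328146) (nat_lit 76) (nat_lit 78090521708) (nat_lit 8) (nat_lit 5) (nat_lit 10) (nat_lit 5) (nat_lit 9) (nat_lit 4) (nat_lit 349) (nat_lit 263) (nat_lit 168)) (XT.lf (nat_lit 0) (nat_lit 21184538004) (nat_lit 76) (nat_lit 13380112889) (nat_lit 152) (nat_lit 72975216139) (nat_lit 7) (nat_lit 5) (nat_lit 8) (nat_lit 5) (nat_lit 9) (nat_lit 4) (nat_lit 350) (nat_lit 263) (nat_lit 167))))))))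
noncomputable def xc57 : XT := (XT.nd (nat_lit 35022) (nat_lit 0) (nat_lit 3572) (XT.nd (nat_lit 34008) (nat_lit 0) (nat_lit 13680) (XT.nd (nat_lit 468) (nat_lit 76) (nat_lit 0) (XT.nd (nat_lit 234) (nat_lit 76) (nat_lit 0) (XT.nd (nat_lit 78) (nat_lit 0) (nat_lit 0) (XT.lf (nat_lit 0) (nat_lit 44599698649) (nat_lit 76) (nat_lit 1510233744) (nat_lit 152) (nat_lit 66435585650) (nat_lit 7) (nat_lit 5) (nat_lit 8) (nat_lit 5) (nat_lit 9) (nat_lit 4) (nat_lit 351) (nat_lit 263) (nat_lit 166)) (XT.nd (nat_lit 78) (nat_lit 0) (nat_lit 0) (XT.lf (nat_lit 0) (nat_lit 58327351882) (nat_lit 152) (nat_lit 48740205394) (nat_lit 0) (nat_lit 10731052190) (nat_lit 7) (nat_lit 5) (nat_lit 9) (nat_lit 4) (nat_lit 7) (nat_lit 4) (nat_lit 352) (nat_lit 263) (nat_lit 165)) (XT.lf (nat_lit 0) (nat_lit 71160967059) (nat_lit 152) (nat_lit 28607727981) (nat_lit 0) (nat_lit 23545504564) (nat_lit 7) (nat_lit 5) (nat_lit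 9) (nat_lit 4) (nat_lit 7) (nat_lit 4) (nat_lit 353) (nat_lit 263) (nat_lit 164)))) (XT.nd (nat_lit 78) (nat_lit 76) (nat_lit 0) (XT.lf (nat_lit 0) (nat_lit 84626816861) (nat_lit 152) (nat_lit 7485935395) (nat_lit 0) (nat_lit 36993104077) (nat_lit 7) (nat_lit 5) (nat_lit 9) (nat_lit 4) (nat_lit 7) (nat_lit 4) (nat_lit 354) (nat_lit 263) (nat_lit 163)) (XT.nd (nat_lit 78) (nat_lit 0) (nat_lit 0) (XT.lf (nat_lit 0) (nat_lit 14967532822) (nat_lit 76) (nat_lit 83933307094) (nat_lit 76) (nat_lit 36282213083) (nat_lit 6) (nat_lit 4) (nat_lit 7) (nat_lit 5) (nat_lit 7) (nat_lit 4) (nat_lit 355) (nat_lit 263) (nat_lit 162)) (XT.lf (nat_lit 0) (nat_lit 38684096533) (nat_lit 76) (nat_lit 75272806853) (nat_lit 76) (nat_lit 27605159292) (nat_lit 6) (nat_lit 4) (nat_lit 7) (nat_lit 5) (nat_lit 7) (nat_lit 4) (nat_lit 356) (nat_lit 263) (nat_lit 161))))) (XT.nd (nat_lit 234) (nat_lit 0) (nat_lit 0) (XT.nd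 (nat_lit 78) (nat_lit 76) (nat_lit 0) (XT.lf (nat_lit 0) (nat_lit 63571238953) (nat_lit 76) (nat_lit 66186224562) (nat_lit 76) (nat_lit 18502811716) (nat_lit 6) (nat_lit 4) (nat_lit 7) (nat_lit 5) (nat_lit 7) (nat_lit 4) (nat_lit 357) (nat_lit 263) (nat_lit 160)) (XT.nd (nat_lit 78) (nat_lit 76) (nat_lit 0) (XT.lf (nat_lit 0) (nat_lit 89688215184) (nat_lit 76) (nat_lit 56651925503) (nat_lit 76) (nat_lit 8953498099) (nat_lit 6) (nat_lit 4) (nat_lit 7) (nat_lit 5) (nat_lit 7) (nat_lit 4) (nat_lit 358) (nat_lit 263) (nat_lit 159)) (XT.lf (nat_lit 0) (nat_lit 1044725925) (nat_lit 152) (nat_lit 45591933354) (nat_lit 76) (nat_lit 116041932894) (nat_lit 5) (nat_lit 5) (nat_lit 7) (nat_lit 5) (nat_lit 6) (nat_lit 4) (nat_lit 359) (nat_lit 263) (nat_lit 158)))) (XT.nd (nat_lit 33150) (nat_lit 0) (nat_lit 20748) (XT.nd (nat_lit 78) (nat_lit 0) (nat_lit 0) (XT.lf (nat_lit 0) (nat_lit 11352161174) (nat_lit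 152) (nat_lit 24681458445) (nat_lit 76) (nat_lit 134396682673) (nat_lit 5) (nat_lit 5) (nat_lit 7) (nat_lit 5) (nat_lit 6) (nat_lit 4) (nat_lit 360) (nat_lit 263) (nat_lit 157)) (XT.lf (nat_lit 0) (nat_lit 22168064157) (nat_lit 152) (nat_lit 2738145530) (nat_lit 76) (nat_lit 153663597905) (nat_lit 5) (nat_lit 5) (nat_lit 7) (nat_lit 5) (nat_lit 6) (nat_lit 4) (nat_lit 361) (nat_lit 263) (nat_lit 156))) (XT.nd (nat_lit 78) (nat_lit 0) (nat_lit 0) (XT.lf (nat_lit 0) (nat_lit 520732503) (nat_lit 532) (nat_lit 1398108910) (nat_lit 532) (nat_lit 1398108910) (nat_lit 278) (nat_lit 3) (nat_lit 285) (nat_lit 3) (nat_lit 285) (nat_lit 5) (nat_lit 264) (nat_lit 264) (nat_lit 252)) (XT.lf (nat_lit 76) (nat_lit 2233405163) (nat_lit 0) (nat_lit 2364947364) (nat_lit 532) (nat_lit 2087275613) (nat_lit 279) (nat_lit 5) (nat_lit 278) (nat_lit 3) (nat_lit 285) (nat_lit 5) (nat_lit 265) (nat_lit 264) (nat_lit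 251)))))) (XT.nd (nat_lit 468) (nat_lit 5396) (nat_lit 0) (XT.nd (nat_lit 234) (nat_lit 608) (nat_lit 0) (XT.nd (nat_lit 78) (nat_lit 532) (nat_lit 0) (XT.lf (nat_lit 76) (nat_lit 708775791) (nat_lit 0) (nat_lit 660630599) (nat_lit 608) (nat_lit 5376364902) (nat_lit 272) (nat_lit 5) (nat_lit 271) (nat_lit 5) (nat_lit 279) (nat_lit 5) (nat_lit 266) (nat_lit 264) (nat_lit 250)) (XT.nd (nat_lit 78) (nat_lit 608) (nat_lit 0) (XT.lf (nat_lit 0) (nat_lit 4795444819) (nat_lit 532) (nat_lit 746841812) (nat_lit 608) (nat_lit 1271309297) (nat_lit 272) (nat_lit 5) (nat_lit 279) (nat_lit 5) (nat_lit 280) (nat_lit 5) (nat_lit 267) (nat_lit 264) (nat_lit 249)) (XT.lf (nat_lit 0) (nat_lit 1321631032) (nat_lit 608) (nat_lit 2130297019) (nat_lit 684) (nat_lit 3437604838) (nat_lit 264) (nat_lit 5) (nat_lit 272) (nat_lit 5) (nat_lit 273) (nat_lit 5) (nat_lit 268) (nat_lit 264) (nat_lit 248)))) (XT.nd (nat_lit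 78) (nat_lit 608) (nat_lit 0) (XT.lf (nat_lit 76) (nat_lit 3512645079) (nat_lit 0) (nat_lit 1114806696) (nat_lit 684) (nat_lit 2346418950) (nat_lit 265) (nat_lit 5) (nat_lit 264) (nat_lit 5) (nat_lit 273) (nat_lit 5) (nat_lit 269) (nat_lit 264) (nat_lit 247)) (XT.nd (nat_lit 78) (nat_lit 0) (nat_lit 0) (XT.lf (nat_lit 0) (nat_lit 879583524) (nat_lit 684) (nat_lit 4748717393) (nat_lit 760) (nat_lit 1438310737) (nat_lit 256) (nat_lit 5) (nat_lit 265) (nat_lit 5) (nat_lit 266) (nat_lit 5) (nat_lit 270) (nat_lit 264) (nat_lit 246)) (XT.lf (nat_lit 76) (nat_lit 1156160893) (nat_lit 0) (nat_lit 2934771206) (nat_lit 760) (nat_lit 3076559492) (nat_lit 257) (nat_lit 5) (nat_lit 256) (nat_lit 5) (nat_lit 266) (nat_lit 5) (nat_lit 271) (nat_lit 264) (nat_lit 245))))) (XT.nd (nat_lit 234) (nat_lit 3952) (nat_lit 0) (XT.nd (nat_lit 78) (nat_lit 760) (nat_lit 0) (XT.lf (nat_lit 0) (nat_lit 54984733) (nat_lit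 760) (nat_lit 7222098100) (nat_lit 76) (nat_lit 548382) (nat_lit 247) (nat_lit 5) (nat_lit 257) (nat_lit 5) (nat_lit 248) (nat_lit 5) (nat_lit 272) (nat_lit 264) (nat_lit 244)) (XT.nd (nat_lit 78) (nat_lit 760) (nat_lit 0) (XT.lf (nat_lit 0) (nat_lit 3199426658) (nat_lit 760) (nat_lit 1030531844) (nat_lit 76) (nat_lit 3165138251) (nat_lit 247) (nat_lit 5) (nat_lit 257) (nat_lit 5) (nat_lit 248) (nat_lit 5) (nat_lit 273) (nat_lit 264) (nat_lit 243)) (XT.lf (nat_lit 0) (nat_lit 5454008441) (nat_lit 760) (nat_lit 934977687) (nat_lit 836) (nat_lit 1133128022) (nat_lit 237) (nat_lit 5) (nat_lit 247) (nat_lit 5) (nat_lit 248) (nat_lit 5) (nat_lit 274) (nat_lit 264) (nat_lit 242)))) (XT.nd (nat_lit 156) (nat_lit 2128) (nat_lit 0) (XT.nd (nat_lit 78) (nat_lit 912) (nat_lit 0) (XT.lf (nat_lit 0) (nat_lit 1962256723) (nat_lit 912) (nat_lit 3108356958) (nat_lit 76) (nat_lit 2586949246) (nat_lit 225)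 (nat_lit 5) (nat_lit 237) (nat_lit 5) (nat_lit 226) (nat_lit 5) (nat_lit 275) (nat_lit 264) (nat_lit 241)) (XT.lf (nat_lit 0) (nat_lit 3667282276) (nat_lit 912) (nat_lit 1435179120) (nat_lit 988) (nat_lit 2699859394) (nat_lit 213) (nat_lit 5) (nat_lit 225) (nat_lit 5) (nat_lit 226) (nat_lit 5) (nat_lit 276) (nat_lit 264) (nat_lit 240))) (XT.nd (nat_lit 78) (nat_lit 1064) (nat_lit 0) (XT.lf (nat_lit 0) (nat_lit 371330611) (nat_lit 1064) (nat_lit 5161446814) (nat_lit 76) (nat_lit 2423627698) (nat_lit 199) (nat_lit 5) (nat_lit 213) (nat_lit 5) (nat_lit 200) (nat_lit 5) (nat_lit 277) (nat_lit 264) (nat_lit 239)) (XT.lf (nat_lit 0) (nat_lit 1910614107) (nat_lit 1064) (nat_lit 1563593129) (nat_lit 1140) (nat_lit 4645410187) (nat_lit 185) (nat_lit 5) (nat_lit 199) (nat_lit 5) (nat_lit 200) (nat_lit 5) (nat_lit 278) (nat_lit 264) (nat_lit 238))))))) (XT.nd (nat_lit 1014) (nat_lit 3800) (nat_lit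 0) (XT.nd (nat_lit 468) (nat_lit 2812) (nat_lit 0) (XT.nd (nat_lit 234) (nat_lit 1748) (nat_lit 0) (XT.nd (nat_lit 78) (nat_lit 608) (nat_lit 0) (XT.lf (nat_lit 0) (nat_lit 1022797872) (nat_lit 1140) (nat_lit 5661310271) (nat_lit 1216) (nat_lit 1608558753) (nat_lit 170) (nat_lit 5) (nat_lit 185) (nat_lit 5) (nat_lit 186) (nat_lit 5) (nat_lit 279) (nat_lit 264) (nat_lit 237)) (XT.nd (nat_lit 78) (nat_lit 0) (nat_lit 0) (XT.lf (nat_lit 0) (nat_lit 118617539) (nat_lit 532) (nat_lit 1379322310) (nat_lit 608) (nat_lit 6977729570) (nat_lit 162) (nat_lit 5) (nat_lit 169) (nat_lit 5) (nat_lit 170) (nat_lit 5) (nat_lit 280) (nat_lit 264) (nat_lit 236)) (XT.lf (nat_lit 0) (nat_lit 4704718564) (nat_lit 608) (nat_lit 810137999) (nat_lit 76) (nat_lit 3153346192) (nat_lit 162) (nat_lit 5) (nat_lit 170) (nat_lit 5) (nat_lit 163) (nat_lit 5) (nat_lit 281) (nat_lit 264) (nat_lit 235)))) (XT.nd (nat_lit 78)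 (nat_lit 1140) (nat_lit 0) (XT.lf (nat_lit 0) (nat_lit 7119049888) (nat_lit 608) (nat_lit 913593487) (nat_lit 684) (nat_lit 839090558) (nat_lit 154) (nat_lit 5) (nat_lit 162) (nat_lit 5) (nat_lit 163) (nat_lit 5) (nat_lit 282) (nat_lit 264) (nat_lit 234)) (XT.nd (nat_lit 78) (nat_lit 532) (nat_lit 0) (XT.lf (nat_lit 0) (nat_lit 2383768346) (nat_lit 608) (nat_lit 2767163585) (nat_lit 76) (nat_lit 3934289666) (nat_lit 146) (nat_lit 5) (nat_lit 154) (nat_lit 5) (nat_lit 147) (nat_lit 5) (nat_lit 283) (nat_lit 264) (nat_lit 233)) (XT.lf (nat_lit 0) (nat_lit 5490075234) (nat_lit 532) (nat_lit 226995822) (nat_lit 608) (nat_lit 3593235776) (nat_lit 139) (nat_lit 5) (nat_lit 146) (nat_lit 5) (nat_lit 147) (nat_lit 5) (nat_lit 284) (nat_lit 264) (nat_lit 232))))) (XT.nd (nat_lit 234) (nat_lit 1368) (nat_lit 0) (XT.nd (nat_lit 78) (nat_lit 988) (nat_lit 0) (XT.lf (nat_lit 0) (nat_lit 4594800254) (nat_lit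 456) (nat_lit 4633207080) (nat_lit 532) (nat_lit 318473811) (nat_lit 133) (nat_lit 5) (nat_lit 139) (nat_lit 5) (nat_lit 140) (nat_lit 5) (nat_lit 285) (nat_lit 264) (nat_lit 231)) (XT.nd (nat_lit 78) (nat_lit 456) (nat_lit 0) (XT.lf (nat_lit 0) (nat_lit 3035375899) (nat_lit 532) (nat_lit 6163136646) (nat_lit 76) (nat_lit 595916421) (nat_lit 126) (nat_lit 5) (nat_lit 133) (nat_lit 5) (nat_lit 127) (nat_lit 5) (nat_lit 286) (nat_lit 264) (nat_lit 230)) (XT.lf (nat_lit 0) (nat_lit 2575574523) (nat_lit 456) (nat_lit 3995093728) (nat_lit 532) (nat_lit 3483545533) (nat_lit 120) (nat_lit 5) (nat_lit 126) (nat_lit 5) (nat_lit 127) (nat_lit 5) (nat_lit 287) (nat_lit 264) (nat_lit 229)))) (XT.nd (nat_lit 156) (nat_lit 456) (nat_lit 0) (XT.nd (nat_lit 78) (nat_lit 456) (nat_lit 0) (XT.lf (nat_lit 0) (nat_lit 1451075767) (nat_lit 456) (nat_lit 8824703864) (nat_lit 532) (nat_lit 51554012) (nat_lit 114)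 (nat_lit 5) (nat_lit 120) (nat_lit 5) (nat_lit 121) (nat_lit 5) (nat_lit 288) (nat_lit 264) (nat_lit 228)) (XT.lf (nat_lit 0) (nat_lit 184012679) (nat_lit 380) (nat_lit 3322017706) (nat_lit 456) (nat_lit 7106482665) (nat_lit 108) (nat_lit 5) (nat_lit 113) (nat_lit 5) (nat_lit 114) (nat_lit 5) (nat_lit 289) (nat_lit 264) (nat_lit 227))) (XT.nd (nat_lit 78) (nat_lit 456) (nat_lit 0) (XT.lf (nat_lit 0) (nat_lit 7263110985) (nat_lit 456) (nat_lit 1166957314) (nat_lit 76) (nat_lit 2481308343) (nat_lit 108) (nat_lit 5) (nat_lit 114) (nat_lit 5) (nat_lit 109) (nat_lit 5) (nat_lit 290) (nat_lit 264) (nat_lit 226)) (XT.lf (nat_lit 0) (nat_lit 10602142) (nat_lit 456) (nat_lit 2642994268) (nat_lit 76) (nat_lit 8570881684) (nat_lit 102) (nat_lit 5) (nat_lit 108) (nat_lit 5) (nat_lit 103) (nat_lit 5) (nat_lit 291) (nat_lit 264) (nat_lit 225)))))) (XT.nd (nat_lit 546) (nat_lit 1596) (nat_lit 0) (XT.nd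 (nat_lit 234) (nat_lit 1140) (nat_lit 0) (XT.nd (nat_lit 78) (nat_lit 684) (nat_lit 0) (XT.lf (nat_lit 0) (nat_lit 3807059651) (nat_lit 456) (nat_lit 4300721778) (nat_lit 76) (nat_lit 3443573180) (nat_lit 97) (nat_lit 5) (nat_lit 103) (nat_lit 5) (nat_lit 98) (nat_lit 5) (nat_lit 292) (nat_lit 264) (nat_lit 224)) (XT.nd (nat_lit 78) (nat_lit 304) (nat_lit 0) (XT.lf (nat_lit 0) (nat_lit 5778161808) (nat_lit 380) (nat_lit 2041346976) (nat_lit 456) (nat_lit 4074382602) (nat_lit 92) (nat_lit 5) (nat_lit 97) (nat_lit 5) (nat_lit 98) (nat_lit 5) (nat_lit 293) (nat_lit 264) (nat_lit 223)) (XT.lf (nat_lit 0) (nat_lit 4130040493) (nat_lit 304) (nat_lit 7947665655) (nat_lit 380) (nat_lit 174591749) (nat_lit 88) (nat_lit 5) (nat_lit 92) (nat_lit 5) (nat_lit 93) (nat_lit 5) (nat_lit 294) (nat_lit 264) (nat_lit 222)))) (XT.nd (nat_lit 156) (nat_lit 380) (nat_lit 0) (XT.nd (nat_lit 78) (nat_lit 304) (nat_lit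 0) (XT.lf (nat_lit 0) (nat_lit 2268796241) (nat_lit 380) (nat_lit 1601983838) (nat_lit 456) (nat_lit 8755990887) (nat_lit 82) (nat_lit 5) (nat_lit 87) (nat_lit 5) (nat_lit 88) (nat_lit 5) (nat_lit 295) (nat_lit 264) (nat_lit 221)) (XT.lf (nat_lit 0) (nat_lit 179117869) (nat_lit 304) (nat_lit 7994146685) (nat_lit 380) (nat_lit 4844982753) (nat_lit 78) (nat_lit 5) (nat_lit 82) (nat_lit 5) (nat_lit 83) (nat_lit 5) (nat_lit 296) (nat_lit 264) (nat_lit 220))) (XT.nd (nat_lit 78) (nat_lit 380) (nat_lit 0) (XT.lf (nat_lit 0) (nat_lit 11341217127) (nat_lit 304) (nat_lit 1398562915) (nat_lit 380) (nat_lit 688131293) (nat_lit 78) (nat_lit 5) (nat_lit 82) (nat_lit 5) (nat_lit 83) (nat_lit 5) (nat_lit 297) (nat_lit 264) (nat_lit 219)) (XT.lf (nat_lit 0) (nat_lit 3676840375) (nat_lit 380) (nat_lit 4660553044) (nat_lit 76) (nat_lit 5517519248) (nat_lit 73) (nat_lit 5) (nat_lit 78) (nat_lit 5) (nat_lit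 74) (nat_lit 5) (nat_lit 298) (nat_lit 264) (nat_lit 218))))) (XT.nd (nat_lit 234) (nat_lit 760) (nat_lit 0) (XT.nd (nat_lit 78) (nat_lit 608) (nat_lit 0) (XT.lf (nat_lit 0) (nat_lit 6794265930) (nat_lit 228) (nat_lit 1484026104) (nat_lit 304) (nat_lit 6023865138) (nat_lit 70) (nat_lit 5) (nat_lit 73) (nat_lit 5) (nat_lit 74) (nat_lit 5) (nat_lit 299) (nat_lit 264) (nat_lit 217)) (XT.nd (nat_lit 78) (nat_lit 304) (nat_lit 0) (XT.lf (nat_lit 0) (nat_lit 4076572290) (nat_lit 304) (nat_lit 9109093409) (nat_lit 380) (nat_lit 1583890715) (nat_lit 66) (nat_lit 5) (nat_lit 70) (nat_lit 5) (nat_lit 71) (nat_lit 5) (nat_lit 300) (nat_lit 264) (nat_lit 216)) (XT.lf (nat_lit 0) (nat_lit 1018609100) (nat_lit 228) (nat_lit 2037109365) (nat_lit 304) (nat_lit 12202651355) (nat_lit 62) (nat_lit 5) (nat_lit 65) (nat_lit 5) (nat_lit 66) (nat_lit 5) (nat_lit 301) (nat_lit 264) (nat_lit 215)))) (XT.nd (nat_lit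 156) (nat_lit 532) (nat_lit 0) (XT.nd (nat_lit 78) (nat_lit 228) (nat_lit 0) (XT.lf (nat_lit 0) (nat_lit 7994625588) (nat_lit 304) (nat_lit 2391980329) (nat_lit 76) (nat_lit 5381605149) (nat_lit 62) (nat_lit 5) (nat_lit 66) (nat_lit 5) (nat_lit 63) (nat_lit 5) (nat_lit 302) (nat_lit 264) (nat_lit 214)) (XT.lf (nat_lit 0) (nat_lit 10135873700) (nat_lit 228) (nat_lit 3102415024) (nat_lit 304) (nat_lit 3063578354) (nat_lit 59) (nat_lit 5) (nat_lit 62) (nat_lit 5) (nat_lit 63) (nat_lit 5) (nat_lit 303) (nat_lit 264) (nat_lit 213))) (XT.nd (nat_lit 78) (nat_lit 228) (nat_lit 0) (XT.lf (nat_lit 0) (nat_lit 1918222710) (nat_lit 304) (nat_lit 10406394775) (nat_lit 76) (nat_lit 4534907923) (nat_lit 55) (nat_lit 5) (nat_lit 59) (nat_lit 5) (nat_lit 56) (nat_lit 5) (nat_lit 304) (nat_lit 264) (nat_lit 212)) (XT.lf (nat_lit 0) (nat_lit 2283448070) (nat_lit 228) (nat_lit 4863176814) (nat_lit 304) (nat_lit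 10295755896) (nat_lit 52) (nat_lit 5) (nat_lit 55) (nat_lit 5) (nat_lit 56) (nat_lit 5) (nat_lit 305) (nat_lit 264) (nat_lit 211))))))))
noncomputable def xc58 : XT := (XT.nd (nat_lit 2028) (nat_lit 836) (nat_lit 0) (XT.nd (nat_lit 1014) (nat_lit 1064) (nat_lit 0) (XT.nd (nat_lit 468) (nat_lit 684) (nat_lit 0) (XT.nd (nat_lit 234) (nat_lit 456) (nat_lit 0) (XT.nd (nat_lit 78) (nat_lit 456) (nat_lit 0) (XT.lf (nat_lit 0) (nat_lit 12717732397) (nat_lit 304) (nat_lit 2341610338) (nat_lit 76) (nat_lit 2992645455) (nat_lit 52) (nat_lit 5) (nat_lit 56) (nat_lit 5) (nat_lit 53) (nat_lit 5) (nat_lit 306) (nat_lit 264) (nat_lit 210)) (XT.nd (nat_lit 78) (nat_lit 304) (nat_lit 0) (XT.lf (nat_lit 0) (nat_lit 11204156552) (nat_lit 152) (nat_lit 7467203864) (nat_lit 228) (nat_lit 17642146) (nat_lit 50) (nat_lit 5) (nat_lit 52) (nat_lit 5) (nat_lit 53) (nat_lit 5) (nat_lit 307) (nat_lit 264) (nat_lit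 209)) (XT.lf (nat_lit 0) (nat_lit 5493531217) (nat_lit 304) (nat_lit 13257600864) (nat_lit 76) (nat_lit 604053370) (nat_lit 46) (nat_lit 5) (nat_lit 50) (nat_lit 5) (nat_lit 47) (nat_lit 5) (nat_lit 308) (nat_lit 264) (nat_lit 208)))) (XT.nd (nat_lit 78) (nat_lit 304) (nat_lit 0) (XT.lf (nat_lit 0) (nat_lit 313346645) (nat_lit 152) (nat_lit 11072559794) (nat_lit 228) (nat_lit 8665625671) (nat_lit 44) (nat_lit 5) (nat_lit 46) (nat_lit 5) (nat_lit 47) (nat_lit 5) (nat_lit 309) (nat_lit 264) (nat_lit 207)) (XT.nd (nat_lit 78) (nat_lit 304) (nat_lit 0) (XT.lf (nat_lit 0) (nat_lit 14762528642) (nat_lit 152) (nat_lit 2898304935) (nat_lit 228) (nat_lit 3119262732) (nat_lit 44) (nat_lit 5) (nat_lit 46) (nat_lit 5) (nat_lit 47) (nat_lit 5) (nat_lit 310) (nat_lit 264) (nat_lit 206)) (XT.lf (nat_lit 0) (nat_lit 2741618713) (nat_lit 304) (nat_lit 13145344606) (nat_lit 76) (nat_lit 5654681625) (nat_lit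 40) (nat_lit 5) (nat_lit 44) (nat_lit 5) (nat_lit 41) (nat_lit 5) (nat_lit 311) (nat_lit 264) (nat_lit 205))))) (XT.nd (nat_lit 234) (nat_lit 380) (nat_lit 0) (XT.nd (nat_lit 78) (nat_lit 152) (nat_lit 0) (XT.lf (nat_lit 0) (nat_lit 1205750193) (nat_lit 152) (nat_lit 7683826719) (nat_lit 228) (nat_lit 13449044909) (nat_lit 38) (nat_lit 5) (nat_lit 40) (nat_lit 5) (nat_lit 41) (nat_lit 5) (nat_lit 312) (nat_lit 264) (nat_lit 204)) (XT.nd (nat_lit 78) (nat_lit 152) (nat_lit 0) (XT.lf (nat_lit 0) (nat_lit 15446281254) (nat_lit 228) (nat_lit 6705166683) (nat_lit 76) (nat_lit 1020991195) (nat_lit 38) (nat_lit 5) (nat_lit 41) (nat_lit 5) (nat_lit 39) (nat_lit 5) (nat_lit 313) (nat_lit 264) (nat_lit 203)) (XT.lf (nat_lit 0) (nat_lit 8462353978) (nat_lit 152) (nat_lit 13985227937) (nat_lit 228) (nat_lit 1596893074) (nat_lit 36) (nat_lit 5) (nat_lit 38) (nat_lit 5) (nat_lit 39) (nat_lit 5) (nat_lit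 314) (nat_lit 264) (nat_lit 202)))) (XT.nd (nat_lit 156) (nat_lit 152) (nat_lit 0) (XT.nd (nat_lit 78) (nat_lit 152) (nat_lit 0) (XT.lf (nat_lit 0) (nat_lit 4772908867) (nat_lit 228) (nat_lit 544882372) (nat_lit 76) (nat_lit 19640099286) (nat_lit 35) (nat_lit 5) (nat_lit 38) (nat_lit 5) (nat_lit 36) (nat_lit 5) (nat_lit 315) (nat_lit 264) (nat_lit 201)) (XT.lf (nat_lit 0) (nat_lit 11575644759) (nat_lit 228) (nat_lit 10485881735) (nat_lit 76) (nat_lit 3850578787) (nat_lit 33) (nat_lit 5) (nat_lit 36) (nat_lit 5) (nat_lit 34) (nat_lit 5) (nat_lit 316) (nat_lit 264) (nat_lit 200))) (XT.nd (nat_lit 78) (nat_lit 0) (nat_lit 0) (XT.lf (nat_lit 0) (nat_lit 5278846544) (nat_lit 152) (nat_lit 13511529461) (nat_lit 228) (nat_lit 8121524601) (nat_lit 31) (nat_lit 5) (nat_lit 33) (nat_lit 5) (nat_lit 34) (nat_lit 5) (nat_lit 317) (nat_lit 264) (nat_lit 199)) (XT.lf (nat_lit 0) (nat_lit 21988923177)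 (nat_lit 152) (nat_lit 4447864280) (nat_lit 228) (nat_lit 1522794304) (nat_lit 31) (nat_lit 5) (nat_lit 33) (nat_lit 5) (nat_lit 34) (nat_lit 5) (nat_lit 318) (nat_lit 264) (nat_lit 198)))))) (XT.nd (nat_lit 468) (nat_lit 380) (nat_lit 0) (XT.nd (nat_lit 234) (nat_lit 304) (nat_lit 0) (XT.nd (nat_lit 78) (nat_lit 152) (nat_lit 0) (XT.lf (nat_lit 0) (nat_lit 5416388630) (nat_lit 228) (nat_lit 18536797292) (nat_lit 76) (nat_lit 5101444525) (nat_lit 28) (nat_lit 5) (nat_lit 31) (nat_lit 5) (nat_lit 29) (nat_lit 5) (nat_lit 319) (nat_lit 264) (nat_lit 197)) (XT.nd (nat_lit 78) (nat_lit 152) (nat_lit 0) (XT.lf (nat_lit 0) (nat_lit 12743595790) (nat_lit 228) (nat_lit 2366846084) (nat_lit 76) (nat_lit 15091382074) (nat_lit 28) (nat_lit 5) (nat_lit 31) (nat_lit 5) (nat_lit 29) (nat_lit 5) (nat_lit 320) (nat_lit 264) (nat_lit 196)) (XT.lf (nat_lit 0) (nat_lit 14845185495) (nat_lit 152) (nat_lit 5701632593)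 (nat_lit 228) (nat_lit 10856289833) (nat_lit 26) (nat_lit 5) (nat_lit 28) (nat_lit 5) (nat_lit 29) (nat_lit 5) (nat_lit 321) (nat_lit 264) (nat_lit 195)))) (XT.nd (nat_lit 78) (nat_lit 228) (nat_lit 0) (XT.lf (nat_lit 0) (nat_lit 212036938) (nat_lit 76) (nat_lit 28562753781) (nat_lit 152) (nat_lit 3888647162) (nat_lit 25) (nat_lit 5) (nat_lit 26) (nat_lit 5) (nat_lit 27) (nat_lit 4) (nat_lit 322) (nat_lit 264) (nat_lit 194)) (XT.nd (nat_lit 78) (nat_lit 152) (nat_lit 0) (XT.lf (nat_lit 0) (nat_lit 3558660265) (nat_lit 152) (nat_lit 15961663043) (nat_lit 76) (nat_lit 14459545755) (nat_lit 24) (nat_lit 5) (nat_lit 26) (nat_lit 5) (nat_lit 25) (nat_lit 5) (nat_lit 323) (nat_lit 264) (nat_lit 193)) (XT.lf (nat_lit 0) (nat_lit 1286690464) (nat_lit 152) (nat_lit 9994314830) (nat_lit 228) (nat_lit 24080485748) (nat_lit 22) (nat_lit 5) (nat_lit 24) (nat_lit 5) (nat_lit 25) (nat_lit 5) (nat_lit 324)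 (nat_lit 264) (nat_lit 192))))) (XT.nd (nat_lit 234) (nat_lit 304) (nat_lit 0) (XT.nd (nat_lit 78) (nat_lit 76) (nat_lit 0) (XT.lf (nat_lit 0) (nat_lit 19526204879) (nat_lit 228) (nat_lit 17128887387) (nat_lit 76) (nat_lit 153016060) (nat_lit 22) (nat_lit 5) (nat_lit 25) (nat_lit 5) (nat_lit 23) (nat_lit 4) (nat_lit 325) (nat_lit 264) (nat_lit 191)) (XT.nd (nat_lit 78) (nat_lit 0) (nat_lit 0) (XT.lf (nat_lit 0) (nat_lit 525187700) (nat_lit 76) (nat_lit 27736516758) (nat_lit 152) (nat_lit 10063026364) (nat_lit 21) (nat_lit 5) (nat_lit 22) (nat_lit 5) (nat_lit 23) (nat_lit 4) (nat_lit 326) (nat_lit 264) (nat_lit 190)) (XT.lf (nat_lit 0) (nat_lit 19372793329) (nat_lit 76) (nat_lit 18210503889) (nat_lit 152) (nat_lit 2329422486) (nat_lit 21) (nat_lit 5) (nat_lit 22) (nat_lit 5) (nat_lit 23) (nat_lit 4) (nat_lit 327) (nat_lit 264) (nat_lit 189)))) (XT.nd (nat_lit 156) (nat_lit 76) (nat_lit 0)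 (XT.nd (nat_lit 78) (nat_lit 152) (nat_lit 0) (XT.lf (nat_lit 0) (nat_lit 5651870055) (nat_lit 152) (nat_lit 2518397993) (nat_lit 76) (nat_lit 33408963445) (nat_lit 20) (nat_lit 5) (nat_lit 22) (nat_lit 5) (nat_lit 21) (nat_lit 5) (nat_lit 328) (nat_lit 264) (nat_lit 188)) (XT.lf (nat_lit 0) (nat_lit 14144358681) (nat_lit 228) (nat_lit 26686154934) (nat_lit 76) (nat_lit 2493067164) (nat_lit 18) (nat_lit 5) (nat_lit 21) (nat_lit 5) (nat_lit 19) (nat_lit 4) (nat_lit 329) (nat_lit 264) (nat_lit 187))) (XT.nd (nat_lit 78) (nat_lit 76) (nat_lit 0) (XT.lf (nat_lit 0) (nat_lit 23145966020) (nat_lit 228) (nat_lit 8475983777) (nat_lit 76) (nat_lit 13530675322) (nat_lit 18) (nat_lit 5) (nat_lit 21) (nat_lit 5) (nat_lit 19) (nat_lit 4) (nat_lit 330) (nat_lit 264) (nat_lit 186)) (XT.lf (nat_lit 0) (nat_lit 10815205454) (nat_lit 76) (nat_lit 21863409140) (nat_lit 152) (nat_lit 14392090085) (nat_lit 17)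 (nat_lit 5) (nat_lit 18) (nat_lit 5) (nat_lit 19) (nat_lit 4) (nat_lit 331) (nat_lit 264) (nat_lit 185))))))) (XT.nd (nat_lit 1014) (nat_lit 304) (nat_lit 0) (XT.nd (nat_lit 468) (nat_lit 228) (nat_lit 0) (XT.nd (nat_lit 234) (nat_lit 76) (nat_lit 0) (XT.nd (nat_lit 78) (nat_lit 228) (nat_lit 0) (XT.lf (nat_lit 0) (nat_lit 31208705085) (nat_lit 76) (nat_lit 11544158622) (nat_lit 152) (nat_lit 6329886730) (nat_lit 17) (nat_lit 5) (nat_lit 18) (nat_lit 5) (nat_lit 19) (nat_lit 4) (nat_lit 332) (nat_lit 264) (nat_lit 184)) (XT.nd (nat_lit 78) (nat_lit 0) (nat_lit 0) (XT.lf (nat_lit 0) (nat_lit 1395245934) (nat_lit 152) (nat_lit 690478806) (nat_lit 228) (nat_lit 49109309313) (nat_lit 14) (nat_lit 5) (nat_lit 16) (nat_lit 5) (nat_lit 17) (nat_lit 5) (nat_lit 333) (nat_lit 264) (nat_lit 183)) (XT.lf (nat_lit 0) (nat_lit 11060221088) (nat_lit 228) (nat_lit 31611843416) (nat_lit 76) (nat_lit 10730926620)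 (nat_lit 14) (nat_lit 5) (nat_lit 17) (nat_lit 5) (nat_lit 15) (nat_lit 4) (nat_lit 334) (nat_lit 264) (nat_lit 182)))) (XT.nd (nat_lit 78) (nat_lit 76) (nat_lit 0) (XT.lf (nat_lit 0) (nat_lit 20470476506) (nat_lit 228) (nat_lit 12557019123) (nat_lit 76) (nat_lit 22694248839) (nat_lit 14) (nat_lit 5) (nat_lit 17) (nat_lit 5) (nat_lit 15) (nat_lit 4) (nat_lit 335) (nat_lit 264) (nat_lit 181)) (XT.nd (nat_lit 78) (nat_lit 0) (nat_lit 0) (XT.lf (nat_lit 0) (nat_lit 7564297381) (nat_lit 76) (nat_lit 22840674332) (nat_lit 152) (nat_lit 27749860953) (nat_lit 13) (nat_lit 5) (nat_lit 14) (nat_lit 5) (nat_lit 15) (nat_lit 4) (nat_lit 336) (nat_lit 264) (nat_lit 180)) (XT.lf (nat_lit 0) (nat_lit 28921199253) (nat_lit 76) (nat_lit 12025858189) (nat_lit 152) (nat_lit 19759200428) (nat_lit 13) (nat_lit 5) (nat_lit 14) (nat_lit 5) (nat_lit 15) (nat_lit 4) (nat_lit 337) (nat_lit 264) (nat_lit 179)))))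 (XT.nd (nat_lit 234) (nat_lit 76) (nat_lit 0) (XT.nd (nat_lit 78) (nat_lit 152) (nat_lit 0) (XT.lf (nat_lit 0) (nat_lit 51314626958) (nat_lit 76) (nat_lit 684098909) (nat_lit 152) (nat_lit 11387062275) (nat_lit 13) (nat_lit 5) (nat_lit 14) (nat_lit 5) (nat_lit 15) (nat_lit 4) (nat_lit 338) (nat_lit 264) (nat_lit 178)) (XT.nd (nat_lit 78) (nat_lit 76) (nat_lit 0) (XT.lf (nat_lit 0) (nat_lit 8659296085) (nat_lit 76) (nat_lit 55118005683) (nat_lit 76) (nat_lit 2416771212) (nat_lit 12) (nat_lit 4) (nat_lit 13) (nat_lit 5) (nat_lit 13) (nat_lit 4) (nat_lit 339) (nat_lit 264) (nat_lit 177)) (XT.lf (nat_lit 0) (nat_lit 6981332971) (nat_lit 152) (nat_lit 38565637969) (nat_lit 76) (nat_lit 23590311064) (nat_lit 11) (nat_lit 5) (nat_lit 13) (nat_lit 5) (nat_lit 12) (nat_lit 4) (nat_lit 340) (nat_lit 264) (nat_lit 176)))) (XT.nd (nat_lit 156) (nat_lit 0) (nat_lit 0) (XT.nd (nat_lit 78) (nat_lit 76)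 (nat_lit 0) (XT.lf (nat_lit 0) (nat_lit 16784144871) (nat_lit 152) (nat_lit 18700700701) (nat_lit 76) (nat_lit 36742551350) (nat_lit 11) (nat_lit 5) (nat_lit 13) (nat_lit 5) (nat_lit 12) (nat_lit 4) (nat_lit 341) (nat_lit 264) (nat_lit 175)) (XT.lf (nat_lit 0) (nat_lit 2172966261) (nat_lit 76) (nat_lit 24910086045) (nat_lit 152) (nat_lit 48388793150) (nat_lit 10) (nat_lit 5) (nat_lit 11) (nat_lit 5) (nat_lit 12) (nat_lit 4) (nat_lit 342) (nat_lit 264) (nat_lit 174))) (XT.nd (nat_lit 78) (nat_lit 0) (nat_lit 0) (XT.lf (nat_lit 0) (nat_lit 24454958290) (nat_lit 76) (nat_lit 13619980838) (nat_lit 152) (nat_lit 40798242475) (nat_lit 10) (nat_lit 5) (nat_lit 11) (nat_lit 5) (nat_lit 12) (nat_lit 4) (nat_lit 343) (nat_lit 264) (nat_lit 173)) (XT.lf (nat_lit 0) (nat_lit 47826147137) (nat_lit 76) (nat_lit 1776489157) (nat_lit 152) (nat_lit 32842367697) (nat_lit 10) (nat_lit 5) (nat_lit 11) (nat_lit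 5) (nat_lit 12) (nat_lit 4) (nat_lit 344) (nat_lit 264) (nat_lit 172)))))) (XT.nd (nat_lit 546) (nat_lit 76) (nat_lit 0) (XT.nd (nat_lit 234) (nat_lit 152) (nat_lit 0) (XT.nd (nat_lit 78) (nat_lit 76) (nat_lit 0) (XT.lf (nat_lit 0) (nat_lit 61795951443) (nat_lit 152) (nat_lit 13955999209) (nat_lit 0) (nat_lit 10440795484) (nat_lit 10) (nat_lit 5) (nat_lit 12) (nat_lit 4) (nat_lit 10) (nat_lit 4) (nat_lit 345) (nat_lit 264) (nat_lit 171)) (XT.nd (nat_lit 78) (nat_lit 0) (nat_lit 0) (XT.lf (nat_lit 0) (nat_lit 7852428900) (nat_lit 76) (nat_lit 66827316897) (nat_lit 76) (nat_lit 15445710549) (nat_lit 9) (nat_lit 4) (nat_lit 10) (nat_lit 5) (nat_lit 10) (nat_lit 4) (nat_lit 346) (nat_lit 264) (nat_lit 170)) (XT.lf (nat_lit 0) (nat_lit 31020702293) (nat_lit 76) (nat_lit 57318479262) (nat_lit 76) (nat_lit 5911682068) (nat_lit 9) (nat_lit 4) (nat_lit 10) (nat_lit 5) (nat_lit 10) (nat_lit 4) (nat_lit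 347) (nat_lit 264) (nat_lit 169)))) (XT.nd (nat_lit 156) (nat_lit 76) (nat_lit 0) (XT.nd (nat_lit 78) (nat_lit 0) (nat_lit 0) (XT.lf (nat_lit 0) (nat_lit 4007309276) (nat_lit 152) (nat_lit 43295950644) (nat_lit 76) (nat_lit 51278456533) (nat_lit 8) (nat_lit 5) (nat_lit 10) (nat_lit 5) (nat_lit 9) (nat_lit 4) (nat_lit 348) (nat_lit 264) (nat_lit 168)) (XT.lf (nat_lit 0) (nat_lit 14289932286) (nat_lit 152) (nat_lit 22445074774) (nat_lit 76) (nat_lit 66392655073) (nat_lit 8) (nat_lit 5) (nat_lit 10) (nat_lit 5) (nat_lit 9) (nat_lit 4) (nat_lit 349) (nat_lit 264) (nat_lit 167))) (XT.nd (nat_lit 78) (nat_lit 76) (nat_lit 0) (XT.lf (nat_lit 0) (nat_lit 25076027606) (nat_lit 152) (nat_lit 571062074) (nat_lit 76) (nat_lit 82254139465) (nat_lit 8) (nat_lit 5) (nat_lit 10) (nat_lit 5) (nat_lit 9) (nat_lit 4) (nat_lit 350) (nat_lit 264) (nat_lit 166)) (XT.lf (nat_lit 0) (nat_lit 22823537867) (nat_lit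 76) (nat_lit 13787132356) (nat_lit 152) (nat_lit 76296531088) (nat_lit 7) (nat_lit 5) (nat_lit 8) (nat_lit 5) (nat_lit 9) (nat_lit 4) (nat_lit 351) (nat_lit 264) (nat_lit 165))))) (XT.nd (nat_lit 234) (nat_lit 76) (nat_lit 0) (XT.nd (nat_lit 78) (nat_lit 0) (nat_lit 0) (XT.lf (nat_lit 0) (nat_lit 47381848308) (nat_lit 76) (nat_lit 1336234787) (nat_lit 152) (nat_lit 69445511734) (nat_lit 7) (nat_lit 5) (nat_lit 8) (nat_lit 5) (nat_lit 9) (nat_lit 4) (nat_lit 352) (nat_lit 264) (nat_lit 164)) (XT.nd (nat_lit 78) (nat_lit 0) (nat_lit 0) (XT.lf (nat_lit 0) (nat_lit 61534245696) (nat_lit 152) (nat_lit 50644867669) (nat_lit 0) (nat_lit 11500596984) (nat_lit 7) (nat_lit 5) (nat_lit 9) (nat_lit 4) (nat_lit 7) (nat_lit 4) (nat_lit 353) (nat_lit 264) (nat_lit 163)) (XT.lf (nat_lit 0) (nat_lit 74995707050) (nat_lit 152) (nat_lit 29531116290) (nat_lit 0) (nat_lit 24944677111) (nat_lit 7) (nat_lit 5)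 (nat_lit 9) (nat_lit 4) (nat_lit 7) (nat_lit 4) (nat_lit 354) (nat_lit 264) (nat_lit 162)))) (XT.nd (nat_lit 156) (nat_lit 0) (nat_lit 0) (XT.nd (nat_lit 78) (nat_lit 76) (nat_lit 0) (XT.lf (nat_lit 0) (nat_lit 89121673550) (nat_lit 152) (nat_lit 7377376841) (nat_lit 0) (nat_lit 39054090061) (nat_lit 7) (nat_lit 5) (nat_lit 9) (nat_lit 4) (nat_lit 7) (nat_lit 4) (nat_lit 355) (nat_lit 264) (nat_lit 161)) (XT.lf (nat_lit 0) (nat_lit 16184923836) (nat_lit 76) (nat_lit 87916434001) (nat_lit 76) (nat_lit 37833085227) (nat_lit 6) (nat_lit 4) (nat_lit 7) (nat_lit 5) (nat_lit 7) (nat_lit 4) (nat_lit 356) (nat_lit 264) (nat_lit 160))) (XT.nd (nat_lit 78) (nat_lit 0) (nat_lit 0) (XT.lf (nat_lit 0) (nat_lit 41064981715) (nat_lit 76) (nat_lit 78833077245) (nat_lit 76) (nat_lit 28734713913) (nat_lit 6) (nat_lit 4) (nat_lit 7) (nat_lit 5) (nat_lit 7) (nat_lit 4) (nat_lit 357) (nat_lit 264) (nat_lit 159))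 (XT.lf (nat_lit 0) (nat_lit 67175210763) (nat_lit 76) (nat_lit 69301850124) (nat_lit 76) (nat_lit 19189187213) (nat_lit 6) (nat_lit 4) (nat_lit 7) (nat_lit 5) (nat_lit 7) (nat_lit 4) (nat_lit 358) (nat_lit 264) (nat_lit 158))))))))
noncomputable def xc59 : XT := (XT.nd (nat_lit 35178) (nat_lit 0) (nat_lit 2128) (XT.nd (nat_lit 34164) (nat_lit 0) (nat_lit 8208) (XT.nd (nat_lit 33618) (nat_lit 0) (nat_lit 15808) (XT.nd (nat_lit 33384) (nat_lit 0) (nat_lit 19000) (XT.nd (nat_lit 33228) (nat_lit 0) (nat_lit 20216) (XT.lf (nat_lit 0) (nat_lit 1309303193) (nat_lit 152) (nat_lit 47481366213) (nat_lit 76) (nat_lit 122015403624) (nat_lit 5) (nat_lit 5) (nat_lit 7) (nat_lit 5) (nat_lit 6) (nat_lit 4) (nat_lit 360) (nat_lit 264) (nat_lit 156)) (XT.nd (nat_lit 78) (nat_lit 0) (nat_lit 0) (XT.lf (nat_lit 0) (nat_lit 312043619) (nat_lit 0) (nat_lit 312043619) (nat_lit 532) (nat_lit 2746640975) (nat_lit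 271) (nat_lit 5) (nat_lit 271) (nat_lit 3) (nat_lit 278) (nat_lit 3) (nat_lit 265) (nat_lit 265) (nat_lit 250)) (XT.lf (nat_lit 0) (nat_lit 4545143950) (nat_lit 532) (nat_lit 1041557436) (nat_lit 608) (nat_lit 1218102330) (nat_lit 271) (nat_lit 5) (nat_lit 278) (nat_lit 3) (nat_lit 279) (nat_lit 5) (nat_lit 266) (nat_lit 265) (nat_lit 249)))) (XT.nd (nat_lit 78) (nat_lit 608) (nat_lit 0) (XT.lf (nat_lit 0) (nat_lit 951341061) (nat_lit 608) (nat_lit 2633029647) (nat_lit 684) (nat_lit 3291932897) (nat_lit 263) (nat_lit 5) (nat_lit 271) (nat_lit 5) (nat_lit 272) (nat_lit 5) (nat_lit 267) (nat_lit 265) (nat_lit 248)) (XT.nd (nat_lit 78) (nat_lit 608) (nat_lit 0) (XT.lf (nat_lit 76) (nat_lit 2781343710) (nat_lit 0) (nat_lit 1331959251) (nat_lit 684) (nat_lit 2842717129) (nat_lit 264) (nat_lit 5) (nat_lit 263) (nat_lit 5) (nat_lit 272) (nat_lit 5) (nat_lit 268) (nat_lit 265) (nat_lit 247)) (XT.lf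 (nat_lit 0) (nat_lit 243205724) (nat_lit 684) (nat_lit 5664215650) (nat_lit 760) (nat_lit 1136865040) (nat_lit 255) (nat_lit 5) (nat_lit 264) (nat_lit 5) (nat_lit 265) (nat_lit 5) (nat_lit 269) (nat_lit 265) (nat_lit 246))))) (XT.nd (nat_lit 234) (nat_lit 2508) (nat_lit 0) (XT.nd (nat_lit 78) (nat_lit 684) (nat_lit 0) (XT.lf (nat_lit 76) (nat_lit 4109839) (nat_lit 0) (nat_lit 3292234795) (nat_lit 760) (nat_lit 3844001823) (nat_lit 256) (nat_lit 5) (nat_lit 255) (nat_lit 5) (nat_lit 265) (nat_lit 5) (nat_lit 270) (nat_lit 265) (nat_lit 245)) (XT.nd (nat_lit 78) (nat_lit 684) (nat_lit 0) (XT.lf (nat_lit 76) (nat_lit 5960060149) (nat_lit 0) (nat_lit 422416574) (nat_lit 760) (nat_lit 862680902) (nat_lit 256) (nat_lit 5) (nat_lit 255) (nat_lit 5) (nat_lit 265) (nat_lit 5) (nat_lit 271) (nat_lit 265) (nat_lit 244)) (XT.lf (nat_lit 0) (nat_lit 2124409479) (nat_lit 760) (nat_lit 2566431511) (nat_lit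 836) (nat_lit 2667016986) (nat_lit 246) (nat_lit 5) (nat_lit 256) (nat_lit 5) (nat_lit 257) (nat_lit 5) (nat_lit 272) (nat_lit 265) (nat_lit 243)))) (XT.nd (nat_lit 156) (nat_lit 1748) (nat_lit 0) (XT.nd (nat_lit 78) (nat_lit 760) (nat_lit 0) (XT.lf (nat_lit 76) (nat_lit 3666255936) (nat_lit 0) (nat_lit 1465925976) (nat_lit 836) (nat_lit 2347395563) (nat_lit 247) (nat_lit 5) (nat_lit 246) (nat_lit 5) (nat_lit 257) (nat_lit 5) (nat_lit 273) (nat_lit 265) (nat_lit 242)) (XT.lf (nat_lit 0) (nat_lit 581643718) (nat_lit 836) (nat_lit 5044078314) (nat_lit 76) (nat_lit 1984395319) (nat_lit 236) (nat_lit 5) (nat_lit 247) (nat_lit 5) (nat_lit 237) (nat_lit 5) (nat_lit 274) (nat_lit 265) (nat_lit 241))) (XT.nd (nat_lit 78) (nat_lit 912) (nat_lit 0) (XT.lf (nat_lit 0) (nat_lit 1470751410) (nat_lit 836) (nat_lit 2054766052) (nat_lit 912) (nat_lit 4223739389) (nat_lit 225) (nat_lit 5) (nat_lit 236) (nat_lit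 5) (nat_lit 237) (nat_lit 5) (nat_lit 275) (nat_lit 265) (nat_lit 240)) (XT.lf (nat_lit 0) (nat_lit 395124455) (nat_lit 912) (nat_lit 6148348333) (nat_lit 988) (nat_lit 1354338458) (nat_lit 213) (nat_lit 5) (nat_lit 225) (nat_lit 5) (nat_lit 226) (nat_lit 5) (nat_lit 276) (nat_lit 265) (nat_lit 239)))))) (XT.nd (nat_lit 468) (nat_lit 3116) (nat_lit 0) (XT.nd (nat_lit 234) (nat_lit 2356) (nat_lit 0) (XT.nd (nat_lit 78) (nat_lit 2052) (nat_lit 0) (XT.lf (nat_lit 0) (nat_lit 1570735288) (nat_lit 988) (nat_lit 673909290) (nat_lit 76) (nat_lit 5810578117) (nat_lit 212) (nat_lit 5) (nat_lit 225) (nat_lit 5) (nat_lit 213) (nat_lit 5) (nat_lit 277) (nat_lit 265) (nat_lit 238)) (XT.nd (nat_lit 78) (nat_lit 1064) (nat_lit 0) (XT.lf (nat_lit 0) (nat_lit 4560843657) (nat_lit 1064) (nat_lit 1744607711) (nat_lit 76) (nat_lit 1916480320) (nat_lit 199) (nat_lit 5) (nat_lit 213) (nat_lit 5) (nat_lit 200)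 (nat_lit 5) (nat_lit 278) (nat_lit 265) (nat_lit 237)) (XT.lf (nat_lit 0) (nat_lit 5575715657) (nat_lit 1064) (nat_lit 2078844854) (nat_lit 1140) (nat_lit 744014404) (nat_lit 185) (nat_lit 5) (nat_lit 199) (nat_lit 5) (nat_lit 200) (nat_lit 5) (nat_lit 279) (nat_lit 265) (nat_lit 236)))) (XT.nd (nat_lit 78) (nat_lit 1140) (nat_lit 0) (XT.lf (nat_lit 0) (nat_lit 2234830677) (nat_lit 1216) (nat_lit 3938668272) (nat_lit 76) (nat_lit 2411252744) (nat_lit 169) (nat_lit 5) (nat_lit 185) (nat_lit 5) (nat_lit 170) (nat_lit 5) (nat_lit 280) (nat_lit 265) (nat_lit 235)) (XT.nd (nat_lit 78) (nat_lit 608) (nat_lit 0) (XT.lf (nat_lit 0) (nat_lit 3697564767) (nat_lit 532) (nat_lit 1615198240) (nat_lit 608) (nat_lit 3468482726) (nat_lit 162) (nat_lit 5) (nat_lit 169) (nat_lit 5) (nat_lit 170) (nat_lit 5) (nat_lit 281) (nat_lit 265) (nat_lit 234)) (XT.lf (nat_lit 0) (nat_lit 2719399373) (nat_lit 608) (nat_lit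 5807002056) (nat_lit 684) (nat_lit 461894846) (nat_lit 154) (nat_lit 5) (nat_lit 162) (nat_lit 5) (nat_lit 163) (nat_lit 5) (nat_lit 282) (nat_lit 265) (nat_lit 233))))) (XT.nd (nat_lit 234) (nat_lit 1976) (nat_lit 0) (XT.nd (nat_lit 78) (nat_lit 532) (nat_lit 0) (XT.lf (nat_lit 0) (nat_lit 1691533688) (nat_lit 532) (nat_lit 923721329) (nat_lit 608) (nat_lit 6590654536) (nat_lit 146) (nat_lit 5) (nat_lit 153) (nat_lit 5) (nat_lit 154) (nat_lit 5) (nat_lit 283) (nat_lit 265) (nat_lit 232)) (XT.nd (nat_lit 78) (nat_lit 0) (nat_lit 0) (XT.lf (nat_lit 0) (nat_lit 600909571) (nat_lit 532) (nat_lit 5238938225) (nat_lit 608) (nat_lit 3594488226) (nat_lit 139) (nat_lit 5) (nat_lit 146) (nat_lit 5) (nat_lit 147) (nat_lit 5) (nat_lit 284) (nat_lit 265) (nat_lit 231)) (XT.lf (nat_lit 0) (nat_lit 9159109393) (nat_lit 532) (nat_lit 48935732) (nat_lit 608) (nat_lit 466823507) (nat_lit 139) (nat_lit 5)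 (nat_lit 146) (nat_lit 5) (nat_lit 147) (nat_lit 5) (nat_lit 285) (nat_lit 265) (nat_lit 230)))) (XT.nd (nat_lit 156) (nat_lit 988) (nat_lit 0) (XT.nd (nat_lit 78) (nat_lit 456) (nat_lit 0) (XT.lf (nat_lit 0) (nat_lit 2794023150) (nat_lit 532) (nat_lit 1735962391) (nat_lit 76) (nat_lit 5395821021) (nat_lit 132) (nat_lit 5) (nat_lit 139) (nat_lit 5) (nat_lit 133) (nat_lit 5) (nat_lit 286) (nat_lit 265) (nat_lit 229)) (XT.lf (nat_lit 0) (nat_lit 6196101424) (nat_lit 532) (nat_lit 3019410989) (nat_lit 76) (nat_lit 974142430) (nat_lit 126) (nat_lit 5) (nat_lit 133) (nat_lit 5) (nat_lit 127) (nat_lit 5) (nat_lit 287) (nat_lit 265) (nat_lit 228))) (XT.nd (nat_lit 78) (nat_lit 532) (nat_lit 0) (XT.lf (nat_lit 0) (nat_lit 6057288220) (nat_lit 456) (nat_lit 3739816983) (nat_lit 532) (nat_lit 668856576) (nat_lit 120) (nat_lit 5) (nat_lit 126) (nat_lit 5) (nat_lit 127) (nat_lit 5) (nat_lit 288) (nat_lit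 265) (nat_lit 227)) (XT.lf (nat_lit 0) (nat_lit 2774557663) (nat_lit 532) (nat_lit 5918622382) (nat_lit 76) (nat_lit 2061984671) (nat_lit 113) (nat_lit 5) (nat_lit 120) (nat_lit 5) (nat_lit 114) (nat_lit 5) (nat_lit 289) (nat_lit 265) (nat_lit 226))))))) (XT.nd (nat_lit 1014) (nat_lit 2204) (nat_lit 0) (XT.nd (nat_lit 468) (nat_lit 1900) (nat_lit 0) (XT.nd (nat_lit 234) (nat_lit 760) (nat_lit 0) (XT.nd (nat_lit 78) (nat_lit 836) (nat_lit 0) (XT.lf (nat_lit 0) (nat_lit 3496654435) (nat_lit 380) (nat_lit 2909416045) (nat_lit 456) (nat_lit 4651781087) (nat_lit 108) (nat_lit 5) (nat_lit 113) (nat_lit 5) (nat_lit 114) (nat_lit 5) (nat_lit 290) (nat_lit 265) (nat_lit 225)) (XT.nd (nat_lit 78) (nat_lit 456) (nat_lit 0) (XT.lf (nat_lit 0) (nat_lit 2036496502) (nat_lit 380) (nat_lit 8209633147) (nat_lit 456) (nat_lit 1128843761) (nat_lit 103) (nat_lit 5) (nat_lit 108) (nat_lit 5) (nat_lit 109) (nat_lit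 5) (nat_lit 291) (nat_lit 265) (nat_lit 224)) (XT.lf (nat_lit 0) (nat_lit 416244616) (nat_lit 380) (nat_lit 2133407286) (nat_lit 456) (nat_lit 9156772760) (nat_lit 97) (nat_lit 5) (nat_lit 102) (nat_lit 5) (nat_lit 103) (nat_lit 5) (nat_lit 292) (nat_lit 265) (nat_lit 223)))) (XT.nd (nat_lit 78) (nat_lit 760) (nat_lit 0) (XT.lf (nat_lit 0) (nat_lit 6447195587) (nat_lit 456) (nat_lit 1353693290) (nat_lit 76) (nat_lit 4251566880) (nat_lit 97) (nat_lit 5) (nat_lit 103) (nat_lit 5) (nat_lit 98) (nat_lit 5) (nat_lit 293) (nat_lit 265) (nat_lit 222)) (XT.nd (nat_lit 78) (nat_lit 380) (nat_lit 0) (XT.lf (nat_lit 0) (nat_lit 9138494529) (nat_lit 380) (nat_lit 1434640729) (nat_lit 456) (nat_lit 1841739649) (nat_lit 92) (nat_lit 5) (nat_lit 97) (nat_lit 5) (nat_lit 98) (nat_lit 5) (nat_lit 294) (nat_lit 265) (nat_lit 221)) (XT.lf (nat_lit 0) (nat_lit 2131468309) (nat_lit 380) (nat_lit 5429629152)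 (nat_lit 76) (nat_lit 5231913686) (nat_lit 87) (nat_lit 5) (nat_lit 92) (nat_lit 5) (nat_lit 88) (nat_lit 5) (nat_lit 295) (nat_lit 265) (nat_lit 220))))) (XT.nd (nat_lit 234) (nat_lit 836) (nat_lit 0) (XT.nd (nat_lit 78) (nat_lit 684) (nat_lit 0) (XT.lf (nat_lit 0) (nat_lit 5390440700) (nat_lit 380) (nat_lit 903949740) (nat_lit 456) (nat_lit 6894323467) (nat_lit 82) (nat_lit 5) (nat_lit 87) (nat_lit 5) (nat_lit 88) (nat_lit 5) (nat_lit 296) (nat_lit 265) (nat_lit 219)) (XT.nd (nat_lit 78) (nat_lit 380) (nat_lit 0) (XT.lf (nat_lit 0) (nat_lit 3170189738) (nat_lit 304) (nat_lit 7571405158) (nat_lit 380) (nat_lit 2860400034) (nat_lit 78) (nat_lit 5) (nat_lit 82) (nat_lit 5) (nat_lit 83) (nat_lit 5) (nat_lit 297) (nat_lit 265) (nat_lit 218)) (XT.lf (nat_lit 0) (nat_lit 713530631) (nat_lit 304) (nat_lit 664297668) (nat_lit 380) (nat_lit 12656903188) (nat_lit 73) (nat_lit 5) (nat_lit 77) (nat_lit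 5) (nat_lit 78) (nat_lit 5) (nat_lit 298) (nat_lit 265) (nat_lit 217)))) (XT.nd (nat_lit 156) (nat_lit 608) (nat_lit 0) (XT.nd (nat_lit 78) (nat_lit 228) (nat_lit 0) (XT.lf (nat_lit 0) (nat_lit 5875625818) (nat_lit 380) (nat_lit 2037869646) (nat_lit 76) (nat_lit 6571623320) (nat_lit 73) (nat_lit 5) (nat_lit 78) (nat_lit 5) (nat_lit 74) (nat_lit 5) (nat_lit 299) (nat_lit 265) (nat_lit 216)) (XT.lf (nat_lit 0) (nat_lit 9907831893) (nat_lit 228) (nat_lit 730032450) (nat_lit 304) (nat_lit 4319039325) (nat_lit 70) (nat_lit 5) (nat_lit 73) (nat_lit 5) (nat_lit 74) (nat_lit 5) (nat_lit 300) (nat_lit 265) (nat_lit 215))) (XT.nd (nat_lit 78) (nat_lit 228) (nat_lit 0) (XT.lf (nat_lit 0) (nat_lit 276888535) (nat_lit 380) (nat_lit 8426602845) (nat_lit 76) (nat_lit 6745955278) (nat_lit 65) (nat_lit 5) (nat_lit 70) (nat_lit 5) (nat_lit 66) (nat_lit 5) (nat_lit 301) (nat_lit 265) (nat_lit 214)) (XT.lf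 (nat_lit 0) (nat_lit 3774750725) (nat_lit 228) (nat_lit 1276444479) (nat_lit 304) (nat_lit 10913058530) (nat_lit 62) (nat_lit 5) (nat_lit 65) (nat_lit 5) (nat_lit 66) (nat_lit 5) (nat_lit 302) (nat_lit 265) (nat_lit 213)))))) (XT.nd (nat_lit 546) (nat_lit 988) (nat_lit 0) (XT.nd (nat_lit 234) (nat_lit 684) (nat_lit 0) (XT.nd (nat_lit 78) (nat_lit 304) (nat_lit 0) (XT.lf (nat_lit 0) (nat_lit 113448416) (nat_lit 228) (nat_lit 10044838881) (nat_lit 304) (nat_lit 6343746074) (nat_lit 59) (nat_lit 5) (nat_lit 62) (nat_lit 5) (nat_lit 63) (nat_lit 5) (nat_lit 303) (nat_lit 265) (nat_lit 212)) (XT.nd (nat_lit 78) (nat_lit 304) (nat_lit 0) (XT.lf (nat_lit 0) (nat_lit 13190298924) (nat_lit 228) (nat_lit 2413288766) (nat_lit 304) (nat_lit 1460680411) (nat_lit 59) (nat_lit 5) (nat_lit 62) (nat_lit 5) (nat_lit 63) (nat_lit 5) (nat_lit 304) (nat_lit 265) (nat_lit 211)) (XT.lf (nat_lit 0) (nat_lit 3686201157)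 (nat_lit 304) (nat_lit 8374062862) (nat_lit 76) (nat_lit 5590604724) (nat_lit 55) (nat_lit 5) (nat_lit 59) (nat_lit 5) (nat_lit 56) (nat_lit 5) (nat_lit 305) (nat_lit 265) (nat_lit 210)))) (XT.nd (nat_lit 156) (nat_lit 456) (nat_lit 0) (XT.nd (nat_lit 78) (nat_lit 0) (nat_lit 0) (XT.lf (nat_lit 0) (nat_lit 4877100878) (nat_lit 228) (nat_lit 4243134591) (nat_lit 304) (nat_lit 9144375098) (nat_lit 52) (nat_lit 5) (nat_lit 55) (nat_lit 5) (nat_lit 56) (nat_lit 5) (nat_lit 306) (nat_lit 265) (nat_lit 209)) (XT.lf (nat_lit 0) (nat_lit 14900835166) (nat_lit 304) (nat_lit 57669863) (nat_lit 76) (nat_lit 3948331920) (nat_lit 52) (nat_lit 5) (nat_lit 56) (nat_lit 5) (nat_lit 53) (nat_lit 5) (nat_lit 307) (nat_lit 265) (nat_lit 208))) (XT.nd (nat_lit 78) (nat_lit 228) (nat_lit 0) (XT.lf (nat_lit 0) (nat_lit 1493852208) (nat_lit 228) (nat_lit 5495388351) (nat_lit 76) (nat_lit 12587623400) (nat_lit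 49) (nat_lit 5) (nat_lit 52) (nat_lit 5) (nat_lit 50) (nat_lit 5) (nat_lit 308) (nat_lit 265) (nat_lit 207)) (XT.lf (nat_lit 0) (nat_lit 7238304349) (nat_lit 304) (nat_lit 11587685467) (nat_lit 76) (nat_lit 1451677130) (nat_lit 46) (nat_lit 5) (nat_lit 50) (nat_lit 5) (nat_lit 47) (nat_lit 5) (nat_lit 309) (nat_lit 265) (nat_lit 206))))) (XT.nd (nat_lit 234) (nat_lit 532) (nat_lit 0) (XT.nd (nat_lit 78) (nat_lit 304) (nat_lit 0) (XT.lf (nat_lit 0) (nat_lit 2594940305) (nat_lit 152) (nat_lit 10782134899) (nat_lit 228) (nat_lit 7633258375) (nat_lit 44) (nat_lit 5) (nat_lit 46) (nat_lit 5) (nat_lit 47) (nat_lit 5) (nat_lit 310) (nat_lit 265) (nat_lit 205)) (XT.nd (nat_lit 78) (nat_lit 304) (nat_lit 0) (XT.lf (nat_lit 0) (nat_lit 17658680148) (nat_lit 152) (nat_lit 2239360291) (nat_lit 228) (nat_lit 1879370079) (nat_lit 44) (nat_lit 5) (nat_lit 46) (nat_lit 5) (nat_lit 47) (nat_lit 5) (nat_lit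 311) (nat_lit 265) (nat_lit 204)) (XT.lf (nat_lit 0) (nat_lit 4210246479) (nat_lit 304) (nat_lit 11645970520) (nat_lit 76) (nat_lit 6721578441) (nat_lit 40) (nat_lit 5) (nat_lit 44) (nat_lit 5) (nat_lit 41) (nat_lit 5) (nat_lit 312) (nat_lit 265) (nat_lit 203)))) (XT.nd (nat_lit 156) (nat_lit 380) (nat_lit 0) (XT.nd (nat_lit 78) (nat_lit 0) (nat_lit 0) (XT.lf (nat_lit 0) (nat_lit 3360859328) (nat_lit 152) (nat_lit 7261472975) (nat_lit 228) (nat_lit 12793633888) (nat_lit 38) (nat_lit 5) (nat_lit 40) (nat_lit 5) (nat_lit 41) (nat_lit 5) (nat_lit 313) (nat_lit 265) (nat_lit 202)) (XT.lf (nat_lit 0) (nat_lit 17452909174) (nat_lit 228) (nat_lit 5015038978) (nat_lit 76) (nat_lit 1825189784) (nat_lit 38) (nat_lit 5) (nat_lit 41) (nat_lit 5) (nat_lit 39) (nat_lit 5) (nat_lit 314) (nat_lit 265) (nat_lit 201))) (XT.nd (nat_lit 78) (nat_lit 228) (nat_lit 0) (XT.lf (nat_lit 0) (nat_lit 10852800431)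 (nat_lit 152) (nat_lit 13911608754) (nat_lit 228) (nat_lit 445604929) (nat_lit 36) (nat_lit 5) (nat_lit 38) (nat_lit 5) (nat_lit 39) (nat_lit 5) (nat_lit 315) (nat_lit 265) (nat_lit 200)) (XT.lf (nat_lit 0) (nat_lit 1351560635) (nat_lit 152) (nat_lit 4822613286) (nat_lit 228) (nat_lit 19995945507) (nat_lit 33) (nat_lit 5) (nat_lit 35) (nat_lit 5) (nat_lit 36) (nat_lit 5) (nat_lit 316) (nat_lit 265) (nat_lit 199))))))))
noncomputable def xc60 : XT := (XT.nd (nat_lit 2028) (nat_lit 380) (nat_lit 0) (XT.nd (nat_lit 1014) (nat_lit 684) (nat_lit 0) (XT.nd (nat_lit 468) (nat_lit 456) (nat_lit 0) (XT.nd (nat_lit 234) (nat_lit 380) (nat_lit 0) (XT.nd (nat_lit 78) (nat_lit 152) (nat_lit 0) (XT.lf (nat_lit 0) (nat_lit 13274046118) (nat_lit 228) (nat_lit 9140141459) (nat_lit 76) (nat_lit 4759184837) (nat_lit 33) (nat_lit 5) (nat_lit 36) (nat_lit 5) (nat_lit 34) (nat_lit 5) (nat_lit 317) (nat_lit 265)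 (nat_lit 198)) (XT.nd (nat_lit 78) (nat_lit 0) (nat_lit 0) (XT.lf (nat_lit 0) (nat_lit 7359219074) (nat_lit 152) (nat_lit 13454440294) (nat_lit 228) (nat_lit 7410609468) (nat_lit 31) (nat_lit 5) (nat_lit 33) (nat_lit 5) (nat_lit 34) (nat_lit 5) (nat_lit 318) (nat_lit 265) (nat_lit 197)) (XT.lf (nat_lit 0) (nat_lit 24818302862) (nat_lit 152) (nat_lit 3972480694) (nat_lit 228) (nat_lit 535132721) (nat_lit 31) (nat_lit 5) (nat_lit 33) (nat_lit 5) (nat_lit 34) (nat_lit 5) (nat_lit 319) (nat_lit 265) (nat_lit 196)))) (XT.nd (nat_lit 78) (nat_lit 152) (nat_lit 0) (XT.lf (nat_lit 0) (nat_lit 6703580945) (nat_lit 228) (nat_lit 17738213080) (nat_lit 76) (nat_lit 6034448120) (nat_lit 28) (nat_lit 5) (nat_lit 31) (nat_lit 5) (nat_lit 29) (nat_lit 5) (nat_lit 320) (nat_lit 265) (nat_lit 195)) (XT.nd (nat_lit 78) (nat_lit 152) (nat_lit 0) (XT.lf (nat_lit 0) (nat_lit 14348749754) (nat_lit 228) (nat_lit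 841927363) (nat_lit 76) (nat_lit 16491600101) (nat_lit 28) (nat_lit 5) (nat_lit 31) (nat_lit 5) (nat_lit 29) (nat_lit 5) (nat_lit 321) (nat_lit 265) (nat_lit 194)) (XT.lf (nat_lit 0) (nat_lit 17183602047) (nat_lit 152) (nat_lit 5327780352) (nat_lit 228) (nat_lit 10433194023) (nat_lit 26) (nat_lit 5) (nat_lit 28) (nat_lit 5) (nat_lit 29) (nat_lit 5) (nat_lit 322) (nat_lit 265) (nat_lit 193))))) (XT.nd (nat_lit 234) (nat_lit 152) (nat_lit 0) (XT.nd (nat_lit 78) (nat_lit 228) (nat_lit 0) (XT.lf (nat_lit 0) (nat_lit 1794754614) (nat_lit 76) (nat_lit 29332513954) (nat_lit 152) (nat_lit 3141386018) (nat_lit 25) (nat_lit 5) (nat_lit 26) (nat_lit 5) (nat_lit 27) (nat_lit 4) (nat_lit 323) (nat_lit 265) (nat_lit 192)) (XT.nd (nat_lit 78) (nat_lit 152) (nat_lit 0) (XT.lf (nat_lit 0) (nat_lit 4615943441) (nat_lit 152) (nat_lit 15244490115) (nat_lit 76) (nat_lit 15791546339) (nat_lit 24) (nat_lit 5)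 (nat_lit 26) (nat_lit 5) (nat_lit 25) (nat_lit 5) (nat_lit 324) (nat_lit 265) (nat_lit 191)) (XT.lf (nat_lit 0) (nat_lit 2822846557) (nat_lit 152) (nat_lit 9873833397) (nat_lit 228) (nat_lit 24406858702) (nat_lit 22) (nat_lit 5) (nat_lit 24) (nat_lit 5) (nat_lit 25) (nat_lit 5) (nat_lit 325) (nat_lit 265) (nat_lit 190)))) (XT.nd (nat_lit 156) (nat_lit 76) (nat_lit 0) (XT.nd (nat_lit 78) (nat_lit 76) (nat_lit 0) (XT.lf (nat_lit 0) (nat_lit 21319263798) (nat_lit 228) (nat_lit 16564487192) (nat_lit 76) (nat_lit 739804858) (nat_lit 22) (nat_lit 5) (nat_lit 25) (nat_lit 5) (nat_lit 23) (nat_lit 4) (nat_lit 326) (nat_lit 265) (nat_lit 189)) (XT.lf (nat_lit 0) (nat_lit 1931563426) (nat_lit 76) (nat_lit 28534348659) (nat_lit 152) (nat_lit 9750887859) (nat_lit 21) (nat_lit 5) (nat_lit 22) (nat_lit 5) (nat_lit 23) (nat_lit 4) (nat_lit 327) (nat_lit 265) (nat_lit 188))) (XT.nd (nat_lit 78) (nat_lit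 76) (nat_lit 0) (XT.lf (nat_lit 0) (nat_lit 21655829511) (nat_lit 76) (nat_lit 18560082477) (nat_lit 152) (nat_lit 1669427112) (nat_lit 21) (nat_lit 5) (nat_lit 22) (nat_lit 5) (nat_lit 23) (nat_lit 4) (nat_lit 328) (nat_lit 265) (nat_lit 187)) (XT.lf (nat_lit 0) (nat_lit 6659525311) (nat_lit 152) (nat_lit 1377699575) (nat_lit 76) (nat_lit 35598834367) (nat_lit 20) (nat_lit 5) (nat_lit 22) (nat_lit 5) (nat_lit 21) (nat_lit 5) (nat_lit 329) (nat_lit 265) (nat_lit 186)))))) (XT.nd (nat_lit 468) (nat_lit 228) (nat_lit 0) (XT.nd (nat_lit 234) (nat_lit 228) (nat_lit 0) (XT.nd (nat_lit 78) (nat_lit 76) (nat_lit 0) (XT.lf (nat_lit 0) (nat_lit 15559013092) (nat_lit 228) (nat_lit 26773792076) (nat_lit 76) (nat_lit 3135367781) (nat_lit 18) (nat_lit 5) (nat_lit 21) (nat_lit 5) (nat_lit 19) (nat_lit 4) (nat_lit 330) (nat_lit 265) (nat_lit 185)) (XT.nd (nat_lit 78) (nat_lit 76) (nat_lit 0) (XT.lf (nat_lit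 0) (nat_lit 24977013347) (nat_lit 228) (nat_lit 7712477628) (nat_lit 76) (nat_lit 14700206477) (nat_lit 18) (nat_lit 5) (nat_lit 21) (nat_lit 5) (nat_lit 19) (nat_lit 4) (nat_lit 331) (nat_lit 265) (nat_lit 184)) (XT.lf (nat_lit 0) (nat_lit 12509237196) (nat_lit 76) (nat_lit 22456059818) (nat_lit 152) (nat_lit 14439030394) (nat_lit 17) (nat_lit 5) (nat_lit 18) (nat_lit 5) (nat_lit 19) (nat_lit 4) (nat_lit 332) (nat_lit 265) (nat_lit 183)))) (XT.nd (nat_lit 78) (nat_lit 228) (nat_lit 0) (XT.lf (nat_lit 0) (nat_lit 33867494119) (nat_lit 76) (nat_lit 11644681050) (nat_lit 152) (nat_lit 6005748499) (nat_lit 17) (nat_lit 5) (nat_lit 18) (nat_lit 5) (nat_lit 19) (nat_lit 4) (nat_lit 333) (nat_lit 265) (nat_lit 182)) (XT.nd (nat_lit 78) (nat_lit 0) (nat_lit 0) (XT.lf (nat_lit 0) (nat_lit 2544316973) (nat_lit 152) (nat_lit 254289473) (nat_lit 228) (nat_lit 50937630885) (nat_lit 14) (nat_lit 5) (nat_lit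 16) (nat_lit 5) (nat_lit 17) (nat_lit 5) (nat_lit 334) (nat_lit 265) (nat_lit 181)) (XT.lf (nat_lit 0) (nat_lit 12197156193) (nat_lit 228) (nat_lit 32151166650) (nat_lit 76) (nat_lit 11707023391) (nat_lit 14) (nat_lit 5) (nat_lit 17) (nat_lit 5) (nat_lit 15) (nat_lit 4) (nat_lit 335) (nat_lit 265) (nat_lit 180))))) (XT.nd (nat_lit 234) (nat_lit 152) (nat_lit 0) (XT.nd (nat_lit 78) (nat_lit 76) (nat_lit 0) (XT.lf (nat_lit 0) (nat_lit 22050118475) (nat_lit 228) (nat_lit 12193185377) (nat_lit 76) (nat_lit 24247580748) (nat_lit 14) (nat_lit 5) (nat_lit 17) (nat_lit 5) (nat_lit 15) (nat_lit 4) (nat_lit 336) (nat_lit 265) (nat_lit 179)) (XT.nd (nat_lit 78) (nat_lit 0) (nat_lit 0) (XT.lf (nat_lit 0) (nat_lit 8905770509) (nat_lit 76) (nat_lit 23558345544) (nat_lit 152) (nat_lit 28582040376) (nat_lit 13) (nat_lit 5) (nat_lit 14) (nat_lit 5) (nat_lit 15) (nat_lit 4) (nat_lit 337) (nat_lit 265) (nat_lit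 178)) (XT.lf (nat_lit 0) (nat_lit 31284648034) (nat_lit 76) (nat_lit 12222996332) (nat_lit 152) (nat_lit 20218290330) (nat_lit 13) (nat_lit 5) (nat_lit 14) (nat_lit 5) (nat_lit 15) (nat_lit 4) (nat_lit 338) (nat_lit 265) (nat_lit 177)))) (XT.nd (nat_lit 156) (nat_lit 76) (nat_lit 0) (XT.nd (nat_lit 78) (nat_lit 76) (nat_lit 0) (XT.lf (nat_lit 0) (nat_lit 54754061942) (nat_lit 76) (nat_lit 333394554) (nat_lit 152) (nat_lit 11452729561) (nat_lit 13) (nat_lit 5) (nat_lit 14) (nat_lit 5) (nat_lit 15) (nat_lit 4) (nat_lit 339) (nat_lit 265) (nat_lit 176)) (XT.lf (nat_lit 0) (nat_lit 9951790692) (nat_lit 76) (nat_lit 57491680698) (nat_lit 76) (nat_lit 2045769280) (nat_lit 12) (nat_lit 4) (nat_lit 13) (nat_lit 5) (nat_lit 13) (nat_lit 4) (nat_lit 340) (nat_lit 265) (nat_lit 175))) (XT.nd (nat_lit 78) (nat_lit 0) (nat_lit 0) (XT.lf (nat_lit 0) (nat_lit 7789678584) (nat_lit 152) (nat_lit 39665979021)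 (nat_lit 76) (nat_lit 25124509649) (nat_lit 11) (nat_lit 5) (nat_lit 13) (nat_lit 5) (nat_lit 12) (nat_lit 4) (nat_lit 341) (nat_lit 265) (nat_lit 174)) (XT.lf (nat_lit 0) (nat_lit 18060760652) (nat_lit 152) (nat_lit 18847220644) (nat_lit 76) (nat_lit 38917472281) (nat_lit 11) (nat_lit 5) (nat_lit 13) (nat_lit 5) (nat_lit 12) (nat_lit 4) (nat_lit 342) (nat_lit 265) (nat_lit 173))))))) (XT.nd (nat_lit 1014) (nat_lit 76) (nat_lit 0) (XT.nd (nat_lit 468) (nat_lit 152) (nat_lit 0) (XT.nd (nat_lit 234) (nat_lit 76) (nat_lit 0) (XT.nd (nat_lit 78) (nat_lit 0) (nat_lit 0) (XT.lf (nat_lit 0) (nat_lit 3047527039) (nat_lit 76) (nat_lit 25813619861) (nat_lit 152) (nat_lit 50371390727) (nat_lit 10) (nat_lit 5) (nat_lit 11) (nat_lit 5) (nat_lit 12) (nat_lit 4) (nat_lit 343) (nat_lit 265) (nat_lit 172)) (XT.nd (nat_lit 78) (nat_lit 0) (nat_lit 0) (XT.lf (nat_lit 0) (nat_lit 26407146648) (nat_lit 76) (nat_lit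 13975293702) (nat_lit 152) (nat_lit 42422114522) (nat_lit 10) (nat_lit 5) (nat_lit 11) (nat_lit 5) (nat_lit 12) (nat_lit 4) (nat_lit 344) (nat_lit 265) (nat_lit 171)) (XT.lf (nat_lit 0) (nat_lit 50912159678) (nat_lit 76) (nat_lit 1555136303) (nat_lit 152) (nat_lit 34088257437) (nat_lit 10) (nat_lit 5) (nat_lit 11) (nat_lit 5) (nat_lit 12) (nat_lit 4) (nat_lit 345) (nat_lit 265) (nat_lit 170)))) (XT.nd (nat_lit 78) (nat_lit 76) (nat_lit 0) (XT.lf (nat_lit 0) (nat_lit 65254805668) (nat_lit 152) (nat_lit 13983871224) (nat_lit 0) (nat_lit 11252477768) (nat_lit 10) (nat_lit 5) (nat_lit 12) (nat_lit 4) (nat_lit 10) (nat_lit 4) (nat_lit 346) (nat_lit 265) (nat_lit 169)) (XT.nd (nat_lit 78) (nat_lit 0) (nat_lit 0) (XT.lf (nat_lit 0) (nat_lit 8895774941) (nat_lit 76) (nat_lit 69875695836) (nat_lit 76) (nat_lit 15849376653) (nat_lit 9) (nat_lit 4) (nat_lit 10) (nat_lit 5) (nat_lit 10) (nat_lit 4)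 (nat_lit 347) (nat_lit 265) (nat_lit 168)) (XT.lf (nat_lit 0) (nat_lit 33191475118) (nat_lit 76) (nat_lit 59905368077) (nat_lit 76) (nat_lit 5856200055) (nat_lit 9) (nat_lit 4) (nat_lit 10) (nat_lit 5) (nat_lit 10) (nat_lit 4) (nat_lit 348) (nat_lit 265) (nat_lit 167))))) (XT.nd (nat_lit 234) (nat_lit 76) (nat_lit 0) (XT.nd (nat_lit 78) (nat_lit 0) (nat_lit 0) (XT.lf (nat_lit 0) (nat_lit 4535499076) (nat_lit 152) (nat_lit 44863865696) (nat_lit 76) (nat_lit 54101471031) (nat_lit 8) (nat_lit 5) (nat_lit 10) (nat_lit 5) (nat_lit 9) (nat_lit 4) (nat_lit 349) (nat_lit 265) (nat_lit 166)) (XT.nd (nat_lit 78) (nat_lit 0) (nat_lit 0) (XT.lf (nat_lit 0) (nat_lit 15316642554) (nat_lit 152) (nat_lit 22998869008) (nat_lit 76) (nat_lit 69959041799) (nat_lit 8) (nat_lit 5) (nat_lit 10) (nat_lit 5) (nat_lit 9) (nat_lit 4) (nat_lit 350) (nat_lit 265) (nat_lit 165)) (XT.lf (nat_lit 0) (nat_lit 26627175323)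 (nat_lit 152) (nat_lit 58225174) (nat_lit 76) (nat_lit 86601850222) (nat_lit 8) (nat_lit 5) (nat_lit 10) (nat_lit 5) (nat_lit 9) (nat_lit 4) (nat_lit 351) (nat_lit 265) (nat_lit 164)))) (XT.nd (nat_lit 156) (nat_lit 0) (nat_lit 0) (XT.nd (nat_lit 78) (nat_lit 0) (nat_lit 0) (XT.lf (nat_lit 0) (nat_lit 24490585929) (nat_lit 76) (nat_lit 14238859789) (nat_lit 152) (nat_lit 79814354597) (nat_lit 7) (nat_lit 5) (nat_lit 8) (nat_lit 5) (nat_lit 9) (nat_lit 4) (nat_lit 352) (nat_lit 265) (nat_lit 163)) (XT.lf (nat_lit 0) (nat_lit 50251770407) (nat_lit 76) (nat_lit 1176733016) (nat_lit 152) (nat_lit 72634927277) (nat_lit 7) (nat_lit 5) (nat_lit 8) (nat_lit 5) (nat_lit 9) (nat_lit 4) (nat_lit 353) (nat_lit 265) (nat_lit 162))) (XT.nd (nat_lit 78) (nat_lit 0) (nat_lit 0) (XT.lf (nat_lit 0) (nat_lit 64874473826) (nat_lit 152) (nat_lit 52694255729) (nat_lit 0) (nat_lit 12286957613) (nat_lit 7) (nat_lit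 5) (nat_lit 9) (nat_lit 4) (nat_lit 7) (nat_lit 4) (nat_lit 354) (nat_lit 265) (nat_lit 161)) (XT.lf (nat_lit 0) (nat_lit 78996459874) (nat_lit 152) (nat_lit 30547809891) (nat_lit 0) (nat_lit 26393178375) (nat_lit 7) (nat_lit 5) (nat_lit 9) (nat_lit 4) (nat_lit 7) (nat_lit 4) (nat_lit 355) (nat_lit 265) (nat_lit 160)))))) (XT.nd (nat_lit 33774) (nat_lit 0) (nat_lit 17404) (XT.nd (nat_lit 234) (nat_lit 0) (nat_lit 0) (XT.nd (nat_lit 78) (nat_lit 76) (nat_lit 0) (XT.lf (nat_lit 0) (nat_lit 93816773867) (nat_lit 152) (nat_lit 7308281670) (nat_lit 0) (nat_lit 41198477810) (nat_lit 7) (nat_lit 5) (nat_lit 9) (nat_lit 4) (nat_lit 7) (nat_lit 4) (nat_lit 356) (nat_lit 265) (nat_lit 159)) (XT.nd (nat_lit 78) (nat_lit 0) (nat_lit 0) (XT.lf (nat_lit 0) (nat_lit 17419579890) (nat_lit 76) (nat_lit 92118570034) (nat_lit 76) (nat_lit 39485974399) (nat_lit 6) (nat_lit 4) (nat_lit 7) (nat_lit 5) (nat_lit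 7) (nat_lit 4) (nat_lit 357) (nat_lit 265) (nat_lit 158)) (XT.lf (nat_lit 0) (nat_lit 43523383050) (nat_lit 76) (nat_lit 82590268568) (nat_lit 76) (nat_lit 29944054286) (nat_lit 6) (nat_lit 4) (nat_lit 7) (nat_lit 5) (nat_lit 7) (nat_lit 4) (nat_lit 358) (nat_lit 265) (nat_lit 157)))) (XT.nd (nat_lit 33384) (nat_lit 0) (nat_lit 19456) (XT.nd (nat_lit 78) (nat_lit 0) (nat_lit 0) (XT.lf (nat_lit 0) (nat_lit 70919830586) (nat_lit 76) (nat_lit 72591264020) (nat_lit 76) (nat_lit 19932079599) (nat_lit 6) (nat_lit 4) (nat_lit 7) (nat_lit 5) (nat_lit 7) (nat_lit 4) (nat_lit 359) (nat_lit 265) (nat_lit 156)) (XT.lf (nat_lit 0) (nat_lit 99674152136) (nat_lit 76) (nat_lit 62097749239) (nat_lit 76) (nat_lit 9426212304) (nat_lit 6) (nat_lit 4) (nat_lit 7) (nat_lit 5) (nat_lit 7) (nat_lit 4) (nat_lit 360) (nat_lit 265) (nat_lit 155))) (XT.nd (nat_lit 78) (nat_lit 0) (nat_lit 0) (XT.lf (nat_lit 0) (nat_lit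 414003288) (nat_lit 684) (nat_lit 1510972709) (nat_lit 684) (nat_lit 1510972709) (nat_lit 262) (nat_lit 3) (nat_lit 271) (nat_lit 3) (nat_lit 271) (nat_lit 5) (nat_lit 266) (nat_lit 266) (nat_lit 248)) (XT.lf (nat_lit 76) (nat_lit 2170715041) (nat_lit 0) (nat_lit 1685809736) (nat_lit 684) (nat_lit 3090580892) (nat_lit 263) (nat_lit 5) (nat_lit 262) (nat_lit 3) (nat_lit 271) (nat_lit 5) (nat_lit 267) (nat_lit 266) (nat_lit 247))))) (XT.nd (nat_lit 234) (nat_lit 1444) (nat_lit 0) (XT.nd (nat_lit 78) (nat_lit 684) (nat_lit 0) (XT.lf (nat_lit 76) (nat_lit 558276968) (nat_lit 0) (nat_lit 6329323136) (nat_lit 684) (nat_lit 143347075) (nat_lit 264) (nat_lit 5) (nat_lit 263) (nat_lit 5) (nat_lit 272) (nat_lit 5) (nat_lit 268) (nat_lit 266) (nat_lit 246)) (XT.nd (nat_lit 78) (nat_lit 0) (nat_lit 0) (XT.lf (nat_lit 0) (nat_lit 2774950024) (nat_lit 684) (nat_lit 1012553286) (nat_lit 760) (nat_lit 3334563768)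 (nat_lit 254) (nat_lit 5) (nat_lit 263) (nat_lit 5) (nat_lit 264) (nat_lit 5) (nat_lit 269) (nat_lit 266) (nat_lit 245)) (XT.lf (nat_lit 76) (nat_lit 4707490619) (nat_lit 0) (nat_lit 997433415) (nat_lit 760) (nat_lit 1517072770) (nat_lit 255) (nat_lit 5) (nat_lit 254) (nat_lit 5) (nat_lit 264) (nat_lit 5) (nat_lit 270) (nat_lit 266) (nat_lit 244)))) (XT.nd (nat_lit 156) (nat_lit 760) (nat_lit 0) (XT.nd (nat_lit 78) (nat_lit 0) (nat_lit 0) (XT.lf (nat_lit 0) (nat_lit 1317528083) (nat_lit 760) (nat_lit 3995251442) (nat_lit 836) (nat_lit 2017312179) (nat_lit 245) (nat_lit 5) (nat_lit 255) (nat_lit 5) (nat_lit 256) (nat_lit 5) (nat_lit 271) (nat_lit 266) (nat_lit 243)) (XT.lf (nat_lit 76) (nat_lit 1992520496) (nat_lit 0) (nat_lit 2162273748) (nat_lit 836) (nat_lit 3291892615) (nat_lit 246) (nat_lit 5) (nat_lit 245) (nat_lit 5) (nat_lit 256) (nat_lit 5) (nat_lit 272) (nat_lit 266) (nat_lit 242)))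 (XT.nd (nat_lit 78) (nat_lit 836) (nat_lit 0) (XT.lf (nat_lit 76) (nat_lit 687749709) (nat_lit 0) (nat_lit 6349274036) (nat_lit 836) (nat_lit 535295448) (nat_lit 247) (nat_lit 5) (nat_lit 246) (nat_lit 5) (nat_lit 257) (nat_lit 5) (nat_lit 273) (nat_lit 266) (nat_lit 241)) (XT.lf (nat_lit 0) (nat_lit 2240209335) (nat_lit 836) (nat_lit 606561955) (nat_lit 912) (nat_lit 4859245931) (nat_lit 235) (nat_lit 5) (nat_lit 246) (nat_lit 5) (nat_lit 247) (nat_lit 5) (nat_lit 274) (nat_lit 266) (nat_lit 240))))))))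
noncomputable def xc61 : XT := (XT.nd (nat_lit 2028) (nat_lit 3648) (nat_lit 0) (XT.nd (nat_lit 1014) (nat_lit 4256) (nat_lit 0) (XT.nd (nat_lit 468) (nat_lit 3268) (nat_lit 0) (XT.nd (nat_lit 234) (nat_lit 3268) (nat_lit 0) (XT.nd (nat_lit 78) (nat_lit 1824) (nat_lit 0) (XT.lf (nat_lit 0) (nat_lit 5065913660) (nat_lit 836) (nat_lit 1865686218) (nat_lit 76) (nat_lit 917230976) (nat_lit 236) (nat_lit 5) (nat_lit 247) (nat_lit 5) (nat_lit 237) (nat_lit 5) (nat_lit 275) (nat_lit 266) (nat_lit 239)) (XT.nd (nat_lit 78) (nat_lit 988) (nat_lit 0) (XT.lf (nat_lit 0) (nat_lit 4876547646) (nat_lit 836) (nat_lit 3100313357) (nat_lit 912) (nat_lit 23857394) (nat_lit 225) (nat_lit 5) (nat_lit 236) (nat_lit 5) (nat_lit 237) (nat_lit 5) (nat_lit 276) (nat_lit 266) (nat_lit 238)) (XT.lf (nat_lit 0) (nat_lit 2748807823) (nat_lit 988) (nat_lit 4396884022) (nat_lit 76) (nat_lit 1015961344) (nat_lit 212) (nat_lit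 5) (nat_lit 225) (nat_lit 5) (nat_lit 213) (nat_lit 5) (nat_lit 277) (nat_lit 266) (nat_lit 237)))) (XT.nd (nat_lit 78) (nat_lit 2280) (nat_lit 0) (XT.lf (nat_lit 0) (nat_lit 2646191440) (nat_lit 988) (nat_lit 2974340073) (nat_lit 1064) (nat_lit 2711490442) (nat_lit 199) (nat_lit 5) (nat_lit 212) (nat_lit 5) (nat_lit 213) (nat_lit 5) (nat_lit 278) (nat_lit 266) (nat_lit 236)) (XT.nd (nat_lit 78) (nat_lit 1140) (nat_lit 0) (XT.lf (nat_lit 0) (nat_lit 72737024) (nat_lit 1140) (nat_lit 6982009497) (nat_lit 76) (nat_lit 1457824488) (nat_lit 184) (nat_lit 5) (nat_lit 199) (nat_lit 5) (nat_lit 185) (nat_lit 5) (nat_lit 279) (nat_lit 266) (nat_lit 235)) (XT.lf (nat_lit 0) (nat_lit 367558501) (nat_lit 1140) (nat_lit 2546197609) (nat_lit 1216) (nat_lit 5788571658) (nat_lit 169) (nat_lit 5) (nat_lit 184) (nat_lit 5) (nat_lit 185) (nat_lit 5) (nat_lit 280) (nat_lit 266) (nat_lit 234))))) (XT.nd (nat_lit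 234) (nat_lit 2052) (nat_lit 0) (XT.nd (nat_lit 78) (nat_lit 1216) (nat_lit 0) (XT.lf (nat_lit 0) (nat_lit 5875696160) (nat_lit 1216) (nat_lit 799131274) (nat_lit 76) (nat_lit 2227564915) (nat_lit 169) (nat_lit 5) (nat_lit 185) (nat_lit 5) (nat_lit 170) (nat_lit 5) (nat_lit 281) (nat_lit 266) (nat_lit 233)) (XT.nd (nat_lit 78) (nat_lit 684) (nat_lit 0) (XT.lf (nat_lit 0) (nat_lit 7123274163) (nat_lit 532) (nat_lit 1847350274) (nat_lit 608) (nat_lit 142466208) (nat_lit 162) (nat_lit 5) (nat_lit 169) (nat_lit 5) (nat_lit 170) (nat_lit 5) (nat_lit 282) (nat_lit 266) (nat_lit 232)) (XT.lf (nat_lit 0) (nat_lit 2822424480) (nat_lit 684) (nat_lit 3253513181) (nat_lit 76) (nat_lit 3257934860) (nat_lit 153) (nat_lit 5) (nat_lit 162) (nat_lit 5) (nat_lit 154) (nat_lit 5) (nat_lit 283) (nat_lit 266) (nat_lit 231)))) (XT.nd (nat_lit 156) (nat_lit 988) (nat_lit 0) (XT.nd (nat_lit 78) (nat_lit 532) (nat_lit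 0) (XT.lf (nat_lit 0) (nat_lit 5004990355) (nat_lit 532) (nat_lit 912970312) (nat_lit 608) (nat_lit 3648286150) (nat_lit 146) (nat_lit 5) (nat_lit 153) (nat_lit 5) (nat_lit 154) (nat_lit 5) (nat_lit 284) (nat_lit 266) (nat_lit 230)) (XT.lf (nat_lit 0) (nat_lit 3863841142) (nat_lit 532) (nat_lit 5320494774) (nat_lit 608) (nat_lit 625570677) (nat_lit 139) (nat_lit 5) (nat_lit 146) (nat_lit 5) (nat_lit 147) (nat_lit 5) (nat_lit 285) (nat_lit 266) (nat_lit 229))) (XT.nd (nat_lit 78) (nat_lit 456) (nat_lit 0) (XT.lf (nat_lit 0) (nat_lit 2486778091) (nat_lit 532) (nat_lit 7410516136) (nat_lit 76) (nat_lit 168210984) (nat_lit 132) (nat_lit 5) (nat_lit 139) (nat_lit 5) (nat_lit 133) (nat_lit 5) (nat_lit 286) (nat_lit 266) (nat_lit 228)) (XT.lf (nat_lit 0) (nat_lit 1341825247) (nat_lit 456) (nat_lit 4436448619) (nat_lit 532) (nat_lit 4554460949) (nat_lit 126) (nat_lit 5) (nat_lit 132) (nat_lit 5)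 (nat_lit 133) (nat_lit 5) (nat_lit 287) (nat_lit 266) (nat_lit 227)))))) (XT.nd (nat_lit 468) (nat_lit 2052) (nat_lit 0) (XT.nd (nat_lit 234) (nat_lit 1216) (nat_lit 0) (XT.nd (nat_lit 78) (nat_lit 988) (nat_lit 0) (XT.lf (nat_lit 0) (nat_lit 9235118949) (nat_lit 532) (nat_lit 39422364) (nat_lit 76) (nat_lit 1338886004) (nat_lit 126) (nat_lit 5) (nat_lit 133) (nat_lit 5) (nat_lit 127) (nat_lit 5) (nat_lit 288) (nat_lit 266) (nat_lit 226)) (XT.nd (nat_lit 78) (nat_lit 456) (nat_lit 0) (XT.lf (nat_lit 0) (nat_lit 1969493592) (nat_lit 532) (nat_lit 1524699293) (nat_lit 76) (nat_lit 7411981873) (nat_lit 119) (nat_lit 5) (nat_lit 126) (nat_lit 5) (nat_lit 120) (nat_lit 5) (nat_lit 289) (nat_lit 266) (nat_lit 225)) (XT.lf (nat_lit 0) (nat_lit 5478032096) (nat_lit 532) (nat_lit 3129811513) (nat_lit 76) (nat_lit 2604760775) (nat_lit 113) (nat_lit 5) (nat_lit 120) (nat_lit 5) (nat_lit 114) (nat_lit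 5) (nat_lit 290) (nat_lit 266) (nat_lit 224)))) (XT.nd (nat_lit 78) (nat_lit 836) (nat_lit 0) (XT.lf (nat_lit 0) (nat_lit 6667805634) (nat_lit 380) (nat_lit 2529986578) (nat_lit 456) (nat_lit 2335593986) (nat_lit 108) (nat_lit 5) (nat_lit 113) (nat_lit 5) (nat_lit 114) (nat_lit 5) (nat_lit 291) (nat_lit 266) (nat_lit 223)) (XT.nd (nat_lit 78) (nat_lit 380) (nat_lit 0) (XT.lf (nat_lit 0) (nat_lit 1251670347) (nat_lit 456) (nat_lit 6762324998) (nat_lit 76) (nat_lit 3854680640) (nat_lit 102) (nat_lit 5) (nat_lit 108) (nat_lit 5) (nat_lit 103) (nat_lit 5) (nat_lit 292) (nat_lit 266) (nat_lit 222)) (XT.lf (nat_lit 0) (nat_lit 3381836351) (nat_lit 380) (nat_lit 1622488119) (nat_lit 456) (nat_lit 7214774207) (nat_lit 97) (nat_lit 5) (nat_lit 102) (nat_lit 5) (nat_lit 103) (nat_lit 5) (nat_lit 293) (nat_lit 266) (nat_lit 221))))) (XT.nd (nat_lit 234) (nat_lit 1292) (nat_lit 0) (XT.nd (nat_lit 78)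 (nat_lit 380) (nat_lit 0) (XT.lf (nat_lit 0) (nat_lit 1475500151) (nat_lit 380) (nat_lit 7530263980) (nat_lit 456) (nat_lit 3579531469) (nat_lit 92) (nat_lit 5) (nat_lit 97) (nat_lit 5) (nat_lit 98) (nat_lit 5) (nat_lit 294) (nat_lit 266) (nat_lit 220)) (XT.nd (nat_lit 78) (nat_lit 304) (nat_lit 0) (XT.lf (nat_lit 0) (nat_lit 270639343) (nat_lit 456) (nat_lit 590121951) (nat_lit 76) (nat_lit 12107919666) (nat_lit 91) (nat_lit 5) (nat_lit 97) (nat_lit 5) (nat_lit 92) (nat_lit 5) (nat_lit 295) (nat_lit 266) (nat_lit 219)) (XT.lf (nat_lit 0) (nat_lit 4334379490) (nat_lit 380) (nat_lit 2892059430) (nat_lit 76) (nat_lit 6140957923) (nat_lit 87) (nat_lit 5) (nat_lit 92) (nat_lit 5) (nat_lit 88) (nat_lit 5) (nat_lit 296) (nat_lit 266) (nat_lit 218)))) (XT.nd (nat_lit 156) (nat_lit 608) (nat_lit 0) (XT.nd (nat_lit 78) (nat_lit 304) (nat_lit 0) (XT.lf (nat_lit 0) (nat_lit 8388493026) (nat_lit 380)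 (nat_lit 243357396) (nat_lit 456) (nat_lit 5153355320) (nat_lit 82) (nat_lit 5) (nat_lit 87) (nat_lit 5) (nat_lit 88) (nat_lit 5) (nat_lit 297) (nat_lit 266) (nat_lit 217)) (XT.lf (nat_lit 0) (nat_lit 6033566323) (nat_lit 304) (nat_lit 7203990053) (nat_lit 380) (nat_lit 983617899) (nat_lit 78) (nat_lit 5) (nat_lit 82) (nat_lit 5) (nat_lit 83) (nat_lit 5) (nat_lit 298) (nat_lit 266) (nat_lit 216))) (XT.nd (nat_lit 78) (nat_lit 228) (nat_lit 0) (XT.lf (nat_lit 0) (nat_lit 3359008535) (nat_lit 380) (nat_lit 11260831172) (nat_lit 76) (nat_lit 57268058) (nat_lit 73) (nat_lit 5) (nat_lit 78) (nat_lit 5) (nat_lit 74) (nat_lit 5) (nat_lit 299) (nat_lit 266) (nat_lit 215)) (XT.lf (nat_lit 0) (nat_lit 459415833) (nat_lit 228) (nat_lit 7542020546) (nat_lit 304) (nat_lit 7151080675) (nat_lit 70) (nat_lit 5) (nat_lit 73) (nat_lit 5) (nat_lit 74) (nat_lit 5) (nat_lit 300) (nat_lit 266) (nat_lit 214)))))))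 (XT.nd (nat_lit 1014) (nat_lit 1368) (nat_lit 0) (XT.nd (nat_lit 468) (nat_lit 1140) (nat_lit 0) (XT.nd (nat_lit 234) (nat_lit 532) (nat_lit 0) (XT.nd (nat_lit 78) (nat_lit 608) (nat_lit 0) (XT.lf (nat_lit 0) (nat_lit 12919189625) (nat_lit 228) (nat_lit 15336831) (nat_lit 304) (nat_lit 2715472861) (nat_lit 70) (nat_lit 5) (nat_lit 73) (nat_lit 5) (nat_lit 74) (nat_lit 5) (nat_lit 301) (nat_lit 266) (nat_lit 213)) (XT.nd (nat_lit 78) (nat_lit 228) (nat_lit 0) (XT.lf (nat_lit 0) (nat_lit 2020910743) (nat_lit 380) (nat_lit 6321816077) (nat_lit 76) (nat_lit 7825616501) (nat_lit 65) (nat_lit 5) (nat_lit 70) (nat_lit 5) (nat_lit 66) (nat_lit 5) (nat_lit 302) (nat_lit 266) (nat_lit 212)) (XT.lf (nat_lit 0) (nat_lit 6417194537) (nat_lit 228) (nat_lit 557935315) (nat_lit 304) (nat_lit 9735604525) (nat_lit 62) (nat_lit 5) (nat_lit 65) (nat_lit 5) (nat_lit 66) (nat_lit 5) (nat_lit 303) (nat_lit 266)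 (nat_lit 211)))) (XT.nd (nat_lit 78) (nat_lit 304) (nat_lit 0) (XT.lf (nat_lit 0) (nat_lit 2545436587) (nat_lit 228) (nat_lit 9743036054) (nat_lit 304) (nat_lit 4988479224) (nat_lit 59) (nat_lit 5) (nat_lit 62) (nat_lit 5) (nat_lit 63) (nat_lit 5) (nat_lit 304) (nat_lit 266) (nat_lit 210)) (XT.nd (nat_lit 78) (nat_lit 228) (nat_lit 0) (XT.lf (nat_lit 0) (nat_lit 57945812) (nat_lit 304) (nat_lit 1709665328) (nat_lit 76) (nat_lit 16102059824) (nat_lit 58) (nat_lit 5) (nat_lit 62) (nat_lit 5) (nat_lit 59) (nat_lit 5) (nat_lit 305) (nat_lit 266) (nat_lit 209)) (XT.lf (nat_lit 0) (nat_lit 5387125556) (nat_lit 304) (nat_lit 6477435709) (nat_lit 76) (nat_lit 6622018321) (nat_lit 55) (nat_lit 5) (nat_lit 59) (nat_lit 5) (nat_lit 56) (nat_lit 5) (nat_lit 306) (nat_lit 266) (nat_lit 208))))) (XT.nd (nat_lit 234) (nat_lit 684) (nat_lit 0) (XT.nd (nat_lit 78) (nat_lit 228) (nat_lit 0) (XT.lf (nat_lit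 0) (nat_lit 7369917740) (nat_lit 228) (nat_lit 3672342509) (nat_lit 304) (nat_lit 8090329822) (nat_lit 52) (nat_lit 5) (nat_lit 55) (nat_lit 5) (nat_lit 56) (nat_lit 5) (nat_lit 307) (nat_lit 266) (nat_lit 207)) (XT.nd (nat_lit 78) (nat_lit 76) (nat_lit 0) (XT.lf (nat_lit 0) (nat_lit 2159380756) (nat_lit 152) (nat_lit 14910624114) (nat_lit 228) (nat_lit 2738239962) (nat_lit 50) (nat_lit 5) (nat_lit 52) (nat_lit 5) (nat_lit 53) (nat_lit 5) (nat_lit 308) (nat_lit 266) (nat_lit 206)) (XT.lf (nat_lit 0) (nat_lit 2939986983) (nat_lit 228) (nat_lit 3626373738) (nat_lit 76) (nat_lit 13947084237) (nat_lit 49) (nat_lit 5) (nat_lit 52) (nat_lit 5) (nat_lit 50) (nat_lit 5) (nat_lit 309) (nat_lit 266) (nat_lit 205)))) (XT.nd (nat_lit 156) (nat_lit 304) (nat_lit 0) (XT.nd (nat_lit 78) (nat_lit 152) (nat_lit 0) (XT.lf (nat_lit 0) (nat_lit 8933640492) (nat_lit 304) (nat_lit 10051155508) (nat_lit 76) (nat_lit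 2265686014) (nat_lit 46) (nat_lit 5) (nat_lit 50) (nat_lit 5) (nat_lit 47) (nat_lit 5) (nat_lit 310) (nat_lit 266) (nat_lit 204)) (XT.lf (nat_lit 0) (nat_lit 4779949295) (nat_lit 152) (nat_lit 10555660796) (nat_lit 228) (nat_lit 6685534827) (nat_lit 44) (nat_lit 5) (nat_lit 46) (nat_lit 5) (nat_lit 47) (nat_lit 5) (nat_lit 311) (nat_lit 266) (nat_lit 203))) (XT.nd (nat_lit 78) (nat_lit 304) (nat_lit 0) (XT.lf (nat_lit 0) (nat_lit 20499006512) (nat_lit 152) (nat_lit 1622203688) (nat_lit 228) (nat_lit 707256234) (nat_lit 44) (nat_lit 5) (nat_lit 46) (nat_lit 5) (nat_lit 47) (nat_lit 5) (nat_lit 312) (nat_lit 266) (nat_lit 202)) (XT.lf (nat_lit 0) (nat_lit 5628511030) (nat_lit 304) (nat_lit 10272131799) (nat_lit 76) (nat_lit 7768916080) (nat_lit 40) (nat_lit 5) (nat_lit 44) (nat_lit 5) (nat_lit 41) (nat_lit 5) (nat_lit 313) (nat_lit 266) (nat_lit 201)))))) (XT.nd (nat_lit 546) (nat_lit 608)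 (nat_lit 0) (XT.nd (nat_lit 234) (nat_lit 380) (nat_lit 0) (XT.nd (nat_lit 78) (nat_lit 228) (nat_lit 0) (XT.lf (nat_lit 0) (nat_lit 5428967261) (nat_lit 152) (nat_lit 6892986461) (nat_lit 228) (nat_lit 12228904457) (nat_lit 38) (nat_lit 5) (nat_lit 40) (nat_lit 5) (nat_lit 41) (nat_lit 5) (nat_lit 314) (nat_lit 266) (nat_lit 200)) (XT.nd (nat_lit 78) (nat_lit 228) (nat_lit 0) (XT.lf (nat_lit 0) (nat_lit 19445113687) (nat_lit 228) (nat_lit 3428706084) (nat_lit 76) (nat_lit 2599577644) (nat_lit 38) (nat_lit 5) (nat_lit 41) (nat_lit 5) (nat_lit 39) (nat_lit 5) (nat_lit 315) (nat_lit 266) (nat_lit 199)) (XT.lf (nat_lit 0) (nat_lit 636128361) (nat_lit 228) (nat_lit 13263611711) (nat_lit 76) (nat_lit 12537313617) (nat_lit 35) (nat_lit 5) (nat_lit 38) (nat_lit 5) (nat_lit 36) (nat_lit 5) (nat_lit 316) (nat_lit 266) (nat_lit 198)))) (XT.nd (nat_lit 156) (nat_lit 228) (nat_lit 0) (XT.nd (nat_lit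 78) (nat_lit 0) (nat_lit 0) (XT.lf (nat_lit 0) (nat_lit 3174307435) (nat_lit 152) (nat_lit 4368193046) (nat_lit 228) (nat_lit 19903622519) (nat_lit 33) (nat_lit 5) (nat_lit 35) (nat_lit 5) (nat_lit 36) (nat_lit 5) (nat_lit 317) (nat_lit 266) (nat_lit 197)) (XT.lf (nat_lit 0) (nat_lit 14953275971) (nat_lit 228) (nat_lit 7900972240) (nat_lit 76) (nat_lit 5646647127) (nat_lit 33) (nat_lit 5) (nat_lit 36) (nat_lit 5) (nat_lit 34) (nat_lit 5) (nat_lit 318) (nat_lit 266) (nat_lit 196))) (XT.nd (nat_lit 78) (nat_lit 76) (nat_lit 0) (XT.lf (nat_lit 0) (nat_lit 9374735767) (nat_lit 152) (nat_lit 13462612976) (nat_lit 228) (nat_lit 6767995847) (nat_lit 31) (nat_lit 5) (nat_lit 33) (nat_lit 5) (nat_lit 34) (nat_lit 5) (nat_lit 319) (nat_lit 266) (nat_lit 195)) (XT.lf (nat_lit 0) (nat_lit 395145606) (nat_lit 228) (nat_lit 3139064800) (nat_lit 76) (nat_lit 27229182906) (nat_lit 30) (nat_lit 5) (nat_lit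 33) (nat_lit 5) (nat_lit 31) (nat_lit 5) (nat_lit 320) (nat_lit 266) (nat_lit 194))))) (XT.nd (nat_lit 234) (nat_lit 304) (nat_lit 0) (XT.nd (nat_lit 78) (nat_lit 152) (nat_lit 0) (XT.lf (nat_lit 0) (nat_lit 7960640159) (nat_lit 228) (nat_lit 17060113235) (nat_lit 76) (nat_lit 6951074262) (nat_lit 28) (nat_lit 5) (nat_lit 31) (nat_lit 5) (nat_lit 29) (nat_lit 5) (nat_lit 321) (nat_lit 266) (nat_lit 193)) (XT.nd (nat_lit 78) (nat_lit 0) (nat_lit 0) (XT.lf (nat_lit 0) (nat_lit 618532250) (nat_lit 152) (nat_lit 15331581813) (nat_lit 228) (nat_lit 17289216171) (nat_lit 26) (nat_lit 5) (nat_lit 28) (nat_lit 5) (nat_lit 29) (nat_lit 5) (nat_lit 322) (nat_lit 266) (nat_lit 192)) (XT.lf (nat_lit 0) (nat_lit 19490543853) (nat_lit 152) (nat_lit 4996496925) (nat_lit 228) (nat_lit 10078744607) (nat_lit 26) (nat_lit 5) (nat_lit 28) (nat_lit 5) (nat_lit 29) (nat_lit 5) (nat_lit 323) (nat_lit 266) (nat_lit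 191)))) (XT.nd (nat_lit 156) (nat_lit 152) (nat_lit 0) (XT.nd (nat_lit 78) (nat_lit 76) (nat_lit 0) (XT.lf (nat_lit 0) (nat_lit 3310447746) (nat_lit 76) (nat_lit 30201971837) (nat_lit 152) (nat_lit 2444311552) (nat_lit 25) (nat_lit 5) (nat_lit 26) (nat_lit 5) (nat_lit 27) (nat_lit 4) (nat_lit 324) (nat_lit 266) (nat_lit 190)) (XT.lf (nat_lit 0) (nat_lit 5644337132) (nat_lit 152) (nat_lit 14632332689) (nat_lit 76) (nat_lit 17133525739) (nat_lit 24) (nat_lit 5) (nat_lit 26) (nat_lit 5) (nat_lit 25) (nat_lit 5) (nat_lit 325) (nat_lit 266) (nat_lit 189))) (XT.nd (nat_lit 78) (nat_lit 0) (nat_lit 0) (XT.lf (nat_lit 0) (nat_lit 4298974435) (nat_lit 152) (nat_lit 9804987947) (nat_lit 228) (nat_lit 24831146007) (nat_lit 22) (nat_lit 5) (nat_lit 24) (nat_lit 5) (nat_lit 25) (nat_lit 5) (nat_lit 326) (nat_lit 266) (nat_lit 188)) (XT.lf (nat_lit 0) (nat_lit 23126042112) (nat_lit 228) (nat_lit 16103963646)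 (nat_lit 76) (nat_lit 1302090334) (nat_lit 22) (nat_lit 5) (nat_lit 25) (nat_lit 5) (nat_lit 23) (nat_lit 4) (nat_lit 327) (nat_lit 266) (nat_lit 187))))))))
noncomputable def xc62 : XT := (XT.nd (nat_lit 2028) (nat_lit 76) (nat_lit 0) (XT.nd (nat_lit 1014) (nat_lit 456) (nat_lit 0) (XT.nd (nat_lit 468) (nat_lit 304) (nat_lit 0) (XT.nd (nat_lit 234) (nat_lit 228) (nat_lit 0) (XT.nd (nat_lit 78) (nat_lit 76) (nat_lit 0) (XT.lf (nat_lit 0) (nat_lit 3279947802) (nat_lit 76) (nat_lit 29426831228) (nat_lit 152) (nat_lit 9498940348) (nat_lit 21) (nat_lit 5) (nat_lit 22) (nat_lit 5) (nat_lit 23) (nat_lit 4) (nat_lit 328) (nat_lit 266) (nat_lit 186)) (XT.nd (nat_lit 78) (nat_lit 76) (nat_lit 0) (XT.lf (nat_lit 0) (nat_lit 23930817372) (nat_lit 76) (nat_lit 18979291493) (nat_lit 152) (nat_lit 1048620464) (nat_lit 21) (nat_lit 5) (nat_lit 22) (nat_lit 5) (nat_lit 23) (nat_lit 4) (nat_lit 329) (nat_lit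 266) (nat_lit 185)) (XT.lf (nat_lit 0) (nat_lit 7650153960) (nat_lit 152) (nat_lit 297724400) (nat_lit 76) (nat_lit 37849907831) (nat_lit 20) (nat_lit 5) (nat_lit 22) (nat_lit 5) (nat_lit 21) (nat_lit 5) (nat_lit 330) (nat_lit 266) (nat_lit 184)))) (XT.nd (nat_lit 78) (nat_lit 76) (nat_lit 0) (XT.lf (nat_lit 0) (nat_lit 16978629486) (nat_lit 228) (nat_lit 26981714691) (nat_lit 76) (nat_lit 3761657493) (nat_lit 18) (nat_lit 5) (nat_lit 21) (nat_lit 5) (nat_lit 19) (nat_lit 4) (nat_lit 331) (nat_lit 266) (nat_lit 183)) (XT.nd (nat_lit 78) (nat_lit 76) (nat_lit 0) (XT.lf (nat_lit 0) (nat_lit 26836974243) (nat_lit 228) (nat_lit 7021180568) (nat_lit 76) (nat_lit 15882379966) (nat_lit 18) (nat_lit 5) (nat_lit 21) (nat_lit 5) (nat_lit 19) (nat_lit 4) (nat_lit 332) (nat_lit 266) (nat_lit 182)) (XT.lf (nat_lit 0) (nat_lit 14180750275) (nat_lit 76) (nat_lit 23124876615) (nat_lit 152) (nat_lit 14550855660)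 (nat_lit 17) (nat_lit 5) (nat_lit 18) (nat_lit 5) (nat_lit 19) (nat_lit 4) (nat_lit 333) (nat_lit 266) (nat_lit 181))))) (XT.nd (nat_lit 234) (nat_lit 76) (nat_lit 0) (XT.nd (nat_lit 78) (nat_lit 228) (nat_lit 0) (XT.lf (nat_lit 0) (nat_lit 36557108082) (nat_lit 76) (nat_lit 11794547298) (nat_lit 152) (nat_lit 5724963302) (nat_lit 17) (nat_lit 5) (nat_lit 18) (nat_lit 5) (nat_lit 19) (nat_lit 4) (nat_lit 334) (nat_lit 266) (nat_lit 180)) (XT.nd (nat_lit 78) (nat_lit 0) (nat_lit 0) (XT.lf (nat_lit 0) (nat_lit 3492088307) (nat_lit 228) (nat_lit 52757265069) (nat_lit 76) (nat_lit 156825727) (nat_lit 14) (nat_lit 5) (nat_lit 17) (nat_lit 5) (nat_lit 15) (nat_lit 4) (nat_lit 335) (nat_lit 266) (nat_lit 179)) (XT.lf (nat_lit 0) (nat_lit 13336650330) (nat_lit 228) (nat_lit 32814263362) (nat_lit 76) (nat_lit 12691059766) (nat_lit 14) (nat_lit 5) (nat_lit 17) (nat_lit 5) (nat_lit 15) (nat_lit 4)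 (nat_lit 336) (nat_lit 266) (nat_lit 178)))) (XT.nd (nat_lit 156) (nat_lit 0) (nat_lit 0) (XT.nd (nat_lit 78) (nat_lit 76) (nat_lit 0) (XT.lf (nat_lit 0) (nat_lit 23657039948) (nat_lit 228) (nat_lit 11903357388) (nat_lit 76) (nat_lit 25839659982) (nat_lit 14) (nat_lit 5) (nat_lit 17) (nat_lit 5) (nat_lit 15) (nat_lit 4) (nat_lit 337) (nat_lit 266) (nat_lit 177)) (XT.lf (nat_lit 0) (nat_lit 10224762670) (nat_lit 76) (nat_lit 24351353521) (nat_lit 152) (nat_lit 29507456567) (nat_lit 13) (nat_lit 5) (nat_lit 14) (nat_lit 5) (nat_lit 15) (nat_lit 4) (nat_lit 338) (nat_lit 266) (nat_lit 176))) (XT.nd (nat_lit 78) (nat_lit 0) (nat_lit 0) (XT.lf (nat_lit 0) (nat_lit 33680979137) (nat_lit 76) (nat_lit 12467565862) (nat_lit 152) (nat_lit 20749504058) (nat_lit 13) (nat_lit 5) (nat_lit 14) (nat_lit 5) (nat_lit 15) (nat_lit 4) (nat_lit 339) (nat_lit 266) (nat_lit 175)) (XT.lf (nat_lit 0) (nat_lit 58284239992)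 (nat_lit 76) (nat_lit 940199) (nat_lit 152) (nat_lit 11568508146) (nat_lit 13) (nat_lit 5) (nat_lit 14) (nat_lit 5) (nat_lit 15) (nat_lit 4) (nat_lit 340) (nat_lit 266) (nat_lit 174)))))) (XT.nd (nat_lit 468) (nat_lit 228) (nat_lit 0) (XT.nd (nat_lit 234) (nat_lit 76) (nat_lit 0) (XT.nd (nat_lit 78) (nat_lit 76) (nat_lit 0) (XT.lf (nat_lit 0) (nat_lit 11228999096) (nat_lit 76) (nat_lit 60019575147) (nat_lit 76) (nat_lit 1701943919) (nat_lit 12) (nat_lit 4) (nat_lit 13) (nat_lit 5) (nat_lit 13) (nat_lit 4) (nat_lit 341) (nat_lit 266) (nat_lit 173)) (XT.nd (nat_lit 78) (nat_lit 0) (nat_lit 0) (XT.lf (nat_lit 0) (nat_lit 8595742073) (nat_lit 152) (nat_lit 40898311218) (nat_lit 76) (nat_lit 26702443096) (nat_lit 11) (nat_lit 5) (nat_lit 13) (nat_lit 5) (nat_lit 12) (nat_lit 4) (nat_lit 342) (nat_lit 266) (nat_lit 172)) (XT.lf (nat_lit 0) (nat_lit 19360541122) (nat_lit 152) (nat_lit 19074375244)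 (nat_lit 76) (nat_lit 41169734433) (nat_lit 11) (nat_lit 5) (nat_lit 13) (nat_lit 5) (nat_lit 12) (nat_lit 4) (nat_lit 343) (nat_lit 266) (nat_lit 171)))) (XT.nd (nat_lit 78) (nat_lit 0) (nat_lit 0) (XT.lf (nat_lit 0) (nat_lit 3894608575) (nat_lit 76) (nat_lit 26794123542) (nat_lit 152) (nat_lit 52493731618) (nat_lit 10) (nat_lit 5) (nat_lit 11) (nat_lit 5) (nat_lit 12) (nat_lit 4) (nat_lit 344) (nat_lit 266) (nat_lit 170)) (XT.nd (nat_lit 78) (nat_lit 0) (nat_lit 0) (XT.lf (nat_lit 0) (nat_lit 28389127965) (nat_lit 76) (nat_lit 14378651424) (nat_lit 152) (nat_lit 44165859634) (nat_lit 10) (nat_lit 5) (nat_lit 11) (nat_lit 5) (nat_lit 12) (nat_lit 4) (nat_lit 345) (nat_lit 266) (nat_lit 169)) (XT.lf (nat_lit 0) (nat_lit 54087885743) (nat_lit 76) (nat_lit 1351553153) (nat_lit 152) (nat_lit 35433279247) (nat_lit 10) (nat_lit 5) (nat_lit 11) (nat_lit 5) (nat_lit 12) (nat_lit 4) (nat_lit 346)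 (nat_lit 266) (nat_lit 168))))) (XT.nd (nat_lit 234) (nat_lit 152) (nat_lit 0) (XT.nd (nat_lit 78) (nat_lit 76) (nat_lit 0) (XT.lf (nat_lit 0) (nat_lit 68852291215) (nat_lit 152) (nat_lit 14075420390) (nat_lit 0) (nat_lit 12077815951) (nat_lit 10) (nat_lit 5) (nat_lit 12) (nat_lit 4) (nat_lit 10) (nat_lit 4) (nat_lit 347) (nat_lit 266) (nat_lit 167)) (XT.nd (nat_lit 78) (nat_lit 0) (nat_lit 0) (XT.lf (nat_lit 0) (nat_lit 9930790078) (nat_lit 76) (nat_lit 73103732867) (nat_lit 76) (nat_lit 16307496803) (nat_lit 9) (nat_lit 4) (nat_lit 10) (nat_lit 5) (nat_lit 10) (nat_lit 4) (nat_lit 348) (nat_lit 266) (nat_lit 166)) (XT.lf (nat_lit 0) (nat_lit 35413169246) (nat_lit 76) (nat_lit 62647543376) (nat_lit 76) (nat_lit 5830582740) (nat_lit 9) (nat_lit 4) (nat_lit 10) (nat_lit 5) (nat_lit 10) (nat_lit 4) (nat_lit 349) (nat_lit 266) (nat_lit 165)))) (XT.nd (nat_lit 156) (nat_lit 76) (nat_lit 0) (XT.nd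 (nat_lit 78) (nat_lit 0) (nat_lit 0) (XT.lf (nat_lit 0) (nat_lit 5059620367) (nat_lit 152) (nat_lit 46565668977) (nat_lit 76) (nat_lit 57041548366) (nat_lit 8) (nat_lit 5) (nat_lit 10) (nat_lit 5) (nat_lit 9) (nat_lit 4) (nat_lit 350) (nat_lit 266) (nat_lit 164)) (XT.lf (nat_lit 0) (nat_lit 16365661669) (nat_lit 152) (nat_lit 23633202931) (nat_lit 76) (nat_lit 73680807016) (nat_lit 8) (nat_lit 5) (nat_lit 10) (nat_lit 5) (nat_lit 9) (nat_lit 4) (nat_lit 351) (nat_lit 266) (nat_lit 163))) (XT.nd (nat_lit 78) (nat_lit 0) (nat_lit 0) (XT.lf (nat_lit 0) (nat_lit 438476516) (nat_lit 76) (nat_lit 27793974370) (nat_lit 152) (nat_lit 90710836480) (nat_lit 7) (nat_lit 5) (nat_lit 8) (nat_lit 5) (nat_lit 9) (nat_lit 4) (nat_lit 352) (nat_lit 266) (nat_lit 162)) (XT.lf (nat_lit 0) (nat_lit 26192095877) (nat_lit 76) (nat_lit 14735266102) (nat_lit 152) (nat_lit 83535681809) (nat_lit 7) (nat_lit 5) (nat_lit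 8) (nat_lit 5) (nat_lit 9) (nat_lit 4) (nat_lit 353) (nat_lit 266) (nat_lit 161))))))) (XT.nd (nat_lit 34320) (nat_lit 0) (nat_lit 10032) (XT.nd (nat_lit 468) (nat_lit 0) (nat_lit 0) (XT.nd (nat_lit 234) (nat_lit 76) (nat_lit 0) (XT.nd (nat_lit 78) (nat_lit 0) (nat_lit 0) (XT.lf (nat_lit 0) (nat_lit 53218626215) (nat_lit 76) (nat_lit 1030296641) (nat_lit 152) (nat_lit 76010111244) (nat_lit 7) (nat_lit 5) (nat_lit 8) (nat_lit 5) (nat_lit 9) (nat_lit 4) (nat_lit 354) (nat_lit 266) (nat_lit 160)) (XT.nd (nat_lit 78) (nat_lit 0) (nat_lit 0) (XT.lf (nat_lit 0) (nat_lit 68357214157) (nat_lit 152) (nat_lit 54891004503) (nat_lit 0) (nat_lit 13092988740) (nat_lit 7) (nat_lit 5) (nat_lit 9) (nat_lit 4) (nat_lit 7) (nat_lit 4) (nat_lit 355) (nat_lit 266) (nat_lit 159)) (XT.lf (nat_lit 0) (nat_lit 83173917763) (nat_lit 152) (nat_lit 31658091803) (nat_lit 0) (nat_lit 27895392767) (nat_lit 7) (nat_lit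 5) (nat_lit 9) (nat_lit 4) (nat_lit 7) (nat_lit 4) (nat_lit 356) (nat_lit 266) (nat_lit 158)))) (XT.nd (nat_lit 78) (nat_lit 76) (nat_lit 0) (XT.lf (nat_lit 0) (nat_lit 98724407699) (nat_lit 152) (nat_lit 7276449484) (nat_lit 0) (nat_lit 43432264056) (nat_lit 7) (nat_lit 5) (nat_lit 9) (nat_lit 4) (nat_lit 7) (nat_lit 4) (nat_lit 357) (nat_lit 266) (nat_lit 157)) (XT.nd (nat_lit 78) (nat_lit 0) (nat_lit 0) (XT.lf (nat_lit 0) (nat_lit 18676418169) (nat_lit 76) (nat_lit 96548819927) (nat_lit 76) (nat_lit 41243706145) (nat_lit 6) (nat_lit 4) (nat_lit 7) (nat_lit 5) (nat_lit 7) (nat_lit 4) (nat_lit 358) (nat_lit 266) (nat_lit 156)) (XT.lf (nat_lit 0) (nat_lit 46067037236) (nat_lit 76) (nat_lit 86552469035) (nat_lit 76) (nat_lit 31235002739) (nat_lit 6) (nat_lit 4) (nat_lit 7) (nat_lit 5) (nat_lit 7) (nat_lit 4) (nat_lit 359) (nat_lit 266) (nat_lit 155))))) (XT.nd (nat_lit 33540) (nat_lit 0)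 (nat_lit 18088) (XT.nd (nat_lit 33384) (nat_lit 0) (nat_lit 18772) (XT.lf (nat_lit 0) (nat_lit 74815807862) (nat_lit 76) (nat_lit 76061481544) (nat_lit 76) (nat_lit 20732250949) (nat_lit 6) (nat_lit 4) (nat_lit 7) (nat_lit 5) (nat_lit 7) (nat_lit 4) (nat_lit 360) (nat_lit 266) (nat_lit 154)) (XT.nd (nat_lit 78) (nat_lit 684) (nat_lit 0) (XT.lf (nat_lit 0) (nat_lit 3375020560) (nat_lit 684) (nat_lit 69130322) (nat_lit 684) (nat_lit 69130322) (nat_lit 262) (nat_lit 3) (nat_lit 271) (nat_lit 3) (nat_lit 271) (nat_lit 5) (nat_lit 267) (nat_lit 267) (nat_lit 246)) (XT.lf (nat_lit 0) (nat_lit 2514568492) (nat_lit 684) (nat_lit 1911288875) (nat_lit 760) (nat_lit 2687080716) (nat_lit 253) (nat_lit 5) (nat_lit 262) (nat_lit 3) (nat_lit 263) (nat_lit 5) (nat_lit 268) (nat_lit 267) (nat_lit 245)))) (XT.nd (nat_lit 156) (nat_lit 0) (nat_lit 0) (XT.nd (nat_lit 78) (nat_lit 684) (nat_lit 0) (XT.lf (nat_lit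 76) (nat_lit 3579753919) (nat_lit 0) (nat_lit 1719250241) (nat_lit 760) (nat_lit 1909119147) (nat_lit 254) (nat_lit 5) (nat_lit 253) (nat_lit 5) (nat_lit 263) (nat_lit 5) (nat_lit 269) (nat_lit 267) (nat_lit 244)) (XT.lf (nat_lit 0) (nat_lit 777055706) (nat_lit 760) (nat_lit 5312139543) (nat_lit 836) (nat_lit 1222530744) (nat_lit 244) (nat_lit 5) (nat_lit 254) (nat_lit 5) (nat_lit 255) (nat_lit 5) (nat_lit 270) (nat_lit 267) (nat_lit 243))) (XT.nd (nat_lit 78) (nat_lit 0) (nat_lit 76) (XT.lf (nat_lit 76) (nat_lit 437624332) (nat_lit 0) (nat_lit 3017107180) (nat_lit 836) (nat_lit 3968625411) (nat_lit 245) (nat_lit 5) (nat_lit 244) (nat_lit 5) (nat_lit 255) (nat_lit 5) (nat_lit 271) (nat_lit 267) (nat_lit 242)) (XT.lf (nat_lit 0) (nat_lit 6167957015) (nat_lit 760) (nat_lit 1057600349) (nat_lit 836) (nat_lit 318262481) (nat_lit 245) (nat_lit 5) (nat_lit 255) (nat_lit 5) (nat_lit 256) (nat_lit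 5) (nat_lit 272) (nat_lit 267) (nat_lit 241)))))) (XT.nd (nat_lit 546) (nat_lit 4560) (nat_lit 0) (XT.nd (nat_lit 234) (nat_lit 2736) (nat_lit 0) (XT.nd (nat_lit 78) (nat_lit 0) (nat_lit 0) (XT.lf (nat_lit 0) (nat_lit 1251006413) (nat_lit 836) (nat_lit 2545278916) (nat_lit 912) (nat_lit 3875987727) (nat_lit 234) (nat_lit 5) (nat_lit 245) (nat_lit 5) (nat_lit 246) (nat_lit 5) (nat_lit 273) (nat_lit 267) (nat_lit 240)) (XT.nd (nat_lit 78) (nat_lit 0) (nat_lit 76) (XT.lf (nat_lit 76) (nat_lit 3798737970) (nat_lit 0) (nat_lit 86119584) (nat_lit 912) (nat_lit 3925024456) (nat_lit 235) (nat_lit 5) (nat_lit 234) (nat_lit 5) (nat_lit 246) (nat_lit 5) (nat_lit 274) (nat_lit 267) (nat_lit 239)) (XT.lf (nat_lit 76) (nat_lit 2471411210) (nat_lit 0) (nat_lit 4128491137) (nat_lit 912) (nat_lit 1356235990) (nat_lit 236) (nat_lit 5) (nat_lit 235) (nat_lit 5) (nat_lit 247) (nat_lit 5) (nat_lit 275) (nat_lit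 267) (nat_lit 238)))) (XT.nd (nat_lit 156) (nat_lit 1900) (nat_lit 0) (XT.nd (nat_lit 78) (nat_lit 0) (nat_lit 76) (XT.lf (nat_lit 76) (nat_lit 1162433255) (nat_lit 0) (nat_lit 72869450) (nat_lit 988) (nat_lit 6876636683) (nat_lit 224) (nat_lit 5) (nat_lit 223) (nat_lit 5) (nat_lit 236) (nat_lit 5) (nat_lit 276) (nat_lit 267) (nat_lit 237)) (XT.lf (nat_lit 0) (nat_lit 3898334812) (nat_lit 912) (nat_lit 172784232) (nat_lit 76) (nat_lit 4205131517) (nat_lit 224) (nat_lit 5) (nat_lit 236) (nat_lit 5) (nat_lit 225) (nat_lit 5) (nat_lit 277) (nat_lit 267) (nat_lit 236))) (XT.nd (nat_lit 78) (nat_lit 1064) (nat_lit 0) (XT.lf (nat_lit 0) (nat_lit 6644174548) (nat_lit 988) (nat_lit 1471814443) (nat_lit 76) (nat_lit 334509934) (nat_lit 212) (nat_lit 5) (nat_lit 225) (nat_lit 5) (nat_lit 213) (nat_lit 5) (nat_lit 278) (nat_lit 267) (nat_lit 235)) (XT.lf (nat_lit 0) (nat_lit 858628287) (nat_lit 1064)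 (nat_lit 2809334603) (nat_lit 76) (nat_lit 4965967720) (nat_lit 198) (nat_lit 5) (nat_lit 212) (nat_lit 5) (nat_lit 199) (nat_lit 5) (nat_lit 279) (nat_lit 267) (nat_lit 234))))) (XT.nd (nat_lit 234) (nat_lit 1748) (nat_lit 0) (XT.nd (nat_lit 78) (nat_lit 1748) (nat_lit 0) (XT.lf (nat_lit 0) (nat_lit 3577510749) (nat_lit 1140) (nat_lit 4172177766) (nat_lit 76) (nat_lit 1077753727) (nat_lit 184) (nat_lit 5) (nat_lit 199) (nat_lit 5) (nat_lit 185) (nat_lit 5) (nat_lit 280) (nat_lit 267) (nat_lit 233)) (XT.nd (nat_lit 78) (nat_lit 608) (nat_lit 0) (XT.lf (nat_lit 0) (nat_lit 3454318474) (nat_lit 1140) (nat_lit 2969036677) (nat_lit 1216) (nat_lit 2607720992) (nat_lit 169) (nat_lit 5) (nat_lit 184) (nat_lit 5) (nat_lit 185) (nat_lit 5) (nat_lit 281) (nat_lit 267) (nat_lit 232)) (XT.lf (nat_lit 0) (nat_lit 143441711) (nat_lit 608) (nat_lit 7016334731) (nat_lit 76) (nat_lit 2085828341) (nat_lit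 161) (nat_lit 5) (nat_lit 169) (nat_lit 5) (nat_lit 162) (nat_lit 5) (nat_lit 282) (nat_lit 267) (nat_lit 231)))) (XT.nd (nat_lit 156) (nat_lit 1140) (nat_lit 0) (XT.nd (nat_lit 78) (nat_lit 0) (nat_lit 0) (XT.lf (nat_lit 0) (nat_lit 936675923) (nat_lit 608) (nat_lit 2037815280) (nat_lit 684) (nat_lit 6495862336) (nat_lit 153) (nat_lit 5) (nat_lit 161) (nat_lit 5) (nat_lit 162) (nat_lit 5) (nat_lit 283) (nat_lit 267) (nat_lit 230)) (XT.lf (nat_lit 0) (nat_lit 5954883733) (nat_lit 684) (nat_lit 401071788) (nat_lit 76) (nat_lit 3350299127) (nat_lit 153) (nat_lit 5) (nat_lit 162) (nat_lit 5) (nat_lit 154) (nat_lit 5) (nat_lit 284) (nat_lit 267) (nat_lit 229))) (XT.nd (nat_lit 78) (nat_lit 608) (nat_lit 0) (XT.lf (nat_lit 0) (nat_lit 8183929200) (nat_lit 532) (nat_lit 906975215) (nat_lit 608) (nat_lit 862989698) (nat_lit 146) (nat_lit 5) (nat_lit 153) (nat_lit 5) (nat_lit 154) (nat_lit 5) (nat_lit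 285) (nat_lit 267) (nat_lit 228)) (XT.lf (nat_lit 0) (nat_lit 2156150245) (nat_lit 608) (nat_lit 3244977001) (nat_lit 76) (nat_lit 4811433050) (nat_lit 138) (nat_lit 5) (nat_lit 146) (nat_lit 5) (nat_lit 139) (nat_lit 5) (nat_lit 286) (nat_lit 267) (nat_lit 227))))))))
noncomputable def xc63 : XT := (XT.nd (nat_lit 2028) (nat_lit 2356) (nat_lit 0) (XT.nd (nat_lit 1014) (nat_lit 2508) (nat_lit 0) (XT.nd (nat_lit 468) (nat_lit 2356) (nat_lit 0) (XT.nd (nat_lit 234) (nat_lit 836) (nat_lit 0) (XT.nd (nat_lit 78) (nat_lit 988) (nat_lit 0) (XT.lf (nat_lit 0) (nat_lit 5307927580) (nat_lit 532) (nat_lit 4792087738) (nat_lit 76) (nat_lit 384026942) (nat_lit 132) (nat_lit 5) (nat_lit 139) (nat_lit 5) (nat_lit 133) (nat_lit 5) (nat_lit 287) (nat_lit 267) (nat_lit 226)) (XT.nd (nat_lit 78) (nat_lit 532) (nat_lit 0) (XT.lf (nat_lit 0) (nat_lit 4312192942) (nat_lit 456) (nat_lit 4351293719) (nat_lit 532)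 (nat_lit 2104344593) (nat_lit 126) (nat_lit 5) (nat_lit 132) (nat_lit 5) (nat_lit 133) (nat_lit 5) (nat_lit 288) (nat_lit 267) (nat_lit 225)) (XT.lf (nat_lit 0) (nat_lit 1112119882) (nat_lit 532) (nat_lit 8222263000) (nat_lit 76) (nat_lit 1730823885) (nat_lit 119) (nat_lit 5) (nat_lit 126) (nat_lit 5) (nat_lit 120) (nat_lit 5) (nat_lit 289) (nat_lit 267) (nat_lit 224)))) (XT.nd (nat_lit 78) (nat_lit 380) (nat_lit 0) (XT.lf (nat_lit 0) (nat_lit 1232788101) (nat_lit 456) (nat_lit 3257995205) (nat_lit 532) (nat_lit 6884800338) (nat_lit 113) (nat_lit 5) (nat_lit 119) (nat_lit 5) (nat_lit 120) (nat_lit 5) (nat_lit 290) (nat_lit 267) (nat_lit 223)) (XT.nd (nat_lit 78) (nat_lit 380) (nat_lit 0) (XT.lf (nat_lit 0) (nat_lit 8078234427) (nat_lit 532) (nat_lit 488350173) (nat_lit 76) (nat_lit 3133798697) (nat_lit 113) (nat_lit 5) (nat_lit 120) (nat_lit 5) (nat_lit 114) (nat_lit 5) (nat_lit 291) (nat_lit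 267) (nat_lit 222)) (XT.lf (nat_lit 0) (nat_lit 9718945102) (nat_lit 380) (nat_lit 2180385889) (nat_lit 456) (nat_lit 140558579) (nat_lit 108) (nat_lit 5) (nat_lit 113) (nat_lit 5) (nat_lit 114) (nat_lit 5) (nat_lit 292) (nat_lit 267) (nat_lit 221))))) (XT.nd (nat_lit 234) (nat_lit 1140) (nat_lit 0) (XT.nd (nat_lit 78) (nat_lit 760) (nat_lit 0) (XT.lf (nat_lit 0) (nat_lit 3503666199) (nat_lit 456) (nat_lit 4350616248) (nat_lit 76) (nat_lit 4539448284) (nat_lit 102) (nat_lit 5) (nat_lit 108) (nat_lit 5) (nat_lit 103) (nat_lit 5) (nat_lit 293) (nat_lit 267) (nat_lit 220)) (XT.nd (nat_lit 78) (nat_lit 380) (nat_lit 0) (XT.lf (nat_lit 0) (nat_lit 6221929987) (nat_lit 380) (nat_lit 1143440615) (nat_lit 456) (nat_lit 5398789843) (nat_lit 97) (nat_lit 5) (nat_lit 102) (nat_lit 5) (nat_lit 103) (nat_lit 5) (nat_lit 294) (nat_lit 267) (nat_lit 219)) (XT.lf (nat_lit 0) (nat_lit 4202487235) (nat_lit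 380) (nat_lit 7294511898) (nat_lit 456) (nat_lit 1653886871) (nat_lit 92) (nat_lit 5) (nat_lit 97) (nat_lit 5) (nat_lit 98) (nat_lit 5) (nat_lit 295) (nat_lit 267) (nat_lit 218)))) (XT.nd (nat_lit 156) (nat_lit 760) (nat_lit 0) (XT.nd (nat_lit 78) (nat_lit 0) (nat_lit 0) (XT.lf (nat_lit 0) (nat_lit 1987396593) (nat_lit 304) (nat_lit 281166818) (nat_lit 380) (nat_lit 11286758186) (nat_lit 87) (nat_lit 5) (nat_lit 91) (nat_lit 5) (nat_lit 92) (nat_lit 5) (nat_lit 296) (nat_lit 267) (nat_lit 217)) (XT.lf (nat_lit 0) (nat_lit 6452538615) (nat_lit 380) (nat_lit 488770175) (nat_lit 76) (nat_lit 7035260741) (nat_lit 87) (nat_lit 5) (nat_lit 92) (nat_lit 5) (nat_lit 88) (nat_lit 5) (nat_lit 297) (nat_lit 267) (nat_lit 216))) (XT.nd (nat_lit 78) (nat_lit 380) (nat_lit 0) (XT.lf (nat_lit 0) (nat_lit 10901825630) (nat_lit 456) (nat_lit 3138296469) (nat_lit 76) (nat_lit 377141069) (nat_lit 82) (nat_lit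 5) (nat_lit 88) (nat_lit 5) (nat_lit 83) (nat_lit 5) (nat_lit 298) (nat_lit 267) (nat_lit 215)) (XT.lf (nat_lit 0) (nat_lit 783625599) (nat_lit 380) (nat_lit 6096020161) (nat_lit 76) (nat_lit 7997100151) (nat_lit 77) (nat_lit 5) (nat_lit 82) (nat_lit 5) (nat_lit 78) (nat_lit 5) (nat_lit 299) (nat_lit 267) (nat_lit 214)))))) (XT.nd (nat_lit 468) (nat_lit 1140) (nat_lit 0) (XT.nd (nat_lit 234) (nat_lit 836) (nat_lit 0) (XT.nd (nat_lit 78) (nat_lit 228) (nat_lit 0) (XT.lf (nat_lit 0) (nat_lit 5267542852) (nat_lit 380) (nat_lit 9357002154) (nat_lit 76) (nat_lit 732394162) (nat_lit 73) (nat_lit 5) (nat_lit 78) (nat_lit 5) (nat_lit 74) (nat_lit 5) (nat_lit 300) (nat_lit 267) (nat_lit 213)) (XT.nd (nat_lit 78) (nat_lit 0) (nat_lit 0) (XT.lf (nat_lit 0) (nat_lit 2878544851) (nat_lit 228) (nat_lit 7203695628) (nat_lit 304) (nat_lit 5775760013) (nat_lit 70) (nat_lit 5) (nat_lit 73) (nat_lit 5) (nat_lit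 74) (nat_lit 5) (nat_lit 301) (nat_lit 267) (nat_lit 212)) (XT.lf (nat_lit 0) (nat_lit 15188345021) (nat_lit 304) (nat_lit 542030113) (nat_lit 76) (nat_lit 652272860) (nat_lit 70) (nat_lit 5) (nat_lit 74) (nat_lit 5) (nat_lit 71) (nat_lit 5) (nat_lit 302) (nat_lit 267) (nat_lit 211)))) (XT.nd (nat_lit 78) (nat_lit 456) (nat_lit 0) (XT.lf (nat_lit 0) (nat_lit 3691278530) (nat_lit 380) (nat_lit 4346644377) (nat_lit 76) (nat_lit 8890242868) (nat_lit 65) (nat_lit 5) (nat_lit 70) (nat_lit 5) (nat_lit 66) (nat_lit 5) (nat_lit 303) (nat_lit 267) (nat_lit 210)) (XT.nd (nat_lit 78) (nat_lit 228) (nat_lit 0) (XT.lf (nat_lit 0) (nat_lit 8841062349) (nat_lit 304) (nat_lit 8536900131) (nat_lit 76) (nat_lit 121350437) (nat_lit 62) (nat_lit 5) (nat_lit 66) (nat_lit 5) (nat_lit 63) (nat_lit 5) (nat_lit 304) (nat_lit 267) (nat_lit 209)) (XT.lf (nat_lit 0) (nat_lit 4873448327) (nat_lit 228) (nat_lit 9500895548)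 (nat_lit 304) (nat_lit 3720937966) (nat_lit 59) (nat_lit 5) (nat_lit 62) (nat_lit 5) (nat_lit 63) (nat_lit 5) (nat_lit 305) (nat_lit 267) (nat_lit 208))))) (XT.nd (nat_lit 234) (nat_lit 608) (nat_lit 0) (XT.nd (nat_lit 78) (nat_lit 228) (nat_lit 0) (XT.lf (nat_lit 0) (nat_lit 336829426) (nat_lit 228) (nat_lit 1143788404) (nat_lit 304) (nat_lit 17238672808) (nat_lit 55) (nat_lit 5) (nat_lit 58) (nat_lit 5) (nat_lit 59) (nat_lit 5) (nat_lit 306) (nat_lit 267) (nat_lit 207)) (XT.nd (nat_lit 78) (nat_lit 228) (nat_lit 0) (XT.lf (nat_lit 0) (nat_lit 7032095748) (nat_lit 304) (nat_lit 4701234663) (nat_lit 76) (nat_lit 7635099610) (nat_lit 55) (nat_lit 5) (nat_lit 59) (nat_lit 5) (nat_lit 56) (nat_lit 5) (nat_lit 307) (nat_lit 267) (nat_lit 206)) (XT.lf (nat_lit 0) (nat_lit 9778288293) (nat_lit 228) (nat_lit 3145801983) (nat_lit 304) (nat_lit 7124085288) (nat_lit 52) (nat_lit 5) (nat_lit 55) (nat_lit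 5) (nat_lit 56) (nat_lit 5) (nat_lit 308) (nat_lit 267) (nat_lit 205)))) (XT.nd (nat_lit 156) (nat_lit 380) (nat_lit 0) (XT.nd (nat_lit 78) (nat_lit 76) (nat_lit 0) (XT.lf (nat_lit 0) (nat_lit 4281988565) (nat_lit 152) (nat_lit 14933781045) (nat_lit 228) (nat_lit 1543021909) (nat_lit 50) (nat_lit 5) (nat_lit 52) (nat_lit 5) (nat_lit 53) (nat_lit 5) (nat_lit 309) (nat_lit 267) (nat_lit 204)) (XT.lf (nat_lit 0) (nat_lit 4330924805) (nat_lit 228) (nat_lit 1863217113) (nat_lit 76) (nat_lit 15306642228) (nat_lit 49) (nat_lit 5) (nat_lit 52) (nat_lit 5) (nat_lit 50) (nat_lit 5) (nat_lit 310) (nat_lit 267) (nat_lit 203))) (XT.nd (nat_lit 78) (nat_lit 152) (nat_lit 0) (XT.lf (nat_lit 0) (nat_lit 10589774604) (nat_lit 304) (nat_lit 8634516702) (nat_lit 76) (nat_lit 3051464670) (nat_lit 46) (nat_lit 5) (nat_lit 50) (nat_lit 5) (nat_lit 47) (nat_lit 5) (nat_lit 311) (nat_lit 267) (nat_lit 202)) (XT.lf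 (nat_lit 0) (nat_lit 6883129958) (nat_lit 152) (nat_lit 10389039438) (nat_lit 228) (nat_lit 5814018855) (nat_lit 44) (nat_lit 5) (nat_lit 46) (nat_lit 5) (nat_lit 47) (nat_lit 5) (nat_lit 312) (nat_lit 267) (nat_lit 201))))))) (XT.nd (nat_lit 1014) (nat_lit 912) (nat_lit 0) (XT.nd (nat_lit 468) (nat_lit 608) (nat_lit 0) (XT.nd (nat_lit 234) (nat_lit 380) (nat_lit 0) (XT.nd (nat_lit 78) (nat_lit 380) (nat_lit 0) (XT.lf (nat_lit 0) (nat_lit 397837225) (nat_lit 228) (nat_lit 640121750) (nat_lit 76) (nat_lit 22897514805) (nat_lit 43) (nat_lit 5) (nat_lit 46) (nat_lit 5) (nat_lit 44) (nat_lit 5) (nat_lit 313) (nat_lit 267) (nat_lit 200)) (XT.nd (nat_lit 78) (nat_lit 152) (nat_lit 0) (XT.lf (nat_lit 0) (nat_lit 7005403454) (nat_lit 304) (nat_lit 9011464241) (nat_lit 76) (nat_lit 8802494507) (nat_lit 40) (nat_lit 5) (nat_lit 44) (nat_lit 5) (nat_lit 41) (nat_lit 5) (nat_lit 314) (nat_lit 267) (nat_lit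 199)) (XT.lf (nat_lit 0) (nat_lit 7423830559) (nat_lit 152) (nat_lit 6574089151) (nat_lit 228) (nat_lit 11747913285) (nat_lit 38) (nat_lit 5) (nat_lit 40) (nat_lit 5) (nat_lit 41) (nat_lit 5) (nat_lit 315) (nat_lit 267) (nat_lit 198)))) (XT.nd (nat_lit 78) (nat_lit 380) (nat_lit 0) (XT.lf (nat_lit 0) (nat_lit 21432842437) (nat_lit 228) (nat_lit 1933851282) (nat_lit 76) (nat_lit 3349174096) (nat_lit 38) (nat_lit 5) (nat_lit 41) (nat_lit 5) (nat_lit 39) (nat_lit 5) (nat_lit 316) (nat_lit 267) (nat_lit 197)) (XT.nd (nat_lit 78) (nat_lit 152) (nat_lit 0) (XT.lf (nat_lit 0) (nat_lit 1661026310) (nat_lit 228) (nat_lit 12287821722) (nat_lit 76) (nat_lit 13779585725) (nat_lit 35) (nat_lit 5) (nat_lit 38) (nat_lit 5) (nat_lit 36) (nat_lit 5) (nat_lit 317) (nat_lit 267) (nat_lit 196)) (XT.lf (nat_lit 0) (nat_lit 4925012618) (nat_lit 152) (nat_lit 3955717524) (nat_lit 228) (nat_lit 19908218372) (nat_lit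 33) (nat_lit 5) (nat_lit 35) (nat_lit 5) (nat_lit 36) (nat_lit 5) (nat_lit 318) (nat_lit 267) (nat_lit 195))))) (XT.nd (nat_lit 234) (nat_lit 380) (nat_lit 0) (XT.nd (nat_lit 78) (nat_lit 228) (nat_lit 0) (XT.lf (nat_lit 0) (nat_lit 16622053191) (nat_lit 228) (nat_lit 6757538954) (nat_lit 76) (nat_lit 6518097894) (nat_lit 33) (nat_lit 5) (nat_lit 36) (nat_lit 5) (nat_lit 34) (nat_lit 5) (nat_lit 319) (nat_lit 267) (nat_lit 194)) (XT.nd (nat_lit 78) (nat_lit 76) (nat_lit 0) (XT.lf (nat_lit 0) (nat_lit 11337854178) (nat_lit 152) (nat_lit 13532977790) (nat_lit 228) (nat_lit 6187444081) (nat_lit 31) (nat_lit 5) (nat_lit 33) (nat_lit 5) (nat_lit 34) (nat_lit 5) (nat_lit 320) (nat_lit 267) (nat_lit 193)) (XT.lf (nat_lit 0) (nat_lit 1273016700) (nat_lit 228) (nat_lit 1855176259) (nat_lit 76) (nat_lit 29147083564) (nat_lit 30) (nat_lit 5) (nat_lit 33) (nat_lit 5) (nat_lit 31) (nat_lit 5) (nat_lit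 321) (nat_lit 267) (nat_lit 192)))) (XT.nd (nat_lit 156) (nat_lit 76) (nat_lit 0) (XT.nd (nat_lit 78) (nat_lit 152) (nat_lit 0) (XT.lf (nat_lit 0) (nat_lit 9194844654) (nat_lit 228) (nat_lit 16493608239) (nat_lit 76) (nat_lit 7856363790) (nat_lit 28) (nat_lit 5) (nat_lit 31) (nat_lit 5) (nat_lit 29) (nat_lit 5) (nat_lit 322) (nat_lit 267) (nat_lit 191)) (XT.lf (nat_lit 0) (nat_lit 2028279532) (nat_lit 152) (nat_lit 15528949052) (nat_lit 228) (nat_lit 17319287345) (nat_lit 26) (nat_lit 5) (nat_lit 28) (nat_lit 5) (nat_lit 29) (nat_lit 5) (nat_lit 323) (nat_lit 267) (nat_lit 190))) (XT.nd (nat_lit 78) (nat_lit 76) (nat_lit 0) (XT.lf (nat_lit 0) (nat_lit 21778233588) (nat_lit 152) (nat_lit 4704215245) (nat_lit 228) (nat_lit 9788025042) (nat_lit 26) (nat_lit 5) (nat_lit 28) (nat_lit 5) (nat_lit 29) (nat_lit 5) (nat_lit 324) (nat_lit 267) (nat_lit 189)) (XT.lf (nat_lit 0) (nat_lit 4769353716)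 (nat_lit 76) (nat_lit 31170421616) (nat_lit 152) (nat_lit 1791793555) (nat_lit 25) (nat_lit 5) (nat_lit 26) (nat_lit 5) (nat_lit 27) (nat_lit 4) (nat_lit 325) (nat_lit 267) (nat_lit 188)))))) (XT.nd (nat_lit 546) (nat_lit 380) (nat_lit 0) (XT.nd (nat_lit 234) (nat_lit 304) (nat_lit 0) (XT.nd (nat_lit 78) (nat_lit 152) (nat_lit 0) (XT.lf (nat_lit 0) (nat_lit 6649997543) (nat_lit 152) (nat_lit 14117344396) (nat_lit 76) (nat_lit 18491246999) (nat_lit 24) (nat_lit 5) (nat_lit 26) (nat_lit 5) (nat_lit 25) (nat_lit 5) (nat_lit 326) (nat_lit 267) (nat_lit 187)) (XT.nd (nat_lit 78) (nat_lit 0) (nat_lit 0) (XT.lf (nat_lit 0) (nat_lit 5724794404) (nat_lit 152) (nat_lit 9784999594) (nat_lit 228) (nat_lit 25350657383) (nat_lit 22) (nat_lit 5) (nat_lit 24) (nat_lit 5) (nat_lit 25) (nat_lit 5) (nat_lit 327) (nat_lit 267) (nat_lit 186)) (XT.lf (nat_lit 0) (nat_lit 24954285374) (nat_lit 228) (nat_lit 15740229489)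 (nat_lit 76) (nat_lit 1843653112) (nat_lit 22) (nat_lit 5) (nat_lit 25) (nat_lit 5) (nat_lit 23) (nat_lit 4) (nat_lit 328) (nat_lit 267) (nat_lit 185)))) (XT.nd (nat_lit 156) (nat_lit 228) (nat_lit 0) (XT.nd (nat_lit 78) (nat_lit 0) (nat_lit 0) (XT.lf (nat_lit 0) (nat_lit 4579370321) (nat_lit 76) (nat_lit 30413606020) (nat_lit 152) (nat_lit 9303146410) (nat_lit 21) (nat_lit 5) (nat_lit 22) (nat_lit 5) (nat_lit 23) (nat_lit 4) (nat_lit 329) (nat_lit 267) (nat_lit 184)) (XT.lf (nat_lit 0) (nat_lit 26208715506) (nat_lit 76) (nat_lit 19466763906) (nat_lit 152) (nat_lit 462250577) (nat_lit 21) (nat_lit 5) (nat_lit 22) (nat_lit 5) (nat_lit 23) (nat_lit 4) (nat_lit 330) (nat_lit 267) (nat_lit 183))) (XT.nd (nat_lit 78) (nat_lit 0) (nat_lit 0) (XT.lf (nat_lit 0) (nat_lit 743956678) (nat_lit 152) (nat_lit 7892366444) (nat_lit 228) (nat_lit 39432928292) (nat_lit 18) (nat_lit 5) (nat_lit 20) (nat_lit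 5) (nat_lit 21) (nat_lit 5) (nat_lit 331) (nat_lit 267) (nat_lit 182)) (XT.lf (nat_lit 0) (nat_lit 18409570701) (nat_lit 228) (nat_lit 27305161433) (nat_lit 76) (nat_lit 4375610049) (nat_lit 18) (nat_lit 5) (nat_lit 21) (nat_lit 5) (nat_lit 19) (nat_lit 4) (nat_lit 332) (nat_lit 267) (nat_lit 181))))) (XT.nd (nat_lit 234) (nat_lit 304) (nat_lit 0) (XT.nd (nat_lit 78) (nat_lit 76) (nat_lit 0) (XT.lf (nat_lit 0) (nat_lit 28733117946) (nat_lit 228) (nat_lit 6395440556) (nat_lit 76) (nat_lit 17082089137) (nat_lit 18) (nat_lit 5) (nat_lit 21) (nat_lit 5) (nat_lit 19) (nat_lit 4) (nat_lit 333) (nat_lit 267) (nat_lit 180)) (XT.nd (nat_lit 78) (nat_lit 0) (nat_lit 0) (XT.lf (nat_lit 0) (nat_lit 15838587080) (nat_lit 76) (nat_lit 23869341585) (nat_lit 152) (nat_lit 14724995945) (nat_lit 17) (nat_lit 5) (nat_lit 18) (nat_lit 5) (nat_lit 19) (nat_lit 4) (nat_lit 334) (nat_lit 267) (nat_lit 179)) (XT.lf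 (nat_lit 0) (nat_lit 39288581859) (nat_lit 76) (nat_lit 11992104320) (nat_lit 152) (nat_lit 5484161469) (nat_lit 17) (nat_lit 5) (nat_lit 18) (nat_lit 5) (nat_lit 19) (nat_lit 4) (nat_lit 335) (nat_lit 267) (nat_lit 178)))) (XT.nd (nat_lit 156) (nat_lit 76) (nat_lit 0) (XT.nd (nat_lit 78) (nat_lit 0) (nat_lit 0) (XT.lf (nat_lit 0) (nat_lit 4171108272) (nat_lit 228) (nat_lit 54495641065) (nat_lit 76) (nat_lit 544367210) (nat_lit 14) (nat_lit 5) (nat_lit 17) (nat_lit 5) (nat_lit 15) (nat_lit 4) (nat_lit 336) (nat_lit 267) (nat_lit 177)) (XT.lf (nat_lit 0) (nat_lit 14483878607) (nat_lit 228) (nat_lit 33598321999) (nat_lit 76) (nat_lit 13687231990) (nat_lit 14) (nat_lit 5) (nat_lit 17) (nat_lit 5) (nat_lit 15) (nat_lit 4) (nat_lit 337) (nat_lit 267) (nat_lit 176))) (XT.nd (nat_lit 78) (nat_lit 76) (nat_lit 0) (XT.lf (nat_lit 0) (nat_lit 25297411718) (nat_lit 228) (nat_lit 11682663799) (nat_lit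 76) (nat_lit 27476042252) (nat_lit 14) (nat_lit 5) (nat_lit 17) (nat_lit 5) (nat_lit 15) (nat_lit 4) (nat_lit 338) (nat_lit 267) (nat_lit 175)) (XT.lf (nat_lit 0) (nat_lit 11528475757) (nat_lit 76) (nat_lit 25219797114) (nat_lit 152) (nat_lit 30525971502) (nat_lit 13) (nat_lit 5) (nat_lit 14) (nat_lit 5) (nat_lit 15) (nat_lit 4) (nat_lit 339) (nat_lit 267) (nat_lit 174))))))))
noncomputable def xc64 : XT := (XT.nd (nat_lit 35412) (nat_lit 0) (nat_lit 5776) (XT.nd (nat_lit 1014) (nat_lit 152) (nat_lit 0) (XT.nd (nat_lit 468) (nat_lit 152) (nat_lit 0) (XT.nd (nat_lit 234) (nat_lit 152) (nat_lit 0) (XT.nd (nat_lit 78) (nat_lit 76) (nat_lit 0) (XT.lf (nat_lit 0) (nat_lit 36119766144) (nat_lit 76) (nat_lit 12758445029) (nat_lit 152) (nat_lit 21351876505) (nat_lit 13) (nat_lit 5) (nat_lit 14) (nat_lit 5) (nat_lit 15) (nat_lit 4) (nat_lit 340) (nat_lit 267) (nat_lit 173)) (XT.nd (nat_lit 78) (nat_lit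 76) (nat_lit 0) (XT.lf (nat_lit 0) (nat_lit 61604606007) (nat_lit 152) (nat_lit 11419905847) (nat_lit 0) (nat_lit 309518597) (nat_lit 13) (nat_lit 5) (nat_lit 15) (nat_lit 4) (nat_lit 13) (nat_lit 4) (nat_lit 341) (nat_lit 267) (nat_lit 172)) (XT.lf (nat_lit 0) (nat_lit 12497586347) (nat_lit 76) (nat_lit 62706096230) (nat_lit 76) (nat_lit 1382402725) (nat_lit 12) (nat_lit 4) (nat_lit 13) (nat_lit 5) (nat_lit 13) (nat_lit 4) (nat_lit 342) (nat_lit 267) (nat_lit 171)))) (XT.nd (nat_lit 78) (nat_lit 76) (nat_lit 0) (XT.lf (nat_lit 0) (nat_lit 9403379117) (nat_lit 152) (nat_lit 42262077796) (nat_lit 76) (nat_lit 28329363859) (nat_lit 11) (nat_lit 5) (nat_lit 13) (nat_lit 5) (nat_lit 12) (nat_lit 4) (nat_lit 343) (nat_lit 267) (nat_lit 170)) (XT.nd (nat_lit 78) (nat_lit 76) (nat_lit 0) (XT.lf (nat_lit 0) (nat_lit 20688425265) (nat_lit 152) (nat_lit 19379380688) (nat_lit 76) (nat_lit 43506124591)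 (nat_lit 11) (nat_lit 5) (nat_lit 13) (nat_lit 5) (nat_lit 12) (nat_lit 4) (nat_lit 344) (nat_lit 267) (nat_lit 169)) (XT.lf (nat_lit 0) (nat_lit 4719457084) (nat_lit 76) (nat_lit 27852489754) (nat_lit 152) (nat_lit 54759027138) (nat_lit 10) (nat_lit 5) (nat_lit 11) (nat_lit 5) (nat_lit 12) (nat_lit 4) (nat_lit 345) (nat_lit 267) (nat_lit 168))))) (XT.nd (nat_lit 234) (nat_lit 152) (nat_lit 0) (XT.nd (nat_lit 78) (nat_lit 0) (nat_lit 0) (XT.lf (nat_lit 0) (nat_lit 30408696821) (nat_lit 76) (nat_lit 14829641171) (nat_lit 152) (nat_lit 46031875414) (nat_lit 10) (nat_lit 5) (nat_lit 11) (nat_lit 5) (nat_lit 12) (nat_lit 4) (nat_lit 346) (nat_lit 267) (nat_lit 167)) (XT.nd (nat_lit 78) (nat_lit 0) (nat_lit 0) (XT.lf (nat_lit 0) (nat_lit 57363815704) (nat_lit 76) (nat_lit 1163947168) (nat_lit 152) (nat_lit 36878964923) (nat_lit 10) (nat_lit 5) (nat_lit 11) (nat_lit 5) (nat_lit 12) (nat_lit 4)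 (nat_lit 347) (nat_lit 267) (nat_lit 166)) (XT.lf (nat_lit 0) (nat_lit 72598529598) (nat_lit 152) (nat_lit 14228040031) (nat_lit 0) (nat_lit 12919996359) (nat_lit 10) (nat_lit 5) (nat_lit 12) (nat_lit 4) (nat_lit 10) (nat_lit 4) (nat_lit 348) (nat_lit 267) (nat_lit 165)))) (XT.nd (nat_lit 156) (nat_lit 76) (nat_lit 0) (XT.nd (nat_lit 78) (nat_lit 0) (nat_lit 0) (XT.lf (nat_lit 0) (nat_lit 10962682318) (nat_lit 76) (nat_lit 76517878458) (nat_lit 76) (nat_lit 16819607531) (nat_lit 9) (nat_lit 4) (nat_lit 10) (nat_lit 5) (nat_lit 10) (nat_lit 4) (nat_lit 349) (nat_lit 267) (nat_lit 164)) (XT.lf (nat_lit 0) (nat_lit 37693687456) (nat_lit 76) (nat_lit 65550357637) (nat_lit 76) (nat_lit 5833288913) (nat_lit 9) (nat_lit 4) (nat_lit 10) (nat_lit 5) (nat_lit 10) (nat_lit 4) (nat_lit 350) (nat_lit 267) (nat_lit 163))) (XT.nd (nat_lit 78) (nat_lit 0) (nat_lit 0) (XT.lf (nat_lit 0) (nat_lit 5582303278)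 (nat_lit 152) (nat_lit 48402895733) (nat_lit 76) (nat_lit 60106781143) (nat_lit 8) (nat_lit 5) (nat_lit 10) (nat_lit 5) (nat_lit 9) (nat_lit 4) (nat_lit 351) (nat_lit 267) (nat_lit 162)) (XT.lf (nat_lit 0) (nat_lit 17440803698) (nat_lit 152) (nat_lit 24347190036) (nat_lit 76) (nat_lit 77567852471) (nat_lit 8) (nat_lit 5) (nat_lit 10) (nat_lit 5) (nat_lit 9) (nat_lit 4) (nat_lit 352) (nat_lit 267) (nat_lit 161)))))) (XT.nd (nat_lit 468) (nat_lit 76) (nat_lit 0) (XT.nd (nat_lit 234) (nat_lit 0) (nat_lit 0) (XT.nd (nat_lit 78) (nat_lit 0) (nat_lit 0) (XT.lf (nat_lit 0) (nat_lit 914667629) (nat_lit 76) (nat_lit 28978400064) (nat_lit 152) (nat_lit 94989815906) (nat_lit 7) (nat_lit 5) (nat_lit 8) (nat_lit 5) (nat_lit 9) (nat_lit 4) (nat_lit 353) (nat_lit 267) (nat_lit 160)) (XT.nd (nat_lit 78) (nat_lit 0) (nat_lit 0) (XT.lf (nat_lit 0) (nat_lit 27934336183) (nat_lit 76) (nat_lit 15276531288) (nat_lit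 152) (nat_lit 87468120759) (nat_lit 7) (nat_lit 5) (nat_lit 8) (nat_lit 5) (nat_lit 9) (nat_lit 4) (nat_lit 354) (nat_lit 267) (nat_lit 159)) (XT.lf (nat_lit 0) (nat_lit 56291591346) (nat_lit 76) (nat_lit 895622789) (nat_lit 152) (nat_lit 79577907148) (nat_lit 7) (nat_lit 5) (nat_lit 8) (nat_lit 5) (nat_lit 9) (nat_lit 4) (nat_lit 355) (nat_lit 267) (nat_lit 158)))) (XT.nd (nat_lit 78) (nat_lit 0) (nat_lit 0) (XT.lf (nat_lit 0) (nat_lit 71991870004) (nat_lit 152) (nat_lit 57238308459) (nat_lit 0) (nat_lit 13921500533) (nat_lit 7) (nat_lit 5) (nat_lit 9) (nat_lit 4) (nat_lit 7) (nat_lit 4) (nat_lit 356) (nat_lit 267) (nat_lit 157)) (XT.nd (nat_lit 78) (nat_lit 0) (nat_lit 0) (XT.lf (nat_lit 0) (nat_lit 87539085212) (nat_lit 152) (nat_lit 32862666612) (nat_lit 0) (nat_lit 29455745601) (nat_lit 7) (nat_lit 5) (nat_lit 9) (nat_lit 4) (nat_lit 7) (nat_lit 4) (nat_lit 357) (nat_lit 267) (nat_lit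 156)) (XT.lf (nat_lit 0) (nat_lit 103857267665) (nat_lit 152) (nat_lit 7279957882) (nat_lit 0) (nat_lit 45761575541) (nat_lit 7) (nat_lit 5) (nat_lit 9) (nat_lit 4) (nat_lit 7) (nat_lit 4) (nat_lit 358) (nat_lit 267) (nat_lit 155))))) (XT.nd (nat_lit 33618) (nat_lit 0) (nat_lit 17252) (XT.nd (nat_lit 78) (nat_lit 0) (nat_lit 0) (XT.lf (nat_lit 0) (nat_lit 19960224824) (nat_lit 76) (nat_lit 101216915246) (nat_lit 76) (nat_lit 43109458823) (nat_lit 6) (nat_lit 4) (nat_lit 7) (nat_lit 5) (nat_lit 7) (nat_lit 4) (nat_lit 359) (nat_lit 267) (nat_lit 154)) (XT.nd (nat_lit 33462) (nat_lit 0) (nat_lit 18772) (XT.lf (nat_lit 0) (nat_lit 48703708856) (nat_lit 76) (nat_lit 90728334699) (nat_lit 76) (nat_lit 32609674181) (nat_lit 6) (nat_lit 4) (nat_lit 7) (nat_lit 5) (nat_lit 7) (nat_lit 4) (nat_lit 360) (nat_lit 267) (nat_lit 153)) (XT.lf (nat_lit 0) (nat_lit 1290949866) (nat_lit 0) (nat_lit 1290949866)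 (nat_lit 684) (nat_lit 1019851584) (nat_lit 253) (nat_lit 5) (nat_lit 253) (nat_lit 3) (nat_lit 262) (nat_lit 3) (nat_lit 268) (nat_lit 268) (nat_lit 244)))) (XT.nd (nat_lit 156) (nat_lit 760) (nat_lit 0) (XT.nd (nat_lit 78) (nat_lit 0) (nat_lit 0) (XT.lf (nat_lit 0) (nat_lit 501859436) (nat_lit 760) (nat_lit 6512051843) (nat_lit 836) (nat_lit 288801220) (nat_lit 243) (nat_lit 5) (nat_lit 253) (nat_lit 5) (nat_lit 254) (nat_lit 5) (nat_lit 269) (nat_lit 268) (nat_lit 243)) (XT.lf (nat_lit 0) (nat_lit 3040065234) (nat_lit 760) (nat_lit 974033160) (nat_lit 836) (nat_lit 3395141576) (nat_lit 243) (nat_lit 5) (nat_lit 253) (nat_lit 5) (nat_lit 254) (nat_lit 5) (nat_lit 270) (nat_lit 268) (nat_lit 242))) (XT.nd (nat_lit 78) (nat_lit 760) (nat_lit 0) (XT.lf (nat_lit 76) (nat_lit 4848279698) (nat_lit 0) (nat_lit 748507214) (nat_lit 836) (nat_lit 1927859160) (nat_lit 244) (nat_lit 5) (nat_lit 243)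 (nat_lit 5) (nat_lit 254) (nat_lit 5) (nat_lit 271) (nat_lit 268) (nat_lit 241)) (XT.lf (nat_lit 0) (nat_lit 541690786) (nat_lit 836) (nat_lit 4369122833) (nat_lit 912) (nat_lit 2737546275) (nat_lit 233) (nat_lit 5) (nat_lit 244) (nat_lit 5) (nat_lit 245) (nat_lit 5) (nat_lit 272) (nat_lit 268) (nat_lit 240))))))) (XT.nd (nat_lit 1014) (nat_lit 4864) (nat_lit 0) (XT.nd (nat_lit 468) (nat_lit 5016) (nat_lit 0) (XT.nd (nat_lit 234) (nat_lit 760) (nat_lit 0) (XT.nd (nat_lit 78) (nat_lit 836) (nat_lit 0) (XT.lf (nat_lit 76) (nat_lit 1726928179) (nat_lit 0) (nat_lit 1276977132) (nat_lit 912) (nat_lit 4776774278) (nat_lit 234) (nat_lit 5) (nat_lit 233) (nat_lit 5) (nat_lit 245) (nat_lit 5) (nat_lit 273) (nat_lit 268) (nat_lit 239)) (XT.nd (nat_lit 78) (nat_lit 912) (nat_lit 0) (XT.lf (nat_lit 76) (nat_lit 186765917) (nat_lit 0) (nat_lit 5337243850) (nat_lit 912) (nat_lit 2397814082) (nat_lit 235)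 (nat_lit 5) (nat_lit 234) (nat_lit 5) (nat_lit 246) (nat_lit 5) (nat_lit 274) (nat_lit 268) (nat_lit 238)) (XT.lf (nat_lit 0) (nat_lit 41240072) (nat_lit 912) (nat_lit 1309870772) (nat_lit 988) (nat_lit 6720825612) (nat_lit 222) (nat_lit 5) (nat_lit 234) (nat_lit 5) (nat_lit 235) (nat_lit 5) (nat_lit 275) (nat_lit 268) (nat_lit 237)))) (XT.nd (nat_lit 78) (nat_lit 836) (nat_lit 0) (XT.lf (nat_lit 0) (nat_lit 2507271308) (nat_lit 912) (nat_lit 2829944857) (nat_lit 988) (nat_lit 2893209739) (nat_lit 223) (nat_lit 5) (nat_lit 235) (nat_lit 5) (nat_lit 236) (nat_lit 5) (nat_lit 276) (nat_lit 268) (nat_lit 236)) (XT.nd (nat_lit 78) (nat_lit 836) (nat_lit 0) (XT.lf (nat_lit 76) (nat_lit 4052317382) (nat_lit 0) (nat_lit 989619468) (nat_lit 988) (nat_lit 3356754302) (nat_lit 224) (nat_lit 5) (nat_lit 223) (nat_lit 5) (nat_lit 236) (nat_lit 5) (nat_lit 277) (nat_lit 268) (nat_lit 235)) (XT.lf (nat_lit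 0) (nat_lit 2689520704) (nat_lit 912) (nat_lit 4987766711) (nat_lit 988) (nat_lit 899064947) (nat_lit 212) (nat_lit 5) (nat_lit 224) (nat_lit 5) (nat_lit 225) (nat_lit 5) (nat_lit 278) (nat_lit 268) (nat_lit 234))))) (XT.nd (nat_lit 234) (nat_lit 2888) (nat_lit 0) (XT.nd (nat_lit 78) (nat_lit 1064) (nat_lit 0) (XT.lf (nat_lit 0) (nat_lit 1314095685) (nat_lit 988) (nat_lit 290082138) (nat_lit 1064) (nat_lit 7159755544) (nat_lit 198) (nat_lit 5) (nat_lit 211) (nat_lit 5) (nat_lit 212) (nat_lit 5) (nat_lit 279) (nat_lit 268) (nat_lit 233)) (XT.nd (nat_lit 78) (nat_lit 1064) (nat_lit 0) (XT.lf (nat_lit 0) (nat_lit 4212341344) (nat_lit 1064) (nat_lit 107697290) (nat_lit 76) (nat_lit 4640814382) (nat_lit 198) (nat_lit 5) (nat_lit 212) (nat_lit 5) (nat_lit 199) (nat_lit 5) (nat_lit 280) (nat_lit 268) (nat_lit 232)) (XT.lf (nat_lit 0) (nat_lit 6932020639) (nat_lit 1140) (nat_lit 1515542024) (nat_lit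 76) (nat_lit 720791541) (nat_lit 184) (nat_lit 5) (nat_lit 199) (nat_lit 5) (nat_lit 185) (nat_lit 5) (nat_lit 281) (nat_lit 268) (nat_lit 231)))) (XT.nd (nat_lit 156) (nat_lit 1140) (nat_lit 0) (XT.nd (nat_lit 78) (nat_lit 532) (nat_lit 0) (XT.lf (nat_lit 0) (nat_lit 401546963) (nat_lit 1216) (nat_lit 2979940395) (nat_lit 76) (nat_lit 6004545566) (nat_lit 168) (nat_lit 5) (nat_lit 184) (nat_lit 5) (nat_lit 169) (nat_lit 5) (nat_lit 282) (nat_lit 268) (nat_lit 230)) (XT.lf (nat_lit 0) (nat_lit 3114573596) (nat_lit 608) (nat_lit 4504039693) (nat_lit 76) (nat_lit 1995781581) (nat_lit 161) (nat_lit 5) (nat_lit 169) (nat_lit 5) (nat_lit 162) (nat_lit 5) (nat_lit 283) (nat_lit 268) (nat_lit 229))) (XT.nd (nat_lit 78) (nat_lit 532) (nat_lit 0) (XT.lf (nat_lit 0) (nat_lit 3764550969) (nat_lit 608) (nat_lit 2208216720) (nat_lit 684) (nat_lit 3881263294) (nat_lit 153) (nat_lit 5) (nat_lit 161) (nat_lit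 5) (nat_lit 162) (nat_lit 5) (nat_lit 284) (nat_lit 268) (nat_lit 228)) (XT.lf (nat_lit 0) (nat_lit 2359721331) (nat_lit 532) (nat_lit 6628821445) (nat_lit 608) (nat_lit 1116800803) (nat_lit 146) (nat_lit 5) (nat_lit 153) (nat_lit 5) (nat_lit 154) (nat_lit 5) (nat_lit 285) (nat_lit 268) (nat_lit 227)))))) (XT.nd (nat_lit 468) (nat_lit 2356) (nat_lit 0) (XT.nd (nat_lit 234) (nat_lit 1444) (nat_lit 0) (XT.nd (nat_lit 78) (nat_lit 456) (nat_lit 0) (XT.lf (nat_lit 0) (nat_lit 880191086) (nat_lit 532) (nat_lit 879087111) (nat_lit 608) (nat_lit 8609305977) (nat_lit 138) (nat_lit 5) (nat_lit 145) (nat_lit 5) (nat_lit 146) (nat_lit 5) (nat_lit 286) (nat_lit 268) (nat_lit 226)) (XT.nd (nat_lit 78) (nat_lit 456) (nat_lit 0) (XT.lf (nat_lit 0) (nat_lit 4803805343) (nat_lit 608) (nat_lit 693323187) (nat_lit 76) (nat_lit 5146213025) (nat_lit 138) (nat_lit 5) (nat_lit 146) (nat_lit 5) (nat_lit 139) (nat_lit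 5) (nat_lit 287) (nat_lit 268) (nat_lit 225)) (XT.lf (nat_lit 0) (nat_lit 8019410657) (nat_lit 532) (nat_lit 2320622551) (nat_lit 76) (nat_lit 591351108) (nat_lit 132) (nat_lit 5) (nat_lit 139) (nat_lit 5) (nat_lit 133) (nat_lit 5) (nat_lit 288) (nat_lit 268) (nat_lit 224)))) (XT.nd (nat_lit 78) (nat_lit 912) (nat_lit 0) (XT.lf (nat_lit 0) (nat_lit 215037780) (nat_lit 532) (nat_lit 4073211677) (nat_lit 76) (nat_lit 6943950657) (nat_lit 125) (nat_lit 5) (nat_lit 132) (nat_lit 5) (nat_lit 126) (nat_lit 5) (nat_lit 289) (nat_lit 268) (nat_lit 223)) (XT.nd (nat_lit 78) (nat_lit 456) (nat_lit 0) (XT.lf (nat_lit 0) (nat_lit 3463882755) (nat_lit 532) (nat_lit 5957503556) (nat_lit 76) (nat_lit 2125133803) (nat_lit 119) (nat_lit 5) (nat_lit 126) (nat_lit 5) (nat_lit 120) (nat_lit 5) (nat_lit 290) (nat_lit 268) (nat_lit 222)) (XT.lf (nat_lit 0) (nat_lit 3893596749) (nat_lit 456) (nat_lit 3033526602)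 (nat_lit 532) (nat_lit 4947968987) (nat_lit 113) (nat_lit 5) (nat_lit 119) (nat_lit 5) (nat_lit 120) (nat_lit 5) (nat_lit 291) (nat_lit 268) (nat_lit 221))))) (XT.nd (nat_lit 234) (nat_lit 1520) (nat_lit 0) (XT.nd (nat_lit 78) (nat_lit 456) (nat_lit 0) (XT.lf (nat_lit 0) (nat_lit 2065359794) (nat_lit 380) (nat_lit 8546663190) (nat_lit 456) (nat_lit 1606705589) (nat_lit 108) (nat_lit 5) (nat_lit 113) (nat_lit 5) (nat_lit 114) (nat_lit 5) (nat_lit 292) (nat_lit 268) (nat_lit 220)) (XT.nd (nat_lit 78) (nat_lit 0) (nat_lit 0) (XT.lf (nat_lit 0) (nat_lit 74444341) (nat_lit 380) (nat_lit 1837531380) (nat_lit 456) (nat_lit 10665682150) (nat_lit 102) (nat_lit 5) (nat_lit 107) (nat_lit 5) (nat_lit 108) (nat_lit 5) (nat_lit 293) (nat_lit 268) (nat_lit 219)) (XT.lf (nat_lit 0) (nat_lit 5664711038) (nat_lit 456) (nat_lit 2073974725) (nat_lit 76) (nat_lit 5212709689) (nat_lit 102) (nat_lit 5) (nat_lit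 108) (nat_lit 5) (nat_lit 103) (nat_lit 5) (nat_lit 294) (nat_lit 268) (nat_lit 218)))) (XT.nd (nat_lit 156) (nat_lit 684) (nat_lit 0) (XT.nd (nat_lit 78) (nat_lit 456) (nat_lit 0) (XT.lf (nat_lit 0) (nat_lit 8955703873) (nat_lit 380) (nat_lit 692520210) (nat_lit 456) (nat_lit 3694377339) (nat_lit 97) (nat_lit 5) (nat_lit 102) (nat_lit 5) (nat_lit 103) (nat_lit 5) (nat_lit 295) (nat_lit 268) (nat_lit 217)) (XT.lf (nat_lit 0) (nat_lit 169008624) (nat_lit 456) (nat_lit 6933179554) (nat_lit 76) (nat_lit 6648437883) (nat_lit 91) (nat_lit 5) (nat_lit 97) (nat_lit 5) (nat_lit 92) (nat_lit 5) (nat_lit 296) (nat_lit 268) (nat_lit 216))) (XT.nd (nat_lit 78) (nat_lit 380) (nat_lit 0) (XT.lf (nat_lit 0) (nat_lit 4190049079) (nat_lit 380) (nat_lit 9716919345) (nat_lit 76) (nat_lit 269826148) (nat_lit 87) (nat_lit 5) (nat_lit 92) (nat_lit 5) (nat_lit 88) (nat_lit 5) (nat_lit 297) (nat_lit 268) (nat_lit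 215)) (XT.lf (nat_lit 0) (nat_lit 1833584511) (nat_lit 380) (nat_lit 6683868839) (nat_lit 456) (nat_lit 6103722329) (nat_lit 82) (nat_lit 5) (nat_lit 87) (nat_lit 5) (nat_lit 88) (nat_lit 5) (nat_lit 298) (nat_lit 268) (nat_lit 214))))))))
noncomputable def xc65 : XT := (XT.nd (nat_lit 2028) (nat_lit 1292) (nat_lit 0) (XT.nd (nat_lit 1014) (nat_lit 1748) (nat_lit 0) (XT.nd (nat_lit 468) (nat_lit 1216) (nat_lit 0) (XT.nd (nat_lit 234) (nat_lit 608) (nat_lit 0) (XT.nd (nat_lit 78) (nat_lit 684) (nat_lit 0) (XT.lf (nat_lit 0) (nat_lit 13116612105) (nat_lit 456) (nat_lit 1004240211) (nat_lit 76) (nat_lit 965322493) (nat_lit 82) (nat_lit 5) (nat_lit 88) (nat_lit 5) (nat_lit 83) (nat_lit 5) (nat_lit 299) (nat_lit 268) (nat_lit 213)) (XT.nd (nat_lit 78) (nat_lit 304) (nat_lit 0) (XT.lf (nat_lit 0) (nat_lit 2452077417) (nat_lit 380) (nat_lit 4141374188) (nat_lit 76) (nat_lit 8976533038) (nat_lit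 77) (nat_lit 5) (nat_lit 82) (nat_lit 5) (nat_lit 78) (nat_lit 5) (nat_lit 300) (nat_lit 268) (nat_lit 212)) (XT.lf (nat_lit 0) (nat_lit 7109680892) (nat_lit 380) (nat_lit 7587327930) (nat_lit 76) (nat_lit 1378775957) (nat_lit 73) (nat_lit 5) (nat_lit 78) (nat_lit 5) (nat_lit 74) (nat_lit 5) (nat_lit 301) (nat_lit 268) (nat_lit 211)))) (XT.nd (nat_lit 78) (nat_lit 380) (nat_lit 0) (XT.lf (nat_lit 0) (nat_lit 5195858239) (nat_lit 228) (nat_lit 6914967988) (nat_lit 304) (nat_lit 4492779582) (nat_lit 70) (nat_lit 5) (nat_lit 73) (nat_lit 5) (nat_lit 74) (nat_lit 5) (nat_lit 302) (nat_lit 268) (nat_lit 210)) (XT.nd (nat_lit 78) (nat_lit 0) (nat_lit 0) (XT.lf (nat_lit 0) (nat_lit 259409939) (nat_lit 380) (nat_lit 15588141843) (nat_lit 76) (nat_lit 1308478616) (nat_lit 65) (nat_lit 5) (nat_lit 70) (nat_lit 5) (nat_lit 66) (nat_lit 5) (nat_lit 303) (nat_lit 268) (nat_lit 209)) (XT.lf (nat_lit 0)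 (nat_lit 5299263999) (nat_lit 380) (nat_lit 2485733962) (nat_lit 76) (nat_lit 9945499267) (nat_lit 65) (nat_lit 5) (nat_lit 70) (nat_lit 5) (nat_lit 66) (nat_lit 5) (nat_lit 304) (nat_lit 268) (nat_lit 208))))) (XT.nd (nat_lit 234) (nat_lit 456) (nat_lit 0) (XT.nd (nat_lit 78) (nat_lit 532) (nat_lit 0) (XT.lf (nat_lit 0) (nat_lit 10664346650) (nat_lit 304) (nat_lit 6908701759) (nat_lit 76) (nat_lit 758484466) (nat_lit 62) (nat_lit 5) (nat_lit 66) (nat_lit 5) (nat_lit 63) (nat_lit 5) (nat_lit 305) (nat_lit 268) (nat_lit 207)) (XT.nd (nat_lit 78) (nat_lit 304) (nat_lit 0) (XT.lf (nat_lit 0) (nat_lit 7113256716) (nat_lit 228) (nat_lit 9314450703) (nat_lit 304) (nat_lit 2531052693) (nat_lit 59) (nat_lit 5) (nat_lit 62) (nat_lit 5) (nat_lit 63) (nat_lit 5) (nat_lit 306) (nat_lit 268) (nat_lit 206)) (XT.lf (nat_lit 0) (nat_lit 2319843232) (nat_lit 228) (nat_lit 538546283) (nat_lit 304) (nat_lit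 16756600930) (nat_lit 55) (nat_lit 5) (nat_lit 58) (nat_lit 5) (nat_lit 59) (nat_lit 5) (nat_lit 307) (nat_lit 268) (nat_lit 205)))) (XT.nd (nat_lit 156) (nat_lit 228) (nat_lit 0) (XT.nd (nat_lit 78) (nat_lit 228) (nat_lit 0) (XT.lf (nat_lit 0) (nat_lit 8631422907) (nat_lit 304) (nat_lit 3031468432) (nat_lit 76) (nat_lit 8635430891) (nat_lit 55) (nat_lit 5) (nat_lit 59) (nat_lit 5) (nat_lit 56) (nat_lit 5) (nat_lit 308) (nat_lit 268) (nat_lit 204)) (XT.lf (nat_lit 0) (nat_lit 12117429161) (nat_lit 228) (nat_lit 2658958158) (nat_lit 304) (nat_lit 6236968894) (nat_lit 52) (nat_lit 5) (nat_lit 55) (nat_lit 5) (nat_lit 56) (nat_lit 5) (nat_lit 309) (nat_lit 268) (nat_lit 203))) (XT.nd (nat_lit 78) (nat_lit 76) (nat_lit 0) (XT.lf (nat_lit 0) (nat_lit 6323424746) (nat_lit 152) (nat_lit 15025255335) (nat_lit 228) (nat_lit 411891779) (nat_lit 50) (nat_lit 5) (nat_lit 52) (nat_lit 5) (nat_lit 53)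 (nat_lit 5) (nat_lit 310) (nat_lit 268) (nat_lit 202)) (XT.lf (nat_lit 0) (nat_lit 5675759908) (nat_lit 228) (nat_lit 192681542) (nat_lit 76) (nat_lit 16672612688) (nat_lit 49) (nat_lit 5) (nat_lit 52) (nat_lit 5) (nat_lit 50) (nat_lit 5) (nat_lit 311) (nat_lit 268) (nat_lit 201)))))) (XT.nd (nat_lit 468) (nat_lit 912) (nat_lit 0) (XT.nd (nat_lit 234) (nat_lit 152) (nat_lit 0) (XT.nd (nat_lit 78) (nat_lit 456) (nat_lit 0) (XT.lf (nat_lit 0) (nat_lit 12216272030) (nat_lit 304) (nat_lit 7325474662) (nat_lit 76) (nat_lit 3814010108) (nat_lit 46) (nat_lit 5) (nat_lit 50) (nat_lit 5) (nat_lit 47) (nat_lit 5) (nat_lit 312) (nat_lit 268) (nat_lit 200)) (XT.nd (nat_lit 78) (nat_lit 304) (nat_lit 0) (XT.lf (nat_lit 0) (nat_lit 8918155569) (nat_lit 152) (nat_lit 10278646152) (nat_lit 228) (nat_lit 5011030262) (nat_lit 44) (nat_lit 5) (nat_lit 46) (nat_lit 5) (nat_lit 47) (nat_lit 5) (nat_lit 313)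 (nat_lit 268) (nat_lit 199)) (XT.lf (nat_lit 0) (nat_lit 978413661) (nat_lit 228) (nat_lit 470004072) (nat_lit 304) (nat_lit 23652137032) (nat_lit 40) (nat_lit 5) (nat_lit 43) (nat_lit 5) (nat_lit 44) (nat_lit 5) (nat_lit 314) (nat_lit 268) (nat_lit 198)))) (XT.nd (nat_lit 78) (nat_lit 152) (nat_lit 0) (XT.lf (nat_lit 0) (nat_lit 8349294373) (nat_lit 304) (nat_lit 7852718499) (nat_lit 76) (nat_lit 9827773538) (nat_lit 40) (nat_lit 5) (nat_lit 44) (nat_lit 5) (nat_lit 41) (nat_lit 5) (nat_lit 315) (nat_lit 268) (nat_lit 197)) (XT.nd (nat_lit 78) (nat_lit 0) (nat_lit 0) (XT.lf (nat_lit 0) (nat_lit 9358210237) (nat_lit 152) (nat_lit 6300937252) (nat_lit 228) (nat_lit 11344436936) (nat_lit 38) (nat_lit 5) (nat_lit 40) (nat_lit 5) (nat_lit 41) (nat_lit 5) (nat_lit 316) (nat_lit 268) (nat_lit 196)) (XT.lf (nat_lit 0) (nat_lit 23425548563) (nat_lit 228) (nat_lit 519169600) (nat_lit 76) (nat_lit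 4078644202) (nat_lit 38) (nat_lit 5) (nat_lit 41) (nat_lit 5) (nat_lit 39) (nat_lit 5) (nat_lit 317) (nat_lit 268) (nat_lit 195))))) (XT.nd (nat_lit 234) (nat_lit 532) (nat_lit 0) (XT.nd (nat_lit 78) (nat_lit 152) (nat_lit 0) (XT.lf (nat_lit 0) (nat_lit 2644840919) (nat_lit 228) (nat_lit 11415618183) (nat_lit 76) (nat_lit 15026756781) (nat_lit 35) (nat_lit 5) (nat_lit 38) (nat_lit 5) (nat_lit 36) (nat_lit 5) (nat_lit 318) (nat_lit 268) (nat_lit 194)) (XT.nd (nat_lit 78) (nat_lit 0) (nat_lit 0) (XT.lf (nat_lit 0) (nat_lit 6615244938) (nat_lit 152) (nat_lit 3581271950) (nat_lit 228) (nat_lit 20005139247) (nat_lit 33) (nat_lit 5) (nat_lit 35) (nat_lit 5) (nat_lit 36) (nat_lit 5) (nat_lit 319) (nat_lit 268) (nat_lit 193)) (XT.lf (nat_lit 0) (nat_lit 18288632876) (nat_lit 228) (nat_lit 5699967469) (nat_lit 76) (nat_lit 7378350554) (nat_lit 33) (nat_lit 5) (nat_lit 36) (nat_lit 5) (nat_lit 34)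 (nat_lit 5) (nat_lit 320) (nat_lit 268) (nat_lit 192)))) (XT.nd (nat_lit 156) (nat_lit 304) (nat_lit 0) (XT.nd (nat_lit 78) (nat_lit 76) (nat_lit 0) (XT.lf (nat_lit 0) (nat_lit 13260195071) (nat_lit 152) (nat_lit 13662900298) (nat_lit 228) (nat_lit 5663300132) (nat_lit 31) (nat_lit 5) (nat_lit 33) (nat_lit 5) (nat_lit 34) (nat_lit 5) (nat_lit 321) (nat_lit 268) (nat_lit 191)) (XT.lf (nat_lit 0) (nat_lit 2115002060) (nat_lit 228) (nat_lit 641049103) (nat_lit 76) (nat_lit 31109146598) (nat_lit 30) (nat_lit 5) (nat_lit 33) (nat_lit 5) (nat_lit 31) (nat_lit 5) (nat_lit 322) (nat_lit 268) (nat_lit 190))) (XT.nd (nat_lit 78) (nat_lit 152) (nat_lit 0) (XT.lf (nat_lit 0) (nat_lit 10413019982) (nat_lit 228) (nat_lit 16030750639) (nat_lit 76) (nat_lit 8755064805) (nat_lit 28) (nat_lit 5) (nat_lit 31) (nat_lit 5) (nat_lit 29) (nat_lit 5) (nat_lit 323) (nat_lit 268) (nat_lit 189)) (XT.lf (nat_lit 0)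 (nat_lit 3380324502) (nat_lit 152) (nat_lit 15789104575) (nat_lit 228) (nat_lit 17428435717) (nat_lit 26) (nat_lit 5) (nat_lit 28) (nat_lit 5) (nat_lit 29) (nat_lit 5) (nat_lit 324) (nat_lit 268) (nat_lit 188))))))) (XT.nd (nat_lit 1014) (nat_lit 380) (nat_lit 0) (XT.nd (nat_lit 468) (nat_lit 532) (nat_lit 0) (XT.nd (nat_lit 234) (nat_lit 228) (nat_lit 0) (XT.nd (nat_lit 78) (nat_lit 152) (nat_lit 0) (XT.lf (nat_lit 0) (nat_lit 24058222403) (nat_lit 152) (nat_lit 4447719408) (nat_lit 228) (nat_lit 9556649156) (nat_lit 26) (nat_lit 5) (nat_lit 28) (nat_lit 5) (nat_lit 29) (nat_lit 5) (nat_lit 325) (nat_lit 268) (nat_lit 187)) (XT.nd (nat_lit 78) (nat_lit 76) (nat_lit 0) (XT.lf (nat_lit 0) (nat_lit 6180958439) (nat_lit 76) (nat_lit 32237651258) (nat_lit 152) (nat_lit 1178677043) (nat_lit 25) (nat_lit 5) (nat_lit 26) (nat_lit 5) (nat_lit 27) (nat_lit 4) (nat_lit 326) (nat_lit 268) (nat_lit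 186)) (XT.lf (nat_lit 0) (nat_lit 7638682050) (nat_lit 152) (nat_lit 13692504198) (nat_lit 76) (nat_lit 19870271909) (nat_lit 24) (nat_lit 5) (nat_lit 26) (nat_lit 5) (nat_lit 25) (nat_lit 5) (nat_lit 327) (nat_lit 268) (nat_lit 185)))) (XT.nd (nat_lit 78) (nat_lit 76) (nat_lit 0) (XT.lf (nat_lit 0) (nat_lit 7109330040) (nat_lit 152) (nat_lit 9811448892) (nat_lit 228) (nat_lit 25963273315) (nat_lit 22) (nat_lit 5) (nat_lit 24) (nat_lit 5) (nat_lit 25) (nat_lit 5) (nat_lit 328) (nat_lit 268) (nat_lit 184)) (XT.nd (nat_lit 78) (nat_lit 76) (nat_lit 0) (XT.lf (nat_lit 0) (nat_lit 26811470080) (nat_lit 228) (nat_lit 15466984873) (nat_lit 76) (nat_lit 2367997456) (nat_lit 22) (nat_lit 5) (nat_lit 25) (nat_lit 5) (nat_lit 23) (nat_lit 4) (nat_lit 329) (nat_lit 268) (nat_lit 183)) (XT.lf (nat_lit 0) (nat_lit 5838202900) (nat_lit 76) (nat_lit 31494769976) (nat_lit 152) (nat_lit 9159921912) (nat_lit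 21) (nat_lit 5) (nat_lit 22) (nat_lit 5) (nat_lit 23) (nat_lit 4) (nat_lit 330) (nat_lit 268) (nat_lit 182))))) (XT.nd (nat_lit 234) (nat_lit 304) (nat_lit 0) (XT.nd (nat_lit 78) (nat_lit 152) (nat_lit 0) (XT.lf (nat_lit 0) (nat_lit 92212931) (nat_lit 152) (nat_lit 19928371005) (nat_lit 76) (nat_lit 28406830097) (nat_lit 20) (nat_lit 5) (nat_lit 22) (nat_lit 5) (nat_lit 21) (nat_lit 5) (nat_lit 331) (nat_lit 268) (nat_lit 181)) (XT.nd (nat_lit 78) (nat_lit 0) (nat_lit 0) (XT.lf (nat_lit 0) (nat_lit 1745135341) (nat_lit 152) (nat_lit 7873322554) (nat_lit 228) (nat_lit 40837461505) (nat_lit 18) (nat_lit 5) (nat_lit 20) (nat_lit 5) (nat_lit 21) (nat_lit 5) (nat_lit 332) (nat_lit 268) (nat_lit 180)) (XT.lf (nat_lit 0) (nat_lit 19857949228) (nat_lit 228) (nat_lit 27740134705) (nat_lit 76) (nat_lit 4980666906) (nat_lit 18) (nat_lit 5) (nat_lit 21) (nat_lit 5) (nat_lit 19) (nat_lit 4) (nat_lit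 333) (nat_lit 268) (nat_lit 179)))) (XT.nd (nat_lit 156) (nat_lit 228) (nat_lit 0) (XT.nd (nat_lit 78) (nat_lit 76) (nat_lit 0) (XT.lf (nat_lit 0) (nat_lit 30672535740) (nat_lit 228) (nat_lit 5829227060) (nat_lit 76) (nat_lit 18304075836) (nat_lit 18) (nat_lit 5) (nat_lit 21) (nat_lit 5) (nat_lit 19) (nat_lit 4) (nat_lit 334) (nat_lit 268) (nat_lit 178)) (XT.lf (nat_lit 0) (nat_lit 17491105361) (nat_lit 76) (nat_lit 24689313098) (nat_lit 152) (nat_lit 14959293364) (nat_lit 17) (nat_lit 5) (nat_lit 18) (nat_lit 5) (nat_lit 19) (nat_lit 4) (nat_lit 335) (nat_lit 268) (nat_lit 177))) (XT.nd (nat_lit 78) (nat_lit 228) (nat_lit 0) (XT.lf (nat_lit 0) (nat_lit 42072619453) (nat_lit 76) (nat_lit 12235999473) (nat_lit 152) (nat_lit 5280319658) (nat_lit 17) (nat_lit 5) (nat_lit 18) (nat_lit 5) (nat_lit 19) (nat_lit 4) (nat_lit 336) (nat_lit 268) (nat_lit 176)) (XT.lf (nat_lit 0) (nat_lit 4837183458)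 (nat_lit 228) (nat_lit 56404561660) (nat_lit 76) (nat_lit 915984842) (nat_lit 14) (nat_lit 5) (nat_lit 17) (nat_lit 5) (nat_lit 15) (nat_lit 4) (nat_lit 337) (nat_lit 268) (nat_lit 175)))))) (XT.nd (nat_lit 546) (nat_lit 152) (nat_lit 0) (XT.nd (nat_lit 234) (nat_lit 152) (nat_lit 0) (XT.nd (nat_lit 78) (nat_lit 76) (nat_lit 0) (XT.lf (nat_lit 0) (nat_lit 15643805655) (nat_lit 228) (nat_lit 34501227186) (nat_lit 76) (nat_lit 14699592895) (nat_lit 14) (nat_lit 5) (nat_lit 17) (nat_lit 5) (nat_lit 15) (nat_lit 4) (nat_lit 338) (nat_lit 268) (nat_lit 174)) (XT.nd (nat_lit 78) (nat_lit 76) (nat_lit 0) (XT.lf (nat_lit 0) (nat_lit 26977266225) (nat_lit 228) (nat_lit 11526786596) (nat_lit 76) (nat_lit 29162224656) (nat_lit 14) (nat_lit 5) (nat_lit 17) (nat_lit 5) (nat_lit 15) (nat_lit 4) (nat_lit 339) (nat_lit 268) (nat_lit 173)) (XT.lf (nat_lit 0) (nat_lit 12823697689) (nat_lit 76) (nat_lit 26164121135)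 (nat_lit 152) (nat_lit 31637886500) (nat_lit 13) (nat_lit 5) (nat_lit 14) (nat_lit 5) (nat_lit 15) (nat_lit 4) (nat_lit 340) (nat_lit 268) (nat_lit 172)))) (XT.nd (nat_lit 156) (nat_lit 152) (nat_lit 0) (XT.nd (nat_lit 78) (nat_lit 0) (nat_lit 0) (XT.lf (nat_lit 0) (nat_lit 38610324112) (nat_lit 76) (nat_lit 13094780772) (nat_lit 152) (nat_lit 22024819305) (nat_lit 13) (nat_lit 5) (nat_lit 14) (nat_lit 5) (nat_lit 15) (nat_lit 4) (nat_lit 341) (nat_lit 268) (nat_lit 171)) (XT.lf (nat_lit 0) (nat_lit 65052343151) (nat_lit 152) (nat_lit 11330578758) (nat_lit 0) (nat_lit 606614975) (nat_lit 13) (nat_lit 5) (nat_lit 15) (nat_lit 4) (nat_lit 13) (nat_lit 4) (nat_lit 342) (nat_lit 268) (nat_lit 170))) (XT.nd (nat_lit 78) (nat_lit 76) (nat_lit 0) (XT.lf (nat_lit 0) (nat_lit 13763860038) (nat_lit 76) (nat_lit 65556178662) (nat_lit 76) (nat_lit 1084503914) (nat_lit 12) (nat_lit 4) (nat_lit 13) (nat_lit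 5) (nat_lit 13) (nat_lit 4) (nat_lit 343) (nat_lit 268) (nat_lit 169)) (XT.lf (nat_lit 0) (nat_lit 10216269108) (nat_lit 152) (nat_lit 43757359478) (nat_lit 76) (nat_lit 30010501990) (nat_lit 11) (nat_lit 5) (nat_lit 13) (nat_lit 5) (nat_lit 12) (nat_lit 4) (nat_lit 344) (nat_lit 268) (nat_lit 168))))) (XT.nd (nat_lit 234) (nat_lit 76) (nat_lit 0) (XT.nd (nat_lit 78) (nat_lit 76) (nat_lit 0) (XT.lf (nat_lit 0) (nat_lit 22049247513) (nat_lit 152) (nat_lit 19759947621) (nat_lit 76) (nat_lit 45933497429) (nat_lit 11) (nat_lit 5) (nat_lit 13) (nat_lit 5) (nat_lit 12) (nat_lit 4) (nat_lit 345) (nat_lit 268) (nat_lit 167)) (XT.nd (nat_lit 78) (nat_lit 0) (nat_lit 0) (XT.lf (nat_lit 0) (nat_lit 5526965612) (nat_lit 76) (nat_lit 28989930599) (nat_lit 152) (nat_lit 57171000208) (nat_lit 10) (nat_lit 5) (nat_lit 11) (nat_lit 5) (nat_lit 12) (nat_lit 4) (nat_lit 346) (nat_lit 268) (nat_lit 166)) (XT.lf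 (nat_lit 0) (nat_lit 32473451351) (nat_lit 76) (nat_lit 15328091189) (nat_lit 152) (nat_lit 48023013674) (nat_lit 10) (nat_lit 5) (nat_lit 11) (nat_lit 5) (nat_lit 12) (nat_lit 4) (nat_lit 347) (nat_lit 268) (nat_lit 165)))) (XT.nd (nat_lit 156) (nat_lit 76) (nat_lit 0) (XT.nd (nat_lit 78) (nat_lit 0) (nat_lit 0) (XT.lf (nat_lit 0) (nat_lit 60750406193) (nat_lit 76) (nat_lit 990685441) (nat_lit 152) (nat_lit 38427241253) (nat_lit 10) (nat_lit 5) (nat_lit 11) (nat_lit 5) (nat_lit 12) (nat_lit 4) (nat_lit 348) (nat_lit 268) (nat_lit 164)) (XT.lf (nat_lit 0) (nat_lit 76503851834) (nat_lit 152) (nat_lit 14439531484) (nat_lit 0) (nat_lit 13782131877) (nat_lit 10) (nat_lit 5) (nat_lit 12) (nat_lit 4) (nat_lit 10) (nat_lit 4) (nat_lit 349) (nat_lit 268) (nat_lit 163))) (XT.nd (nat_lit 78) (nat_lit 0) (nat_lit 0) (XT.lf (nat_lit 0) (nat_lit 11996397146) (nat_lit 76) (nat_lit 80125141041) (nat_lit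 76) (nat_lit 17385518419) (nat_lit 9) (nat_lit 4) (nat_lit 10) (nat_lit 5) (nat_lit 10) (nat_lit 4) (nat_lit 350) (nat_lit 268) (nat_lit 162)) (XT.lf (nat_lit 0) (nat_lit 40040829650) (nat_lit 76) (nat_lit 68619655195) (nat_lit 76) (nat_lit 5862982417) (nat_lit 9) (nat_lit 4) (nat_lit 10) (nat_lit 5) (nat_lit 10) (nat_lit 4) (nat_lit 351) (nat_lit 268) (nat_lit 161))))))))
noncomputable def xc66 : XT := (XT.nd (nat_lit 35490) (nat_lit 0) (nat_lit 3040) (XT.nd (nat_lit 34476) (nat_lit 0) (nat_lit 11172) (XT.nd (nat_lit 468) (nat_lit 76) (nat_lit 0) (XT.nd (nat_lit 234) (nat_lit 0) (nat_lit 0) (XT.nd (nat_lit 78) (nat_lit 76) (nat_lit 0) (XT.lf (nat_lit 0) (nat_lit 6106046009) (nat_lit 152) (nat_lit 50377637623) (nat_lit 76) (nat_lit 63305458395) (nat_lit 8) (nat_lit 5) (nat_lit 10) (nat_lit 5) (nat_lit 9) (nat_lit 4) (nat_lit 352) (nat_lit 268) (nat_lit 160)) (XT.nd (nat_lit 78) (nat_lit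 76) (nat_lit 0) (XT.lf (nat_lit 0) (nat_lit 18545822518) (nat_lit 152) (nat_lit 25140356303) (nat_lit 76) (nat_lit 81630376709) (nat_lit 8) (nat_lit 5) (nat_lit 10) (nat_lit 5) (nat_lit 9) (nat_lit 4) (nat_lit 353) (nat_lit 268) (nat_lit 159)) (XT.lf (nat_lit 0) (nat_lit 1372434831) (nat_lit 76) (nat_lit 30241131382) (nat_lit 152) (nat_lit 99506597044) (nat_lit 7) (nat_lit 5) (nat_lit 8) (nat_lit 5) (nat_lit 9) (nat_lit 4) (nat_lit 354) (nat_lit 268) (nat_lit 158)))) (XT.nd (nat_lit 78) (nat_lit 0) (nat_lit 0) (XT.lf (nat_lit 0) (nat_lit 29723466154) (nat_lit 76) (nat_lit 15863035295) (nat_lit 152) (nat_lit 91619898552) (nat_lit 7) (nat_lit 5) (nat_lit 8) (nat_lit 5) (nat_lit 9) (nat_lit 4) (nat_lit 355) (nat_lit 268) (nat_lit 157)) (XT.nd (nat_lit 78) (nat_lit 0) (nat_lit 0) (XT.lf (nat_lit 0) (nat_lit 59479897735) (nat_lit 76) (nat_lit 771525302) (nat_lit 152) (nat_lit 83345727986) (nat_lit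 7) (nat_lit 5) (nat_lit 8) (nat_lit 5) (nat_lit 9) (nat_lit 4) (nat_lit 356) (nat_lit 268) (nat_lit 156)) (XT.lf (nat_lit 0) (nat_lit 75788103085) (nat_lit 152) (nat_lit 59739909805) (nat_lit 0) (nat_lit 14775273841) (nat_lit 7) (nat_lit 5) (nat_lit 9) (nat_lit 4) (nat_lit 7) (nat_lit 4) (nat_lit 357) (nat_lit 268) (nat_lit 155))))) (XT.nd (nat_lit 33696) (nat_lit 0) (nat_lit 17176) (XT.nd (nat_lit 78) (nat_lit 76) (nat_lit 0) (XT.lf (nat_lit 0) (nat_lit 92103315264) (nat_lit 152) (nat_lit 34162643679) (nat_lit 0) (nat_lit 31078721721) (nat_lit 7) (nat_lit 5) (nat_lit 9) (nat_lit 4) (nat_lit 7) (nat_lit 4) (nat_lit 358) (nat_lit 268) (nat_lit 154)) (XT.nd (nat_lit 78) (nat_lit 76) (nat_lit 0) (XT.lf (nat_lit 0) (nat_lit 109228488945) (nat_lit 152) (nat_lit 7317140286) (nat_lit 0) (nat_lit 48192691308) (nat_lit 7) (nat_lit 5) (nat_lit 9) (nat_lit 4) (nat_lit 7) (nat_lit 4) (nat_lit 359) (nat_lit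 268) (nat_lit 153)) (XT.lf (nat_lit 0) (nat_lit 21275683454) (nat_lit 76) (nat_lit 106133229781) (nat_lit 76) (nat_lit 45086761578) (nat_lit 6) (nat_lit 4) (nat_lit 7) (nat_lit 5) (nat_lit 7) (nat_lit 4) (nat_lit 360) (nat_lit 268) (nat_lit 152)))) (XT.nd (nat_lit 156) (nat_lit 760) (nat_lit 0) (XT.nd (nat_lit 78) (nat_lit 0) (nat_lit 0) (XT.lf (nat_lit 0) (nat_lit 1451673520) (nat_lit 836) (nat_lit 1125287295) (nat_lit 836) (nat_lit 1125287295) (nat_lit 242) (nat_lit 3) (nat_lit 253) (nat_lit 3) (nat_lit 253) (nat_lit 5) (nat_lit 269) (nat_lit 269) (nat_lit 242)) (XT.lf (nat_lit 76) (nat_lit 3340778282) (nat_lit 0) (nat_lit 1972298646) (nat_lit 836) (nat_lit 2201947593) (nat_lit 243) (nat_lit 5) (nat_lit 242) (nat_lit 3) (nat_lit 253) (nat_lit 5) (nat_lit 270) (nat_lit 269) (nat_lit 241))) (XT.nd (nat_lit 78) (nat_lit 0) (nat_lit 0) (XT.lf (nat_lit 0) (nat_lit 110793018) (nat_lit 836) (nat_lit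 6072944637) (nat_lit 912) (nat_lit 1450476564) (nat_lit 232) (nat_lit 5) (nat_lit 243) (nat_lit 5) (nat_lit 244) (nat_lit 5) (nat_lit 271) (nat_lit 269) (nat_lit 240)) (XT.lf (nat_lit 0) (nat_lit 2414325786) (nat_lit 836) (nat_lit 213632087) (nat_lit 912) (nat_lit 5133395199) (nat_lit 232) (nat_lit 5) (nat_lit 243) (nat_lit 5) (nat_lit 244) (nat_lit 5) (nat_lit 272) (nat_lit 269) (nat_lit 239)))))) (XT.nd (nat_lit 468) (nat_lit 5244) (nat_lit 0) (XT.nd (nat_lit 234) (nat_lit 0) (nat_lit 0) (XT.nd (nat_lit 78) (nat_lit 836) (nat_lit 0) (XT.lf (nat_lit 0) (nat_lit 4765993633) (nat_lit 836) (nat_lit 1933755763) (nat_lit 912) (nat_lit 1197362676) (nat_lit 233) (nat_lit 5) (nat_lit 244) (nat_lit 5) (nat_lit 245) (nat_lit 5) (nat_lit 273) (nat_lit 269) (nat_lit 238)) (XT.nd (nat_lit 78) (nat_lit 836) (nat_lit 0) (XT.lf (nat_lit 76) (nat_lit 4391026489) (nat_lit 0) (nat_lit 2785203784) (nat_lit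 912) (nat_lit 865439149) (nat_lit 234) (nat_lit 5) (nat_lit 233) (nat_lit 5) (nat_lit 245) (nat_lit 5) (nat_lit 274) (nat_lit 269) (nat_lit 237)) (XT.lf (nat_lit 0) (nat_lit 1419134053) (nat_lit 912) (nat_lit 5371690780) (nat_lit 988) (nat_lit 1404360889) (nat_lit 222) (nat_lit 5) (nat_lit 234) (nat_lit 5) (nat_lit 235) (nat_lit 5) (nat_lit 275) (nat_lit 269) (nat_lit 236)))) (XT.nd (nat_lit 78) (nat_lit 0) (nat_lit 76) (XT.lf (nat_lit 76) (nat_lit 1245043670) (nat_lit 0) (nat_lit 2512806861) (nat_lit 988) (nat_lit 4599747160) (nat_lit 223) (nat_lit 5) (nat_lit 222) (nat_lit 5) (nat_lit 235) (nat_lit 5) (nat_lit 276) (nat_lit 269) (nat_lit 235)) (XT.nd (nat_lit 78) (nat_lit 0) (nat_lit 0) (XT.lf (nat_lit 0) (nat_lit 6173252375) (nat_lit 912) (nat_lit 327152025) (nat_lit 988) (nat_lit 2029134622) (nat_lit 223) (nat_lit 5) (nat_lit 235) (nat_lit 5) (nat_lit 236) (nat_lit 5) (nat_lit 277) (nat_lit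 269) (nat_lit 234)) (XT.lf (nat_lit 76) (nat_lit 6823425282) (nat_lit 0) (nat_lit 1867314996) (nat_lit 988) (nat_lit 20089328) (nat_lit 224) (nat_lit 5) (nat_lit 223) (nat_lit 5) (nat_lit 236) (nat_lit 5) (nat_lit 278) (nat_lit 269) (nat_lit 233))))) (XT.nd (nat_lit 234) (nat_lit 2356) (nat_lit 0) (XT.nd (nat_lit 78) (nat_lit 2052) (nat_lit 0) (XT.lf (nat_lit 0) (nat_lit 2364549492) (nat_lit 988) (nat_lit 3493861749) (nat_lit 76) (nat_lit 3042875902) (nat_lit 211) (nat_lit 5) (nat_lit 224) (nat_lit 5) (nat_lit 212) (nat_lit 5) (nat_lit 279) (nat_lit 269) (nat_lit 232)) (XT.nd (nat_lit 78) (nat_lit 1064) (nat_lit 0) (XT.lf (nat_lit 0) (nat_lit 3981266354) (nat_lit 988) (nat_lit 861600090) (nat_lit 1064) (nat_lit 4259318078) (nat_lit 198) (nat_lit 5) (nat_lit 211) (nat_lit 5) (nat_lit 212) (nat_lit 5) (nat_lit 280) (nat_lit 269) (nat_lit 231)) (XT.lf (nat_lit 0) (nat_lit 2513844146) (nat_lit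 1064) (nat_lit 4936255418) (nat_lit 1140) (nat_lit 1863037944) (nat_lit 184) (nat_lit 5) (nat_lit 198) (nat_lit 5) (nat_lit 199) (nat_lit 5) (nat_lit 281) (nat_lit 269) (nat_lit 230)))) (XT.nd (nat_lit 156) (nat_lit 1140) (nat_lit 0) (XT.nd (nat_lit 78) (nat_lit 0) (nat_lit 0) (XT.lf (nat_lit 0) (nat_lit 621175633) (nat_lit 1216) (nat_lit 8513850934) (nat_lit 76) (nat_lit 400145994) (nat_lit 168) (nat_lit 5) (nat_lit 184) (nat_lit 5) (nat_lit 169) (nat_lit 5) (nat_lit 282) (nat_lit 269) (nat_lit 229)) (XT.lf (nat_lit 0) (nat_lit 3220920161) (nat_lit 1216) (nat_lit 544506760) (nat_lit 76) (nat_lit 6001575099) (nat_lit 168) (nat_lit 5) (nat_lit 184) (nat_lit 5) (nat_lit 169) (nat_lit 5) (nat_lit 283) (nat_lit 269) (nat_lit 228))) (XT.nd (nat_lit 78) (nat_lit 608) (nat_lit 0) (XT.lf (nat_lit 0) (nat_lit 5958701187) (nat_lit 608) (nat_lit 2132314898) (nat_lit 76) (nat_lit 1919300204) (nat_lit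 161) (nat_lit 5) (nat_lit 169) (nat_lit 5) (nat_lit 162) (nat_lit 5) (nat_lit 284) (nat_lit 269) (nat_lit 227)) (XT.lf (nat_lit 0) (nat_lit 6475264913) (nat_lit 608) (nat_lit 2380768759) (nat_lit 684) (nat_lit 1409211121) (nat_lit 153) (nat_lit 5) (nat_lit 161) (nat_lit 5) (nat_lit 162) (nat_lit 5) (nat_lit 285) (nat_lit 269) (nat_lit 226))))))) (XT.nd (nat_lit 1014) (nat_lit 3116) (nat_lit 0) (XT.nd (nat_lit 468) (nat_lit 2432) (nat_lit 0) (XT.nd (nat_lit 234) (nat_lit 988) (nat_lit 0) (XT.nd (nat_lit 78) (nat_lit 988) (nat_lit 0) (XT.lf (nat_lit 0) (nat_lit 1363836276) (nat_lit 608) (nat_lit 5538042473) (nat_lit 76) (nat_lit 3630011004) (nat_lit 145) (nat_lit 5) (nat_lit 153) (nat_lit 5) (nat_lit 146) (nat_lit 5) (nat_lit 286) (nat_lit 269) (nat_lit 225)) (XT.nd (nat_lit 78) (nat_lit 456) (nat_lit 0) (XT.lf (nat_lit 0) (nat_lit 3433731334) (nat_lit 532) (nat_lit 831533607) (nat_lit 608)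 (nat_lit 6545730302) (nat_lit 138) (nat_lit 5) (nat_lit 145) (nat_lit 5) (nat_lit 146) (nat_lit 5) (nat_lit 287) (nat_lit 269) (nat_lit 224)) (XT.lf (nat_lit 0) (nat_lit 1768102418) (nat_lit 456) (nat_lit 5596605906) (nat_lit 532) (nat_lit 3737867066) (nat_lit 132) (nat_lit 5) (nat_lit 138) (nat_lit 5) (nat_lit 139) (nat_lit 5) (nat_lit 288) (nat_lit 269) (nat_lit 223)))) (XT.nd (nat_lit 78) (nat_lit 532) (nat_lit 0) (XT.lf (nat_lit 0) (nat_lit 22811476) (nat_lit 456) (nat_lit 10616461734) (nat_lit 532) (nat_lit 768959408) (nat_lit 126) (nat_lit 5) (nat_lit 132) (nat_lit 5) (nat_lit 133) (nat_lit 5) (nat_lit 289) (nat_lit 269) (nat_lit 222)) (XT.nd (nat_lit 78) (nat_lit 456) (nat_lit 0) (XT.lf (nat_lit 0) (nat_lit 2385865038) (nat_lit 532) (nat_lit 1842433356) (nat_lit 76) (nat_lit 7497793001) (nat_lit 125) (nat_lit 5) (nat_lit 132) (nat_lit 5) (nat_lit 126) (nat_lit 5) (nat_lit 290) (nat_lit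 269) (nat_lit 221)) (XT.lf (nat_lit 0) (nat_lit 5719758868) (nat_lit 532) (nat_lit 3828283410) (nat_lit 76) (nat_lit 2510545798) (nat_lit 119) (nat_lit 5) (nat_lit 126) (nat_lit 5) (nat_lit 120) (nat_lit 5) (nat_lit 291) (nat_lit 269) (nat_lit 220))))) (XT.nd (nat_lit 234) (nat_lit 1140) (nat_lit 0) (XT.nd (nat_lit 78) (nat_lit 836) (nat_lit 0) (XT.lf (nat_lit 0) (nat_lit 6445799710) (nat_lit 456) (nat_lit 2833848407) (nat_lit 532) (nat_lit 3126368462) (nat_lit 113) (nat_lit 5) (nat_lit 119) (nat_lit 5) (nat_lit 120) (nat_lit 5) (nat_lit 292) (nat_lit 269) (nat_lit 219)) (XT.nd (nat_lit 78) (nat_lit 380) (nat_lit 0) (XT.lf (nat_lit 0) (nat_lit 303942882) (nat_lit 456) (nat_lit 8255711145) (nat_lit 76) (nat_lit 4209309605) (nat_lit 107) (nat_lit 5) (nat_lit 113) (nat_lit 5) (nat_lit 108) (nat_lit 5) (nat_lit 293) (nat_lit 269) (nat_lit 218)) (XT.lf (nat_lit 0) (nat_lit 2398792427) (nat_lit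 380) (nat_lit 1495911743) (nat_lit 456) (nat_lit 9252893208) (nat_lit 102) (nat_lit 5) (nat_lit 107) (nat_lit 5) (nat_lit 108) (nat_lit 5) (nat_lit 294) (nat_lit 269) (nat_lit 217)))) (XT.nd (nat_lit 156) (nat_lit 760) (nat_lit 0) (XT.nd (nat_lit 78) (nat_lit 0) (nat_lit 0) (XT.lf (nat_lit 0) (nat_lit 86298363) (nat_lit 380) (nat_lit 7663712725) (nat_lit 456) (nat_lit 5792673633) (nat_lit 97) (nat_lit 5) (nat_lit 102) (nat_lit 5) (nat_lit 103) (nat_lit 5) (nat_lit 295) (nat_lit 269) (nat_lit 216)) (XT.lf (nat_lit 0) (nat_lit 11600928873) (nat_lit 380) (nat_lit 266291403) (nat_lit 456) (nat_lit 2088300745) (nat_lit 97) (nat_lit 5) (nat_lit 102) (nat_lit 5) (nat_lit 103) (nat_lit 5) (nat_lit 296) (nat_lit 269) (nat_lit 215))) (XT.nd (nat_lit 78) (nat_lit 304) (nat_lit 0) (XT.lf (nat_lit 0) (nat_lit 1875148748) (nat_lit 456) (nat_lit 5061293341) (nat_lit 76) (nat_lit 7448830889) (nat_lit 91)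 (nat_lit 5) (nat_lit 97) (nat_lit 5) (nat_lit 92) (nat_lit 5) (nat_lit 297) (nat_lit 269) (nat_lit 214)) (XT.lf (nat_lit 0) (nat_lit 6042087026) (nat_lit 380) (nat_lit 8001800210) (nat_lit 76) (nat_lit 790610338) (nat_lit 87) (nat_lit 5) (nat_lit 92) (nat_lit 5) (nat_lit 88) (nat_lit 5) (nat_lit 298) (nat_lit 269) (nat_lit 213)))))) (XT.nd (nat_lit 546) (nat_lit 1444) (nat_lit 0) (XT.nd (nat_lit 234) (nat_lit 912) (nat_lit 0) (XT.nd (nat_lit 78) (nat_lit 380) (nat_lit 0) (XT.lf (nat_lit 0) (nat_lit 4063138616) (nat_lit 380) (nat_lit 6465057480) (nat_lit 456) (nat_lit 4774720205) (nat_lit 82) (nat_lit 5) (nat_lit 87) (nat_lit 5) (nat_lit 88) (nat_lit 5) (nat_lit 299) (nat_lit 269) (nat_lit 212)) (XT.nd (nat_lit 78) (nat_lit 76) (nat_lit 0) (XT.lf (nat_lit 0) (nat_lit 1043896259) (nat_lit 304) (nat_lit 14253043781) (nat_lit 380) (nat_lit 496120913) (nat_lit 78) (nat_lit 5) (nat_lit 82) (nat_lit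 5) (nat_lit 83) (nat_lit 5) (nat_lit 300) (nat_lit 269) (nat_lit 211)) (XT.lf (nat_lit 0) (nat_lit 4052477695) (nat_lit 380) (nat_lit 2299057882) (nat_lit 76) (nat_lit 9951053912) (nat_lit 77) (nat_lit 5) (nat_lit 82) (nat_lit 5) (nat_lit 78) (nat_lit 5) (nat_lit 301) (nat_lit 269) (nat_lit 210)))) (XT.nd (nat_lit 156) (nat_lit 380) (nat_lit 0) (XT.nd (nat_lit 78) (nat_lit 228) (nat_lit 0) (XT.lf (nat_lit 0) (nat_lit 8897147610) (nat_lit 380) (nat_lit 5937193799) (nat_lit 76) (nat_lit 2000786943) (nat_lit 73) (nat_lit 5) (nat_lit 78) (nat_lit 5) (nat_lit 74) (nat_lit 5) (nat_lit 302) (nat_lit 269) (nat_lit 209)) (XT.lf (nat_lit 0) (nat_lit 7426976453) (nat_lit 228) (nat_lit 6672133692) (nat_lit 304) (nat_lit 3291778261) (nat_lit 70) (nat_lit 5) (nat_lit 73) (nat_lit 5) (nat_lit 74) (nat_lit 5) (nat_lit 303) (nat_lit 269) (nat_lit 208))) (XT.nd (nat_lit 78) (nat_lit 0) (nat_lit 0) (XT.lf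 (nat_lit 0) (nat_lit 1628020000) (nat_lit 380) (nat_lit 14388270236) (nat_lit 76) (nat_lit 1955563743) (nat_lit 65) (nat_lit 5) (nat_lit 70) (nat_lit 5) (nat_lit 66) (nat_lit 5) (nat_lit 304) (nat_lit 269) (nat_lit 207)) (XT.lf (nat_lit 0) (nat_lit 6855312498) (nat_lit 380) (nat_lit 724993328) (nat_lit 76) (nat_lit 10996737274) (nat_lit 65) (nat_lit 5) (nat_lit 70) (nat_lit 5) (nat_lit 66) (nat_lit 5) (nat_lit 305) (nat_lit 269) (nat_lit 206))))) (XT.nd (nat_lit 234) (nat_lit 684) (nat_lit 0) (XT.nd (nat_lit 78) (nat_lit 532) (nat_lit 0) (XT.lf (nat_lit 0) (nat_lit 12450381383) (nat_lit 304) (nat_lit 5390151923) (nat_lit 76) (nat_lit 1368804615) (nat_lit 62) (nat_lit 5) (nat_lit 66) (nat_lit 5) (nat_lit 63) (nat_lit 5) (nat_lit 306) (nat_lit 269) (nat_lit 205)) (XT.nd (nat_lit 78) (nat_lit 304) (nat_lit 0) (XT.lf (nat_lit 0) (nat_lit 9279473723) (nat_lit 228) (nat_lit 9180182650) (nat_lit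 304) (nat_lit 1409594288) (nat_lit 59) (nat_lit 5) (nat_lit 62) (nat_lit 5) (nat_lit 63) (nat_lit 5) (nat_lit 307) (nat_lit 269) (nat_lit 204)) (XT.lf (nat_lit 0) (nat_lit 4184180334) (nat_lit 304) (nat_lit 16340347024) (nat_lit 76) (nat_lit 34681116) (nat_lit 55) (nat_lit 5) (nat_lit 59) (nat_lit 5) (nat_lit 56) (nat_lit 5) (nat_lit 308) (nat_lit 269) (nat_lit 203)))) (XT.nd (nat_lit 156) (nat_lit 456) (nat_lit 0) (XT.nd (nat_lit 78) (nat_lit 228) (nat_lit 0) (XT.lf (nat_lit 0) (nat_lit 10194715025) (nat_lit 304) (nat_lit 1455306738) (nat_lit 76) (nat_lit 9628269376) (nat_lit 55) (nat_lit 5) (nat_lit 59) (nat_lit 5) (nat_lit 56) (nat_lit 5) (nat_lit 309) (nat_lit 269) (nat_lit 202)) (XT.lf (nat_lit 0) (nat_lit 14401510554) (nat_lit 228) (nat_lit 2207657608) (nat_lit 304) (nat_lit 5421088851) (nat_lit 52) (nat_lit 5) (nat_lit 55) (nat_lit 5) (nat_lit 56) (nat_lit 5) (nat_lit 310) (nat_lit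 269) (nat_lit 201))) (XT.nd (nat_lit 78) (nat_lit 228) (nat_lit 0) (XT.lf (nat_lit 0) (nat_lit 650513820) (nat_lit 228) (nat_lit 14525136264) (nat_lit 76) (nat_lit 7639961551) (nat_lit 49) (nat_lit 5) (nat_lit 52) (nat_lit 5) (nat_lit 50) (nat_lit 5) (nat_lit 311) (nat_lit 269) (nat_lit 200)) (XT.lf (nat_lit 0) (nat_lit 1425220211) (nat_lit 228) (nat_lit 5571419041) (nat_lit 304) (nat_lit 16639519888) (nat_lit 46) (nat_lit 5) (nat_lit 49) (nat_lit 5) (nat_lit 50) (nat_lit 5) (nat_lit 312) (nat_lit 269) (nat_lit 199))))))))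
noncomputable def xc67 : XT := (XT.nd (nat_lit 2028) (nat_lit 532) (nat_lit 0) (XT.nd (nat_lit 1014) (nat_lit 912) (nat_lit 0) (XT.nd (nat_lit 468) (nat_lit 760) (nat_lit 0) (XT.nd (nat_lit 234) (nat_lit 304) (nat_lit 0) (XT.nd (nat_lit 78) (nat_lit 456) (nat_lit 0) (XT.lf (nat_lit 0) (nat_lit 13822104857) (nat_lit 304) (nat_lit 6112820617) (nat_lit 76) (nat_lit 4557973384) (nat_lit 46) (nat_lit 5) (nat_lit 50) (nat_lit 5) (nat_lit 47) (nat_lit 5) (nat_lit 313) (nat_lit 269) (nat_lit 198)) (XT.nd (nat_lit 78) (nat_lit 304) (nat_lit 0) (XT.lf (nat_lit 0) (nat_lit 10897731477) (nat_lit 152) (nat_lit 10221290243) (nat_lit 228) (nat_lit 4269573126) (nat_lit 44) (nat_lit 5) (nat_lit 46) (nat_lit 5) (nat_lit 47) (nat_lit 5) (nat_lit 314) (nat_lit 269) (nat_lit 197)) (XT.lf (nat_lit 0) (nat_lit 2462400229) (nat_lit 304) (nat_lit 23790819577) (nat_lit 76) (nat_lit 73415584) (nat_lit 40) (nat_lit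 5) (nat_lit 44) (nat_lit 5) (nat_lit 41) (nat_lit 5) (nat_lit 315) (nat_lit 269) (nat_lit 196)))) (XT.nd (nat_lit 78) (nat_lit 304) (nat_lit 0) (XT.lf (nat_lit 0) (nat_lit 9668002398) (nat_lit 304) (nat_lit 6785654692) (nat_lit 76) (nat_lit 10849914420) (nat_lit 40) (nat_lit 5) (nat_lit 44) (nat_lit 5) (nat_lit 41) (nat_lit 5) (nat_lit 316) (nat_lit 269) (nat_lit 195)) (XT.nd (nat_lit 78) (nat_lit 152) (nat_lit 0) (XT.lf (nat_lit 0) (nat_lit 11243978481) (nat_lit 152) (nat_lit 6070082657) (nat_lit 228) (nat_lit 11012908657) (nat_lit 38) (nat_lit 5) (nat_lit 40) (nat_lit 5) (nat_lit 41) (nat_lit 5) (nat_lit 317) (nat_lit 269) (nat_lit 194)) (XT.lf (nat_lit 0) (nat_lit 842166618) (nat_lit 152) (nat_lit 24598186997) (nat_lit 228) (nat_lit 3958266122) (nat_lit 36) (nat_lit 5) (nat_lit 38) (nat_lit 5) (nat_lit 39) (nat_lit 5) (nat_lit 318) (nat_lit 269) (nat_lit 193))))) (XT.nd (nat_lit 234)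 (nat_lit 532) (nat_lit 0) (XT.nd (nat_lit 78) (nat_lit 152) (nat_lit 0) (XT.lf (nat_lit 0) (nat_lit 3594101825) (nat_lit 228) (nat_lit 10638013944) (nat_lit 76) (nat_lit 16284391011) (nat_lit 35) (nat_lit 5) (nat_lit 38) (nat_lit 5) (nat_lit 36) (nat_lit 5) (nat_lit 319) (nat_lit 269) (nat_lit 192)) (XT.nd (nat_lit 78) (nat_lit 0) (nat_lit 0) (XT.lf (nat_lit 0) (nat_lit 8255741143) (nat_lit 152) (nat_lit 3241304754) (nat_lit 228) (nat_lit 20190439254) (nat_lit 33) (nat_lit 5) (nat_lit 35) (nat_lit 5) (nat_lit 36) (nat_lit 5) (nat_lit 320) (nat_lit 269) (nat_lit 191)) (XT.lf (nat_lit 0) (nat_lit 19960866811) (nat_lit 228) (nat_lit 4719252978) (nat_lit 76) (nat_lit 8231937257) (nat_lit 33) (nat_lit 5) (nat_lit 36) (nat_lit 5) (nat_lit 34) (nat_lit 5) (nat_lit 321) (nat_lit 269) (nat_lit 190)))) (XT.nd (nat_lit 156) (nat_lit 152) (nat_lit 0) (XT.nd (nat_lit 78) (nat_lit 228) (nat_lit 0) (XT.lf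 (nat_lit 0) (nat_lit 15152636284) (nat_lit 152) (nat_lit 13850148369) (nat_lit 228) (nat_lit 5190441416) (nat_lit 31) (nat_lit 5) (nat_lit 33) (nat_lit 5) (nat_lit 34) (nat_lit 5) (nat_lit 322) (nat_lit 269) (nat_lit 189)) (XT.lf (nat_lit 0) (nat_lit 522477966) (nat_lit 152) (nat_lit 2409268932) (nat_lit 228) (nat_lit 32604934148) (nat_lit 28) (nat_lit 5) (nat_lit 30) (nat_lit 5) (nat_lit 31) (nat_lit 5) (nat_lit 323) (nat_lit 269) (nat_lit 188))) (XT.nd (nat_lit 78) (nat_lit 152) (nat_lit 0) (XT.lf (nat_lit 0) (nat_lit 11621592156) (nat_lit 228) (nat_lit 15664453240) (nat_lit 76) (nat_lit 9651668681) (nat_lit 28) (nat_lit 5) (nat_lit 31) (nat_lit 5) (nat_lit 29) (nat_lit 5) (nat_lit 324) (nat_lit 269) (nat_lit 187)) (XT.lf (nat_lit 0) (nat_lit 4683699904) (nat_lit 152) (nat_lit 16110267804) (nat_lit 228) (nat_lit 17613403085) (nat_lit 26) (nat_lit 5) (nat_lit 28) (nat_lit 5) (nat_lit 29)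 (nat_lit 5) (nat_lit 325) (nat_lit 269) (nat_lit 186)))))) (XT.nd (nat_lit 468) (nat_lit 532) (nat_lit 0) (XT.nd (nat_lit 234) (nat_lit 228) (nat_lit 0) (XT.nd (nat_lit 78) (nat_lit 152) (nat_lit 0) (XT.lf (nat_lit 0) (nat_lit 26341475597) (nat_lit 152) (nat_lit 4224112998) (nat_lit 228) (nat_lit 9380715502) (nat_lit 26) (nat_lit 5) (nat_lit 28) (nat_lit 5) (nat_lit 29) (nat_lit 5) (nat_lit 326) (nat_lit 269) (nat_lit 185)) (XT.nd (nat_lit 78) (nat_lit 76) (nat_lit 0) (XT.lf (nat_lit 0) (nat_lit 7554076236) (nat_lit 76) (nat_lit 33403918003) (nat_lit 152) (nat_lit 600235665) (nat_lit 25) (nat_lit 5) (nat_lit 26) (nat_lit 5) (nat_lit 27) (nat_lit 4) (nat_lit 327) (nat_lit 269) (nat_lit 184)) (XT.lf (nat_lit 0) (nat_lit 8615794956) (nat_lit 152) (nat_lit 13351544450) (nat_lit 76) (nat_lit 21275996444) (nat_lit 24) (nat_lit 5) (nat_lit 26) (nat_lit 5) (nat_lit 25) (nat_lit 5) (nat_lit 328)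 (nat_lit 269) (nat_lit 183)))) (XT.nd (nat_lit 78) (nat_lit 76) (nat_lit 0) (XT.lf (nat_lit 0) (nat_lit 8460983314) (nat_lit 152) (nat_lit 9882247477) (nat_lit 228) (nat_lit 26667408012) (nat_lit 22) (nat_lit 5) (nat_lit 24) (nat_lit 5) (nat_lit 25) (nat_lit 5) (nat_lit 329) (nat_lit 269) (nat_lit 182)) (XT.nd (nat_lit 78) (nat_lit 76) (nat_lit 0) (XT.lf (nat_lit 0) (nat_lit 28704851236) (nat_lit 228) (nat_lit 15278650587) (nat_lit 76) (nat_lit 2878380719) (nat_lit 22) (nat_lit 5) (nat_lit 25) (nat_lit 5) (nat_lit 23) (nat_lit 4) (nat_lit 330) (nat_lit 269) (nat_lit 181)) (XT.lf (nat_lit 0) (nat_lit 7064230108) (nat_lit 76) (nat_lit 32670854194) (nat_lit 152) (nat_lit 9066097763) (nat_lit 21) (nat_lit 5) (nat_lit 22) (nat_lit 5) (nat_lit 23) (nat_lit 4) (nat_lit 331) (nat_lit 269) (nat_lit 180))))) (XT.nd (nat_lit 234) (nat_lit 304) (nat_lit 0) (XT.nd (nat_lit 78) (nat_lit 152) (nat_lit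 0) (XT.lf (nat_lit 0) (nat_lit 612111428) (nat_lit 152) (nat_lit 20024627564) (nat_lit 76) (nat_lit 30196315653) (nat_lit 20) (nat_lit 5) (nat_lit 22) (nat_lit 5) (nat_lit 21) (nat_lit 5) (nat_lit 332) (nat_lit 269) (nat_lit 179)) (XT.nd (nat_lit 78) (nat_lit 0) (nat_lit 0) (XT.lf (nat_lit 0) (nat_lit 2706751137) (nat_lit 152) (nat_lit 7891784862) (nat_lit 228) (nat_lit 42364946188) (nat_lit 18) (nat_lit 5) (nat_lit 20) (nat_lit 5) (nat_lit 21) (nat_lit 5) (nat_lit 333) (nat_lit 269) (nat_lit 178)) (XT.lf (nat_lit 0) (nat_lit 21329667543) (nat_lit 228) (nat_lit 28283345703) (nat_lit 76) (nat_lit 5580064292) (nat_lit 18) (nat_lit 5) (nat_lit 21) (nat_lit 5) (nat_lit 19) (nat_lit 4) (nat_lit 334) (nat_lit 269) (nat_lit 177)))) (XT.nd (nat_lit 156) (nat_lit 228) (nat_lit 0) (XT.nd (nat_lit 78) (nat_lit 76) (nat_lit 0) (XT.lf (nat_lit 0) (nat_lit 32662182388) (nat_lit 228) (nat_lit 5317073425)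 (nat_lit 76) (nat_lit 19552959667) (nat_lit 18) (nat_lit 5) (nat_lit 21) (nat_lit 5) (nat_lit 19) (nat_lit 4) (nat_lit 335) (nat_lit 269) (nat_lit 176)) (XT.lf (nat_lit 0) (nat_lit 19146240154) (nat_lit 76) (nat_lit 25585007265) (nat_lit 152) (nat_lit 15251972427) (nat_lit 17) (nat_lit 5) (nat_lit 18) (nat_lit 5) (nat_lit 19) (nat_lit 4) (nat_lit 336) (nat_lit 269) (nat_lit 175))) (XT.nd (nat_lit 78) (nat_lit 228) (nat_lit 0) (XT.lf (nat_lit 0) (nat_lit 44919659498) (nat_lit 76) (nat_lit 12525159935) (nat_lit 152) (nat_lit 5110730303) (nat_lit 17) (nat_lit 5) (nat_lit 18) (nat_lit 5) (nat_lit 19) (nat_lit 4) (nat_lit 337) (nat_lit 269) (nat_lit 174)) (XT.lf (nat_lit 0) (nat_lit 5494026552) (nat_lit 228) (nat_lit 58484779350) (nat_lit 76) (nat_lit 1274164375) (nat_lit 14) (nat_lit 5) (nat_lit 17) (nat_lit 5) (nat_lit 15) (nat_lit 4) (nat_lit 338) (nat_lit 269) (nat_lit 173))))))) (XT.nd (nat_lit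 1014) (nat_lit 152) (nat_lit 0) (XT.nd (nat_lit 468) (nat_lit 228) (nat_lit 0) (XT.nd (nat_lit 234) (nat_lit 76) (nat_lit 0) (XT.nd (nat_lit 78) (nat_lit 76) (nat_lit 0) (XT.lf (nat_lit 0) (nat_lit 16821218719) (nat_lit 228) (nat_lit 35521516742) (nat_lit 76) (nat_lit 15732077579) (nat_lit 14) (nat_lit 5) (nat_lit 17) (nat_lit 5) (nat_lit 15) (nat_lit 4) (nat_lit 339) (nat_lit 269) (nat_lit 172)) (XT.nd (nat_lit 78) (nat_lit 76) (nat_lit 0) (XT.lf (nat_lit 0) (nat_lit 28702532185) (nat_lit 228) (nat_lit 11431914685) (nat_lit 76) (nat_lit 30903674021) (nat_lit 14) (nat_lit 5) (nat_lit 17) (nat_lit 5) (nat_lit 15) (nat_lit 4) (nat_lit 340) (nat_lit 269) (nat_lit 171)) (XT.lf (nat_lit 0) (nat_lit 14116853679) (nat_lit 76) (nat_lit 27185101945) (nat_lit 152) (nat_lit 32843922706) (nat_lit 13) (nat_lit 5) (nat_lit 14) (nat_lit 5) (nat_lit 15) (nat_lit 4) (nat_lit 341) (nat_lit 269) (nat_lit 170))))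 (XT.nd (nat_lit 78) (nat_lit 76) (nat_lit 0) (XT.lf (nat_lit 0) (nat_lit 41161765180) (nat_lit 76) (nat_lit 13475971956) (nat_lit 152) (nat_lit 22768100156) (nat_lit 13) (nat_lit 5) (nat_lit 14) (nat_lit 5) (nat_lit 15) (nat_lit 4) (nat_lit 342) (nat_lit 269) (nat_lit 169)) (XT.nd (nat_lit 78) (nat_lit 76) (nat_lit 0) (XT.lf (nat_lit 0) (nat_lit 68638299849) (nat_lit 152) (nat_lit 11298175831) (nat_lit 0) (nat_lit 892383771) (nat_lit 13) (nat_lit 5) (nat_lit 15) (nat_lit 4) (nat_lit 13) (nat_lit 4) (nat_lit 343) (nat_lit 269) (nat_lit 168)) (XT.lf (nat_lit 0) (nat_lit 15033816643) (nat_lit 76) (nat_lit 68575282488) (nat_lit 76) (nat_lit 805832105) (nat_lit 12) (nat_lit 4) (nat_lit 13) (nat_lit 5) (nat_lit 13) (nat_lit 4) (nat_lit 344) (nat_lit 269) (nat_lit 167))))) (XT.nd (nat_lit 234) (nat_lit 76) (nat_lit 0) (XT.nd (nat_lit 78) (nat_lit 76) (nat_lit 0) (XT.lf (nat_lit 0) (nat_lit 11037940644)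 (nat_lit 152) (nat_lit 45384844498) (nat_lit 76) (nat_lit 31751090527) (nat_lit 11) (nat_lit 5) (nat_lit 13) (nat_lit 5) (nat_lit 12) (nat_lit 4) (nat_lit 345) (nat_lit 269) (nat_lit 166)) (XT.nd (nat_lit 78) (nat_lit 76) (nat_lit 0) (XT.lf (nat_lit 0) (nat_lit 23447765204) (nat_lit 152) (nat_lit 20214246950) (nat_lit 76) (nat_lit 48458804145) (nat_lit 11) (nat_lit 5) (nat_lit 13) (nat_lit 5) (nat_lit 12) (nat_lit 4) (nat_lit 346) (nat_lit 269) (nat_lit 165)) (XT.lf (nat_lit 0) (nat_lit 6321713597) (nat_lit 76) (nat_lit 30207968043) (nat_lit 152) (nat_lit 59733878303) (nat_lit 10) (nat_lit 5) (nat_lit 11) (nat_lit 5) (nat_lit 12) (nat_lit 4) (nat_lit 347) (nat_lit 269) (nat_lit 164)))) (XT.nd (nat_lit 156) (nat_lit 76) (nat_lit 0) (XT.nd (nat_lit 78) (nat_lit 0) (nat_lit 0) (XT.lf (nat_lit 0) (nat_lit 34590837923) (nat_lit 76) (nat_lit 15874058524) (nat_lit 152) (nat_lit 50142572057) (nat_lit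 10) (nat_lit 5) (nat_lit 11) (nat_lit 5) (nat_lit 12) (nat_lit 4) (nat_lit 348) (nat_lit 269) (nat_lit 163)) (XT.lf (nat_lit 0) (nat_lit 64258130316) (nat_lit 76) (nat_lit 830279499) (nat_lit 152) (nat_lit 40080420173) (nat_lit 10) (nat_lit 5) (nat_lit 11) (nat_lit 5) (nat_lit 12) (nat_lit 4) (nat_lit 349) (nat_lit 269) (nat_lit 162))) (XT.nd (nat_lit 78) (nat_lit 76) (nat_lit 0) (XT.lf (nat_lit 0) (nat_lit 80578836496) (nat_lit 152) (nat_lit 14708074455) (nat_lit 0) (nat_lit 14667279922) (nat_lit 10) (nat_lit 5) (nat_lit 12) (nat_lit 4) (nat_lit 10) (nat_lit 4) (nat_lit 350) (nat_lit 269) (nat_lit 161)) (XT.lf (nat_lit 0) (nat_lit 13036653023) (nat_lit 76) (nat_lit 83933093022) (nat_lit 76) (nat_lit 18005298205) (nat_lit 9) (nat_lit 4) (nat_lit 10) (nat_lit 5) (nat_lit 10) (nat_lit 4) (nat_lit 351) (nat_lit 269) (nat_lit 160)))))) (XT.nd (nat_lit 546) (nat_lit 0) (nat_lit 0) (XT.nd (nat_lit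 234) (nat_lit 76) (nat_lit 0) (XT.nd (nat_lit 78) (nat_lit 76) (nat_lit 0) (XT.lf (nat_lit 0) (nat_lit 42462334009) (nat_lit 76) (nat_lit 71861775983) (nat_lit 76) (nat_lit 5918516171) (nat_lit 9) (nat_lit 4) (nat_lit 10) (nat_lit 5) (nat_lit 10) (nat_lit 4) (nat_lit 352) (nat_lit 269) (nat_lit 159)) (XT.nd (nat_lit 78) (nat_lit 0) (nat_lit 0) (XT.lf (nat_lit 0) (nat_lit 6633232724) (nat_lit 152) (nat_lit 52492525948) (nat_lit 76) (nat_lit 66646094757) (nat_lit 8) (nat_lit 5) (nat_lit 10) (nat_lit 5) (nat_lit 9) (nat_lit 4) (nat_lit 353) (nat_lit 269) (nat_lit 158)) (XT.lf (nat_lit 0) (nat_lit 19684432134) (nat_lit 152) (nat_lit 26012618350) (nat_lit 76) (nat_lit 85878908346) (nat_lit 8) (nat_lit 5) (nat_lit 10) (nat_lit 5) (nat_lit 9) (nat_lit 4) (nat_lit 354) (nat_lit 269) (nat_lit 157)))) (XT.nd (nat_lit 156) (nat_lit 0) (nat_lit 0) (XT.nd (nat_lit 78) (nat_lit 0) (nat_lit 0) (XT.lf (nat_lit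 0) (nat_lit 1814783394) (nat_lit 76) (nat_lit 31584309325) (nat_lit 152) (nat_lit 104270852377) (nat_lit 7) (nat_lit 5) (nat_lit 8) (nat_lit 5) (nat_lit 9) (nat_lit 4) (nat_lit 355) (nat_lit 269) (nat_lit 156)) (XT.lf (nat_lit 0) (nat_lit 31565569768) (nat_lit 76) (nat_lit 16495350273) (nat_lit 152) (nat_lit 95999870127) (nat_lit 7) (nat_lit 5) (nat_lit 8) (nat_lit 5) (nat_lit 9) (nat_lit 4) (nat_lit 356) (nat_lit 269) (nat_lit 155))) (XT.nd (nat_lit 78) (nat_lit 0) (nat_lit 0) (XT.lf (nat_lit 0) (nat_lit 62792873866) (nat_lit 76) (nat_lit 656923676) (nat_lit 152) (nat_lit 87321563574) (nat_lit 7) (nat_lit 5) (nat_lit 8) (nat_lit 5) (nat_lit 9) (nat_lit 4) (nat_lit 357) (nat_lit 269) (nat_lit 154)) (XT.lf (nat_lit 0) (nat_lit 79755866136) (nat_lit 152) (nat_lit 62400089806) (nat_lit 0) (nat_lit 15657074523) (nat_lit 7) (nat_lit 5) (nat_lit 9) (nat_lit 4) (nat_lit 7) (nat_lit 4) (nat_lit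 358) (nat_lit 269) (nat_lit 153))))) (XT.nd (nat_lit 33774) (nat_lit 0) (nat_lit 16188) (XT.nd (nat_lit 78) (nat_lit 0) (nat_lit 0) (XT.lf (nat_lit 0) (nat_lit 96878345691) (nat_lit 152) (nat_lit 35559523016) (nat_lit 0) (nat_lit 32768883512) (nat_lit 7) (nat_lit 5) (nat_lit 9) (nat_lit 4) (nat_lit 7) (nat_lit 4) (nat_lit 359) (nat_lit 269) (nat_lit 152)) (XT.nd (nat_lit 33618) (nat_lit 0) (nat_lit 17860) (XT.lf (nat_lit 0) (nat_lit 114851689262) (nat_lit 152) (nat_lit 7386566018) (nat_lit 0) (nat_lit 50732064639) (nat_lit 7) (nat_lit 5) (nat_lit 9) (nat_lit 4) (nat_lit 7) (nat_lit 4) (nat_lit 360) (nat_lit 269) (nat_lit 151)) (XT.lf (nat_lit 0) (nat_lit 3793301784) (nat_lit 836) (nat_lit 10793729) (nat_lit 836) (nat_lit 10793729) (nat_lit 242) (nat_lit 3) (nat_lit 253) (nat_lit 3) (nat_lit 253) (nat_lit 5) (nat_lit 270) (nat_lit 270) (nat_lit 240)))) (XT.nd (nat_lit 156) (nat_lit 836) (nat_lit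 0) (XT.nd (nat_lit 78) (nat_lit 0) (nat_lit 0) (XT.lf (nat_lit 0) (nat_lit 2128149670) (nat_lit 836) (nat_lit 1990729573) (nat_lit 912) (nat_lit 3632574167) (nat_lit 231) (nat_lit 5) (nat_lit 242) (nat_lit 3) (nat_lit 243) (nat_lit 5) (nat_lit 271) (nat_lit 270) (nat_lit 239)) (XT.lf (nat_lit 76) (nat_lit 3956780872) (nat_lit 0) (nat_lit 352538185) (nat_lit 912) (nat_lit 3573067014) (nat_lit 232) (nat_lit 5) (nat_lit 231) (nat_lit 5) (nat_lit 243) (nat_lit 5) (nat_lit 272) (nat_lit 270) (nat_lit 238))) (XT.nd (nat_lit 78) (nat_lit 912) (nat_lit 0) (XT.lf (nat_lit 76) (nat_lit 2155243328) (nat_lit 0) (nat_lit 4390609194) (nat_lit 912) (nat_lit 1475863636) (nat_lit 233) (nat_lit 5) (nat_lit 232) (nat_lit 5) (nat_lit 244) (nat_lit 5) (nat_lit 273) (nat_lit 270) (nat_lit 237)) (XT.lf (nat_lit 76) (nat_lit 375203397) (nat_lit 0) (nat_lit 259081757) (nat_lit 988) (nat_lit 7536072372) (nat_lit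 221) (nat_lit 5) (nat_lit 220) (nat_lit 5) (nat_lit 233) (nat_lit 5) (nat_lit 274) (nat_lit 270) (nat_lit 236))))))))
noncomputable def xc68 : XT := (XT.nd (nat_lit 2028) (nat_lit 4256) (nat_lit 0) (XT.nd (nat_lit 1014) (nat_lit 4788) (nat_lit 0) (XT.nd (nat_lit 468) (nat_lit 4940) (nat_lit 0) (XT.nd (nat_lit 234) (nat_lit 836) (nat_lit 0) (XT.nd (nat_lit 78) (nat_lit 0) (nat_lit 76) (XT.lf (nat_lit 0) (nat_lit 2799895498) (nat_lit 912) (nat_lit 1406388259) (nat_lit 988) (nat_lit 4120505824) (nat_lit 221) (nat_lit 5) (nat_lit 233) (nat_lit 5) (nat_lit 234) (nat_lit 5) (nat_lit 275) (nat_lit 270) (nat_lit 235)) (XT.nd (nat_lit 78) (nat_lit 0) (nat_lit 0) (XT.lf (nat_lit 0) (nat_lit 5016357742) (nat_lit 912) (nat_lit 3167787038) (nat_lit 988) (nat_lit 308822568) (nat_lit 222) (nat_lit 5) (nat_lit 234) (nat_lit 5) (nat_lit 235) (nat_lit 5) (nat_lit 276) (nat_lit 270) (nat_lit 234)) (XT.lf (nat_lit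 76) (nat_lit 3708910755) (nat_lit 0) (nat_lit 3618267605) (nat_lit 988) (nat_lit 1340961250) (nat_lit 223) (nat_lit 5) (nat_lit 222) (nat_lit 5) (nat_lit 235) (nat_lit 5) (nat_lit 277) (nat_lit 270) (nat_lit 233)))) (XT.nd (nat_lit 78) (nat_lit 0) (nat_lit 0) (XT.lf (nat_lit 0) (nat_lit 843269146) (nat_lit 988) (nat_lit 6765884650) (nat_lit 1064) (nat_lit 1244052233) (nat_lit 210) (nat_lit 5) (nat_lit 223) (nat_lit 5) (nat_lit 224) (nat_lit 5) (nat_lit 278) (nat_lit 270) (nat_lit 232)) (XT.nd (nat_lit 78) (nat_lit 0) (nat_lit 76) (XT.lf (nat_lit 76) (nat_lit 423611149) (nat_lit 0) (nat_lit 2676438290) (nat_lit 1064) (nat_lit 5947514661) (nat_lit 211) (nat_lit 5) (nat_lit 210) (nat_lit 5) (nat_lit 224) (nat_lit 5) (nat_lit 279) (nat_lit 270) (nat_lit 231)) (XT.lf (nat_lit 0) (nat_lit 5467036824) (nat_lit 988) (nat_lit 1239314917) (nat_lit 76) (nat_lit 2545528040) (nat_lit 211) (nat_lit 5)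 (nat_lit 224) (nat_lit 5) (nat_lit 212) (nat_lit 5) (nat_lit 280) (nat_lit 270) (nat_lit 230))))) (XT.nd (nat_lit 234) (nat_lit 1748) (nat_lit 0) (XT.nd (nat_lit 78) (nat_lit 2280) (nat_lit 0) (XT.lf (nat_lit 0) (nat_lit 6539935918) (nat_lit 988) (nat_lit 1409908073) (nat_lit 1064) (nat_lit 1516796233) (nat_lit 198) (nat_lit 5) (nat_lit 211) (nat_lit 5) (nat_lit 212) (nat_lit 5) (nat_lit 281) (nat_lit 270) (nat_lit 229)) (XT.nd (nat_lit 78) (nat_lit 1140) (nat_lit 0) (XT.lf (nat_lit 0) (nat_lit 860286254) (nat_lit 1140) (nat_lit 4676065654) (nat_lit 76) (nat_lit 4155303810) (nat_lit 183) (nat_lit 5) (nat_lit 198) (nat_lit 5) (nat_lit 184) (nat_lit 5) (nat_lit 282) (nat_lit 270) (nat_lit 228)) (XT.lf (nat_lit 0) (nat_lit 3318230462) (nat_lit 1216) (nat_lit 6478180952) (nat_lit 76) (nat_lit 131393536) (nat_lit 168) (nat_lit 5) (nat_lit 184) (nat_lit 5) (nat_lit 169) (nat_lit 5) (nat_lit 283)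 (nat_lit 270) (nat_lit 227)))) (XT.nd (nat_lit 156) (nat_lit 608) (nat_lit 0) (XT.nd (nat_lit 78) (nat_lit 608) (nat_lit 0) (XT.lf (nat_lit 0) (nat_lit 1807697378) (nat_lit 532) (nat_lit 4130689339) (nat_lit 608) (nat_lit 4236323877) (nat_lit 161) (nat_lit 5) (nat_lit 168) (nat_lit 5) (nat_lit 169) (nat_lit 5) (nat_lit 284) (nat_lit 270) (nat_lit 226)) (XT.lf (nat_lit 0) (nat_lit 118878242) (nat_lit 608) (nat_lit 8577357797) (nat_lit 684) (nat_lit 1737647203) (nat_lit 153) (nat_lit 5) (nat_lit 161) (nat_lit 5) (nat_lit 162) (nat_lit 5) (nat_lit 285) (nat_lit 270) (nat_lit 225))) (XT.nd (nat_lit 78) (nat_lit 532) (nat_lit 0) (XT.lf (nat_lit 0) (nat_lit 920258575) (nat_lit 684) (nat_lit 1626619717) (nat_lit 76) (nat_lit 8157446295) (nat_lit 152) (nat_lit 5) (nat_lit 161) (nat_lit 5) (nat_lit 153) (nat_lit 5) (nat_lit 286) (nat_lit 270) (nat_lit 224)) (XT.lf (nat_lit 0) (nat_lit 3711932555)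 (nat_lit 608) (nat_lit 3471553444) (nat_lit 76) (nat_lit 3803289245) (nat_lit 145) (nat_lit 5) (nat_lit 153) (nat_lit 5) (nat_lit 146) (nat_lit 5) (nat_lit 287) (nat_lit 270) (nat_lit 223)))))) (XT.nd (nat_lit 468) (nat_lit 2356) (nat_lit 0) (XT.nd (nat_lit 234) (nat_lit 912) (nat_lit 0) (XT.nd (nat_lit 78) (nat_lit 988) (nat_lit 0) (XT.lf (nat_lit 0) (nat_lit 5881636216) (nat_lit 532) (nat_lit 790109960) (nat_lit 608) (nat_lit 4610848134) (nat_lit 138) (nat_lit 5) (nat_lit 145) (nat_lit 5) (nat_lit 146) (nat_lit 5) (nat_lit 288) (nat_lit 270) (nat_lit 222)) (XT.nd (nat_lit 78) (nat_lit 532) (nat_lit 0) (XT.lf (nat_lit 0) (nat_lit 4133677770) (nat_lit 456) (nat_lit 5710694417) (nat_lit 532) (nat_lit 1746985162) (nat_lit 132) (nat_lit 5) (nat_lit 138) (nat_lit 5) (nat_lit 139) (nat_lit 5) (nat_lit 289) (nat_lit 270) (nat_lit 221)) (XT.lf (nat_lit 0) (nat_lit 1265562684) (nat_lit 532) (nat_lit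 9628417663) (nat_lit 76) (nat_lit 1020402717) (nat_lit 125) (nat_lit 5) (nat_lit 132) (nat_lit 5) (nat_lit 126) (nat_lit 5) (nat_lit 290) (nat_lit 270) (nat_lit 220)))) (XT.nd (nat_lit 78) (nat_lit 456) (nat_lit 0) (XT.lf (nat_lit 0) (nat_lit 278997062) (nat_lit 456) (nat_lit 4188095153) (nat_lit 532) (nat_lit 7783800415) (nat_lit 119) (nat_lit 5) (nat_lit 125) (nat_lit 5) (nat_lit 126) (nat_lit 5) (nat_lit 291) (nat_lit 270) (nat_lit 219)) (XT.nd (nat_lit 78) (nat_lit 456) (nat_lit 0) (XT.lf (nat_lit 0) (nat_lit 7894800758) (nat_lit 532) (nat_lit 1818250576) (nat_lit 76) (nat_lit 2889275178) (nat_lit 119) (nat_lit 5) (nat_lit 126) (nat_lit 5) (nat_lit 120) (nat_lit 5) (nat_lit 292) (nat_lit 270) (nat_lit 218)) (XT.lf (nat_lit 0) (nat_lit 8906432665) (nat_lit 456) (nat_lit 2656851915) (nat_lit 532) (nat_lit 1406043825) (nat_lit 113) (nat_lit 5) (nat_lit 119) (nat_lit 5) (nat_lit 120) (nat_lit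 5) (nat_lit 293) (nat_lit 270) (nat_lit 217))))) (XT.nd (nat_lit 234) (nat_lit 1140) (nat_lit 0) (XT.nd (nat_lit 78) (nat_lit 760) (nat_lit 0) (XT.lf (nat_lit 0) (nat_lit 2095161347) (nat_lit 456) (nat_lit 6501504226) (nat_lit 76) (nat_lit 4755247032) (nat_lit 107) (nat_lit 5) (nat_lit 113) (nat_lit 5) (nat_lit 108) (nat_lit 5) (nat_lit 294) (nat_lit 270) (nat_lit 216)) (XT.nd (nat_lit 78) (nat_lit 380) (nat_lit 0) (XT.lf (nat_lit 0) (nat_lit 4623608121) (nat_lit 380) (nat_lit 1177513493) (nat_lit 456) (nat_lit 7950392246) (nat_lit 102) (nat_lit 5) (nat_lit 107) (nat_lit 5) (nat_lit 108) (nat_lit 5) (nat_lit 295) (nat_lit 270) (nat_lit 215)) (XT.lf (nat_lit 0) (nat_lit 2183413097) (nat_lit 380) (nat_lit 7607989012) (nat_lit 456) (nat_lit 4376787828) (nat_lit 97) (nat_lit 5) (nat_lit 102) (nat_lit 5) (nat_lit 103) (nat_lit 5) (nat_lit 296) (nat_lit 270) (nat_lit 214)))) (XT.nd (nat_lit 156)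 (nat_lit 684) (nat_lit 0) (XT.nd (nat_lit 78) (nat_lit 456) (nat_lit 0) (XT.lf (nat_lit 0) (nat_lit 14037045482) (nat_lit 456) (nat_lit 431338993) (nat_lit 76) (nat_lit 135702190) (nat_lit 97) (nat_lit 5) (nat_lit 103) (nat_lit 5) (nat_lit 98) (nat_lit 5) (nat_lit 297) (nat_lit 270) (nat_lit 213)) (XT.lf (nat_lit 0) (nat_lit 3508760781) (nat_lit 456) (nat_lit 3302072120) (nat_lit 76) (nat_lit 8245736028) (nat_lit 91) (nat_lit 5) (nat_lit 97) (nat_lit 5) (nat_lit 92) (nat_lit 5) (nat_lit 298) (nat_lit 270) (nat_lit 212))) (XT.nd (nat_lit 78) (nat_lit 380) (nat_lit 0) (XT.lf (nat_lit 0) (nat_lit 7834019489) (nat_lit 380) (nat_lit 6405549992) (nat_lit 76) (nat_lit 1290270452) (nat_lit 87) (nat_lit 5) (nat_lit 92) (nat_lit 5) (nat_lit 88) (nat_lit 5) (nat_lit 299) (nat_lit 270) (nat_lit 211)) (XT.lf (nat_lit 0) (nat_lit 6205411083) (nat_lit 380) (nat_lit 6286718697) (nat_lit 456) (nat_lit 3531199308)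 (nat_lit 82) (nat_lit 5) (nat_lit 87) (nat_lit 5) (nat_lit 88) (nat_lit 5) (nat_lit 300) (nat_lit 270) (nat_lit 210))))))) (XT.nd (nat_lit 1014) (nat_lit 1520) (nat_lit 0) (XT.nd (nat_lit 468) (nat_lit 1216) (nat_lit 0) (XT.nd (nat_lit 234) (nat_lit 836) (nat_lit 0) (XT.nd (nat_lit 78) (nat_lit 304) (nat_lit 0) (XT.lf (nat_lit 0) (nat_lit 896663351) (nat_lit 380) (nat_lit 13529820207) (nat_lit 76) (nat_lit 2112671726) (nat_lit 77) (nat_lit 5) (nat_lit 82) (nat_lit 5) (nat_lit 78) (nat_lit 5) (nat_lit 301) (nat_lit 270) (nat_lit 209)) (XT.nd (nat_lit 78) (nat_lit 304) (nat_lit 0) (XT.lf (nat_lit 0) (nat_lit 5595506485) (nat_lit 380) (nat_lit 555158153) (nat_lit 76) (nat_lit 10925426763) (nat_lit 77) (nat_lit 5) (nat_lit 82) (nat_lit 5) (nat_lit 78) (nat_lit 5) (nat_lit 302) (nat_lit 270) (nat_lit 208)) (XT.lf (nat_lit 0) (nat_lit 10640855488) (nat_lit 380) (nat_lit 4393236684) (nat_lit 76)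 (nat_lit 2602479068) (nat_lit 73) (nat_lit 5) (nat_lit 78) (nat_lit 5) (nat_lit 74) (nat_lit 5) (nat_lit 303) (nat_lit 270) (nat_lit 207)))) (XT.nd (nat_lit 78) (nat_lit 608) (nat_lit 0) (XT.lf (nat_lit 0) (nat_lit 9586375437) (nat_lit 228) (nat_lit 6471878522) (nat_lit 304) (nat_lit 2163269395) (nat_lit 70) (nat_lit 5) (nat_lit 73) (nat_lit 5) (nat_lit 74) (nat_lit 5) (nat_lit 304) (nat_lit 270) (nat_lit 206)) (XT.nd (nat_lit 78) (nat_lit 228) (nat_lit 0) (XT.lf (nat_lit 0) (nat_lit 2939026047) (nat_lit 380) (nat_lit 13312419622) (nat_lit 76) (nat_lit 2580925781) (nat_lit 65) (nat_lit 5) (nat_lit 70) (nat_lit 5) (nat_lit 66) (nat_lit 5) (nat_lit 305) (nat_lit 270) (nat_lit 205)) (XT.lf (nat_lit 0) (nat_lit 967410016) (nat_lit 228) (nat_lit 7411019868) (nat_lit 304) (nat_lit 11090924268) (nat_lit 62) (nat_lit 5) (nat_lit 65) (nat_lit 5) (nat_lit 66) (nat_lit 5) (nat_lit 306) (nat_lit 270)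 (nat_lit 204))))) (XT.nd (nat_lit 234) (nat_lit 684) (nat_lit 0) (XT.nd (nat_lit 78) (nat_lit 532) (nat_lit 0) (XT.lf (nat_lit 0) (nat_lit 14209242765) (nat_lit 304) (nat_lit 3968970245) (nat_lit 76) (nat_lit 1956424823) (nat_lit 62) (nat_lit 5) (nat_lit 66) (nat_lit 5) (nat_lit 63) (nat_lit 5) (nat_lit 307) (nat_lit 270) (nat_lit 203)) (XT.nd (nat_lit 78) (nat_lit 304) (nat_lit 0) (XT.lf (nat_lit 0) (nat_lit 11385673414) (nat_lit 228) (nat_lit 9094982633) (nat_lit 304) (nat_lit 348091200) (nat_lit 59) (nat_lit 5) (nat_lit 62) (nat_lit 5) (nat_lit 63) (nat_lit 5) (nat_lit 308) (nat_lit 270) (nat_lit 202)) (XT.lf (nat_lit 0) (nat_lit 5471218848) (nat_lit 304) (nat_lit 15511902361) (nat_lit 76) (nat_lit 570764638) (nat_lit 55) (nat_lit 5) (nat_lit 59) (nat_lit 5) (nat_lit 56) (nat_lit 5) (nat_lit 309) (nat_lit 270) (nat_lit 201)))) (XT.nd (nat_lit 156) (nat_lit 456) (nat_lit 0) (XT.nd (nat_lit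 78) (nat_lit 0) (nat_lit 0) (XT.lf (nat_lit 0) (nat_lit 39811470) (nat_lit 228) (nat_lit 11691526280) (nat_lit 304) (nat_lit 10579158321) (nat_lit 52) (nat_lit 5) (nat_lit 55) (nat_lit 5) (nat_lit 56) (nat_lit 5) (nat_lit 310) (nat_lit 270) (nat_lit 200)) (XT.lf (nat_lit 0) (nat_lit 16643771964) (nat_lit 228) (nat_lit 1788109915) (nat_lit 304) (nat_lit 4669260312) (nat_lit 52) (nat_lit 5) (nat_lit 55) (nat_lit 5) (nat_lit 56) (nat_lit 5) (nat_lit 311) (nat_lit 270) (nat_lit 199))) (XT.nd (nat_lit 78) (nat_lit 228) (nat_lit 0) (XT.lf (nat_lit 0) (nat_lit 1657697854) (nat_lit 228) (nat_lit 13727845791) (nat_lit 76) (nat_lit 8540813617) (nat_lit 49) (nat_lit 5) (nat_lit 52) (nat_lit 5) (nat_lit 50) (nat_lit 5) (nat_lit 312) (nat_lit 270) (nat_lit 198)) (XT.lf (nat_lit 0) (nat_lit 2976356331) (nat_lit 228) (nat_lit 5312586388) (nat_lit 304) (nat_lit 16499992894) (nat_lit 46) (nat_lit 5) (nat_lit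 49) (nat_lit 5) (nat_lit 50) (nat_lit 5) (nat_lit 313) (nat_lit 270) (nat_lit 197)))))) (XT.nd (nat_lit 546) (nat_lit 684) (nat_lit 0) (XT.nd (nat_lit 234) (nat_lit 380) (nat_lit 0) (XT.nd (nat_lit 78) (nat_lit 456) (nat_lit 0) (XT.lf (nat_lit 0) (nat_lit 15415721869) (nat_lit 304) (nat_lit 4986327610) (nat_lit 76) (nat_lit 5287697695) (nat_lit 46) (nat_lit 5) (nat_lit 50) (nat_lit 5) (nat_lit 47) (nat_lit 5) (nat_lit 314) (nat_lit 270) (nat_lit 196)) (XT.nd (nat_lit 78) (nat_lit 304) (nat_lit 0) (XT.lf (nat_lit 0) (nat_lit 12833700255) (nat_lit 152) (nat_lit 10214179503) (nat_lit 228) (nat_lit 3583270695) (nat_lit 44) (nat_lit 5) (nat_lit 46) (nat_lit 5) (nat_lit 47) (nat_lit 5) (nat_lit 315) (nat_lit 270) (nat_lit 195)) (XT.lf (nat_lit 0) (nat_lit 3443847199) (nat_lit 304) (nat_lit 23590170334) (nat_lit 76) (nat_lit 582564654) (nat_lit 40) (nat_lit 5) (nat_lit 44) (nat_lit 5) (nat_lit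 41) (nat_lit 5) (nat_lit 316) (nat_lit 270) (nat_lit 194)))) (XT.nd (nat_lit 156) (nat_lit 228) (nat_lit 0) (XT.nd (nat_lit 78) (nat_lit 152) (nat_lit 0) (XT.lf (nat_lit 0) (nat_lit 10968856765) (nat_lit 304) (nat_lit 5800946740) (nat_lit 76) (nat_lit 11873818037) (nat_lit 40) (nat_lit 5) (nat_lit 44) (nat_lit 5) (nat_lit 41) (nat_lit 5) (nat_lit 317) (nat_lit 270) (nat_lit 193)) (XT.lf (nat_lit 0) (nat_lit 13092216164) (nat_lit 152) (nat_lit 5878438076) (nat_lit 228) (nat_lit 10748361232) (nat_lit 38) (nat_lit 5) (nat_lit 40) (nat_lit 5) (nat_lit 41) (nat_lit 5) (nat_lit 318) (nat_lit 270) (nat_lit 192))) (XT.nd (nat_lit 78) (nat_lit 76) (nat_lit 0) (XT.lf (nat_lit 0) (nat_lit 2152432605) (nat_lit 152) (nat_lit 25329890634) (nat_lit 228) (nat_lit 3362580250) (nat_lit 36) (nat_lit 5) (nat_lit 38) (nat_lit 5) (nat_lit 39) (nat_lit 5) (nat_lit 319) (nat_lit 270) (nat_lit 191)) (XT.lf (nat_lit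 0) (nat_lit 4514867107) (nat_lit 228) (nat_lit 9946889564) (nat_lit 76) (nat_lit 17557836313) (nat_lit 35) (nat_lit 5) (nat_lit 38) (nat_lit 5) (nat_lit 36) (nat_lit 5) (nat_lit 320) (nat_lit 270) (nat_lit 190))))) (XT.nd (nat_lit 234) (nat_lit 380) (nat_lit 0) (XT.nd (nat_lit 78) (nat_lit 152) (nat_lit 0) (XT.lf (nat_lit 0) (nat_lit 9856495509) (nat_lit 152) (nat_lit 2932593761) (nat_lit 228) (nat_lit 20460771234) (nat_lit 33) (nat_lit 5) (nat_lit 35) (nat_lit 5) (nat_lit 36) (nat_lit 5) (nat_lit 321) (nat_lit 270) (nat_lit 189)) (XT.nd (nat_lit 78) (nat_lit 152) (nat_lit 0) (XT.lf (nat_lit 0) (nat_lit 21646259169) (nat_lit 228) (nat_lit 3807176747) (nat_lit 76) (nat_lit 9083143349) (nat_lit 33) (nat_lit 5) (nat_lit 36) (nat_lit 5) (nat_lit 34) (nat_lit 5) (nat_lit 322) (nat_lit 270) (nat_lit 188)) (XT.lf (nat_lit 0) (nat_lit 17025398674) (nat_lit 152) (nat_lit 14092862640) (nat_lit 228)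 (nat_lit 4764227685) (nat_lit 31) (nat_lit 5) (nat_lit 33) (nat_lit 5) (nat_lit 34) (nat_lit 5) (nat_lit 323) (nat_lit 270) (nat_lit 187)))) (XT.nd (nat_lit 156) (nat_lit 152) (nat_lit 0) (XT.nd (nat_lit 78) (nat_lit 0) (nat_lit 0) (XT.lf (nat_lit 0) (nat_lit 1645178342) (nat_lit 152) (nat_lit 2084034605) (nat_lit 228) (nat_lit 33564370566) (nat_lit 28) (nat_lit 5) (nat_lit 30) (nat_lit 5) (nat_lit 31) (nat_lit 5) (nat_lit 324) (nat_lit 270) (nat_lit 186)) (XT.lf (nat_lit 0) (nat_lit 12826636548) (nat_lit 228) (nat_lit 15388415194) (nat_lit 76) (nat_lit 10550443167) (nat_lit 28) (nat_lit 5) (nat_lit 31) (nat_lit 5) (nat_lit 29) (nat_lit 5) (nat_lit 325) (nat_lit 270) (nat_lit 185))) (XT.nd (nat_lit 78) (nat_lit 0) (nat_lit 0) (XT.lf (nat_lit 0) (nat_lit 5946782112) (nat_lit 152) (nat_lit 16491026547) (nat_lit 228) (nat_lit 17871438847) (nat_lit 26) (nat_lit 5) (nat_lit 28) (nat_lit 5) (nat_lit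 29) (nat_lit 5) (nat_lit 326) (nat_lit 270) (nat_lit 184)) (XT.lf (nat_lit 0) (nat_lit 28638451484) (nat_lit 152) (nat_lit 4030790412) (nat_lit 228) (nat_lit 9256766141) (nat_lit 26) (nat_lit 5) (nat_lit 28) (nat_lit 5) (nat_lit 29) (nat_lit 5) (nat_lit 327) (nat_lit 270) (nat_lit 183))))))))
noncomputable def xc69 : XT := (XT.nd (nat_lit 2028) (nat_lit 152) (nat_lit 0) (XT.nd (nat_lit 1014) (nat_lit 380) (nat_lit 0) (XT.nd (nat_lit 468) (nat_lit 456) (nat_lit 0) (XT.nd (nat_lit 234) (nat_lit 152) (nat_lit 0) (XT.nd (nat_lit 78) (nat_lit 228) (nat_lit 0) (XT.lf (nat_lit 0) (nat_lit 8896922791) (nat_lit 76) (nat_lit 34669927220) (nat_lit 152) (nat_lit 52129327) (nat_lit 25) (nat_lit 5) (nat_lit 26) (nat_lit 5) (nat_lit 27) (nat_lit 4) (nat_lit 328) (nat_lit 270) (nat_lit 182)) (XT.nd (nat_lit 78) (nat_lit 152) (nat_lit 0) (XT.lf (nat_lit 0) (nat_lit 9586429422) (nat_lit 152) (nat_lit 13088885882)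 (nat_lit 76) (nat_lit 22713683739) (nat_lit 24) (nat_lit 5) (nat_lit 26) (nat_lit 5) (nat_lit 25) (nat_lit 5) (nat_lit 329) (nat_lit 270) (nat_lit 181)) (XT.lf (nat_lit 0) (nat_lit 9787603247) (nat_lit 152) (nat_lit 9995612585) (nat_lit 228) (nat_lit 27461976628) (nat_lit 22) (nat_lit 5) (nat_lit 24) (nat_lit 5) (nat_lit 25) (nat_lit 5) (nat_lit 330) (nat_lit 270) (nat_lit 180)))) (XT.nd (nat_lit 78) (nat_lit 152) (nat_lit 0) (XT.lf (nat_lit 0) (nat_lit 30641506634) (nat_lit 228) (nat_lit 15170307807) (nat_lit 76) (nat_lit 3377840245) (nat_lit 22) (nat_lit 5) (nat_lit 25) (nat_lit 5) (nat_lit 23) (nat_lit 4) (nat_lit 331) (nat_lit 270) (nat_lit 179)) (XT.nd (nat_lit 78) (nat_lit 76) (nat_lit 0) (XT.lf (nat_lit 0) (nat_lit 8264713327) (nat_lit 76) (nat_lit 33942805720) (nat_lit 152) (nat_lit 9018885423) (nat_lit 21) (nat_lit 5) (nat_lit 22) (nat_lit 5) (nat_lit 23) (nat_lit 4) (nat_lit 332)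 (nat_lit 270) (nat_lit 178)) (XT.lf (nat_lit 0) (nat_lit 1110098271) (nat_lit 152) (nat_lit 20209385481) (nat_lit 76) (nat_lit 32040955971) (nat_lit 20) (nat_lit 5) (nat_lit 22) (nat_lit 5) (nat_lit 21) (nat_lit 5) (nat_lit 333) (nat_lit 270) (nat_lit 177))))) (XT.nd (nat_lit 234) (nat_lit 304) (nat_lit 0) (XT.nd (nat_lit 78) (nat_lit 0) (nat_lit 0) (XT.lf (nat_lit 0) (nat_lit 3635158107) (nat_lit 152) (nat_lit 7946053179) (nat_lit 228) (nat_lit 44016628062) (nat_lit 18) (nat_lit 5) (nat_lit 20) (nat_lit 5) (nat_lit 21) (nat_lit 5) (nat_lit 334) (nat_lit 270) (nat_lit 176)) (XT.nd (nat_lit 78) (nat_lit 0) (nat_lit 0) (XT.lf (nat_lit 0) (nat_lit 22830455550) (nat_lit 228) (nat_lit 28932165381) (nat_lit 76) (nat_lit 6176858019) (nat_lit 18) (nat_lit 5) (nat_lit 21) (nat_lit 5) (nat_lit 19) (nat_lit 4) (nat_lit 335) (nat_lit 270) (nat_lit 175)) (XT.lf (nat_lit 0) (nat_lit 34708914964) (nat_lit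 228) (nat_lit 4854024613) (nat_lit 76) (nat_lit 20833265282) (nat_lit 18) (nat_lit 5) (nat_lit 21) (nat_lit 5) (nat_lit 19) (nat_lit 4) (nat_lit 336) (nat_lit 270) (nat_lit 174)))) (XT.nd (nat_lit 156) (nat_lit 228) (nat_lit 0) (XT.nd (nat_lit 78) (nat_lit 0) (nat_lit 0) (XT.lf (nat_lit 0) (nat_lit 20811560802) (nat_lit 76) (nat_lit 26556981903) (nat_lit 152) (nat_lit 15601613584) (nat_lit 17) (nat_lit 5) (nat_lit 18) (nat_lit 5) (nat_lit 19) (nat_lit 4) (nat_lit 337) (nat_lit 270) (nat_lit 173)) (XT.lf (nat_lit 0) (nat_lit 47839936415) (nat_lit 76) (nat_lit 12858774383) (nat_lit 152) (nat_lit 4972973995) (nat_lit 17) (nat_lit 5) (nat_lit 18) (nat_lit 5) (nat_lit 19) (nat_lit 4) (nat_lit 338) (nat_lit 270) (nat_lit 172))) (XT.nd (nat_lit 78) (nat_lit 0) (nat_lit 0) (XT.lf (nat_lit 0) (nat_lit 6145130529) (nat_lit 228) (nat_lit 60737807076) (nat_lit 76) (nat_lit 1621210727) (nat_lit 14) (nat_lit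 5) (nat_lit 17) (nat_lit 5) (nat_lit 15) (nat_lit 4) (nat_lit 339) (nat_lit 270) (nat_lit 171)) (XT.lf (nat_lit 0) (nat_lit 18020758369) (nat_lit 228) (nat_lit 36658343779) (nat_lit 76) (nat_lit 16788527299) (nat_lit 14) (nat_lit 5) (nat_lit 17) (nat_lit 5) (nat_lit 15) (nat_lit 4) (nat_lit 340) (nat_lit 270) (nat_lit 170)))))) (XT.nd (nat_lit 468) (nat_lit 152) (nat_lit 0) (XT.nd (nat_lit 234) (nat_lit 152) (nat_lit 0) (XT.nd (nat_lit 78) (nat_lit 76) (nat_lit 0) (XT.lf (nat_lit 0) (nat_lit 30479067093) (nat_lit 228) (nat_lit 11394702038) (nat_lit 76) (nat_lit 32705853761) (nat_lit 14) (nat_lit 5) (nat_lit 17) (nat_lit 5) (nat_lit 15) (nat_lit 4) (nat_lit 341) (nat_lit 270) (nat_lit 169)) (XT.nd (nat_lit 78) (nat_lit 0) (nat_lit 0) (XT.lf (nat_lit 0) (nat_lit 15414053374) (nat_lit 76) (nat_lit 28283835277) (nat_lit 152) (nat_lit 34145204447) (nat_lit 13) (nat_lit 5) (nat_lit 14) (nat_lit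 5) (nat_lit 15) (nat_lit 4) (nat_lit 342) (nat_lit 270) (nat_lit 168)) (XT.lf (nat_lit 0) (nat_lit 43783050593) (nat_lit 76) (nat_lit 13901654587) (nat_lit 152) (nat_lit 23581824789) (nat_lit 13) (nat_lit 5) (nat_lit 14) (nat_lit 5) (nat_lit 15) (nat_lit 4) (nat_lit 343) (nat_lit 270) (nat_lit 167)))) (XT.nd (nat_lit 78) (nat_lit 152) (nat_lit 0) (XT.lf (nat_lit 0) (nat_lit 72372563631) (nat_lit 152) (nat_lit 11319835765) (nat_lit 0) (nat_lit 1168692799) (nat_lit 13) (nat_lit 5) (nat_lit 15) (nat_lit 4) (nat_lit 13) (nat_lit 4) (nat_lit 344) (nat_lit 270) (nat_lit 166)) (XT.nd (nat_lit 78) (nat_lit 76) (nat_lit 0) (XT.lf (nat_lit 0) (nat_lit 16313184213) (nat_lit 76) (nat_lit 71769393454) (nat_lit 76) (nat_lit 544176313) (nat_lit 12) (nat_lit 4) (nat_lit 13) (nat_lit 5) (nat_lit 13) (nat_lit 4) (nat_lit 345) (nat_lit 270) (nat_lit 165)) (XT.lf (nat_lit 0) (nat_lit 11871795120) (nat_lit 152)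 (nat_lit 47145802864) (nat_lit 76) (nat_lit 33556389667) (nat_lit 11) (nat_lit 5) (nat_lit 13) (nat_lit 5) (nat_lit 12) (nat_lit 4) (nat_lit 346) (nat_lit 270) (nat_lit 164))))) (XT.nd (nat_lit 234) (nat_lit 76) (nat_lit 0) (XT.nd (nat_lit 78) (nat_lit 76) (nat_lit 0) (XT.lf (nat_lit 0) (nat_lit 24888684363) (nat_lit 152) (nat_lit 20740879432) (nat_lit 76) (nat_lit 51089120174) (nat_lit 11) (nat_lit 5) (nat_lit 13) (nat_lit 5) (nat_lit 12) (nat_lit 4) (nat_lit 347) (nat_lit 270) (nat_lit 163)) (XT.nd (nat_lit 78) (nat_lit 0) (nat_lit 0) (XT.lf (nat_lit 0) (nat_lit 7108003090) (nat_lit 76) (nat_lit 31508426231) (nat_lit 152) (nat_lit 62452389074) (nat_lit 10) (nat_lit 5) (nat_lit 11) (nat_lit 5) (nat_lit 12) (nat_lit 4) (nat_lit 348) (nat_lit 270) (nat_lit 162)) (XT.lf (nat_lit 0) (nat_lit 36768192975) (nat_lit 76) (nat_lit 16467818389) (nat_lit 152) (nat_lit 52394288142) (nat_lit 10) (nat_lit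 5) (nat_lit 11) (nat_lit 5) (nat_lit 12) (nat_lit 4) (nat_lit 349) (nat_lit 270) (nat_lit 161)))) (XT.nd (nat_lit 156) (nat_lit 76) (nat_lit 0) (XT.nd (nat_lit 78) (nat_lit 0) (nat_lit 0) (XT.lf (nat_lit 0) (nat_lit 67897525552) (nat_lit 76) (nat_lit 681371511) (nat_lit 152) (nat_lit 41841191165) (nat_lit 10) (nat_lit 5) (nat_lit 11) (nat_lit 5) (nat_lit 12) (nat_lit 4) (nat_lit 350) (nat_lit 270) (nat_lit 160)) (XT.lf (nat_lit 0) (nat_lit 84834347091) (nat_lit 152) (nat_lit 15032200533) (nat_lit 0) (nat_lit 15578459294) (nat_lit 10) (nat_lit 5) (nat_lit 12) (nat_lit 4) (nat_lit 10) (nat_lit 4) (nat_lit 351) (nat_lit 270) (nat_lit 159))) (XT.nd (nat_lit 78) (nat_lit 0) (nat_lit 0) (XT.lf (nat_lit 0) (nat_lit 14087974128) (nat_lit 76) (nat_lit 87949879129) (nat_lit 76) (nat_lit 18679262765) (nat_lit 9) (nat_lit 4) (nat_lit 10) (nat_lit 5) (nat_lit 10) (nat_lit 4) (nat_lit 352) (nat_lit 270)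 (nat_lit 158)) (XT.lf (nat_lit 0) (nat_lit 44965915903) (nat_lit 76) (nat_lit 75283561407) (nat_lit 76) (nat_lit 5998917837) (nat_lit 9) (nat_lit 4) (nat_lit 10) (nat_lit 5) (nat_lit 10) (nat_lit 4) (nat_lit 353) (nat_lit 270) (nat_lit 157))))))) (XT.nd (nat_lit 34632) (nat_lit 0) (nat_lit 9424) (XT.nd (nat_lit 468) (nat_lit 0) (nat_lit 0) (XT.nd (nat_lit 234) (nat_lit 0) (nat_lit 0) (XT.nd (nat_lit 78) (nat_lit 76) (nat_lit 0) (XT.lf (nat_lit 0) (nat_lit 7166150065) (nat_lit 152) (nat_lit 54750718180) (nat_lit 76) (nat_lit 70137459305) (nat_lit 8) (nat_lit 5) (nat_lit 10) (nat_lit 5) (nat_lit 9) (nat_lit 4) (nat_lit 354) (nat_lit 270) (nat_lit 156)) (XT.nd (nat_lit 78) (nat_lit 76) (nat_lit 0) (XT.lf (nat_lit 0) (nat_lit 20860325841) (nat_lit 152) (nat_lit 26964264444) (nat_lit 76) (nat_lit 90324339297) (nat_lit 8) (nat_lit 5) (nat_lit 10) (nat_lit 5) (nat_lit 9) (nat_lit 4) (nat_lit 355)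 (nat_lit 270) (nat_lit 155)) (XT.lf (nat_lit 0) (nat_lit 2244503808) (nat_lit 76) (nat_lit 33010346900) (nat_lit 152) (nat_lit 109292944184) (nat_lit 7) (nat_lit 5) (nat_lit 8) (nat_lit 5) (nat_lit 9) (nat_lit 4) (nat_lit 356) (nat_lit 270) (nat_lit 154)))) (XT.nd (nat_lit 78) (nat_lit 0) (nat_lit 0) (XT.lf (nat_lit 0) (nat_lit 33466687536) (nat_lit 76) (nat_lit 17174234080) (nat_lit 152) (nat_lit 100617529528) (nat_lit 7) (nat_lit 5) (nat_lit 8) (nat_lit 5) (nat_lit 9) (nat_lit 4) (nat_lit 357) (nat_lit 270) (nat_lit 153)) (XT.nd (nat_lit 78) (nat_lit 0) (nat_lit 0) (XT.lf (nat_lit 0) (nat_lit 66239983540) (nat_lit 76) (nat_lit 550832996) (nat_lit 152) (nat_lit 91513990223) (nat_lit 7) (nat_lit 5) (nat_lit 8) (nat_lit 5) (nat_lit 9) (nat_lit 4) (nat_lit 358) (nat_lit 270) (nat_lit 152)) (XT.lf (nat_lit 0) (nat_lit 83905435313) (nat_lit 152) (nat_lit 65223663013) (nat_lit 0) (nat_lit 16569667015)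 (nat_lit 7) (nat_lit 5) (nat_lit 9) (nat_lit 4) (nat_lit 7) (nat_lit 4) (nat_lit 359) (nat_lit 270) (nat_lit 151))))) (XT.nd (nat_lit 33852) (nat_lit 0) (nat_lit 16112) (XT.nd (nat_lit 33696) (nat_lit 0) (nat_lit 17024) (XT.lf (nat_lit 0) (nat_lit 101876335233) (nat_lit 152) (nat_lit 37055183660) (nat_lit 0) (nat_lit 34530888417) (nat_lit 7) (nat_lit 5) (nat_lit 9) (nat_lit 4) (nat_lit 7) (nat_lit 4) (nat_lit 360) (nat_lit 270) (nat_lit 150)) (XT.nd (nat_lit 78) (nat_lit 0) (nat_lit 0) (XT.lf (nat_lit 0) (nat_lit 1040278750) (nat_lit 0) (nat_lit 1040278750) (nat_lit 836) (nat_lit 1858124646) (nat_lit 231) (nat_lit 5) (nat_lit 231) (nat_lit 3) (nat_lit 242) (nat_lit 3) (nat_lit 271) (nat_lit 271) (nat_lit 238)) (XT.lf (nat_lit 76) (nat_lit 60579739) (nat_lit 0) (nat_lit 6161025338) (nat_lit 912) (nat_lit 1790429311) (nat_lit 232) (nat_lit 5) (nat_lit 231) (nat_lit 5) (nat_lit 243) (nat_lit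 5) (nat_lit 272) (nat_lit 271) (nat_lit 237)))) (XT.nd (nat_lit 156) (nat_lit 0) (nat_lit 76) (XT.nd (nat_lit 78) (nat_lit 0) (nat_lit 76) (XT.lf (nat_lit 0) (nat_lit 182875488) (nat_lit 912) (nat_lit 1914104393) (nat_lit 988) (nat_lit 6057941729) (nat_lit 219) (nat_lit 5) (nat_lit 231) (nat_lit 5) (nat_lit 232) (nat_lit 5) (nat_lit 273) (nat_lit 271) (nat_lit 236)) (XT.lf (nat_lit 0) (nat_lit 2163102847) (nat_lit 912) (nat_lit 3902734115) (nat_lit 988) (nat_lit 2240437147) (nat_lit 220) (nat_lit 5) (nat_lit 232) (nat_lit 5) (nat_lit 233) (nat_lit 5) (nat_lit 274) (nat_lit 271) (nat_lit 235))) (XT.nd (nat_lit 78) (nat_lit 0) (nat_lit 76) (XT.lf (nat_lit 76) (nat_lit 2571858432) (nat_lit 0) (nat_lit 1622238407) (nat_lit 988) (nat_lit 4272745987) (nat_lit 221) (nat_lit 5) (nat_lit 220) (nat_lit 5) (nat_lit 233) (nat_lit 5) (nat_lit 275) (nat_lit 271) (nat_lit 234)) (XT.lf (nat_lit 76) (nat_lit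 730797012) (nat_lit 0) (nat_lit 5563849990) (nat_lit 988) (nat_lit 2341944448) (nat_lit 222) (nat_lit 5) (nat_lit 221) (nat_lit 5) (nat_lit 234) (nat_lit 5) (nat_lit 276) (nat_lit 271) (nat_lit 233)))))) (XT.nd (nat_lit 546) (nat_lit 3952) (nat_lit 0) (XT.nd (nat_lit 234) (nat_lit 1976) (nat_lit 0) (XT.nd (nat_lit 78) (nat_lit 912) (nat_lit 0) (XT.lf (nat_lit 76) (nat_lit 7725089052) (nat_lit 0) (nat_lit 747702051) (nat_lit 988) (nat_lit 343041950) (nat_lit 222) (nat_lit 5) (nat_lit 221) (nat_lit 5) (nat_lit 234) (nat_lit 5) (nat_lit 277) (nat_lit 271) (nat_lit 232)) (XT.nd (nat_lit 78) (nat_lit 0) (nat_lit 76) (XT.lf (nat_lit 0) (nat_lit 1722136981) (nat_lit 988) (nat_lit 2948379784) (nat_lit 1064) (nat_lit 4333164616) (nat_lit 209) (nat_lit 5) (nat_lit 222) (nat_lit 5) (nat_lit 223) (nat_lit 5) (nat_lit 278) (nat_lit 271) (nat_lit 231)) (XT.lf (nat_lit 0) (nat_lit 3853679850) (nat_lit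 988) (nat_lit 4821401030) (nat_lit 1064) (nat_lit 526794109) (nat_lit 210) (nat_lit 5) (nat_lit 223) (nat_lit 5) (nat_lit 224) (nat_lit 5) (nat_lit 279) (nat_lit 271) (nat_lit 230)))) (XT.nd (nat_lit 156) (nat_lit 1140) (nat_lit 0) (XT.nd (nat_lit 78) (nat_lit 912) (nat_lit 0) (XT.lf (nat_lit 76) (nat_lit 2662134190) (nat_lit 0) (nat_lit 3441134313) (nat_lit 1064) (nat_lit 3306518805) (nat_lit 211) (nat_lit 5) (nat_lit 210) (nat_lit 5) (nat_lit 224) (nat_lit 5) (nat_lit 280) (nat_lit 271) (nat_lit 229)) (XT.lf (nat_lit 0) (nat_lit 920065343) (nat_lit 988) (nat_lit 7535979214) (nat_lit 1064) (nat_lit 1172475251) (nat_lit 198) (nat_lit 5) (nat_lit 211) (nat_lit 5) (nat_lit 212) (nat_lit 5) (nat_lit 281) (nat_lit 271) (nat_lit 228))) (XT.nd (nat_lit 78) (nat_lit 1064) (nat_lit 0) (XT.lf (nat_lit 0) (nat_lit 1066846137) (nat_lit 1064) (nat_lit 861040955) (nat_lit 76) (nat_lit 7929545944) (nat_lit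 197) (nat_lit 5) (nat_lit 211) (nat_lit 5) (nat_lit 198) (nat_lit 5) (nat_lit 282) (nat_lit 271) (nat_lit 227)) (XT.lf (nat_lit 0) (nat_lit 3423304001) (nat_lit 1140) (nat_lit 2692736708) (nat_lit 76) (nat_lit 3980648781) (nat_lit 183) (nat_lit 5) (nat_lit 198) (nat_lit 5) (nat_lit 184) (nat_lit 5) (nat_lit 283) (nat_lit 271) (nat_lit 226))))) (XT.nd (nat_lit 234) (nat_lit 1596) (nat_lit 0) (XT.nd (nat_lit 78) (nat_lit 1216) (nat_lit 0) (XT.lf (nat_lit 0) (nat_lit 5777076936) (nat_lit 1140) (nat_lit 126417254) (nat_lit 1216) (nat_lit 4444359574) (nat_lit 168) (nat_lit 5) (nat_lit 183) (nat_lit 5) (nat_lit 184) (nat_lit 5) (nat_lit 284) (nat_lit 271) (nat_lit 225)) (XT.nd (nat_lit 78) (nat_lit 684) (nat_lit 0) (XT.lf (nat_lit 0) (nat_lit 4066615640) (nat_lit 532) (nat_lit 4492523306) (nat_lit 608) (nat_lit 2051010411) (nat_lit 161) (nat_lit 5) (nat_lit 168) (nat_lit 5) (nat_lit 169) (nat_lit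 5) (nat_lit 285) (nat_lit 271) (nat_lit 224)) (XT.lf (nat_lit 0) (nat_lit 469222655) (nat_lit 684) (nat_lit 8585944710) (nat_lit 76) (nat_lit 1829879859) (nat_lit 152) (nat_lit 5) (nat_lit 161) (nat_lit 5) (nat_lit 153) (nat_lit 5) (nat_lit 286) (nat_lit 271) (nat_lit 223)))) (XT.nd (nat_lit 156) (nat_lit 1064) (nat_lit 0) (XT.nd (nat_lit 78) (nat_lit 0) (nat_lit 0) (XT.lf (nat_lit 0) (nat_lit 421485468) (nat_lit 532) (nat_lit 2699455779) (nat_lit 608) (nat_lit 8050805322) (nat_lit 145) (nat_lit 5) (nat_lit 152) (nat_lit 5) (nat_lit 153) (nat_lit 5) (nat_lit 287) (nat_lit 271) (nat_lit 222)) (XT.lf (nat_lit 0) (nat_lit 5965469741) (nat_lit 608) (nat_lit 1519606262) (nat_lit 76) (nat_lit 3985995831) (nat_lit 145) (nat_lit 5) (nat_lit 153) (nat_lit 5) (nat_lit 146) (nat_lit 5) (nat_lit 288) (nat_lit 271) (nat_lit 221))) (XT.nd (nat_lit 78) (nat_lit 532) (nat_lit 0) (XT.lf (nat_lit 0) (nat_lit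 8240315139) (nat_lit 532) (nat_lit 754331715) (nat_lit 608) (nat_lit 2789536860) (nat_lit 138) (nat_lit 5) (nat_lit 145) (nat_lit 5) (nat_lit 146) (nat_lit 5) (nat_lit 289) (nat_lit 271) (nat_lit 220)) (XT.lf (nat_lit 0) (nat_lit 138221065) (nat_lit 532) (nat_lit 5706279627) (nat_lit 76) (nat_lit 6266205358) (nat_lit 131) (nat_lit 5) (nat_lit 138) (nat_lit 5) (nat_lit 132) (nat_lit 5) (nat_lit 290) (nat_lit 271) (nat_lit 219))))))))
noncomputable def xc70 : XT := (XT.nd (nat_lit 2028) (nat_lit 2356) (nat_lit 0) (XT.nd (nat_lit 1014) (nat_lit 2204) (nat_lit 0) (XT.nd (nat_lit 468) (nat_lit 2204) (nat_lit 0) (XT.nd (nat_lit 234) (nat_lit 836) (nat_lit 0) (XT.nd (nat_lit 78) (nat_lit 912) (nat_lit 0) (XT.lf (nat_lit 0) (nat_lit 3194795138) (nat_lit 532) (nat_lit 8006878689) (nat_lit 76) (nat_lit 1249930411) (nat_lit 125) (nat_lit 5) (nat_lit 132) (nat_lit 5) (nat_lit 126) (nat_lit 5) (nat_lit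 291) (nat_lit 271) (nat_lit 218)) (XT.nd (nat_lit 78) (nat_lit 456) (nat_lit 0) (XT.lf (nat_lit 0) (nat_lit 2335625850) (nat_lit 456) (nat_lit 4151555807) (nat_lit 532) (nat_lit 6319954178) (nat_lit 119) (nat_lit 5) (nat_lit 125) (nat_lit 5) (nat_lit 126) (nat_lit 5) (nat_lit 292) (nat_lit 271) (nat_lit 217)) (XT.lf (nat_lit 0) (nat_lit 89357919) (nat_lit 456) (nat_lit 9914469455) (nat_lit 532) (nat_lit 3174901741) (nat_lit 113) (nat_lit 5) (nat_lit 119) (nat_lit 5) (nat_lit 120) (nat_lit 5) (nat_lit 293) (nat_lit 271) (nat_lit 216)))) (XT.nd (nat_lit 78) (nat_lit 760) (nat_lit 0) (XT.lf (nat_lit 0) (nat_lit 221417908) (nat_lit 532) (nat_lit 2276980479) (nat_lit 76) (nat_lit 11067640611) (nat_lit 112) (nat_lit 5) (nat_lit 119) (nat_lit 5) (nat_lit 113) (nat_lit 5) (nat_lit 294) (nat_lit 271) (nat_lit 215)) (XT.nd (nat_lit 78) (nat_lit 380) (nat_lit 0) (XT.lf (nat_lit 0) (nat_lit 3810823107)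 (nat_lit 456) (nat_lit 4861053382) (nat_lit 76) (nat_lit 5297292329) (nat_lit 107) (nat_lit 5) (nat_lit 113) (nat_lit 5) (nat_lit 108) (nat_lit 5) (nat_lit 295) (nat_lit 271) (nat_lit 214)) (XT.lf (nat_lit 0) (nat_lit 6763973172) (nat_lit 380) (nat_lit 879750766) (nat_lit 456) (nat_lit 6746872744) (nat_lit 102) (nat_lit 5) (nat_lit 107) (nat_lit 5) (nat_lit 108) (nat_lit 5) (nat_lit 296) (nat_lit 271) (nat_lit 213))))) (XT.nd (nat_lit 234) (nat_lit 1368) (nat_lit 0) (XT.nd (nat_lit 78) (nat_lit 456) (nat_lit 0) (XT.lf (nat_lit 0) (nat_lit 4190814877) (nat_lit 380) (nat_lit 7590284745) (nat_lit 456) (nat_lit 3048670769) (nat_lit 97) (nat_lit 5) (nat_lit 102) (nat_lit 5) (nat_lit 103) (nat_lit 5) (nat_lit 297) (nat_lit 271) (nat_lit 212)) (XT.nd (nat_lit 78) (nat_lit 0) (nat_lit 0) (XT.lf (nat_lit 0) (nat_lit 878268992) (nat_lit 456) (nat_lit 13874113870) (nat_lit 76) (nat_lit 536530840) (nat_lit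 91) (nat_lit 5) (nat_lit 97) (nat_lit 5) (nat_lit 92) (nat_lit 5) (nat_lit 298) (nat_lit 271) (nat_lit 211)) (XT.lf (nat_lit 0) (nat_lit 5080892331) (nat_lit 456) (nat_lit 1641973107) (nat_lit 76) (nat_lit 9043023821) (nat_lit 91) (nat_lit 5) (nat_lit 97) (nat_lit 5) (nat_lit 92) (nat_lit 5) (nat_lit 299) (nat_lit 271) (nat_lit 210)))) (XT.nd (nat_lit 156) (nat_lit 684) (nat_lit 0) (XT.nd (nat_lit 78) (nat_lit 380) (nat_lit 0) (XT.lf (nat_lit 0) (nat_lit 9577038479) (nat_lit 380) (nat_lit 4915088055) (nat_lit 76) (nat_lit 1772135084) (nat_lit 87) (nat_lit 5) (nat_lit 92) (nat_lit 5) (nat_lit 88) (nat_lit 5) (nat_lit 300) (nat_lit 271) (nat_lit 209)) (XT.lf (nat_lit 0) (nat_lit 8274516592) (nat_lit 380) (nat_lit 6146096214) (nat_lit 456) (nat_lit 2363308564) (nat_lit 82) (nat_lit 5) (nat_lit 87) (nat_lit 5) (nat_lit 88) (nat_lit 5) (nat_lit 301) (nat_lit 271) (nat_lit 208))) (XT.nd (nat_lit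 78) (nat_lit 304) (nat_lit 0) (XT.lf (nat_lit 0) (nat_lit 2218072618) (nat_lit 380) (nat_lit 12435975387) (nat_lit 76) (nat_lit 2672419747) (nat_lit 77) (nat_lit 5) (nat_lit 82) (nat_lit 5) (nat_lit 78) (nat_lit 5) (nat_lit 302) (nat_lit 271) (nat_lit 207)) (XT.lf (nat_lit 0) (nat_lit 1125072275) (nat_lit 304) (nat_lit 5976811178) (nat_lit 380) (nat_lit 10789930646) (nat_lit 73) (nat_lit 5) (nat_lit 77) (nat_lit 5) (nat_lit 78) (nat_lit 5) (nat_lit 303) (nat_lit 271) (nat_lit 206)))))) (XT.nd (nat_lit 468) (nat_lit 1064) (nat_lit 0) (XT.nd (nat_lit 234) (nat_lit 532) (nat_lit 0) (XT.nd (nat_lit 78) (nat_lit 608) (nat_lit 0) (XT.lf (nat_lit 0) (nat_lit 12350993952) (nat_lit 380) (nat_lit 2943223412) (nat_lit 76) (nat_lit 3187616880) (nat_lit 73) (nat_lit 5) (nat_lit 78) (nat_lit 5) (nat_lit 74) (nat_lit 5) (nat_lit 304) (nat_lit 271) (nat_lit 205)) (XT.nd (nat_lit 78) (nat_lit 380) (nat_lit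 0) (XT.lf (nat_lit 0) (nat_lit 11687508414) (nat_lit 228) (nat_lit 6311244008) (nat_lit 304) (nat_lit 1098555062) (nat_lit 70) (nat_lit 5) (nat_lit 73) (nat_lit 5) (nat_lit 74) (nat_lit 5) (nat_lit 305) (nat_lit 271) (nat_lit 204)) (XT.lf (nat_lit 0) (nat_lit 4201265374) (nat_lit 380) (nat_lit 12349683120) (nat_lit 76) (nat_lit 3188506175) (nat_lit 65) (nat_lit 5) (nat_lit 70) (nat_lit 5) (nat_lit 66) (nat_lit 5) (nat_lit 306) (nat_lit 271) (nat_lit 203)))) (XT.nd (nat_lit 78) (nat_lit 304) (nat_lit 0) (XT.lf (nat_lit 0) (nat_lit 2597461461) (nat_lit 228) (nat_lit 7277273074) (nat_lit 304) (nat_lit 10534740390) (nat_lit 62) (nat_lit 5) (nat_lit 65) (nat_lit 5) (nat_lit 66) (nat_lit 5) (nat_lit 307) (nat_lit 271) (nat_lit 202)) (XT.nd (nat_lit 78) (nat_lit 304) (nat_lit 0) (XT.lf (nat_lit 0) (nat_lit 15950400879) (nat_lit 304) (nat_lit 2633913748) (nat_lit 76) (nat_lit 2525157609) (nat_lit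 62) (nat_lit 5) (nat_lit 66) (nat_lit 5) (nat_lit 63) (nat_lit 5) (nat_lit 308) (nat_lit 271) (nat_lit 201)) (XT.lf (nat_lit 0) (nat_lit 648342718) (nat_lit 304) (nat_lit 8401228315) (nat_lit 76) (nat_lit 12789614773) (nat_lit 58) (nat_lit 5) (nat_lit 62) (nat_lit 5) (nat_lit 59) (nat_lit 5) (nat_lit 309) (nat_lit 271) (nat_lit 200))))) (XT.nd (nat_lit 234) (nat_lit 608) (nat_lit 0) (XT.nd (nat_lit 78) (nat_lit 228) (nat_lit 0) (XT.lf (nat_lit 0) (nat_lit 6722402917) (nat_lit 304) (nat_lit 14795014926) (nat_lit 76) (nat_lit 1083973589) (nat_lit 55) (nat_lit 5) (nat_lit 59) (nat_lit 5) (nat_lit 56) (nat_lit 5) (nat_lit 310) (nat_lit 271) (nat_lit 199)) (XT.nd (nat_lit 78) (nat_lit 0) (nat_lit 0) (XT.lf (nat_lit 0) (nat_lit 1491502884) (nat_lit 228) (nat_lit 11771406810) (nat_lit 304) (nat_lit 10133941968) (nat_lit 52) (nat_lit 5) (nat_lit 55) (nat_lit 5) (nat_lit 56) (nat_lit 5) (nat_lit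 311) (nat_lit 271) (nat_lit 198)) (XT.lf (nat_lit 0) (nat_lit 18856628029) (nat_lit 228) (nat_lit 1396852759) (nat_lit 304) (nat_lit 3974938309) (nat_lit 52) (nat_lit 5) (nat_lit 55) (nat_lit 5) (nat_lit 56) (nat_lit 5) (nat_lit 312) (nat_lit 271) (nat_lit 197)))) (XT.nd (nat_lit 156) (nat_lit 152) (nat_lit 0) (XT.nd (nat_lit 78) (nat_lit 228) (nat_lit 0) (XT.lf (nat_lit 0) (nat_lit 2624626594) (nat_lit 228) (nat_lit 13032335780) (nat_lit 76) (nat_lit 9438470161) (nat_lit 49) (nat_lit 5) (nat_lit 52) (nat_lit 5) (nat_lit 50) (nat_lit 5) (nat_lit 313) (nat_lit 271) (nat_lit 196)) (XT.lf (nat_lit 0) (nat_lit 4467464496) (nat_lit 228) (nat_lit 5090774797) (nat_lit 304) (nat_lit 16443810690) (nat_lit 46) (nat_lit 5) (nat_lit 49) (nat_lit 5) (nat_lit 50) (nat_lit 5) (nat_lit 314) (nat_lit 271) (nat_lit 195))) (XT.nd (nat_lit 78) (nat_lit 152) (nat_lit 0) (XT.lf (nat_lit 0) (nat_lit 17005112741)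 (nat_lit 304) (nat_lit 3936656200) (nat_lit 76) (nat_lit 6007253230) (nat_lit 46) (nat_lit 5) (nat_lit 50) (nat_lit 5) (nat_lit 47) (nat_lit 5) (nat_lit 315) (nat_lit 271) (nat_lit 194)) (XT.lf (nat_lit 0) (nat_lit 14737137833) (nat_lit 152) (nat_lit 10254888248) (nat_lit 228) (nat_lit 2946306258) (nat_lit 44) (nat_lit 5) (nat_lit 46) (nat_lit 5) (nat_lit 47) (nat_lit 5) (nat_lit 316) (nat_lit 271) (nat_lit 193))))))) (XT.nd (nat_lit 1014) (nat_lit 836) (nat_lit 0) (XT.nd (nat_lit 468) (nat_lit 684) (nat_lit 0) (XT.nd (nat_lit 234) (nat_lit 380) (nat_lit 0) (XT.nd (nat_lit 78) (nat_lit 152) (nat_lit 0) (XT.lf (nat_lit 0) (nat_lit 4394567413) (nat_lit 304) (nat_lit 23508735340) (nat_lit 76) (nat_lit 1070176597) (nat_lit 40) (nat_lit 5) (nat_lit 44) (nat_lit 5) (nat_lit 41) (nat_lit 5) (nat_lit 317) (nat_lit 271) (nat_lit 192)) (XT.nd (nat_lit 78) (nat_lit 152) (nat_lit 0) (XT.lf (nat_lit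 0) (nat_lit 12258754703) (nat_lit 304) (nat_lit 4890095494) (nat_lit 76) (nat_lit 12904160092) (nat_lit 40) (nat_lit 5) (nat_lit 44) (nat_lit 5) (nat_lit 41) (nat_lit 5) (nat_lit 318) (nat_lit 271) (nat_lit 191)) (XT.lf (nat_lit 0) (nat_lit 14913302038) (nat_lit 152) (nat_lit 5723245500) (nat_lit 228) (nat_lit 10546375341) (nat_lit 38) (nat_lit 5) (nat_lit 40) (nat_lit 5) (nat_lit 41) (nat_lit 5) (nat_lit 319) (nat_lit 271) (nat_lit 190)))) (XT.nd (nat_lit 78) (nat_lit 228) (nat_lit 0) (XT.lf (nat_lit 0) (nat_lit 3410310613) (nat_lit 152) (nat_lit 26144497897) (nat_lit 228) (nat_lit 2810891413) (nat_lit 36) (nat_lit 5) (nat_lit 38) (nat_lit 5) (nat_lit 39) (nat_lit 5) (nat_lit 320) (nat_lit 271) (nat_lit 189)) (XT.nd (nat_lit 78) (nat_lit 152) (nat_lit 0) (XT.lf (nat_lit 0) (nat_lit 5412773901) (nat_lit 228) (nat_lit 9334914244) (nat_lit 76) (nat_lit 18852259422) (nat_lit 35) (nat_lit 5)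 (nat_lit 38) (nat_lit 5) (nat_lit 36) (nat_lit 5) (nat_lit 321) (nat_lit 271) (nat_lit 188)) (XT.lf (nat_lit 0) (nat_lit 11426841654) (nat_lit 152) (nat_lit 2652215531) (nat_lit 228) (nat_lit 20813342692) (nat_lit 33) (nat_lit 5) (nat_lit 35) (nat_lit 5) (nat_lit 36) (nat_lit 5) (nat_lit 322) (nat_lit 271) (nat_lit 187))))) (XT.nd (nat_lit 234) (nat_lit 304) (nat_lit 0) (XT.nd (nat_lit 78) (nat_lit 380) (nat_lit 0) (XT.lf (nat_lit 0) (nat_lit 23352017948) (nat_lit 228) (nat_lit 2956230479) (nat_lit 76) (nat_lit 9936039046) (nat_lit 33) (nat_lit 5) (nat_lit 36) (nat_lit 5) (nat_lit 34) (nat_lit 5) (nat_lit 323) (nat_lit 271) (nat_lit 186)) (XT.nd (nat_lit 78) (nat_lit 228) (nat_lit 0) (XT.lf (nat_lit 0) (nat_lit 18888124912) (nat_lit 152) (nat_lit 14389530129) (nat_lit 228) (nat_lit 4380456483) (nat_lit 31) (nat_lit 5) (nat_lit 33) (nat_lit 5) (nat_lit 34) (nat_lit 5) (nat_lit 324) (nat_lit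 271) (nat_lit 185)) (XT.lf (nat_lit 0) (nat_lit 2722064450) (nat_lit 152) (nat_lit 1783975316) (nat_lit 228) (nat_lit 34634144387) (nat_lit 28) (nat_lit 5) (nat_lit 30) (nat_lit 5) (nat_lit 31) (nat_lit 5) (nat_lit 325) (nat_lit 271) (nat_lit 184)))) (XT.nd (nat_lit 156) (nat_lit 152) (nat_lit 0) (XT.nd (nat_lit 78) (nat_lit 152) (nat_lit 0) (XT.lf (nat_lit 0) (nat_lit 14033922828) (nat_lit 228) (nat_lit 15197055266) (nat_lit 76) (nat_lit 11455462879) (nat_lit 28) (nat_lit 5) (nat_lit 31) (nat_lit 5) (nat_lit 29) (nat_lit 5) (nat_lit 326) (nat_lit 271) (nat_lit 183)) (XT.lf (nat_lit 0) (nat_lit 7177361320) (nat_lit 152) (nat_lit 16930312887) (nat_lit 228) (nat_lit 18200263041) (nat_lit 26) (nat_lit 5) (nat_lit 28) (nat_lit 5) (nat_lit 29) (nat_lit 5) (nat_lit 327) (nat_lit 271) (nat_lit 182))) (XT.nd (nat_lit 78) (nat_lit 152) (nat_lit 0) (XT.lf (nat_lit 0) (nat_lit 30959174156) (nat_lit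 152) (nat_lit 3865410897) (nat_lit 228) (nat_lit 9181749450) (nat_lit 26) (nat_lit 5) (nat_lit 28) (nat_lit 5) (nat_lit 29) (nat_lit 5) (nat_lit 328) (nat_lit 271) (nat_lit 181)) (XT.lf (nat_lit 0) (nat_lit 460470126) (nat_lit 152) (nat_lit 35571694373) (nat_lit 76) (nat_lit 9752061879) (nat_lit 24) (nat_lit 5) (nat_lit 26) (nat_lit 5) (nat_lit 25) (nat_lit 5) (nat_lit 329) (nat_lit 271) (nat_lit 180)))))) (XT.nd (nat_lit 546) (nat_lit 380) (nat_lit 0) (XT.nd (nat_lit 234) (nat_lit 304) (nat_lit 0) (XT.nd (nat_lit 78) (nat_lit 152) (nat_lit 0) (XT.lf (nat_lit 0) (nat_lit 10555405968) (nat_lit 152) (nat_lit 12899578892) (nat_lit 76) (nat_lit 24188494886) (nat_lit 24) (nat_lit 5) (nat_lit 26) (nat_lit 5) (nat_lit 25) (nat_lit 5) (nat_lit 330) (nat_lit 271) (nat_lit 179)) (XT.nd (nat_lit 78) (nat_lit 0) (nat_lit 0) (XT.lf (nat_lit 0) (nat_lit 11096548732) (nat_lit 152) (nat_lit 10150044221)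 (nat_lit 228) (nat_lit 28346366357) (nat_lit 22) (nat_lit 5) (nat_lit 24) (nat_lit 5) (nat_lit 25) (nat_lit 5) (nat_lit 331) (nat_lit 271) (nat_lit 178)) (XT.lf (nat_lit 0) (nat_lit 32628378189) (nat_lit 228) (nat_lit 15137643778) (nat_lit 76) (nat_lit 3869217963) (nat_lit 22) (nat_lit 5) (nat_lit 25) (nat_lit 5) (nat_lit 23) (nat_lit 4) (nat_lit 332) (nat_lit 271) (nat_lit 177)))) (XT.nd (nat_lit 156) (nat_lit 152) (nat_lit 0) (XT.nd (nat_lit 78) (nat_lit 76) (nat_lit 0) (XT.lf (nat_lit 0) (nat_lit 9446449413) (nat_lit 76) (nat_lit 35311972142) (nat_lit 152) (nat_lit 9015845814) (nat_lit 21) (nat_lit 5) (nat_lit 22) (nat_lit 5) (nat_lit 23) (nat_lit 4) (nat_lit 333) (nat_lit 271) (nat_lit 176)) (XT.lf (nat_lit 0) (nat_lit 1589531774) (nat_lit 152) (nat_lit 20479289257) (nat_lit 76) (nat_lit 33946699494) (nat_lit 20) (nat_lit 5) (nat_lit 22) (nat_lit 5) (nat_lit 21) (nat_lit 5) (nat_lit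 334) (nat_lit 271) (nat_lit 175))) (XT.nd (nat_lit 78) (nat_lit 0) (nat_lit 0) (XT.lf (nat_lit 0) (nat_lit 4536253350) (nat_lit 152) (nat_lit 8034674727) (nat_lit 228) (nat_lit 45794270862) (nat_lit 18) (nat_lit 5) (nat_lit 20) (nat_lit 5) (nat_lit 21) (nat_lit 5) (nat_lit 335) (nat_lit 271) (nat_lit 174)) (XT.lf (nat_lit 0) (nat_lit 24365905429) (nat_lit 228) (nat_lit 29684580809) (nat_lit 76) (nat_lit 6773946283) (nat_lit 18) (nat_lit 5) (nat_lit 21) (nat_lit 5) (nat_lit 19) (nat_lit 4) (nat_lit 336) (nat_lit 271) (nat_lit 173))))) (XT.nd (nat_lit 234) (nat_lit 304) (nat_lit 0) (XT.nd (nat_lit 78) (nat_lit 76) (nat_lit 0) (XT.lf (nat_lit 0) (nat_lit 36819529381) (nat_lit 228) (nat_lit 4435589805) (nat_lit 76) (nat_lit 22149447939) (nat_lit 18) (nat_lit 5) (nat_lit 21) (nat_lit 5) (nat_lit 19) (nat_lit 4) (nat_lit 337) (nat_lit 271) (nat_lit 172)) (XT.nd (nat_lit 78) (nat_lit 0) (nat_lit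 0) (XT.lf (nat_lit 0) (nat_lit 22494323549) (nat_lit 76) (nat_lit 27606122856) (nat_lit 152) (nat_lit 16007129670) (nat_lit 17) (nat_lit 5) (nat_lit 18) (nat_lit 5) (nat_lit 19) (nat_lit 4) (nat_lit 338) (nat_lit 271) (nat_lit 171)) (XT.lf (nat_lit 0) (nat_lit 50843537719) (nat_lit 76) (nat_lit 13236276777) (nat_lit 152) (nat_lit 4864894510) (nat_lit 17) (nat_lit 5) (nat_lit 18) (nat_lit 5) (nat_lit 19) (nat_lit 4) (nat_lit 339) (nat_lit 271) (nat_lit 170)))) (XT.nd (nat_lit 156) (nat_lit 76) (nat_lit 0) (XT.nd (nat_lit 78) (nat_lit 0) (nat_lit 0) (XT.lf (nat_lit 0) (nat_lit 6793795354) (nat_lit 228) (nat_lit 63165889048) (nat_lit 76) (nat_lit 1959267302) (nat_lit 14) (nat_lit 5) (nat_lit 17) (nat_lit 5) (nat_lit 15) (nat_lit 4) (nat_lit 340) (nat_lit 271) (nat_lit 169)) (XT.lf (nat_lit 0) (nat_lit 19246947048) (nat_lit 228) (nat_lit 37911443461) (nat_lit 76) (nat_lit 17872711796) (nat_lit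 14) (nat_lit 5) (nat_lit 17) (nat_lit 5) (nat_lit 15) (nat_lit 4) (nat_lit 341) (nat_lit 271) (nat_lit 168))) (XT.nd (nat_lit 78) (nat_lit 76) (nat_lit 0) (XT.lf (nat_lit 0) (nat_lit 32312687839) (nat_lit 228) (nat_lit 11412229991) (nat_lit 76) (nat_lit 34574249432) (nat_lit 14) (nat_lit 5) (nat_lit 17) (nat_lit 5) (nat_lit 15) (nat_lit 4) (nat_lit 342) (nat_lit 271) (nat_lit 167)) (XT.lf (nat_lit 0) (nat_lit 16721134285) (nat_lit 76) (nat_lit 29461726120) (nat_lit 152) (nat_lit 35543245264) (nat_lit 13) (nat_lit 5) (nat_lit 14) (nat_lit 5) (nat_lit 15) (nat_lit 4) (nat_lit 343) (nat_lit 271) (nat_lit 166))))))))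
noncomputable def xc71 : XT := (XT.nd (nat_lit 35724) (nat_lit 0) (nat_lit 4408) (XT.nd (nat_lit 1014) (nat_lit 76) (nat_lit 0) (XT.nd (nat_lit 468) (nat_lit 152) (nat_lit 0) (XT.nd (nat_lit 234) (nat_lit 152) (nat_lit 0) (XT.nd (nat_lit 78) (nat_lit 76) (nat_lit 0) (XT.lf (nat_lit 0) (nat_lit 46483039544) (nat_lit 76) (nat_lit 14371688820) (nat_lit 152) (nat_lit 24466421357) (nat_lit 13) (nat_lit 5) (nat_lit 14) (nat_lit 5) (nat_lit 15) (nat_lit 4) (nat_lit 344) (nat_lit 271) (nat_lit 165)) (XT.nd (nat_lit 78) (nat_lit 76) (nat_lit 0) (XT.lf (nat_lit 0) (nat_lit 76265431078) (nat_lit 152) (nat_lit 11393084825) (nat_lit 0) (nat_lit 1437276953) (nat_lit 13) (nat_lit 5) (nat_lit 15) (nat_lit 4) (nat_lit 13) (nat_lit 4) (nat_lit 345) (nat_lit 271) (nat_lit 164)) (XT.lf (nat_lit 0) (nat_lit 17607461781) (nat_lit 76) (nat_lit 75145025795) (nat_lit 76) (nat_lit 297509939) (nat_lit 12) (nat_lit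 4) (nat_lit 13) (nat_lit 5) (nat_lit 13) (nat_lit 4) (nat_lit 346) (nat_lit 271) (nat_lit 163)))) (XT.nd (nat_lit 78) (nat_lit 76) (nat_lit 0) (XT.lf (nat_lit 0) (nat_lit 12721128589) (nat_lit 152) (nat_lit 49042064564) (nat_lit 76) (nat_lit 35431709933) (nat_lit 11) (nat_lit 5) (nat_lit 13) (nat_lit 5) (nat_lit 12) (nat_lit 4) (nat_lit 347) (nat_lit 271) (nat_lit 162)) (XT.nd (nat_lit 78) (nat_lit 76) (nat_lit 0) (XT.lf (nat_lit 0) (nat_lit 26376684022) (nat_lit 152) (nat_lit 21338848695) (nat_lit 76) (nat_lit 53831672167) (nat_lit 11) (nat_lit 5) (nat_lit 13) (nat_lit 5) (nat_lit 12) (nat_lit 4) (nat_lit 348) (nat_lit 271) (nat_lit 161)) (XT.lf (nat_lit 0) (nat_lit 7889891965) (nat_lit 76) (nat_lit 32893425580) (nat_lit 152) (nat_lit 65331758512) (nat_lit 10) (nat_lit 5) (nat_lit 11) (nat_lit 5) (nat_lit 12) (nat_lit 4) (nat_lit 349) (nat_lit 271) (nat_lit 160))))) (XT.nd (nat_lit 234)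 (nat_lit 152) (nat_lit 0) (XT.nd (nat_lit 78) (nat_lit 0) (nat_lit 0) (XT.lf (nat_lit 0) (nat_lit 39012782357) (nat_lit 76) (nat_lit 17109855058) (nat_lit 152) (nat_lit 54782335867) (nat_lit 10) (nat_lit 5) (nat_lit 11) (nat_lit 5) (nat_lit 12) (nat_lit 4) (nat_lit 350) (nat_lit 271) (nat_lit 159)) (XT.nd (nat_lit 78) (nat_lit 0) (nat_lit 0) (XT.lf (nat_lit 0) (nat_lit 71679239670) (nat_lit 76) (nat_lit 542721753) (nat_lit 152) (nat_lit 43712615788) (nat_lit 10) (nat_lit 5) (nat_lit 11) (nat_lit 5) (nat_lit 12) (nat_lit 4) (nat_lit 351) (nat_lit 271) (nat_lit 158)) (XT.lf (nat_lit 0) (nat_lit 89281569000) (nat_lit 152) (nat_lit 15410769612) (nat_lit 0) (nat_lit 16518666047) (nat_lit 10) (nat_lit 5) (nat_lit 12) (nat_lit 4) (nat_lit 10) (nat_lit 4) (nat_lit 352) (nat_lit 271) (nat_lit 157)))) (XT.nd (nat_lit 156) (nat_lit 76) (nat_lit 0) (XT.nd (nat_lit 78) (nat_lit 0) (nat_lit 0) (XT.lf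 (nat_lit 0) (nat_lit 15154720638) (nat_lit 76) (nat_lit 92184227013) (nat_lit 76) (nat_lit 19407964816) (nat_lit 9) (nat_lit 4) (nat_lit 10) (nat_lit 5) (nat_lit 10) (nat_lit 4) (nat_lit 353) (nat_lit 271) (nat_lit 156)) (XT.lf (nat_lit 0) (nat_lit 47559304845) (nat_lit 76) (nat_lit 78892362265) (nat_lit 76) (nat_lit 6103376979) (nat_lit 9) (nat_lit 4) (nat_lit 10) (nat_lit 5) (nat_lit 10) (nat_lit 4) (nat_lit 354) (nat_lit 271) (nat_lit 155))) (XT.nd (nat_lit 78) (nat_lit 0) (nat_lit 0) (XT.lf (nat_lit 0) (nat_lit 7707002425) (nat_lit 152) (nat_lit 57155887590) (nat_lit 76) (nat_lit 73788604208) (nat_lit 8) (nat_lit 5) (nat_lit 10) (nat_lit 5) (nat_lit 9) (nat_lit 4) (nat_lit 355) (nat_lit 271) (nat_lit 154)) (XT.lf (nat_lit 0) (nat_lit 22077194377) (nat_lit 152) (nat_lit 27995938144) (nat_lit 76) (nat_lit 94977958107) (nat_lit 8) (nat_lit 5) (nat_lit 10) (nat_lit 5) (nat_lit 9) (nat_lit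 4) (nat_lit 356) (nat_lit 271) (nat_lit 153)))))) (XT.nd (nat_lit 34164) (nat_lit 0) (nat_lit 15276) (XT.nd (nat_lit 234) (nat_lit 0) (nat_lit 0) (XT.nd (nat_lit 78) (nat_lit 0) (nat_lit 0) (XT.lf (nat_lit 0) (nat_lit 2664194979) (nat_lit 76) (nat_lit 34521927381) (nat_lit 152) (nat_lit 114583939864) (nat_lit 7) (nat_lit 5) (nat_lit 8) (nat_lit 5) (nat_lit 9) (nat_lit 4) (nat_lit 357) (nat_lit 271) (nat_lit 152)) (XT.nd (nat_lit 78) (nat_lit 0) (nat_lit 0) (XT.lf (nat_lit 0) (nat_lit 35432846657) (nat_lit 76) (nat_lit 17900624962) (nat_lit 152) (nat_lit 105483023595) (nat_lit 7) (nat_lit 5) (nat_lit 8) (nat_lit 5) (nat_lit 9) (nat_lit 4) (nat_lit 358) (nat_lit 271) (nat_lit 151)) (XT.lf (nat_lit 0) (nat_lit 69830863425) (nat_lit 76) (nat_lit 452354815) (nat_lit 152) (nat_lit 95932182678) (nat_lit 7) (nat_lit 5) (nat_lit 8) (nat_lit 5) (nat_lit 9) (nat_lit 4) (nat_lit 359) (nat_lit 271) (nat_lit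 150)))) (XT.nd (nat_lit 33774) (nat_lit 0) (nat_lit 16036) (XT.lf (nat_lit 0) (nat_lit 88247442562) (nat_lit 152) (nat_lit 68215974252) (nat_lit 0) (nat_lit 17515827252) (nat_lit 7) (nat_lit 5) (nat_lit 9) (nat_lit 4) (nat_lit 7) (nat_lit 4) (nat_lit 360) (nat_lit 271) (nat_lit 149)) (XT.nd (nat_lit 78) (nat_lit 0) (nat_lit 76) (XT.lf (nat_lit 0) (nat_lit 16857484) (nat_lit 988) (nat_lit 2029007429) (nat_lit 988) (nat_lit 2029007429) (nat_lit 218) (nat_lit 3) (nat_lit 231) (nat_lit 3) (nat_lit 231) (nat_lit 5) (nat_lit 272) (nat_lit 272) (nat_lit 236)) (XT.lf (nat_lit 0) (nat_lit 1834244572) (nat_lit 912) (nat_lit 6262654017) (nat_lit 988) (nat_lit 199455199) (nat_lit 219) (nat_lit 5) (nat_lit 231) (nat_lit 5) (nat_lit 232) (nat_lit 5) (nat_lit 273) (nat_lit 272) (nat_lit 235))))) (XT.nd (nat_lit 234) (nat_lit 836) (nat_lit 0) (XT.nd (nat_lit 78) (nat_lit 0) (nat_lit 76) (XT.lf (nat_lit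 0) (nat_lit 3694410441) (nat_lit 912) (nat_lit 39998063) (nat_lit 988) (nat_lit 4716997799) (nat_lit 219) (nat_lit 5) (nat_lit 231) (nat_lit 5) (nat_lit 232) (nat_lit 5) (nat_lit 274) (nat_lit 272) (nat_lit 234)) (XT.nd (nat_lit 78) (nat_lit 0) (nat_lit 0) (XT.lf (nat_lit 0) (nat_lit 5611412438) (nat_lit 912) (nat_lit 2064160066) (nat_lit 988) (nat_lit 939915771) (nat_lit 220) (nat_lit 5) (nat_lit 232) (nat_lit 5) (nat_lit 233) (nat_lit 5) (nat_lit 275) (nat_lit 272) (nat_lit 233)) (XT.lf (nat_lit 76) (nat_lit 4675866198) (nat_lit 0) (nat_lit 2928023854) (nat_lit 988) (nat_lit 1184678067) (nat_lit 221) (nat_lit 5) (nat_lit 220) (nat_lit 5) (nat_lit 233) (nat_lit 5) (nat_lit 276) (nat_lit 272) (nat_lit 232)))) (XT.nd (nat_lit 156) (nat_lit 0) (nat_lit 76) (XT.nd (nat_lit 78) (nat_lit 0) (nat_lit 0) (XT.lf (nat_lit 0) (nat_lit 680437771) (nat_lit 988) (nat_lit 6181799566) (nat_lit 1064) (nat_lit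 2108956860) (nat_lit 208) (nat_lit 5) (nat_lit 221) (nat_lit 5) (nat_lit 222) (nat_lit 5) (nat_lit 277) (nat_lit 272) (nat_lit 231)) (XT.lf (nat_lit 76) (nat_lit 871032257) (nat_lit 0) (nat_lit 1728455922) (nat_lit 1064) (nat_lit 6563716869) (nat_lit 209) (nat_lit 5) (nat_lit 208) (nat_lit 5) (nat_lit 222) (nat_lit 5) (nat_lit 278) (nat_lit 272) (nat_lit 230))) (XT.nd (nat_lit 78) (nat_lit 0) (nat_lit 0) (XT.lf (nat_lit 0) (nat_lit 4622457854) (nat_lit 988) (nat_lit 1059267373) (nat_lit 1064) (nat_lit 3683005302) (nat_lit 209) (nat_lit 5) (nat_lit 222) (nat_lit 5) (nat_lit 223) (nat_lit 5) (nat_lit 279) (nat_lit 272) (nat_lit 229)) (XT.lf (nat_lit 76) (nat_lit 6583237860) (nat_lit 0) (nat_lit 156922167) (nat_lit 1064) (nat_lit 2836510541) (nat_lit 210) (nat_lit 5) (nat_lit 209) (nat_lit 5) (nat_lit 223) (nat_lit 5) (nat_lit 280) (nat_lit 272) (nat_lit 228))))))) (XT.nd (nat_lit 1014) (nat_lit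 4104) (nat_lit 0) (XT.nd (nat_lit 468) (nat_lit 3116) (nat_lit 0) (XT.nd (nat_lit 234) (nat_lit 1748) (nat_lit 0) (XT.nd (nat_lit 78) (nat_lit 2052) (nat_lit 0) (XT.lf (nat_lit 76) (nat_lit 4806435896) (nat_lit 0) (nat_lit 4185412443) (nat_lit 1064) (nat_lit 806655095) (nat_lit 211) (nat_lit 5) (nat_lit 210) (nat_lit 5) (nat_lit 224) (nat_lit 5) (nat_lit 281) (nat_lit 272) (nat_lit 227)) (XT.nd (nat_lit 78) (nat_lit 1064) (nat_lit 0) (XT.lf (nat_lit 0) (nat_lit 1296166177) (nat_lit 1064) (nat_lit 7039958184) (nat_lit 76) (nat_lit 1695130288) (nat_lit 197) (nat_lit 5) (nat_lit 211) (nat_lit 5) (nat_lit 198) (nat_lit 5) (nat_lit 282) (nat_lit 272) (nat_lit 226)) (XT.lf (nat_lit 0) (nat_lit 1110029507) (nat_lit 1064) (nat_lit 2404869234) (nat_lit 1140) (nat_lit 6759803770) (nat_lit 183) (nat_lit 5) (nat_lit 197) (nat_lit 5) (nat_lit 198) (nat_lit 5) (nat_lit 283) (nat_lit 272) (nat_lit 225))))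 (XT.nd (nat_lit 78) (nat_lit 1748) (nat_lit 0) (XT.lf (nat_lit 0) (nat_lit 5880186602) (nat_lit 1140) (nat_lit 816369254) (nat_lit 76) (nat_lit 3832814808) (nat_lit 183) (nat_lit 5) (nat_lit 198) (nat_lit 5) (nat_lit 184) (nat_lit 5) (nat_lit 284) (nat_lit 272) (nat_lit 224)) (XT.nd (nat_lit 78) (nat_lit 608) (nat_lit 0) (XT.lf (nat_lit 0) (nat_lit 8019290038) (nat_lit 1140) (nat_lit 375029460) (nat_lit 1216) (nat_lit 2401646218) (nat_lit 168) (nat_lit 5) (nat_lit 183) (nat_lit 5) (nat_lit 184) (nat_lit 5) (nat_lit 285) (nat_lit 272) (nat_lit 223)) (XT.lf (nat_lit 0) (nat_lit 20302276) (nat_lit 608) (nat_lit 4837503406) (nat_lit 76) (nat_lit 6216362845) (nat_lit 160) (nat_lit 5) (nat_lit 168) (nat_lit 5) (nat_lit 161) (nat_lit 5) (nat_lit 286) (nat_lit 272) (nat_lit 222))))) (XT.nd (nat_lit 234) (nat_lit 1444) (nat_lit 0) (XT.nd (nat_lit 78) (nat_lit 1064) (nat_lit 0) (XT.lf (nat_lit 0)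 (nat_lit 2540891567) (nat_lit 684) (nat_lit 6995040543) (nat_lit 76) (nat_lit 1828917286) (nat_lit 152) (nat_lit 5) (nat_lit 161) (nat_lit 5) (nat_lit 153) (nat_lit 5) (nat_lit 287) (nat_lit 272) (nat_lit 221)) (XT.nd (nat_lit 78) (nat_lit 532) (nat_lit 0) (XT.lf (nat_lit 0) (nat_lit 2404852477) (nat_lit 532) (nat_lit 2841672666) (nat_lit 608) (nat_lit 6421861739) (nat_lit 145) (nat_lit 5) (nat_lit 152) (nat_lit 5) (nat_lit 153) (nat_lit 5) (nat_lit 288) (nat_lit 272) (nat_lit 220)) (XT.lf (nat_lit 0) (nat_lit 338941086) (nat_lit 532) (nat_lit 7803743297) (nat_lit 608) (nat_lit 3842848131) (nat_lit 138) (nat_lit 5) (nat_lit 145) (nat_lit 5) (nat_lit 146) (nat_lit 5) (nat_lit 289) (nat_lit 272) (nat_lit 219)))) (XT.nd (nat_lit 156) (nat_lit 912) (nat_lit 0) (XT.nd (nat_lit 78) (nat_lit 532) (nat_lit 0) (XT.lf (nat_lit 0) (nat_lit 10524981337) (nat_lit 532) (nat_lit 723763727) (nat_lit 608)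 (nat_lit 1067921929) (nat_lit 138) (nat_lit 5) (nat_lit 145) (nat_lit 5) (nat_lit 146) (nat_lit 5) (nat_lit 290) (nat_lit 272) (nat_lit 218)) (XT.lf (nat_lit 0) (nat_lit 1901831451) (nat_lit 532) (nat_lit 4080798882) (nat_lit 76) (nat_lit 6678510659) (nat_lit 131) (nat_lit 5) (nat_lit 138) (nat_lit 5) (nat_lit 132) (nat_lit 5) (nat_lit 291) (nat_lit 272) (nat_lit 217))) (XT.nd (nat_lit 78) (nat_lit 456) (nat_lit 0) (XT.lf (nat_lit 0) (nat_lit 5047010468) (nat_lit 532) (nat_lit 6499776042) (nat_lit 76) (nat_lit 1474338548) (nat_lit 125) (nat_lit 5) (nat_lit 132) (nat_lit 5) (nat_lit 126) (nat_lit 5) (nat_lit 292) (nat_lit 272) (nat_lit 216)) (XT.lf (nat_lit 0) (nat_lit 4305177151) (nat_lit 456) (nat_lit 4136055046) (nat_lit 532) (nat_lit 4955193377) (nat_lit 119) (nat_lit 5) (nat_lit 125) (nat_lit 5) (nat_lit 126) (nat_lit 5) (nat_lit 293) (nat_lit 272) (nat_lit 215)))))) (XT.nd (nat_lit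 546) (nat_lit 1976) (nat_lit 0) (XT.nd (nat_lit 234) (nat_lit 1216) (nat_lit 0) (XT.nd (nat_lit 78) (nat_lit 456) (nat_lit 0) (XT.lf (nat_lit 0) (nat_lit 1941006870) (nat_lit 456) (nat_lit 10134897464) (nat_lit 532) (nat_lit 1712531994) (nat_lit 113) (nat_lit 5) (nat_lit 119) (nat_lit 5) (nat_lit 120) (nat_lit 5) (nat_lit 294) (nat_lit 272) (nat_lit 214)) (XT.nd (nat_lit 78) (nat_lit 380) (nat_lit 0) (XT.lf (nat_lit 0) (nat_lit 1746280275) (nat_lit 532) (nat_lit 599565549) (nat_lit 76) (nat_lit 11851164897) (nat_lit 112) (nat_lit 5) (nat_lit 119) (nat_lit 5) (nat_lit 113) (nat_lit 5) (nat_lit 295) (nat_lit 272) (nat_lit 213)) (XT.lf (nat_lit 0) (nat_lit 5462501399) (nat_lit 456) (nat_lit 3321315978) (nat_lit 76) (nat_lit 5838150547) (nat_lit 107) (nat_lit 5) (nat_lit 113) (nat_lit 5) (nat_lit 108) (nat_lit 5) (nat_lit 296) (nat_lit 272) (nat_lit 212)))) (XT.nd (nat_lit 156) (nat_lit 456)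 (nat_lit 0) (XT.nd (nat_lit 78) (nat_lit 380) (nat_lit 0) (XT.lf (nat_lit 0) (nat_lit 8833858584) (nat_lit 380) (nat_lit 600256761) (nat_lit 456) (nat_lit 5632026709) (nat_lit 102) (nat_lit 5) (nat_lit 107) (nat_lit 5) (nat_lit 108) (nat_lit 5) (nat_lit 297) (nat_lit 272) (nat_lit 211)) (XT.lf (nat_lit 0) (nat_lit 6122107208) (nat_lit 380) (nat_lit 7608707174) (nat_lit 456) (nat_lit 1797969205) (nat_lit 97) (nat_lit 5) (nat_lit 102) (nat_lit 5) (nat_lit 103) (nat_lit 5) (nat_lit 298) (nat_lit 272) (nat_lit 210))) (XT.nd (nat_lit 78) (nat_lit 0) (nat_lit 0) (XT.lf (nat_lit 0) (nat_lit 2252366738) (nat_lit 456) (nat_lit 12829531355) (nat_lit 76) (nat_lit 930024994) (nat_lit 91) (nat_lit 5) (nat_lit 97) (nat_lit 5) (nat_lit 92) (nat_lit 5) (nat_lit 299) (nat_lit 272) (nat_lit 209)) (XT.lf (nat_lit 0) (nat_lit 6601779135) (nat_lit 456) (nat_lit 68559183) (nat_lit 76) (nat_lit 9844382262) (nat_lit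 91) (nat_lit 5) (nat_lit 97) (nat_lit 5) (nat_lit 92) (nat_lit 5) (nat_lit 300) (nat_lit 272) (nat_lit 208))))) (XT.nd (nat_lit 234) (nat_lit 912) (nat_lit 0) (XT.nd (nat_lit 78) (nat_lit 760) (nat_lit 0) (XT.lf (nat_lit 0) (nat_lit 11281575677) (nat_lit 380) (nat_lit 3518448411) (nat_lit 76) (nat_lit 2239291598) (nat_lit 87) (nat_lit 5) (nat_lit 92) (nat_lit 5) (nat_lit 88) (nat_lit 5) (nat_lit 301) (nat_lit 272) (nat_lit 207)) (XT.nd (nat_lit 78) (nat_lit 380) (nat_lit 0) (XT.lf (nat_lit 0) (nat_lit 10283557572) (nat_lit 380) (nat_lit 6040740328) (nat_lit 456) (nat_lit 1262017566) (nat_lit 82) (nat_lit 5) (nat_lit 87) (nat_lit 5) (nat_lit 88) (nat_lit 5) (nat_lit 302) (nat_lit 272) (nat_lit 206)) (XT.lf (nat_lit 0) (nat_lit 3486868403) (nat_lit 380) (nat_lit 11452027371) (nat_lit 76) (nat_lit 3217935912) (nat_lit 77) (nat_lit 5) (nat_lit 82) (nat_lit 5) (nat_lit 78) (nat_lit 5) (nat_lit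 303) (nat_lit 272) (nat_lit 205)))) (XT.nd (nat_lit 156) (nat_lit 608) (nat_lit 0) (XT.nd (nat_lit 78) (nat_lit 0) (nat_lit 0) (XT.lf (nat_lit 0) (nat_lit 2741044265) (nat_lit 304) (nat_lit 5833680760) (nat_lit 380) (nat_lit 10176982891) (nat_lit 73) (nat_lit 5) (nat_lit 77) (nat_lit 5) (nat_lit 78) (nat_lit 5) (nat_lit 304) (nat_lit 272) (nat_lit 204)) (XT.lf (nat_lit 0) (nat_lit 14037111168) (nat_lit 380) (nat_lit 1575940041) (nat_lit 76) (nat_lit 3759708706) (nat_lit 73) (nat_lit 5) (nat_lit 78) (nat_lit 5) (nat_lit 74) (nat_lit 5) (nat_lit 305) (nat_lit 272) (nat_lit 203))) (XT.nd (nat_lit 78) (nat_lit 380) (nat_lit 0) (XT.lf (nat_lit 0) (nat_lit 13742917127) (nat_lit 228) (nat_lit 6187596739) (nat_lit 304) (nat_lit 89648072) (nat_lit 70) (nat_lit 5) (nat_lit 73) (nat_lit 5) (nat_lit 74) (nat_lit 5) (nat_lit 306) (nat_lit 272) (nat_lit 202)) (XT.lf (nat_lit 0) (nat_lit 5422927757) (nat_lit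 380) (nat_lit 11490199036) (nat_lit 76) (nat_lit 3781976024) (nat_lit 65) (nat_lit 5) (nat_lit 70) (nat_lit 5) (nat_lit 66) (nat_lit 5) (nat_lit 307) (nat_lit 272) (nat_lit 201))))))))
noncomputable def xc72 : XT := (XT.nd (nat_lit 2028) (nat_lit 1140) (nat_lit 0) (XT.nd (nat_lit 1014) (nat_lit 1216) (nat_lit 0) (XT.nd (nat_lit 468) (nat_lit 1064) (nat_lit 0) (XT.nd (nat_lit 234) (nat_lit 456) (nat_lit 0) (XT.nd (nat_lit 78) (nat_lit 304) (nat_lit 0) (XT.lf (nat_lit 0) (nat_lit 4161965775) (nat_lit 228) (nat_lit 7183723768) (nat_lit 304) (nat_lit 10054012474) (nat_lit 62) (nat_lit 5) (nat_lit 65) (nat_lit 5) (nat_lit 66) (nat_lit 5) (nat_lit 308) (nat_lit 272) (nat_lit 200)) (XT.nd (nat_lit 78) (nat_lit 304) (nat_lit 0) (XT.lf (nat_lit 0) (nat_lit 17682792557) (nat_lit 304) (nat_lit 1374675185) (nat_lit 76) (nat_lit 3078546142) (nat_lit 62) (nat_lit 5) (nat_lit 66) (nat_lit 5) (nat_lit 63)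 (nat_lit 5) (nat_lit 309) (nat_lit 272) (nat_lit 199)) (XT.lf (nat_lit 0) (nat_lit 1593872181) (nat_lit 304) (nat_lit 7451234545) (nat_lit 76) (nat_lit 13857825939) (nat_lit 58) (nat_lit 5) (nat_lit 62) (nat_lit 5) (nat_lit 59) (nat_lit 5) (nat_lit 310) (nat_lit 272) (nat_lit 198)))) (XT.nd (nat_lit 78) (nat_lit 228) (nat_lit 0) (XT.lf (nat_lit 0) (nat_lit 7945256057) (nat_lit 304) (nat_lit 14181040001) (nat_lit 76) (nat_lit 1577782897) (nat_lit 55) (nat_lit 5) (nat_lit 59) (nat_lit 5) (nat_lit 56) (nat_lit 5) (nat_lit 311) (nat_lit 272) (nat_lit 197)) (XT.nd (nat_lit 78) (nat_lit 0) (nat_lit 0) (XT.lf (nat_lit 0) (nat_lit 2880999425) (nat_lit 228) (nat_lit 11902203196) (nat_lit 304) (nat_lit 9757034287) (nat_lit 52) (nat_lit 5) (nat_lit 55) (nat_lit 5) (nat_lit 56) (nat_lit 5) (nat_lit 312) (nat_lit 272) (nat_lit 196)) (XT.lf (nat_lit 0) (nat_lit 21051765523) (nat_lit 228) (nat_lit 1030720202)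 (nat_lit 304) (nat_lit 3332156864) (nat_lit 52) (nat_lit 5) (nat_lit 55) (nat_lit 5) (nat_lit 56) (nat_lit 5) (nat_lit 313) (nat_lit 272) (nat_lit 195))))) (XT.nd (nat_lit 234) (nat_lit 608) (nat_lit 0) (XT.nd (nat_lit 78) (nat_lit 228) (nat_lit 0) (XT.lf (nat_lit 0) (nat_lit 3557711754) (nat_lit 228) (nat_lit 12430526446) (nat_lit 76) (nat_lit 10337256129) (nat_lit 49) (nat_lit 5) (nat_lit 52) (nat_lit 5) (nat_lit 50) (nat_lit 5) (nat_lit 314) (nat_lit 272) (nat_lit 194)) (XT.nd (nat_lit 78) (nat_lit 0) (nat_lit 0) (XT.lf (nat_lit 0) (nat_lit 5908334636) (nat_lit 228) (nat_lit 4903190262) (nat_lit 304) (nat_lit 16466743311) (nat_lit 46) (nat_lit 5) (nat_lit 49) (nat_lit 5) (nat_lit 50) (nat_lit 5) (nat_lit 315) (nat_lit 272) (nat_lit 193)) (XT.lf (nat_lit 0) (nat_lit 18597867044) (nat_lit 304) (nat_lit 2955268792) (nat_lit 76) (nat_lit 6720469089) (nat_lit 46) (nat_lit 5) (nat_lit 50) (nat_lit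 5) (nat_lit 47) (nat_lit 5) (nat_lit 316) (nat_lit 272) (nat_lit 192)))) (XT.nd (nat_lit 156) (nat_lit 152) (nat_lit 0) (XT.nd (nat_lit 78) (nat_lit 304) (nat_lit 0) (XT.lf (nat_lit 0) (nat_lit 16618441497) (nat_lit 152) (nat_lit 10341328598) (nat_lit 228) (nat_lit 2353369444) (nat_lit 44) (nat_lit 5) (nat_lit 46) (nat_lit 5) (nat_lit 47) (nat_lit 5) (nat_lit 317) (nat_lit 272) (nat_lit 191)) (XT.lf (nat_lit 0) (nat_lit 5320443498) (nat_lit 304) (nat_lit 23540459172) (nat_lit 76) (nat_lit 1539543668) (nat_lit 40) (nat_lit 5) (nat_lit 44) (nat_lit 5) (nat_lit 41) (nat_lit 5) (nat_lit 318) (nat_lit 272) (nat_lit 190))) (XT.nd (nat_lit 78) (nat_lit 152) (nat_lit 0) (XT.lf (nat_lit 0) (nat_lit 13544214070) (nat_lit 304) (nat_lit 4045349855) (nat_lit 76) (nat_lit 13945423563) (nat_lit 40) (nat_lit 5) (nat_lit 44) (nat_lit 5) (nat_lit 41) (nat_lit 5) (nat_lit 319) (nat_lit 272) (nat_lit 189))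 (XT.lf (nat_lit 0) (nat_lit 16716994410) (nat_lit 152) (nat_lit 5602047703) (nat_lit 228) (nat_lit 10403032926) (nat_lit 38) (nat_lit 5) (nat_lit 40) (nat_lit 5) (nat_lit 41) (nat_lit 5) (nat_lit 320) (nat_lit 272) (nat_lit 188)))))) (XT.nd (nat_lit 468) (nat_lit 456) (nat_lit 0) (XT.nd (nat_lit 234) (nat_lit 380) (nat_lit 0) (XT.nd (nat_lit 78) (nat_lit 228) (nat_lit 0) (XT.lf (nat_lit 0) (nat_lit 4624142587) (nat_lit 152) (nat_lit 27041847719) (nat_lit 228) (nat_lit 2298539975) (nat_lit 36) (nat_lit 5) (nat_lit 38) (nat_lit 5) (nat_lit 39) (nat_lit 5) (nat_lit 321) (nat_lit 272) (nat_lit 187)) (XT.nd (nat_lit 78) (nat_lit 152) (nat_lit 0) (XT.lf (nat_lit 0) (nat_lit 6293084649) (nat_lit 228) (nat_lit 8795474199) (nat_lit 76) (nat_lit 20172678555) (nat_lit 35) (nat_lit 5) (nat_lit 38) (nat_lit 5) (nat_lit 36) (nat_lit 5) (nat_lit 322) (nat_lit 272) (nat_lit 186)) (XT.lf (nat_lit 0) (nat_lit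 12975527381) (nat_lit 152) (nat_lit 2397517538) (nat_lit 228) (nat_lit 21245876399) (nat_lit 33) (nat_lit 5) (nat_lit 35) (nat_lit 5) (nat_lit 36) (nat_lit 5) (nat_lit 323) (nat_lit 272) (nat_lit 185)))) (XT.nd (nat_lit 78) (nat_lit 380) (nat_lit 0) (XT.lf (nat_lit 0) (nat_lit 25085102582) (nat_lit 228) (nat_lit 2159547575) (nat_lit 76) (nat_lit 10794508599) (nat_lit 33) (nat_lit 5) (nat_lit 36) (nat_lit 5) (nat_lit 34) (nat_lit 5) (nat_lit 324) (nat_lit 272) (nat_lit 184)) (XT.nd (nat_lit 78) (nat_lit 228) (nat_lit 0) (XT.lf (nat_lit 0) (nat_lit 20749951842) (nat_lit 152) (nat_lit 14738960701) (nat_lit 228) (nat_lit 4035322765) (nat_lit 31) (nat_lit 5) (nat_lit 33) (nat_lit 5) (nat_lit 34) (nat_lit 5) (nat_lit 325) (nat_lit 272) (nat_lit 183)) (XT.lf (nat_lit 0) (nat_lit 3760323854) (nat_lit 152) (nat_lit 1506497420) (nat_lit 228) (nat_lit 35813974322) (nat_lit 28) (nat_lit 5) (nat_lit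 30) (nat_lit 5) (nat_lit 31) (nat_lit 5) (nat_lit 326) (nat_lit 272) (nat_lit 182))))) (XT.nd (nat_lit 234) (nat_lit 304) (nat_lit 0) (XT.nd (nat_lit 78) (nat_lit 152) (nat_lit 0) (XT.lf (nat_lit 0) (nat_lit 15248956341) (nat_lit 228) (nat_lit 15085451623) (nat_lit 76) (nat_lit 12370637432) (nat_lit 28) (nat_lit 5) (nat_lit 31) (nat_lit 5) (nat_lit 29) (nat_lit 5) (nat_lit 327) (nat_lit 272) (nat_lit 181)) (XT.nd (nat_lit 78) (nat_lit 0) (nat_lit 0) (XT.lf (nat_lit 0) (nat_lit 8382705669) (nat_lit 152) (nat_lit 17427381831) (nat_lit 228) (nat_lit 18598033337) (nat_lit 26) (nat_lit 5) (nat_lit 28) (nat_lit 5) (nat_lit 29) (nat_lit 5) (nat_lit 328) (nat_lit 272) (nat_lit 180)) (XT.lf (nat_lit 0) (nat_lit 33313300752) (nat_lit 152) (nat_lit 3725875061) (nat_lit 228) (nat_lit 9152986584) (nat_lit 26) (nat_lit 5) (nat_lit 28) (nat_lit 5) (nat_lit 29) (nat_lit 5) (nat_lit 329) (nat_lit 272) (nat_lit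 179)))) (XT.nd (nat_lit 156) (nat_lit 152) (nat_lit 0) (XT.nd (nat_lit 78) (nat_lit 0) (nat_lit 0) (XT.lf (nat_lit 0) (nat_lit 949831798) (nat_lit 152) (nat_lit 36546706441) (nat_lit 76) (nat_lit 10562643029) (nat_lit 24) (nat_lit 5) (nat_lit 26) (nat_lit 5) (nat_lit 25) (nat_lit 5) (nat_lit 330) (nat_lit 272) (nat_lit 178)) (XT.lf (nat_lit 0) (nat_lit 11527307852) (nat_lit 152) (nat_lit 12779250550) (nat_lit 76) (nat_lit 25705517780) (nat_lit 24) (nat_lit 5) (nat_lit 26) (nat_lit 5) (nat_lit 25) (nat_lit 5) (nat_lit 331) (nat_lit 272) (nat_lit 177))) (XT.nd (nat_lit 78) (nat_lit 0) (nat_lit 0) (XT.lf (nat_lit 0) (nat_lit 12394746076) (nat_lit 152) (nat_lit 10344304714) (nat_lit 228) (nat_lit 29320411112) (nat_lit 22) (nat_lit 5) (nat_lit 24) (nat_lit 5) (nat_lit 25) (nat_lit 5) (nat_lit 332) (nat_lit 272) (nat_lit 176)) (XT.lf (nat_lit 0) (nat_lit 34672310680) (nat_lit 228) (nat_lit 15176902911)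 (nat_lit 76) (nat_lit 4355182903) (nat_lit 22) (nat_lit 5) (nat_lit 25) (nat_lit 5) (nat_lit 23) (nat_lit 4) (nat_lit 333) (nat_lit 272) (nat_lit 175))))))) (XT.nd (nat_lit 1014) (nat_lit 456) (nat_lit 0) (XT.nd (nat_lit 468) (nat_lit 304) (nat_lit 0) (XT.nd (nat_lit 234) (nat_lit 76) (nat_lit 0) (XT.nd (nat_lit 78) (nat_lit 228) (nat_lit 0) (XT.lf (nat_lit 0) (nat_lit 10615824419) (nat_lit 76) (nat_lit 36780088787) (nat_lit 152) (nat_lit 9054861343) (nat_lit 21) (nat_lit 5) (nat_lit 22) (nat_lit 5) (nat_lit 23) (nat_lit 4) (nat_lit 334) (nat_lit 272) (nat_lit 174)) (XT.nd (nat_lit 78) (nat_lit 152) (nat_lit 0) (XT.lf (nat_lit 0) (nat_lit 2053524091) (nat_lit 152) (nat_lit 20831538982) (nat_lit 76) (nat_lit 35919495443) (nat_lit 20) (nat_lit 5) (nat_lit 22) (nat_lit 5) (nat_lit 21) (nat_lit 5) (nat_lit 335) (nat_lit 272) (nat_lit 173)) (XT.lf (nat_lit 0) (nat_lit 5415526186) (nat_lit 152)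 (nat_lit 8156425595) (nat_lit 228) (nat_lit 47700139868) (nat_lit 18) (nat_lit 5) (nat_lit 20) (nat_lit 5) (nat_lit 21) (nat_lit 5) (nat_lit 336) (nat_lit 272) (nat_lit 172)))) (XT.nd (nat_lit 78) (nat_lit 76) (nat_lit 0) (XT.lf (nat_lit 0) (nat_lit 25941504194) (nat_lit 228) (nat_lit 30539156479) (nat_lit 76) (nat_lit 7374090639) (nat_lit 18) (nat_lit 5) (nat_lit 21) (nat_lit 5) (nat_lit 19) (nat_lit 4) (nat_lit 337) (nat_lit 272) (nat_lit 171)) (XT.nd (nat_lit 78) (nat_lit 76) (nat_lit 0) (XT.lf (nat_lit 0) (nat_lit 39000794891) (nat_lit 228) (nat_lit 4057699418) (nat_lit 76) (nat_lit 23505917519) (nat_lit 18) (nat_lit 5) (nat_lit 21) (nat_lit 5) (nat_lit 19) (nat_lit 4) (nat_lit 338) (nat_lit 272) (nat_lit 170)) (XT.lf (nat_lit 0) (nat_lit 24201520187) (nat_lit 76) (nat_lit 28733632499) (nat_lit 152) (nat_lit 16467745025) (nat_lit 17) (nat_lit 5) (nat_lit 18) (nat_lit 5) (nat_lit 19)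 (nat_lit 4) (nat_lit 339) (nat_lit 272) (nat_lit 169))))) (XT.nd (nat_lit 234) (nat_lit 76) (nat_lit 0) (XT.nd (nat_lit 78) (nat_lit 228) (nat_lit 0) (XT.lf (nat_lit 0) (nat_lit 53940457901) (nat_lit 76) (nat_lit 13657332044) (nat_lit 152) (nat_lit 4784576257) (nat_lit 17) (nat_lit 5) (nat_lit 18) (nat_lit 5) (nat_lit 19) (nat_lit 4) (nat_lit 340) (nat_lit 272) (nat_lit 168)) (XT.nd (nat_lit 78) (nat_lit 0) (nat_lit 0) (XT.lf (nat_lit 0) (nat_lit 7443152513) (nat_lit 228) (nat_lit 65771976352) (nat_lit 76) (nat_lit 2290333650) (nat_lit 14) (nat_lit 5) (nat_lit 17) (nat_lit 5) (nat_lit 15) (nat_lit 4) (nat_lit 341) (nat_lit 272) (nat_lit 167)) (XT.lf (nat_lit 0) (nat_lit 20504215725) (nat_lit 228) (nat_lit 39281104064) (nat_lit 76) (nat_lit 18988350226) (nat_lit 14) (nat_lit 5) (nat_lit 17) (nat_lit 5) (nat_lit 15) (nat_lit 4) (nat_lit 342) (nat_lit 272) (nat_lit 166)))) (XT.nd (nat_lit 156)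 (nat_lit 0) (nat_lit 0) (XT.nd (nat_lit 78) (nat_lit 76) (nat_lit 0) (XT.lf (nat_lit 0) (nat_lit 34209199683) (nat_lit 228) (nat_lit 11481973328) (nat_lit 76) (nat_lit 36514393181) (nat_lit 14) (nat_lit 5) (nat_lit 17) (nat_lit 5) (nat_lit 15) (nat_lit 4) (nat_lit 343) (nat_lit 272) (nat_lit 165)) (XT.lf (nat_lit 0) (nat_lit 18043701876) (nat_lit 76) (nat_lit 30720480524) (nat_lit 152) (nat_lit 37039936411) (nat_lit 13) (nat_lit 5) (nat_lit 14) (nat_lit 5) (nat_lit 15) (nat_lit 4) (nat_lit 344) (nat_lit 272) (nat_lit 164))) (XT.nd (nat_lit 78) (nat_lit 0) (nat_lit 0) (XT.lf (nat_lit 0) (nat_lit 49270535213) (nat_lit 76) (nat_lit 14886147640) (nat_lit 152) (nat_lit 25422627076) (nat_lit 13) (nat_lit 5) (nat_lit 14) (nat_lit 5) (nat_lit 15) (nat_lit 4) (nat_lit 345) (nat_lit 272) (nat_lit 163)) (XT.lf (nat_lit 0) (nat_lit 80327445729) (nat_lit 152) (nat_lit 11515806887) (nat_lit 0) (nat_lit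 1699752605) (nat_lit 13) (nat_lit 5) (nat_lit 15) (nat_lit 4) (nat_lit 13) (nat_lit 4) (nat_lit 346) (nat_lit 272) (nat_lit 162)))))) (XT.nd (nat_lit 468) (nat_lit 228) (nat_lit 0) (XT.nd (nat_lit 234) (nat_lit 76) (nat_lit 0) (XT.nd (nat_lit 78) (nat_lit 76) (nat_lit 0) (XT.lf (nat_lit 0) (nat_lit 18921955828) (nat_lit 76) (nat_lit 78709227351) (nat_lit 76) (nat_lit 63972565) (nat_lit 12) (nat_lit 4) (nat_lit 13) (nat_lit 5) (nat_lit 13) (nat_lit 4) (nat_lit 347) (nat_lit 272) (nat_lit 161)) (XT.nd (nat_lit 78) (nat_lit 0) (nat_lit 0) (XT.lf (nat_lit 0) (nat_lit 13589152104) (nat_lit 152) (nat_lit 51076001403) (nat_lit 76) (nat_lit 37382434463) (nat_lit 11) (nat_lit 5) (nat_lit 13) (nat_lit 5) (nat_lit 12) (nat_lit 4) (nat_lit 348) (nat_lit 272) (nat_lit 160)) (XT.lf (nat_lit 0) (nat_lit 27916439257) (nat_lit 152) (nat_lit 22007537427) (nat_lit 76) (nat_lit 56693864378) (nat_lit 11) (nat_lit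 5) (nat_lit 13) (nat_lit 5) (nat_lit 12) (nat_lit 4) (nat_lit 349) (nat_lit 272) (nat_lit 159)))) (XT.nd (nat_lit 78) (nat_lit 0) (nat_lit 0) (XT.lf (nat_lit 0) (nat_lit 8671224404) (nat_lit 76) (nat_lit 34365378526) (nat_lit 152) (nat_lit 68377711502) (nat_lit 10) (nat_lit 5) (nat_lit 11) (nat_lit 5) (nat_lit 12) (nat_lit 4) (nat_lit 350) (nat_lit 272) (nat_lit 158)) (XT.nd (nat_lit 78) (nat_lit 0) (nat_lit 0) (XT.lf (nat_lit 0) (nat_lit 41331838466) (nat_lit 76) (nat_lit 17800854160) (nat_lit 152) (nat_lit 57311324150) (nat_lit 10) (nat_lit 5) (nat_lit 11) (nat_lit 5) (nat_lit 12) (nat_lit 4) (nat_lit 351) (nat_lit 272) (nat_lit 157)) (XT.lf (nat_lit 0) (nat_lit 75614074979) (nat_lit 76) (nat_lit 413197220) (nat_lit 152) (nat_lit 45698124186) (nat_lit 10) (nat_lit 5) (nat_lit 11) (nat_lit 5) (nat_lit 12) (nat_lit 4) (nat_lit 352) (nat_lit 272) (nat_lit 156))))) (XT.nd (nat_lit 234) (nat_lit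 152) (nat_lit 0) (XT.nd (nat_lit 78) (nat_lit 76) (nat_lit 0) (XT.lf (nat_lit 0) (nat_lit 93932046138) (nat_lit 152) (nat_lit 15842948957) (nat_lit 0) (nat_lit 17490888498) (nat_lit 10) (nat_lit 5) (nat_lit 12) (nat_lit 4) (nat_lit 10) (nat_lit 4) (nat_lit 353) (nat_lit 272) (nat_lit 155)) (XT.nd (nat_lit 78) (nat_lit 0) (nat_lit 0) (XT.lf (nat_lit 0) (nat_lit 16241116810) (nat_lit 76) (nat_lit 96645460067) (nat_lit 76) (nat_lit 20192185199) (nat_lit 9) (nat_lit 4) (nat_lit 10) (nat_lit 5) (nat_lit 10) (nat_lit 4) (nat_lit 354) (nat_lit 272) (nat_lit 154)) (XT.lf (nat_lit 0) (nat_lit 50250279744) (nat_lit 76) (nat_lit 82696048667) (nat_lit 76) (nat_lit 6231233583) (nat_lit 9) (nat_lit 4) (nat_lit 10) (nat_lit 5) (nat_lit 10) (nat_lit 4) (nat_lit 355) (nat_lit 272) (nat_lit 153)))) (XT.nd (nat_lit 234) (nat_lit 76) (nat_lit 0) (XT.nd (nat_lit 78) (nat_lit 0) (nat_lit 0) (XT.lf (nat_lit 0)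 (nat_lit 8257926112) (nat_lit 152) (nat_lit 59712215758) (nat_lit 76) (nat_lit 77608893319) (nat_lit 8) (nat_lit 5) (nat_lit 10) (nat_lit 5) (nat_lit 9) (nat_lit 4) (nat_lit 356) (nat_lit 272) (nat_lit 152)) (XT.lf (nat_lit 0) (nat_lit 23338743207) (nat_lit 152) (nat_lit 29108624373) (nat_lit 76) (nat_lit 99851483537) (nat_lit 8) (nat_lit 5) (nat_lit 10) (nat_lit 5) (nat_lit 9) (nat_lit 4) (nat_lit 357) (nat_lit 272) (nat_lit 151))) (XT.nd (nat_lit 33930) (nat_lit 0) (nat_lit 16036) (XT.lf (nat_lit 0) (nat_lit 37470089664) (nat_lit 76) (nat_lit 18675637324) (nat_lit 152) (nat_lit 110607168054) (nat_lit 7) (nat_lit 5) (nat_lit 8) (nat_lit 5) (nat_lit 9) (nat_lit 4) (nat_lit 359) (nat_lit 272) (nat_lit 149)) (XT.lf (nat_lit 0) (nat_lit 1768101014) (nat_lit 988) (nat_lit 1227454050) (nat_lit 988) (nat_lit 1227454050) (nat_lit 218) (nat_lit 3) (nat_lit 231) (nat_lit 3) (nat_lit 231) (nat_lit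 5) (nat_lit 273) (nat_lit 273) (nat_lit 234))))))))
noncomputable def xc73 : XT := (XT.nd (nat_lit 2028) (nat_lit 5016) (nat_lit 0) (XT.nd (nat_lit 1014) (nat_lit 5396) (nat_lit 0) (XT.nd (nat_lit 468) (nat_lit 2964) (nat_lit 0) (XT.nd (nat_lit 234) (nat_lit 836) (nat_lit 0) (XT.nd (nat_lit 78) (nat_lit 0) (nat_lit 76) (XT.lf (nat_lit 76) (nat_lit 3891738231) (nat_lit 0) (nat_lit 1383124657) (nat_lit 988) (nat_lit 3329946501) (nat_lit 219) (nat_lit 5) (nat_lit 218) (nat_lit 3) (nat_lit 231) (nat_lit 5) (nat_lit 274) (nat_lit 273) (nat_lit 233)) (XT.nd (nat_lit 78) (nat_lit 0) (nat_lit 0) (XT.lf (nat_lit 76) (nat_lit 1779401713) (nat_lit 0) (nat_lit 5293605993) (nat_lit 988) (nat_lit 1699538414) (nat_lit 220) (nat_lit 5) (nat_lit 219) (nat_lit 5) (nat_lit 232) (nat_lit 5) (nat_lit 275) (nat_lit 273) (nat_lit 232)) (XT.lf (nat_lit 76) (nat_lit 8624322894) (nat_lit 0) (nat_lit 300164075) (nat_lit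 988) (nat_lit 25453750) (nat_lit 220) (nat_lit 5) (nat_lit 219) (nat_lit 5) (nat_lit 232) (nat_lit 5) (nat_lit 276) (nat_lit 273) (nat_lit 231)))) (XT.nd (nat_lit 78) (nat_lit 0) (nat_lit 76) (XT.lf (nat_lit 0) (nat_lit 1716666952) (nat_lit 988) (nat_lit 2451238114) (nat_lit 1064) (nat_lit 4967417081) (nat_lit 207) (nat_lit 5) (nat_lit 220) (nat_lit 5) (nat_lit 221) (nat_lit 5) (nat_lit 277) (nat_lit 273) (nat_lit 230)) (XT.nd (nat_lit 78) (nat_lit 0) (nat_lit 0) (XT.lf (nat_lit 0) (nat_lit 3518536469) (nat_lit 988) (nat_lit 4590076136) (nat_lit 1064) (nat_lit 1222310498) (nat_lit 208) (nat_lit 5) (nat_lit 221) (nat_lit 5) (nat_lit 222) (nat_lit 5) (nat_lit 278) (nat_lit 273) (nat_lit 229)) (XT.lf (nat_lit 76) (nat_lit 2760910843) (nat_lit 0) (nat_lit 2656849112) (nat_lit 1064) (nat_lit 4118472139) (nat_lit 209) (nat_lit 5) (nat_lit 208) (nat_lit 5) (nat_lit 222) (nat_lit 5) (nat_lit 279)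 (nat_lit 273) (nat_lit 228))))) (XT.nd (nat_lit 234) (nat_lit 2128) (nat_lit 0) (XT.nd (nat_lit 78) (nat_lit 988) (nat_lit 0) (XT.lf (nat_lit 76) (nat_lit 749590480) (nat_lit 0) (nat_lit 6663770867) (nat_lit 1064) (nat_lit 2338541544) (nat_lit 210) (nat_lit 5) (nat_lit 209) (nat_lit 5) (nat_lit 223) (nat_lit 5) (nat_lit 280) (nat_lit 273) (nat_lit 227)) (XT.nd (nat_lit 78) (nat_lit 988) (nat_lit 0) (XT.lf (nat_lit 76) (nat_lit 8706644320) (nat_lit 0) (nat_lit 818794968) (nat_lit 1064) (nat_lit 452549291) (nat_lit 210) (nat_lit 5) (nat_lit 209) (nat_lit 5) (nat_lit 223) (nat_lit 5) (nat_lit 281) (nat_lit 273) (nat_lit 226)) (XT.lf (nat_lit 0) (nat_lit 1539773222) (nat_lit 1064) (nat_lit 3358382843) (nat_lit 1140) (nat_lit 5315648927) (nat_lit 196) (nat_lit 5) (nat_lit 210) (nat_lit 5) (nat_lit 211) (nat_lit 5) (nat_lit 282) (nat_lit 273) (nat_lit 225)))) (XT.nd (nat_lit 156) (nat_lit 1140)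 (nat_lit 0) (XT.nd (nat_lit 78) (nat_lit 1064) (nat_lit 0) (XT.lf (nat_lit 0) (nat_lit 3631488786) (nat_lit 1064) (nat_lit 5494373392) (nat_lit 76) (nat_lit 1335257996) (nat_lit 197) (nat_lit 5) (nat_lit 211) (nat_lit 5) (nat_lit 198) (nat_lit 5) (nat_lit 283) (nat_lit 273) (nat_lit 224)) (XT.lf (nat_lit 0) (nat_lit 3008719856) (nat_lit 1064) (nat_lit 2862036251) (nat_lit 1140) (nat_lit 4848866937) (nat_lit 183) (nat_lit 5) (nat_lit 197) (nat_lit 5) (nat_lit 198) (nat_lit 5) (nat_lit 284) (nat_lit 273) (nat_lit 223))) (XT.nd (nat_lit 78) (nat_lit 0) (nat_lit 0) (XT.lf (nat_lit 0) (nat_lit 986094714) (nat_lit 1140) (nat_lit 7270793225) (nat_lit 1216) (nat_lit 2733221718) (nat_lit 168) (nat_lit 5) (nat_lit 183) (nat_lit 5) (nat_lit 184) (nat_lit 5) (nat_lit 285) (nat_lit 273) (nat_lit 222)) (XT.lf (nat_lit 0) (nat_lit 10192008966) (nat_lit 1140) (nat_lit 613546325) (nat_lit 1216) (nat_lit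 467369041) (nat_lit 168) (nat_lit 5) (nat_lit 183) (nat_lit 5) (nat_lit 184) (nat_lit 5) (nat_lit 286) (nat_lit 273) (nat_lit 221)))))) (XT.nd (nat_lit 468) (nat_lit 2584) (nat_lit 0) (XT.nd (nat_lit 234) (nat_lit 1064) (nat_lit 0) (XT.nd (nat_lit 78) (nat_lit 1140) (nat_lit 0) (XT.lf (nat_lit 0) (nat_lit 1954958641) (nat_lit 608) (nat_lit 3253976623) (nat_lit 76) (nat_lit 6358071541) (nat_lit 160) (nat_lit 5) (nat_lit 168) (nat_lit 5) (nat_lit 161) (nat_lit 5) (nat_lit 287) (nat_lit 273) (nat_lit 220)) (XT.nd (nat_lit 78) (nat_lit 532) (nat_lit 0) (XT.lf (nat_lit 0) (nat_lit 4525720978) (nat_lit 684) (nat_lit 5512410346) (nat_lit 76) (nat_lit 1836502319) (nat_lit 152) (nat_lit 5) (nat_lit 161) (nat_lit 5) (nat_lit 153) (nat_lit 5) (nat_lit 288) (nat_lit 273) (nat_lit 219)) (XT.lf (nat_lit 0) (nat_lit 4304952456) (nat_lit 532) (nat_lit 2990326910) (nat_lit 608) (nat_lit 4900339090) (nat_lit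 145) (nat_lit 5) (nat_lit 152) (nat_lit 5) (nat_lit 153) (nat_lit 5) (nat_lit 289) (nat_lit 273) (nat_lit 218)))) (XT.nd (nat_lit 78) (nat_lit 532) (nat_lit 0) (XT.lf (nat_lit 0) (nat_lit 2139364751) (nat_lit 532) (nat_lit 8128897534) (nat_lit 608) (nat_lit 2262522181) (nat_lit 138) (nat_lit 5) (nat_lit 145) (nat_lit 5) (nat_lit 146) (nat_lit 5) (nat_lit 290) (nat_lit 273) (nat_lit 217)) (XT.nd (nat_lit 78) (nat_lit 456) (nat_lit 0) (XT.lf (nat_lit 0) (nat_lit 555687798) (nat_lit 608) (nat_lit 136716636) (nat_lit 76) (nat_lit 12188480401) (nat_lit 137) (nat_lit 5) (nat_lit 145) (nat_lit 5) (nat_lit 138) (nat_lit 5) (nat_lit 291) (nat_lit 273) (nat_lit 216)) (XT.lf (nat_lit 0) (nat_lit 3590301103) (nat_lit 532) (nat_lit 2551691681) (nat_lit 76) (nat_lit 7102227606) (nat_lit 131) (nat_lit 5) (nat_lit 138) (nat_lit 5) (nat_lit 132) (nat_lit 5) (nat_lit 292) (nat_lit 273) (nat_lit 215))))) (XT.nd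 (nat_lit 234) (nat_lit 1216) (nat_lit 0) (XT.nd (nat_lit 78) (nat_lit 912) (nat_lit 0) (XT.lf (nat_lit 0) (nat_lit 6834486227) (nat_lit 532) (nat_lit 5094654565) (nat_lit 76) (nat_lit 1694914085) (nat_lit 125) (nat_lit 5) (nat_lit 132) (nat_lit 5) (nat_lit 126) (nat_lit 5) (nat_lit 293) (nat_lit 273) (nat_lit 214)) (XT.nd (nat_lit 78) (nat_lit 456) (nat_lit 0) (XT.lf (nat_lit 0) (nat_lit 6200953024) (nat_lit 456) (nat_lit 4140518976) (nat_lit 532) (nat_lit 3678455531) (nat_lit 119) (nat_lit 5) (nat_lit 125) (nat_lit 5) (nat_lit 126) (nat_lit 5) (nat_lit 294) (nat_lit 273) (nat_lit 213)) (XT.lf (nat_lit 0) (nat_lit 3713504882) (nat_lit 456) (nat_lit 10391941236) (nat_lit 532) (nat_lit 327759651) (nat_lit 113) (nat_lit 5) (nat_lit 119) (nat_lit 5) (nat_lit 120) (nat_lit 5) (nat_lit 295) (nat_lit 273) (nat_lit 212)))) (XT.nd (nat_lit 156) (nat_lit 760) (nat_lit 0) (XT.nd (nat_lit 78) (nat_lit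 0) (nat_lit 0) (XT.lf (nat_lit 0) (nat_lit 1014991522) (nat_lit 380) (nat_lit 2201412974) (nat_lit 456) (nat_lit 11647234148) (nat_lit 107) (nat_lit 5) (nat_lit 112) (nat_lit 5) (nat_lit 113) (nat_lit 5) (nat_lit 296) (nat_lit 273) (nat_lit 211)) (XT.lf (nat_lit 0) (nat_lit 7060920924) (nat_lit 456) (nat_lit 1870338627) (nat_lit 76) (nat_lit 6380392406) (nat_lit 107) (nat_lit 5) (nat_lit 113) (nat_lit 5) (nat_lit 108) (nat_lit 5) (nat_lit 297) (nat_lit 273) (nat_lit 210))) (XT.nd (nat_lit 78) (nat_lit 380) (nat_lit 0) (XT.lf (nat_lit 0) (nat_lit 10846242446) (nat_lit 380) (nat_lit 336862303) (nat_lit 456) (nat_lit 4596449204) (nat_lit 102) (nat_lit 5) (nat_lit 107) (nat_lit 5) (nat_lit 108) (nat_lit 5) (nat_lit 298) (nat_lit 273) (nat_lit 209)) (XT.lf (nat_lit 0) (nat_lit 7989892013) (nat_lit 380) (nat_lit 7661621618) (nat_lit 456) (nat_lit 615182765) (nat_lit 97) (nat_lit 5) (nat_lit 102)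 (nat_lit 5) (nat_lit 103) (nat_lit 5) (nat_lit 299) (nat_lit 273) (nat_lit 208))))))) (XT.nd (nat_lit 1014) (nat_lit 1824) (nat_lit 0) (XT.nd (nat_lit 468) (nat_lit 1368) (nat_lit 0) (XT.nd (nat_lit 234) (nat_lit 1064) (nat_lit 0) (XT.nd (nat_lit 78) (nat_lit 304) (nat_lit 0) (XT.lf (nat_lit 0) (nat_lit 3571501444) (nat_lit 456) (nat_lit 11894329275) (nat_lit 76) (nat_lit 1309104576) (nat_lit 91) (nat_lit 5) (nat_lit 97) (nat_lit 5) (nat_lit 92) (nat_lit 5) (nat_lit 300) (nat_lit 273) (nat_lit 207)) (XT.nd (nat_lit 78) (nat_lit 0) (nat_lit 0) (XT.lf (nat_lit 0) (nat_lit 1458063642) (nat_lit 304) (nat_lit 6636883457) (nat_lit 380) (nat_lit 9209294802) (nat_lit 87) (nat_lit 5) (nat_lit 91) (nat_lit 5) (nat_lit 92) (nat_lit 5) (nat_lit 301) (nat_lit 273) (nat_lit 206)) (XT.lf (nat_lit 0) (nat_lit 12957387136) (nat_lit 380) (nat_lit 2204671016) (nat_lit 76) (nat_lit 2694611968) (nat_lit 87)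 (nat_lit 5) (nat_lit 92) (nat_lit 5) (nat_lit 88) (nat_lit 5) (nat_lit 302) (nat_lit 273) (nat_lit 205)))) (XT.nd (nat_lit 78) (nat_lit 684) (nat_lit 0) (XT.lf (nat_lit 0) (nat_lit 12244733321) (nat_lit 380) (nat_lit 5968481927) (nat_lit 456) (nat_lit 219035519) (nat_lit 82) (nat_lit 5) (nat_lit 87) (nat_lit 5) (nat_lit 88) (nat_lit 5) (nat_lit 303) (nat_lit 273) (nat_lit 204)) (XT.nd (nat_lit 78) (nat_lit 304) (nat_lit 0) (XT.lf (nat_lit 0) (nat_lit 4711454139) (nat_lit 380) (nat_lit 10568169070) (nat_lit 76) (nat_lit 3752433776) (nat_lit 77) (nat_lit 5) (nat_lit 82) (nat_lit 5) (nat_lit 78) (nat_lit 5) (nat_lit 304) (nat_lit 273) (nat_lit 203)) (XT.lf (nat_lit 0) (nat_lit 4292807023) (nat_lit 304) (nat_lit 5724484093) (nat_lit 380) (nat_lit 9640531095) (nat_lit 73) (nat_lit 5) (nat_lit 77) (nat_lit 5) (nat_lit 78) (nat_lit 5) (nat_lit 305) (nat_lit 273) (nat_lit 202))))) (XT.nd (nat_lit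 234) (nat_lit 760) (nat_lit 0) (XT.nd (nat_lit 78) (nat_lit 608) (nat_lit 0) (XT.lf (nat_lit 0) (nat_lit 15708188966) (nat_lit 380) (nat_lit 281091201) (nat_lit 76) (nat_lit 4322035168) (nat_lit 73) (nat_lit 5) (nat_lit 78) (nat_lit 5) (nat_lit 74) (nat_lit 5) (nat_lit 306) (nat_lit 273) (nat_lit 201)) (XT.nd (nat_lit 78) (nat_lit 304) (nat_lit 0) (XT.lf (nat_lit 0) (nat_lit 853806570) (nat_lit 304) (nat_lit 5236172298) (nat_lit 76) (nat_lit 14901905201) (nat_lit 69) (nat_lit 5) (nat_lit 73) (nat_lit 5) (nat_lit 70) (nat_lit 5) (nat_lit 307) (nat_lit 273) (nat_lit 200)) (XT.lf (nat_lit 0) (nat_lit 6611624363) (nat_lit 380) (nat_lit 10725055256) (nat_lit 76) (nat_lit 4364766018) (nat_lit 65) (nat_lit 5) (nat_lit 70) (nat_lit 5) (nat_lit 66) (nat_lit 5) (nat_lit 308) (nat_lit 273) (nat_lit 199)))) (XT.nd (nat_lit 156) (nat_lit 532) (nat_lit 0) (XT.nd (nat_lit 78) (nat_lit 0) (nat_lit 0) (XT.lf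 (nat_lit 0) (nat_lit 5671316890) (nat_lit 228) (nat_lit 7128022919) (nat_lit 304) (nat_lit 9642912702) (nat_lit 62) (nat_lit 5) (nat_lit 65) (nat_lit 5) (nat_lit 66) (nat_lit 5) (nat_lit 309) (nat_lit 273) (nat_lit 198)) (XT.lf (nat_lit 0) (nat_lit 19414888314) (nat_lit 304) (nat_lit 181790578) (nat_lit 76) (nat_lit 3619893542) (nat_lit 62) (nat_lit 5) (nat_lit 66) (nat_lit 5) (nat_lit 63) (nat_lit 5) (nat_lit 310) (nat_lit 273) (nat_lit 197))) (XT.nd (nat_lit 78) (nat_lit 228) (nat_lit 0) (XT.lf (nat_lit 0) (nat_lit 2501785589) (nat_lit 304) (nat_lit 6581115832) (nat_lit 76) (nat_lit 14939588371) (nat_lit 58) (nat_lit 5) (nat_lit 62) (nat_lit 5) (nat_lit 59) (nat_lit 5) (nat_lit 311) (nat_lit 273) (nat_lit 196)) (XT.lf (nat_lit 0) (nat_lit 9146811826) (nat_lit 304) (nat_lit 13662222911) (nat_lit 76) (nat_lit 2055411841) (nat_lit 55) (nat_lit 5) (nat_lit 59) (nat_lit 5) (nat_lit 56) (nat_lit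 5) (nat_lit 312) (nat_lit 273) (nat_lit 195)))))) (XT.nd (nat_lit 546) (nat_lit 684) (nat_lit 0) (XT.nd (nat_lit 234) (nat_lit 684) (nat_lit 0) (XT.nd (nat_lit 78) (nat_lit 228) (nat_lit 0) (XT.lf (nat_lit 0) (nat_lit 4217721865) (nat_lit 228) (nat_lit 12082098885) (nat_lit 304) (nat_lit 9443430420) (nat_lit 52) (nat_lit 5) (nat_lit 55) (nat_lit 5) (nat_lit 56) (nat_lit 5) (nat_lit 313) (nat_lit 273) (nat_lit 194)) (XT.nd (nat_lit 78) (nat_lit 228) (nat_lit 0) (XT.lf (nat_lit 0) (nat_lit 23240232341) (nat_lit 228) (nat_lit 686813859) (nat_lit 304) (nat_lit 2735473677) (nat_lit 52) (nat_lit 5) (nat_lit 55) (nat_lit 5) (nat_lit 56) (nat_lit 5) (nat_lit 314) (nat_lit 273) (nat_lit 193)) (XT.lf (nat_lit 0) (nat_lit 4462902403) (nat_lit 228) (nat_lit 11915158325) (nat_lit 76) (nat_lit 11241295771) (nat_lit 49) (nat_lit 5) (nat_lit 52) (nat_lit 5) (nat_lit 50) (nat_lit 5) (nat_lit 315) (nat_lit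 273) (nat_lit 192)))) (XT.nd (nat_lit 156) (nat_lit 456) (nat_lit 0) (XT.nd (nat_lit 78) (nat_lit 0) (nat_lit 0) (XT.lf (nat_lit 0) (nat_lit 7308056959) (nat_lit 228) (nat_lit 4747330931) (nat_lit 304) (nat_lit 16565129989) (nat_lit 46) (nat_lit 5) (nat_lit 49) (nat_lit 5) (nat_lit 50) (nat_lit 5) (nat_lit 316) (nat_lit 273) (nat_lit 191)) (XT.lf (nat_lit 0) (nat_lit 20201228574) (nat_lit 304) (nat_lit 2034351762) (nat_lit 76) (nat_lit 7430962564) (nat_lit 46) (nat_lit 5) (nat_lit 50) (nat_lit 5) (nat_lit 47) (nat_lit 5) (nat_lit 317) (nat_lit 273) (nat_lit 190))) (XT.nd (nat_lit 78) (nat_lit 304) (nat_lit 0) (XT.lf (nat_lit 0) (nat_lit 18487410530) (nat_lit 152) (nat_lit 10471724676) (nat_lit 228) (nat_lit 1799607414) (nat_lit 44) (nat_lit 5) (nat_lit 46) (nat_lit 5) (nat_lit 47) (nat_lit 5) (nat_lit 318) (nat_lit 273) (nat_lit 189)) (XT.lf (nat_lit 0) (nat_lit 6226962465) (nat_lit 304)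 (nat_lit 23680100783) (nat_lit 76) (nat_lit 1993716534) (nat_lit 40) (nat_lit 5) (nat_lit 44) (nat_lit 5) (nat_lit 41) (nat_lit 5) (nat_lit 319) (nat_lit 273) (nat_lit 188))))) (XT.nd (nat_lit 234) (nat_lit 380) (nat_lit 0) (XT.nd (nat_lit 78) (nat_lit 304) (nat_lit 0) (XT.lf (nat_lit 0) (nat_lit 14831421718) (nat_lit 304) (nat_lit 3259635112) (nat_lit 76) (nat_lit 15001928726) (nat_lit 40) (nat_lit 5) (nat_lit 44) (nat_lit 5) (nat_lit 41) (nat_lit 5) (nat_lit 320) (nat_lit 273) (nat_lit 187)) (XT.nd (nat_lit 78) (nat_lit 152) (nat_lit 0) (XT.lf (nat_lit 0) (nat_lit 18512506053) (nat_lit 152) (nat_lit 5512662494) (nat_lit 228) (nat_lit 10314875111) (nat_lit 38) (nat_lit 5) (nat_lit 40) (nat_lit 5) (nat_lit 41) (nat_lit 5) (nat_lit 321) (nat_lit 273) (nat_lit 186)) (XT.lf (nat_lit 0) (nat_lit 5801668484) (nat_lit 152) (nat_lit 28022171331) (nat_lit 228) (nat_lit 1821271048) (nat_lit 36) (nat_lit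 5) (nat_lit 38) (nat_lit 5) (nat_lit 39) (nat_lit 5) (nat_lit 322) (nat_lit 273) (nat_lit 185)))) (XT.nd (nat_lit 156) (nat_lit 152) (nat_lit 0) (XT.nd (nat_lit 78) (nat_lit 152) (nat_lit 0) (XT.lf (nat_lit 0) (nat_lit 7160729406) (nat_lit 228) (nat_lit 8322607766) (nat_lit 76) (nat_lit 21523993808) (nat_lit 35) (nat_lit 5) (nat_lit 38) (nat_lit 5) (nat_lit 36) (nat_lit 5) (nat_lit 323) (nat_lit 273) (nat_lit 184)) (XT.lf (nat_lit 0) (nat_lit 14510783247) (nat_lit 152) (nat_lit 2166092943) (nat_lit 228) (nat_lit 21756575273) (nat_lit 33) (nat_lit 5) (nat_lit 35) (nat_lit 5) (nat_lit 36) (nat_lit 5) (nat_lit 324) (nat_lit 273) (nat_lit 183))) (XT.nd (nat_lit 78) (nat_lit 152) (nat_lit 0) (XT.lf (nat_lit 0) (nat_lit 26852268131) (nat_lit 228) (nat_lit 1410840666) (nat_lit 76) (nat_lit 11662277204) (nat_lit 33) (nat_lit 5) (nat_lit 36) (nat_lit 5) (nat_lit 34) (nat_lit 5) (nat_lit 325) (nat_lit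 273) (nat_lit 182)) (XT.lf (nat_lit 0) (nat_lit 22619577039) (nat_lit 152) (nat_lit 15140266164) (nat_lit 228) (nat_lit 3725382290) (nat_lit 31) (nat_lit 5) (nat_lit 33) (nat_lit 5) (nat_lit 34) (nat_lit 5) (nat_lit 326) (nat_lit 273) (nat_lit 181))))))))
noncomputable def xc74 : XT := (XT.nd (nat_lit 2028) (nat_lit 228) (nat_lit 0) (XT.nd (nat_lit 1014) (nat_lit 608) (nat_lit 0) (XT.nd (nat_lit 468) (nat_lit 456) (nat_lit 0) (XT.nd (nat_lit 234) (nat_lit 152) (nat_lit 0) (XT.nd (nat_lit 78) (nat_lit 152) (nat_lit 0) (XT.lf (nat_lit 0) (nat_lit 4766622298) (nat_lit 152) (nat_lit 1249235750) (nat_lit 228) (nat_lit 37104104071) (nat_lit 28) (nat_lit 5) (nat_lit 30) (nat_lit 5) (nat_lit 31) (nat_lit 5) (nat_lit 327) (nat_lit 273) (nat_lit 180)) (XT.nd (nat_lit 78) (nat_lit 152) (nat_lit 0) (XT.lf (nat_lit 0) (nat_lit 16477016287) (nat_lit 228) (nat_lit 15049287555) (nat_lit 76) (nat_lit 13299737474)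 (nat_lit 28) (nat_lit 5) (nat_lit 31) (nat_lit 5) (nat_lit 29) (nat_lit 5) (nat_lit 328) (nat_lit 273) (nat_lit 179)) (XT.lf (nat_lit 0) (nat_lit 9569619894) (nat_lit 152) (nat_lit 17981792465) (nat_lit 228) (nat_lit 19063315634) (nat_lit 26) (nat_lit 5) (nat_lit 28) (nat_lit 5) (nat_lit 29) (nat_lit 5) (nat_lit 329) (nat_lit 273) (nat_lit 178)))) (XT.nd (nat_lit 78) (nat_lit 152) (nat_lit 0) (XT.lf (nat_lit 0) (nat_lit 35710183830) (nat_lit 152) (nat_lit 3610303616) (nat_lit 228) (nat_lit 9168141275) (nat_lit 26) (nat_lit 5) (nat_lit 28) (nat_lit 5) (nat_lit 29) (nat_lit 5) (nat_lit 330) (nat_lit 273) (nat_lit 177)) (XT.nd (nat_lit 78) (nat_lit 0) (nat_lit 0) (XT.lf (nat_lit 0) (nat_lit 1420305851) (nat_lit 152) (nat_lit 37645177680) (nat_lit 76) (nat_lit 11383725800) (nat_lit 24) (nat_lit 5) (nat_lit 26) (nat_lit 5) (nat_lit 25) (nat_lit 5) (nat_lit 331) (nat_lit 273) (nat_lit 176)) (XT.lf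 (nat_lit 0) (nat_lit 12506513686) (nat_lit 152) (nat_lit 12724056808) (nat_lit 76) (nat_lit 27269794258) (nat_lit 24) (nat_lit 5) (nat_lit 26) (nat_lit 5) (nat_lit 25) (nat_lit 5) (nat_lit 332) (nat_lit 273) (nat_lit 175))))) (XT.nd (nat_lit 234) (nat_lit 228) (nat_lit 0) (XT.nd (nat_lit 78) (nat_lit 76) (nat_lit 0) (XT.lf (nat_lit 0) (nat_lit 13688741799) (nat_lit 152) (nat_lit 10577400478) (nat_lit 228) (nat_lit 30384369480) (nat_lit 22) (nat_lit 5) (nat_lit 24) (nat_lit 5) (nat_lit 25) (nat_lit 5) (nat_lit 333) (nat_lit 273) (nat_lit 174)) (XT.nd (nat_lit 78) (nat_lit 76) (nat_lit 0) (XT.lf (nat_lit 0) (nat_lit 36780088193) (nat_lit 228) (nat_lit 15284842791) (nat_lit 76) (nat_lit 4838251836) (nat_lit 22) (nat_lit 5) (nat_lit 25) (nat_lit 5) (nat_lit 23) (nat_lit 4) (nat_lit 334) (nat_lit 273) (nat_lit 173)) (XT.lf (nat_lit 0) (nat_lit 11778862838) (nat_lit 76) (nat_lit 38349268318) (nat_lit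 152) (nat_lit 9134110748) (nat_lit 21) (nat_lit 5) (nat_lit 22) (nat_lit 5) (nat_lit 23) (nat_lit 4) (nat_lit 335) (nat_lit 273) (nat_lit 172)))) (XT.nd (nat_lit 156) (nat_lit 0) (nat_lit 0) (XT.nd (nat_lit 78) (nat_lit 152) (nat_lit 0) (XT.lf (nat_lit 0) (nat_lit 2504967396) (nat_lit 152) (nat_lit 21263850863) (nat_lit 76) (nat_lit 37965321439) (nat_lit 20) (nat_lit 5) (nat_lit 22) (nat_lit 5) (nat_lit 21) (nat_lit 5) (nat_lit 336) (nat_lit 273) (nat_lit 171)) (XT.lf (nat_lit 0) (nat_lit 6278103103) (nat_lit 152) (nat_lit 8310294160) (nat_lit 228) (nat_lit 49736988550) (nat_lit 18) (nat_lit 5) (nat_lit 20) (nat_lit 5) (nat_lit 21) (nat_lit 5) (nat_lit 337) (nat_lit 273) (nat_lit 170))) (XT.nd (nat_lit 78) (nat_lit 0) (nat_lit 0) (XT.lf (nat_lit 0) (nat_lit 27562664205) (nat_lit 228) (nat_lit 31495000134) (nat_lit 76) (nat_lit 7979935345) (nat_lit 18) (nat_lit 5) (nat_lit 21) (nat_lit 5)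 (nat_lit 19) (nat_lit 4) (nat_lit 338) (nat_lit 273) (nat_lit 169)) (XT.lf (nat_lit 0) (nat_lit 41259486827) (nat_lit 228) (nat_lit 3716666134) (nat_lit 76) (nat_lit 24907061179) (nat_lit 18) (nat_lit 5) (nat_lit 21) (nat_lit 5) (nat_lit 19) (nat_lit 4) (nat_lit 339) (nat_lit 273) (nat_lit 168)))))) (XT.nd (nat_lit 468) (nat_lit 228) (nat_lit 0) (XT.nd (nat_lit 234) (nat_lit 76) (nat_lit 0) (XT.nd (nat_lit 78) (nat_lit 228) (nat_lit 0) (XT.lf (nat_lit 0) (nat_lit 25939923144) (nat_lit 76) (nat_lit 29941020246) (nat_lit 152) (nat_lit 16982977059) (nat_lit 17) (nat_lit 5) (nat_lit 18) (nat_lit 5) (nat_lit 19) (nat_lit 4) (nat_lit 340) (nat_lit 273) (nat_lit 167)) (XT.nd (nat_lit 78) (nat_lit 228) (nat_lit 0) (XT.lf (nat_lit 0) (nat_lit 57140649318) (nat_lit 76) (nat_lit 14121823525) (nat_lit 152) (nat_lit 4730323909) (nat_lit 17) (nat_lit 5) (nat_lit 18) (nat_lit 5) (nat_lit 19) (nat_lit 4)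 (nat_lit 341) (nat_lit 273) (nat_lit 166)) (XT.lf (nat_lit 0) (nat_lit 8096187591) (nat_lit 228) (nat_lit 68559707007) (nat_lit 76) (nat_lit 2616281610) (nat_lit 14) (nat_lit 5) (nat_lit 17) (nat_lit 5) (nat_lit 15) (nat_lit 4) (nat_lit 342) (nat_lit 273) (nat_lit 165)))) (XT.nd (nat_lit 78) (nat_lit 76) (nat_lit 0) (XT.lf (nat_lit 0) (nat_lit 21796928847) (nat_lit 228) (nat_lit 40768141970) (nat_lit 76) (nat_lit 20139130859) (nat_lit 14) (nat_lit 5) (nat_lit 17) (nat_lit 5) (nat_lit 15) (nat_lit 4) (nat_lit 343) (nat_lit 273) (nat_lit 164)) (XT.nd (nat_lit 78) (nat_lit 76) (nat_lit 0) (XT.lf (nat_lit 0) (nat_lit 36174423796) (nat_lit 228) (nat_lit 11601769806) (nat_lit 76) (nat_lit 38531887241) (nat_lit 14) (nat_lit 5) (nat_lit 17) (nat_lit 5) (nat_lit 15) (nat_lit 4) (nat_lit 344) (nat_lit 273) (nat_lit 163)) (XT.lf (nat_lit 0) (nat_lit 19387166677) (nat_lit 76) (nat_lit 32062099198) (nat_lit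 152) (nat_lit 38637537662) (nat_lit 13) (nat_lit 5) (nat_lit 14) (nat_lit 5) (nat_lit 15) (nat_lit 4) (nat_lit 345) (nat_lit 273) (nat_lit 162))))) (XT.nd (nat_lit 234) (nat_lit 76) (nat_lit 0) (XT.nd (nat_lit 78) (nat_lit 152) (nat_lit 0) (XT.lf (nat_lit 0) (nat_lit 52154328362) (nat_lit 76) (nat_lit 15445307067) (nat_lit 152) (nat_lit 26451476935) (nat_lit 13) (nat_lit 5) (nat_lit 14) (nat_lit 5) (nat_lit 15) (nat_lit 4) (nat_lit 346) (nat_lit 273) (nat_lit 161)) (XT.nd (nat_lit 78) (nat_lit 152) (nat_lit 0) (XT.lf (nat_lit 0) (nat_lit 84569435337) (nat_lit 152) (nat_lit 11686216570) (nat_lit 0) (nat_lit 1957630760) (nat_lit 13) (nat_lit 5) (nat_lit 15) (nat_lit 4) (nat_lit 13) (nat_lit 4) (nat_lit 347) (nat_lit 273) (nat_lit 160)) (XT.lf (nat_lit 0) (nat_lit 155060592) (nat_lit 152) (nat_lit 82312960519) (nat_lit 76) (nat_lit 20105187725) (nat_lit 11) (nat_lit 5) (nat_lit 13) (nat_lit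 5) (nat_lit 12) (nat_lit 4) (nat_lit 348) (nat_lit 273) (nat_lit 159)))) (XT.nd (nat_lit 156) (nat_lit 76) (nat_lit 0) (XT.nd (nat_lit 78) (nat_lit 0) (nat_lit 0) (XT.lf (nat_lit 0) (nat_lit 14479010695) (nat_lit 152) (nat_lit 53250512232) (nat_lit 76) (nat_lit 39414040569) (nat_lit 11) (nat_lit 5) (nat_lit 13) (nat_lit 5) (nat_lit 12) (nat_lit 4) (nat_lit 349) (nat_lit 273) (nat_lit 158)) (XT.lf (nat_lit 0) (nat_lit 29512643111) (nat_lit 152) (nat_lit 22746686449) (nat_lit 76) (nat_lit 59683304629) (nat_lit 11) (nat_lit 5) (nat_lit 13) (nat_lit 5) (nat_lit 12) (nat_lit 4) (nat_lit 350) (nat_lit 273) (nat_lit 157))) (XT.nd (nat_lit 78) (nat_lit 0) (nat_lit 0) (XT.lf (nat_lit 0) (nat_lit 9455658949) (nat_lit 76) (nat_lit 35926986832) (nat_lit 152) (nat_lit 71596474686) (nat_lit 10) (nat_lit 5) (nat_lit 11) (nat_lit 5) (nat_lit 12) (nat_lit 4) (nat_lit 351) (nat_lit 273) (nat_lit 156)) (XT.lf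 (nat_lit 0) (nat_lit 43732595461) (nat_lit 76) (nat_lit 18541696277) (nat_lit 152) (nat_lit 59986297605) (nat_lit 10) (nat_lit 5) (nat_lit 11) (nat_lit 5) (nat_lit 12) (nat_lit 4) (nat_lit 352) (nat_lit 273) (nat_lit 155))))))) (XT.nd (nat_lit 35022) (nat_lit 0) (nat_lit 8968) (XT.nd (nat_lit 34476) (nat_lit 0) (nat_lit 15124) (XT.nd (nat_lit 234) (nat_lit 152) (nat_lit 0) (XT.nd (nat_lit 78) (nat_lit 76) (nat_lit 0) (XT.lf (nat_lit 0) (nat_lit 79713031177) (nat_lit 76) (nat_lit 291761281) (nat_lit 152) (nat_lit 47801513488) (nat_lit 10) (nat_lit 5) (nat_lit 11) (nat_lit 5) (nat_lit 12) (nat_lit 4) (nat_lit 353) (nat_lit 273) (nat_lit 154)) (XT.nd (nat_lit 78) (nat_lit 76) (nat_lit 0) (XT.lf (nat_lit 0) (nat_lit 98797717550) (nat_lit 152) (nat_lit 16328194694) (nat_lit 0) (nat_lit 18498121495) (nat_lit 10) (nat_lit 5) (nat_lit 12) (nat_lit 4) (nat_lit 10) (nat_lit 4) (nat_lit 354) (nat_lit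 273) (nat_lit 153)) (XT.lf (nat_lit 0) (nat_lit 17351277085) (nat_lit 76) (nat_lit 101343512393) (nat_lit 76) (nat_lit 21032925654) (nat_lit 9) (nat_lit 4) (nat_lit 10) (nat_lit 5) (nat_lit 10) (nat_lit 4) (nat_lit 355) (nat_lit 273) (nat_lit 152)))) (XT.nd (nat_lit 78) (nat_lit 152) (nat_lit 0) (XT.lf (nat_lit 0) (nat_lit 53046702716) (nat_lit 76) (nat_lit 86703021884) (nat_lit 76) (nat_lit 6381967828) (nat_lit 9) (nat_lit 4) (nat_lit 10) (nat_lit 5) (nat_lit 10) (nat_lit 4) (nat_lit 356) (nat_lit 273) (nat_lit 151)) (XT.nd (nat_lit 156) (nat_lit 76) (nat_lit 0) (XT.lf (nat_lit 0) (nat_lit 8821002524) (nat_lit 152) (nat_lit 62424387804) (nat_lit 76) (nat_lit 81608030865) (nat_lit 8) (nat_lit 5) (nat_lit 10) (nat_lit 5) (nat_lit 9) (nat_lit 4) (nat_lit 357) (nat_lit 273) (nat_lit 150)) (XT.lf (nat_lit 0) (nat_lit 3483052731) (nat_lit 76) (nat_lit 37813800414) (nat_lit 152) (nat_lit 126020547748)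 (nat_lit 7) (nat_lit 5) (nat_lit 8) (nat_lit 5) (nat_lit 9) (nat_lit 4) (nat_lit 359) (nat_lit 273) (nat_lit 148))))) (XT.nd (nat_lit 234) (nat_lit 0) (nat_lit 0) (XT.nd (nat_lit 78) (nat_lit 912) (nat_lit 0) (XT.lf (nat_lit 0) (nat_lit 3444171058) (nat_lit 988) (nat_lit 469775731) (nat_lit 988) (nat_lit 469775731) (nat_lit 218) (nat_lit 3) (nat_lit 231) (nat_lit 3) (nat_lit 231) (nat_lit 5) (nat_lit 274) (nat_lit 274) (nat_lit 232)) (XT.nd (nat_lit 78) (nat_lit 912) (nat_lit 0) (XT.lf (nat_lit 76) (nat_lit 5677471318) (nat_lit 0) (nat_lit 2900553582) (nat_lit 988) (nat_lit 360495537) (nat_lit 219) (nat_lit 5) (nat_lit 218) (nat_lit 3) (nat_lit 231) (nat_lit 5) (nat_lit 275) (nat_lit 274) (nat_lit 231)) (XT.lf (nat_lit 0) (nat_lit 1181299957) (nat_lit 988) (nat_lit 5609550008) (nat_lit 1064) (nat_lit 2327964363) (nat_lit 206) (nat_lit 5) (nat_lit 219) (nat_lit 5) (nat_lit 220) (nat_lit 5)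 (nat_lit 276) (nat_lit 274) (nat_lit 230)))) (XT.nd (nat_lit 156) (nat_lit 0) (nat_lit 152) (XT.nd (nat_lit 78) (nat_lit 0) (nat_lit 76) (XT.lf (nat_lit 76) (nat_lit 1318465020) (nat_lit 0) (nat_lit 1459425839) (nat_lit 1064) (nat_lit 6530723230) (nat_lit 207) (nat_lit 5) (nat_lit 206) (nat_lit 5) (nat_lit 220) (nat_lit 5) (nat_lit 277) (nat_lit 274) (nat_lit 229)) (XT.lf (nat_lit 0) (nat_lit 4465816147) (nat_lit 988) (nat_lit 891131846) (nat_lit 1064) (nat_lit 4150756501) (nat_lit 207) (nat_lit 5) (nat_lit 220) (nat_lit 5) (nat_lit 221) (nat_lit 5) (nat_lit 278) (nat_lit 274) (nat_lit 228))) (XT.nd (nat_lit 78) (nat_lit 0) (nat_lit 0) (XT.lf (nat_lit 0) (nat_lit 6237843619) (nat_lit 988) (nat_lit 3095486149) (nat_lit 1064) (nat_lit 383567333) (nat_lit 208) (nat_lit 5) (nat_lit 221) (nat_lit 5) (nat_lit 222) (nat_lit 5) (nat_lit 279) (nat_lit 274) (nat_lit 227)) (XT.lf (nat_lit 76) (nat_lit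 4573629377) (nat_lit 0) (nat_lit 3553383534) (nat_lit 1064) (nat_lit 1808812460) (nat_lit 209) (nat_lit 5) (nat_lit 208) (nat_lit 5) (nat_lit 222) (nat_lit 5) (nat_lit 280) (nat_lit 274) (nat_lit 226)))))) (XT.nd (nat_lit 546) (nat_lit 2660) (nat_lit 0) (XT.nd (nat_lit 234) (nat_lit 2660) (nat_lit 0) (XT.nd (nat_lit 78) (nat_lit 1064) (nat_lit 0) (XT.lf (nat_lit 76) (nat_lit 2495874354) (nat_lit 0) (nat_lit 7619841975) (nat_lit 1064) (nat_lit 49957405) (nat_lit 210) (nat_lit 5) (nat_lit 209) (nat_lit 5) (nat_lit 223) (nat_lit 5) (nat_lit 281) (nat_lit 274) (nat_lit 225)) (XT.nd (nat_lit 78) (nat_lit 0) (nat_lit 76) (XT.lf (nat_lit 76) (nat_lit 352249303) (nat_lit 0) (nat_lit 1431490508) (nat_lit 1140) (nat_lit 8622214124) (nat_lit 196) (nat_lit 5) (nat_lit 195) (nat_lit 5) (nat_lit 210) (nat_lit 5) (nat_lit 282) (nat_lit 274) (nat_lit 224)) (XT.lf (nat_lit 0) (nat_lit 3766633346) (nat_lit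 1064) (nat_lit 1825489009) (nat_lit 1140) (nat_lit 5064465525) (nat_lit 196) (nat_lit 5) (nat_lit 210) (nat_lit 5) (nat_lit 211) (nat_lit 5) (nat_lit 283) (nat_lit 274) (nat_lit 223)))) (XT.nd (nat_lit 156) (nat_lit 1748) (nat_lit 0) (XT.nd (nat_lit 78) (nat_lit 1064) (nat_lit 0) (XT.lf (nat_lit 0) (nat_lit 5872486626) (nat_lit 1064) (nat_lit 4047928613) (nat_lit 76) (nat_lit 998729461) (nat_lit 197) (nat_lit 5) (nat_lit 211) (nat_lit 5) (nat_lit 198) (nat_lit 5) (nat_lit 284) (nat_lit 274) (nat_lit 222)) (XT.lf (nat_lit 0) (nat_lit 4830982492) (nat_lit 1064) (nat_lit 3310737661) (nat_lit 1140) (nat_lit 3051467181) (nat_lit 183) (nat_lit 5) (nat_lit 197) (nat_lit 5) (nat_lit 198) (nat_lit 5) (nat_lit 285) (nat_lit 274) (nat_lit 221))) (XT.nd (nat_lit 78) (nat_lit 608) (nat_lit 0) (XT.lf (nat_lit 0) (nat_lit 2722784618) (nat_lit 1140) (nat_lit 7843633258) (nat_lit 1216) (nat_lit 913349959)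 (nat_lit 168) (nat_lit 5) (nat_lit 183) (nat_lit 5) (nat_lit 184) (nat_lit 5) (nat_lit 286) (nat_lit 274) (nat_lit 220)) (XT.lf (nat_lit 0) (nat_lit 526142189) (nat_lit 532) (nat_lit 824757633) (nat_lit 608) (nat_lit 10428125730) (nat_lit 160) (nat_lit 5) (nat_lit 167) (nat_lit 5) (nat_lit 168) (nat_lit 5) (nat_lit 287) (nat_lit 274) (nat_lit 219))))) (XT.nd (nat_lit 234) (nat_lit 1520) (nat_lit 0) (XT.nd (nat_lit 78) (nat_lit 1140) (nat_lit 0) (XT.lf (nat_lit 0) (nat_lit 3806576188) (nat_lit 608) (nat_lit 1760982073) (nat_lit 76) (nat_lit 6522587865) (nat_lit 160) (nat_lit 5) (nat_lit 168) (nat_lit 5) (nat_lit 161) (nat_lit 5) (nat_lit 288) (nat_lit 274) (nat_lit 218)) (XT.nd (nat_lit 78) (nat_lit 532) (nat_lit 0) (XT.lf (nat_lit 0) (nat_lit 6437072636) (nat_lit 684) (nat_lit 4126006169) (nat_lit 76) (nat_lit 1852263189) (nat_lit 152) (nat_lit 5) (nat_lit 161) (nat_lit 5) (nat_lit 153)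 (nat_lit 5) (nat_lit 289) (nat_lit 274) (nat_lit 217)) (XT.lf (nat_lit 0) (nat_lit 6134583168) (nat_lit 532) (nat_lit 3145802993) (nat_lit 608) (nat_lit 3474049254) (nat_lit 145) (nat_lit 5) (nat_lit 152) (nat_lit 5) (nat_lit 153) (nat_lit 5) (nat_lit 290) (nat_lit 274) (nat_lit 216)))) (XT.nd (nat_lit 156) (nat_lit 456) (nat_lit 0) (XT.nd (nat_lit 78) (nat_lit 532) (nat_lit 0) (XT.lf (nat_lit 0) (nat_lit 3863998849) (nat_lit 532) (nat_lit 8476355628) (nat_lit 608) (nat_lit 767967241) (nat_lit 138) (nat_lit 5) (nat_lit 145) (nat_lit 5) (nat_lit 146) (nat_lit 5) (nat_lit 291) (nat_lit 274) (nat_lit 215)) (XT.lf (nat_lit 0) (nat_lit 1457472661) (nat_lit 456) (nat_lit 641256695) (nat_lit 532) (nat_lit 11378669332) (nat_lit 131) (nat_lit 5) (nat_lit 137) (nat_lit 5) (nat_lit 138) (nat_lit 5) (nat_lit 292) (nat_lit 274) (nat_lit 214))) (XT.nd (nat_lit 78) (nat_lit 456) (nat_lit 0) (XT.lf (nat_lit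 0) (nat_lit 5215057047) (nat_lit 532) (nat_lit 1107260714) (nat_lit 76) (nat_lit 7538782445) (nat_lit 131) (nat_lit 5) (nat_lit 138) (nat_lit 5) (nat_lit 132) (nat_lit 5) (nat_lit 293) (nat_lit 274) (nat_lit 213)) (XT.lf (nat_lit 0) (nat_lit 8568614381) (nat_lit 532) (nat_lit 3780126270) (nat_lit 76) (nat_lit 1912864878) (nat_lit 125) (nat_lit 5) (nat_lit 132) (nat_lit 5) (nat_lit 126) (nat_lit 5) (nat_lit 294) (nat_lit 274) (nat_lit 212))))))))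
noncomputable def xc75 : XT := (XT.nd (nat_lit 2028) (nat_lit 2052) (nat_lit 0) (XT.nd (nat_lit 1014) (nat_lit 2280) (nat_lit 0) (XT.nd (nat_lit 468) (nat_lit 1976) (nat_lit 0) (XT.nd (nat_lit 234) (nat_lit 836) (nat_lit 0) (XT.nd (nat_lit 78) (nat_lit 912) (nat_lit 0) (XT.lf (nat_lit 0) (nat_lit 8035279146) (nat_lit 456) (nat_lit 4164017648) (nat_lit 532) (nat_lit 2479614122) (nat_lit 119) (nat_lit 5) (nat_lit 125) (nat_lit 5) (nat_lit 126) (nat_lit 5) (nat_lit 295) (nat_lit 274) (nat_lit 211)) (XT.nd (nat_lit 78) (nat_lit 380) (nat_lit 0) (XT.lf (nat_lit 0) (nat_lit 970237914) (nat_lit 532) (nat_lit 9705016622) (nat_lit 76) (nat_lit 4438825136) (nat_lit 112) (nat_lit 5) (nat_lit 119) (nat_lit 5) (nat_lit 113) (nat_lit 5) (nat_lit 296) (nat_lit 274) (nat_lit 210)) (XT.lf (nat_lit 0) (nat_lit 2568747453) (nat_lit 380) (nat_lit 2068325074) (nat_lit 456) (nat_lit 10930375921) (nat_lit 107)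 (nat_lit 5) (nat_lit 112) (nat_lit 5) (nat_lit 113) (nat_lit 5) (nat_lit 297) (nat_lit 274) (nat_lit 209)))) (XT.nd (nat_lit 78) (nat_lit 836) (nat_lit 0) (XT.lf (nat_lit 0) (nat_lit 8616048108) (nat_lit 456) (nat_lit 497149754) (nat_lit 76) (nat_lit 6926472645) (nat_lit 107) (nat_lit 5) (nat_lit 113) (nat_lit 5) (nat_lit 108) (nat_lit 5) (nat_lit 298) (nat_lit 274) (nat_lit 208)) (XT.nd (nat_lit 78) (nat_lit 456) (nat_lit 0) (XT.lf (nat_lit 0) (nat_lit 12813217546) (nat_lit 380) (nat_lit 87576352) (nat_lit 456) (nat_lit 3631551627) (nat_lit 102) (nat_lit 5) (nat_lit 107) (nat_lit 5) (nat_lit 108) (nat_lit 5) (nat_lit 299) (nat_lit 274) (nat_lit 207)) (XT.lf (nat_lit 0) (nat_lit 498499695) (nat_lit 456) (nat_lit 7244098010) (nat_lit 76) (nat_lit 9302342340) (nat_lit 96) (nat_lit 5) (nat_lit 102) (nat_lit 5) (nat_lit 97) (nat_lit 5) (nat_lit 300) (nat_lit 274) (nat_lit 206))))) (XT.nd (nat_lit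 234) (nat_lit 1292) (nat_lit 0) (XT.nd (nat_lit 78) (nat_lit 304) (nat_lit 0) (XT.lf (nat_lit 0) (nat_lit 4844422428) (nat_lit 456) (nat_lit 11058951728) (nat_lit 76) (nat_lit 1676218157) (nat_lit 91) (nat_lit 5) (nat_lit 97) (nat_lit 5) (nat_lit 92) (nat_lit 5) (nat_lit 301) (nat_lit 274) (nat_lit 205)) (XT.nd (nat_lit 78) (nat_lit 0) (nat_lit 0) (XT.lf (nat_lit 0) (nat_lit 2920067477) (nat_lit 304) (nat_lit 6635214065) (nat_lit 380) (nat_lit 8581305442) (nat_lit 87) (nat_lit 5) (nat_lit 91) (nat_lit 5) (nat_lit 92) (nat_lit 5) (nat_lit 302) (nat_lit 274) (nat_lit 204)) (XT.lf (nat_lit 0) (nat_lit 14613630802) (nat_lit 380) (nat_lit 963702920) (nat_lit 76) (nat_lit 3140776390) (nat_lit 87) (nat_lit 5) (nat_lit 92) (nat_lit 5) (nat_lit 88) (nat_lit 5) (nat_lit 303) (nat_lit 274) (nat_lit 203)))) (XT.nd (nat_lit 156) (nat_lit 532) (nat_lit 0) (XT.nd (nat_lit 78) (nat_lit 304) (nat_lit 0)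 (XT.lf (nat_lit 0) (nat_lit 758173387) (nat_lit 456) (nat_lit 5161579595) (nat_lit 76) (nat_lit 13403610258) (nat_lit 81) (nat_lit 5) (nat_lit 87) (nat_lit 5) (nat_lit 82) (nat_lit 5) (nat_lit 304) (nat_lit 274) (nat_lit 202)) (XT.lf (nat_lit 0) (nat_lit 5899627586) (nat_lit 380) (nat_lit 9775525670) (nat_lit 76) (nat_lit 4278922647) (nat_lit 77) (nat_lit 5) (nat_lit 82) (nat_lit 5) (nat_lit 78) (nat_lit 5) (nat_lit 305) (nat_lit 274) (nat_lit 201))) (XT.nd (nat_lit 78) (nat_lit 228) (nat_lit 0) (XT.lf (nat_lit 0) (nat_lit 5790631542) (nat_lit 304) (nat_lit 5647097682) (nat_lit 380) (nat_lit 9174438883) (nat_lit 73) (nat_lit 5) (nat_lit 77) (nat_lit 5) (nat_lit 78) (nat_lit 5) (nat_lit 306) (nat_lit 274) (nat_lit 200)) (XT.lf (nat_lit 0) (nat_lit 969714125) (nat_lit 228) (nat_lit 16412318916) (nat_lit 304) (nat_lit 3917282632) (nat_lit 70) (nat_lit 5) (nat_lit 73) (nat_lit 5) (nat_lit 74)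 (nat_lit 5) (nat_lit 307) (nat_lit 274) (nat_lit 199)))))) (XT.nd (nat_lit 468) (nat_lit 1140) (nat_lit 0) (XT.nd (nat_lit 234) (nat_lit 532) (nat_lit 0) (XT.nd (nat_lit 78) (nat_lit 532) (nat_lit 0) (XT.lf (nat_lit 0) (nat_lit 1754637689) (nat_lit 304) (nat_lit 4269835865) (nat_lit 76) (nat_lit 15990416861) (nat_lit 69) (nat_lit 5) (nat_lit 73) (nat_lit 5) (nat_lit 70) (nat_lit 5) (nat_lit 308) (nat_lit 274) (nat_lit 198)) (XT.nd (nat_lit 78) (nat_lit 228) (nat_lit 0) (XT.lf (nat_lit 0) (nat_lit 7774450677) (nat_lit 380) (nat_lit 10046202594) (nat_lit 76) (nat_lit 4940093836) (nat_lit 65) (nat_lit 5) (nat_lit 70) (nat_lit 5) (nat_lit 66) (nat_lit 5) (nat_lit 309) (nat_lit 274) (nat_lit 197)) (XT.lf (nat_lit 0) (nat_lit 7135157407) (nat_lit 228) (nat_lit 7108109291) (nat_lit 304) (nat_lit 9296214442) (nat_lit 62) (nat_lit 5) (nat_lit 65) (nat_lit 5) (nat_lit 66) (nat_lit 5) (nat_lit 310)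 (nat_lit 274) (nat_lit 196)))) (XT.nd (nat_lit 78) (nat_lit 304) (nat_lit 0) (XT.lf (nat_lit 0) (nat_lit 972420366) (nat_lit 228) (nat_lit 20191681070) (nat_lit 304) (nat_lit 3189216797) (nat_lit 59) (nat_lit 5) (nat_lit 62) (nat_lit 5) (nat_lit 63) (nat_lit 5) (nat_lit 311) (nat_lit 274) (nat_lit 195)) (XT.nd (nat_lit 78) (nat_lit 228) (nat_lit 0) (XT.lf (nat_lit 0) (nat_lit 3378094639) (nat_lit 304) (nat_lit 5783023831) (nat_lit 76) (nat_lit 16039285373) (nat_lit 58) (nat_lit 5) (nat_lit 62) (nat_lit 5) (nat_lit 59) (nat_lit 5) (nat_lit 312) (nat_lit 274) (nat_lit 194)) (XT.lf (nat_lit 0) (nat_lit 10333669846) (nat_lit 304) (nat_lit 13231620596) (nat_lit 76) (nat_lit 2519851185) (nat_lit 55) (nat_lit 5) (nat_lit 59) (nat_lit 5) (nat_lit 56) (nat_lit 5) (nat_lit 313) (nat_lit 274) (nat_lit 193))))) (XT.nd (nat_lit 234) (nat_lit 684) (nat_lit 0) (XT.nd (nat_lit 78) (nat_lit 228) (nat_lit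 0) (XT.lf (nat_lit 0) (nat_lit 5510397046) (nat_lit 228) (nat_lit 12309592065) (nat_lit 304) (nat_lit 9188658103) (nat_lit 52) (nat_lit 5) (nat_lit 55) (nat_lit 5) (nat_lit 56) (nat_lit 5) (nat_lit 314) (nat_lit 274) (nat_lit 192)) (XT.nd (nat_lit 78) (nat_lit 228) (nat_lit 0) (XT.lf (nat_lit 0) (nat_lit 25432519279) (nat_lit 228) (nat_lit 362476681) (nat_lit 304) (nat_lit 2179919896) (nat_lit 52) (nat_lit 5) (nat_lit 55) (nat_lit 5) (nat_lit 56) (nat_lit 5) (nat_lit 315) (nat_lit 274) (nat_lit 191)) (XT.lf (nat_lit 0) (nat_lit 5345734654) (nat_lit 228) (nat_lit 11479719468) (nat_lit 76) (nat_lit 12154541362) (nat_lit 49) (nat_lit 5) (nat_lit 52) (nat_lit 5) (nat_lit 50) (nat_lit 5) (nat_lit 316) (nat_lit 274) (nat_lit 190)))) (XT.nd (nat_lit 156) (nat_lit 456) (nat_lit 0) (XT.nd (nat_lit 78) (nat_lit 0) (nat_lit 0) (XT.lf (nat_lit 0) (nat_lit 8675097532) (nat_lit 228) (nat_lit 4620961565)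 (nat_lit 304) (nat_lit 16735835025) (nat_lit 46) (nat_lit 5) (nat_lit 49) (nat_lit 5) (nat_lit 50) (nat_lit 5) (nat_lit 317) (nat_lit 274) (nat_lit 189)) (XT.lf (nat_lit 0) (nat_lit 21822145492) (nat_lit 304) (nat_lit 1166744661) (nat_lit 76) (nat_lit 8142166040) (nat_lit 46) (nat_lit 5) (nat_lit 50) (nat_lit 5) (nat_lit 47) (nat_lit 5) (nat_lit 318) (nat_lit 274) (nat_lit 188))) (XT.nd (nat_lit 78) (nat_lit 304) (nat_lit 0) (XT.lf (nat_lit 0) (nat_lit 20353320248) (nat_lit 152) (nat_lit 10644589503) (nat_lit 228) (nat_lit 1280580528) (nat_lit 44) (nat_lit 5) (nat_lit 46) (nat_lit 5) (nat_lit 47) (nat_lit 5) (nat_lit 319) (nat_lit 274) (nat_lit 187)) (XT.lf (nat_lit 0) (nat_lit 7119260060) (nat_lit 304) (nat_lit 23923170360) (nat_lit 76) (nat_lit 2435529965) (nat_lit 40) (nat_lit 5) (nat_lit 44) (nat_lit 5) (nat_lit 41) (nat_lit 5) (nat_lit 320) (nat_lit 274) (nat_lit 186))))))) (XT.nd (nat_lit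 1014) (nat_lit 836) (nat_lit 0) (XT.nd (nat_lit 468) (nat_lit 684) (nat_lit 0) (XT.nd (nat_lit 234) (nat_lit 228) (nat_lit 0) (XT.nd (nat_lit 78) (nat_lit 304) (nat_lit 0) (XT.lf (nat_lit 0) (nat_lit 16126278015) (nat_lit 304) (nat_lit 2526487856) (nat_lit 76) (nat_lit 16077860975) (nat_lit 40) (nat_lit 5) (nat_lit 44) (nat_lit 5) (nat_lit 41) (nat_lit 5) (nat_lit 321) (nat_lit 274) (nat_lit 185)) (XT.nd (nat_lit 78) (nat_lit 152) (nat_lit 0) (XT.lf (nat_lit 0) (nat_lit 20308573010) (nat_lit 152) (nat_lit 5453159479) (nat_lit 228) (nat_lit 10278864252) (nat_lit 38) (nat_lit 5) (nat_lit 40) (nat_lit 5) (nat_lit 41) (nat_lit 5) (nat_lit 322) (nat_lit 274) (nat_lit 184)) (XT.lf (nat_lit 0) (nat_lit 6950090928) (nat_lit 152) (nat_lit 29086074660) (nat_lit 228) (nat_lit 1375195439) (nat_lit 36) (nat_lit 5) (nat_lit 38) (nat_lit 5) (nat_lit 39) (nat_lit 5) (nat_lit 323) (nat_lit 274) (nat_lit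 183)))) (XT.nd (nat_lit 78) (nat_lit 152) (nat_lit 0) (XT.lf (nat_lit 0) (nat_lit 8020344583) (nat_lit 228) (nat_lit 7910946641) (nat_lit 76) (nat_lit 22911015563) (nat_lit 35) (nat_lit 5) (nat_lit 38) (nat_lit 5) (nat_lit 36) (nat_lit 5) (nat_lit 324) (nat_lit 274) (nat_lit 182)) (XT.nd (nat_lit 78) (nat_lit 0) (nat_lit 0) (XT.lf (nat_lit 0) (nat_lit 16040385445) (nat_lit 152) (nat_lit 1955757707) (nat_lit 228) (nat_lit 22344091161) (nat_lit 33) (nat_lit 5) (nat_lit 35) (nat_lit 5) (nat_lit 36) (nat_lit 5) (nat_lit 325) (nat_lit 274) (nat_lit 181)) (XT.lf (nat_lit 0) (nat_lit 28660106408) (nat_lit 228) (nat_lit 704344797) (nat_lit 76) (nat_lit 12542935894) (nat_lit 33) (nat_lit 5) (nat_lit 36) (nat_lit 5) (nat_lit 34) (nat_lit 5) (nat_lit 326) (nat_lit 274) (nat_lit 180))))) (XT.nd (nat_lit 234) (nat_lit 304) (nat_lit 0) (XT.nd (nat_lit 78) (nat_lit 228) (nat_lit 0) (XT.lf (nat_lit 0) (nat_lit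 24505320158) (nat_lit 152) (nat_lit 15592841766) (nat_lit 228) (nat_lit 3447518422) (nat_lit 31) (nat_lit 5) (nat_lit 33) (nat_lit 5) (nat_lit 34) (nat_lit 5) (nat_lit 327) (nat_lit 274) (nat_lit 179)) (XT.nd (nat_lit 78) (nat_lit 0) (nat_lit 0) (XT.lf (nat_lit 0) (nat_lit 5747159537) (nat_lit 152) (nat_lit 1010031740) (nat_lit 228) (nat_lit 38505278467) (nat_lit 28) (nat_lit 5) (nat_lit 30) (nat_lit 5) (nat_lit 31) (nat_lit 5) (nat_lit 328) (nat_lit 274) (nat_lit 178)) (XT.lf (nat_lit 0) (nat_lit 17723191028) (nat_lit 228) (nat_lit 15084802590) (nat_lit 76) (nat_lit 14246418835) (nat_lit 28) (nat_lit 5) (nat_lit 31) (nat_lit 5) (nat_lit 29) (nat_lit 5) (nat_lit 329) (nat_lit 274) (nat_lit 177)))) (XT.nd (nat_lit 156) (nat_lit 152) (nat_lit 0) (XT.nd (nat_lit 78) (nat_lit 0) (nat_lit 0) (XT.lf (nat_lit 0) (nat_lit 10744499022) (nat_lit 152) (nat_lit 18593391423) (nat_lit 228) (nat_lit 19595057951)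 (nat_lit 26) (nat_lit 5) (nat_lit 28) (nat_lit 5) (nat_lit 29) (nat_lit 5) (nat_lit 330) (nat_lit 274) (nat_lit 176)) (XT.lf (nat_lit 0) (nat_lit 38158929338) (nat_lit 152) (nat_lit 3517018164) (nat_lit 228) (nat_lit 9225192657) (nat_lit 26) (nat_lit 5) (nat_lit 28) (nat_lit 5) (nat_lit 29) (nat_lit 5) (nat_lit 331) (nat_lit 274) (nat_lit 175))) (XT.nd (nat_lit 78) (nat_lit 0) (nat_lit 0) (XT.lf (nat_lit 0) (nat_lit 1874978707) (nat_lit 152) (nat_lit 38866335355) (nat_lit 76) (nat_lit 12218626936) (nat_lit 24) (nat_lit 5) (nat_lit 26) (nat_lit 5) (nat_lit 25) (nat_lit 5) (nat_lit 332) (nat_lit 274) (nat_lit 174)) (XT.lf (nat_lit 0) (nat_lit 13497227526) (nat_lit 152) (nat_lit 12730639450) (nat_lit 76) (nat_lit 28886345730) (nat_lit 24) (nat_lit 5) (nat_lit 26) (nat_lit 5) (nat_lit 25) (nat_lit 5) (nat_lit 333) (nat_lit 274) (nat_lit 173)))))) (XT.nd (nat_lit 546) (nat_lit 380) (nat_lit 0)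 (XT.nd (nat_lit 234) (nat_lit 228) (nat_lit 0) (XT.nd (nat_lit 78) (nat_lit 76) (nat_lit 0) (XT.lf (nat_lit 0) (nat_lit 14984751151) (nat_lit 152) (nat_lit 10848565766) (nat_lit 228) (nat_lit 31538905697) (nat_lit 22) (nat_lit 5) (nat_lit 24) (nat_lit 5) (nat_lit 25) (nat_lit 5) (nat_lit 334) (nat_lit 274) (nat_lit 172)) (XT.nd (nat_lit 78) (nat_lit 76) (nat_lit 0) (XT.lf (nat_lit 0) (nat_lit 38958468547) (nat_lit 228) (nat_lit 15458694666) (nat_lit 76) (nat_lit 5320808227) (nat_lit 22) (nat_lit 5) (nat_lit 25) (nat_lit 5) (nat_lit 23) (nat_lit 4) (nat_lit 335) (nat_lit 274) (nat_lit 171)) (XT.lf (nat_lit 0) (nat_lit 12941272825) (nat_lit 76) (nat_lit 40021992587) (nat_lit 152) (nat_lit 9252046524) (nat_lit 21) (nat_lit 5) (nat_lit 22) (nat_lit 5) (nat_lit 23) (nat_lit 4) (nat_lit 336) (nat_lit 274) (nat_lit 170)))) (XT.nd (nat_lit 156) (nat_lit 0) (nat_lit 0) (XT.nd (nat_lit 78) (nat_lit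 152) (nat_lit 0) (XT.lf (nat_lit 0) (nat_lit 2946557807) (nat_lit 152) (nat_lit 21774422030) (nat_lit 76) (nat_lit 40090209936) (nat_lit 20) (nat_lit 5) (nat_lit 22) (nat_lit 5) (nat_lit 21) (nat_lit 5) (nat_lit 337) (nat_lit 274) (nat_lit 169)) (XT.lf (nat_lit 0) (nat_lit 7128788854) (nat_lit 152) (nat_lit 8495466270) (nat_lit 228) (nat_lit 51908048126) (nat_lit 18) (nat_lit 5) (nat_lit 20) (nat_lit 5) (nat_lit 21) (nat_lit 5) (nat_lit 338) (nat_lit 274) (nat_lit 168))) (XT.nd (nat_lit 78) (nat_lit 0) (nat_lit 0) (XT.lf (nat_lit 0) (nat_lit 29234751884) (nat_lit 228) (nat_lit 32551732755) (nat_lit 76) (nat_lit 8594025240) (nat_lit 18) (nat_lit 5) (nat_lit 21) (nat_lit 5) (nat_lit 19) (nat_lit 4) (nat_lit 339) (nat_lit 274) (nat_lit 167)) (XT.lf (nat_lit 0) (nat_lit 43602417805) (nat_lit 228) (nat_lit 3409149549) (nat_lit 76) (nat_lit 26357264836) (nat_lit 18) (nat_lit 5) (nat_lit 21) (nat_lit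 5) (nat_lit 19) (nat_lit 4) (nat_lit 340) (nat_lit 274) (nat_lit 166))))) (XT.nd (nat_lit 234) (nat_lit 76) (nat_lit 0) (XT.nd (nat_lit 78) (nat_lit 228) (nat_lit 0) (XT.lf (nat_lit 0) (nat_lit 27716127417) (nat_lit 76) (nat_lit 31230094952) (nat_lit 152) (nat_lit 17552620045) (nat_lit 17) (nat_lit 5) (nat_lit 18) (nat_lit 5) (nat_lit 19) (nat_lit 4) (nat_lit 341) (nat_lit 274) (nat_lit 165)) (XT.nd (nat_lit 78) (nat_lit 228) (nat_lit 0) (XT.lf (nat_lit 0) (nat_lit 60454070466) (nat_lit 76) (nat_lit 14629842028) (nat_lit 152) (nat_lit 4700644041) (nat_lit 17) (nat_lit 5) (nat_lit 18) (nat_lit 5) (nat_lit 19) (nat_lit 4) (nat_lit 342) (nat_lit 274) (nat_lit 164)) (XT.lf (nat_lit 0) (nat_lit 8755761099) (nat_lit 228) (nat_lit 71533390170) (nat_lit 76) (nat_lit 2938870091) (nat_lit 14) (nat_lit 5) (nat_lit 17) (nat_lit 5) (nat_lit 15) (nat_lit 4) (nat_lit 343) (nat_lit 274) (nat_lit 163))))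 (XT.nd (nat_lit 156) (nat_lit 76) (nat_lit 0) (XT.nd (nat_lit 78) (nat_lit 0) (nat_lit 0) (XT.lf (nat_lit 0) (nat_lit 23129407793) (nat_lit 228) (nat_lit 42373880318) (nat_lit 76) (nat_lit 21328729688) (nat_lit 14) (nat_lit 5) (nat_lit 17) (nat_lit 5) (nat_lit 15) (nat_lit 4) (nat_lit 344) (nat_lit 274) (nat_lit 162)) (XT.lf (nat_lit 0) (nat_lit 38214223561) (nat_lit 228) (nat_lit 11769792820) (nat_lit 76) (nat_lit 40632426638) (nat_lit 14) (nat_lit 5) (nat_lit 17) (nat_lit 5) (nat_lit 15) (nat_lit 4) (nat_lit 345) (nat_lit 274) (nat_lit 161))) (XT.nd (nat_lit 78) (nat_lit 0) (nat_lit 0) (XT.lf (nat_lit 0) (nat_lit 20756778714) (nat_lit 76) (nat_lit 33488872772) (nat_lit 152) (nat_lit 40338670264) (nat_lit 13) (nat_lit 5) (nat_lit 14) (nat_lit 5) (nat_lit 15) (nat_lit 4) (nat_lit 346) (nat_lit 274) (nat_lit 160)) (XT.lf (nat_lit 0) (nat_lit 55143238782) (nat_lit 76) (nat_lit 16049637768)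 (nat_lit 152) (nat_lit 27554294323) (nat_lit 13) (nat_lit 5) (nat_lit 14) (nat_lit 5) (nat_lit 15) (nat_lit 4) (nat_lit 347) (nat_lit 274) (nat_lit 159))))))))
noncomputable def xc76 : XT := (XT.nd (nat_lit 36114) (nat_lit 0) (nat_lit 3344) (XT.nd (nat_lit 35100) (nat_lit 0) (nat_lit 11552) (XT.nd (nat_lit 468) (nat_lit 152) (nat_lit 0) (XT.nd (nat_lit 234) (nat_lit 76) (nat_lit 0) (XT.nd (nat_lit 78) (nat_lit 152) (nat_lit 0) (XT.lf (nat_lit 0) (nat_lit 89002548666) (nat_lit 152) (nat_lit 11902835188) (nat_lit 0) (nat_lit 2212329101) (nat_lit 13) (nat_lit 5) (nat_lit 15) (nat_lit 4) (nat_lit 13) (nat_lit 4) (nat_lit 348) (nat_lit 274) (nat_lit 158)) (XT.nd (nat_lit 78) (nat_lit 0) (nat_lit 0) (XT.lf (nat_lit 0) (nat_lit 363195512) (nat_lit 152) (nat_lit 86067380696) (nat_lit 76) (nat_lit 21265194143) (nat_lit 11) (nat_lit 5) (nat_lit 13) (nat_lit 5) (nat_lit 12) (nat_lit 4) (nat_lit 349)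 (nat_lit 274) (nat_lit 157)) (XT.lf (nat_lit 0) (nat_lit 15393801126) (nat_lit 152) (nat_lit 55569011321) (nat_lit 76) (nat_lit 41532120723) (nat_lit 11) (nat_lit 5) (nat_lit 13) (nat_lit 5) (nat_lit 12) (nat_lit 4) (nat_lit 350) (nat_lit 274) (nat_lit 156)))) (XT.nd (nat_lit 78) (nat_lit 76) (nat_lit 0) (XT.lf (nat_lit 0) (nat_lit 31170027549) (nat_lit 152) (nat_lit 23556376464) (nat_lit 76) (nat_lit 62807829980) (nat_lit 11) (nat_lit 5) (nat_lit 13) (nat_lit 5) (nat_lit 12) (nat_lit 4) (nat_lit 351) (nat_lit 274) (nat_lit 155)) (XT.nd (nat_lit 78) (nat_lit 0) (nat_lit 0) (XT.lf (nat_lit 0) (nat_lit 10246694346) (nat_lit 76) (nat_lit 37581240373) (nat_lit 152) (nat_lit 74994781513) (nat_lit 10) (nat_lit 5) (nat_lit 11) (nat_lit 5) (nat_lit 12) (nat_lit 4) (nat_lit 352) (nat_lit 274) (nat_lit 154)) (XT.lf (nat_lit 0) (nat_lit 46222322805) (nat_lit 76) (nat_lit 19333451757) (nat_lit 152)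 (nat_lit 62812739240) (nat_lit 10) (nat_lit 5) (nat_lit 11) (nat_lit 5) (nat_lit 12) (nat_lit 4) (nat_lit 353) (nat_lit 274) (nat_lit 153))))) (XT.nd (nat_lit 234) (nat_lit 76) (nat_lit 0) (XT.nd (nat_lit 78) (nat_lit 76) (nat_lit 0) (XT.lf (nat_lit 0) (nat_lit 83987347089) (nat_lit 76) (nat_lit 177464265) (nat_lit 152) (nat_lit 50026947976) (nat_lit 10) (nat_lit 5) (nat_lit 11) (nat_lit 5) (nat_lit 12) (nat_lit 4) (nat_lit 354) (nat_lit 274) (nat_lit 152)) (XT.nd (nat_lit 78) (nat_lit 76) (nat_lit 0) (XT.lf (nat_lit 0) (nat_lit 103890954090) (nat_lit 152) (nat_lit 16866235530) (nat_lit 0) (nat_lit 19543380015) (nat_lit 10) (nat_lit 5) (nat_lit 12) (nat_lit 4) (nat_lit 10) (nat_lit 4) (nat_lit 355) (nat_lit 274) (nat_lit 151)) (XT.lf (nat_lit 0) (nat_lit 18489230449) (nat_lit 76) (nat_lit 106288945902) (nat_lit 76) (nat_lit 21931402953) (nat_lit 9) (nat_lit 4) (nat_lit 10) (nat_lit 5) (nat_lit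 10) (nat_lit 4) (nat_lit 356) (nat_lit 274) (nat_lit 150)))) (XT.nd (nat_lit 34242) (nat_lit 0) (nat_lit 14972) (XT.nd (nat_lit 156) (nat_lit 76) (nat_lit 0) (XT.lf (nat_lit 0) (nat_lit 55956551671) (nat_lit 76) (nat_lit 90922228111) (nat_lit 76) (nat_lit 6555190997) (nat_lit 9) (nat_lit 4) (nat_lit 10) (nat_lit 5) (nat_lit 10) (nat_lit 4) (nat_lit 357) (nat_lit 274) (nat_lit 149)) (XT.lf (nat_lit 0) (nat_lit 26010875713) (nat_lit 152) (nat_lit 31582612964) (nat_lit 76) (nat_lit 110307484852) (nat_lit 8) (nat_lit 5) (nat_lit 10) (nat_lit 5) (nat_lit 9) (nat_lit 4) (nat_lit 359) (nat_lit 274) (nat_lit 147))) (XT.nd (nat_lit 78) (nat_lit 0) (nat_lit 0) (XT.lf (nat_lit 0) (nat_lit 247191462) (nat_lit 0) (nat_lit 247191462) (nat_lit 988) (nat_lit 4062488417) (nat_lit 205) (nat_lit 5) (nat_lit 205) (nat_lit 3) (nat_lit 218) (nat_lit 3) (nat_lit 275) (nat_lit 275) (nat_lit 230)) (XT.lf (nat_lit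 0) (nat_lit 2417759080) (nat_lit 988) (nat_lit 1917033580) (nat_lit 1064) (nat_lit 4962387664) (nat_lit 205) (nat_lit 5) (nat_lit 218) (nat_lit 3) (nat_lit 219) (nat_lit 5) (nat_lit 276) (nat_lit 275) (nat_lit 229)))))) (XT.nd (nat_lit 468) (nat_lit 2584) (nat_lit 0) (XT.nd (nat_lit 234) (nat_lit 912) (nat_lit 0) (XT.nd (nat_lit 78) (nat_lit 0) (nat_lit 0) (XT.lf (nat_lit 0) (nat_lit 3898861980) (nat_lit 988) (nat_lit 4333476246) (nat_lit 1064) (nat_lit 1258177622) (nat_lit 206) (nat_lit 5) (nat_lit 219) (nat_lit 5) (nat_lit 220) (nat_lit 5) (nat_lit 277) (nat_lit 275) (nat_lit 228)) (XT.nd (nat_lit 78) (nat_lit 0) (nat_lit 76) (XT.lf (nat_lit 76) (nat_lit 2896321304) (nat_lit 0) (nat_lit 2566899652) (nat_lit 1064) (nat_lit 4230160023) (nat_lit 207) (nat_lit 5) (nat_lit 206) (nat_lit 5) (nat_lit 220) (nat_lit 5) (nat_lit 278) (nat_lit 275) (nat_lit 227)) (XT.lf (nat_lit 76) (nat_lit 602294124)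 (nat_lit 0) (nat_lit 6508308433) (nat_lit 1064) (nat_lit 2795774915) (nat_lit 208) (nat_lit 5) (nat_lit 207) (nat_lit 5) (nat_lit 221) (nat_lit 5) (nat_lit 279) (nat_lit 275) (nat_lit 226)))) (XT.nd (nat_lit 78) (nat_lit 988) (nat_lit 0) (XT.lf (nat_lit 76) (nat_lit 8439029012) (nat_lit 0) (nat_lit 421681176) (nat_lit 1064) (nat_lit 1268828843) (nat_lit 208) (nat_lit 5) (nat_lit 207) (nat_lit 5) (nat_lit 221) (nat_lit 5) (nat_lit 280) (nat_lit 275) (nat_lit 225)) (XT.nd (nat_lit 78) (nat_lit 0) (nat_lit 76) (XT.lf (nat_lit 0) (nat_lit 374992035) (nat_lit 1064) (nat_lit 4044965118) (nat_lit 1140) (nat_lit 5942509896) (nat_lit 194) (nat_lit 5) (nat_lit 208) (nat_lit 5) (nat_lit 209) (nat_lit 5) (nat_lit 281) (nat_lit 275) (nat_lit 224)) (XT.lf (nat_lit 0) (nat_lit 2087861765) (nat_lit 1064) (nat_lit 6456861847) (nat_lit 1140) (nat_lit 2061658914) (nat_lit 195) (nat_lit 5) (nat_lit 209) (nat_lit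 5) (nat_lit 210) (nat_lit 5) (nat_lit 282) (nat_lit 275) (nat_lit 223))))) (XT.nd (nat_lit 234) (nat_lit 2660) (nat_lit 0) (XT.nd (nat_lit 78) (nat_lit 0) (nat_lit 76) (XT.lf (nat_lit 76) (nat_lit 1920038219) (nat_lit 0) (nat_lit 2005212160) (nat_lit 1140) (nat_lit 6936182767) (nat_lit 196) (nat_lit 5) (nat_lit 195) (nat_lit 5) (nat_lit 210) (nat_lit 5) (nat_lit 283) (nat_lit 275) (nat_lit 222)) (XT.nd (nat_lit 78) (nat_lit 0) (nat_lit 76) (XT.lf (nat_lit 0) (nat_lit 5904961806) (nat_lit 1064) (nat_lit 374075952) (nat_lit 1140) (nat_lit 4848785537) (nat_lit 196) (nat_lit 5) (nat_lit 210) (nat_lit 5) (nat_lit 211) (nat_lit 5) (nat_lit 284) (nat_lit 275) (nat_lit 221)) (XT.lf (nat_lit 0) (nat_lit 8034068691) (nat_lit 1064) (nat_lit 2689179059) (nat_lit 76) (nat_lit 682868715) (nat_lit 197) (nat_lit 5) (nat_lit 211) (nat_lit 5) (nat_lit 198) (nat_lit 5) (nat_lit 285) (nat_lit 275) (nat_lit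 220)))) (XT.nd (nat_lit 156) (nat_lit 532) (nat_lit 0) (XT.nd (nat_lit 78) (nat_lit 1216) (nat_lit 0) (XT.lf (nat_lit 0) (nat_lit 6588927665) (nat_lit 1064) (nat_lit 3753462388) (nat_lit 1140) (nat_lit 1353842714) (nat_lit 183) (nat_lit 5) (nat_lit 197) (nat_lit 5) (nat_lit 198) (nat_lit 5) (nat_lit 286) (nat_lit 275) (nat_lit 219)) (XT.lf (nat_lit 0) (nat_lit 799699912) (nat_lit 1216) (nat_lit 7617881215) (nat_lit 76) (nat_lit 3581656624) (nat_lit 167) (nat_lit 5) (nat_lit 183) (nat_lit 5) (nat_lit 168) (nat_lit 5) (nat_lit 287) (nat_lit 275) (nat_lit 218))) (XT.nd (nat_lit 78) (nat_lit 0) (nat_lit 0) (XT.lf (nat_lit 0) (nat_lit 2075243062) (nat_lit 532) (nat_lit 1014985953) (nat_lit 608) (nat_lit 9225122926) (nat_lit 160) (nat_lit 5) (nat_lit 167) (nat_lit 5) (nat_lit 168) (nat_lit 5) (nat_lit 288) (nat_lit 275) (nat_lit 217)) (XT.lf (nat_lit 0) (nat_lit 5587716440) (nat_lit 608) (nat_lit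 347268473) (nat_lit 76) (nat_lit 6709590498) (nat_lit 160) (nat_lit 5) (nat_lit 168) (nat_lit 5) (nat_lit 161) (nat_lit 5) (nat_lit 289) (nat_lit 275) (nat_lit 216))))))) (XT.nd (nat_lit 1014) (nat_lit 2964) (nat_lit 0) (XT.nd (nat_lit 468) (nat_lit 2584) (nat_lit 0) (XT.nd (nat_lit 234) (nat_lit 912) (nat_lit 0) (XT.nd (nat_lit 78) (nat_lit 1140) (nat_lit 0) (XT.lf (nat_lit 0) (nat_lit 8287330447) (nat_lit 684) (nat_lit 2824801087) (nat_lit 76) (nat_lit 1875883836) (nat_lit 152) (nat_lit 5) (nat_lit 161) (nat_lit 5) (nat_lit 153) (nat_lit 5) (nat_lit 290) (nat_lit 275) (nat_lit 215)) (XT.nd (nat_lit 78) (nat_lit 608) (nat_lit 0) (XT.lf (nat_lit 0) (nat_lit 7905605378) (nat_lit 532) (nat_lit 3308498800) (nat_lit 608) (nat_lit 2131827191) (nat_lit 145) (nat_lit 5) (nat_lit 152) (nat_lit 5) (nat_lit 153) (nat_lit 5) (nat_lit 291) (nat_lit 275) (nat_lit 214)) (XT.lf (nat_lit 0) (nat_lit 639128587)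 (nat_lit 608) (nat_lit 8201088126) (nat_lit 76) (nat_lit 4878886880) (nat_lit 137) (nat_lit 5) (nat_lit 145) (nat_lit 5) (nat_lit 138) (nat_lit 5) (nat_lit 292) (nat_lit 275) (nat_lit 213)))) (XT.nd (nat_lit 78) (nat_lit 456) (nat_lit 0) (XT.lf (nat_lit 0) (nat_lit 2985114643) (nat_lit 456) (nat_lit 594210631) (nat_lit 532) (nat_lit 10528793586) (nat_lit 131) (nat_lit 5) (nat_lit 137) (nat_lit 5) (nat_lit 138) (nat_lit 5) (nat_lit 293) (nat_lit 275) (nat_lit 212)) (XT.nd (nat_lit 78) (nat_lit 0) (nat_lit 0) (XT.lf (nat_lit 0) (nat_lit 268479701) (nat_lit 456) (nat_lit 6520787079) (nat_lit 532) (nat_lit 7723694275) (nat_lit 125) (nat_lit 5) (nat_lit 131) (nat_lit 5) (nat_lit 132) (nat_lit 5) (nat_lit 294) (nat_lit 275) (nat_lit 211)) (XT.lf (nat_lit 0) (nat_lit 10259996431) (nat_lit 532) (nat_lit 2545766576) (nat_lit 76) (nat_lit 2129329063) (nat_lit 125) (nat_lit 5) (nat_lit 132) (nat_lit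 5) (nat_lit 126) (nat_lit 5) (nat_lit 295) (nat_lit 275) (nat_lit 210))))) (XT.nd (nat_lit 234) (nat_lit 1216) (nat_lit 0) (XT.nd (nat_lit 78) (nat_lit 912) (nat_lit 0) (XT.lf (nat_lit 0) (nat_lit 9819608611) (nat_lit 456) (nat_lit 4205753880) (nat_lit 532) (nat_lit 1349386950) (nat_lit 119) (nat_lit 5) (nat_lit 125) (nat_lit 5) (nat_lit 126) (nat_lit 5) (nat_lit 296) (nat_lit 275) (nat_lit 209)) (XT.nd (nat_lit 78) (nat_lit 380) (nat_lit 0) (XT.lf (nat_lit 0) (nat_lit 2204845038) (nat_lit 532) (nat_lit 8786765275) (nat_lit 76) (nat_lit 4841088872) (nat_lit 112) (nat_lit 5) (nat_lit 119) (nat_lit 5) (nat_lit 113) (nat_lit 5) (nat_lit 297) (nat_lit 275) (nat_lit 208)) (XT.lf (nat_lit 0) (nat_lit 4060455896) (nat_lit 380) (nat_lit 1951189356) (nat_lit 456) (nat_lit 10298463936) (nat_lit 107) (nat_lit 5) (nat_lit 112) (nat_lit 5) (nat_lit 113) (nat_lit 5) (nat_lit 298) (nat_lit 275) (nat_lit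 207)))) (XT.nd (nat_lit 156) (nat_lit 836) (nat_lit 0) (XT.nd (nat_lit 78) (nat_lit 0) (nat_lit 0) (XT.lf (nat_lit 0) (nat_lit 824425673) (nat_lit 380) (nat_lit 9320672752) (nat_lit 456) (nat_lit 6662246162) (nat_lit 102) (nat_lit 5) (nat_lit 107) (nat_lit 5) (nat_lit 108) (nat_lit 5) (nat_lit 299) (nat_lit 275) (nat_lit 206)) (XT.lf (nat_lit 0) (nat_lit 14598094432) (nat_lit 456) (nat_lit 2581487608) (nat_lit 76) (nat_lit 146515786) (nat_lit 102) (nat_lit 5) (nat_lit 108) (nat_lit 5) (nat_lit 103) (nat_lit 5) (nat_lit 300) (nat_lit 275) (nat_lit 205))) (XT.nd (nat_lit 78) (nat_lit 380) (nat_lit 0) (XT.lf (nat_lit 0) (nat_lit 1550034155) (nat_lit 456) (nat_lit 6299874426) (nat_lit 76) (nat_lit 10015280783) (nat_lit 96) (nat_lit 5) (nat_lit 102) (nat_lit 5) (nat_lit 97) (nat_lit 5) (nat_lit 301) (nat_lit 275) (nat_lit 204)) (XT.lf (nat_lit 0) (nat_lit 6079247552) (nat_lit 456) (nat_lit 10314761889)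 (nat_lit 76) (nat_lit 2033642082) (nat_lit 91) (nat_lit 5) (nat_lit 97) (nat_lit 5) (nat_lit 92) (nat_lit 5) (nat_lit 302) (nat_lit 275) (nat_lit 203)))))) (XT.nd (nat_lit 546) (nat_lit 1292) (nat_lit 0) (XT.nd (nat_lit 234) (nat_lit 912) (nat_lit 0) (XT.nd (nat_lit 78) (nat_lit 456) (nat_lit 0) (XT.lf (nat_lit 0) (nat_lit 4326026092) (nat_lit 304) (nat_lit 6664468132) (nat_lit 380) (nat_lit 8023110759) (nat_lit 87) (nat_lit 5) (nat_lit 91) (nat_lit 5) (nat_lit 92) (nat_lit 5) (nat_lit 303) (nat_lit 275) (nat_lit 202)) (XT.nd (nat_lit 78) (nat_lit 76) (nat_lit 0) (XT.lf (nat_lit 0) (nat_lit 217944541) (nat_lit 380) (nat_lit 16043088040) (nat_lit 456) (nat_lit 3364445343) (nat_lit 82) (nat_lit 5) (nat_lit 87) (nat_lit 5) (nat_lit 88) (nat_lit 5) (nat_lit 304) (nat_lit 275) (nat_lit 201)) (XT.lf (nat_lit 0) (nat_lit 1688302285) (nat_lit 456) (nat_lit 4210494906) (nat_lit 76) (nat_lit 14363009595)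 (nat_lit 81) (nat_lit 5) (nat_lit 87) (nat_lit 5) (nat_lit 82) (nat_lit 5) (nat_lit 305) (nat_lit 275) (nat_lit 200)))) (XT.nd (nat_lit 156) (nat_lit 304) (nat_lit 0) (XT.nd (nat_lit 78) (nat_lit 304) (nat_lit 0) (XT.lf (nat_lit 0) (nat_lit 7058645918) (nat_lit 380) (nat_lit 9066068979) (nat_lit 76) (nat_lit 4800231304) (nat_lit 77) (nat_lit 5) (nat_lit 82) (nat_lit 5) (nat_lit 78) (nat_lit 5) (nat_lit 306) (nat_lit 275) (nat_lit 199)) (XT.lf (nat_lit 0) (nat_lit 7244048986) (nat_lit 304) (nat_lit 5599647018) (nat_lit 380) (nat_lit 8773189157) (nat_lit 73) (nat_lit 5) (nat_lit 77) (nat_lit 5) (nat_lit 78) (nat_lit 5) (nat_lit 307) (nat_lit 275) (nat_lit 198))) (XT.nd (nat_lit 78) (nat_lit 76) (nat_lit 0) (XT.lf (nat_lit 0) (nat_lit 2170792908) (nat_lit 228) (nat_lit 16888802750) (nat_lit 304) (nat_lit 3279604406) (nat_lit 70) (nat_lit 5) (nat_lit 73) (nat_lit 5) (nat_lit 74) (nat_lit 5)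 (nat_lit 308) (nat_lit 275) (nat_lit 197)) (XT.lf (nat_lit 0) (nat_lit 2620728568) (nat_lit 304) (nat_lit 3369363896) (nat_lit 76) (nat_lit 17101426502) (nat_lit 69) (nat_lit 5) (nat_lit 73) (nat_lit 5) (nat_lit 70) (nat_lit 5) (nat_lit 309) (nat_lit 275) (nat_lit 196))))) (XT.nd (nat_lit 234) (nat_lit 532) (nat_lit 0) (XT.nd (nat_lit 78) (nat_lit 456) (nat_lit 0) (XT.lf (nat_lit 0) (nat_lit 8918044045) (nat_lit 380) (nat_lit 9446376283) (nat_lit 76) (nat_lit 5510989246) (nat_lit 65) (nat_lit 5) (nat_lit 70) (nat_lit 5) (nat_lit 66) (nat_lit 5) (nat_lit 310) (nat_lit 275) (nat_lit 195)) (XT.nd (nat_lit 78) (nat_lit 228) (nat_lit 0) (XT.lf (nat_lit 0) (nat_lit 8562459198) (nat_lit 228) (nat_lit 7122186163) (nat_lit 304) (nat_lit 9009239317) (nat_lit 62) (nat_lit 5) (nat_lit 65) (nat_lit 5) (nat_lit 66) (nat_lit 5) (nat_lit 311) (nat_lit 275) (nat_lit 194)) (XT.lf (nat_lit 0) (nat_lit 2079634909)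 (nat_lit 228) (nat_lit 20850463053) (nat_lit 304) (nat_lit 2618991430) (nat_lit 59) (nat_lit 5) (nat_lit 62) (nat_lit 5) (nat_lit 63) (nat_lit 5) (nat_lit 312) (nat_lit 275) (nat_lit 193)))) (XT.nd (nat_lit 156) (nat_lit 228) (nat_lit 0) (XT.nd (nat_lit 78) (nat_lit 228) (nat_lit 0) (XT.lf (nat_lit 0) (nat_lit 4228377849) (nat_lit 304) (nat_lit 5049818749) (nat_lit 76) (nat_lit 17161174888) (nat_lit 58) (nat_lit 5) (nat_lit 62) (nat_lit 5) (nat_lit 59) (nat_lit 5) (nat_lit 313) (nat_lit 275) (nat_lit 192)) (XT.lf (nat_lit 0) (nat_lit 11512047152) (nat_lit 304) (nat_lit 12883030687) (nat_lit 76) (nat_lit 2973887964) (nat_lit 55) (nat_lit 5) (nat_lit 59) (nat_lit 5) (nat_lit 56) (nat_lit 5) (nat_lit 314) (nat_lit 275) (nat_lit 191))) (XT.nd (nat_lit 78) (nat_lit 0) (nat_lit 0) (XT.lf (nat_lit 0) (nat_lit 6767131490) (nat_lit 228) (nat_lit 12583473695) (nat_lit 304) (nat_lit 8988731517) (nat_lit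 52) (nat_lit 5) (nat_lit 55) (nat_lit 5) (nat_lit 56) (nat_lit 5) (nat_lit 315) (nat_lit 275) (nat_lit 190)) (XT.lf (nat_lit 0) (nat_lit 27638635331) (nat_lit 228) (nat_lit 55269112) (nat_lit 304) (nat_lit 1660954471) (nat_lit 52) (nat_lit 5) (nat_lit 55) (nat_lit 5) (nat_lit 56) (nat_lit 5) (nat_lit 316) (nat_lit 275) (nat_lit 189))))))))
noncomputable def xc77 : XT := (XT.nd (nat_lit 2028) (nat_lit 684) (nat_lit 0) (XT.nd (nat_lit 1014) (nat_lit 836) (nat_lit 0) (XT.nd (nat_lit 468) (nat_lit 912) (nat_lit 0) (XT.nd (nat_lit 234) (nat_lit 456) (nat_lit 0) (XT.nd (nat_lit 78) (nat_lit 228) (nat_lit 0) (XT.lf (nat_lit 0) (nat_lit 6211377061) (nat_lit 228) (nat_lit 11118379570) (nat_lit 76) (nat_lit 13080799771) (nat_lit 49) (nat_lit 5) (nat_lit 52) (nat_lit 5) (nat_lit 50) (nat_lit 5) (nat_lit 317) (nat_lit 275) (nat_lit 188)) (XT.nd (nat_lit 78) (nat_lit 0) (nat_lit 0) (XT.lf (nat_lit 0)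 (nat_lit 10017367352) (nat_lit 228) (nat_lit 4522090449) (nat_lit 304) (nat_lit 16976208216) (nat_lit 46) (nat_lit 5) (nat_lit 49) (nat_lit 5) (nat_lit 50) (nat_lit 5) (nat_lit 318) (nat_lit 275) (nat_lit 187)) (XT.lf (nat_lit 0) (nat_lit 23467316704) (nat_lit 304) (nat_lit 345875827) (nat_lit 76) (nat_lit 8857351755) (nat_lit 46) (nat_lit 5) (nat_lit 50) (nat_lit 5) (nat_lit 47) (nat_lit 5) (nat_lit 319) (nat_lit 275) (nat_lit 186)))) (XT.nd (nat_lit 78) (nat_lit 304) (nat_lit 0) (XT.lf (nat_lit 0) (nat_lit 22224990063) (nat_lit 152) (nat_lit 10858704322) (nat_lit 228) (nat_lit 792222019) (nat_lit 44) (nat_lit 5) (nat_lit 46) (nat_lit 5) (nat_lit 47) (nat_lit 5) (nat_lit 320) (nat_lit 275) (nat_lit 185)) (XT.nd (nat_lit 78) (nat_lit 0) (nat_lit 0) (XT.lf (nat_lit 0) (nat_lit 8002161359) (nat_lit 304) (nat_lit 24265872677) (nat_lit 76) (nat_lit 2867626285) (nat_lit 40) (nat_lit 5) (nat_lit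 44) (nat_lit 5) (nat_lit 41) (nat_lit 5) (nat_lit 321) (nat_lit 275) (nat_lit 184)) (XT.lf (nat_lit 0) (nat_lit 17434437912) (nat_lit 304) (nat_lit 1839996819) (nat_lit 76) (nat_lit 17177296711) (nat_lit 40) (nat_lit 5) (nat_lit 44) (nat_lit 5) (nat_lit 41) (nat_lit 5) (nat_lit 322) (nat_lit 275) (nat_lit 183))))) (XT.nd (nat_lit 234) (nat_lit 532) (nat_lit 0) (XT.nd (nat_lit 78) (nat_lit 228) (nat_lit 0) (XT.lf (nat_lit 0) (nat_lit 22113517899) (nat_lit 152) (nat_lit 5421839095) (nat_lit 228) (nat_lit 10292349765) (nat_lit 38) (nat_lit 5) (nat_lit 40) (nat_lit 5) (nat_lit 41) (nat_lit 5) (nat_lit 323) (nat_lit 275) (nat_lit 182)) (XT.nd (nat_lit 78) (nat_lit 76) (nat_lit 0) (XT.lf (nat_lit 0) (nat_lit 8076134267) (nat_lit 152) (nat_lit 30234523303) (nat_lit 228) (nat_lit 956754157) (nat_lit 36) (nat_lit 5) (nat_lit 38) (nat_lit 5) (nat_lit 39) (nat_lit 5) (nat_lit 324) (nat_lit 275) (nat_lit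 181)) (XT.lf (nat_lit 0) (nat_lit 8876308485) (nat_lit 228) (nat_lit 7555662669) (nat_lit 76) (nat_lit 24338491116) (nat_lit 35) (nat_lit 5) (nat_lit 38) (nat_lit 5) (nat_lit 36) (nat_lit 5) (nat_lit 325) (nat_lit 275) (nat_lit 180)))) (XT.nd (nat_lit 156) (nat_lit 380) (nat_lit 0) (XT.nd (nat_lit 78) (nat_lit 0) (nat_lit 0) (XT.lf (nat_lit 0) (nat_lit 17571713593) (nat_lit 152) (nat_lit 1764529825) (nat_lit 228) (nat_lit 23007497192) (nat_lit 33) (nat_lit 5) (nat_lit 35) (nat_lit 5) (nat_lit 36) (nat_lit 5) (nat_lit 326) (nat_lit 275) (nat_lit 179)) (XT.lf (nat_lit 0) (nat_lit 30515084399) (nat_lit 228) (nat_lit 34765753) (nat_lit 76) (nat_lit 13439964621) (nat_lit 33) (nat_lit 5) (nat_lit 36) (nat_lit 5) (nat_lit 34) (nat_lit 5) (nat_lit 327) (nat_lit 275) (nat_lit 178))) (XT.nd (nat_lit 78) (nat_lit 228) (nat_lit 0) (XT.lf (nat_lit 0) (nat_lit 26415179605) (nat_lit 152) (nat_lit 16096349880)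 (nat_lit 228) (nat_lit 3198912045) (nat_lit 31) (nat_lit 5) (nat_lit 33) (nat_lit 5) (nat_lit 34) (nat_lit 5) (nat_lit 328) (nat_lit 275) (nat_lit 177)) (XT.lf (nat_lit 0) (nat_lit 6707720347) (nat_lit 152) (nat_lit 786913557) (nat_lit 228) (nat_lit 40018723063) (nat_lit 28) (nat_lit 5) (nat_lit 30) (nat_lit 5) (nat_lit 31) (nat_lit 5) (nat_lit 329) (nat_lit 275) (nat_lit 176)))))) (XT.nd (nat_lit 468) (nat_lit 380) (nat_lit 0) (XT.nd (nat_lit 234) (nat_lit 304) (nat_lit 0) (XT.nd (nat_lit 78) (nat_lit 152) (nat_lit 0) (XT.lf (nat_lit 0) (nat_lit 18992410830) (nat_lit 228) (nat_lit 15188748532) (nat_lit 76) (nat_lit 15214244979) (nat_lit 28) (nat_lit 5) (nat_lit 31) (nat_lit 5) (nat_lit 29) (nat_lit 5) (nat_lit 330) (nat_lit 275) (nat_lit 175)) (XT.nd (nat_lit 78) (nat_lit 0) (nat_lit 0) (XT.lf (nat_lit 0) (nat_lit 11913377608) (nat_lit 152) (nat_lit 19262298486) (nat_lit 228) (nat_lit 20192567343)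 (nat_lit 26) (nat_lit 5) (nat_lit 28) (nat_lit 5) (nat_lit 29) (nat_lit 5) (nat_lit 331) (nat_lit 275) (nat_lit 174)) (XT.lf (nat_lit 0) (nat_lit 40668450696) (nat_lit 152) (nat_lit 3444523826) (nat_lit 228) (nat_lit 9322410856) (nat_lit 26) (nat_lit 5) (nat_lit 28) (nat_lit 5) (nat_lit 29) (nat_lit 5) (nat_lit 332) (nat_lit 275) (nat_lit 173)))) (XT.nd (nat_lit 78) (nat_lit 152) (nat_lit 0) (XT.lf (nat_lit 0) (nat_lit 2316716361) (nat_lit 152) (nat_lit 40210013838) (nat_lit 76) (nat_lit 13070569482) (nat_lit 24) (nat_lit 5) (nat_lit 26) (nat_lit 5) (nat_lit 25) (nat_lit 5) (nat_lit 333) (nat_lit 275) (nat_lit 172)) (XT.nd (nat_lit 78) (nat_lit 152) (nat_lit 0) (XT.lf (nat_lit 0) (nat_lit 14503506730) (nat_lit 152) (nat_lit 12796087342) (nat_lit 76) (nat_lit 30560197491) (nat_lit 24) (nat_lit 5) (nat_lit 26) (nat_lit 5) (nat_lit 25) (nat_lit 5) (nat_lit 334) (nat_lit 275) (nat_lit 171))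 (XT.lf (nat_lit 0) (nat_lit 16288702779) (nat_lit 152) (nat_lit 11157248262) (nat_lit 228) (nat_lit 32785073425) (nat_lit 22) (nat_lit 5) (nat_lit 24) (nat_lit 5) (nat_lit 25) (nat_lit 5) (nat_lit 335) (nat_lit 275) (nat_lit 170))))) (XT.nd (nat_lit 234) (nat_lit 228) (nat_lit 0) (XT.nd (nat_lit 78) (nat_lit 152) (nat_lit 0) (XT.lf (nat_lit 0) (nat_lit 41214215960) (nat_lit 228) (nat_lit 15696128026) (nat_lit 76) (nat_lit 5805119657) (nat_lit 22) (nat_lit 5) (nat_lit 25) (nat_lit 5) (nat_lit 23) (nat_lit 4) (nat_lit 336) (nat_lit 275) (nat_lit 169)) (XT.nd (nat_lit 78) (nat_lit 76) (nat_lit 0) (XT.lf (nat_lit 0) (nat_lit 14108487800) (nat_lit 76) (nat_lit 41801106596) (nat_lit 152) (nat_lit 9407374690) (nat_lit 21) (nat_lit 5) (nat_lit 22) (nat_lit 5) (nat_lit 23) (nat_lit 4) (nat_lit 337) (nat_lit 275) (nat_lit 168)) (XT.lf (nat_lit 0) (nat_lit 3380817254) (nat_lit 152) (nat_lit 22361899252)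 (nat_lit 76) (nat_lit 42300273653) (nat_lit 20) (nat_lit 5) (nat_lit 22) (nat_lit 5) (nat_lit 21) (nat_lit 5) (nat_lit 338) (nat_lit 275) (nat_lit 167)))) (XT.nd (nat_lit 156) (nat_lit 76) (nat_lit 0) (XT.nd (nat_lit 78) (nat_lit 0) (nat_lit 0) (XT.lf (nat_lit 0) (nat_lit 7972104121) (nat_lit 152) (nat_lit 8711312057) (nat_lit 228) (nat_lit 54217019828) (nat_lit 18) (nat_lit 5) (nat_lit 20) (nat_lit 5) (nat_lit 21) (nat_lit 5) (nat_lit 339) (nat_lit 275) (nat_lit 166)) (XT.lf (nat_lit 0) (nat_lit 30963114847) (nat_lit 228) (nat_lit 33709462353) (nat_lit 76) (nat_lit 9218822310) (nat_lit 18) (nat_lit 5) (nat_lit 21) (nat_lit 5) (nat_lit 19) (nat_lit 4) (nat_lit 340) (nat_lit 275) (nat_lit 165))) (XT.nd (nat_lit 78) (nat_lit 76) (nat_lit 0) (XT.lf (nat_lit 0) (nat_lit 46036467618) (nat_lit 228) (nat_lit 3132124131) (nat_lit 76) (nat_lit 27860933609) (nat_lit 18) (nat_lit 5) (nat_lit 21) (nat_lit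 5) (nat_lit 19) (nat_lit 4) (nat_lit 341) (nat_lit 275) (nat_lit 164)) (XT.lf (nat_lit 0) (nat_lit 29536589676) (nat_lit 76) (nat_lit 32602959059) (nat_lit 152) (nat_lit 18176730986) (nat_lit 17) (nat_lit 5) (nat_lit 18) (nat_lit 5) (nat_lit 19) (nat_lit 4) (nat_lit 342) (nat_lit 275) (nat_lit 163))))))) (XT.nd (nat_lit 1014) (nat_lit 152) (nat_lit 0) (XT.nd (nat_lit 468) (nat_lit 228) (nat_lit 0) (XT.nd (nat_lit 234) (nat_lit 76) (nat_lit 0) (XT.nd (nat_lit 78) (nat_lit 228) (nat_lit 0) (XT.lf (nat_lit 0) (nat_lit 63890731977) (nat_lit 76) (nat_lit 15181676376) (nat_lit 152) (nat_lit 4694228567) (nat_lit 17) (nat_lit 5) (nat_lit 18) (nat_lit 5) (nat_lit 19) (nat_lit 4) (nat_lit 343) (nat_lit 275) (nat_lit 162)) (XT.nd (nat_lit 78) (nat_lit 0) (nat_lit 0) (XT.lf (nat_lit 0) (nat_lit 9424627729) (nat_lit 228) (nat_lit 74697994201) (nat_lit 76) (nat_lit 3259758631) (nat_lit 14) (nat_lit 5)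 (nat_lit 17) (nat_lit 5) (nat_lit 15) (nat_lit 4) (nat_lit 344) (nat_lit 275) (nat_lit 161)) (XT.lf (nat_lit 0) (nat_lit 24505953016) (nat_lit 228) (nat_lit 44100131022) (nat_lit 76) (nat_lit 22560828111) (nat_lit 14) (nat_lit 5) (nat_lit 17) (nat_lit 5) (nat_lit 15) (nat_lit 4) (nat_lit 345) (nat_lit 275) (nat_lit 160)))) (XT.nd (nat_lit 78) (nat_lit 76) (nat_lit 0) (XT.lf (nat_lit 0) (nat_lit 40334529819) (nat_lit 228) (nat_lit 11984526926) (nat_lit 76) (nat_lit 42821821244) (nat_lit 14) (nat_lit 5) (nat_lit 17) (nat_lit 5) (nat_lit 15) (nat_lit 4) (nat_lit 346) (nat_lit 275) (nat_lit 159)) (XT.nd (nat_lit 78) (nat_lit 0) (nat_lit 0) (XT.lf (nat_lit 0) (nat_lit 22157659556) (nat_lit 76) (nat_lit 35003378646) (nat_lit 152) (nat_lit 42146311912) (nat_lit 13) (nat_lit 5) (nat_lit 14) (nat_lit 5) (nat_lit 15) (nat_lit 4) (nat_lit 347) (nat_lit 275) (nat_lit 158)) (XT.lf (nat_lit 0) (nat_lit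 58246154919) (nat_lit 76) (nat_lit 16699797975) (nat_lit 152) (nat_lit 28732683454) (nat_lit 13) (nat_lit 5) (nat_lit 14) (nat_lit 5) (nat_lit 15) (nat_lit 4) (nat_lit 348) (nat_lit 275) (nat_lit 157))))) (XT.nd (nat_lit 234) (nat_lit 76) (nat_lit 0) (XT.nd (nat_lit 78) (nat_lit 152) (nat_lit 0) (XT.lf (nat_lit 0) (nat_lit 93638292029) (nat_lit 152) (nat_lit 12164469274) (nat_lit 0) (nat_lit 2465183019) (nat_lit 13) (nat_lit 5) (nat_lit 15) (nat_lit 4) (nat_lit 13) (nat_lit 4) (nat_lit 349) (nat_lit 275) (nat_lit 156)) (XT.nd (nat_lit 78) (nat_lit 0) (nat_lit 0) (XT.lf (nat_lit 0) (nat_lit 563107570) (nat_lit 152) (nat_lit 90043105423) (nat_lit 76) (nat_lit 22468813970) (nat_lit 11) (nat_lit 5) (nat_lit 13) (nat_lit 5) (nat_lit 12) (nat_lit 4) (nat_lit 350) (nat_lit 275) (nat_lit 155)) (XT.lf (nat_lit 0) (nat_lit 16336588594) (nat_lit 152) (nat_lit 58035419689) (nat_lit 76) (nat_lit 43742403063)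 (nat_lit 11) (nat_lit 5) (nat_lit 13) (nat_lit 5) (nat_lit 12) (nat_lit 4) (nat_lit 351) (nat_lit 275) (nat_lit 154)))) (XT.nd (nat_lit 156) (nat_lit 0) (nat_lit 0) (XT.nd (nat_lit 78) (nat_lit 76) (nat_lit 0) (XT.lf (nat_lit 0) (nat_lit 32893383604) (nat_lit 152) (nat_lit 24437012242) (nat_lit 76) (nat_lit 66075532245) (nat_lit 11) (nat_lit 5) (nat_lit 13) (nat_lit 5) (nat_lit 12) (nat_lit 4) (nat_lit 352) (nat_lit 275) (nat_lit 153)) (XT.lf (nat_lit 0) (nat_lit 11047693416) (nat_lit 76) (nat_lit 39331417312) (nat_lit 152) (nat_lit 78579879402) (nat_lit 10) (nat_lit 5) (nat_lit 11) (nat_lit 5) (nat_lit 12) (nat_lit 4) (nat_lit 353) (nat_lit 275) (nat_lit 152))) (XT.nd (nat_lit 78) (nat_lit 0) (nat_lit 0) (XT.lf (nat_lit 0) (nat_lit 48808357376) (nat_lit 76) (nat_lit 20177376650) (nat_lit 152) (nat_lit 65796575072) (nat_lit 10) (nat_lit 5) (nat_lit 11) (nat_lit 5) (nat_lit 12) (nat_lit 4)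 (nat_lit 354) (nat_lit 275) (nat_lit 151)) (XT.lf (nat_lit 0) (nat_lit 88448541521) (nat_lit 76) (nat_lit 69434912) (nat_lit 152) (nat_lit 52378960966) (nat_lit 10) (nat_lit 5) (nat_lit 11) (nat_lit 5) (nat_lit 12) (nat_lit 4) (nat_lit 355) (nat_lit 275) (nat_lit 150)))))) (XT.nd (nat_lit 34710) (nat_lit 0) (nat_lit 14060) (XT.nd (nat_lit 34398) (nat_lit 0) (nat_lit 14972) (XT.nd (nat_lit 78) (nat_lit 152) (nat_lit 0) (XT.lf (nat_lit 0) (nat_lit 109224595366) (nat_lit 152) (nat_lit 17457058509) (nat_lit 0) (nat_lit 20629712231) (nat_lit 10) (nat_lit 5) (nat_lit 12) (nat_lit 4) (nat_lit 10) (nat_lit 4) (nat_lit 356) (nat_lit 275) (nat_lit 149)) (XT.nd (nat_lit 156) (nat_lit 76) (nat_lit 0) (XT.lf (nat_lit 0) (nat_lit 19658943228) (nat_lit 76) (nat_lit 111492969513) (nat_lit 76) (nat_lit 22889044317) (nat_lit 9) (nat_lit 4) (nat_lit 10) (nat_lit 5) (nat_lit 10) (nat_lit 4) (nat_lit 357) (nat_lit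 275) (nat_lit 148)) (XT.lf (nat_lit 0) (nat_lit 9991737499) (nat_lit 152) (nat_lit 68337510977) (nat_lit 76) (nat_lit 90183543792) (nat_lit 8) (nat_lit 5) (nat_lit 10) (nat_lit 5) (nat_lit 9) (nat_lit 4) (nat_lit 359) (nat_lit 275) (nat_lit 146)))) (XT.nd (nat_lit 156) (nat_lit 0) (nat_lit 76) (XT.nd (nat_lit 78) (nat_lit 0) (nat_lit 0) (XT.lf (nat_lit 0) (nat_lit 926780109) (nat_lit 0) (nat_lit 926780109) (nat_lit 988) (nat_lit 2888878804) (nat_lit 205) (nat_lit 5) (nat_lit 205) (nat_lit 3) (nat_lit 218) (nat_lit 3) (nat_lit 276) (nat_lit 276) (nat_lit 228)) (XT.lf (nat_lit 0) (nat_lit 5068255287) (nat_lit 988) (nat_lit 649230451) (nat_lit 1064) (nat_lit 3964394607) (nat_lit 205) (nat_lit 5) (nat_lit 218) (nat_lit 3) (nat_lit 219) (nat_lit 5) (nat_lit 277) (nat_lit 276) (nat_lit 227))) (XT.nd (nat_lit 78) (nat_lit 0) (nat_lit 0) (XT.lf (nat_lit 0) (nat_lit 6505140249) (nat_lit 988) (nat_lit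 3138312179) (nat_lit 1064) (nat_lit 245181779) (nat_lit 206) (nat_lit 5) (nat_lit 219) (nat_lit 5) (nat_lit 220) (nat_lit 5) (nat_lit 278) (nat_lit 276) (nat_lit 226)) (XT.lf (nat_lit 76) (nat_lit 4412505199) (nat_lit 0) (nat_lit 3633568917) (nat_lit 1064) (nat_lit 2058811455) (nat_lit 207) (nat_lit 5) (nat_lit 206) (nat_lit 5) (nat_lit 220) (nat_lit 5) (nat_lit 279) (nat_lit 276) (nat_lit 225))))) (XT.nd (nat_lit 234) (nat_lit 0) (nat_lit 152) (XT.nd (nat_lit 78) (nat_lit 1064) (nat_lit 0) (XT.lf (nat_lit 76) (nat_lit 2044295087) (nat_lit 0) (nat_lit 7626526051) (nat_lit 1064) (nat_lit 661045322) (nat_lit 208) (nat_lit 5) (nat_lit 207) (nat_lit 5) (nat_lit 221) (nat_lit 5) (nat_lit 280) (nat_lit 276) (nat_lit 224)) (XT.nd (nat_lit 78) (nat_lit 0) (nat_lit 76) (XT.lf (nat_lit 0) (nat_lit 817664528) (nat_lit 1064) (nat_lit 371893608) (nat_lit 1140) (nat_lit 9379712704) (nat_lit 193) (nat_lit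 5) (nat_lit 207) (nat_lit 5) (nat_lit 208) (nat_lit 5) (nat_lit 281) (nat_lit 276) (nat_lit 223)) (XT.lf (nat_lit 0) (nat_lit 2422933338) (nat_lit 1064) (nat_lit 2825822087) (nat_lit 1140) (nat_lit 5567710447) (nat_lit 194) (nat_lit 5) (nat_lit 208) (nat_lit 5) (nat_lit 209) (nat_lit 5) (nat_lit 282) (nat_lit 276) (nat_lit 222)))) (XT.nd (nat_lit 156) (nat_lit 0) (nat_lit 76) (XT.nd (nat_lit 78) (nat_lit 0) (nat_lit 0) (XT.lf (nat_lit 0) (nat_lit 4132657076) (nat_lit 1064) (nat_lit 5332155487) (nat_lit 1140) (nat_lit 1610582948) (nat_lit 195) (nat_lit 5) (nat_lit 209) (nat_lit 5) (nat_lit 210) (nat_lit 5) (nat_lit 283) (nat_lit 276) (nat_lit 221)) (XT.lf (nat_lit 76) (nat_lit 3422095867) (nat_lit 0) (nat_lit 2560935015) (nat_lit 1140) (nat_lit 5362681643) (nat_lit 196) (nat_lit 5) (nat_lit 195) (nat_lit 5) (nat_lit 210) (nat_lit 5) (nat_lit 284) (nat_lit 276) (nat_lit 220))) (XT.nd (nat_lit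 78) (nat_lit 0) (nat_lit 76) (XT.lf (nat_lit 76) (nat_lit 1026514285) (nat_lit 0) (nat_lit 6952267668) (nat_lit 1140) (nat_lit 3649268928) (nat_lit 197) (nat_lit 5) (nat_lit 196) (nat_lit 5) (nat_lit 211) (nat_lit 5) (nat_lit 285) (nat_lit 276) (nat_lit 219)) (XT.lf (nat_lit 0) (nat_lit 10130064854) (nat_lit 1064) (nat_lit 1407632584) (nat_lit 76) (nat_lit 385223289) (nat_lit 197) (nat_lit 5) (nat_lit 211) (nat_lit 5) (nat_lit 198) (nat_lit 5) (nat_lit 286) (nat_lit 276) (nat_lit 218))))))))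
noncomputable def xc78 : XT := (XT.nd (nat_lit 2028) (nat_lit 3192) (nat_lit 0) (XT.nd (nat_lit 1014) (nat_lit 3420) (nat_lit 0) (XT.nd (nat_lit 468) (nat_lit 2888) (nat_lit 0) (XT.nd (nat_lit 234) (nat_lit 1140) (nat_lit 0) (XT.nd (nat_lit 78) (nat_lit 1672) (nat_lit 0) (XT.lf (nat_lit 0) (nat_lit 251640969) (nat_lit 1140) (nat_lit 3938371002) (nat_lit 76) (nat_lit 8039607915) (nat_lit 182) (nat_lit 5) (nat_lit 197) (nat_lit 5) (nat_lit 183) (nat_lit 5) (nat_lit 287) (nat_lit 276) (nat_lit 217)) (XT.nd (nat_lit 78) (nat_lit 532) (nat_lit 0) (XT.lf (nat_lit 0) (nat_lit 2417919361) (nat_lit 1216) (nat_lit 6576795684) (nat_lit 76) (nat_lit 3554783882) (nat_lit 167) (nat_lit 5) (nat_lit 183) (nat_lit 5) (nat_lit 168) (nat_lit 5) (nat_lit 288) (nat_lit 276) (nat_lit 216)) (XT.lf (nat_lit 0) (nat_lit 3560224048) (nat_lit 532) (nat_lit 1200873970) (nat_lit 608) (nat_lit 8122289195) (nat_lit 160)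 (nat_lit 5) (nat_lit 167) (nat_lit 5) (nat_lit 168) (nat_lit 5) (nat_lit 289) (nat_lit 276) (nat_lit 215)))) (XT.nd (nat_lit 78) (nat_lit 532) (nat_lit 0) (XT.lf (nat_lit 0) (nat_lit 1017363572) (nat_lit 608) (nat_lit 6302431082) (nat_lit 684) (nat_lit 5911293898) (nat_lit 152) (nat_lit 5) (nat_lit 160) (nat_lit 5) (nat_lit 161) (nat_lit 5) (nat_lit 290) (nat_lit 276) (nat_lit 214)) (XT.nd (nat_lit 78) (nat_lit 532) (nat_lit 0) (XT.lf (nat_lit 0) (nat_lit 10088004616) (nat_lit 684) (nat_lit 1598689313) (nat_lit 76) (nat_lit 1907099784) (nat_lit 152) (nat_lit 5) (nat_lit 161) (nat_lit 5) (nat_lit 153) (nat_lit 5) (nat_lit 291) (nat_lit 276) (nat_lit 213)) (XT.lf (nat_lit 0) (nat_lit 9629042610) (nat_lit 532) (nat_lit 3478826831) (nat_lit 608) (nat_lit 863430318) (nat_lit 145) (nat_lit 5) (nat_lit 152) (nat_lit 5) (nat_lit 153) (nat_lit 5) (nat_lit 292) (nat_lit 276) (nat_lit 212))))) (XT.nd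 (nat_lit 234) (nat_lit 1368) (nat_lit 0) (XT.nd (nat_lit 78) (nat_lit 912) (nat_lit 0) (XT.lf (nat_lit 0) (nat_lit 1967918662) (nat_lit 608) (nat_lit 7252684838) (nat_lit 76) (nat_lit 5143759809) (nat_lit 137) (nat_lit 5) (nat_lit 145) (nat_lit 5) (nat_lit 138) (nat_lit 5) (nat_lit 293) (nat_lit 276) (nat_lit 211)) (XT.nd (nat_lit 78) (nat_lit 456) (nat_lit 0) (XT.lf (nat_lit 0) (nat_lit 4453888152) (nat_lit 456) (nat_lit 552167060) (nat_lit 532) (nat_lit 9768331485) (nat_lit 131) (nat_lit 5) (nat_lit 137) (nat_lit 5) (nat_lit 138) (nat_lit 5) (nat_lit 294) (nat_lit 276) (nat_lit 210)) (XT.lf (nat_lit 0) (nat_lit 1600943997) (nat_lit 456) (nat_lit 6729468800) (nat_lit 532) (nat_lit 6870521835) (nat_lit 125) (nat_lit 5) (nat_lit 131) (nat_lit 5) (nat_lit 132) (nat_lit 5) (nat_lit 295) (nat_lit 276) (nat_lit 209)))) (XT.nd (nat_lit 156) (nat_lit 912) (nat_lit 0) (XT.nd (nat_lit 78) (nat_lit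 456) (nat_lit 0) (XT.lf (nat_lit 0) (nat_lit 11918530340) (nat_lit 532) (nat_lit 1382019977) (nat_lit 76) (nat_lit 2345383672) (nat_lit 125) (nat_lit 5) (nat_lit 132) (nat_lit 5) (nat_lit 126) (nat_lit 5) (nat_lit 296) (nat_lit 276) (nat_lit 208)) (XT.lf (nat_lit 0) (nat_lit 11564616712) (nat_lit 456) (nat_lit 4265053229) (nat_lit 532) (nat_lit 279252780) (nat_lit 119) (nat_lit 5) (nat_lit 125) (nat_lit 5) (nat_lit 126) (nat_lit 5) (nat_lit 297) (nat_lit 276) (nat_lit 207))) (XT.nd (nat_lit 78) (nat_lit 380) (nat_lit 0) (XT.lf (nat_lit 0) (nat_lit 3390910627) (nat_lit 532) (nat_lit 7953085690) (nat_lit 76) (nat_lit 5246701120) (nat_lit 112) (nat_lit 5) (nat_lit 119) (nat_lit 5) (nat_lit 113) (nat_lit 5) (nat_lit 298) (nat_lit 276) (nat_lit 206)) (XT.lf (nat_lit 0) (nat_lit 5500005739) (nat_lit 380) (nat_lit 1848701684) (nat_lit 456) (nat_lit 9744515677) (nat_lit 107) (nat_lit 5) (nat_lit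 112) (nat_lit 5) (nat_lit 113) (nat_lit 5) (nat_lit 299) (nat_lit 276) (nat_lit 205)))))) (XT.nd (nat_lit 468) (nat_lit 1520) (nat_lit 0) (XT.nd (nat_lit 234) (nat_lit 1064) (nat_lit 0) (XT.nd (nat_lit 78) (nat_lit 456) (nat_lit 0) (XT.lf (nat_lit 0) (nat_lit 2096324402) (nat_lit 380) (nat_lit 9556814096) (nat_lit 456) (nat_lit 5963314382) (nat_lit 102) (nat_lit 5) (nat_lit 107) (nat_lit 5) (nat_lit 108) (nat_lit 5) (nat_lit 300) (nat_lit 276) (nat_lit 204)) (XT.nd (nat_lit 78) (nat_lit 456) (nat_lit 0) (XT.lf (nat_lit 0) (nat_lit 16283232503) (nat_lit 456) (nat_lit 1510822449) (nat_lit 76) (nat_lit 368514210) (nat_lit 102) (nat_lit 5) (nat_lit 108) (nat_lit 5) (nat_lit 103) (nat_lit 5) (nat_lit 301) (nat_lit 276) (nat_lit 203)) (XT.lf (nat_lit 0) (nat_lit 2558700920) (nat_lit 456) (nat_lit 5429899000) (nat_lit 76) (nat_lit 10740826070) (nat_lit 96) (nat_lit 5) (nat_lit 102) (nat_lit 5)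 (nat_lit 97) (nat_lit 5) (nat_lit 302) (nat_lit 276) (nat_lit 202)))) (XT.nd (nat_lit 78) (nat_lit 684) (nat_lit 0) (XT.lf (nat_lit 0) (nat_lit 7283531020) (nat_lit 456) (nat_lit 9653958101) (nat_lit 76) (nat_lit 2383499258) (nat_lit 91) (nat_lit 5) (nat_lit 97) (nat_lit 5) (nat_lit 92) (nat_lit 5) (nat_lit 303) (nat_lit 276) (nat_lit 201)) (XT.nd (nat_lit 78) (nat_lit 380) (nat_lit 0) (XT.lf (nat_lit 0) (nat_lit 5685143942) (nat_lit 304) (nat_lit 6723309103) (nat_lit 380) (nat_lit 7528792416) (nat_lit 87) (nat_lit 5) (nat_lit 91) (nat_lit 5) (nat_lit 92) (nat_lit 5) (nat_lit 304) (nat_lit 276) (nat_lit 200)) (XT.lf (nat_lit 0) (nat_lit 1362602462) (nat_lit 380) (nat_lit 16551972189) (nat_lit 456) (nat_lit 2666022695) (nat_lit 82) (nat_lit 5) (nat_lit 87) (nat_lit 5) (nat_lit 88) (nat_lit 5) (nat_lit 305) (nat_lit 276) (nat_lit 199))))) (XT.nd (nat_lit 234) (nat_lit 836) (nat_lit 0) (XT.nd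 (nat_lit 78) (nat_lit 608) (nat_lit 0) (XT.lf (nat_lit 0) (nat_lit 2581987448) (nat_lit 456) (nat_lit 3324272559) (nat_lit 76) (nat_lit 15343490075) (nat_lit 81) (nat_lit 5) (nat_lit 87) (nat_lit 5) (nat_lit 82) (nat_lit 5) (nat_lit 306) (nat_lit 276) (nat_lit 198)) (XT.nd (nat_lit 78) (nat_lit 304) (nat_lit 0) (XT.lf (nat_lit 0) (nat_lit 8195285201) (nat_lit 380) (nat_lit 8432539798) (nat_lit 76) (nat_lit 5319029738) (nat_lit 77) (nat_lit 5) (nat_lit 82) (nat_lit 5) (nat_lit 78) (nat_lit 5) (nat_lit 307) (nat_lit 276) (nat_lit 197)) (XT.lf (nat_lit 0) (nat_lit 8661930226) (nat_lit 304) (nat_lit 5580486015) (nat_lit 380) (nat_lit 8431828959) (nat_lit 73) (nat_lit 5) (nat_lit 77) (nat_lit 5) (nat_lit 78) (nat_lit 5) (nat_lit 308) (nat_lit 276) (nat_lit 196)))) (XT.nd (nat_lit 156) (nat_lit 532) (nat_lit 0) (XT.nd (nat_lit 78) (nat_lit 76) (nat_lit 0) (XT.lf (nat_lit 0) (nat_lit 3324768450)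 (nat_lit 228) (nat_lit 17421104917) (nat_lit 304) (nat_lit 2687537137) (nat_lit 70) (nat_lit 5) (nat_lit 73) (nat_lit 5) (nat_lit 74) (nat_lit 5) (nat_lit 309) (nat_lit 276) (nat_lit 195)) (XT.lf (nat_lit 0) (nat_lit 3457759548) (nat_lit 304) (nat_lit 2527434121) (nat_lit 76) (nat_lit 18239027349) (nat_lit 69) (nat_lit 5) (nat_lit 73) (nat_lit 5) (nat_lit 70) (nat_lit 5) (nat_lit 310) (nat_lit 276) (nat_lit 194))) (XT.nd (nat_lit 78) (nat_lit 228) (nat_lit 0) (XT.lf (nat_lit 0) (nat_lit 10048636347) (nat_lit 380) (nat_lit 8919024856) (nat_lit 76) (nat_lit 6080317138) (nat_lit 65) (nat_lit 5) (nat_lit 70) (nat_lit 5) (nat_lit 66) (nat_lit 5) (nat_lit 311) (nat_lit 276) (nat_lit 193)) (XT.lf (nat_lit 0) (nat_lit 9961597052) (nat_lit 228) (nat_lit 7168700375) (nat_lit 304) (nat_lit 8777809358) (nat_lit 62) (nat_lit 5) (nat_lit 65) (nat_lit 5) (nat_lit 66) (nat_lit 5) (nat_lit 312) (nat_lit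 276) (nat_lit 192))))))) (XT.nd (nat_lit 1014) (nat_lit 1216) (nat_lit 0) (XT.nd (nat_lit 468) (nat_lit 988) (nat_lit 0) (XT.nd (nat_lit 234) (nat_lit 456) (nat_lit 0) (XT.nd (nat_lit 78) (nat_lit 304) (nat_lit 0) (XT.lf (nat_lit 0) (nat_lit 3143792188) (nat_lit 228) (nat_lit 21574798387) (nat_lit 304) (nat_lit 2088094101) (nat_lit 59) (nat_lit 5) (nat_lit 62) (nat_lit 5) (nat_lit 63) (nat_lit 5) (nat_lit 313) (nat_lit 276) (nat_lit 191)) (XT.nd (nat_lit 78) (nat_lit 228) (nat_lit 0) (XT.lf (nat_lit 0) (nat_lit 5057827106) (nat_lit 304) (nat_lit 4375002409) (nat_lit 76) (nat_lit 18309415261) (nat_lit 58) (nat_lit 5) (nat_lit 62) (nat_lit 5) (nat_lit 59) (nat_lit 5) (nat_lit 314) (nat_lit 276) (nat_lit 190)) (XT.lf (nat_lit 0) (nat_lit 12687825304) (nat_lit 304) (nat_lit 12610927401) (nat_lit 76) (nat_lit 3420128140) (nat_lit 55) (nat_lit 5) (nat_lit 59) (nat_lit 5) (nat_lit 56) (nat_lit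 5) (nat_lit 315) (nat_lit 276) (nat_lit 189)))) (XT.nd (nat_lit 78) (nat_lit 228) (nat_lit 0) (XT.lf (nat_lit 0) (nat_lit 7995478624) (nat_lit 228) (nat_lit 12902807949) (nat_lit 304) (nat_lit 8840109598) (nat_lit 52) (nat_lit 5) (nat_lit 55) (nat_lit 5) (nat_lit 56) (nat_lit 5) (nat_lit 316) (nat_lit 276) (nat_lit 188)) (XT.nd (nat_lit 78) (nat_lit 228) (nat_lit 0) (XT.lf (nat_lit 0) (nat_lit 29633403245) (nat_lit 304) (nat_lit 939648766) (nat_lit 76) (nat_lit 232426853) (nat_lit 52) (nat_lit 5) (nat_lit 56) (nat_lit 5) (nat_lit 53) (nat_lit 5) (nat_lit 317) (nat_lit 276) (nat_lit 187)) (XT.lf (nat_lit 0) (nat_lit 7064672149) (nat_lit 228) (nat_lit 10825930411) (nat_lit 76) (nat_lit 14023757075) (nat_lit 49) (nat_lit 5) (nat_lit 52) (nat_lit 5) (nat_lit 50) (nat_lit 5) (nat_lit 318) (nat_lit 276) (nat_lit 186))))) (XT.nd (nat_lit 234) (nat_lit 608) (nat_lit 0) (XT.nd (nat_lit 78) (nat_lit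 152) (nat_lit 0) (XT.lf (nat_lit 0) (nat_lit 11342285555) (nat_lit 228) (nat_lit 4448948536) (nat_lit 304) (nat_lit 17284049411) (nat_lit 46) (nat_lit 5) (nat_lit 49) (nat_lit 5) (nat_lit 50) (nat_lit 5) (nat_lit 319) (nat_lit 276) (nat_lit 185)) (XT.nd (nat_lit 78) (nat_lit 0) (nat_lit 0) (XT.lf (nat_lit 0) (nat_lit 442939547) (nat_lit 152) (nat_lit 24704553120) (nat_lit 228) (nat_lit 9140972896) (nat_lit 44) (nat_lit 5) (nat_lit 46) (nat_lit 5) (nat_lit 47) (nat_lit 5) (nat_lit 320) (nat_lit 276) (nat_lit 184)) (XT.lf (nat_lit 0) (nat_lit 24110846189) (nat_lit 152) (nat_lit 11113100169) (nat_lit 228) (nat_lit 330801342) (nat_lit 44) (nat_lit 5) (nat_lit 46) (nat_lit 5) (nat_lit 47) (nat_lit 5) (nat_lit 321) (nat_lit 276) (nat_lit 183)))) (XT.nd (nat_lit 156) (nat_lit 304) (nat_lit 0) (XT.nd (nat_lit 78) (nat_lit 0) (nat_lit 0) (XT.lf (nat_lit 0) (nat_lit 8880217995) (nat_lit 304) (nat_lit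 24705056377) (nat_lit 76) (nat_lit 3292476826) (nat_lit 40) (nat_lit 5) (nat_lit 44) (nat_lit 5) (nat_lit 41) (nat_lit 5) (nat_lit 322) (nat_lit 276) (nat_lit 182)) (XT.lf (nat_lit 0) (nat_lit 18761348920) (nat_lit 304) (nat_lit 1194749104) (nat_lit 76) (nat_lit 18304227477) (nat_lit 40) (nat_lit 5) (nat_lit 44) (nat_lit 5) (nat_lit 41) (nat_lit 5) (nat_lit 323) (nat_lit 276) (nat_lit 181))) (XT.nd (nat_lit 78) (nat_lit 152) (nat_lit 0) (XT.lf (nat_lit 0) (nat_lit 23935308296) (nat_lit 152) (nat_lit 5417213718) (nat_lit 228) (nat_lit 10353037367) (nat_lit 38) (nat_lit 5) (nat_lit 40) (nat_lit 5) (nat_lit 41) (nat_lit 5) (nat_lit 324) (nat_lit 276) (nat_lit 180)) (XT.lf (nat_lit 0) (nat_lit 9186098616) (nat_lit 152) (nat_lit 31468829885) (nat_lit 228) (nat_lit 562686147) (nat_lit 36) (nat_lit 5) (nat_lit 38) (nat_lit 5) (nat_lit 39) (nat_lit 5) (nat_lit 325) (nat_lit 276) (nat_lit 179))))))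 (XT.nd (nat_lit 546) (nat_lit 456) (nat_lit 0) (XT.nd (nat_lit 234) (nat_lit 380) (nat_lit 0) (XT.nd (nat_lit 78) (nat_lit 304) (nat_lit 0) (XT.lf (nat_lit 0) (nat_lit 9732773952) (nat_lit 228) (nat_lit 7252419676) (nat_lit 76) (nat_lit 25811129754) (nat_lit 35) (nat_lit 5) (nat_lit 38) (nat_lit 5) (nat_lit 36) (nat_lit 5) (nat_lit 326) (nat_lit 276) (nat_lit 178)) (XT.nd (nat_lit 78) (nat_lit 152) (nat_lit 0) (XT.lf (nat_lit 0) (nat_lit 19111803922) (nat_lit 152) (nat_lit 1590610496) (nat_lit 228) (nat_lit 23746263410) (nat_lit 33) (nat_lit 5) (nat_lit 35) (nat_lit 5) (nat_lit 36) (nat_lit 5) (nat_lit 327) (nat_lit 276) (nat_lit 177)) (XT.lf (nat_lit 0) (nat_lit 614763208) (nat_lit 152) (nat_lit 31814726543) (nat_lit 228) (nat_lit 13747899991) (nat_lit 31) (nat_lit 5) (nat_lit 33) (nat_lit 5) (nat_lit 34) (nat_lit 5) (nat_lit 328) (nat_lit 276) (nat_lit 176)))) (XT.nd (nat_lit 156) (nat_lit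 152) (nat_lit 0) (XT.nd (nat_lit 78) (nat_lit 228) (nat_lit 0) (XT.lf (nat_lit 0) (nat_lit 28356885016) (nat_lit 152) (nat_lit 16650705720) (nat_lit 228) (nat_lit 2977014294) (nat_lit 31) (nat_lit 5) (nat_lit 33) (nat_lit 5) (nat_lit 34) (nat_lit 5) (nat_lit 329) (nat_lit 276) (nat_lit 175)) (XT.lf (nat_lit 0) (nat_lit 7653721179) (nat_lit 152) (nat_lit 578078037) (nat_lit 228) (nat_lit 41646126946) (nat_lit 28) (nat_lit 5) (nat_lit 30) (nat_lit 5) (nat_lit 31) (nat_lit 5) (nat_lit 330) (nat_lit 276) (nat_lit 174))) (XT.nd (nat_lit 78) (nat_lit 152) (nat_lit 0) (XT.lf (nat_lit 0) (nat_lit 20289478311) (nat_lit 228) (nat_lit 15358349961) (nat_lit 76) (nat_lit 16206707980) (nat_lit 28) (nat_lit 5) (nat_lit 31) (nat_lit 5) (nat_lit 29) (nat_lit 5) (nat_lit 331) (nat_lit 276) (nat_lit 173)) (XT.lf (nat_lit 0) (nat_lit 13081974956) (nat_lit 152) (nat_lit 19988894129) (nat_lit 228) (nat_lit 20855489582)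 (nat_lit 26) (nat_lit 5) (nat_lit 28) (nat_lit 5) (nat_lit 29) (nat_lit 5) (nat_lit 332) (nat_lit 276) (nat_lit 172))))) (XT.nd (nat_lit 234) (nat_lit 304) (nat_lit 0) (XT.nd (nat_lit 78) (nat_lit 152) (nat_lit 0) (XT.lf (nat_lit 0) (nat_lit 43247519391) (nat_lit 152) (nat_lit 3391493559) (nat_lit 228) (nat_lit 9458335087) (nat_lit 26) (nat_lit 5) (nat_lit 28) (nat_lit 5) (nat_lit 29) (nat_lit 5) (nat_lit 333) (nat_lit 276) (nat_lit 171)) (XT.nd (nat_lit 78) (nat_lit 0) (nat_lit 0) (XT.lf (nat_lit 0) (nat_lit 2748188206) (nat_lit 152) (nat_lit 41676624930) (nat_lit 76) (nat_lit 13942702218) (nat_lit 24) (nat_lit 5) (nat_lit 26) (nat_lit 5) (nat_lit 25) (nat_lit 5) (nat_lit 334) (nat_lit 276) (nat_lit 170)) (XT.lf (nat_lit 0) (nat_lit 15529287806) (nat_lit 152) (nat_lit 12917901613) (nat_lit 76) (nat_lit 32296401901) (nat_lit 24) (nat_lit 5) (nat_lit 26) (nat_lit 5) (nat_lit 25) (nat_lit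 5) (nat_lit 335) (nat_lit 276) (nat_lit 169)))) (XT.nd (nat_lit 156) (nat_lit 152) (nat_lit 0) (XT.nd (nat_lit 78) (nat_lit 0) (nat_lit 0) (XT.lf (nat_lit 0) (nat_lit 17606279931) (nat_lit 152) (nat_lit 11503096351) (nat_lit 228) (nat_lit 34124302102) (nat_lit 22) (nat_lit 5) (nat_lit 24) (nat_lit 5) (nat_lit 25) (nat_lit 5) (nat_lit 336) (nat_lit 276) (nat_lit 168)) (XT.lf (nat_lit 0) (nat_lit 43554132187) (nat_lit 228) (nat_lit 15995218896) (nat_lit 76) (nat_lit 6293353889) (nat_lit 22) (nat_lit 5) (nat_lit 25) (nat_lit 5) (nat_lit 23) (nat_lit 4) (nat_lit 337) (nat_lit 276) (nat_lit 167))) (XT.nd (nat_lit 78) (nat_lit 76) (nat_lit 0) (XT.lf (nat_lit 0) (nat_lit 15285704784) (nat_lit 76) (nat_lit 43689814425) (nat_lit 152) (nat_lit 9599036704) (nat_lit 21) (nat_lit 5) (nat_lit 22) (nat_lit 5) (nat_lit 23) (nat_lit 4) (nat_lit 338) (nat_lit 276) (nat_lit 166)) (XT.lf (nat_lit 0) (nat_lit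 3810113497) (nat_lit 152) (nat_lit 23025351240) (nat_lit 76) (nat_lit 44601730166) (nat_lit 20) (nat_lit 5) (nat_lit 22) (nat_lit 5) (nat_lit 21) (nat_lit 5) (nat_lit 339) (nat_lit 276) (nat_lit 165))))))))
noncomputable def xc79 : XT := (XT.nd (nat_lit 36270) (nat_lit 0) (nat_lit 4636) (XT.nd (nat_lit 1014) (nat_lit 152) (nat_lit 0) (XT.nd (nat_lit 468) (nat_lit 228) (nat_lit 0) (XT.nd (nat_lit 234) (nat_lit 304) (nat_lit 0) (XT.nd (nat_lit 78) (nat_lit 0) (nat_lit 0) (XT.lf (nat_lit 0) (nat_lit 8812320052) (nat_lit 152) (nat_lit 8957374235) (nat_lit 228) (nat_lit 56668069727) (nat_lit 18) (nat_lit 5) (nat_lit 20) (nat_lit 5) (nat_lit 21) (nat_lit 5) (nat_lit 340) (nat_lit 276) (nat_lit 164)) (XT.nd (nat_lit 78) (nat_lit 0) (nat_lit 0) (XT.lf (nat_lit 0) (nat_lit 32753107658) (nat_lit 228) (nat_lit 34968761285) (nat_lit 76) (nat_lit 9856721074) (nat_lit 18) (nat_lit 5) (nat_lit 21) (nat_lit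 5) (nat_lit 19) (nat_lit 4) (nat_lit 341) (nat_lit 276) (nat_lit 163)) (XT.lf (nat_lit 0) (nat_lit 48568612016) (nat_lit 228) (nat_lit 2882850161) (nat_lit 76) (nat_lit 29422511384) (nat_lit 18) (nat_lit 5) (nat_lit 21) (nat_lit 5) (nat_lit 19) (nat_lit 4) (nat_lit 342) (nat_lit 276) (nat_lit 162)))) (XT.nd (nat_lit 78) (nat_lit 228) (nat_lit 0) (XT.lf (nat_lit 0) (nat_lit 31407664863) (nat_lit 76) (nat_lit 34062004390) (nat_lit 152) (nat_lit 18855617368) (nat_lit 17) (nat_lit 5) (nat_lit 18) (nat_lit 5) (nat_lit 19) (nat_lit 4) (nat_lit 343) (nat_lit 276) (nat_lit 161)) (XT.nd (nat_lit 78) (nat_lit 228) (nat_lit 0) (XT.lf (nat_lit 0) (nat_lit 67460740674) (nat_lit 76) (nat_lit 15777805317) (nat_lit 152) (nat_lit 4709939835) (nat_lit 17) (nat_lit 5) (nat_lit 18) (nat_lit 5) (nat_lit 19) (nat_lit 4) (nat_lit 344) (nat_lit 276) (nat_lit 160)) (XT.lf (nat_lit 0) (nat_lit 10105454195) (nat_lit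 228) (nat_lit 78059138377) (nat_lit 76) (nat_lit 3580519836) (nat_lit 14) (nat_lit 5) (nat_lit 17) (nat_lit 5) (nat_lit 15) (nat_lit 4) (nat_lit 345) (nat_lit 276) (nat_lit 159))))) (XT.nd (nat_lit 234) (nat_lit 152) (nat_lit 0) (XT.nd (nat_lit 78) (nat_lit 76) (nat_lit 0) (XT.lf (nat_lit 0) (nat_lit 25930865028) (nat_lit 228) (nat_lit 45949179922) (nat_lit 76) (nat_lit 23839129778) (nat_lit 14) (nat_lit 5) (nat_lit 17) (nat_lit 5) (nat_lit 15) (nat_lit 4) (nat_lit 346) (nat_lit 276) (nat_lit 158)) (XT.nd (nat_lit 78) (nat_lit 76) (nat_lit 0) (XT.lf (nat_lit 0) (nat_lit 42541365225) (nat_lit 228) (nat_lit 12244745985) (nat_lit 76) (nat_lit 45106017317) (nat_lit 14) (nat_lit 5) (nat_lit 17) (nat_lit 5) (nat_lit 15) (nat_lit 4) (nat_lit 347) (nat_lit 276) (nat_lit 157)) (XT.lf (nat_lit 0) (nat_lit 23594832246) (nat_lit 76) (nat_lit 36608479311) (nat_lit 152) (nat_lit 44063793617) (nat_lit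 13) (nat_lit 5) (nat_lit 14) (nat_lit 5) (nat_lit 15) (nat_lit 4) (nat_lit 348) (nat_lit 276) (nat_lit 156)))) (XT.nd (nat_lit 156) (nat_lit 152) (nat_lit 0) (XT.nd (nat_lit 78) (nat_lit 0) (nat_lit 0) (XT.lf (nat_lit 0) (nat_lit 61472071914) (nat_lit 76) (nat_lit 17396627620) (nat_lit 152) (nat_lit 29988523445) (nat_lit 13) (nat_lit 5) (nat_lit 14) (nat_lit 5) (nat_lit 15) (nat_lit 4) (nat_lit 349) (nat_lit 276) (nat_lit 155)) (XT.lf (nat_lit 0) (nat_lit 98488565750) (nat_lit 152) (nat_lit 12470191447) (nat_lit 0) (nat_lit 2717455742) (nat_lit 13) (nat_lit 5) (nat_lit 15) (nat_lit 4) (nat_lit 13) (nat_lit 4) (nat_lit 350) (nat_lit 276) (nat_lit 154))) (XT.nd (nat_lit 78) (nat_lit 0) (nat_lit 0) (XT.lf (nat_lit 0) (nat_lit 756117626) (nat_lit 152) (nat_lit 94248077649) (nat_lit 76) (nat_lit 23719565435) (nat_lit 11) (nat_lit 5) (nat_lit 13) (nat_lit 5) (nat_lit 12) (nat_lit 4) (nat_lit 351)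 (nat_lit 276) (nat_lit 153)) (XT.lf (nat_lit 0) (nat_lit 17310422478) (nat_lit 152) (nat_lit 60654159202) (nat_lit 76) (nat_lit 46050771565) (nat_lit 11) (nat_lit 5) (nat_lit 13) (nat_lit 5) (nat_lit 12) (nat_lit 4) (nat_lit 352) (nat_lit 276) (nat_lit 152)))))) (XT.nd (nat_lit 34710) (nat_lit 0) (nat_lit 13984) (XT.nd (nat_lit 234) (nat_lit 76) (nat_lit 0) (XT.nd (nat_lit 78) (nat_lit 76) (nat_lit 0) (XT.lf (nat_lit 0) (nat_lit 34687580836) (nat_lit 152) (nat_lit 25389309072) (nat_lit 76) (nat_lit 69494783475) (nat_lit 11) (nat_lit 5) (nat_lit 13) (nat_lit 5) (nat_lit 12) (nat_lit 4) (nat_lit 353) (nat_lit 276) (nat_lit 151)) (XT.nd (nat_lit 78) (nat_lit 0) (nat_lit 0) (XT.lf (nat_lit 0) (nat_lit 11861905164) (nat_lit 76) (nat_lit 41181085611) (nat_lit 152) (nat_lit 82359538963) (nat_lit 10) (nat_lit 5) (nat_lit 11) (nat_lit 5) (nat_lit 12) (nat_lit 4) (nat_lit 354) (nat_lit 276) (nat_lit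 150)) (XT.lf (nat_lit 0) (nat_lit 51498134366) (nat_lit 76) (nat_lit 21074909705) (nat_lit 152) (nat_lit 68944180579) (nat_lit 10) (nat_lit 5) (nat_lit 11) (nat_lit 5) (nat_lit 12) (nat_lit 4) (nat_lit 355) (nat_lit 276) (nat_lit 149)))) (XT.nd (nat_lit 78) (nat_lit 76) (nat_lit 0) (XT.lf (nat_lit 0) (nat_lit 93075644499) (nat_lit 152) (nat_lit 54829649328) (nat_lit 0) (nat_lit 32480981) (nat_lit 10) (nat_lit 5) (nat_lit 12) (nat_lit 4) (nat_lit 10) (nat_lit 4) (nat_lit 356) (nat_lit 276) (nat_lit 148)) (XT.nd (nat_lit 156) (nat_lit 76) (nat_lit 0) (XT.lf (nat_lit 0) (nat_lit 114811987104) (nat_lit 152) (nat_lit 18100896653) (nat_lit 0) (nat_lit 21760212098) (nat_lit 10) (nat_lit 5) (nat_lit 12) (nat_lit 4) (nat_lit 10) (nat_lit 4) (nat_lit 357) (nat_lit 276) (nat_lit 147)) (XT.lf (nat_lit 0) (nat_lit 62149206731) (nat_lit 76) (nat_lit 100035944679) (nat_lit 76) (nat_lit 6968157383) (nat_lit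 9) (nat_lit 4) (nat_lit 10) (nat_lit 5) (nat_lit 10) (nat_lit 4) (nat_lit 359) (nat_lit 276) (nat_lit 145))))) (XT.nd (nat_lit 234) (nat_lit 912) (nat_lit 0) (XT.nd (nat_lit 78) (nat_lit 0) (nat_lit 0) (XT.lf (nat_lit 0) (nat_lit 1578315553) (nat_lit 0) (nat_lit 1578315553) (nat_lit 988) (nat_lit 1784584391) (nat_lit 205) (nat_lit 5) (nat_lit 205) (nat_lit 3) (nat_lit 218) (nat_lit 3) (nat_lit 277) (nat_lit 277) (nat_lit 226)) (XT.nd (nat_lit 78) (nat_lit 0) (nat_lit 0) (XT.lf (nat_lit 76) (nat_lit 566232369) (nat_lit 0) (nat_lit 7055307910) (nat_lit 1064) (nat_lit 2471564224) (nat_lit 206) (nat_lit 5) (nat_lit 205) (nat_lit 5) (nat_lit 219) (nat_lit 5) (nat_lit 278) (nat_lit 277) (nat_lit 225)) (XT.lf (nat_lit 76) (nat_lit 8291858111) (nat_lit 0) (nat_lit 732734726) (nat_lit 1064) (nat_lit 1288957981) (nat_lit 206) (nat_lit 5) (nat_lit 205) (nat_lit 5) (nat_lit 219) (nat_lit 5) (nat_lit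 279) (nat_lit 277) (nat_lit 224)))) (XT.nd (nat_lit 156) (nat_lit 0) (nat_lit 0) (XT.nd (nat_lit 78) (nat_lit 988) (nat_lit 0) (XT.lf (nat_lit 76) (nat_lit 5877001506) (nat_lit 0) (nat_lit 4666335148) (nat_lit 1064) (nat_lit 430876) (nat_lit 207) (nat_lit 5) (nat_lit 206) (nat_lit 5) (nat_lit 220) (nat_lit 5) (nat_lit 280) (nat_lit 277) (nat_lit 223)) (XT.lf (nat_lit 0) (nat_lit 1342244300) (nat_lit 1064) (nat_lit 7371148980) (nat_lit 1140) (nat_lit 2071333961) (nat_lit 193) (nat_lit 5) (nat_lit 207) (nat_lit 5) (nat_lit 208) (nat_lit 5) (nat_lit 281) (nat_lit 277) (nat_lit 222))) (XT.nd (nat_lit 78) (nat_lit 0) (nat_lit 76) (XT.lf (nat_lit 76) (nat_lit 887913212) (nat_lit 0) (nat_lit 1905643560) (nat_lit 1140) (nat_lit 8243033264) (nat_lit 194) (nat_lit 5) (nat_lit 193) (nat_lit 5) (nat_lit 208) (nat_lit 5) (nat_lit 282) (nat_lit 277) (nat_lit 221)) (XT.lf (nat_lit 0) (nat_lit 4384616696)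 (nat_lit 1064) (nat_lit 1677869393) (nat_lit 1140) (nat_lit 5236640237) (nat_lit 194) (nat_lit 5) (nat_lit 208) (nat_lit 5) (nat_lit 209) (nat_lit 5) (nat_lit 283) (nat_lit 277) (nat_lit 220))))))) (XT.nd (nat_lit 1014) (nat_lit 4180) (nat_lit 0) (XT.nd (nat_lit 468) (nat_lit 3192) (nat_lit 0) (XT.nd (nat_lit 234) (nat_lit 2128) (nat_lit 0) (XT.nd (nat_lit 78) (nat_lit 0) (nat_lit 0) (XT.lf (nat_lit 0) (nat_lit 6099291945) (nat_lit 1064) (nat_lit 4285793237) (nat_lit 1140) (nat_lit 1188473627) (nat_lit 195) (nat_lit 5) (nat_lit 209) (nat_lit 5) (nat_lit 210) (nat_lit 5) (nat_lit 284) (nat_lit 277) (nat_lit 219)) (XT.nd (nat_lit 78) (nat_lit 0) (nat_lit 76) (XT.lf (nat_lit 76) (nat_lit 4868534663) (nat_lit 0) (nat_lit 3102099449) (nat_lit 1140) (nat_lit 3889037710) (nat_lit 196) (nat_lit 5) (nat_lit 195) (nat_lit 5) (nat_lit 210) (nat_lit 5) (nat_lit 285) (nat_lit 277) (nat_lit 218)) (XT.lf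 (nat_lit 76) (nat_lit 2372271857) (nat_lit 0) (nat_lit 7622159251) (nat_lit 1140) (nat_lit 2163975511) (nat_lit 197) (nat_lit 5) (nat_lit 196) (nat_lit 5) (nat_lit 211) (nat_lit 5) (nat_lit 286) (nat_lit 277) (nat_lit 217)))) (XT.nd (nat_lit 78) (nat_lit 2280) (nat_lit 0) (XT.lf (nat_lit 0) (nat_lit 12173341547) (nat_lit 1064) (nat_lit 193655548) (nat_lit 76) (nat_lit 103542176) (nat_lit 197) (nat_lit 5) (nat_lit 211) (nat_lit 5) (nat_lit 198) (nat_lit 5) (nat_lit 287) (nat_lit 277) (nat_lit 216)) (XT.nd (nat_lit 78) (nat_lit 1140) (nat_lit 0) (XT.lf (nat_lit 0) (nat_lit 1756682479) (nat_lit 1140) (nat_lit 2855802302) (nat_lit 76) (nat_lit 8181600718) (nat_lit 182) (nat_lit 5) (nat_lit 197) (nat_lit 5) (nat_lit 183) (nat_lit 5) (nat_lit 288) (nat_lit 277) (nat_lit 215)) (XT.lf (nat_lit 0) (nat_lit 3970320503) (nat_lit 1216) (nat_lit 5615858060) (nat_lit 76) (nat_lit 3545715300) (nat_lit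 167) (nat_lit 5) (nat_lit 183) (nat_lit 5) (nat_lit 168) (nat_lit 5) (nat_lit 289) (nat_lit 277) (nat_lit 214))))) (XT.nd (nat_lit 234) (nat_lit 2052) (nat_lit 0) (XT.nd (nat_lit 78) (nat_lit 608) (nat_lit 0) (XT.lf (nat_lit 0) (nat_lit 4991041448) (nat_lit 532) (nat_lit 1383492470) (nat_lit 608) (nat_lit 7109728029) (nat_lit 160) (nat_lit 5) (nat_lit 167) (nat_lit 5) (nat_lit 168) (nat_lit 5) (nat_lit 290) (nat_lit 277) (nat_lit 213)) (XT.nd (nat_lit 78) (nat_lit 0) (nat_lit 0) (XT.lf (nat_lit 0) (nat_lit 2328324594) (nat_lit 608) (nat_lit 6678337087) (nat_lit 684) (nat_lit 4844418604) (nat_lit 152) (nat_lit 5) (nat_lit 160) (nat_lit 5) (nat_lit 161) (nat_lit 5) (nat_lit 291) (nat_lit 277) (nat_lit 212)) (XT.lf (nat_lit 0) (nat_lit 11849826748) (nat_lit 684) (nat_lit 438395363) (nat_lit 76) (nat_lit 1945694462) (nat_lit 152) (nat_lit 5) (nat_lit 161) (nat_lit 5) (nat_lit 153) (nat_lit 5)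 (nat_lit 292) (nat_lit 277) (nat_lit 211)))) (XT.nd (nat_lit 156) (nat_lit 912) (nat_lit 0) (XT.nd (nat_lit 78) (nat_lit 532) (nat_lit 0) (XT.lf (nat_lit 0) (nat_lit 333907608) (nat_lit 608) (nat_lit 3319936000) (nat_lit 76) (nat_lit 10977892837) (nat_lit 144) (nat_lit 5) (nat_lit 152) (nat_lit 5) (nat_lit 145) (nat_lit 5) (nat_lit 293) (nat_lit 277) (nat_lit 210)) (XT.lf (nat_lit 0) (nat_lit 3242580940) (nat_lit 608) (nat_lit 6383157906) (nat_lit 76) (nat_lit 5419930642) (nat_lit 137) (nat_lit 5) (nat_lit 145) (nat_lit 5) (nat_lit 138) (nat_lit 5) (nat_lit 294) (nat_lit 277) (nat_lit 209))) (XT.nd (nat_lit 78) (nat_lit 456) (nat_lit 0) (XT.lf (nat_lit 0) (nat_lit 5873424081) (nat_lit 456) (nat_lit 514692326) (nat_lit 532) (nat_lit 9089490210) (nat_lit 131) (nat_lit 5) (nat_lit 137) (nat_lit 5) (nat_lit 138) (nat_lit 5) (nat_lit 295) (nat_lit 277) (nat_lit 208)) (XT.lf (nat_lit 0) (nat_lit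 2877399643) (nat_lit 456) (nat_lit 6959495407) (nat_lit 532) (nat_lit 6089914453) (nat_lit 125) (nat_lit 5) (nat_lit 131) (nat_lit 5) (nat_lit 132) (nat_lit 5) (nat_lit 296) (nat_lit 277) (nat_lit 207)))))) (XT.nd (nat_lit 546) (nat_lit 1976) (nat_lit 0) (XT.nd (nat_lit 234) (nat_lit 1216) (nat_lit 0) (XT.nd (nat_lit 78) (nat_lit 988) (nat_lit 0) (XT.lf (nat_lit 0) (nat_lit 13553490043) (nat_lit 532) (nat_lit 280114238) (nat_lit 76) (nat_lit 2562052543) (nat_lit 125) (nat_lit 5) (nat_lit 132) (nat_lit 5) (nat_lit 126) (nat_lit 5) (nat_lit 297) (nat_lit 277) (nat_lit 206)) (XT.nd (nat_lit 78) (nat_lit 456) (nat_lit 0) (XT.lf (nat_lit 0) (nat_lit 724211281) (nat_lit 532) (nat_lit 3609830616) (nat_lit 76) (nat_lit 12548763216) (nat_lit 118) (nat_lit 5) (nat_lit 125) (nat_lit 5) (nat_lit 119) (nat_lit 5) (nat_lit 298) (nat_lit 277) (nat_lit 205)) (XT.lf (nat_lit 0) (nat_lit 4536259638) (nat_lit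 532) (nat_lit 7196075259) (nat_lit 76) (nat_lit 5657387926) (nat_lit 112) (nat_lit 5) (nat_lit 119) (nat_lit 5) (nat_lit 113) (nat_lit 5) (nat_lit 299) (nat_lit 277) (nat_lit 204)))) (XT.nd (nat_lit 156) (nat_lit 456) (nat_lit 0) (XT.nd (nat_lit 78) (nat_lit 380) (nat_lit 0) (XT.lf (nat_lit 0) (nat_lit 6896572509) (nat_lit 380) (nat_lit 1759688116) (nat_lit 456) (nat_lit 9262243542) (nat_lit 107) (nat_lit 5) (nat_lit 112) (nat_lit 5) (nat_lit 113) (nat_lit 5) (nat_lit 300) (nat_lit 277) (nat_lit 203)) (XT.lf (nat_lit 0) (nat_lit 3317401344) (nat_lit 380) (nat_lit 9826135714) (nat_lit 456) (nat_lit 5325385691) (nat_lit 102) (nat_lit 5) (nat_lit 107) (nat_lit 5) (nat_lit 108) (nat_lit 5) (nat_lit 301) (nat_lit 277) (nat_lit 202))) (XT.nd (nat_lit 78) (nat_lit 456) (nat_lit 0) (XT.lf (nat_lit 0) (nat_lit 17963818935) (nat_lit 456) (nat_lit 498164443) (nat_lit 76) (nat_lit 581654329) (nat_lit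 102) (nat_lit 5) (nat_lit 108) (nat_lit 5) (nat_lit 103) (nat_lit 5) (nat_lit 302) (nat_lit 277) (nat_lit 201)) (XT.lf (nat_lit 0) (nat_lit 3531230122) (nat_lit 456) (nat_lit 4626592002) (nat_lit 76) (nat_lit 11481750591) (nat_lit 96) (nat_lit 5) (nat_lit 102) (nat_lit 5) (nat_lit 97) (nat_lit 5) (nat_lit 303) (nat_lit 277) (nat_lit 200))))) (XT.nd (nat_lit 234) (nat_lit 912) (nat_lit 0) (XT.nd (nat_lit 78) (nat_lit 684) (nat_lit 0) (XT.lf (nat_lit 0) (nat_lit 8464325340) (nat_lit 456) (nat_lit 9069497837) (nat_lit 76) (nat_lit 2727776328) (nat_lit 91) (nat_lit 5) (nat_lit 97) (nat_lit 5) (nat_lit 92) (nat_lit 5) (nat_lit 304) (nat_lit 277) (nat_lit 199)) (XT.nd (nat_lit 78) (nat_lit 380) (nat_lit 0) (XT.lf (nat_lit 0) (nat_lit 7005969434) (nat_lit 304) (nat_lit 6810601600) (nat_lit 380) (nat_lit 7093010829) (nat_lit 87) (nat_lit 5) (nat_lit 91) (nat_lit 5) (nat_lit 92) (nat_lit 5) (nat_lit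 305) (nat_lit 277) (nat_lit 198)) (XT.lf (nat_lit 0) (nat_lit 2459086955) (nat_lit 380) (nat_lit 17113566034) (nat_lit 456) (nat_lit 2013251345) (nat_lit 82) (nat_lit 5) (nat_lit 87) (nat_lit 5) (nat_lit 88) (nat_lit 5) (nat_lit 306) (nat_lit 277) (nat_lit 197)))) (XT.nd (nat_lit 156) (nat_lit 532) (nat_lit 0) (XT.nd (nat_lit 78) (nat_lit 304) (nat_lit 0) (XT.lf (nat_lit 0) (nat_lit 3445118610) (nat_lit 456) (nat_lit 2495704244) (nat_lit 76) (nat_lit 16348605622) (nat_lit 81) (nat_lit 5) (nat_lit 87) (nat_lit 5) (nat_lit 82) (nat_lit 5) (nat_lit 307) (nat_lit 277) (nat_lit 196)) (XT.lf (nat_lit 0) (nat_lit 9315894800) (nat_lit 380) (nat_lit 7868377555) (nat_lit 76) (nat_lit 5837849134) (nat_lit 77) (nat_lit 5) (nat_lit 82) (nat_lit 5) (nat_lit 78) (nat_lit 5) (nat_lit 308) (nat_lit 277) (nat_lit 195))) (XT.nd (nat_lit 78) (nat_lit 228) (nat_lit 0) (XT.lf (nat_lit 0) (nat_lit 10052558520)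 (nat_lit 304) (nat_lit 5588178475) (nat_lit 380) (nat_lit 8145919585) (nat_lit 73) (nat_lit 5) (nat_lit 77) (nat_lit 5) (nat_lit 78) (nat_lit 5) (nat_lit 309) (nat_lit 277) (nat_lit 194)) (XT.lf (nat_lit 0) (nat_lit 4439248049) (nat_lit 228) (nat_lit 18009041823) (nat_lit 304) (nat_lit 2136156634) (nat_lit 70) (nat_lit 5) (nat_lit 73) (nat_lit 5) (nat_lit 74) (nat_lit 5) (nat_lit 310) (nat_lit 277) (nat_lit 193))))))))
noncomputable def xc80 : XT := (XT.nd (nat_lit 2028) (nat_lit 1140) (nat_lit 0) (XT.nd (nat_lit 1014) (nat_lit 1216) (nat_lit 0) (XT.nd (nat_lit 468) (nat_lit 1140) (nat_lit 0) (XT.nd (nat_lit 234) (nat_lit 532) (nat_lit 0) (XT.nd (nat_lit 78) (nat_lit 532) (nat_lit 0) (XT.lf (nat_lit 0) (nat_lit 4271005397) (nat_lit 304) (nat_lit 1737345083) (nat_lit 76) (nat_lit 19407241322) (nat_lit 69) (nat_lit 5) (nat_lit 73) (nat_lit 5) (nat_lit 70) (nat_lit 5) (nat_lit 311) (nat_lit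 277) (nat_lit 192)) (XT.nd (nat_lit 78) (nat_lit 228) (nat_lit 0) (XT.lf (nat_lit 0) (nat_lit 11172102269) (nat_lit 380) (nat_lit 8458245722) (nat_lit 76) (nat_lit 6650798690) (nat_lit 65) (nat_lit 5) (nat_lit 70) (nat_lit 5) (nat_lit 66) (nat_lit 5) (nat_lit 312) (nat_lit 277) (nat_lit 191)) (XT.lf (nat_lit 0) (nat_lit 11340416038) (nat_lit 228) (nat_lit 7246323516) (nat_lit 304) (nat_lit 8598203750) (nat_lit 62) (nat_lit 5) (nat_lit 65) (nat_lit 5) (nat_lit 66) (nat_lit 5) (nat_lit 313) (nat_lit 277) (nat_lit 190)))) (XT.nd (nat_lit 78) (nat_lit 304) (nat_lit 0) (XT.lf (nat_lit 0) (nat_lit 4171889310) (nat_lit 228) (nat_lit 22364932575) (nat_lit 304) (nat_lit 1592184157) (nat_lit 59) (nat_lit 5) (nat_lit 62) (nat_lit 5) (nat_lit 63) (nat_lit 5) (nat_lit 314) (nat_lit 277) (nat_lit 189)) (XT.nd (nat_lit 78) (nat_lit 228) (nat_lit 0) (XT.lf (nat_lit 0) (nat_lit 5871290222) (nat_lit 304)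 (nat_lit 3752657493) (nat_lit 76) (nat_lit 19488089315) (nat_lit 58) (nat_lit 5) (nat_lit 62) (nat_lit 5) (nat_lit 59) (nat_lit 5) (nat_lit 315) (nat_lit 277) (nat_lit 188)) (XT.lf (nat_lit 0) (nat_lit 13866593707) (nat_lit 304) (nat_lit 12410403640) (nat_lit 76) (nat_lit 3861017338) (nat_lit 55) (nat_lit 5) (nat_lit 59) (nat_lit 5) (nat_lit 56) (nat_lit 5) (nat_lit 316) (nat_lit 277) (nat_lit 187))))) (XT.nd (nat_lit 234) (nat_lit 684) (nat_lit 0) (XT.nd (nat_lit 78) (nat_lit 228) (nat_lit 0) (XT.lf (nat_lit 0) (nat_lit 9202500229) (nat_lit 228) (nat_lit 13266914849) (nat_lit 304) (nat_lit 8739658393) (nat_lit 52) (nat_lit 5) (nat_lit 55) (nat_lit 5) (nat_lit 56) (nat_lit 5) (nat_lit 317) (nat_lit 277) (nat_lit 186)) (XT.nd (nat_lit 78) (nat_lit 228) (nat_lit 0) (XT.lf (nat_lit 0) (nat_lit 31618802589) (nat_lit 304) (nat_lit 204927665) (nat_lit 76) (nat_lit 506476312) (nat_lit 52) (nat_lit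 5) (nat_lit 56) (nat_lit 5) (nat_lit 53) (nat_lit 5) (nat_lit 318) (nat_lit 277) (nat_lit 185)) (XT.lf (nat_lit 0) (nat_lit 7910174450) (nat_lit 228) (nat_lit 10597732022) (nat_lit 76) (nat_lit 14987001450) (nat_lit 49) (nat_lit 5) (nat_lit 52) (nat_lit 5) (nat_lit 50) (nat_lit 5) (nat_lit 319) (nat_lit 277) (nat_lit 184)))) (XT.nd (nat_lit 156) (nat_lit 304) (nat_lit 0) (XT.nd (nat_lit 78) (nat_lit 152) (nat_lit 0) (XT.lf (nat_lit 0) (nat_lit 12656837324) (nat_lit 228) (nat_lit 4399970624) (nat_lit 304) (nat_lit 17657576856) (nat_lit 46) (nat_lit 5) (nat_lit 49) (nat_lit 5) (nat_lit 50) (nat_lit 5) (nat_lit 320) (nat_lit 277) (nat_lit 183)) (XT.lf (nat_lit 0) (nat_lit 1202807118) (nat_lit 152) (nat_lit 25664981376) (nat_lit 228) (nat_lit 9120848419) (nat_lit 44) (nat_lit 5) (nat_lit 46) (nat_lit 5) (nat_lit 47) (nat_lit 5) (nat_lit 321) (nat_lit 277) (nat_lit 182))) (XT.nd (nat_lit 78)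 (nat_lit 228) (nat_lit 0) (XT.lf (nat_lit 0) (nat_lit 105019096) (nat_lit 228) (nat_lit 11300961879) (nat_lit 76) (nat_lit 25912899956) (nat_lit 43) (nat_lit 5) (nat_lit 46) (nat_lit 5) (nat_lit 44) (nat_lit 5) (nat_lit 322) (nat_lit 277) (nat_lit 181)) (XT.lf (nat_lit 0) (nat_lit 9757742335) (nat_lit 304) (nat_lit 25238168667) (nat_lit 76) (nat_lit 3712401553) (nat_lit 40) (nat_lit 5) (nat_lit 44) (nat_lit 5) (nat_lit 41) (nat_lit 5) (nat_lit 323) (nat_lit 277) (nat_lit 180)))))) (XT.nd (nat_lit 468) (nat_lit 532) (nat_lit 0) (XT.nd (nat_lit 234) (nat_lit 380) (nat_lit 0) (XT.nd (nat_lit 78) (nat_lit 304) (nat_lit 0) (XT.lf (nat_lit 0) (nat_lit 20112286310) (nat_lit 304) (nat_lit 585781293) (nat_lit 76) (nat_lit 19462582551) (nat_lit 40) (nat_lit 5) (nat_lit 44) (nat_lit 5) (nat_lit 41) (nat_lit 5) (nat_lit 324) (nat_lit 277) (nat_lit 179)) (XT.nd (nat_lit 78) (nat_lit 152) (nat_lit 0)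 (XT.lf (nat_lit 0) (nat_lit 25781610675) (nat_lit 152) (nat_lit 5437990657) (nat_lit 228) (nat_lit 10458961448) (nat_lit 38) (nat_lit 5) (nat_lit 40) (nat_lit 5) (nat_lit 41) (nat_lit 5) (nat_lit 325) (nat_lit 277) (nat_lit 178)) (XT.lf (nat_lit 0) (nat_lit 10285909338) (nat_lit 152) (nat_lit 32790643640) (nat_lit 228) (nat_lit 189998942) (nat_lit 36) (nat_lit 5) (nat_lit 38) (nat_lit 5) (nat_lit 39) (nat_lit 5) (nat_lit 326) (nat_lit 277) (nat_lit 177)))) (XT.nd (nat_lit 78) (nat_lit 304) (nat_lit 0) (XT.lf (nat_lit 0) (nat_lit 10593698403) (nat_lit 228) (nat_lit 6997329887) (nat_lit 76) (nat_lit 27333626451) (nat_lit 35) (nat_lit 5) (nat_lit 38) (nat_lit 5) (nat_lit 36) (nat_lit 5) (nat_lit 327) (nat_lit 277) (nat_lit 176)) (XT.nd (nat_lit 78) (nat_lit 152) (nat_lit 0) (XT.lf (nat_lit 0) (nat_lit 20667398335) (nat_lit 152) (nat_lit 1432367034) (nat_lit 228) (nat_lit 24560235409) (nat_lit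 33) (nat_lit 5) (nat_lit 35) (nat_lit 5) (nat_lit 36) (nat_lit 5) (nat_lit 328) (nat_lit 277) (nat_lit 175)) (XT.lf (nat_lit 0) (nat_lit 1236878922) (nat_lit 152) (nat_lit 33166927961) (nat_lit 228) (nat_lit 14071634654) (nat_lit 31) (nat_lit 5) (nat_lit 33) (nat_lit 5) (nat_lit 34) (nat_lit 5) (nat_lit 329) (nat_lit 277) (nat_lit 174))))) (XT.nd (nat_lit 234) (nat_lit 304) (nat_lit 0) (XT.nd (nat_lit 78) (nat_lit 228) (nat_lit 0) (XT.lf (nat_lit 0) (nat_lit 30337945984) (nat_lit 152) (nat_lit 17256064902) (nat_lit 228) (nat_lit 2779521831) (nat_lit 31) (nat_lit 5) (nat_lit 33) (nat_lit 5) (nat_lit 34) (nat_lit 5) (nat_lit 330) (nat_lit 277) (nat_lit 173)) (XT.nd (nat_lit 78) (nat_lit 0) (nat_lit 0) (XT.lf (nat_lit 0) (nat_lit 8590252874) (nat_lit 152) (nat_lit 381874276) (nat_lit 228) (nat_lit 43389628514) (nat_lit 28) (nat_lit 5) (nat_lit 30) (nat_lit 5) (nat_lit 31) (nat_lit 5) (nat_lit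 331) (nat_lit 277) (nat_lit 172)) (XT.lf (nat_lit 0) (nat_lit 21619096843) (nat_lit 228) (nat_lit 15591268821) (nat_lit 76) (nat_lit 17227248141) (nat_lit 28) (nat_lit 5) (nat_lit 31) (nat_lit 5) (nat_lit 29) (nat_lit 5) (nat_lit 332) (nat_lit 277) (nat_lit 171)))) (XT.nd (nat_lit 156) (nat_lit 152) (nat_lit 0) (XT.nd (nat_lit 78) (nat_lit 0) (nat_lit 0) (XT.lf (nat_lit 0) (nat_lit 14255736713) (nat_lit 152) (nat_lit 20773808875) (nat_lit 228) (nat_lit 21583791383) (nat_lit 26) (nat_lit 5) (nat_lit 28) (nat_lit 5) (nat_lit 29) (nat_lit 5) (nat_lit 333) (nat_lit 277) (nat_lit 170)) (XT.lf (nat_lit 0) (nat_lit 45904812512) (nat_lit 152) (nat_lit 3356753989) (nat_lit 228) (nat_lit 9631754053) (nat_lit 26) (nat_lit 5) (nat_lit 28) (nat_lit 5) (nat_lit 29) (nat_lit 5) (nat_lit 334) (nat_lit 277) (nat_lit 169))) (XT.nd (nat_lit 78) (nat_lit 0) (nat_lit 0) (XT.lf (nat_lit 0) (nat_lit 3171888797)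 (nat_lit 152) (nat_lit 43267132276) (nat_lit 76) (nat_lit 14838117839) (nat_lit 24) (nat_lit 5) (nat_lit 26) (nat_lit 5) (nat_lit 25) (nat_lit 5) (nat_lit 335) (nat_lit 277) (nat_lit 168)) (XT.lf (nat_lit 0) (nat_lit 16578410463) (nat_lit 152) (nat_lit 13093964408) (nat_lit 76) (nat_lit 34100060577) (nat_lit 24) (nat_lit 5) (nat_lit 26) (nat_lit 5) (nat_lit 25) (nat_lit 5) (nat_lit 336) (nat_lit 277) (nat_lit 167))))))) (XT.nd (nat_lit 1014) (nat_lit 304) (nat_lit 0) (XT.nd (nat_lit 468) (nat_lit 380) (nat_lit 0) (XT.nd (nat_lit 234) (nat_lit 228) (nat_lit 0) (XT.nd (nat_lit 78) (nat_lit 76) (nat_lit 0) (XT.lf (nat_lit 0) (nat_lit 18942958566) (nat_lit 152) (nat_lit 11885947926) (nat_lit 228) (nat_lit 35558385692) (nat_lit 22) (nat_lit 5) (nat_lit 24) (nat_lit 5) (nat_lit 25) (nat_lit 5) (nat_lit 337) (nat_lit 277) (nat_lit 166)) (XT.nd (nat_lit 78) (nat_lit 76) (nat_lit 0) (XT.lf (nat_lit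 0) (nat_lit 45985086352) (nat_lit 228) (nat_lit 16354421536) (nat_lit 76) (nat_lit 6787593691) (nat_lit 22) (nat_lit 5) (nat_lit 25) (nat_lit 5) (nat_lit 23) (nat_lit 4) (nat_lit 338) (nat_lit 277) (nat_lit 165)) (XT.lf (nat_lit 0) (nat_lit 16477919813) (nat_lit 76) (nat_lit 45691677027) (nat_lit 152) (nat_lit 9826193327) (nat_lit 21) (nat_lit 5) (nat_lit 22) (nat_lit 5) (nat_lit 23) (nat_lit 4) (nat_lit 339) (nat_lit 277) (nat_lit 164)))) (XT.nd (nat_lit 78) (nat_lit 152) (nat_lit 0) (XT.lf (nat_lit 0) (nat_lit 4236678473) (nat_lit 152) (nat_lit 23764244222) (nat_lit 76) (nat_lit 47000925817) (nat_lit 20) (nat_lit 5) (nat_lit 22) (nat_lit 5) (nat_lit 21) (nat_lit 5) (nat_lit 340) (nat_lit 277) (nat_lit 163)) (XT.nd (nat_lit 78) (nat_lit 0) (nat_lit 0) (XT.lf (nat_lit 0) (nat_lit 9653490000) (nat_lit 152) (nat_lit 9233357753) (nat_lit 228) (nat_lit 59265825965) (nat_lit 18) (nat_lit 5) (nat_lit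 20) (nat_lit 5) (nat_lit 21) (nat_lit 5) (nat_lit 341) (nat_lit 277) (nat_lit 162)) (XT.lf (nat_lit 0) (nat_lit 34610116391) (nat_lit 228) (nat_lit 36330646800) (nat_lit 76) (nat_lit 10510062932) (nat_lit 18) (nat_lit 5) (nat_lit 21) (nat_lit 5) (nat_lit 19) (nat_lit 4) (nat_lit 342) (nat_lit 277) (nat_lit 161))))) (XT.nd (nat_lit 234) (nat_lit 304) (nat_lit 0) (XT.nd (nat_lit 78) (nat_lit 76) (nat_lit 0) (XT.lf (nat_lit 0) (nat_lit 51205950570) (nat_lit 228) (nat_lit 2658847384) (nat_lit 76) (nat_lit 31046499623) (nat_lit 18) (nat_lit 5) (nat_lit 21) (nat_lit 5) (nat_lit 19) (nat_lit 4) (nat_lit 343) (nat_lit 277) (nat_lit 160)) (XT.nd (nat_lit 78) (nat_lit 0) (nat_lit 0) (XT.lf (nat_lit 0) (nat_lit 33335640580) (nat_lit 76) (nat_lit 35609909488) (nat_lit 152) (nat_lit 19589826655) (nat_lit 17) (nat_lit 5) (nat_lit 18) (nat_lit 5) (nat_lit 19) (nat_lit 4) (nat_lit 344) (nat_lit 277) (nat_lit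 159)) (XT.lf (nat_lit 0) (nat_lit 71174341969) (nat_lit 76) (nat_lit 16418890705) (nat_lit 152) (nat_lit 4746797225) (nat_lit 17) (nat_lit 5) (nat_lit 18) (nat_lit 5) (nat_lit 19) (nat_lit 4) (nat_lit 345) (nat_lit 277) (nat_lit 158)))) (XT.nd (nat_lit 156) (nat_lit 76) (nat_lit 0) (XT.nd (nat_lit 78) (nat_lit 0) (nat_lit 0) (XT.lf (nat_lit 0) (nat_lit 10800835821) (nat_lit 228) (nat_lit 81623088008) (nat_lit 76) (nat_lit 3902650839) (nat_lit 14) (nat_lit 5) (nat_lit 17) (nat_lit 5) (nat_lit 15) (nat_lit 4) (nat_lit 346) (nat_lit 277) (nat_lit 157)) (XT.lf (nat_lit 0) (nat_lit 27408464390) (nat_lit 228) (nat_lit 47923774835) (nat_lit 76) (nat_lit 25167376753) (nat_lit 14) (nat_lit 5) (nat_lit 17) (nat_lit 5) (nat_lit 15) (nat_lit 4) (nat_lit 347) (nat_lit 277) (nat_lit 156))) (XT.nd (nat_lit 78) (nat_lit 76) (nat_lit 0) (XT.lf (nat_lit 0) (nat_lit 44840867877) (nat_lit 228) (nat_lit 12549493681)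 (nat_lit 76) (nat_lit 47491118646) (nat_lit 14) (nat_lit 5) (nat_lit 17) (nat_lit 5) (nat_lit 15) (nat_lit 4) (nat_lit 348) (nat_lit 277) (nat_lit 155)) (XT.lf (nat_lit 0) (nat_lit 25073249334) (nat_lit 76) (nat_lit 38307322081) (nat_lit 152) (nat_lit 46094798362) (nat_lit 13) (nat_lit 5) (nat_lit 14) (nat_lit 5) (nat_lit 15) (nat_lit 4) (nat_lit 349) (nat_lit 277) (nat_lit 154)))))) (XT.nd (nat_lit 468) (nat_lit 76) (nat_lit 0) (XT.nd (nat_lit 234) (nat_lit 76) (nat_lit 0) (XT.nd (nat_lit 78) (nat_lit 152) (nat_lit 0) (XT.lf (nat_lit 0) (nat_lit 64830128343) (nat_lit 76) (nat_lit 18141143577) (nat_lit 152) (nat_lit 31323963964) (nat_lit 13) (nat_lit 5) (nat_lit 14) (nat_lit 5) (nat_lit 15) (nat_lit 4) (nat_lit 350) (nat_lit 277) (nat_lit 153)) (XT.nd (nat_lit 78) (nat_lit 152) (nat_lit 0) (XT.lf (nat_lit 0) (nat_lit 103565700721) (nat_lit 152) (nat_lit 12819323430) (nat_lit 0) (nat_lit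 2970347642) (nat_lit 13) (nat_lit 5) (nat_lit 15) (nat_lit 4) (nat_lit 13) (nat_lit 4) (nat_lit 351) (nat_lit 277) (nat_lit 152)) (XT.lf (nat_lit 0) (nat_lit 943451559) (nat_lit 152) (nat_lit 98690927749) (nat_lit 76) (nat_lit 25021018324) (nat_lit 11) (nat_lit 5) (nat_lit 13) (nat_lit 5) (nat_lit 12) (nat_lit 4) (nat_lit 352) (nat_lit 277) (nat_lit 151)))) (XT.nd (nat_lit 78) (nat_lit 76) (nat_lit 0) (XT.lf (nat_lit 0) (nat_lit 18318351271) (nat_lit 152) (nat_lit 63430149274) (nat_lit 76) (nat_lit 48463285970) (nat_lit 11) (nat_lit 5) (nat_lit 13) (nat_lit 5) (nat_lit 12) (nat_lit 4) (nat_lit 353) (nat_lit 277) (nat_lit 150)) (XT.nd (nat_lit 78) (nat_lit 76) (nat_lit 0) (XT.lf (nat_lit 0) (nat_lit 36557586229) (nat_lit 152) (nat_lit 26414281299) (nat_lit 76) (nat_lit 73074261531) (nat_lit 11) (nat_lit 5) (nat_lit 13) (nat_lit 5) (nat_lit 12) (nat_lit 4) (nat_lit 354) (nat_lit 277) (nat_lit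 149)) (XT.lf (nat_lit 0) (nat_lit 12692485300) (nat_lit 76) (nat_lit 43134105817) (nat_lit 152) (nat_lit 86342065200) (nat_lit 10) (nat_lit 5) (nat_lit 11) (nat_lit 5) (nat_lit 12) (nat_lit 4) (nat_lit 355) (nat_lit 277) (nat_lit 148))))) (XT.nd (nat_lit 34554) (nat_lit 0) (nat_lit 13832) (XT.nd (nat_lit 78) (nat_lit 76) (nat_lit 0) (XT.lf (nat_lit 0) (nat_lit 54299217159) (nat_lit 76) (nat_lit 22027670358) (nat_lit 152) (nat_lit 72262388931) (nat_lit 10) (nat_lit 5) (nat_lit 11) (nat_lit 5) (nat_lit 12) (nat_lit 4) (nat_lit 356) (nat_lit 277) (nat_lit 147)) (XT.nd (nat_lit 156) (nat_lit 76) (nat_lit 0) (XT.lf (nat_lit 0) (nat_lit 97849580981) (nat_lit 152) (nat_lit 57353022478) (nat_lit 0) (nat_lit 128404320) (nat_lit 10) (nat_lit 5) (nat_lit 12) (nat_lit 4) (nat_lit 10) (nat_lit 4) (nat_lit 357) (nat_lit 277) (nat_lit 146)) (XT.lf (nat_lit 0) (nat_lit 22109326350) (nat_lit 76) (nat_lit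 122724987638) (nat_lit 76) (nat_lit 24988561177) (nat_lit 9) (nat_lit 4) (nat_lit 10) (nat_lit 5) (nat_lit 10) (nat_lit 4) (nat_lit 359) (nat_lit 277) (nat_lit 144)))) (XT.nd (nat_lit 156) (nat_lit 1064) (nat_lit 0) (XT.nd (nat_lit 78) (nat_lit 0) (nat_lit 0) (XT.lf (nat_lit 0) (nat_lit 2206162341) (nat_lit 0) (nat_lit 2206162341) (nat_lit 988) (nat_lit 741171114) (nat_lit 205) (nat_lit 5) (nat_lit 205) (nat_lit 3) (nat_lit 218) (nat_lit 3) (nat_lit 278) (nat_lit 278) (nat_lit 224)) (XT.lf (nat_lit 76) (nat_lit 1738753828) (nat_lit 0) (nat_lit 8355977279) (nat_lit 1064) (nat_lit 436751650) (nat_lit 206) (nat_lit 5) (nat_lit 205) (nat_lit 5) (nat_lit 219) (nat_lit 5) (nat_lit 279) (nat_lit 278) (nat_lit 223))) (XT.nd (nat_lit 78) (nat_lit 0) (nat_lit 76) (XT.lf (nat_lit 0) (nat_lit 688501853) (nat_lit 1064) (nat_lit 976682780) (nat_lit 1140) (nat_lit 9100720302) (nat_lit 191) (nat_lit 5)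 (nat_lit 205) (nat_lit 5) (nat_lit 206) (nat_lit 5) (nat_lit 280) (nat_lit 278) (nat_lit 222)) (XT.lf (nat_lit 0) (nat_lit 1921684291) (nat_lit 1064) (nat_lit 3730524080) (nat_lit 1140) (nat_lit 5357989754) (nat_lit 192) (nat_lit 5) (nat_lit 206) (nat_lit 5) (nat_lit 207) (nat_lit 5) (nat_lit 281) (nat_lit 278) (nat_lit 221))))))))
noncomputable def xc81 : XT := (XT.nd (nat_lit 2028) (nat_lit 4256) (nat_lit 0) (XT.nd (nat_lit 1014) (nat_lit 4712) (nat_lit 0) (XT.nd (nat_lit 468) (nat_lit 3724) (nat_lit 0) (XT.nd (nat_lit 234) (nat_lit 0) (nat_lit 152) (XT.nd (nat_lit 78) (nat_lit 0) (nat_lit 0) (XT.lf (nat_lit 0) (nat_lit 3244093517) (nat_lit 1064) (nat_lit 6538682508) (nat_lit 1140) (nat_lit 1483198728) (nat_lit 193) (nat_lit 5) (nat_lit 207) (nat_lit 5) (nat_lit 208) (nat_lit 5) (nat_lit 282) (nat_lit 278) (nat_lit 220)) (XT.nd (nat_lit 78) (nat_lit 0) (nat_lit 76) (XT.lf (nat_lit 76)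 (nat_lit 2098905683) (nat_lit 0) (nat_lit 2592911543) (nat_lit 1140) (nat_lit 6841038415) (nat_lit 194) (nat_lit 5) (nat_lit 193) (nat_lit 5) (nat_lit 208) (nat_lit 5) (nat_lit 283) (nat_lit 278) (nat_lit 219)) (XT.lf (nat_lit 0) (nat_lit 6273268565) (nat_lit 1064) (nat_lit 592380733) (nat_lit 1140) (nat_lit 4945677935) (nat_lit 194) (nat_lit 5) (nat_lit 208) (nat_lit 5) (nat_lit 209) (nat_lit 5) (nat_lit 284) (nat_lit 278) (nat_lit 218)))) (XT.nd (nat_lit 78) (nat_lit 0) (nat_lit 0) (XT.lf (nat_lit 0) (nat_lit 8000630252) (nat_lit 1064) (nat_lit 3309180382) (nat_lit 1140) (nat_lit 791989400) (nat_lit 195) (nat_lit 5) (nat_lit 209) (nat_lit 5) (nat_lit 210) (nat_lit 5) (nat_lit 285) (nat_lit 278) (nat_lit 217)) (XT.nd (nat_lit 78) (nat_lit 0) (nat_lit 76) (XT.lf (nat_lit 76) (nat_lit 6268726931) (nat_lit 0) (nat_lit 3631914339) (nat_lit 1140) (nat_lit 2503645590) (nat_lit 196) (nat_lit 5)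 (nat_lit 195) (nat_lit 5) (nat_lit 210) (nat_lit 5) (nat_lit 286) (nat_lit 278) (nat_lit 216)) (XT.lf (nat_lit 76) (nat_lit 3664973303) (nat_lit 0) (nat_lit 8295583042) (nat_lit 1140) (nat_lit 759469649) (nat_lit 197) (nat_lit 5) (nat_lit 196) (nat_lit 5) (nat_lit 211) (nat_lit 5) (nat_lit 287) (nat_lit 278) (nat_lit 215))))) (XT.nd (nat_lit 234) (nat_lit 1748) (nat_lit 0) (XT.nd (nat_lit 78) (nat_lit 1064) (nat_lit 0) (XT.lf (nat_lit 76) (nat_lit 968054465) (nat_lit 0) (nat_lit 146764795) (nat_lit 1216) (nat_lit 11934578486) (nat_lit 182) (nat_lit 5) (nat_lit 181) (nat_lit 5) (nat_lit 197) (nat_lit 5) (nat_lit 288) (nat_lit 278) (nat_lit 214)) (XT.nd (nat_lit 78) (nat_lit 1140) (nat_lit 0) (XT.lf (nat_lit 0) (nat_lit 3198221329) (nat_lit 1140) (nat_lit 1838059764) (nat_lit 76) (nat_lit 8354864343) (nat_lit 182) (nat_lit 5) (nat_lit 197) (nat_lit 5) (nat_lit 183) (nat_lit 5) (nat_lit 289)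 (nat_lit 278) (nat_lit 213)) (XT.lf (nat_lit 0) (nat_lit 5467253919) (nat_lit 1216) (nat_lit 4726784833) (nat_lit 76) (nat_lit 3553560905) (nat_lit 167) (nat_lit 5) (nat_lit 183) (nat_lit 5) (nat_lit 168) (nat_lit 5) (nat_lit 290) (nat_lit 278) (nat_lit 212)))) (XT.nd (nat_lit 156) (nat_lit 608) (nat_lit 0) (XT.nd (nat_lit 78) (nat_lit 608) (nat_lit 0) (XT.lf (nat_lit 0) (nat_lit 6376925673) (nat_lit 532) (nat_lit 1563846053) (nat_lit 608) (nat_lit 6178433817) (nat_lit 160) (nat_lit 5) (nat_lit 167) (nat_lit 5) (nat_lit 168) (nat_lit 5) (nat_lit 291) (nat_lit 278) (nat_lit 211)) (XT.lf (nat_lit 0) (nat_lit 3587682178) (nat_lit 608) (nat_lit 7067387230) (nat_lit 684) (nat_lit 3850866300) (nat_lit 152) (nat_lit 5) (nat_lit 160) (nat_lit 5) (nat_lit 161) (nat_lit 5) (nat_lit 292) (nat_lit 278) (nat_lit 210))) (XT.nd (nat_lit 78) (nat_lit 76) (nat_lit 0) (XT.lf (nat_lit 0) (nat_lit 677835616)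 (nat_lit 532) (nat_lit 12911516972) (nat_lit 608) (nat_lit 1320176064) (nat_lit 145) (nat_lit 5) (nat_lit 152) (nat_lit 5) (nat_lit 153) (nat_lit 5) (nat_lit 293) (nat_lit 278) (nat_lit 209)) (XT.lf (nat_lit 0) (nat_lit 1459735303) (nat_lit 608) (nat_lit 2369634209) (nat_lit 76) (nat_lit 11499133124) (nat_lit 144) (nat_lit 5) (nat_lit 152) (nat_lit 5) (nat_lit 145) (nat_lit 5) (nat_lit 294) (nat_lit 278) (nat_lit 208)))))) (XT.nd (nat_lit 468) (nat_lit 2280) (nat_lit 0) (XT.nd (nat_lit 234) (nat_lit 988) (nat_lit 0) (XT.nd (nat_lit 78) (nat_lit 912) (nat_lit 0) (XT.lf (nat_lit 0) (nat_lit 4471618236) (nat_lit 608) (nat_lit 5584709294) (nat_lit 76) (nat_lit 5708145172) (nat_lit 137) (nat_lit 5) (nat_lit 145) (nat_lit 5) (nat_lit 138) (nat_lit 5) (nat_lit 295) (nat_lit 278) (nat_lit 207)) (XT.nd (nat_lit 78) (nat_lit 456) (nat_lit 0) (XT.lf (nat_lit 0) (nat_lit 7252665825) (nat_lit 456) (nat_lit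 481394665) (nat_lit 532) (nat_lit 8485227441) (nat_lit 131) (nat_lit 5) (nat_lit 137) (nat_lit 5) (nat_lit 138) (nat_lit 5) (nat_lit 296) (nat_lit 278) (nat_lit 206)) (XT.lf (nat_lit 0) (nat_lit 4106447354) (nat_lit 456) (nat_lit 7210919762) (nat_lit 532) (nat_lit 5374787978) (nat_lit 125) (nat_lit 5) (nat_lit 131) (nat_lit 5) (nat_lit 132) (nat_lit 5) (nat_lit 297) (nat_lit 278) (nat_lit 205)))) (XT.nd (nat_lit 78) (nat_lit 532) (nat_lit 0) (XT.lf (nat_lit 0) (nat_lit 783302737) (nat_lit 456) (nat_lit 14397825121) (nat_lit 532) (nat_lit 2004540465) (nat_lit 119) (nat_lit 5) (nat_lit 125) (nat_lit 5) (nat_lit 126) (nat_lit 5) (nat_lit 298) (nat_lit 278) (nat_lit 204)) (XT.nd (nat_lit 78) (nat_lit 456) (nat_lit 0) (XT.lf (nat_lit 0) (nat_lit 1678068115) (nat_lit 532) (nat_lit 2739190965) (nat_lit 76) (nat_lit 13280980348) (nat_lit 118) (nat_lit 5) (nat_lit 125) (nat_lit 5) (nat_lit 119) (nat_lit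 5) (nat_lit 299) (nat_lit 278) (nat_lit 203)) (XT.lf (nat_lit 0) (nat_lit 5648155141) (nat_lit 532) (nat_lit 6508564087) (nat_lit 76) (nat_lit 6074816733) (nat_lit 112) (nat_lit 5) (nat_lit 119) (nat_lit 5) (nat_lit 113) (nat_lit 5) (nat_lit 300) (nat_lit 278) (nat_lit 202))))) (XT.nd (nat_lit 234) (nat_lit 1140) (nat_lit 0) (XT.nd (nat_lit 78) (nat_lit 760) (nat_lit 0) (XT.lf (nat_lit 0) (nat_lit 8258694997) (nat_lit 380) (nat_lit 1683093244) (nat_lit 456) (nat_lit 8845992527) (nat_lit 107) (nat_lit 5) (nat_lit 112) (nat_lit 5) (nat_lit 113) (nat_lit 5) (nat_lit 301) (nat_lit 278) (nat_lit 201)) (XT.nd (nat_lit 78) (nat_lit 380) (nat_lit 0) (XT.lf (nat_lit 0) (nat_lit 4495752791) (nat_lit 380) (nat_lit 10128309540) (nat_lit 456) (nat_lit 4742589750) (nat_lit 102) (nat_lit 5) (nat_lit 107) (nat_lit 5) (nat_lit 108) (nat_lit 5) (nat_lit 302) (nat_lit 278) (nat_lit 200)) (XT.lf (nat_lit 0)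 (nat_lit 473189656) (nat_lit 380) (nat_lit 19179241654) (nat_lit 456) (nat_lit 318707685) (nat_lit 97) (nat_lit 5) (nat_lit 102) (nat_lit 5) (nat_lit 103) (nat_lit 5) (nat_lit 303) (nat_lit 278) (nat_lit 199)))) (XT.nd (nat_lit 156) (nat_lit 684) (nat_lit 0) (XT.nd (nat_lit 78) (nat_lit 380) (nat_lit 0) (XT.lf (nat_lit 0) (nat_lit 4473863425) (nat_lit 456) (nat_lit 3883044552) (nat_lit 76) (nat_lit 12240766209) (nat_lit 96) (nat_lit 5) (nat_lit 102) (nat_lit 5) (nat_lit 97) (nat_lit 5) (nat_lit 304) (nat_lit 278) (nat_lit 198)) (XT.lf (nat_lit 0) (nat_lit 9628237997) (nat_lit 456) (nat_lit 8555028811) (nat_lit 76) (nat_lit 3068339391) (nat_lit 91) (nat_lit 5) (nat_lit 97) (nat_lit 5) (nat_lit 92) (nat_lit 5) (nat_lit 305) (nat_lit 278) (nat_lit 197))) (XT.nd (nat_lit 78) (nat_lit 380) (nat_lit 0) (XT.lf (nat_lit 0) (nat_lit 8296465906) (nat_lit 304) (nat_lit 6925396571) (nat_lit 380) (nat_lit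 6710952791) (nat_lit 87) (nat_lit 5) (nat_lit 91) (nat_lit 5) (nat_lit 92) (nat_lit 5) (nat_lit 306) (nat_lit 278) (nat_lit 196)) (XT.lf (nat_lit 0) (nat_lit 3514789032) (nat_lit 380) (nat_lit 17727970173) (nat_lit 456) (nat_lit 1400922996) (nat_lit 82) (nat_lit 5) (nat_lit 87) (nat_lit 5) (nat_lit 88) (nat_lit 5) (nat_lit 307) (nat_lit 278) (nat_lit 195))))))) (XT.nd (nat_lit 1014) (nat_lit 1748) (nat_lit 0) (XT.nd (nat_lit 468) (nat_lit 1216) (nat_lit 0) (XT.nd (nat_lit 234) (nat_lit 608) (nat_lit 0) (XT.nd (nat_lit 78) (nat_lit 608) (nat_lit 0) (XT.lf (nat_lit 0) (nat_lit 4283163013) (nat_lit 456) (nat_lit 1718192909) (nat_lit 76) (nat_lit 17381855443) (nat_lit 81) (nat_lit 5) (nat_lit 87) (nat_lit 5) (nat_lit 82) (nat_lit 5) (nat_lit 308) (nat_lit 278) (nat_lit 194)) (XT.nd (nat_lit 78) (nat_lit 304) (nat_lit 0) (XT.lf (nat_lit 0) (nat_lit 10426447218) (nat_lit 380) (nat_lit 7367656538)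 (nat_lit 76) (nat_lit 6359100238) (nat_lit 77) (nat_lit 5) (nat_lit 82) (nat_lit 5) (nat_lit 78) (nat_lit 5) (nat_lit 309) (nat_lit 278) (nat_lit 193)) (XT.lf (nat_lit 0) (nat_lit 11423695999) (nat_lit 304) (nat_lit 5621481421) (nat_lit 380) (nat_lit 7911491463) (nat_lit 73) (nat_lit 5) (nat_lit 77) (nat_lit 5) (nat_lit 78) (nat_lit 5) (nat_lit 310) (nat_lit 278) (nat_lit 192)))) (XT.nd (nat_lit 78) (nat_lit 380) (nat_lit 0) (XT.lf (nat_lit 0) (nat_lit 5521293151) (nat_lit 228) (nat_lit 18652697234) (nat_lit 304) (nat_lit 1620962324) (nat_lit 70) (nat_lit 5) (nat_lit 73) (nat_lit 5) (nat_lit 74) (nat_lit 5) (nat_lit 311) (nat_lit 278) (nat_lit 191)) (XT.nd (nat_lit 78) (nat_lit 304) (nat_lit 0) (XT.lf (nat_lit 0) (nat_lit 5065379132) (nat_lit 304) (nat_lit 992955426) (nat_lit 76) (nat_lit 20610041125) (nat_lit 69) (nat_lit 5) (nat_lit 73) (nat_lit 5) (nat_lit 70) (nat_lit 5) (nat_lit 312)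 (nat_lit 278) (nat_lit 190)) (XT.lf (nat_lit 0) (nat_lit 12294003621) (nat_lit 380) (nat_lit 8058726827) (nat_lit 76) (nat_lit 7225030866) (nat_lit 65) (nat_lit 5) (nat_lit 70) (nat_lit 5) (nat_lit 66) (nat_lit 5) (nat_lit 313) (nat_lit 278) (nat_lit 189))))) (XT.nd (nat_lit 234) (nat_lit 684) (nat_lit 0) (XT.nd (nat_lit 78) (nat_lit 304) (nat_lit 0) (XT.lf (nat_lit 0) (nat_lit 12706293196) (nat_lit 228) (nat_lit 7353935040) (nat_lit 304) (nat_lit 8467119764) (nat_lit 62) (nat_lit 5) (nat_lit 65) (nat_lit 5) (nat_lit 66) (nat_lit 5) (nat_lit 314) (nat_lit 278) (nat_lit 188)) (XT.nd (nat_lit 78) (nat_lit 76) (nat_lit 0) (XT.lf (nat_lit 0) (nat_lit 5170422563) (nat_lit 228) (nat_lit 23221405298) (nat_lit 304) (nat_lit 1127290282) (nat_lit 59) (nat_lit 5) (nat_lit 62) (nat_lit 5) (nat_lit 63) (nat_lit 5) (nat_lit 315) (nat_lit 278) (nat_lit 187)) (XT.lf (nat_lit 0) (nat_lit 6673309843) (nat_lit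 304) (nat_lit 3177392375) (nat_lit 76) (nat_lit 20701226925) (nat_lit 58) (nat_lit 5) (nat_lit 62) (nat_lit 5) (nat_lit 59) (nat_lit 5) (nat_lit 316) (nat_lit 278) (nat_lit 186)))) (XT.nd (nat_lit 156) (nat_lit 228) (nat_lit 0) (XT.nd (nat_lit 78) (nat_lit 228) (nat_lit 0) (XT.lf (nat_lit 0) (nat_lit 15053689504) (nat_lit 304) (nat_lit 12277118714) (nat_lit 76) (nat_lit 4298859852) (nat_lit 55) (nat_lit 5) (nat_lit 59) (nat_lit 5) (nat_lit 56) (nat_lit 5) (nat_lit 317) (nat_lit 278) (nat_lit 185)) (XT.lf (nat_lit 0) (nat_lit 10394822676) (nat_lit 228) (nat_lit 13675354924) (nat_lit 304) (nat_lit 8684617109) (nat_lit 52) (nat_lit 5) (nat_lit 55) (nat_lit 5) (nat_lit 56) (nat_lit 5) (nat_lit 318) (nat_lit 278) (nat_lit 184))) (XT.nd (nat_lit 78) (nat_lit 76) (nat_lit 0) (XT.lf (nat_lit 0) (nat_lit 503682769) (nat_lit 152) (nat_lit 33157798873) (nat_lit 228) (nat_lit 270989102) (nat_lit 50)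 (nat_lit 5) (nat_lit 52) (nat_lit 5) (nat_lit 53) (nat_lit 5) (nat_lit 319) (nat_lit 278) (nat_lit 183)) (XT.lf (nat_lit 0) (nat_lit 8752185390) (nat_lit 228) (nat_lit 10429664057) (nat_lit 76) (nat_lit 15974044513) (nat_lit 49) (nat_lit 5) (nat_lit 52) (nat_lit 5) (nat_lit 50) (nat_lit 5) (nat_lit 320) (nat_lit 278) (nat_lit 182)))))) (XT.nd (nat_lit 546) (nat_lit 684) (nat_lit 0) (XT.nd (nat_lit 234) (nat_lit 608) (nat_lit 0) (XT.nd (nat_lit 78) (nat_lit 228) (nat_lit 0) (XT.lf (nat_lit 0) (nat_lit 13967627029) (nat_lit 228) (nat_lit 4373778372) (nat_lit 304) (nat_lit 18095398986) (nat_lit 46) (nat_lit 5) (nat_lit 49) (nat_lit 5) (nat_lit 50) (nat_lit 5) (nat_lit 321) (nat_lit 278) (nat_lit 181)) (XT.nd (nat_lit 78) (nat_lit 76) (nat_lit 0) (XT.lf (nat_lit 0) (nat_lit 1932081799) (nat_lit 152) (nat_lit 26698979289) (nat_lit 228) (nat_lit 9144080752) (nat_lit 44) (nat_lit 5) (nat_lit 46)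 (nat_lit 5) (nat_lit 47) (nat_lit 5) (nat_lit 322) (nat_lit 278) (nat_lit 180)) (XT.lf (nat_lit 0) (nat_lit 514426626) (nat_lit 228) (nat_lit 11220390155) (nat_lit 76) (nat_lit 27437577975) (nat_lit 43) (nat_lit 5) (nat_lit 46) (nat_lit 5) (nat_lit 44) (nat_lit 5) (nat_lit 323) (nat_lit 278) (nat_lit 179)))) (XT.nd (nat_lit 156) (nat_lit 380) (nat_lit 0) (XT.nd (nat_lit 78) (nat_lit 0) (nat_lit 0) (XT.lf (nat_lit 0) (nat_lit 10638838921) (nat_lit 304) (nat_lit 25863214942) (nat_lit 76) (nat_lit 4129587059) (nat_lit 40) (nat_lit 5) (nat_lit 44) (nat_lit 5) (nat_lit 41) (nat_lit 5) (nat_lit 324) (nat_lit 278) (nat_lit 178)) (XT.lf (nat_lit 0) (nat_lit 21492385834) (nat_lit 304) (nat_lit 8534969) (nat_lit 76) (nat_lit 20656250183) (nat_lit 40) (nat_lit 5) (nat_lit 44) (nat_lit 5) (nat_lit 41) (nat_lit 5) (nat_lit 325) (nat_lit 278) (nat_lit 177))) (XT.nd (nat_lit 78) (nat_lit 228) (nat_lit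 0) (XT.lf (nat_lit 0) (nat_lit 27659840382) (nat_lit 152) (nat_lit 5483056858) (nat_lit 228) (nat_lit 10608460279) (nat_lit 38) (nat_lit 5) (nat_lit 40) (nat_lit 5) (nat_lit 41) (nat_lit 5) (nat_lit 326) (nat_lit 278) (nat_lit 176)) (XT.lf (nat_lit 0) (nat_lit 160856674) (nat_lit 228) (nat_lit 34039461033) (nat_lit 76) (nat_lit 11218681428) (nat_lit 35) (nat_lit 5) (nat_lit 38) (nat_lit 5) (nat_lit 36) (nat_lit 5) (nat_lit 327) (nat_lit 278) (nat_lit 175))))) (XT.nd (nat_lit 234) (nat_lit 380) (nat_lit 0) (XT.nd (nat_lit 78) (nat_lit 304) (nat_lit 0) (XT.lf (nat_lit 0) (nat_lit 11462871535) (nat_lit 228) (nat_lit 6786914502) (nat_lit 76) (nat_lit 28910684382) (nat_lit 35) (nat_lit 5) (nat_lit 38) (nat_lit 5) (nat_lit 36) (nat_lit 5) (nat_lit 328) (nat_lit 278) (nat_lit 174)) (XT.nd (nat_lit 78) (nat_lit 152) (nat_lit 0) (XT.lf (nat_lit 0) (nat_lit 22244989764) (nat_lit 152) (nat_lit 1288317370)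 (nat_lit 228) (nat_lit 25449615732) (nat_lit 33) (nat_lit 5) (nat_lit 35) (nat_lit 5) (nat_lit 36) (nat_lit 5) (nat_lit 329) (nat_lit 278) (nat_lit 173)) (XT.lf (nat_lit 0) (nat_lit 1835119741) (nat_lit 152) (nat_lit 34608916165) (nat_lit 228) (nat_lit 14445365741) (nat_lit 31) (nat_lit 5) (nat_lit 33) (nat_lit 5) (nat_lit 34) (nat_lit 5) (nat_lit 330) (nat_lit 278) (nat_lit 172)))) (XT.nd (nat_lit 156) (nat_lit 152) (nat_lit 0) (XT.nd (nat_lit 78) (nat_lit 228) (nat_lit 0) (XT.lf (nat_lit 0) (nat_lit 32365697449) (nat_lit 152) (nat_lit 17912812724) (nat_lit 228) (nat_lit 2604354451) (nat_lit 31) (nat_lit 5) (nat_lit 33) (nat_lit 5) (nat_lit 34) (nat_lit 5) (nat_lit 331) (nat_lit 278) (nat_lit 171)) (XT.lf (nat_lit 0) (nat_lit 9522119837) (nat_lit 152) (nat_lit 196788705) (nat_lit 228) (nat_lit 45251804017) (nat_lit 28) (nat_lit 5) (nat_lit 30) (nat_lit 5) (nat_lit 31) (nat_lit 5) (nat_lit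 332) (nat_lit 278) (nat_lit 170))) (XT.nd (nat_lit 78) (nat_lit 152) (nat_lit 0) (XT.lf (nat_lit 0) (nat_lit 22985897142) (nat_lit 228) (nat_lit 15885572727) (nat_lit 76) (nat_lit 18279272465) (nat_lit 28) (nat_lit 5) (nat_lit 31) (nat_lit 5) (nat_lit 29) (nat_lit 5) (nat_lit 333) (nat_lit 278) (nat_lit 169)) (XT.lf (nat_lit 0) (nat_lit 15439873217) (nat_lit 152) (nat_lit 21617914321) (nat_lit 228) (nat_lit 22377744963) (nat_lit 26) (nat_lit 5) (nat_lit 28) (nat_lit 5) (nat_lit 29) (nat_lit 5) (nat_lit 334) (nat_lit 278) (nat_lit 168))))))))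
noncomputable def xc82 : XT := (XT.nd (nat_lit 36426) (nat_lit 0) (nat_lit 5852) (XT.nd (nat_lit 1014) (nat_lit 304) (nat_lit 0) (XT.nd (nat_lit 468) (nat_lit 532) (nat_lit 0) (XT.nd (nat_lit 234) (nat_lit 228) (nat_lit 0) (XT.nd (nat_lit 78) (nat_lit 152) (nat_lit 0) (XT.lf (nat_lit 0) (nat_lit 48648957583) (nat_lit 152) (nat_lit 3339272642) (nat_lit 228) (nat_lit 9841688433) (nat_lit 26) (nat_lit 5) (nat_lit 28) (nat_lit 5) (nat_lit 29) (nat_lit 5) (nat_lit 335) (nat_lit 278) (nat_lit 167)) (XT.nd (nat_lit 78) (nat_lit 0) (nat_lit 0) (XT.lf (nat_lit 0) (nat_lit 3590157777) (nat_lit 152) (nat_lit 44983029569) (nat_lit 76) (nat_lit 15759869998) (nat_lit 24) (nat_lit 5) (nat_lit 26) (nat_lit 5) (nat_lit 25) (nat_lit 5) (nat_lit 336) (nat_lit 278) (nat_lit 166)) (XT.lf (nat_lit 0) (nat_lit 17654640073) (nat_lit 152) (nat_lit 13322510894) (nat_lit 76) (nat_lit 35976345765) (nat_lit 24) (nat_lit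 5) (nat_lit 26) (nat_lit 5) (nat_lit 25) (nat_lit 5) (nat_lit 337) (nat_lit 278) (nat_lit 165)))) (XT.nd (nat_lit 78) (nat_lit 76) (nat_lit 0) (XT.lf (nat_lit 0) (nat_lit 20304042674) (nat_lit 152) (nat_lit 12305820614) (nat_lit 228) (nat_lit 37089473671) (nat_lit 22) (nat_lit 5) (nat_lit 24) (nat_lit 5) (nat_lit 25) (nat_lit 5) (nat_lit 338) (nat_lit 278) (nat_lit 164)) (XT.nd (nat_lit 78) (nat_lit 76) (nat_lit 0) (XT.lf (nat_lit 0) (nat_lit 48514043667) (nat_lit 228) (nat_lit 16772543243) (nat_lit 76) (nat_lit 7289850571) (nat_lit 22) (nat_lit 5) (nat_lit 25) (nat_lit 5) (nat_lit 23) (nat_lit 4) (nat_lit 339) (nat_lit 278) (nat_lit 163)) (XT.lf (nat_lit 0) (nat_lit 17689960737) (nat_lit 76) (nat_lit 47810611790) (nat_lit 152) (nat_lit 10088210284) (nat_lit 21) (nat_lit 5) (nat_lit 22) (nat_lit 5) (nat_lit 23) (nat_lit 4) (nat_lit 340) (nat_lit 278) (nat_lit 162))))) (XT.nd (nat_lit 234)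 (nat_lit 304) (nat_lit 0) (XT.nd (nat_lit 78) (nat_lit 152) (nat_lit 0) (XT.lf (nat_lit 0) (nat_lit 4662625142) (nat_lit 152) (nat_lit 24578420533) (nat_lit 76) (nat_lit 49504359086) (nat_lit 20) (nat_lit 5) (nat_lit 22) (nat_lit 5) (nat_lit 21) (nat_lit 5) (nat_lit 341) (nat_lit 278) (nat_lit 161)) (XT.nd (nat_lit 78) (nat_lit 0) (nat_lit 0) (XT.lf (nat_lit 0) (nat_lit 10499478736) (nat_lit 152) (nat_lit 9539120704) (nat_lit 228) (nat_lit 62015378261) (nat_lit 18) (nat_lit 5) (nat_lit 20) (nat_lit 5) (nat_lit 21) (nat_lit 5) (nat_lit 342) (nat_lit 278) (nat_lit 160)) (XT.lf (nat_lit 0) (nat_lit 36539582165) (nat_lit 228) (nat_lit 37796564583) (nat_lit 76) (nat_lit 11181149574) (nat_lit 18) (nat_lit 5) (nat_lit 21) (nat_lit 5) (nat_lit 19) (nat_lit 4) (nat_lit 343) (nat_lit 278) (nat_lit 159)))) (XT.nd (nat_lit 156) (nat_lit 228) (nat_lit 0) (XT.nd (nat_lit 78) (nat_lit 76) (nat_lit 0) (XT.lf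 (nat_lit 0) (nat_lit 53955733770) (nat_lit 228) (nat_lit 2457871127) (nat_lit 76) (nat_lit 32737475552) (nat_lit 18) (nat_lit 5) (nat_lit 21) (nat_lit 5) (nat_lit 19) (nat_lit 4) (nat_lit 344) (nat_lit 278) (nat_lit 158)) (XT.lf (nat_lit 0) (nat_lit 35326769525) (nat_lit 76) (nat_lit 37249638412) (nat_lit 152) (nat_lit 20380137415) (nat_lit 17) (nat_lit 5) (nat_lit 18) (nat_lit 5) (nat_lit 19) (nat_lit 4) (nat_lit 345) (nat_lit 278) (nat_lit 157))) (XT.nd (nat_lit 78) (nat_lit 228) (nat_lit 0) (XT.lf (nat_lit 0) (nat_lit 75041960892) (nat_lit 76) (nat_lit 17105771859) (nat_lit 152) (nat_lit 4803965113) (nat_lit 17) (nat_lit 5) (nat_lit 18) (nat_lit 5) (nat_lit 19) (nat_lit 4) (nat_lit 346) (nat_lit 278) (nat_lit 156)) (XT.lf (nat_lit 0) (nat_lit 11513312002) (nat_lit 228) (nat_lit 85396752806) (nat_lit 76) (nat_lit 4227583844) (nat_lit 14) (nat_lit 5) (nat_lit 17) (nat_lit 5) (nat_lit 15)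 (nat_lit 4) (nat_lit 347) (nat_lit 278) (nat_lit 155)))))) (XT.nd (nat_lit 468) (nat_lit 76) (nat_lit 0) (XT.nd (nat_lit 234) (nat_lit 152) (nat_lit 0) (XT.nd (nat_lit 78) (nat_lit 76) (nat_lit 0) (XT.lf (nat_lit 0) (nat_lit 28943110839) (nat_lit 228) (nat_lit 50027116335) (nat_lit 76) (nat_lit 26549365079) (nat_lit 14) (nat_lit 5) (nat_lit 17) (nat_lit 5) (nat_lit 15) (nat_lit 4) (nat_lit 348) (nat_lit 278) (nat_lit 154)) (XT.nd (nat_lit 78) (nat_lit 76) (nat_lit 0) (XT.lf (nat_lit 0) (nat_lit 47239314346) (nat_lit 228) (nat_lit 12898066231) (nat_lit 76) (nat_lit 49983407425) (nat_lit 14) (nat_lit 5) (nat_lit 17) (nat_lit 5) (nat_lit 15) (nat_lit 4) (nat_lit 349) (nat_lit 278) (nat_lit 153)) (XT.lf (nat_lit 0) (nat_lit 26597819261) (nat_lit 76) (nat_lit 40103340163) (nat_lit 152) (nat_lit 48243361468) (nat_lit 13) (nat_lit 5) (nat_lit 14) (nat_lit 5) (nat_lit 15) (nat_lit 4) (nat_lit 350)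 (nat_lit 278) (nat_lit 152)))) (XT.nd (nat_lit 78) (nat_lit 152) (nat_lit 0) (XT.lf (nat_lit 0) (nat_lit 68329641866) (nat_lit 76) (nat_lit 18934535972) (nat_lit 152) (nat_lit 32741422342) (nat_lit 13) (nat_lit 5) (nat_lit 14) (nat_lit 5) (nat_lit 15) (nat_lit 4) (nat_lit 351) (nat_lit 278) (nat_lit 151)) (XT.nd (nat_lit 78) (nat_lit 152) (nat_lit 0) (XT.lf (nat_lit 0) (nat_lit 108882495222) (nat_lit 152) (nat_lit 13211421041) (nat_lit 0) (nat_lit 3225004809) (nat_lit 13) (nat_lit 5) (nat_lit 15) (nat_lit 4) (nat_lit 13) (nat_lit 4) (nat_lit 352) (nat_lit 278) (nat_lit 150)) (XT.lf (nat_lit 0) (nat_lit 1126250488) (nat_lit 152) (nat_lit 103380980909) (nat_lit 76) (nat_lit 26376808122) (nat_lit 11) (nat_lit 5) (nat_lit 13) (nat_lit 5) (nat_lit 12) (nat_lit 4) (nat_lit 353) (nat_lit 278) (nat_lit 149))))) (XT.nd (nat_lit 234) (nat_lit 0) (nat_lit 0) (XT.nd (nat_lit 78) (nat_lit 76) (nat_lit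 0) (XT.lf (nat_lit 0) (nat_lit 19363436788) (nat_lit 152) (nat_lit 66368806046) (nat_lit 76) (nat_lit 50986201585) (nat_lit 11) (nat_lit 5) (nat_lit 13) (nat_lit 5) (nat_lit 12) (nat_lit 4) (nat_lit 354) (nat_lit 278) (nat_lit 148)) (XT.nd (nat_lit 78) (nat_lit 76) (nat_lit 0) (XT.lf (nat_lit 0) (nat_lit 38508482639) (nat_lit 152) (nat_lit 27513232800) (nat_lit 76) (nat_lit 76822975861) (nat_lit 11) (nat_lit 5) (nat_lit 13) (nat_lit 5) (nat_lit 12) (nat_lit 4) (nat_lit 355) (nat_lit 278) (nat_lit 147)) (XT.lf (nat_lit 0) (nat_lit 13542515350) (nat_lit 76) (nat_lit 45194635077) (nat_lit 152) (nat_lit 90536310672) (nat_lit 10) (nat_lit 5) (nat_lit 11) (nat_lit 5) (nat_lit 12) (nat_lit 4) (nat_lit 356) (nat_lit 278) (nat_lit 146)))) (XT.nd (nat_lit 34554) (nat_lit 0) (nat_lit 13680) (XT.nd (nat_lit 156) (nat_lit 0) (nat_lit 0) (XT.lf (nat_lit 0) (nat_lit 57219326383) (nat_lit 76) (nat_lit 23037457656)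 (nat_lit 152) (nat_lit 75758500960) (nat_lit 10) (nat_lit 5) (nat_lit 11) (nat_lit 5) (nat_lit 12) (nat_lit 4) (nat_lit 357) (nat_lit 278) (nat_lit 145)) (XT.lf (nat_lit 0) (nat_lit 126804163803) (nat_lit 152) (nat_lit 19549718216) (nat_lit 0) (nat_lit 24166392400) (nat_lit 10) (nat_lit 5) (nat_lit 12) (nat_lit 4) (nat_lit 10) (nat_lit 4) (nat_lit 359) (nat_lit 278) (nat_lit 143))) (XT.nd (nat_lit 78) (nat_lit 0) (nat_lit 76) (XT.lf (nat_lit 0) (nat_lit 244249421) (nat_lit 1140) (nat_lit 2567651204) (nat_lit 1140) (nat_lit 2567651204) (nat_lit 190) (nat_lit 3) (nat_lit 205) (nat_lit 3) (nat_lit 205) (nat_lit 5) (nat_lit 279) (nat_lit 279) (nat_lit 222)) (XT.lf (nat_lit 0) (nat_lit 1469881314) (nat_lit 1064) (nat_lit 8148828757) (nat_lit 1140) (nat_lit 1378799342) (nat_lit 191) (nat_lit 5) (nat_lit 205) (nat_lit 5) (nat_lit 206) (nat_lit 5) (nat_lit 280) (nat_lit 279) (nat_lit 221)))))))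 (XT.nd (nat_lit 1014) (nat_lit 4940) (nat_lit 0) (XT.nd (nat_lit 468) (nat_lit 2964) (nat_lit 0) (XT.nd (nat_lit 234) (nat_lit 0) (nat_lit 152) (XT.nd (nat_lit 78) (nat_lit 0) (nat_lit 76) (XT.lf (nat_lit 76) (nat_lit 2268663) (nat_lit 0) (nat_lit 2548796109) (nat_lit 1140) (nat_lit 8695344537) (nat_lit 192) (nat_lit 5) (nat_lit 191) (nat_lit 5) (nat_lit 206) (nat_lit 5) (nat_lit 281) (nat_lit 279) (nat_lit 220)) (XT.nd (nat_lit 78) (nat_lit 0) (nat_lit 76) (XT.lf (nat_lit 0) (nat_lit 3761195157) (nat_lit 1064) (nat_lit 2856210468) (nat_lit 1140) (nat_lit 4888193189) (nat_lit 192) (nat_lit 5) (nat_lit 206) (nat_lit 5) (nat_lit 207) (nat_lit 5) (nat_lit 282) (nat_lit 279) (nat_lit 219)) (XT.lf (nat_lit 0) (nat_lit 5070458740) (nat_lit 1064) (nat_lit 5776252534) (nat_lit 1140) (nat_lit 929964623) (nat_lit 193) (nat_lit 5) (nat_lit 207) (nat_lit 5) (nat_lit 208) (nat_lit 5) (nat_lit 283) (nat_lit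 279) (nat_lit 218)))) (XT.nd (nat_lit 78) (nat_lit 0) (nat_lit 76) (XT.lf (nat_lit 76) (nat_lit 3261988664) (nat_lit 0) (nat_lit 3259505697) (nat_lit 1140) (nat_lit 5537605972) (nat_lit 194) (nat_lit 5) (nat_lit 193) (nat_lit 5) (nat_lit 208) (nat_lit 5) (nat_lit 284) (nat_lit 279) (nat_lit 217)) (XT.nd (nat_lit 78) (nat_lit 0) (nat_lit 76) (XT.lf (nat_lit 76) (nat_lit 447394572) (nat_lit 0) (nat_lit 7658052141) (nat_lit 1140) (nat_lit 4248467150) (nat_lit 195) (nat_lit 5) (nat_lit 194) (nat_lit 5) (nat_lit 209) (nat_lit 5) (nat_lit 285) (nat_lit 279) (nat_lit 216)) (XT.lf (nat_lit 0) (nat_lit 9848619778) (nat_lit 1064) (nat_lit 2394455713) (nat_lit 1140) (nat_lit 418066957) (nat_lit 195) (nat_lit 5) (nat_lit 209) (nat_lit 5) (nat_lit 210) (nat_lit 5) (nat_lit 286) (nat_lit 279) (nat_lit 215))))) (XT.nd (nat_lit 234) (nat_lit 2204) (nat_lit 0) (XT.nd (nat_lit 78) (nat_lit 1064) (nat_lit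 0) (XT.lf (nat_lit 76) (nat_lit 7631383718) (nat_lit 0) (nat_lit 4153382997) (nat_lit 1140) (nat_lit 1195862786) (nat_lit 196) (nat_lit 5) (nat_lit 195) (nat_lit 5) (nat_lit 210) (nat_lit 5) (nat_lit 287) (nat_lit 279) (nat_lit 214)) (XT.nd (nat_lit 78) (nat_lit 0) (nat_lit 0) (XT.lf (nat_lit 0) (nat_lit 563411571) (nat_lit 1140) (nat_lit 8406400343) (nat_lit 1216) (nat_lit 4344053337) (nat_lit 181) (nat_lit 5) (nat_lit 196) (nat_lit 5) (nat_lit 197) (nat_lit 5) (nat_lit 288) (nat_lit 279) (nat_lit 213)) (XT.lf (nat_lit 76) (nat_lit 2078844838) (nat_lit 0) (nat_lit 383159815) (nat_lit 1216) (nat_lit 11199183269) (nat_lit 182) (nat_lit 5) (nat_lit 181) (nat_lit 5) (nat_lit 197) (nat_lit 5) (nat_lit 289) (nat_lit 279) (nat_lit 212)))) (XT.nd (nat_lit 156) (nat_lit 1140) (nat_lit 0) (XT.nd (nat_lit 78) (nat_lit 1140) (nat_lit 0) (XT.lf (nat_lit 0) (nat_lit 4585982487) (nat_lit 1140) (nat_lit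 877325425) (nat_lit 76) (nat_lit 8558715123) (nat_lit 182) (nat_lit 5) (nat_lit 197) (nat_lit 5) (nat_lit 183) (nat_lit 5) (nat_lit 290) (nat_lit 279) (nat_lit 211)) (XT.lf (nat_lit 0) (nat_lit 6918319464) (nat_lit 1216) (nat_lit 3902021009) (nat_lit 76) (nat_lit 3577551731) (nat_lit 167) (nat_lit 5) (nat_lit 183) (nat_lit 5) (nat_lit 168) (nat_lit 5) (nat_lit 291) (nat_lit 279) (nat_lit 210))) (XT.nd (nat_lit 78) (nat_lit 608) (nat_lit 0) (XT.lf (nat_lit 0) (nat_lit 7726458716) (nat_lit 532) (nat_lit 1742880949) (nat_lit 608) (nat_lit 5320207559) (nat_lit 160) (nat_lit 5) (nat_lit 167) (nat_lit 5) (nat_lit 168) (nat_lit 5) (nat_lit 292) (nat_lit 279) (nat_lit 209)) (XT.lf (nat_lit 0) (nat_lit 4803747788) (nat_lit 608) (nat_lit 7470764109) (nat_lit 684) (nat_lit 2922526864) (nat_lit 152) (nat_lit 5) (nat_lit 160) (nat_lit 5) (nat_lit 161) (nat_lit 5) (nat_lit 293) (nat_lit 279) (nat_lit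 208)))))) (XT.nd (nat_lit 546) (nat_lit 2356) (nat_lit 0) (XT.nd (nat_lit 234) (nat_lit 1444) (nat_lit 0) (XT.nd (nat_lit 78) (nat_lit 608) (nat_lit 0) (XT.lf (nat_lit 0) (nat_lit 1752373130) (nat_lit 532) (nat_lit 13560934520) (nat_lit 608) (nat_lit 308845609) (nat_lit 145) (nat_lit 5) (nat_lit 152) (nat_lit 5) (nat_lit 153) (nat_lit 5) (nat_lit 294) (nat_lit 279) (nat_lit 207)) (XT.nd (nat_lit 78) (nat_lit 532) (nat_lit 0) (XT.lf (nat_lit 0) (nat_lit 2538737772) (nat_lit 608) (nat_lit 1475600191) (nat_lit 76) (nat_lit 12049006464) (nat_lit 144) (nat_lit 5) (nat_lit 152) (nat_lit 5) (nat_lit 145) (nat_lit 5) (nat_lit 295) (nat_lit 279) (nat_lit 206)) (XT.lf (nat_lit 0) (nat_lit 5662916381) (nat_lit 608) (nat_lit 4850242712) (nat_lit 76) (nat_lit 6009169663) (nat_lit 137) (nat_lit 5) (nat_lit 145) (nat_lit 5) (nat_lit 138) (nat_lit 5) (nat_lit 296) (nat_lit 279) (nat_lit 205)))) (XT.nd (nat_lit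 156) (nat_lit 532) (nat_lit 0) (XT.nd (nat_lit 78) (nat_lit 456) (nat_lit 0) (XT.lf (nat_lit 0) (nat_lit 8599943598) (nat_lit 456) (nat_lit 451920382) (nat_lit 532) (nat_lit 7949182891) (nat_lit 131) (nat_lit 5) (nat_lit 137) (nat_lit 5) (nat_lit 138) (nat_lit 5) (nat_lit 297) (nat_lit 279) (nat_lit 204)) (XT.lf (nat_lit 0) (nat_lit 5296057911) (nat_lit 456) (nat_lit 7483891677) (nat_lit 532) (nat_lit 4718699987) (nat_lit 125) (nat_lit 5) (nat_lit 131) (nat_lit 5) (nat_lit 132) (nat_lit 5) (nat_lit 298) (nat_lit 279) (nat_lit 203))) (XT.nd (nat_lit 78) (nat_lit 76) (nat_lit 0) (XT.lf (nat_lit 0) (nat_lit 1805031367) (nat_lit 456) (nat_lit 14999413058) (nat_lit 532) (nat_lit 1213425365) (nat_lit 119) (nat_lit 5) (nat_lit 125) (nat_lit 5) (nat_lit 126) (nat_lit 5) (nat_lit 299) (nat_lit 279) (nat_lit 202)) (XT.lf (nat_lit 0) (nat_lit 2594303737) (nat_lit 532) (nat_lit 1922743545) (nat_lit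 76) (nat_lit 14040066981) (nat_lit 118) (nat_lit 5) (nat_lit 125) (nat_lit 5) (nat_lit 119) (nat_lit 5) (nat_lit 300) (nat_lit 279) (nat_lit 201))))) (XT.nd (nat_lit 234) (nat_lit 1140) (nat_lit 0) (XT.nd (nat_lit 78) (nat_lit 760) (nat_lit 0) (XT.lf (nat_lit 0) (nat_lit 6733358836) (nat_lit 532) (nat_lit 5884046772) (nat_lit 76) (nat_lit 6500606922) (nat_lit 112) (nat_lit 5) (nat_lit 119) (nat_lit 5) (nat_lit 113) (nat_lit 5) (nat_lit 301) (nat_lit 279) (nat_lit 200)) (XT.nd (nat_lit 78) (nat_lit 380) (nat_lit 0) (XT.lf (nat_lit 0) (nat_lit 9594345268) (nat_lit 380) (nat_lit 1617969651) (nat_lit 456) (nat_lit 8490683816) (nat_lit 107) (nat_lit 5) (nat_lit 112) (nat_lit 5) (nat_lit 113) (nat_lit 5) (nat_lit 302) (nat_lit 279) (nat_lit 199)) (XT.lf (nat_lit 0) (nat_lit 5638890888) (nat_lit 380) (nat_lit 10463175848) (nat_lit 456) (nat_lit 4209592049) (nat_lit 102) (nat_lit 5) (nat_lit 107)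 (nat_lit 5) (nat_lit 108) (nat_lit 5) (nat_lit 303) (nat_lit 279) (nat_lit 198)))) (XT.nd (nat_lit 156) (nat_lit 684) (nat_lit 0) (XT.nd (nat_lit 78) (nat_lit 0) (nat_lit 0) (XT.lf (nat_lit 0) (nat_lit 401479209) (nat_lit 456) (nat_lit 19541175680) (nat_lit 76) (nat_lit 1004397405) (nat_lit 96) (nat_lit 5) (nat_lit 102) (nat_lit 5) (nat_lit 97) (nat_lit 5) (nat_lit 304) (nat_lit 279) (nat_lit 197)) (XT.lf (nat_lit 0) (nat_lit 5392406299) (nat_lit 456) (nat_lit 3192954557) (nat_lit 76) (nat_lit 13020539748) (nat_lit 96) (nat_lit 5) (nat_lit 102) (nat_lit 5) (nat_lit 97) (nat_lit 5) (nat_lit 305) (nat_lit 279) (nat_lit 196))) (XT.nd (nat_lit 78) (nat_lit 304) (nat_lit 0) (XT.lf (nat_lit 0) (nat_lit 10781483356) (nat_lit 456) (nat_lit 8104826584) (nat_lit 76) (nat_lit 3406948420) (nat_lit 91) (nat_lit 5) (nat_lit 97) (nat_lit 5) (nat_lit 92) (nat_lit 5) (nat_lit 306) (nat_lit 279) (nat_lit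 195)) (XT.lf (nat_lit 0) (nat_lit 9564076503) (nat_lit 304) (nat_lit 7066918002) (nat_lit 380) (nat_lit 6378284033) (nat_lit 87) (nat_lit 5) (nat_lit 91) (nat_lit 5) (nat_lit 92) (nat_lit 5) (nat_lit 307) (nat_lit 279) (nat_lit 194))))))))
noncomputable def xc83 : XT := (XT.nd (nat_lit 2028) (nat_lit 1292) (nat_lit 0) (XT.nd (nat_lit 1014) (nat_lit 1596) (nat_lit 0) (XT.nd (nat_lit 468) (nat_lit 1520) (nat_lit 0) (XT.nd (nat_lit 234) (nat_lit 608) (nat_lit 0) (XT.nd (nat_lit 78) (nat_lit 380) (nat_lit 0) (XT.lf (nat_lit 0) (nat_lit 4536558169) (nat_lit 380) (nat_lit 18395525903) (nat_lit 456) (nat_lit 824265367) (nat_lit 82) (nat_lit 5) (nat_lit 87) (nat_lit 5) (nat_lit 88) (nat_lit 5) (nat_lit 308) (nat_lit 279) (nat_lit 193)) (XT.nd (nat_lit 78) (nat_lit 304) (nat_lit 0) (XT.lf (nat_lit 0) (nat_lit 5101210933) (nat_lit 456) (nat_lit 985692989) (nat_lit 76) (nat_lit 18446702900) (nat_lit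 81) (nat_lit 5) (nat_lit 87) (nat_lit 5) (nat_lit 82) (nat_lit 5) (nat_lit 309) (nat_lit 279) (nat_lit 192)) (XT.lf (nat_lit 0) (nat_lit 11532583798) (nat_lit 380) (nat_lit 6925028123) (nat_lit 76) (nat_lit 6885090305) (nat_lit 77) (nat_lit 5) (nat_lit 82) (nat_lit 5) (nat_lit 78) (nat_lit 5) (nat_lit 310) (nat_lit 279) (nat_lit 191)))) (XT.nd (nat_lit 78) (nat_lit 304) (nat_lit 0) (XT.lf (nat_lit 0) (nat_lit 12782644567) (nat_lit 304) (nat_lit 5679330116) (nat_lit 380) (nat_lit 7725003360) (nat_lit 73) (nat_lit 5) (nat_lit 77) (nat_lit 5) (nat_lit 78) (nat_lit 5) (nat_lit 311) (nat_lit 279) (nat_lit 190)) (XT.nd (nat_lit 78) (nat_lit 76) (nat_lit 0) (XT.lf (nat_lit 0) (nat_lit 6577478171) (nat_lit 228) (nat_lit 19352409937) (nat_lit 304) (nat_lit 1137836163) (nat_lit 70) (nat_lit 5) (nat_lit 73) (nat_lit 5) (nat_lit 74) (nat_lit 5) (nat_lit 312) (nat_lit 279) (nat_lit 189)) (XT.lf (nat_lit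 0) (nat_lit 5845472094) (nat_lit 304) (nat_lit 288628675) (nat_lit 76) (nat_lit 21851371061) (nat_lit 69) (nat_lit 5) (nat_lit 73) (nat_lit 5) (nat_lit 70) (nat_lit 5) (nat_lit 313) (nat_lit 279) (nat_lit 188))))) (XT.nd (nat_lit 234) (nat_lit 760) (nat_lit 0) (XT.nd (nat_lit 78) (nat_lit 456) (nat_lit 0) (XT.lf (nat_lit 0) (nat_lit 13419630097) (nat_lit 380) (nat_lit 7715693843) (nat_lit 76) (nat_lit 7805504396) (nat_lit 65) (nat_lit 5) (nat_lit 70) (nat_lit 5) (nat_lit 66) (nat_lit 5) (nat_lit 314) (nat_lit 279) (nat_lit 187)) (XT.nd (nat_lit 78) (nat_lit 228) (nat_lit 0) (XT.lf (nat_lit 0) (nat_lit 14066194120) (nat_lit 228) (nat_lit 7490607165) (nat_lit 304) (nat_lit 8381637499) (nat_lit 62) (nat_lit 5) (nat_lit 65) (nat_lit 5) (nat_lit 66) (nat_lit 5) (nat_lit 315) (nat_lit 279) (nat_lit 186)) (XT.lf (nat_lit 0) (nat_lit 6145441458) (nat_lit 228) (nat_lit 24145038914) (nat_lit 304)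 (nat_lit 689774449) (nat_lit 59) (nat_lit 5) (nat_lit 62) (nat_lit 5) (nat_lit 63) (nat_lit 5) (nat_lit 316) (nat_lit 279) (nat_lit 185)))) (XT.nd (nat_lit 156) (nat_lit 456) (nat_lit 0) (XT.nd (nat_lit 78) (nat_lit 228) (nat_lit 0) (XT.lf (nat_lit 0) (nat_lit 7468159110) (nat_lit 304) (nat_lit 2644291026) (nat_lit 76) (nat_lit 21952826271) (nat_lit 58) (nat_lit 5) (nat_lit 62) (nat_lit 5) (nat_lit 59) (nat_lit 5) (nat_lit 317) (nat_lit 279) (nat_lit 184)) (XT.lf (nat_lit 0) (nat_lit 16254234398) (nat_lit 304) (nat_lit 12207251196) (nat_lit 76) (nat_lit 4735836085) (nat_lit 55) (nat_lit 5) (nat_lit 59) (nat_lit 5) (nat_lit 56) (nat_lit 5) (nat_lit 318) (nat_lit 279) (nat_lit 183))) (XT.nd (nat_lit 78) (nat_lit 228) (nat_lit 0) (XT.lf (nat_lit 0) (nat_lit 11578688468) (nat_lit 228) (nat_lit 14127915716) (nat_lit 304) (nat_lit 8672567508) (nat_lit 52) (nat_lit 5) (nat_lit 55) (nat_lit 5) (nat_lit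 56) (nat_lit 5) (nat_lit 319) (nat_lit 279) (nat_lit 182)) (XT.lf (nat_lit 0) (nat_lit 146254020) (nat_lit 228) (nat_lit 34432773581) (nat_lit 76) (nat_lit 1037044583) (nat_lit 49) (nat_lit 5) (nat_lit 52) (nat_lit 5) (nat_lit 50) (nat_lit 5) (nat_lit 320) (nat_lit 279) (nat_lit 181)))))) (XT.nd (nat_lit 468) (nat_lit 760) (nat_lit 0) (XT.nd (nat_lit 234) (nat_lit 456) (nat_lit 0) (XT.nd (nat_lit 78) (nat_lit 380) (nat_lit 0) (XT.lf (nat_lit 0) (nat_lit 9594785332) (nat_lit 228) (nat_lit 10318081894) (nat_lit 76) (nat_lit 16988341288) (nat_lit 49) (nat_lit 5) (nat_lit 52) (nat_lit 5) (nat_lit 50) (nat_lit 5) (nat_lit 321) (nat_lit 279) (nat_lit 180)) (XT.nd (nat_lit 78) (nat_lit 152) (nat_lit 0) (XT.lf (nat_lit 0) (nat_lit 15280927056) (nat_lit 228) (nat_lit 4369164993) (nat_lit 304) (nat_lit 18596489377) (nat_lit 46) (nat_lit 5) (nat_lit 49) (nat_lit 5) (nat_lit 50) (nat_lit 5) (nat_lit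 322) (nat_lit 279) (nat_lit 179)) (XT.lf (nat_lit 0) (nat_lit 2635610446) (nat_lit 152) (nat_lit 27807850107) (nat_lit 228) (nat_lit 9208713281) (nat_lit 44) (nat_lit 5) (nat_lit 46) (nat_lit 5) (nat_lit 47) (nat_lit 5) (nat_lit 323) (nat_lit 279) (nat_lit 178)))) (XT.nd (nat_lit 78) (nat_lit 380) (nat_lit 0) (XT.lf (nat_lit 0) (nat_lit 906729885) (nat_lit 228) (nat_lit 11195813456) (nat_lit 76) (nat_lit 29017196576) (nat_lit 43) (nat_lit 5) (nat_lit 46) (nat_lit 5) (nat_lit 44) (nat_lit 5) (nat_lit 324) (nat_lit 279) (nat_lit 177)) (XT.nd (nat_lit 78) (nat_lit 152) (nat_lit 0) (XT.lf (nat_lit 0) (nat_lit 11527433447) (nat_lit 304) (nat_lit 26578722938) (nat_lit 76) (nat_lit 4546103083) (nat_lit 40) (nat_lit 5) (nat_lit 44) (nat_lit 5) (nat_lit 41) (nat_lit 5) (nat_lit 325) (nat_lit 279) (nat_lit 176)) (XT.lf (nat_lit 0) (nat_lit 551954376) (nat_lit 152) (nat_lit 22360025596) (nat_lit 228)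 (nat_lit 21342448962) (nat_lit 38) (nat_lit 5) (nat_lit 40) (nat_lit 5) (nat_lit 41) (nat_lit 5) (nat_lit 326) (nat_lit 279) (nat_lit 175))))) (XT.nd (nat_lit 234) (nat_lit 532) (nat_lit 0) (XT.nd (nat_lit 78) (nat_lit 228) (nat_lit 0) (XT.lf (nat_lit 0) (nat_lit 29577208069) (nat_lit 152) (nat_lit 5551465184) (nat_lit 228) (nat_lit 10800153823) (nat_lit 38) (nat_lit 5) (nat_lit 40) (nat_lit 5) (nat_lit 41) (nat_lit 5) (nat_lit 327) (nat_lit 279) (nat_lit 174)) (XT.nd (nat_lit 78) (nat_lit 0) (nat_lit 0) (XT.lf (nat_lit 0) (nat_lit 492221614) (nat_lit 228) (nat_lit 35207832294) (nat_lit 76) (nat_lit 11979974173) (nat_lit 35) (nat_lit 5) (nat_lit 38) (nat_lit 5) (nat_lit 36) (nat_lit 5) (nat_lit 328) (nat_lit 279) (nat_lit 173)) (XT.lf (nat_lit 0) (nat_lit 12343940928) (nat_lit 228) (nat_lit 6618068046) (nat_lit 76) (nat_lit 30547036386) (nat_lit 35) (nat_lit 5) (nat_lit 38) (nat_lit 5) (nat_lit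 36) (nat_lit 5) (nat_lit 329) (nat_lit 279) (nat_lit 172)))) (XT.nd (nat_lit 156) (nat_lit 228) (nat_lit 0) (XT.nd (nat_lit 78) (nat_lit 152) (nat_lit 0) (XT.lf (nat_lit 0) (nat_lit 23850864206) (nat_lit 152) (nat_lit 1157115991) (nat_lit 228) (nat_lit 26414947813) (nat_lit 33) (nat_lit 5) (nat_lit 35) (nat_lit 5) (nat_lit 36) (nat_lit 5) (nat_lit 330) (nat_lit 279) (nat_lit 171)) (XT.lf (nat_lit 0) (nat_lit 2413403505) (nat_lit 152) (nat_lit 36143118713) (nat_lit 228) (nat_lit 14868449769) (nat_lit 31) (nat_lit 5) (nat_lit 33) (nat_lit 5) (nat_lit 34) (nat_lit 5) (nat_lit 331) (nat_lit 279) (nat_lit 170))) (XT.nd (nat_lit 78) (nat_lit 228) (nat_lit 0) (XT.lf (nat_lit 0) (nat_lit 34447342108) (nat_lit 152) (nat_lit 18621555017) (nat_lit 228) (nat_lit 2449634784) (nat_lit 31) (nat_lit 5) (nat_lit 33) (nat_lit 5) (nat_lit 34) (nat_lit 5) (nat_lit 332) (nat_lit 279) (nat_lit 169)) (XT.lf (nat_lit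 0) (nat_lit 10453876005) (nat_lit 152) (nat_lit 21431509) (nat_lit 228) (nat_lit 47235658687) (nat_lit 28) (nat_lit 5) (nat_lit 30) (nat_lit 5) (nat_lit 31) (nat_lit 5) (nat_lit 333) (nat_lit 279) (nat_lit 168))))))) (XT.nd (nat_lit 1014) (nat_lit 456) (nat_lit 0) (XT.nd (nat_lit 468) (nat_lit 380) (nat_lit 0) (XT.nd (nat_lit 234) (nat_lit 304) (nat_lit 0) (XT.nd (nat_lit 78) (nat_lit 152) (nat_lit 0) (XT.lf (nat_lit 0) (nat_lit 24394462254) (nat_lit 228) (nat_lit 16239706660) (nat_lit 76) (nat_lit 19366172067) (nat_lit 28) (nat_lit 5) (nat_lit 31) (nat_lit 5) (nat_lit 29) (nat_lit 5) (nat_lit 334) (nat_lit 279) (nat_lit 167)) (XT.nd (nat_lit 78) (nat_lit 0) (nat_lit 0) (XT.lf (nat_lit 0) (nat_lit 16639394922) (nat_lit 152) (nat_lit 22522315707) (nat_lit 228) (nat_lit 23237914761) (nat_lit 26) (nat_lit 5) (nat_lit 28) (nat_lit 5) (nat_lit 29) (nat_lit 5) (nat_lit 335) (nat_lit 279) (nat_lit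 166)) (XT.lf (nat_lit 0) (nat_lit 51488575028) (nat_lit 152) (nat_lit 3338146437) (nat_lit 228) (nat_lit 10087375282) (nat_lit 26) (nat_lit 5) (nat_lit 28) (nat_lit 5) (nat_lit 29) (nat_lit 5) (nat_lit 336) (nat_lit 279) (nat_lit 165)))) (XT.nd (nat_lit 78) (nat_lit 152) (nat_lit 0) (XT.lf (nat_lit 0) (nat_lit 4005198128) (nat_lit 152) (nat_lit 46826322253) (nat_lit 76) (nat_lit 16710989364) (nat_lit 24) (nat_lit 5) (nat_lit 26) (nat_lit 5) (nat_lit 25) (nat_lit 5) (nat_lit 337) (nat_lit 279) (nat_lit 164)) (XT.nd (nat_lit 78) (nat_lit 152) (nat_lit 0) (XT.lf (nat_lit 0) (nat_lit 18761688707) (nat_lit 152) (nat_lit 13602104254) (nat_lit 76) (nat_lit 37930521021) (nat_lit 24) (nat_lit 5) (nat_lit 26) (nat_lit 5) (nat_lit 25) (nat_lit 5) (nat_lit 338) (nat_lit 279) (nat_lit 163)) (XT.lf (nat_lit 0) (nat_lit 21694697125) (nat_lit 152) (nat_lit 12762903291) (nat_lit 228) (nat_lit 38720064083)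 (nat_lit 22) (nat_lit 5) (nat_lit 24) (nat_lit 5) (nat_lit 25) (nat_lit 5) (nat_lit 339) (nat_lit 279) (nat_lit 162))))) (XT.nd (nat_lit 234) (nat_lit 228) (nat_lit 0) (XT.nd (nat_lit 78) (nat_lit 152) (nat_lit 0) (XT.lf (nat_lit 0) (nat_lit 51148093241) (nat_lit 228) (nat_lit 17248721997) (nat_lit 76) (nat_lit 7802077517) (nat_lit 22) (nat_lit 5) (nat_lit 25) (nat_lit 5) (nat_lit 23) (nat_lit 4) (nat_lit 340) (nat_lit 279) (nat_lit 161)) (XT.nd (nat_lit 78) (nat_lit 76) (nat_lit 0) (XT.lf (nat_lit 0) (nat_lit 18926517671) (nat_lit 76) (nat_lit 50050893774) (nat_lit 152) (nat_lit 10384645552) (nat_lit 21) (nat_lit 5) (nat_lit 22) (nat_lit 5) (nat_lit 23) (nat_lit 4) (nat_lit 341) (nat_lit 279) (nat_lit 160)) (XT.lf (nat_lit 0) (nat_lit 5089962971) (nat_lit 152) (nat_lit 25468079972) (nat_lit 76) (nat_lit 52118703551) (nat_lit 20) (nat_lit 5) (nat_lit 22) (nat_lit 5) (nat_lit 21) (nat_lit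 5) (nat_lit 342) (nat_lit 279) (nat_lit 159)))) (XT.nd (nat_lit 156) (nat_lit 76) (nat_lit 0) (XT.nd (nat_lit 78) (nat_lit 0) (nat_lit 0) (XT.lf (nat_lit 0) (nat_lit 11353989395) (nat_lit 152) (nat_lit 9874666365) (nat_lit 228) (nat_lit 64922279599) (nat_lit 18) (nat_lit 5) (nat_lit 20) (nat_lit 5) (nat_lit 21) (nat_lit 5) (nat_lit 343) (nat_lit 279) (nat_lit 158)) (XT.lf (nat_lit 0) (nat_lit 38547023817) (nat_lit 228) (nat_lit 39368375073) (nat_lit 76) (nat_lit 11872255575) (nat_lit 18) (nat_lit 5) (nat_lit 21) (nat_lit 5) (nat_lit 19) (nat_lit 4) (nat_lit 344) (nat_lit 279) (nat_lit 157))) (XT.nd (nat_lit 78) (nat_lit 76) (nat_lit 0) (XT.lf (nat_lit 0) (nat_lit 56825389548) (nat_lit 228) (nat_lit 2277890647) (nat_lit 76) (nat_lit 34500109827) (nat_lit 18) (nat_lit 5) (nat_lit 21) (nat_lit 5) (nat_lit 19) (nat_lit 4) (nat_lit 345) (nat_lit 279) (nat_lit 156)) (XT.lf (nat_lit 0) (nat_lit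 37387300215) (nat_lit 76) (nat_lit 38984440921) (nat_lit 152) (nat_lit 21227551930) (nat_lit 17) (nat_lit 5) (nat_lit 18) (nat_lit 5) (nat_lit 19) (nat_lit 4) (nat_lit 346) (nat_lit 279) (nat_lit 155)))))) (XT.nd (nat_lit 546) (nat_lit 152) (nat_lit 0) (XT.nd (nat_lit 234) (nat_lit 76) (nat_lit 0) (XT.nd (nat_lit 78) (nat_lit 228) (nat_lit 0) (XT.lf (nat_lit 0) (nat_lit 79074241997) (nat_lit 76) (nat_lit 17839461013) (nat_lit 152) (nat_lit 4880742077) (nat_lit 17) (nat_lit 5) (nat_lit 18) (nat_lit 5) (nat_lit 19) (nat_lit 4) (nat_lit 347) (nat_lit 279) (nat_lit 154)) (XT.nd (nat_lit 78) (nat_lit 0) (nat_lit 0) (XT.lf (nat_lit 0) (nat_lit 12245380678) (nat_lit 228) (nat_lit 89387688312) (nat_lit 76) (nat_lit 4556695883) (nat_lit 14) (nat_lit 5) (nat_lit 17) (nat_lit 5) (nat_lit 15) (nat_lit 4) (nat_lit 348) (nat_lit 279) (nat_lit 153)) (XT.lf (nat_lit 0) (nat_lit 30539221690) (nat_lit 228)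 (nat_lit 52262851072) (nat_lit 76) (nat_lit 27988959854) (nat_lit 14) (nat_lit 5) (nat_lit 17) (nat_lit 5) (nat_lit 15) (nat_lit 4) (nat_lit 349) (nat_lit 279) (nat_lit 152)))) (XT.nd (nat_lit 156) (nat_lit 0) (nat_lit 0) (XT.nd (nat_lit 78) (nat_lit 76) (nat_lit 0) (XT.lf (nat_lit 0) (nat_lit 49743142263) (nat_lit 228) (nat_lit 13289997085) (nat_lit 76) (nat_lit 52589364959) (nat_lit 14) (nat_lit 5) (nat_lit 17) (nat_lit 5) (nat_lit 15) (nat_lit 4) (nat_lit 350) (nat_lit 279) (nat_lit 151)) (XT.lf (nat_lit 0) (nat_lit 28173431277) (nat_lit 76) (nat_lit 42000254996) (nat_lit 152) (nat_lit 50513872569) (nat_lit 13) (nat_lit 5) (nat_lit 14) (nat_lit 5) (nat_lit 15) (nat_lit 4) (nat_lit 351) (nat_lit 279) (nat_lit 150))) (XT.nd (nat_lit 78) (nat_lit 0) (nat_lit 0) (XT.lf (nat_lit 0) (nat_lit 71980144009) (nat_lit 76) (nat_lit 19778165462) (nat_lit 152) (nat_lit 34243582056) (nat_lit 13) (nat_lit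 5) (nat_lit 14) (nat_lit 5) (nat_lit 15) (nat_lit 4) (nat_lit 352) (nat_lit 279) (nat_lit 149)) (XT.lf (nat_lit 0) (nat_lit 114452252150) (nat_lit 152) (nat_lit 13646260972) (nat_lit 0) (nat_lit 3482526964) (nat_lit 13) (nat_lit 5) (nat_lit 15) (nat_lit 4) (nat_lit 13) (nat_lit 4) (nat_lit 353) (nat_lit 279) (nat_lit 148))))) (XT.nd (nat_lit 34866) (nat_lit 0) (nat_lit 13604) (XT.nd (nat_lit 78) (nat_lit 0) (nat_lit 0) (XT.lf (nat_lit 0) (nat_lit 1305580111) (nat_lit 152) (nat_lit 108328267391) (nat_lit 76) (nat_lit 27790649782) (nat_lit 11) (nat_lit 5) (nat_lit 13) (nat_lit 5) (nat_lit 12) (nat_lit 4) (nat_lit 354) (nat_lit 279) (nat_lit 147)) (XT.nd (nat_lit 78) (nat_lit 0) (nat_lit 0) (XT.lf (nat_lit 0) (nat_lit 20448767769) (nat_lit 152) (nat_lit 69476043906) (nat_lit 76) (nat_lit 53625989049) (nat_lit 11) (nat_lit 5) (nat_lit 13) (nat_lit 5) (nat_lit 12) (nat_lit 4) (nat_lit 355) (nat_lit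 279) (nat_lit 146)) (XT.lf (nat_lit 0) (nat_lit 40545486906) (nat_lit 152) (nat_lit 28687749257) (nat_lit 76) (nat_lit 80750293592) (nat_lit 11) (nat_lit 5) (nat_lit 13) (nat_lit 5) (nat_lit 12) (nat_lit 4) (nat_lit 356) (nat_lit 279) (nat_lit 145)))) (XT.nd (nat_lit 156) (nat_lit 0) (nat_lit 76) (XT.nd (nat_lit 78) (nat_lit 0) (nat_lit 76) (XT.lf (nat_lit 0) (nat_lit 1170106361) (nat_lit 1140) (nat_lit 2224770178) (nat_lit 1140) (nat_lit 2224770178) (nat_lit 190) (nat_lit 3) (nat_lit 205) (nat_lit 3) (nat_lit 205) (nat_lit 5) (nat_lit 280) (nat_lit 280) (nat_lit 220)) (XT.lf (nat_lit 0) (nat_lit 3284438255) (nat_lit 1064) (nat_lit 7577468945) (nat_lit 1140) (nat_lit 630439381) (nat_lit 191) (nat_lit 5) (nat_lit 205) (nat_lit 5) (nat_lit 206) (nat_lit 5) (nat_lit 281) (nat_lit 280) (nat_lit 219))) (XT.nd (nat_lit 78) (nat_lit 0) (nat_lit 76) (XT.lf (nat_lit 76) (nat_lit 953126206) (nat_lit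 0) (nat_lit 3392786058) (nat_lit 1140) (nat_lit 7410125904) (nat_lit 192) (nat_lit 5) (nat_lit 191) (nat_lit 5) (nat_lit 206) (nat_lit 5) (nat_lit 282) (nat_lit 280) (nat_lit 218)) (XT.lf (nat_lit 0) (nat_lit 5530594282) (nat_lit 1064) (nat_lit 2036808007) (nat_lit 1140) (nat_lit 4463490782) (nat_lit 192) (nat_lit 5) (nat_lit 206) (nat_lit 5) (nat_lit 207) (nat_lit 5) (nat_lit 283) (nat_lit 280) (nat_lit 217))))))))
noncomputable def xc84 : XT := (XT.nd (nat_lit 2028) (nat_lit 4256) (nat_lit 0) (XT.nd (nat_lit 1014) (nat_lit 4712) (nat_lit 0) (XT.nd (nat_lit 468) (nat_lit 2736) (nat_lit 0) (XT.nd (nat_lit 234) (nat_lit 988) (nat_lit 0) (XT.nd (nat_lit 78) (nat_lit 0) (nat_lit 0) (XT.lf (nat_lit 0) (nat_lit 6833424349) (nat_lit 1064) (nat_lit 5076979809) (nat_lit 1140) (nat_lit 407397964) (nat_lit 193) (nat_lit 5) (nat_lit 207) (nat_lit 5) (nat_lit 208) (nat_lit 5) (nat_lit 284) (nat_lit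 280) (nat_lit 216)) (XT.nd (nat_lit 78) (nat_lit 0) (nat_lit 76) (XT.lf (nat_lit 76) (nat_lit 4384850180) (nat_lit 0) (nat_lit 3909509169) (nat_lit 1140) (nat_lit 4321983445) (nat_lit 194) (nat_lit 5) (nat_lit 193) (nat_lit 5) (nat_lit 208) (nat_lit 5) (nat_lit 285) (nat_lit 280) (nat_lit 215)) (XT.lf (nat_lit 76) (nat_lit 1450964626) (nat_lit 0) (nat_lit 8442623138) (nat_lit 1140) (nat_lit 3034336831) (nat_lit 195) (nat_lit 5) (nat_lit 194) (nat_lit 5) (nat_lit 209) (nat_lit 5) (nat_lit 286) (nat_lit 280) (nat_lit 214)))) (XT.nd (nat_lit 78) (nat_lit 1140) (nat_lit 0) (XT.lf (nat_lit 0) (nat_lit 11654391369) (nat_lit 1064) (nat_lit 1534420051) (nat_lit 1140) (nat_lit 63893741) (nat_lit 195) (nat_lit 5) (nat_lit 209) (nat_lit 5) (nat_lit 210) (nat_lit 5) (nat_lit 287) (nat_lit 280) (nat_lit 213)) (XT.nd (nat_lit 78) (nat_lit 0) (nat_lit 76) (XT.lf (nat_lit 0) (nat_lit 43225376) (nat_lit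 1140) (nat_lit 4625665055) (nat_lit 1216) (nat_lit 8920964903) (nat_lit 180) (nat_lit 5) (nat_lit 195) (nat_lit 5) (nat_lit 196) (nat_lit 5) (nat_lit 288) (nat_lit 280) (nat_lit 212)) (XT.lf (nat_lit 0) (nat_lit 1811803207) (nat_lit 1140) (nat_lit 7834666417) (nat_lit 1216) (nat_lit 4294638089) (nat_lit 181) (nat_lit 5) (nat_lit 196) (nat_lit 5) (nat_lit 197) (nat_lit 5) (nat_lit 289) (nat_lit 280) (nat_lit 211))))) (XT.nd (nat_lit 234) (nat_lit 1748) (nat_lit 0) (XT.nd (nat_lit 78) (nat_lit 1064) (nat_lit 0) (XT.lf (nat_lit 76) (nat_lit 3146403995) (nat_lit 0) (nat_lit 610079059) (nat_lit 1216) (nat_lit 10550866569) (nat_lit 182) (nat_lit 5) (nat_lit 181) (nat_lit 5) (nat_lit 197) (nat_lit 5) (nat_lit 290) (nat_lit 280) (nat_lit 210)) (XT.nd (nat_lit 78) (nat_lit 0) (nat_lit 0) (XT.lf (nat_lit 0) (nat_lit 34249724) (nat_lit 1140) (nat_lit 5895057345) (nat_lit 1216) (nat_lit 8758723640)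 (nat_lit 167) (nat_lit 5) (nat_lit 182) (nat_lit 5) (nat_lit 183) (nat_lit 5) (nat_lit 291) (nat_lit 280) (nat_lit 209)) (XT.lf (nat_lit 0) (nat_lit 8332446638) (nat_lit 1216) (nat_lit 3134670299) (nat_lit 76) (nat_lit 3617030478) (nat_lit 167) (nat_lit 5) (nat_lit 183) (nat_lit 5) (nat_lit 168) (nat_lit 5) (nat_lit 292) (nat_lit 280) (nat_lit 208)))) (XT.nd (nat_lit 156) (nat_lit 608) (nat_lit 0) (XT.nd (nat_lit 78) (nat_lit 608) (nat_lit 0) (XT.lf (nat_lit 0) (nat_lit 9047644925) (nat_lit 532) (nat_lit 1921492201) (nat_lit 608) (nat_lit 4527580342) (nat_lit 160) (nat_lit 5) (nat_lit 167) (nat_lit 5) (nat_lit 168) (nat_lit 5) (nat_lit 293) (nat_lit 280) (nat_lit 207)) (XT.lf (nat_lit 0) (nat_lit 5984235858) (nat_lit 608) (nat_lit 7889660607) (nat_lit 684) (nat_lit 2051979510) (nat_lit 152) (nat_lit 5) (nat_lit 160) (nat_lit 5) (nat_lit 161) (nat_lit 5) (nat_lit 294) (nat_lit 280) (nat_lit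 206))) (XT.nd (nat_lit 78) (nat_lit 0) (nat_lit 0) (XT.lf (nat_lit 0) (nat_lit 640150329) (nat_lit 608) (nat_lit 13595851189) (nat_lit 76) (nat_lit 2137273551) (nat_lit 144) (nat_lit 5) (nat_lit 152) (nat_lit 5) (nat_lit 145) (nat_lit 5) (nat_lit 295) (nat_lit 280) (nat_lit 205)) (XT.lf (nat_lit 0) (nat_lit 3578160560) (nat_lit 608) (nat_lit 630998588) (nat_lit 76) (nat_lit 12628705481) (nat_lit 144) (nat_lit 5) (nat_lit 152) (nat_lit 5) (nat_lit 145) (nat_lit 5) (nat_lit 296) (nat_lit 280) (nat_lit 204)))))) (XT.nd (nat_lit 468) (nat_lit 2280) (nat_lit 0) (XT.nd (nat_lit 234) (nat_lit 988) (nat_lit 0) (XT.nd (nat_lit 78) (nat_lit 912) (nat_lit 0) (XT.lf (nat_lit 0) (nat_lit 6823810257) (nat_lit 608) (nat_lit 4173297209) (nat_lit 76) (nat_lit 6323793436) (nat_lit 137) (nat_lit 5) (nat_lit 145) (nat_lit 5) (nat_lit 138) (nat_lit 5) (nat_lit 297) (nat_lit 280) (nat_lit 203)) (XT.nd (nat_lit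 78) (nat_lit 456) (nat_lit 0) (XT.lf (nat_lit 0) (nat_lit 9923042348) (nat_lit 456) (nat_lit 425950399) (nat_lit 532) (nat_lit 7475616256) (nat_lit 131) (nat_lit 5) (nat_lit 137) (nat_lit 5) (nat_lit 138) (nat_lit 5) (nat_lit 298) (nat_lit 280) (nat_lit 202)) (XT.lf (nat_lit 0) (nat_lit 6453639209) (nat_lit 456) (nat_lit 7778653995) (nat_lit 532) (nat_lit 4115789281) (nat_lit 125) (nat_lit 5) (nat_lit 131) (nat_lit 5) (nat_lit 132) (nat_lit 5) (nat_lit 299) (nat_lit 280) (nat_lit 201)))) (XT.nd (nat_lit 78) (nat_lit 532) (nat_lit 0) (XT.lf (nat_lit 0) (nat_lit 2786496989) (nat_lit 456) (nat_lit 15642079114) (nat_lit 532) (nat_lit 465623052) (nat_lit 119) (nat_lit 5) (nat_lit 125) (nat_lit 5) (nat_lit 126) (nat_lit 5) (nat_lit 300) (nat_lit 280) (nat_lit 200)) (XT.nd (nat_lit 78) (nat_lit 456) (nat_lit 0) (XT.lf (nat_lit 0) (nat_lit 3478968781) (nat_lit 532) (nat_lit 1154112497) (nat_lit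 76) (nat_lit 14828272248) (nat_lit 118) (nat_lit 5) (nat_lit 125) (nat_lit 5) (nat_lit 119) (nat_lit 5) (nat_lit 301) (nat_lit 280) (nat_lit 199)) (XT.lf (nat_lit 0) (nat_lit 7798186358) (nat_lit 532) (nat_lit 5316620522) (nat_lit 76) (nat_lit 6936339628) (nat_lit 112) (nat_lit 5) (nat_lit 119) (nat_lit 5) (nat_lit 113) (nat_lit 5) (nat_lit 302) (nat_lit 280) (nat_lit 198))))) (XT.nd (nat_lit 234) (nat_lit 1064) (nat_lit 0) (XT.nd (nat_lit 78) (nat_lit 836) (nat_lit 0) (XT.lf (nat_lit 0) (nat_lit 10910992710) (nat_lit 380) (nat_lit 1563468355) (nat_lit 456) (nat_lit 8191763732) (nat_lit 107) (nat_lit 5) (nat_lit 112) (nat_lit 5) (nat_lit 113) (nat_lit 5) (nat_lit 303) (nat_lit 280) (nat_lit 197)) (XT.nd (nat_lit 78) (nat_lit 456) (nat_lit 0) (XT.lf (nat_lit 0) (nat_lit 6753806370) (nat_lit 380) (nat_lit 10830734488) (nat_lit 456) (nat_lit 3721543590) (nat_lit 102) (nat_lit 5) (nat_lit 107)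 (nat_lit 5) (nat_lit 108) (nat_lit 5) (nat_lit 304) (nat_lit 280) (nat_lit 196)) (XT.lf (nat_lit 0) (nat_lit 1083314790) (nat_lit 456) (nat_lit 19676099014) (nat_lit 76) (nat_lit 1214365111) (nat_lit 96) (nat_lit 5) (nat_lit 102) (nat_lit 5) (nat_lit 97) (nat_lit 5) (nat_lit 305) (nat_lit 280) (nat_lit 195)))) (XT.nd (nat_lit 156) (nat_lit 684) (nat_lit 0) (XT.nd (nat_lit 78) (nat_lit 380) (nat_lit 0) (XT.lf (nat_lit 0) (nat_lit 6292275777) (nat_lit 456) (nat_lit 2550568524) (nat_lit 76) (nat_lit 13823707531) (nat_lit 96) (nat_lit 5) (nat_lit 102) (nat_lit 5) (nat_lit 97) (nat_lit 5) (nat_lit 306) (nat_lit 280) (nat_lit 194)) (XT.lf (nat_lit 0) (nat_lit 11929930277) (nat_lit 456) (nat_lit 7713738056) (nat_lit 76) (nat_lit 3745270499) (nat_lit 91) (nat_lit 5) (nat_lit 97) (nat_lit 5) (nat_lit 92) (nat_lit 5) (nat_lit 307) (nat_lit 280) (nat_lit 193))) (XT.nd (nat_lit 78) (nat_lit 380) (nat_lit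 0) (XT.lf (nat_lit 0) (nat_lit 10815783550) (nat_lit 304) (nat_lit 7234551069) (nat_lit 380) (nat_lit 6091106264) (nat_lit 87) (nat_lit 5) (nat_lit 91) (nat_lit 5) (nat_lit 92) (nat_lit 5) (nat_lit 308) (nat_lit 280) (nat_lit 192)) (XT.lf (nat_lit 0) (nat_lit 5530759942) (nat_lit 380) (nat_lit 19116805348) (nat_lit 456) (nat_lit 278899244) (nat_lit 82) (nat_lit 5) (nat_lit 87) (nat_lit 5) (nat_lit 88) (nat_lit 5) (nat_lit 309) (nat_lit 280) (nat_lit 191))))))) (XT.nd (nat_lit 1014) (nat_lit 1748) (nat_lit 0) (XT.nd (nat_lit 468) (nat_lit 1216) (nat_lit 0) (XT.nd (nat_lit 234) (nat_lit 608) (nat_lit 0) (XT.nd (nat_lit 78) (nat_lit 608) (nat_lit 0) (XT.lf (nat_lit 0) (nat_lit 5904017304) (nat_lit 456) (nat_lit 292656036) (nat_lit 76) (nat_lit 19546593315) (nat_lit 81) (nat_lit 5) (nat_lit 87) (nat_lit 5) (nat_lit 82) (nat_lit 5) (nat_lit 310) (nat_lit 280) (nat_lit 190)) (XT.nd (nat_lit 78)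 (nat_lit 304) (nat_lit 0) (XT.lf (nat_lit 0) (nat_lit 12639656725) (nat_lit 380) (nat_lit 6535668426) (nat_lit 76) (nat_lit 7418038747) (nat_lit 77) (nat_lit 5) (nat_lit 82) (nat_lit 5) (nat_lit 78) (nat_lit 5) (nat_lit 311) (nat_lit 280) (nat_lit 189)) (XT.lf (nat_lit 0) (nat_lit 14136301754) (nat_lit 304) (nat_lit 5760824625) (nat_lit 380) (nat_lit 7583305521) (nat_lit 73) (nat_lit 5) (nat_lit 77) (nat_lit 5) (nat_lit 78) (nat_lit 5) (nat_lit 312) (nat_lit 280) (nat_lit 188)))) (XT.nd (nat_lit 78) (nat_lit 380) (nat_lit 0) (XT.lf (nat_lit 0) (nat_lit 7613944245) (nat_lit 228) (nat_lit 20108763169) (nat_lit 304) (nat_lit 683005271) (nat_lit 70) (nat_lit 5) (nat_lit 73) (nat_lit 5) (nat_lit 74) (nat_lit 5) (nat_lit 313) (nat_lit 280) (nat_lit 187)) (XT.nd (nat_lit 78) (nat_lit 0) (nat_lit 0) (XT.lf (nat_lit 0) (nat_lit 388396012) (nat_lit 304) (nat_lit 6230928088) (nat_lit 380) (nat_lit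 22750504202) (nat_lit 65) (nat_lit 5) (nat_lit 69) (nat_lit 5) (nat_lit 70) (nat_lit 5) (nat_lit 314) (nat_lit 280) (nat_lit 186)) (XT.lf (nat_lit 0) (nat_lit 14554036812) (nat_lit 380) (nat_lit 7424862367) (nat_lit 76) (nat_lit 8394620421) (nat_lit 65) (nat_lit 5) (nat_lit 70) (nat_lit 5) (nat_lit 66) (nat_lit 5) (nat_lit 315) (nat_lit 280) (nat_lit 185))))) (XT.nd (nat_lit 234) (nat_lit 684) (nat_lit 0) (XT.nd (nat_lit 78) (nat_lit 304) (nat_lit 0) (XT.lf (nat_lit 0) (nat_lit 15426724927) (nat_lit 228) (nat_lit 7655591376) (nat_lit 304) (nat_lit 8339188079) (nat_lit 62) (nat_lit 5) (nat_lit 65) (nat_lit 5) (nat_lit 66) (nat_lit 5) (nat_lit 316) (nat_lit 280) (nat_lit 184)) (XT.nd (nat_lit 78) (nat_lit 76) (nat_lit 0) (XT.lf (nat_lit 0) (nat_lit 7102598126) (nat_lit 228) (nat_lit 25136928819) (nat_lit 304) (nat_lit 276299138) (nat_lit 59) (nat_lit 5) (nat_lit 62) (nat_lit 5) (nat_lit 63)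 (nat_lit 5) (nat_lit 317) (nat_lit 280) (nat_lit 183)) (XT.lf (nat_lit 0) (nat_lit 8259874343) (nat_lit 304) (nat_lit 2148867511) (nat_lit 76) (nat_lit 23246873933) (nat_lit 58) (nat_lit 5) (nat_lit 62) (nat_lit 5) (nat_lit 59) (nat_lit 5) (nat_lit 318) (nat_lit 280) (nat_lit 182)))) (XT.nd (nat_lit 156) (nat_lit 228) (nat_lit 0) (XT.nd (nat_lit 78) (nat_lit 228) (nat_lit 0) (XT.lf (nat_lit 0) (nat_lit 17473168719) (nat_lit 304) (nat_lit 12197456428) (nat_lit 76) (nat_lit 5174018584) (nat_lit 55) (nat_lit 5) (nat_lit 59) (nat_lit 5) (nat_lit 56) (nat_lit 5) (nat_lit 319) (nat_lit 280) (nat_lit 181)) (XT.lf (nat_lit 0) (nat_lit 12760003534) (nat_lit 228) (nat_lit 14624599979) (nat_lit 304) (nat_lit 8701406353) (nat_lit 52) (nat_lit 5) (nat_lit 55) (nat_lit 5) (nat_lit 56) (nat_lit 5) (nat_lit 320) (nat_lit 280) (nat_lit 180))) (XT.nd (nat_lit 78) (nat_lit 0) (nat_lit 0) (XT.lf (nat_lit 0)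 (nat_lit 539272124) (nat_lit 228) (nat_lit 35551492864) (nat_lit 76) (nat_lit 1294224955) (nat_lit 49) (nat_lit 5) (nat_lit 52) (nat_lit 5) (nat_lit 50) (nat_lit 5) (nat_lit 321) (nat_lit 280) (nat_lit 179)) (XT.lf (nat_lit 0) (nat_lit 10441863077) (nat_lit 228) (nat_lit 10259777040) (nat_lit 76) (nat_lit 18033308964) (nat_lit 49) (nat_lit 5) (nat_lit 52) (nat_lit 5) (nat_lit 50) (nat_lit 5) (nat_lit 322) (nat_lit 280) (nat_lit 178)))))) (XT.nd (nat_lit 546) (nat_lit 684) (nat_lit 0) (XT.nd (nat_lit 234) (nat_lit 608) (nat_lit 0) (XT.nd (nat_lit 78) (nat_lit 228) (nat_lit 0) (XT.lf (nat_lit 0) (nat_lit 16602722773) (nat_lit 228) (nat_lit 4385081477) (nat_lit 304) (nat_lit 19160164587) (nat_lit 46) (nat_lit 5) (nat_lit 49) (nat_lit 5) (nat_lit 50) (nat_lit 5) (nat_lit 323) (nat_lit 280) (nat_lit 177)) (XT.nd (nat_lit 78) (nat_lit 76) (nat_lit 0) (XT.lf (nat_lit 0) (nat_lit 3317889434) (nat_lit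 152) (nat_lit 28993183069) (nat_lit 228) (nat_lit 9313075015) (nat_lit 44) (nat_lit 5) (nat_lit 46) (nat_lit 5) (nat_lit 47) (nat_lit 5) (nat_lit 324) (nat_lit 280) (nat_lit 176)) (XT.lf (nat_lit 0) (nat_lit 1284566994) (nat_lit 228) (nat_lit 11224451107) (nat_lit 76) (nat_lit 30656482438) (nat_lit 43) (nat_lit 5) (nat_lit 46) (nat_lit 5) (nat_lit 44) (nat_lit 5) (nat_lit 325) (nat_lit 280) (nat_lit 175)))) (XT.nd (nat_lit 156) (nat_lit 228) (nat_lit 0) (XT.nd (nat_lit 78) (nat_lit 152) (nat_lit 0) (XT.lf (nat_lit 0) (nat_lit 12427299523) (nat_lit 304) (nat_lit 27383711011) (nat_lit 76) (nat_lit 4963917688) (nat_lit 40) (nat_lit 5) (nat_lit 44) (nat_lit 5) (nat_lit 41) (nat_lit 5) (nat_lit 326) (nat_lit 280) (nat_lit 174)) (XT.lf (nat_lit 0) (nat_lit 1088481302) (nat_lit 152) (nat_lit 23282079716) (nat_lit 228) (nat_lit 22086971915) (nat_lit 38) (nat_lit 5) (nat_lit 40) (nat_lit 5) (nat_lit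 41) (nat_lit 5) (nat_lit 327) (nat_lit 280) (nat_lit 173))) (XT.nd (nat_lit 78) (nat_lit 228) (nat_lit 0) (XT.lf (nat_lit 0) (nat_lit 31540762955) (nat_lit 152) (nat_lit 5642422100) (nat_lit 228) (nat_lit 11032923900) (nat_lit 38) (nat_lit 5) (nat_lit 40) (nat_lit 5) (nat_lit 41) (nat_lit 5) (nat_lit 328) (nat_lit 280) (nat_lit 172)) (XT.lf (nat_lit 0) (nat_lit 810095377) (nat_lit 228) (nat_lit 36484231355) (nat_lit 76) (nat_lit 12760704105) (nat_lit 35) (nat_lit 5) (nat_lit 38) (nat_lit 5) (nat_lit 36) (nat_lit 5) (nat_lit 329) (nat_lit 280) (nat_lit 171))))) (XT.nd (nat_lit 234) (nat_lit 380) (nat_lit 0) (XT.nd (nat_lit 78) (nat_lit 304) (nat_lit 0) (XT.lf (nat_lit 0) (nat_lit 13240435766) (nat_lit 228) (nat_lit 6488026160) (nat_lit 76) (nat_lit 32247465561) (nat_lit 35) (nat_lit 5) (nat_lit 38) (nat_lit 5) (nat_lit 36) (nat_lit 5) (nat_lit 330) (nat_lit 280) (nat_lit 170)) (XT.nd (nat_lit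 78) (nat_lit 152) (nat_lit 0) (XT.lf (nat_lit 0) (nat_lit 25491139801) (nat_lit 152) (nat_lit 1037541181) (nat_lit 228) (nat_lit 27457102274) (nat_lit 33) (nat_lit 5) (nat_lit 35) (nat_lit 5) (nat_lit 36) (nat_lit 5) (nat_lit 331) (nat_lit 280) (nat_lit 169)) (XT.lf (nat_lit 0) (nat_lit 2975368715) (nat_lit 152) (nat_lit 37772276227) (nat_lit 228) (nat_lit 15340503315) (nat_lit 31) (nat_lit 5) (nat_lit 33) (nat_lit 5) (nat_lit 34) (nat_lit 5) (nat_lit 332) (nat_lit 280) (nat_lit 168)))) (XT.nd (nat_lit 156) (nat_lit 152) (nat_lit 0) (XT.nd (nat_lit 78) (nat_lit 228) (nat_lit 0) (XT.lf (nat_lit 0) (nat_lit 36589990199) (nat_lit 152) (nat_lit 19383110461) (nat_lit 228) (nat_lit 2313669911) (nat_lit 31) (nat_lit 5) (nat_lit 33) (nat_lit 5) (nat_lit 34) (nat_lit 5) (nat_lit 333) (nat_lit 280) (nat_lit 167)) (XT.lf (nat_lit 0) (nat_lit 11245780630) (nat_lit 228) (nat_lit 49200542961) (nat_lit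 76) (nat_lit 142636963) (nat_lit 28) (nat_lit 5) (nat_lit 31) (nat_lit 5) (nat_lit 29) (nat_lit 5) (nat_lit 334) (nat_lit 280) (nat_lit 166))) (XT.nd (nat_lit 78) (nat_lit 152) (nat_lit 0) (XT.lf (nat_lit 0) (nat_lit 25849351132) (nat_lit 228) (nat_lit 16652467773) (nat_lit 76) (nat_lit 20491338701) (nat_lit 28) (nat_lit 5) (nat_lit 31) (nat_lit 5) (nat_lit 29) (nat_lit 5) (nat_lit 335) (nat_lit 280) (nat_lit 165)) (XT.lf (nat_lit 0) (nat_lit 17859145206) (nat_lit 152) (nat_lit 23488345933) (nat_lit 228) (nat_lit 24165146145) (nat_lit 26) (nat_lit 5) (nat_lit 28) (nat_lit 5) (nat_lit 29) (nat_lit 5) (nat_lit 336) (nat_lit 280) (nat_lit 164))))))))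
noncomputable def xc85 : XT := (XT.nd (nat_lit 36738) (nat_lit 0) (nat_lit 4712) (XT.nd (nat_lit 1014) (nat_lit 228) (nat_lit 0) (XT.nd (nat_lit 468) (nat_lit 532) (nat_lit 0) (XT.nd (nat_lit 234) (nat_lit 228) (nat_lit 0) (XT.nd (nat_lit 78) (nat_lit 152) (nat_lit 0) (XT.lf (nat_lit 0) (nat_lit 54432318578) (nat_lit 152) (nat_lit 3352591321) (nat_lit 228) (nat_lit 10368254185) (nat_lit 26) (nat_lit 5) (nat_lit 28) (nat_lit 5) (nat_lit 29) (nat_lit 5) (nat_lit 337) (nat_lit 280) (nat_lit 163)) (XT.nd (nat_lit 78) (nat_lit 0) (nat_lit 0) (XT.lf (nat_lit 0) (nat_lit 4419092922) (nat_lit 152) (nat_lit 48799512476) (nat_lit 76) (nat_lit 17694498802) (nat_lit 24) (nat_lit 5) (nat_lit 26) (nat_lit 5) (nat_lit 25) (nat_lit 5) (nat_lit 338) (nat_lit 280) (nat_lit 162)) (XT.lf (nat_lit 0) (nat_lit 19903234940) (nat_lit 152) (nat_lit 13931613381) (nat_lit 76) (nat_lit 39967961329) (nat_lit 24) (nat_lit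 5) (nat_lit 26) (nat_lit 5) (nat_lit 25) (nat_lit 5) (nat_lit 339) (nat_lit 280) (nat_lit 161)))) (XT.nd (nat_lit 78) (nat_lit 76) (nat_lit 0) (XT.lf (nat_lit 0) (nat_lit 23119978301) (nat_lit 152) (nat_lit 13257548816) (nat_lit 228) (nat_lit 40452998561) (nat_lit 22) (nat_lit 5) (nat_lit 24) (nat_lit 5) (nat_lit 25) (nat_lit 5) (nat_lit 340) (nat_lit 280) (nat_lit 160)) (XT.nd (nat_lit 78) (nat_lit 76) (nat_lit 0) (XT.lf (nat_lit 0) (nat_lit 53894475127) (nat_lit 228) (nat_lit 17782406707) (nat_lit 76) (nat_lit 8326180864) (nat_lit 22) (nat_lit 5) (nat_lit 25) (nat_lit 5) (nat_lit 23) (nat_lit 4) (nat_lit 341) (nat_lit 280) (nat_lit 159)) (XT.lf (nat_lit 0) (nat_lit 20192171352) (nat_lit 76) (nat_lit 52417158548) (nat_lit 152) (nat_lit 10715238150) (nat_lit 21) (nat_lit 5) (nat_lit 22) (nat_lit 5) (nat_lit 23) (nat_lit 4) (nat_lit 342) (nat_lit 280) (nat_lit 158))))) (XT.nd (nat_lit 234)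 (nat_lit 304) (nat_lit 0) (XT.nd (nat_lit 78) (nat_lit 152) (nat_lit 0) (XT.lf (nat_lit 0) (nat_lit 5520612205) (nat_lit 152) (nat_lit 26433763710) (nat_lit 76) (nat_lit 54850830574) (nat_lit 20) (nat_lit 5) (nat_lit 22) (nat_lit 5) (nat_lit 21) (nat_lit 5) (nat_lit 343) (nat_lit 280) (nat_lit 157)) (XT.nd (nat_lit 78) (nat_lit 0) (nat_lit 0) (XT.lf (nat_lit 0) (nat_lit 12220588386) (nat_lit 152) (nat_lit 10240136305) (nat_lit 228) (nat_lit 67992549974) (nat_lit 18) (nat_lit 5) (nat_lit 20) (nat_lit 5) (nat_lit 21) (nat_lit 5) (nat_lit 344) (nat_lit 280) (nat_lit 156)) (XT.lf (nat_lit 0) (nat_lit 40638059855) (nat_lit 228) (nat_lit 41048342363) (nat_lit 76) (nat_lit 12585640255) (nat_lit 18) (nat_lit 5) (nat_lit 21) (nat_lit 5) (nat_lit 19) (nat_lit 4) (nat_lit 345) (nat_lit 280) (nat_lit 155)))) (XT.nd (nat_lit 156) (nat_lit 228) (nat_lit 0) (XT.nd (nat_lit 78) (nat_lit 76) (nat_lit 0)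 (XT.lf (nat_lit 0) (nat_lit 59822549356) (nat_lit 228) (nat_lit 2117069499) (nat_lit 76) (nat_lit 36339183797) (nat_lit 18) (nat_lit 5) (nat_lit 21) (nat_lit 5) (nat_lit 19) (nat_lit 4) (nat_lit 346) (nat_lit 280) (nat_lit 154)) (XT.lf (nat_lit 0) (nat_lit 39523506236) (nat_lit 76) (nat_lit 40817853978) (nat_lit 152) (nat_lit 22133290201) (nat_lit 17) (nat_lit 5) (nat_lit 18) (nat_lit 5) (nat_lit 19) (nat_lit 4) (nat_lit 347) (nat_lit 280) (nat_lit 153))) (XT.nd (nat_lit 78) (nat_lit 228) (nat_lit 0) (XT.lf (nat_lit 0) (nat_lit 83282088392) (nat_lit 76) (nat_lit 18621139788) (nat_lit 152) (nat_lit 4976551252) (nat_lit 17) (nat_lit 5) (nat_lit 18) (nat_lit 5) (nat_lit 19) (nat_lit 4) (nat_lit 348) (nat_lit 280) (nat_lit 152)) (XT.lf (nat_lit 0) (nat_lit 12999511912) (nat_lit 228) (nat_lit 93604100270) (nat_lit 76) (nat_lit 4891317839) (nat_lit 14) (nat_lit 5) (nat_lit 17) (nat_lit 5) (nat_lit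 15) (nat_lit 4) (nat_lit 349) (nat_lit 280) (nat_lit 151)))))) (XT.nd (nat_lit 468) (nat_lit 0) (nat_lit 0) (XT.nd (nat_lit 234) (nat_lit 152) (nat_lit 0) (XT.nd (nat_lit 78) (nat_lit 76) (nat_lit 0) (XT.lf (nat_lit 0) (nat_lit 32201289632) (nat_lit 228) (nat_lit 54635067475) (nat_lit 76) (nat_lit 29490109906) (nat_lit 14) (nat_lit 5) (nat_lit 17) (nat_lit 5) (nat_lit 15) (nat_lit 4) (nat_lit 350) (nat_lit 280) (nat_lit 150)) (XT.nd (nat_lit 78) (nat_lit 76) (nat_lit 0) (XT.lf (nat_lit 0) (nat_lit 52358972574) (nat_lit 228) (nat_lit 13725043463) (nat_lit 76) (nat_lit 55315692311) (nat_lit 14) (nat_lit 5) (nat_lit 17) (nat_lit 5) (nat_lit 15) (nat_lit 4) (nat_lit 351) (nat_lit 280) (nat_lit 149)) (XT.lf (nat_lit 0) (nat_lit 29804979079) (nat_lit 76) (nat_lit 44002079832) (nat_lit 152) (nat_lit 52911079148) (nat_lit 13) (nat_lit 5) (nat_lit 14) (nat_lit 5) (nat_lit 15) (nat_lit 4) (nat_lit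 352) (nat_lit 280) (nat_lit 148)))) (XT.nd (nat_lit 78) (nat_lit 152) (nat_lit 0) (XT.lf (nat_lit 0) (nat_lit 75791414294) (nat_lit 76) (nat_lit 20673561436) (nat_lit 152) (nat_lit 35833392540) (nat_lit 13) (nat_lit 5) (nat_lit 14) (nat_lit 5) (nat_lit 15) (nat_lit 4) (nat_lit 353) (nat_lit 280) (nat_lit 147)) (XT.nd (nat_lit 78) (nat_lit 152) (nat_lit 0) (XT.lf (nat_lit 0) (nat_lit 120288816836) (nat_lit 152) (nat_lit 14123829240) (nat_lit 0) (nat_lit 3743974775) (nat_lit 13) (nat_lit 5) (nat_lit 15) (nat_lit 4) (nat_lit 13) (nat_lit 4) (nat_lit 354) (nat_lit 280) (nat_lit 146)) (XT.lf (nat_lit 0) (nat_lit 1482439252) (nat_lit 152) (nat_lit 113543535578) (nat_lit 76) (nat_lit 29266351209) (nat_lit 11) (nat_lit 5) (nat_lit 13) (nat_lit 5) (nat_lit 12) (nat_lit 4) (nat_lit 355) (nat_lit 280) (nat_lit 145))))) (XT.nd (nat_lit 34944) (nat_lit 0) (nat_lit 13680) (XT.nd (nat_lit 34788) (nat_lit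 0) (nat_lit 13604) (XT.lf (nat_lit 0) (nat_lit 21577472952) (nat_lit 152) (nat_lit 72758279261) (nat_lit 76) (nat_lit 56389354156) (nat_lit 11) (nat_lit 5) (nat_lit 13) (nat_lit 5) (nat_lit 12) (nat_lit 4) (nat_lit 356) (nat_lit 280) (nat_lit 144)) (XT.nd (nat_lit 78) (nat_lit 0) (nat_lit 0) (XT.lf (nat_lit 0) (nat_lit 2057314145) (nat_lit 1140) (nat_lit 1908558722) (nat_lit 1140) (nat_lit 1908558722) (nat_lit 190) (nat_lit 3) (nat_lit 205) (nat_lit 3) (nat_lit 205) (nat_lit 5) (nat_lit 281) (nat_lit 281) (nat_lit 218)) (XT.lf (nat_lit 76) (nat_lit 4947700424) (nat_lit 0) (nat_lit 80933073) (nat_lit 1140) (nat_lit 6988385709) (nat_lit 191) (nat_lit 5) (nat_lit 190) (nat_lit 3) (nat_lit 205) (nat_lit 5) (nat_lit 282) (nat_lit 281) (nat_lit 217)))) (XT.nd (nat_lit 156) (nat_lit 0) (nat_lit 76) (XT.nd (nat_lit 78) (nat_lit 0) (nat_lit 76) (XT.lf (nat_lit 76) (nat_lit 1863135450) (nat_lit 0)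 (nat_lit 4212357465) (nat_lit 1140) (nat_lit 6220554322) (nat_lit 192) (nat_lit 5) (nat_lit 191) (nat_lit 5) (nat_lit 206) (nat_lit 5) (nat_lit 283) (nat_lit 281) (nat_lit 216)) (XT.lf (nat_lit 0) (nat_lit 7241445417) (nat_lit 1064) (nat_lit 1265892866) (nat_lit 1140) (nat_lit 4079760952) (nat_lit 192) (nat_lit 5) (nat_lit 206) (nat_lit 5) (nat_lit 207) (nat_lit 5) (nat_lit 284) (nat_lit 281) (nat_lit 215))) (XT.nd (nat_lit 78) (nat_lit 0) (nat_lit 76) (XT.lf (nat_lit 76) (nat_lit 8454921225) (nat_lit 0) (nat_lit 90149917) (nat_lit 1140) (nat_lit 4345322918) (nat_lit 193) (nat_lit 5) (nat_lit 192) (nat_lit 5) (nat_lit 207) (nat_lit 5) (nat_lit 285) (nat_lit 281) (nat_lit 214)) (XT.lf (nat_lit 76) (nat_lit 5474625191) (nat_lit 0) (nat_lit 4546733550) (nat_lit 1140) (nat_lit 3184338558) (nat_lit 194) (nat_lit 5) (nat_lit 193) (nat_lit 5) (nat_lit 208) (nat_lit 5) (nat_lit 286) (nat_lit 281)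 (nat_lit 213))))))) (XT.nd (nat_lit 1014) (nat_lit 4408) (nat_lit 0) (XT.nd (nat_lit 468) (nat_lit 2736) (nat_lit 0) (XT.nd (nat_lit 234) (nat_lit 988) (nat_lit 0) (XT.nd (nat_lit 78) (nat_lit 1064) (nat_lit 0) (XT.lf (nat_lit 76) (nat_lit 2413490476) (nat_lit 0) (nat_lit 9229079365) (nat_lit 1140) (nat_lit 1892127434) (nat_lit 195) (nat_lit 5) (nat_lit 194) (nat_lit 5) (nat_lit 209) (nat_lit 5) (nat_lit 287) (nat_lit 281) (nat_lit 212)) (XT.nd (nat_lit 78) (nat_lit 1064) (nat_lit 0) (XT.lf (nat_lit 76) (nat_lit 13152474560) (nat_lit 0) (nat_lit 278552637) (nat_lit 1140) (nat_lit 446596241) (nat_lit 195) (nat_lit 5) (nat_lit 194) (nat_lit 5) (nat_lit 209) (nat_lit 5) (nat_lit 288) (nat_lit 281) (nat_lit 211)) (XT.lf (nat_lit 0) (nat_lit 1201285904) (nat_lit 1140) (nat_lit 3968991042) (nat_lit 1216) (nat_lit 9062637826) (nat_lit 180) (nat_lit 5) (nat_lit 195) (nat_lit 5) (nat_lit 196) (nat_lit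 5) (nat_lit 289) (nat_lit 281) (nat_lit 210)))) (XT.nd (nat_lit 78) (nat_lit 1064) (nat_lit 0) (XT.lf (nat_lit 0) (nat_lit 3009169837) (nat_lit 1140) (nat_lit 7326577568) (nat_lit 1216) (nat_lit 4267539685) (nat_lit 181) (nat_lit 5) (nat_lit 196) (nat_lit 5) (nat_lit 197) (nat_lit 5) (nat_lit 290) (nat_lit 281) (nat_lit 209)) (XT.nd (nat_lit 78) (nat_lit 1064) (nat_lit 0) (XT.lf (nat_lit 76) (nat_lit 4177753143) (nat_lit 0) (nat_lit 829028592) (nat_lit 1216) (nat_lit 9982468070) (nat_lit 182) (nat_lit 5) (nat_lit 181) (nat_lit 5) (nat_lit 197) (nat_lit 5) (nat_lit 291) (nat_lit 281) (nat_lit 208)) (XT.lf (nat_lit 0) (nat_lit 919204788) (nat_lit 1140) (nat_lit 6325213211) (nat_lit 1216) (nat_lit 8145937675) (nat_lit 167) (nat_lit 5) (nat_lit 182) (nat_lit 5) (nat_lit 183) (nat_lit 5) (nat_lit 292) (nat_lit 281) (nat_lit 207))))) (XT.nd (nat_lit 234) (nat_lit 1596) (nat_lit 0) (XT.nd (nat_lit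 78) (nat_lit 1140) (nat_lit 0) (XT.lf (nat_lit 0) (nat_lit 9717968018) (nat_lit 1216) (nat_lit 2418431696) (nat_lit 76) (nat_lit 3671443146) (nat_lit 167) (nat_lit 5) (nat_lit 183) (nat_lit 5) (nat_lit 168) (nat_lit 5) (nat_lit 293) (nat_lit 281) (nat_lit 206)) (XT.nd (nat_lit 78) (nat_lit 608) (nat_lit 0) (XT.lf (nat_lit 0) (nat_lit 10347975719) (nat_lit 532) (nat_lit 2100530262) (nat_lit 608) (nat_lit 3793743854) (nat_lit 160) (nat_lit 5) (nat_lit 167) (nat_lit 5) (nat_lit 168) (nat_lit 5) (nat_lit 294) (nat_lit 281) (nat_lit 205)) (XT.lf (nat_lit 0) (nat_lit 7136328087) (nat_lit 608) (nat_lit 8325284946) (nat_lit 684) (nat_lit 1232425472) (nat_lit 152) (nat_lit 5) (nat_lit 160) (nat_lit 5) (nat_lit 161) (nat_lit 5) (nat_lit 295) (nat_lit 281) (nat_lit 204)))) (XT.nd (nat_lit 156) (nat_lit 456) (nat_lit 0) (XT.nd (nat_lit 78) (nat_lit 532) (nat_lit 0) (XT.lf (nat_lit 0) (nat_lit 1541192035)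 (nat_lit 608) (nat_lit 13400994593) (nat_lit 76) (nat_lit 2222469317) (nat_lit 144) (nat_lit 5) (nat_lit 152) (nat_lit 5) (nat_lit 145) (nat_lit 5) (nat_lit 296) (nat_lit 281) (nat_lit 203)) (XT.lf (nat_lit 0) (nat_lit 173842980) (nat_lit 532) (nat_lit 4412548302) (nat_lit 608) (nat_lit 13067332754) (nat_lit 137) (nat_lit 5) (nat_lit 144) (nat_lit 5) (nat_lit 145) (nat_lit 5) (nat_lit 297) (nat_lit 281) (nat_lit 202))) (XT.nd (nat_lit 78) (nat_lit 456) (nat_lit 0) (XT.lf (nat_lit 0) (nat_lit 7961144132) (nat_lit 608) (nat_lit 3547986886) (nat_lit 76) (nat_lit 6652831443) (nat_lit 137) (nat_lit 5) (nat_lit 145) (nat_lit 5) (nat_lit 138) (nat_lit 5) (nat_lit 298) (nat_lit 281) (nat_lit 201)) (XT.lf (nat_lit 0) (nat_lit 11229263917) (nat_lit 456) (nat_lit 403197125) (nat_lit 532) (nat_lit 7059351010) (nat_lit 131) (nat_lit 5) (nat_lit 137) (nat_lit 5) (nat_lit 138) (nat_lit 5) (nat_lit 299)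 (nat_lit 281) (nat_lit 200)))))) (XT.nd (nat_lit 546) (nat_lit 1748) (nat_lit 0) (XT.nd (nat_lit 234) (nat_lit 1672) (nat_lit 0) (XT.nd (nat_lit 78) (nat_lit 532) (nat_lit 0) (XT.lf (nat_lit 0) (nat_lit 7586097499) (nat_lit 456) (nat_lit 8095539288) (nat_lit 532) (nat_lit 3560720962) (nat_lit 125) (nat_lit 5) (nat_lit 131) (nat_lit 5) (nat_lit 132) (nat_lit 5) (nat_lit 300) (nat_lit 281) (nat_lit 199)) (XT.nd (nat_lit 78) (nat_lit 0) (nat_lit 0) (XT.lf (nat_lit 0) (nat_lit 239635940) (nat_lit 532) (nat_lit 16084798843) (nat_lit 76) (nat_lit 3492123462) (nat_lit 118) (nat_lit 5) (nat_lit 125) (nat_lit 5) (nat_lit 119) (nat_lit 5) (nat_lit 301) (nat_lit 281) (nat_lit 198)) (XT.lf (nat_lit 0) (nat_lit 4337678995) (nat_lit 532) (nat_lit 427447850) (nat_lit 76) (nat_lit 15647873542) (nat_lit 118) (nat_lit 5) (nat_lit 125) (nat_lit 5) (nat_lit 119) (nat_lit 5) (nat_lit 302) (nat_lit 281) (nat_lit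 197)))) (XT.nd (nat_lit 156) (nat_lit 836) (nat_lit 0) (XT.nd (nat_lit 78) (nat_lit 380) (nat_lit 0) (XT.lf (nat_lit 0) (nat_lit 8848557881) (nat_lit 532) (nat_lit 4800929019) (nat_lit 76) (nat_lit 7383566913) (nat_lit 112) (nat_lit 5) (nat_lit 119) (nat_lit 5) (nat_lit 113) (nat_lit 5) (nat_lit 303) (nat_lit 281) (nat_lit 196)) (XT.lf (nat_lit 0) (nat_lit 12215662689) (nat_lit 380) (nat_lit 1518830182) (nat_lit 456) (nat_lit 7945157565) (nat_lit 107) (nat_lit 5) (nat_lit 112) (nat_lit 5) (nat_lit 113) (nat_lit 5) (nat_lit 304) (nat_lit 281) (nat_lit 195))) (XT.nd (nat_lit 78) (nat_lit 456) (nat_lit 0) (XT.lf (nat_lit 0) (nat_lit 7847025882) (nat_lit 380) (nat_lit 11231137286) (nat_lit 456) (nat_lit 3274035225) (nat_lit 102) (nat_lit 5) (nat_lit 107) (nat_lit 5) (nat_lit 108) (nat_lit 5) (nat_lit 305) (nat_lit 281) (nat_lit 194)) (XT.lf (nat_lit 0) (nat_lit 1737717828) (nat_lit 456) (nat_lit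 19896062287) (nat_lit 76) (nat_lit 1419979363) (nat_lit 96) (nat_lit 5) (nat_lit 102) (nat_lit 5) (nat_lit 97) (nat_lit 5) (nat_lit 306) (nat_lit 281) (nat_lit 193))))) (XT.nd (nat_lit 234) (nat_lit 1064) (nat_lit 0) (XT.nd (nat_lit 78) (nat_lit 684) (nat_lit 0) (XT.lf (nat_lit 0) (nat_lit 7178544136) (nat_lit 456) (nat_lit 1950628685) (nat_lit 76) (nat_lit 14652889095) (nat_lit 96) (nat_lit 5) (nat_lit 102) (nat_lit 5) (nat_lit 97) (nat_lit 5) (nat_lit 307) (nat_lit 281) (nat_lit 192)) (XT.nd (nat_lit 78) (nat_lit 304) (nat_lit 0) (XT.lf (nat_lit 0) (nat_lit 13079145840) (nat_lit 456) (nat_lit 7377130304) (nat_lit 76) (nat_lit 4084891990) (nat_lit 91) (nat_lit 5) (nat_lit 97) (nat_lit 5) (nat_lit 92) (nat_lit 5) (nat_lit 308) (nat_lit 281) (nat_lit 191)) (XT.lf (nat_lit 0) (nat_lit 12058162951) (nat_lit 304) (nat_lit 7427831609) (nat_lit 380) (nat_lit 5845918293) (nat_lit 87) (nat_lit 5)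 (nat_lit 91) (nat_lit 5) (nat_lit 92) (nat_lit 5) (nat_lit 309) (nat_lit 281) (nat_lit 190)))) (XT.nd (nat_lit 156) (nat_lit 304) (nat_lit 0) (XT.nd (nat_lit 78) (nat_lit 304) (nat_lit 0) (XT.lf (nat_lit 0) (nat_lit 234532927) (nat_lit 456) (nat_lit 19655701870) (nat_lit 76) (nat_lit 6266427405) (nat_lit 81) (nat_lit 5) (nat_lit 87) (nat_lit 5) (nat_lit 82) (nat_lit 5) (nat_lit 310) (nat_lit 281) (nat_lit 189)) (XT.lf (nat_lit 0) (nat_lit 373303227) (nat_lit 304) (nat_lit 6326324968) (nat_lit 380) (nat_lit 20315256035) (nat_lit 77) (nat_lit 5) (nat_lit 81) (nat_lit 5) (nat_lit 82) (nat_lit 5) (nat_lit 311) (nat_lit 281) (nat_lit 188))) (XT.nd (nat_lit 78) (nat_lit 304) (nat_lit 0) (XT.lf (nat_lit 0) (nat_lit 13752767667) (nat_lit 380) (nat_lit 6195230891) (nat_lit 76) (nat_lit 7960091639) (nat_lit 77) (nat_lit 5) (nat_lit 82) (nat_lit 5) (nat_lit 78) (nat_lit 5) (nat_lit 312) (nat_lit 281)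 (nat_lit 187)) (XT.lf (nat_lit 0) (nat_lit 15491212043) (nat_lit 304) (nat_lit 5865217786) (nat_lit 380) (nat_lit 7483606393) (nat_lit 73) (nat_lit 5) (nat_lit 77) (nat_lit 5) (nat_lit 78) (nat_lit 5) (nat_lit 313) (nat_lit 281) (nat_lit 186))))))))
noncomputable def xc86 : XT := (XT.nd (nat_lit 2028) (nat_lit 988) (nat_lit 0) (XT.nd (nat_lit 1014) (nat_lit 1444) (nat_lit 0) (XT.nd (nat_lit 468) (nat_lit 1140) (nat_lit 0) (XT.nd (nat_lit 234) (nat_lit 532) (nat_lit 0) (XT.nd (nat_lit 78) (nat_lit 380) (nat_lit 0) (XT.lf (nat_lit 0) (nat_lit 8636448410) (nat_lit 228) (nat_lit 20922575691) (nat_lit 304) (nat_lit 253007960) (nat_lit 70) (nat_lit 5) (nat_lit 73) (nat_lit 5) (nat_lit 74) (nat_lit 5) (nat_lit 314) (nat_lit 281) (nat_lit 185)) (XT.nd (nat_lit 78) (nat_lit 0) (nat_lit 0) (XT.lf (nat_lit 0) (nat_lit 1040457639) (nat_lit 304) (nat_lit 6349333419) (nat_lit 380) (nat_lit 23434917545)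 (nat_lit 65) (nat_lit 5) (nat_lit 69) (nat_lit 5) (nat_lit 70) (nat_lit 5) (nat_lit 315) (nat_lit 281) (nat_lit 184)) (XT.lf (nat_lit 0) (nat_lit 15702078979) (nat_lit 380) (nat_lit 7182394676) (nat_lit 76) (nat_lit 8994705914) (nat_lit 65) (nat_lit 5) (nat_lit 70) (nat_lit 5) (nat_lit 66) (nat_lit 5) (nat_lit 316) (nat_lit 281) (nat_lit 183)))) (XT.nd (nat_lit 78) (nat_lit 304) (nat_lit 0) (XT.lf (nat_lit 0) (nat_lit 16794180087) (nat_lit 228) (nat_lit 7848306413) (nat_lit 304) (nat_lit 8337524993) (nat_lit 62) (nat_lit 5) (nat_lit 65) (nat_lit 5) (nat_lit 66) (nat_lit 5) (nat_lit 317) (nat_lit 281) (nat_lit 182)) (XT.nd (nat_lit 78) (nat_lit 0) (nat_lit 0) (XT.lf (nat_lit 0) (nat_lit 113934959) (nat_lit 304) (nat_lit 26083350062) (nat_lit 76) (nat_lit 7932107039) (nat_lit 58) (nat_lit 5) (nat_lit 62) (nat_lit 5) (nat_lit 59) (nat_lit 5) (nat_lit 318) (nat_lit 281) (nat_lit 181)) (XT.lf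 (nat_lit 0) (nat_lit 9052285093) (nat_lit 304) (nat_lit 1687024659) (nat_lit 76) (nat_lit 24587363977) (nat_lit 58) (nat_lit 5) (nat_lit 62) (nat_lit 5) (nat_lit 59) (nat_lit 5) (nat_lit 319) (nat_lit 281) (nat_lit 180))))) (XT.nd (nat_lit 234) (nat_lit 456) (nat_lit 0) (XT.nd (nat_lit 78) (nat_lit 456) (nat_lit 0) (XT.lf (nat_lit 0) (nat_lit 18715283030) (nat_lit 304) (nat_lit 12244828271) (nat_lit 76) (nat_lit 5615386810) (nat_lit 55) (nat_lit 5) (nat_lit 59) (nat_lit 5) (nat_lit 56) (nat_lit 5) (nat_lit 320) (nat_lit 281) (nat_lit 179)) (XT.nd (nat_lit 78) (nat_lit 228) (nat_lit 0) (XT.lf (nat_lit 0) (nat_lit 13944380711) (nat_lit 228) (nat_lit 15165615445) (nat_lit 304) (nat_lit 8769320635) (nat_lit 52) (nat_lit 5) (nat_lit 55) (nat_lit 5) (nat_lit 56) (nat_lit 5) (nat_lit 321) (nat_lit 281) (nat_lit 178)) (XT.lf (nat_lit 0) (nat_lit 916081900) (nat_lit 228) (nat_lit 36782201841) (nat_lit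 76) (nat_lit 1545174880) (nat_lit 49) (nat_lit 5) (nat_lit 52) (nat_lit 5) (nat_lit 50) (nat_lit 5) (nat_lit 322) (nat_lit 281) (nat_lit 177)))) (XT.nd (nat_lit 156) (nat_lit 228) (nat_lit 0) (XT.nd (nat_lit 78) (nat_lit 228) (nat_lit 0) (XT.lf (nat_lit 0) (nat_lit 11297143060) (nat_lit 228) (nat_lit 10251941448) (nat_lit 76) (nat_lit 19112344581) (nat_lit 49) (nat_lit 5) (nat_lit 52) (nat_lit 5) (nat_lit 50) (nat_lit 5) (nat_lit 323) (nat_lit 281) (nat_lit 176)) (XT.lf (nat_lit 0) (nat_lit 17938754027) (nat_lit 228) (nat_lit 4420624198) (nat_lit 304) (nat_lit 19786064645) (nat_lit 46) (nat_lit 5) (nat_lit 49) (nat_lit 5) (nat_lit 50) (nat_lit 5) (nat_lit 324) (nat_lit 281) (nat_lit 175))) (XT.nd (nat_lit 78) (nat_lit 76) (nat_lit 0) (XT.lf (nat_lit 0) (nat_lit 3983102241) (nat_lit 152) (nat_lit 30256847172) (nat_lit 228) (nat_lit 9455759214) (nat_lit 44) (nat_lit 5) (nat_lit 46) (nat_lit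 5) (nat_lit 47) (nat_lit 5) (nat_lit 325) (nat_lit 281) (nat_lit 174)) (XT.lf (nat_lit 0) (nat_lit 1650383203) (nat_lit 228) (nat_lit 11303902214) (nat_lit 76) (nat_lit 32360214527) (nat_lit 43) (nat_lit 5) (nat_lit 46) (nat_lit 5) (nat_lit 44) (nat_lit 5) (nat_lit 326) (nat_lit 281) (nat_lit 173)))))) (XT.nd (nat_lit 468) (nat_lit 684) (nat_lit 0) (XT.nd (nat_lit 234) (nat_lit 380) (nat_lit 0) (XT.nd (nat_lit 78) (nat_lit 152) (nat_lit 0) (XT.lf (nat_lit 0) (nat_lit 13342083460) (nat_lit 304) (nat_lit 28277660214) (nat_lit 76) (nat_lit 5384911261) (nat_lit 40) (nat_lit 5) (nat_lit 44) (nat_lit 5) (nat_lit 41) (nat_lit 5) (nat_lit 327) (nat_lit 281) (nat_lit 172)) (XT.nd (nat_lit 78) (nat_lit 0) (nat_lit 0) (XT.lf (nat_lit 0) (nat_lit 1604519161) (nat_lit 152) (nat_lit 24268453852) (nat_lit 228) (nat_lit 22898713259) (nat_lit 38) (nat_lit 5) (nat_lit 40) (nat_lit 5) (nat_lit 41) (nat_lit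 5) (nat_lit 328) (nat_lit 281) (nat_lit 171)) (XT.lf (nat_lit 0) (nat_lit 33557433287) (nat_lit 152) (nat_lit 5755276681) (nat_lit 228) (nat_lit 11305896521) (nat_lit 38) (nat_lit 5) (nat_lit 40) (nat_lit 5) (nat_lit 41) (nat_lit 5) (nat_lit 329) (nat_lit 281) (nat_lit 170)))) (XT.nd (nat_lit 78) (nat_lit 152) (nat_lit 0) (XT.lf (nat_lit 0) (nat_lit 1116598043) (nat_lit 228) (nat_lit 37869447410) (nat_lit 76) (nat_lit 13563574888) (nat_lit 35) (nat_lit 5) (nat_lit 38) (nat_lit 5) (nat_lit 36) (nat_lit 5) (nat_lit 330) (nat_lit 281) (nat_lit 169)) (XT.nd (nat_lit 78) (nat_lit 152) (nat_lit 0) (XT.lf (nat_lit 0) (nat_lit 14155788886) (nat_lit 228) (nat_lit 6394336503) (nat_lit 76) (nat_lit 34016825103) (nat_lit 35) (nat_lit 5) (nat_lit 38) (nat_lit 5) (nat_lit 36) (nat_lit 5) (nat_lit 331) (nat_lit 281) (nat_lit 168)) (XT.lf (nat_lit 0) (nat_lit 27171803263) (nat_lit 152) (nat_lit 928483446)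 (nat_lit 228) (nat_lit 28577265387) (nat_lit 33) (nat_lit 5) (nat_lit 35) (nat_lit 5) (nat_lit 36) (nat_lit 5) (nat_lit 332) (nat_lit 281) (nat_lit 167))))) (XT.nd (nat_lit 234) (nat_lit 304) (nat_lit 0) (XT.nd (nat_lit 78) (nat_lit 228) (nat_lit 0) (XT.lf (nat_lit 0) (nat_lit 3524404756) (nat_lit 152) (nat_lit 39499440222) (nat_lit 228) (nat_lit 15861388851) (nat_lit 31) (nat_lit 5) (nat_lit 33) (nat_lit 5) (nat_lit 34) (nat_lit 5) (nat_lit 333) (nat_lit 281) (nat_lit 166)) (XT.nd (nat_lit 78) (nat_lit 228) (nat_lit 0) (XT.lf (nat_lit 0) (nat_lit 38800696953) (nat_lit 152) (nat_lit 20198504255) (nat_lit 228) (nat_lit 2194934711) (nat_lit 31) (nat_lit 5) (nat_lit 33) (nat_lit 5) (nat_lit 34) (nat_lit 5) (nat_lit 334) (nat_lit 281) (nat_lit 165)) (XT.lf (nat_lit 0) (nat_lit 12032037057) (nat_lit 228) (nat_lit 51280356566) (nat_lit 76) (nat_lit 299157412) (nat_lit 28) (nat_lit 5) (nat_lit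 31) (nat_lit 5) (nat_lit 29) (nat_lit 5) (nat_lit 335) (nat_lit 281) (nat_lit 164)))) (XT.nd (nat_lit 156) (nat_lit 152) (nat_lit 0) (XT.nd (nat_lit 78) (nat_lit 152) (nat_lit 0) (XT.lf (nat_lit 0) (nat_lit 27355120970) (nat_lit 228) (nat_lit 17122983025) (nat_lit 76) (nat_lit 21658180493) (nat_lit 28) (nat_lit 5) (nat_lit 31) (nat_lit 5) (nat_lit 29) (nat_lit 5) (nat_lit 336) (nat_lit 281) (nat_lit 163)) (XT.lf (nat_lit 0) (nat_lit 19103830846) (nat_lit 152) (nat_lit 24517560908) (nat_lit 228) (nat_lit 25160555965) (nat_lit 26) (nat_lit 5) (nat_lit 28) (nat_lit 5) (nat_lit 29) (nat_lit 5) (nat_lit 337) (nat_lit 281) (nat_lit 162))) (XT.nd (nat_lit 78) (nat_lit 152) (nat_lit 0) (XT.lf (nat_lit 0) (nat_lit 57488913916) (nat_lit 152) (nat_lit 3381932961) (nat_lit 228) (nat_lit 10683955002) (nat_lit 26) (nat_lit 5) (nat_lit 28) (nat_lit 5) (nat_lit 29) (nat_lit 5) (nat_lit 338) (nat_lit 281)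 (nat_lit 161)) (XT.lf (nat_lit 0) (nat_lit 4833820708) (nat_lit 152) (nat_lit 50905587065) (nat_lit 76) (nat_lit 18713427796) (nat_lit 24) (nat_lit 5) (nat_lit 26) (nat_lit 5) (nat_lit 25) (nat_lit 5) (nat_lit 339) (nat_lit 281) (nat_lit 160))))))) (XT.nd (nat_lit 1014) (nat_lit 228) (nat_lit 0) (XT.nd (nat_lit 468) (nat_lit 304) (nat_lit 0) (XT.nd (nat_lit 234) (nat_lit 304) (nat_lit 0) (XT.nd (nat_lit 78) (nat_lit 152) (nat_lit 0) (XT.lf (nat_lit 0) (nat_lit 21082942534) (nat_lit 152) (nat_lit 14310193065) (nat_lit 76) (nat_lit 42094172780) (nat_lit 24) (nat_lit 5) (nat_lit 26) (nat_lit 5) (nat_lit 25) (nat_lit 5) (nat_lit 340) (nat_lit 281) (nat_lit 159)) (XT.nd (nat_lit 78) (nat_lit 0) (nat_lit 0) (XT.lf (nat_lit 0) (nat_lit 24584862767) (nat_lit 152) (nat_lit 13790267853) (nat_lit 228) (nat_lit 42291459169) (nat_lit 22) (nat_lit 5) (nat_lit 24) (nat_lit 5) (nat_lit 25) (nat_lit 5) (nat_lit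 341) (nat_lit 281) (nat_lit 158)) (XT.lf (nat_lit 0) (nat_lit 56760606797) (nat_lit 228) (nat_lit 18373339840) (nat_lit 76) (nat_lit 8864031378) (nat_lit 22) (nat_lit 5) (nat_lit 25) (nat_lit 5) (nat_lit 23) (nat_lit 4) (nat_lit 342) (nat_lit 281) (nat_lit 157)))) (XT.nd (nat_lit 78) (nat_lit 228) (nat_lit 0) (XT.lf (nat_lit 0) (nat_lit 21491419646) (nat_lit 76) (nat_lit 54914406576) (nat_lit 152) (nat_lit 11079898308) (nat_lit 21) (nat_lit 5) (nat_lit 22) (nat_lit 5) (nat_lit 23) (nat_lit 4) (nat_lit 343) (nat_lit 281) (nat_lit 156)) (XT.nd (nat_lit 78) (nat_lit 152) (nat_lit 0) (XT.lf (nat_lit 0) (nat_lit 5956417043) (nat_lit 152) (nat_lit 27476340548) (nat_lit 76) (nat_lit 57707831827) (nat_lit 20) (nat_lit 5) (nat_lit 22) (nat_lit 5) (nat_lit 21) (nat_lit 5) (nat_lit 344) (nat_lit 281) (nat_lit 155)) (XT.lf (nat_lit 0) (nat_lit 13102728482) (nat_lit 152) (nat_lit 10635804456) (nat_lit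 228) (nat_lit 71232682139) (nat_lit 18) (nat_lit 5) (nat_lit 20) (nat_lit 5) (nat_lit 21) (nat_lit 5) (nat_lit 345) (nat_lit 281) (nat_lit 154))))) (XT.nd (nat_lit 234) (nat_lit 228) (nat_lit 0) (XT.nd (nat_lit 78) (nat_lit 76) (nat_lit 0) (XT.lf (nat_lit 0) (nat_lit 42818429830) (nat_lit 228) (nat_lit 42839125500) (nat_lit 76) (nat_lit 13323558914) (nat_lit 18) (nat_lit 5) (nat_lit 21) (nat_lit 5) (nat_lit 19) (nat_lit 4) (nat_lit 346) (nat_lit 281) (nat_lit 153)) (XT.nd (nat_lit 78) (nat_lit 76) (nat_lit 0) (XT.lf (nat_lit 0) (nat_lit 62955073949) (nat_lit 228) (nat_lit 1973747754) (nat_lit 76) (nat_lit 38259606459) (nat_lit 18) (nat_lit 5) (nat_lit 21) (nat_lit 5) (nat_lit 19) (nat_lit 4) (nat_lit 347) (nat_lit 281) (nat_lit 152)) (XT.lf (nat_lit 0) (nat_lit 41741714210) (nat_lit 76) (nat_lit 42753704510) (nat_lit 152) (nat_lit 23098785255) (nat_lit 17) (nat_lit 5) (nat_lit 18) (nat_lit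 5) (nat_lit 19) (nat_lit 4) (nat_lit 348) (nat_lit 281) (nat_lit 151)))) (XT.nd (nat_lit 156) (nat_lit 0) (nat_lit 0) (XT.nd (nat_lit 78) (nat_lit 228) (nat_lit 0) (XT.lf (nat_lit 0) (nat_lit 87676700109) (nat_lit 76) (nat_lit 19452156618) (nat_lit 152) (nat_lit 5090931714) (nat_lit 17) (nat_lit 5) (nat_lit 18) (nat_lit 5) (nat_lit 19) (nat_lit 4) (nat_lit 349) (nat_lit 281) (nat_lit 150)) (XT.lf (nat_lit 0) (nat_lit 13778160704) (nat_lit 228) (nat_lit 98054851807) (nat_lit 76) (nat_lit 5232742835) (nat_lit 14) (nat_lit 5) (nat_lit 17) (nat_lit 5) (nat_lit 15) (nat_lit 4) (nat_lit 350) (nat_lit 281) (nat_lit 149))) (XT.nd (nat_lit 78) (nat_lit 0) (nat_lit 0) (XT.lf (nat_lit 0) (nat_lit 33933900015) (nat_lit 228) (nat_lit 57148293729) (nat_lit 76) (nat_lit 31056862167) (nat_lit 14) (nat_lit 5) (nat_lit 17) (nat_lit 5) (nat_lit 15) (nat_lit 4) (nat_lit 351) (nat_lit 281) (nat_lit 148)) (XT.lf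 (nat_lit 0) (nat_lit 55093631585) (nat_lit 228) (nat_lit 14203174570) (nat_lit 76) (nat_lit 58169330989) (nat_lit 14) (nat_lit 5) (nat_lit 17) (nat_lit 5) (nat_lit 15) (nat_lit 4) (nat_lit 352) (nat_lit 281) (nat_lit 147)))))) (XT.nd (nat_lit 35334) (nat_lit 0) (nat_lit 12768) (XT.nd (nat_lit 234) (nat_lit 152) (nat_lit 0) (XT.nd (nat_lit 78) (nat_lit 0) (nat_lit 0) (XT.lf (nat_lit 0) (nat_lit 31497383351) (nat_lit 76) (nat_lit 46113124492) (nat_lit 152) (nat_lit 55440091564) (nat_lit 13) (nat_lit 5) (nat_lit 14) (nat_lit 5) (nat_lit 15) (nat_lit 4) (nat_lit 353) (nat_lit 281) (nat_lit 146)) (XT.nd (nat_lit 78) (nat_lit 0) (nat_lit 0) (XT.lf (nat_lit 0) (nat_lit 79773513883) (nat_lit 76) (nat_lit 21622421097) (nat_lit 152) (nat_lit 37514070223) (nat_lit 13) (nat_lit 5) (nat_lit 14) (nat_lit 5) (nat_lit 15) (nat_lit 4) (nat_lit 354) (nat_lit 281) (nat_lit 145)) (XT.lf (nat_lit 0) (nat_lit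 126406615573) (nat_lit 152) (nat_lit 14644311150) (nat_lit 0) (nat_lit 4010376656) (nat_lit 13) (nat_lit 5) (nat_lit 15) (nat_lit 4) (nat_lit 13) (nat_lit 4) (nat_lit 355) (nat_lit 281) (nat_lit 144)))) (XT.nd (nat_lit 34944) (nat_lit 0) (nat_lit 13604) (XT.nd (nat_lit 34866) (nat_lit 0) (nat_lit 13604) (XT.lf (nat_lit 0) (nat_lit 1657767686) (nat_lit 152) (nat_lit 119038267746) (nat_lit 76) (nat_lit 30807826536) (nat_lit 11) (nat_lit 5) (nat_lit 13) (nat_lit 5) (nat_lit 12) (nat_lit 4) (nat_lit 356) (nat_lit 281) (nat_lit 143)) (XT.lf (nat_lit 0) (nat_lit 2911837418) (nat_lit 1140) (nat_lit 1616276940) (nat_lit 1140) (nat_lit 1616276940) (nat_lit 190) (nat_lit 3) (nat_lit 205) (nat_lit 3) (nat_lit 205) (nat_lit 5) (nat_lit 282) (nat_lit 282) (nat_lit 216))) (XT.nd (nat_lit 78) (nat_lit 0) (nat_lit 76) (XT.lf (nat_lit 76) (nat_lit 5948277640) (nat_lit 0) (nat_lit 770756372) (nat_lit 1140)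 (nat_lit 5853358242) (nat_lit 191) (nat_lit 5) (nat_lit 190) (nat_lit 3) (nat_lit 205) (nat_lit 5) (nat_lit 283) (nat_lit 282) (nat_lit 215)) (XT.lf (nat_lit 76) (nat_lit 2738471754) (nat_lit 0) (nat_lit 5012482914) (nat_lit 1140) (nat_lit 5116545415) (nat_lit 192) (nat_lit 5) (nat_lit 191) (nat_lit 5) (nat_lit 206) (nat_lit 5) (nat_lit 284) (nat_lit 282) (nat_lit 214))))) (XT.nd (nat_lit 234) (nat_lit 988) (nat_lit 0) (XT.nd (nat_lit 78) (nat_lit 0) (nat_lit 0) (XT.lf (nat_lit 0) (nat_lit 8904489498) (nat_lit 1064) (nat_lit 537572505) (nat_lit 1140) (nat_lit 3733268847) (nat_lit 192) (nat_lit 5) (nat_lit 206) (nat_lit 5) (nat_lit 207) (nat_lit 5) (nat_lit 285) (nat_lit 282) (nat_lit 213)) (XT.nd (nat_lit 78) (nat_lit 0) (nat_lit 76) (XT.lf (nat_lit 76) (nat_lit 9646590805) (nat_lit 0) (nat_lit 572146029) (nat_lit 1140) (nat_lit 3276790096) (nat_lit 193) (nat_lit 5) (nat_lit 192) (nat_lit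 5) (nat_lit 207) (nat_lit 5) (nat_lit 286) (nat_lit 282) (nat_lit 212)) (XT.lf (nat_lit 76) (nat_lit 6537955091) (nat_lit 0) (nat_lit 5174749522) (nat_lit 1140) (nat_lit 2115669718) (nat_lit 194) (nat_lit 5) (nat_lit 193) (nat_lit 5) (nat_lit 208) (nat_lit 5) (nat_lit 287) (nat_lit 282) (nat_lit 211)))) (XT.nd (nat_lit 156) (nat_lit 0) (nat_lit 76) (XT.nd (nat_lit 78) (nat_lit 1140) (nat_lit 0) (XT.lf (nat_lit 76) (nat_lit 3341400935) (nat_lit 0) (nat_lit 10020986911) (nat_lit 1140) (nat_lit 813104565) (nat_lit 195) (nat_lit 5) (nat_lit 194) (nat_lit 5) (nat_lit 209) (nat_lit 5) (nat_lit 288) (nat_lit 282) (nat_lit 210)) (XT.lf (nat_lit 76) (nat_lit 36085458) (nat_lit 0) (nat_lit 600416759) (nat_lit 1216) (nat_lit 13900576570) (nat_lit 180) (nat_lit 5) (nat_lit 179) (nat_lit 5) (nat_lit 195) (nat_lit 5) (nat_lit 289) (nat_lit 282) (nat_lit 209))) (XT.nd (nat_lit 78) (nat_lit 0) (nat_lit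 76) (XT.lf (nat_lit 0) (nat_lit 2309784902) (nat_lit 1140) (nat_lit 3362037179) (nat_lit 1216) (nat_lit 9239692327) (nat_lit 180) (nat_lit 5) (nat_lit 195) (nat_lit 5) (nat_lit 196) (nat_lit 5) (nat_lit 290) (nat_lit 282) (nat_lit 208)) (XT.lf (nat_lit 0) (nat_lit 4163507212) (nat_lit 1140) (nat_lit 6876741213) (nat_lit 1216) (nat_lit 4261569450) (nat_lit 181) (nat_lit 5) (nat_lit 196) (nat_lit 5) (nat_lit 197) (nat_lit 5) (nat_lit 291) (nat_lit 282) (nat_lit 207))))))))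
noncomputable def xc87 : XT := (XT.nd (nat_lit 2028) (nat_lit 3344) (nat_lit 0) (XT.nd (nat_lit 1014) (nat_lit 3572) (nat_lit 0) (XT.nd (nat_lit 468) (nat_lit 2432) (nat_lit 0) (XT.nd (nat_lit 234) (nat_lit 1748) (nat_lit 0) (XT.nd (nat_lit 78) (nat_lit 1064) (nat_lit 0) (XT.lf (nat_lit 76) (nat_lit 5179410822) (nat_lit 0) (nat_lit 1041405718) (nat_lit 1216) (nat_lit 9487539930) (nat_lit 182) (nat_lit 5) (nat_lit 181) (nat_lit 5) (nat_lit 197) (nat_lit 5) (nat_lit 292) (nat_lit 282) (nat_lit 206)) (XT.nd (nat_lit 78) (nat_lit 0) (nat_lit 0) (XT.lf (nat_lit 0) (nat_lit 1766292082) (nat_lit 1140) (nat_lit 6764288383) (nat_lit 1216) (nat_lit 7600198598) (nat_lit 167) (nat_lit 5) (nat_lit 182) (nat_lit 5) (nat_lit 183) (nat_lit 5) (nat_lit 293) (nat_lit 282) (nat_lit 205)) (XT.lf (nat_lit 0) (nat_lit 11082686417) (nat_lit 1216) (nat_lit 1747541835) (nat_lit 76) (nat_lit 3740331534) (nat_lit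 167) (nat_lit 5) (nat_lit 183) (nat_lit 5) (nat_lit 168) (nat_lit 5) (nat_lit 294) (nat_lit 282) (nat_lit 204)))) (XT.nd (nat_lit 78) (nat_lit 1216) (nat_lit 0) (XT.lf (nat_lit 0) (nat_lit 11634488834) (nat_lit 532) (nat_lit 2280807070) (nat_lit 608) (nat_lit 3112487277) (nat_lit 160) (nat_lit 5) (nat_lit 167) (nat_lit 5) (nat_lit 168) (nat_lit 5) (nat_lit 295) (nat_lit 282) (nat_lit 203)) (XT.nd (nat_lit 78) (nat_lit 608) (nat_lit 0) (XT.lf (nat_lit 0) (nat_lit 8266732189) (nat_lit 608) (nat_lit 8778865574) (nat_lit 684) (nat_lit 457626779) (nat_lit 152) (nat_lit 5) (nat_lit 160) (nat_lit 5) (nat_lit 161) (nat_lit 5) (nat_lit 296) (nat_lit 282) (nat_lit 202)) (XT.lf (nat_lit 0) (nat_lit 2406491265) (nat_lit 608) (nat_lit 13277711755) (nat_lit 76) (nat_lit 2313939349) (nat_lit 144) (nat_lit 5) (nat_lit 152) (nat_lit 5) (nat_lit 145) (nat_lit 5) (nat_lit 297) (nat_lit 282) (nat_lit 201)))))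 (XT.nd (nat_lit 234) (nat_lit 1444) (nat_lit 0) (XT.nd (nat_lit 78) (nat_lit 456) (nat_lit 0) (XT.lf (nat_lit 0) (nat_lit 953126977) (nat_lit 532) (nat_lit 4620695677) (nat_lit 608) (nat_lit 12938797388) (nat_lit 137) (nat_lit 5) (nat_lit 144) (nat_lit 5) (nat_lit 145) (nat_lit 5) (nat_lit 298) (nat_lit 282) (nat_lit 200)) (XT.nd (nat_lit 78) (nat_lit 456) (nat_lit 0) (XT.lf (nat_lit 0) (nat_lit 9081326838) (nat_lit 608) (nat_lit 2968946156) (nat_lit 76) (nat_lit 6997126834) (nat_lit 137) (nat_lit 5) (nat_lit 145) (nat_lit 5) (nat_lit 138) (nat_lit 5) (nat_lit 299) (nat_lit 282) (nat_lit 199)) (XT.lf (nat_lit 0) (nat_lit 12525483986) (nat_lit 456) (nat_lit 383401612) (nat_lit 532) (nat_lit 6695723496) (nat_lit 131) (nat_lit 5) (nat_lit 137) (nat_lit 5) (nat_lit 138) (nat_lit 5) (nat_lit 300) (nat_lit 282) (nat_lit 198)))) (XT.nd (nat_lit 156) (nat_lit 456) (nat_lit 0) (XT.nd (nat_lit 78)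 (nat_lit 532) (nat_lit 0) (XT.lf (nat_lit 0) (nat_lit 8699893376) (nat_lit 456) (nat_lit 8434967131) (nat_lit 532) (nat_lit 3048636572) (nat_lit 125) (nat_lit 5) (nat_lit 131) (nat_lit 5) (nat_lit 132) (nat_lit 5) (nat_lit 301) (nat_lit 282) (nat_lit 197)) (XT.lf (nat_lit 0) (nat_lit 903771808) (nat_lit 532) (nat_lit 16142019478) (nat_lit 76) (nat_lit 3741194094) (nat_lit 118) (nat_lit 5) (nat_lit 125) (nat_lit 5) (nat_lit 119) (nat_lit 5) (nat_lit 302) (nat_lit 282) (nat_lit 196))) (XT.nd (nat_lit 78) (nat_lit 0) (nat_lit 0) (XT.lf (nat_lit 0) (nat_lit 267853502) (nat_lit 456) (nat_lit 4910383329) (nat_lit 532) (nat_lit 16235907021) (nat_lit 112) (nat_lit 5) (nat_lit 118) (nat_lit 5) (nat_lit 119) (nat_lit 5) (nat_lit 303) (nat_lit 282) (nat_lit 195)) (XT.lf (nat_lit 0) (nat_lit 9890044464) (nat_lit 532) (nat_lit 4332111498) (nat_lit 76) (nat_lit 7843820364) (nat_lit 112) (nat_lit 5) (nat_lit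 119) (nat_lit 5) (nat_lit 113) (nat_lit 5) (nat_lit 304) (nat_lit 282) (nat_lit 194)))))) (XT.nd (nat_lit 468) (nat_lit 1672) (nat_lit 0) (XT.nd (nat_lit 234) (nat_lit 684) (nat_lit 0) (XT.nd (nat_lit 78) (nat_lit 836) (nat_lit 0) (XT.lf (nat_lit 0) (nat_lit 13514990352) (nat_lit 380) (nat_lit 1483377959) (nat_lit 456) (nat_lit 7747227822) (nat_lit 107) (nat_lit 5) (nat_lit 112) (nat_lit 5) (nat_lit 113) (nat_lit 5) (nat_lit 305) (nat_lit 282) (nat_lit 193)) (XT.nd (nat_lit 78) (nat_lit 456) (nat_lit 0) (XT.lf (nat_lit 0) (nat_lit 8924664428) (nat_lit 380) (nat_lit 11664681519) (nat_lit 456) (nat_lit 2863056221) (nat_lit 102) (nat_lit 5) (nat_lit 107) (nat_lit 5) (nat_lit 108) (nat_lit 5) (nat_lit 306) (nat_lit 282) (nat_lit 192)) (XT.lf (nat_lit 0) (nat_lit 2369036643) (nat_lit 456) (nat_lit 20198038483) (nat_lit 76) (nat_lit 1622403271) (nat_lit 96) (nat_lit 5) (nat_lit 102) (nat_lit 5)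 (nat_lit 97) (nat_lit 5) (nat_lit 307) (nat_lit 282) (nat_lit 191)))) (XT.nd (nat_lit 78) (nat_lit 684) (nat_lit 0) (XT.lf (nat_lit 0) (nat_lit 8055978889) (nat_lit 456) (nat_lit 1388324959) (nat_lit 76) (nat_lit 15510700159) (nat_lit 96) (nat_lit 5) (nat_lit 102) (nat_lit 5) (nat_lit 97) (nat_lit 5) (nat_lit 308) (nat_lit 282) (nat_lit 190)) (XT.nd (nat_lit 78) (nat_lit 304) (nat_lit 0) (XT.lf (nat_lit 0) (nat_lit 14234435604) (nat_lit 456) (nat_lit 7090844275) (nat_lit 76) (nat_lit 4427329756) (nat_lit 91) (nat_lit 5) (nat_lit 97) (nat_lit 5) (nat_lit 92) (nat_lit 5) (nat_lit 309) (nat_lit 282) (nat_lit 189)) (XT.lf (nat_lit 0) (nat_lit 13297434113) (nat_lit 304) (nat_lit 7646436782) (nat_lit 380) (nat_lit 5639580843) (nat_lit 87) (nat_lit 5) (nat_lit 91) (nat_lit 5) (nat_lit 92) (nat_lit 5) (nat_lit 310) (nat_lit 282) (nat_lit 188))))) (XT.nd (nat_lit 234) (nat_lit 912) (nat_lit 0) (XT.nd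 (nat_lit 78) (nat_lit 304) (nat_lit 0) (XT.lf (nat_lit 0) (nat_lit 719423010) (nat_lit 456) (nat_lit 19997241653) (nat_lit 76) (nat_lit 6733127694) (nat_lit 81) (nat_lit 5) (nat_lit 87) (nat_lit 5) (nat_lit 82) (nat_lit 5) (nat_lit 311) (nat_lit 282) (nat_lit 187)) (XT.nd (nat_lit 78) (nat_lit 0) (nat_lit 0) (XT.lf (nat_lit 0) (nat_lit 1014832531) (nat_lit 304) (nat_lit 6476396270) (nat_lit 380) (nat_lit 20860217206) (nat_lit 77) (nat_lit 5) (nat_lit 81) (nat_lit 5) (nat_lit 82) (nat_lit 5) (nat_lit 312) (nat_lit 282) (nat_lit 186)) (XT.lf (nat_lit 0) (nat_lit 14876803426) (nat_lit 380) (nat_lit 5899803360) (nat_lit 76) (nat_lit 8513335181) (nat_lit 77) (nat_lit 5) (nat_lit 82) (nat_lit 5) (nat_lit 78) (nat_lit 5) (nat_lit 313) (nat_lit 282) (nat_lit 185)))) (XT.nd (nat_lit 156) (nat_lit 304) (nat_lit 0) (XT.nd (nat_lit 78) (nat_lit 304) (nat_lit 0) (XT.lf (nat_lit 0) (nat_lit 16853614097)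 (nat_lit 304) (nat_lit 5991904463) (nat_lit 380) (nat_lit 7423442581) (nat_lit 73) (nat_lit 5) (nat_lit 77) (nat_lit 5) (nat_lit 78) (nat_lit 5) (nat_lit 314) (nat_lit 282) (nat_lit 184)) (XT.lf (nat_lit 0) (nat_lit 152305985) (nat_lit 304) (nat_lit 21641050397) (nat_lit 76) (nat_lit 9496564679) (nat_lit 69) (nat_lit 5) (nat_lit 73) (nat_lit 5) (nat_lit 70) (nat_lit 5) (nat_lit 315) (nat_lit 282) (nat_lit 183))) (XT.nd (nat_lit 78) (nat_lit 0) (nat_lit 0) (XT.lf (nat_lit 0) (nat_lit 1666305307) (nat_lit 304) (nat_lit 6491615443) (nat_lit 380) (nat_lit 24195677601) (nat_lit 65) (nat_lit 5) (nat_lit 69) (nat_lit 5) (nat_lit 70) (nat_lit 5) (nat_lit 316) (nat_lit 282) (nat_lit 182)) (XT.lf (nat_lit 0) (nat_lit 16868443996) (nat_lit 380) (nat_lit 6984860614) (nat_lit 76) (nat_lit 9608028031) (nat_lit 65) (nat_lit 5) (nat_lit 70) (nat_lit 5) (nat_lit 66) (nat_lit 5) (nat_lit 317) (nat_lit 282)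 (nat_lit 181))))))) (XT.nd (nat_lit 1014) (nat_lit 1292) (nat_lit 0) (XT.nd (nat_lit 468) (nat_lit 836) (nat_lit 0) (XT.nd (nat_lit 234) (nat_lit 684) (nat_lit 0) (XT.nd (nat_lit 78) (nat_lit 304) (nat_lit 0) (XT.lf (nat_lit 0) (nat_lit 18174586518) (nat_lit 228) (nat_lit 8068327600) (nat_lit 304) (nat_lit 8374698304) (nat_lit 62) (nat_lit 5) (nat_lit 65) (nat_lit 5) (nat_lit 66) (nat_lit 5) (nat_lit 318) (nat_lit 282) (nat_lit 180)) (XT.nd (nat_lit 78) (nat_lit 0) (nat_lit 0) (XT.lf (nat_lit 0) (nat_lit 480981261) (nat_lit 304) (nat_lit 26845340205) (nat_lit 76) (nat_lit 8498375579) (nat_lit 58) (nat_lit 5) (nat_lit 62) (nat_lit 5) (nat_lit 59) (nat_lit 5) (nat_lit 319) (nat_lit 282) (nat_lit 179)) (XT.lf (nat_lit 0) (nat_lit 9849041780) (nat_lit 304) (nat_lit 1255016501) (nat_lit 76) (nat_lit 25978316165) (nat_lit 58) (nat_lit 5) (nat_lit 62) (nat_lit 5) (nat_lit 59) (nat_lit 5) (nat_lit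 320) (nat_lit 282) (nat_lit 178)))) (XT.nd (nat_lit 78) (nat_lit 456) (nat_lit 0) (XT.lf (nat_lit 0) (nat_lit 19985247521) (nat_lit 304) (nat_lit 12346864717) (nat_lit 76) (nat_lit 6061840773) (nat_lit 55) (nat_lit 5) (nat_lit 59) (nat_lit 5) (nat_lit 56) (nat_lit 5) (nat_lit 321) (nat_lit 282) (nat_lit 177)) (XT.nd (nat_lit 78) (nat_lit 228) (nat_lit 0) (XT.lf (nat_lit 0) (nat_lit 15137179792) (nat_lit 228) (nat_lit 15751366029) (nat_lit 304) (nat_lit 8874765318) (nat_lit 52) (nat_lit 5) (nat_lit 55) (nat_lit 5) (nat_lit 56) (nat_lit 5) (nat_lit 322) (nat_lit 282) (nat_lit 176)) (XT.lf (nat_lit 0) (nat_lit 1279206785) (nat_lit 228) (nat_lit 38125288654) (nat_lit 76) (nat_lit 1791357595) (nat_lit 49) (nat_lit 5) (nat_lit 52) (nat_lit 5) (nat_lit 50) (nat_lit 5) (nat_lit 323) (nat_lit 282) (nat_lit 175))))) (XT.nd (nat_lit 234) (nat_lit 456) (nat_lit 0) (XT.nd (nat_lit 78) (nat_lit 380) (nat_lit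 0) (XT.lf (nat_lit 0) (nat_lit 12164210488) (nat_lit 228) (nat_lit 10292135397) (nat_lit 76) (nat_lit 20228841783) (nat_lit 49) (nat_lit 5) (nat_lit 52) (nat_lit 5) (nat_lit 50) (nat_lit 5) (nat_lit 324) (nat_lit 282) (nat_lit 174)) (XT.nd (nat_lit 78) (nat_lit 152) (nat_lit 0) (XT.lf (nat_lit 0) (nat_lit 19294553511) (nat_lit 228) (nat_lit 4475023795) (nat_lit 304) (nat_lit 20474135976) (nat_lit 46) (nat_lit 5) (nat_lit 49) (nat_lit 5) (nat_lit 50) (nat_lit 5) (nat_lit 325) (nat_lit 282) (nat_lit 173)) (XT.lf (nat_lit 0) (nat_lit 4635153803) (nat_lit 152) (nat_lit 31600986537) (nat_lit 228) (nat_lit 9635604271) (nat_lit 44) (nat_lit 5) (nat_lit 46) (nat_lit 5) (nat_lit 47) (nat_lit 5) (nat_lit 326) (nat_lit 282) (nat_lit 172)))) (XT.nd (nat_lit 156) (nat_lit 152) (nat_lit 0) (XT.nd (nat_lit 78) (nat_lit 228) (nat_lit 0) (XT.lf (nat_lit 0) (nat_lit 2006451442) (nat_lit 228) (nat_lit 11432116419)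 (nat_lit 76) (nat_lit 34133243818) (nat_lit 43) (nat_lit 5) (nat_lit 46) (nat_lit 5) (nat_lit 44) (nat_lit 5) (nat_lit 327) (nat_lit 282) (nat_lit 171)) (XT.lf (nat_lit 0) (nat_lit 14275327280) (nat_lit 304) (nat_lit 29260489848) (nat_lit 76) (nat_lit 5810889422) (nat_lit 40) (nat_lit 5) (nat_lit 44) (nat_lit 5) (nat_lit 41) (nat_lit 5) (nat_lit 328) (nat_lit 282) (nat_lit 170))) (XT.nd (nat_lit 78) (nat_lit 0) (nat_lit 0) (XT.lf (nat_lit 0) (nat_lit 2103442437) (nat_lit 152) (nat_lit 25320670331) (nat_lit 228) (nat_lit 23778245518) (nat_lit 38) (nat_lit 5) (nat_lit 40) (nat_lit 5) (nat_lit 41) (nat_lit 5) (nat_lit 329) (nat_lit 282) (nat_lit 169)) (XT.lf (nat_lit 0) (nat_lit 35634064302) (nat_lit 152) (nat_lit 5889510788) (nat_lit 228) (nat_lit 11618426201) (nat_lit 38) (nat_lit 5) (nat_lit 40) (nat_lit 5) (nat_lit 41) (nat_lit 5) (nat_lit 330) (nat_lit 282) (nat_lit 168)))))) (XT.nd (nat_lit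 546) (nat_lit 532) (nat_lit 0) (XT.nd (nat_lit 234) (nat_lit 380) (nat_lit 0) (XT.nd (nat_lit 78) (nat_lit 152) (nat_lit 0) (XT.lf (nat_lit 0) (nat_lit 1413695879) (nat_lit 228) (nat_lit 39364737909) (nat_lit 76) (nat_lit 14391264359) (nat_lit 35) (nat_lit 5) (nat_lit 38) (nat_lit 5) (nat_lit 36) (nat_lit 5) (nat_lit 331) (nat_lit 282) (nat_lit 167)) (XT.nd (nat_lit 78) (nat_lit 152) (nat_lit 0) (XT.lf (nat_lit 0) (nat_lit 15093357315) (nat_lit 228) (nat_lit 6334832498) (nat_lit 76) (nat_lit 35860057527) (nat_lit 35) (nat_lit 5) (nat_lit 38) (nat_lit 5) (nat_lit 36) (nat_lit 5) (nat_lit 332) (nat_lit 282) (nat_lit 166)) (XT.lf (nat_lit 0) (nat_lit 28898743967) (nat_lit 152) (nat_lit 828935017) (nat_lit 228) (nat_lit 29776929563) (nat_lit 33) (nat_lit 5) (nat_lit 35) (nat_lit 5) (nat_lit 36) (nat_lit 5) (nat_lit 333) (nat_lit 282) (nat_lit 165)))) (XT.nd (nat_lit 156) (nat_lit 228) (nat_lit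 0) (XT.nd (nat_lit 78) (nat_lit 0) (nat_lit 0) (XT.lf (nat_lit 0) (nat_lit 4063679512) (nat_lit 152) (nat_lit 41327972491) (nat_lit 228) (nat_lit 16431202393) (nat_lit 31) (nat_lit 5) (nat_lit 33) (nat_lit 5) (nat_lit 34) (nat_lit 5) (nat_lit 334) (nat_lit 282) (nat_lit 164)) (XT.lf (nat_lit 0) (nat_lit 41086498008) (nat_lit 152) (nat_lit 21068963047) (nat_lit 228) (nat_lit 2092056779) (nat_lit 31) (nat_lit 5) (nat_lit 33) (nat_lit 5) (nat_lit 34) (nat_lit 5) (nat_lit 335) (nat_lit 282) (nat_lit 163))) (XT.nd (nat_lit 78) (nat_lit 0) (nat_lit 0) (XT.lf (nat_lit 0) (nat_lit 12836783939) (nat_lit 228) (nat_lit 53499509502) (nat_lit 76) (nat_lit 449615147) (nat_lit 28) (nat_lit 5) (nat_lit 31) (nat_lit 5) (nat_lit 29) (nat_lit 5) (nat_lit 336) (nat_lit 282) (nat_lit 162)) (XT.lf (nat_lit 0) (nat_lit 28916348475) (nat_lit 228) (nat_lit 17650689422) (nat_lit 76) (nat_lit 22870137008) (nat_lit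 28) (nat_lit 5) (nat_lit 31) (nat_lit 5) (nat_lit 29) (nat_lit 5) (nat_lit 337) (nat_lit 282) (nat_lit 161))))) (XT.nd (nat_lit 234) (nat_lit 228) (nat_lit 0) (XT.nd (nat_lit 78) (nat_lit 152) (nat_lit 0) (XT.lf (nat_lit 0) (nat_lit 20378050397) (nat_lit 152) (nat_lit 25611736167) (nat_lit 228) (nat_lit 26225524819) (nat_lit 26) (nat_lit 5) (nat_lit 28) (nat_lit 5) (nat_lit 29) (nat_lit 5) (nat_lit 338) (nat_lit 282) (nat_lit 160)) (XT.nd (nat_lit 78) (nat_lit 152) (nat_lit 0) (XT.lf (nat_lit 0) (nat_lit 60667195810) (nat_lit 152) (nat_lit 3425598385) (nat_lit 228) (nat_lit 11034287091) (nat_lit 26) (nat_lit 5) (nat_lit 28) (nat_lit 5) (nat_lit 29) (nat_lit 5) (nat_lit 339) (nat_lit 282) (nat_lit 159)) (XT.lf (nat_lit 0) (nat_lit 5251269693) (nat_lit 152) (nat_lit 53148008338) (nat_lit 76) (nat_lit 19770826218) (nat_lit 24) (nat_lit 5) (nat_lit 26) (nat_lit 5) (nat_lit 25) (nat_lit 5) (nat_lit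 340) (nat_lit 282) (nat_lit 158)))) (XT.nd (nat_lit 156) (nat_lit 76) (nat_lit 0) (XT.nd (nat_lit 78) (nat_lit 152) (nat_lit 0) (XT.lf (nat_lit 0) (nat_lit 22304478185) (nat_lit 152) (nat_lit 14737266451) (nat_lit 76) (nat_lit 44314811926) (nat_lit 24) (nat_lit 5) (nat_lit 26) (nat_lit 5) (nat_lit 25) (nat_lit 5) (nat_lit 341) (nat_lit 282) (nat_lit 157)) (XT.lf (nat_lit 0) (nat_lit 26094274205) (nat_lit 152) (nat_lit 14361723737) (nat_lit 228) (nat_lit 44238966983) (nat_lit 22) (nat_lit 5) (nat_lit 24) (nat_lit 5) (nat_lit 25) (nat_lit 5) (nat_lit 342) (nat_lit 282) (nat_lit 156))) (XT.nd (nat_lit 78) (nat_lit 76) (nat_lit 0) (XT.lf (nat_lit 0) (nat_lit 59754109167) (nat_lit 228) (nat_lit 19021542250) (nat_lit 76) (nat_lit 9417474644) (nat_lit 22) (nat_lit 5) (nat_lit 25) (nat_lit 5) (nat_lit 23) (nat_lit 4) (nat_lit 343) (nat_lit 282) (nat_lit 155)) (XT.lf (nat_lit 0) (nat_lit 22828702398)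 (nat_lit 76) (nat_lit 57548009082) (nat_lit 152) (nat_lit 11478698892) (nat_lit 21) (nat_lit 5) (nat_lit 22) (nat_lit 5) (nat_lit 23) (nat_lit 4) (nat_lit 344) (nat_lit 282) (nat_lit 154))))))))
noncomputable def xc88 : XT := (XT.nd (nat_lit 36894) (nat_lit 0) (nat_lit 2964) (XT.nd (nat_lit 35880) (nat_lit 0) (nat_lit 11172) (XT.nd (nat_lit 468) (nat_lit 304) (nat_lit 0) (XT.nd (nat_lit 234) (nat_lit 76) (nat_lit 0) (XT.nd (nat_lit 78) (nat_lit 152) (nat_lit 0) (XT.lf (nat_lit 0) (nat_lit 6399157829) (nat_lit 152) (nat_lit 28596995356) (nat_lit 76) (nat_lit 60697041763) (nat_lit 20) (nat_lit 5) (nat_lit 22) (nat_lit 5) (nat_lit 21) (nat_lit 5) (nat_lit 345) (nat_lit 282) (nat_lit 153)) (XT.nd (nat_lit 78) (nat_lit 0) (nat_lit 0) (XT.lf (nat_lit 0) (nat_lit 14003770282) (nat_lit 152) (nat_lit 11062072081) (nat_lit 228) (nat_lit 74649649276) (nat_lit 18) (nat_lit 5) (nat_lit 20) (nat_lit 5)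 (nat_lit 21) (nat_lit 5) (nat_lit 346) (nat_lit 282) (nat_lit 152)) (XT.lf (nat_lit 0) (nat_lit 45094015250) (nat_lit 228) (nat_lit 44743772042) (nat_lit 76) (nat_lit 14088273500) (nat_lit 18) (nat_lit 5) (nat_lit 21) (nat_lit 5) (nat_lit 19) (nat_lit 4) (nat_lit 347) (nat_lit 282) (nat_lit 151)))) (XT.nd (nat_lit 78) (nat_lit 76) (nat_lit 0) (XT.lf (nat_lit 0) (nat_lit 66231079007) (nat_lit 228) (nat_lit 1846425872) (nat_lit 76) (nat_lit 40266431201) (nat_lit 18) (nat_lit 5) (nat_lit 21) (nat_lit 5) (nat_lit 19) (nat_lit 4) (nat_lit 348) (nat_lit 282) (nat_lit 150)) (XT.nd (nat_lit 78) (nat_lit 0) (nat_lit 0) (XT.lf (nat_lit 0) (nat_lit 44048330680) (nat_lit 76) (nat_lit 44796113393) (nat_lit 152) (nat_lit 24125679660) (nat_lit 17) (nat_lit 5) (nat_lit 18) (nat_lit 5) (nat_lit 19) (nat_lit 4) (nat_lit 349) (nat_lit 282) (nat_lit 149)) (XT.lf (nat_lit 0) (nat_lit 92269612029) (nat_lit 76)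 (nat_lit 20334025075) (nat_lit 152) (nat_lit 5223530816) (nat_lit 17) (nat_lit 5) (nat_lit 18) (nat_lit 5) (nat_lit 19) (nat_lit 4) (nat_lit 350) (nat_lit 282) (nat_lit 148))))) (XT.nd (nat_lit 234) (nat_lit 76) (nat_lit 0) (XT.nd (nat_lit 78) (nat_lit 0) (nat_lit 0) (XT.lf (nat_lit 0) (nat_lit 14583779122) (nat_lit 228) (nat_lit 102749473331) (nat_lit 76) (nat_lit 5582234040) (nat_lit 14) (nat_lit 5) (nat_lit 17) (nat_lit 5) (nat_lit 15) (nat_lit 4) (nat_lit 351) (nat_lit 282) (nat_lit 147)) (XT.nd (nat_lit 78) (nat_lit 0) (nat_lit 0) (XT.lf (nat_lit 0) (nat_lit 35741747762) (nat_lit 228) (nat_lit 59807497875) (nat_lit 76) (nat_lit 32693375811) (nat_lit 14) (nat_lit 5) (nat_lit 17) (nat_lit 5) (nat_lit 15) (nat_lit 4) (nat_lit 352) (nat_lit 282) (nat_lit 146)) (XT.lf (nat_lit 0) (nat_lit 57954172922) (nat_lit 228) (nat_lit 14724561355) (nat_lit 76) (nat_lit 61157483763) (nat_lit 14) (nat_lit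 5) (nat_lit 17) (nat_lit 5) (nat_lit 15) (nat_lit 4) (nat_lit 353) (nat_lit 282) (nat_lit 145)))) (XT.nd (nat_lit 156) (nat_lit 0) (nat_lit 0) (XT.nd (nat_lit 78) (nat_lit 0) (nat_lit 0) (XT.lf (nat_lit 0) (nat_lit 33255613352) (nat_lit 76) (nat_lit 48338001277) (nat_lit 152) (nat_lit 58106389528) (nat_lit 13) (nat_lit 5) (nat_lit 14) (nat_lit 5) (nat_lit 15) (nat_lit 4) (nat_lit 354) (nat_lit 282) (nat_lit 144)) (XT.lf (nat_lit 0) (nat_lit 83936818942) (nat_lit 76) (nat_lit 22626609352) (nat_lit 152) (nat_lit 39289100769) (nat_lit 13) (nat_lit 5) (nat_lit 14) (nat_lit 5) (nat_lit 15) (nat_lit 4) (nat_lit 355) (nat_lit 282) (nat_lit 143))) (XT.nd (nat_lit 34944) (nat_lit 0) (nat_lit 13452) (XT.lf (nat_lit 0) (nat_lit 132820695009) (nat_lit 152) (nat_lit 15208082669) (nat_lit 0) (nat_lit 4282735073) (nat_lit 13) (nat_lit 5) (nat_lit 15) (nat_lit 4) (nat_lit 13) (nat_lit 4) (nat_lit 356) (nat_lit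 282) (nat_lit 142)) (XT.lf (nat_lit 0) (nat_lit 3739204858) (nat_lit 1140) (nat_lit 1345426643) (nat_lit 1140) (nat_lit 1345426643) (nat_lit 190) (nat_lit 3) (nat_lit 205) (nat_lit 3) (nat_lit 205) (nat_lit 5) (nat_lit 283) (nat_lit 283) (nat_lit 214)))))) (XT.nd (nat_lit 468) (nat_lit 1444) (nat_lit 0) (XT.nd (nat_lit 234) (nat_lit 836) (nat_lit 0) (XT.nd (nat_lit 78) (nat_lit 0) (nat_lit 76) (XT.lf (nat_lit 76) (nat_lit 6928859045) (nat_lit 0) (nat_lit 1431313825) (nat_lit 1140) (nat_lit 4799589190) (nat_lit 191) (nat_lit 5) (nat_lit 190) (nat_lit 3) (nat_lit 205) (nat_lit 5) (nat_lit 284) (nat_lit 283) (nat_lit 213)) (XT.nd (nat_lit 78) (nat_lit 0) (nat_lit 76) (XT.lf (nat_lit 76) (nat_lit 3584855234) (nat_lit 0) (nat_lit 5797807810) (nat_lit 1140) (nat_lit 4088892756) (nat_lit 192) (nat_lit 5) (nat_lit 191) (nat_lit 5) (nat_lit 206) (nat_lit 5) (nat_lit 285) (nat_lit 283) (nat_lit 212))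 (XT.lf (nat_lit 76) (nat_lit 156623297) (nat_lit 0) (nat_lit 10374616017) (nat_lit 1140) (nat_lit 3265512825) (nat_lit 193) (nat_lit 5) (nat_lit 192) (nat_lit 5) (nat_lit 207) (nat_lit 5) (nat_lit 286) (nat_lit 283) (nat_lit 211)))) (XT.nd (nat_lit 78) (nat_lit 988) (nat_lit 0) (XT.lf (nat_lit 76) (nat_lit 10826356644) (nat_lit 0) (nat_lit 1033849581) (nat_lit 1140) (nat_lit 2274372034) (nat_lit 193) (nat_lit 5) (nat_lit 192) (nat_lit 5) (nat_lit 207) (nat_lit 5) (nat_lit 287) (nat_lit 283) (nat_lit 210)) (XT.nd (nat_lit 78) (nat_lit 1064) (nat_lit 0) (XT.lf (nat_lit 76) (nat_lit 7581042089) (nat_lit 0) (nat_lit 5796914930) (nat_lit 1140) (nat_lit 1107724617) (nat_lit 194) (nat_lit 5) (nat_lit 193) (nat_lit 5) (nat_lit 208) (nat_lit 5) (nat_lit 288) (nat_lit 283) (nat_lit 209)) (XT.lf (nat_lit 0) (nat_lit 206643905) (nat_lit 1140) (nat_lit 10613036790) (nat_lit 1216) (nat_lit 4031927167)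 (nat_lit 179) (nat_lit 5) (nat_lit 194) (nat_lit 5) (nat_lit 195) (nat_lit 5) (nat_lit 289) (nat_lit 283) (nat_lit 208))))) (XT.nd (nat_lit 234) (nat_lit 1444) (nat_lit 0) (XT.nd (nat_lit 78) (nat_lit 0) (nat_lit 76) (XT.lf (nat_lit 76) (nat_lit 770813037) (nat_lit 0) (nat_lit 898601284) (nat_lit 1216) (nat_lit 13562968593) (nat_lit 180) (nat_lit 5) (nat_lit 179) (nat_lit 5) (nat_lit 195) (nat_lit 5) (nat_lit 290) (nat_lit 283) (nat_lit 207)) (XT.nd (nat_lit 78) (nat_lit 0) (nat_lit 76) (XT.lf (nat_lit 0) (nat_lit 3376235328) (nat_lit 1140) (nat_lit 2799614398) (nat_lit 1216) (nat_lit 9451266613) (nat_lit 180) (nat_lit 5) (nat_lit 195) (nat_lit 5) (nat_lit 196) (nat_lit 5) (nat_lit 291) (nat_lit 283) (nat_lit 206)) (XT.lf (nat_lit 0) (nat_lit 5282230313) (nat_lit 1140) (nat_lit 6480292347) (nat_lit 1216) (nat_lit 4275693529) (nat_lit 181) (nat_lit 5) (nat_lit 196) (nat_lit 5) (nat_lit 197)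 (nat_lit 5) (nat_lit 292) (nat_lit 283) (nat_lit 205)))) (XT.nd (nat_lit 156) (nat_lit 532) (nat_lit 0) (XT.nd (nat_lit 78) (nat_lit 1064) (nat_lit 0) (XT.lf (nat_lit 76) (nat_lit 6157447142) (nat_lit 0) (nat_lit 1248510650) (nat_lit 1216) (nat_lit 9060282873) (nat_lit 182) (nat_lit 5) (nat_lit 181) (nat_lit 5) (nat_lit 197) (nat_lit 5) (nat_lit 293) (nat_lit 283) (nat_lit 204)) (XT.lf (nat_lit 0) (nat_lit 2581252541) (nat_lit 1140) (nat_lit 7213899185) (nat_lit 1216) (nat_lit 7115776818) (nat_lit 167) (nat_lit 5) (nat_lit 182) (nat_lit 5) (nat_lit 183) (nat_lit 5) (nat_lit 294) (nat_lit 283) (nat_lit 203))) (XT.nd (nat_lit 78) (nat_lit 532) (nat_lit 0) (XT.lf (nat_lit 0) (nat_lit 12433936383) (nat_lit 1216) (nat_lit 1116722605) (nat_lit 76) (nat_lit 3823326551) (nat_lit 167) (nat_lit 5) (nat_lit 183) (nat_lit 5) (nat_lit 168) (nat_lit 5) (nat_lit 295) (nat_lit 283) (nat_lit 202)) (XT.lf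 (nat_lit 0) (nat_lit 12913822644) (nat_lit 532) (nat_lit 2463101660) (nat_lit 608) (nat_lit 2478139968) (nat_lit 160) (nat_lit 5) (nat_lit 167) (nat_lit 5) (nat_lit 168) (nat_lit 5) (nat_lit 296) (nat_lit 283) (nat_lit 201))))))) (XT.nd (nat_lit 1014) (nat_lit 3344) (nat_lit 0) (XT.nd (nat_lit 468) (nat_lit 2204) (nat_lit 0) (XT.nd (nat_lit 234) (nat_lit 912) (nat_lit 0) (XT.nd (nat_lit 78) (nat_lit 1064) (nat_lit 0) (XT.lf (nat_lit 0) (nat_lit 272721750) (nat_lit 684) (nat_lit 8976180203) (nat_lit 76) (nat_lit 9106259938) (nat_lit 151) (nat_lit 5) (nat_lit 160) (nat_lit 5) (nat_lit 152) (nat_lit 5) (nat_lit 297) (nat_lit 283) (nat_lit 200)) (XT.nd (nat_lit 78) (nat_lit 532) (nat_lit 0) (XT.lf (nat_lit 0) (nat_lit 3241772407) (nat_lit 608) (nat_lit 13222021318) (nat_lit 76) (nat_lit 2411810073) (nat_lit 144) (nat_lit 5) (nat_lit 152) (nat_lit 5) (nat_lit 145) (nat_lit 5) (nat_lit 298) (nat_lit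 283) (nat_lit 199)) (XT.lf (nat_lit 0) (nat_lit 1699732848) (nat_lit 532) (nat_lit 4840410696) (nat_lit 608) (nat_lit 12876529090) (nat_lit 137) (nat_lit 5) (nat_lit 144) (nat_lit 5) (nat_lit 145) (nat_lit 5) (nat_lit 299) (nat_lit 283) (nat_lit 198)))) (XT.nd (nat_lit 78) (nat_lit 912) (nat_lit 0) (XT.lf (nat_lit 0) (nat_lit 10190382294) (nat_lit 608) (nat_lit 2431280017) (nat_lit 76) (nat_lit 7357553533) (nat_lit 137) (nat_lit 5) (nat_lit 145) (nat_lit 5) (nat_lit 138) (nat_lit 5) (nat_lit 300) (nat_lit 283) (nat_lit 197)) (XT.nd (nat_lit 78) (nat_lit 456) (nat_lit 0) (XT.lf (nat_lit 0) (nat_lit 13818204327) (nat_lit 456) (nat_lit 366330994) (nat_lit 532) (nat_lit 6380536823) (nat_lit 131) (nat_lit 5) (nat_lit 137) (nat_lit 5) (nat_lit 138) (nat_lit 5) (nat_lit 301) (nat_lit 283) (nat_lit 196)) (XT.lf (nat_lit 0) (nat_lit 9801093034) (nat_lit 456) (nat_lit 8797441908) (nat_lit 532) (nat_lit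 2575108820) (nat_lit 125) (nat_lit 5) (nat_lit 131) (nat_lit 5) (nat_lit 132) (nat_lit 5) (nat_lit 302) (nat_lit 283) (nat_lit 195))))) (XT.nd (nat_lit 234) (nat_lit 1216) (nat_lit 0) (XT.nd (nat_lit 78) (nat_lit 456) (nat_lit 0) (XT.lf (nat_lit 0) (nat_lit 1540483366) (nat_lit 532) (nat_lit 16271551920) (nat_lit 76) (nat_lit 3995795257) (nat_lit 118) (nat_lit 5) (nat_lit 125) (nat_lit 5) (nat_lit 119) (nat_lit 5) (nat_lit 303) (nat_lit 283) (nat_lit 194)) (XT.nd (nat_lit 78) (nat_lit 0) (nat_lit 0) (XT.lf (nat_lit 0) (nat_lit 939392343) (nat_lit 456) (nat_lit 5067438040) (nat_lit 532) (nat_lit 16460207908) (nat_lit 112) (nat_lit 5) (nat_lit 118) (nat_lit 5) (nat_lit 119) (nat_lit 5) (nat_lit 304) (nat_lit 283) (nat_lit 193)) (XT.lf (nat_lit 0) (nat_lit 10927910577) (nat_lit 532) (nat_lit 3905756553) (nat_lit 76) (nat_lit 8318619187) (nat_lit 112) (nat_lit 5) (nat_lit 119) (nat_lit 5) (nat_lit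 113) (nat_lit 5) (nat_lit 305) (nat_lit 283) (nat_lit 192)))) (XT.nd (nat_lit 156) (nat_lit 456) (nat_lit 0) (XT.nd (nat_lit 78) (nat_lit 380) (nat_lit 0) (XT.lf (nat_lit 0) (nat_lit 14815270055) (nat_lit 380) (nat_lit 1456509457) (nat_lit 456) (nat_lit 7594736495) (nat_lit 107) (nat_lit 5) (nat_lit 112) (nat_lit 5) (nat_lit 113) (nat_lit 5) (nat_lit 306) (nat_lit 283) (nat_lit 191)) (XT.lf (nat_lit 0) (nat_lit 9992473387) (nat_lit 380) (nat_lit 12131804365) (nat_lit 456) (nat_lit 2484956638) (nat_lit 102) (nat_lit 5) (nat_lit 107) (nat_lit 5) (nat_lit 108) (nat_lit 5) (nat_lit 307) (nat_lit 283) (nat_lit 190))) (XT.nd (nat_lit 78) (nat_lit 0) (nat_lit 0) (XT.lf (nat_lit 0) (nat_lit 2981305186) (nat_lit 456) (nat_lit 20579525969) (nat_lit 76) (nat_lit 1822729730) (nat_lit 96) (nat_lit 5) (nat_lit 102) (nat_lit 5) (nat_lit 97) (nat_lit 5) (nat_lit 308) (nat_lit 283) (nat_lit 189)) (XT.lf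 (nat_lit 0) (nat_lit 8929079463) (nat_lit 456) (nat_lit 859251265) (nat_lit 76) (nat_lit 16399764972) (nat_lit 96) (nat_lit 5) (nat_lit 102) (nat_lit 5) (nat_lit 97) (nat_lit 5) (nat_lit 309) (nat_lit 283) (nat_lit 188)))))) (XT.nd (nat_lit 546) (nat_lit 1292) (nat_lit 0) (XT.nd (nat_lit 234) (nat_lit 912) (nat_lit 0) (XT.nd (nat_lit 78) (nat_lit 760) (nat_lit 0) (XT.lf (nat_lit 0) (nat_lit 15400880714) (nat_lit 456) (nat_lit 6851152889) (nat_lit 76) (nat_lit 4774041520) (nat_lit 91) (nat_lit 5) (nat_lit 97) (nat_lit 5) (nat_lit 92) (nat_lit 5) (nat_lit 310) (nat_lit 283) (nat_lit 187)) (XT.nd (nat_lit 78) (nat_lit 456) (nat_lit 0) (XT.lf (nat_lit 0) (nat_lit 14539505832) (nat_lit 304) (nat_lit 7890176846) (nat_lit 380) (nat_lit 5469284725) (nat_lit 87) (nat_lit 5) (nat_lit 91) (nat_lit 5) (nat_lit 92) (nat_lit 5) (nat_lit 311) (nat_lit 283) (nat_lit 186)) (XT.lf (nat_lit 0) (nat_lit 1184567345)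 (nat_lit 456) (nat_lit 20415475337) (nat_lit 76) (nat_lit 7208903278) (nat_lit 81) (nat_lit 5) (nat_lit 87) (nat_lit 5) (nat_lit 82) (nat_lit 5) (nat_lit 312) (nat_lit 283) (nat_lit 185)))) (XT.nd (nat_lit 156) (nat_lit 608) (nat_lit 0) (XT.nd (nat_lit 78) (nat_lit 0) (nat_lit 0) (XT.lf (nat_lit 0) (nat_lit 1630530295) (nat_lit 304) (nat_lit 6649427017) (nat_lit 380) (nat_lit 21476197109) (nat_lit 77) (nat_lit 5) (nat_lit 81) (nat_lit 5) (nat_lit 82) (nat_lit 5) (nat_lit 313) (nat_lit 283) (nat_lit 184)) (XT.lf (nat_lit 0) (nat_lit 16016468880) (nat_lit 380) (nat_lit 5645869197) (nat_lit 76) (nat_lit 9079808254) (nat_lit 77) (nat_lit 5) (nat_lit 82) (nat_lit 5) (nat_lit 78) (nat_lit 5) (nat_lit 314) (nat_lit 283) (nat_lit 183))) (XT.nd (nat_lit 78) (nat_lit 304) (nat_lit 0) (XT.lf (nat_lit 0) (nat_lit 18229484328) (nat_lit 304) (nat_lit 6140411965) (nat_lit 380) (nat_lit 7400651779) (nat_lit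 73) (nat_lit 5) (nat_lit 77) (nat_lit 5) (nat_lit 78) (nat_lit 5) (nat_lit 315) (nat_lit 283) (nat_lit 182)) (XT.lf (nat_lit 0) (nat_lit 534325269) (nat_lit 304) (nat_lit 22187267300) (nat_lit 76) (nat_lit 10121224351) (nat_lit 69) (nat_lit 5) (nat_lit 73) (nat_lit 5) (nat_lit 70) (nat_lit 5) (nat_lit 316) (nat_lit 283) (nat_lit 181))))) (XT.nd (nat_lit 234) (nat_lit 760) (nat_lit 0) (XT.nd (nat_lit 78) (nat_lit 228) (nat_lit 0) (XT.lf (nat_lit 0) (nat_lit 2270096568) (nat_lit 304) (nat_lit 6657298577) (nat_lit 380) (nat_lit 25032685226) (nat_lit 65) (nat_lit 5) (nat_lit 69) (nat_lit 5) (nat_lit 70) (nat_lit 5) (nat_lit 317) (nat_lit 283) (nat_lit 180)) (XT.nd (nat_lit 78) (nat_lit 228) (nat_lit 0) (XT.lf (nat_lit 0) (nat_lit 18057681222) (nat_lit 380) (nat_lit 6829202242) (nat_lit 76) (nat_lit 10236807503) (nat_lit 65) (nat_lit 5) (nat_lit 70) (nat_lit 5) (nat_lit 66) (nat_lit 5) (nat_lit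 318) (nat_lit 283) (nat_lit 179)) (XT.lf (nat_lit 0) (nat_lit 19573744348) (nat_lit 228) (nat_lit 8315377418) (nat_lit 304) (nat_lit 8449031461) (nat_lit 62) (nat_lit 5) (nat_lit 65) (nat_lit 5) (nat_lit 66) (nat_lit 5) (nat_lit 319) (nat_lit 283) (nat_lit 178)))) (XT.nd (nat_lit 156) (nat_lit 456) (nat_lit 0) (XT.nd (nat_lit 78) (nat_lit 0) (nat_lit 0) (XT.lf (nat_lit 0) (nat_lit 832785022) (nat_lit 304) (nat_lit 27695836368) (nat_lit 76) (nat_lit 9077183872) (nat_lit 58) (nat_lit 5) (nat_lit 62) (nat_lit 5) (nat_lit 59) (nat_lit 5) (nat_lit 320) (nat_lit 283) (nat_lit 177)) (XT.lf (nat_lit 0) (nat_lit 10653641200) (nat_lit 304) (nat_lit 849414138) (nat_lit 76) (nat_lit 27423793415) (nat_lit 58) (nat_lit 5) (nat_lit 62) (nat_lit 5) (nat_lit 59) (nat_lit 5) (nat_lit 321) (nat_lit 283) (nat_lit 176))) (XT.nd (nat_lit 78) (nat_lit 228) (nat_lit 0) (XT.lf (nat_lit 0) (nat_lit 21287639457) (nat_lit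 304) (nat_lit 12501437006) (nat_lit 76) (nat_lit 6515213648) (nat_lit 55) (nat_lit 5) (nat_lit 59) (nat_lit 5) (nat_lit 56) (nat_lit 5) (nat_lit 322) (nat_lit 283) (nat_lit 175)) (XT.lf (nat_lit 0) (nat_lit 16343544491) (nat_lit 228) (nat_lit 16382444363) (nat_lit 304) (nat_lit 9016443404) (nat_lit 52) (nat_lit 5) (nat_lit 55) (nat_lit 5) (nat_lit 56) (nat_lit 5) (nat_lit 323) (nat_lit 283) (nat_lit 174))))))))
noncomputable def xc89 : XT := (XT.nd (nat_lit 2028) (nat_lit 380) (nat_lit 0) (XT.nd (nat_lit 1014) (nat_lit 988) (nat_lit 0) (XT.nd (nat_lit 468) (nat_lit 684) (nat_lit 0) (XT.nd (nat_lit 234) (nat_lit 456) (nat_lit 0) (XT.nd (nat_lit 78) (nat_lit 228) (nat_lit 0) (XT.lf (nat_lit 0) (nat_lit 1630986434) (nat_lit 228) (nat_lit 39581645350) (nat_lit 76) (nat_lit 2034144495) (nat_lit 49) (nat_lit 5) (nat_lit 52) (nat_lit 5) (nat_lit 50) (nat_lit 5) (nat_lit 324) (nat_lit 283) (nat_lit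 173)) (XT.nd (nat_lit 78) (nat_lit 228) (nat_lit 0) (XT.lf (nat_lit 0) (nat_lit 13046534641) (nat_lit 228) (nat_lit 10378258608) (nat_lit 76) (nat_lit 21386206749) (nat_lit 49) (nat_lit 5) (nat_lit 52) (nat_lit 5) (nat_lit 50) (nat_lit 5) (nat_lit 325) (nat_lit 283) (nat_lit 172)) (XT.lf (nat_lit 0) (nat_lit 20675482350) (nat_lit 228) (nat_lit 4547635200) (nat_lit 304) (nat_lit 21224616560) (nat_lit 46) (nat_lit 5) (nat_lit 49) (nat_lit 5) (nat_lit 50) (nat_lit 5) (nat_lit 326) (nat_lit 283) (nat_lit 171)))) (XT.nd (nat_lit 78) (nat_lit 304) (nat_lit 0) (XT.lf (nat_lit 0) (nat_lit 5277701924) (nat_lit 152) (nat_lit 33028017275) (nat_lit 228) (nat_lit 9851676636) (nat_lit 44) (nat_lit 5) (nat_lit 46) (nat_lit 5) (nat_lit 47) (nat_lit 5) (nat_lit 327) (nat_lit 283) (nat_lit 170)) (XT.nd (nat_lit 78) (nat_lit 228) (nat_lit 0) (XT.lf (nat_lit 0) (nat_lit 2354891092) (nat_lit 228) (nat_lit 11607367677)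 (nat_lit 76) (nat_lit 35980512416) (nat_lit 43) (nat_lit 5) (nat_lit 46) (nat_lit 5) (nat_lit 44) (nat_lit 5) (nat_lit 328) (nat_lit 283) (nat_lit 169)) (XT.lf (nat_lit 0) (nat_lit 15230490148) (nat_lit 304) (nat_lit 30332536221) (nat_lit 76) (nat_lit 6243594979) (nat_lit 40) (nat_lit 5) (nat_lit 44) (nat_lit 5) (nat_lit 41) (nat_lit 5) (nat_lit 329) (nat_lit 283) (nat_lit 168))))) (XT.nd (nat_lit 234) (nat_lit 304) (nat_lit 0) (XT.nd (nat_lit 78) (nat_lit 228) (nat_lit 0) (XT.lf (nat_lit 0) (nat_lit 2588385369) (nat_lit 152) (nat_lit 26440485060) (nat_lit 228) (nat_lit 24726429084) (nat_lit 38) (nat_lit 5) (nat_lit 40) (nat_lit 5) (nat_lit 41) (nat_lit 5) (nat_lit 330) (nat_lit 283) (nat_lit 167)) (XT.nd (nat_lit 78) (nat_lit 228) (nat_lit 0) (XT.lf (nat_lit 0) (nat_lit 37777454003) (nat_lit 152) (nat_lit 6044730339) (nat_lit 228) (nat_lit 11970082073) (nat_lit 38) (nat_lit 5) (nat_lit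 40) (nat_lit 5) (nat_lit 41) (nat_lit 5) (nat_lit 331) (nat_lit 283) (nat_lit 166)) (XT.lf (nat_lit 0) (nat_lit 1703217801) (nat_lit 228) (nat_lit 40971812109) (nat_lit 76) (nat_lit 15246438215) (nat_lit 35) (nat_lit 5) (nat_lit 38) (nat_lit 5) (nat_lit 36) (nat_lit 5) (nat_lit 332) (nat_lit 283) (nat_lit 165)))) (XT.nd (nat_lit 156) (nat_lit 152) (nat_lit 0) (XT.nd (nat_lit 78) (nat_lit 152) (nat_lit 0) (XT.lf (nat_lit 0) (nat_lit 16056441493) (nat_lit 228) (nat_lit 6307609651) (nat_lit 76) (nat_lit 37782213391) (nat_lit 35) (nat_lit 5) (nat_lit 38) (nat_lit 5) (nat_lit 36) (nat_lit 5) (nat_lit 333) (nat_lit 283) (nat_lit 164)) (XT.lf (nat_lit 0) (nat_lit 30677785964) (nat_lit 152) (nat_lit 737980315) (nat_lit 228) (nat_lit 31057885708) (nat_lit 33) (nat_lit 5) (nat_lit 35) (nat_lit 5) (nat_lit 36) (nat_lit 5) (nat_lit 334) (nat_lit 283) (nat_lit 163))) (XT.nd (nat_lit 78) (nat_lit 0) (nat_lit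 0) (XT.lf (nat_lit 0) (nat_lit 4596164637) (nat_lit 152) (nat_lit 43261545953) (nat_lit 228) (nat_lit 17050262829) (nat_lit 31) (nat_lit 5) (nat_lit 33) (nat_lit 5) (nat_lit 34) (nat_lit 5) (nat_lit 335) (nat_lit 283) (nat_lit 162)) (XT.lf (nat_lit 0) (nat_lit 43454443051) (nat_lit 152) (nat_lit 21995911044) (nat_lit 228) (nat_lit 2003802777) (nat_lit 31) (nat_lit 5) (nat_lit 33) (nat_lit 5) (nat_lit 34) (nat_lit 5) (nat_lit 336) (nat_lit 283) (nat_lit 161)))))) (XT.nd (nat_lit 468) (nat_lit 456) (nat_lit 0) (XT.nd (nat_lit 234) (nat_lit 152) (nat_lit 0) (XT.nd (nat_lit 78) (nat_lit 152) (nat_lit 0) (XT.lf (nat_lit 0) (nat_lit 13662881666) (nat_lit 228) (nat_lit 55861682354) (nat_lit 76) (nat_lit 594998275) (nat_lit 28) (nat_lit 5) (nat_lit 31) (nat_lit 5) (nat_lit 29) (nat_lit 5) (nat_lit 337) (nat_lit 283) (nat_lit 160)) (XT.nd (nat_lit 78) (nat_lit 152) (nat_lit 0) (XT.lf (nat_lit 0)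 (nat_lit 30537650213) (nat_lit 228) (nat_lit 18235316633) (nat_lit 76) (nat_lit 24130693736) (nat_lit 28) (nat_lit 5) (nat_lit 31) (nat_lit 5) (nat_lit 29) (nat_lit 5) (nat_lit 338) (nat_lit 283) (nat_lit 159)) (XT.lf (nat_lit 0) (nat_lit 21686320725) (nat_lit 152) (nat_lit 26772864666) (nat_lit 228) (nat_lit 27361690906) (nat_lit 26) (nat_lit 5) (nat_lit 28) (nat_lit 5) (nat_lit 29) (nat_lit 5) (nat_lit 339) (nat_lit 283) (nat_lit 158)))) (XT.nd (nat_lit 78) (nat_lit 152) (nat_lit 0) (XT.lf (nat_lit 0) (nat_lit 63976143990) (nat_lit 152) (nat_lit 3483108485) (nat_lit 228) (nat_lit 11419229870) (nat_lit 26) (nat_lit 5) (nat_lit 28) (nat_lit 5) (nat_lit 29) (nat_lit 5) (nat_lit 340) (nat_lit 283) (nat_lit 157)) (XT.nd (nat_lit 78) (nat_lit 0) (nat_lit 0) (XT.lf (nat_lit 0) (nat_lit 5673250820) (nat_lit 152) (nat_lit 55530707547) (nat_lit 76) (nat_lit 20869777536) (nat_lit 24) (nat_lit 5)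 (nat_lit 26) (nat_lit 5) (nat_lit 25) (nat_lit 5) (nat_lit 341) (nat_lit 283) (nat_lit 156)) (XT.lf (nat_lit 0) (nat_lit 23571528420) (nat_lit 152) (nat_lit 15212509576) (nat_lit 76) (nat_lit 46635704910) (nat_lit 24) (nat_lit 5) (nat_lit 26) (nat_lit 5) (nat_lit 25) (nat_lit 5) (nat_lit 342) (nat_lit 283) (nat_lit 155))))) (XT.nd (nat_lit 234) (nat_lit 228) (nat_lit 0) (XT.nd (nat_lit 78) (nat_lit 76) (nat_lit 0) (XT.lf (nat_lit 0) (nat_lit 27653108822) (nat_lit 152) (nat_lit 14972728283) (nat_lit 228) (nat_lit 46299382322) (nat_lit 22) (nat_lit 5) (nat_lit 24) (nat_lit 5) (nat_lit 25) (nat_lit 5) (nat_lit 343) (nat_lit 283) (nat_lit 154)) (XT.nd (nat_lit 78) (nat_lit 76) (nat_lit 0) (XT.lf (nat_lit 0) (nat_lit 62882832341) (nat_lit 228) (nat_lit 19727300013) (nat_lit 76) (nat_lit 9988340845) (nat_lit 22) (nat_lit 5) (nat_lit 25) (nat_lit 5) (nat_lit 23) (nat_lit 4) (nat_lit 344) (nat_lit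 283) (nat_lit 153)) (XT.lf (nat_lit 0) (nat_lit 24208424837) (nat_lit 76) (nat_lit 60323715366) (nat_lit 152) (nat_lit 11911868004) (nat_lit 21) (nat_lit 5) (nat_lit 22) (nat_lit 5) (nat_lit 23) (nat_lit 4) (nat_lit 345) (nat_lit 283) (nat_lit 152)))) (XT.nd (nat_lit 156) (nat_lit 0) (nat_lit 0) (XT.nd (nat_lit 78) (nat_lit 152) (nat_lit 0) (XT.lf (nat_lit 0) (nat_lit 6850562372) (nat_lit 152) (nat_lit 29797219527) (nat_lit 76) (nat_lit 63826060150) (nat_lit 20) (nat_lit 5) (nat_lit 22) (nat_lit 5) (nat_lit 21) (nat_lit 5) (nat_lit 346) (nat_lit 283) (nat_lit 151)) (XT.lf (nat_lit 0) (nat_lit 14927002221) (nat_lit 152) (nat_lit 11519463578) (nat_lit 228) (nat_lit 78250914534) (nat_lit 18) (nat_lit 5) (nat_lit 20) (nat_lit 5) (nat_lit 21) (nat_lit 5) (nat_lit 347) (nat_lit 283) (nat_lit 150))) (XT.nd (nat_lit 78) (nat_lit 0) (nat_lit 0) (XT.lf (nat_lit 0) (nat_lit 47470860166) (nat_lit 228)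 (nat_lit 46765713720) (nat_lit 76) (nat_lit 14882062812) (nat_lit 18) (nat_lit 5) (nat_lit 21) (nat_lit 5) (nat_lit 19) (nat_lit 4) (nat_lit 348) (nat_lit 283) (nat_lit 149)) (XT.lf (nat_lit 0) (nat_lit 69658960723) (nat_lit 228) (nat_lit 1733750096) (nat_lit 76) (nat_lit 42364872416) (nat_lit 18) (nat_lit 5) (nat_lit 21) (nat_lit 5) (nat_lit 19) (nat_lit 4) (nat_lit 349) (nat_lit 283) (nat_lit 148))))))) (XT.nd (nat_lit 35958) (nat_lit 0) (nat_lit 8512) (XT.nd (nat_lit 468) (nat_lit 0) (nat_lit 0) (XT.nd (nat_lit 234) (nat_lit 76) (nat_lit 0) (XT.nd (nat_lit 78) (nat_lit 228) (nat_lit 0) (XT.lf (nat_lit 0) (nat_lit 46449868084) (nat_lit 76) (nat_lit 46949500611) (nat_lit 152) (nat_lit 25215823182) (nat_lit 17) (nat_lit 5) (nat_lit 18) (nat_lit 5) (nat_lit 19) (nat_lit 4) (nat_lit 350) (nat_lit 283) (nat_lit 147)) (XT.nd (nat_lit 78) (nat_lit 228) (nat_lit 0) (XT.lf (nat_lit 0) (nat_lit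 97072731554) (nat_lit 76) (nat_lit 21268423042) (nat_lit 152) (nat_lit 5374097394) (nat_lit 17) (nat_lit 5) (nat_lit 18) (nat_lit 5) (nat_lit 19) (nat_lit 4) (nat_lit 351) (nat_lit 283) (nat_lit 146)) (XT.lf (nat_lit 0) (nat_lit 15418827836) (nat_lit 228) (nat_lit 107698175055) (nat_lit 76) (nat_lit 5941031967) (nat_lit 14) (nat_lit 5) (nat_lit 17) (nat_lit 5) (nat_lit 15) (nat_lit 4) (nat_lit 352) (nat_lit 283) (nat_lit 145)))) (XT.nd (nat_lit 78) (nat_lit 76) (nat_lit 0) (XT.lf (nat_lit 0) (nat_lit 37629653967) (nat_lit 228) (nat_lit 62618089967) (nat_lit 76) (nat_lit 34403936244) (nat_lit 14) (nat_lit 5) (nat_lit 17) (nat_lit 5) (nat_lit 15) (nat_lit 4) (nat_lit 353) (nat_lit 283) (nat_lit 144)) (XT.nd (nat_lit 78) (nat_lit 76) (nat_lit 0) (XT.lf (nat_lit 0) (nat_lit 60947899489) (nat_lit 228) (nat_lit 15289567707) (nat_lit 76) (nat_lit 64287635706) (nat_lit 14) (nat_lit 5) (nat_lit 17)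 (nat_lit 5) (nat_lit 15) (nat_lit 4) (nat_lit 354) (nat_lit 283) (nat_lit 143)) (XT.lf (nat_lit 0) (nat_lit 35084707700) (nat_lit 76) (nat_lit 50681632008) (nat_lit 152) (nat_lit 60915829990) (nat_lit 13) (nat_lit 5) (nat_lit 14) (nat_lit 5) (nat_lit 15) (nat_lit 4) (nat_lit 355) (nat_lit 283) (nat_lit 142))))) (XT.nd (nat_lit 35178) (nat_lit 0) (nat_lit 13528) (XT.nd (nat_lit 35022) (nat_lit 0) (nat_lit 13452) (XT.lf (nat_lit 0) (nat_lit 88292053871) (nat_lit 76) (nat_lit 23688159503) (nat_lit 152) (nat_lit 41162242460) (nat_lit 13) (nat_lit 5) (nat_lit 14) (nat_lit 5) (nat_lit 15) (nat_lit 4) (nat_lit 356) (nat_lit 283) (nat_lit 141)) (XT.nd (nat_lit 78) (nat_lit 0) (nat_lit 0) (XT.lf (nat_lit 0) (nat_lit 4544555641) (nat_lit 1140) (nat_lit 1093728230) (nat_lit 1140) (nat_lit 1093728230) (nat_lit 190) (nat_lit 3) (nat_lit 205) (nat_lit 3) (nat_lit 205) (nat_lit 5) (nat_lit 284) (nat_lit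 284) (nat_lit 212)) (XT.lf (nat_lit 76) (nat_lit 7894955080) (nat_lit 0) (nat_lit 2067069660) (nat_lit 1140) (nat_lit 3818310633) (nat_lit 191) (nat_lit 5) (nat_lit 190) (nat_lit 3) (nat_lit 205) (nat_lit 5) (nat_lit 285) (nat_lit 284) (nat_lit 211)))) (XT.nd (nat_lit 156) (nat_lit 0) (nat_lit 76) (XT.nd (nat_lit 78) (nat_lit 0) (nat_lit 76) (XT.lf (nat_lit 76) (nat_lit 4407599032) (nat_lit 0) (nat_lit 6572687543) (nat_lit 1140) (nat_lit 3129183262) (nat_lit 192) (nat_lit 5) (nat_lit 191) (nat_lit 5) (nat_lit 206) (nat_lit 5) (nat_lit 286) (nat_lit 284) (nat_lit 210)) (XT.lf (nat_lit 76) (nat_lit 828679508) (nat_lit 0) (nat_lit 11305819437) (nat_lit 1140) (nat_lit 2318066974) (nat_lit 193) (nat_lit 5) (nat_lit 192) (nat_lit 5) (nat_lit 207) (nat_lit 5) (nat_lit 287) (nat_lit 284) (nat_lit 209))) (XT.nd (nat_lit 78) (nat_lit 0) (nat_lit 76) (XT.lf (nat_lit 76) (nat_lit 12000269757) (nat_lit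 0) (nat_lit 1478373127) (nat_lit 1140) (nat_lit 1330260643) (nat_lit 193) (nat_lit 5) (nat_lit 192) (nat_lit 5) (nat_lit 207) (nat_lit 5) (nat_lit 288) (nat_lit 284) (nat_lit 208)) (XT.lf (nat_lit 76) (nat_lit 8609698950) (nat_lit 0) (nat_lit 6416400525) (nat_lit 1140) (nat_lit 152926188) (nat_lit 194) (nat_lit 5) (nat_lit 193) (nat_lit 5) (nat_lit 208) (nat_lit 5) (nat_lit 289) (nat_lit 284) (nat_lit 207)))))) (XT.nd (nat_lit 546) (nat_lit 3192) (nat_lit 0) (XT.nd (nat_lit 234) (nat_lit 912) (nat_lit 0) (XT.nd (nat_lit 78) (nat_lit 0) (nat_lit 0) (XT.lf (nat_lit 0) (nat_lit 1163682468) (nat_lit 1140) (nat_lit 10459287360) (nat_lit 1216) (nat_lit 3941372281) (nat_lit 179) (nat_lit 5) (nat_lit 194) (nat_lit 5) (nat_lit 195) (nat_lit 5) (nat_lit 290) (nat_lit 284) (nat_lit 206)) (XT.nd (nat_lit 78) (nat_lit 0) (nat_lit 76) (XT.lf (nat_lit 76) (nat_lit 1474136733) (nat_lit 0) (nat_lit 1186763718)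 (nat_lit 1216) (nat_lit 13304485000) (nat_lit 180) (nat_lit 5) (nat_lit 179) (nat_lit 5) (nat_lit 195) (nat_lit 5) (nat_lit 291) (nat_lit 284) (nat_lit 205)) (XT.lf (nat_lit 0) (nat_lit 4407596918) (nat_lit 1140) (nat_lit 2276987735) (nat_lit 1216) (nat_lit 9696700391) (nat_lit 180) (nat_lit 5) (nat_lit 195) (nat_lit 5) (nat_lit 196) (nat_lit 5) (nat_lit 292) (nat_lit 284) (nat_lit 204)))) (XT.nd (nat_lit 156) (nat_lit 1064) (nat_lit 0) (XT.nd (nat_lit 78) (nat_lit 0) (nat_lit 0) (XT.lf (nat_lit 0) (nat_lit 6372235471) (nat_lit 1140) (nat_lit 6132845807) (nat_lit 1216) (nat_lit 4309020706) (nat_lit 181) (nat_lit 5) (nat_lit 196) (nat_lit 5) (nat_lit 197) (nat_lit 5) (nat_lit 293) (nat_lit 284) (nat_lit 203)) (XT.lf (nat_lit 76) (nat_lit 7117533357) (nat_lit 0) (nat_lit 1451557176) (nat_lit 1216) (nat_lit 8695488351) (nat_lit 182) (nat_lit 5) (nat_lit 181) (nat_lit 5) (nat_lit 197) (nat_lit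 5) (nat_lit 294) (nat_lit 284) (nat_lit 202))) (XT.nd (nat_lit 78) (nat_lit 0) (nat_lit 0) (XT.lf (nat_lit 0) (nat_lit 3369404379) (nat_lit 1140) (nat_lit 7675633947) (nat_lit 1216) (nat_lit 6687500615) (nat_lit 167) (nat_lit 5) (nat_lit 182) (nat_lit 5) (nat_lit 183) (nat_lit 5) (nat_lit 295) (nat_lit 284) (nat_lit 201)) (XT.lf (nat_lit 0) (nat_lit 13778640590) (nat_lit 1216) (nat_lit 521133500) (nat_lit 76) (nat_lit 3920142257) (nat_lit 167) (nat_lit 5) (nat_lit 183) (nat_lit 5) (nat_lit 168) (nat_lit 5) (nat_lit 296) (nat_lit 284) (nat_lit 200))))) (XT.nd (nat_lit 234) (nat_lit 1444) (nat_lit 0) (XT.nd (nat_lit 78) (nat_lit 1216) (nat_lit 0) (XT.lf (nat_lit 0) (nat_lit 14192266038) (nat_lit 532) (nat_lit 2648165348) (nat_lit 608) (nat_lit 1885519372) (nat_lit 160) (nat_lit 5) (nat_lit 167) (nat_lit 5) (nat_lit 168) (nat_lit 5) (nat_lit 297) (nat_lit 284) (nat_lit 199)) (XT.nd (nat_lit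 78) (nat_lit 532) (nat_lit 0) (XT.lf (nat_lit 0) (nat_lit 961054821) (nat_lit 684) (nat_lit 8774179391) (nat_lit 76) (nat_lit 9516495348) (nat_lit 151) (nat_lit 5) (nat_lit 160) (nat_lit 5) (nat_lit 152) (nat_lit 5) (nat_lit 298) (nat_lit 284) (nat_lit 198)) (XT.lf (nat_lit 0) (nat_lit 4052347721) (nat_lit 608) (nat_lit 13230445718) (nat_lit 76) (nat_lit 2516231648) (nat_lit 144) (nat_lit 5) (nat_lit 152) (nat_lit 5) (nat_lit 145) (nat_lit 5) (nat_lit 299) (nat_lit 284) (nat_lit 197)))) (XT.nd (nat_lit 156) (nat_lit 912) (nat_lit 0) (XT.nd (nat_lit 78) (nat_lit 0) (nat_lit 0) (XT.lf (nat_lit 0) (nat_lit 2418687311) (nat_lit 532) (nat_lit 5072163871) (nat_lit 608) (nat_lit 12877082831) (nat_lit 137) (nat_lit 5) (nat_lit 144) (nat_lit 5) (nat_lit 145) (nat_lit 5) (nat_lit 300) (nat_lit 284) (nat_lit 196)) (XT.lf (nat_lit 0) (nat_lit 11293995844) (nat_lit 608) (nat_lit 1930518896) (nat_lit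 76) (nat_lit 7735018835) (nat_lit 137) (nat_lit 5) (nat_lit 145) (nat_lit 5) (nat_lit 138) (nat_lit 5) (nat_lit 301) (nat_lit 284) (nat_lit 195))) (XT.nd (nat_lit 78) (nat_lit 456) (nat_lit 0) (XT.lf (nat_lit 0) (nat_lit 15113600841) (nat_lit 456) (nat_lit 351776163) (nat_lit 532) (nat_lit 6110019132) (nat_lit 131) (nat_lit 5) (nat_lit 137) (nat_lit 5) (nat_lit 138) (nat_lit 5) (nat_lit 302) (nat_lit 284) (nat_lit 194)) (XT.lf (nat_lit 0) (nat_lit 10895415251) (nat_lit 456) (nat_lit 9183551119) (nat_lit 532) (nat_lit 2136100469) (nat_lit 125) (nat_lit 5) (nat_lit 131) (nat_lit 5) (nat_lit 132) (nat_lit 5) (nat_lit 303) (nat_lit 284) (nat_lit 193))))))))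
noncomputable def xc90 : XT := (XT.nd (nat_lit 2028) (nat_lit 2280) (nat_lit 0) (XT.nd (nat_lit 1014) (nat_lit 2280) (nat_lit 0) (XT.nd (nat_lit 468) (nat_lit 1748) (nat_lit 0) (XT.nd (nat_lit 234) (nat_lit 1216) (nat_lit 0) (XT.nd (nat_lit 78) (nat_lit 456) (nat_lit 0) (XT.lf (nat_lit 0) (nat_lit 2154036302) (nat_lit 532) (nat_lit 16470554884) (nat_lit 76) (nat_lit 4256847114) (nat_lit 118) (nat_lit 5) (nat_lit 125) (nat_lit 5) (nat_lit 119) (nat_lit 5) (nat_lit 304) (nat_lit 284) (nat_lit 192)) (XT.nd (nat_lit 78) (nat_lit 0) (nat_lit 0) (XT.lf (nat_lit 0) (nat_lit 1583319934) (nat_lit 456) (nat_lit 5240570073) (nat_lit 532) (nat_lit 16750343506) (nat_lit 112) (nat_lit 5) (nat_lit 118) (nat_lit 5) (nat_lit 119) (nat_lit 5) (nat_lit 305) (nat_lit 284) (nat_lit 191)) (XT.lf (nat_lit 0) (nat_lit 11967153172) (nat_lit 532) (nat_lit 3517860237) (nat_lit 76) (nat_lit 8809477862) (nat_lit 112)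 (nat_lit 5) (nat_lit 119) (nat_lit 5) (nat_lit 113) (nat_lit 5) (nat_lit 306) (nat_lit 284) (nat_lit 190)))) (XT.nd (nat_lit 78) (nat_lit 836) (nat_lit 0) (XT.lf (nat_lit 0) (nat_lit 16122500845) (nat_lit 380) (nat_lit 1437691030) (nat_lit 456) (nat_lit 7484810990) (nat_lit 107) (nat_lit 5) (nat_lit 112) (nat_lit 5) (nat_lit 113) (nat_lit 5) (nat_lit 307) (nat_lit 284) (nat_lit 189)) (XT.nd (nat_lit 78) (nat_lit 456) (nat_lit 0) (XT.lf (nat_lit 0) (nat_lit 11055884574) (nat_lit 380) (nat_lit 12633078275) (nat_lit 456) (nat_lit 2136413182) (nat_lit 102) (nat_lit 5) (nat_lit 107) (nat_lit 5) (nat_lit 108) (nat_lit 5) (nat_lit 308) (nat_lit 284) (nat_lit 188)) (XT.lf (nat_lit 0) (nat_lit 3578276759) (nat_lit 456) (nat_lit 21038511847) (nat_lit 76) (nat_lit 2021989840) (nat_lit 96) (nat_lit 5) (nat_lit 102) (nat_lit 5) (nat_lit 97) (nat_lit 5) (nat_lit 309) (nat_lit 284) (nat_lit 187))))) (XT.nd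 (nat_lit 234) (nat_lit 1064) (nat_lit 0) (XT.nd (nat_lit 78) (nat_lit 684) (nat_lit 0) (XT.lf (nat_lit 0) (nat_lit 9802110877) (nat_lit 456) (nat_lit 359365809) (nat_lit 76) (nat_lit 17322728100) (nat_lit 96) (nat_lit 5) (nat_lit 102) (nat_lit 5) (nat_lit 97) (nat_lit 5) (nat_lit 310) (nat_lit 284) (nat_lit 186)) (XT.nd (nat_lit 78) (nat_lit 304) (nat_lit 0) (XT.lf (nat_lit 0) (nat_lit 16583372215) (nat_lit 456) (nat_lit 6654723141) (nat_lit 76) (nat_lit 5126435456) (nat_lit 91) (nat_lit 5) (nat_lit 97) (nat_lit 5) (nat_lit 92) (nat_lit 5) (nat_lit 311) (nat_lit 284) (nat_lit 185)) (XT.lf (nat_lit 0) (nat_lit 15790018550) (nat_lit 304) (nat_lit 8158987933) (nat_lit 380) (nat_lit 5332522059) (nat_lit 87) (nat_lit 5) (nat_lit 91) (nat_lit 5) (nat_lit 92) (nat_lit 5) (nat_lit 312) (nat_lit 284) (nat_lit 184)))) (XT.nd (nat_lit 156) (nat_lit 304) (nat_lit 0) (XT.nd (nat_lit 78) (nat_lit 304)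 (nat_lit 0) (XT.lf (nat_lit 0) (nat_lit 1633068443) (nat_lit 456) (nat_lit 20908695000) (nat_lit 76) (nat_lit 7695533657) (nat_lit 81) (nat_lit 5) (nat_lit 87) (nat_lit 5) (nat_lit 82) (nat_lit 5) (nat_lit 313) (nat_lit 284) (nat_lit 183)) (XT.lf (nat_lit 0) (nat_lit 2224488681) (nat_lit 304) (nat_lit 6845128239) (nat_lit 380) (nat_lit 22162677297) (nat_lit 77) (nat_lit 5) (nat_lit 81) (nat_lit 5) (nat_lit 82) (nat_lit 5) (nat_lit 314) (nat_lit 284) (nat_lit 182))) (XT.nd (nat_lit 78) (nat_lit 304) (nat_lit 0) (XT.lf (nat_lit 0) (nat_lit 17176317525) (nat_lit 380) (nat_lit 5430272107) (nat_lit 76) (nat_lit 9661514144) (nat_lit 77) (nat_lit 5) (nat_lit 82) (nat_lit 5) (nat_lit 78) (nat_lit 5) (nat_lit 315) (nat_lit 284) (nat_lit 181)) (XT.lf (nat_lit 0) (nat_lit 19624577162) (nat_lit 304) (nat_lit 6310391546) (nat_lit 380) (nat_lit 7413348376) (nat_lit 73) (nat_lit 5) (nat_lit 77) (nat_lit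 5) (nat_lit 78) (nat_lit 5) (nat_lit 316) (nat_lit 284) (nat_lit 180)))))) (XT.nd (nat_lit 468) (nat_lit 1140) (nat_lit 0) (XT.nd (nat_lit 234) (nat_lit 532) (nat_lit 0) (XT.nd (nat_lit 78) (nat_lit 304) (nat_lit 0) (XT.lf (nat_lit 0) (nat_lit 900636984) (nat_lit 304) (nat_lit 22810611966) (nat_lit 76) (nat_lit 10763187099) (nat_lit 69) (nat_lit 5) (nat_lit 73) (nat_lit 5) (nat_lit 70) (nat_lit 5) (nat_lit 317) (nat_lit 284) (nat_lit 179)) (XT.nd (nat_lit 78) (nat_lit 0) (nat_lit 0) (XT.lf (nat_lit 0) (nat_lit 2855688467) (nat_lit 304) (nat_lit 6846038663) (nat_lit 380) (nat_lit 25946200436) (nat_lit 65) (nat_lit 5) (nat_lit 69) (nat_lit 5) (nat_lit 70) (nat_lit 5) (nat_lit 318) (nat_lit 284) (nat_lit 178)) (XT.lf (nat_lit 0) (nat_lit 19274229707) (nat_lit 380) (nat_lit 6712701899) (nat_lit 76) (nat_lit 10883231162) (nat_lit 65) (nat_lit 5) (nat_lit 70) (nat_lit 5) (nat_lit 66) (nat_lit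 5) (nat_lit 319) (nat_lit 284) (nat_lit 177)))) (XT.nd (nat_lit 78) (nat_lit 304) (nat_lit 0) (XT.lf (nat_lit 0) (nat_lit 20997264677) (nat_lit 228) (nat_lit 8589317209) (nat_lit 304) (nat_lit 8559100487) (nat_lit 62) (nat_lit 5) (nat_lit 65) (nat_lit 5) (nat_lit 66) (nat_lit 5) (nat_lit 320) (nat_lit 284) (nat_lit 176)) (XT.nd (nat_lit 78) (nat_lit 0) (nat_lit 0) (XT.lf (nat_lit 0) (nat_lit 1171707446) (nat_lit 304) (nat_lit 28634577530) (nat_lit 76) (nat_lit 9670625390) (nat_lit 58) (nat_lit 5) (nat_lit 62) (nat_lit 5) (nat_lit 59) (nat_lit 5) (nat_lit 321) (nat_lit 284) (nat_lit 175)) (XT.lf (nat_lit 0) (nat_lit 11469450092) (nat_lit 304) (nat_lit 467074696) (nat_lit 76) (nat_lit 28927918633) (nat_lit 58) (nat_lit 5) (nat_lit 62) (nat_lit 5) (nat_lit 59) (nat_lit 5) (nat_lit 322) (nat_lit 284) (nat_lit 174))))) (XT.nd (nat_lit 234) (nat_lit 456) (nat_lit 0) (XT.nd (nat_lit 78) (nat_lit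 456) (nat_lit 0) (XT.lf (nat_lit 0) (nat_lit 22626968877) (nat_lit 304) (nat_lit 12706761967) (nat_lit 76) (nat_lit 6977283479) (nat_lit 55) (nat_lit 5) (nat_lit 59) (nat_lit 5) (nat_lit 56) (nat_lit 5) (nat_lit 323) (nat_lit 284) (nat_lit 173)) (XT.nd (nat_lit 78) (nat_lit 228) (nat_lit 0) (XT.lf (nat_lit 0) (nat_lit 17568436646) (nat_lit 228) (nat_lit 17059625568) (nat_lit 304) (nat_lit 9193288087) (nat_lit 52) (nat_lit 5) (nat_lit 55) (nat_lit 5) (nat_lit 56) (nat_lit 5) (nat_lit 324) (nat_lit 284) (nat_lit 172)) (XT.lf (nat_lit 0) (nat_lit 1973596354) (nat_lit 228) (nat_lit 41152648038) (nat_lit 76) (nat_lit 2274825889) (nat_lit 49) (nat_lit 5) (nat_lit 52) (nat_lit 5) (nat_lit 50) (nat_lit 5) (nat_lit 325) (nat_lit 284) (nat_lit 171)))) (XT.nd (nat_lit 156) (nat_lit 228) (nat_lit 0) (XT.nd (nat_lit 78) (nat_lit 228) (nat_lit 0) (XT.lf (nat_lit 0) (nat_lit 13947490515) (nat_lit 228)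 (nat_lit 10508524320) (nat_lit 76) (nat_lit 22587873437) (nat_lit 49) (nat_lit 5) (nat_lit 52) (nat_lit 5) (nat_lit 50) (nat_lit 5) (nat_lit 326) (nat_lit 284) (nat_lit 170)) (XT.lf (nat_lit 0) (nat_lit 22086763192) (nat_lit 228) (nat_lit 4637928720) (nat_lit 304) (nat_lit 22038023157) (nat_lit 46) (nat_lit 5) (nat_lit 49) (nat_lit 5) (nat_lit 50) (nat_lit 5) (nat_lit 327) (nat_lit 284) (nat_lit 169))) (XT.nd (nat_lit 78) (nat_lit 76) (nat_lit 0) (XT.lf (nat_lit 0) (nat_lit 5914186050) (nat_lit 152) (nat_lit 34540625769) (nat_lit 228) (nat_lit 10103255616) (nat_lit 44) (nat_lit 5) (nat_lit 46) (nat_lit 5) (nat_lit 47) (nat_lit 5) (nat_lit 328) (nat_lit 284) (nat_lit 168)) (XT.lf (nat_lit 0) (nat_lit 2697685151) (nat_lit 228) (nat_lit 11828230788) (nat_lit 76) (nat_lit 37907072193) (nat_lit 43) (nat_lit 5) (nat_lit 46) (nat_lit 5) (nat_lit 44) (nat_lit 5) (nat_lit 329) (nat_lit 284) (nat_lit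 167))))))) (XT.nd (nat_lit 1014) (nat_lit 836) (nat_lit 0) (XT.nd (nat_lit 468) (nat_lit 684) (nat_lit 0) (XT.nd (nat_lit 234) (nat_lit 380) (nat_lit 0) (XT.nd (nat_lit 78) (nat_lit 152) (nat_lit 0) (XT.lf (nat_lit 0) (nat_lit 16210968402) (nat_lit 304) (nat_lit 31494534352) (nat_lit 76) (nat_lit 6684719023) (nat_lit 40) (nat_lit 5) (nat_lit 44) (nat_lit 5) (nat_lit 41) (nat_lit 5) (nat_lit 330) (nat_lit 284) (nat_lit 166)) (XT.nd (nat_lit 78) (nat_lit 0) (nat_lit 0) (XT.lf (nat_lit 0) (nat_lit 3062267958) (nat_lit 152) (nat_lit 27629884562) (nat_lit 228) (nat_lit 25744402502) (nat_lit 38) (nat_lit 5) (nat_lit 40) (nat_lit 5) (nat_lit 41) (nat_lit 5) (nat_lit 331) (nat_lit 284) (nat_lit 165)) (XT.lf (nat_lit 0) (nat_lit 39994387008) (nat_lit 152) (nat_lit 6220657570) (nat_lit 228) (nat_lit 12360635666) (nat_lit 38) (nat_lit 5) (nat_lit 40) (nat_lit 5) (nat_lit 41) (nat_lit 5) (nat_lit 332)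 (nat_lit 284) (nat_lit 164)))) (XT.nd (nat_lit 78) (nat_lit 152) (nat_lit 0) (XT.lf (nat_lit 0) (nat_lit 1986870418) (nat_lit 228) (nat_lit 42692817504) (nat_lit 76) (nat_lit 16131762971) (nat_lit 35) (nat_lit 5) (nat_lit 38) (nat_lit 5) (nat_lit 36) (nat_lit 5) (nat_lit 333) (nat_lit 284) (nat_lit 163)) (XT.nd (nat_lit 78) (nat_lit 152) (nat_lit 0) (XT.lf (nat_lit 0) (nat_lit 17048303307) (nat_lit 228) (nat_lit 6311004219) (nat_lit 76) (nat_lit 39788469628) (nat_lit 35) (nat_lit 5) (nat_lit 38) (nat_lit 5) (nat_lit 36) (nat_lit 5) (nat_lit 334) (nat_lit 284) (nat_lit 162)) (XT.lf (nat_lit 0) (nat_lit 32514718164) (nat_lit 152) (nat_lit 654787310) (nat_lit 228) (nat_lit 32422217332) (nat_lit 33) (nat_lit 5) (nat_lit 35) (nat_lit 5) (nat_lit 36) (nat_lit 5) (nat_lit 335) (nat_lit 284) (nat_lit 161))))) (XT.nd (nat_lit 234) (nat_lit 304) (nat_lit 0) (XT.nd (nat_lit 78) (nat_lit 228) (nat_lit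 0) (XT.lf (nat_lit 0) (nat_lit 5124658719) (nat_lit 152) (nat_lit 45304146912) (nat_lit 228) (nat_lit 17719102789) (nat_lit 31) (nat_lit 5) (nat_lit 33) (nat_lit 5) (nat_lit 34) (nat_lit 5) (nat_lit 336) (nat_lit 284) (nat_lit 160)) (XT.nd (nat_lit 78) (nat_lit 228) (nat_lit 0) (XT.lf (nat_lit 0) (nat_lit 45911627918) (nat_lit 152) (nat_lit 22980967227) (nat_lit 228) (nat_lit 1929066076) (nat_lit 31) (nat_lit 5) (nat_lit 33) (nat_lit 5) (nat_lit 34) (nat_lit 5) (nat_lit 337) (nat_lit 284) (nat_lit 159)) (XT.lf (nat_lit 0) (nat_lit 14513153668) (nat_lit 228) (nat_lit 58371045272) (nat_lit 76) (nat_lit 736224263) (nat_lit 28) (nat_lit 5) (nat_lit 31) (nat_lit 5) (nat_lit 29) (nat_lit 5) (nat_lit 338) (nat_lit 284) (nat_lit 158)))) (XT.nd (nat_lit 156) (nat_lit 152) (nat_lit 0) (XT.nd (nat_lit 78) (nat_lit 152) (nat_lit 0) (XT.lf (nat_lit 0) (nat_lit 32223702170) (nat_lit 228) (nat_lit 18876871798)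 (nat_lit 76) (nat_lit 25443396112) (nat_lit 28) (nat_lit 5) (nat_lit 31) (nat_lit 5) (nat_lit 29) (nat_lit 5) (nat_lit 339) (nat_lit 284) (nat_lit 157)) (XT.lf (nat_lit 0) (nat_lit 23033101894) (nat_lit 152) (nat_lit 28003155691) (nat_lit 228) (nat_lit 28570945379) (nat_lit 26) (nat_lit 5) (nat_lit 28) (nat_lit 5) (nat_lit 29) (nat_lit 5) (nat_lit 340) (nat_lit 284) (nat_lit 156))) (XT.nd (nat_lit 78) (nat_lit 152) (nat_lit 0) (XT.lf (nat_lit 0) (nat_lit 67424917982) (nat_lit 152) (nat_lit 3554071331) (nat_lit 228) (nat_lit 11838924628) (nat_lit 26) (nat_lit 5) (nat_lit 28) (nat_lit 5) (nat_lit 29) (nat_lit 5) (nat_lit 341) (nat_lit 284) (nat_lit 155)) (XT.lf (nat_lit 0) (nat_lit 6101509861) (nat_lit 152) (nat_lit 58058080832) (nat_lit 76) (nat_lit 22013411544) (nat_lit 24) (nat_lit 5) (nat_lit 26) (nat_lit 5) (nat_lit 25) (nat_lit 5) (nat_lit 342) (nat_lit 284) (nat_lit 154)))))) (XT.nd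 (nat_lit 546) (nat_lit 380) (nat_lit 0) (XT.nd (nat_lit 234) (nat_lit 304) (nat_lit 0) (XT.nd (nat_lit 78) (nat_lit 152) (nat_lit 0) (XT.lf (nat_lit 0) (nat_lit 24887815794) (nat_lit 152) (nat_lit 15735837824) (nat_lit 76) (nat_lit 49062866471) (nat_lit 24) (nat_lit 5) (nat_lit 26) (nat_lit 5) (nat_lit 25) (nat_lit 5) (nat_lit 343) (nat_lit 284) (nat_lit 153)) (XT.nd (nat_lit 78) (nat_lit 0) (nat_lit 0) (XT.lf (nat_lit 0) (nat_lit 29266259417) (nat_lit 152) (nat_lit 15624238492) (nat_lit 228) (nat_lit 48476906532) (nat_lit 22) (nat_lit 5) (nat_lit 24) (nat_lit 5) (nat_lit 25) (nat_lit 5) (nat_lit 344) (nat_lit 284) (nat_lit 152)) (XT.lf (nat_lit 0) (nat_lit 66154881182) (nat_lit 228) (nat_lit 20491153132) (nat_lit 76) (nat_lit 10578454004) (nat_lit 22) (nat_lit 5) (nat_lit 25) (nat_lit 5) (nat_lit 23) (nat_lit 4) (nat_lit 345) (nat_lit 284) (nat_lit 151)))) (XT.nd (nat_lit 156) (nat_lit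 152) (nat_lit 0) (XT.nd (nat_lit 78) (nat_lit 76) (nat_lit 0) (XT.lf (nat_lit 0) (nat_lit 25634979702) (nat_lit 76) (nat_lit 63247661524) (nat_lit 152) (nat_lit 12379782644) (nat_lit 21) (nat_lit 5) (nat_lit 22) (nat_lit 5) (nat_lit 23) (nat_lit 4) (nat_lit 346) (nat_lit 284) (nat_lit 150)) (XT.lf (nat_lit 0) (nat_lit 7312316479) (nat_lit 152) (nat_lit 31078803319) (nat_lit 76) (nat_lit 67102774766) (nat_lit 20) (nat_lit 5) (nat_lit 22) (nat_lit 5) (nat_lit 21) (nat_lit 5) (nat_lit 347) (nat_lit 284) (nat_lit 149))) (XT.nd (nat_lit 78) (nat_lit 0) (nat_lit 0) (XT.lf (nat_lit 0) (nat_lit 15875659293) (nat_lit 152) (nat_lit 12008623054) (nat_lit 228) (nat_lit 82044442387) (nat_lit 18) (nat_lit 5) (nat_lit 20) (nat_lit 5) (nat_lit 21) (nat_lit 5) (nat_lit 348) (nat_lit 284) (nat_lit 148)) (XT.lf (nat_lit 0) (nat_lit 49955191522) (nat_lit 228) (nat_lit 48908764101) (nat_lit 76) (nat_lit 15707232291)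 (nat_lit 18) (nat_lit 5) (nat_lit 21) (nat_lit 5) (nat_lit 19) (nat_lit 4) (nat_lit 349) (nat_lit 284) (nat_lit 147))))) (XT.nd (nat_lit 234) (nat_lit 304) (nat_lit 0) (XT.nd (nat_lit 78) (nat_lit 76) (nat_lit 0) (XT.lf (nat_lit 0) (nat_lit 73247421471) (nat_lit 228) (nat_lit 1634499215) (nat_lit 76) (nat_lit 44560322073) (nat_lit 18) (nat_lit 5) (nat_lit 21) (nat_lit 5) (nat_lit 19) (nat_lit 4) (nat_lit 350) (nat_lit 284) (nat_lit 146)) (XT.nd (nat_lit 78) (nat_lit 0) (nat_lit 0) (XT.lf (nat_lit 0) (nat_lit 48952969987) (nat_lit 76) (nat_lit 49218591559) (nat_lit 152) (nat_lit 26371271519) (nat_lit 17) (nat_lit 5) (nat_lit 18) (nat_lit 5) (nat_lit 19) (nat_lit 4) (nat_lit 351) (nat_lit 284) (nat_lit 145)) (XT.lf (nat_lit 0) (nat_lit 102098376226) (nat_lit 76) (nat_lit 22257192687) (nat_lit 152) (nat_lit 5542475767) (nat_lit 17) (nat_lit 5) (nat_lit 18) (nat_lit 5) (nat_lit 19) (nat_lit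 4) (nat_lit 352) (nat_lit 284) (nat_lit 144)))) (XT.nd (nat_lit 156) (nat_lit 76) (nat_lit 0) (XT.nd (nat_lit 78) (nat_lit 0) (nat_lit 0) (XT.lf (nat_lit 0) (nat_lit 16285787149) (nat_lit 228) (nat_lit 112911862091) (nat_lit 76) (nat_lit 6310361320) (nat_lit 14) (nat_lit 5) (nat_lit 17) (nat_lit 5) (nat_lit 15) (nat_lit 4) (nat_lit 353) (nat_lit 284) (nat_lit 143)) (XT.lf (nat_lit 0) (nat_lit 39602582304) (nat_lit 228) (nat_lit 65585926163) (nat_lit 76) (nat_lit 36192969014) (nat_lit 14) (nat_lit 5) (nat_lit 17) (nat_lit 5) (nat_lit 15) (nat_lit 4) (nat_lit 354) (nat_lit 284) (nat_lit 142))) (XT.nd (nat_lit 78) (nat_lit 76) (nat_lit 0) (XT.lf (nat_lit 0) (nat_lit 64082385548) (nat_lit 228) (nat_lit 15898742947) (nat_lit 76) (nat_lit 67567575546) (nat_lit 14) (nat_lit 5) (nat_lit 17) (nat_lit 5) (nat_lit 15) (nat_lit 4) (nat_lit 355) (nat_lit 284) (nat_lit 141)) (XT.lf (nat_lit 0) (nat_lit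 36989794496) (nat_lit 76) (nat_lit 53149256164) (nat_lit 152) (nat_lit 63874656397) (nat_lit 13) (nat_lit 5) (nat_lit 14) (nat_lit 5) (nat_lit 15) (nat_lit 4) (nat_lit 356) (nat_lit 284) (nat_lit 140))))))))
noncomputable def xc91 : XT := (XT.nd (nat_lit 2028) (nat_lit 4940) (nat_lit 0) (XT.nd (nat_lit 1014) (nat_lit 4864) (nat_lit 0) (XT.nd (nat_lit 468) (nat_lit 1368) (nat_lit 0) (XT.nd (nat_lit 234) (nat_lit 912) (nat_lit 0) (XT.nd (nat_lit 78) (nat_lit 0) (nat_lit 0) (XT.lf (nat_lit 0) (nat_lit 5332681872) (nat_lit 1140) (nat_lit 859099680) (nat_lit 1140) (nat_lit 859099680) (nat_lit 190) (nat_lit 3) (nat_lit 205) (nat_lit 3) (nat_lit 205) (nat_lit 5) (nat_lit 285) (nat_lit 285) (nat_lit 210)) (XT.nd (nat_lit 78) (nat_lit 0) (nat_lit 76) (XT.lf (nat_lit 76) (nat_lit 8851746447) (nat_lit 0) (nat_lit 2682160235) (nat_lit 1140) (nat_lit 2901509142) (nat_lit 191) (nat_lit 5) (nat_lit 190)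 (nat_lit 3) (nat_lit 205) (nat_lit 5) (nat_lit 286) (nat_lit 285) (nat_lit 209)) (XT.lf (nat_lit 76) (nat_lit 5211653393) (nat_lit 0) (nat_lit 7341221550) (nat_lit 1140) (nat_lit 2229720310) (nat_lit 192) (nat_lit 5) (nat_lit 191) (nat_lit 5) (nat_lit 206) (nat_lit 5) (nat_lit 287) (nat_lit 285) (nat_lit 208)))) (XT.nd (nat_lit 78) (nat_lit 1064) (nat_lit 0) (XT.lf (nat_lit 76) (nat_lit 1472585180) (nat_lit 0) (nat_lit 12245235234) (nat_lit 1140) (nat_lit 1426513187) (nat_lit 193) (nat_lit 5) (nat_lit 192) (nat_lit 5) (nat_lit 207) (nat_lit 5) (nat_lit 288) (nat_lit 285) (nat_lit 207)) (XT.nd (nat_lit 78) (nat_lit 1064) (nat_lit 0) (XT.lf (nat_lit 76) (nat_lit 13174065814) (nat_lit 0) (nat_lit 1908601141) (nat_lit 1140) (nat_lit 437290688) (nat_lit 193) (nat_lit 5) (nat_lit 192) (nat_lit 5) (nat_lit 207) (nat_lit 5) (nat_lit 289) (nat_lit 285) (nat_lit 206)) (XT.lf (nat_lit 0) (nat_lit 740948440)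 (nat_lit 1140) (nat_lit 6287783043) (nat_lit 1216) (nat_lit 8880963993) (nat_lit 178) (nat_lit 5) (nat_lit 193) (nat_lit 5) (nat_lit 194) (nat_lit 5) (nat_lit 290) (nat_lit 285) (nat_lit 205))))) (XT.nd (nat_lit 234) (nat_lit 1444) (nat_lit 0) (XT.nd (nat_lit 78) (nat_lit 0) (nat_lit 0) (XT.lf (nat_lit 0) (nat_lit 2080557175) (nat_lit 1140) (nat_lit 10361479602) (nat_lit 1216) (nat_lit 3873451105) (nat_lit 179) (nat_lit 5) (nat_lit 194) (nat_lit 5) (nat_lit 195) (nat_lit 5) (nat_lit 291) (nat_lit 285) (nat_lit 204)) (XT.nd (nat_lit 78) (nat_lit 0) (nat_lit 76) (XT.lf (nat_lit 76) (nat_lit 2150821388) (nat_lit 0) (nat_lit 1466720833) (nat_lit 1216) (nat_lit 13120156394) (nat_lit 180) (nat_lit 5) (nat_lit 179) (nat_lit 5) (nat_lit 195) (nat_lit 5) (nat_lit 292) (nat_lit 285) (nat_lit 203)) (XT.lf (nat_lit 0) (nat_lit 5410334881) (nat_lit 1140) (nat_lit 1789832693) (nat_lit 1216) (nat_lit 9975522211)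 (nat_lit 180) (nat_lit 5) (nat_lit 195) (nat_lit 5) (nat_lit 196) (nat_lit 5) (nat_lit 293) (nat_lit 285) (nat_lit 202)))) (XT.nd (nat_lit 156) (nat_lit 1596) (nat_lit 0) (XT.nd (nat_lit 78) (nat_lit 0) (nat_lit 0) (XT.lf (nat_lit 0) (nat_lit 7439957124) (nat_lit 1140) (nat_lit 5830453033) (nat_lit 1216) (nat_lit 4360791469) (nat_lit 181) (nat_lit 5) (nat_lit 196) (nat_lit 5) (nat_lit 197) (nat_lit 5) (nat_lit 294) (nat_lit 285) (nat_lit 201)) (XT.lf (nat_lit 76) (nat_lit 8064987221) (nat_lit 0) (nat_lit 1651682421) (nat_lit 1216) (nat_lit 8388486202) (nat_lit 182) (nat_lit 5) (nat_lit 181) (nat_lit 5) (nat_lit 197) (nat_lit 5) (nat_lit 295) (nat_lit 285) (nat_lit 200))) (XT.nd (nat_lit 78) (nat_lit 532) (nat_lit 0) (XT.lf (nat_lit 0) (nat_lit 4135687941) (nat_lit 1140) (nat_lit 8151061724) (nat_lit 1216) (nat_lit 6310705538) (nat_lit 167) (nat_lit 5) (nat_lit 182) (nat_lit 5) (nat_lit 183)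 (nat_lit 5) (nat_lit 296) (nat_lit 285) (nat_lit 199)) (XT.lf (nat_lit 0) (nat_lit 44540868) (nat_lit 532) (nat_lit 15079248918) (nat_lit 608) (nat_lit 3986457861) (nat_lit 160) (nat_lit 5) (nat_lit 167) (nat_lit 5) (nat_lit 168) (nat_lit 5) (nat_lit 297) (nat_lit 285) (nat_lit 198)))))) (XT.nd (nat_lit 468) (nat_lit 2660) (nat_lit 0) (XT.nd (nat_lit 234) (nat_lit 988) (nat_lit 0) (XT.nd (nat_lit 78) (nat_lit 1216) (nat_lit 0) (XT.lf (nat_lit 0) (nat_lit 15475804294) (nat_lit 532) (nat_lit 2836726544) (nat_lit 608) (nat_lit 1329883691) (nat_lit 160) (nat_lit 5) (nat_lit 167) (nat_lit 5) (nat_lit 168) (nat_lit 5) (nat_lit 298) (nat_lit 285) (nat_lit 197)) (XT.nd (nat_lit 78) (nat_lit 532) (nat_lit 0) (XT.lf (nat_lit 0) (nat_lit 1621077616) (nat_lit 684) (nat_lit 8622584667) (nat_lit 76) (nat_lit 9951433415) (nat_lit 151) (nat_lit 5) (nat_lit 160) (nat_lit 5) (nat_lit 152) (nat_lit 5) (nat_lit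 299) (nat_lit 285) (nat_lit 196)) (XT.lf (nat_lit 0) (nat_lit 4843161653) (nat_lit 608) (nat_lit 13299971028) (nat_lit 76) (nat_lit 2627377535) (nat_lit 144) (nat_lit 5) (nat_lit 152) (nat_lit 5) (nat_lit 145) (nat_lit 5) (nat_lit 300) (nat_lit 285) (nat_lit 195)))) (XT.nd (nat_lit 78) (nat_lit 456) (nat_lit 0) (XT.lf (nat_lit 0) (nat_lit 3114649179) (nat_lit 532) (nat_lit 5316459267) (nat_lit 608) (nat_lit 12937469658) (nat_lit 137) (nat_lit 5) (nat_lit 144) (nat_lit 5) (nat_lit 145) (nat_lit 5) (nat_lit 301) (nat_lit 285) (nat_lit 194)) (XT.nd (nat_lit 78) (nat_lit 456) (nat_lit 0) (XT.lf (nat_lit 0) (nat_lit 12397556802) (nat_lit 608) (nat_lit 1462577610) (nat_lit 76) (nat_lit 8130466036) (nat_lit 137) (nat_lit 5) (nat_lit 145) (nat_lit 5) (nat_lit 138) (nat_lit 5) (nat_lit 302) (nat_lit 285) (nat_lit 193)) (XT.lf (nat_lit 0) (nat_lit 16417567774) (nat_lit 456) (nat_lit 339549659) (nat_lit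 532) (nat_lit 5880785818) (nat_lit 131) (nat_lit 5) (nat_lit 137) (nat_lit 5) (nat_lit 138) (nat_lit 5) (nat_lit 303) (nat_lit 285) (nat_lit 192))))) (XT.nd (nat_lit 234) (nat_lit 1216) (nat_lit 0) (XT.nd (nat_lit 78) (nat_lit 988) (nat_lit 0) (XT.lf (nat_lit 0) (nat_lit 11988274508) (nat_lit 456) (nat_lit 9593964154) (nat_lit 532) (nat_lit 1727926996) (nat_lit 125) (nat_lit 5) (nat_lit 131) (nat_lit 5) (nat_lit 132) (nat_lit 5) (nat_lit 304) (nat_lit 285) (nat_lit 191)) (XT.nd (nat_lit 78) (nat_lit 456) (nat_lit 0) (XT.lf (nat_lit 0) (nat_lit 2748385526) (nat_lit 532) (nat_lit 16736645320) (nat_lit 76) (nat_lit 4525255996) (nat_lit 118) (nat_lit 5) (nat_lit 125) (nat_lit 5) (nat_lit 119) (nat_lit 5) (nat_lit 305) (nat_lit 285) (nat_lit 190)) (XT.lf (nat_lit 0) (nat_lit 2203944410) (nat_lit 456) (nat_lit 5429818650) (nat_lit 532) (nat_lit 17104527532) (nat_lit 112) (nat_lit 5) (nat_lit 118)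 (nat_lit 5) (nat_lit 119) (nat_lit 5) (nat_lit 306) (nat_lit 285) (nat_lit 189)))) (XT.nd (nat_lit 156) (nat_lit 836) (nat_lit 0) (XT.nd (nat_lit 78) (nat_lit 380) (nat_lit 0) (XT.lf (nat_lit 0) (nat_lit 13012537648) (nat_lit 532) (nat_lit 3164788038) (nat_lit 76) (nat_lit 9317913401) (nat_lit 112) (nat_lit 5) (nat_lit 119) (nat_lit 5) (nat_lit 113) (nat_lit 5) (nat_lit 307) (nat_lit 285) (nat_lit 188)) (XT.lf (nat_lit 0) (nat_lit 17442428416) (nat_lit 380) (nat_lit 1426451863) (nat_lit 456) (nat_lit 7414913372) (nat_lit 107) (nat_lit 5) (nat_lit 112) (nat_lit 5) (nat_lit 113) (nat_lit 5) (nat_lit 308) (nat_lit 285) (nat_lit 187))) (XT.nd (nat_lit 78) (nat_lit 456) (nat_lit 0) (XT.lf (nat_lit 0) (nat_lit 12120050701) (nat_lit 380) (nat_lit 13169207192) (nat_lit 456) (nat_lit 1814398206) (nat_lit 102) (nat_lit 5) (nat_lit 107) (nat_lit 5) (nat_lit 108) (nat_lit 5) (nat_lit 309) (nat_lit 285)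 (nat_lit 186)) (XT.lf (nat_lit 0) (nat_lit 4163454827) (nat_lit 456) (nat_lit 21573439325) (nat_lit 76) (nat_lit 2221160646) (nat_lit 96) (nat_lit 5) (nat_lit 102) (nat_lit 5) (nat_lit 97) (nat_lit 5) (nat_lit 310) (nat_lit 285) (nat_lit 185))))))) (XT.nd (nat_lit 1014) (nat_lit 2052) (nat_lit 0) (XT.nd (nat_lit 468) (nat_lit 1444) (nat_lit 0) (XT.nd (nat_lit 234) (nat_lit 760) (nat_lit 0) (XT.nd (nat_lit 78) (nat_lit 304) (nat_lit 0) (XT.lf (nat_lit 0) (nat_lit 117334678) (nat_lit 380) (nat_lit 10562927950) (nat_lit 456) (nat_lit 18166058971) (nat_lit 91) (nat_lit 5) (nat_lit 96) (nat_lit 5) (nat_lit 97) (nat_lit 5) (nat_lit 311) (nat_lit 285) (nat_lit 184)) (XT.nd (nat_lit 78) (nat_lit 304) (nat_lit 0) (XT.lf (nat_lit 0) (nat_lit 17786642835) (nat_lit 456) (nat_lit 6498581845) (nat_lit 76) (nat_lit 5485879097) (nat_lit 91) (nat_lit 5) (nat_lit 97) (nat_lit 5) (nat_lit 92) (nat_lit 5) (nat_lit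 312) (nat_lit 285) (nat_lit 183)) (XT.lf (nat_lit 0) (nat_lit 17054383357) (nat_lit 304) (nat_lit 8452925760) (nat_lit 380) (nat_lit 5227060268) (nat_lit 87) (nat_lit 5) (nat_lit 91) (nat_lit 5) (nat_lit 92) (nat_lit 5) (nat_lit 313) (nat_lit 285) (nat_lit 182)))) (XT.nd (nat_lit 78) (nat_lit 304) (nat_lit 0) (XT.lf (nat_lit 0) (nat_lit 2067803707) (nat_lit 456) (nat_lit 21475622627) (nat_lit 76) (nat_lit 8194764050) (nat_lit 81) (nat_lit 5) (nat_lit 87) (nat_lit 5) (nat_lit 82) (nat_lit 5) (nat_lit 314) (nat_lit 285) (nat_lit 181)) (XT.nd (nat_lit 78) (nat_lit 0) (nat_lit 0) (XT.lf (nat_lit 0) (nat_lit 2800503928) (nat_lit 304) (nat_lit 7063330112) (nat_lit 380) (nat_lit 22919491736) (nat_lit 77) (nat_lit 5) (nat_lit 81) (nat_lit 5) (nat_lit 82) (nat_lit 5) (nat_lit 315) (nat_lit 285) (nat_lit 180)) (XT.lf (nat_lit 0) (nat_lit 18360779841) (nat_lit 380) (nat_lit 5250184306) (nat_lit 76)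 (nat_lit 10260431554) (nat_lit 77) (nat_lit 5) (nat_lit 82) (nat_lit 5) (nat_lit 78) (nat_lit 5) (nat_lit 316) (nat_lit 285) (nat_lit 179))))) (XT.nd (nat_lit 234) (nat_lit 532) (nat_lit 0) (XT.nd (nat_lit 78) (nat_lit 608) (nat_lit 0) (XT.lf (nat_lit 0) (nat_lit 21044462363) (nat_lit 304) (nat_lit 6501610881) (nat_lit 380) (nat_lit 7459901517) (nat_lit 73) (nat_lit 5) (nat_lit 77) (nat_lit 5) (nat_lit 78) (nat_lit 5) (nat_lit 317) (nat_lit 285) (nat_lit 178)) (XT.nd (nat_lit 78) (nat_lit 304) (nat_lit 0) (XT.lf (nat_lit 0) (nat_lit 1253691918) (nat_lit 304) (nat_lit 23510309277) (nat_lit 76) (nat_lit 11424613149) (nat_lit 69) (nat_lit 5) (nat_lit 73) (nat_lit 5) (nat_lit 70) (nat_lit 5) (nat_lit 318) (nat_lit 285) (nat_lit 177)) (XT.lf (nat_lit 0) (nat_lit 3426669780) (nat_lit 304) (nat_lit 7057615116) (nat_lit 380) (nat_lit 26936826510) (nat_lit 65) (nat_lit 5) (nat_lit 69) (nat_lit 5)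 (nat_lit 70) (nat_lit 5) (nat_lit 319) (nat_lit 285) (nat_lit 176)))) (XT.nd (nat_lit 156) (nat_lit 304) (nat_lit 0) (XT.nd (nat_lit 78) (nat_lit 228) (nat_lit 0) (XT.lf (nat_lit 0) (nat_lit 20522444071) (nat_lit 380) (nat_lit 6632953361) (nat_lit 76) (nat_lit 11549463725) (nat_lit 65) (nat_lit 5) (nat_lit 70) (nat_lit 5) (nat_lit 66) (nat_lit 5) (nat_lit 320) (nat_lit 285) (nat_lit 175)) (XT.lf (nat_lit 0) (nat_lit 22450604655) (nat_lit 228) (nat_lit 8890139912) (nat_lit 304) (nat_lit 8703715332) (nat_lit 62) (nat_lit 5) (nat_lit 65) (nat_lit 5) (nat_lit 66) (nat_lit 5) (nat_lit 321) (nat_lit 285) (nat_lit 174))) (XT.nd (nat_lit 78) (nat_lit 0) (nat_lit 0) (XT.lf (nat_lit 0) (nat_lit 1499937419) (nat_lit 304) (nat_lit 29661725313) (nat_lit 76) (nat_lit 10280761943) (nat_lit 58) (nat_lit 5) (nat_lit 62) (nat_lit 5) (nat_lit 59) (nat_lit 5) (nat_lit 322) (nat_lit 285) (nat_lit 173)) (XT.lf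 (nat_lit 0) (nat_lit 12299726978) (nat_lit 304) (nat_lit 105113104) (nat_lit 76) (nat_lit 30494891025) (nat_lit 58) (nat_lit 5) (nat_lit 62) (nat_lit 5) (nat_lit 59) (nat_lit 5) (nat_lit 323) (nat_lit 285) (nat_lit 172)))))) (XT.nd (nat_lit 546) (nat_lit 912) (nat_lit 0) (XT.nd (nat_lit 234) (nat_lit 456) (nat_lit 0) (XT.nd (nat_lit 78) (nat_lit 456) (nat_lit 0) (XT.lf (nat_lit 0) (nat_lit 24007702760) (nat_lit 304) (nat_lit 12961377262) (nat_lit 76) (nat_lit 7449784070) (nat_lit 55) (nat_lit 5) (nat_lit 59) (nat_lit 5) (nat_lit 56) (nat_lit 5) (nat_lit 324) (nat_lit 285) (nat_lit 171)) (XT.nd (nat_lit 78) (nat_lit 228) (nat_lit 0) (XT.lf (nat_lit 0) (nat_lit 18816667938) (nat_lit 228) (nat_lit 17783862163) (nat_lit 304) (nat_lit 9404446834) (nat_lit 52) (nat_lit 5) (nat_lit 55) (nat_lit 5) (nat_lit 56) (nat_lit 5) (nat_lit 325) (nat_lit 285) (nat_lit 170)) (XT.lf (nat_lit 0) (nat_lit 2309065831)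 (nat_lit 228) (nat_lit 42840140232) (nat_lit 76) (nat_lit 2514620851) (nat_lit 49) (nat_lit 5) (nat_lit 52) (nat_lit 5) (nat_lit 50) (nat_lit 5) (nat_lit 326) (nat_lit 285) (nat_lit 169)))) (XT.nd (nat_lit 156) (nat_lit 228) (nat_lit 0) (XT.nd (nat_lit 78) (nat_lit 228) (nat_lit 0) (XT.lf (nat_lit 0) (nat_lit 14870379001) (nat_lit 228) (nat_lit 10681436052) (nat_lit 76) (nat_lit 23837318221) (nat_lit 49) (nat_lit 5) (nat_lit 52) (nat_lit 5) (nat_lit 50) (nat_lit 5) (nat_lit 327) (nat_lit 285) (nat_lit 168)) (XT.lf (nat_lit 0) (nat_lit 23533511078) (nat_lit 228) (nat_lit 4745482081) (nat_lit 304) (nat_lit 22915140432) (nat_lit 46) (nat_lit 5) (nat_lit 49) (nat_lit 5) (nat_lit 50) (nat_lit 5) (nat_lit 328) (nat_lit 285) (nat_lit 167))) (XT.nd (nat_lit 78) (nat_lit 76) (nat_lit 0) (XT.lf (nat_lit 0) (nat_lit 6547853656) (nat_lit 152) (nat_lit 36141768286) (nat_lit 228) (nat_lit 10389819891)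 (nat_lit 44) (nat_lit 5) (nat_lit 46) (nat_lit 5) (nat_lit 47) (nat_lit 5) (nat_lit 329) (nat_lit 285) (nat_lit 166)) (XT.lf (nat_lit 0) (nat_lit 3036695942) (nat_lit 228) (nat_lit 12093560448) (nat_lit 76) (nat_lit 39918103042) (nat_lit 43) (nat_lit 5) (nat_lit 46) (nat_lit 5) (nat_lit 44) (nat_lit 5) (nat_lit 330) (nat_lit 285) (nat_lit 165))))) (XT.nd (nat_lit 234) (nat_lit 532) (nat_lit 0) (XT.nd (nat_lit 78) (nat_lit 152) (nat_lit 0) (XT.lf (nat_lit 0) (nat_lit 17220114324) (nat_lit 304) (nat_lit 32747602404) (nat_lit 76) (nat_lit 7135911252) (nat_lit 40) (nat_lit 5) (nat_lit 44) (nat_lit 5) (nat_lit 41) (nat_lit 5) (nat_lit 331) (nat_lit 285) (nat_lit 164)) (XT.nd (nat_lit 78) (nat_lit 0) (nat_lit 0) (XT.lf (nat_lit 0) (nat_lit 3527819741) (nat_lit 152) (nat_lit 28891084232) (nat_lit 228) (nat_lit 26833574521) (nat_lit 38) (nat_lit 5) (nat_lit 40) (nat_lit 5) (nat_lit 41) (nat_lit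 5) (nat_lit 332) (nat_lit 285) (nat_lit 163)) (XT.lf (nat_lit 0) (nat_lit 42291666726) (nat_lit 152) (nat_lit 6417124202) (nat_lit 228) (nat_lit 12790050205) (nat_lit 38) (nat_lit 5) (nat_lit 40) (nat_lit 5) (nat_lit 41) (nat_lit 5) (nat_lit 333) (nat_lit 285) (nat_lit 162)))) (XT.nd (nat_lit 156) (nat_lit 304) (nat_lit 0) (XT.nd (nat_lit 78) (nat_lit 0) (nat_lit 0) (XT.lf (nat_lit 0) (nat_lit 2266251786) (nat_lit 228) (nat_lit 44530328936) (nat_lit 76) (nat_lit 17049918326) (nat_lit 35) (nat_lit 5) (nat_lit 38) (nat_lit 5) (nat_lit 36) (nat_lit 5) (nat_lit 334) (nat_lit 285) (nat_lit 161)) (XT.lf (nat_lit 0) (nat_lit 18072183089) (nat_lit 228) (nat_lit 6343574008) (nat_lit 76) (nat_lit 41884147592) (nat_lit 35) (nat_lit 5) (nat_lit 38) (nat_lit 5) (nat_lit 36) (nat_lit 5) (nat_lit 335) (nat_lit 285) (nat_lit 160))) (XT.nd (nat_lit 78) (nat_lit 152) (nat_lit 0) (XT.lf (nat_lit 0) (nat_lit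 34415322917) (nat_lit 152) (nat_lit 578599672) (nat_lit 228) (nat_lit 33872296306) (nat_lit 33) (nat_lit 5) (nat_lit 35) (nat_lit 5) (nat_lit 36) (nat_lit 5) (nat_lit 336) (nat_lit 285) (nat_lit 159)) (XT.lf (nat_lit 0) (nat_lit 5651808526) (nat_lit 152) (nat_lit 47460078668) (nat_lit 228) (nat_lit 18438460938) (nat_lit 31) (nat_lit 5) (nat_lit 33) (nat_lit 5) (nat_lit 34) (nat_lit 5) (nat_lit 337) (nat_lit 285) (nat_lit 158))))))))
noncomputable def xc92 : XT := (XT.nd (nat_lit 37206) (nat_lit 0) (nat_lit 3876) (XT.nd (nat_lit 1014) (nat_lit 304) (nat_lit 0) (XT.nd (nat_lit 468) (nat_lit 456) (nat_lit 0) (XT.nd (nat_lit 234) (nat_lit 304) (nat_lit 0) (XT.nd (nat_lit 78) (nat_lit 228) (nat_lit 0) (XT.lf (nat_lit 0) (nat_lit 48465225381) (nat_lit 152) (nat_lit 24025943597) (nat_lit 228) (nat_lit 1866855580) (nat_lit 31) (nat_lit 5) (nat_lit 33) (nat_lit 5) (nat_lit 34) (nat_lit 5) (nat_lit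 338) (nat_lit 285) (nat_lit 157)) (XT.nd (nat_lit 78) (nat_lit 0) (nat_lit 0) (XT.lf (nat_lit 0) (nat_lit 15390401300) (nat_lit 228) (nat_lit 61032254043) (nat_lit 76) (nat_lit 874147561) (nat_lit 28) (nat_lit 5) (nat_lit 31) (nat_lit 5) (nat_lit 29) (nat_lit 5) (nat_lit 339) (nat_lit 285) (nat_lit 156)) (XT.lf (nat_lit 0) (nat_lit 33979258658) (nat_lit 228) (nat_lit 19575626347) (nat_lit 76) (nat_lit 26811863142) (nat_lit 28) (nat_lit 5) (nat_lit 31) (nat_lit 5) (nat_lit 29) (nat_lit 5) (nat_lit 340) (nat_lit 285) (nat_lit 155)))) (XT.nd (nat_lit 78) (nat_lit 152) (nat_lit 0) (XT.lf (nat_lit 0) (nat_lit 24422820601) (nat_lit 152) (nat_lit 29305034829) (nat_lit 228) (nat_lit 29855429091) (nat_lit 26) (nat_lit 5) (nat_lit 28) (nat_lit 5) (nat_lit 29) (nat_lit 5) (nat_lit 341) (nat_lit 285) (nat_lit 154)) (XT.nd (nat_lit 78) (nat_lit 152) (nat_lit 0) (XT.lf (nat_lit 0) (nat_lit 71022891130)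 (nat_lit 152) (nat_lit 3638176186) (nat_lit 228) (nat_lit 12293667472) (nat_lit 26) (nat_lit 5) (nat_lit 28) (nat_lit 5) (nat_lit 29) (nat_lit 5) (nat_lit 342) (nat_lit 285) (nat_lit 153)) (XT.lf (nat_lit 0) (nat_lit 6537738643) (nat_lit 152) (nat_lit 60734987511) (nat_lit 76) (nat_lit 23204916708) (nat_lit 24) (nat_lit 5) (nat_lit 26) (nat_lit 5) (nat_lit 25) (nat_lit 5) (nat_lit 343) (nat_lit 285) (nat_lit 152))))) (XT.nd (nat_lit 234) (nat_lit 304) (nat_lit 0) (XT.nd (nat_lit 78) (nat_lit 152) (nat_lit 0) (XT.lf (nat_lit 0) (nat_lit 26257114477) (nat_lit 152) (nat_lit 16307394131) (nat_lit 76) (nat_lit 51602518925) (nat_lit 24) (nat_lit 5) (nat_lit 26) (nat_lit 5) (nat_lit 25) (nat_lit 5) (nat_lit 344) (nat_lit 285) (nat_lit 151)) (XT.nd (nat_lit 78) (nat_lit 0) (nat_lit 0) (XT.lf (nat_lit 0) (nat_lit 30938638287) (nat_lit 152) (nat_lit 16317354086) (nat_lit 228) (nat_lit 50776085276)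 (nat_lit 22) (nat_lit 5) (nat_lit 24) (nat_lit 5) (nat_lit 25) (nat_lit 5) (nat_lit 345) (nat_lit 285) (nat_lit 150)) (XT.lf (nat_lit 0) (nat_lit 69578640864) (nat_lit 228) (nat_lit 21313885953) (nat_lit 76) (nat_lit 11189640756) (nat_lit 22) (nat_lit 5) (nat_lit 25) (nat_lit 5) (nat_lit 23) (nat_lit 4) (nat_lit 346) (nat_lit 285) (nat_lit 149)))) (XT.nd (nat_lit 156) (nat_lit 152) (nat_lit 0) (XT.nd (nat_lit 78) (nat_lit 76) (nat_lit 0) (XT.lf (nat_lit 0) (nat_lit 27112768254) (nat_lit 76) (nat_lit 66326380554) (nat_lit 152) (nat_lit 12882963377) (nat_lit 21) (nat_lit 5) (nat_lit 22) (nat_lit 5) (nat_lit 23) (nat_lit 4) (nat_lit 347) (nat_lit 285) (nat_lit 148)) (XT.lf (nat_lit 0) (nat_lit 7786073789) (nat_lit 152) (nat_lit 32443829938) (nat_lit 76) (nat_lit 70535384351) (nat_lit 20) (nat_lit 5) (nat_lit 22) (nat_lit 5) (nat_lit 21) (nat_lit 5) (nat_lit 348) (nat_lit 285) (nat_lit 147)))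 (XT.nd (nat_lit 78) (nat_lit 0) (nat_lit 0) (XT.lf (nat_lit 0) (nat_lit 16852940635) (nat_lit 152) (nat_lit 12530311619) (nat_lit 228) (nat_lit 86038711786) (nat_lit 18) (nat_lit 5) (nat_lit 20) (nat_lit 5) (nat_lit 21) (nat_lit 5) (nat_lit 349) (nat_lit 285) (nat_lit 146)) (XT.lf (nat_lit 0) (nat_lit 52553439395) (nat_lit 228) (nat_lit 51177118130) (nat_lit 76) (nat_lit 16566123464) (nat_lit 18) (nat_lit 5) (nat_lit 21) (nat_lit 5) (nat_lit 19) (nat_lit 4) (nat_lit 350) (nat_lit 285) (nat_lit 145)))))) (XT.nd (nat_lit 35646) (nat_lit 0) (nat_lit 12388) (XT.nd (nat_lit 234) (nat_lit 228) (nat_lit 0) (XT.nd (nat_lit 78) (nat_lit 76) (nat_lit 0) (XT.lf (nat_lit 0) (nat_lit 77005495684) (nat_lit 228) (nat_lit 1547572579) (nat_lit 76) (nat_lit 46858366327) (nat_lit 18) (nat_lit 5) (nat_lit 21) (nat_lit 5) (nat_lit 19) (nat_lit 4) (nat_lit 351) (nat_lit 285) (nat_lit 144)) (XT.nd (nat_lit 78)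 (nat_lit 0) (nat_lit 0) (XT.lf (nat_lit 0) (nat_lit 51564435719) (nat_lit 76) (nat_lit 51608424464) (nat_lit 152) (nat_lit 27594286051) (nat_lit 17) (nat_lit 5) (nat_lit 18) (nat_lit 5) (nat_lit 19) (nat_lit 4) (nat_lit 352) (nat_lit 285) (nat_lit 143)) (XT.lf (nat_lit 0) (nat_lit 107359311450) (nat_lit 76) (nat_lit 23302341204) (nat_lit 152) (nat_lit 5728600465) (nat_lit 17) (nat_lit 5) (nat_lit 18) (nat_lit 5) (nat_lit 19) (nat_lit 4) (nat_lit 353) (nat_lit 285) (nat_lit 142)))) (XT.nd (nat_lit 78) (nat_lit 0) (nat_lit 0) (XT.lf (nat_lit 0) (nat_lit 17187167591) (nat_lit 228) (nat_lit 118402152051) (nat_lit 76) (nat_lit 6691437440) (nat_lit 14) (nat_lit 5) (nat_lit 17) (nat_lit 5) (nat_lit 15) (nat_lit 4) (nat_lit 354) (nat_lit 285) (nat_lit 141)) (XT.nd (nat_lit 35256) (nat_lit 0) (nat_lit 13376) (XT.lf (nat_lit 0) (nat_lit 41665655310) (nat_lit 228) (nat_lit 68717314715) (nat_lit 76)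 (nat_lit 38065053706) (nat_lit 14) (nat_lit 5) (nat_lit 17) (nat_lit 5) (nat_lit 15) (nat_lit 4) (nat_lit 355) (nat_lit 285) (nat_lit 140)) (XT.lf (nat_lit 0) (nat_lit 6108067392) (nat_lit 1140) (nat_lit 639637466) (nat_lit 1140) (nat_lit 639637466) (nat_lit 190) (nat_lit 3) (nat_lit 205) (nat_lit 3) (nat_lit 205) (nat_lit 5) (nat_lit 286) (nat_lit 286) (nat_lit 208))))) (XT.nd (nat_lit 234) (nat_lit 988) (nat_lit 0) (XT.nd (nat_lit 78) (nat_lit 0) (nat_lit 76) (XT.lf (nat_lit 76) (nat_lit 9804123893) (nat_lit 0) (nat_lit 3280428874) (nat_lit 1140) (nat_lit 2041852606) (nat_lit 191) (nat_lit 5) (nat_lit 190) (nat_lit 3) (nat_lit 205) (nat_lit 5) (nat_lit 287) (nat_lit 286) (nat_lit 207)) (XT.nd (nat_lit 78) (nat_lit 0) (nat_lit 76) (XT.lf (nat_lit 76) (nat_lit 6001645958) (nat_lit 0) (nat_lit 8107284560) (nat_lit 1140) (nat_lit 1383453841) (nat_lit 192) (nat_lit 5) (nat_lit 191) (nat_lit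 5) (nat_lit 206) (nat_lit 5) (nat_lit 288) (nat_lit 286) (nat_lit 206)) (XT.lf (nat_lit 76) (nat_lit 2092674028) (nat_lit 0) (nat_lit 13196839241) (nat_lit 1140) (nat_lit 584045526) (nat_lit 193) (nat_lit 5) (nat_lit 192) (nat_lit 5) (nat_lit 207) (nat_lit 5) (nat_lit 289) (nat_lit 286) (nat_lit 205)))) (XT.nd (nat_lit 156) (nat_lit 0) (nat_lit 152) (XT.nd (nat_lit 78) (nat_lit 0) (nat_lit 76) (XT.lf (nat_lit 0) (nat_lit 403101616) (nat_lit 1140) (nat_lit 1920042135) (nat_lit 1216) (nat_lit 13946034655) (nat_lit 177) (nat_lit 5) (nat_lit 192) (nat_lit 5) (nat_lit 193) (nat_lit 5) (nat_lit 290) (nat_lit 286) (nat_lit 204)) (XT.lf (nat_lit 0) (nat_lit 1592859890) (nat_lit 1140) (nat_lit 6050275156) (nat_lit 1216) (nat_lit 9036351077) (nat_lit 178) (nat_lit 5) (nat_lit 193) (nat_lit 5) (nat_lit 194) (nat_lit 5) (nat_lit 291) (nat_lit 286) (nat_lit 203))) (XT.nd (nat_lit 78) (nat_lit 0) (nat_lit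 0) (XT.lf (nat_lit 0) (nat_lit 2963442705) (nat_lit 1140) (nat_lit 10316494964) (nat_lit 1216) (nat_lit 3826770109) (nat_lit 179) (nat_lit 5) (nat_lit 194) (nat_lit 5) (nat_lit 195) (nat_lit 5) (nat_lit 292) (nat_lit 286) (nat_lit 202)) (XT.lf (nat_lit 76) (nat_lit 2805281113) (nat_lit 0) (nat_lit 1740164747) (nat_lit 1216) (nat_lit 13005594731) (nat_lit 180) (nat_lit 5) (nat_lit 179) (nat_lit 5) (nat_lit 195) (nat_lit 5) (nat_lit 293) (nat_lit 286) (nat_lit 201))))))) (XT.nd (nat_lit 1014) (nat_lit 4028) (nat_lit 0) (XT.nd (nat_lit 468) (nat_lit 3192) (nat_lit 0) (XT.nd (nat_lit 234) (nat_lit 1520) (nat_lit 0) (XT.nd (nat_lit 78) (nat_lit 0) (nat_lit 76) (XT.lf (nat_lit 0) (nat_lit 6390473500) (nat_lit 1140) (nat_lit 1334195594) (nat_lit 1216) (nat_lit 10287438277) (nat_lit 180) (nat_lit 5) (nat_lit 195) (nat_lit 5) (nat_lit 196) (nat_lit 5) (nat_lit 294) (nat_lit 286) (nat_lit 200)) (XT.nd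 (nat_lit 78) (nat_lit 0) (nat_lit 0) (XT.lf (nat_lit 0) (nat_lit 8491419724) (nat_lit 1140) (nat_lit 5569562929) (nat_lit 1216) (nat_lit 4430368211) (nat_lit 181) (nat_lit 5) (nat_lit 196) (nat_lit 5) (nat_lit 197) (nat_lit 5) (nat_lit 295) (nat_lit 286) (nat_lit 199)) (XT.lf (nat_lit 76) (nat_lit 9004814537) (nat_lit 0) (nat_lit 1849955782) (nat_lit 1216) (nat_lit 8135097299) (nat_lit 182) (nat_lit 5) (nat_lit 181) (nat_lit 5) (nat_lit 197) (nat_lit 5) (nat_lit 296) (nat_lit 286) (nat_lit 198)))) (XT.nd (nat_lit 78) (nat_lit 532) (nat_lit 0) (XT.lf (nat_lit 0) (nat_lit 4884706663) (nat_lit 1140) (nat_lit 8641740506) (nat_lit 1216) (nat_lit 5981188564) (nat_lit 167) (nat_lit 5) (nat_lit 182) (nat_lit 5) (nat_lit 183) (nat_lit 5) (nat_lit 297) (nat_lit 286) (nat_lit 197)) (XT.nd (nat_lit 78) (nat_lit 0) (nat_lit 0) (XT.lf (nat_lit 0) (nat_lit 593363106) (nat_lit 532) (nat_lit 15886690344)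 (nat_lit 608) (nat_lit 3566817277) (nat_lit 160) (nat_lit 5) (nat_lit 167) (nat_lit 5) (nat_lit 168) (nat_lit 5) (nat_lit 298) (nat_lit 286) (nat_lit 196)) (XT.lf (nat_lit 0) (nat_lit 16770161361) (nat_lit 532) (nat_lit 3029495233) (nat_lit 608) (nat_lit 806888850) (nat_lit 160) (nat_lit 5) (nat_lit 167) (nat_lit 5) (nat_lit 168) (nat_lit 5) (nat_lit 299) (nat_lit 286) (nat_lit 195))))) (XT.nd (nat_lit 234) (nat_lit 1444) (nat_lit 0) (XT.nd (nat_lit 78) (nat_lit 1064) (nat_lit 0) (XT.lf (nat_lit 0) (nat_lit 2257206375) (nat_lit 684) (nat_lit 8518291049) (nat_lit 76) (nat_lit 10411919643) (nat_lit 151) (nat_lit 5) (nat_lit 160) (nat_lit 5) (nat_lit 152) (nat_lit 5) (nat_lit 300) (nat_lit 286) (nat_lit 194)) (XT.nd (nat_lit 78) (nat_lit 532) (nat_lit 0) (XT.lf (nat_lit 0) (nat_lit 5618831343) (nat_lit 608) (nat_lit 13428010871) (nat_lit 76) (nat_lit 2745444194) (nat_lit 144) (nat_lit 5) (nat_lit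 152) (nat_lit 5) (nat_lit 145) (nat_lit 5) (nat_lit 301) (nat_lit 286) (nat_lit 193)) (XT.lf (nat_lit 0) (nat_lit 3791948533) (nat_lit 532) (nat_lit 5573835247) (nat_lit 608) (nat_lit 13055121087) (nat_lit 137) (nat_lit 5) (nat_lit 144) (nat_lit 5) (nat_lit 145) (nat_lit 5) (nat_lit 302) (nat_lit 286) (nat_lit 192)))) (XT.nd (nat_lit 156) (nat_lit 988) (nat_lit 0) (XT.nd (nat_lit 78) (nat_lit 456) (nat_lit 0) (XT.lf (nat_lit 0) (nat_lit 13506197604) (nat_lit 608) (nat_lit 1023718073) (nat_lit 76) (nat_lit 8544877101) (nat_lit 137) (nat_lit 5) (nat_lit 145) (nat_lit 5) (nat_lit 138) (nat_lit 5) (nat_lit 303) (nat_lit 286) (nat_lit 191)) (XT.lf (nat_lit 0) (nat_lit 17735758535) (nat_lit 456) (nat_lit 329483776) (nat_lit 532) (nat_lit 5689805363) (nat_lit 131) (nat_lit 5) (nat_lit 137) (nat_lit 5) (nat_lit 138) (nat_lit 5) (nat_lit 304) (nat_lit 286) (nat_lit 190))) (XT.nd (nat_lit 78) (nat_lit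 532) (nat_lit 0) (XT.lf (nat_lit 0) (nat_lit 13084820654) (nat_lit 456) (nat_lit 10029431504) (nat_lit 532) (nat_lit 1347222669) (nat_lit 125) (nat_lit 5) (nat_lit 131) (nat_lit 5) (nat_lit 132) (nat_lit 5) (nat_lit 305) (nat_lit 286) (nat_lit 189)) (XT.lf (nat_lit 0) (nat_lit 3327208348) (nat_lit 532) (nat_lit 17067865515) (nat_lit 76) (nat_lit 4801919272) (nat_lit 118) (nat_lit 5) (nat_lit 125) (nat_lit 5) (nat_lit 119) (nat_lit 5) (nat_lit 306) (nat_lit 286) (nat_lit 188)))))) (XT.nd (nat_lit 546) (nat_lit 1976) (nat_lit 0) (XT.nd (nat_lit 234) (nat_lit 1216) (nat_lit 0) (XT.nd (nat_lit 78) (nat_lit 380) (nat_lit 0) (XT.lf (nat_lit 0) (nat_lit 2805260433) (nat_lit 456) (nat_lit 5635296043) (nat_lit 532) (nat_lit 17521356495) (nat_lit 112) (nat_lit 5) (nat_lit 118) (nat_lit 5) (nat_lit 119) (nat_lit 5) (nat_lit 307) (nat_lit 286) (nat_lit 187)) (XT.nd (nat_lit 78) (nat_lit 380) (nat_lit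 0) (XT.lf (nat_lit 0) (nat_lit 14068631032) (nat_lit 532) (nat_lit 2843240401) (nat_lit 76) (nat_lit 9845452287) (nat_lit 112) (nat_lit 5) (nat_lit 119) (nat_lit 5) (nat_lit 113) (nat_lit 5) (nat_lit 308) (nat_lit 286) (nat_lit 186)) (XT.lf (nat_lit 0) (nat_lit 18780583877) (nat_lit 380) (nat_lit 1422378794) (nat_lit 456) (nat_lit 7382812630) (nat_lit 107) (nat_lit 5) (nat_lit 112) (nat_lit 5) (nat_lit 113) (nat_lit 5) (nat_lit 309) (nat_lit 286) (nat_lit 185)))) (XT.nd (nat_lit 156) (nat_lit 380) (nat_lit 0) (XT.nd (nat_lit 78) (nat_lit 456) (nat_lit 0) (XT.lf (nat_lit 0) (nat_lit 13189882622) (nat_lit 380) (nat_lit 13741023564) (nat_lit 456) (nat_lit 1516151553) (nat_lit 102) (nat_lit 5) (nat_lit 107) (nat_lit 5) (nat_lit 108) (nat_lit 5) (nat_lit 310) (nat_lit 286) (nat_lit 184)) (XT.lf (nat_lit 0) (nat_lit 4740121201) (nat_lit 456) (nat_lit 22183178762) (nat_lit 76) (nat_lit 2421172250)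 (nat_lit 96) (nat_lit 5) (nat_lit 102) (nat_lit 5) (nat_lit 97) (nat_lit 5) (nat_lit 311) (nat_lit 286) (nat_lit 183))) (XT.nd (nat_lit 78) (nat_lit 0) (nat_lit 0) (XT.lf (nat_lit 0) (nat_lit 578692084) (nat_lit 380) (nat_lit 10990908447) (nat_lit 456) (nat_lit 18707967390) (nat_lit 91) (nat_lit 5) (nat_lit 96) (nat_lit 5) (nat_lit 97) (nat_lit 5) (nat_lit 312) (nat_lit 286) (nat_lit 182)) (XT.lf (nat_lit 0) (nat_lit 19015296527) (nat_lit 456) (nat_lit 6380084676) (nat_lit 76) (nat_lit 5853707627) (nat_lit 91) (nat_lit 5) (nat_lit 97) (nat_lit 5) (nat_lit 92) (nat_lit 5) (nat_lit 313) (nat_lit 286) (nat_lit 181))))) (XT.nd (nat_lit 234) (nat_lit 912) (nat_lit 0) (XT.nd (nat_lit 78) (nat_lit 760) (nat_lit 0) (XT.lf (nat_lit 0) (nat_lit 18337818062) (nat_lit 304) (nat_lit 8772160194) (nat_lit 380) (nat_lit 5150918593) (nat_lit 87) (nat_lit 5) (nat_lit 91) (nat_lit 5) (nat_lit 92) (nat_lit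 5) (nat_lit 314) (nat_lit 286) (nat_lit 180)) (XT.nd (nat_lit 78) (nat_lit 304) (nat_lit 0) (XT.lf (nat_lit 0) (nat_lit 2491449531) (nat_lit 456) (nat_lit 22115383692) (nat_lit 76) (nat_lit 8708315142) (nat_lit 81) (nat_lit 5) (nat_lit 87) (nat_lit 5) (nat_lit 82) (nat_lit 5) (nat_lit 315) (nat_lit 286) (nat_lit 179)) (XT.lf (nat_lit 0) (nat_lit 3362108093) (nat_lit 304) (nat_lit 7303975494) (nat_lit 380) (nat_lit 23746809247) (nat_lit 77) (nat_lit 5) (nat_lit 81) (nat_lit 5) (nat_lit 82) (nat_lit 5) (nat_lit 316) (nat_lit 286) (nat_lit 178)))) (XT.nd (nat_lit 156) (nat_lit 608) (nat_lit 0) (XT.nd (nat_lit 78) (nat_lit 304) (nat_lit 0) (XT.lf (nat_lit 0) (nat_lit 19574189754) (nat_lit 380) (nat_lit 5103077734) (nat_lit 76) (nat_lit 10878524970) (nat_lit 77) (nat_lit 5) (nat_lit 82) (nat_lit 5) (nat_lit 78) (nat_lit 5) (nat_lit 317) (nat_lit 286) (nat_lit 177)) (XT.lf (nat_lit 0) (nat_lit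 22494559714) (nat_lit 304) (nat_lit 6713947441) (nat_lit 380) (nat_lit 7538915388) (nat_lit 73) (nat_lit 5) (nat_lit 77) (nat_lit 5) (nat_lit 78) (nat_lit 5) (nat_lit 318) (nat_lit 286) (nat_lit 176))) (XT.nd (nat_lit 78) (nat_lit 304) (nat_lit 0) (XT.lf (nat_lit 0) (nat_lit 1595762531) (nat_lit 304) (nat_lit 24285975953) (nat_lit 76) (nat_lit 12107650332) (nat_lit 69) (nat_lit 5) (nat_lit 73) (nat_lit 5) (nat_lit 70) (nat_lit 5) (nat_lit 319) (nat_lit 286) (nat_lit 175)) (XT.lf (nat_lit 0) (nat_lit 3986390471) (nat_lit 304) (nat_lit 7291924007) (nat_lit 380) (nat_lit 28005496455) (nat_lit 65) (nat_lit 5) (nat_lit 69) (nat_lit 5) (nat_lit 70) (nat_lit 5) (nat_lit 320) (nat_lit 286) (nat_lit 174))))))))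
noncomputable def xc93 : XT := (XT.nd (nat_lit 2028) (nat_lit 608) (nat_lit 0) (XT.nd (nat_lit 1014) (nat_lit 1216) (nat_lit 0) (XT.nd (nat_lit 468) (nat_lit 1064) (nat_lit 0) (XT.nd (nat_lit 234) (nat_lit 456) (nat_lit 0) (XT.nd (nat_lit 78) (nat_lit 532) (nat_lit 0) (XT.lf (nat_lit 0) (nat_lit 21806618772) (nat_lit 380) (nat_lit 6587835829) (nat_lit 76) (nat_lit 12237658912) (nat_lit 65) (nat_lit 5) (nat_lit 70) (nat_lit 5) (nat_lit 66) (nat_lit 5) (nat_lit 321) (nat_lit 286) (nat_lit 173)) (XT.nd (nat_lit 78) (nat_lit 304) (nat_lit 0) (XT.lf (nat_lit 0) (nat_lit 23939100189) (nat_lit 228) (nat_lit 9217963773) (nat_lit 304) (nat_lit 8881903204) (nat_lit 62) (nat_lit 5) (nat_lit 65) (nat_lit 5) (nat_lit 66) (nat_lit 5) (nat_lit 322) (nat_lit 286) (nat_lit 172)) (XT.lf (nat_lit 0) (nat_lit 1819509892) (nat_lit 304) (nat_lit 30777844600) (nat_lit 76) (nat_lit 10909634765) (nat_lit 58) (nat_lit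 5) (nat_lit 62) (nat_lit 5) (nat_lit 59) (nat_lit 5) (nat_lit 323) (nat_lit 286) (nat_lit 171)))) (XT.nd (nat_lit 78) (nat_lit 228) (nat_lit 0) (XT.lf (nat_lit 0) (nat_lit 243882629) (nat_lit 228) (nat_lit 12906104192) (nat_lit 304) (nat_lit 31887463700) (nat_lit 55) (nat_lit 5) (nat_lit 58) (nat_lit 5) (nat_lit 59) (nat_lit 5) (nat_lit 324) (nat_lit 286) (nat_lit 170)) (XT.nd (nat_lit 78) (nat_lit 228) (nat_lit 0) (XT.lf (nat_lit 0) (nat_lit 25434287843) (nat_lit 304) (nat_lit 13264119320) (nat_lit 76) (nat_lit 7934415147) (nat_lit 55) (nat_lit 5) (nat_lit 59) (nat_lit 5) (nat_lit 56) (nat_lit 5) (nat_lit 325) (nat_lit 286) (nat_lit 169)) (XT.lf (nat_lit 0) (nat_lit 20092929417) (nat_lit 228) (nat_lit 18556280048) (nat_lit 304) (nat_lit 9649267219) (nat_lit 52) (nat_lit 5) (nat_lit 55) (nat_lit 5) (nat_lit 56) (nat_lit 5) (nat_lit 326) (nat_lit 286) (nat_lit 168))))) (XT.nd (nat_lit 234)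 (nat_lit 608) (nat_lit 0) (XT.nd (nat_lit 78) (nat_lit 228) (nat_lit 0) (XT.lf (nat_lit 0) (nat_lit 2639294323) (nat_lit 228) (nat_lit 44646419163) (nat_lit 76) (nat_lit 2754686286) (nat_lit 49) (nat_lit 5) (nat_lit 52) (nat_lit 5) (nat_lit 50) (nat_lit 5) (nat_lit 327) (nat_lit 286) (nat_lit 167)) (XT.nd (nat_lit 78) (nat_lit 228) (nat_lit 0) (XT.lf (nat_lit 0) (nat_lit 15818445761) (nat_lit 228) (nat_lit 10895766826) (nat_lit 76) (nat_lit 25138074030) (nat_lit 49) (nat_lit 5) (nat_lit 52) (nat_lit 5) (nat_lit 50) (nat_lit 5) (nat_lit 328) (nat_lit 286) (nat_lit 166)) (XT.lf (nat_lit 0) (nat_lit 25020762349) (nat_lit 228) (nat_lit 4869973351) (nat_lit 304) (nat_lit 23857011846) (nat_lit 46) (nat_lit 5) (nat_lit 49) (nat_lit 5) (nat_lit 50) (nat_lit 5) (nat_lit 329) (nat_lit 286) (nat_lit 165)))) (XT.nd (nat_lit 156) (nat_lit 380) (nat_lit 0) (XT.nd (nat_lit 78) (nat_lit 76) (nat_lit 0)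 (XT.lf (nat_lit 0) (nat_lit 7181784483) (nat_lit 152) (nat_lit 37834671874) (nat_lit 228) (nat_lit 10711035598) (nat_lit 44) (nat_lit 5) (nat_lit 46) (nat_lit 5) (nat_lit 47) (nat_lit 5) (nat_lit 330) (nat_lit 286) (nat_lit 164)) (XT.lf (nat_lit 0) (nat_lit 3373679523) (nat_lit 228) (nat_lit 12402472593) (nat_lit 76) (nat_lit 42018930860) (nat_lit 43) (nat_lit 5) (nat_lit 46) (nat_lit 5) (nat_lit 44) (nat_lit 5) (nat_lit 331) (nat_lit 286) (nat_lit 163))) (XT.nd (nat_lit 78) (nat_lit 152) (nat_lit 0) (XT.lf (nat_lit 0) (nat_lit 18261253829) (nat_lit 304) (nat_lit 34093228631) (nat_lit 76) (nat_lit 7598789605) (nat_lit 40) (nat_lit 5) (nat_lit 44) (nat_lit 5) (nat_lit 41) (nat_lit 5) (nat_lit 332) (nat_lit 286) (nat_lit 162)) (XT.lf (nat_lit 0) (nat_lit 3987601554) (nat_lit 152) (nat_lit 30226527733) (nat_lit 228) (nat_lit 27995617777) (nat_lit 38) (nat_lit 5) (nat_lit 40) (nat_lit 5) (nat_lit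 41) (nat_lit 5) (nat_lit 333) (nat_lit 286) (nat_lit 161)))))) (XT.nd (nat_lit 468) (nat_lit 684) (nat_lit 0) (XT.nd (nat_lit 234) (nat_lit 304) (nat_lit 0) (XT.nd (nat_lit 78) (nat_lit 228) (nat_lit 0) (XT.lf (nat_lit 0) (nat_lit 44676146087) (nat_lit 152) (nat_lit 6634065450) (nat_lit 228) (nat_lit 13258471316) (nat_lit 38) (nat_lit 5) (nat_lit 40) (nat_lit 5) (nat_lit 41) (nat_lit 5) (nat_lit 334) (nat_lit 286) (nat_lit 160)) (XT.nd (nat_lit 78) (nat_lit 0) (nat_lit 0) (XT.lf (nat_lit 0) (nat_lit 2542864010) (nat_lit 228) (nat_lit 46487340219) (nat_lit 76) (nat_lit 18003608988) (nat_lit 35) (nat_lit 5) (nat_lit 38) (nat_lit 5) (nat_lit 36) (nat_lit 5) (nat_lit 335) (nat_lit 286) (nat_lit 159)) (XT.lf (nat_lit 0) (nat_lit 19131315705) (nat_lit 228) (nat_lit 6404081123) (nat_lit 76) (nat_lit 44074730919) (nat_lit 35) (nat_lit 5) (nat_lit 38) (nat_lit 5) (nat_lit 36) (nat_lit 5) (nat_lit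 336) (nat_lit 286) (nat_lit 158)))) (XT.nd (nat_lit 78) (nat_lit 152) (nat_lit 0) (XT.lf (nat_lit 0) (nat_lit 36385403208) (nat_lit 152) (nat_lit 508729653) (nat_lit 228) (nat_lit 35410780154) (nat_lit 33) (nat_lit 5) (nat_lit 35) (nat_lit 5) (nat_lit 36) (nat_lit 5) (nat_lit 337) (nat_lit 286) (nat_lit 157)) (XT.nd (nat_lit 78) (nat_lit 0) (nat_lit 0) (XT.lf (nat_lit 0) (nat_lit 6180128540) (nat_lit 152) (nat_lit 49733966420) (nat_lit 228) (nat_lit 19209275604) (nat_lit 31) (nat_lit 5) (nat_lit 33) (nat_lit 5) (nat_lit 34) (nat_lit 5) (nat_lit 338) (nat_lit 286) (nat_lit 156)) (XT.lf (nat_lit 0) (nat_lit 51122514829) (nat_lit 152) (nat_lit 25132844414) (nat_lit 228) (nat_lit 1816285615) (nat_lit 31) (nat_lit 5) (nat_lit 33) (nat_lit 5) (nat_lit 34) (nat_lit 5) (nat_lit 339) (nat_lit 286) (nat_lit 155))))) (XT.nd (nat_lit 234) (nat_lit 304) (nat_lit 0) (XT.nd (nat_lit 78) (nat_lit 152) (nat_lit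 0) (XT.lf (nat_lit 0) (nat_lit 16297417917) (nat_lit 228) (nat_lit 63850448612) (nat_lit 76) (nat_lit 1009566581) (nat_lit 28) (nat_lit 5) (nat_lit 31) (nat_lit 5) (nat_lit 29) (nat_lit 5) (nat_lit 340) (nat_lit 286) (nat_lit 154)) (XT.nd (nat_lit 78) (nat_lit 152) (nat_lit 0) (XT.lf (nat_lit 0) (nat_lit 35809170689) (nat_lit 228) (nat_lit 20332104680) (nat_lit 76) (nat_lit 28239800719) (nat_lit 28) (nat_lit 5) (nat_lit 31) (nat_lit 5) (nat_lit 29) (nat_lit 5) (nat_lit 341) (nat_lit 286) (nat_lit 153)) (XT.lf (nat_lit 0) (nat_lit 25859892345) (nat_lit 152) (nat_lit 30681144941) (nat_lit 228) (nat_lit 31217530652) (nat_lit 26) (nat_lit 5) (nat_lit 28) (nat_lit 5) (nat_lit 29) (nat_lit 5) (nat_lit 342) (nat_lit 286) (nat_lit 152)))) (XT.nd (nat_lit 156) (nat_lit 152) (nat_lit 0) (XT.nd (nat_lit 78) (nat_lit 152) (nat_lit 0) (XT.lf (nat_lit 0) (nat_lit 74779683986) (nat_lit 152) (nat_lit 3735188205)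 (nat_lit 228) (nat_lit 12783903328) (nat_lit 26) (nat_lit 5) (nat_lit 28) (nat_lit 5) (nat_lit 29) (nat_lit 5) (nat_lit 343) (nat_lit 286) (nat_lit 151)) (XT.lf (nat_lit 0) (nat_lit 6983585474) (nat_lit 152) (nat_lit 63566750616) (nat_lit 76) (nat_lit 24447552190) (nat_lit 24) (nat_lit 5) (nat_lit 26) (nat_lit 5) (nat_lit 25) (nat_lit 5) (nat_lit 344) (nat_lit 286) (nat_lit 150))) (XT.nd (nat_lit 78) (nat_lit 152) (nat_lit 0) (XT.lf (nat_lit 0) (nat_lit 27683265343) (nat_lit 152) (nat_lit 16927538818) (nat_lit 76) (nat_lit 54261111202) (nat_lit 24) (nat_lit 5) (nat_lit 26) (nat_lit 5) (nat_lit 25) (nat_lit 5) (nat_lit 345) (nat_lit 286) (nat_lit 149)) (XT.lf (nat_lit 0) (nat_lit 32675199135) (nat_lit 152) (nat_lit 17053315821) (nat_lit 228) (nat_lit 53201813274) (nat_lit 22) (nat_lit 5) (nat_lit 24) (nat_lit 5) (nat_lit 25) (nat_lit 5) (nat_lit 346) (nat_lit 286) (nat_lit 148))))))) (XT.nd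 (nat_lit 36270) (nat_lit 0) (nat_lit 9348) (XT.nd (nat_lit 468) (nat_lit 304) (nat_lit 0) (XT.nd (nat_lit 234) (nat_lit 152) (nat_lit 0) (XT.nd (nat_lit 78) (nat_lit 152) (nat_lit 0) (XT.lf (nat_lit 0) (nat_lit 73162802497) (nat_lit 228) (nat_lit 22196519175) (nat_lit 76) (nat_lit 11823738713) (nat_lit 22) (nat_lit 5) (nat_lit 25) (nat_lit 5) (nat_lit 23) (nat_lit 4) (nat_lit 347) (nat_lit 286) (nat_lit 147)) (XT.nd (nat_lit 78) (nat_lit 76) (nat_lit 0) (XT.lf (nat_lit 0) (nat_lit 28646220333) (nat_lit 76) (nat_lit 69566813826) (nat_lit 152) (nat_lit 13422069914) (nat_lit 21) (nat_lit 5) (nat_lit 22) (nat_lit 5) (nat_lit 23) (nat_lit 4) (nat_lit 348) (nat_lit 286) (nat_lit 146)) (XT.lf (nat_lit 0) (nat_lit 8273464994) (nat_lit 152) (nat_lit 33894671280) (nat_lit 76) (nat_lit 74132421910) (nat_lit 20) (nat_lit 5) (nat_lit 22) (nat_lit 5) (nat_lit 21) (nat_lit 5) (nat_lit 349) (nat_lit 286)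 (nat_lit 145)))) (XT.nd (nat_lit 78) (nat_lit 0) (nat_lit 0) (XT.lf (nat_lit 0) (nat_lit 17862026105) (nat_lit 152) (nat_lit 13085405352) (nat_lit 228) (nat_lit 90242731077) (nat_lit 18) (nat_lit 5) (nat_lit 20) (nat_lit 5) (nat_lit 21) (nat_lit 5) (nat_lit 350) (nat_lit 286) (nat_lit 144)) (XT.nd (nat_lit 78) (nat_lit 0) (nat_lit 0) (XT.lf (nat_lit 0) (nat_lit 55272257213) (nat_lit 228) (nat_lit 53575353468) (nat_lit 76) (nat_lit 17461123113) (nat_lit 18) (nat_lit 5) (nat_lit 21) (nat_lit 5) (nat_lit 19) (nat_lit 4) (nat_lit 351) (nat_lit 286) (nat_lit 143)) (XT.lf (nat_lit 0) (nat_lit 80942576038) (nat_lit 228) (nat_lit 1471979238) (nat_lit 76) (nat_lit 49264802240) (nat_lit 18) (nat_lit 5) (nat_lit 21) (nat_lit 5) (nat_lit 19) (nat_lit 4) (nat_lit 352) (nat_lit 286) (nat_lit 142))))) (XT.nd (nat_lit 35490) (nat_lit 0) (nat_lit 12388) (XT.nd (nat_lit 78) (nat_lit 228) (nat_lit 0) (XT.lf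 (nat_lit 0) (nat_lit 54291244564) (nat_lit 76) (nat_lit 54124358909) (nat_lit 152) (nat_lit 28887334553) (nat_lit 17) (nat_lit 5) (nat_lit 18) (nat_lit 5) (nat_lit 19) (nat_lit 4) (nat_lit 353) (nat_lit 286) (nat_lit 141)) (XT.nd (nat_lit 78) (nat_lit 228) (nat_lit 0) (XT.lf (nat_lit 0) (nat_lit 112868788507) (nat_lit 76) (nat_lit 24406042285) (nat_lit 152) (nat_lit 5932491631) (nat_lit 17) (nat_lit 5) (nat_lit 18) (nat_lit 5) (nat_lit 19) (nat_lit 4) (nat_lit 354) (nat_lit 286) (nat_lit 140)) (XT.lf (nat_lit 0) (nat_lit 18125520152) (nat_lit 228) (nat_lit 124181395123) (nat_lit 76) (nat_lit 7085472400) (nat_lit 14) (nat_lit 5) (nat_lit 17) (nat_lit 5) (nat_lit 15) (nat_lit 4) (nat_lit 355) (nat_lit 286) (nat_lit 139)))) (XT.nd (nat_lit 156) (nat_lit 988) (nat_lit 0) (XT.nd (nat_lit 78) (nat_lit 0) (nat_lit 0) (XT.lf (nat_lit 0) (nat_lit 6874923304) (nat_lit 1140) (nat_lit 433599204) (nat_lit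 1140) (nat_lit 433599204) (nat_lit 190) (nat_lit 3) (nat_lit 205) (nat_lit 3) (nat_lit 205) (nat_lit 5) (nat_lit 287) (nat_lit 287) (nat_lit 206)) (XT.lf (nat_lit 76) (nat_lit 10756724759) (nat_lit 0) (nat_lit 3865457690) (nat_lit 1140) (nat_lit 1232623701) (nat_lit 191) (nat_lit 5) (nat_lit 190) (nat_lit 3) (nat_lit 205) (nat_lit 5) (nat_lit 288) (nat_lit 287) (nat_lit 205))) (XT.nd (nat_lit 78) (nat_lit 1064) (nat_lit 0) (XT.lf (nat_lit 76) (nat_lit 6781918637) (nat_lit 0) (nat_lit 8874555302) (nat_lit 1140) (nat_lit 583916796) (nat_lit 192) (nat_lit 5) (nat_lit 191) (nat_lit 5) (nat_lit 206) (nat_lit 5) (nat_lit 289) (nat_lit 287) (nat_lit 204)) (XT.lf (nat_lit 0) (nat_lit 211382745) (nat_lit 1140) (nat_lit 13950957326) (nat_lit 1216) (nat_lit 2479445389) (nat_lit 177) (nat_lit 5) (nat_lit 192) (nat_lit 5) (nat_lit 193) (nat_lit 5) (nat_lit 290) (nat_lit 287) (nat_lit 203)))))) (XT.nd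 (nat_lit 546) (nat_lit 3040) (nat_lit 0) (XT.nd (nat_lit 234) (nat_lit 0) (nat_lit 152) (XT.nd (nat_lit 78) (nat_lit 0) (nat_lit 76) (XT.lf (nat_lit 0) (nat_lit 1197222292) (nat_lit 1140) (nat_lit 1527399702) (nat_lit 1216) (nat_lit 14333607597) (nat_lit 177) (nat_lit 5) (nat_lit 192) (nat_lit 5) (nat_lit 193) (nat_lit 5) (nat_lit 291) (nat_lit 287) (nat_lit 202)) (XT.nd (nat_lit 78) (nat_lit 0) (nat_lit 76) (XT.lf (nat_lit 0) (nat_lit 2411608579) (nat_lit 1140) (nat_lit 5852202031) (nat_lit 1216) (nat_lit 9226344489) (nat_lit 178) (nat_lit 5) (nat_lit 193) (nat_lit 5) (nat_lit 194) (nat_lit 5) (nat_lit 292) (nat_lit 287) (nat_lit 201)) (XT.lf (nat_lit 0) (nat_lit 3818061708) (nat_lit 1140) (nat_lit 10321608948) (nat_lit 1216) (nat_lit 3800100858) (nat_lit 179) (nat_lit 5) (nat_lit 194) (nat_lit 5) (nat_lit 195) (nat_lit 5) (nat_lit 293) (nat_lit 287) (nat_lit 200)))) (XT.nd (nat_lit 156)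 (nat_lit 0) (nat_lit 152) (XT.nd (nat_lit 78) (nat_lit 0) (nat_lit 76) (XT.lf (nat_lit 76) (nat_lit 3441616512) (nat_lit 0) (nat_lit 2008676723) (nat_lit 1216) (nat_lit 12956945231) (nat_lit 180) (nat_lit 5) (nat_lit 179) (nat_lit 5) (nat_lit 195) (nat_lit 5) (nat_lit 294) (nat_lit 287) (nat_lit 199)) (XT.lf (nat_lit 0) (nat_lit 7353645134) (nat_lit 1140) (nat_lit 906457542) (nat_lit 1216) (nat_lit 10632322623) (nat_lit 180) (nat_lit 5) (nat_lit 195) (nat_lit 5) (nat_lit 196) (nat_lit 5) (nat_lit 295) (nat_lit 287) (nat_lit 198))) (XT.nd (nat_lit 78) (nat_lit 0) (nat_lit 0) (XT.lf (nat_lit 0) (nat_lit 9532285261) (nat_lit 1140) (nat_lit 5346986421) (nat_lit 1216) (nat_lit 4517226457) (nat_lit 181) (nat_lit 5) (nat_lit 196) (nat_lit 5) (nat_lit 197) (nat_lit 5) (nat_lit 296) (nat_lit 287) (nat_lit 197)) (XT.lf (nat_lit 76) (nat_lit 9941747287) (nat_lit 0) (nat_lit 2047387121) (nat_lit 1216)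 (nat_lit 7931590747) (nat_lit 182) (nat_lit 5) (nat_lit 181) (nat_lit 5) (nat_lit 197) (nat_lit 5) (nat_lit 297) (nat_lit 287) (nat_lit 196))))) (XT.nd (nat_lit 234) (nat_lit 1748) (nat_lit 0) (XT.nd (nat_lit 78) (nat_lit 532) (nat_lit 0) (XT.lf (nat_lit 0) (nat_lit 5620764513) (nat_lit 1140) (nat_lit 9149224988) (nat_lit 1216) (nat_lit 5695166584) (nat_lit 167) (nat_lit 5) (nat_lit 182) (nat_lit 5) (nat_lit 183) (nat_lit 5) (nat_lit 298) (nat_lit 287) (nat_lit 195)) (XT.nd (nat_lit 78) (nat_lit 0) (nat_lit 0) (XT.lf (nat_lit 0) (nat_lit 1118809216) (nat_lit 532) (nat_lit 16729531873) (nat_lit 608) (nat_lit 3183740022) (nat_lit 160) (nat_lit 5) (nat_lit 167) (nat_lit 5) (nat_lit 168) (nat_lit 5) (nat_lit 299) (nat_lit 287) (nat_lit 194)) (XT.lf (nat_lit 0) (nat_lit 18080838909) (nat_lit 532) (nat_lit 3227167149) (nat_lit 608) (nat_lit 312549370) (nat_lit 160) (nat_lit 5) (nat_lit 167) (nat_lit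 5) (nat_lit 168) (nat_lit 5) (nat_lit 300) (nat_lit 287) (nat_lit 193)))) (XT.nd (nat_lit 156) (nat_lit 532) (nat_lit 0) (XT.nd (nat_lit 78) (nat_lit 532) (nat_lit 0) (XT.lf (nat_lit 0) (nat_lit 2873535971) (nat_lit 684) (nat_lit 8458561291) (nat_lit 76) (nat_lit 10898878035) (nat_lit 151) (nat_lit 5) (nat_lit 160) (nat_lit 5) (nat_lit 152) (nat_lit 5) (nat_lit 301) (nat_lit 287) (nat_lit 192)) (XT.lf (nat_lit 0) (nat_lit 6383683665) (nat_lit 608) (nat_lit 13612374037) (nat_lit 76) (nat_lit 2870650900) (nat_lit 144) (nat_lit 5) (nat_lit 152) (nat_lit 5) (nat_lit 145) (nat_lit 5) (nat_lit 302) (nat_lit 287) (nat_lit 191))) (XT.nd (nat_lit 78) (nat_lit 0) (nat_lit 0) (XT.lf (nat_lit 0) (nat_lit 4454622508) (nat_lit 532) (nat_lit 5844865347) (nat_lit 608) (nat_lit 13227857138) (nat_lit 137) (nat_lit 5) (nat_lit 144) (nat_lit 5) (nat_lit 145) (nat_lit 5) (nat_lit 303) (nat_lit 287) (nat_lit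 190)) (XT.lf (nat_lit 0) (nat_lit 14624829898) (nat_lit 608) (nat_lit 610515389) (nat_lit 76) (nat_lit 8979275390) (nat_lit 137) (nat_lit 5) (nat_lit 145) (nat_lit 5) (nat_lit 138) (nat_lit 5) (nat_lit 304) (nat_lit 287) (nat_lit 189))))))))
noncomputable def xc94 : XT := (XT.nd (nat_lit 2028) (nat_lit 2204) (nat_lit 0) (XT.nd (nat_lit 1014) (nat_lit 2356) (nat_lit 0) (XT.nd (nat_lit 468) (nat_lit 2280) (nat_lit 0) (XT.nd (nat_lit 234) (nat_lit 836) (nat_lit 0) (XT.nd (nat_lit 78) (nat_lit 988) (nat_lit 0) (XT.lf (nat_lit 0) (nat_lit 19073623444) (nat_lit 456) (nat_lit 321428834) (nat_lit 532) (nat_lit 5534368423) (nat_lit 131) (nat_lit 5) (nat_lit 137) (nat_lit 5) (nat_lit 138) (nat_lit 5) (nat_lit 305) (nat_lit 287) (nat_lit 188)) (XT.nd (nat_lit 78) (nat_lit 532) (nat_lit 0) (XT.lf (nat_lit 0) (nat_lit 14189975447) (nat_lit 456) (nat_lit 10490784388) (nat_lit 532) (nat_lit 990909719)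 (nat_lit 125) (nat_lit 5) (nat_lit 131) (nat_lit 5) (nat_lit 132) (nat_lit 5) (nat_lit 306) (nat_lit 287) (nat_lit 187)) (XT.lf (nat_lit 0) (nat_lit 3893934793) (nat_lit 532) (nat_lit 17462653737) (nat_lit 76) (nat_lit 5087729953) (nat_lit 118) (nat_lit 5) (nat_lit 125) (nat_lit 5) (nat_lit 119) (nat_lit 5) (nat_lit 307) (nat_lit 287) (nat_lit 186)))) (XT.nd (nat_lit 78) (nat_lit 380) (nat_lit 0) (XT.lf (nat_lit 0) (nat_lit 3390982686) (nat_lit 456) (nat_lit 5857184620) (nat_lit 532) (nat_lit 17999784942) (nat_lit 112) (nat_lit 5) (nat_lit 118) (nat_lit 5) (nat_lit 119) (nat_lit 5) (nat_lit 308) (nat_lit 287) (nat_lit 185)) (XT.nd (nat_lit 78) (nat_lit 380) (nat_lit 0) (XT.lf (nat_lit 0) (nat_lit 15139832652) (nat_lit 532) (nat_lit 2550221434) (nat_lit 76) (nat_lit 10393637116) (nat_lit 112) (nat_lit 5) (nat_lit 119) (nat_lit 5) (nat_lit 113) (nat_lit 5) (nat_lit 309) (nat_lit 287) (nat_lit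 184)) (XT.lf (nat_lit 0) (nat_lit 20142319682) (nat_lit 380) (nat_lit 1425111644) (nat_lit 456) (nat_lit 7386559692) (nat_lit 107) (nat_lit 5) (nat_lit 112) (nat_lit 5) (nat_lit 113) (nat_lit 5) (nat_lit 310) (nat_lit 287) (nat_lit 183))))) (XT.nd (nat_lit 234) (nat_lit 1064) (nat_lit 0) (XT.nd (nat_lit 78) (nat_lit 836) (nat_lit 0) (XT.lf (nat_lit 0) (nat_lit 14270083679) (nat_lit 380) (nat_lit 14349486092) (nat_lit 456) (nat_lit 1239154993) (nat_lit 102) (nat_lit 5) (nat_lit 107) (nat_lit 5) (nat_lit 108) (nat_lit 5) (nat_lit 311) (nat_lit 287) (nat_lit 182)) (XT.nd (nat_lit 78) (nat_lit 380) (nat_lit 0) (XT.lf (nat_lit 0) (nat_lit 5311361849) (nat_lit 456) (nat_lit 22867002072) (nat_lit 76) (nat_lit 2622914376) (nat_lit 96) (nat_lit 5) (nat_lit 102) (nat_lit 5) (nat_lit 97) (nat_lit 5) (nat_lit 312) (nat_lit 287) (nat_lit 181)) (XT.lf (nat_lit 0) (nat_lit 1020770156) (nat_lit 380) (nat_lit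 11449600444) (nat_lit 456) (nat_lit 19311035121) (nat_lit 91) (nat_lit 5) (nat_lit 96) (nat_lit 5) (nat_lit 97) (nat_lit 5) (nat_lit 313) (nat_lit 287) (nat_lit 180)))) (XT.nd (nat_lit 156) (nat_lit 760) (nat_lit 0) (XT.nd (nat_lit 78) (nat_lit 304) (nat_lit 0) (XT.lf (nat_lit 0) (nat_lit 20273836002) (nat_lit 456) (nat_lit 6296888219) (nat_lit 76) (nat_lit 6231231625) (nat_lit 91) (nat_lit 5) (nat_lit 97) (nat_lit 5) (nat_lit 92) (nat_lit 5) (nat_lit 314) (nat_lit 287) (nat_lit 179)) (XT.lf (nat_lit 0) (nat_lit 19645380653) (nat_lit 304) (nat_lit 9116970603) (nat_lit 380) (nat_lit 5102346892) (nat_lit 87) (nat_lit 5) (nat_lit 91) (nat_lit 5) (nat_lit 92) (nat_lit 5) (nat_lit 315) (nat_lit 287) (nat_lit 178))) (XT.nd (nat_lit 78) (nat_lit 304) (nat_lit 0) (XT.lf (nat_lit 0) (nat_lit 2906503312) (nat_lit 456) (nat_lit 22827483882) (nat_lit 76) (nat_lit 9237892249) (nat_lit 81) (nat_lit 5)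 (nat_lit 87) (nat_lit 5) (nat_lit 82) (nat_lit 5) (nat_lit 316) (nat_lit 287) (nat_lit 177)) (XT.lf (nat_lit 0) (nat_lit 3912598050) (nat_lit 304) (nat_lit 7567114293) (nat_lit 380) (nat_lit 24645118349) (nat_lit 77) (nat_lit 5) (nat_lit 81) (nat_lit 5) (nat_lit 82) (nat_lit 5) (nat_lit 317) (nat_lit 287) (nat_lit 176)))))) (XT.nd (nat_lit 468) (nat_lit 1216) (nat_lit 0) (XT.nd (nat_lit 234) (nat_lit 532) (nat_lit 0) (XT.nd (nat_lit 78) (nat_lit 608) (nat_lit 0) (XT.lf (nat_lit 0) (nat_lit 20820809374) (nat_lit 380) (nat_lit 4986698026) (nat_lit 76) (nat_lit 11517754474) (nat_lit 77) (nat_lit 5) (nat_lit 82) (nat_lit 5) (nat_lit 78) (nat_lit 5) (nat_lit 318) (nat_lit 287) (nat_lit 175)) (XT.nd (nat_lit 78) (nat_lit 304) (nat_lit 0) (XT.lf (nat_lit 0) (nat_lit 23980171358) (nat_lit 304) (nat_lit 6947382696) (nat_lit 380) (nat_lit 7649211539) (nat_lit 73) (nat_lit 5) (nat_lit 77) (nat_lit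 5) (nat_lit 78) (nat_lit 5) (nat_lit 319) (nat_lit 287) (nat_lit 174)) (XT.lf (nat_lit 0) (nat_lit 1928962012) (nat_lit 304) (nat_lit 25137600114) (nat_lit 76) (nat_lit 12814444663) (nat_lit 69) (nat_lit 5) (nat_lit 73) (nat_lit 5) (nat_lit 70) (nat_lit 5) (nat_lit 320) (nat_lit 287) (nat_lit 173)))) (XT.nd (nat_lit 78) (nat_lit 228) (nat_lit 0) (XT.lf (nat_lit 0) (nat_lit 4537988636) (nat_lit 304) (nat_lit 7548972031) (nat_lit 380) (nat_lit 29153461635) (nat_lit 65) (nat_lit 5) (nat_lit 69) (nat_lit 5) (nat_lit 70) (nat_lit 5) (nat_lit 321) (nat_lit 287) (nat_lit 172)) (XT.nd (nat_lit 78) (nat_lit 228) (nat_lit 0) (XT.lf (nat_lit 0) (nat_lit 23131010933) (nat_lit 380) (nat_lit 6575490477) (nat_lit 76) (nat_lit 12949969976) (nat_lit 65) (nat_lit 5) (nat_lit 70) (nat_lit 5) (nat_lit 66) (nat_lit 5) (nat_lit 322) (nat_lit 287) (nat_lit 171)) (XT.lf (nat_lit 0) (nat_lit 25467996515) (nat_lit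 228) (nat_lit 9573026918) (nat_lit 304) (nat_lit 9092893698) (nat_lit 62) (nat_lit 5) (nat_lit 65) (nat_lit 5) (nat_lit 66) (nat_lit 5) (nat_lit 323) (nat_lit 287) (nat_lit 170))))) (XT.nd (nat_lit 234) (nat_lit 684) (nat_lit 0) (XT.nd (nat_lit 78) (nat_lit 228) (nat_lit 0) (XT.lf (nat_lit 0) (nat_lit 2132322668) (nat_lit 304) (nat_lit 31983886963) (nat_lit 76) (nat_lit 11559274983) (nat_lit 58) (nat_lit 5) (nat_lit 62) (nat_lit 5) (nat_lit 59) (nat_lit 5) (nat_lit 324) (nat_lit 287) (nat_lit 169)) (XT.nd (nat_lit 78) (nat_lit 0) (nat_lit 0) (XT.lf (nat_lit 0) (nat_lit 579385553) (nat_lit 228) (nat_lit 13442482051) (nat_lit 304) (nat_lit 33260834487) (nat_lit 55) (nat_lit 5) (nat_lit 58) (nat_lit 5) (nat_lit 59) (nat_lit 5) (nat_lit 325) (nat_lit 287) (nat_lit 168)) (XT.lf (nat_lit 0) (nat_lit 26911172253) (nat_lit 304) (nat_lit 13614103694) (nat_lit 76) (nat_lit 8432851890) (nat_lit 55)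 (nat_lit 5) (nat_lit 59) (nat_lit 5) (nat_lit 56) (nat_lit 5) (nat_lit 326) (nat_lit 287) (nat_lit 167)))) (XT.nd (nat_lit 156) (nat_lit 228) (nat_lit 0) (XT.nd (nat_lit 78) (nat_lit 228) (nat_lit 0) (XT.lf (nat_lit 0) (nat_lit 21401819046) (nat_lit 228) (nat_lit 19378175481) (nat_lit 304) (nat_lit 9927284361) (nat_lit 52) (nat_lit 5) (nat_lit 55) (nat_lit 5) (nat_lit 56) (nat_lit 5) (nat_lit 327) (nat_lit 287) (nat_lit 166)) (XT.lf (nat_lit 0) (nat_lit 2966066477) (nat_lit 228) (nat_lit 46574224856) (nat_lit 76) (nat_lit 2996125265) (nat_lit 49) (nat_lit 5) (nat_lit 52) (nat_lit 5) (nat_lit 50) (nat_lit 5) (nat_lit 328) (nat_lit 287) (nat_lit 165))) (XT.nd (nat_lit 78) (nat_lit 228) (nat_lit 0) (XT.lf (nat_lit 0) (nat_lit 16794898943) (nat_lit 228) (nat_lit 11150540629) (nat_lit 76) (nat_lit 26493744079) (nat_lit 49) (nat_lit 5) (nat_lit 52) (nat_lit 5) (nat_lit 50) (nat_lit 5) (nat_lit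 329) (nat_lit 287) (nat_lit 164)) (XT.lf (nat_lit 0) (nat_lit 26553501796) (nat_lit 228) (nat_lit 5011174663) (nat_lit 304) (nat_lit 24864932181) (nat_lit 46) (nat_lit 5) (nat_lit 49) (nat_lit 5) (nat_lit 50) (nat_lit 5) (nat_lit 330) (nat_lit 287) (nat_lit 163))))))) (XT.nd (nat_lit 1014) (nat_lit 684) (nat_lit 0) (XT.nd (nat_lit 468) (nat_lit 684) (nat_lit 0) (XT.nd (nat_lit 234) (nat_lit 380) (nat_lit 0) (XT.nd (nat_lit 78) (nat_lit 304) (nat_lit 0) (XT.lf (nat_lit 0) (nat_lit 7818912840) (nat_lit 152) (nat_lit 39622836464) (nat_lit 228) (nat_lit 11066745847) (nat_lit 44) (nat_lit 5) (nat_lit 46) (nat_lit 5) (nat_lit 47) (nat_lit 5) (nat_lit 331) (nat_lit 287) (nat_lit 162)) (XT.nd (nat_lit 78) (nat_lit 228) (nat_lit 0) (XT.lf (nat_lit 0) (nat_lit 3710298904) (nat_lit 228) (nat_lit 12754327853) (nat_lit 76) (nat_lit 44215045354) (nat_lit 43) (nat_lit 5) (nat_lit 46) (nat_lit 5) (nat_lit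 44) (nat_lit 5) (nat_lit 332) (nat_lit 287) (nat_lit 161)) (XT.lf (nat_lit 0) (nat_lit 19337703176) (nat_lit 304) (nat_lit 35533260682) (nat_lit 76) (nat_lit 8074949305) (nat_lit 40) (nat_lit 5) (nat_lit 44) (nat_lit 5) (nat_lit 41) (nat_lit 5) (nat_lit 333) (nat_lit 287) (nat_lit 160)))) (XT.nd (nat_lit 78) (nat_lit 228) (nat_lit 0) (XT.lf (nat_lit 0) (nat_lit 4444025464) (nat_lit 152) (nat_lit 31638887489) (nat_lit 228) (nat_lit 29232463999) (nat_lit 38) (nat_lit 5) (nat_lit 40) (nat_lit 5) (nat_lit 41) (nat_lit 5) (nat_lit 334) (nat_lit 287) (nat_lit 159)) (XT.nd (nat_lit 78) (nat_lit 228) (nat_lit 0) (XT.lf (nat_lit 0) (nat_lit 47154757041) (nat_lit 152) (nat_lit 6871514788) (nat_lit 228) (nat_lit 13766219008) (nat_lit 38) (nat_lit 5) (nat_lit 40) (nat_lit 5) (nat_lit 41) (nat_lit 5) (nat_lit 335) (nat_lit 287) (nat_lit 158)) (XT.lf (nat_lit 0) (nat_lit 2818124792) (nat_lit 228) (nat_lit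 48567258102) (nat_lit 76) (nat_lit 18995576054) (nat_lit 35) (nat_lit 5) (nat_lit 38) (nat_lit 5) (nat_lit 36) (nat_lit 5) (nat_lit 336) (nat_lit 287) (nat_lit 157))))) (XT.nd (nat_lit 234) (nat_lit 380) (nat_lit 0) (XT.nd (nat_lit 78) (nat_lit 304) (nat_lit 0) (XT.lf (nat_lit 0) (nat_lit 20228945854) (nat_lit 228) (nat_lit 6491476486) (nat_lit 76) (nat_lit 46365883291) (nat_lit 35) (nat_lit 5) (nat_lit 38) (nat_lit 5) (nat_lit 36) (nat_lit 5) (nat_lit 337) (nat_lit 287) (nat_lit 156)) (XT.nd (nat_lit 78) (nat_lit 152) (nat_lit 0) (XT.lf (nat_lit 0) (nat_lit 38430808648) (nat_lit 152) (nat_lit 444551621) (nat_lit 228) (nat_lit 37040610801) (nat_lit 33) (nat_lit 5) (nat_lit 35) (nat_lit 5) (nat_lit 36) (nat_lit 5) (nat_lit 338) (nat_lit 287) (nat_lit 155)) (XT.lf (nat_lit 0) (nat_lit 6712018947) (nat_lit 152) (nat_lit 52130763442) (nat_lit 228) (nat_lit 20032679628) (nat_lit 31) (nat_lit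 5) (nat_lit 33) (nat_lit 5) (nat_lit 34) (nat_lit 5) (nat_lit 339) (nat_lit 287) (nat_lit 154)))) (XT.nd (nat_lit 156) (nat_lit 152) (nat_lit 0) (XT.nd (nat_lit 78) (nat_lit 228) (nat_lit 0) (XT.lf (nat_lit 0) (nat_lit 53890911028) (nat_lit 152) (nat_lit 26303866350) (nat_lit 228) (nat_lit 1776566795) (nat_lit 31) (nat_lit 5) (nat_lit 33) (nat_lit 5) (nat_lit 34) (nat_lit 5) (nat_lit 340) (nat_lit 287) (nat_lit 153)) (XT.lf (nat_lit 0) (nat_lit 17237002239) (nat_lit 228) (nat_lit 66831253914) (nat_lit 76) (nat_lit 1143230073) (nat_lit 28) (nat_lit 5) (nat_lit 31) (nat_lit 5) (nat_lit 29) (nat_lit 5) (nat_lit 341) (nat_lit 287) (nat_lit 152))) (XT.nd (nat_lit 78) (nat_lit 152) (nat_lit 0) (XT.lf (nat_lit 0) (nat_lit 37718403914) (nat_lit 228) (nat_lit 21147074555) (nat_lit 76) (nat_lit 29731014720) (nat_lit 28) (nat_lit 5) (nat_lit 31) (nat_lit 5) (nat_lit 29) (nat_lit 5) (nat_lit 342) (nat_lit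 287) (nat_lit 151)) (XT.lf (nat_lit 0) (nat_lit 27348742485) (nat_lit 152) (nat_lit 32134348102) (nat_lit 228) (nat_lit 32659885740) (nat_lit 26) (nat_lit 5) (nat_lit 28) (nat_lit 5) (nat_lit 29) (nat_lit 5) (nat_lit 343) (nat_lit 287) (nat_lit 150)))))) (XT.nd (nat_lit 546) (nat_lit 228) (nat_lit 0) (XT.nd (nat_lit 234) (nat_lit 304) (nat_lit 0) (XT.nd (nat_lit 78) (nat_lit 152) (nat_lit 0) (XT.lf (nat_lit 0) (nat_lit 78705197254) (nat_lit 152) (nat_lit 3844943724) (nat_lit 228) (nat_lit 13310220928) (nat_lit 26) (nat_lit 5) (nat_lit 28) (nat_lit 5) (nat_lit 29) (nat_lit 5) (nat_lit 344) (nat_lit 287) (nat_lit 149)) (XT.nd (nat_lit 78) (nat_lit 0) (nat_lit 0) (XT.lf (nat_lit 0) (nat_lit 7440664883) (nat_lit 152) (nat_lit 66559159557) (nat_lit 76) (nat_lit 25744659639) (nat_lit 24) (nat_lit 5) (nat_lit 26) (nat_lit 5) (nat_lit 25) (nat_lit 5) (nat_lit 345) (nat_lit 287) (nat_lit 148)) (XT.lf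 (nat_lit 0) (nat_lit 29170190643) (nat_lit 152) (nat_lit 17596840912) (nat_lit 76) (nat_lit 57045338037) (nat_lit 24) (nat_lit 5) (nat_lit 26) (nat_lit 5) (nat_lit 25) (nat_lit 5) (nat_lit 346) (nat_lit 287) (nat_lit 147)))) (XT.nd (nat_lit 156) (nat_lit 152) (nat_lit 0) (XT.nd (nat_lit 78) (nat_lit 0) (nat_lit 0) (XT.lf (nat_lit 0) (nat_lit 34480958124) (nat_lit 152) (nat_lit 17833504543) (nat_lit 228) (nat_lit 55759340432) (nat_lit 22) (nat_lit 5) (nat_lit 24) (nat_lit 5) (nat_lit 25) (nat_lit 5) (nat_lit 347) (nat_lit 287) (nat_lit 146)) (XT.lf (nat_lit 0) (nat_lit 76916388962) (nat_lit 228) (nat_lit 23140303342) (nat_lit 76) (nat_lit 12482604488) (nat_lit 22) (nat_lit 5) (nat_lit 25) (nat_lit 5) (nat_lit 23) (nat_lit 4) (nat_lit 348) (nat_lit 287) (nat_lit 145))) (XT.nd (nat_lit 78) (nat_lit 76) (nat_lit 0) (XT.lf (nat_lit 0) (nat_lit 30239813587) (nat_lit 76) (nat_lit 72976323900) (nat_lit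 152) (nat_lit 13997897553) (nat_lit 21) (nat_lit 5) (nat_lit 22) (nat_lit 5) (nat_lit 23) (nat_lit 4) (nat_lit 349) (nat_lit 287) (nat_lit 144)) (XT.lf (nat_lit 0) (nat_lit 8776106512) (nat_lit 152) (nat_lit 35433985201) (nat_lit 76) (nat_lit 77902778463) (nat_lit 20) (nat_lit 5) (nat_lit 22) (nat_lit 5) (nat_lit 21) (nat_lit 5) (nat_lit 350) (nat_lit 287) (nat_lit 143))))) (XT.nd (nat_lit 234) (nat_lit 76) (nat_lit 0) (XT.nd (nat_lit 78) (nat_lit 0) (nat_lit 0) (XT.lf (nat_lit 0) (nat_lit 18906091979) (nat_lit 152) (nat_lit 13674893898) (nat_lit 228) (nat_lit 94666054660) (nat_lit 18) (nat_lit 5) (nat_lit 20) (nat_lit 5) (nat_lit 21) (nat_lit 5) (nat_lit 351) (nat_lit 287) (nat_lit 142)) (XT.nd (nat_lit 78) (nat_lit 0) (nat_lit 0) (XT.lf (nat_lit 0) (nat_lit 58118542044) (nat_lit 228) (nat_lit 56108433551) (nat_lit 76) (nat_lit 18394672219) (nat_lit 18) (nat_lit 5) (nat_lit 21) (nat_lit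 5) (nat_lit 19) (nat_lit 4) (nat_lit 352) (nat_lit 287) (nat_lit 141)) (XT.lf (nat_lit 0) (nat_lit 85068440050) (nat_lit 228) (nat_lit 1406828114) (nat_lit 76) (nat_lit 51785654685) (nat_lit 18) (nat_lit 5) (nat_lit 21) (nat_lit 5) (nat_lit 19) (nat_lit 4) (nat_lit 353) (nat_lit 287) (nat_lit 140)))) (XT.nd (nat_lit 35490) (nat_lit 0) (nat_lit 13148) (XT.nd (nat_lit 78) (nat_lit 0) (nat_lit 0) (XT.lf (nat_lit 0) (nat_lit 57140579635) (nat_lit 76) (nat_lit 56772085445) (nat_lit 152) (nat_lit 30253092846) (nat_lit 17) (nat_lit 5) (nat_lit 18) (nat_lit 5) (nat_lit 19) (nat_lit 4) (nat_lit 354) (nat_lit 287) (nat_lit 139)) (XT.lf (nat_lit 0) (nat_lit 118640583021) (nat_lit 76) (nat_lit 25570638295) (nat_lit 152) (nat_lit 6154251036) (nat_lit 17) (nat_lit 5) (nat_lit 18) (nat_lit 5) (nat_lit 19) (nat_lit 4) (nat_lit 355) (nat_lit 287) (nat_lit 138))) (XT.nd (nat_lit 78) (nat_lit 0) (nat_lit 0)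 (XT.lf (nat_lit 0) (nat_lit 7637220527) (nat_lit 1140) (nat_lit 239387886) (nat_lit 1140) (nat_lit 239387886) (nat_lit 190) (nat_lit 3) (nat_lit 205) (nat_lit 3) (nat_lit 205) (nat_lit 5) (nat_lit 288) (nat_lit 288) (nat_lit 204)) (XT.lf (nat_lit 76) (nat_lit 11713966594) (nat_lit 0) (nat_lit 4440596671) (nat_lit 1140) (nat_lit 467659389) (nat_lit 191) (nat_lit 5) (nat_lit 190) (nat_lit 3) (nat_lit 205) (nat_lit 5) (nat_lit 289) (nat_lit 288) (nat_lit 203))))))))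
noncomputable def xc95 : XT := (XT.nd (nat_lit 2028) (nat_lit 4788) (nat_lit 0) (XT.nd (nat_lit 1014) (nat_lit 4560) (nat_lit 0) (XT.nd (nat_lit 468) (nat_lit 1900) (nat_lit 0) (XT.nd (nat_lit 234) (nat_lit 0) (nat_lit 152) (XT.nd (nat_lit 78) (nat_lit 0) (nat_lit 76) (XT.lf (nat_lit 0) (nat_lit 171421088) (nat_lit 1140) (nat_lit 9473390839) (nat_lit 1216) (nat_lit 7383409295) (nat_lit 176) (nat_lit 5) (nat_lit 191) (nat_lit 5) (nat_lit 192) (nat_lit 5) (nat_lit 290) (nat_lit 288) (nat_lit 202)) (XT.nd (nat_lit 78) (nat_lit 0) (nat_lit 0) (XT.lf (nat_lit 0) (nat_lit 959061972) (nat_lit 1140) (nat_lit 14183129440) (nat_lit 1216) (nat_lit 2308437858) (nat_lit 177) (nat_lit 5) (nat_lit 192) (nat_lit 5) (nat_lit 193) (nat_lit 5) (nat_lit 291) (nat_lit 288) (nat_lit 201)) (XT.lf (nat_lit 0) (nat_lit 1959093016) (nat_lit 1140) (nat_lit 1160554686) (nat_lit 1216) (nat_lit 14769354834) (nat_lit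 177) (nat_lit 5) (nat_lit 192) (nat_lit 5) (nat_lit 193) (nat_lit 5) (nat_lit 292) (nat_lit 288) (nat_lit 200)))) (XT.nd (nat_lit 78) (nat_lit 0) (nat_lit 76) (XT.lf (nat_lit 0) (nat_lit 3202579660) (nat_lit 1140) (nat_lit 5690765073) (nat_lit 1216) (nat_lit 9450179498) (nat_lit 178) (nat_lit 5) (nat_lit 193) (nat_lit 5) (nat_lit 194) (nat_lit 5) (nat_lit 293) (nat_lit 288) (nat_lit 199)) (XT.nd (nat_lit 78) (nat_lit 0) (nat_lit 0) (XT.lf (nat_lit 0) (nat_lit 4649732928) (nat_lit 1140) (nat_lit 10374459676) (nat_lit 1216) (nat_lit 3792366439) (nat_lit 179) (nat_lit 5) (nat_lit 194) (nat_lit 5) (nat_lit 195) (nat_lit 5) (nat_lit 294) (nat_lit 288) (nat_lit 198)) (XT.lf (nat_lit 76) (nat_lit 4063648669) (nat_lit 0) (nat_lit 2273739801) (nat_lit 1216) (nat_lit 12970843071) (nat_lit 180) (nat_lit 5) (nat_lit 179) (nat_lit 5) (nat_lit 195) (nat_lit 5) (nat_lit 295) (nat_lit 288) (nat_lit 197)))))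 (XT.nd (nat_lit 234) (nat_lit 2204) (nat_lit 0) (XT.nd (nat_lit 78) (nat_lit 0) (nat_lit 76) (XT.lf (nat_lit 0) (nat_lit 8305135064) (nat_lit 1140) (nat_lit 503301661) (nat_lit 1216) (nat_lit 11010208533) (nat_lit 180) (nat_lit 5) (nat_lit 195) (nat_lit 5) (nat_lit 196) (nat_lit 5) (nat_lit 296) (nat_lit 288) (nat_lit 196)) (XT.nd (nat_lit 78) (nat_lit 0) (nat_lit 0) (XT.lf (nat_lit 0) (nat_lit 10567896850) (nat_lit 1140) (nat_lit 5159864401) (nat_lit 1216) (nat_lit 4620947041) (nat_lit 181) (nat_lit 5) (nat_lit 196) (nat_lit 5) (nat_lit 197) (nat_lit 5) (nat_lit 297) (nat_lit 288) (nat_lit 195)) (XT.lf (nat_lit 76) (nat_lit 10880278663) (nat_lit 0) (nat_lit 2244934301) (nat_lit 1216) (nat_lit 7774645189) (nat_lit 182) (nat_lit 5) (nat_lit 181) (nat_lit 5) (nat_lit 197) (nat_lit 5) (nat_lit 298) (nat_lit 288) (nat_lit 194)))) (XT.nd (nat_lit 156) (nat_lit 684) (nat_lit 0) (XT.nd (nat_lit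 78) (nat_lit 532) (nat_lit 0) (XT.lf (nat_lit 0) (nat_lit 6347900259) (nat_lit 1140) (nat_lit 9675073953) (nat_lit 1216) (nat_lit 5449238830) (nat_lit 167) (nat_lit 5) (nat_lit 182) (nat_lit 5) (nat_lit 183) (nat_lit 5) (nat_lit 299) (nat_lit 288) (nat_lit 193)) (XT.lf (nat_lit 0) (nat_lit 1624434895) (nat_lit 532) (nat_lit 17610005756) (nat_lit 608) (nat_lit 2833704239) (nat_lit 160) (nat_lit 5) (nat_lit 167) (nat_lit 5) (nat_lit 168) (nat_lit 5) (nat_lit 300) (nat_lit 288) (nat_lit 192))) (XT.nd (nat_lit 78) (nat_lit 608) (nat_lit 0) (XT.lf (nat_lit 0) (nat_lit 153737562) (nat_lit 608) (nat_lit 3275137677) (nat_lit 76) (nat_lit 19257862481) (nat_lit 159) (nat_lit 5) (nat_lit 167) (nat_lit 5) (nat_lit 160) (nat_lit 5) (nat_lit 301) (nat_lit 288) (nat_lit 191)) (XT.lf (nat_lit 0) (nat_lit 3473874246) (nat_lit 684) (nat_lit 8440995651) (nat_lit 76) (nat_lit 11413311651) (nat_lit 151) (nat_lit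 5) (nat_lit 160) (nat_lit 5) (nat_lit 152) (nat_lit 5) (nat_lit 302) (nat_lit 288) (nat_lit 190)))))) (XT.nd (nat_lit 468) (nat_lit 2052) (nat_lit 0) (XT.nd (nat_lit 234) (nat_lit 1444) (nat_lit 0) (XT.nd (nat_lit 78) (nat_lit 532) (nat_lit 0) (XT.lf (nat_lit 0) (nat_lit 7141789168) (nat_lit 608) (nat_lit 13851235480) (nat_lit 76) (nat_lit 3003239678) (nat_lit 144) (nat_lit 5) (nat_lit 152) (nat_lit 5) (nat_lit 145) (nat_lit 5) (nat_lit 303) (nat_lit 288) (nat_lit 189)) (XT.nd (nat_lit 78) (nat_lit 0) (nat_lit 0) (XT.lf (nat_lit 0) (nat_lit 5106448009) (nat_lit 532) (nat_lit 6130159261) (nat_lit 608) (nat_lit 13453857702) (nat_lit 137) (nat_lit 5) (nat_lit 144) (nat_lit 5) (nat_lit 145) (nat_lit 5) (nat_lit 304) (nat_lit 288) (nat_lit 188)) (XT.lf (nat_lit 0) (nat_lit 15758177892) (nat_lit 608) (nat_lit 219827020) (nat_lit 76) (nat_lit 9434728442) (nat_lit 137) (nat_lit 5) (nat_lit 145)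 (nat_lit 5) (nat_lit 138) (nat_lit 5) (nat_lit 305) (nat_lit 288) (nat_lit 187)))) (XT.nd (nat_lit 78) (nat_lit 988) (nat_lit 0) (XT.lf (nat_lit 0) (nat_lit 20436444736) (nat_lit 456) (nat_lit 315251630) (nat_lit 532) (nat_lit 5412059899) (nat_lit 131) (nat_lit 5) (nat_lit 137) (nat_lit 5) (nat_lit 138) (nat_lit 5) (nat_lit 306) (nat_lit 288) (nat_lit 186)) (XT.nd (nat_lit 78) (nat_lit 532) (nat_lit 0) (XT.lf (nat_lit 0) (nat_lit 15308466292) (nat_lit 456) (nat_lit 10978934771) (nat_lit 532) (nat_lit 656170322) (nat_lit 125) (nat_lit 5) (nat_lit 131) (nat_lit 5) (nat_lit 132) (nat_lit 5) (nat_lit 307) (nat_lit 288) (nat_lit 185)) (XT.lf (nat_lit 0) (nat_lit 4451775322) (nat_lit 532) (nat_lit 17919818122) (nat_lit 76) (nat_lit 5383581048) (nat_lit 118) (nat_lit 5) (nat_lit 125) (nat_lit 5) (nat_lit 119) (nat_lit 5) (nat_lit 308) (nat_lit 288) (nat_lit 184))))) (XT.nd (nat_lit 234) (nat_lit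 1216) (nat_lit 0) (XT.nd (nat_lit 78) (nat_lit 380) (nat_lit 0) (XT.lf (nat_lit 0) (nat_lit 3964576475) (nat_lit 456) (nat_lit 6095734349) (nat_lit 532) (nat_lit 18539103551) (nat_lit 112) (nat_lit 5) (nat_lit 118) (nat_lit 5) (nat_lit 119) (nat_lit 5) (nat_lit 309) (nat_lit 288) (nat_lit 183)) (XT.nd (nat_lit 78) (nat_lit 380) (nat_lit 0) (XT.lf (nat_lit 0) (nat_lit 16230402578) (nat_lit 532) (nat_lit 2283010522) (nat_lit 76) (nat_lit 10964032998) (nat_lit 112) (nat_lit 5) (nat_lit 119) (nat_lit 5) (nat_lit 113) (nat_lit 5) (nat_lit 310) (nat_lit 288) (nat_lit 182)) (XT.lf (nat_lit 0) (nat_lit 21532843024) (nat_lit 380) (nat_lit 1434339028) (nat_lit 456) (nat_lit 7424464938) (nat_lit 107) (nat_lit 5) (nat_lit 112) (nat_lit 5) (nat_lit 113) (nat_lit 5) (nat_lit 311) (nat_lit 288) (nat_lit 181)))) (XT.nd (nat_lit 156) (nat_lit 380) (nat_lit 0) (XT.nd (nat_lit 78) (nat_lit 456) (nat_lit 0)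 (XT.lf (nat_lit 0) (nat_lit 15365181447) (nat_lit 380) (nat_lit 14995678173) (nat_lit 456) (nat_lit 981108989) (nat_lit 102) (nat_lit 5) (nat_lit 107) (nat_lit 5) (nat_lit 108) (nat_lit 5) (nat_lit 312) (nat_lit 288) (nat_lit 180)) (XT.lf (nat_lit 0) (nat_lit 5880090565) (nat_lit 456) (nat_lit 23624560223) (nat_lit 76) (nat_lit 2827242419) (nat_lit 96) (nat_lit 5) (nat_lit 102) (nat_lit 5) (nat_lit 97) (nat_lit 5) (nat_lit 313) (nat_lit 288) (nat_lit 179))) (XT.nd (nat_lit 78) (nat_lit 0) (nat_lit 0) (XT.lf (nat_lit 0) (nat_lit 1446541967) (nat_lit 380) (nat_lit 11939673732) (nat_lit 456) (nat_lit 19975153190) (nat_lit 91) (nat_lit 5) (nat_lit 96) (nat_lit 5) (nat_lit 97) (nat_lit 5) (nat_lit 314) (nat_lit 288) (nat_lit 178)) (XT.lf (nat_lit 0) (nat_lit 21566688482) (nat_lit 456) (nat_lit 6246924747) (nat_lit 76) (nat_lit 6619744332) (nat_lit 91) (nat_lit 5) (nat_lit 97) (nat_lit 5) (nat_lit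 92) (nat_lit 5) (nat_lit 315) (nat_lit 288) (nat_lit 177))))))) (XT.nd (nat_lit 1014) (nat_lit 1824) (nat_lit 0) (XT.nd (nat_lit 468) (nat_lit 1292) (nat_lit 0) (XT.nd (nat_lit 234) (nat_lit 608) (nat_lit 0) (XT.nd (nat_lit 78) (nat_lit 760) (nat_lit 0) (XT.lf (nat_lit 0) (nat_lit 20982000424) (nat_lit 304) (nat_lit 9487741945) (nat_lit 380) (nat_lit 5079806521) (nat_lit 87) (nat_lit 5) (nat_lit 91) (nat_lit 5) (nat_lit 92) (nat_lit 5) (nat_lit 316) (nat_lit 288) (nat_lit 176)) (XT.nd (nat_lit 78) (nat_lit 304) (nat_lit 0) (XT.lf (nat_lit 0) (nat_lit 3315303584) (nat_lit 456) (nat_lit 23611788693) (nat_lit 76) (nat_lit 9785193982) (nat_lit 81) (nat_lit 5) (nat_lit 87) (nat_lit 5) (nat_lit 82) (nat_lit 5) (nat_lit 317) (nat_lit 288) (nat_lit 175)) (XT.lf (nat_lit 0) (nat_lit 4455062013) (nat_lit 304) (nat_lit 7852898601) (nat_lit 380) (nat_lit 25615214301) (nat_lit 77) (nat_lit 5) (nat_lit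 81) (nat_lit 5) (nat_lit 82) (nat_lit 5) (nat_lit 318) (nat_lit 288) (nat_lit 174)))) (XT.nd (nat_lit 78) (nat_lit 608) (nat_lit 0) (XT.lf (nat_lit 0) (nat_lit 22104852231) (nat_lit 380) (nat_lit 4899041005) (nat_lit 76) (nat_lit 12180085060) (nat_lit 77) (nat_lit 5) (nat_lit 82) (nat_lit 5) (nat_lit 78) (nat_lit 5) (nat_lit 319) (nat_lit 288) (nat_lit 173)) (XT.nd (nat_lit 78) (nat_lit 304) (nat_lit 0) (XT.lf (nat_lit 0) (nat_lit 25506512043) (nat_lit 304) (nat_lit 7201997076) (nat_lit 380) (nat_lit 7789813051) (nat_lit 73) (nat_lit 5) (nat_lit 77) (nat_lit 5) (nat_lit 78) (nat_lit 5) (nat_lit 320) (nat_lit 288) (nat_lit 172)) (XT.lf (nat_lit 0) (nat_lit 2255261681) (nat_lit 304) (nat_lit 26065523534) (nat_lit 76) (nat_lit 13547150402) (nat_lit 69) (nat_lit 5) (nat_lit 73) (nat_lit 5) (nat_lit 70) (nat_lit 5) (nat_lit 321) (nat_lit 288) (nat_lit 171))))) (XT.nd (nat_lit 234) (nat_lit 760)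 (nat_lit 0) (XT.nd (nat_lit 78) (nat_lit 228) (nat_lit 0) (XT.lf (nat_lit 0) (nat_lit 5084415180) (nat_lit 304) (nat_lit 7828871266) (nat_lit 380) (nat_lit 30382282433) (nat_lit 65) (nat_lit 5) (nat_lit 69) (nat_lit 5) (nat_lit 70) (nat_lit 5) (nat_lit 322) (nat_lit 288) (nat_lit 170)) (XT.nd (nat_lit 78) (nat_lit 228) (nat_lit 0) (XT.lf (nat_lit 0) (nat_lit 24499861908) (nat_lit 380) (nat_lit 6594299339) (nat_lit 76) (nat_lit 13688559738) (nat_lit 65) (nat_lit 5) (nat_lit 70) (nat_lit 5) (nat_lit 66) (nat_lit 5) (nat_lit 323) (nat_lit 288) (nat_lit 169)) (XT.lf (nat_lit 0) (nat_lit 27042476900) (nat_lit 228) (nat_lit 9955682759) (nat_lit 304) (nat_lit 9336105579) (nat_lit 62) (nat_lit 5) (nat_lit 65) (nat_lit 5) (nat_lit 66) (nat_lit 5) (nat_lit 324) (nat_lit 288) (nat_lit 168)))) (XT.nd (nat_lit 156) (nat_lit 228) (nat_lit 0) (XT.nd (nat_lit 78) (nat_lit 228) (nat_lit 0) (XT.lf (nat_lit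 0) (nat_lit 2440151754) (nat_lit 304) (nat_lit 33281176670) (nat_lit 76) (nat_lit 12231713544) (nat_lit 58) (nat_lit 5) (nat_lit 62) (nat_lit 5) (nat_lit 59) (nat_lit 5) (nat_lit 325) (nat_lit 288) (nat_lit 167)) (XT.lf (nat_lit 0) (nat_lit 901605436) (nat_lit 228) (nat_lit 14015805837) (nat_lit 304) (nat_lit 34723420522) (nat_lit 55) (nat_lit 5) (nat_lit 58) (nat_lit 5) (nat_lit 59) (nat_lit 5) (nat_lit 326) (nat_lit 288) (nat_lit 166))) (XT.nd (nat_lit 78) (nat_lit 228) (nat_lit 0) (XT.lf (nat_lit 0) (nat_lit 28442826120) (nat_lit 304) (nat_lit 14010707661) (nat_lit 76) (nat_lit 8946753882) (nat_lit 55) (nat_lit 5) (nat_lit 59) (nat_lit 5) (nat_lit 56) (nat_lit 5) (nat_lit 327) (nat_lit 288) (nat_lit 165)) (XT.lf (nat_lit 0) (nat_lit 22747867511) (nat_lit 228) (nat_lit 20251012990) (nat_lit 304) (nat_lit 10238209831) (nat_lit 52) (nat_lit 5) (nat_lit 55) (nat_lit 5) (nat_lit 56) (nat_lit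 5) (nat_lit 328) (nat_lit 288) (nat_lit 164)))))) (XT.nd (nat_lit 546) (nat_lit 760) (nat_lit 0) (XT.nd (nat_lit 234) (nat_lit 608) (nat_lit 0) (XT.nd (nat_lit 78) (nat_lit 228) (nat_lit 0) (XT.lf (nat_lit 0) (nat_lit 3291065890) (nat_lit 228) (nat_lit 48626731776) (nat_lit 76) (nat_lit 3239994716) (nat_lit 49) (nat_lit 5) (nat_lit 52) (nat_lit 5) (nat_lit 50) (nat_lit 5) (nat_lit 329) (nat_lit 288) (nat_lit 163)) (XT.nd (nat_lit 78) (nat_lit 228) (nat_lit 0) (XT.lf (nat_lit 0) (nat_lit 17802925879) (nat_lit 228) (nat_lit 11445015925) (nat_lit 76) (nat_lit 27908015271) (nat_lit 49) (nat_lit 5) (nat_lit 52) (nat_lit 5) (nat_lit 50) (nat_lit 5) (nat_lit 330) (nat_lit 288) (nat_lit 162)) (XT.lf (nat_lit 0) (nat_lit 28136688296) (nat_lit 228) (nat_lit 5168946680) (nat_lit 304) (nat_lit 25940441596) (nat_lit 46) (nat_lit 5) (nat_lit 49) (nat_lit 5) (nat_lit 50) (nat_lit 5) (nat_lit 331) (nat_lit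 288) (nat_lit 161)))) (XT.nd (nat_lit 156) (nat_lit 380) (nat_lit 0) (XT.nd (nat_lit 78) (nat_lit 76) (nat_lit 0) (XT.lf (nat_lit 0) (nat_lit 8462048172) (nat_lit 152) (nat_lit 41510038147) (nat_lit 228) (nat_lit 11456961569) (nat_lit 44) (nat_lit 5) (nat_lit 46) (nat_lit 5) (nat_lit 47) (nat_lit 5) (nat_lit 332) (nat_lit 288) (nat_lit 160)) (XT.lf (nat_lit 0) (nat_lit 4048136212) (nat_lit 228) (nat_lit 13148716926) (nat_lit 76) (nat_lit 46512117759) (nat_lit 43) (nat_lit 5) (nat_lit 46) (nat_lit 5) (nat_lit 44) (nat_lit 5) (nat_lit 333) (nat_lit 288) (nat_lit 159))) (XT.nd (nat_lit 78) (nat_lit 152) (nat_lit 0) (XT.lf (nat_lit 0) (nat_lit 20452784849) (nat_lit 304) (nat_lit 37069897067) (nat_lit 76) (nat_lit 8565971345) (nat_lit 40) (nat_lit 5) (nat_lit 44) (nat_lit 5) (nat_lit 41) (nat_lit 5) (nat_lit 334) (nat_lit 288) (nat_lit 158)) (XT.lf (nat_lit 0) (nat_lit 4899373071) (nat_lit 152)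 (nat_lit 33131066211) (nat_lit 228) (nat_lit 30546300653) (nat_lit 38) (nat_lit 5) (nat_lit 40) (nat_lit 5) (nat_lit 41) (nat_lit 5) (nat_lit 335) (nat_lit 288) (nat_lit 157))))) (XT.nd (nat_lit 234) (nat_lit 532) (nat_lit 0) (XT.nd (nat_lit 78) (nat_lit 228) (nat_lit 0) (XT.lf (nat_lit 0) (nat_lit 49734539021) (nat_lit 152) (nat_lit 7129599431) (nat_lit 228) (nat_lit 14313780867) (nat_lit 38) (nat_lit 5) (nat_lit 40) (nat_lit 5) (nat_lit 41) (nat_lit 5) (nat_lit 336) (nat_lit 288) (nat_lit 156)) (XT.nd (nat_lit 78) (nat_lit 0) (nat_lit 0) (XT.lf (nat_lit 0) (nat_lit 3093378045) (nat_lit 228) (nat_lit 50773898442) (nat_lit 76) (nat_lit 20028608025) (nat_lit 35) (nat_lit 5) (nat_lit 38) (nat_lit 5) (nat_lit 36) (nat_lit 5) (nat_lit 337) (nat_lit 288) (nat_lit 155)) (XT.lf (nat_lit 0) (nat_lit 21368342683) (nat_lit 228) (nat_lit 6604885962) (nat_lit 76) (nat_lit 48763466186) (nat_lit 35) (nat_lit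 5) (nat_lit 38) (nat_lit 5) (nat_lit 36) (nat_lit 5) (nat_lit 338) (nat_lit 288) (nat_lit 154)))) (XT.nd (nat_lit 156) (nat_lit 228) (nat_lit 0) (XT.nd (nat_lit 78) (nat_lit 152) (nat_lit 0) (XT.lf (nat_lit 0) (nat_lit 40557460444) (nat_lit 152) (nat_lit 385496195) (nat_lit 228) (nat_lit 38765014709) (nat_lit 33) (nat_lit 5) (nat_lit 35) (nat_lit 5) (nat_lit 36) (nat_lit 5) (nat_lit 339) (nat_lit 288) (nat_lit 153)) (XT.lf (nat_lit 0) (nat_lit 7249782235) (nat_lit 152) (nat_lit 54655758486) (nat_lit 228) (nat_lit 20909996370) (nat_lit 31) (nat_lit 5) (nat_lit 33) (nat_lit 5) (nat_lit 34) (nat_lit 5) (nat_lit 340) (nat_lit 288) (nat_lit 152))) (XT.nd (nat_lit 78) (nat_lit 228) (nat_lit 0) (XT.lf (nat_lit 0) (nat_lit 56777992141) (nat_lit 152) (nat_lit 27541399546) (nat_lit 228) (nat_lit 1746997764) (nat_lit 31) (nat_lit 5) (nat_lit 33) (nat_lit 5) (nat_lit 34) (nat_lit 5) (nat_lit 341) (nat_lit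 288) (nat_lit 151)) (XT.lf (nat_lit 0) (nat_lit 18211971105) (nat_lit 228) (nat_lit 69980782934) (nat_lit 76) (nat_lit 1275842971) (nat_lit 28) (nat_lit 5) (nat_lit 31) (nat_lit 5) (nat_lit 29) (nat_lit 5) (nat_lit 342) (nat_lit 288) (nat_lit 150))))))))
noncomputable def xc96 : XT := (XT.nd (nat_lit 37440) (nat_lit 0) (nat_lit 2888) (XT.nd (nat_lit 36426) (nat_lit 0) (nat_lit 10868) (XT.nd (nat_lit 468) (nat_lit 380) (nat_lit 0) (XT.nd (nat_lit 234) (nat_lit 304) (nat_lit 0) (XT.nd (nat_lit 78) (nat_lit 152) (nat_lit 0) (XT.lf (nat_lit 0) (nat_lit 39712056257) (nat_lit 228) (nat_lit 22021539067) (nat_lit 76) (nat_lit 31289423927) (nat_lit 28) (nat_lit 5) (nat_lit 31) (nat_lit 5) (nat_lit 29) (nat_lit 5) (nat_lit 343) (nat_lit 288) (nat_lit 149)) (XT.nd (nat_lit 78) (nat_lit 0) (nat_lit 0) (XT.lf (nat_lit 0) (nat_lit 28893826342) (nat_lit 152) (nat_lit 33667728468) (nat_lit 228) (nat_lit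 34185377582) (nat_lit 26) (nat_lit 5) (nat_lit 28) (nat_lit 5) (nat_lit 29) (nat_lit 5) (nat_lit 344) (nat_lit 288) (nat_lit 148)) (XT.lf (nat_lit 0) (nat_lit 82809644482) (nat_lit 152) (nat_lit 3967346111) (nat_lit 228) (nat_lit 13873348694) (nat_lit 26) (nat_lit 5) (nat_lit 28) (nat_lit 5) (nat_lit 29) (nat_lit 5) (nat_lit 345) (nat_lit 288) (nat_lit 147)))) (XT.nd (nat_lit 78) (nat_lit 152) (nat_lit 0) (XT.lf (nat_lit 0) (nat_lit 7910566730) (nat_lit 152) (nat_lit 69718474823) (nat_lit 76) (nat_lit 27099674787) (nat_lit 24) (nat_lit 5) (nat_lit 26) (nat_lit 5) (nat_lit 25) (nat_lit 5) (nat_lit 346) (nat_lit 288) (nat_lit 146)) (XT.nd (nat_lit 78) (nat_lit 152) (nat_lit 0) (XT.lf (nat_lit 0) (nat_lit 30721908369) (nat_lit 152) (nat_lit 18316070851) (nat_lit 76) (nat_lit 59962159383) (nat_lit 24) (nat_lit 5) (nat_lit 26) (nat_lit 5) (nat_lit 25) (nat_lit 5) (nat_lit 347) (nat_lit 288) (nat_lit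 145)) (XT.lf (nat_lit 0) (nat_lit 36361014223) (nat_lit 152) (nat_lit 18659440932) (nat_lit 228) (nat_lit 58454279331) (nat_lit 22) (nat_lit 5) (nat_lit 24) (nat_lit 5) (nat_lit 25) (nat_lit 5) (nat_lit 348) (nat_lit 288) (nat_lit 144))))) (XT.nd (nat_lit 234) (nat_lit 228) (nat_lit 0) (XT.nd (nat_lit 78) (nat_lit 152) (nat_lit 0) (XT.lf (nat_lit 0) (nat_lit 80848781054) (nat_lit 228) (nat_lit 24146713710) (nat_lit 76) (nat_lit 13168121414) (nat_lit 22) (nat_lit 5) (nat_lit 25) (nat_lit 5) (nat_lit 23) (nat_lit 4) (nat_lit 349) (nat_lit 288) (nat_lit 143)) (XT.nd (nat_lit 78) (nat_lit 76) (nat_lit 0) (XT.lf (nat_lit 0) (nat_lit 31898092010) (nat_lit 76) (nat_lit 76562708696) (nat_lit 152) (nat_lit 14611374420) (nat_lit 21) (nat_lit 5) (nat_lit 22) (nat_lit 5) (nat_lit 23) (nat_lit 4) (nat_lit 350) (nat_lit 288) (nat_lit 142)) (XT.lf (nat_lit 0) (nat_lit 9295608679) (nat_lit 152) (nat_lit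 37064714265) (nat_lit 76) (nat_lit 81855727325) (nat_lit 20) (nat_lit 5) (nat_lit 22) (nat_lit 5) (nat_lit 21) (nat_lit 5) (nat_lit 351) (nat_lit 288) (nat_lit 141)))) (XT.nd (nat_lit 156) (nat_lit 76) (nat_lit 0) (XT.nd (nat_lit 78) (nat_lit 0) (nat_lit 0) (XT.lf (nat_lit 0) (nat_lit 19988325893) (nat_lit 152) (nat_lit 14299879662) (nat_lit 228) (nat_lit 99318801412) (nat_lit 18) (nat_lit 5) (nat_lit 20) (nat_lit 5) (nat_lit 21) (nat_lit 5) (nat_lit 352) (nat_lit 288) (nat_lit 140)) (XT.lf (nat_lit 0) (nat_lit 61099455061) (nat_lit 228) (nat_lit 58781712289) (nat_lit 76) (nat_lit 19369274718) (nat_lit 18) (nat_lit 5) (nat_lit 21) (nat_lit 5) (nat_lit 19) (nat_lit 4) (nat_lit 353) (nat_lit 288) (nat_lit 139))) (XT.nd (nat_lit 78) (nat_lit 76) (nat_lit 0) (XT.lf (nat_lit 0) (nat_lit 89393277209) (nat_lit 228) (nat_lit 1351319101) (nat_lit 76) (nat_lit 54427193503) (nat_lit 18) (nat_lit 5)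 (nat_lit 21) (nat_lit 5) (nat_lit 19) (nat_lit 4) (nat_lit 354) (nat_lit 288) (nat_lit 138)) (XT.lf (nat_lit 0) (nat_lit 60119851558) (nat_lit 76) (nat_lit 59557636285) (nat_lit 152) (nat_lit 31694447320) (nat_lit 17) (nat_lit 5) (nat_lit 18) (nat_lit 5) (nat_lit 19) (nat_lit 4) (nat_lit 355) (nat_lit 288) (nat_lit 137)))))) (XT.nd (nat_lit 468) (nat_lit 1140) (nat_lit 0) (XT.nd (nat_lit 234) (nat_lit 0) (nat_lit 152) (XT.nd (nat_lit 78) (nat_lit 1140) (nat_lit 0) (XT.lf (nat_lit 0) (nat_lit 8398719702) (nat_lit 1140) (nat_lit 55537526) (nat_lit 1140) (nat_lit 55537526) (nat_lit 190) (nat_lit 3) (nat_lit 205) (nat_lit 3) (nat_lit 205) (nat_lit 5) (nat_lit 289) (nat_lit 289) (nat_lit 202)) (XT.nd (nat_lit 78) (nat_lit 0) (nat_lit 76) (XT.lf (nat_lit 0) (nat_lit 253655874) (nat_lit 1140) (nat_lit 4752773010) (nat_lit 1216) (nat_lit 12423860862) (nat_lit 175) (nat_lit 5) (nat_lit 190) (nat_lit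 3) (nat_lit 191) (nat_lit 5) (nat_lit 290) (nat_lit 289) (nat_lit 201)) (XT.lf (nat_lit 0) (nat_lit 880735623) (nat_lit 1140) (nat_lit 9536982149) (nat_lit 1216) (nat_lit 7439813958) (nat_lit 176) (nat_lit 5) (nat_lit 191) (nat_lit 5) (nat_lit 192) (nat_lit 5) (nat_lit 291) (nat_lit 289) (nat_lit 200)))) (XT.nd (nat_lit 78) (nat_lit 0) (nat_lit 0) (XT.lf (nat_lit 0) (nat_lit 1675595651) (nat_lit 1140) (nat_lit 14470176387) (nat_lit 1216) (nat_lit 2156304376) (nat_lit 177) (nat_lit 5) (nat_lit 192) (nat_lit 5) (nat_lit 193) (nat_lit 5) (nat_lit 292) (nat_lit 289) (nat_lit 199)) (XT.nd (nat_lit 78) (nat_lit 0) (nat_lit 76) (XT.lf (nat_lit 0) (nat_lit 2693791077) (nat_lit 1140) (nat_lit 816573348) (nat_lit 1216) (nat_lit 15253007933) (nat_lit 177) (nat_lit 5) (nat_lit 192) (nat_lit 5) (nat_lit 193) (nat_lit 5) (nat_lit 293) (nat_lit 289) (nat_lit 198)) (XT.lf (nat_lit 0) (nat_lit 3970772727)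 (nat_lit 1140) (nat_lit 5563469260) (nat_lit 1216) (nat_lit 9707285104) (nat_lit 178) (nat_lit 5) (nat_lit 193) (nat_lit 5) (nat_lit 194) (nat_lit 5) (nat_lit 294) (nat_lit 289) (nat_lit 197))))) (XT.nd (nat_lit 234) (nat_lit 1444) (nat_lit 0) (XT.nd (nat_lit 78) (nat_lit 0) (nat_lit 0) (XT.lf (nat_lit 0) (nat_lit 5463415161) (nat_lit 1140) (nat_lit 10473019650) (nat_lit 1216) (nat_lit 3802629240) (nat_lit 179) (nat_lit 5) (nat_lit 194) (nat_lit 5) (nat_lit 195) (nat_lit 5) (nat_lit 295) (nat_lit 289) (nat_lit 196)) (XT.nd (nat_lit 78) (nat_lit 0) (nat_lit 76) (XT.lf (nat_lit 76) (nat_lit 4674950224) (nat_lit 0) (nat_lit 2536750366) (nat_lit 1216) (nat_lit 13044374412) (nat_lit 180) (nat_lit 5) (nat_lit 179) (nat_lit 5) (nat_lit 195) (nat_lit 5) (nat_lit 296) (nat_lit 289) (nat_lit 195)) (XT.lf (nat_lit 0) (nat_lit 9249922586) (nat_lit 1140) (nat_lit 121683290) (nat_lit 1216) (nat_lit 11421281117)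 (nat_lit 180) (nat_lit 5) (nat_lit 195) (nat_lit 5) (nat_lit 196) (nat_lit 5) (nat_lit 297) (nat_lit 289) (nat_lit 194)))) (XT.nd (nat_lit 156) (nat_lit 1596) (nat_lit 0) (XT.nd (nat_lit 78) (nat_lit 0) (nat_lit 0) (XT.lf (nat_lit 0) (nat_lit 11603318746) (nat_lit 1140) (nat_lit 5005638717) (nat_lit 1216) (nat_lit 4741209142) (nat_lit 181) (nat_lit 5) (nat_lit 196) (nat_lit 5) (nat_lit 197) (nat_lit 5) (nat_lit 298) (nat_lit 289) (nat_lit 193)) (XT.lf (nat_lit 76) (nat_lit 11824695328) (nat_lit 0) (nat_lit 2443510108) (nat_lit 1216) (nat_lit 7661313870) (nat_lit 182) (nat_lit 5) (nat_lit 181) (nat_lit 5) (nat_lit 197) (nat_lit 5) (nat_lit 299) (nat_lit 289) (nat_lit 192))) (XT.nd (nat_lit 78) (nat_lit 532) (nat_lit 0) (XT.lf (nat_lit 0) (nat_lit 7069918874) (nat_lit 1140) (nat_lit 10220857324) (nat_lit 1216) (nat_lit 5240352850) (nat_lit 167) (nat_lit 5) (nat_lit 182) (nat_lit 5) (nat_lit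 183) (nat_lit 5) (nat_lit 300) (nat_lit 289) (nat_lit 191)) (XT.lf (nat_lit 0) (nat_lit 2113534390) (nat_lit 532) (nat_lit 18530412882) (nat_lit 608) (nat_lit 2513509375) (nat_lit 160) (nat_lit 5) (nat_lit 167) (nat_lit 5) (nat_lit 168) (nat_lit 5) (nat_lit 301) (nat_lit 289) (nat_lit 190))))))) (XT.nd (nat_lit 1014) (nat_lit 3116) (nat_lit 0) (XT.nd (nat_lit 468) (nat_lit 2660) (nat_lit 0) (XT.nd (nat_lit 234) (nat_lit 988) (nat_lit 0) (XT.nd (nat_lit 78) (nat_lit 1140) (nat_lit 0) (XT.lf (nat_lit 0) (nat_lit 592726471) (nat_lit 608) (nat_lit 3041243738) (nat_lit 76) (nat_lit 20173553270) (nat_lit 159) (nat_lit 5) (nat_lit 167) (nat_lit 5) (nat_lit 160) (nat_lit 5) (nat_lit 302) (nat_lit 289) (nat_lit 189)) (XT.nd (nat_lit 78) (nat_lit 532) (nat_lit 0) (XT.lf (nat_lit 0) (nat_lit 4061773378) (nat_lit 684) (nat_lit 8463504658) (nat_lit 76) (nat_lit 11956303505) (nat_lit 151) (nat_lit 5)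 (nat_lit 160) (nat_lit 5) (nat_lit 152) (nat_lit 5) (nat_lit 303) (nat_lit 289) (nat_lit 188)) (XT.lf (nat_lit 0) (nat_lit 7896993201) (nat_lit 608) (nat_lit 14143110398) (nat_lit 76) (nat_lit 3143475342) (nat_lit 144) (nat_lit 5) (nat_lit 152) (nat_lit 5) (nat_lit 145) (nat_lit 5) (nat_lit 304) (nat_lit 289) (nat_lit 187)))) (XT.nd (nat_lit 78) (nat_lit 456) (nat_lit 0) (XT.lf (nat_lit 0) (nat_lit 5750971657) (nat_lit 532) (nat_lit 6430363956) (nat_lit 608) (nat_lit 13731636942) (nat_lit 137) (nat_lit 5) (nat_lit 144) (nat_lit 5) (nat_lit 145) (nat_lit 5) (nat_lit 305) (nat_lit 289) (nat_lit 186)) (XT.nd (nat_lit 78) (nat_lit 0) (nat_lit 0) (XT.lf (nat_lit 0) (nat_lit 154245147) (nat_lit 456) (nat_lit 16758046785) (nat_lit 532) (nat_lit 9759588386) (nat_lit 131) (nat_lit 5) (nat_lit 137) (nat_lit 5) (nat_lit 138) (nat_lit 5) (nat_lit 306) (nat_lit 289) (nat_lit 185)) (XT.lf (nat_lit 0)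 (nat_lit 21829369122) (nat_lit 456) (nat_lit 310834035) (nat_lit 532) (nat_lit 5320733691) (nat_lit 131) (nat_lit 5) (nat_lit 137) (nat_lit 5) (nat_lit 138) (nat_lit 5) (nat_lit 307) (nat_lit 289) (nat_lit 184))))) (XT.nd (nat_lit 234) (nat_lit 1216) (nat_lit 0) (XT.nd (nat_lit 78) (nat_lit 988) (nat_lit 0) (XT.lf (nat_lit 0) (nat_lit 16444857474) (nat_lit 456) (nat_lit 11494875762) (nat_lit 532) (nat_lit 340421122) (nat_lit 125) (nat_lit 5) (nat_lit 131) (nat_lit 5) (nat_lit 132) (nat_lit 5) (nat_lit 308) (nat_lit 289) (nat_lit 183)) (XT.nd (nat_lit 78) (nat_lit 456) (nat_lit 0) (XT.lf (nat_lit 0) (nat_lit 5003746210) (nat_lit 532) (nat_lit 18438513516) (nat_lit 76) (nat_lit 5690369712) (nat_lit 118) (nat_lit 5) (nat_lit 125) (nat_lit 5) (nat_lit 119) (nat_lit 5) (nat_lit 309) (nat_lit 289) (nat_lit 182)) (XT.lf (nat_lit 0) (nat_lit 4529285711) (nat_lit 456) (nat_lit 6351260747) (nat_lit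 532) (nat_lit 19138919828) (nat_lit 112) (nat_lit 5) (nat_lit 118) (nat_lit 5) (nat_lit 119) (nat_lit 5) (nat_lit 310) (nat_lit 289) (nat_lit 181)))) (XT.nd (nat_lit 156) (nat_lit 836) (nat_lit 0) (XT.nd (nat_lit 78) (nat_lit 380) (nat_lit 0) (XT.lf (nat_lit 0) (nat_lit 17344488053) (nat_lit 532) (nat_lit 2039136572) (nat_lit 76) (nat_lit 11558233765) (nat_lit 112) (nat_lit 5) (nat_lit 119) (nat_lit 5) (nat_lit 113) (nat_lit 5) (nat_lit 311) (nat_lit 289) (nat_lit 180)) (XT.lf (nat_lit 0) (nat_lit 22957246951) (nat_lit 380) (nat_lit 1449794575) (nat_lit 456) (nat_lit 7495077991) (nat_lit 107) (nat_lit 5) (nat_lit 112) (nat_lit 5) (nat_lit 113) (nat_lit 5) (nat_lit 312) (nat_lit 289) (nat_lit 179))) (XT.nd (nat_lit 78) (nat_lit 456) (nat_lit 0) (XT.lf (nat_lit 0) (nat_lit 16479557148) (nat_lit 380) (nat_lit 15680807005) (nat_lit 456) (nat_lit 739911600) (nat_lit 102) (nat_lit 5) (nat_lit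 107) (nat_lit 5) (nat_lit 108) (nat_lit 5) (nat_lit 313) (nat_lit 289) (nat_lit 178)) (XT.lf (nat_lit 0) (nat_lit 6449070715) (nat_lit 456) (nat_lit 24455863561) (nat_lit 76) (nat_lit 3034983065) (nat_lit 96) (nat_lit 5) (nat_lit 102) (nat_lit 5) (nat_lit 97) (nat_lit 5) (nat_lit 314) (nat_lit 289) (nat_lit 177)))))) (XT.nd (nat_lit 468) (nat_lit 1672) (nat_lit 0) (XT.nd (nat_lit 234) (nat_lit 760) (nat_lit 0) (XT.nd (nat_lit 78) (nat_lit 304) (nat_lit 0) (XT.lf (nat_lit 0) (nat_lit 1858763219) (nat_lit 380) (nat_lit 12461912081) (nat_lit 456) (nat_lit 20700501611) (nat_lit 91) (nat_lit 5) (nat_lit 96) (nat_lit 5) (nat_lit 97) (nat_lit 5) (nat_lit 315) (nat_lit 289) (nat_lit 176)) (XT.nd (nat_lit 78) (nat_lit 304) (nat_lit 0) (XT.lf (nat_lit 0) (nat_lit 22898229871) (nat_lit 456) (nat_lit 6228379481) (nat_lit 76) (nat_lit 7020528489) (nat_lit 91) (nat_lit 5) (nat_lit 97) (nat_lit 5) (nat_lit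 92) (nat_lit 5) (nat_lit 316) (nat_lit 289) (nat_lit 175)) (XT.lf (nat_lit 0) (nat_lit 22352507010) (nat_lit 304) (nat_lit 9884961524) (nat_lit 380) (nat_lit 5081953115) (nat_lit 87) (nat_lit 5) (nat_lit 91) (nat_lit 5) (nat_lit 92) (nat_lit 5) (nat_lit 317) (nat_lit 289) (nat_lit 174)))) (XT.nd (nat_lit 78) (nat_lit 304) (nat_lit 0) (XT.lf (nat_lit 0) (nat_lit 3720048452) (nat_lit 456) (nat_lit 24468505671) (nat_lit 76) (nat_lit 10351920457) (nat_lit 81) (nat_lit 5) (nat_lit 87) (nat_lit 5) (nat_lit 82) (nat_lit 5) (nat_lit 318) (nat_lit 289) (nat_lit 173)) (XT.nd (nat_lit 78) (nat_lit 0) (nat_lit 0) (XT.lf (nat_lit 0) (nat_lit 4992403831) (nat_lit 304) (nat_lit 8161578537) (nat_lit 380) (nat_lit 26658188200) (nat_lit 77) (nat_lit 5) (nat_lit 81) (nat_lit 5) (nat_lit 82) (nat_lit 5) (nat_lit 319) (nat_lit 289) (nat_lit 172)) (XT.lf (nat_lit 0) (nat_lit 23430505171) (nat_lit 380) (nat_lit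 4838331448) (nat_lit 76) (nat_lit 12867495537) (nat_lit 77) (nat_lit 5) (nat_lit 82) (nat_lit 5) (nat_lit 78) (nat_lit 5) (nat_lit 320) (nat_lit 289) (nat_lit 171))))) (XT.nd (nat_lit 234) (nat_lit 760) (nat_lit 0) (XT.nd (nat_lit 78) (nat_lit 608) (nat_lit 0) (XT.lf (nat_lit 0) (nat_lit 27078737524) (nat_lit 304) (nat_lit 7477965633) (nat_lit 380) (nat_lit 7959930402) (nat_lit 73) (nat_lit 5) (nat_lit 77) (nat_lit 5) (nat_lit 78) (nat_lit 5) (nat_lit 321) (nat_lit 289) (nat_lit 170)) (XT.nd (nat_lit 78) (nat_lit 304) (nat_lit 0) (XT.lf (nat_lit 0) (nat_lit 2576506913) (nat_lit 304) (nat_lit 27070426389) (nat_lit 76) (nat_lit 14307939673) (nat_lit 69) (nat_lit 5) (nat_lit 73) (nat_lit 5) (nat_lit 70) (nat_lit 5) (nat_lit 322) (nat_lit 289) (nat_lit 169)) (XT.lf (nat_lit 0) (nat_lit 5628456448) (nat_lit 304) (nat_lit 8131834679) (nat_lit 380) (nat_lit 31693820788) (nat_lit 65) (nat_lit 5)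 (nat_lit 69) (nat_lit 5) (nat_lit 70) (nat_lit 5) (nat_lit 323) (nat_lit 289) (nat_lit 168)))) (XT.nd (nat_lit 156) (nat_lit 532) (nat_lit 0) (XT.nd (nat_lit 78) (nat_lit 228) (nat_lit 0) (XT.lf (nat_lit 0) (nat_lit 25917417751) (nat_lit 380) (nat_lit 6642866312) (nat_lit 76) (nat_lit 14455610187) (nat_lit 65) (nat_lit 5) (nat_lit 70) (nat_lit 5) (nat_lit 66) (nat_lit 5) (nat_lit 324) (nat_lit 289) (nat_lit 167)) (XT.lf (nat_lit 0) (nat_lit 28667689687) (nat_lit 228) (nat_lit 10366396145) (nat_lit 304) (nat_lit 9611135072) (nat_lit 62) (nat_lit 5) (nat_lit 65) (nat_lit 5) (nat_lit 66) (nat_lit 5) (nat_lit 325) (nat_lit 289) (nat_lit 166))) (XT.nd (nat_lit 78) (nat_lit 228) (nat_lit 0) (XT.lf (nat_lit 0) (nat_lit 2744665422) (nat_lit 304) (nat_lit 34671399094) (nat_lit 76) (nat_lit 12928990660) (nat_lit 58) (nat_lit 5) (nat_lit 62) (nat_lit 5) (nat_lit 59) (nat_lit 5) (nat_lit 326) (nat_lit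 289) (nat_lit 165)) (XT.lf (nat_lit 0) (nat_lit 1212672651) (nat_lit 228) (nat_lit 14626981328) (nat_lit 304) (nat_lit 36277772328) (nat_lit 55) (nat_lit 5) (nat_lit 58) (nat_lit 5) (nat_lit 59) (nat_lit 5) (nat_lit 327) (nat_lit 289) (nat_lit 164))))))))
noncomputable def xc97 : XT := (XT.nd (nat_lit 2028) (nat_lit 0) (nat_lit 0) (XT.nd (nat_lit 1014) (nat_lit 1140) (nat_lit 0) (XT.nd (nat_lit 468) (nat_lit 836) (nat_lit 0) (XT.nd (nat_lit 234) (nat_lit 380) (nat_lit 0) (XT.nd (nat_lit 78) (nat_lit 456) (nat_lit 0) (XT.lf (nat_lit 0) (nat_lit 30033761307) (nat_lit 304) (nat_lit 14453554865) (nat_lit 76) (nat_lit 9477773570) (nat_lit 55) (nat_lit 5) (nat_lit 59) (nat_lit 5) (nat_lit 56) (nat_lit 5) (nat_lit 328) (nat_lit 289) (nat_lit 163)) (XT.nd (nat_lit 78) (nat_lit 228) (nat_lit 0) (XT.lf (nat_lit 0) (nat_lit 24135562485) (nat_lit 228) (nat_lit 21176424170) (nat_lit 304) (nat_lit 10581921912)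 (nat_lit 52) (nat_lit 5) (nat_lit 55) (nat_lit 5) (nat_lit 56) (nat_lit 5) (nat_lit 329) (nat_lit 289) (nat_lit 162)) (XT.lf (nat_lit 0) (nat_lit 3615887746) (nat_lit 228) (nat_lit 50807542903) (nat_lit 76) (nat_lit 3487312536) (nat_lit 49) (nat_lit 5) (nat_lit 52) (nat_lit 5) (nat_lit 50) (nat_lit 5) (nat_lit 330) (nat_lit 289) (nat_lit 161)))) (XT.nd (nat_lit 78) (nat_lit 380) (nat_lit 0) (XT.lf (nat_lit 0) (nat_lit 18845708898) (nat_lit 228) (nat_lit 11778671043) (nat_lit 76) (nat_lit 29384671353) (nat_lit 49) (nat_lit 5) (nat_lit 52) (nat_lit 5) (nat_lit 50) (nat_lit 5) (nat_lit 331) (nat_lit 289) (nat_lit 160)) (XT.nd (nat_lit 78) (nat_lit 152) (nat_lit 0) (XT.lf (nat_lit 0) (nat_lit 29775279092) (nat_lit 228) (nat_lit 5343233726) (nat_lit 304) (nat_lit 27085321096) (nat_lit 46) (nat_lit 5) (nat_lit 49) (nat_lit 5) (nat_lit 50) (nat_lit 5) (nat_lit 332) (nat_lit 289) (nat_lit 159))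 (XT.lf (nat_lit 0) (nat_lit 9113894063) (nat_lit 152) (nat_lit 43500333579) (nat_lit 228) (nat_lit 11881853575) (nat_lit 44) (nat_lit 5) (nat_lit 46) (nat_lit 5) (nat_lit 47) (nat_lit 5) (nat_lit 333) (nat_lit 289) (nat_lit 158))))) (XT.nd (nat_lit 234) (nat_lit 380) (nat_lit 0) (XT.nd (nat_lit 78) (nat_lit 380) (nat_lit 0) (XT.lf (nat_lit 0) (nat_lit 4388703896) (nat_lit 228) (nat_lit 13585447721) (nat_lit 76) (nat_lit 48916018556) (nat_lit 43) (nat_lit 5) (nat_lit 46) (nat_lit 5) (nat_lit 44) (nat_lit 5) (nat_lit 334) (nat_lit 289) (nat_lit 157)) (XT.nd (nat_lit 78) (nat_lit 152) (nat_lit 0) (XT.lf (nat_lit 0) (nat_lit 21609842698) (nat_lit 304) (nat_lit 38705680673) (nat_lit 76) (nat_lit 9073430524) (nat_lit 40) (nat_lit 5) (nat_lit 44) (nat_lit 5) (nat_lit 41) (nat_lit 5) (nat_lit 335) (nat_lit 289) (nat_lit 156)) (XT.lf (nat_lit 0) (nat_lit 5355812322) (nat_lit 152) (nat_lit 34706199430)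 (nat_lit 228) (nat_lit 31939568932) (nat_lit 38) (nat_lit 5) (nat_lit 40) (nat_lit 5) (nat_lit 41) (nat_lit 5) (nat_lit 336) (nat_lit 289) (nat_lit 155)))) (XT.nd (nat_lit 156) (nat_lit 152) (nat_lit 0) (XT.nd (nat_lit 78) (nat_lit 228) (nat_lit 0) (XT.lf (nat_lit 0) (nat_lit 52422666541) (nat_lit 152) (nat_lit 7408536457) (nat_lit 228) (nat_lit 14901806336) (nat_lit 38) (nat_lit 5) (nat_lit 40) (nat_lit 5) (nat_lit 41) (nat_lit 5) (nat_lit 337) (nat_lit 289) (nat_lit 154)) (XT.lf (nat_lit 0) (nat_lit 3369903649) (nat_lit 228) (nat_lit 53111484461) (nat_lit 76) (nat_lit 21105551503) (nat_lit 35) (nat_lit 5) (nat_lit 38) (nat_lit 5) (nat_lit 36) (nat_lit 5) (nat_lit 338) (nat_lit 289) (nat_lit 153))) (XT.nd (nat_lit 78) (nat_lit 152) (nat_lit 0) (XT.lf (nat_lit 0) (nat_lit 22552813819) (nat_lit 228) (nat_lit 6743597972) (nat_lit 76) (nat_lit 51273556712) (nat_lit 35) (nat_lit 5) (nat_lit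 38) (nat_lit 5) (nat_lit 36) (nat_lit 5) (nat_lit 339) (nat_lit 289) (nat_lit 152)) (XT.lf (nat_lit 0) (nat_lit 42771375520) (nat_lit 152) (nat_lit 331044921) (nat_lit 228) (nat_lit 40587504328) (nat_lit 33) (nat_lit 5) (nat_lit 35) (nat_lit 5) (nat_lit 36) (nat_lit 5) (nat_lit 340) (nat_lit 289) (nat_lit 151)))))) (XT.nd (nat_lit 468) (nat_lit 608) (nat_lit 0) (XT.nd (nat_lit 234) (nat_lit 152) (nat_lit 0) (XT.nd (nat_lit 78) (nat_lit 228) (nat_lit 0) (XT.lf (nat_lit 0) (nat_lit 7795638549) (nat_lit 152) (nat_lit 57314584390) (nat_lit 228) (nat_lit 21842736788) (nat_lit 31) (nat_lit 5) (nat_lit 33) (nat_lit 5) (nat_lit 34) (nat_lit 5) (nat_lit 341) (nat_lit 289) (nat_lit 150)) (XT.nd (nat_lit 78) (nat_lit 228) (nat_lit 0) (XT.lf (nat_lit 0) (nat_lit 59791527179) (nat_lit 152) (nat_lit 28848029503) (nat_lit 228) (nat_lit 1726957746) (nat_lit 31) (nat_lit 5) (nat_lit 33) (nat_lit 5) (nat_lit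 34) (nat_lit 5) (nat_lit 342) (nat_lit 289) (nat_lit 149)) (XT.lf (nat_lit 0) (nat_lit 19225171704) (nat_lit 228) (nat_lit 73305641876) (nat_lit 76) (nat_lit 1408071759) (nat_lit 28) (nat_lit 5) (nat_lit 31) (nat_lit 5) (nat_lit 29) (nat_lit 5) (nat_lit 343) (nat_lit 289) (nat_lit 148)))) (XT.nd (nat_lit 78) (nat_lit 152) (nat_lit 0) (XT.lf (nat_lit 0) (nat_lit 41795375302) (nat_lit 228) (nat_lit 22956730111) (nat_lit 76) (nat_lit 32919072875) (nat_lit 28) (nat_lit 5) (nat_lit 31) (nat_lit 5) (nat_lit 29) (nat_lit 5) (nat_lit 344) (nat_lit 289) (nat_lit 147)) (XT.nd (nat_lit 78) (nat_lit 0) (nat_lit 0) (XT.lf (nat_lit 0) (nat_lit 30499648482) (nat_lit 152) (nat_lit 35284596035) (nat_lit 228) (nat_lit 35797138576) (nat_lit 26) (nat_lit 5) (nat_lit 28) (nat_lit 5) (nat_lit 29) (nat_lit 5) (nat_lit 345) (nat_lit 289) (nat_lit 146)) (XT.lf (nat_lit 0) (nat_lit 87103584633) (nat_lit 152) (nat_lit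 4102362124) (nat_lit 228) (nat_lit 14474151475) (nat_lit 26) (nat_lit 5) (nat_lit 28) (nat_lit 5) (nat_lit 29) (nat_lit 5) (nat_lit 346) (nat_lit 289) (nat_lit 145))))) (XT.nd (nat_lit 234) (nat_lit 304) (nat_lit 0) (XT.nd (nat_lit 78) (nat_lit 152) (nat_lit 0) (XT.lf (nat_lit 0) (nat_lit 8394864774) (nat_lit 152) (nat_lit 73051434653) (nat_lit 76) (nat_lit 28516138950) (nat_lit 24) (nat_lit 5) (nat_lit 26) (nat_lit 5) (nat_lit 25) (nat_lit 5) (nat_lit 347) (nat_lit 289) (nat_lit 144)) (XT.nd (nat_lit 78) (nat_lit 152) (nat_lit 0) (XT.lf (nat_lit 0) (nat_lit 32342546367) (nat_lit 152) (nat_lit 19086194478) (nat_lit 76) (nat_lit 63018820136) (nat_lit 24) (nat_lit 5) (nat_lit 26) (nat_lit 5) (nat_lit 25) (nat_lit 5) (nat_lit 348) (nat_lit 289) (nat_lit 143)) (XT.lf (nat_lit 0) (nat_lit 38320568964) (nat_lit 152) (nat_lit 19532785914) (nat_lit 228) (nat_lit 61292614047) (nat_lit 22) (nat_lit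 5) (nat_lit 24) (nat_lit 5) (nat_lit 25) (nat_lit 5) (nat_lit 349) (nat_lit 289) (nat_lit 142)))) (XT.nd (nat_lit 156) (nat_lit 228) (nat_lit 0) (XT.nd (nat_lit 78) (nat_lit 76) (nat_lit 0) (XT.lf (nat_lit 0) (nat_lit 84969744047) (nat_lit 228) (nat_lit 25217446402) (nat_lit 76) (nat_lit 13882207033) (nat_lit 22) (nat_lit 5) (nat_lit 25) (nat_lit 5) (nat_lit 23) (nat_lit 4) (nat_lit 350) (nat_lit 289) (nat_lit 141)) (XT.lf (nat_lit 0) (nat_lit 33625683906) (nat_lit 76) (nat_lit 80334217012) (nat_lit 152) (nat_lit 15263559458) (nat_lit 21) (nat_lit 5) (nat_lit 22) (nat_lit 5) (nat_lit 23) (nat_lit 4) (nat_lit 351) (nat_lit 289) (nat_lit 140))) (XT.nd (nat_lit 78) (nat_lit 152) (nat_lit 0) (XT.lf (nat_lit 0) (nat_lit 9833583528) (nat_lit 152) (nat_lit 38790085854) (nat_lit 76) (nat_lit 86000949010) (nat_lit 20) (nat_lit 5) (nat_lit 22) (nat_lit 5) (nat_lit 21) (nat_lit 5) (nat_lit 352) (nat_lit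 289) (nat_lit 139)) (XT.lf (nat_lit 0) (nat_lit 21111941112) (nat_lit 152) (nat_lit 14961577562) (nat_lit 228) (nat_lit 104211674832) (nat_lit 18) (nat_lit 5) (nat_lit 20) (nat_lit 5) (nat_lit 21) (nat_lit 5) (nat_lit 353) (nat_lit 289) (nat_lit 138))))))) (XT.nd (nat_lit 36504) (nat_lit 0) (nat_lit 6384) (XT.nd (nat_lit 35958) (nat_lit 0) (nat_lit 12084) (XT.nd (nat_lit 35724) (nat_lit 0) (nat_lit 11932) (XT.nd (nat_lit 78) (nat_lit 0) (nat_lit 0) (XT.lf (nat_lit 0) (nat_lit 64222442249) (nat_lit 228) (nat_lit 61600940362) (nat_lit 76) (nat_lit 20387506153) (nat_lit 18) (nat_lit 5) (nat_lit 21) (nat_lit 5) (nat_lit 19) (nat_lit 4) (nat_lit 354) (nat_lit 289) (nat_lit 137)) (XT.nd (nat_lit 35568) (nat_lit 0) (nat_lit 11932) (XT.lf (nat_lit 0) (nat_lit 93927716722) (nat_lit 228) (nat_lit 1304735017) (nat_lit 76) (nat_lit 57195950987) (nat_lit 18) (nat_lit 5) (nat_lit 21) (nat_lit 5) (nat_lit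 19) (nat_lit 4) (nat_lit 355) (nat_lit 289) (nat_lit 136)) (XT.lf (nat_lit 0) (nat_lit 118130279) (nat_lit 0) (nat_lit 118130279) (nat_lit 1140) (nat_lit 8688000039) (nat_lit 175) (nat_lit 5) (nat_lit 175) (nat_lit 3) (nat_lit 190) (nat_lit 3) (nat_lit 290) (nat_lit 290) (nat_lit 200)))) (XT.nd (nat_lit 78) (nat_lit 0) (nat_lit 76) (XT.lf (nat_lit 0) (nat_lit 933110757) (nat_lit 1140) (nat_lit 4631068664) (nat_lit 1216) (nat_lit 12716594748) (nat_lit 175) (nat_lit 5) (nat_lit 190) (nat_lit 3) (nat_lit 191) (nat_lit 5) (nat_lit 291) (nat_lit 290) (nat_lit 199)) (XT.nd (nat_lit 78) (nat_lit 0) (nat_lit 76) (XT.lf (nat_lit 0) (nat_lit 1560367399) (nat_lit 1140) (nat_lit 9641878212) (nat_lit 1216) (nat_lit 7528116854) (nat_lit 176) (nat_lit 5) (nat_lit 191) (nat_lit 5) (nat_lit 192) (nat_lit 5) (nat_lit 292) (nat_lit 290) (nat_lit 198)) (XT.lf (nat_lit 0) (nat_lit 2365797729) (nat_lit 1140)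 (nat_lit 14810819423) (nat_lit 1216) (nat_lit 2021438983) (nat_lit 177) (nat_lit 5) (nat_lit 192) (nat_lit 5) (nat_lit 193) (nat_lit 5) (nat_lit 293) (nat_lit 290) (nat_lit 197))))) (XT.nd (nat_lit 234) (nat_lit 0) (nat_lit 152) (XT.nd (nat_lit 78) (nat_lit 0) (nat_lit 76) (XT.lf (nat_lit 0) (nat_lit 3406025674) (nat_lit 1140) (nat_lit 492767937) (nat_lit 1216) (nat_lit 15784533938) (nat_lit 177) (nat_lit 5) (nat_lit 192) (nat_lit 5) (nat_lit 193) (nat_lit 5) (nat_lit 294) (nat_lit 290) (nat_lit 196)) (XT.nd (nat_lit 78) (nat_lit 0) (nat_lit 76) (XT.lf (nat_lit 0) (nat_lit 4720843412) (nat_lit 1140) (nat_lit 5468097083) (nat_lit 1216) (nat_lit 9997272153) (nat_lit 178) (nat_lit 5) (nat_lit 193) (nat_lit 5) (nat_lit 194) (nat_lit 5) (nat_lit 295) (nat_lit 290) (nat_lit 195)) (XT.lf (nat_lit 0) (nat_lit 6263747448) (nat_lit 1140) (nat_lit 10615570397) (nat_lit 1216) (nat_lit 3830079957) (nat_lit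 179) (nat_lit 5) (nat_lit 194) (nat_lit 5) (nat_lit 195) (nat_lit 5) (nat_lit 296) (nat_lit 290) (nat_lit 194)))) (XT.nd (nat_lit 156) (nat_lit 0) (nat_lit 152) (XT.nd (nat_lit 78) (nat_lit 0) (nat_lit 76) (XT.lf (nat_lit 76) (nat_lit 5278873809) (nat_lit 0) (nat_lit 2799028769) (nat_lit 1216) (nat_lit 13175041375) (nat_lit 180) (nat_lit 5) (nat_lit 179) (nat_lit 5) (nat_lit 195) (nat_lit 5) (nat_lit 297) (nat_lit 290) (nat_lit 193)) (XT.lf (nat_lit 76) (nat_lit 245997425) (nat_lit 0) (nat_lit 9949085984) (nat_lit 1216) (nat_lit 11622238191) (nat_lit 181) (nat_lit 5) (nat_lit 180) (nat_lit 5) (nat_lit 196) (nat_lit 5) (nat_lit 298) (nat_lit 290) (nat_lit 192))) (XT.nd (nat_lit 78) (nat_lit 0) (nat_lit 0) (XT.lf (nat_lit 0) (nat_lit 12643373166) (nat_lit 1140) (nat_lit 4882025956) (nat_lit 1216) (nat_lit 4877784111) (nat_lit 181) (nat_lit 5) (nat_lit 196) (nat_lit 5) (nat_lit 197) (nat_lit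 5) (nat_lit 299) (nat_lit 290) (nat_lit 191)) (XT.lf (nat_lit 76) (nat_lit 12779107176) (nat_lit 0) (nat_lit 2643988644) (nat_lit 1216) (nat_lit 7588993098) (nat_lit 182) (nat_lit 5) (nat_lit 181) (nat_lit 5) (nat_lit 197) (nat_lit 5) (nat_lit 300) (nat_lit 290) (nat_lit 190)))))) (XT.nd (nat_lit 546) (nat_lit 2204) (nat_lit 0) (XT.nd (nat_lit 234) (nat_lit 2128) (nat_lit 0) (XT.nd (nat_lit 78) (nat_lit 608) (nat_lit 0) (XT.lf (nat_lit 0) (nat_lit 7790420352) (nat_lit 1140) (nat_lit 10788162933) (nat_lit 1216) (nat_lit 5065773738) (nat_lit 167) (nat_lit 5) (nat_lit 182) (nat_lit 5) (nat_lit 183) (nat_lit 5) (nat_lit 301) (nat_lit 290) (nat_lit 189)) (XT.nd (nat_lit 78) (nat_lit 76) (nat_lit 0) (XT.lf (nat_lit 0) (nat_lit 2589168252) (nat_lit 532) (nat_lit 19493130205) (nat_lit 608) (nat_lit 2220245999) (nat_lit 160) (nat_lit 5) (nat_lit 167) (nat_lit 5) (nat_lit 168) (nat_lit 5) (nat_lit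 302) (nat_lit 290) (nat_lit 188)) (XT.lf (nat_lit 0) (nat_lit 1013566450) (nat_lit 608) (nat_lit 2832624906) (nat_lit 76) (nat_lit 21139417023) (nat_lit 159) (nat_lit 5) (nat_lit 167) (nat_lit 5) (nat_lit 160) (nat_lit 5) (nat_lit 303) (nat_lit 290) (nat_lit 187)))) (XT.nd (nat_lit 156) (nat_lit 988) (nat_lit 0) (XT.nd (nat_lit 78) (nat_lit 532) (nat_lit 0) (XT.lf (nat_lit 0) (nat_lit 4640558574) (nat_lit 684) (nat_lit 8524284630) (nat_lit 76) (nat_lit 12529017793) (nat_lit 151) (nat_lit 5) (nat_lit 160) (nat_lit 5) (nat_lit 152) (nat_lit 5) (nat_lit 304) (nat_lit 290) (nat_lit 186)) (XT.lf (nat_lit 0) (nat_lit 8652944517) (nat_lit 608) (nat_lit 14486831129) (nat_lit 76) (nat_lit 3291645645) (nat_lit 144) (nat_lit 5) (nat_lit 152) (nat_lit 5) (nat_lit 145) (nat_lit 5) (nat_lit 305) (nat_lit 290) (nat_lit 185))) (XT.nd (nat_lit 78) (nat_lit 456) (nat_lit 0) (XT.lf (nat_lit 0) (nat_lit 6391537244)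 (nat_lit 532) (nat_lit 6746164904) (nat_lit 608) (nat_lit 14060020472) (nat_lit 137) (nat_lit 5) (nat_lit 144) (nat_lit 5) (nat_lit 145) (nat_lit 5) (nat_lit 306) (nat_lit 290) (nat_lit 184)) (XT.lf (nat_lit 0) (nat_lit 515388023) (nat_lit 456) (nat_lit 17576729908) (nat_lit 532) (nat_lit 9902873327) (nat_lit 131) (nat_lit 5) (nat_lit 137) (nat_lit 5) (nat_lit 138) (nat_lit 5) (nat_lit 307) (nat_lit 290) (nat_lit 183))))) (XT.nd (nat_lit 234) (nat_lit 1216) (nat_lit 0) (XT.nd (nat_lit 78) (nat_lit 988) (nat_lit 0) (XT.lf (nat_lit 0) (nat_lit 23257438167) (nat_lit 456) (nat_lit 308071722) (nat_lit 532) (nat_lit 5258489920) (nat_lit 131) (nat_lit 5) (nat_lit 137) (nat_lit 5) (nat_lit 138) (nat_lit 5) (nat_lit 308) (nat_lit 290) (nat_lit 182)) (XT.nd (nat_lit 78) (nat_lit 532) (nat_lit 0) (XT.lf (nat_lit 0) (nat_lit 17603579138) (nat_lit 456) (nat_lit 12039682365) (nat_lit 532) (nat_lit 41290054)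 (nat_lit 125) (nat_lit 5) (nat_lit 131) (nat_lit 5) (nat_lit 132) (nat_lit 5) (nat_lit 309) (nat_lit 290) (nat_lit 181)) (XT.lf (nat_lit 0) (nat_lit 5552692815) (nat_lit 532) (nat_lit 19018221041) (nat_lit 76) (nat_lit 6009001224) (nat_lit 118) (nat_lit 5) (nat_lit 125) (nat_lit 5) (nat_lit 119) (nat_lit 5) (nat_lit 310) (nat_lit 290) (nat_lit 180)))) (XT.nd (nat_lit 156) (nat_lit 760) (nat_lit 0) (XT.nd (nat_lit 78) (nat_lit 0) (nat_lit 0) (XT.lf (nat_lit 0) (nat_lit 5088158533) (nat_lit 456) (nat_lit 6624143223) (nat_lit 532) (nat_lit 19799141194) (nat_lit 112) (nat_lit 5) (nat_lit 118) (nat_lit 5) (nat_lit 119) (nat_lit 5) (nat_lit 311) (nat_lit 290) (nat_lit 179)) (XT.lf (nat_lit 0) (nat_lit 18486148144) (nat_lit 532) (nat_lit 1816354648) (nat_lit 76) (nat_lit 12177868008) (nat_lit 112) (nat_lit 5) (nat_lit 119) (nat_lit 5) (nat_lit 113) (nat_lit 5) (nat_lit 312) (nat_lit 290) (nat_lit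 178))) (XT.nd (nat_lit 78) (nat_lit 380) (nat_lit 0) (XT.lf (nat_lit 0) (nat_lit 24420539481) (nat_lit 380) (nat_lit 1471253551) (nat_lit 456) (nat_lit 7597169583) (nat_lit 107) (nat_lit 5) (nat_lit 112) (nat_lit 5) (nat_lit 113) (nat_lit 5) (nat_lit 313) (nat_lit 290) (nat_lit 177)) (XT.lf (nat_lit 0) (nat_lit 17617472991) (nat_lit 380) (nat_lit 16406203293) (nat_lit 456) (nat_lit 513639300) (nat_lit 102) (nat_lit 5) (nat_lit 107) (nat_lit 5) (nat_lit 108) (nat_lit 5) (nat_lit 314) (nat_lit 290) (nat_lit 176))))))))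
noncomputable def xc98 : XT := (XT.nd (nat_lit 2028) (nat_lit 1292) (nat_lit 0) (XT.nd (nat_lit 1014) (nat_lit 1748) (nat_lit 0) (XT.nd (nat_lit 468) (nat_lit 1444) (nat_lit 0) (XT.nd (nat_lit 234) (nat_lit 1064) (nat_lit 0) (XT.nd (nat_lit 78) (nat_lit 380) (nat_lit 0) (XT.lf (nat_lit 0) (nat_lit 7020935246) (nat_lit 456) (nat_lit 25361264745) (nat_lit 76) (nat_lit 3246939498) (nat_lit 96) (nat_lit 5) (nat_lit 102) (nat_lit 5) (nat_lit 97) (nat_lit 5) (nat_lit 315) (nat_lit 290) (nat_lit 175)) (XT.nd (nat_lit 78) (nat_lit 0) (nat_lit 0) (XT.lf (nat_lit 0) (nat_lit 2259995396) (nat_lit 380) (nat_lit 13017211461) (nat_lit 456) (nat_lit 21487536452) (nat_lit 91) (nat_lit 5) (nat_lit 96) (nat_lit 5) (nat_lit 97) (nat_lit 5) (nat_lit 316) (nat_lit 290) (nat_lit 174)) (XT.lf (nat_lit 0) (nat_lit 24272807546) (nat_lit 456) (nat_lit 6239670107) (nat_lit 76) (nat_lit 7434862795) (nat_lit 91) (nat_lit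 5) (nat_lit 97) (nat_lit 5) (nat_lit 92) (nat_lit 5) (nat_lit 317) (nat_lit 290) (nat_lit 173)))) (XT.nd (nat_lit 78) (nat_lit 760) (nat_lit 0) (XT.lf (nat_lit 0) (nat_lit 23761657590) (nat_lit 304) (nat_lit 10309216387) (nat_lit 380) (nat_lit 5107621081) (nat_lit 87) (nat_lit 5) (nat_lit 91) (nat_lit 5) (nat_lit 92) (nat_lit 5) (nat_lit 318) (nat_lit 290) (nat_lit 172)) (XT.nd (nat_lit 78) (nat_lit 304) (nat_lit 0) (XT.lf (nat_lit 0) (nat_lit 4122812497) (nat_lit 456) (nat_lit 25398169090) (nat_lit 76) (nat_lit 10939781130) (nat_lit 81) (nat_lit 5) (nat_lit 87) (nat_lit 5) (nat_lit 82) (nat_lit 5) (nat_lit 319) (nat_lit 290) (nat_lit 171)) (XT.lf (nat_lit 0) (nat_lit 5527365262) (nat_lit 304) (nat_lit 8493498738) (nat_lit 380) (nat_lit 27775417959) (nat_lit 77) (nat_lit 5) (nat_lit 81) (nat_lit 5) (nat_lit 82) (nat_lit 5) (nat_lit 320) (nat_lit 290) (nat_lit 170))))) (XT.nd (nat_lit 234)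 (nat_lit 836) (nat_lit 0) (XT.nd (nat_lit 78) (nat_lit 608) (nat_lit 0) (XT.lf (nat_lit 0) (nat_lit 24801949095) (nat_lit 380) (nat_lit 4803003932) (nat_lit 76) (nat_lit 13581987071) (nat_lit 77) (nat_lit 5) (nat_lit 82) (nat_lit 5) (nat_lit 78) (nat_lit 5) (nat_lit 321) (nat_lit 290) (nat_lit 169)) (XT.nd (nat_lit 78) (nat_lit 304) (nat_lit 0) (XT.lf (nat_lit 0) (nat_lit 28701971342) (nat_lit 304) (nat_lit 7775554349) (nat_lit 380) (nat_lit 8158948872) (nat_lit 73) (nat_lit 5) (nat_lit 77) (nat_lit 5) (nat_lit 78) (nat_lit 5) (nat_lit 322) (nat_lit 290) (nat_lit 168)) (XT.lf (nat_lit 0) (nat_lit 2894431713) (nat_lit 304) (nat_lit 28153314311) (nat_lit 76) (nat_lit 15099011714) (nat_lit 69) (nat_lit 5) (nat_lit 73) (nat_lit 5) (nat_lit 70) (nat_lit 5) (nat_lit 323) (nat_lit 290) (nat_lit 167)))) (XT.nd (nat_lit 156) (nat_lit 532) (nat_lit 0) (XT.nd (nat_lit 78) (nat_lit 0) (nat_lit 0) (XT.lf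 (nat_lit 0) (nat_lit 6172755017) (nat_lit 304) (nat_lit 8458172308) (nat_lit 380) (nat_lit 33090234487) (nat_lit 65) (nat_lit 5) (nat_lit 69) (nat_lit 5) (nat_lit 70) (nat_lit 5) (nat_lit 324) (nat_lit 290) (nat_lit 166)) (XT.lf (nat_lit 0) (nat_lit 27387948726) (nat_lit 380) (nat_lit 6720000110) (nat_lit 76) (nat_lit 15253331704) (nat_lit 65) (nat_lit 5) (nat_lit 70) (nat_lit 5) (nat_lit 66) (nat_lit 5) (nat_lit 325) (nat_lit 290) (nat_lit 165))) (XT.nd (nat_lit 78) (nat_lit 304) (nat_lit 0) (XT.lf (nat_lit 0) (nat_lit 30348773893) (nat_lit 228) (nat_lit 10805740213) (nat_lit 304) (nat_lit 9917745534) (nat_lit 62) (nat_lit 5) (nat_lit 65) (nat_lit 5) (nat_lit 66) (nat_lit 5) (nat_lit 326) (nat_lit 290) (nat_lit 164)) (XT.lf (nat_lit 0) (nat_lit 3047437087) (nat_lit 304) (nat_lit 36156591354) (nat_lit 76) (nat_lit 13653164855) (nat_lit 58) (nat_lit 5) (nat_lit 62) (nat_lit 5) (nat_lit 59)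 (nat_lit 5) (nat_lit 327) (nat_lit 290) (nat_lit 163)))))) (XT.nd (nat_lit 468) (nat_lit 836) (nat_lit 0) (XT.nd (nat_lit 234) (nat_lit 456) (nat_lit 0) (XT.nd (nat_lit 78) (nat_lit 228) (nat_lit 0) (XT.lf (nat_lit 0) (nat_lit 1514564282) (nat_lit 228) (nat_lit 15277047129) (nat_lit 304) (nat_lit 37926745552) (nat_lit 55) (nat_lit 5) (nat_lit 58) (nat_lit 5) (nat_lit 59) (nat_lit 5) (nat_lit 328) (nat_lit 290) (nat_lit 162)) (XT.nd (nat_lit 78) (nat_lit 228) (nat_lit 0) (XT.lf (nat_lit 0) (nat_lit 31688550399) (nat_lit 304) (nat_lit 14942501834) (nat_lit 76) (nat_lit 10027564283) (nat_lit 55) (nat_lit 5) (nat_lit 59) (nat_lit 5) (nat_lit 56) (nat_lit 5) (nat_lit 329) (nat_lit 290) (nat_lit 161)) (XT.lf (nat_lit 0) (nat_lit 25569371539) (nat_lit 228) (nat_lit 22156207311) (nat_lit 304) (nat_lit 10958457091) (nat_lit 52) (nat_lit 5) (nat_lit 55) (nat_lit 5) (nat_lit 56) (nat_lit 5) (nat_lit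 330) (nat_lit 290) (nat_lit 160)))) (XT.nd (nat_lit 78) (nat_lit 228) (nat_lit 0) (XT.lf (nat_lit 0) (nat_lit 3942050443) (nat_lit 228) (nat_lit 53120686069) (nat_lit 76) (nat_lit 3739064180) (nat_lit 49) (nat_lit 5) (nat_lit 52) (nat_lit 5) (nat_lit 50) (nat_lit 5) (nat_lit 331) (nat_lit 290) (nat_lit 159)) (XT.nd (nat_lit 78) (nat_lit 228) (nat_lit 0) (XT.lf (nat_lit 0) (nat_lit 19926440353) (nat_lit 228) (nat_lit 12151191281) (nat_lit 76) (nat_lit 30927605889) (nat_lit 49) (nat_lit 5) (nat_lit 52) (nat_lit 5) (nat_lit 50) (nat_lit 5) (nat_lit 332) (nat_lit 290) (nat_lit 158)) (XT.lf (nat_lit 0) (nat_lit 31474252917) (nat_lit 228) (nat_lit 5534059551) (nat_lit 304) (nat_lit 28301589346) (nat_lit 46) (nat_lit 5) (nat_lit 49) (nat_lit 5) (nat_lit 50) (nat_lit 5) (nat_lit 333) (nat_lit 290) (nat_lit 157))))) (XT.nd (nat_lit 234) (nat_lit 380) (nat_lit 0) (XT.nd (nat_lit 78) (nat_lit 304)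 (nat_lit 0) (XT.lf (nat_lit 0) (nat_lit 9777065848) (nat_lit 152) (nat_lit 45598065473) (nat_lit 228) (nat_lit 12341745734) (nat_lit 44) (nat_lit 5) (nat_lit 46) (nat_lit 5) (nat_lit 47) (nat_lit 5) (nat_lit 334) (nat_lit 290) (nat_lit 156)) (XT.nd (nat_lit 78) (nat_lit 228) (nat_lit 0) (XT.lf (nat_lit 0) (nat_lit 4733455076) (nat_lit 228) (nat_lit 14064534119) (nat_lit 76) (nat_lit 51432835274) (nat_lit 43) (nat_lit 5) (nat_lit 46) (nat_lit 5) (nat_lit 44) (nat_lit 5) (nat_lit 335) (nat_lit 290) (nat_lit 155)) (XT.lf (nat_lit 0) (nat_lit 22812256471) (nat_lit 304) (nat_lit 40443494189) (nat_lit 76) (nat_lit 9598903059) (nat_lit 40) (nat_lit 5) (nat_lit 44) (nat_lit 5) (nat_lit 41) (nat_lit 5) (nat_lit 336) (nat_lit 290) (nat_lit 154)))) (XT.nd (nat_lit 156) (nat_lit 228) (nat_lit 0) (XT.nd (nat_lit 78) (nat_lit 0) (nat_lit 0) (XT.lf (nat_lit 0) (nat_lit 5815413004) (nat_lit 152) (nat_lit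 36367658978) (nat_lit 228) (nat_lit 33414963022) (nat_lit 38) (nat_lit 5) (nat_lit 40) (nat_lit 5) (nat_lit 41) (nat_lit 5) (nat_lit 337) (nat_lit 290) (nat_lit 153)) (XT.lf (nat_lit 0) (nat_lit 55226476121) (nat_lit 152) (nat_lit 7708629543) (nat_lit 228) (nat_lit 15531102027) (nat_lit 38) (nat_lit 5) (nat_lit 40) (nat_lit 5) (nat_lit 41) (nat_lit 5) (nat_lit 338) (nat_lit 290) (nat_lit 152))) (XT.nd (nat_lit 78) (nat_lit 0) (nat_lit 0) (XT.lf (nat_lit 0) (nat_lit 3648926452) (nat_lit 228) (nat_lit 55584646981) (nat_lit 76) (nat_lit 22229321665) (nat_lit 35) (nat_lit 5) (nat_lit 38) (nat_lit 5) (nat_lit 36) (nat_lit 5) (nat_lit 339) (nat_lit 290) (nat_lit 151)) (XT.lf (nat_lit 0) (nat_lit 23785718910) (nat_lit 228) (nat_lit 6907052439) (nat_lit 76) (nat_lit 53902465583) (nat_lit 35) (nat_lit 5) (nat_lit 38) (nat_lit 5) (nat_lit 36) (nat_lit 5) (nat_lit 340) (nat_lit 290) (nat_lit 150)))))))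 (XT.nd (nat_lit 1014) (nat_lit 152) (nat_lit 0) (XT.nd (nat_lit 468) (nat_lit 456) (nat_lit 0) (XT.nd (nat_lit 234) (nat_lit 380) (nat_lit 0) (XT.nd (nat_lit 78) (nat_lit 152) (nat_lit 0) (XT.lf (nat_lit 0) (nat_lit 45078689923) (nat_lit 152) (nat_lit 280725437) (nat_lit 228) (nat_lit 42511880799) (nat_lit 33) (nat_lit 5) (nat_lit 35) (nat_lit 5) (nat_lit 36) (nat_lit 5) (nat_lit 341) (nat_lit 290) (nat_lit 149)) (XT.nd (nat_lit 78) (nat_lit 0) (nat_lit 0) (XT.lf (nat_lit 0) (nat_lit 8351739934) (nat_lit 152) (nat_lit 60113227876) (nat_lit 228) (nat_lit 22832597527) (nat_lit 31) (nat_lit 5) (nat_lit 33) (nat_lit 5) (nat_lit 34) (nat_lit 5) (nat_lit 342) (nat_lit 290) (nat_lit 148)) (XT.lf (nat_lit 0) (nat_lit 62939503021) (nat_lit 152) (nat_lit 30226539804) (nat_lit 228) (nat_lit 1715899824) (nat_lit 31) (nat_lit 5) (nat_lit 33) (nat_lit 5) (nat_lit 34) (nat_lit 5) (nat_lit 343) (nat_lit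 290) (nat_lit 147)))) (XT.nd (nat_lit 78) (nat_lit 152) (nat_lit 0) (XT.lf (nat_lit 0) (nat_lit 20279493368) (nat_lit 228) (nat_lit 76812937389) (nat_lit 76) (nat_lit 1540549396) (nat_lit 28) (nat_lit 5) (nat_lit 31) (nat_lit 5) (nat_lit 29) (nat_lit 5) (nat_lit 344) (nat_lit 290) (nat_lit 146)) (XT.nd (nat_lit 78) (nat_lit 152) (nat_lit 0) (XT.lf (nat_lit 0) (nat_lit 43973775571) (nat_lit 228) (nat_lit 23954103206) (nat_lit 76) (nat_lit 34624144661) (nat_lit 28) (nat_lit 5) (nat_lit 31) (nat_lit 5) (nat_lit 29) (nat_lit 5) (nat_lit 345) (nat_lit 290) (nat_lit 145)) (XT.lf (nat_lit 0) (nat_lit 32170781313) (nat_lit 152) (nat_lit 36988491273) (nat_lit 228) (nat_lit 37498552977) (nat_lit 26) (nat_lit 5) (nat_lit 28) (nat_lit 5) (nat_lit 29) (nat_lit 5) (nat_lit 346) (nat_lit 290) (nat_lit 144))))) (XT.nd (nat_lit 234) (nat_lit 304) (nat_lit 0) (XT.nd (nat_lit 78) (nat_lit 152) (nat_lit 0)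 (XT.lf (nat_lit 0) (nat_lit 91597954728) (nat_lit 152) (nat_lit 4250018741) (nat_lit 228) (nat_lit 15113628071) (nat_lit 26) (nat_lit 5) (nat_lit 28) (nat_lit 5) (nat_lit 29) (nat_lit 5) (nat_lit 347) (nat_lit 290) (nat_lit 143)) (XT.nd (nat_lit 78) (nat_lit 0) (nat_lit 0) (XT.lf (nat_lit 0) (nat_lit 8895124755) (nat_lit 152) (nat_lit 76565263610) (nat_lit 76) (nat_lit 29997710454) (nat_lit 24) (nat_lit 5) (nat_lit 26) (nat_lit 5) (nat_lit 25) (nat_lit 5) (nat_lit 348) (nat_lit 290) (nat_lit 142)) (XT.lf (nat_lit 0) (nat_lit 34036356296) (nat_lit 152) (nat_lit 19908368225) (nat_lit 76) (nat_lit 66222870244) (nat_lit 24) (nat_lit 5) (nat_lit 26) (nat_lit 5) (nat_lit 25) (nat_lit 5) (nat_lit 349) (nat_lit 290) (nat_lit 141)))) (XT.nd (nat_lit 156) (nat_lit 152) (nat_lit 0) (XT.nd (nat_lit 78) (nat_lit 0) (nat_lit 0) (XT.lf (nat_lit 0) (nat_lit 40364945738) (nat_lit 152) (nat_lit 20455341704)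 (nat_lit 228) (nat_lit 64280710282) (nat_lit 22) (nat_lit 5) (nat_lit 24) (nat_lit 5) (nat_lit 25) (nat_lit 5) (nat_lit 350) (nat_lit 290) (nat_lit 140)) (XT.lf (nat_lit 0) (nat_lit 89289454777) (nat_lit 228) (nat_lit 26354415781) (nat_lit 76) (nat_lit 14626820376) (nat_lit 22) (nat_lit 5) (nat_lit 25) (nat_lit 5) (nat_lit 23) (nat_lit 4) (nat_lit 351) (nat_lit 290) (nat_lit 139))) (XT.nd (nat_lit 78) (nat_lit 76) (nat_lit 0) (XT.lf (nat_lit 0) (nat_lit 35427319390) (nat_lit 76) (nat_lit 84299565396) (nat_lit 152) (nat_lit 15955641120) (nat_lit 21) (nat_lit 5) (nat_lit 22) (nat_lit 5) (nat_lit 23) (nat_lit 4) (nat_lit 352) (nat_lit 290) (nat_lit 138)) (XT.lf (nat_lit 0) (nat_lit 10391652196) (nat_lit 152) (nat_lit 40613613616) (nat_lit 76) (nat_lit 90348556840) (nat_lit 20) (nat_lit 5) (nat_lit 22) (nat_lit 5) (nat_lit 21) (nat_lit 5) (nat_lit 353) (nat_lit 290) (nat_lit 137)))))) (XT.nd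 (nat_lit 36192) (nat_lit 0) (nat_lit 10792) (XT.nd (nat_lit 35880) (nat_lit 0) (nat_lit 12008) (XT.nd (nat_lit 35724) (nat_lit 0) (nat_lit 11932) (XT.lf (nat_lit 0) (nat_lit 22280190254) (nat_lit 152) (nat_lit 15661315322) (nat_lit 228) (nat_lit 109355984968) (nat_lit 18) (nat_lit 5) (nat_lit 20) (nat_lit 5) (nat_lit 21) (nat_lit 5) (nat_lit 354) (nat_lit 290) (nat_lit 136)) (XT.nd (nat_lit 78) (nat_lit 0) (nat_lit 0) (XT.lf (nat_lit 0) (nat_lit 283558763) (nat_lit 0) (nat_lit 283558763) (nat_lit 1140) (nat_lit 8793295780) (nat_lit 175) (nat_lit 5) (nat_lit 175) (nat_lit 3) (nat_lit 190) (nat_lit 3) (nat_lit 291) (nat_lit 291) (nat_lit 198)) (XT.lf (nat_lit 0) (nat_lit 1584548235) (nat_lit 1140) (nat_lit 4536687406) (nat_lit 1216) (nat_lit 13054502347) (nat_lit 175) (nat_lit 5) (nat_lit 190) (nat_lit 3) (nat_lit 191) (nat_lit 5) (nat_lit 292) (nat_lit 291) (nat_lit 197)))) (XT.nd (nat_lit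 156) (nat_lit 0) (nat_lit 76) (XT.nd (nat_lit 78) (nat_lit 0) (nat_lit 76) (XT.lf (nat_lit 0) (nat_lit 2214889165) (nat_lit 1140) (nat_lit 9786599747) (nat_lit 1216) (nat_lit 7647209498) (nat_lit 176) (nat_lit 5) (nat_lit 191) (nat_lit 5) (nat_lit 192) (nat_lit 5) (nat_lit 293) (nat_lit 291) (nat_lit 196)) (XT.lf (nat_lit 0) (nat_lit 3034130514) (nat_lit 1140) (nat_lit 15204089843) (nat_lit 1216) (nat_lit 1902392463) (nat_lit 177) (nat_lit 5) (nat_lit 192) (nat_lit 5) (nat_lit 193) (nat_lit 5) (nat_lit 294) (nat_lit 291) (nat_lit 195))) (XT.nd (nat_lit 78) (nat_lit 0) (nat_lit 76) (XT.lf (nat_lit 0) (nat_lit 4100177337) (nat_lit 1140) (nat_lit 186672475) (nat_lit 1216) (nat_lit 16364123997) (nat_lit 177) (nat_lit 5) (nat_lit 192) (nat_lit 5) (nat_lit 193) (nat_lit 5) (nat_lit 295) (nat_lit 291) (nat_lit 194)) (XT.lf (nat_lit 0) (nat_lit 5457141409) (nat_lit 1140) (nat_lit 5402685031) (nat_lit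 1216) (nat_lit 10319922876) (nat_lit 178) (nat_lit 5) (nat_lit 193) (nat_lit 5) (nat_lit 194) (nat_lit 5) (nat_lit 296) (nat_lit 291) (nat_lit 193))))) (XT.nd (nat_lit 234) (nat_lit 1444) (nat_lit 0) (XT.nd (nat_lit 78) (nat_lit 0) (nat_lit 0) (XT.lf (nat_lit 0) (nat_lit 7055085868) (nat_lit 1140) (nat_lit 10800679769) (nat_lit 1216) (nat_lit 3874027724) (nat_lit 179) (nat_lit 5) (nat_lit 194) (nat_lit 5) (nat_lit 195) (nat_lit 5) (nat_lit 297) (nat_lit 291) (nat_lit 192)) (XT.nd (nat_lit 78) (nat_lit 0) (nat_lit 76) (XT.lf (nat_lit 76) (nat_lit 5878578111) (nat_lit 0) (nat_lit 3061829082) (nat_lit 1216) (nat_lit 13360730625) (nat_lit 180) (nat_lit 5) (nat_lit 179) (nat_lit 5) (nat_lit 195) (nat_lit 5) (nat_lit 298) (nat_lit 291) (nat_lit 191)) (XT.lf (nat_lit 76) (nat_lit 599619476) (nat_lit 0) (nat_lit 10544145375) (nat_lit 1216) (nat_lit 11750593061) (nat_lit 181) (nat_lit 5) (nat_lit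 180) (nat_lit 5) (nat_lit 196) (nat_lit 5) (nat_lit 299) (nat_lit 291) (nat_lit 190)))) (XT.nd (nat_lit 156) (nat_lit 1596) (nat_lit 0) (XT.nd (nat_lit 78) (nat_lit 0) (nat_lit 0) (XT.lf (nat_lit 0) (nat_lit 13692674236) (nat_lit 1140) (nat_lit 4786993741) (nat_lit 1216) (nat_lit 5030530017) (nat_lit 181) (nat_lit 5) (nat_lit 196) (nat_lit 5) (nat_lit 197) (nat_lit 5) (nat_lit 300) (nat_lit 291) (nat_lit 189)) (XT.lf (nat_lit 76) (nat_lit 13747474853) (nat_lit 0) (nat_lit 2847211234) (nat_lit 1216) (nat_lit 7555393804) (nat_lit 182) (nat_lit 5) (nat_lit 181) (nat_lit 5) (nat_lit 197) (nat_lit 5) (nat_lit 301) (nat_lit 291) (nat_lit 188))) (XT.nd (nat_lit 78) (nat_lit 532) (nat_lit 0) (XT.lf (nat_lit 0) (nat_lit 8512826208) (nat_lit 1140) (nat_lit 11378603047) (nat_lit 1216) (nat_lit 4923056298) (nat_lit 167) (nat_lit 5) (nat_lit 182) (nat_lit 5) (nat_lit 183) (nat_lit 5) (nat_lit 302) (nat_lit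 291) (nat_lit 187)) (XT.lf (nat_lit 0) (nat_lit 3054188699) (nat_lit 532) (nat_lit 20500618170) (nat_lit 608) (nat_lit 1951268418) (nat_lit 160) (nat_lit 5) (nat_lit 167) (nat_lit 5) (nat_lit 168) (nat_lit 5) (nat_lit 303) (nat_lit 291) (nat_lit 186))))))))
noncomputable def xc99 : XT := (XT.nd (nat_lit 2028) (nat_lit 2660) (nat_lit 0) (XT.nd (nat_lit 1014) (nat_lit 3116) (nat_lit 0) (XT.nd (nat_lit 468) (nat_lit 2660) (nat_lit 0) (XT.nd (nat_lit 234) (nat_lit 988) (nat_lit 0) (XT.nd (nat_lit 78) (nat_lit 1140) (nat_lit 0) (XT.lf (nat_lit 0) (nat_lit 1419078021) (nat_lit 608) (nat_lit 2647107836) (nat_lit 76) (nat_lit 22157554396) (nat_lit 159) (nat_lit 5) (nat_lit 167) (nat_lit 5) (nat_lit 160) (nat_lit 5) (nat_lit 304) (nat_lit 291) (nat_lit 185)) (XT.nd (nat_lit 78) (nat_lit 532) (nat_lit 0) (XT.lf (nat_lit 0) (nat_lit 5213354327) (nat_lit 684) (nat_lit 8621795676) (nat_lit 76) (nat_lit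 13132701438) (nat_lit 151) (nat_lit 5) (nat_lit 160) (nat_lit 5) (nat_lit 152) (nat_lit 5) (nat_lit 305) (nat_lit 291) (nat_lit 184)) (XT.lf (nat_lit 0) (nat_lit 9413121590) (nat_lit 608) (nat_lit 14881526617) (nat_lit 76) (nat_lit 3448061519) (nat_lit 144) (nat_lit 5) (nat_lit 152) (nat_lit 5) (nat_lit 145) (nat_lit 5) (nat_lit 306) (nat_lit 291) (nat_lit 183)))) (XT.nd (nat_lit 78) (nat_lit 456) (nat_lit 0) (XT.lf (nat_lit 0) (nat_lit 7031310936) (nat_lit 532) (nat_lit 7078287434) (nat_lit 608) (nat_lit 14438125063) (nat_lit 137) (nat_lit 5) (nat_lit 144) (nat_lit 5) (nat_lit 145) (nat_lit 5) (nat_lit 307) (nat_lit 291) (nat_lit 182)) (XT.nd (nat_lit 78) (nat_lit 0) (nat_lit 0) (XT.lf (nat_lit 0) (nat_lit 861729414) (nat_lit 456) (nat_lit 18438134008) (nat_lit 532) (nat_lit 10085368940) (nat_lit 131) (nat_lit 5) (nat_lit 137) (nat_lit 5) (nat_lit 138) (nat_lit 5) (nat_lit 308) (nat_lit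 291) (nat_lit 181)) (XT.lf (nat_lit 0) (nat_lit 24725616732) (nat_lit 456) (nat_lit 306873027) (nat_lit 532) (nat_lit 5223654366) (nat_lit 131) (nat_lit 5) (nat_lit 137) (nat_lit 5) (nat_lit 138) (nat_lit 5) (nat_lit 309) (nat_lit 291) (nat_lit 180))))) (XT.nd (nat_lit 234) (nat_lit 1216) (nat_lit 0) (XT.nd (nat_lit 78) (nat_lit 912) (nat_lit 0) (XT.lf (nat_lit 0) (nat_lit 238655036) (nat_lit 532) (nat_lit 12373447589) (nat_lit 76) (nat_lit 18547889293) (nat_lit 124) (nat_lit 5) (nat_lit 131) (nat_lit 5) (nat_lit 125) (nat_lit 5) (nat_lit 310) (nat_lit 291) (nat_lit 179)) (XT.nd (nat_lit 78) (nat_lit 456) (nat_lit 0) (XT.lf (nat_lit 0) (nat_lit 6101310943) (nat_lit 532) (nat_lit 19658730141) (nat_lit 76) (nat_lit 6340392806) (nat_lit 118) (nat_lit 5) (nat_lit 125) (nat_lit 5) (nat_lit 119) (nat_lit 5) (nat_lit 311) (nat_lit 291) (nat_lit 178)) (XT.lf (nat_lit 0) (nat_lit 5644070802) (nat_lit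 456) (nat_lit 6914823797) (nat_lit 532) (nat_lit 20519960270) (nat_lit 112) (nat_lit 5) (nat_lit 118) (nat_lit 5) (nat_lit 119) (nat_lit 5) (nat_lit 312) (nat_lit 291) (nat_lit 177)))) (XT.nd (nat_lit 156) (nat_lit 836) (nat_lit 0) (XT.nd (nat_lit 78) (nat_lit 380) (nat_lit 0) (XT.lf (nat_lit 0) (nat_lit 19659376810) (nat_lit 532) (nat_lit 1612624758) (nat_lit 76) (nat_lit 12824604996) (nat_lit 112) (nat_lit 5) (nat_lit 119) (nat_lit 5) (nat_lit 113) (nat_lit 5) (nat_lit 313) (nat_lit 291) (nat_lit 176)) (XT.lf (nat_lit 0) (nat_lit 25927670929) (nat_lit 380) (nat_lit 1498529832) (nat_lit 456) (nat_lit 7729715312) (nat_lit 107) (nat_lit 5) (nat_lit 112) (nat_lit 5) (nat_lit 113) (nat_lit 5) (nat_lit 314) (nat_lit 291) (nat_lit 175))) (XT.nd (nat_lit 78) (nat_lit 456) (nat_lit 0) (XT.lf (nat_lit 0) (nat_lit 18783097648) (nat_lit 380) (nat_lit 17173321566) (nat_lit 456) (nat_lit 300529537)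 (nat_lit 102) (nat_lit 5) (nat_lit 107) (nat_lit 5) (nat_lit 108) (nat_lit 5) (nat_lit 315) (nat_lit 291) (nat_lit 174)) (XT.lf (nat_lit 0) (nat_lit 7598205133) (nat_lit 456) (nat_lit 26341444087) (nat_lit 76) (nat_lit 3463896250) (nat_lit 96) (nat_lit 5) (nat_lit 102) (nat_lit 5) (nat_lit 97) (nat_lit 5) (nat_lit 316) (nat_lit 291) (nat_lit 173)))))) (XT.nd (nat_lit 468) (nat_lit 1672) (nat_lit 0) (XT.nd (nat_lit 234) (nat_lit 760) (nat_lit 0) (XT.nd (nat_lit 78) (nat_lit 304) (nat_lit 0) (XT.lf (nat_lit 0) (nat_lit 2652626927) (nat_lit 380) (nat_lit 13606578860) (nat_lit 456) (nat_lit 22336978816) (nat_lit 91) (nat_lit 5) (nat_lit 96) (nat_lit 5) (nat_lit 97) (nat_lit 5) (nat_lit 317) (nat_lit 291) (nat_lit 172)) (XT.nd (nat_lit 78) (nat_lit 304) (nat_lit 0) (XT.lf (nat_lit 0) (nat_lit 25694761920) (nat_lit 456) (nat_lit 6279428353) (nat_lit 76) (nat_lit 7864028050) (nat_lit 91) (nat_lit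 5) (nat_lit 97) (nat_lit 5) (nat_lit 92) (nat_lit 5) (nat_lit 318) (nat_lit 291) (nat_lit 171)) (XT.lf (nat_lit 0) (nat_lit 25214162446) (nat_lit 304) (nat_lit 10761191298) (nat_lit 380) (nat_lit 5155809673) (nat_lit 87) (nat_lit 5) (nat_lit 91) (nat_lit 5) (nat_lit 92) (nat_lit 5) (nat_lit 319) (nat_lit 291) (nat_lit 170)))) (XT.nd (nat_lit 78) (nat_lit 304) (nat_lit 0) (XT.lf (nat_lit 0) (nat_lit 4525562303) (nat_lit 456) (nat_lit 26401626873) (nat_lit 76) (nat_lit 11550502295) (nat_lit 81) (nat_lit 5) (nat_lit 87) (nat_lit 5) (nat_lit 82) (nat_lit 5) (nat_lit 320) (nat_lit 291) (nat_lit 169)) (XT.nd (nat_lit 78) (nat_lit 0) (nat_lit 0) (XT.lf (nat_lit 0) (nat_lit 6062546442) (nat_lit 304) (nat_lit 8849095466) (nat_lit 380) (nat_lit 28968561055) (nat_lit 77) (nat_lit 5) (nat_lit 81) (nat_lit 5) (nat_lit 82) (nat_lit 5) (nat_lit 321) (nat_lit 291) (nat_lit 168)) (XT.lf (nat_lit 0) (nat_lit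 26223378673) (nat_lit 380) (nat_lit 4791685567) (nat_lit 76) (nat_lit 14325591419) (nat_lit 77) (nat_lit 5) (nat_lit 82) (nat_lit 5) (nat_lit 78) (nat_lit 5) (nat_lit 322) (nat_lit 291) (nat_lit 167))))) (XT.nd (nat_lit 234) (nat_lit 760) (nat_lit 0) (XT.nd (nat_lit 78) (nat_lit 608) (nat_lit 0) (XT.lf (nat_lit 0) (nat_lit 30381330175) (nat_lit 304) (nat_lit 8095117040) (nat_lit 380) (nat_lit 8386417357) (nat_lit 73) (nat_lit 5) (nat_lit 77) (nat_lit 5) (nat_lit 78) (nat_lit 5) (nat_lit 323) (nat_lit 291) (nat_lit 166)) (XT.nd (nat_lit 78) (nat_lit 304) (nat_lit 0) (XT.lf (nat_lit 0) (nat_lit 3210672078) (nat_lit 304) (nat_lit 29315507557) (nat_lit 76) (nat_lit 15922601808) (nat_lit 69) (nat_lit 5) (nat_lit 73) (nat_lit 5) (nat_lit 70) (nat_lit 5) (nat_lit 324) (nat_lit 291) (nat_lit 165)) (XT.lf (nat_lit 0) (nat_lit 6719828818) (nat_lit 304) (nat_lit 8808288084) (nat_lit 380) (nat_lit 34573973114)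 (nat_lit 65) (nat_lit 5) (nat_lit 69) (nat_lit 5) (nat_lit 70) (nat_lit 5) (nat_lit 325) (nat_lit 291) (nat_lit 164)))) (XT.nd (nat_lit 156) (nat_lit 532) (nat_lit 0) (XT.nd (nat_lit 78) (nat_lit 228) (nat_lit 0) (XT.lf (nat_lit 0) (nat_lit 28915768011) (nat_lit 380) (nat_lit 6824698966) (nat_lit 76) (nat_lit 16083971993) (nat_lit 65) (nat_lit 5) (nat_lit 70) (nat_lit 5) (nat_lit 66) (nat_lit 5) (nat_lit 326) (nat_lit 291) (nat_lit 163)) (XT.lf (nat_lit 0) (nat_lit 32090883536) (nat_lit 228) (nat_lit 11274393901) (nat_lit 304) (nat_lit 10255858397) (nat_lit 62) (nat_lit 5) (nat_lit 65) (nat_lit 5) (nat_lit 66) (nat_lit 5) (nat_lit 327) (nat_lit 291) (nat_lit 162))) (XT.nd (nat_lit 78) (nat_lit 228) (nat_lit 0) (XT.lf (nat_lit 0) (nat_lit 3349957145) (nat_lit 304) (nat_lit 37739135030) (nat_lit 76) (nat_lit 14406321657) (nat_lit 58) (nat_lit 5) (nat_lit 62) (nat_lit 5) (nat_lit 59) (nat_lit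 5) (nat_lit 328) (nat_lit 291) (nat_lit 161)) (XT.lf (nat_lit 0) (nat_lit 1809120613) (nat_lit 228) (nat_lit 15967173168) (nat_lit 304) (nat_lit 39673499707) (nat_lit 55) (nat_lit 5) (nat_lit 58) (nat_lit 5) (nat_lit 59) (nat_lit 5) (nat_lit 329) (nat_lit 291) (nat_lit 160))))))) (XT.nd (nat_lit 1014) (nat_lit 988) (nat_lit 0) (XT.nd (nat_lit 468) (nat_lit 836) (nat_lit 0) (XT.nd (nat_lit 234) (nat_lit 380) (nat_lit 0) (XT.nd (nat_lit 78) (nat_lit 456) (nat_lit 0) (XT.lf (nat_lit 0) (nat_lit 33411845063) (nat_lit 304) (nat_lit 15477626223) (nat_lit 76) (nat_lit 10597787880) (nat_lit 55) (nat_lit 5) (nat_lit 59) (nat_lit 5) (nat_lit 56) (nat_lit 5) (nat_lit 330) (nat_lit 291) (nat_lit 159)) (XT.nd (nat_lit 78) (nat_lit 228) (nat_lit 0) (XT.lf (nat_lit 0) (nat_lit 27053763860) (nat_lit 228) (nat_lit 23192327820) (nat_lit 304) (nat_lit 11368002697) (nat_lit 52) (nat_lit 5) (nat_lit 55) (nat_lit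 5) (nat_lit 56) (nat_lit 5) (nat_lit 331) (nat_lit 291) (nat_lit 158)) (XT.lf (nat_lit 0) (nat_lit 4271006307) (nat_lit 228) (nat_lit 55570612454) (nat_lit 76) (nat_lit 3996208787) (nat_lit 49) (nat_lit 5) (nat_lit 52) (nat_lit 5) (nat_lit 50) (nat_lit 5) (nat_lit 332) (nat_lit 291) (nat_lit 157)))) (XT.nd (nat_lit 78) (nat_lit 380) (nat_lit 0) (XT.lf (nat_lit 0) (nat_lit 21048336982) (nat_lit 228) (nat_lit 12562457590) (nat_lit 76) (nat_lit 32540835135) (nat_lit 49) (nat_lit 5) (nat_lit 52) (nat_lit 5) (nat_lit 50) (nat_lit 5) (nat_lit 333) (nat_lit 291) (nat_lit 156)) (XT.nd (nat_lit 78) (nat_lit 152) (nat_lit 0) (XT.lf (nat_lit 0) (nat_lit 33238632111) (nat_lit 228) (nat_lit 5741523652) (nat_lit 304) (nat_lit 29591500736) (nat_lit 46) (nat_lit 5) (nat_lit 49) (nat_lit 5) (nat_lit 50) (nat_lit 5) (nat_lit 334) (nat_lit 291) (nat_lit 155)) (XT.lf (nat_lit 0) (nat_lit 10454106970) (nat_lit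 152) (nat_lit 47807869168) (nat_lit 228) (nat_lit 12837109194) (nat_lit 44) (nat_lit 5) (nat_lit 46) (nat_lit 5) (nat_lit 47) (nat_lit 5) (nat_lit 335) (nat_lit 291) (nat_lit 154))))) (XT.nd (nat_lit 234) (nat_lit 380) (nat_lit 0) (XT.nd (nat_lit 78) (nat_lit 380) (nat_lit 0) (XT.lf (nat_lit 0) (nat_lit 5083793122) (nat_lit 228) (nat_lit 14586186233) (nat_lit 76) (nat_lit 54068890453) (nat_lit 43) (nat_lit 5) (nat_lit 46) (nat_lit 5) (nat_lit 44) (nat_lit 5) (nat_lit 336) (nat_lit 291) (nat_lit 153)) (XT.nd (nat_lit 78) (nat_lit 152) (nat_lit 0) (XT.lf (nat_lit 0) (nat_lit 24063455815) (nat_lit 304) (nat_lit 42286557317) (nat_lit 76) (nat_lit 10143973843) (nat_lit 40) (nat_lit 5) (nat_lit 44) (nat_lit 5) (nat_lit 41) (nat_lit 5) (nat_lit 337) (nat_lit 291) (nat_lit 152)) (XT.lf (nat_lit 0) (nat_lit 6280161038) (nat_lit 152) (nat_lit 38119057415) (nat_lit 228) (nat_lit 34975430577) (nat_lit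 38) (nat_lit 5) (nat_lit 40) (nat_lit 5) (nat_lit 41) (nat_lit 5) (nat_lit 338) (nat_lit 291) (nat_lit 151)))) (XT.nd (nat_lit 156) (nat_lit 152) (nat_lit 0) (XT.nd (nat_lit 78) (nat_lit 228) (nat_lit 0) (XT.lf (nat_lit 0) (nat_lit 58153492673) (nat_lit 152) (nat_lit 8030266248) (nat_lit 228) (nat_lit 16202627990) (nat_lit 38) (nat_lit 5) (nat_lit 40) (nat_lit 5) (nat_lit 41) (nat_lit 5) (nat_lit 339) (nat_lit 291) (nat_lit 150)) (XT.lf (nat_lit 0) (nat_lit 3931624585) (nat_lit 228) (nat_lit 58198426538) (nat_lit 76) (nat_lit 23402912544) (nat_lit 35) (nat_lit 5) (nat_lit 38) (nat_lit 5) (nat_lit 36) (nat_lit 5) (nat_lit 340) (nat_lit 291) (nat_lit 149))) (XT.nd (nat_lit 78) (nat_lit 152) (nat_lit 0) (XT.lf (nat_lit 0) (nat_lit 25070482770) (nat_lit 228) (nat_lit 7094830974) (nat_lit 76) (nat_lit 56656755334) (nat_lit 35) (nat_lit 5) (nat_lit 38) (nat_lit 5) (nat_lit 36) (nat_lit 5) (nat_lit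 341) (nat_lit 291) (nat_lit 148)) (XT.lf (nat_lit 0) (nat_lit 47485681677) (nat_lit 152) (nat_lit 234107077) (nat_lit 228) (nat_lit 44542237882) (nat_lit 33) (nat_lit 5) (nat_lit 35) (nat_lit 5) (nat_lit 36) (nat_lit 5) (nat_lit 342) (nat_lit 291) (nat_lit 147)))))) (XT.nd (nat_lit 546) (nat_lit 304) (nat_lit 0) (XT.nd (nat_lit 234) (nat_lit 304) (nat_lit 0) (XT.nd (nat_lit 78) (nat_lit 228) (nat_lit 0) (XT.lf (nat_lit 0) (nat_lit 8920183582) (nat_lit 152) (nat_lit 63058040532) (nat_lit 228) (nat_lit 23881459965) (nat_lit 31) (nat_lit 5) (nat_lit 33) (nat_lit 5) (nat_lit 34) (nat_lit 5) (nat_lit 343) (nat_lit 291) (nat_lit 146)) (XT.nd (nat_lit 78) (nat_lit 228) (nat_lit 0) (XT.lf (nat_lit 0) (nat_lit 66230151173) (nat_lit 152) (nat_lit 31679915616) (nat_lit 228) (nat_lit 1713344874) (nat_lit 31) (nat_lit 5) (nat_lit 33) (nat_lit 5) (nat_lit 34) (nat_lit 5) (nat_lit 344) (nat_lit 291) (nat_lit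 145)) (XT.lf (nat_lit 0) (nat_lit 21377878993) (nat_lit 228) (nat_lit 80510285773) (nat_lit 76) (nat_lit 1673879858) (nat_lit 28) (nat_lit 5) (nat_lit 31) (nat_lit 5) (nat_lit 29) (nat_lit 5) (nat_lit 345) (nat_lit 291) (nat_lit 144)))) (XT.nd (nat_lit 156) (nat_lit 152) (nat_lit 0) (XT.nd (nat_lit 78) (nat_lit 152) (nat_lit 0) (XT.lf (nat_lit 0) (nat_lit 46252855736) (nat_lit 228) (nat_lit 25015333618) (nat_lit 76) (nat_lit 36408973791) (nat_lit 28) (nat_lit 5) (nat_lit 31) (nat_lit 5) (nat_lit 29) (nat_lit 5) (nat_lit 346) (nat_lit 291) (nat_lit 143)) (XT.lf (nat_lit 0) (nat_lit 33911883105) (nat_lit 152) (nat_lit 38783190608) (nat_lit 228) (nat_lit 39293260647) (nat_lit 26) (nat_lit 5) (nat_lit 28) (nat_lit 5) (nat_lit 29) (nat_lit 5) (nat_lit 347) (nat_lit 291) (nat_lit 142))) (XT.nd (nat_lit 78) (nat_lit 152) (nat_lit 0) (XT.lf (nat_lit 0) (nat_lit 96304102680) (nat_lit 152) (nat_lit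 4410400414) (nat_lit 228) (nat_lit 15792909494) (nat_lit 26) (nat_lit 5) (nat_lit 28) (nat_lit 5) (nat_lit 29) (nat_lit 5) (nat_lit 348) (nat_lit 291) (nat_lit 141)) (XT.lf (nat_lit 0) (nat_lit 9412912052) (nat_lit 152) (nat_lit 80267683002) (nat_lit 76) (nat_lit 31548176073) (nat_lit 24) (nat_lit 5) (nat_lit 26) (nat_lit 5) (nat_lit 25) (nat_lit 5) (nat_lit 349) (nat_lit 291) (nat_lit 140))))) (XT.nd (nat_lit 234) (nat_lit 152) (nat_lit 0) (XT.nd (nat_lit 78) (nat_lit 152) (nat_lit 0) (XT.lf (nat_lit 0) (nat_lit 35807727500) (nat_lit 152) (nat_lit 20783935409) (nat_lit 76) (nat_lit 69582185277) (nat_lit 24) (nat_lit 5) (nat_lit 26) (nat_lit 5) (nat_lit 25) (nat_lit 5) (nat_lit 350) (nat_lit 291) (nat_lit 139)) (XT.nd (nat_lit 78) (nat_lit 0) (nat_lit 0) (XT.lf (nat_lit 0) (nat_lit 42499608741) (nat_lit 152) (nat_lit 21429053456) (nat_lit 228) (nat_lit 67425326778) (nat_lit 22) (nat_lit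 5) (nat_lit 24) (nat_lit 5) (nat_lit 25) (nat_lit 5) (nat_lit 351) (nat_lit 291) (nat_lit 138)) (XT.lf (nat_lit 0) (nat_lit 93818529356) (nat_lit 228) (nat_lit 27559752949) (nat_lit 76) (nat_lit 15403969097) (nat_lit 22) (nat_lit 5) (nat_lit 25) (nat_lit 5) (nat_lit 23) (nat_lit 4) (nat_lit 352) (nat_lit 291) (nat_lit 137)))) (XT.nd (nat_lit 35880) (nat_lit 0) (nat_lit 11780) (XT.nd (nat_lit 78) (nat_lit 76) (nat_lit 0) (XT.lf (nat_lit 0) (nat_lit 37307847526) (nat_lit 76) (nat_lit 88467956394) (nat_lit 152) (nat_lit 16688936725) (nat_lit 21) (nat_lit 5) (nat_lit 22) (nat_lit 5) (nat_lit 23) (nat_lit 4) (nat_lit 353) (nat_lit 291) (nat_lit 136)) (XT.lf (nat_lit 0) (nat_lit 10971452031) (nat_lit 152) (nat_lit 42539100166) (nat_lit 76) (nat_lit 94909123349) (nat_lit 20) (nat_lit 5) (nat_lit 22) (nat_lit 5) (nat_lit 21) (nat_lit 5) (nat_lit 354) (nat_lit 291) (nat_lit 135))) (XT.nd (nat_lit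 78) (nat_lit 0) (nat_lit 0) (XT.lf (nat_lit 0) (nat_lit 442427832) (nat_lit 0) (nat_lit 442427832) (nat_lit 1140) (nat_lit 8934453303) (nat_lit 175) (nat_lit 5) (nat_lit 175) (nat_lit 3) (nat_lit 190) (nat_lit 3) (nat_lit 292) (nat_lit 292) (nat_lit 196)) (XT.lf (nat_lit 0) (nat_lit 2212330695) (nat_lit 1140) (nat_lit 4467889404) (nat_lit 1216) (nat_lit 13437003303) (nat_lit 175) (nat_lit 5) (nat_lit 190) (nat_lit 3) (nat_lit 191) (nat_lit 5) (nat_lit 293) (nat_lit 292) (nat_lit 195))))))))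
noncomputable def xc100 : XT := (XT.nd (nat_lit 2028) (nat_lit 4788) (nat_lit 0) (XT.nd (nat_lit 1014) (nat_lit 4560) (nat_lit 0) (XT.nd (nat_lit 468) (nat_lit 1900) (nat_lit 0) (XT.nd (nat_lit 234) (nat_lit 0) (nat_lit 152) (XT.nd (nat_lit 78) (nat_lit 0) (nat_lit 76) (XT.lf (nat_lit 0) (nat_lit 2848539199) (nat_lit 1140) (nat_lit 9969923044) (nat_lit 1216) (nat_lit 7796179316) (nat_lit 176) (nat_lit 5) (nat_lit 191) (nat_lit 5) (nat_lit 192) (nat_lit 5) (nat_lit 294) (nat_lit 292) (nat_lit 194)) (XT.nd (nat_lit 78) (nat_lit 0) (nat_lit 0) (XT.lf (nat_lit 0) (nat_lit 3684742163) (nat_lit 1140) (nat_lit 15649309708) (nat_lit 1216) (nat_lit 1797858146) (nat_lit 177) (nat_lit 5) (nat_lit 192) (nat_lit 5) (nat_lit 193) (nat_lit 5) (nat_lit 295) (nat_lit 292) (nat_lit 193)) (XT.lf (nat_lit 76) (nat_lit 106048651) (nat_lit 0) (nat_lit 4675304694) (nat_lit 1216) (nat_lit 16887154341) (nat_lit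 178) (nat_lit 5) (nat_lit 177) (nat_lit 5) (nat_lit 193) (nat_lit 5) (nat_lit 296) (nat_lit 292) (nat_lit 192)))) (XT.nd (nat_lit 78) (nat_lit 0) (nat_lit 76) (XT.lf (nat_lit 0) (nat_lit 6183745261) (nat_lit 1140) (nat_lit 5365502361) (nat_lit 1216) (nat_lit 10675181709) (nat_lit 178) (nat_lit 5) (nat_lit 193) (nat_lit 5) (nat_lit 194) (nat_lit 5) (nat_lit 297) (nat_lit 292) (nat_lit 191)) (XT.nd (nat_lit 78) (nat_lit 0) (nat_lit 0) (XT.lf (nat_lit 0) (nat_lit 7841537257) (nat_lit 1140) (nat_lit 11027181650) (nat_lit 1216) (nat_lit 3933891259) (nat_lit 179) (nat_lit 5) (nat_lit 194) (nat_lit 5) (nat_lit 195) (nat_lit 5) (nat_lit 298) (nat_lit 292) (nat_lit 190)) (XT.lf (nat_lit 76) (nat_lit 6477051789) (nat_lit 0) (nat_lit 3326348087) (nat_lit 1216) (nat_lit 13599685235) (nat_lit 180) (nat_lit 5) (nat_lit 179) (nat_lit 5) (nat_lit 195) (nat_lit 5) (nat_lit 299) (nat_lit 292) (nat_lit 189)))))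 (XT.nd (nat_lit 234) (nat_lit 2204) (nat_lit 0) (XT.nd (nat_lit 78) (nat_lit 0) (nat_lit 76) (XT.lf (nat_lit 76) (nat_lit 939189729) (nat_lit 0) (nat_lit 11159883340) (nat_lit 1216) (nat_lit 11927458732) (nat_lit 181) (nat_lit 5) (nat_lit 180) (nat_lit 5) (nat_lit 196) (nat_lit 5) (nat_lit 300) (nat_lit 292) (nat_lit 188)) (XT.nd (nat_lit 78) (nat_lit 0) (nat_lit 0) (XT.lf (nat_lit 0) (nat_lit 14755659341) (nat_lit 1140) (nat_lit 4718739335) (nat_lit 1216) (nat_lit 5199386858) (nat_lit 181) (nat_lit 5) (nat_lit 196) (nat_lit 5) (nat_lit 197) (nat_lit 5) (nat_lit 301) (nat_lit 292) (nat_lit 187)) (XT.lf (nat_lit 76) (nat_lit 14733635279) (nat_lit 0) (nat_lit 3053991893) (nat_lit 1216) (nat_lit 7558515922) (nat_lit 182) (nat_lit 5) (nat_lit 181) (nat_lit 5) (nat_lit 197) (nat_lit 5) (nat_lit 302) (nat_lit 292) (nat_lit 186)))) (XT.nd (nat_lit 156) (nat_lit 684) (nat_lit 0) (XT.nd (nat_lit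 78) (nat_lit 532) (nat_lit 0) (XT.lf (nat_lit 0) (nat_lit 9240403880) (nat_lit 1140) (nat_lit 11993820697) (nat_lit 1216) (nat_lit 4810019883) (nat_lit 167) (nat_lit 5) (nat_lit 182) (nat_lit 5) (nat_lit 183) (nat_lit 5) (nat_lit 303) (nat_lit 292) (nat_lit 185)) (XT.lf (nat_lit 0) (nat_lit 3511262791) (nat_lit 532) (nat_lit 21555428176) (nat_lit 608) (nat_lit 1704169814) (nat_lit 160) (nat_lit 5) (nat_lit 167) (nat_lit 5) (nat_lit 168) (nat_lit 5) (nat_lit 304) (nat_lit 292) (nat_lit 184))) (XT.nd (nat_lit 78) (nat_lit 608) (nat_lit 0) (XT.lf (nat_lit 0) (nat_lit 1811876137) (nat_lit 608) (nat_lit 2482730061) (nat_lit 76) (nat_lit 23230209006) (nat_lit 159) (nat_lit 5) (nat_lit 167) (nat_lit 5) (nat_lit 160) (nat_lit 5) (nat_lit 305) (nat_lit 292) (nat_lit 183)) (XT.lf (nat_lit 0) (nat_lit 5783108506) (nat_lit 684) (nat_lit 8754741982) (nat_lit 76) (nat_lit 13768685948) (nat_lit 151) (nat_lit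 5) (nat_lit 160) (nat_lit 5) (nat_lit 152) (nat_lit 5) (nat_lit 306) (nat_lit 292) (nat_lit 182)))))) (XT.nd (nat_lit 468) (nat_lit 2052) (nat_lit 0) (XT.nd (nat_lit 234) (nat_lit 988) (nat_lit 0) (XT.nd (nat_lit 78) (nat_lit 988) (nat_lit 0) (XT.lf (nat_lit 0) (nat_lit 10180856895) (nat_lit 608) (nat_lit 15326604247) (nat_lit 76) (nat_lit 3613057423) (nat_lit 144) (nat_lit 5) (nat_lit 152) (nat_lit 5) (nat_lit 145) (nat_lit 5) (nat_lit 307) (nat_lit 292) (nat_lit 181)) (XT.nd (nat_lit 78) (nat_lit 456) (nat_lit 0) (XT.lf (nat_lit 0) (nat_lit 7673304446) (nat_lit 532) (nat_lit 7427498210) (nat_lit 608) (nat_lit 14865340674) (nat_lit 137) (nat_lit 5) (nat_lit 144) (nat_lit 5) (nat_lit 145) (nat_lit 5) (nat_lit 308) (nat_lit 292) (nat_lit 180)) (XT.lf (nat_lit 0) (nat_lit 1195584129) (nat_lit 456) (nat_lit 19344229012) (nat_lit 532) (nat_lit 10306056387) (nat_lit 131) (nat_lit 5) (nat_lit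 137) (nat_lit 5) (nat_lit 138) (nat_lit 5) (nat_lit 309) (nat_lit 292) (nat_lit 179)))) (XT.nd (nat_lit 78) (nat_lit 988) (nat_lit 0) (XT.lf (nat_lit 0) (nat_lit 26238819707) (nat_lit 456) (nat_lit 307157920) (nat_lit 532) (nat_lit 5214759941) (nat_lit 131) (nat_lit 5) (nat_lit 137) (nat_lit 5) (nat_lit 138) (nat_lit 5) (nat_lit 310) (nat_lit 292) (nat_lit 178)) (XT.nd (nat_lit 78) (nat_lit 456) (nat_lit 0) (XT.lf (nat_lit 0) (nat_lit 505611452) (nat_lit 532) (nat_lit 12709891669) (nat_lit 76) (nat_lit 19494506788) (nat_lit 124) (nat_lit 5) (nat_lit 131) (nat_lit 5) (nat_lit 125) (nat_lit 5) (nat_lit 311) (nat_lit 292) (nat_lit 177)) (XT.lf (nat_lit 0) (nat_lit 6652166500) (nat_lit 532) (nat_lit 20360122928) (nat_lit 76) (nat_lit 6685477317) (nat_lit 118) (nat_lit 5) (nat_lit 125) (nat_lit 5) (nat_lit 119) (nat_lit 5) (nat_lit 312) (nat_lit 292) (nat_lit 176))))) (XT.nd (nat_lit 234) (nat_lit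 1216) (nat_lit 0) (XT.nd (nat_lit 78) (nat_lit 380) (nat_lit 0) (XT.lf (nat_lit 0) (nat_lit 6199747668) (nat_lit 456) (nat_lit 7223806179) (nat_lit 532) (nat_lit 21301842200) (nat_lit 112) (nat_lit 5) (nat_lit 118) (nat_lit 5) (nat_lit 119) (nat_lit 5) (nat_lit 313) (nat_lit 292) (nat_lit 175)) (XT.nd (nat_lit 78) (nat_lit 380) (nat_lit 0) (XT.lf (nat_lit 0) (nat_lit 20868124570) (nat_lit 532) (nat_lit 1426092620) (nat_lit 76) (nat_lit 13500160496) (nat_lit 112) (nat_lit 5) (nat_lit 119) (nat_lit 5) (nat_lit 113) (nat_lit 5) (nat_lit 314) (nat_lit 292) (nat_lit 174)) (XT.lf (nat_lit 0) (nat_lit 27483559666) (nat_lit 380) (nat_lit 1531473197) (nat_lit 456) (nat_lit 7891881123) (nat_lit 107) (nat_lit 5) (nat_lit 112) (nat_lit 5) (nat_lit 113) (nat_lit 5) (nat_lit 315) (nat_lit 292) (nat_lit 173)))) (XT.nd (nat_lit 156) (nat_lit 380) (nat_lit 0) (XT.nd (nat_lit 78) (nat_lit 456) (nat_lit 0)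 (XT.lf (nat_lit 0) (nat_lit 19980530088) (nat_lit 380) (nat_lit 17983741030) (nat_lit 456) (nat_lit 98964878) (nat_lit 102) (nat_lit 5) (nat_lit 107) (nat_lit 5) (nat_lit 108) (nat_lit 5) (nat_lit 316) (nat_lit 292) (nat_lit 172)) (XT.lf (nat_lit 0) (nat_lit 8183306433) (nat_lit 456) (nat_lit 27397397112) (nat_lit 76) (nat_lit 3686623740) (nat_lit 96) (nat_lit 5) (nat_lit 102) (nat_lit 5) (nat_lit 97) (nat_lit 5) (nat_lit 317) (nat_lit 292) (nat_lit 171))) (XT.nd (nat_lit 78) (nat_lit 0) (nat_lit 0) (XT.lf (nat_lit 0) (nat_lit 3038892524) (nat_lit 380) (nat_lit 14231131681) (nat_lit 456) (nat_lit 23249805573) (nat_lit 91) (nat_lit 5) (nat_lit 96) (nat_lit 5) (nat_lit 97) (nat_lit 5) (nat_lit 318) (nat_lit 292) (nat_lit 170)) (XT.lf (nat_lit 0) (nat_lit 27168446952) (nat_lit 456) (nat_lit 6346483437) (nat_lit 76) (nat_lit 8309313004) (nat_lit 91) (nat_lit 5) (nat_lit 97) (nat_lit 5) (nat_lit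 92) (nat_lit 5) (nat_lit 319) (nat_lit 292) (nat_lit 169))))))) (XT.nd (nat_lit 1014) (nat_lit 1824) (nat_lit 0) (XT.nd (nat_lit 468) (nat_lit 1292) (nat_lit 0) (XT.nd (nat_lit 234) (nat_lit 608) (nat_lit 0) (XT.nd (nat_lit 78) (nat_lit 760) (nat_lit 0) (XT.lf (nat_lit 0) (nat_lit 26714709096) (nat_lit 304) (nat_lit 11241667273) (nat_lit 380) (nat_lit 5225670486) (nat_lit 87) (nat_lit 5) (nat_lit 91) (nat_lit 5) (nat_lit 92) (nat_lit 5) (nat_lit 320) (nat_lit 292) (nat_lit 168)) (XT.nd (nat_lit 78) (nat_lit 304) (nat_lit 0) (XT.lf (nat_lit 0) (nat_lit 4930170741) (nat_lit 456) (nat_lit 27480029604) (nat_lit 76) (nat_lit 12185834311) (nat_lit 81) (nat_lit 5) (nat_lit 87) (nat_lit 5) (nat_lit 82) (nat_lit 5) (nat_lit 321) (nat_lit 292) (nat_lit 167)) (XT.lf (nat_lit 0) (nat_lit 6600424708) (nat_lit 304) (nat_lit 9228894267) (nat_lit 380) (nat_lit 30239548924) (nat_lit 77) (nat_lit 5) (nat_lit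 81) (nat_lit 5) (nat_lit 82) (nat_lit 5) (nat_lit 322) (nat_lit 292) (nat_lit 166)))) (XT.nd (nat_lit 78) (nat_lit 608) (nat_lit 0) (XT.lf (nat_lit 0) (nat_lit 27699021188) (nat_lit 380) (nat_lit 4803180448) (nat_lit 76) (nat_lit 15100378921) (nat_lit 77) (nat_lit 5) (nat_lit 82) (nat_lit 5) (nat_lit 78) (nat_lit 5) (nat_lit 323) (nat_lit 292) (nat_lit 165)) (XT.nd (nat_lit 78) (nat_lit 304) (nat_lit 0) (XT.lf (nat_lit 0) (nat_lit 32121947944) (nat_lit 304) (nat_lit 8437092823) (nat_lit 380) (nat_lit 8642038490) (nat_lit 73) (nat_lit 5) (nat_lit 77) (nat_lit 5) (nat_lit 78) (nat_lit 5) (nat_lit 324) (nat_lit 292) (nat_lit 164)) (XT.lf (nat_lit 0) (nat_lit 3526778271) (nat_lit 304) (nat_lit 30558632169) (nat_lit 76) (nat_lit 16780989955) (nat_lit 69) (nat_lit 5) (nat_lit 73) (nat_lit 5) (nat_lit 70) (nat_lit 5) (nat_lit 325) (nat_lit 292) (nat_lit 163))))) (XT.nd (nat_lit 234) (nat_lit 760)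 (nat_lit 0) (XT.nd (nat_lit 78) (nat_lit 228) (nat_lit 0) (XT.lf (nat_lit 0) (nat_lit 7272088786) (nat_lit 304) (nat_lit 9182677237) (nat_lit 380) (nat_lit 36147775536) (nat_lit 65) (nat_lit 5) (nat_lit 69) (nat_lit 5) (nat_lit 70) (nat_lit 5) (nat_lit 326) (nat_lit 292) (nat_lit 162)) (XT.nd (nat_lit 78) (nat_lit 228) (nat_lit 0) (XT.lf (nat_lit 0) (nat_lit 30505249698) (nat_lit 380) (nat_lit 6956136953) (nat_lit 76) (nat_lit 16949824745) (nat_lit 65) (nat_lit 5) (nat_lit 70) (nat_lit 5) (nat_lit 66) (nat_lit 5) (nat_lit 327) (nat_lit 292) (nat_lit 161)) (XT.lf (nat_lit 0) (nat_lit 33899210887) (nat_lit 228) (nat_lit 11773140060) (nat_lit 304) (nat_lit 10625545273) (nat_lit 62) (nat_lit 5) (nat_lit 65) (nat_lit 5) (nat_lit 66) (nat_lit 5) (nat_lit 328) (nat_lit 292) (nat_lit 160)))) (XT.nd (nat_lit 156) (nat_lit 228) (nat_lit 0) (XT.nd (nat_lit 78) (nat_lit 228) (nat_lit 0) (XT.lf (nat_lit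 0) (nat_lit 3653643849) (nat_lit 304) (nat_lit 39421750836) (nat_lit 76) (nat_lit 15190582011) (nat_lit 58) (nat_lit 5) (nat_lit 62) (nat_lit 5) (nat_lit 59) (nat_lit 5) (nat_lit 329) (nat_lit 292) (nat_lit 159)) (XT.lf (nat_lit 0) (nat_lit 2098060197) (nat_lit 228) (nat_lit 16698659882) (nat_lit 304) (nat_lit 41521498392) (nat_lit 55) (nat_lit 5) (nat_lit 58) (nat_lit 5) (nat_lit 59) (nat_lit 5) (nat_lit 330) (nat_lit 292) (nat_lit 158))) (XT.nd (nat_lit 78) (nat_lit 228) (nat_lit 0) (XT.lf (nat_lit 0) (nat_lit 35208393909) (nat_lit 304) (nat_lit 16059216648) (nat_lit 76) (nat_lit 11190122066) (nat_lit 55) (nat_lit 5) (nat_lit 59) (nat_lit 5) (nat_lit 56) (nat_lit 5) (nat_lit 331) (nat_lit 292) (nat_lit 157)) (XT.lf (nat_lit 0) (nat_lit 28593230961) (nat_lit 228) (nat_lit 24286919397) (nat_lit 304) (nat_lit 11810890588) (nat_lit 52) (nat_lit 5) (nat_lit 55) (nat_lit 5) (nat_lit 56) (nat_lit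 5) (nat_lit 332) (nat_lit 292) (nat_lit 156)))))) (XT.nd (nat_lit 546) (nat_lit 760) (nat_lit 0) (XT.nd (nat_lit 234) (nat_lit 608) (nat_lit 0) (XT.nd (nat_lit 78) (nat_lit 228) (nat_lit 0) (XT.lf (nat_lit 0) (nat_lit 4604151491) (nat_lit 228) (nat_lit 58162197120) (nat_lit 76) (nat_lit 4259684895) (nat_lit 49) (nat_lit 5) (nat_lit 52) (nat_lit 5) (nat_lit 50) (nat_lit 5) (nat_lit 333) (nat_lit 292) (nat_lit 155)) (XT.nd (nat_lit 78) (nat_lit 228) (nat_lit 0) (XT.lf (nat_lit 0) (nat_lit 22214653705) (nat_lit 228) (nat_lit 13012536701) (nat_lit 76) (nat_lit 34228510861) (nat_lit 49) (nat_lit 5) (nat_lit 52) (nat_lit 5) (nat_lit 50) (nat_lit 5) (nat_lit 334) (nat_lit 292) (nat_lit 154)) (XT.lf (nat_lit 0) (nat_lit 35073503896) (nat_lit 228) (nat_lit 5965798132) (nat_lit 304) (nat_lit 30957544637) (nat_lit 46) (nat_lit 5) (nat_lit 49) (nat_lit 5) (nat_lit 50) (nat_lit 5) (nat_lit 335) (nat_lit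 292) (nat_lit 153)))) (XT.nd (nat_lit 156) (nat_lit 380) (nat_lit 0) (XT.nd (nat_lit 78) (nat_lit 76) (nat_lit 0) (XT.lf (nat_lit 0) (nat_lit 11147504227) (nat_lit 152) (nat_lit 50134680242) (nat_lit 228) (nat_lit 13368557554) (nat_lit 44) (nat_lit 5) (nat_lit 46) (nat_lit 5) (nat_lit 47) (nat_lit 5) (nat_lit 336) (nat_lit 292) (nat_lit 152)) (XT.lf (nat_lit 0) (nat_lit 5441080549) (nat_lit 228) (nat_lit 15150802037) (nat_lit 76) (nat_lit 56830759842) (nat_lit 43) (nat_lit 5) (nat_lit 46) (nat_lit 5) (nat_lit 44) (nat_lit 5) (nat_lit 337) (nat_lit 292) (nat_lit 151))) (XT.nd (nat_lit 78) (nat_lit 152) (nat_lit 0) (XT.lf (nat_lit 0) (nat_lit 25366933840) (nat_lit 304) (nat_lit 44238425698) (nat_lit 76) (nat_lit 10710243403) (nat_lit 40) (nat_lit 5) (nat_lit 44) (nat_lit 5) (nat_lit 41) (nat_lit 5) (nat_lit 338) (nat_lit 292) (nat_lit 150)) (XT.lf (nat_lit 0) (nat_lit 6751971706) (nat_lit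 152) (nat_lit 39964253360) (nat_lit 228) (nat_lit 36624174355) (nat_lit 38) (nat_lit 5) (nat_lit 40) (nat_lit 5) (nat_lit 41) (nat_lit 5) (nat_lit 339) (nat_lit 292) (nat_lit 149))))) (XT.nd (nat_lit 234) (nat_lit 532) (nat_lit 0) (XT.nd (nat_lit 78) (nat_lit 228) (nat_lit 0) (XT.lf (nat_lit 0) (nat_lit 61211455513) (nat_lit 152) (nat_lit 8373915821) (nat_lit 228) (nat_lit 16917494864) (nat_lit 38) (nat_lit 5) (nat_lit 40) (nat_lit 5) (nat_lit 41) (nat_lit 5) (nat_lit 340) (nat_lit 292) (nat_lit 148)) (XT.nd (nat_lit 78) (nat_lit 0) (nat_lit 0) (XT.lf (nat_lit 0) (nat_lit 4219137161) (nat_lit 228) (nat_lit 60958277305) (nat_lit 76) (nat_lit 24629407191) (nat_lit 35) (nat_lit 5) (nat_lit 38) (nat_lit 5) (nat_lit 36) (nat_lit 5) (nat_lit 341) (nat_lit 292) (nat_lit 147)) (XT.lf (nat_lit 0) (nat_lit 26410608191) (nat_lit 228) (nat_lit 7306648180) (nat_lit 76) (nat_lit 59543258834) (nat_lit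 35) (nat_lit 5) (nat_lit 38) (nat_lit 5) (nat_lit 36) (nat_lit 5) (nat_lit 342) (nat_lit 292) (nat_lit 146)))) (XT.nd (nat_lit 156) (nat_lit 228) (nat_lit 0) (XT.nd (nat_lit 78) (nat_lit 152) (nat_lit 0) (XT.lf (nat_lit 0) (nat_lit 49998793206) (nat_lit 152) (nat_lit 190796893) (nat_lit 228) (nat_lit 46682967048) (nat_lit 33) (nat_lit 5) (nat_lit 35) (nat_lit 5) (nat_lit 36) (nat_lit 5) (nat_lit 343) (nat_lit 292) (nat_lit 145)) (XT.lf (nat_lit 0) (nat_lit 9503024190) (nat_lit 152) (nat_lit 66155750960) (nat_lit 228) (nat_lit 24991390162) (nat_lit 31) (nat_lit 5) (nat_lit 33) (nat_lit 5) (nat_lit 34) (nat_lit 5) (nat_lit 344) (nat_lit 292) (nat_lit 144))) (XT.nd (nat_lit 78) (nat_lit 228) (nat_lit 0) (XT.lf (nat_lit 0) (nat_lit 69671974379) (nat_lit 152) (nat_lit 33211347969) (nat_lit 228) (nat_lit 1718876117) (nat_lit 31) (nat_lit 5) (nat_lit 33) (nat_lit 5) (nat_lit 34) (nat_lit 5) (nat_lit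 345) (nat_lit 292) (nat_lit 143)) (XT.lf (nat_lit 0) (nat_lit 22523336167) (nat_lit 228) (nat_lit 84405824111) (nat_lit 76) (nat_lit 1808642325) (nat_lit 28) (nat_lit 5) (nat_lit 31) (nat_lit 5) (nat_lit 29) (nat_lit 5) (nat_lit 346) (nat_lit 292) (nat_lit 142))))))))
noncomputable def xc101 : XT := (XT.nd (nat_lit 37830) (nat_lit 0) (nat_lit 1748) (XT.nd (nat_lit 36816) (nat_lit 0) (nat_lit 8360) (XT.nd (nat_lit 468) (nat_lit 76) (nat_lit 0) (XT.nd (nat_lit 234) (nat_lit 304) (nat_lit 0) (XT.nd (nat_lit 78) (nat_lit 152) (nat_lit 0) (XT.lf (nat_lit 0) (nat_lit 48638415880) (nat_lit 228) (nat_lit 26142313679) (nat_lit 76) (nat_lit 38278059122) (nat_lit 28) (nat_lit 5) (nat_lit 31) (nat_lit 5) (nat_lit 29) (nat_lit 5) (nat_lit 347) (nat_lit 292) (nat_lit 141)) (XT.nd (nat_lit 78) (nat_lit 0) (nat_lit 0) (XT.lf (nat_lit 0) (nat_lit 35727715562) (nat_lit 152) (nat_lit 40672712744) (nat_lit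 228) (nat_lit 41185161793) (nat_lit 26) (nat_lit 5) (nat_lit 28) (nat_lit 5) (nat_lit 29) (nat_lit 5) (nat_lit 348) (nat_lit 292) (nat_lit 140)) (XT.lf (nat_lit 0) (nat_lit 101233820482) (nat_lit 152) (nat_lit 4583646725) (nat_lit 228) (nat_lit 16513257935) (nat_lit 26) (nat_lit 5) (nat_lit 28) (nat_lit 5) (nat_lit 29) (nat_lit 5) (nat_lit 349) (nat_lit 292) (nat_lit 139)))) (XT.nd (nat_lit 78) (nat_lit 152) (nat_lit 0) (XT.lf (nat_lit 0) (nat_lit 9949798977) (nat_lit 152) (nat_lit 84166923127) (nat_lit 76) (nat_lit 33171462515) (nat_lit 24) (nat_lit 5) (nat_lit 26) (nat_lit 5) (nat_lit 25) (nat_lit 5) (nat_lit 350) (nat_lit 292) (nat_lit 138)) (XT.nd (nat_lit 78) (nat_lit 152) (nat_lit 0) (XT.lf (nat_lit 0) (nat_lit 37661200850) (nat_lit 152) (nat_lit 21714423584) (nat_lit 76) (nat_lit 73104987530) (nat_lit 24) (nat_lit 5) (nat_lit 26) (nat_lit 5) (nat_lit 25) (nat_lit 5) (nat_lit 351)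 (nat_lit 292) (nat_lit 137)) (XT.lf (nat_lit 0) (nat_lit 44730181664) (nat_lit 152) (nat_lit 22456011495) (nat_lit 228) (nat_lit 70733628022) (nat_lit 22) (nat_lit 5) (nat_lit 24) (nat_lit 5) (nat_lit 25) (nat_lit 5) (nat_lit 352) (nat_lit 292) (nat_lit 136))))) (XT.nd (nat_lit 36036) (nat_lit 0) (nat_lit 11704) (XT.nd (nat_lit 78) (nat_lit 76) (nat_lit 0) (XT.lf (nat_lit 0) (nat_lit 98568051597) (nat_lit 228) (nat_lit 28835805340) (nat_lit 76) (nat_lit 16215716488) (nat_lit 22) (nat_lit 5) (nat_lit 25) (nat_lit 5) (nat_lit 23) (nat_lit 4) (nat_lit 353) (nat_lit 292) (nat_lit 135)) (XT.nd (nat_lit 35880) (nat_lit 0) (nat_lit 11704) (XT.lf (nat_lit 0) (nat_lit 39272253205) (nat_lit 76) (nat_lit 92849098186) (nat_lit 152) (nat_lit 17464892451) (nat_lit 21) (nat_lit 5) (nat_lit 22) (nat_lit 5) (nat_lit 23) (nat_lit 4) (nat_lit 354) (nat_lit 292) (nat_lit 134)) (XT.lf (nat_lit 0) (nat_lit 595788343)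 (nat_lit 0) (nat_lit 595788343) (nat_lit 1140) (nat_lit 9110421078) (nat_lit 175) (nat_lit 5) (nat_lit 175) (nat_lit 3) (nat_lit 190) (nat_lit 3) (nat_lit 293) (nat_lit 293) (nat_lit 194)))) (XT.nd (nat_lit 156) (nat_lit 0) (nat_lit 152) (XT.nd (nat_lit 78) (nat_lit 0) (nat_lit 76) (XT.lf (nat_lit 0) (nat_lit 2820502829) (nat_lit 1140) (nat_lit 4423136597) (nat_lit 1216) (nat_lit 13863752188) (nat_lit 175) (nat_lit 5) (nat_lit 190) (nat_lit 3) (nat_lit 191) (nat_lit 5) (nat_lit 294) (nat_lit 293) (nat_lit 193)) (XT.lf (nat_lit 0) (nat_lit 3465256929) (nat_lit 1140) (nat_lit 10190862108) (nat_lit 1216) (nat_lit 7974296076) (nat_lit 176) (nat_lit 5) (nat_lit 191) (nat_lit 5) (nat_lit 192) (nat_lit 5) (nat_lit 295) (nat_lit 293) (nat_lit 192))) (XT.nd (nat_lit 78) (nat_lit 0) (nat_lit 0) (XT.lf (nat_lit 0) (nat_lit 4321500925) (nat_lit 1140) (nat_lit 16146074852) (nat_lit 1216) (nat_lit 1706659044)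 (nat_lit 177) (nat_lit 5) (nat_lit 192) (nat_lit 5) (nat_lit 193) (nat_lit 5) (nat_lit 296) (nat_lit 293) (nat_lit 191)) (XT.lf (nat_lit 76) (nat_lit 388861882) (nat_lit 0) (nat_lit 5065199737) (nat_lit 1216) (nat_lit 17284200283) (nat_lit 178) (nat_lit 5) (nat_lit 177) (nat_lit 5) (nat_lit 193) (nat_lit 5) (nat_lit 297) (nat_lit 293) (nat_lit 190)))))) (XT.nd (nat_lit 468) (nat_lit 3572) (nat_lit 0) (XT.nd (nat_lit 234) (nat_lit 0) (nat_lit 152) (XT.nd (nat_lit 78) (nat_lit 0) (nat_lit 76) (XT.lf (nat_lit 0) (nat_lit 6904494231) (nat_lit 1140) (nat_lit 5355031971) (nat_lit 1216) (nat_lit 11063147315) (nat_lit 178) (nat_lit 5) (nat_lit 193) (nat_lit 5) (nat_lit 194) (nat_lit 5) (nat_lit 298) (nat_lit 293) (nat_lit 189)) (XT.nd (nat_lit 78) (nat_lit 0) (nat_lit 0) (XT.lf (nat_lit 0) (nat_lit 8626990170) (nat_lit 1140) (nat_lit 11294157869) (nat_lit 1216) (nat_lit 4009190946) (nat_lit 179)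 (nat_lit 5) (nat_lit 194) (nat_lit 5) (nat_lit 195) (nat_lit 5) (nat_lit 299) (nat_lit 293) (nat_lit 188)) (XT.lf (nat_lit 76) (nat_lit 7077135464) (nat_lit 0) (nat_lit 3593733565) (nat_lit 1216) (nat_lit 13890479545) (nat_lit 180) (nat_lit 5) (nat_lit 179) (nat_lit 5) (nat_lit 195) (nat_lit 5) (nat_lit 300) (nat_lit 293) (nat_lit 187)))) (XT.nd (nat_lit 78) (nat_lit 0) (nat_lit 76) (XT.lf (nat_lit 76) (nat_lit 1266955817) (nat_lit 0) (nat_lit 11798177457) (nat_lit 1216) (nat_lit 12151347332) (nat_lit 181) (nat_lit 5) (nat_lit 180) (nat_lit 5) (nat_lit 196) (nat_lit 5) (nat_lit 301) (nat_lit 293) (nat_lit 186)) (XT.nd (nat_lit 78) (nat_lit 0) (nat_lit 0) (XT.lf (nat_lit 0) (nat_lit 15836618175) (nat_lit 1140) (nat_lit 4675670322) (nat_lit 1216) (nat_lit 5384372382) (nat_lit 181) (nat_lit 5) (nat_lit 196) (nat_lit 5) (nat_lit 197) (nat_lit 5) (nat_lit 302) (nat_lit 293) (nat_lit 185)) (XT.lf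 (nat_lit 76) (nat_lit 15741325372) (nat_lit 0) (nat_lit 3265122415) (nat_lit 1216) (nat_lit 7596625326) (nat_lit 182) (nat_lit 5) (nat_lit 181) (nat_lit 5) (nat_lit 197) (nat_lit 5) (nat_lit 303) (nat_lit 293) (nat_lit 184))))) (XT.nd (nat_lit 234) (nat_lit 2128) (nat_lit 0) (XT.nd (nat_lit 78) (nat_lit 608) (nat_lit 0) (XT.lf (nat_lit 0) (nat_lit 9976289255) (nat_lit 1140) (nat_lit 12635495856) (nat_lit 1216) (nat_lit 4724725656) (nat_lit 167) (nat_lit 5) (nat_lit 182) (nat_lit 5) (nat_lit 183) (nat_lit 5) (nat_lit 304) (nat_lit 293) (nat_lit 183)) (XT.nd (nat_lit 78) (nat_lit 76) (nat_lit 0) (XT.lf (nat_lit 0) (nat_lit 3962893646) (nat_lit 532) (nat_lit 22660210104) (nat_lit 608) (nat_lit 1476759689) (nat_lit 160) (nat_lit 5) (nat_lit 167) (nat_lit 5) (nat_lit 168) (nat_lit 5) (nat_lit 305) (nat_lit 293) (nat_lit 182)) (XT.lf (nat_lit 0) (nat_lit 2194392136) (nat_lit 608) (nat_lit 2337720835)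 (nat_lit 76) (nat_lit 24359771058) (nat_lit 159) (nat_lit 5) (nat_lit 167) (nat_lit 5) (nat_lit 160) (nat_lit 5) (nat_lit 306) (nat_lit 293) (nat_lit 181)))) (XT.nd (nat_lit 156) (nat_lit 988) (nat_lit 0) (XT.nd (nat_lit 78) (nat_lit 532) (nat_lit 0) (XT.lf (nat_lit 0) (nat_lit 6352614463) (nat_lit 684) (nat_lit 8922054157) (nat_lit 76) (nat_lit 14438389577) (nat_lit 151) (nat_lit 5) (nat_lit 160) (nat_lit 5) (nat_lit 152) (nat_lit 5) (nat_lit 307) (nat_lit 293) (nat_lit 180)) (XT.lf (nat_lit 0) (nat_lit 10959359355) (nat_lit 608) (nat_lit 15821733824) (nat_lit 76) (nat_lit 3786991770) (nat_lit 144) (nat_lit 5) (nat_lit 152) (nat_lit 5) (nat_lit 145) (nat_lit 5) (nat_lit 308) (nat_lit 293) (nat_lit 179))) (XT.nd (nat_lit 78) (nat_lit 456) (nat_lit 0) (XT.lf (nat_lit 0) (nat_lit 8320396392) (nat_lit 532) (nat_lit 7794606820) (nat_lit 608) (nat_lit 15341314609) (nat_lit 137) (nat_lit 5) (nat_lit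 144) (nat_lit 5) (nat_lit 145) (nat_lit 5) (nat_lit 309) (nat_lit 293) (nat_lit 178)) (XT.lf (nat_lit 0) (nat_lit 1519098704) (nat_lit 456) (nat_lit 20297098788) (nat_lit 532) (nat_lit 10564142879) (nat_lit 131) (nat_lit 5) (nat_lit 137) (nat_lit 5) (nat_lit 138) (nat_lit 5) (nat_lit 310) (nat_lit 293) (nat_lit 177))))))) (XT.nd (nat_lit 1014) (nat_lit 2508) (nat_lit 0) (XT.nd (nat_lit 468) (nat_lit 2280) (nat_lit 0) (XT.nd (nat_lit 234) (nat_lit 836) (nat_lit 0) (XT.nd (nat_lit 78) (nat_lit 988) (nat_lit 0) (XT.lf (nat_lit 0) (nat_lit 27801937234) (nat_lit 456) (nat_lit 308857078) (nat_lit 532) (nat_lit 5230530008) (nat_lit 131) (nat_lit 5) (nat_lit 137) (nat_lit 5) (nat_lit 138) (nat_lit 5) (nat_lit 311) (nat_lit 293) (nat_lit 176)) (XT.nd (nat_lit 78) (nat_lit 456) (nat_lit 0) (XT.lf (nat_lit 0) (nat_lit 762206005) (nat_lit 532) (nat_lit 13089396865) (nat_lit 76) (nat_lit 20486667983)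 (nat_lit 124) (nat_lit 5) (nat_lit 131) (nat_lit 5) (nat_lit 125) (nat_lit 5) (nat_lit 312) (nat_lit 293) (nat_lit 175)) (XT.lf (nat_lit 0) (nat_lit 7207713611) (nat_lit 532) (nat_lit 21122760621) (nat_lit 76) (nat_lit 7045206848) (nat_lit 118) (nat_lit 5) (nat_lit 125) (nat_lit 5) (nat_lit 119) (nat_lit 5) (nat_lit 313) (nat_lit 293) (nat_lit 174)))) (XT.nd (nat_lit 78) (nat_lit 380) (nat_lit 0) (XT.lf (nat_lit 0) (nat_lit 6757783419) (nat_lit 456) (nat_lit 7551655165) (nat_lit 532) (nat_lit 22145513825) (nat_lit 112) (nat_lit 5) (nat_lit 118) (nat_lit 5) (nat_lit 119) (nat_lit 5) (nat_lit 314) (nat_lit 293) (nat_lit 173)) (XT.nd (nat_lit 78) (nat_lit 380) (nat_lit 0) (XT.lf (nat_lit 0) (nat_lit 22116318934) (nat_lit 532) (nat_lit 1255072193) (nat_lit 76) (nat_lit 14206302533) (nat_lit 112) (nat_lit 5) (nat_lit 119) (nat_lit 5) (nat_lit 113) (nat_lit 5) (nat_lit 315) (nat_lit 293) (nat_lit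 172)) (XT.lf (nat_lit 0) (nat_lit 29093116508) (nat_lit 380) (nat_lit 1569966924) (nat_lit 456) (nat_lit 8083010367) (nat_lit 107) (nat_lit 5) (nat_lit 112) (nat_lit 5) (nat_lit 113) (nat_lit 5) (nat_lit 316) (nat_lit 293) (nat_lit 171))))) (XT.nd (nat_lit 234) (nat_lit 1064) (nat_lit 0) (XT.nd (nat_lit 78) (nat_lit 760) (nat_lit 0) (XT.lf (nat_lit 0) (nat_lit 90735606) (nat_lit 456) (nat_lit 18747515121) (nat_lit 76) (nat_lit 21122170093) (nat_lit 101) (nat_lit 5) (nat_lit 107) (nat_lit 5) (nat_lit 102) (nat_lit 5) (nat_lit 317) (nat_lit 293) (nat_lit 170)) (XT.nd (nat_lit 78) (nat_lit 380) (nat_lit 0) (XT.lf (nat_lit 0) (nat_lit 8778586080) (nat_lit 456) (nat_lit 28530424175) (nat_lit 76) (nat_lit 3915882526) (nat_lit 96) (nat_lit 5) (nat_lit 102) (nat_lit 5) (nat_lit 97) (nat_lit 5) (nat_lit 318) (nat_lit 293) (nat_lit 169)) (XT.lf (nat_lit 0) (nat_lit 3420890891) (nat_lit 380) (nat_lit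 14892097678) (nat_lit 456) (nat_lit 24227241717) (nat_lit 91) (nat_lit 5) (nat_lit 96) (nat_lit 5) (nat_lit 97) (nat_lit 5) (nat_lit 319) (nat_lit 293) (nat_lit 168)))) (XT.nd (nat_lit 156) (nat_lit 760) (nat_lit 0) (XT.nd (nat_lit 78) (nat_lit 304) (nat_lit 0) (XT.lf (nat_lit 0) (nat_lit 28698249741) (nat_lit 456) (nat_lit 6439847214) (nat_lit 76) (nat_lit 8772019970) (nat_lit 91) (nat_lit 5) (nat_lit 97) (nat_lit 5) (nat_lit 92) (nat_lit 5) (nat_lit 320) (nat_lit 293) (nat_lit 167)) (XT.lf (nat_lit 0) (nat_lit 28267985165) (nat_lit 304) (nat_lit 11751520623) (nat_lit 380) (nat_lit 5316496259) (nat_lit 87) (nat_lit 5) (nat_lit 91) (nat_lit 5) (nat_lit 92) (nat_lit 5) (nat_lit 321) (nat_lit 293) (nat_lit 166))) (XT.nd (nat_lit 78) (nat_lit 304) (nat_lit 0) (XT.lf (nat_lit 0) (nat_lit 5338430138) (nat_lit 456) (nat_lit 28634821457) (nat_lit 76) (nat_lit 12847558589) (nat_lit 81) (nat_lit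 5) (nat_lit 87) (nat_lit 5) (nat_lit 82) (nat_lit 5) (nat_lit 322) (nat_lit 293) (nat_lit 165)) (XT.lf (nat_lit 0) (nat_lit 7143371970) (nat_lit 304) (nat_lit 9633508167) (nat_lit 380) (nat_lit 31590582894) (nat_lit 77) (nat_lit 5) (nat_lit 81) (nat_lit 5) (nat_lit 82) (nat_lit 5) (nat_lit 323) (nat_lit 293) (nat_lit 164)))))) (XT.nd (nat_lit 546) (nat_lit 1064) (nat_lit 0) (XT.nd (nat_lit 234) (nat_lit 836) (nat_lit 0) (XT.nd (nat_lit 78) (nat_lit 608) (nat_lit 0) (XT.lf (nat_lit 0) (nat_lit 29233154634) (nat_lit 380) (nat_lit 4836455663) (nat_lit 76) (nat_lit 15908466286) (nat_lit 77) (nat_lit 5) (nat_lit 82) (nat_lit 5) (nat_lit 78) (nat_lit 5) (nat_lit 324) (nat_lit 293) (nat_lit 163)) (XT.nd (nat_lit 78) (nat_lit 304) (nat_lit 0) (XT.lf (nat_lit 0) (nat_lit 33928998866) (nat_lit 304) (nat_lit 8802004091) (nat_lit 380) (nat_lit 8925659929) (nat_lit 73) (nat_lit 5) (nat_lit 77) (nat_lit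 5) (nat_lit 78) (nat_lit 5) (nat_lit 325) (nat_lit 293) (nat_lit 162)) (XT.lf (nat_lit 0) (nat_lit 3844226108) (nat_lit 304) (nat_lit 31884612969) (nat_lit 76) (nat_lit 17676509346) (nat_lit 69) (nat_lit 5) (nat_lit 73) (nat_lit 5) (nat_lit 70) (nat_lit 5) (nat_lit 326) (nat_lit 293) (nat_lit 161)))) (XT.nd (nat_lit 156) (nat_lit 532) (nat_lit 0) (XT.nd (nat_lit 78) (nat_lit 0) (nat_lit 0) (XT.lf (nat_lit 0) (nat_lit 7831855154) (nat_lit 304) (nat_lit 9581924250) (nat_lit 380) (nat_lit 37814668863) (nat_lit 65) (nat_lit 5) (nat_lit 69) (nat_lit 5) (nat_lit 70) (nat_lit 5) (nat_lit 327) (nat_lit 293) (nat_lit 160)) (XT.lf (nat_lit 0) (nat_lit 32160846229) (nat_lit 380) (nat_lit 7113651773) (nat_lit 76) (nat_lit 17853238117) (nat_lit 65) (nat_lit 5) (nat_lit 70) (nat_lit 5) (nat_lit 66) (nat_lit 5) (nat_lit 328) (nat_lit 293) (nat_lit 159))) (XT.nd (nat_lit 78) (nat_lit 304) (nat_lit 0) (XT.lf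 (nat_lit 0) (nat_lit 35779008777) (nat_lit 228) (nat_lit 12302864150) (nat_lit 304) (nat_lit 11027021136) (nat_lit 62) (nat_lit 5) (nat_lit 65) (nat_lit 5) (nat_lit 66) (nat_lit 5) (nat_lit 329) (nat_lit 293) (nat_lit 158)) (XT.lf (nat_lit 0) (nat_lit 3959853340) (nat_lit 304) (nat_lit 41207495118) (nat_lit 76) (nat_lit 16008110451) (nat_lit 58) (nat_lit 5) (nat_lit 62) (nat_lit 5) (nat_lit 59) (nat_lit 5) (nat_lit 330) (nat_lit 293) (nat_lit 157))))) (XT.nd (nat_lit 234) (nat_lit 608) (nat_lit 0) (XT.nd (nat_lit 78) (nat_lit 228) (nat_lit 0) (XT.lf (nat_lit 0) (nat_lit 2382993640) (nat_lit 228) (nat_lit 17472938052) (nat_lit 304) (nat_lit 43474510906) (nat_lit 55) (nat_lit 5) (nat_lit 58) (nat_lit 5) (nat_lit 59) (nat_lit 5) (nat_lit 331) (nat_lit 293) (nat_lit 156)) (XT.nd (nat_lit 78) (nat_lit 228) (nat_lit 0) (XT.lf (nat_lit 0) (nat_lit 37083059948) (nat_lit 304) (nat_lit 16687763977)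 (nat_lit 76) (nat_lit 11806267436) (nat_lit 55) (nat_lit 5) (nat_lit 59) (nat_lit 5) (nat_lit 56) (nat_lit 5) (nat_lit 332) (nat_lit 293) (nat_lit 155)) (XT.lf (nat_lit 0) (nat_lit 30192306483) (nat_lit 228) (nat_lit 25442285944) (nat_lit 304) (nat_lit 12287591812) (nat_lit 52) (nat_lit 5) (nat_lit 55) (nat_lit 5) (nat_lit 56) (nat_lit 5) (nat_lit 333) (nat_lit 293) (nat_lit 154)))) (XT.nd (nat_lit 156) (nat_lit 380) (nat_lit 0) (XT.nd (nat_lit 78) (nat_lit 0) (nat_lit 0) (XT.lf (nat_lit 0) (nat_lit 4942835136) (nat_lit 228) (nat_lit 60900741481) (nat_lit 76) (nat_lit 4530415777) (nat_lit 49) (nat_lit 5) (nat_lit 52) (nat_lit 5) (nat_lit 50) (nat_lit 5) (nat_lit 334) (nat_lit 293) (nat_lit 153)) (XT.lf (nat_lit 0) (nat_lit 23428696934) (nat_lit 228) (nat_lit 13501672589) (nat_lit 76) (nat_lit 35994933202) (nat_lit 49) (nat_lit 5) (nat_lit 52) (nat_lit 5) (nat_lit 50) (nat_lit 5) (nat_lit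 335) (nat_lit 293) (nat_lit 152))) (XT.nd (nat_lit 78) (nat_lit 152) (nat_lit 0) (XT.lf (nat_lit 0) (nat_lit 36984040932) (nat_lit 228) (nat_lit 6207125043) (nat_lit 304) (nat_lit 32402445783) (nat_lit 46) (nat_lit 5) (nat_lit 49) (nat_lit 5) (nat_lit 50) (nat_lit 5) (nat_lit 336) (nat_lit 293) (nat_lit 151)) (XT.lf (nat_lit 0) (nat_lit 11859702031) (nat_lit 152) (nat_lit 52583743158) (nat_lit 228) (nat_lit 13936842938) (nat_lit 44) (nat_lit 5) (nat_lit 46) (nat_lit 5) (nat_lit 47) (nat_lit 5) (nat_lit 337) (nat_lit 293) (nat_lit 150))))))))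
noncomputable def xc102 : XT := (XT.nd (nat_lit 37908) (nat_lit 0) (nat_lit 3268) (XT.nd (nat_lit 1014) (nat_lit 304) (nat_lit 0) (XT.nd (nat_lit 468) (nat_lit 684) (nat_lit 0) (XT.nd (nat_lit 234) (nat_lit 228) (nat_lit 0) (XT.nd (nat_lit 78) (nat_lit 380) (nat_lit 0) (XT.lf (nat_lit 0) (nat_lit 5806647293) (nat_lit 228) (nat_lit 15758960273) (nat_lit 76) (nat_lit 59725290910) (nat_lit 43) (nat_lit 5) (nat_lit 46) (nat_lit 5) (nat_lit 44) (nat_lit 5) (nat_lit 338) (nat_lit 293) (nat_lit 149)) (XT.nd (nat_lit 78) (nat_lit 152) (nat_lit 0) (XT.lf (nat_lit 0) (nat_lit 26726260336) (nat_lit 304) (nat_lit 46302991442) (nat_lit 76) (nat_lit 11299334591) (nat_lit 40) (nat_lit 5) (nat_lit 44) (nat_lit 5) (nat_lit 41) (nat_lit 5) (nat_lit 339) (nat_lit 293) (nat_lit 148)) (XT.lf (nat_lit 0) (nat_lit 7232701915) (nat_lit 152) (nat_lit 41907357704) (nat_lit 228) (nat_lit 38364654953) (nat_lit 38)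 (nat_lit 5) (nat_lit 40) (nat_lit 5) (nat_lit 41) (nat_lit 5) (nat_lit 340) (nat_lit 293) (nat_lit 147)))) (XT.nd (nat_lit 78) (nat_lit 228) (nat_lit 0) (XT.lf (nat_lit 0) (nat_lit 64408344121) (nat_lit 152) (nat_lit 8740127494) (nat_lit 228) (nat_lit 17676961875) (nat_lit 38) (nat_lit 5) (nat_lit 40) (nat_lit 5) (nat_lit 41) (nat_lit 5) (nat_lit 341) (nat_lit 293) (nat_lit 146)) (XT.nd (nat_lit 78) (nat_lit 0) (nat_lit 0) (XT.lf (nat_lit 0) (nat_lit 4512571431) (nat_lit 228) (nat_lit 63870072749) (nat_lit 76) (nat_lit 25911987774) (nat_lit 35) (nat_lit 5) (nat_lit 38) (nat_lit 5) (nat_lit 36) (nat_lit 5) (nat_lit 342) (nat_lit 293) (nat_lit 145)) (XT.lf (nat_lit 0) (nat_lit 27809688517) (nat_lit 228) (nat_lit 7542343997) (nat_lit 76) (nat_lit 62569098179) (nat_lit 35) (nat_lit 5) (nat_lit 38) (nat_lit 5) (nat_lit 36) (nat_lit 5) (nat_lit 343) (nat_lit 293) (nat_lit 144))))) (XT.nd (nat_lit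 234) (nat_lit 380) (nat_lit 0) (XT.nd (nat_lit 78) (nat_lit 152) (nat_lit 0) (XT.lf (nat_lit 0) (nat_lit 52624653452) (nat_lit 152) (nat_lit 150436022) (nat_lit 228) (nat_lit 48938763720) (nat_lit 33) (nat_lit 5) (nat_lit 35) (nat_lit 5) (nat_lit 36) (nat_lit 5) (nat_lit 344) (nat_lit 293) (nat_lit 143)) (XT.nd (nat_lit 78) (nat_lit 0) (nat_lit 0) (XT.lf (nat_lit 0) (nat_lit 10102285540) (nat_lit 152) (nat_lit 69413478101) (nat_lit 228) (nat_lit 26164639670) (nat_lit 31) (nat_lit 5) (nat_lit 33) (nat_lit 5) (nat_lit 34) (nat_lit 5) (nat_lit 345) (nat_lit 293) (nat_lit 142)) (XT.lf (nat_lit 0) (nat_lit 73273773231) (nat_lit 152) (nat_lit 34824238790) (nat_lit 228) (nat_lit 1732134208) (nat_lit 31) (nat_lit 5) (nat_lit 33) (nat_lit 5) (nat_lit 34) (nat_lit 5) (nat_lit 346) (nat_lit 293) (nat_lit 141)))) (XT.nd (nat_lit 156) (nat_lit 152) (nat_lit 0) (XT.nd (nat_lit 78) (nat_lit 0) (nat_lit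 0) (XT.lf (nat_lit 0) (nat_lit 23718948078) (nat_lit 228) (nat_lit 88508223297) (nat_lit 76) (nat_lit 1945395052) (nat_lit 28) (nat_lit 5) (nat_lit 31) (nat_lit 5) (nat_lit 29) (nat_lit 5) (nat_lit 347) (nat_lit 293) (nat_lit 140)) (XT.lf (nat_lit 0) (nat_lit 51136474866) (nat_lit 228) (nat_lit 27337151250) (nat_lit 76) (nat_lit 40236076946) (nat_lit 28) (nat_lit 5) (nat_lit 31) (nat_lit 5) (nat_lit 29) (nat_lit 5) (nat_lit 348) (nat_lit 293) (nat_lit 139))) (XT.nd (nat_lit 78) (nat_lit 0) (nat_lit 0) (XT.lf (nat_lit 0) (nat_lit 37623161024) (nat_lit 152) (nat_lit 42661325801) (nat_lit 228) (nat_lit 43178422708) (nat_lit 26) (nat_lit 5) (nat_lit 28) (nat_lit 5) (nat_lit 29) (nat_lit 5) (nat_lit 349) (nat_lit 293) (nat_lit 138)) (XT.lf (nat_lit 0) (nat_lit 106399377872) (nat_lit 152) (nat_lit 4769950413) (nat_lit 228) (nat_lit 17276066379) (nat_lit 26) (nat_lit 5) (nat_lit 28) (nat_lit 5)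 (nat_lit 29) (nat_lit 5) (nat_lit 350) (nat_lit 293) (nat_lit 137)))))) (XT.nd (nat_lit 36348) (nat_lit 0) (nat_lit 11704) (XT.nd (nat_lit 234) (nat_lit 0) (nat_lit 0) (XT.nd (nat_lit 78) (nat_lit 152) (nat_lit 0) (XT.lf (nat_lit 0) (nat_lit 10507371759) (nat_lit 152) (nat_lit 88271737287) (nat_lit 76) (nat_lit 34871648011) (nat_lit 24) (nat_lit 5) (nat_lit 26) (nat_lit 5) (nat_lit 25) (nat_lit 5) (nat_lit 351) (nat_lit 293) (nat_lit 136)) (XT.nd (nat_lit 78) (nat_lit 152) (nat_lit 0) (XT.lf (nat_lit 0) (nat_lit 39601482637) (nat_lit 152) (nat_lit 22701542862) (nat_lit 76) (nat_lit 76799867736) (nat_lit 24) (nat_lit 5) (nat_lit 26) (nat_lit 5) (nat_lit 25) (nat_lit 5) (nat_lit 352) (nat_lit 293) (nat_lit 135)) (XT.lf (nat_lit 0) (nat_lit 47062466244) (nat_lit 152) (nat_lit 23538454126) (nat_lit 228) (nat_lit 74213198225) (nat_lit 22) (nat_lit 5) (nat_lit 24) (nat_lit 5) (nat_lit 25) (nat_lit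 5) (nat_lit 353) (nat_lit 293) (nat_lit 134)))) (XT.nd (nat_lit 35958) (nat_lit 0) (nat_lit 11628) (XT.lf (nat_lit 0) (nat_lit 103549602271) (nat_lit 228) (nat_lit 30185137325) (nat_lit 76) (nat_lit 17064188423) (nat_lit 22) (nat_lit 5) (nat_lit 25) (nat_lit 5) (nat_lit 23) (nat_lit 4) (nat_lit 354) (nat_lit 293) (nat_lit 133)) (XT.nd (nat_lit 78) (nat_lit 0) (nat_lit 0) (XT.lf (nat_lit 0) (nat_lit 744615511) (nat_lit 0) (nat_lit 744615511) (nat_lit 1140) (nat_lit 9320359466) (nat_lit 175) (nat_lit 5) (nat_lit 175) (nat_lit 3) (nat_lit 190) (nat_lit 3) (nat_lit 294) (nat_lit 294) (nat_lit 192)) (XT.lf (nat_lit 0) (nat_lit 3412825566) (nat_lit 1140) (nat_lit 4401075942) (nat_lit 1216) (nat_lit 14334625711) (nat_lit 175) (nat_lit 5) (nat_lit 190) (nat_lit 3) (nat_lit 191) (nat_lit 5) (nat_lit 295) (nat_lit 294) (nat_lit 191))))) (XT.nd (nat_lit 234) (nat_lit 0) (nat_lit 152) (XT.nd (nat_lit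 78) (nat_lit 0) (nat_lit 76) (XT.lf (nat_lit 0) (nat_lit 4068715486) (nat_lit 1140) (nat_lit 10448652752) (nat_lit 1216) (nat_lit 8180999809) (nat_lit 176) (nat_lit 5) (nat_lit 191) (nat_lit 5) (nat_lit 192) (nat_lit 5) (nat_lit 296) (nat_lit 294) (nat_lit 190)) (XT.nd (nat_lit 78) (nat_lit 0) (nat_lit 0) (XT.lf (nat_lit 0) (nat_lit 4948026450) (nat_lit 1140) (nat_lit 16694239962) (nat_lit 1216) (nat_lit 1627736206) (nat_lit 177) (nat_lit 5) (nat_lit 192) (nat_lit 5) (nat_lit 193) (nat_lit 5) (nat_lit 297) (nat_lit 294) (nat_lit 189)) (XT.lf (nat_lit 76) (nat_lit 660015452) (nat_lit 0) (nat_lit 5460074062) (nat_lit 1216) (nat_lit 17742685330) (nat_lit 178) (nat_lit 5) (nat_lit 177) (nat_lit 5) (nat_lit 193) (nat_lit 5) (nat_lit 298) (nat_lit 294) (nat_lit 188)))) (XT.nd (nat_lit 156) (nat_lit 0) (nat_lit 76) (XT.nd (nat_lit 78) (nat_lit 0) (nat_lit 76) (XT.lf (nat_lit 0) (nat_lit 7623017542)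 (nat_lit 1140) (nat_lit 5369953178) (nat_lit 1216) (nat_lit 11484065698) (nat_lit 178) (nat_lit 5) (nat_lit 193) (nat_lit 5) (nat_lit 194) (nat_lit 5) (nat_lit 299) (nat_lit 294) (nat_lit 187)) (XT.lf (nat_lit 0) (nat_lit 9415143351) (nat_lit 1140) (nat_lit 11600922122) (nat_lit 1216) (nat_lit 4099541762) (nat_lit 179) (nat_lit 5) (nat_lit 194) (nat_lit 5) (nat_lit 195) (nat_lit 5) (nat_lit 300) (nat_lit 294) (nat_lit 186))) (XT.nd (nat_lit 78) (nat_lit 0) (nat_lit 76) (XT.lf (nat_lit 76) (nat_lit 7681541975) (nat_lit 0) (nat_lit 3865091965) (nat_lit 1216) (nat_lit 14231996763) (nat_lit 180) (nat_lit 5) (nat_lit 179) (nat_lit 5) (nat_lit 195) (nat_lit 5) (nat_lit 301) (nat_lit 294) (nat_lit 185)) (XT.lf (nat_lit 76) (nat_lit 1585003474) (nat_lit 0) (nat_lit 12460920752) (nat_lit 1216) (nat_lit 12421060424) (nat_lit 181) (nat_lit 5) (nat_lit 180) (nat_lit 5) (nat_lit 196) (nat_lit 5) (nat_lit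 302) (nat_lit 294) (nat_lit 184))))))) (XT.nd (nat_lit 1014) (nat_lit 3572) (nat_lit 0) (XT.nd (nat_lit 468) (nat_lit 2964) (nat_lit 0) (XT.nd (nat_lit 234) (nat_lit 1216) (nat_lit 0) (XT.nd (nat_lit 78) (nat_lit 1064) (nat_lit 0) (XT.lf (nat_lit 0) (nat_lit 16939719711) (nat_lit 1140) (nat_lit 4656387190) (nat_lit 1216) (nat_lit 5585578468) (nat_lit 181) (nat_lit 5) (nat_lit 196) (nat_lit 5) (nat_lit 197) (nat_lit 5) (nat_lit 303) (nat_lit 294) (nat_lit 183)) (XT.nd (nat_lit 78) (nat_lit 1064) (nat_lit 0) (XT.lf (nat_lit 76) (nat_lit 16774204185) (nat_lit 0) (nat_lit 3481377109) (nat_lit 1216) (nat_lit 7668233108) (nat_lit 182) (nat_lit 5) (nat_lit 181) (nat_lit 5) (nat_lit 197) (nat_lit 5) (nat_lit 304) (nat_lit 294) (nat_lit 182)) (XT.lf (nat_lit 0) (nat_lit 10723507509) (nat_lit 1140) (nat_lit 13305351488) (nat_lit 1216) (nat_lit 4665456070) (nat_lit 167) (nat_lit 5) (nat_lit 182) (nat_lit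 5) (nat_lit 183) (nat_lit 5) (nat_lit 305) (nat_lit 294) (nat_lit 181)))) (XT.nd (nat_lit 78) (nat_lit 684) (nat_lit 0) (XT.lf (nat_lit 0) (nat_lit 4411439885) (nat_lit 532) (nat_lit 23817719946) (nat_lit 608) (nat_lit 1267043373) (nat_lit 160) (nat_lit 5) (nat_lit 167) (nat_lit 5) (nat_lit 168) (nat_lit 5) (nat_lit 306) (nat_lit 294) (nat_lit 180)) (XT.nd (nat_lit 78) (nat_lit 608) (nat_lit 0) (XT.lf (nat_lit 0) (nat_lit 2568893775) (nat_lit 608) (nat_lit 2210483766) (nat_lit 76) (nat_lit 25548781471) (nat_lit 159) (nat_lit 5) (nat_lit 167) (nat_lit 5) (nat_lit 160) (nat_lit 5) (nat_lit 307) (nat_lit 294) (nat_lit 179)) (XT.lf (nat_lit 0) (nat_lit 6924531384) (nat_lit 684) (nat_lit 9122873488) (nat_lit 76) (nat_lit 15143319787) (nat_lit 151) (nat_lit 5) (nat_lit 160) (nat_lit 5) (nat_lit 152) (nat_lit 5) (nat_lit 308) (nat_lit 294) (nat_lit 178))))) (XT.nd (nat_lit 234) (nat_lit 1444) (nat_lit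 0) (XT.nd (nat_lit 78) (nat_lit 988) (nat_lit 0) (XT.lf (nat_lit 0) (nat_lit 11751735137) (nat_lit 608) (nat_lit 16366833544) (nat_lit 76) (nat_lit 3970247459) (nat_lit 144) (nat_lit 5) (nat_lit 152) (nat_lit 5) (nat_lit 145) (nat_lit 5) (nat_lit 309) (nat_lit 294) (nat_lit 177)) (XT.nd (nat_lit 78) (nat_lit 456) (nat_lit 0) (XT.lf (nat_lit 0) (nat_lit 8975352016) (nat_lit 532) (nat_lit 8180467501) (nat_lit 608) (nat_lit 15865937619) (nat_lit 137) (nat_lit 5) (nat_lit 144) (nat_lit 5) (nat_lit 145) (nat_lit 5) (nat_lit 310) (nat_lit 294) (nat_lit 176)) (XT.lf (nat_lit 0) (nat_lit 1834269394) (nat_lit 456) (nat_lit 21298945406) (nat_lit 532) (nat_lit 10859047233) (nat_lit 131) (nat_lit 5) (nat_lit 137) (nat_lit 5) (nat_lit 138) (nat_lit 5) (nat_lit 311) (nat_lit 294) (nat_lit 175)))) (XT.nd (nat_lit 156) (nat_lit 912) (nat_lit 0) (XT.nd (nat_lit 78) (nat_lit 532) (nat_lit 0) (XT.lf (nat_lit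 0) (nat_lit 29419858624) (nat_lit 456) (nat_lit 311911054) (nat_lit 532) (nat_lit 5269863374) (nat_lit 131) (nat_lit 5) (nat_lit 137) (nat_lit 5) (nat_lit 138) (nat_lit 5) (nat_lit 312) (nat_lit 294) (nat_lit 174)) (XT.lf (nat_lit 0) (nat_lit 1010124905) (nat_lit 532) (nat_lit 13511676788) (nat_lit 76) (nat_lit 21526816217) (nat_lit 124) (nat_lit 5) (nat_lit 131) (nat_lit 5) (nat_lit 125) (nat_lit 5) (nat_lit 313) (nat_lit 294) (nat_lit 173))) (XT.nd (nat_lit 78) (nat_lit 456) (nat_lit 0) (XT.lf (nat_lit 0) (nat_lit 7770311341) (nat_lit 532) (nat_lit 21947271936) (nat_lit 76) (nat_lit 7420556230) (nat_lit 118) (nat_lit 5) (nat_lit 125) (nat_lit 5) (nat_lit 119) (nat_lit 5) (nat_lit 314) (nat_lit 294) (nat_lit 172)) (XT.lf (nat_lit 0) (nat_lit 7320659772) (nat_lit 456) (nat_lit 7898996360) (nat_lit 532) (nat_lit 23051954610) (nat_lit 112) (nat_lit 5) (nat_lit 118) (nat_lit 5) (nat_lit 119)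 (nat_lit 5) (nat_lit 315) (nat_lit 294) (nat_lit 171)))))) (XT.nd (nat_lit 546) (nat_lit 1672) (nat_lit 0) (XT.nd (nat_lit 234) (nat_lit 1064) (nat_lit 0) (XT.nd (nat_lit 78) (nat_lit 836) (nat_lit 0) (XT.lf (nat_lit 0) (nat_lit 23407883756) (nat_lit 532) (nat_lit 1098029833) (nat_lit 76) (nat_lit 14944857128) (nat_lit 112) (nat_lit 5) (nat_lit 119) (nat_lit 5) (nat_lit 113) (nat_lit 5) (nat_lit 316) (nat_lit 294) (nat_lit 170)) (XT.nd (nat_lit 78) (nat_lit 456) (nat_lit 0) (XT.lf (nat_lit 0) (nat_lit 30761267897) (nat_lit 380) (nat_lit 1613925648) (nat_lit 456) (nat_lit 8302612303) (nat_lit 107) (nat_lit 5) (nat_lit 112) (nat_lit 5) (nat_lit 113) (nat_lit 5) (nat_lit 317) (nat_lit 294) (nat_lit 169)) (XT.lf (nat_lit 0) (nat_lit 269985321) (nat_lit 456) (nat_lit 19468721076) (nat_lit 76) (nat_lit 22214286991) (nat_lit 101) (nat_lit 5) (nat_lit 107) (nat_lit 5) (nat_lit 102) (nat_lit 5) (nat_lit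 318) (nat_lit 294) (nat_lit 168)))) (XT.nd (nat_lit 156) (nat_lit 304) (nat_lit 0) (XT.nd (nat_lit 78) (nat_lit 380) (nat_lit 0) (XT.lf (nat_lit 0) (nat_lit 9386326562) (nat_lit 456) (nat_lit 29742121989) (nat_lit 76) (nat_lit 4152427309) (nat_lit 96) (nat_lit 5) (nat_lit 102) (nat_lit 5) (nat_lit 97) (nat_lit 5) (nat_lit 319) (nat_lit 294) (nat_lit 167)) (XT.lf (nat_lit 0) (nat_lit 3800600961) (nat_lit 380) (nat_lit 15590815409) (nat_lit 456) (nat_lit 25270754247) (nat_lit 91) (nat_lit 5) (nat_lit 96) (nat_lit 5) (nat_lit 97) (nat_lit 5) (nat_lit 320) (nat_lit 294) (nat_lit 166))) (XT.nd (nat_lit 78) (nat_lit 304) (nat_lit 0) (XT.lf (nat_lit 0) (nat_lit 30288609340) (nat_lit 456) (nat_lit 6558700895) (nat_lit 76) (nat_lit 9253470235) (nat_lit 91) (nat_lit 5) (nat_lit 97) (nat_lit 5) (nat_lit 92) (nat_lit 5) (nat_lit 321) (nat_lit 294) (nat_lit 165)) (XT.lf (nat_lit 0) (nat_lit 29878700174)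 (nat_lit 304) (nat_lit 12291722492) (nat_lit 380) (nat_lit 5427710867) (nat_lit 87) (nat_lit 5) (nat_lit 91) (nat_lit 5) (nat_lit 92) (nat_lit 5) (nat_lit 322) (nat_lit 294) (nat_lit 164))))) (XT.nd (nat_lit 234) (nat_lit 912) (nat_lit 0) (XT.nd (nat_lit 78) (nat_lit 304) (nat_lit 0) (XT.lf (nat_lit 0) (nat_lit 5752064442) (nat_lit 456) (nat_lit 29867732937) (nat_lit 76) (nat_lit 13537494399) (nat_lit 81) (nat_lit 5) (nat_lit 87) (nat_lit 5) (nat_lit 82) (nat_lit 5) (nat_lit 323) (nat_lit 294) (nat_lit 163)) (XT.nd (nat_lit 78) (nat_lit 0) (nat_lit 0) (XT.lf (nat_lit 0) (nat_lit 7693670752) (nat_lit 304) (nat_lit 10063636353) (nat_lit 380) (nat_lit 33024131560) (nat_lit 77) (nat_lit 5) (nat_lit 81) (nat_lit 5) (nat_lit 82) (nat_lit 5) (nat_lit 324) (nat_lit 294) (nat_lit 162)) (XT.lf (nat_lit 0) (nat_lit 30830125188) (nat_lit 380) (nat_lit 4890628734) (nat_lit 76) (nat_lit 16752024221) (nat_lit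 77) (nat_lit 5) (nat_lit 82) (nat_lit 5) (nat_lit 78) (nat_lit 5) (nat_lit 325) (nat_lit 294) (nat_lit 161)))) (XT.nd (nat_lit 156) (nat_lit 304) (nat_lit 0) (XT.nd (nat_lit 78) (nat_lit 304) (nat_lit 0) (XT.lf (nat_lit 0) (nat_lit 35807719580) (nat_lit 304) (nat_lit 9190454978) (nat_lit 380) (nat_lit 9237266749) (nat_lit 73) (nat_lit 5) (nat_lit 77) (nat_lit 5) (nat_lit 78) (nat_lit 5) (nat_lit 326) (nat_lit 294) (nat_lit 160)) (XT.lf (nat_lit 0) (nat_lit 4164427368) (nat_lit 304) (nat_lit 33295668281) (nat_lit 76) (nat_lit 18611554671) (nat_lit 69) (nat_lit 5) (nat_lit 73) (nat_lit 5) (nat_lit 70) (nat_lit 5) (nat_lit 327) (nat_lit 294) (nat_lit 159))) (XT.nd (nat_lit 78) (nat_lit 0) (nat_lit 0) (XT.lf (nat_lit 0) (nat_lit 8401372564) (nat_lit 304) (nat_lit 10006701325) (nat_lit 380) (nat_lit 39577968792) (nat_lit 65) (nat_lit 5) (nat_lit 69) (nat_lit 5) (nat_lit 70) (nat_lit 5) (nat_lit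 328) (nat_lit 294) (nat_lit 158)) (XT.lf (nat_lit 0) (nat_lit 33887105363) (nat_lit 380) (nat_lit 7296733882) (nat_lit 76) (nat_lit 18796623047) (nat_lit 65) (nat_lit 5) (nat_lit 70) (nat_lit 5) (nat_lit 66) (nat_lit 5) (nat_lit 329) (nat_lit 294) (nat_lit 157))))))))
noncomputable def xc103 : XT := (XT.nd (nat_lit 38064) (nat_lit 0) (nat_lit 4788) (XT.nd (nat_lit 1014) (nat_lit 1064) (nat_lit 0) (XT.nd (nat_lit 468) (nat_lit 836) (nat_lit 0) (XT.nd (nat_lit 234) (nat_lit 456) (nat_lit 0) (XT.nd (nat_lit 78) (nat_lit 532) (nat_lit 0) (XT.lf (nat_lit 0) (nat_lit 37735612137) (nat_lit 228) (nat_lit 12864553469) (nat_lit 304) (nat_lit 11460638496) (nat_lit 62) (nat_lit 5) (nat_lit 65) (nat_lit 5) (nat_lit 66) (nat_lit 5) (nat_lit 330) (nat_lit 294) (nat_lit 156)) (XT.nd (nat_lit 78) (nat_lit 228) (nat_lit 0) (XT.lf (nat_lit 0) (nat_lit 4269888908) (nat_lit 304) (nat_lit 43099758073) (nat_lit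 76) (nat_lit 16861123083) (nat_lit 58) (nat_lit 5) (nat_lit 62) (nat_lit 5) (nat_lit 59) (nat_lit 5) (nat_lit 331) (nat_lit 294) (nat_lit 155)) (XT.lf (nat_lit 0) (nat_lit 2665436232) (nat_lit 228) (nat_lit 18291569241) (nat_lit 304) (nat_lit 45536615223) (nat_lit 55) (nat_lit 5) (nat_lit 58) (nat_lit 5) (nat_lit 59) (nat_lit 5) (nat_lit 332) (nat_lit 294) (nat_lit 154)))) (XT.nd (nat_lit 78) (nat_lit 456) (nat_lit 0) (XT.lf (nat_lit 0) (nat_lit 39040837746) (nat_lit 304) (nat_lit 17363953988) (nat_lit 76) (nat_lit 12447954292) (nat_lit 55) (nat_lit 5) (nat_lit 59) (nat_lit 5) (nat_lit 56) (nat_lit 5) (nat_lit 333) (nat_lit 294) (nat_lit 153)) (XT.nd (nat_lit 78) (nat_lit 228) (nat_lit 0) (XT.lf (nat_lit 0) (nat_lit 31855585276) (nat_lit 228) (nat_lit 26660904166) (nat_lit 304) (nat_lit 12798712169) (nat_lit 52) (nat_lit 5) (nat_lit 55) (nat_lit 5) (nat_lit 56) (nat_lit 5) (nat_lit 334)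 (nat_lit 294) (nat_lit 152)) (XT.lf (nat_lit 0) (nat_lit 5288367887) (nat_lit 228) (nat_lit 63791977654) (nat_lit 76) (nat_lit 4809314469) (nat_lit 49) (nat_lit 5) (nat_lit 52) (nat_lit 5) (nat_lit 50) (nat_lit 5) (nat_lit 335) (nat_lit 294) (nat_lit 151))))) (XT.nd (nat_lit 234) (nat_lit 456) (nat_lit 0) (XT.nd (nat_lit 78) (nat_lit 380) (nat_lit 0) (XT.lf (nat_lit 0) (nat_lit 24693837490) (nat_lit 228) (nat_lit 14030279169) (nat_lit 76) (nat_lit 37844563579) (nat_lit 49) (nat_lit 5) (nat_lit 52) (nat_lit 5) (nat_lit 50) (nat_lit 5) (nat_lit 336) (nat_lit 294) (nat_lit 150)) (XT.nd (nat_lit 78) (nat_lit 152) (nat_lit 0) (XT.lf (nat_lit 0) (nat_lit 38975521293) (nat_lit 228) (nat_lit 6465814180) (nat_lit 304) (nat_lit 33929165725) (nat_lit 46) (nat_lit 5) (nat_lit 49) (nat_lit 5) (nat_lit 50) (nat_lit 5) (nat_lit 337) (nat_lit 294) (nat_lit 149)) (XT.lf (nat_lit 0) (nat_lit 12593115789)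 (nat_lit 152) (nat_lit 55160620931) (nat_lit 228) (nat_lit 14542852891) (nat_lit 44) (nat_lit 5) (nat_lit 46) (nat_lit 5) (nat_lit 47) (nat_lit 5) (nat_lit 338) (nat_lit 294) (nat_lit 148)))) (XT.nd (nat_lit 156) (nat_lit 152) (nat_lit 0) (XT.nd (nat_lit 78) (nat_lit 228) (nat_lit 0) (XT.lf (nat_lit 0) (nat_lit 6181798449) (nat_lit 228) (nat_lit 16411414531) (nat_lit 76) (nat_lit 62759621738) (nat_lit 43) (nat_lit 5) (nat_lit 46) (nat_lit 5) (nat_lit 44) (nat_lit 5) (nat_lit 339) (nat_lit 294) (nat_lit 147)) (XT.lf (nat_lit 0) (nat_lit 28145094717) (nat_lit 304) (nat_lit 48484485194) (nat_lit 76) (nat_lit 11912899070) (nat_lit 40) (nat_lit 5) (nat_lit 44) (nat_lit 5) (nat_lit 41) (nat_lit 5) (nat_lit 340) (nat_lit 294) (nat_lit 146))) (XT.nd (nat_lit 78) (nat_lit 0) (nat_lit 0) (XT.lf (nat_lit 0) (nat_lit 7724161614) (nat_lit 152) (nat_lit 43952740716) (nat_lit 228) (nat_lit 40200594622)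 (nat_lit 38) (nat_lit 5) (nat_lit 40) (nat_lit 5) (nat_lit 41) (nat_lit 5) (nat_lit 341) (nat_lit 294) (nat_lit 145)) (XT.lf (nat_lit 0) (nat_lit 67752403806) (nat_lit 152) (nat_lit 9129529227) (nat_lit 228) (nat_lit 18482435608) (nat_lit 38) (nat_lit 5) (nat_lit 40) (nat_lit 5) (nat_lit 41) (nat_lit 5) (nat_lit 342) (nat_lit 294) (nat_lit 144)))))) (XT.nd (nat_lit 468) (nat_lit 304) (nat_lit 0) (XT.nd (nat_lit 234) (nat_lit 380) (nat_lit 0) (XT.nd (nat_lit 78) (nat_lit 152) (nat_lit 0) (XT.lf (nat_lit 0) (nat_lit 4813009447) (nat_lit 228) (nat_lit 66940112966) (nat_lit 76) (nat_lit 27253945642) (nat_lit 35) (nat_lit 5) (nat_lit 38) (nat_lit 5) (nat_lit 36) (nat_lit 5) (nat_lit 343) (nat_lit 294) (nat_lit 143)) (XT.nd (nat_lit 78) (nat_lit 152) (nat_lit 0) (XT.lf (nat_lit 0) (nat_lit 29271420033) (nat_lit 228) (nat_lit 7801876987) (nat_lit 76) (nat_lit 65741704020) (nat_lit 35) (nat_lit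 5) (nat_lit 38) (nat_lit 5) (nat_lit 36) (nat_lit 5) (nat_lit 344) (nat_lit 294) (nat_lit 142)) (XT.lf (nat_lit 0) (nat_lit 55370099807) (nat_lit 152) (nat_lit 112696404) (nat_lit 228) (nat_lit 51314634622) (nat_lit 33) (nat_lit 5) (nat_lit 35) (nat_lit 5) (nat_lit 36) (nat_lit 5) (nat_lit 345) (nat_lit 294) (nat_lit 141)))) (XT.nd (nat_lit 78) (nat_lit 228) (nat_lit 0) (XT.lf (nat_lit 0) (nat_lit 10719971372) (nat_lit 152) (nat_lit 72838745742) (nat_lit 228) (nat_lit 27403647163) (nat_lit 31) (nat_lit 5) (nat_lit 33) (nat_lit 5) (nat_lit 34) (nat_lit 5) (nat_lit 346) (nat_lit 294) (nat_lit 140)) (XT.nd (nat_lit 78) (nat_lit 228) (nat_lit 0) (XT.lf (nat_lit 0) (nat_lit 77044672898) (nat_lit 152) (nat_lit 36522206667) (nat_lit 228) (nat_lit 1752812832) (nat_lit 31) (nat_lit 5) (nat_lit 33) (nat_lit 5) (nat_lit 34) (nat_lit 5) (nat_lit 347) (nat_lit 294) (nat_lit 139)) (XT.lf (nat_lit 0) (nat_lit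 24967884237) (nat_lit 228) (nat_lit 92826702926) (nat_lit 76) (nat_lit 2084678964) (nat_lit 28) (nat_lit 5) (nat_lit 31) (nat_lit 5) (nat_lit 29) (nat_lit 5) (nat_lit 348) (nat_lit 294) (nat_lit 138))))) (XT.nd (nat_lit 234) (nat_lit 152) (nat_lit 0) (XT.nd (nat_lit 78) (nat_lit 152) (nat_lit 0) (XT.lf (nat_lit 0) (nat_lit 53753287900) (nat_lit 228) (nat_lit 28602169254) (nat_lit 76) (nat_lit 42287894279) (nat_lit 28) (nat_lit 5) (nat_lit 31) (nat_lit 5) (nat_lit 29) (nat_lit 5) (nat_lit 349) (nat_lit 294) (nat_lit 137)) (XT.nd (nat_lit 78) (nat_lit 0) (nat_lit 0) (XT.lf (nat_lit 0) (nat_lit 39603239423) (nat_lit 152) (nat_lit 44753555283) (nat_lit 228) (nat_lit 45277482459) (nat_lit 26) (nat_lit 5) (nat_lit 28) (nat_lit 5) (nat_lit 29) (nat_lit 5) (nat_lit 350) (nat_lit 294) (nat_lit 136)) (XT.lf (nat_lit 0) (nat_lit 111813556621) (nat_lit 152) (nat_lit 4969555736) (nat_lit 228) (nat_lit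 18082858856) (nat_lit 26) (nat_lit 5) (nat_lit 28) (nat_lit 5) (nat_lit 29) (nat_lit 5) (nat_lit 351) (nat_lit 294) (nat_lit 135)))) (XT.nd (nat_lit 36192) (nat_lit 0) (nat_lit 11476) (XT.nd (nat_lit 78) (nat_lit 0) (nat_lit 0) (XT.lf (nat_lit 0) (nat_lit 11087237247) (nat_lit 152) (nat_lit 92591417579) (nat_lit 76) (nat_lit 36652974059) (nat_lit 24) (nat_lit 5) (nat_lit 26) (nat_lit 5) (nat_lit 25) (nat_lit 5) (nat_lit 352) (nat_lit 294) (nat_lit 134)) (XT.lf (nat_lit 0) (nat_lit 41633458579) (nat_lit 152) (nat_lit 23747185175) (nat_lit 76) (nat_lit 80675807452) (nat_lit 24) (nat_lit 5) (nat_lit 26) (nat_lit 5) (nat_lit 25) (nat_lit 5) (nat_lit 353) (nat_lit 294) (nat_lit 133))) (XT.nd (nat_lit 78) (nat_lit 0) (nat_lit 0) (XT.lf (nat_lit 0) (nat_lit 889817036) (nat_lit 0) (nat_lit 889817036) (nat_lit 1140) (nat_lit 9563626721) (nat_lit 175) (nat_lit 5) (nat_lit 175) (nat_lit 3) (nat_lit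 190) (nat_lit 3) (nat_lit 295) (nat_lit 295) (nat_lit 190)) (XT.lf (nat_lit 0) (nat_lit 3992807067) (nat_lit 1140) (nat_lit 4400524311) (nat_lit 1216) (nat_lit 14849711567) (nat_lit 175) (nat_lit 5) (nat_lit 190) (nat_lit 3) (nat_lit 191) (nat_lit 5) (nat_lit 296) (nat_lit 295) (nat_lit 189))))))) (XT.nd (nat_lit 1014) (nat_lit 4864) (nat_lit 0) (XT.nd (nat_lit 468) (nat_lit 1900) (nat_lit 0) (XT.nd (nat_lit 234) (nat_lit 0) (nat_lit 152) (XT.nd (nat_lit 78) (nat_lit 0) (nat_lit 76) (XT.lf (nat_lit 0) (nat_lit 4662351452) (nat_lit 1140) (nat_lit 10742738486) (nat_lit 1216) (nat_lit 8415890098) (nat_lit 176) (nat_lit 5) (nat_lit 191) (nat_lit 5) (nat_lit 192) (nat_lit 5) (nat_lit 297) (nat_lit 295) (nat_lit 188)) (XT.nd (nat_lit 78) (nat_lit 0) (nat_lit 0) (XT.lf (nat_lit 0) (nat_lit 5567718457) (nat_lit 1140) (nat_lit 17293905582) (nat_lit 1216) (nat_lit 1560138172) (nat_lit 177) (nat_lit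 5) (nat_lit 192) (nat_lit 5) (nat_lit 193) (nat_lit 5) (nat_lit 298) (nat_lit 295) (nat_lit 187)) (XT.lf (nat_lit 76) (nat_lit 921325045) (nat_lit 0) (nat_lit 5861526144) (nat_lit 1216) (nat_lit 18261815092) (nat_lit 178) (nat_lit 5) (nat_lit 177) (nat_lit 5) (nat_lit 193) (nat_lit 5) (nat_lit 299) (nat_lit 295) (nat_lit 186)))) (XT.nd (nat_lit 78) (nat_lit 0) (nat_lit 76) (XT.lf (nat_lit 0) (nat_lit 8342761254) (nat_lit 1140) (nat_lit 5409126218) (nat_lit 1216) (nat_lit 11938324327) (nat_lit 178) (nat_lit 5) (nat_lit 193) (nat_lit 5) (nat_lit 194) (nat_lit 5) (nat_lit 300) (nat_lit 295) (nat_lit 185)) (XT.nd (nat_lit 78) (nat_lit 0) (nat_lit 0) (XT.lf (nat_lit 0) (nat_lit 10209531969) (nat_lit 1140) (nat_lit 11947005743) (nat_lit 1216) (nat_lit 4204646985) (nat_lit 179) (nat_lit 5) (nat_lit 194) (nat_lit 5) (nat_lit 195) (nat_lit 5) (nat_lit 301) (nat_lit 295) (nat_lit 184)) (XT.lf (nat_lit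 76) (nat_lit 8292875072) (nat_lit 0) (nat_lit 4141495518) (nat_lit 1216) (nat_lit 14623409065) (nat_lit 180) (nat_lit 5) (nat_lit 179) (nat_lit 5) (nat_lit 195) (nat_lit 5) (nat_lit 302) (nat_lit 295) (nat_lit 183))))) (XT.nd (nat_lit 234) (nat_lit 2204) (nat_lit 0) (XT.nd (nat_lit 78) (nat_lit 0) (nat_lit 76) (XT.lf (nat_lit 76) (nat_lit 1895273934) (nat_lit 0) (nat_lit 13150029758) (nat_lit 1216) (nat_lit 12735669659) (nat_lit 181) (nat_lit 5) (nat_lit 180) (nat_lit 5) (nat_lit 196) (nat_lit 5) (nat_lit 303) (nat_lit 295) (nat_lit 182)) (XT.nd (nat_lit 78) (nat_lit 0) (nat_lit 0) (XT.lf (nat_lit 0) (nat_lit 18069037332) (nat_lit 1140) (nat_lit 4659667639) (nat_lit 1216) (nat_lit 5803168018) (nat_lit 181) (nat_lit 5) (nat_lit 196) (nat_lit 5) (nat_lit 197) (nat_lit 5) (nat_lit 304) (nat_lit 295) (nat_lit 181)) (XT.lf (nat_lit 76) (nat_lit 17835873617) (nat_lit 0) (nat_lit 3703517233) (nat_lit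 1216) (nat_lit 7772076976) (nat_lit 182) (nat_lit 5) (nat_lit 181) (nat_lit 5) (nat_lit 197) (nat_lit 5) (nat_lit 305) (nat_lit 295) (nat_lit 180)))) (XT.nd (nat_lit 156) (nat_lit 684) (nat_lit 0) (XT.nd (nat_lit 78) (nat_lit 532) (nat_lit 0) (XT.lf (nat_lit 0) (nat_lit 11484992447) (nat_lit 1140) (nat_lit 14005159506) (nat_lit 1216) (nat_lit 4630696340) (nat_lit 167) (nat_lit 5) (nat_lit 182) (nat_lit 5) (nat_lit 183) (nat_lit 5) (nat_lit 306) (nat_lit 295) (nat_lit 179)) (XT.lf (nat_lit 0) (nat_lit 4859133472) (nat_lit 532) (nat_lit 25030827564) (nat_lit 608) (nat_lit 1073203433) (nat_lit 160) (nat_lit 5) (nat_lit 167) (nat_lit 5) (nat_lit 168) (nat_lit 5) (nat_lit 307) (nat_lit 295) (nat_lit 178))) (XT.nd (nat_lit 78) (nat_lit 608) (nat_lit 0) (XT.lf (nat_lit 0) (nat_lit 2937503573) (nat_lit 608) (nat_lit 2099581097) (nat_lit 76) (nat_lit 26799936518) (nat_lit 159) (nat_lit 5) (nat_lit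 167) (nat_lit 5) (nat_lit 160) (nat_lit 5) (nat_lit 308) (nat_lit 295) (nat_lit 177)) (XT.lf (nat_lit 0) (nat_lit 7501403030) (nat_lit 684) (nat_lit 9356537908) (nat_lit 76) (nat_lit 15885076009) (nat_lit 151) (nat_lit 5) (nat_lit 160) (nat_lit 5) (nat_lit 152) (nat_lit 5) (nat_lit 309) (nat_lit 295) (nat_lit 176)))))) (XT.nd (nat_lit 546) (nat_lit 1900) (nat_lit 0) (XT.nd (nat_lit 234) (nat_lit 1444) (nat_lit 0) (XT.nd (nat_lit 78) (nat_lit 988) (nat_lit 0) (XT.lf (nat_lit 0) (nat_lit 12561006986) (nat_lit 608) (nat_lit 16962057787) (nat_lit 76) (nat_lit 4163232486) (nat_lit 144) (nat_lit 5) (nat_lit 152) (nat_lit 5) (nat_lit 145) (nat_lit 5) (nat_lit 310) (nat_lit 295) (nat_lit 175)) (XT.nd (nat_lit 78) (nat_lit 456) (nat_lit 0) (XT.lf (nat_lit 0) (nat_lit 9640841435) (nat_lit 532) (nat_lit 8585980981) (nat_lit 608) (nat_lit 16439331805) (nat_lit 137) (nat_lit 5) (nat_lit 144) (nat_lit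 5) (nat_lit 145) (nat_lit 5) (nat_lit 311) (nat_lit 295) (nat_lit 174)) (XT.lf (nat_lit 0) (nat_lit 2142958605) (nat_lit 456) (nat_lit 22352093745) (nat_lit 532) (nat_lit 11190387085) (nat_lit 131) (nat_lit 5) (nat_lit 137) (nat_lit 5) (nat_lit 138) (nat_lit 5) (nat_lit 312) (nat_lit 295) (nat_lit 173)))) (XT.nd (nat_lit 156) (nat_lit 912) (nat_lit 0) (XT.nd (nat_lit 78) (nat_lit 532) (nat_lit 0) (XT.lf (nat_lit 0) (nat_lit 31097495118) (nat_lit 456) (nat_lit 316269529) (nat_lit 532) (nat_lit 5331820820) (nat_lit 131) (nat_lit 5) (nat_lit 137) (nat_lit 5) (nat_lit 138) (nat_lit 5) (nat_lit 313) (nat_lit 295) (nat_lit 172)) (XT.lf (nat_lit 0) (nat_lit 1250933735) (nat_lit 532) (nat_lit 13976657525) (nat_lit 76) (nat_lit 22617501550) (nat_lit 124) (nat_lit 5) (nat_lit 131) (nat_lit 5) (nat_lit 125) (nat_lit 5) (nat_lit 314) (nat_lit 295) (nat_lit 171))) (XT.nd (nat_lit 78) (nat_lit 456) (nat_lit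 0) (XT.lf (nat_lit 0) (nat_lit 8342239199) (nat_lit 532) (nat_lit 22834543274) (nat_lit 76) (nat_lit 7812526480) (nat_lit 118) (nat_lit 5) (nat_lit 125) (nat_lit 5) (nat_lit 119) (nat_lit 5) (nat_lit 315) (nat_lit 295) (nat_lit 170)) (XT.lf (nat_lit 0) (nat_lit 7890762768) (nat_lit 456) (nat_lit 8266516189) (nat_lit 532) (nat_lit 24022389159) (nat_lit 112) (nat_lit 5) (nat_lit 118) (nat_lit 5) (nat_lit 119) (nat_lit 5) (nat_lit 316) (nat_lit 295) (nat_lit 169))))) (XT.nd (nat_lit 234) (nat_lit 1064) (nat_lit 0) (XT.nd (nat_lit 78) (nat_lit 836) (nat_lit 0) (XT.lf (nat_lit 0) (nat_lit 24746757650) (nat_lit 532) (nat_lit 953569900) (nat_lit 76) (nat_lit 15717714014) (nat_lit 112) (nat_lit 5) (nat_lit 119) (nat_lit 5) (nat_lit 113) (nat_lit 5) (nat_lit 317) (nat_lit 295) (nat_lit 168)) (XT.nd (nat_lit 78) (nat_lit 456) (nat_lit 0) (XT.lf (nat_lit 0) (nat_lit 32492978061) (nat_lit 380) (nat_lit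 1663293475) (nat_lit 456) (nat_lit 8550351914) (nat_lit 107) (nat_lit 5) (nat_lit 112) (nat_lit 5) (nat_lit 113) (nat_lit 5) (nat_lit 318) (nat_lit 295) (nat_lit 167)) (XT.lf (nat_lit 0) (nat_lit 441954368) (nat_lit 456) (nat_lit 20246084748) (nat_lit 76) (nat_lit 23357662015) (nat_lit 101) (nat_lit 5) (nat_lit 107) (nat_lit 5) (nat_lit 102) (nat_lit 5) (nat_lit 319) (nat_lit 295) (nat_lit 166)))) (XT.nd (nat_lit 156) (nat_lit 304) (nat_lit 0) (XT.nd (nat_lit 78) (nat_lit 380) (nat_lit 0) (XT.lf (nat_lit 0) (nat_lit 10008759606) (nat_lit 456) (nat_lit 31034376937) (nat_lit 76) (nat_lit 4397010721) (nat_lit 96) (nat_lit 5) (nat_lit 102) (nat_lit 5) (nat_lit 97) (nat_lit 5) (nat_lit 320) (nat_lit 295) (nat_lit 165)) (XT.lf (nat_lit 0) (nat_lit 4179896792) (nat_lit 380) (nat_lit 16328735179) (nat_lit 456) (nat_lit 26382047465) (nat_lit 91) (nat_lit 5) (nat_lit 96) (nat_lit 5) (nat_lit 97) (nat_lit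 5) (nat_lit 321) (nat_lit 295) (nat_lit 164))) (XT.nd (nat_lit 78) (nat_lit 304) (nat_lit 0) (XT.lf (nat_lit 0) (nat_lit 31944034919) (nat_lit 456) (nat_lit 6702383170) (nat_lit 76) (nat_lit 9755009294) (nat_lit 91) (nat_lit 5) (nat_lit 97) (nat_lit 5) (nat_lit 92) (nat_lit 5) (nat_lit 322) (nat_lit 295) (nat_lit 163)) (XT.lf (nat_lit 0) (nat_lit 31551606384) (nat_lit 304) (nat_lit 12863338855) (nat_lit 380) (nat_lit 5558860396) (nat_lit 87) (nat_lit 5) (nat_lit 91) (nat_lit 5) (nat_lit 92) (nat_lit 5) (nat_lit 323) (nat_lit 295) (nat_lit 162))))))))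
noncomputable def xc104 : XT := (XT.nd (nat_lit 2028) (nat_lit 304) (nat_lit 0) (XT.nd (nat_lit 1014) (nat_lit 1596) (nat_lit 0) (XT.nd (nat_lit 468) (nat_lit 1216) (nat_lit 0) (XT.nd (nat_lit 234) (nat_lit 912) (nat_lit 0) (XT.nd (nat_lit 78) (nat_lit 304) (nat_lit 0) (XT.lf (nat_lit 0) (nat_lit 6172740497) (nat_lit 456) (nat_lit 31180775281) (nat_lit 76) (nat_lit 14257505519) (nat_lit 81) (nat_lit 5) (nat_lit 87) (nat_lit 5) (nat_lit 82) (nat_lit 5) (nat_lit 324) (nat_lit 295) (nat_lit 161)) (XT.nd (nat_lit 78) (nat_lit 0) (nat_lit 0) (XT.lf (nat_lit 0) (nat_lit 8253529058) (nat_lit 304) (nat_lit 10520063319) (nat_lit 380) (nat_lit 34542929542) (nat_lit 77) (nat_lit 5) (nat_lit 81) (nat_lit 5) (nat_lit 82) (nat_lit 5) (nat_lit 325) (nat_lit 295) (nat_lit 160)) (XT.lf (nat_lit 0) (nat_lit 32494364165) (nat_lit 380) (nat_lit 4964956350) (nat_lit 76) (nat_lit 17633284951) (nat_lit 77) (nat_lit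 5) (nat_lit 82) (nat_lit 5) (nat_lit 78) (nat_lit 5) (nat_lit 326) (nat_lit 295) (nat_lit 159)))) (XT.nd (nat_lit 78) (nat_lit 608) (nat_lit 0) (XT.lf (nat_lit 0) (nat_lit 37763430521) (nat_lit 304) (nat_lit 9603130272) (nat_lit 380) (nat_lit 9576974824) (nat_lit 73) (nat_lit 5) (nat_lit 77) (nat_lit 5) (nat_lit 78) (nat_lit 5) (nat_lit 327) (nat_lit 295) (nat_lit 158)) (XT.nd (nat_lit 78) (nat_lit 304) (nat_lit 0) (XT.lf (nat_lit 0) (nat_lit 4488739397) (nat_lit 304) (nat_lit 34794306265) (nat_lit 76) (nat_lit 19588590326) (nat_lit 69) (nat_lit 5) (nat_lit 73) (nat_lit 5) (nat_lit 70) (nat_lit 5) (nat_lit 328) (nat_lit 295) (nat_lit 157)) (XT.lf (nat_lit 0) (nat_lit 8982824096) (nat_lit 304) (nat_lit 10457767333) (nat_lit 380) (nat_lit 41441281277) (nat_lit 65) (nat_lit 5) (nat_lit 69) (nat_lit 5) (nat_lit 70) (nat_lit 5) (nat_lit 329) (nat_lit 295) (nat_lit 156))))) (XT.nd (nat_lit 234)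 (nat_lit 684) (nat_lit 0) (XT.nd (nat_lit 78) (nat_lit 532) (nat_lit 0) (XT.lf (nat_lit 0) (nat_lit 35688686774) (nat_lit 380) (nat_lit 7505016853) (nat_lit 76) (nat_lit 19782461477) (nat_lit 65) (nat_lit 5) (nat_lit 70) (nat_lit 5) (nat_lit 66) (nat_lit 5) (nat_lit 330) (nat_lit 295) (nat_lit 155)) (XT.nd (nat_lit 78) (nat_lit 304) (nat_lit 0) (XT.lf (nat_lit 0) (nat_lit 39774458885) (nat_lit 228) (nat_lit 13459296890) (nat_lit 304) (nat_lit 11926882487) (nat_lit 62) (nat_lit 5) (nat_lit 65) (nat_lit 5) (nat_lit 66) (nat_lit 5) (nat_lit 331) (nat_lit 295) (nat_lit 154)) (XT.lf (nat_lit 0) (nat_lit 4585009568) (nat_lit 304) (nat_lit 45102263617) (nat_lit 76) (nat_lit 17751895437) (nat_lit 58) (nat_lit 5) (nat_lit 62) (nat_lit 5) (nat_lit 59) (nat_lit 5) (nat_lit 332) (nat_lit 295) (nat_lit 153)))) (XT.nd (nat_lit 156) (nat_lit 456) (nat_lit 0) (XT.nd (nat_lit 78) (nat_lit 0) (nat_lit 0)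 (XT.lf (nat_lit 0) (nat_lit 2946819526) (nat_lit 228) (nat_lit 19156246829) (nat_lit 304) (nat_lit 47712202239) (nat_lit 55) (nat_lit 5) (nat_lit 58) (nat_lit 5) (nat_lit 59) (nat_lit 5) (nat_lit 333) (nat_lit 295) (nat_lit 152)) (XT.lf (nat_lit 0) (nat_lit 41086870383) (nat_lit 304) (nat_lit 18088661267) (nat_lit 76) (nat_lit 13116949272) (nat_lit 55) (nat_lit 5) (nat_lit 59) (nat_lit 5) (nat_lit 56) (nat_lit 5) (nat_lit 334) (nat_lit 295) (nat_lit 151))) (XT.nd (nat_lit 78) (nat_lit 228) (nat_lit 0) (XT.lf (nat_lit 0) (nat_lit 33587741836) (nat_lit 228) (nat_lit 27945426858) (nat_lit 304) (nat_lit 13344988609) (nat_lit 52) (nat_lit 5) (nat_lit 55) (nat_lit 5) (nat_lit 56) (nat_lit 5) (nat_lit 335) (nat_lit 295) (nat_lit 150)) (XT.lf (nat_lit 0) (nat_lit 5642029813) (nat_lit 228) (nat_lit 66842074585) (nat_lit 76) (nat_lit 5097288494) (nat_lit 49) (nat_lit 5) (nat_lit 52) (nat_lit 5) (nat_lit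 50) (nat_lit 5) (nat_lit 336) (nat_lit 295) (nat_lit 149)))))) (XT.nd (nat_lit 468) (nat_lit 760) (nat_lit 0) (XT.nd (nat_lit 234) (nat_lit 456) (nat_lit 0) (XT.nd (nat_lit 78) (nat_lit 380) (nat_lit 0) (XT.lf (nat_lit 0) (nat_lit 26013523204) (nat_lit 228) (nat_lit 14598934126) (nat_lit 76) (nat_lit 39782037759) (nat_lit 49) (nat_lit 5) (nat_lit 52) (nat_lit 5) (nat_lit 50) (nat_lit 5) (nat_lit 337) (nat_lit 295) (nat_lit 148)) (XT.nd (nat_lit 78) (nat_lit 152) (nat_lit 0) (XT.lf (nat_lit 0) (nat_lit 41053347983) (nat_lit 228) (nat_lit 6742241291) (nat_lit 304) (nat_lit 35540905330) (nat_lit 46) (nat_lit 5) (nat_lit 49) (nat_lit 5) (nat_lit 50) (nat_lit 5) (nat_lit 338) (nat_lit 295) (nat_lit 147)) (XT.lf (nat_lit 0) (nat_lit 13350144509) (nat_lit 152) (nat_lit 57871205824) (nat_lit 228) (nat_lit 15187608058) (nat_lit 44) (nat_lit 5) (nat_lit 46) (nat_lit 5) (nat_lit 47) (nat_lit 5) (nat_lit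 339) (nat_lit 295) (nat_lit 146)))) (XT.nd (nat_lit 78) (nat_lit 380) (nat_lit 0) (XT.lf (nat_lit 0) (nat_lit 6567821516) (nat_lit 228) (nat_lit 17109088426) (nat_lit 76) (nat_lit 65941200360) (nat_lit 43) (nat_lit 5) (nat_lit 46) (nat_lit 5) (nat_lit 44) (nat_lit 5) (nat_lit 340) (nat_lit 295) (nat_lit 145)) (XT.nd (nat_lit 78) (nat_lit 152) (nat_lit 0) (XT.lf (nat_lit 0) (nat_lit 29627198762) (nat_lit 304) (nat_lit 50787479686) (nat_lit 76) (nat_lit 12552623614) (nat_lit 40) (nat_lit 5) (nat_lit 44) (nat_lit 5) (nat_lit 41) (nat_lit 5) (nat_lit 341) (nat_lit 295) (nat_lit 144)) (XT.lf (nat_lit 0) (nat_lit 8228124436) (nat_lit 152) (nat_lit 46105039998) (nat_lit 228) (nat_lit 42135982105) (nat_lit 38) (nat_lit 5) (nat_lit 40) (nat_lit 5) (nat_lit 41) (nat_lit 5) (nat_lit 342) (nat_lit 295) (nat_lit 143))))) (XT.nd (nat_lit 234) (nat_lit 532) (nat_lit 0) (XT.nd (nat_lit 78) (nat_lit 228)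 (nat_lit 0) (XT.lf (nat_lit 0) (nat_lit 71252171369) (nat_lit 152) (nat_lit 9542826876) (nat_lit 228) (nat_lit 19335469533) (nat_lit 38) (nat_lit 5) (nat_lit 40) (nat_lit 5) (nat_lit 41) (nat_lit 5) (nat_lit 343) (nat_lit 295) (nat_lit 142)) (XT.nd (nat_lit 78) (nat_lit 0) (nat_lit 0) (XT.lf (nat_lit 0) (nat_lit 5121514290) (nat_lit 228) (nat_lit 70175133652) (nat_lit 76) (nat_lit 28658691430) (nat_lit 35) (nat_lit 5) (nat_lit 38) (nat_lit 5) (nat_lit 36) (nat_lit 5) (nat_lit 344) (nat_lit 295) (nat_lit 141)) (XT.lf (nat_lit 0) (nat_lit 30799614245) (nat_lit 228) (nat_lit 8085318491) (nat_lit 76) (nat_lit 69068835418) (nat_lit 35) (nat_lit 5) (nat_lit 38) (nat_lit 5) (nat_lit 36) (nat_lit 5) (nat_lit 345) (nat_lit 295) (nat_lit 140)))) (XT.nd (nat_lit 156) (nat_lit 228) (nat_lit 0) (XT.nd (nat_lit 78) (nat_lit 152) (nat_lit 0) (XT.lf (nat_lit 0) (nat_lit 58242199974) (nat_lit 152) (nat_lit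 77277782) (nat_lit 228) (nat_lit 53815906232) (nat_lit 33) (nat_lit 5) (nat_lit 35) (nat_lit 5) (nat_lit 36) (nat_lit 5) (nat_lit 346) (nat_lit 295) (nat_lit 139)) (XT.lf (nat_lit 0) (nat_lit 11358075660) (nat_lit 152) (nat_lit 76439498208) (nat_lit 228) (nat_lit 28711040867) (nat_lit 31) (nat_lit 5) (nat_lit 33) (nat_lit 5) (nat_lit 34) (nat_lit 5) (nat_lit 347) (nat_lit 295) (nat_lit 138))) (XT.nd (nat_lit 78) (nat_lit 228) (nat_lit 0) (XT.lf (nat_lit 0) (nat_lit 80994150085) (nat_lit 152) (nat_lit 38309093362) (nat_lit 228) (nat_lit 1780654756) (nat_lit 31) (nat_lit 5) (nat_lit 33) (nat_lit 5) (nat_lit 34) (nat_lit 5) (nat_lit 348) (nat_lit 295) (nat_lit 137)) (XT.lf (nat_lit 0) (nat_lit 26273411106) (nat_lit 228) (nat_lit 97371048016) (nat_lit 76) (nat_lit 2227020994) (nat_lit 28) (nat_lit 5) (nat_lit 31) (nat_lit 5) (nat_lit 29) (nat_lit 5) (nat_lit 349) (nat_lit 295) (nat_lit 136)))))))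 (XT.nd (nat_lit 37128) (nat_lit 0) (nat_lit 6688) (XT.nd (nat_lit 36582) (nat_lit 0) (nat_lit 11552) (XT.nd (nat_lit 234) (nat_lit 152) (nat_lit 0) (XT.nd (nat_lit 78) (nat_lit 152) (nat_lit 0) (XT.lf (nat_lit 0) (nat_lit 56495364350) (nat_lit 228) (nat_lit 29939906235) (nat_lit 76) (nat_lit 44438582404) (nat_lit 28) (nat_lit 5) (nat_lit 31) (nat_lit 5) (nat_lit 29) (nat_lit 5) (nat_lit 350) (nat_lit 295) (nat_lit 135)) (XT.nd (nat_lit 78) (nat_lit 0) (nat_lit 0) (XT.lf (nat_lit 0) (nat_lit 41673125066) (nat_lit 152) (nat_lit 46954192859) (nat_lit 228) (nat_lit 47487060543) (nat_lit 26) (nat_lit 5) (nat_lit 28) (nat_lit 5) (nat_lit 29) (nat_lit 5) (nat_lit 351) (nat_lit 295) (nat_lit 134)) (XT.lf (nat_lit 0) (nat_lit 117489685568) (nat_lit 152) (nat_lit 5182757153) (nat_lit 228) (nat_lit 18935291285) (nat_lit 26) (nat_lit 5) (nat_lit 28) (nat_lit 5) (nat_lit 29) (nat_lit 5) (nat_lit 352)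 (nat_lit 295) (nat_lit 133)))) (XT.nd (nat_lit 36192) (nat_lit 0) (nat_lit 11476) (XT.lf (nat_lit 0) (nat_lit 11691029404) (nat_lit 152) (nat_lit 97135812429) (nat_lit 76) (nat_lit 38519857362) (nat_lit 24) (nat_lit 5) (nat_lit 26) (nat_lit 5) (nat_lit 25) (nat_lit 5) (nat_lit 353) (nat_lit 295) (nat_lit 132)) (XT.nd (nat_lit 78) (nat_lit 0) (nat_lit 0) (XT.lf (nat_lit 0) (nat_lit 1032240539) (nat_lit 0) (nat_lit 1032240539) (nat_lit 1140) (nat_lit 9839766590) (nat_lit 175) (nat_lit 5) (nat_lit 175) (nat_lit 3) (nat_lit 190) (nat_lit 3) (nat_lit 296) (nat_lit 296) (nat_lit 188)) (XT.lf (nat_lit 0) (nat_lit 4563731069) (nat_lit 1140) (nat_lit 4420454900) (nat_lit 1216) (nat_lit 15409298796) (nat_lit 175) (nat_lit 5) (nat_lit 190) (nat_lit 3) (nat_lit 191) (nat_lit 5) (nat_lit 297) (nat_lit 296) (nat_lit 187))))) (XT.nd (nat_lit 234) (nat_lit 0) (nat_lit 152) (XT.nd (nat_lit 78) (nat_lit 0)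 (nat_lit 76) (XT.lf (nat_lit 0) (nat_lit 5249392100) (nat_lit 1140) (nat_lit 11072758037) (nat_lit 1216) (nat_lit 8678716620) (nat_lit 176) (nat_lit 5) (nat_lit 191) (nat_lit 5) (nat_lit 192) (nat_lit 5) (nat_lit 298) (nat_lit 296) (nat_lit 186)) (XT.nd (nat_lit 78) (nat_lit 0) (nat_lit 0) (XT.lf (nat_lit 0) (nat_lit 6183783006) (nat_lit 1140) (nat_lit 17945406867) (nat_lit 1216) (nat_lit 1503011436) (nat_lit 177) (nat_lit 5) (nat_lit 192) (nat_lit 5) (nat_lit 193) (nat_lit 5) (nat_lit 299) (nat_lit 296) (nat_lit 185)) (XT.lf (nat_lit 76) (nat_lit 1174474129) (nat_lit 0) (nat_lit 6271108918) (nat_lit 1216) (nat_lit 18841114913) (nat_lit 178) (nat_lit 5) (nat_lit 177) (nat_lit 5) (nat_lit 193) (nat_lit 5) (nat_lit 300) (nat_lit 296) (nat_lit 184)))) (XT.nd (nat_lit 156) (nat_lit 0) (nat_lit 76) (XT.nd (nat_lit 78) (nat_lit 0) (nat_lit 76) (XT.lf (nat_lit 0) (nat_lit 9067012999) (nat_lit 1140)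 (nat_lit 5471578339) (nat_lit 1216) (nat_lit 12426447204) (nat_lit 178) (nat_lit 5) (nat_lit 193) (nat_lit 5) (nat_lit 194) (nat_lit 5) (nat_lit 301) (nat_lit 296) (nat_lit 183)) (XT.lf (nat_lit 0) (nat_lit 11013551832) (nat_lit 1140) (nat_lit 12332145158) (nat_lit 1216) (nat_lit 4324292609) (nat_lit 179) (nat_lit 5) (nat_lit 194) (nat_lit 5) (nat_lit 195) (nat_lit 5) (nat_lit 302) (nat_lit 296) (nat_lit 182))) (XT.nd (nat_lit 78) (nat_lit 0) (nat_lit 76) (XT.lf (nat_lit 76) (nat_lit 8913646715) (nat_lit 0) (nat_lit 4423988846) (nat_lit 1216) (nat_lit 15064159984) (nat_lit 180) (nat_lit 5) (nat_lit 179) (nat_lit 5) (nat_lit 195) (nat_lit 5) (nat_lit 303) (nat_lit 296) (nat_lit 181)) (XT.lf (nat_lit 76) (nat_lit 2199579840) (nat_lit 0) (nat_lit 13867452306) (nat_lit 1216) (nat_lit 13094499594) (nat_lit 181) (nat_lit 5) (nat_lit 180) (nat_lit 5) (nat_lit 196) (nat_lit 5) (nat_lit 304) (nat_lit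 296) (nat_lit 180)))))) (XT.nd (nat_lit 468) (nat_lit 2964) (nat_lit 0) (XT.nd (nat_lit 234) (nat_lit 1216) (nat_lit 0) (XT.nd (nat_lit 78) (nat_lit 1064) (nat_lit 0) (XT.lf (nat_lit 0) (nat_lit 19228572314) (nat_lit 1140) (nat_lit 4684452463) (nat_lit 1216) (nat_lit 6037372339) (nat_lit 181) (nat_lit 5) (nat_lit 196) (nat_lit 5) (nat_lit 197) (nat_lit 5) (nat_lit 305) (nat_lit 296) (nat_lit 179)) (XT.nd (nat_lit 78) (nat_lit 1064) (nat_lit 0) (XT.lf (nat_lit 76) (nat_lit 18929897886) (nat_lit 0) (nat_lit 3932295153) (nat_lit 1216) (nat_lit 7907104601) (nat_lit 182) (nat_lit 5) (nat_lit 181) (nat_lit 5) (nat_lit 197) (nat_lit 5) (nat_lit 306) (nat_lit 296) (nat_lit 178)) (XT.lf (nat_lit 0) (nat_lit 12263604483) (nat_lit 1140) (nat_lit 14736746682) (nat_lit 1216) (nat_lit 4619117747) (nat_lit 167) (nat_lit 5) (nat_lit 182) (nat_lit 5) (nat_lit 183) (nat_lit 5) (nat_lit 307) (nat_lit 296)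 (nat_lit 177)))) (XT.nd (nat_lit 78) (nat_lit 684) (nat_lit 0) (XT.lf (nat_lit 0) (nat_lit 5308096126) (nat_lit 532) (nat_lit 26302524607) (nat_lit 608) (nat_lit 893582780) (nat_lit 160) (nat_lit 5) (nat_lit 167) (nat_lit 5) (nat_lit 168) (nat_lit 5) (nat_lit 308) (nat_lit 296) (nat_lit 176)) (XT.nd (nat_lit 78) (nat_lit 608) (nat_lit 0) (XT.lf (nat_lit 0) (nat_lit 3302215586) (nat_lit 608) (nat_lit 2003719465) (nat_lit 76) (nat_lit 28116092957) (nat_lit 159) (nat_lit 5) (nat_lit 167) (nat_lit 5) (nat_lit 160) (nat_lit 5) (nat_lit 309) (nat_lit 296) (nat_lit 175)) (XT.lf (nat_lit 0) (nat_lit 8085675066) (nat_lit 684) (nat_lit 9622569562) (nat_lit 76) (nat_lit 16665352696) (nat_lit 151) (nat_lit 5) (nat_lit 160) (nat_lit 5) (nat_lit 152) (nat_lit 5) (nat_lit 310) (nat_lit 296) (nat_lit 174))))) (XT.nd (nat_lit 234) (nat_lit 1444) (nat_lit 0) (XT.nd (nat_lit 78) (nat_lit 988) (nat_lit 0) (XT.lf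 (nat_lit 0) (nat_lit 13390132249) (nat_lit 608) (nat_lit 17607786586) (nat_lit 76) (nat_lit 4366380644) (nat_lit 144) (nat_lit 5) (nat_lit 152) (nat_lit 5) (nat_lit 145) (nat_lit 5) (nat_lit 311) (nat_lit 296) (nat_lit 173)) (XT.nd (nat_lit 78) (nat_lit 456) (nat_lit 0) (XT.lf (nat_lit 0) (nat_lit 10319456584) (nat_lit 532) (nat_lit 9012096451) (nat_lit 608) (nat_lit 17061840169) (nat_lit 137) (nat_lit 5) (nat_lit 144) (nat_lit 5) (nat_lit 145) (nat_lit 5) (nat_lit 312) (nat_lit 296) (nat_lit 172)) (XT.lf (nat_lit 0) (nat_lit 2446909928) (nat_lit 456) (nat_lit 23458996454) (nat_lit 532) (nat_lit 11557967656) (nat_lit 131) (nat_lit 5) (nat_lit 137) (nat_lit 5) (nat_lit 138) (nat_lit 5) (nat_lit 313) (nat_lit 296) (nat_lit 171)))) (XT.nd (nat_lit 156) (nat_lit 912) (nat_lit 0) (XT.nd (nat_lit 78) (nat_lit 532) (nat_lit 0) (XT.lf (nat_lit 0) (nat_lit 32839801676) (nat_lit 456) (nat_lit 321890645)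 (nat_lit 532) (nat_lit 5415613020) (nat_lit 131) (nat_lit 5) (nat_lit 137) (nat_lit 5) (nat_lit 138) (nat_lit 5) (nat_lit 314) (nat_lit 296) (nat_lit 170)) (XT.lf (nat_lit 0) (nat_lit 1486090476) (nat_lit 532) (nat_lit 14484467179) (nat_lit 76) (nat_lit 23761387531) (nat_lit 124) (nat_lit 5) (nat_lit 131) (nat_lit 5) (nat_lit 125) (nat_lit 5) (nat_lit 315) (nat_lit 296) (nat_lit 169))) (XT.nd (nat_lit 78) (nat_lit 456) (nat_lit 0) (XT.lf (nat_lit 0) (nat_lit 8925711513) (nat_lit 532) (nat_lit 23785710566) (nat_lit 76) (nat_lit 8222148214) (nat_lit 118) (nat_lit 5) (nat_lit 125) (nat_lit 5) (nat_lit 119) (nat_lit 5) (nat_lit 316) (nat_lit 296) (nat_lit 168)) (XT.lf (nat_lit 0) (nat_lit 8470398417) (nat_lit 456) (nat_lit 8654962190) (nat_lit 532) (nat_lit 25058281243) (nat_lit 112) (nat_lit 5) (nat_lit 118) (nat_lit 5) (nat_lit 119) (nat_lit 5) (nat_lit 317) (nat_lit 296) (nat_lit 167))))))))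
noncomputable def xc105 : XT := (XT.nd (nat_lit 2028) (nat_lit 912) (nat_lit 0) (XT.nd (nat_lit 1014) (nat_lit 2052) (nat_lit 0) (XT.nd (nat_lit 468) (nat_lit 1976) (nat_lit 0) (XT.nd (nat_lit 234) (nat_lit 760) (nat_lit 0) (XT.nd (nat_lit 78) (nat_lit 836) (nat_lit 0) (XT.lf (nat_lit 0) (nat_lit 26136911593) (nat_lit 532) (nat_lit 820421706) (nat_lit 76) (nat_lit 16526832394) (nat_lit 112) (nat_lit 5) (nat_lit 119) (nat_lit 5) (nat_lit 113) (nat_lit 5) (nat_lit 318) (nat_lit 296) (nat_lit 166)) (XT.nd (nat_lit 78) (nat_lit 456) (nat_lit 0) (XT.lf (nat_lit 0) (nat_lit 34293270292) (nat_lit 380) (nat_lit 1718042316) (nat_lit 456) (nat_lit 8826040935) (nat_lit 107) (nat_lit 5) (nat_lit 112) (nat_lit 5) (nat_lit 113) (nat_lit 5) (nat_lit 319) (nat_lit 296) (nat_lit 165)) (XT.lf (nat_lit 0) (nat_lit 607788850) (nat_lit 456) (nat_lit 21080545555) (nat_lit 76) (nat_lit 24555169311) (nat_lit 101)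 (nat_lit 5) (nat_lit 107) (nat_lit 5) (nat_lit 102) (nat_lit 5) (nat_lit 320) (nat_lit 296) (nat_lit 164)))) (XT.nd (nat_lit 78) (nat_lit 380) (nat_lit 0) (XT.lf (nat_lit 0) (nat_lit 10648078961) (nat_lit 456) (nat_lit 32409360045) (nat_lit 76) (nat_lit 4650386923) (nat_lit 96) (nat_lit 5) (nat_lit 102) (nat_lit 5) (nat_lit 97) (nat_lit 5) (nat_lit 321) (nat_lit 296) (nat_lit 163)) (XT.nd (nat_lit 78) (nat_lit 0) (nat_lit 0) (XT.lf (nat_lit 0) (nat_lit 4560561276) (nat_lit 380) (nat_lit 17107420463) (nat_lit 456) (nat_lit 27563059593) (nat_lit 91) (nat_lit 5) (nat_lit 96) (nat_lit 5) (nat_lit 97) (nat_lit 5) (nat_lit 322) (nat_lit 296) (nat_lit 162)) (XT.lf (nat_lit 0) (nat_lit 33669123389) (nat_lit 456) (nat_lit 6870379634) (nat_lit 76) (nat_lit 10278011957) (nat_lit 91) (nat_lit 5) (nat_lit 97) (nat_lit 5) (nat_lit 92) (nat_lit 5) (nat_lit 323) (nat_lit 296) (nat_lit 161))))) (XT.nd (nat_lit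 234) (nat_lit 912) (nat_lit 0) (XT.nd (nat_lit 78) (nat_lit 760) (nat_lit 0) (XT.lf (nat_lit 0) (nat_lit 33291518859) (nat_lit 304) (nat_lit 13467530958) (nat_lit 380) (nat_lit 5709605217) (nat_lit 87) (nat_lit 5) (nat_lit 91) (nat_lit 5) (nat_lit 92) (nat_lit 5) (nat_lit 324) (nat_lit 296) (nat_lit 160)) (XT.nd (nat_lit 78) (nat_lit 304) (nat_lit 0) (XT.lf (nat_lit 0) (nat_lit 6602078504) (nat_lit 456) (nat_lit 32576236447) (nat_lit 76) (nat_lit 15009506781) (nat_lit 81) (nat_lit 5) (nat_lit 87) (nat_lit 5) (nat_lit 82) (nat_lit 5) (nat_lit 325) (nat_lit 296) (nat_lit 159)) (XT.lf (nat_lit 0) (nat_lit 8825094191) (nat_lit 304) (nat_lit 11003658457) (nat_lit 380) (nat_lit 36149977518) (nat_lit 77) (nat_lit 5) (nat_lit 81) (nat_lit 5) (nat_lit 82) (nat_lit 5) (nat_lit 326) (nat_lit 296) (nat_lit 158)))) (XT.nd (nat_lit 156) (nat_lit 608) (nat_lit 0) (XT.nd (nat_lit 78) (nat_lit 304) (nat_lit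 0) (XT.lf (nat_lit 0) (nat_lit 34230404567) (nat_lit 380) (nat_lit 5058824285) (nat_lit 76) (nat_lit 18554549670) (nat_lit 77) (nat_lit 5) (nat_lit 82) (nat_lit 5) (nat_lit 78) (nat_lit 5) (nat_lit 327) (nat_lit 296) (nat_lit 157)) (XT.lf (nat_lit 0) (nat_lit 39801556662) (nat_lit 304) (nat_lit 10040794764) (nat_lit 380) (nat_lit 9945025140) (nat_lit 73) (nat_lit 5) (nat_lit 77) (nat_lit 5) (nat_lit 78) (nat_lit 5) (nat_lit 328) (nat_lit 296) (nat_lit 156))) (XT.nd (nat_lit 78) (nat_lit 304) (nat_lit 0) (XT.lf (nat_lit 0) (nat_lit 4818474019) (nat_lit 304) (nat_lit 36383322776) (nat_lit 76) (nat_lit 20610158546) (nat_lit 69) (nat_lit 5) (nat_lit 73) (nat_lit 5) (nat_lit 70) (nat_lit 5) (nat_lit 329) (nat_lit 296) (nat_lit 155)) (XT.lf (nat_lit 0) (nat_lit 9578344353) (nat_lit 304) (nat_lit 10935967211) (nat_lit 380) (nat_lit 43408505473) (nat_lit 65) (nat_lit 5) (nat_lit 69) (nat_lit 5)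 (nat_lit 70) (nat_lit 5) (nat_lit 330) (nat_lit 296) (nat_lit 154)))))) (XT.nd (nat_lit 468) (nat_lit 1064) (nat_lit 0) (XT.nd (nat_lit 234) (nat_lit 456) (nat_lit 0) (XT.nd (nat_lit 78) (nat_lit 532) (nat_lit 0) (XT.lf (nat_lit 0) (nat_lit 37570378385) (nat_lit 380) (nat_lit 7738268855) (nat_lit 76) (nat_lit 20813314508) (nat_lit 65) (nat_lit 5) (nat_lit 70) (nat_lit 5) (nat_lit 66) (nat_lit 5) (nat_lit 331) (nat_lit 296) (nat_lit 153)) (XT.nd (nat_lit 78) (nat_lit 304) (nat_lit 0) (XT.lf (nat_lit 0) (nat_lit 41901110302) (nat_lit 228) (nat_lit 14088285088) (nat_lit 304) (nat_lit 12426366808) (nat_lit 62) (nat_lit 5) (nat_lit 65) (nat_lit 5) (nat_lit 66) (nat_lit 5) (nat_lit 332) (nat_lit 296) (nat_lit 152)) (XT.lf (nat_lit 0) (nat_lit 4906438019) (nat_lit 304) (nat_lit 47219070803) (nat_lit 76) (nat_lit 18682770209) (nat_lit 58) (nat_lit 5) (nat_lit 62) (nat_lit 5) (nat_lit 59) (nat_lit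 5) (nat_lit 333) (nat_lit 296) (nat_lit 151)))) (XT.nd (nat_lit 78) (nat_lit 228) (nat_lit 0) (XT.lf (nat_lit 0) (nat_lit 3228501984) (nat_lit 228) (nat_lit 20068797607) (nat_lit 304) (nat_lit 50005981290) (nat_lit 55) (nat_lit 5) (nat_lit 58) (nat_lit 5) (nat_lit 59) (nat_lit 5) (nat_lit 334) (nat_lit 296) (nat_lit 150)) (XT.nd (nat_lit 78) (nat_lit 228) (nat_lit 0) (XT.lf (nat_lit 0) (nat_lit 43226466282) (nat_lit 304) (nat_lit 18862944290) (nat_lit 76) (nat_lit 13815061828) (nat_lit 55) (nat_lit 5) (nat_lit 59) (nat_lit 5) (nat_lit 56) (nat_lit 5) (nat_lit 335) (nat_lit 296) (nat_lit 149)) (XT.lf (nat_lit 0) (nat_lit 35393548245) (nat_lit 228) (nat_lit 29298686847) (nat_lit 304) (nat_lit 13927286413) (nat_lit 52) (nat_lit 5) (nat_lit 55) (nat_lit 5) (nat_lit 56) (nat_lit 5) (nat_lit 336) (nat_lit 296) (nat_lit 148))))) (XT.nd (nat_lit 234) (nat_lit 608) (nat_lit 0) (XT.nd (nat_lit 78)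 (nat_lit 228) (nat_lit 0) (XT.lf (nat_lit 0) (nat_lit 6005077818) (nat_lit 228) (nat_lit 70057645932) (nat_lit 76) (nat_lit 5395244348) (nat_lit 49) (nat_lit 5) (nat_lit 52) (nat_lit 5) (nat_lit 50) (nat_lit 5) (nat_lit 337) (nat_lit 296) (nat_lit 147)) (XT.nd (nat_lit 78) (nat_lit 228) (nat_lit 0) (XT.lf (nat_lit 0) (nat_lit 27391291283) (nat_lit 228) (nat_lit 15208373802) (nat_lit 76) (nat_lit 41812179104) (nat_lit 49) (nat_lit 5) (nat_lit 52) (nat_lit 5) (nat_lit 50) (nat_lit 5) (nat_lit 338) (nat_lit 296) (nat_lit 146)) (XT.lf (nat_lit 0) (nat_lit 43223068103) (nat_lit 228) (nat_lit 7036846692) (nat_lit 304) (nat_lit 37241108256) (nat_lit 46) (nat_lit 5) (nat_lit 49) (nat_lit 5) (nat_lit 50) (nat_lit 5) (nat_lit 339) (nat_lit 296) (nat_lit 145)))) (XT.nd (nat_lit 156) (nat_lit 380) (nat_lit 0) (XT.nd (nat_lit 78) (nat_lit 76) (nat_lit 0) (XT.lf (nat_lit 0) (nat_lit 14133182737) (nat_lit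 152) (nat_lit 60721731055) (nat_lit 228) (nat_lit 15872260590) (nat_lit 44) (nat_lit 5) (nat_lit 46) (nat_lit 5) (nat_lit 47) (nat_lit 5) (nat_lit 340) (nat_lit 296) (nat_lit 144)) (XT.lf (nat_lit 0) (nat_lit 6965993221) (nat_lit 228) (nat_lit 17853071799) (nat_lit 76) (nat_lit 69277804627) (nat_lit 43) (nat_lit 5) (nat_lit 46) (nat_lit 5) (nat_lit 44) (nat_lit 5) (nat_lit 341) (nat_lit 296) (nat_lit 143))) (XT.nd (nat_lit 78) (nat_lit 152) (nat_lit 0) (XT.lf (nat_lit 0) (nat_lit 31176449231) (nat_lit 304) (nat_lit 53216894696) (nat_lit 76) (nat_lit 13220236283) (nat_lit 40) (nat_lit 5) (nat_lit 44) (nat_lit 5) (nat_lit 41) (nat_lit 5) (nat_lit 342) (nat_lit 296) (nat_lit 142)) (XT.lf (nat_lit 0) (nat_lit 8746337679) (nat_lit 152) (nat_lit 48369169318) (nat_lit 228) (nat_lit 44175078491) (nat_lit 38) (nat_lit 5) (nat_lit 40) (nat_lit 5) (nat_lit 41) (nat_lit 5) (nat_lit 343) (nat_lit 296)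 (nat_lit 141))))))) (XT.nd (nat_lit 37206) (nat_lit 0) (nat_lit 8436) (XT.nd (nat_lit 468) (nat_lit 380) (nat_lit 0) (XT.nd (nat_lit 234) (nat_lit 304) (nat_lit 0) (XT.nd (nat_lit 78) (nat_lit 228) (nat_lit 0) (XT.lf (nat_lit 0) (nat_lit 74916500910) (nat_lit 152) (nat_lit 9980803763) (nat_lit 228) (nat_lit 20237764229) (nat_lit 38) (nat_lit 5) (nat_lit 40) (nat_lit 5) (nat_lit 41) (nat_lit 5) (nat_lit 344) (nat_lit 296) (nat_lit 140)) (XT.nd (nat_lit 78) (nat_lit 0) (nat_lit 0) (XT.lf (nat_lit 0) (nat_lit 5439135919) (nat_lit 228) (nat_lit 73582316673) (nat_lit 76) (nat_lit 30129765237) (nat_lit 35) (nat_lit 5) (nat_lit 38) (nat_lit 5) (nat_lit 36) (nat_lit 5) (nat_lit 345) (nat_lit 296) (nat_lit 139)) (XT.lf (nat_lit 0) (nat_lit 32398210114) (nat_lit 228) (nat_lit 8392847595) (nat_lit 76) (nat_lit 72558600270) (nat_lit 35) (nat_lit 5) (nat_lit 38) (nat_lit 5) (nat_lit 36) (nat_lit 5) (nat_lit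 346) (nat_lit 296) (nat_lit 138)))) (XT.nd (nat_lit 78) (nat_lit 152) (nat_lit 0) (XT.lf (nat_lit 0) (nat_lit 61248273852) (nat_lit 152) (nat_lit 43904989) (nat_lit 228) (nat_lit 56448234314) (nat_lit 33) (nat_lit 5) (nat_lit 35) (nat_lit 5) (nat_lit 36) (nat_lit 5) (nat_lit 347) (nat_lit 296) (nat_lit 137)) (XT.nd (nat_lit 78) (nat_lit 0) (nat_lit 0) (XT.lf (nat_lit 0) (nat_lit 12018592341) (nat_lit 152) (nat_lit 80224117272) (nat_lit 228) (nat_lit 30089641751) (nat_lit 31) (nat_lit 5) (nat_lit 33) (nat_lit 5) (nat_lit 34) (nat_lit 5) (nat_lit 348) (nat_lit 296) (nat_lit 136)) (XT.lf (nat_lit 0) (nat_lit 85132060349) (nat_lit 152) (nat_lit 40188971034) (nat_lit 228) (nat_lit 1815448294) (nat_lit 31) (nat_lit 5) (nat_lit 33) (nat_lit 5) (nat_lit 34) (nat_lit 5) (nat_lit 349) (nat_lit 296) (nat_lit 135))))) (XT.nd (nat_lit 234) (nat_lit 0) (nat_lit 0) (XT.nd (nat_lit 78) (nat_lit 152) (nat_lit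 0) (XT.lf (nat_lit 0) (nat_lit 27638902666) (nat_lit 228) (nat_lit 102151627578) (nat_lit 76) (nat_lit 2372937197) (nat_lit 28) (nat_lit 5) (nat_lit 31) (nat_lit 5) (nat_lit 29) (nat_lit 5) (nat_lit 350) (nat_lit 296) (nat_lit 134)) (XT.nd (nat_lit 78) (nat_lit 152) (nat_lit 0) (XT.lf (nat_lit 0) (nat_lit 59369485905) (nat_lit 228) (nat_lit 31353117890) (nat_lit 76) (nat_lit 46693430718) (nat_lit 28) (nat_lit 5) (nat_lit 31) (nat_lit 5) (nat_lit 29) (nat_lit 5) (nat_lit 351) (nat_lit 296) (nat_lit 133)) (XT.lf (nat_lit 0) (nat_lit 43838163334) (nat_lit 152) (nat_lit 49268305959) (nat_lit 228) (nat_lit 49812165461) (nat_lit 26) (nat_lit 5) (nat_lit 28) (nat_lit 5) (nat_lit 29) (nat_lit 5) (nat_lit 352) (nat_lit 296) (nat_lit 132)))) (XT.nd (nat_lit 36348) (nat_lit 0) (nat_lit 11324) (XT.nd (nat_lit 36270) (nat_lit 0) (nat_lit 11324) (XT.lf (nat_lit 0) (nat_lit 123441676527) (nat_lit 152)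 (nat_lit 5409898303) (nat_lit 228) (nat_lit 19835152889) (nat_lit 26) (nat_lit 5) (nat_lit 28) (nat_lit 5) (nat_lit 29) (nat_lit 5) (nat_lit 353) (nat_lit 296) (nat_lit 131)) (XT.lf (nat_lit 0) (nat_lit 1172680369) (nat_lit 0) (nat_lit 1172680369) (nat_lit 1140) (nat_lit 10148497353) (nat_lit 175) (nat_lit 5) (nat_lit 175) (nat_lit 3) (nat_lit 190) (nat_lit 3) (nat_lit 297) (nat_lit 297) (nat_lit 186))) (XT.nd (nat_lit 78) (nat_lit 0) (nat_lit 76) (XT.lf (nat_lit 0) (nat_lit 5128682836) (nat_lit 1140) (nat_lit 4459985013) (nat_lit 1216) (nat_lit 16013869542) (nat_lit 175) (nat_lit 5) (nat_lit 190) (nat_lit 3) (nat_lit 191) (nat_lit 5) (nat_lit 298) (nat_lit 297) (nat_lit 185)) (XT.lf (nat_lit 0) (nat_lit 5832880368) (nat_lit 1140) (nat_lit 11438534377) (nat_lit 1216) (nat_lit 8969370833) (nat_lit 176) (nat_lit 5) (nat_lit 191) (nat_lit 5) (nat_lit 192) (nat_lit 5) (nat_lit 299) (nat_lit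 297) (nat_lit 184)))))) (XT.nd (nat_lit 546) (nat_lit 3040) (nat_lit 0) (XT.nd (nat_lit 234) (nat_lit 0) (nat_lit 152) (XT.nd (nat_lit 78) (nat_lit 0) (nat_lit 0) (XT.lf (nat_lit 0) (nat_lit 6799256623) (nat_lit 1140) (nat_lit 18649303973) (nat_lit 1216) (nat_lit 1455591808) (nat_lit 177) (nat_lit 5) (nat_lit 192) (nat_lit 5) (nat_lit 193) (nat_lit 5) (nat_lit 300) (nat_lit 297) (nat_lit 183)) (XT.nd (nat_lit 78) (nat_lit 0) (nat_lit 76) (XT.lf (nat_lit 76) (nat_lit 1421028067) (nat_lit 0) (nat_lit 6690339164) (nat_lit 1216) (nat_lit 19480412442) (nat_lit 178) (nat_lit 5) (nat_lit 177) (nat_lit 5) (nat_lit 193) (nat_lit 5) (nat_lit 301) (nat_lit 297) (nat_lit 182)) (XT.lf (nat_lit 0) (nat_lit 9798924811) (nat_lit 1140) (nat_lit 5556491325) (nat_lit 1216) (nat_lit 12949090799) (nat_lit 178) (nat_lit 5) (nat_lit 193) (nat_lit 5) (nat_lit 194) (nat_lit 5) (nat_lit 302) (nat_lit 297) (nat_lit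 181)))) (XT.nd (nat_lit 156) (nat_lit 0) (nat_lit 76) (XT.nd (nat_lit 78) (nat_lit 0) (nat_lit 0) (XT.lf (nat_lit 0) (nat_lit 11830481819) (nat_lit 1140) (nat_lit 12756270900) (nat_lit 1216) (nat_lit 4458342408) (nat_lit 179) (nat_lit 5) (nat_lit 194) (nat_lit 5) (nat_lit 195) (nat_lit 5) (nat_lit 303) (nat_lit 297) (nat_lit 180)) (XT.lf (nat_lit 76) (nat_lit 9546293122) (nat_lit 0) (nat_lit 4713595139) (nat_lit 1216) (nat_lit 15553948905) (nat_lit 180) (nat_lit 5) (nat_lit 179) (nat_lit 5) (nat_lit 195) (nat_lit 5) (nat_lit 304) (nat_lit 297) (nat_lit 179))) (XT.nd (nat_lit 78) (nat_lit 0) (nat_lit 76) (XT.lf (nat_lit 76) (nat_lit 2499619794) (nat_lit 0) (nat_lit 14615175088) (nat_lit 1216) (nat_lit 13497112513) (nat_lit 181) (nat_lit 5) (nat_lit 180) (nat_lit 5) (nat_lit 196) (nat_lit 5) (nat_lit 305) (nat_lit 297) (nat_lit 178)) (XT.lf (nat_lit 0) (nat_lit 20422275865) (nat_lit 1140)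 (nat_lit 4729832857) (nat_lit 1216) (nat_lit 6288488957) (nat_lit 181) (nat_lit 5) (nat_lit 196) (nat_lit 5) (nat_lit 197) (nat_lit 5) (nat_lit 306) (nat_lit 297) (nat_lit 177))))) (XT.nd (nat_lit 234) (nat_lit 1748) (nat_lit 0) (XT.nd (nat_lit 78) (nat_lit 1596) (nat_lit 0) (XT.lf (nat_lit 76) (nat_lit 20059821885) (nat_lit 0) (nat_lit 4168458262) (nat_lit 1216) (nat_lit 8072458721) (nat_lit 182) (nat_lit 5) (nat_lit 181) (nat_lit 5) (nat_lit 197) (nat_lit 5) (nat_lit 307) (nat_lit 297) (nat_lit 176)) (XT.nd (nat_lit 78) (nat_lit 532) (nat_lit 0) (XT.lf (nat_lit 0) (nat_lit 13062147441) (nat_lit 1140) (nat_lit 15502000525) (nat_lit 1216) (nat_lit 4629562606) (nat_lit 167) (nat_lit 5) (nat_lit 182) (nat_lit 5) (nat_lit 183) (nat_lit 5) (nat_lit 308) (nat_lit 297) (nat_lit 175)) (XT.lf (nat_lit 0) (nat_lit 5760354429) (nat_lit 532) (nat_lit 27635932620) (nat_lit 608) (nat_lit 726669334) (nat_lit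 160) (nat_lit 5) (nat_lit 167) (nat_lit 5) (nat_lit 168) (nat_lit 5) (nat_lit 309) (nat_lit 297) (nat_lit 174)))) (XT.nd (nat_lit 156) (nat_lit 1064) (nat_lit 0) (XT.nd (nat_lit 78) (nat_lit 608) (nat_lit 0) (XT.lf (nat_lit 0) (nat_lit 3664910795) (nat_lit 608) (nat_lit 1921737015) (nat_lit 76) (nat_lit 29500273671) (nat_lit 159) (nat_lit 5) (nat_lit 167) (nat_lit 5) (nat_lit 160) (nat_lit 5) (nat_lit 310) (nat_lit 297) (nat_lit 173)) (XT.lf (nat_lit 0) (nat_lit 8679711094) (nat_lit 684) (nat_lit 9920663807) (nat_lit 76) (nat_lit 17485942677) (nat_lit 151) (nat_lit 5) (nat_lit 160) (nat_lit 5) (nat_lit 152) (nat_lit 5) (nat_lit 311) (nat_lit 297) (nat_lit 172))) (XT.nd (nat_lit 78) (nat_lit 532) (nat_lit 0) (XT.lf (nat_lit 0) (nat_lit 14242019736) (nat_lit 608) (nat_lit 18304616650) (nat_lit 76) (nat_lit 4580152315) (nat_lit 144) (nat_lit 5) (nat_lit 152) (nat_lit 5) (nat_lit 145) (nat_lit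 5) (nat_lit 312) (nat_lit 297) (nat_lit 171)) (XT.lf (nat_lit 0) (nat_lit 11013726989) (nat_lit 532) (nat_lit 9459813674) (nat_lit 608) (nat_lit 17734017687) (nat_lit 137) (nat_lit 5) (nat_lit 144) (nat_lit 5) (nat_lit 145) (nat_lit 5) (nat_lit 313) (nat_lit 297) (nat_lit 170))))))))
noncomputable def xc106 : XT := (XT.nd (nat_lit 2028) (nat_lit 1748) (nat_lit 0) (XT.nd (nat_lit 1014) (nat_lit 2432) (nat_lit 0) (XT.nd (nat_lit 468) (nat_lit 2356) (nat_lit 0) (XT.nd (nat_lit 234) (nat_lit 912) (nat_lit 0) (XT.nd (nat_lit 78) (nat_lit 532) (nat_lit 0) (XT.lf (nat_lit 0) (nat_lit 2747761903) (nat_lit 456) (nat_lit 24622239267) (nat_lit 532) (nat_lit 11961771905) (nat_lit 131) (nat_lit 5) (nat_lit 137) (nat_lit 5) (nat_lit 138) (nat_lit 5) (nat_lit 314) (nat_lit 297) (nat_lit 169)) (XT.nd (nat_lit 78) (nat_lit 532) (nat_lit 0) (XT.lf (nat_lit 0) (nat_lit 34651797931) (nat_lit 456) (nat_lit 328740406)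 (nat_lit 532) (nat_lit 5520589733) (nat_lit 131) (nat_lit 5) (nat_lit 137) (nat_lit 5) (nat_lit 138) (nat_lit 5) (nat_lit 315) (nat_lit 297) (nat_lit 168)) (XT.lf (nat_lit 0) (nat_lit 1716957407) (nat_lit 532) (nat_lit 15035426844) (nat_lit 76) (nat_lit 24961258181) (nat_lit 124) (nat_lit 5) (nat_lit 131) (nat_lit 5) (nat_lit 125) (nat_lit 5) (nat_lit 316) (nat_lit 297) (nat_lit 167)))) (XT.nd (nat_lit 78) (nat_lit 456) (nat_lit 0) (XT.lf (nat_lit 0) (nat_lit 9522890833) (nat_lit 532) (nat_lit 24802152673) (nat_lit 76) (nat_lit 8650485021) (nat_lit 118) (nat_lit 5) (nat_lit 125) (nat_lit 5) (nat_lit 119) (nat_lit 5) (nat_lit 317) (nat_lit 297) (nat_lit 166)) (XT.nd (nat_lit 78) (nat_lit 0) (nat_lit 0) (XT.lf (nat_lit 0) (nat_lit 9061807238) (nat_lit 456) (nat_lit 9065143580) (nat_lit 532) (nat_lit 26161329205) (nat_lit 112) (nat_lit 5) (nat_lit 118) (nat_lit 5) (nat_lit 119) (nat_lit 5)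 (nat_lit 318) (nat_lit 297) (nat_lit 165)) (XT.lf (nat_lit 0) (nat_lit 27582365843) (nat_lit 532) (nat_lit 697427654) (nat_lit 76) (nat_lit 17374246740) (nat_lit 112) (nat_lit 5) (nat_lit 119) (nat_lit 5) (nat_lit 113) (nat_lit 5) (nat_lit 319) (nat_lit 297) (nat_lit 164))))) (XT.nd (nat_lit 234) (nat_lit 1140) (nat_lit 0) (XT.nd (nat_lit 78) (nat_lit 836) (nat_lit 0) (XT.lf (nat_lit 0) (nat_lit 36167247483) (nat_lit 380) (nat_lit 1778170435) (nat_lit 456) (nat_lit 9129629988) (nat_lit 107) (nat_lit 5) (nat_lit 112) (nat_lit 5) (nat_lit 113) (nat_lit 5) (nat_lit 320) (nat_lit 297) (nat_lit 163)) (XT.nd (nat_lit 78) (nat_lit 380) (nat_lit 0) (XT.lf (nat_lit 0) (nat_lit 768551774) (nat_lit 456) (nat_lit 21973263599) (nat_lit 76) (nat_lit 25809797794) (nat_lit 101) (nat_lit 5) (nat_lit 107) (nat_lit 5) (nat_lit 102) (nat_lit 5) (nat_lit 321) (nat_lit 297) (nat_lit 162)) (XT.lf (nat_lit 0) (nat_lit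 11306452410) (nat_lit 456) (nat_lit 33869523522) (nat_lit 76) (nat_lit 4913315037) (nat_lit 96) (nat_lit 5) (nat_lit 102) (nat_lit 5) (nat_lit 97) (nat_lit 5) (nat_lit 322) (nat_lit 297) (nat_lit 161)))) (XT.nd (nat_lit 156) (nat_lit 760) (nat_lit 0) (XT.nd (nat_lit 78) (nat_lit 0) (nat_lit 0) (XT.lf (nat_lit 0) (nat_lit 4944298767) (nat_lit 380) (nat_lit 17928549786) (nat_lit 456) (nat_lit 28815960650) (nat_lit 91) (nat_lit 5) (nat_lit 96) (nat_lit 5) (nat_lit 97) (nat_lit 5) (nat_lit 323) (nat_lit 297) (nat_lit 160)) (XT.lf (nat_lit 0) (nat_lit 35468576587) (nat_lit 456) (nat_lit 7062313405) (nat_lit 76) (nat_lit 10823887337) (nat_lit 91) (nat_lit 5) (nat_lit 97) (nat_lit 5) (nat_lit 92) (nat_lit 5) (nat_lit 324) (nat_lit 297) (nat_lit 159))) (XT.nd (nat_lit 78) (nat_lit 456) (nat_lit 0) (XT.lf (nat_lit 0) (nat_lit 35103334853) (nat_lit 304) (nat_lit 14105556177) (nat_lit 380) (nat_lit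 5879712963) (nat_lit 87) (nat_lit 5) (nat_lit 91) (nat_lit 5) (nat_lit 92) (nat_lit 5) (nat_lit 325) (nat_lit 297) (nat_lit 158)) (XT.lf (nat_lit 0) (nat_lit 7041661778) (nat_lit 456) (nat_lit 34056678565) (nat_lit 76) (nat_lit 15795470543) (nat_lit 81) (nat_lit 5) (nat_lit 87) (nat_lit 5) (nat_lit 82) (nat_lit 5) (nat_lit 326) (nat_lit 297) (nat_lit 157)))))) (XT.nd (nat_lit 468) (nat_lit 1216) (nat_lit 0) (XT.nd (nat_lit 234) (nat_lit 608) (nat_lit 0) (XT.nd (nat_lit 78) (nat_lit 304) (nat_lit 0) (XT.lf (nat_lit 0) (nat_lit 9410465616) (nat_lit 304) (nat_lit 11515376049) (nat_lit 380) (nat_lit 37848543514) (nat_lit 77) (nat_lit 5) (nat_lit 81) (nat_lit 5) (nat_lit 82) (nat_lit 5) (nat_lit 327) (nat_lit 297) (nat_lit 156)) (XT.nd (nat_lit 78) (nat_lit 304) (nat_lit 0) (XT.lf (nat_lit 0) (nat_lit 36042897307) (nat_lit 380) (nat_lit 5171738395) (nat_lit 76) (nat_lit 19518195948) (nat_lit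 77) (nat_lit 5) (nat_lit 82) (nat_lit 5) (nat_lit 78) (nat_lit 5) (nat_lit 328) (nat_lit 297) (nat_lit 155)) (XT.lf (nat_lit 0) (nat_lit 41927647750) (nat_lit 304) (nat_lit 10504292986) (nat_lit 380) (nat_lit 10341778961) (nat_lit 73) (nat_lit 5) (nat_lit 77) (nat_lit 5) (nat_lit 78) (nat_lit 5) (nat_lit 329) (nat_lit 297) (nat_lit 154)))) (XT.nd (nat_lit 78) (nat_lit 304) (nat_lit 0) (XT.lf (nat_lit 0) (nat_lit 5154905794) (nat_lit 304) (nat_lit 38065800658) (nat_lit 76) (nat_lit 21678887519) (nat_lit 69) (nat_lit 5) (nat_lit 73) (nat_lit 5) (nat_lit 70) (nat_lit 5) (nat_lit 330) (nat_lit 297) (nat_lit 153)) (XT.nd (nat_lit 78) (nat_lit 0) (nat_lit 0) (XT.lf (nat_lit 0) (nat_lit 10190031685) (nat_lit 304) (nat_lit 11442231795) (nat_lit 380) (nat_lit 45483837896) (nat_lit 65) (nat_lit 5) (nat_lit 69) (nat_lit 5) (nat_lit 70) (nat_lit 5) (nat_lit 331) (nat_lit 297) (nat_lit 152)) (XT.lf (nat_lit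 0) (nat_lit 39537112518) (nat_lit 380) (nat_lit 7996385162) (nat_lit 76) (nat_lit 21891830535) (nat_lit 65) (nat_lit 5) (nat_lit 70) (nat_lit 5) (nat_lit 66) (nat_lit 5) (nat_lit 332) (nat_lit 297) (nat_lit 151))))) (XT.nd (nat_lit 234) (nat_lit 456) (nat_lit 0) (XT.nd (nat_lit 78) (nat_lit 532) (nat_lit 0) (XT.lf (nat_lit 0) (nat_lit 44121271009) (nat_lit 228) (nat_lit 14752811227) (nat_lit 304) (nat_lit 12959830451) (nat_lit 62) (nat_lit 5) (nat_lit 65) (nat_lit 5) (nat_lit 66) (nat_lit 5) (nat_lit 333) (nat_lit 297) (nat_lit 150)) (XT.nd (nat_lit 78) (nat_lit 228) (nat_lit 0) (XT.lf (nat_lit 0) (nat_lit 5235368057) (nat_lit 304) (nat_lit 49454576729) (nat_lit 76) (nat_lit 19656164955) (nat_lit 58) (nat_lit 5) (nat_lit 62) (nat_lit 5) (nat_lit 59) (nat_lit 5) (nat_lit 334) (nat_lit 297) (nat_lit 149)) (XT.lf (nat_lit 0) (nat_lit 3511778767) (nat_lit 228) (nat_lit 21031183915) (nat_lit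 304) (nat_lit 52422986875) (nat_lit 55) (nat_lit 5) (nat_lit 58) (nat_lit 5) (nat_lit 59) (nat_lit 5) (nat_lit 335) (nat_lit 297) (nat_lit 148)))) (XT.nd (nat_lit 156) (nat_lit 228) (nat_lit 0) (XT.nd (nat_lit 78) (nat_lit 228) (nat_lit 0) (XT.lf (nat_lit 0) (nat_lit 45465116018) (nat_lit 304) (nat_lit 19688041580) (nat_lit 76) (nat_lit 14544150605) (nat_lit 55) (nat_lit 5) (nat_lit 59) (nat_lit 5) (nat_lit 56) (nat_lit 5) (nat_lit 336) (nat_lit 297) (nat_lit 147)) (XT.lf (nat_lit 0) (nat_lit 37277891703) (nat_lit 228) (nat_lit 30723701595) (nat_lit 304) (nat_lit 14546597103) (nat_lit 52) (nat_lit 5) (nat_lit 55) (nat_lit 5) (nat_lit 56) (nat_lit 5) (nat_lit 337) (nat_lit 297) (nat_lit 146))) (XT.nd (nat_lit 78) (nat_lit 0) (nat_lit 0) (XT.lf (nat_lit 0) (nat_lit 6378752584) (nat_lit 228) (nat_lit 73445759627) (nat_lit 76) (nat_lit 5704091763) (nat_lit 49) (nat_lit 5) (nat_lit 52) (nat_lit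 5) (nat_lit 50) (nat_lit 5) (nat_lit 338) (nat_lit 297) (nat_lit 145)) (XT.lf (nat_lit 0) (nat_lit 28830780489) (nat_lit 228) (nat_lit 15859489062) (nat_lit 76) (nat_lit 43940012057) (nat_lit 49) (nat_lit 5) (nat_lit 52) (nat_lit 5) (nat_lit 50) (nat_lit 5) (nat_lit 339) (nat_lit 297) (nat_lit 144))))))) (XT.nd (nat_lit 1014) (nat_lit 152) (nat_lit 0) (XT.nd (nat_lit 468) (nat_lit 760) (nat_lit 0) (XT.nd (nat_lit 234) (nat_lit 380) (nat_lit 0) (XT.nd (nat_lit 78) (nat_lit 228) (nat_lit 0) (XT.lf (nat_lit 0) (nat_lit 45490391777) (nat_lit 228) (nat_lit 7350134229) (nat_lit 304) (nat_lit 39033465400) (nat_lit 46) (nat_lit 5) (nat_lit 49) (nat_lit 5) (nat_lit 50) (nat_lit 5) (nat_lit 340) (nat_lit 297) (nat_lit 143)) (XT.nd (nat_lit 78) (nat_lit 76) (nat_lit 0) (XT.lf (nat_lit 0) (nat_lit 14944631898) (nat_lit 152) (nat_lit 63718783539) (nat_lit 228) (nat_lit 16598093238) (nat_lit 44) (nat_lit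 5) (nat_lit 46) (nat_lit 5) (nat_lit 47) (nat_lit 5) (nat_lit 341) (nat_lit 297) (nat_lit 142)) (XT.lf (nat_lit 0) (nat_lit 7377585970) (nat_lit 228) (nat_lit 18644617862) (nat_lit 76) (nat_lit 72777562659) (nat_lit 43) (nat_lit 5) (nat_lit 46) (nat_lit 5) (nat_lit 44) (nat_lit 5) (nat_lit 342) (nat_lit 297) (nat_lit 141)))) (XT.nd (nat_lit 78) (nat_lit 152) (nat_lit 0) (XT.lf (nat_lit 0) (nat_lit 32796850405) (nat_lit 304) (nat_lit 55778003400) (nat_lit 76) (nat_lit 13917512486) (nat_lit 40) (nat_lit 5) (nat_lit 44) (nat_lit 5) (nat_lit 41) (nat_lit 5) (nat_lit 343) (nat_lit 297) (nat_lit 140)) (XT.nd (nat_lit 78) (nat_lit 0) (nat_lit 0) (XT.lf (nat_lit 0) (nat_lit 9280531681) (nat_lit 152) (nat_lit 50750328302) (nat_lit 228) (nat_lit 46322424053) (nat_lit 38) (nat_lit 5) (nat_lit 40) (nat_lit 5) (nat_lit 41) (nat_lit 5) (nat_lit 344) (nat_lit 297) (nat_lit 139)) (XT.lf (nat_lit 0) (nat_lit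 78754589877) (nat_lit 152) (nat_lit 10444320635) (nat_lit 228) (nat_lit 21191168286) (nat_lit 38) (nat_lit 5) (nat_lit 40) (nat_lit 5) (nat_lit 41) (nat_lit 5) (nat_lit 345) (nat_lit 297) (nat_lit 138))))) (XT.nd (nat_lit 234) (nat_lit 380) (nat_lit 0) (XT.nd (nat_lit 78) (nat_lit 152) (nat_lit 0) (XT.lf (nat_lit 0) (nat_lit 5766916674) (nat_lit 228) (nat_lit 77169302201) (nat_lit 76) (nat_lit 31670846910) (nat_lit 35) (nat_lit 5) (nat_lit 38) (nat_lit 5) (nat_lit 36) (nat_lit 5) (nat_lit 346) (nat_lit 297) (nat_lit 137)) (XT.nd (nat_lit 78) (nat_lit 152) (nat_lit 0) (XT.lf (nat_lit 0) (nat_lit 34071286295) (nat_lit 228) (nat_lit 8724746827) (nat_lit 76) (nat_lit 76219476389) (nat_lit 35) (nat_lit 5) (nat_lit 38) (nat_lit 5) (nat_lit 36) (nat_lit 5) (nat_lit 347) (nat_lit 297) (nat_lit 136)) (XT.lf (nat_lit 0) (nat_lit 64395915553) (nat_lit 152) (nat_lit 12325471) (nat_lit 228) (nat_lit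 59217614528) (nat_lit 33) (nat_lit 5) (nat_lit 35) (nat_lit 5) (nat_lit 36) (nat_lit 5) (nat_lit 348) (nat_lit 297) (nat_lit 135)))) (XT.nd (nat_lit 156) (nat_lit 228) (nat_lit 0) (XT.nd (nat_lit 78) (nat_lit 0) (nat_lit 0) (XT.lf (nat_lit 0) (nat_lit 12703524586) (nat_lit 152) (nat_lit 84201440282) (nat_lit 228) (nat_lit 31542467458) (nat_lit 31) (nat_lit 5) (nat_lit 33) (nat_lit 5) (nat_lit 34) (nat_lit 5) (nat_lit 349) (nat_lit 297) (nat_lit 134)) (XT.lf (nat_lit 0) (nat_lit 89468665870) (nat_lit 152) (nat_lit 42166150201) (nat_lit 228) (nat_lit 1857024156) (nat_lit 31) (nat_lit 5) (nat_lit 33) (nat_lit 5) (nat_lit 34) (nat_lit 5) (nat_lit 350) (nat_lit 297) (nat_lit 133))) (XT.nd (nat_lit 78) (nat_lit 0) (nat_lit 0) (XT.lf (nat_lit 0) (nat_lit 29067850978) (nat_lit 228) (nat_lit 107179414998) (nat_lit 76) (nat_lit 2522935670) (nat_lit 28) (nat_lit 5) (nat_lit 31) (nat_lit 5) (nat_lit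 29) (nat_lit 5) (nat_lit 351) (nat_lit 297) (nat_lit 132)) (XT.lf (nat_lit 0) (nat_lit 62382725132) (nat_lit 228) (nat_lit 32844779538) (nat_lit 76) (nat_lit 49057960933) (nat_lit 28) (nat_lit 5) (nat_lit 31) (nat_lit 5) (nat_lit 29) (nat_lit 5) (nat_lit 352) (nat_lit 297) (nat_lit 131)))))) (XT.nd (nat_lit 36816) (nat_lit 0) (nat_lit 10184) (XT.nd (nat_lit 36504) (nat_lit 0) (nat_lit 11400) (XT.nd (nat_lit 36348) (nat_lit 0) (nat_lit 11324) (XT.lf (nat_lit 0) (nat_lit 46103887388) (nat_lit 152) (nat_lit 51701248203) (nat_lit 228) (nat_lit 52258104248) (nat_lit 26) (nat_lit 5) (nat_lit 28) (nat_lit 5) (nat_lit 29) (nat_lit 5) (nat_lit 353) (nat_lit 297) (nat_lit 130)) (XT.nd (nat_lit 78) (nat_lit 0) (nat_lit 0) (XT.lf (nat_lit 0) (nat_lit 1311883822) (nat_lit 0) (nat_lit 1311883822) (nat_lit 1140) (nat_lit 10489702205) (nat_lit 175) (nat_lit 5) (nat_lit 175) (nat_lit 3) (nat_lit 190) (nat_lit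 3) (nat_lit 298) (nat_lit 298) (nat_lit 184)) (XT.lf (nat_lit 0) (nat_lit 5690572955) (nat_lit 1140) (nat_lit 4518365096) (nat_lit 1216) (nat_lit 16664092094) (nat_lit 175) (nat_lit 5) (nat_lit 190) (nat_lit 3) (nat_lit 191) (nat_lit 5) (nat_lit 299) (nat_lit 298) (nat_lit 183)))) (XT.nd (nat_lit 156) (nat_lit 0) (nat_lit 76) (XT.nd (nat_lit 78) (nat_lit 0) (nat_lit 76) (XT.lf (nat_lit 0) (nat_lit 6415697776) (nat_lit 1140) (nat_lit 11840065120) (nat_lit 1216) (nat_lit 9287878724) (nat_lit 176) (nat_lit 5) (nat_lit 191) (nat_lit 5) (nat_lit 192) (nat_lit 5) (nat_lit 300) (nat_lit 298) (nat_lit 182)) (XT.lf (nat_lit 0) (nat_lit 7417028495) (nat_lit 1140) (nat_lit 19406373945) (nat_lit 1216) (nat_lit 1417196613) (nat_lit 177) (nat_lit 5) (nat_lit 192) (nat_lit 5) (nat_lit 193) (nat_lit 5) (nat_lit 301) (nat_lit 298) (nat_lit 181))) (XT.nd (nat_lit 78) (nat_lit 0) (nat_lit 76) (XT.lf (nat_lit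 76) (nat_lit 1662447028) (nat_lit 0) (nat_lit 7120706280) (nat_lit 1216) (nat_lit 20179822436) (nat_lit 178) (nat_lit 5) (nat_lit 177) (nat_lit 5) (nat_lit 193) (nat_lit 5) (nat_lit 302) (nat_lit 298) (nat_lit 180)) (XT.lf (nat_lit 0) (nat_lit 10541534238) (nat_lit 1140) (nat_lit 5663190330) (nat_lit 1216) (nat_lit 13507040790) (nat_lit 178) (nat_lit 5) (nat_lit 193) (nat_lit 5) (nat_lit 194) (nat_lit 5) (nat_lit 303) (nat_lit 298) (nat_lit 179))))) (XT.nd (nat_lit 234) (nat_lit 1444) (nat_lit 0) (XT.nd (nat_lit 78) (nat_lit 0) (nat_lit 0) (XT.lf (nat_lit 0) (nat_lit 12663504680) (nat_lit 1140) (nat_lit 13219498036) (nat_lit 1216) (nat_lit 4606733605) (nat_lit 179) (nat_lit 5) (nat_lit 194) (nat_lit 5) (nat_lit 195) (nat_lit 5) (nat_lit 304) (nat_lit 298) (nat_lit 178)) (XT.nd (nat_lit 78) (nat_lit 0) (nat_lit 76) (XT.lf (nat_lit 76) (nat_lit 10193189703) (nat_lit 0) (nat_lit 5011321925)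 (nat_lit 1216) (nat_lit 16092717481) (nat_lit 180) (nat_lit 5) (nat_lit 179) (nat_lit 5) (nat_lit 195) (nat_lit 5) (nat_lit 305) (nat_lit 298) (nat_lit 177)) (XT.lf (nat_lit 76) (nat_lit 2796991678) (nat_lit 0) (nat_lit 15395231047) (nat_lit 1216) (nat_lit 13943295067) (nat_lit 181) (nat_lit 5) (nat_lit 180) (nat_lit 5) (nat_lit 196) (nat_lit 5) (nat_lit 306) (nat_lit 298) (nat_lit 176)))) (XT.nd (nat_lit 156) (nat_lit 1596) (nat_lit 0) (XT.nd (nat_lit 78) (nat_lit 0) (nat_lit 0) (XT.lf (nat_lit 0) (nat_lit 21654069871) (nat_lit 1140) (nat_lit 4795039031) (nat_lit 1216) (nat_lit 6556879844) (nat_lit 181) (nat_lit 5) (nat_lit 196) (nat_lit 5) (nat_lit 197) (nat_lit 5) (nat_lit 307) (nat_lit 298) (nat_lit 175)) (XT.lf (nat_lit 76) (nat_lit 21229188585) (nat_lit 0) (nat_lit 4412752696) (nat_lit 1216) (nat_lit 8267463871) (nat_lit 182) (nat_lit 5) (nat_lit 181) (nat_lit 5) (nat_lit 197) (nat_lit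 5) (nat_lit 308) (nat_lit 298) (nat_lit 174))) (XT.nd (nat_lit 78) (nat_lit 532) (nat_lit 0) (XT.lf (nat_lit 0) (nat_lit 13883384277) (nat_lit 1140) (nat_lit 16302875162) (nat_lit 1216) (nat_lit 4661030732) (nat_lit 167) (nat_lit 5) (nat_lit 182) (nat_lit 5) (nat_lit 183) (nat_lit 5) (nat_lit 309) (nat_lit 298) (nat_lit 173)) (XT.lf (nat_lit 0) (nat_lit 6217853780) (nat_lit 532) (nat_lit 29034311367) (nat_lit 608) (nat_lit 571082089) (nat_lit 160) (nat_lit 5) (nat_lit 167) (nat_lit 5) (nat_lit 168) (nat_lit 5) (nat_lit 310) (nat_lit 298) (nat_lit 172))))))))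
noncomputable def xc107 : XT := (XT.nd (nat_lit 2028) (nat_lit 2052) (nat_lit 0) (XT.nd (nat_lit 1014) (nat_lit 3116) (nat_lit 0) (XT.nd (nat_lit 468) (nat_lit 2660) (nat_lit 0) (XT.nd (nat_lit 234) (nat_lit 988) (nat_lit 0) (XT.nd (nat_lit 78) (nat_lit 1140) (nat_lit 0) (XT.lf (nat_lit 0) (nat_lit 4027371237) (nat_lit 608) (nat_lit 1852591735) (nat_lit 76) (nat_lit 30955673809) (nat_lit 159) (nat_lit 5) (nat_lit 167) (nat_lit 5) (nat_lit 160) (nat_lit 5) (nat_lit 311) (nat_lit 298) (nat_lit 171)) (XT.nd (nat_lit 78) (nat_lit 532) (nat_lit 0) (XT.lf (nat_lit 0) (nat_lit 9285807557) (nat_lit 684) (nat_lit 10250679553) (nat_lit 76) (nat_lit 18348740805) (nat_lit 151) (nat_lit 5) (nat_lit 160) (nat_lit 5) (nat_lit 152) (nat_lit 5) (nat_lit 312) (nat_lit 298) (nat_lit 170)) (XT.lf (nat_lit 0) (nat_lit 15119545552) (nat_lit 608) (nat_lit 19053353818) (nat_lit 76) (nat_lit 4805035340) (nat_lit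 144) (nat_lit 5) (nat_lit 152) (nat_lit 5) (nat_lit 145) (nat_lit 5) (nat_lit 313) (nat_lit 298) (nat_lit 169)))) (XT.nd (nat_lit 78) (nat_lit 456) (nat_lit 0) (XT.lf (nat_lit 0) (nat_lit 11726134495) (nat_lit 532) (nat_lit 9930185219) (nat_lit 608) (nat_lit 18456623795) (nat_lit 137) (nat_lit 5) (nat_lit 144) (nat_lit 5) (nat_lit 145) (nat_lit 5) (nat_lit 314) (nat_lit 298) (nat_lit 168)) (XT.nd (nat_lit 78) (nat_lit 0) (nat_lit 0) (XT.lf (nat_lit 0) (nat_lit 3047060637) (nat_lit 456) (nat_lit 25844546686) (nat_lit 532) (nat_lit 12401951988) (nat_lit 131) (nat_lit 5) (nat_lit 137) (nat_lit 5) (nat_lit 138) (nat_lit 5) (nat_lit 315) (nat_lit 298) (nat_lit 167)) (XT.lf (nat_lit 0) (nat_lit 36538588436) (nat_lit 456) (nat_lit 336792146) (nat_lit 532) (nat_lit 5646230160) (nat_lit 131) (nat_lit 5) (nat_lit 137) (nat_lit 5) (nat_lit 138) (nat_lit 5) (nat_lit 316) (nat_lit 298) (nat_lit 166)))))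 (XT.nd (nat_lit 234) (nat_lit 1216) (nat_lit 0) (XT.nd (nat_lit 78) (nat_lit 912) (nat_lit 0) (XT.lf (nat_lit 0) (nat_lit 1944811996) (nat_lit 532) (nat_lit 15630042909) (nat_lit 76) (nat_lit 26220025193) (nat_lit 124) (nat_lit 5) (nat_lit 131) (nat_lit 5) (nat_lit 125) (nat_lit 5) (nat_lit 317) (nat_lit 298) (nat_lit 165)) (XT.nd (nat_lit 78) (nat_lit 456) (nat_lit 0) (XT.lf (nat_lit 0) (nat_lit 10135900450) (nat_lit 532) (nat_lit 25885486229) (nat_lit 76) (nat_lit 9098636843) (nat_lit 118) (nat_lit 5) (nat_lit 125) (nat_lit 5) (nat_lit 119) (nat_lit 5) (nat_lit 318) (nat_lit 298) (nat_lit 164)) (XT.lf (nat_lit 0) (nat_lit 9667177780) (nat_lit 456) (nat_lit 9497932079) (nat_lit 532) (nat_lit 27333462696) (nat_lit 112) (nat_lit 5) (nat_lit 118) (nat_lit 5) (nat_lit 119) (nat_lit 5) (nat_lit 319) (nat_lit 298) (nat_lit 163)))) (XT.nd (nat_lit 156) (nat_lit 836) (nat_lit 0) (XT.nd (nat_lit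 78) (nat_lit 380) (nat_lit 0) (XT.lf (nat_lit 0) (nat_lit 29087206286) (nat_lit 532) (nat_lit 583532472) (nat_lit 76) (nat_lit 18262072660) (nat_lit 112) (nat_lit 5) (nat_lit 119) (nat_lit 5) (nat_lit 113) (nat_lit 5) (nat_lit 320) (nat_lit 298) (nat_lit 162)) (XT.lf (nat_lit 0) (nat_lit 38120112058) (nat_lit 380) (nat_lit 1843701181) (nat_lit 456) (nat_lit 9461201743) (nat_lit 107) (nat_lit 5) (nat_lit 112) (nat_lit 5) (nat_lit 113) (nat_lit 5) (nat_lit 321) (nat_lit 298) (nat_lit 161))) (XT.nd (nat_lit 78) (nat_lit 380) (nat_lit 0) (XT.lf (nat_lit 0) (nat_lit 925231953) (nat_lit 456) (nat_lit 22925614549) (nat_lit 76) (nat_lit 27124659582) (nat_lit 101) (nat_lit 5) (nat_lit 107) (nat_lit 5) (nat_lit 102) (nat_lit 5) (nat_lit 322) (nat_lit 298) (nat_lit 160)) (XT.lf (nat_lit 0) (nat_lit 11986033081) (nat_lit 456) (nat_lit 35417598769) (nat_lit 76) (nat_lit 5186562437) (nat_lit 96) (nat_lit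 5) (nat_lit 102) (nat_lit 5) (nat_lit 97) (nat_lit 5) (nat_lit 323) (nat_lit 298) (nat_lit 159)))))) (XT.nd (nat_lit 468) (nat_lit 1672) (nat_lit 0) (XT.nd (nat_lit 234) (nat_lit 760) (nat_lit 0) (XT.nd (nat_lit 78) (nat_lit 304) (nat_lit 0) (XT.lf (nat_lit 0) (nat_lit 5332746747) (nat_lit 380) (nat_lit 18793919044) (nat_lit 456) (nat_lit 30143151497) (nat_lit 91) (nat_lit 5) (nat_lit 96) (nat_lit 5) (nat_lit 97) (nat_lit 5) (nat_lit 324) (nat_lit 298) (nat_lit 158)) (XT.nd (nat_lit 78) (nat_lit 304) (nat_lit 0) (XT.lf (nat_lit 0) (nat_lit 37347218140) (nat_lit 456) (nat_lit 7277936821) (nat_lit 76) (nat_lit 11394083774) (nat_lit 91) (nat_lit 5) (nat_lit 97) (nat_lit 5) (nat_lit 92) (nat_lit 5) (nat_lit 325) (nat_lit 298) (nat_lit 157)) (XT.lf (nat_lit 0) (nat_lit 36992052662) (nat_lit 304) (nat_lit 14778769288) (nat_lit 380) (nat_lit 6069052338) (nat_lit 87) (nat_lit 5) (nat_lit 91) (nat_lit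 5) (nat_lit 92) (nat_lit 5) (nat_lit 326) (nat_lit 298) (nat_lit 156)))) (XT.nd (nat_lit 78) (nat_lit 304) (nat_lit 0) (XT.lf (nat_lit 0) (nat_lit 7493045864) (nat_lit 456) (nat_lit 35624936799) (nat_lit 76) (nat_lit 16617433115) (nat_lit 81) (nat_lit 5) (nat_lit 87) (nat_lit 5) (nat_lit 82) (nat_lit 5) (nat_lit 327) (nat_lit 298) (nat_lit 155)) (XT.nd (nat_lit 78) (nat_lit 0) (nat_lit 0) (XT.lf (nat_lit 0) (nat_lit 10011707007) (nat_lit 304) (nat_lit 12056255661) (nat_lit 380) (nat_lit 39642165356) (nat_lit 77) (nat_lit 5) (nat_lit 81) (nat_lit 5) (nat_lit 82) (nat_lit 5) (nat_lit 328) (nat_lit 298) (nat_lit 154)) (XT.lf (nat_lit 0) (nat_lit 37936627217) (nat_lit 380) (nat_lit 5303316604) (nat_lit 76) (nat_lit 20526685151) (nat_lit 77) (nat_lit 5) (nat_lit 82) (nat_lit 5) (nat_lit 78) (nat_lit 5) (nat_lit 329) (nat_lit 298) (nat_lit 153))))) (XT.nd (nat_lit 234) (nat_lit 760) (nat_lit 0)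 (XT.nd (nat_lit 78) (nat_lit 608) (nat_lit 0) (XT.lf (nat_lit 0) (nat_lit 44147398170) (nat_lit 304) (nat_lit 10994549344) (nat_lit 380) (nat_lit 10767713771) (nat_lit 73) (nat_lit 5) (nat_lit 77) (nat_lit 5) (nat_lit 78) (nat_lit 5) (nat_lit 330) (nat_lit 298) (nat_lit 152)) (XT.nd (nat_lit 78) (nat_lit 304) (nat_lit 0) (XT.lf (nat_lit 0) (nat_lit 5499279722) (nat_lit 304) (nat_lit 39845110414) (nat_lit 76) (nat_lit 22797499511) (nat_lit 69) (nat_lit 5) (nat_lit 73) (nat_lit 5) (nat_lit 70) (nat_lit 5) (nat_lit 331) (nat_lit 298) (nat_lit 151)) (XT.lf (nat_lit 0) (nat_lit 10819959678) (nat_lit 304) (nat_lit 11977578054) (nat_lit 380) (nat_lit 47671777772) (nat_lit 65) (nat_lit 5) (nat_lit 69) (nat_lit 5) (nat_lit 70) (nat_lit 5) (nat_lit 332) (nat_lit 298) (nat_lit 150)))) (XT.nd (nat_lit 156) (nat_lit 532) (nat_lit 0) (XT.nd (nat_lit 78) (nat_lit 228) (nat_lit 0) (XT.lf (nat_lit 0) (nat_lit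 41593981942) (nat_lit 380) (nat_lit 8279381622) (nat_lit 76) (nat_lit 23020753401) (nat_lit 65) (nat_lit 5) (nat_lit 70) (nat_lit 5) (nat_lit 66) (nat_lit 5) (nat_lit 333) (nat_lit 298) (nat_lit 149)) (XT.lf (nat_lit 0) (nat_lit 46440808655) (nat_lit 228) (nat_lit 15454272093) (nat_lit 304) (nat_lit 13528135174) (nat_lit 62) (nat_lit 5) (nat_lit 65) (nat_lit 5) (nat_lit 66) (nat_lit 5) (nat_lit 334) (nat_lit 298) (nat_lit 148))) (XT.nd (nat_lit 78) (nat_lit 228) (nat_lit 0) (XT.lf (nat_lit 0) (nat_lit 5572971506) (nat_lit 304) (nat_lit 51813520881) (nat_lit 76) (nat_lit 20674579766) (nat_lit 58) (nat_lit 5) (nat_lit 62) (nat_lit 5) (nat_lit 59) (nat_lit 5) (nat_lit 335) (nat_lit 298) (nat_lit 147)) (XT.lf (nat_lit 0) (nat_lit 3797890774) (nat_lit 228) (nat_lit 22045506310) (nat_lit 304) (nat_lit 54968586577) (nat_lit 55) (nat_lit 5) (nat_lit 58) (nat_lit 5) (nat_lit 59) (nat_lit 5) (nat_lit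 336) (nat_lit 298) (nat_lit 146))))))) (XT.nd (nat_lit 1014) (nat_lit 380) (nat_lit 0) (XT.nd (nat_lit 468) (nat_lit 836) (nat_lit 0) (XT.nd (nat_lit 234) (nat_lit 380) (nat_lit 0) (XT.nd (nat_lit 78) (nat_lit 456) (nat_lit 0) (XT.lf (nat_lit 0) (nat_lit 47808509163) (nat_lit 304) (nat_lit 20565368898) (nat_lit 76) (nat_lit 15306129732) (nat_lit 55) (nat_lit 5) (nat_lit 59) (nat_lit 5) (nat_lit 56) (nat_lit 5) (nat_lit 337) (nat_lit 298) (nat_lit 145)) (XT.nd (nat_lit 78) (nat_lit 228) (nat_lit 0) (XT.lf (nat_lit 0) (nat_lit 39245791773) (nat_lit 228) (nat_lit 32223678425) (nat_lit 304) (nat_lit 15204037045) (nat_lit 52) (nat_lit 5) (nat_lit 55) (nat_lit 5) (nat_lit 56) (nat_lit 5) (nat_lit 338) (nat_lit 298) (nat_lit 144)) (XT.lf (nat_lit 0) (nat_lit 6764285111) (nat_lit 228) (nat_lit 77013949104) (nat_lit 76) (nat_lit 6024747778) (nat_lit 49) (nat_lit 5) (nat_lit 52) (nat_lit 5) (nat_lit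 50) (nat_lit 5) (nat_lit 339) (nat_lit 298) (nat_lit 143)))) (XT.nd (nat_lit 78) (nat_lit 380) (nat_lit 0) (XT.lf (nat_lit 0) (nat_lit 30335743226) (nat_lit 228) (nat_lit 16553322083) (nat_lit 76) (nat_lit 46170775923) (nat_lit 49) (nat_lit 5) (nat_lit 52) (nat_lit 5) (nat_lit 50) (nat_lit 5) (nat_lit 340) (nat_lit 298) (nat_lit 142)) (XT.nd (nat_lit 78) (nat_lit 152) (nat_lit 0) (XT.lf (nat_lit 0) (nat_lit 47861210929) (nat_lit 228) (nat_lit 7682670603) (nat_lit 304) (nat_lit 40921920285) (nat_lit 46) (nat_lit 5) (nat_lit 49) (nat_lit 5) (nat_lit 50) (nat_lit 5) (nat_lit 341) (nat_lit 298) (nat_lit 141)) (XT.lf (nat_lit 0) (nat_lit 15786911135) (nat_lit 152) (nat_lit 66869317666) (nat_lit 228) (nat_lit 17366519095) (nat_lit 44) (nat_lit 5) (nat_lit 46) (nat_lit 5) (nat_lit 47) (nat_lit 5) (nat_lit 342) (nat_lit 298) (nat_lit 140))))) (XT.nd (nat_lit 234) (nat_lit 380) (nat_lit 0) (XT.nd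 (nat_lit 78) (nat_lit 380) (nat_lit 0) (XT.lf (nat_lit 0) (nat_lit 7803873965) (nat_lit 228) (nat_lit 19485141247) (nat_lit 76) (nat_lit 76448973943) (nat_lit 43) (nat_lit 5) (nat_lit 46) (nat_lit 5) (nat_lit 44) (nat_lit 5) (nat_lit 343) (nat_lit 298) (nat_lit 139)) (XT.nd (nat_lit 78) (nat_lit 152) (nat_lit 0) (XT.lf (nat_lit 0) (nat_lit 34492546632) (nat_lit 304) (nat_lit 58476440051) (nat_lit 76) (nat_lit 14646280980) (nat_lit 40) (nat_lit 5) (nat_lit 44) (nat_lit 5) (nat_lit 41) (nat_lit 5) (nat_lit 344) (nat_lit 298) (nat_lit 138)) (XT.lf (nat_lit 0) (nat_lit 9832428666) (nat_lit 152) (nat_lit 53254012987) (nat_lit 228) (nat_lit 48582846061) (nat_lit 38) (nat_lit 5) (nat_lit 40) (nat_lit 5) (nat_lit 41) (nat_lit 5) (nat_lit 345) (nat_lit 298) (nat_lit 137)))) (XT.nd (nat_lit 156) (nat_lit 152) (nat_lit 0) (XT.nd (nat_lit 78) (nat_lit 228) (nat_lit 0) (XT.lf (nat_lit 0) (nat_lit 82776005467)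 (nat_lit 152) (nat_lit 10934315971) (nat_lit 228) (nat_lit 22197679848) (nat_lit 38) (nat_lit 5) (nat_lit 40) (nat_lit 5) (nat_lit 41) (nat_lit 5) (nat_lit 346) (nat_lit 298) (nat_lit 136)) (XT.lf (nat_lit 0) (nat_lit 6105896485) (nat_lit 228) (nat_lit 80944202408) (nat_lit 76) (nat_lit 33285766499) (nat_lit 35) (nat_lit 5) (nat_lit 38) (nat_lit 5) (nat_lit 36) (nat_lit 5) (nat_lit 347) (nat_lit 298) (nat_lit 135))) (XT.nd (nat_lit 78) (nat_lit 152) (nat_lit 0) (XT.lf (nat_lit 0) (nat_lit 35823073444) (nat_lit 228) (nat_lit 9081398546) (nat_lit 76) (nat_lit 80060333298) (nat_lit 35) (nat_lit 5) (nat_lit 38) (nat_lit 5) (nat_lit 36) (nat_lit 5) (nat_lit 348) (nat_lit 298) (nat_lit 134)) (XT.lf (nat_lit 0) (nat_lit 67675492756) (nat_lit 228) (nat_lit 62112871229) (nat_lit 76) (nat_lit 17347712) (nat_lit 33) (nat_lit 5) (nat_lit 36) (nat_lit 5) (nat_lit 34) (nat_lit 5) (nat_lit 349) (nat_lit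 298) (nat_lit 133)))))) (XT.nd (nat_lit 36894) (nat_lit 0) (nat_lit 11324) (XT.nd (nat_lit 234) (nat_lit 0) (nat_lit 0) (XT.nd (nat_lit 78) (nat_lit 228) (nat_lit 0) (XT.lf (nat_lit 0) (nat_lit 13414893675) (nat_lit 152) (nat_lit 88380779549) (nat_lit 228) (nat_lit 33072736971) (nat_lit 31) (nat_lit 5) (nat_lit 33) (nat_lit 5) (nat_lit 34) (nat_lit 5) (nat_lit 350) (nat_lit 298) (nat_lit 132)) (XT.nd (nat_lit 78) (nat_lit 228) (nat_lit 0) (XT.lf (nat_lit 0) (nat_lit 94014663791) (nat_lit 152) (nat_lit 44245188427) (nat_lit 228) (nat_lit 1905252640) (nat_lit 31) (nat_lit 5) (nat_lit 33) (nat_lit 5) (nat_lit 34) (nat_lit 5) (nat_lit 351) (nat_lit 298) (nat_lit 131)) (XT.lf (nat_lit 0) (nat_lit 30563876795) (nat_lit 228) (nat_lit 112466010275) (nat_lit 76) (nat_lit 2677519291) (nat_lit 28) (nat_lit 5) (nat_lit 31) (nat_lit 5) (nat_lit 29) (nat_lit 5) (nat_lit 352) (nat_lit 298) (nat_lit 130))))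 (XT.nd (nat_lit 36504) (nat_lit 0) (nat_lit 11172) (XT.nd (nat_lit 36426) (nat_lit 0) (nat_lit 11172) (XT.lf (nat_lit 0) (nat_lit 65542464501) (nat_lit 228) (nat_lit 34418089494) (nat_lit 76) (nat_lit 51537941682) (nat_lit 28) (nat_lit 5) (nat_lit 31) (nat_lit 5) (nat_lit 29) (nat_lit 5) (nat_lit 353) (nat_lit 298) (nat_lit 129)) (XT.lf (nat_lit 0) (nat_lit 1450556866) (nat_lit 0) (nat_lit 1450556866) (nat_lit 1140) (nat_lit 10863420862) (nat_lit 175) (nat_lit 5) (nat_lit 175) (nat_lit 3) (nat_lit 190) (nat_lit 3) (nat_lit 299) (nat_lit 299) (nat_lit 182))) (XT.nd (nat_lit 78) (nat_lit 0) (nat_lit 76) (XT.lf (nat_lit 0) (nat_lit 6252159178) (nat_lit 1140) (nat_lit 4594968914) (nat_lit 1216) (nat_lit 17360815135) (nat_lit 175) (nat_lit 5) (nat_lit 190) (nat_lit 3) (nat_lit 191) (nat_lit 5) (nat_lit 300) (nat_lit 299) (nat_lit 181)) (XT.lf (nat_lit 0) (nat_lit 7000585514) (nat_lit 1140) (nat_lit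 12277514204) (nat_lit 1216) (nat_lit 9634394519) (nat_lit 176) (nat_lit 5) (nat_lit 191) (nat_lit 5) (nat_lit 192) (nat_lit 5) (nat_lit 301) (nat_lit 299) (nat_lit 180))))) (XT.nd (nat_lit 234) (nat_lit 0) (nat_lit 152) (XT.nd (nat_lit 78) (nat_lit 0) (nat_lit 0) (XT.lf (nat_lit 0) (nat_lit 8039860909) (nat_lit 1140) (nat_lit 20217604002) (nat_lit 1216) (nat_lit 1387217637) (nat_lit 177) (nat_lit 5) (nat_lit 192) (nat_lit 5) (nat_lit 193) (nat_lit 5) (nat_lit 302) (nat_lit 299) (nat_lit 179)) (XT.nd (nat_lit 78) (nat_lit 0) (nat_lit 76) (XT.lf (nat_lit 76) (nat_lit 1900097777) (nat_lit 0) (nat_lit 7563680514) (nat_lit 1216) (nat_lit 20939733624) (nat_lit 178) (nat_lit 5) (nat_lit 177) (nat_lit 5) (nat_lit 193) (nat_lit 5) (nat_lit 303) (nat_lit 299) (nat_lit 178)) (XT.lf (nat_lit 0) (nat_lit 11297783908) (nat_lit 1140) (nat_lit 5791133918) (nat_lit 1216) (nat_lit 14101209565) (nat_lit 178)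 (nat_lit 5) (nat_lit 193) (nat_lit 5) (nat_lit 194) (nat_lit 5) (nat_lit 304) (nat_lit 299) (nat_lit 177)))) (XT.nd (nat_lit 156) (nat_lit 0) (nat_lit 76) (XT.nd (nat_lit 78) (nat_lit 0) (nat_lit 0) (XT.lf (nat_lit 0) (nat_lit 13515726419) (nat_lit 1140) (nat_lit 13722117919) (nat_lit 1216) (nat_lit 4769473076) (nat_lit 179) (nat_lit 5) (nat_lit 194) (nat_lit 5) (nat_lit 195) (nat_lit 5) (nat_lit 305) (nat_lit 299) (nat_lit 176)) (XT.lf (nat_lit 76) (nat_lit 10856664993) (nat_lit 0) (nat_lit 5318166507) (nat_lit 1216) (nat_lit 16680637827) (nat_lit 180) (nat_lit 5) (nat_lit 179) (nat_lit 5) (nat_lit 195) (nat_lit 5) (nat_lit 306) (nat_lit 299) (nat_lit 175))) (XT.nd (nat_lit 78) (nat_lit 0) (nat_lit 76) (XT.lf (nat_lit 76) (nat_lit 3093204885) (nat_lit 0) (nat_lit 16209706616) (nat_lit 1216) (nat_lit 14433046604) (nat_lit 181) (nat_lit 5) (nat_lit 180) (nat_lit 5) (nat_lit 196) (nat_lit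 5) (nat_lit 307) (nat_lit 299) (nat_lit 174)) (XT.lf (nat_lit 0) (nat_lit 22927866529) (nat_lit 1140) (nat_lit 4879430013) (nat_lit 1216) (nat_lit 6842970041) (nat_lit 181) (nat_lit 5) (nat_lit 196) (nat_lit 5) (nat_lit 197) (nat_lit 5) (nat_lit 308) (nat_lit 299) (nat_lit 173))))))))
noncomputable def xc108 : XT := (XT.nd (nat_lit 2028) (nat_lit 2584) (nat_lit 0) (XT.nd (nat_lit 1014) (nat_lit 3572) (nat_lit 0) (XT.nd (nat_lit 468) (nat_lit 2432) (nat_lit 0) (XT.nd (nat_lit 234) (nat_lit 1216) (nat_lit 0) (XT.nd (nat_lit 78) (nat_lit 1596) (nat_lit 0) (XT.lf (nat_lit 76) (nat_lit 22441555593) (nat_lit 0) (nat_lit 4665926857) (nat_lit 1216) (nat_lit 8491614582) (nat_lit 182) (nat_lit 5) (nat_lit 181) (nat_lit 5) (nat_lit 197) (nat_lit 5) (nat_lit 309) (nat_lit 299) (nat_lit 172)) (XT.nd (nat_lit 78) (nat_lit 532) (nat_lit 0) (XT.lf (nat_lit 0) (nat_lit 14730051871) (nat_lit 1140) (nat_lit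 17141397251) (nat_lit 1216) (nat_lit 4712667300) (nat_lit 167) (nat_lit 5) (nat_lit 182) (nat_lit 5) (nat_lit 183) (nat_lit 5) (nat_lit 310) (nat_lit 299) (nat_lit 171)) (XT.lf (nat_lit 0) (nat_lit 6682471303) (nat_lit 532) (nat_lit 30501067403) (nat_lit 608) (nat_lit 425558451) (nat_lit 160) (nat_lit 5) (nat_lit 167) (nat_lit 5) (nat_lit 168) (nat_lit 5) (nat_lit 311) (nat_lit 299) (nat_lit 170)))) (XT.nd (nat_lit 78) (nat_lit 1140) (nat_lit 0) (XT.lf (nat_lit 0) (nat_lit 4391292998) (nat_lit 608) (nat_lit 1795350909) (nat_lit 76) (nat_lit 32485667436) (nat_lit 159) (nat_lit 5) (nat_lit 167) (nat_lit 5) (nat_lit 160) (nat_lit 5) (nat_lit 312) (nat_lit 299) (nat_lit 169)) (XT.nd (nat_lit 78) (nat_lit 532) (nat_lit 0) (XT.lf (nat_lit 0) (nat_lit 9906207601) (nat_lit 684) (nat_lit 10612630814) (nat_lit 76) (nat_lit 19255747908) (nat_lit 151) (nat_lit 5) (nat_lit 160) (nat_lit 5) (nat_lit 152)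 (nat_lit 5) (nat_lit 313) (nat_lit 299) (nat_lit 168)) (XT.lf (nat_lit 0) (nat_lit 16025568026) (nat_lit 608) (nat_lit 19855006847) (nat_lit 76) (nat_lit 5041545982) (nat_lit 144) (nat_lit 5) (nat_lit 152) (nat_lit 5) (nat_lit 145) (nat_lit 5) (nat_lit 314) (nat_lit 299) (nat_lit 167))))) (XT.nd (nat_lit 234) (nat_lit 1444) (nat_lit 0) (XT.nd (nat_lit 78) (nat_lit 456) (nat_lit 0) (XT.lf (nat_lit 0) (nat_lit 12459127077) (nat_lit 532) (nat_lit 10424318844) (nat_lit 608) (nat_lit 19230616186) (nat_lit 137) (nat_lit 5) (nat_lit 144) (nat_lit 5) (nat_lit 145) (nat_lit 5) (nat_lit 315) (nat_lit 299) (nat_lit 166)) (XT.nd (nat_lit 78) (nat_lit 0) (nat_lit 0) (XT.lf (nat_lit 0) (nat_lit 3346271391) (nat_lit 456) (nat_lit 27128788039) (nat_lit 532) (nat_lit 12878821912) (nat_lit 131) (nat_lit 5) (nat_lit 137) (nat_lit 5) (nat_lit 138) (nat_lit 5) (nat_lit 316) (nat_lit 299) (nat_lit 165)) (XT.lf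 (nat_lit 0) (nat_lit 38505382354) (nat_lit 456) (nat_lit 346026057) (nat_lit 532) (nat_lit 5792134358) (nat_lit 131) (nat_lit 5) (nat_lit 137) (nat_lit 5) (nat_lit 138) (nat_lit 5) (nat_lit 317) (nat_lit 299) (nat_lit 164)))) (XT.nd (nat_lit 156) (nat_lit 456) (nat_lit 0) (XT.nd (nat_lit 78) (nat_lit 456) (nat_lit 0) (XT.lf (nat_lit 0) (nat_lit 2170856875) (nat_lit 532) (nat_lit 16269000585) (nat_lit 76) (nat_lit 27540735390) (nat_lit 124) (nat_lit 5) (nat_lit 131) (nat_lit 5) (nat_lit 125) (nat_lit 5) (nat_lit 318) (nat_lit 299) (nat_lit 163)) (XT.lf (nat_lit 0) (nat_lit 10766836130) (nat_lit 532) (nat_lit 27037561830) (nat_lit 76) (nat_lit 9567743352) (nat_lit 118) (nat_lit 5) (nat_lit 125) (nat_lit 5) (nat_lit 119) (nat_lit 5) (nat_lit 319) (nat_lit 299) (nat_lit 162))) (XT.nd (nat_lit 78) (nat_lit 0) (nat_lit 0) (XT.lf (nat_lit 0) (nat_lit 10288659282) (nat_lit 456) (nat_lit 9954262986)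 (nat_lit 532) (nat_lit 28576840619) (nat_lit 112) (nat_lit 5) (nat_lit 118) (nat_lit 5) (nat_lit 119) (nat_lit 5) (nat_lit 320) (nat_lit 299) (nat_lit 161)) (XT.lf (nat_lit 0) (nat_lit 30655600297) (nat_lit 532) (nat_lit 477773436) (nat_lit 76) (nat_lit 19192512876) (nat_lit 112) (nat_lit 5) (nat_lit 119) (nat_lit 5) (nat_lit 113) (nat_lit 5) (nat_lit 321) (nat_lit 299) (nat_lit 160)))))) (XT.nd (nat_lit 468) (nat_lit 1672) (nat_lit 0) (XT.nd (nat_lit 234) (nat_lit 684) (nat_lit 0) (XT.nd (nat_lit 78) (nat_lit 836) (nat_lit 0) (XT.lf (nat_lit 0) (nat_lit 40157185417) (nat_lit 380) (nat_lit 1914681908) (nat_lit 456) (nat_lit 9820965010) (nat_lit 107) (nat_lit 5) (nat_lit 112) (nat_lit 5) (nat_lit 113) (nat_lit 5) (nat_lit 322) (nat_lit 299) (nat_lit 159)) (XT.nd (nat_lit 78) (nat_lit 380) (nat_lit 0) (XT.lf (nat_lit 0) (nat_lit 1078752137) (nat_lit 456) (nat_lit 23939185770) (nat_lit 76)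 (nat_lit 28502998592) (nat_lit 101) (nat_lit 5) (nat_lit 107) (nat_lit 5) (nat_lit 102) (nat_lit 5) (nat_lit 323) (nat_lit 299) (nat_lit 158)) (XT.lf (nat_lit 0) (nat_lit 12688970155) (nat_lit 456) (nat_lit 37056595778) (nat_lit 76) (nat_lit 5470907927) (nat_lit 96) (nat_lit 5) (nat_lit 102) (nat_lit 5) (nat_lit 97) (nat_lit 5) (nat_lit 324) (nat_lit 299) (nat_lit 157)))) (XT.nd (nat_lit 78) (nat_lit 304) (nat_lit 0) (XT.lf (nat_lit 0) (nat_lit 5727486616) (nat_lit 380) (nat_lit 19705444264) (nat_lit 456) (nat_lit 31547264005) (nat_lit 91) (nat_lit 5) (nat_lit 96) (nat_lit 5) (nat_lit 97) (nat_lit 5) (nat_lit 325) (nat_lit 299) (nat_lit 156)) (XT.nd (nat_lit 78) (nat_lit 304) (nat_lit 0) (XT.lf (nat_lit 0) (nat_lit 39310010089) (nat_lit 456) (nat_lit 7517124134) (nat_lit 76) (nat_lit 11990093695) (nat_lit 91) (nat_lit 5) (nat_lit 97) (nat_lit 5) (nat_lit 92) (nat_lit 5) (nat_lit 326) (nat_lit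 299) (nat_lit 155)) (XT.lf (nat_lit 0) (nat_lit 38962790049) (nat_lit 304) (nat_lit 15488624126) (nat_lit 380) (nat_lit 6277587701) (nat_lit 87) (nat_lit 5) (nat_lit 91) (nat_lit 5) (nat_lit 92) (nat_lit 5) (nat_lit 327) (nat_lit 299) (nat_lit 154))))) (XT.nd (nat_lit 234) (nat_lit 912) (nat_lit 0) (XT.nd (nat_lit 78) (nat_lit 304) (nat_lit 0) (XT.lf (nat_lit 0) (nat_lit 7957767088) (nat_lit 456) (nat_lit 37284119516) (nat_lit 76) (nat_lit 17477501184) (nat_lit 81) (nat_lit 5) (nat_lit 87) (nat_lit 5) (nat_lit 82) (nat_lit 5) (nat_lit 328) (nat_lit 299) (nat_lit 153)) (XT.nd (nat_lit 78) (nat_lit 0) (nat_lit 0) (XT.lf (nat_lit 0) (nat_lit 10630857536) (nat_lit 304) (nat_lit 12627422921) (nat_lit 380) (nat_lit 41534654274) (nat_lit 77) (nat_lit 5) (nat_lit 81) (nat_lit 5) (nat_lit 82) (nat_lit 5) (nat_lit 329) (nat_lit 299) (nat_lit 152)) (XT.lf (nat_lit 0) (nat_lit 39916528912) (nat_lit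 380) (nat_lit 5453281789) (nat_lit 76) (nat_lit 21582569890) (nat_lit 77) (nat_lit 5) (nat_lit 82) (nat_lit 5) (nat_lit 78) (nat_lit 5) (nat_lit 330) (nat_lit 299) (nat_lit 151)))) (XT.nd (nat_lit 156) (nat_lit 304) (nat_lit 0) (XT.nd (nat_lit 78) (nat_lit 304) (nat_lit 0) (XT.lf (nat_lit 0) (nat_lit 46466666520) (nat_lit 304) (nat_lit 11512568610) (nat_lit 380) (nat_lit 11223419969) (nat_lit 73) (nat_lit 5) (nat_lit 77) (nat_lit 5) (nat_lit 78) (nat_lit 5) (nat_lit 331) (nat_lit 299) (nat_lit 150)) (XT.lf (nat_lit 0) (nat_lit 5852818438) (nat_lit 304) (nat_lit 41724912168) (nat_lit 76) (nat_lit 23968819036) (nat_lit 69) (nat_lit 5) (nat_lit 73) (nat_lit 5) (nat_lit 70) (nat_lit 5) (nat_lit 332) (nat_lit 299) (nat_lit 149))) (XT.nd (nat_lit 78) (nat_lit 0) (nat_lit 0) (XT.lf (nat_lit 0) (nat_lit 11470187964) (nat_lit 304) (nat_lit 12543109719) (nat_lit 380) (nat_lit 49977133537) (nat_lit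 65) (nat_lit 5) (nat_lit 69) (nat_lit 5) (nat_lit 70) (nat_lit 5) (nat_lit 333) (nat_lit 299) (nat_lit 148)) (XT.lf (nat_lit 0) (nat_lit 43746255914) (nat_lit 380) (nat_lit 8587388982) (nat_lit 76) (nat_lit 24202930608) (nat_lit 65) (nat_lit 5) (nat_lit 70) (nat_lit 5) (nat_lit 66) (nat_lit 5) (nat_lit 334) (nat_lit 299) (nat_lit 147))))))) (XT.nd (nat_lit 1014) (nat_lit 532) (nat_lit 0) (XT.nd (nat_lit 468) (nat_lit 836) (nat_lit 0) (XT.nd (nat_lit 234) (nat_lit 456) (nat_lit 0) (XT.nd (nat_lit 78) (nat_lit 532) (nat_lit 0) (XT.lf (nat_lit 0) (nat_lit 48865773438) (nat_lit 228) (nat_lit 16194169646) (nat_lit 304) (nat_lit 14132263656) (nat_lit 62) (nat_lit 5) (nat_lit 65) (nat_lit 5) (nat_lit 66) (nat_lit 5) (nat_lit 335) (nat_lit 299) (nat_lit 146)) (XT.nd (nat_lit 78) (nat_lit 228) (nat_lit 0) (XT.lf (nat_lit 0) (nat_lit 5920404704) (nat_lit 304) (nat_lit 54300990863) (nat_lit 76) (nat_lit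 21740604957) (nat_lit 58) (nat_lit 5) (nat_lit 62) (nat_lit 5) (nat_lit 59) (nat_lit 5) (nat_lit 336) (nat_lit 299) (nat_lit 145)) (XT.lf (nat_lit 0) (nat_lit 4088032994) (nat_lit 228) (nat_lit 23114006750) (nat_lit 304) (nat_lit 57648490155) (nat_lit 55) (nat_lit 5) (nat_lit 58) (nat_lit 5) (nat_lit 59) (nat_lit 5) (nat_lit 337) (nat_lit 299) (nat_lit 144)))) (XT.nd (nat_lit 78) (nat_lit 456) (nat_lit 0) (XT.lf (nat_lit 0) (nat_lit 50262551260) (nat_lit 304) (nat_lit 21496517379) (nat_lit 76) (nat_lit 16102975082) (nat_lit 55) (nat_lit 5) (nat_lit 59) (nat_lit 5) (nat_lit 56) (nat_lit 5) (nat_lit 338) (nat_lit 299) (nat_lit 143)) (XT.nd (nat_lit 78) (nat_lit 228) (nat_lit 0) (XT.lf (nat_lit 0) (nat_lit 41302417402) (nat_lit 228) (nat_lit 33802020397) (nat_lit 304) (nat_lit 15900846685) (nat_lit 52) (nat_lit 5) (nat_lit 55) (nat_lit 5) (nat_lit 56) (nat_lit 5) (nat_lit 339) (nat_lit 299)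 (nat_lit 142)) (XT.lf (nat_lit 0) (nat_lit 7162902901) (nat_lit 228) (nat_lit 80770226148) (nat_lit 76) (nat_lit 6358140655) (nat_lit 49) (nat_lit 5) (nat_lit 52) (nat_lit 5) (nat_lit 50) (nat_lit 5) (nat_lit 340) (nat_lit 299) (nat_lit 141))))) (XT.nd (nat_lit 234) (nat_lit 456) (nat_lit 0) (XT.nd (nat_lit 78) (nat_lit 380) (nat_lit 0) (XT.lf (nat_lit 0) (nat_lit 31910057564) (nat_lit 228) (nat_lit 17291063985) (nat_lit 76) (nat_lit 48509938994) (nat_lit 49) (nat_lit 5) (nat_lit 52) (nat_lit 5) (nat_lit 50) (nat_lit 5) (nat_lit 341) (nat_lit 299) (nat_lit 140)) (XT.nd (nat_lit 78) (nat_lit 152) (nat_lit 0) (XT.lf (nat_lit 0) (nat_lit 50341618018) (nat_lit 228) (nat_lit 8035085006) (nat_lit 304) (nat_lit 42910675361) (nat_lit 46) (nat_lit 5) (nat_lit 49) (nat_lit 5) (nat_lit 50) (nat_lit 5) (nat_lit 342) (nat_lit 299) (nat_lit 139)) (XT.lf (nat_lit 0) (nat_lit 16662467705) (nat_lit 152)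 (nat_lit 70180670124) (nat_lit 228) (nat_lit 18179081962) (nat_lit 44) (nat_lit 5) (nat_lit 46) (nat_lit 5) (nat_lit 47) (nat_lit 5) (nat_lit 343) (nat_lit 299) (nat_lit 138)))) (XT.nd (nat_lit 156) (nat_lit 152) (nat_lit 0) (XT.nd (nat_lit 78) (nat_lit 228) (nat_lit 0) (XT.lf (nat_lit 0) (nat_lit 8246139043) (nat_lit 228) (nat_lit 20376216897) (nat_lit 76) (nat_lit 80300931168) (nat_lit 43) (nat_lit 5) (nat_lit 46) (nat_lit 5) (nat_lit 44) (nat_lit 5) (nat_lit 344) (nat_lit 299) (nat_lit 137)) (XT.lf (nat_lit 0) (nat_lit 36267834923) (nat_lit 304) (nat_lit 61318208974) (nat_lit 76) (nat_lit 15408429831) (nat_lit 40) (nat_lit 5) (nat_lit 44) (nat_lit 5) (nat_lit 41) (nat_lit 5) (nat_lit 345) (nat_lit 299) (nat_lit 136))) (XT.nd (nat_lit 78) (nat_lit 0) (nat_lit 0) (XT.lf (nat_lit 0) (nat_lit 10403751143) (nat_lit 152) (nat_lit 55886027260) (nat_lit 228) (nat_lit 50961467553) (nat_lit 38)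 (nat_lit 5) (nat_lit 40) (nat_lit 5) (nat_lit 41) (nat_lit 5) (nat_lit 346) (nat_lit 299) (nat_lit 135)) (XT.lf (nat_lit 0) (nat_lit 86990711497) (nat_lit 152) (nat_lit 11451806649) (nat_lit 228) (nat_lit 23259448782) (nat_lit 38) (nat_lit 5) (nat_lit 40) (nat_lit 5) (nat_lit 41) (nat_lit 5) (nat_lit 347) (nat_lit 299) (nat_lit 134)))))) (XT.nd (nat_lit 37050) (nat_lit 0) (nat_lit 11020) (XT.nd (nat_lit 234) (nat_lit 152) (nat_lit 0) (XT.nd (nat_lit 78) (nat_lit 152) (nat_lit 0) (XT.lf (nat_lit 0) (nat_lit 6457117818) (nat_lit 228) (nat_lit 84915616698) (nat_lit 76) (nat_lit 34978514908) (nat_lit 35) (nat_lit 5) (nat_lit 38) (nat_lit 5) (nat_lit 36) (nat_lit 5) (nat_lit 348) (nat_lit 299) (nat_lit 133)) (XT.nd (nat_lit 78) (nat_lit 152) (nat_lit 0) (XT.lf (nat_lit 0) (nat_lit 37657966649) (nat_lit 228) (nat_lit 9463281968) (nat_lit 76) (nat_lit 84090454805) (nat_lit 35) (nat_lit 5) (nat_lit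 38) (nat_lit 5) (nat_lit 36) (nat_lit 5) (nat_lit 349) (nat_lit 299) (nat_lit 132)) (XT.lf (nat_lit 0) (nat_lit 71101865204) (nat_lit 228) (nat_lit 65147366159) (nat_lit 76) (nat_lit 45459466) (nat_lit 33) (nat_lit 5) (nat_lit 36) (nat_lit 5) (nat_lit 34) (nat_lit 5) (nat_lit 350) (nat_lit 299) (nat_lit 131)))) (XT.nd (nat_lit 36660) (nat_lit 0) (nat_lit 10944) (XT.nd (nat_lit 78) (nat_lit 0) (nat_lit 0) (XT.lf (nat_lit 0) (nat_lit 14154747529) (nat_lit 152) (nat_lit 92771943018) (nat_lit 228) (nat_lit 34683875987) (nat_lit 31) (nat_lit 5) (nat_lit 33) (nat_lit 5) (nat_lit 34) (nat_lit 5) (nat_lit 351) (nat_lit 299) (nat_lit 130)) (XT.lf (nat_lit 0) (nat_lit 98781215238) (nat_lit 152) (nat_lit 46430899746) (nat_lit 228) (nat_lit 1960041146) (nat_lit 31) (nat_lit 5) (nat_lit 33) (nat_lit 5) (nat_lit 34) (nat_lit 5) (nat_lit 352) (nat_lit 299) (nat_lit 129))) (XT.nd (nat_lit 78) (nat_lit 0)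 (nat_lit 0) (XT.lf (nat_lit 0) (nat_lit 1589369383) (nat_lit 0) (nat_lit 1589369383) (nat_lit 1140) (nat_lit 11269842287) (nat_lit 175) (nat_lit 5) (nat_lit 175) (nat_lit 3) (nat_lit 190) (nat_lit 3) (nat_lit 300) (nat_lit 300) (nat_lit 180)) (XT.lf (nat_lit 0) (nat_lit 6816066524) (nat_lit 1140) (nat_lit 4689284763) (nat_lit 1216) (nat_lit 18105063090) (nat_lit 175) (nat_lit 5) (nat_lit 190) (nat_lit 3) (nat_lit 191) (nat_lit 5) (nat_lit 301) (nat_lit 300) (nat_lit 179))))) (XT.nd (nat_lit 234) (nat_lit 0) (nat_lit 152) (XT.nd (nat_lit 78) (nat_lit 0) (nat_lit 76) (XT.lf (nat_lit 0) (nat_lit 7590163858) (nat_lit 1140) (nat_lit 12751204723) (nat_lit 1216) (nat_lit 10009195296) (nat_lit 176) (nat_lit 5) (nat_lit 191) (nat_lit 5) (nat_lit 192) (nat_lit 5) (nat_lit 302) (nat_lit 300) (nat_lit 178)) (XT.nd (nat_lit 78) (nat_lit 0) (nat_lit 0) (XT.lf (nat_lit 0) (nat_lit 8670408140) (nat_lit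 1140) (nat_lit 21084186115) (nat_lit 1216) (nat_lit 1365114749) (nat_lit 177) (nat_lit 5) (nat_lit 192) (nat_lit 5) (nat_lit 193) (nat_lit 5) (nat_lit 303) (nat_lit 300) (nat_lit 177)) (XT.lf (nat_lit 76) (nat_lit 2135264477) (nat_lit 0) (nat_lit 8020720702) (nat_lit 1216) (nat_lit 21760797462) (nat_lit 178) (nat_lit 5) (nat_lit 177) (nat_lit 5) (nat_lit 193) (nat_lit 5) (nat_lit 304) (nat_lit 300) (nat_lit 176)))) (XT.nd (nat_lit 156) (nat_lit 0) (nat_lit 76) (XT.nd (nat_lit 78) (nat_lit 0) (nat_lit 76) (XT.lf (nat_lit 0) (nat_lit 12070539732) (nat_lit 1140) (nat_lit 5939905191) (nat_lit 1216) (nat_lit 14732634429) (nat_lit 178) (nat_lit 5) (nat_lit 193) (nat_lit 5) (nat_lit 194) (nat_lit 5) (nat_lit 305) (nat_lit 300) (nat_lit 175)) (XT.lf (nat_lit 0) (nat_lit 14390194376) (nat_lit 1140) (nat_lit 14264591144) (nat_lit 1216) (nat_lit 4946634068) (nat_lit 179) (nat_lit 5) (nat_lit 194) (nat_lit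 5) (nat_lit 195) (nat_lit 5) (nat_lit 306) (nat_lit 300) (nat_lit 174))) (XT.nd (nat_lit 78) (nat_lit 0) (nat_lit 76) (XT.lf (nat_lit 76) (nat_lit 11539013712) (nat_lit 0) (nat_lit 5635121077) (nat_lit 1216) (nat_lit 17318102346) (nat_lit 180) (nat_lit 5) (nat_lit 179) (nat_lit 5) (nat_lit 195) (nat_lit 5) (nat_lit 307) (nat_lit 300) (nat_lit 173)) (XT.lf (nat_lit 76) (nat_lit 3389691545) (nat_lit 0) (nat_lit 17060748879) (nat_lit 1216) (nat_lit 14966569032) (nat_lit 181) (nat_lit 5) (nat_lit 180) (nat_lit 5) (nat_lit 196) (nat_lit 5) (nat_lit 308) (nat_lit 300) (nat_lit 172))))))))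
noncomputable def xc109 : XT := (XT.nd (nat_lit 2028) (nat_lit 2584) (nat_lit 0) (XT.nd (nat_lit 1014) (nat_lit 3572) (nat_lit 0) (XT.nd (nat_lit 468) (nat_lit 2964) (nat_lit 0) (XT.nd (nat_lit 234) (nat_lit 1216) (nat_lit 0) (XT.nd (nat_lit 78) (nat_lit 1064) (nat_lit 0) (XT.lf (nat_lit 0) (nat_lit 24247586988) (nat_lit 1140) (nat_lit 4982484534) (nat_lit 1216) (nat_lit 7147246619) (nat_lit 181) (nat_lit 5) (nat_lit 196) (nat_lit 5) (nat_lit 197) (nat_lit 5) (nat_lit 309) (nat_lit 300) (nat_lit 171)) (XT.nd (nat_lit 78) (nat_lit 1064) (nat_lit 0) (XT.lf (nat_lit 76) (nat_lit 23700510995) (nat_lit 0) (nat_lit 4928734789) (nat_lit 1216) (nat_lit 8744564941) (nat_lit 182) (nat_lit 5) (nat_lit 181) (nat_lit 5) (nat_lit 197) (nat_lit 5) (nat_lit 310) (nat_lit 300) (nat_lit 170)) (XT.lf (nat_lit 0) (nat_lit 15604874991) (nat_lit 1140) (nat_lit 18019671950) (nat_lit 1216) (nat_lit 4783751940)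 (nat_lit 167) (nat_lit 5) (nat_lit 182) (nat_lit 5) (nat_lit 183) (nat_lit 5) (nat_lit 311) (nat_lit 300) (nat_lit 169)))) (XT.nd (nat_lit 78) (nat_lit 684) (nat_lit 0) (XT.lf (nat_lit 0) (nat_lit 7156027824) (nat_lit 532) (nat_lit 32039762921) (nat_lit 608) (nat_lit 288942729) (nat_lit 160) (nat_lit 5) (nat_lit 167) (nat_lit 5) (nat_lit 168) (nat_lit 5) (nat_lit 312) (nat_lit 300) (nat_lit 168)) (XT.nd (nat_lit 78) (nat_lit 608) (nat_lit 0) (XT.lf (nat_lit 0) (nat_lit 4758298191) (nat_lit 608) (nat_lit 1749181572) (nat_lit 76) (nat_lit 34093814695) (nat_lit 159) (nat_lit 5) (nat_lit 167) (nat_lit 5) (nat_lit 160) (nat_lit 5) (nat_lit 313) (nat_lit 300) (nat_lit 167)) (XT.lf (nat_lit 0) (nat_lit 10543114051) (nat_lit 684) (nat_lit 11006679393) (nat_lit 76) (nat_lit 20209075043) (nat_lit 151) (nat_lit 5) (nat_lit 160) (nat_lit 5) (nat_lit 152) (nat_lit 5) (nat_lit 314) (nat_lit 300) (nat_lit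 166))))) (XT.nd (nat_lit 234) (nat_lit 1444) (nat_lit 0) (XT.nd (nat_lit 78) (nat_lit 988) (nat_lit 0) (XT.lf (nat_lit 0) (nat_lit 16962941843) (nat_lit 608) (nat_lit 20710782439) (nat_lit 76) (nat_lit 5290229970) (nat_lit 144) (nat_lit 5) (nat_lit 152) (nat_lit 5) (nat_lit 145) (nat_lit 5) (nat_lit 315) (nat_lit 300) (nat_lit 165)) (XT.nd (nat_lit 78) (nat_lit 456) (nat_lit 0) (XT.lf (nat_lit 0) (nat_lit 13215131827) (nat_lit 532) (nat_lit 10943380015) (nat_lit 608) (nat_lit 20057145816) (nat_lit 137) (nat_lit 5) (nat_lit 144) (nat_lit 5) (nat_lit 145) (nat_lit 5) (nat_lit 316) (nat_lit 300) (nat_lit 164)) (XT.lf (nat_lit 0) (nat_lit 3646789244) (nat_lit 456) (nat_lit 28477983920) (nat_lit 532) (nat_lit 13392851284) (nat_lit 131) (nat_lit 5) (nat_lit 137) (nat_lit 5) (nat_lit 138) (nat_lit 5) (nat_lit 317) (nat_lit 300) (nat_lit 163)))) (XT.nd (nat_lit 156) (nat_lit 912) (nat_lit 0) (XT.nd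 (nat_lit 78) (nat_lit 532) (nat_lit 0) (XT.lf (nat_lit 0) (nat_lit 40557512694) (nat_lit 456) (nat_lit 356428769) (nat_lit 532) (nat_lit 5958015625) (nat_lit 131) (nat_lit 5) (nat_lit 137) (nat_lit 5) (nat_lit 138) (nat_lit 5) (nat_lit 318) (nat_lit 300) (nat_lit 162)) (XT.lf (nat_lit 0) (nat_lit 2396228998) (nat_lit 532) (nat_lit 16953158578) (nat_lit 76) (nat_lit 28926578451) (nat_lit 124) (nat_lit 5) (nat_lit 131) (nat_lit 5) (nat_lit 125) (nat_lit 5) (nat_lit 319) (nat_lit 300) (nat_lit 161))) (XT.nd (nat_lit 78) (nat_lit 456) (nat_lit 0) (XT.lf (nat_lit 0) (nat_lit 11417777172) (nat_lit 532) (nat_lit 28260461499) (nat_lit 76) (nat_lit 10058987360) (nat_lit 118) (nat_lit 5) (nat_lit 125) (nat_lit 5) (nat_lit 119) (nat_lit 5) (nat_lit 320) (nat_lit 300) (nat_lit 160)) (XT.lf (nat_lit 0) (nat_lit 10928373528) (nat_lit 456) (nat_lit 10435136502) (nat_lit 532) (nat_lit 29893850259) (nat_lit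 112) (nat_lit 5) (nat_lit 118) (nat_lit 5) (nat_lit 119) (nat_lit 5) (nat_lit 321) (nat_lit 300) (nat_lit 159)))))) (XT.nd (nat_lit 468) (nat_lit 1976) (nat_lit 0) (XT.nd (nat_lit 234) (nat_lit 760) (nat_lit 0) (XT.nd (nat_lit 78) (nat_lit 836) (nat_lit 0) (XT.lf (nat_lit 0) (nat_lit 32291812236) (nat_lit 532) (nat_lit 379271487) (nat_lit 76) (nat_lit 20167863312) (nat_lit 112) (nat_lit 5) (nat_lit 119) (nat_lit 5) (nat_lit 113) (nat_lit 5) (nat_lit 322) (nat_lit 300) (nat_lit 158)) (XT.nd (nat_lit 78) (nat_lit 456) (nat_lit 0) (XT.lf (nat_lit 0) (nat_lit 42283927006) (nat_lit 380) (nat_lit 1991183050) (nat_lit 456) (nat_lit 10209249704) (nat_lit 107) (nat_lit 5) (nat_lit 112) (nat_lit 5) (nat_lit 113) (nat_lit 5) (nat_lit 323) (nat_lit 300) (nat_lit 157)) (XT.lf (nat_lit 0) (nat_lit 1229976443) (nat_lit 456) (nat_lit 25015773625) (nat_lit 76) (nat_lit 29948199343) (nat_lit 101) (nat_lit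 5) (nat_lit 107) (nat_lit 5) (nat_lit 102) (nat_lit 5) (nat_lit 324) (nat_lit 300) (nat_lit 156)))) (XT.nd (nat_lit 78) (nat_lit 380) (nat_lit 0) (XT.lf (nat_lit 0) (nat_lit 13417419044) (nat_lit 456) (nat_lit 38789803863) (nat_lit 76) (nat_lit 5767144814) (nat_lit 96) (nat_lit 5) (nat_lit 102) (nat_lit 5) (nat_lit 97) (nat_lit 5) (nat_lit 325) (nat_lit 300) (nat_lit 155)) (XT.nd (nat_lit 78) (nat_lit 0) (nat_lit 0) (XT.lf (nat_lit 0) (nat_lit 6130053719) (nat_lit 380) (nat_lit 20665164794) (nat_lit 456) (nat_lit 33031162292) (nat_lit 91) (nat_lit 5) (nat_lit 96) (nat_lit 5) (nat_lit 97) (nat_lit 5) (nat_lit 326) (nat_lit 300) (nat_lit 154)) (XT.lf (nat_lit 0) (nat_lit 41362069362) (nat_lit 456) (nat_lit 7779865123) (nat_lit 76) (nat_lit 12613458455) (nat_lit 91) (nat_lit 5) (nat_lit 97) (nat_lit 5) (nat_lit 92) (nat_lit 5) (nat_lit 327) (nat_lit 300) (nat_lit 153))))) (XT.nd (nat_lit 234)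 (nat_lit 912) (nat_lit 0) (XT.nd (nat_lit 78) (nat_lit 760) (nat_lit 0) (XT.lf (nat_lit 0) (nat_lit 41020802345) (nat_lit 304) (nat_lit 16236675627) (nat_lit 380) (nat_lit 6505374338) (nat_lit 87) (nat_lit 5) (nat_lit 91) (nat_lit 5) (nat_lit 92) (nat_lit 5) (nat_lit 328) (nat_lit 300) (nat_lit 152)) (XT.nd (nat_lit 78) (nat_lit 304) (nat_lit 0) (XT.lf (nat_lit 0) (nat_lit 8437350618) (nat_lit 456) (nat_lit 39037609735) (nat_lit 76) (nat_lit 18377858251) (nat_lit 81) (nat_lit 5) (nat_lit 87) (nat_lit 5) (nat_lit 82) (nat_lit 5) (nat_lit 329) (nat_lit 300) (nat_lit 151)) (XT.lf (nat_lit 0) (nat_lit 11269942526) (nat_lit 304) (nat_lit 13230090644) (nat_lit 380) (nat_lit 43530099595) (nat_lit 77) (nat_lit 5) (nat_lit 81) (nat_lit 5) (nat_lit 82) (nat_lit 5) (nat_lit 330) (nat_lit 300) (nat_lit 150)))) (XT.nd (nat_lit 156) (nat_lit 608) (nat_lit 0) (XT.nd (nat_lit 78) (nat_lit 304) (nat_lit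 0) (XT.lf (nat_lit 0) (nat_lit 41987702600) (nat_lit 380) (nat_lit 5621455497) (nat_lit 76) (nat_lit 22688501542) (nat_lit 77) (nat_lit 5) (nat_lit 82) (nat_lit 5) (nat_lit 78) (nat_lit 5) (nat_lit 331) (nat_lit 300) (nat_lit 149)) (XT.lf (nat_lit 0) (nat_lit 48891495031) (nat_lit 304) (nat_lit 12059436768) (nat_lit 380) (nat_lit 11709598233) (nat_lit 73) (nat_lit 5) (nat_lit 77) (nat_lit 5) (nat_lit 78) (nat_lit 5) (nat_lit 332) (nat_lit 300) (nat_lit 148))) (XT.nd (nat_lit 78) (nat_lit 304) (nat_lit 0) (XT.lf (nat_lit 0) (nat_lit 6216728955) (nat_lit 304) (nat_lit 43709158895) (nat_lit 76) (nat_lit 25195781121) (nat_lit 69) (nat_lit 5) (nat_lit 73) (nat_lit 5) (nat_lit 70) (nat_lit 5) (nat_lit 333) (nat_lit 300) (nat_lit 147)) (XT.lf (nat_lit 0) (nat_lit 12142772466) (nat_lit 304) (nat_lit 13140018276) (nat_lit 380) (nat_lit 52405030465) (nat_lit 65) (nat_lit 5) (nat_lit 69) (nat_lit 5)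 (nat_lit 70) (nat_lit 5) (nat_lit 334) (nat_lit 300) (nat_lit 146))))))) (XT.nd (nat_lit 1014) (nat_lit 532) (nat_lit 0) (XT.nd (nat_lit 468) (nat_lit 1064) (nat_lit 0) (XT.nd (nat_lit 234) (nat_lit 456) (nat_lit 0) (XT.nd (nat_lit 78) (nat_lit 532) (nat_lit 0) (XT.lf (nat_lit 0) (nat_lit 45999396259) (nat_lit 380) (nat_lit 8920648025) (nat_lit 76) (nat_lit 25441321617) (nat_lit 65) (nat_lit 5) (nat_lit 70) (nat_lit 5) (nat_lit 66) (nat_lit 5) (nat_lit 335) (nat_lit 300) (nat_lit 145)) (XT.nd (nat_lit 78) (nat_lit 304) (nat_lit 0) (XT.lf (nat_lit 0) (nat_lit 51402417530) (nat_lit 228) (nat_lit 16974113003) (nat_lit 304) (nat_lit 14773318311) (nat_lit 62) (nat_lit 5) (nat_lit 65) (nat_lit 5) (nat_lit 66) (nat_lit 5) (nat_lit 336) (nat_lit 300) (nat_lit 144)) (XT.lf (nat_lit 0) (nat_lit 6278814619) (nat_lit 304) (nat_lit 56922429465) (nat_lit 76) (nat_lit 22856928812) (nat_lit 58) (nat_lit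 5) (nat_lit 62) (nat_lit 5) (nat_lit 59) (nat_lit 5) (nat_lit 337) (nat_lit 300) (nat_lit 143)))) (XT.nd (nat_lit 78) (nat_lit 228) (nat_lit 0) (XT.lf (nat_lit 0) (nat_lit 4383362247) (nat_lit 228) (nat_lit 24239072279) (nat_lit 304) (nat_lit 60468759785) (nat_lit 55) (nat_lit 5) (nat_lit 58) (nat_lit 5) (nat_lit 59) (nat_lit 5) (nat_lit 338) (nat_lit 300) (nat_lit 142)) (XT.nd (nat_lit 78) (nat_lit 228) (nat_lit 0) (XT.lf (nat_lit 0) (nat_lit 52833380990) (nat_lit 304) (nat_lit 22483252577) (nat_lit 76) (nat_lit 16936730514) (nat_lit 55) (nat_lit 5) (nat_lit 59) (nat_lit 5) (nat_lit 56) (nat_lit 5) (nat_lit 339) (nat_lit 300) (nat_lit 141)) (XT.lf (nat_lit 0) (nat_lit 43453103841) (nat_lit 228) (nat_lit 35462332800) (nat_lit 304) (nat_lit 16638390415) (nat_lit 52) (nat_lit 5) (nat_lit 55) (nat_lit 5) (nat_lit 56) (nat_lit 5) (nat_lit 340) (nat_lit 300) (nat_lit 140))))) (XT.nd (nat_lit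 234) (nat_lit 608) (nat_lit 0) (XT.nd (nat_lit 78) (nat_lit 228) (nat_lit 0) (XT.lf (nat_lit 0) (nat_lit 7575835833) (nat_lit 228) (nat_lit 84723095358) (nat_lit 76) (nat_lit 6705213664) (nat_lit 49) (nat_lit 5) (nat_lit 52) (nat_lit 5) (nat_lit 50) (nat_lit 5) (nat_lit 341) (nat_lit 300) (nat_lit 139)) (XT.nd (nat_lit 78) (nat_lit 228) (nat_lit 0) (XT.lf (nat_lit 0) (nat_lit 33557739287) (nat_lit 228) (nat_lit 18074053283) (nat_lit 76) (nat_lit 50963213064) (nat_lit 49) (nat_lit 5) (nat_lit 52) (nat_lit 5) (nat_lit 50) (nat_lit 5) (nat_lit 342) (nat_lit 300) (nat_lit 138)) (XT.lf (nat_lit 0) (nat_lit 52937924808) (nat_lit 228) (nat_lit 8408069073) (nat_lit 304) (nat_lit 45004199208) (nat_lit 46) (nat_lit 5) (nat_lit 49) (nat_lit 5) (nat_lit 50) (nat_lit 5) (nat_lit 343) (nat_lit 300) (nat_lit 137)))) (XT.nd (nat_lit 156) (nat_lit 380) (nat_lit 0) (XT.nd (nat_lit 78) (nat_lit 76) (nat_lit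 0) (XT.lf (nat_lit 0) (nat_lit 17573787020) (nat_lit 152) (nat_lit 73660575808) (nat_lit 228) (nat_lit 19037457296) (nat_lit 44) (nat_lit 5) (nat_lit 46) (nat_lit 5) (nat_lit 47) (nat_lit 5) (nat_lit 344) (nat_lit 300) (nat_lit 136)) (XT.lf (nat_lit 0) (nat_lit 8705676272) (nat_lit 228) (nat_lit 21319579748) (nat_lit 76) (nat_lit 84342742831) (nat_lit 43) (nat_lit 5) (nat_lit 46) (nat_lit 5) (nat_lit 44) (nat_lit 5) (nat_lit 345) (nat_lit 300) (nat_lit 135))) (XT.nd (nat_lit 78) (nat_lit 152) (nat_lit 0) (XT.lf (nat_lit 0) (nat_lit 38127177653) (nat_lit 304) (nat_lit 64309694861) (nat_lit 76) (nat_lit 16205912367) (nat_lit 40) (nat_lit 5) (nat_lit 44) (nat_lit 5) (nat_lit 41) (nat_lit 5) (nat_lit 346) (nat_lit 300) (nat_lit 134)) (XT.lf (nat_lit 0) (nat_lit 10996229897) (nat_lit 152) (nat_lit 58652495175) (nat_lit 228) (nat_lit 53463717065) (nat_lit 38) (nat_lit 5) (nat_lit 40) (nat_lit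 5) (nat_lit 41) (nat_lit 5) (nat_lit 347) (nat_lit 300) (nat_lit 133)))))) (XT.nd (nat_lit 37128) (nat_lit 0) (nat_lit 11020) (XT.nd (nat_lit 234) (nat_lit 304) (nat_lit 0) (XT.nd (nat_lit 78) (nat_lit 228) (nat_lit 0) (XT.lf (nat_lit 0) (nat_lit 91409095830) (nat_lit 152) (nat_lit 11997888936) (nat_lit 228) (nat_lit 24378779444) (nat_lit 38) (nat_lit 5) (nat_lit 40) (nat_lit 5) (nat_lit 41) (nat_lit 5) (nat_lit 348) (nat_lit 300) (nat_lit 132)) (XT.nd (nat_lit 78) (nat_lit 0) (nat_lit 0) (XT.lf (nat_lit 0) (nat_lit 6821630407) (nat_lit 228) (nat_lit 89092648481) (nat_lit 76) (nat_lit 36753254789) (nat_lit 35) (nat_lit 5) (nat_lit 38) (nat_lit 5) (nat_lit 36) (nat_lit 5) (nat_lit 349) (nat_lit 300) (nat_lit 131)) (XT.lf (nat_lit 0) (nat_lit 39580538027) (nat_lit 228) (nat_lit 9870970779) (nat_lit 76) (nat_lit 88319562436) (nat_lit 35) (nat_lit 5) (nat_lit 38) (nat_lit 5) (nat_lit 36) (nat_lit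 5) (nat_lit 350) (nat_lit 300) (nat_lit 130)))) (XT.nd (nat_lit 36738) (nat_lit 0) (nat_lit 10944) (XT.nd (nat_lit 78) (nat_lit 152) (nat_lit 0) (XT.lf (nat_lit 0) (nat_lit 74695595933) (nat_lit 228) (nat_lit 68340200562) (nat_lit 76) (nat_lit 72443886) (nat_lit 33) (nat_lit 5) (nat_lit 36) (nat_lit 5) (nat_lit 34) (nat_lit 5) (nat_lit 351) (nat_lit 300) (nat_lit 129)) (XT.lf (nat_lit 0) (nat_lit 14925168959) (nat_lit 152) (nat_lit 97385256262) (nat_lit 228) (nat_lit 36379523000) (nat_lit 31) (nat_lit 5) (nat_lit 33) (nat_lit 5) (nat_lit 34) (nat_lit 5) (nat_lit 352) (nat_lit 300) (nat_lit 128))) (XT.nd (nat_lit 78) (nat_lit 0) (nat_lit 0) (XT.lf (nat_lit 0) (nat_lit 1728960006) (nat_lit 0) (nat_lit 1728960006) (nat_lit 1140) (nat_lit 11709298466) (nat_lit 175) (nat_lit 5) (nat_lit 175) (nat_lit 3) (nat_lit 190) (nat_lit 3) (nat_lit 301) (nat_lit 301) (nat_lit 178)) (XT.lf (nat_lit 0) (nat_lit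 7384805803) (nat_lit 1140) (nat_lit 4800907644) (nat_lit 1216) (nat_lit 18898032524) (nat_lit 175) (nat_lit 5) (nat_lit 190) (nat_lit 3) (nat_lit 191) (nat_lit 5) (nat_lit 302) (nat_lit 301) (nat_lit 177))))) (XT.nd (nat_lit 234) (nat_lit 0) (nat_lit 152) (XT.nd (nat_lit 78) (nat_lit 0) (nat_lit 76) (XT.lf (nat_lit 0) (nat_lit 8186950118) (nat_lit 1140) (nat_lit 13261612859) (nat_lit 1216) (nat_lit 10412676423) (nat_lit 176) (nat_lit 5) (nat_lit 191) (nat_lit 5) (nat_lit 192) (nat_lit 5) (nat_lit 303) (nat_lit 301) (nat_lit 176)) (XT.nd (nat_lit 78) (nat_lit 0) (nat_lit 0) (XT.lf (nat_lit 0) (nat_lit 9311233930) (nat_lit 1140) (nat_lit 22007512802) (nat_lit 1216) (nat_lit 1350410151) (nat_lit 177) (nat_lit 5) (nat_lit 192) (nat_lit 5) (nat_lit 193) (nat_lit 5) (nat_lit 304) (nat_lit 301) (nat_lit 175)) (XT.lf (nat_lit 76) (nat_lit 2369158595) (nat_lit 0) (nat_lit 8493281601) (nat_lit 1216)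 (nat_lit 22643918657) (nat_lit 178) (nat_lit 5) (nat_lit 177) (nat_lit 5) (nat_lit 193) (nat_lit 5) (nat_lit 305) (nat_lit 301) (nat_lit 174)))) (XT.nd (nat_lit 156) (nat_lit 0) (nat_lit 76) (XT.nd (nat_lit 78) (nat_lit 0) (nat_lit 76) (XT.lf (nat_lit 0) (nat_lit 12862607879) (nat_lit 1140) (nat_lit 6109203922) (nat_lit 1216) (nat_lit 15402476478) (nat_lit 178) (nat_lit 5) (nat_lit 193) (nat_lit 5) (nat_lit 194) (nat_lit 5) (nat_lit 306) (nat_lit 301) (nat_lit 173)) (XT.lf (nat_lit 0) (nat_lit 15289914196) (nat_lit 1140) (nat_lit 14847541635) (nat_lit 1216) (nat_lit 5138353380) (nat_lit 179) (nat_lit 5) (nat_lit 194) (nat_lit 5) (nat_lit 195) (nat_lit 5) (nat_lit 307) (nat_lit 301) (nat_lit 172))) (XT.nd (nat_lit 78) (nat_lit 0) (nat_lit 76) (XT.lf (nat_lit 76) (nat_lit 12242509041) (nat_lit 0) (nat_lit 5963177580) (nat_lit 1216) (nat_lit 18005715062) (nat_lit 180) (nat_lit 5) (nat_lit 179)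 (nat_lit 5) (nat_lit 195) (nat_lit 5) (nat_lit 308) (nat_lit 301) (nat_lit 171)) (XT.lf (nat_lit 76) (nat_lit 3687816862) (nat_lit 0) (nat_lit 17950572655) (nat_lit 1216) (nat_lit 15544258117) (nat_lit 181) (nat_lit 5) (nat_lit 180) (nat_lit 5) (nat_lit 196) (nat_lit 5) (nat_lit 309) (nat_lit 301) (nat_lit 170))))))))
noncomputable def xc110 : XT := (XT.nd (nat_lit 2028) (nat_lit 2432) (nat_lit 0) (XT.nd (nat_lit 1014) (nat_lit 3572) (nat_lit 0) (XT.nd (nat_lit 468) (nat_lit 2964) (nat_lit 0) (XT.nd (nat_lit 234) (nat_lit 1216) (nat_lit 0) (XT.nd (nat_lit 78) (nat_lit 1064) (nat_lit 0) (XT.lf (nat_lit 0) (nat_lit 25617179156) (nat_lit 1140) (nat_lit 5103792907) (nat_lit 1216) (nat_lit 7470257999) (nat_lit 181) (nat_lit 5) (nat_lit 196) (nat_lit 5) (nat_lit 197) (nat_lit 5) (nat_lit 310) (nat_lit 301) (nat_lit 169)) (XT.nd (nat_lit 78) (nat_lit 1064) (nat_lit 0) (XT.lf (nat_lit 76) (nat_lit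 25009688583) (nat_lit 0) (nat_lit 5201939410) (nat_lit 1216) (nat_lit 9026119384) (nat_lit 182) (nat_lit 5) (nat_lit 181) (nat_lit 5) (nat_lit 197) (nat_lit 5) (nat_lit 311) (nat_lit 301) (nat_lit 168)) (XT.lf (nat_lit 0) (nat_lit 16510579535) (nat_lit 1140) (nat_lit 18939888959) (nat_lit 1216) (nat_lit 4873688992) (nat_lit 167) (nat_lit 5) (nat_lit 182) (nat_lit 5) (nat_lit 183) (nat_lit 5) (nat_lit 312) (nat_lit 301) (nat_lit 167)))) (XT.nd (nat_lit 78) (nat_lit 684) (nat_lit 0) (XT.lf (nat_lit 0) (nat_lit 7640299017) (nat_lit 532) (nat_lit 33654124897) (nat_lit 608) (nat_lit 160175675) (nat_lit 160) (nat_lit 5) (nat_lit 167) (nat_lit 5) (nat_lit 168) (nat_lit 5) (nat_lit 313) (nat_lit 301) (nat_lit 166)) (XT.nd (nat_lit 78) (nat_lit 608) (nat_lit 0) (XT.lf (nat_lit 0) (nat_lit 5129946020) (nat_lit 608) (nat_lit 1713341891) (nat_lit 76) (nat_lit 35783869500) (nat_lit 159) (nat_lit 5) (nat_lit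 167) (nat_lit 5) (nat_lit 160) (nat_lit 5) (nat_lit 314) (nat_lit 301) (nat_lit 165)) (XT.lf (nat_lit 0) (nat_lit 11198701563) (nat_lit 684) (nat_lit 11433128589) (nat_lit 76) (nat_lit 21210948060) (nat_lit 151) (nat_lit 5) (nat_lit 160) (nat_lit 5) (nat_lit 152) (nat_lit 5) (nat_lit 315) (nat_lit 301) (nat_lit 164))))) (XT.nd (nat_lit 234) (nat_lit 1444) (nat_lit 0) (XT.nd (nat_lit 78) (nat_lit 988) (nat_lit 0) (XT.lf (nat_lit 0) (nat_lit 17934531490) (nat_lit 608) (nat_lit 21622081425) (nat_lit 76) (nat_lit 5551663635) (nat_lit 144) (nat_lit 5) (nat_lit 152) (nat_lit 5) (nat_lit 145) (nat_lit 5) (nat_lit 316) (nat_lit 301) (nat_lit 163)) (XT.nd (nat_lit 78) (nat_lit 456) (nat_lit 0) (XT.lf (nat_lit 0) (nat_lit 13996567236) (nat_lit 532) (nat_lit 11488594575) (nat_lit 608) (nat_lit 20937553059) (nat_lit 137) (nat_lit 5) (nat_lit 144) (nat_lit 5) (nat_lit 145) (nat_lit 5) (nat_lit 317) (nat_lit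 301) (nat_lit 162)) (XT.lf (nat_lit 0) (nat_lit 3949948917) (nat_lit 456) (nat_lit 29895313030) (nat_lit 532) (nat_lit 13944660085) (nat_lit 131) (nat_lit 5) (nat_lit 137) (nat_lit 5) (nat_lit 138) (nat_lit 5) (nat_lit 318) (nat_lit 301) (nat_lit 161)))) (XT.nd (nat_lit 156) (nat_lit 912) (nat_lit 0) (XT.nd (nat_lit 78) (nat_lit 532) (nat_lit 0) (XT.lf (nat_lit 0) (nat_lit 42700455197) (nat_lit 456) (nat_lit 367992983) (nat_lit 532) (nat_lit 6143693775) (nat_lit 131) (nat_lit 5) (nat_lit 137) (nat_lit 5) (nat_lit 138) (nat_lit 5) (nat_lit 319) (nat_lit 301) (nat_lit 160)) (XT.lf (nat_lit 0) (nat_lit 2622008048) (nat_lit 532) (nat_lit 17683544819) (nat_lit 76) (nat_lit 30380894940) (nat_lit 124) (nat_lit 5) (nat_lit 131) (nat_lit 5) (nat_lit 125) (nat_lit 5) (nat_lit 320) (nat_lit 301) (nat_lit 159))) (XT.nd (nat_lit 78) (nat_lit 456) (nat_lit 0) (XT.lf (nat_lit 0) (nat_lit 12090796857) (nat_lit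 532) (nat_lit 29556497343) (nat_lit 76) (nat_lit 10573598262) (nat_lit 118) (nat_lit 5) (nat_lit 125) (nat_lit 5) (nat_lit 119) (nat_lit 5) (nat_lit 321) (nat_lit 301) (nat_lit 158)) (XT.lf (nat_lit 0) (nat_lit 11588426020) (nat_lit 456) (nat_lit 10941619283) (nat_lit 532) (nat_lit 31287107497) (nat_lit 112) (nat_lit 5) (nat_lit 118) (nat_lit 5) (nat_lit 119) (nat_lit 5) (nat_lit 322) (nat_lit 301) (nat_lit 157)))))) (XT.nd (nat_lit 468) (nat_lit 1976) (nat_lit 0) (XT.nd (nat_lit 234) (nat_lit 760) (nat_lit 0) (XT.nd (nat_lit 78) (nat_lit 836) (nat_lit 0) (XT.lf (nat_lit 0) (nat_lit 34000218653) (nat_lit 532) (nat_lit 287223161) (nat_lit 76) (nat_lit 21190519328) (nat_lit 112) (nat_lit 5) (nat_lit 119) (nat_lit 5) (nat_lit 113) (nat_lit 5) (nat_lit 323) (nat_lit 301) (nat_lit 156)) (XT.nd (nat_lit 78) (nat_lit 456) (nat_lit 0) (XT.lf (nat_lit 0) (nat_lit 44505953124) (nat_lit 380) (nat_lit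 2073297346) (nat_lit 456) (nat_lit 10626502615) (nat_lit 107) (nat_lit 5) (nat_lit 112) (nat_lit 5) (nat_lit 113) (nat_lit 5) (nat_lit 324) (nat_lit 301) (nat_lit 155)) (XT.lf (nat_lit 0) (nat_lit 1379717169) (nat_lit 456) (nat_lit 26157381867) (nat_lit 76) (nat_lit 31463795995) (nat_lit 101) (nat_lit 5) (nat_lit 107) (nat_lit 5) (nat_lit 102) (nat_lit 5) (nat_lit 325) (nat_lit 301) (nat_lit 154)))) (XT.nd (nat_lit 78) (nat_lit 380) (nat_lit 0) (XT.lf (nat_lit 0) (nat_lit 14173551113) (nat_lit 456) (nat_lit 40620793643) (nat_lit 76) (nat_lit 6076083905) (nat_lit 96) (nat_lit 5) (nat_lit 102) (nat_lit 5) (nat_lit 97) (nat_lit 5) (nat_lit 326) (nat_lit 301) (nat_lit 153)) (XT.nd (nat_lit 78) (nat_lit 0) (nat_lit 0) (XT.lf (nat_lit 0) (nat_lit 6541946675) (nat_lit 380) (nat_lit 21675246903) (nat_lit 456) (nat_lit 34597944975) (nat_lit 91) (nat_lit 5) (nat_lit 96) (nat_lit 5) (nat_lit 97) (nat_lit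 5) (nat_lit 327) (nat_lit 301) (nat_lit 152)) (XT.lf (nat_lit 0) (nat_lit 43508684185) (nat_lit 456) (nat_lit 8066259542) (nat_lit 76) (nat_lit 13265773169) (nat_lit 91) (nat_lit 5) (nat_lit 97) (nat_lit 5) (nat_lit 92) (nat_lit 5) (nat_lit 328) (nat_lit 301) (nat_lit 151))))) (XT.nd (nat_lit 234) (nat_lit 912) (nat_lit 0) (XT.nd (nat_lit 78) (nat_lit 760) (nat_lit 0) (XT.lf (nat_lit 0) (nat_lit 43171500324) (nat_lit 304) (nat_lit 17024582237) (nat_lit 380) (nat_lit 6752554395) (nat_lit 87) (nat_lit 5) (nat_lit 91) (nat_lit 5) (nat_lit 92) (nat_lit 5) (nat_lit 329) (nat_lit 301) (nat_lit 150)) (XT.nd (nat_lit 78) (nat_lit 304) (nat_lit 0) (XT.lf (nat_lit 0) (nat_lit 8933318082) (nat_lit 456) (nat_lit 40889067766) (nat_lit 76) (nat_lit 19320771125) (nat_lit 81) (nat_lit 5) (nat_lit 87) (nat_lit 5) (nat_lit 82) (nat_lit 5) (nat_lit 330) (nat_lit 301) (nat_lit 149)) (XT.lf (nat_lit 0) (nat_lit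 11930983518) (nat_lit 304) (nat_lit 13865560326) (nat_lit 380) (nat_lit 45632874514) (nat_lit 77) (nat_lit 5) (nat_lit 81) (nat_lit 5) (nat_lit 82) (nat_lit 5) (nat_lit 331) (nat_lit 301) (nat_lit 148)))) (XT.nd (nat_lit 156) (nat_lit 608) (nat_lit 0) (XT.nd (nat_lit 78) (nat_lit 304) (nat_lit 0) (XT.lf (nat_lit 0) (nat_lit 44155429901) (nat_lit 380) (nat_lit 5807752416) (nat_lit 76) (nat_lit 23847237873) (nat_lit 77) (nat_lit 5) (nat_lit 82) (nat_lit 5) (nat_lit 78) (nat_lit 5) (nat_lit 332) (nat_lit 301) (nat_lit 147)) (XT.lf (nat_lit 0) (nat_lit 51428128908) (nat_lit 304) (nat_lit 12636322191) (nat_lit 380) (nat_lit 12227057524) (nat_lit 73) (nat_lit 5) (nat_lit 77) (nat_lit 5) (nat_lit 78) (nat_lit 5) (nat_lit 333) (nat_lit 301) (nat_lit 146))) (XT.nd (nat_lit 78) (nat_lit 304) (nat_lit 0) (XT.lf (nat_lit 0) (nat_lit 6592209027) (nat_lit 304) (nat_lit 45802100847) (nat_lit 76) (nat_lit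 26481439686) (nat_lit 69) (nat_lit 5) (nat_lit 73) (nat_lit 5) (nat_lit 70) (nat_lit 5) (nat_lit 334) (nat_lit 301) (nat_lit 145)) (XT.lf (nat_lit 0) (nat_lit 12839775129) (nat_lit 304) (nat_lit 13769584335) (nat_lit 380) (nat_lit 54960919404) (nat_lit 65) (nat_lit 5) (nat_lit 69) (nat_lit 5) (nat_lit 70) (nat_lit 5) (nat_lit 335) (nat_lit 301) (nat_lit 144))))))) (XT.nd (nat_lit 1014) (nat_lit 380) (nat_lit 0) (XT.nd (nat_lit 468) (nat_lit 1064) (nat_lit 0) (XT.nd (nat_lit 234) (nat_lit 456) (nat_lit 0) (XT.nd (nat_lit 78) (nat_lit 532) (nat_lit 0) (XT.lf (nat_lit 0) (nat_lit 48359073601) (nat_lit 380) (nat_lit 9279505456) (nat_lit 76) (nat_lit 26739006271) (nat_lit 65) (nat_lit 5) (nat_lit 70) (nat_lit 5) (nat_lit 66) (nat_lit 5) (nat_lit 336) (nat_lit 301) (nat_lit 143)) (XT.nd (nat_lit 78) (nat_lit 304) (nat_lit 0) (XT.lf (nat_lit 0) (nat_lit 54057214524) (nat_lit 228) (nat_lit 17795820807)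 (nat_lit 304) (nat_lit 15452520709) (nat_lit 62) (nat_lit 5) (nat_lit 65) (nat_lit 5) (nat_lit 66) (nat_lit 5) (nat_lit 337) (nat_lit 301) (nat_lit 142)) (XT.lf (nat_lit 0) (nat_lit 6649344628) (nat_lit 304) (nat_lit 59683643055) (nat_lit 76) (nat_lit 24026345418) (nat_lit 58) (nat_lit 5) (nat_lit 62) (nat_lit 5) (nat_lit 59) (nat_lit 5) (nat_lit 338) (nat_lit 301) (nat_lit 141)))) (XT.nd (nat_lit 78) (nat_lit 228) (nat_lit 0) (XT.lf (nat_lit 0) (nat_lit 4685004375) (nat_lit 228) (nat_lit 25423239219) (nat_lit 304) (nat_lit 63435821469) (nat_lit 55) (nat_lit 5) (nat_lit 58) (nat_lit 5) (nat_lit 59) (nat_lit 5) (nat_lit 339) (nat_lit 301) (nat_lit 140)) (XT.nd (nat_lit 78) (nat_lit 228) (nat_lit 0) (XT.lf (nat_lit 0) (nat_lit 55527387606) (nat_lit 304) (nat_lit 23527514371) (nat_lit 76) (nat_lit 17809514141) (nat_lit 55) (nat_lit 5) (nat_lit 59) (nat_lit 5) (nat_lit 56) (nat_lit 5) (nat_lit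 340) (nat_lit 301) (nat_lit 139)) (XT.lf (nat_lit 0) (nat_lit 45703369527) (nat_lit 228) (nat_lit 37208430287) (nat_lit 304) (nat_lit 17418157006) (nat_lit 52) (nat_lit 5) (nat_lit 55) (nat_lit 5) (nat_lit 56) (nat_lit 5) (nat_lit 341) (nat_lit 301) (nat_lit 138))))) (XT.nd (nat_lit 234) (nat_lit 608) (nat_lit 0) (XT.nd (nat_lit 78) (nat_lit 228) (nat_lit 0) (XT.lf (nat_lit 0) (nat_lit 8004321763) (nat_lit 228) (nat_lit 88881570219) (nat_lit 76) (nat_lit 7066928747) (nat_lit 49) (nat_lit 5) (nat_lit 52) (nat_lit 5) (nat_lit 50) (nat_lit 5) (nat_lit 342) (nat_lit 301) (nat_lit 137)) (XT.nd (nat_lit 78) (nat_lit 228) (nat_lit 0) (XT.lf (nat_lit 0) (nat_lit 35282954002) (nat_lit 228) (nat_lit 18903775083) (nat_lit 76) (nat_lit 53536568384) (nat_lit 49) (nat_lit 5) (nat_lit 52) (nat_lit 5) (nat_lit 50) (nat_lit 5) (nat_lit 343) (nat_lit 301) (nat_lit 136)) (XT.lf (nat_lit 0) (nat_lit 55656681265)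 (nat_lit 228) (nat_lit 8802377122) (nat_lit 304) (nat_lit 47207234637) (nat_lit 46) (nat_lit 5) (nat_lit 49) (nat_lit 5) (nat_lit 50) (nat_lit 5) (nat_lit 344) (nat_lit 301) (nat_lit 135)))) (XT.nd (nat_lit 156) (nat_lit 380) (nat_lit 0) (XT.nd (nat_lit 78) (nat_lit 76) (nat_lit 0) (XT.lf (nat_lit 0) (nat_lit 18523402385) (nat_lit 152) (nat_lit 77317184805) (nat_lit 228) (nat_lit 19943453731) (nat_lit 44) (nat_lit 5) (nat_lit 46) (nat_lit 5) (nat_lit 47) (nat_lit 5) (nat_lit 345) (nat_lit 301) (nat_lit 134)) (XT.lf (nat_lit 0) (nat_lit 9183799339) (nat_lit 228) (nat_lit 22317125182) (nat_lit 76) (nat_lit 88584156712) (nat_lit 43) (nat_lit 5) (nat_lit 46) (nat_lit 5) (nat_lit 44) (nat_lit 5) (nat_lit 346) (nat_lit 301) (nat_lit 133))) (XT.nd (nat_lit 78) (nat_lit 152) (nat_lit 0) (XT.lf (nat_lit 0) (nat_lit 40075215432) (nat_lit 304) (nat_lit 67457674333) (nat_lit 76) (nat_lit 17040753151)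 (nat_lit 40) (nat_lit 5) (nat_lit 44) (nat_lit 5) (nat_lit 41) (nat_lit 5) (nat_lit 347) (nat_lit 301) (nat_lit 132)) (XT.lf (nat_lit 0) (nat_lit 11611611638) (nat_lit 152) (nat_lit 61559874176) (nat_lit 228) (nat_lit 56095339321) (nat_lit 38) (nat_lit 5) (nat_lit 40) (nat_lit 5) (nat_lit 41) (nat_lit 5) (nat_lit 348) (nat_lit 301) (nat_lit 131)))))) (XT.nd (nat_lit 37206) (nat_lit 0) (nat_lit 10944) (XT.nd (nat_lit 234) (nat_lit 152) (nat_lit 0) (XT.nd (nat_lit 78) (nat_lit 228) (nat_lit 0) (XT.lf (nat_lit 0) (nat_lit 96041998475) (nat_lit 152) (nat_lit 12573739804) (nat_lit 228) (nat_lit 25558134039) (nat_lit 38) (nat_lit 5) (nat_lit 40) (nat_lit 5) (nat_lit 41) (nat_lit 5) (nat_lit 349) (nat_lit 301) (nat_lit 130)) (XT.nd (nat_lit 78) (nat_lit 0) (nat_lit 0) (XT.lf (nat_lit 0) (nat_lit 7200495780) (nat_lit 228) (nat_lit 93484923488) (nat_lit 76) (nat_lit 38614331711) (nat_lit 35) (nat_lit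 5) (nat_lit 38) (nat_lit 5) (nat_lit 36) (nat_lit 5) (nat_lit 350) (nat_lit 301) (nat_lit 129)) (XT.lf (nat_lit 0) (nat_lit 41595549550) (nat_lit 228) (nat_lit 10305131301) (nat_lit 76) (nat_lit 92757839779) (nat_lit 35) (nat_lit 5) (nat_lit 38) (nat_lit 5) (nat_lit 36) (nat_lit 5) (nat_lit 351) (nat_lit 301) (nat_lit 128)))) (XT.nd (nat_lit 36816) (nat_lit 0) (nat_lit 10792) (XT.nd (nat_lit 36738) (nat_lit 0) (nat_lit 10792) (XT.lf (nat_lit 0) (nat_lit 78465421053) (nat_lit 228) (nat_lit 71698676435) (nat_lit 76) (nat_lit 98480090) (nat_lit 33) (nat_lit 5) (nat_lit 36) (nat_lit 5) (nat_lit 34) (nat_lit 5) (nat_lit 352) (nat_lit 301) (nat_lit 127)) (XT.lf (nat_lit 0) (nat_lit 1869940571) (nat_lit 0) (nat_lit 1869940571) (nat_lit 1140) (nat_lit 12182259141) (nat_lit 175) (nat_lit 5) (nat_lit 175) (nat_lit 3) (nat_lit 190) (nat_lit 3) (nat_lit 302) (nat_lit 302) (nat_lit 176))) (XT.nd (nat_lit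 78) (nat_lit 0) (nat_lit 76) (XT.lf (nat_lit 0) (nat_lit 7960790722) (nat_lit 1140) (nat_lit 4929532295) (nat_lit 1216) (nat_lit 19741089505) (nat_lit 175) (nat_lit 5) (nat_lit 190) (nat_lit 3) (nat_lit 191) (nat_lit 5) (nat_lit 303) (nat_lit 302) (nat_lit 175)) (XT.lf (nat_lit 0) (nat_lit 8793375236) (nat_lit 1140) (nat_lit 13809362799) (nat_lit 1216) (nat_lit 10845347760) (nat_lit 176) (nat_lit 5) (nat_lit 191) (nat_lit 5) (nat_lit 192) (nat_lit 5) (nat_lit 304) (nat_lit 302) (nat_lit 174))))) (XT.nd (nat_lit 234) (nat_lit 0) (nat_lit 152) (XT.nd (nat_lit 78) (nat_lit 0) (nat_lit 0) (XT.lf (nat_lit 0) (nat_lit 9964827721) (nat_lit 1140) (nat_lit 22989174049) (nat_lit 1216) (nat_lit 1342683188) (nat_lit 177) (nat_lit 5) (nat_lit 192) (nat_lit 5) (nat_lit 193) (nat_lit 5) (nat_lit 305) (nat_lit 302) (nat_lit 173)) (XT.nd (nat_lit 78) (nat_lit 0) (nat_lit 76) (XT.lf (nat_lit 76) (nat_lit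 2602927994) (nat_lit 0) (nat_lit 8982820841) (nat_lit 1216) (nat_lit 23590247308) (nat_lit 178) (nat_lit 5) (nat_lit 177) (nat_lit 5) (nat_lit 193) (nat_lit 5) (nat_lit 306) (nat_lit 302) (nat_lit 172)) (XT.lf (nat_lit 0) (nat_lit 13676750663) (nat_lit 1140) (nat_lit 6298839602) (nat_lit 1216) (nat_lit 16112020100) (nat_lit 178) (nat_lit 5) (nat_lit 193) (nat_lit 5) (nat_lit 194) (nat_lit 5) (nat_lit 307) (nat_lit 302) (nat_lit 171)))) (XT.nd (nat_lit 156) (nat_lit 0) (nat_lit 76) (XT.nd (nat_lit 78) (nat_lit 0) (nat_lit 0) (XT.lf (nat_lit 0) (nat_lit 16217865779) (nat_lit 1140) (nat_lit 15471751763) (nat_lit 1216) (nat_lit 5344828971) (nat_lit 179) (nat_lit 5) (nat_lit 194) (nat_lit 5) (nat_lit 195) (nat_lit 5) (nat_lit 308) (nat_lit 302) (nat_lit 170)) (XT.lf (nat_lit 76) (nat_lit 12969414215) (nat_lit 0) (nat_lit 6303332331) (nat_lit 1216) (nat_lit 18744284352) (nat_lit 180) (nat_lit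 5) (nat_lit 179) (nat_lit 5) (nat_lit 195) (nat_lit 5) (nat_lit 309) (nat_lit 302) (nat_lit 169))) (XT.nd (nat_lit 78) (nat_lit 0) (nat_lit 76) (XT.lf (nat_lit 76) (nat_lit 3988888648) (nat_lit 0) (nat_lit 18881467576) (nat_lit 1216) (nat_lit 16166696087) (nat_lit 181) (nat_lit 5) (nat_lit 180) (nat_lit 5) (nat_lit 196) (nat_lit 5) (nat_lit 310) (nat_lit 302) (nat_lit 168)) (XT.lf (nat_lit 0) (nat_lit 27040634775) (nat_lit 1140) (nat_lit 5243049805) (nat_lit 1216) (nat_lit 7812613574) (nat_lit 181) (nat_lit 5) (nat_lit 196) (nat_lit 5) (nat_lit 197) (nat_lit 5) (nat_lit 311) (nat_lit 302) (nat_lit 167))))))))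
noncomputable def xc111 : XT := (XT.nd (nat_lit 2028) (nat_lit 2280) (nat_lit 0) (XT.nd (nat_lit 1014) (nat_lit 3572) (nat_lit 0) (XT.nd (nat_lit 468) (nat_lit 2432) (nat_lit 0) (XT.nd (nat_lit 234) (nat_lit 1216) (nat_lit 0) (XT.nd (nat_lit 78) (nat_lit 1596) (nat_lit 0) (XT.lf (nat_lit 76) (nat_lit 26372782571) (nat_lit 0) (nat_lit 5486315637) (nat_lit 1216) (nat_lit 9336224623) (nat_lit 182) (nat_lit 5) (nat_lit 181) (nat_lit 5) (nat_lit 197) (nat_lit 5) (nat_lit 312) (nat_lit 302) (nat_lit 166)) (XT.nd (nat_lit 78) (nat_lit 532) (nat_lit 0) (XT.lf (nat_lit 0) (nat_lit 17449905151) (nat_lit 1140) (nat_lit 19904328678) (nat_lit 1216) (nat_lit 4981998799) (nat_lit 167) (nat_lit 5) (nat_lit 182) (nat_lit 5) (nat_lit 183) (nat_lit 5) (nat_lit 313) (nat_lit 302) (nat_lit 165)) (XT.lf (nat_lit 0) (nat_lit 8137025806) (nat_lit 532) (nat_lit 35348054570) (nat_lit 608) (nat_lit 38284967) (nat_lit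 160) (nat_lit 5) (nat_lit 167) (nat_lit 5) (nat_lit 168) (nat_lit 5) (nat_lit 314) (nat_lit 302) (nat_lit 164)))) (XT.nd (nat_lit 78) (nat_lit 1140) (nat_lit 0) (XT.lf (nat_lit 0) (nat_lit 5507743021) (nat_lit 608) (nat_lit 1687173376) (nat_lit 76) (nat_lit 37559787756) (nat_lit 159) (nat_lit 5) (nat_lit 167) (nat_lit 5) (nat_lit 160) (nat_lit 5) (nat_lit 315) (nat_lit 302) (nat_lit 163)) (XT.nd (nat_lit 78) (nat_lit 532) (nat_lit 0) (XT.lf (nat_lit 0) (nat_lit 11875128078) (nat_lit 684) (nat_lit 11892417877) (nat_lit 76) (nat_lit 22263712483) (nat_lit 151) (nat_lit 5) (nat_lit 160) (nat_lit 5) (nat_lit 152) (nat_lit 5) (nat_lit 316) (nat_lit 302) (nat_lit 162)) (XT.lf (nat_lit 0) (nat_lit 18943224100) (nat_lit 608) (nat_lit 22590496031) (nat_lit 76) (nat_lit 5826455131) (nat_lit 144) (nat_lit 5) (nat_lit 152) (nat_lit 5) (nat_lit 145) (nat_lit 5) (nat_lit 317) (nat_lit 302) (nat_lit 161)))))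 (XT.nd (nat_lit 234) (nat_lit 1444) (nat_lit 0) (XT.nd (nat_lit 78) (nat_lit 456) (nat_lit 0) (XT.lf (nat_lit 0) (nat_lit 14805854843) (nat_lit 532) (nat_lit 12061251568) (nat_lit 608) (nat_lit 21873364908) (nat_lit 137) (nat_lit 5) (nat_lit 144) (nat_lit 5) (nat_lit 145) (nat_lit 5) (nat_lit 318) (nat_lit 302) (nat_lit 160)) (XT.nd (nat_lit 78) (nat_lit 0) (nat_lit 0) (XT.lf (nat_lit 0) (nat_lit 4257033856) (nat_lit 456) (nat_lit 31384119419) (nat_lit 532) (nat_lit 14535014392) (nat_lit 131) (nat_lit 5) (nat_lit 137) (nat_lit 5) (nat_lit 138) (nat_lit 5) (nat_lit 319) (nat_lit 302) (nat_lit 159)) (XT.lf (nat_lit 0) (nat_lit 44939846998) (nat_lit 456) (nat_lit 380717144) (nat_lit 532) (nat_lit 6349089229) (nat_lit 131) (nat_lit 5) (nat_lit 137) (nat_lit 5) (nat_lit 138) (nat_lit 5) (nat_lit 320) (nat_lit 302) (nat_lit 158)))) (XT.nd (nat_lit 156) (nat_lit 456) (nat_lit 0) (XT.nd (nat_lit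 78) (nat_lit 456) (nat_lit 0) (XT.lf (nat_lit 0) (nat_lit 2849224187) (nat_lit 532) (nat_lit 18461353182) (nat_lit 76) (nat_lit 31907184645) (nat_lit 124) (nat_lit 5) (nat_lit 131) (nat_lit 5) (nat_lit 125) (nat_lit 5) (nat_lit 321) (nat_lit 302) (nat_lit 157)) (XT.lf (nat_lit 0) (nat_lit 12787972370) (nat_lit 532) (nat_lit 30928211343) (nat_lit 76) (nat_lit 11112855530) (nat_lit 118) (nat_lit 5) (nat_lit 125) (nat_lit 5) (nat_lit 119) (nat_lit 5) (nat_lit 322) (nat_lit 302) (nat_lit 156))) (XT.nd (nat_lit 78) (nat_lit 0) (nat_lit 0) (XT.lf (nat_lit 0) (nat_lit 12270916541) (nat_lit 456) (nat_lit 11474846239) (nat_lit 532) (nat_lit 32759458087) (nat_lit 112) (nat_lit 5) (nat_lit 118) (nat_lit 5) (nat_lit 119) (nat_lit 5) (nat_lit 323) (nat_lit 302) (nat_lit 155)) (XT.lf (nat_lit 0) (nat_lit 35785323286) (nat_lit 532) (nat_lit 200893252) (nat_lit 76) (nat_lit 22262982120) (nat_lit 112) (nat_lit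 5) (nat_lit 119) (nat_lit 5) (nat_lit 113) (nat_lit 5) (nat_lit 324) (nat_lit 302) (nat_lit 154)))))) (XT.nd (nat_lit 468) (nat_lit 1672) (nat_lit 0) (XT.nd (nat_lit 234) (nat_lit 684) (nat_lit 0) (XT.nd (nat_lit 78) (nat_lit 836) (nat_lit 0) (XT.lf (nat_lit 0) (nat_lit 46829055557) (nat_lit 380) (nat_lit 2161139214) (nat_lit 456) (nat_lit 11073283914) (nat_lit 107) (nat_lit 5) (nat_lit 112) (nat_lit 5) (nat_lit 113) (nat_lit 5) (nat_lit 325) (nat_lit 302) (nat_lit 153)) (XT.nd (nat_lit 78) (nat_lit 380) (nat_lit 0) (XT.lf (nat_lit 0) (nat_lit 1528741035) (nat_lit 456) (nat_lit 27366221084) (nat_lit 76) (nat_lit 33053481655) (nat_lit 101) (nat_lit 5) (nat_lit 107) (nat_lit 5) (nat_lit 102) (nat_lit 5) (nat_lit 326) (nat_lit 302) (nat_lit 152)) (XT.lf (nat_lit 0) (nat_lit 14959563015) (nat_lit 456) (nat_lit 42553420253) (nat_lit 76) (nat_lit 6398556445) (nat_lit 96) (nat_lit 5) (nat_lit 102)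 (nat_lit 5) (nat_lit 97) (nat_lit 5) (nat_lit 327) (nat_lit 302) (nat_lit 151)))) (XT.nd (nat_lit 78) (nat_lit 304) (nat_lit 0) (XT.lf (nat_lit 0) (nat_lit 6964636090) (nat_lit 380) (nat_lit 22737987814) (nat_lit 456) (nat_lit 36250948409) (nat_lit 91) (nat_lit 5) (nat_lit 96) (nat_lit 5) (nat_lit 97) (nat_lit 5) (nat_lit 328) (nat_lit 302) (nat_lit 150)) (XT.nd (nat_lit 78) (nat_lit 304) (nat_lit 0) (XT.lf (nat_lit 0) (nat_lit 45755330507) (nat_lit 456) (nat_lit 8376512350) (nat_lit 76) (nat_lit 13948691570) (nat_lit 91) (nat_lit 5) (nat_lit 97) (nat_lit 5) (nat_lit 92) (nat_lit 5) (nat_lit 329) (nat_lit 302) (nat_lit 149)) (XT.lf (nat_lit 0) (nat_lit 45420467959) (nat_lit 304) (nat_lit 17854108699) (nat_lit 380) (nat_lit 7019353399) (nat_lit 87) (nat_lit 5) (nat_lit 91) (nat_lit 5) (nat_lit 92) (nat_lit 5) (nat_lit 330) (nat_lit 302) (nat_lit 148))))) (XT.nd (nat_lit 234) (nat_lit 912)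 (nat_lit 0) (XT.nd (nat_lit 78) (nat_lit 304) (nat_lit 0) (XT.lf (nat_lit 0) (nat_lit 9447194809) (nat_lit 456) (nat_lit 42842435026) (nat_lit 76) (nat_lit 20308596494) (nat_lit 81) (nat_lit 5) (nat_lit 87) (nat_lit 5) (nat_lit 82) (nat_lit 5) (nat_lit 331) (nat_lit 302) (nat_lit 147)) (XT.nd (nat_lit 78) (nat_lit 0) (nat_lit 0) (XT.lf (nat_lit 0) (nat_lit 12616007856) (nat_lit 304) (nat_lit 14535223966) (nat_lit 380) (nat_lit 47847642901) (nat_lit 77) (nat_lit 5) (nat_lit 81) (nat_lit 5) (nat_lit 82) (nat_lit 5) (nat_lit 332) (nat_lit 302) (nat_lit 146)) (XT.lf (nat_lit 0) (nat_lit 46425189759) (nat_lit 380) (nat_lit 6012175542) (nat_lit 76) (nat_lit 25061650791) (nat_lit 77) (nat_lit 5) (nat_lit 82) (nat_lit 5) (nat_lit 78) (nat_lit 5) (nat_lit 333) (nat_lit 302) (nat_lit 145)))) (XT.nd (nat_lit 156) (nat_lit 304) (nat_lit 0) (XT.nd (nat_lit 78) (nat_lit 304) (nat_lit 0) (XT.lf (nat_lit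 0) (nat_lit 54083035694) (nat_lit 304) (nat_lit 13244477153) (nat_lit 380) (nat_lit 12776713691) (nat_lit 73) (nat_lit 5) (nat_lit 77) (nat_lit 5) (nat_lit 78) (nat_lit 5) (nat_lit 334) (nat_lit 302) (nat_lit 144)) (XT.lf (nat_lit 0) (nat_lit 6980453151) (nat_lit 304) (nat_lit 48008291157) (nat_lit 76) (nat_lit 27828976077) (nat_lit 69) (nat_lit 5) (nat_lit 73) (nat_lit 5) (nat_lit 70) (nat_lit 5) (nat_lit 335) (nat_lit 302) (nat_lit 143))) (XT.nd (nat_lit 78) (nat_lit 0) (nat_lit 0) (XT.lf (nat_lit 0) (nat_lit 13563273218) (nat_lit 304) (nat_lit 14433179329) (nat_lit 380) (nat_lit 57650586612) (nat_lit 65) (nat_lit 5) (nat_lit 69) (nat_lit 5) (nat_lit 70) (nat_lit 5) (nat_lit 336) (nat_lit 302) (nat_lit 142)) (XT.lf (nat_lit 0) (nat_lit 50831183769) (nat_lit 380) (nat_lit 9664410461) (nat_lit 76) (nat_lit 28099193387) (nat_lit 65) (nat_lit 5) (nat_lit 70) (nat_lit 5) (nat_lit 66) (nat_lit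 5) (nat_lit 337) (nat_lit 302) (nat_lit 141))))))) (XT.nd (nat_lit 1014) (nat_lit 228) (nat_lit 0) (XT.nd (nat_lit 468) (nat_lit 836) (nat_lit 0) (XT.nd (nat_lit 234) (nat_lit 456) (nat_lit 0) (XT.nd (nat_lit 78) (nat_lit 532) (nat_lit 0) (XT.lf (nat_lit 0) (nat_lit 56836878985) (nat_lit 228) (nat_lit 18661124005) (nat_lit 304) (nat_lit 16171211581) (nat_lit 62) (nat_lit 5) (nat_lit 65) (nat_lit 5) (nat_lit 66) (nat_lit 5) (nat_lit 338) (nat_lit 302) (nat_lit 140)) (XT.nd (nat_lit 78) (nat_lit 228) (nat_lit 0) (XT.lf (nat_lit 0) (nat_lit 7033140004) (nat_lit 304) (nat_lit 62590811255) (nat_lit 76) (nat_lit 25251762612) (nat_lit 58) (nat_lit 5) (nat_lit 62) (nat_lit 5) (nat_lit 59) (nat_lit 5) (nat_lit 339) (nat_lit 302) (nat_lit 139)) (XT.lf (nat_lit 0) (nat_lit 4994060957) (nat_lit 228) (nat_lit 26669197848) (nat_lit 304) (nat_lit 66556477572) (nat_lit 55) (nat_lit 5) (nat_lit 58) (nat_lit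 5) (nat_lit 59) (nat_lit 5) (nat_lit 340) (nat_lit 302) (nat_lit 138)))) (XT.nd (nat_lit 78) (nat_lit 456) (nat_lit 0) (XT.lf (nat_lit 0) (nat_lit 58351228701) (nat_lit 304) (nat_lit 24631417676) (nat_lit 76) (nat_lit 18723524633) (nat_lit 55) (nat_lit 5) (nat_lit 59) (nat_lit 5) (nat_lit 56) (nat_lit 5) (nat_lit 341) (nat_lit 302) (nat_lit 137)) (XT.nd (nat_lit 78) (nat_lit 228) (nat_lit 0) (XT.lf (nat_lit 0) (nat_lit 48058933009) (nat_lit 228) (nat_lit 39044344633) (nat_lit 304) (nat_lit 18241760611) (nat_lit 52) (nat_lit 5) (nat_lit 55) (nat_lit 5) (nat_lit 56) (nat_lit 5) (nat_lit 342) (nat_lit 302) (nat_lit 136)) (XT.lf (nat_lit 0) (nat_lit 8449611899) (nat_lit 228) (nat_lit 93255190765) (nat_lit 76) (nat_lit 7444270105) (nat_lit 49) (nat_lit 5) (nat_lit 52) (nat_lit 5) (nat_lit 50) (nat_lit 5) (nat_lit 343) (nat_lit 302) (nat_lit 135))))) (XT.nd (nat_lit 234) (nat_lit 456) (nat_lit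 0) (XT.nd (nat_lit 78) (nat_lit 380) (nat_lit 0) (XT.lf (nat_lit 0) (nat_lit 37090029366) (nat_lit 228) (nat_lit 19781861013) (nat_lit 76) (nat_lit 56236249108) (nat_lit 49) (nat_lit 5) (nat_lit 52) (nat_lit 5) (nat_lit 50) (nat_lit 5) (nat_lit 344) (nat_lit 302) (nat_lit 134)) (XT.nd (nat_lit 78) (nat_lit 152) (nat_lit 0) (XT.lf (nat_lit 0) (nat_lit 58504694664) (nat_lit 228) (nat_lit 9218826677) (nat_lit 304) (nat_lit 49524807677) (nat_lit 46) (nat_lit 5) (nat_lit 49) (nat_lit 5) (nat_lit 50) (nat_lit 5) (nat_lit 345) (nat_lit 302) (nat_lit 133)) (XT.lf (nat_lit 0) (nat_lit 19513904489) (nat_lit 152) (nat_lit 81159080513) (nat_lit 228) (nat_lit 20899015143) (nat_lit 44) (nat_lit 5) (nat_lit 46) (nat_lit 5) (nat_lit 47) (nat_lit 5) (nat_lit 346) (nat_lit 302) (nat_lit 132)))) (XT.nd (nat_lit 156) (nat_lit 152) (nat_lit 0) (XT.nd (nat_lit 78) (nat_lit 228) (nat_lit 0) (XT.lf (nat_lit 0)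 (nat_lit 9681845771) (nat_lit 228) (nat_lit 23370910190) (nat_lit 76) (nat_lit 93035384265) (nat_lit 43) (nat_lit 5) (nat_lit 46) (nat_lit 5) (nat_lit 44) (nat_lit 5) (nat_lit 347) (nat_lit 302) (nat_lit 131)) (XT.lf (nat_lit 0) (nat_lit 42116780191) (nat_lit 304) (nat_lit 70769328779) (nat_lit 76) (nat_lit 17915053998) (nat_lit 40) (nat_lit 5) (nat_lit 44) (nat_lit 5) (nat_lit 41) (nat_lit 5) (nat_lit 348) (nat_lit 302) (nat_lit 130))) (XT.nd (nat_lit 78) (nat_lit 0) (nat_lit 0) (XT.lf (nat_lit 0) (nat_lit 12251666366) (nat_lit 152) (nat_lit 64614969238) (nat_lit 228) (nat_lit 58862406880) (nat_lit 38) (nat_lit 5) (nat_lit 40) (nat_lit 5) (nat_lit 41) (nat_lit 5) (nat_lit 349) (nat_lit 302) (nat_lit 129)) (XT.lf (nat_lit 0) (nat_lit 100900740443) (nat_lit 152) (nat_lit 13180618559) (nat_lit 228) (nat_lit 26800136543) (nat_lit 38) (nat_lit 5) (nat_lit 40) (nat_lit 5) (nat_lit 41) (nat_lit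 5) (nat_lit 350) (nat_lit 302) (nat_lit 128)))))) (XT.nd (nat_lit 37362) (nat_lit 0) (nat_lit 9424) (XT.nd (nat_lit 37050) (nat_lit 0) (nat_lit 10716) (XT.nd (nat_lit 36894) (nat_lit 0) (nat_lit 10640) (XT.lf (nat_lit 0) (nat_lit 7594791637) (nat_lit 228) (nat_lit 98102609646) (nat_lit 76) (nat_lit 40566285650) (nat_lit 35) (nat_lit 5) (nat_lit 38) (nat_lit 5) (nat_lit 36) (nat_lit 5) (nat_lit 351) (nat_lit 302) (nat_lit 127)) (XT.nd (nat_lit 78) (nat_lit 0) (nat_lit 0) (XT.lf (nat_lit 0) (nat_lit 2012900244) (nat_lit 0) (nat_lit 2012900244) (nat_lit 1140) (nat_lit 12689327427) (nat_lit 175) (nat_lit 5) (nat_lit 175) (nat_lit 3) (nat_lit 190) (nat_lit 3) (nat_lit 303) (nat_lit 303) (nat_lit 174)) (XT.lf (nat_lit 0) (nat_lit 8546353731) (nat_lit 1140) (nat_lit 5074947021) (nat_lit 1216) (nat_lit 20635767886) (nat_lit 175) (nat_lit 5) (nat_lit 190) (nat_lit 3) (nat_lit 191) (nat_lit 5) (nat_lit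 304) (nat_lit 303) (nat_lit 173)))) (XT.nd (nat_lit 156) (nat_lit 0) (nat_lit 76) (XT.nd (nat_lit 78) (nat_lit 0) (nat_lit 76) (XT.lf (nat_lit 0) (nat_lit 9411799201) (nat_lit 1140) (nat_lit 14395222591) (nat_lit 1216) (nat_lit 11307830582) (nat_lit 176) (nat_lit 5) (nat_lit 191) (nat_lit 5) (nat_lit 192) (nat_lit 5) (nat_lit 305) (nat_lit 303) (nat_lit 172)) (XT.lf (nat_lit 0) (nat_lit 10633619759) (nat_lit 1140) (nat_lit 24030955298) (nat_lit 1216) (nat_lit 1341565674) (nat_lit 177) (nat_lit 5) (nat_lit 192) (nat_lit 5) (nat_lit 193) (nat_lit 5) (nat_lit 306) (nat_lit 303) (nat_lit 171))) (XT.nd (nat_lit 78) (nat_lit 0) (nat_lit 76) (XT.lf (nat_lit 76) (nat_lit 2837665295) (nat_lit 0) (nat_lit 9490805566) (nat_lit 1216) (nat_lit 24601172570) (nat_lit 178) (nat_lit 5) (nat_lit 177) (nat_lit 5) (nat_lit 193) (nat_lit 5) (nat_lit 307) (nat_lit 303) (nat_lit 170)) (XT.lf (nat_lit 0) (nat_lit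 14515701474) (nat_lit 1140) (nat_lit 6508725332) (nat_lit 1216) (nat_lit 16862673076) (nat_lit 178) (nat_lit 5) (nat_lit 193) (nat_lit 5) (nat_lit 194) (nat_lit 5) (nat_lit 308) (nat_lit 303) (nat_lit 169))))) (XT.nd (nat_lit 234) (nat_lit 1520) (nat_lit 0) (XT.nd (nat_lit 78) (nat_lit 0) (nat_lit 0) (XT.lf (nat_lit 0) (nat_lit 17177018364) (nat_lit 1140) (nat_lit 16138158440) (nat_lit 1216) (nat_lit 5566317967) (nat_lit 179) (nat_lit 5) (nat_lit 194) (nat_lit 5) (nat_lit 195) (nat_lit 5) (nat_lit 309) (nat_lit 303) (nat_lit 168)) (XT.nd (nat_lit 78) (nat_lit 0) (nat_lit 76) (XT.lf (nat_lit 76) (nat_lit 13721993516) (nat_lit 0) (nat_lit 6656590441) (nat_lit 1216) (nat_lit 19534816970) (nat_lit 180) (nat_lit 5) (nat_lit 179) (nat_lit 5) (nat_lit 195) (nat_lit 5) (nat_lit 310) (nat_lit 303) (nat_lit 167)) (XT.lf (nat_lit 76) (nat_lit 4294166136) (nat_lit 0) (nat_lit 19855805162) (nat_lit 1216)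 (nat_lit 16834645462) (nat_lit 181) (nat_lit 5) (nat_lit 180) (nat_lit 5) (nat_lit 196) (nat_lit 5) (nat_lit 311) (nat_lit 303) (nat_lit 166)))) (XT.nd (nat_lit 156) (nat_lit 1672) (nat_lit 0) (XT.nd (nat_lit 78) (nat_lit 0) (nat_lit 0) (XT.lf (nat_lit 0) (nat_lit 28522005889) (nat_lit 1140) (nat_lit 5400047876) (nat_lit 1216) (nat_lit 8174983640) (nat_lit 181) (nat_lit 5) (nat_lit 196) (nat_lit 5) (nat_lit 197) (nat_lit 5) (nat_lit 312) (nat_lit 303) (nat_lit 165)) (XT.lf (nat_lit 76) (nat_lit 27793561888) (nat_lit 0) (nat_lit 5782653421) (nat_lit 1216) (nat_lit 9674962630) (nat_lit 182) (nat_lit 5) (nat_lit 181) (nat_lit 5) (nat_lit 197) (nat_lit 5) (nat_lit 313) (nat_lit 303) (nat_lit 164))) (XT.nd (nat_lit 78) (nat_lit 608) (nat_lit 0) (XT.lf (nat_lit 0) (nat_lit 18425617315) (nat_lit 1140) (nat_lit 20915368487) (nat_lit 1216) (nat_lit 5108309947) (nat_lit 167) (nat_lit 5) (nat_lit 182)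 (nat_lit 5) (nat_lit 183) (nat_lit 5) (nat_lit 314) (nat_lit 303) (nat_lit 163)) (XT.lf (nat_lit 0) (nat_lit 76108739) (nat_lit 608) (nat_lit 37048759991) (nat_lit 76) (nat_lit 8571046827) (nat_lit 159) (nat_lit 5) (nat_lit 167) (nat_lit 5) (nat_lit 160) (nat_lit 5) (nat_lit 315) (nat_lit 303) (nat_lit 162))))))))
noncomputable def xc112 : XT := (XT.nd (nat_lit 2028) (nat_lit 1292) (nat_lit 0) (XT.nd (nat_lit 1014) (nat_lit 3116) (nat_lit 0) (XT.nd (nat_lit 468) (nat_lit 2660) (nat_lit 0) (XT.nd (nat_lit 234) (nat_lit 988) (nat_lit 0) (XT.nd (nat_lit 78) (nat_lit 1140) (nat_lit 0) (XT.lf (nat_lit 0) (nat_lit 5893152576) (nat_lit 608) (nat_lit 1670093850) (nat_lit 76) (nat_lit 39425736128) (nat_lit 159) (nat_lit 5) (nat_lit 167) (nat_lit 5) (nat_lit 160) (nat_lit 5) (nat_lit 316) (nat_lit 303) (nat_lit 161)) (XT.nd (nat_lit 78) (nat_lit 532) (nat_lit 0) (XT.lf (nat_lit 0) (nat_lit 12574545649)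 (nat_lit 684) (nat_lit 12385118461) (nat_lit 76) (nat_lit 23369838716) (nat_lit 151) (nat_lit 5) (nat_lit 160) (nat_lit 5) (nat_lit 152) (nat_lit 5) (nat_lit 317) (nat_lit 303) (nat_lit 160)) (XT.lf (nat_lit 0) (nat_lit 19991941800) (nat_lit 608) (nat_lit 23617808165) (nat_lit 76) (nat_lit 6115245747) (nat_lit 144) (nat_lit 5) (nat_lit 152) (nat_lit 5) (nat_lit 145) (nat_lit 5) (nat_lit 318) (nat_lit 303) (nat_lit 159)))) (XT.nd (nat_lit 78) (nat_lit 456) (nat_lit 0) (XT.lf (nat_lit 0) (nat_lit 15645430347) (nat_lit 532) (nat_lit 12662706222) (nat_lit 608) (nat_lit 22866293195) (nat_lit 137) (nat_lit 5) (nat_lit 144) (nat_lit 5) (nat_lit 145) (nat_lit 5) (nat_lit 319) (nat_lit 303) (nat_lit 158)) (XT.nd (nat_lit 78) (nat_lit 0) (nat_lit 0) (XT.lf (nat_lit 0) (nat_lit 4569284636) (nat_lit 456) (nat_lit 32947920164) (nat_lit 532) (nat_lit 15164822984) (nat_lit 131) (nat_lit 5) (nat_lit 137)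 (nat_lit 5) (nat_lit 138) (nat_lit 5) (nat_lit 320) (nat_lit 303) (nat_lit 157)) (XT.lf (nat_lit 0) (nat_lit 47281505145) (nat_lit 456) (nat_lit 394605167) (nat_lit 532) (nat_lit 6574217854) (nat_lit 131) (nat_lit 5) (nat_lit 137) (nat_lit 5) (nat_lit 138) (nat_lit 5) (nat_lit 321) (nat_lit 303) (nat_lit 156))))) (XT.nd (nat_lit 234) (nat_lit 1216) (nat_lit 0) (XT.nd (nat_lit 78) (nat_lit 912) (nat_lit 0) (XT.lf (nat_lit 0) (nat_lit 3078865203) (nat_lit 532) (nat_lit 19287941133) (nat_lit 76) (nat_lit 33509115268) (nat_lit 124) (nat_lit 5) (nat_lit 131) (nat_lit 5) (nat_lit 125) (nat_lit 5) (nat_lit 322) (nat_lit 303) (nat_lit 155)) (XT.nd (nat_lit 78) (nat_lit 456) (nat_lit 0) (XT.lf (nat_lit 0) (nat_lit 13511394272) (nat_lit 532) (nat_lit 32378376226) (nat_lit 76) (nat_lit 11678092279) (nat_lit 118) (nat_lit 5) (nat_lit 125) (nat_lit 5) (nat_lit 119) (nat_lit 5) (nat_lit 323) (nat_lit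 303) (nat_lit 154)) (XT.lf (nat_lit 0) (nat_lit 12977949190) (nat_lit 456) (nat_lit 12036022557) (nat_lit 532) (nat_lit 34313979940) (nat_lit 112) (nat_lit 5) (nat_lit 118) (nat_lit 5) (nat_lit 119) (nat_lit 5) (nat_lit 324) (nat_lit 303) (nat_lit 153)))) (XT.nd (nat_lit 156) (nat_lit 836) (nat_lit 0) (XT.nd (nat_lit 78) (nat_lit 380) (nat_lit 0) (XT.lf (nat_lit 0) (nat_lit 37651771945) (nat_lit 532) (nat_lit 119608149) (nat_lit 76) (nat_lit 23387865308) (nat_lit 112) (nat_lit 5) (nat_lit 119) (nat_lit 5) (nat_lit 113) (nat_lit 5) (nat_lit 325) (nat_lit 303) (nat_lit 152)) (XT.lf (nat_lit 0) (nat_lit 49259220151) (nat_lit 380) (nat_lit 2254844249) (nat_lit 456) (nat_lit 11550264362) (nat_lit 107) (nat_lit 5) (nat_lit 112) (nat_lit 5) (nat_lit 113) (nat_lit 5) (nat_lit 326) (nat_lit 303) (nat_lit 151))) (XT.nd (nat_lit 78) (nat_lit 380) (nat_lit 0) (XT.lf (nat_lit 0) (nat_lit 1677774920)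 (nat_lit 456) (nat_lit 28644709121) (nat_lit 76) (nat_lit 34721117970) (nat_lit 101) (nat_lit 5) (nat_lit 107) (nat_lit 5) (nat_lit 102) (nat_lit 5) (nat_lit 327) (nat_lit 303) (nat_lit 150)) (XT.lf (nat_lit 0) (nat_lit 15777685697) (nat_lit 456) (nat_lit 44591827708) (nat_lit 76) (nat_lit 6735417007) (nat_lit 96) (nat_lit 5) (nat_lit 102) (nat_lit 5) (nat_lit 97) (nat_lit 5) (nat_lit 328) (nat_lit 303) (nat_lit 149)))))) (XT.nd (nat_lit 468) (nat_lit 1672) (nat_lit 0) (XT.nd (nat_lit 234) (nat_lit 760) (nat_lit 0) (XT.nd (nat_lit 78) (nat_lit 304) (nat_lit 0) (XT.lf (nat_lit 0) (nat_lit 7399572730) (nat_lit 380) (nat_lit 23855820145) (nat_lit 456) (nat_lit 37993750872) (nat_lit 91) (nat_lit 5) (nat_lit 96) (nat_lit 5) (nat_lit 97) (nat_lit 5) (nat_lit 329) (nat_lit 303) (nat_lit 148)) (XT.nd (nat_lit 78) (nat_lit 304) (nat_lit 0) (XT.lf (nat_lit 0) (nat_lit 48107688518) (nat_lit 456) (nat_lit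 8710929650) (nat_lit 76) (nat_lit 14663930903) (nat_lit 91) (nat_lit 5) (nat_lit 97) (nat_lit 5) (nat_lit 92) (nat_lit 5) (nat_lit 330) (nat_lit 303) (nat_lit 147)) (XT.lf (nat_lit 0) (nat_lit 47773480126) (nat_lit 304) (nat_lit 18727129192) (nat_lit 380) (nat_lit 7306077335) (nat_lit 87) (nat_lit 5) (nat_lit 91) (nat_lit 5) (nat_lit 92) (nat_lit 5) (nat_lit 331) (nat_lit 303) (nat_lit 146)))) (XT.nd (nat_lit 78) (nat_lit 304) (nat_lit 0) (XT.lf (nat_lit 0) (nat_lit 9980516747) (nat_lit 456) (nat_lit 44901938975) (nat_lit 76) (nat_lit 21343787601) (nat_lit 81) (nat_lit 5) (nat_lit 87) (nat_lit 5) (nat_lit 82) (nat_lit 5) (nat_lit 332) (nat_lit 303) (nat_lit 145)) (XT.nd (nat_lit 78) (nat_lit 0) (nat_lit 0) (XT.lf (nat_lit 0) (nat_lit 13327057829) (nat_lit 304) (nat_lit 15240566228) (nat_lit 380) (nat_lit 50179367142) (nat_lit 77) (nat_lit 5) (nat_lit 81) (nat_lit 5) (nat_lit 82) (nat_lit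 5) (nat_lit 333) (nat_lit 303) (nat_lit 144)) (XT.lf (nat_lit 0) (nat_lit 48802674519) (nat_lit 380) (nat_lit 6234811988) (nat_lit 76) (nat_lit 26334734259) (nat_lit 77) (nat_lit 5) (nat_lit 82) (nat_lit 5) (nat_lit 78) (nat_lit 5) (nat_lit 334) (nat_lit 303) (nat_lit 143))))) (XT.nd (nat_lit 234) (nat_lit 760) (nat_lit 0) (XT.nd (nat_lit 78) (nat_lit 608) (nat_lit 0) (XT.lf (nat_lit 0) (nat_lit 56862924748) (nat_lit 304) (nat_lit 13885239652) (nat_lit 380) (nat_lit 13359588643) (nat_lit 73) (nat_lit 5) (nat_lit 77) (nat_lit 5) (nat_lit 78) (nat_lit 5) (nat_lit 335) (nat_lit 303) (nat_lit 142)) (XT.nd (nat_lit 78) (nat_lit 304) (nat_lit 0) (XT.lf (nat_lit 0) (nat_lit 7382658278) (nat_lit 304) (nat_lit 50332592580) (nat_lit 76) (nat_lit 29241707790) (nat_lit 69) (nat_lit 5) (nat_lit 73) (nat_lit 5) (nat_lit 70) (nat_lit 5) (nat_lit 336) (nat_lit 303) (nat_lit 141)) (XT.lf (nat_lit 0) (nat_lit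 14315368247) (nat_lit 304) (nat_lit 15132267572) (nat_lit 380) (nat_lit 60480164686) (nat_lit 65) (nat_lit 5) (nat_lit 69) (nat_lit 5) (nat_lit 70) (nat_lit 5) (nat_lit 337) (nat_lit 303) (nat_lit 140)))) (XT.nd (nat_lit 156) (nat_lit 532) (nat_lit 0) (XT.nd (nat_lit 78) (nat_lit 228) (nat_lit 0) (XT.lf (nat_lit 0) (nat_lit 53421864489) (nat_lit 380) (nat_lit 10075911919) (nat_lit 76) (nat_lit 29525229520) (nat_lit 65) (nat_lit 5) (nat_lit 70) (nat_lit 5) (nat_lit 66) (nat_lit 5) (nat_lit 338) (nat_lit 303) (nat_lit 139)) (XT.lf (nat_lit 0) (nat_lit 59748386186) (nat_lit 228) (nat_lit 19571969011) (nat_lit 304) (nat_lit 16930851378) (nat_lit 62) (nat_lit 5) (nat_lit 65) (nat_lit 5) (nat_lit 66) (nat_lit 5) (nat_lit 339) (nat_lit 303) (nat_lit 138))) (XT.nd (nat_lit 78) (nat_lit 228) (nat_lit 0) (XT.lf (nat_lit 0) (nat_lit 7431353144) (nat_lit 304) (nat_lit 65650497892) (nat_lit 76) (nat_lit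 26536210084) (nat_lit 58) (nat_lit 5) (nat_lit 62) (nat_lit 5) (nat_lit 59) (nat_lit 5) (nat_lit 340) (nat_lit 303) (nat_lit 137)) (XT.lf (nat_lit 0) (nat_lit 5311615582) (nat_lit 228) (nat_lit 27979797575) (nat_lit 304) (nat_lit 69837920524) (nat_lit 55) (nat_lit 5) (nat_lit 58) (nat_lit 5) (nat_lit 59) (nat_lit 5) (nat_lit 341) (nat_lit 303) (nat_lit 136))))))) (XT.nd (nat_lit 37908) (nat_lit 0) (nat_lit 8056) (XT.nd (nat_lit 468) (nat_lit 456) (nat_lit 0) (XT.nd (nat_lit 234) (nat_lit 380) (nat_lit 0) (XT.nd (nat_lit 78) (nat_lit 456) (nat_lit 0) (XT.lf (nat_lit 0) (nat_lit 61311848382) (nat_lit 304) (nat_lit 25797253945) (nat_lit 76) (nat_lit 19681047609) (nat_lit 55) (nat_lit 5) (nat_lit 59) (nat_lit 5) (nat_lit 56) (nat_lit 5) (nat_lit 342) (nat_lit 303) (nat_lit 135)) (XT.nd (nat_lit 78) (nat_lit 228) (nat_lit 0) (XT.lf (nat_lit 0) (nat_lit 50525730005) (nat_lit 228) (nat_lit 40974333141)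 (nat_lit 304) (nat_lit 19110942298) (nat_lit 52) (nat_lit 5) (nat_lit 55) (nat_lit 5) (nat_lit 56) (nat_lit 5) (nat_lit 343) (nat_lit 303) (nat_lit 134)) (XT.lf (nat_lit 0) (nat_lit 8912975985) (nat_lit 228) (nat_lit 97854042852) (nat_lit 76) (nat_lit 7838247711) (nat_lit 49) (nat_lit 5) (nat_lit 52) (nat_lit 5) (nat_lit 50) (nat_lit 5) (nat_lit 344) (nat_lit 303) (nat_lit 133)))) (XT.nd (nat_lit 78) (nat_lit 380) (nat_lit 0) (XT.lf (nat_lit 0) (nat_lit 38983467492) (nat_lit 228) (nat_lit 20710089825) (nat_lit 76) (nat_lit 59068789278) (nat_lit 49) (nat_lit 5) (nat_lit 52) (nat_lit 5) (nat_lit 50) (nat_lit 5) (nat_lit 345) (nat_lit 303) (nat_lit 132)) (XT.nd (nat_lit 78) (nat_lit 152) (nat_lit 0) (XT.lf (nat_lit 0) (nat_lit 61489048975) (nat_lit 228) (nat_lit 9658299257) (nat_lit 304) (nat_lit 51962237457) (nat_lit 46) (nat_lit 5) (nat_lit 49) (nat_lit 5) (nat_lit 50) (nat_lit 5) (nat_lit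 346) (nat_lit 303) (nat_lit 131)) (XT.lf (nat_lit 0) (nat_lit 20547950721) (nat_lit 152) (nat_lit 85195298909) (nat_lit 228) (nat_lit 21906223247) (nat_lit 44) (nat_lit 5) (nat_lit 46) (nat_lit 5) (nat_lit 47) (nat_lit 5) (nat_lit 347) (nat_lit 303) (nat_lit 130))))) (XT.nd (nat_lit 234) (nat_lit 0) (nat_lit 0) (XT.nd (nat_lit 78) (nat_lit 380) (nat_lit 0) (XT.lf (nat_lit 0) (nat_lit 10201182019) (nat_lit 228) (nat_lit 24483155245) (nat_lit 76) (nat_lit 97707126011) (nat_lit 43) (nat_lit 5) (nat_lit 46) (nat_lit 5) (nat_lit 44) (nat_lit 5) (nat_lit 348) (nat_lit 303) (nat_lit 129)) (XT.nd (nat_lit 78) (nat_lit 152) (nat_lit 0) (XT.lf (nat_lit 0) (nat_lit 44256908532) (nat_lit 304) (nat_lit 74252258464) (nat_lit 76) (nat_lit 18831000066) (nat_lit 40) (nat_lit 5) (nat_lit 44) (nat_lit 5) (nat_lit 41) (nat_lit 5) (nat_lit 349) (nat_lit 303) (nat_lit 128)) (XT.lf (nat_lit 0) (nat_lit 12918194488)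 (nat_lit 152) (nat_lit 67824947953) (nat_lit 228) (nat_lit 61771332750) (nat_lit 38) (nat_lit 5) (nat_lit 40) (nat_lit 5) (nat_lit 41) (nat_lit 5) (nat_lit 350) (nat_lit 303) (nat_lit 127)))) (XT.nd (nat_lit 37050) (nat_lit 0) (nat_lit 10412) (XT.nd (nat_lit 36972) (nat_lit 0) (nat_lit 10412) (XT.lf (nat_lit 0) (nat_lit 105997153469) (nat_lit 152) (nat_lit 13819868775) (nat_lit 228) (nat_lit 28107577205) (nat_lit 38) (nat_lit 5) (nat_lit 40) (nat_lit 5) (nat_lit 41) (nat_lit 5) (nat_lit 351) (nat_lit 303) (nat_lit 126)) (XT.lf (nat_lit 0) (nat_lit 2158409332) (nat_lit 0) (nat_lit 2158409332) (nat_lit 1140) (nat_lit 13231236275) (nat_lit 175) (nat_lit 5) (nat_lit 175) (nat_lit 3) (nat_lit 190) (nat_lit 3) (nat_lit 304) (nat_lit 304) (nat_lit 172))) (XT.nd (nat_lit 78) (nat_lit 0) (nat_lit 76) (XT.lf (nat_lit 0) (nat_lit 9143760734) (nat_lit 1140) (nat_lit 5237028260) (nat_lit 1216) (nat_lit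 21583768439) (nat_lit 175) (nat_lit 5) (nat_lit 190) (nat_lit 3) (nat_lit 191) (nat_lit 5) (nat_lit 305) (nat_lit 304) (nat_lit 171)) (XT.lf (nat_lit 0) (nat_lit 10044525400) (nat_lit 1140) (nat_lit 15020100866) (nat_lit 1216) (nat_lit 11800855158) (nat_lit 176) (nat_lit 5) (nat_lit 191) (nat_lit 5) (nat_lit 192) (nat_lit 5) (nat_lit 306) (nat_lit 304) (nat_lit 170)))))) (XT.nd (nat_lit 468) (nat_lit 2508) (nat_lit 0) (XT.nd (nat_lit 234) (nat_lit 0) (nat_lit 152) (XT.nd (nat_lit 78) (nat_lit 0) (nat_lit 0) (XT.lf (nat_lit 0) (nat_lit 11319995216) (nat_lit 1140) (nat_lit 25134836437) (nat_lit 1216) (nat_lit 1346737677) (nat_lit 177) (nat_lit 5) (nat_lit 192) (nat_lit 5) (nat_lit 193) (nat_lit 5) (nat_lit 307) (nat_lit 304) (nat_lit 169)) (XT.nd (nat_lit 78) (nat_lit 0) (nat_lit 76) (XT.lf (nat_lit 76) (nat_lit 3074415591) (nat_lit 0) (nat_lit 10018718799) (nat_lit 1216) (nat_lit 25678317725)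 (nat_lit 178) (nat_lit 5) (nat_lit 177) (nat_lit 5) (nat_lit 193) (nat_lit 5) (nat_lit 308) (nat_lit 304) (nat_lit 168)) (XT.lf (nat_lit 0) (nat_lit 15382178864) (nat_lit 1140) (nat_lit 6738872483) (nat_lit 1216) (nat_lit 17655967248) (nat_lit 178) (nat_lit 5) (nat_lit 193) (nat_lit 5) (nat_lit 194) (nat_lit 5) (nat_lit 309) (nat_lit 304) (nat_lit 167)))) (XT.nd (nat_lit 78) (nat_lit 0) (nat_lit 0) (XT.lf (nat_lit 0) (nat_lit 18170344835) (nat_lit 1140) (nat_lit 16847850117) (nat_lit 1216) (nat_lit 5803135043) (nat_lit 179) (nat_lit 5) (nat_lit 194) (nat_lit 5) (nat_lit 195) (nat_lit 5) (nat_lit 310) (nat_lit 304) (nat_lit 166)) (XT.nd (nat_lit 78) (nat_lit 0) (nat_lit 76) (XT.lf (nat_lit 76) (nat_lit 14502522753) (nat_lit 0) (nat_lit 7023970071) (nat_lit 1216) (nat_lit 20378513284) (nat_lit 180) (nat_lit 5) (nat_lit 179) (nat_lit 5) (nat_lit 195) (nat_lit 5) (nat_lit 311) (nat_lit 304)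 (nat_lit 165)) (XT.lf (nat_lit 76) (nat_lit 4604868143) (nat_lit 0) (nat_lit 20876045948) (nat_lit 1216) (nat_lit 17549044013) (nat_lit 181) (nat_lit 5) (nat_lit 180) (nat_lit 5) (nat_lit 196) (nat_lit 5) (nat_lit 312) (nat_lit 304) (nat_lit 164))))) (XT.nd (nat_lit 234) (nat_lit 1748) (nat_lit 0) (XT.nd (nat_lit 78) (nat_lit 1064) (nat_lit 0) (XT.lf (nat_lit 0) (nat_lit 30065420809) (nat_lit 1140) (nat_lit 5574672111) (nat_lit 1216) (nat_lit 8558099613) (nat_lit 181) (nat_lit 5) (nat_lit 196) (nat_lit 5) (nat_lit 197) (nat_lit 5) (nat_lit 313) (nat_lit 304) (nat_lit 163)) (XT.nd (nat_lit 78) (nat_lit 1064) (nat_lit 0) (XT.lf (nat_lit 76) (nat_lit 29275884145) (nat_lit 0) (nat_lit 6091760697) (nat_lit 1216) (nat_lit 10042544572) (nat_lit 182) (nat_lit 5) (nat_lit 181) (nat_lit 5) (nat_lit 197) (nat_lit 5) (nat_lit 314) (nat_lit 304) (nat_lit 162)) (XT.lf (nat_lit 0) (nat_lit 19440518957)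 (nat_lit 1140) (nat_lit 21975489179) (nat_lit 1216) (nat_lit 5252352390) (nat_lit 167) (nat_lit 5) (nat_lit 182) (nat_lit 5) (nat_lit 183) (nat_lit 5) (nat_lit 315) (nat_lit 304) (nat_lit 161)))) (XT.nd (nat_lit 156) (nat_lit 1140) (nat_lit 0) (XT.nd (nat_lit 78) (nat_lit 0) (nat_lit 0) (XT.lf (nat_lit 0) (nat_lit 184697417) (nat_lit 608) (nat_lit 38804590186) (nat_lit 76) (nat_lit 8988131534) (nat_lit 159) (nat_lit 5) (nat_lit 167) (nat_lit 5) (nat_lit 160) (nat_lit 5) (nat_lit 316) (nat_lit 304) (nat_lit 160)) (XT.lf (nat_lit 0) (nat_lit 6287603768) (nat_lit 608) (nat_lit 1661591110) (nat_lit 76) (nat_lit 41386101378) (nat_lit 159) (nat_lit 5) (nat_lit 167) (nat_lit 5) (nat_lit 160) (nat_lit 5) (nat_lit 317) (nat_lit 304) (nat_lit 159))) (XT.nd (nat_lit 78) (nat_lit 532) (nat_lit 0) (XT.lf (nat_lit 0) (nat_lit 13299110725) (nat_lit 684) (nat_lit 12911929659) (nat_lit 76) (nat_lit 24531927575)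 (nat_lit 151) (nat_lit 5) (nat_lit 160) (nat_lit 5) (nat_lit 152) (nat_lit 5) (nat_lit 318) (nat_lit 304) (nat_lit 158)) (XT.lf (nat_lit 0) (nat_lit 21083653625) (nat_lit 608) (nat_lit 24705988671) (nat_lit 76) (nat_lit 6418711308) (nat_lit 144) (nat_lit 5) (nat_lit 152) (nat_lit 5) (nat_lit 145) (nat_lit 5) (nat_lit 319) (nat_lit 304) (nat_lit 157))))))))
noncomputable def xc113 : XT := (XT.nd (nat_lit 2028) (nat_lit 836) (nat_lit 0) (XT.nd (nat_lit 1014) (nat_lit 2888) (nat_lit 0) (XT.nd (nat_lit 468) (nat_lit 1900) (nat_lit 0) (XT.nd (nat_lit 234) (nat_lit 1444) (nat_lit 0) (XT.nd (nat_lit 78) (nat_lit 456) (nat_lit 0) (XT.lf (nat_lit 0) (nat_lit 16517754256) (nat_lit 532) (nat_lit 13294383099) (nat_lit 608) (nat_lit 23918233744) (nat_lit 137) (nat_lit 5) (nat_lit 144) (nat_lit 5) (nat_lit 145) (nat_lit 5) (nat_lit 320) (nat_lit 304) (nat_lit 156)) (XT.nd (nat_lit 78) (nat_lit 0) (nat_lit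 0) (XT.lf (nat_lit 0) (nat_lit 4887906770) (nat_lit 456) (nat_lit 34590413473) (nat_lit 532) (nat_lit 15835134765) (nat_lit 131) (nat_lit 5) (nat_lit 137) (nat_lit 5) (nat_lit 138) (nat_lit 5) (nat_lit 321) (nat_lit 304) (nat_lit 155)) (XT.lf (nat_lit 0) (nat_lit 49731445071) (nat_lit 456) (nat_lit 409666187) (nat_lit 532) (nat_lit 6819186491) (nat_lit 131) (nat_lit 5) (nat_lit 137) (nat_lit 5) (nat_lit 138) (nat_lit 5) (nat_lit 322) (nat_lit 304) (nat_lit 154)))) (XT.nd (nat_lit 78) (nat_lit 912) (nat_lit 0) (XT.lf (nat_lit 0) (nat_lit 3311883118) (nat_lit 532) (nat_lit 20164828251) (nat_lit 76) (nat_lit 35190531476) (nat_lit 124) (nat_lit 5) (nat_lit 131) (nat_lit 5) (nat_lit 125) (nat_lit 5) (nat_lit 323) (nat_lit 304) (nat_lit 153)) (XT.nd (nat_lit 78) (nat_lit 456) (nat_lit 0) (XT.lf (nat_lit 0) (nat_lit 14263175581) (nat_lit 532) (nat_lit 33909997364) (nat_lit 76) (nat_lit 12270698909)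 (nat_lit 118) (nat_lit 5) (nat_lit 125) (nat_lit 5) (nat_lit 119) (nat_lit 5) (nat_lit 324) (nat_lit 304) (nat_lit 152)) (XT.lf (nat_lit 0) (nat_lit 13711641952) (nat_lit 456) (nat_lit 12626425958) (nat_lit 532) (nat_lit 35953986373) (nat_lit 112) (nat_lit 5) (nat_lit 118) (nat_lit 5) (nat_lit 119) (nat_lit 5) (nat_lit 325) (nat_lit 304) (nat_lit 151))))) (XT.nd (nat_lit 234) (nat_lit 1064) (nat_lit 0) (XT.nd (nat_lit 78) (nat_lit 836) (nat_lit 0) (XT.lf (nat_lit 0) (nat_lit 39604367340) (nat_lit 532) (nat_lit 42749767) (nat_lit 76) (nat_lit 24567901732) (nat_lit 112) (nat_lit 5) (nat_lit 119) (nat_lit 5) (nat_lit 113) (nat_lit 5) (nat_lit 326) (nat_lit 304) (nat_lit 150)) (XT.nd (nat_lit 78) (nat_lit 456) (nat_lit 0) (XT.lf (nat_lit 0) (nat_lit 51802645391) (nat_lit 380) (nat_lit 2354568841) (nat_lit 456) (nat_lit 12058223160) (nat_lit 107) (nat_lit 5) (nat_lit 112) (nat_lit 5) (nat_lit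 113) (nat_lit 5) (nat_lit 327) (nat_lit 304) (nat_lit 149)) (XT.lf (nat_lit 0) (nat_lit 1827511133) (nat_lit 456) (nat_lit 29995472452) (nat_lit 76) (nat_lit 36470745053) (nat_lit 101) (nat_lit 5) (nat_lit 107) (nat_lit 5) (nat_lit 102) (nat_lit 5) (nat_lit 328) (nat_lit 304) (nat_lit 148)))) (XT.nd (nat_lit 156) (nat_lit 304) (nat_lit 0) (XT.nd (nat_lit 78) (nat_lit 380) (nat_lit 0) (XT.lf (nat_lit 0) (nat_lit 16630193140) (nat_lit 456) (nat_lit 46740454415) (nat_lit 76) (nat_lit 7087546352) (nat_lit 96) (nat_lit 5) (nat_lit 102) (nat_lit 5) (nat_lit 97) (nat_lit 5) (nat_lit 329) (nat_lit 304) (nat_lit 147)) (XT.lf (nat_lit 0) (nat_lit 7848195209) (nat_lit 380) (nat_lit 25031316767) (nat_lit 456) (nat_lit 39830177683) (nat_lit 91) (nat_lit 5) (nat_lit 96) (nat_lit 5) (nat_lit 97) (nat_lit 5) (nat_lit 330) (nat_lit 304) (nat_lit 146))) (XT.nd (nat_lit 78) (nat_lit 304) (nat_lit 0) (XT.lf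 (nat_lit 0) (nat_lit 50571659326) (nat_lit 456) (nat_lit 9069915301) (nat_lit 76) (nat_lit 15413276886) (nat_lit 91) (nat_lit 5) (nat_lit 97) (nat_lit 5) (nat_lit 92) (nat_lit 5) (nat_lit 331) (nat_lit 304) (nat_lit 145)) (XT.lf (nat_lit 0) (nat_lit 50236520364) (nat_lit 304) (nat_lit 19645630828) (nat_lit 380) (nat_lit 7613110241) (nat_lit 87) (nat_lit 5) (nat_lit 91) (nat_lit 5) (nat_lit 92) (nat_lit 5) (nat_lit 332) (nat_lit 304) (nat_lit 144)))))) (XT.nd (nat_lit 468) (nat_lit 1216) (nat_lit 0) (XT.nd (nat_lit 234) (nat_lit 912) (nat_lit 0) (XT.nd (nat_lit 78) (nat_lit 304) (nat_lit 0) (XT.lf (nat_lit 0) (nat_lit 10534837095) (nat_lit 456) (nat_lit 47072099141) (nat_lit 76) (nat_lit 22428901046) (nat_lit 81) (nat_lit 5) (nat_lit 87) (nat_lit 5) (nat_lit 82) (nat_lit 5) (nat_lit 333) (nat_lit 304) (nat_lit 143)) (XT.nd (nat_lit 78) (nat_lit 0) (nat_lit 0) (XT.lf (nat_lit 0) (nat_lit 14066199455)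 (nat_lit 304) (nat_lit 15983166933) (nat_lit 380) (nat_lit 52633316992) (nat_lit 77) (nat_lit 5) (nat_lit 81) (nat_lit 5) (nat_lit 82) (nat_lit 5) (nat_lit 334) (nat_lit 304) (nat_lit 142)) (XT.lf (nat_lit 0) (nat_lit 51293806224) (nat_lit 380) (nat_lit 6475829384) (nat_lit 76) (nat_lit 27669612404) (nat_lit 77) (nat_lit 5) (nat_lit 82) (nat_lit 5) (nat_lit 78) (nat_lit 5) (nat_lit 335) (nat_lit 304) (nat_lit 141)))) (XT.nd (nat_lit 78) (nat_lit 608) (nat_lit 0) (XT.lf (nat_lit 0) (nat_lit 59774766922) (nat_lit 304) (nat_lit 14560035550) (nat_lit 380) (nat_lit 13976810040) (nat_lit 73) (nat_lit 5) (nat_lit 77) (nat_lit 5) (nat_lit 78) (nat_lit 5) (nat_lit 336) (nat_lit 304) (nat_lit 140)) (XT.nd (nat_lit 78) (nat_lit 304) (nat_lit 0) (XT.lf (nat_lit 0) (nat_lit 7800029259) (nat_lit 304) (nat_lit 52780185351) (nat_lit 76) (nat_lit 30723097405) (nat_lit 69) (nat_lit 5) (nat_lit 73) (nat_lit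 5) (nat_lit 70) (nat_lit 5) (nat_lit 337) (nat_lit 304) (nat_lit 139)) (XT.lf (nat_lit 0) (nat_lit 15098194590) (nat_lit 304) (nat_lit 15868408639) (nat_lit 380) (nat_lit 63456144568) (nat_lit 65) (nat_lit 5) (nat_lit 69) (nat_lit 5) (nat_lit 70) (nat_lit 5) (nat_lit 338) (nat_lit 304) (nat_lit 138))))) (XT.nd (nat_lit 234) (nat_lit 684) (nat_lit 0) (XT.nd (nat_lit 78) (nat_lit 532) (nat_lit 0) (XT.lf (nat_lit 0) (nat_lit 56137512391) (nat_lit 380) (nat_lit 10514656210) (nat_lit 76) (nat_lit 31020607971) (nat_lit 65) (nat_lit 5) (nat_lit 70) (nat_lit 5) (nat_lit 66) (nat_lit 5) (nat_lit 339) (nat_lit 304) (nat_lit 137)) (XT.nd (nat_lit 78) (nat_lit 304) (nat_lit 0) (XT.lf (nat_lit 0) (nat_lit 62798992118) (nat_lit 228) (nat_lit 20530421253) (nat_lit 304) (nat_lit 17733021355) (nat_lit 62) (nat_lit 5) (nat_lit 65) (nat_lit 5) (nat_lit 66) (nat_lit 5) (nat_lit 340) (nat_lit 304) (nat_lit 136))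 (XT.lf (nat_lit 0) (nat_lit 7845148592) (nat_lit 304) (nat_lit 68869663217) (nat_lit 76) (nat_lit 27882847655) (nat_lit 58) (nat_lit 5) (nat_lit 62) (nat_lit 5) (nat_lit 59) (nat_lit 5) (nat_lit 341) (nat_lit 304) (nat_lit 135)))) (XT.nd (nat_lit 156) (nat_lit 456) (nat_lit 0) (XT.nd (nat_lit 78) (nat_lit 0) (nat_lit 0) (XT.lf (nat_lit 0) (nat_lit 5638739741) (nat_lit 228) (nat_lit 29358052610) (nat_lit 304) (nat_lit 73287747683) (nat_lit 55) (nat_lit 5) (nat_lit 58) (nat_lit 5) (nat_lit 59) (nat_lit 5) (nat_lit 342) (nat_lit 304) (nat_lit 134)) (XT.lf (nat_lit 0) (nat_lit 64416495898) (nat_lit 304) (nat_lit 27027493409) (nat_lit 76) (nat_lit 20684462115) (nat_lit 55) (nat_lit 5) (nat_lit 59) (nat_lit 5) (nat_lit 56) (nat_lit 5) (nat_lit 343) (nat_lit 304) (nat_lit 133))) (XT.nd (nat_lit 78) (nat_lit 228) (nat_lit 0) (XT.lf (nat_lit 0) (nat_lit 53109930651) (nat_lit 228) (nat_lit 43002887689)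 (nat_lit 304) (nat_lit 20027572093) (nat_lit 52) (nat_lit 5) (nat_lit 55) (nat_lit 5) (nat_lit 56) (nat_lit 5) (nat_lit 344) (nat_lit 304) (nat_lit 132)) (XT.lf (nat_lit 0) (nat_lit 9395707315) (nat_lit 228) (nat_lit 102688779052) (nat_lit 76) (nat_lit 8249900777) (nat_lit 49) (nat_lit 5) (nat_lit 52) (nat_lit 5) (nat_lit 50) (nat_lit 5) (nat_lit 345) (nat_lit 304) (nat_lit 131))))))) (XT.nd (nat_lit 37986) (nat_lit 0) (nat_lit 6080) (XT.nd (nat_lit 37440) (nat_lit 0) (nat_lit 10412) (XT.nd (nat_lit 234) (nat_lit 456) (nat_lit 0) (XT.nd (nat_lit 78) (nat_lit 380) (nat_lit 0) (XT.lf (nat_lit 0) (nat_lit 40967957563) (nat_lit 228) (nat_lit 21690388657) (nat_lit 76) (nat_lit 62041029391) (nat_lit 49) (nat_lit 5) (nat_lit 52) (nat_lit 5) (nat_lit 50) (nat_lit 5) (nat_lit 346) (nat_lit 304) (nat_lit 130)) (XT.nd (nat_lit 78) (nat_lit 152) (nat_lit 0) (XT.lf (nat_lit 0) (nat_lit 64617124624) (nat_lit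 228) (nat_lit 10121741427) (nat_lit 304) (nat_lit 54525146968) (nat_lit 46) (nat_lit 5) (nat_lit 49) (nat_lit 5) (nat_lit 50) (nat_lit 5) (nat_lit 347) (nat_lit 304) (nat_lit 129)) (XT.lf (nat_lit 0) (nat_lit 21628274340) (nat_lit 152) (nat_lit 89435348997) (nat_lit 228) (nat_lit 22967300711) (nat_lit 44) (nat_lit 5) (nat_lit 46) (nat_lit 5) (nat_lit 47) (nat_lit 5) (nat_lit 348) (nat_lit 304) (nat_lit 128)))) (XT.nd (nat_lit 78) (nat_lit 380) (nat_lit 0) (XT.lf (nat_lit 0) (nat_lit 10743208431) (nat_lit 228) (nat_lit 25656246835) (nat_lit 76) (nat_lit 102610597988) (nat_lit 43) (nat_lit 5) (nat_lit 46) (nat_lit 5) (nat_lit 44) (nat_lit 5) (nat_lit 349) (nat_lit 304) (nat_lit 127)) (XT.nd (nat_lit 78) (nat_lit 152) (nat_lit 0) (XT.lf (nat_lit 0) (nat_lit 46500855393) (nat_lit 304) (nat_lit 77914497914) (nat_lit 76) (nat_lit 19790866050) (nat_lit 40) (nat_lit 5) (nat_lit 44) (nat_lit 5) (nat_lit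 41) (nat_lit 5) (nat_lit 350) (nat_lit 304) (nat_lit 126)) (XT.lf (nat_lit 0) (nat_lit 13613033740) (nat_lit 152) (nat_lit 71197356577) (nat_lit 228) (nat_lit 64828883992) (nat_lit 38) (nat_lit 5) (nat_lit 40) (nat_lit 5) (nat_lit 41) (nat_lit 5) (nat_lit 351) (nat_lit 304) (nat_lit 125))))) (XT.nd (nat_lit 234) (nat_lit 0) (nat_lit 152) (XT.nd (nat_lit 78) (nat_lit 0) (nat_lit 0) (XT.lf (nat_lit 0) (nat_lit 2307022839) (nat_lit 0) (nat_lit 2307022839) (nat_lit 1140) (nat_lit 13808845686) (nat_lit 175) (nat_lit 5) (nat_lit 175) (nat_lit 3) (nat_lit 190) (nat_lit 3) (nat_lit 305) (nat_lit 305) (nat_lit 170)) (XT.nd (nat_lit 78) (nat_lit 0) (nat_lit 76) (XT.lf (nat_lit 0) (nat_lit 9755224796) (nat_lit 1140) (nat_lit 5415735807) (nat_lit 1216) (nat_lit 22586958819) (nat_lit 175) (nat_lit 5) (nat_lit 190) (nat_lit 3) (nat_lit 191) (nat_lit 5) (nat_lit 306) (nat_lit 305) (nat_lit 169)) (XT.lf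 (nat_lit 0) (nat_lit 10693814018) (nat_lit 1140) (nat_lit 15685044363) (nat_lit 1216) (nat_lit 12325258956) (nat_lit 176) (nat_lit 5) (nat_lit 191) (nat_lit 5) (nat_lit 192) (nat_lit 5) (nat_lit 307) (nat_lit 305) (nat_lit 168)))) (XT.nd (nat_lit 156) (nat_lit 0) (nat_lit 76) (XT.nd (nat_lit 78) (nat_lit 0) (nat_lit 0) (XT.lf (nat_lit 0) (nat_lit 12026307420) (nat_lit 1140) (nat_lit 26302991751) (nat_lit 1216) (nat_lit 1357923740) (nat_lit 177) (nat_lit 5) (nat_lit 192) (nat_lit 5) (nat_lit 193) (nat_lit 5) (nat_lit 308) (nat_lit 305) (nat_lit 167)) (XT.lf (nat_lit 76) (nat_lit 3314183564) (nat_lit 0) (nat_lit 10568065582) (nat_lit 1216) (nat_lit 26823536584) (nat_lit 178) (nat_lit 5) (nat_lit 177) (nat_lit 5) (nat_lit 193) (nat_lit 5) (nat_lit 309) (nat_lit 305) (nat_lit 166))) (XT.nd (nat_lit 78) (nat_lit 0) (nat_lit 76) (XT.lf (nat_lit 0) (nat_lit 16278899886) (nat_lit 1140) (nat_lit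 6989386070) (nat_lit 1216) (nat_lit 18493559731) (nat_lit 178) (nat_lit 5) (nat_lit 193) (nat_lit 5) (nat_lit 194) (nat_lit 5) (nat_lit 310) (nat_lit 305) (nat_lit 165)) (XT.lf (nat_lit 0) (nat_lit 19200835366) (nat_lit 1140) (nat_lit 17602064623) (nat_lit 1216) (nat_lit 6055651139) (nat_lit 179) (nat_lit 5) (nat_lit 194) (nat_lit 5) (nat_lit 195) (nat_lit 5) (nat_lit 311) (nat_lit 305) (nat_lit 164)))))) (XT.nd (nat_lit 546) (nat_lit 3116) (nat_lit 0) (XT.nd (nat_lit 234) (nat_lit 1520) (nat_lit 0) (XT.nd (nat_lit 78) (nat_lit 0) (nat_lit 76) (XT.lf (nat_lit 76) (nat_lit 15313299287) (nat_lit 0) (nat_lit 7406506541) (nat_lit 1216) (nat_lit 21276763633) (nat_lit 180) (nat_lit 5) (nat_lit 179) (nat_lit 5) (nat_lit 195) (nat_lit 5) (nat_lit 312) (nat_lit 305) (nat_lit 163)) (XT.nd (nat_lit 78) (nat_lit 0) (nat_lit 76) (XT.lf (nat_lit 76) (nat_lit 4922180667) (nat_lit 0) (nat_lit 21944746683)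 (nat_lit 1216) (nat_lit 18311000774) (nat_lit 181) (nat_lit 5) (nat_lit 180) (nat_lit 5) (nat_lit 196) (nat_lit 5) (nat_lit 313) (nat_lit 305) (nat_lit 162)) (XT.lf (nat_lit 0) (nat_lit 31675099673) (nat_lit 1140) (nat_lit 5766894915) (nat_lit 1216) (nat_lit 8962754518) (nat_lit 181) (nat_lit 5) (nat_lit 196) (nat_lit 5) (nat_lit 197) (nat_lit 5) (nat_lit 314) (nat_lit 305) (nat_lit 161)))) (XT.nd (nat_lit 156) (nat_lit 608) (nat_lit 0) (XT.nd (nat_lit 78) (nat_lit 1064) (nat_lit 0) (XT.lf (nat_lit 76) (nat_lit 30823709339) (nat_lit 0) (nat_lit 6414466288) (nat_lit 1216) (nat_lit 10439305642) (nat_lit 182) (nat_lit 5) (nat_lit 181) (nat_lit 5) (nat_lit 197) (nat_lit 5) (nat_lit 315) (nat_lit 305) (nat_lit 160)) (XT.lf (nat_lit 0) (nat_lit 20497461710) (nat_lit 1140) (nat_lit 23087281568) (nat_lit 1216) (nat_lit 5413951366) (nat_lit 167) (nat_lit 5) (nat_lit 182) (nat_lit 5) (nat_lit 183)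 (nat_lit 5) (nat_lit 316) (nat_lit 305) (nat_lit 159))) (XT.nd (nat_lit 78) (nat_lit 0) (nat_lit 0) (XT.lf (nat_lit 0) (nat_lit 288973777) (nat_lit 608) (nat_lit 40657193569) (nat_lit 76) (nat_lit 9427136629) (nat_lit 159) (nat_lit 5) (nat_lit 167) (nat_lit 5) (nat_lit 160) (nat_lit 5) (nat_lit 317) (nat_lit 305) (nat_lit 158)) (XT.lf (nat_lit 0) (nat_lit 6692499661) (nat_lit 608) (nat_lit 1661217212) (nat_lit 76) (nat_lit 43445500274) (nat_lit 159) (nat_lit 5) (nat_lit 167) (nat_lit 5) (nat_lit 160) (nat_lit 5) (nat_lit 318) (nat_lit 305) (nat_lit 157))))) (XT.nd (nat_lit 234) (nat_lit 1444) (nat_lit 0) (XT.nd (nat_lit 78) (nat_lit 1064) (nat_lit 0) (XT.lf (nat_lit 0) (nat_lit 14050993965) (nat_lit 684) (nat_lit 13473676051) (nat_lit 76) (nat_lit 25752716174) (nat_lit 151) (nat_lit 5) (nat_lit 160) (nat_lit 5) (nat_lit 152) (nat_lit 5) (nat_lit 319) (nat_lit 305) (nat_lit 156)) (XT.nd (nat_lit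 78) (nat_lit 532) (nat_lit 0) (XT.lf (nat_lit 0) (nat_lit 22221387086) (nat_lit 608) (nat_lit 25857197490) (nat_lit 76) (nat_lit 6737563675) (nat_lit 144) (nat_lit 5) (nat_lit 152) (nat_lit 5) (nat_lit 145) (nat_lit 5) (nat_lit 320) (nat_lit 305) (nat_lit 155)) (XT.lf (nat_lit 0) (nat_lit 17425322142) (nat_lit 532) (nat_lit 13957779411) (nat_lit 608) (nat_lit 25031266418) (nat_lit 137) (nat_lit 5) (nat_lit 144) (nat_lit 5) (nat_lit 145) (nat_lit 5) (nat_lit 321) (nat_lit 305) (nat_lit 154)))) (XT.nd (nat_lit 156) (nat_lit 988) (nat_lit 0) (XT.nd (nat_lit 78) (nat_lit 0) (nat_lit 0) (XT.lf (nat_lit 0) (nat_lit 5214077983) (nat_lit 456) (nat_lit 36315487253) (nat_lit 532) (nat_lit 16547136974) (nat_lit 131) (nat_lit 5) (nat_lit 137) (nat_lit 5) (nat_lit 138) (nat_lit 5) (nat_lit 322) (nat_lit 305) (nat_lit 153)) (XT.lf (nat_lit 0) (nat_lit 52295899110) (nat_lit 456) (nat_lit 425914361) (nat_lit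 532) (nat_lit 7084189121) (nat_lit 131) (nat_lit 5) (nat_lit 137) (nat_lit 5) (nat_lit 138) (nat_lit 5) (nat_lit 323) (nat_lit 305) (nat_lit 152))) (XT.nd (nat_lit 78) (nat_lit 456) (nat_lit 0) (XT.lf (nat_lit 0) (nat_lit 3549200317) (nat_lit 532) (nat_lit 21093695569) (nat_lit 76) (nat_lit 36955464350) (nat_lit 124) (nat_lit 5) (nat_lit 131) (nat_lit 5) (nat_lit 125) (nat_lit 5) (nat_lit 324) (nat_lit 305) (nat_lit 151)) (XT.lf (nat_lit 0) (nat_lit 15045460523) (nat_lit 532) (nat_lit 35526315670) (nat_lit 76) (nat_lit 12892126840) (nat_lit 118) (nat_lit 5) (nat_lit 125) (nat_lit 5) (nat_lit 119) (nat_lit 5) (nat_lit 325) (nat_lit 305) (nat_lit 150))))))))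
noncomputable def xc114 : XT := (XT.nd (nat_lit 39156) (nat_lit 0) (nat_lit 3648) (XT.nd (nat_lit 1014) (nat_lit 1976) (nat_lit 0) (XT.nd (nat_lit 468) (nat_lit 1672) (nat_lit 0) (XT.nd (nat_lit 234) (nat_lit 1216) (nat_lit 0) (XT.nd (nat_lit 78) (nat_lit 380) (nat_lit 0) (XT.lf (nat_lit 0) (nat_lit 14474135889) (nat_lit 456) (nat_lit 13247409181) (nat_lit 532) (nat_lit 37683030304) (nat_lit 112) (nat_lit 5) (nat_lit 118) (nat_lit 5) (nat_lit 119) (nat_lit 5) (nat_lit 326) (nat_lit 305) (nat_lit 149)) (XT.nd (nat_lit 78) (nat_lit 0) (nat_lit 0) (XT.lf (nat_lit 0) (nat_lit 30852002) (nat_lit 380) (nat_lit 41617528502) (nat_lit 456) (nat_lit 25775395043) (nat_lit 107) (nat_lit 5) (nat_lit 112) (nat_lit 5) (nat_lit 113) (nat_lit 5) (nat_lit 327) (nat_lit 305) (nat_lit 148)) (XT.lf (nat_lit 0) (nat_lit 54465761092) (nat_lit 380) (nat_lit 2460489918) (nat_lit 456) (nat_lit 12598046409) (nat_lit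 107) (nat_lit 5) (nat_lit 112) (nat_lit 5) (nat_lit 113) (nat_lit 5) (nat_lit 328) (nat_lit 305) (nat_lit 147)))) (XT.nd (nat_lit 78) (nat_lit 760) (nat_lit 0) (XT.lf (nat_lit 0) (nat_lit 1978612284) (nat_lit 456) (nat_lit 31421348456) (nat_lit 76) (nat_lit 38306591770) (nat_lit 101) (nat_lit 5) (nat_lit 107) (nat_lit 5) (nat_lit 102) (nat_lit 5) (nat_lit 329) (nat_lit 305) (nat_lit 146)) (XT.nd (nat_lit 78) (nat_lit 380) (nat_lit 0) (XT.lf (nat_lit 0) (nat_lit 17519410877) (nat_lit 456) (nat_lit 49004039786) (nat_lit 76) (nat_lit 7455854276) (nat_lit 96) (nat_lit 5) (nat_lit 102) (nat_lit 5) (nat_lit 97) (nat_lit 5) (nat_lit 330) (nat_lit 305) (nat_lit 145)) (XT.lf (nat_lit 0) (nat_lit 8311937252) (nat_lit 380) (nat_lit 26267196088) (nat_lit 456) (nat_lit 41764307218) (nat_lit 91) (nat_lit 5) (nat_lit 96) (nat_lit 5) (nat_lit 97) (nat_lit 5) (nat_lit 331) (nat_lit 305) (nat_lit 144)))))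 (XT.nd (nat_lit 234) (nat_lit 912) (nat_lit 0) (XT.nd (nat_lit 78) (nat_lit 760) (nat_lit 0) (XT.lf (nat_lit 0) (nat_lit 53153381867) (nat_lit 456) (nat_lit 9453968134) (nat_lit 76) (nat_lit 16198588747) (nat_lit 91) (nat_lit 5) (nat_lit 97) (nat_lit 5) (nat_lit 92) (nat_lit 5) (nat_lit 332) (nat_lit 305) (nat_lit 143)) (XT.nd (nat_lit 78) (nat_lit 456) (nat_lit 0) (XT.lf (nat_lit 0) (nat_lit 52815798746) (nat_lit 304) (nat_lit 20611717518) (nat_lit 380) (nat_lit 7940912275) (nat_lit 87) (nat_lit 5) (nat_lit 91) (nat_lit 5) (nat_lit 92) (nat_lit 5) (nat_lit 333) (nat_lit 305) (nat_lit 142)) (XT.lf (nat_lit 0) (nat_lit 11111732701) (nat_lit 456) (nat_lit 49357734227) (nat_lit 76) (nat_lit 23566603753) (nat_lit 81) (nat_lit 5) (nat_lit 87) (nat_lit 5) (nat_lit 82) (nat_lit 5) (nat_lit 334) (nat_lit 305) (nat_lit 141)))) (XT.nd (nat_lit 156) (nat_lit 608) (nat_lit 0) (XT.nd (nat_lit 78) (nat_lit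 0) (nat_lit 0) (XT.lf (nat_lit 0) (nat_lit 14835530956) (nat_lit 304) (nat_lit 16764703868) (nat_lit 380) (nat_lit 55215079434) (nat_lit 77) (nat_lit 5) (nat_lit 81) (nat_lit 5) (nat_lit 82) (nat_lit 5) (nat_lit 335) (nat_lit 305) (nat_lit 140)) (XT.lf (nat_lit 0) (nat_lit 53904753206) (nat_lit 380) (nat_lit 6735472824) (nat_lit 76) (nat_lit 29069547838) (nat_lit 77) (nat_lit 5) (nat_lit 82) (nat_lit 5) (nat_lit 78) (nat_lit 5) (nat_lit 336) (nat_lit 305) (nat_lit 139))) (XT.nd (nat_lit 78) (nat_lit 304) (nat_lit 0) (XT.lf (nat_lit 0) (nat_lit 62825814508) (nat_lit 304) (nat_lit 15270381014) (nat_lit 380) (nat_lit 14629611508) (nat_lit 73) (nat_lit 5) (nat_lit 77) (nat_lit 5) (nat_lit 78) (nat_lit 5) (nat_lit 337) (nat_lit 305) (nat_lit 138)) (XT.lf (nat_lit 0) (nat_lit 8233784071) (nat_lit 304) (nat_lit 55356576153) (nat_lit 76) (nat_lit 32276761777) (nat_lit 69) (nat_lit 5) (nat_lit 73)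 (nat_lit 5) (nat_lit 70) (nat_lit 5) (nat_lit 338) (nat_lit 305) (nat_lit 137)))))) (XT.nd (nat_lit 468) (nat_lit 912) (nat_lit 0) (XT.nd (nat_lit 234) (nat_lit 532) (nat_lit 0) (XT.nd (nat_lit 78) (nat_lit 228) (nat_lit 0) (XT.lf (nat_lit 0) (nat_lit 15913927839) (nat_lit 304) (nat_lit 16643260081) (nat_lit 380) (nat_lit 66585388666) (nat_lit 65) (nat_lit 5) (nat_lit 69) (nat_lit 5) (nat_lit 70) (nat_lit 5) (nat_lit 339) (nat_lit 305) (nat_lit 136)) (XT.nd (nat_lit 78) (nat_lit 228) (nat_lit 0) (XT.lf (nat_lit 0) (nat_lit 58984800416) (nat_lit 380) (nat_lit 10981385569) (nat_lit 76) (nat_lit 32588978028) (nat_lit 65) (nat_lit 5) (nat_lit 70) (nat_lit 5) (nat_lit 66) (nat_lit 5) (nat_lit 340) (nat_lit 305) (nat_lit 135)) (XT.lf (nat_lit 0) (nat_lit 65996253854) (nat_lit 228) (nat_lit 21538669111) (nat_lit 304) (nat_lit 18579425173) (nat_lit 62) (nat_lit 5) (nat_lit 65) (nat_lit 5) (nat_lit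 66) (nat_lit 5) (nat_lit 341) (nat_lit 305) (nat_lit 134)))) (XT.nd (nat_lit 78) (nat_lit 228) (nat_lit 0) (XT.lf (nat_lit 0) (nat_lit 8275707873) (nat_lit 304) (nat_lit 72255677380) (nat_lit 76) (nat_lit 29294973771) (nat_lit 58) (nat_lit 5) (nat_lit 62) (nat_lit 5) (nat_lit 59) (nat_lit 5) (nat_lit 342) (nat_lit 305) (nat_lit 133)) (XT.nd (nat_lit 78) (nat_lit 0) (nat_lit 0) (XT.lf (nat_lit 0) (nat_lit 5976498388) (nat_lit 228) (nat_lit 30807148126) (nat_lit 304) (nat_lit 76913977365) (nat_lit 55) (nat_lit 5) (nat_lit 58) (nat_lit 5) (nat_lit 59) (nat_lit 5) (nat_lit 343) (nat_lit 305) (nat_lit 132)) (XT.lf (nat_lit 0) (nat_lit 67672744818) (nat_lit 304) (nat_lit 28324788049) (nat_lit 76) (nat_lit 21736247240) (nat_lit 55) (nat_lit 5) (nat_lit 59) (nat_lit 5) (nat_lit 56) (nat_lit 5) (nat_lit 344) (nat_lit 305) (nat_lit 131))))) (XT.nd (nat_lit 234) (nat_lit 456) (nat_lit 0) (XT.nd (nat_lit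 78) (nat_lit 228) (nat_lit 0) (XT.lf (nat_lit 0) (nat_lit 55817957020) (nat_lit 228) (nat_lit 45134744448) (nat_lit 304) (nat_lit 20993651542) (nat_lit 52) (nat_lit 5) (nat_lit 55) (nat_lit 5) (nat_lit 56) (nat_lit 5) (nat_lit 345) (nat_lit 305) (nat_lit 130)) (XT.nd (nat_lit 78) (nat_lit 0) (nat_lit 0) (XT.lf (nat_lit 0) (nat_lit 9899127629) (nat_lit 228) (nat_lit 107770641187) (nat_lit 76) (nat_lit 8680301195) (nat_lit 49) (nat_lit 5) (nat_lit 52) (nat_lit 5) (nat_lit 50) (nat_lit 5) (nat_lit 346) (nat_lit 305) (nat_lit 129)) (XT.lf (nat_lit 0) (nat_lit 43048388725) (nat_lit 228) (nat_lit 22724834929) (nat_lit 76) (nat_lit 65160133602) (nat_lit 49) (nat_lit 5) (nat_lit 52) (nat_lit 5) (nat_lit 50) (nat_lit 5) (nat_lit 347) (nat_lit 305) (nat_lit 128)))) (XT.nd (nat_lit 156) (nat_lit 76) (nat_lit 0) (XT.nd (nat_lit 78) (nat_lit 152) (nat_lit 0) (XT.lf (nat_lit 0) (nat_lit 67896618679) (nat_lit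 228) (nat_lit 10610166102) (nat_lit 304) (nat_lit 57219474737) (nat_lit 46) (nat_lit 5) (nat_lit 49) (nat_lit 5) (nat_lit 50) (nat_lit 5) (nat_lit 348) (nat_lit 305) (nat_lit 127)) (XT.lf (nat_lit 0) (nat_lit 22757693575) (nat_lit 152) (nat_lit 93889234491) (nat_lit 228) (nat_lit 24084614772) (nat_lit 44) (nat_lit 5) (nat_lit 46) (nat_lit 5) (nat_lit 47) (nat_lit 5) (nat_lit 349) (nat_lit 305) (nat_lit 126))) (XT.nd (nat_lit 37206) (nat_lit 0) (nat_lit 10032) (XT.lf (nat_lit 0) (nat_lit 11309364145) (nat_lit 228) (nat_lit 26892740654) (nat_lit 76) (nat_lit 107757559340) (nat_lit 43) (nat_lit 5) (nat_lit 46) (nat_lit 5) (nat_lit 44) (nat_lit 5) (nat_lit 350) (nat_lit 305) (nat_lit 125)) (XT.lf (nat_lit 0) (nat_lit 2459283767) (nat_lit 0) (nat_lit 2459283767) (nat_lit 1140) (nat_lit 14423140666) (nat_lit 175) (nat_lit 5) (nat_lit 175) (nat_lit 3) (nat_lit 190) (nat_lit 3) (nat_lit 306) (nat_lit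 306) (nat_lit 168))))))) (XT.nd (nat_lit 1014) (nat_lit 5168) (nat_lit 0) (XT.nd (nat_lit 468) (nat_lit 1216) (nat_lit 0) (XT.nd (nat_lit 234) (nat_lit 0) (nat_lit 152) (XT.nd (nat_lit 78) (nat_lit 0) (nat_lit 76) (XT.lf (nat_lit 0) (nat_lit 10382918938) (nat_lit 1140) (nat_lit 5611108660) (nat_lit 1216) (nat_lit 23647374296) (nat_lit 175) (nat_lit 5) (nat_lit 190) (nat_lit 3) (nat_lit 191) (nat_lit 5) (nat_lit 307) (nat_lit 306) (nat_lit 167)) (XT.nd (nat_lit 78) (nat_lit 0) (nat_lit 76) (XT.lf (nat_lit 0) (nat_lit 11361894604) (nat_lit 1140) (nat_lit 16391236221) (nat_lit 1216) (nat_lit 12881985432) (nat_lit 176) (nat_lit 5) (nat_lit 191) (nat_lit 5) (nat_lit 192) (nat_lit 5) (nat_lit 308) (nat_lit 306) (nat_lit 166)) (XT.lf (nat_lit 0) (nat_lit 12754890314) (nat_lit 1140) (nat_lit 27537790765) (nat_lit 1216) (nat_lit 1374889478) (nat_lit 177) (nat_lit 5) (nat_lit 192) (nat_lit 5) (nat_lit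 193) (nat_lit 5) (nat_lit 309) (nat_lit 306) (nat_lit 165)))) (XT.nd (nat_lit 78) (nat_lit 0) (nat_lit 76) (XT.lf (nat_lit 76) (nat_lit 3557940083) (nat_lit 0) (nat_lit 11140378923) (nat_lit 1216) (nat_lit 28038911121) (nat_lit 178) (nat_lit 5) (nat_lit 177) (nat_lit 5) (nat_lit 193) (nat_lit 5) (nat_lit 310) (nat_lit 306) (nat_lit 164)) (XT.nd (nat_lit 78) (nat_lit 0) (nat_lit 76) (XT.lf (nat_lit 0) (nat_lit 17208592797) (nat_lit 1140) (nat_lit 7260460782) (nat_lit 1216) (nat_lit 19377234652) (nat_lit 178) (nat_lit 5) (nat_lit 193) (nat_lit 5) (nat_lit 194) (nat_lit 5) (nat_lit 311) (nat_lit 306) (nat_lit 163)) (XT.lf (nat_lit 0) (nat_lit 20271510504) (nat_lit 1140) (nat_lit 18402187809) (nat_lit 1216) (nat_lit 6324292512) (nat_lit 179) (nat_lit 5) (nat_lit 194) (nat_lit 5) (nat_lit 195) (nat_lit 5) (nat_lit 312) (nat_lit 306) (nat_lit 162))))) (XT.nd (nat_lit 234) (nat_lit 1520) (nat_lit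 0) (XT.nd (nat_lit 78) (nat_lit 0) (nat_lit 76) (XT.lf (nat_lit 76) (nat_lit 16156651685) (nat_lit 0) (nat_lit 7805256327) (nat_lit 1216) (nat_lit 22231145747) (nat_lit 180) (nat_lit 5) (nat_lit 179) (nat_lit 5) (nat_lit 195) (nat_lit 5) (nat_lit 313) (nat_lit 306) (nat_lit 161)) (XT.nd (nat_lit 78) (nat_lit 0) (nat_lit 76) (XT.lf (nat_lit 76) (nat_lit 5247263955) (nat_lit 0) (nat_lit 23064567634) (nat_lit 1216) (nat_lit 19121793043) (nat_lit 181) (nat_lit 5) (nat_lit 180) (nat_lit 5) (nat_lit 196) (nat_lit 5) (nat_lit 314) (nat_lit 306) (nat_lit 160)) (XT.lf (nat_lit 0) (nat_lit 33355369690) (nat_lit 1140) (nat_lit 5976771814) (nat_lit 1216) (nat_lit 9389803740) (nat_lit 181) (nat_lit 5) (nat_lit 196) (nat_lit 5) (nat_lit 197) (nat_lit 5) (nat_lit 315) (nat_lit 306) (nat_lit 159)))) (XT.nd (nat_lit 156) (nat_lit 608) (nat_lit 0) (XT.nd (nat_lit 78) (nat_lit 1064) (nat_lit 0) (XT.lf (nat_lit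 76) (nat_lit 32441113388) (nat_lit 0) (nat_lit 6751622759) (nat_lit 1216) (nat_lit 10865700712) (nat_lit 182) (nat_lit 5) (nat_lit 181) (nat_lit 5) (nat_lit 197) (nat_lit 5) (nat_lit 316) (nat_lit 306) (nat_lit 158)) (XT.lf (nat_lit 0) (nat_lit 21599356840) (nat_lit 1140) (nat_lit 24253453293) (nat_lit 1216) (nat_lit 5593022047) (nat_lit 167) (nat_lit 5) (nat_lit 182) (nat_lit 5) (nat_lit 183) (nat_lit 5) (nat_lit 317) (nat_lit 306) (nat_lit 157))) (XT.nd (nat_lit 78) (nat_lit 0) (nat_lit 0) (XT.lf (nat_lit 0) (nat_lit 389627898) (nat_lit 608) (nat_lit 42610573768) (nat_lit 76) (nat_lit 9889059010) (nat_lit 159) (nat_lit 5) (nat_lit 167) (nat_lit 5) (nat_lit 160) (nat_lit 5) (nat_lit 318) (nat_lit 306) (nat_lit 156)) (XT.lf (nat_lit 0) (nat_lit 7109225055) (nat_lit 608) (nat_lit 1668583330) (nat_lit 76) (nat_lit 45608790097) (nat_lit 159) (nat_lit 5) (nat_lit 167) (nat_lit 5) (nat_lit 160)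 (nat_lit 5) (nat_lit 319) (nat_lit 306) (nat_lit 155)))))) (XT.nd (nat_lit 546) (nat_lit 2052) (nat_lit 0) (XT.nd (nat_lit 234) (nat_lit 1444) (nat_lit 0) (XT.nd (nat_lit 78) (nat_lit 1064) (nat_lit 0) (XT.lf (nat_lit 0) (nat_lit 14832389653) (nat_lit 684) (nat_lit 14071305349) (nat_lit 76) (nat_lit 27035084156) (nat_lit 151) (nat_lit 5) (nat_lit 160) (nat_lit 5) (nat_lit 152) (nat_lit 5) (nat_lit 320) (nat_lit 306) (nat_lit 154)) (XT.nd (nat_lit 78) (nat_lit 532) (nat_lit 0) (XT.lf (nat_lit 0) (nat_lit 23408239461) (nat_lit 608) (nat_lit 27073784699) (nat_lit 76) (nat_lit 7072552336) (nat_lit 144) (nat_lit 5) (nat_lit 152) (nat_lit 5) (nat_lit 145) (nat_lit 5) (nat_lit 321) (nat_lit 306) (nat_lit 153)) (XT.lf (nat_lit 0) (nat_lit 18370674575) (nat_lit 532) (nat_lit 14654468525) (nat_lit 608) (nat_lit 26207656031) (nat_lit 137) (nat_lit 5) (nat_lit 144) (nat_lit 5) (nat_lit 145) (nat_lit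 5) (nat_lit 322) (nat_lit 306) (nat_lit 152)))) (XT.nd (nat_lit 156) (nat_lit 988) (nat_lit 0) (XT.nd (nat_lit 78) (nat_lit 0) (nat_lit 0) (XT.lf (nat_lit 0) (nat_lit 5548955011) (nat_lit 456) (nat_lit 38127228153) (nat_lit 532) (nat_lit 17302154114) (nat_lit 131) (nat_lit 5) (nat_lit 137) (nat_lit 5) (nat_lit 138) (nat_lit 5) (nat_lit 323) (nat_lit 306) (nat_lit 151)) (XT.lf (nat_lit 0) (nat_lit 54981335141) (nat_lit 456) (nat_lit 443368685) (nat_lit 532) (nat_lit 7369503617) (nat_lit 131) (nat_lit 5) (nat_lit 137) (nat_lit 5) (nat_lit 138) (nat_lit 5) (nat_lit 324) (nat_lit 306) (nat_lit 150))) (XT.nd (nat_lit 78) (nat_lit 456) (nat_lit 0) (XT.lf (nat_lit 0) (nat_lit 3791715246) (nat_lit 532) (nat_lit 22076385704) (nat_lit 76) (nat_lit 38808141240) (nat_lit 124) (nat_lit 5) (nat_lit 131) (nat_lit 5) (nat_lit 125) (nat_lit 5) (nat_lit 325) (nat_lit 306) (nat_lit 149)) (XT.lf (nat_lit 0)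 (nat_lit 15860433017) (nat_lit 532) (nat_lit 37230811442) (nat_lit 76) (nat_lit 13543892352) (nat_lit 118) (nat_lit 5) (nat_lit 125) (nat_lit 5) (nat_lit 119) (nat_lit 5) (nat_lit 326) (nat_lit 306) (nat_lit 148))))) (XT.nd (nat_lit 234) (nat_lit 1216) (nat_lit 0) (XT.nd (nat_lit 78) (nat_lit 380) (nat_lit 0) (XT.lf (nat_lit 0) (nat_lit 15267603988) (nat_lit 456) (nat_lit 13900402702) (nat_lit 532) (nat_lit 39504909360) (nat_lit 112) (nat_lit 5) (nat_lit 118) (nat_lit 5) (nat_lit 119) (nat_lit 5) (nat_lit 327) (nat_lit 306) (nat_lit 147)) (XT.nd (nat_lit 78) (nat_lit 0) (nat_lit 0) (XT.lf (nat_lit 0) (nat_lit 101902631) (nat_lit 380) (nat_lit 43687159817) (nat_lit 456) (nat_lit 27004081073) (nat_lit 107) (nat_lit 5) (nat_lit 112) (nat_lit 5) (nat_lit 113) (nat_lit 5) (nat_lit 328) (nat_lit 306) (nat_lit 146)) (XT.lf (nat_lit 0) (nat_lit 57255247269) (nat_lit 380) (nat_lit 2572804785) (nat_lit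 456) (nat_lit 13170726136) (nat_lit 107) (nat_lit 5) (nat_lit 112) (nat_lit 5) (nat_lit 113) (nat_lit 5) (nat_lit 329) (nat_lit 306) (nat_lit 145)))) (XT.nd (nat_lit 156) (nat_lit 380) (nat_lit 0) (XT.nd (nat_lit 78) (nat_lit 380) (nat_lit 0) (XT.lf (nat_lit 0) (nat_lit 2131715773) (nat_lit 456) (nat_lit 32925388561) (nat_lit 76) (nat_lit 40233086406) (nat_lit 101) (nat_lit 5) (nat_lit 107) (nat_lit 5) (nat_lit 102) (nat_lit 5) (nat_lit 330) (nat_lit 306) (nat_lit 144)) (XT.lf (nat_lit 0) (nat_lit 18447724350) (nat_lit 456) (nat_lit 51387631935) (nat_lit 76) (nat_lit 7841282461) (nat_lit 96) (nat_lit 5) (nat_lit 102) (nat_lit 5) (nat_lit 97) (nat_lit 5) (nat_lit 331) (nat_lit 306) (nat_lit 143))) (XT.nd (nat_lit 78) (nat_lit 0) (nat_lit 0) (XT.lf (nat_lit 0) (nat_lit 8792234598) (nat_lit 380) (nat_lit 27566327758) (nat_lit 456) (nat_lit 43800477818) (nat_lit 91) (nat_lit 5) (nat_lit 96)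 (nat_lit 5) (nat_lit 97) (nat_lit 5) (nat_lit 332) (nat_lit 306) (nat_lit 142)) (XT.lf (nat_lit 0) (nat_lit 55859250121) (nat_lit 456) (nat_lit 9863679755) (nat_lit 76) (nat_lit 17021804367) (nat_lit 91) (nat_lit 5) (nat_lit 97) (nat_lit 5) (nat_lit 92) (nat_lit 5) (nat_lit 333) (nat_lit 306) (nat_lit 141))))))))
noncomputable def xc115 : XT := (XT.nd (nat_lit 39234) (nat_lit 0) (nat_lit 1596) (XT.nd (nat_lit 1014) (nat_lit 608) (nat_lit 0) (XT.nd (nat_lit 468) (nat_lit 1292) (nat_lit 0) (XT.nd (nat_lit 234) (nat_lit 608) (nat_lit 0) (XT.nd (nat_lit 78) (nat_lit 760) (nat_lit 0) (XT.lf (nat_lit 0) (nat_lit 55517769965) (nat_lit 304) (nat_lit 21627614187) (nat_lit 380) (nat_lit 8290018225) (nat_lit 87) (nat_lit 5) (nat_lit 91) (nat_lit 5) (nat_lit 92) (nat_lit 5) (nat_lit 334) (nat_lit 306) (nat_lit 140)) (XT.nd (nat_lit 78) (nat_lit 304) (nat_lit 0) (XT.lf (nat_lit 0) (nat_lit 11712810267)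 (nat_lit 456) (nat_lit 51763970262) (nat_lit 76) (nat_lit 24759680114) (nat_lit 81) (nat_lit 5) (nat_lit 87) (nat_lit 5) (nat_lit 82) (nat_lit 5) (nat_lit 335) (nat_lit 306) (nat_lit 139)) (XT.lf (nat_lit 0) (nat_lit 15637190976) (nat_lit 304) (nat_lit 17586955922) (nat_lit 380) (nat_lit 57930569544) (nat_lit 77) (nat_lit 5) (nat_lit 81) (nat_lit 5) (nat_lit 82) (nat_lit 5) (nat_lit 336) (nat_lit 306) (nat_lit 138)))) (XT.nd (nat_lit 78) (nat_lit 608) (nat_lit 0) (XT.lf (nat_lit 0) (nat_lit 56641947031) (nat_lit 380) (nat_lit 7014062311) (nat_lit 76) (nat_lit 30537950231) (nat_lit 77) (nat_lit 5) (nat_lit 82) (nat_lit 5) (nat_lit 78) (nat_lit 5) (nat_lit 337) (nat_lit 306) (nat_lit 137)) (XT.nd (nat_lit 78) (nat_lit 304) (nat_lit 0) (XT.lf (nat_lit 0) (nat_lit 66023621550) (nat_lit 304) (nat_lit 16017885269) (nat_lit 380) (nat_lit 15319333323) (nat_lit 73) (nat_lit 5) (nat_lit 77) (nat_lit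 5) (nat_lit 78) (nat_lit 5) (nat_lit 338) (nat_lit 306) (nat_lit 136)) (XT.lf (nat_lit 0) (nat_lit 8685158853) (nat_lit 304) (nat_lit 58067608167) (nat_lit 76) (nat_lit 33906481500) (nat_lit 69) (nat_lit 5) (nat_lit 73) (nat_lit 5) (nat_lit 70) (nat_lit 5) (nat_lit 339) (nat_lit 306) (nat_lit 135))))) (XT.nd (nat_lit 234) (nat_lit 760) (nat_lit 0) (XT.nd (nat_lit 78) (nat_lit 228) (nat_lit 0) (XT.lf (nat_lit 0) (nat_lit 16764792956) (nat_lit 304) (nat_lit 17458580463) (nat_lit 380) (nat_lit 69875145056) (nat_lit 65) (nat_lit 5) (nat_lit 69) (nat_lit 5) (nat_lit 70) (nat_lit 5) (nat_lit 340) (nat_lit 306) (nat_lit 134)) (XT.nd (nat_lit 78) (nat_lit 228) (nat_lit 0) (XT.lf (nat_lit 0) (nat_lit 61970695680) (nat_lit 380) (nat_lit 11476936978) (nat_lit 76) (nat_lit 34234154512) (nat_lit 65) (nat_lit 5) (nat_lit 70) (nat_lit 5) (nat_lit 66) (nat_lit 5) (nat_lit 341) (nat_lit 306) (nat_lit 133))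 (XT.lf (nat_lit 0) (nat_lit 69348050338) (nat_lit 228) (nat_lit 22599028230) (nat_lit 304) (nat_lit 19471890991) (nat_lit 62) (nat_lit 5) (nat_lit 65) (nat_lit 5) (nat_lit 66) (nat_lit 5) (nat_lit 342) (nat_lit 306) (nat_lit 132)))) (XT.nd (nat_lit 156) (nat_lit 228) (nat_lit 0) (XT.nd (nat_lit 78) (nat_lit 228) (nat_lit 0) (XT.lf (nat_lit 0) (nat_lit 8724234175) (nat_lit 304) (nat_lit 75816335174) (nat_lit 76) (nat_lit 30776034237) (nat_lit 58) (nat_lit 5) (nat_lit 62) (nat_lit 5) (nat_lit 59) (nat_lit 5) (nat_lit 343) (nat_lit 306) (nat_lit 131)) (XT.lf (nat_lit 0) (nat_lit 6325955199) (nat_lit 228) (nat_lit 32330446925) (nat_lit 304) (nat_lit 80725066072) (nat_lit 55) (nat_lit 5) (nat_lit 58) (nat_lit 5) (nat_lit 59) (nat_lit 5) (nat_lit 344) (nat_lit 306) (nat_lit 130))) (XT.nd (nat_lit 78) (nat_lit 228) (nat_lit 0) (XT.lf (nat_lit 0) (nat_lit 71088512785) (nat_lit 304) (nat_lit 29691975270)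 (nat_lit 76) (nat_lit 22838988871) (nat_lit 55) (nat_lit 5) (nat_lit 59) (nat_lit 5) (nat_lit 56) (nat_lit 5) (nat_lit 345) (nat_lit 306) (nat_lit 129)) (XT.lf (nat_lit 0) (nat_lit 58656500982) (nat_lit 228) (nat_lit 47374894254) (nat_lit 304) (nat_lit 22011316745) (nat_lit 52) (nat_lit 5) (nat_lit 55) (nat_lit 5) (nat_lit 56) (nat_lit 5) (nat_lit 346) (nat_lit 306) (nat_lit 128)))))) (XT.nd (nat_lit 37674) (nat_lit 0) (nat_lit 10032) (XT.nd (nat_lit 234) (nat_lit 152) (nat_lit 0) (XT.nd (nat_lit 78) (nat_lit 228) (nat_lit 0) (XT.lf (nat_lit 0) (nat_lit 10424591900) (nat_lit 228) (nat_lit 113111484522) (nat_lit 76) (nat_lit 9130556962) (nat_lit 49) (nat_lit 5) (nat_lit 52) (nat_lit 5) (nat_lit 50) (nat_lit 5) (nat_lit 347) (nat_lit 306) (nat_lit 127)) (XT.nd (nat_lit 78) (nat_lit 228) (nat_lit 0) (XT.lf (nat_lit 0) (nat_lit 45229863295) (nat_lit 228) (nat_lit 23815658843) (nat_lit 76) (nat_lit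 68433607622) (nat_lit 49) (nat_lit 5) (nat_lit 52) (nat_lit 5) (nat_lit 50) (nat_lit 5) (nat_lit 348) (nat_lit 306) (nat_lit 126)) (XT.lf (nat_lit 0) (nat_lit 71335565552) (nat_lit 228) (nat_lit 11124654092) (nat_lit 304) (nat_lit 60051487403) (nat_lit 46) (nat_lit 5) (nat_lit 49) (nat_lit 5) (nat_lit 50) (nat_lit 5) (nat_lit 349) (nat_lit 306) (nat_lit 125)))) (XT.nd (nat_lit 37284) (nat_lit 0) (nat_lit 9956) (XT.lf (nat_lit 0) (nat_lit 23939120674) (nat_lit 152) (nat_lit 98567476754) (nat_lit 228) (nat_lit 25260681363) (nat_lit 44) (nat_lit 5) (nat_lit 46) (nat_lit 5) (nat_lit 47) (nat_lit 5) (nat_lit 350) (nat_lit 306) (nat_lit 124)) (XT.nd (nat_lit 78) (nat_lit 0) (nat_lit 0) (XT.lf (nat_lit 0) (nat_lit 2615726220) (nat_lit 0) (nat_lit 2615726220) (nat_lit 1140) (nat_lit 15075229849) (nat_lit 175) (nat_lit 5) (nat_lit 175) (nat_lit 3) (nat_lit 190) (nat_lit 3) (nat_lit 307) (nat_lit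 307) (nat_lit 166)) (XT.lf (nat_lit 0) (nat_lit 11028988153) (nat_lit 1140) (nat_lit 5823261429) (nat_lit 1216) (nat_lit 24767219234) (nat_lit 175) (nat_lit 5) (nat_lit 190) (nat_lit 3) (nat_lit 191) (nat_lit 5) (nat_lit 308) (nat_lit 307) (nat_lit 165))))) (XT.nd (nat_lit 234) (nat_lit 0) (nat_lit 152) (XT.nd (nat_lit 78) (nat_lit 0) (nat_lit 76) (XT.lf (nat_lit 0) (nat_lit 12050977892) (nat_lit 1140) (nat_lit 17139994985) (nat_lit 1216) (nat_lit 13472083369) (nat_lit 176) (nat_lit 5) (nat_lit 191) (nat_lit 5) (nat_lit 192) (nat_lit 5) (nat_lit 309) (nat_lit 307) (nat_lit 164)) (XT.nd (nat_lit 78) (nat_lit 0) (nat_lit 0) (XT.lf (nat_lit 0) (nat_lit 13508070224) (nat_lit 1140) (nat_lit 28841799964) (nat_lit 1216) (nat_lit 1397438532) (nat_lit 177) (nat_lit 5) (nat_lit 192) (nat_lit 5) (nat_lit 193) (nat_lit 5) (nat_lit 310) (nat_lit 307) (nat_lit 163)) (XT.lf (nat_lit 76) (nat_lit 3806628326)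 (nat_lit 0) (nat_lit 11737225590) (nat_lit 1216) (nat_lit 29326750289) (nat_lit 178) (nat_lit 5) (nat_lit 177) (nat_lit 5) (nat_lit 193) (nat_lit 5) (nat_lit 311) (nat_lit 307) (nat_lit 162)))) (XT.nd (nat_lit 156) (nat_lit 0) (nat_lit 76) (XT.nd (nat_lit 78) (nat_lit 0) (nat_lit 76) (XT.lf (nat_lit 0) (nat_lit 18174009210) (nat_lit 1140) (nat_lit 7552377616) (nat_lit 1216) (nat_lit 20308905396) (nat_lit 178) (nat_lit 5) (nat_lit 193) (nat_lit 5) (nat_lit 194) (nat_lit 5) (nat_lit 312) (nat_lit 307) (nat_lit 161)) (XT.lf (nat_lit 0) (nat_lit 21385433756) (nat_lit 1140) (nat_lit 19249752940) (nat_lit 1216) (nat_lit 6609540077) (nat_lit 179) (nat_lit 5) (nat_lit 194) (nat_lit 5) (nat_lit 195) (nat_lit 5) (nat_lit 313) (nat_lit 307) (nat_lit 160))) (XT.nd (nat_lit 78) (nat_lit 0) (nat_lit 76) (XT.lf (nat_lit 76) (nat_lit 17034949061) (nat_lit 0) (nat_lit 8221300966) (nat_lit 1216) (nat_lit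 23243423154) (nat_lit 180) (nat_lit 5) (nat_lit 179) (nat_lit 5) (nat_lit 195) (nat_lit 5) (nat_lit 314) (nat_lit 307) (nat_lit 159)) (XT.lf (nat_lit 76) (nat_lit 5581259131) (nat_lit 0) (nat_lit 24238280023) (nat_lit 1216) (nat_lit 19982864311) (nat_lit 181) (nat_lit 5) (nat_lit 180) (nat_lit 5) (nat_lit 196) (nat_lit 5) (nat_lit 315) (nat_lit 307) (nat_lit 158))))))) (XT.nd (nat_lit 1014) (nat_lit 3572) (nat_lit 0) (XT.nd (nat_lit 468) (nat_lit 2964) (nat_lit 0) (XT.nd (nat_lit 234) (nat_lit 1216) (nat_lit 0) (XT.nd (nat_lit 78) (nat_lit 1064) (nat_lit 0) (XT.lf (nat_lit 0) (nat_lit 35110680155) (nat_lit 1140) (nat_lit 6204437755) (nat_lit 1216) (nat_lit 9840166032) (nat_lit 181) (nat_lit 5) (nat_lit 196) (nat_lit 5) (nat_lit 197) (nat_lit 5) (nat_lit 316) (nat_lit 307) (nat_lit 157)) (XT.nd (nat_lit 78) (nat_lit 1064) (nat_lit 0) (XT.lf (nat_lit 76) (nat_lit 34132301558) (nat_lit 0) (nat_lit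 7104109255) (nat_lit 1216) (nat_lit 11322300748) (nat_lit 182) (nat_lit 5) (nat_lit 181) (nat_lit 5) (nat_lit 197) (nat_lit 5) (nat_lit 317) (nat_lit 307) (nat_lit 156)) (XT.lf (nat_lit 0) (nat_lit 22749185947) (nat_lit 1140) (nat_lit 25476835841) (nat_lit 1216) (nat_lit 5789564862) (nat_lit 167) (nat_lit 5) (nat_lit 182) (nat_lit 5) (nat_lit 183) (nat_lit 5) (nat_lit 318) (nat_lit 307) (nat_lit 155)))) (XT.nd (nat_lit 78) (nat_lit 608) (nat_lit 0) (XT.lf (nat_lit 0) (nat_lit 487300162) (nat_lit 608) (nat_lit 44669012225) (nat_lit 76) (nat_lit 10374954636) (nat_lit 159) (nat_lit 5) (nat_lit 167) (nat_lit 5) (nat_lit 160) (nat_lit 5) (nat_lit 319) (nat_lit 307) (nat_lit 154)) (XT.nd (nat_lit 78) (nat_lit 608) (nat_lit 0) (XT.lf (nat_lit 0) (nat_lit 7539153802) (nat_lit 608) (nat_lit 1683355133) (nat_lit 76) (nat_lit 47881079768) (nat_lit 159) (nat_lit 5) (nat_lit 167) (nat_lit 5) (nat_lit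 160) (nat_lit 5) (nat_lit 320) (nat_lit 307) (nat_lit 153)) (XT.lf (nat_lit 0) (nat_lit 15645524773) (nat_lit 684) (nat_lit 14705886940) (nat_lit 76) (nat_lit 28382060289) (nat_lit 151) (nat_lit 5) (nat_lit 160) (nat_lit 5) (nat_lit 152) (nat_lit 5) (nat_lit 321) (nat_lit 307) (nat_lit 152))))) (XT.nd (nat_lit 234) (nat_lit 1444) (nat_lit 0) (XT.nd (nat_lit 78) (nat_lit 988) (nat_lit 0) (XT.lf (nat_lit 0) (nat_lit 24647388867) (nat_lit 608) (nat_lit 28358292377) (nat_lit 76) (nat_lit 7424466100) (nat_lit 144) (nat_lit 5) (nat_lit 152) (nat_lit 5) (nat_lit 145) (nat_lit 5) (nat_lit 322) (nat_lit 307) (nat_lit 151)) (XT.nd (nat_lit 78) (nat_lit 456) (nat_lit 0) (XT.lf (nat_lit 0) (nat_lit 19356406785) (nat_lit 532) (nat_lit 15386103645) (nat_lit 608) (nat_lit 27449854064) (nat_lit 137) (nat_lit 5) (nat_lit 144) (nat_lit 5) (nat_lit 145) (nat_lit 5) (nat_lit 323) (nat_lit 307) (nat_lit 150))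 (XT.lf (nat_lit 0) (nat_lit 5893679976) (nat_lit 456) (nat_lit 40029931090) (nat_lit 532) (nat_lit 18101647571) (nat_lit 131) (nat_lit 5) (nat_lit 137) (nat_lit 5) (nat_lit 138) (nat_lit 5) (nat_lit 324) (nat_lit 307) (nat_lit 149)))) (XT.nd (nat_lit 156) (nat_lit 912) (nat_lit 0) (XT.nd (nat_lit 78) (nat_lit 532) (nat_lit 0) (XT.lf (nat_lit 0) (nat_lit 57794475435) (nat_lit 456) (nat_lit 462052862) (nat_lit 532) (nat_lit 7675489037) (nat_lit 131) (nat_lit 5) (nat_lit 137) (nat_lit 5) (nat_lit 138) (nat_lit 5) (nat_lit 325) (nat_lit 307) (nat_lit 148)) (XT.lf (nat_lit 0) (nat_lit 4040307734) (nat_lit 532) (nat_lit 23114903726) (nat_lit 76) (nat_lit 40752996078) (nat_lit 124) (nat_lit 5) (nat_lit 131) (nat_lit 5) (nat_lit 125) (nat_lit 5) (nat_lit 326) (nat_lit 307) (nat_lit 147))) (XT.nd (nat_lit 78) (nat_lit 456) (nat_lit 0) (XT.lf (nat_lit 0) (nat_lit 16710324934) (nat_lit 532) (nat_lit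 39027209146) (nat_lit 76) (nat_lit 14227580548) (nat_lit 118) (nat_lit 5) (nat_lit 125) (nat_lit 5) (nat_lit 119) (nat_lit 5) (nat_lit 327) (nat_lit 307) (nat_lit 146)) (XT.lf (nat_lit 0) (nat_lit 16094259748) (nat_lit 456) (nat_lit 14586917678) (nat_lit 532) (nat_lit 41423671871) (nat_lit 112) (nat_lit 5) (nat_lit 118) (nat_lit 5) (nat_lit 119) (nat_lit 5) (nat_lit 328) (nat_lit 307) (nat_lit 145)))))) (XT.nd (nat_lit 546) (nat_lit 1672) (nat_lit 0) (XT.nd (nat_lit 234) (nat_lit 1064) (nat_lit 0) (XT.nd (nat_lit 78) (nat_lit 456) (nat_lit 0) (XT.lf (nat_lit 0) (nat_lit 170043594) (nat_lit 380) (nat_lit 45861318162) (nat_lit 456) (nat_lit 28299787418) (nat_lit 107) (nat_lit 5) (nat_lit 112) (nat_lit 5) (nat_lit 113) (nat_lit 5) (nat_lit 329) (nat_lit 307) (nat_lit 144)) (XT.nd (nat_lit 78) (nat_lit 456) (nat_lit 0) (XT.lf (nat_lit 0) (nat_lit 60178053282) (nat_lit 380) (nat_lit 2691731076)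 (nat_lit 456) (nat_lit 13777359864) (nat_lit 107) (nat_lit 5) (nat_lit 112) (nat_lit 5) (nat_lit 113) (nat_lit 5) (nat_lit 330) (nat_lit 307) (nat_lit 143)) (XT.lf (nat_lit 0) (nat_lit 2287437955) (nat_lit 456) (nat_lit 34510862235) (nat_lit 76) (nat_lit 42254867754) (nat_lit 101) (nat_lit 5) (nat_lit 107) (nat_lit 5) (nat_lit 102) (nat_lit 5) (nat_lit 331) (nat_lit 307) (nat_lit 142)))) (XT.nd (nat_lit 156) (nat_lit 304) (nat_lit 0) (XT.nd (nat_lit 78) (nat_lit 380) (nat_lit 0) (XT.lf (nat_lit 0) (nat_lit 19417587148) (nat_lit 456) (nat_lit 53896596442) (nat_lit 76) (nat_lit 8244807328) (nat_lit 96) (nat_lit 5) (nat_lit 102) (nat_lit 5) (nat_lit 97) (nat_lit 5) (nat_lit 332) (nat_lit 307) (nat_lit 141)) (XT.lf (nat_lit 0) (nat_lit 9290531574) (nat_lit 380) (nat_lit 28931738810) (nat_lit 456) (nat_lit 45943295577) (nat_lit 91) (nat_lit 5) (nat_lit 96) (nat_lit 5) (nat_lit 97) (nat_lit 5)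 (nat_lit 333) (nat_lit 307) (nat_lit 140))) (XT.nd (nat_lit 78) (nat_lit 304) (nat_lit 0) (XT.lf (nat_lit 0) (nat_lit 58695930688) (nat_lit 456) (nat_lit 10299732872) (nat_lit 76) (nat_lit 17884945544) (nat_lit 91) (nat_lit 5) (nat_lit 97) (nat_lit 5) (nat_lit 92) (nat_lit 5) (nat_lit 334) (nat_lit 307) (nat_lit 139)) (XT.lf (nat_lit 0) (nat_lit 58349151690) (nat_lit 304) (nat_lit 22695671352) (nat_lit 380) (nat_lit 8661036449) (nat_lit 87) (nat_lit 5) (nat_lit 91) (nat_lit 5) (nat_lit 92) (nat_lit 5) (nat_lit 335) (nat_lit 307) (nat_lit 138))))) (XT.nd (nat_lit 234) (nat_lit 912) (nat_lit 0) (XT.nd (nat_lit 78) (nat_lit 304) (nat_lit 0) (XT.lf (nat_lit 0) (nat_lit 12339712396) (nat_lit 456) (nat_lit 54296249794) (nat_lit 76) (nat_lit 26011039333) (nat_lit 81) (nat_lit 5) (nat_lit 87) (nat_lit 5) (nat_lit 82) (nat_lit 5) (nat_lit 336) (nat_lit 307) (nat_lit 137)) (XT.nd (nat_lit 78) (nat_lit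 0) (nat_lit 0) (XT.lf (nat_lit 0) (nat_lit 16473366600) (nat_lit 304) (nat_lit 18451806539) (nat_lit 380) (nat_lit 60786042365) (nat_lit 77) (nat_lit 5) (nat_lit 81) (nat_lit 5) (nat_lit 82) (nat_lit 5) (nat_lit 337) (nat_lit 307) (nat_lit 136)) (XT.lf (nat_lit 0) (nat_lit 59512099860) (nat_lit 380) (nat_lit 7311990684) (nat_lit 76) (nat_lit 32078385159) (nat_lit 77) (nat_lit 5) (nat_lit 82) (nat_lit 5) (nat_lit 78) (nat_lit 5) (nat_lit 338) (nat_lit 307) (nat_lit 135)))) (XT.nd (nat_lit 156) (nat_lit 304) (nat_lit 0) (XT.nd (nat_lit 78) (nat_lit 304) (nat_lit 0) (XT.lf (nat_lit 0) (nat_lit 69376064593) (nat_lit 304) (nat_lit 16804253640) (nat_lit 380) (nat_lit 16047423562) (nat_lit 73) (nat_lit 5) (nat_lit 77) (nat_lit 5) (nat_lit 78) (nat_lit 5) (nat_lit 339) (nat_lit 307) (nat_lit 134)) (XT.lf (nat_lit 0) (nat_lit 9155412784) (nat_lit 304) (nat_lit 60919472209) (nat_lit 76) (nat_lit 35616210686)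 (nat_lit 69) (nat_lit 5) (nat_lit 73) (nat_lit 5) (nat_lit 70) (nat_lit 5) (nat_lit 340) (nat_lit 307) (nat_lit 133))) (XT.nd (nat_lit 78) (nat_lit 0) (nat_lit 0) (XT.lf (nat_lit 0) (nat_lit 17653072264) (nat_lit 304) (nat_lit 18316232732) (nat_lit 380) (nat_lit 73333062814) (nat_lit 65) (nat_lit 5) (nat_lit 69) (nat_lit 5) (nat_lit 70) (nat_lit 5) (nat_lit 341) (nat_lit 307) (nat_lit 132)) (XT.lf (nat_lit 0) (nat_lit 65102477850) (nat_lit 380) (nat_lit 12002241541) (nat_lit 76) (nat_lit 35960127618) (nat_lit 65) (nat_lit 5) (nat_lit 70) (nat_lit 5) (nat_lit 66) (nat_lit 5) (nat_lit 342) (nat_lit 307) (nat_lit 131))))))))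
noncomputable def xc116 : XT := (XT.nd (nat_lit 39312) (nat_lit 0) (nat_lit 228) (XT.nd (nat_lit 38298) (nat_lit 0) (nat_lit 6460) (XT.nd (nat_lit 468) (nat_lit 228) (nat_lit 0) (XT.nd (nat_lit 234) (nat_lit 456) (nat_lit 0) (XT.nd (nat_lit 78) (nat_lit 532) (nat_lit 0) (XT.lf (nat_lit 0) (nat_lit 72862603685) (nat_lit 228) (nat_lit 23713946231) (nat_lit 304) (nat_lit 20412374029) (nat_lit 62) (nat_lit 5) (nat_lit 65) (nat_lit 5) (nat_lit 66) (nat_lit 5) (nat_lit 343) (nat_lit 307) (nat_lit 130)) (XT.nd (nat_lit 78) (nat_lit 228) (nat_lit 0) (XT.lf (nat_lit 0) (nat_lit 9191956912) (nat_lit 304) (nat_lit 79559872046) (nat_lit 76) (nat_lit 32329631211) (nat_lit 58) (nat_lit 5) (nat_lit 62) (nat_lit 5) (nat_lit 59) (nat_lit 5) (nat_lit 344) (nat_lit 307) (nat_lit 129)) (XT.lf (nat_lit 0) (nat_lit 6688177577) (nat_lit 228) (nat_lit 33931496611) (nat_lit 304) (nat_lit 84729926939) (nat_lit 55)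 (nat_lit 5) (nat_lit 58) (nat_lit 5) (nat_lit 59) (nat_lit 5) (nat_lit 345) (nat_lit 307) (nat_lit 128)))) (XT.nd (nat_lit 78) (nat_lit 456) (nat_lit 0) (XT.lf (nat_lit 0) (nat_lit 74672081939) (nat_lit 304) (nat_lit 31132082259) (nat_lit 76) (nat_lit 23995386631) (nat_lit 55) (nat_lit 5) (nat_lit 59) (nat_lit 5) (nat_lit 56) (nat_lit 5) (nat_lit 346) (nat_lit 307) (nat_lit 127)) (XT.nd (nat_lit 78) (nat_lit 228) (nat_lit 0) (XT.lf (nat_lit 0) (nat_lit 61632542458) (nat_lit 228) (nat_lit 49728593691) (nat_lit 304) (nat_lit 23082841879) (nat_lit 52) (nat_lit 5) (nat_lit 55) (nat_lit 5) (nat_lit 56) (nat_lit 5) (nat_lit 347) (nat_lit 307) (nat_lit 126)) (XT.lf (nat_lit 0) (nat_lit 10973493051) (nat_lit 228) (nat_lit 118723803669) (nat_lit 76) (nat_lit 9601815610) (nat_lit 49) (nat_lit 5) (nat_lit 52) (nat_lit 5) (nat_lit 50) (nat_lit 5) (nat_lit 348) (nat_lit 307) (nat_lit 125))))) (XT.nd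 (nat_lit 37518) (nat_lit 0) (nat_lit 9804) (XT.nd (nat_lit 78) (nat_lit 228) (nat_lit 0) (XT.lf (nat_lit 0) (nat_lit 47517710322) (nat_lit 228) (nat_lit 24965246472) (nat_lit 76) (nat_lit 71869317337) (nat_lit 49) (nat_lit 5) (nat_lit 52) (nat_lit 5) (nat_lit 50) (nat_lit 5) (nat_lit 349) (nat_lit 307) (nat_lit 124)) (XT.nd (nat_lit 37362) (nat_lit 0) (nat_lit 9804) (XT.lf (nat_lit 0) (nat_lit 74942358287) (nat_lit 228) (nat_lit 11666355899) (nat_lit 304) (nat_lit 63027793229) (nat_lit 46) (nat_lit 5) (nat_lit 49) (nat_lit 5) (nat_lit 50) (nat_lit 5) (nat_lit 350) (nat_lit 307) (nat_lit 123)) (XT.lf (nat_lit 0) (nat_lit 2776878304) (nat_lit 0) (nat_lit 2776878304) (nat_lit 1140) (nat_lit 15766344766) (nat_lit 175) (nat_lit 5) (nat_lit 175) (nat_lit 3) (nat_lit 190) (nat_lit 3) (nat_lit 308) (nat_lit 308) (nat_lit 164)))) (XT.nd (nat_lit 156) (nat_lit 0) (nat_lit 152) (XT.nd (nat_lit 78)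 (nat_lit 0) (nat_lit 76) (XT.lf (nat_lit 0) (nat_lit 11695560705) (nat_lit 1140) (nat_lit 6052381268) (nat_lit 1216) (nat_lit 25948869287) (nat_lit 175) (nat_lit 5) (nat_lit 190) (nat_lit 3) (nat_lit 191) (nat_lit 5) (nat_lit 309) (nat_lit 308) (nat_lit 163)) (XT.lf (nat_lit 0) (nat_lit 12763266975) (nat_lit 1140) (nat_lit 17932774283) (nat_lit 1216) (nat_lit 14096706735) (nat_lit 176) (nat_lit 5) (nat_lit 191) (nat_lit 5) (nat_lit 192) (nat_lit 5) (nat_lit 310) (nat_lit 308) (nat_lit 162))) (XT.nd (nat_lit 78) (nat_lit 0) (nat_lit 0) (XT.lf (nat_lit 0) (nat_lit 14288177041) (nat_lit 1140) (nat_lit 30217785346) (nat_lit 1216) (nat_lit 1425409852) (nat_lit 177) (nat_lit 5) (nat_lit 192) (nat_lit 5) (nat_lit 193) (nat_lit 5) (nat_lit 311) (nat_lit 308) (nat_lit 161)) (XT.lf (nat_lit 76) (nat_lit 4061169483) (nat_lit 0) (nat_lit 12360211786) (nat_lit 1216) (nat_lit 30689589946) (nat_lit 178)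 (nat_lit 5) (nat_lit 177) (nat_lit 5) (nat_lit 193) (nat_lit 5) (nat_lit 312) (nat_lit 308) (nat_lit 160)))))) (XT.nd (nat_lit 468) (nat_lit 3572) (nat_lit 0) (XT.nd (nat_lit 234) (nat_lit 0) (nat_lit 152) (XT.nd (nat_lit 78) (nat_lit 0) (nat_lit 76) (XT.lf (nat_lit 0) (nat_lit 19177935768) (nat_lit 1140) (nat_lit 7865501072) (nat_lit 1216) (nat_lit 21290617343) (nat_lit 178) (nat_lit 5) (nat_lit 193) (nat_lit 5) (nat_lit 194) (nat_lit 5) (nat_lit 313) (nat_lit 308) (nat_lit 159)) (XT.nd (nat_lit 78) (nat_lit 0) (nat_lit 0) (XT.lf (nat_lit 0) (nat_lit 22545723791) (nat_lit 1140) (nat_lit 20146440806) (nat_lit 1216) (nat_lit 6911929044) (nat_lit 179) (nat_lit 5) (nat_lit 194) (nat_lit 5) (nat_lit 195) (nat_lit 5) (nat_lit 314) (nat_lit 308) (nat_lit 158)) (XT.lf (nat_lit 76) (nat_lit 17950610158) (nat_lit 0) (nat_lit 8655750887) (nat_lit 1216) (nat_lit 24315544533) (nat_lit 180) (nat_lit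 5) (nat_lit 179) (nat_lit 5) (nat_lit 195) (nat_lit 5) (nat_lit 315) (nat_lit 308) (nat_lit 157)))) (XT.nd (nat_lit 78) (nat_lit 0) (nat_lit 76) (XT.lf (nat_lit 76) (nat_lit 5925294402) (nat_lit 0) (nat_lit 25468773622) (nat_lit 1216) (nat_lit 20895823051) (nat_lit 181) (nat_lit 5) (nat_lit 180) (nat_lit 5) (nat_lit 196) (nat_lit 5) (nat_lit 316) (nat_lit 308) (nat_lit 156)) (XT.nd (nat_lit 78) (nat_lit 0) (nat_lit 0) (XT.lf (nat_lit 0) (nat_lit 36945617319) (nat_lit 1140) (nat_lit 6450103951) (nat_lit 1216) (nat_lit 10314824769) (nat_lit 181) (nat_lit 5) (nat_lit 196) (nat_lit 5) (nat_lit 197) (nat_lit 5) (nat_lit 317) (nat_lit 308) (nat_lit 155)) (XT.lf (nat_lit 76) (nat_lit 35901621851) (nat_lit 0) (nat_lit 7472834317) (nat_lit 1216) (nat_lit 11809789936) (nat_lit 182) (nat_lit 5) (nat_lit 181) (nat_lit 5) (nat_lit 197) (nat_lit 5) (nat_lit 318) (nat_lit 308) (nat_lit 154))))) (XT.nd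 (nat_lit 234) (nat_lit 2128) (nat_lit 0) (XT.nd (nat_lit 78) (nat_lit 608) (nat_lit 0) (XT.lf (nat_lit 0) (nat_lit 23950011471) (nat_lit 1140) (nat_lit 26760391812) (nat_lit 1216) (nat_lit 6003661438) (nat_lit 167) (nat_lit 5) (nat_lit 182) (nat_lit 5) (nat_lit 183) (nat_lit 5) (nat_lit 319) (nat_lit 308) (nat_lit 153)) (XT.nd (nat_lit 78) (nat_lit 0) (nat_lit 0) (XT.lf (nat_lit 0) (nat_lit 582586592) (nat_lit 608) (nat_lit 46837074871) (nat_lit 76) (nat_lit 10885940621) (nat_lit 159) (nat_lit 5) (nat_lit 167) (nat_lit 5) (nat_lit 160) (nat_lit 5) (nat_lit 320) (nat_lit 308) (nat_lit 152)) (XT.lf (nat_lit 0) (nat_lit 7983655704) (nat_lit 608) (nat_lit 1705248638) (nat_lit 76) (nat_lit 50267741618) (nat_lit 159) (nat_lit 5) (nat_lit 167) (nat_lit 5) (nat_lit 160) (nat_lit 5) (nat_lit 321) (nat_lit 308) (nat_lit 151)))) (XT.nd (nat_lit 156) (nat_lit 988) (nat_lit 0) (XT.nd (nat_lit 78) (nat_lit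 532) (nat_lit 0) (XT.lf (nat_lit 0) (nat_lit 16492667802) (nat_lit 684) (nat_lit 15378611058) (nat_lit 76) (nat_lit 29796829449) (nat_lit 151) (nat_lit 5) (nat_lit 160) (nat_lit 5) (nat_lit 152) (nat_lit 5) (nat_lit 322) (nat_lit 308) (nat_lit 150)) (XT.lf (nat_lit 0) (nat_lit 25942105189) (nat_lit 608) (nat_lit 29713457285) (nat_lit 76) (nat_lit 7794134890) (nat_lit 144) (nat_lit 5) (nat_lit 152) (nat_lit 5) (nat_lit 145) (nat_lit 5) (nat_lit 323) (nat_lit 308) (nat_lit 149))) (XT.nd (nat_lit 78) (nat_lit 456) (nat_lit 0) (XT.lf (nat_lit 0) (nat_lit 20385178128) (nat_lit 532) (nat_lit 16154421701) (nat_lit 608) (nat_lit 28760501172) (nat_lit 137) (nat_lit 5) (nat_lit 144) (nat_lit 5) (nat_lit 145) (nat_lit 5) (nat_lit 324) (nat_lit 308) (nat_lit 148)) (XT.lf (nat_lit 0) (nat_lit 6249386392) (nat_lit 456) (nat_lit 42028109305) (nat_lit 532) (nat_lit 18947215892) (nat_lit 131) (nat_lit 5)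 (nat_lit 137) (nat_lit 5) (nat_lit 138) (nat_lit 5) (nat_lit 325) (nat_lit 308) (nat_lit 147))))))) (XT.nd (nat_lit 1014) (nat_lit 2128) (nat_lit 0) (XT.nd (nat_lit 468) (nat_lit 2280) (nat_lit 0) (XT.nd (nat_lit 234) (nat_lit 836) (nat_lit 0) (XT.nd (nat_lit 78) (nat_lit 988) (nat_lit 0) (XT.lf (nat_lit 0) (nat_lit 60742315795) (nat_lit 456) (nat_lit 481995181) (nat_lit 532) (nat_lit 8002583434) (nat_lit 131) (nat_lit 5) (nat_lit 137) (nat_lit 5) (nat_lit 138) (nat_lit 5) (nat_lit 326) (nat_lit 308) (nat_lit 146)) (XT.nd (nat_lit 78) (nat_lit 456) (nat_lit 0) (XT.lf (nat_lit 0) (nat_lit 4295843959) (nat_lit 532) (nat_lit 24211418741) (nat_lit 76) (nat_lit 42794680145) (nat_lit 124) (nat_lit 5) (nat_lit 131) (nat_lit 5) (nat_lit 125) (nat_lit 5) (nat_lit 327) (nat_lit 308) (nat_lit 145)) (XT.lf (nat_lit 0) (nat_lit 17597424188) (nat_lit 532) (nat_lit 40919483102) (nat_lit 76) (nat_lit 14944849442)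 (nat_lit 118) (nat_lit 5) (nat_lit 125) (nat_lit 5) (nat_lit 119) (nat_lit 5) (nat_lit 328) (nat_lit 308) (nat_lit 144)))) (XT.nd (nat_lit 78) (nat_lit 380) (nat_lit 0) (XT.lf (nat_lit 0) (nat_lit 16956365534) (nat_lit 456) (nat_lit 15308549131) (nat_lit 532) (nat_lit 43443623758) (nat_lit 112) (nat_lit 5) (nat_lit 118) (nat_lit 5) (nat_lit 119) (nat_lit 5) (nat_lit 329) (nat_lit 308) (nat_lit 143)) (XT.nd (nat_lit 78) (nat_lit 0) (nat_lit 0) (XT.lf (nat_lit 0) (nat_lit 235730202) (nat_lit 380) (nat_lit 48145132690) (nat_lit 456) (nat_lit 29665345762) (nat_lit 107) (nat_lit 5) (nat_lit 112) (nat_lit 5) (nat_lit 113) (nat_lit 5) (nat_lit 330) (nat_lit 308) (nat_lit 142)) (XT.lf (nat_lit 0) (nat_lit 63241417306) (nat_lit 380) (nat_lit 2817506792) (nat_lit 456) (nat_lit 14419150688) (nat_lit 107) (nat_lit 5) (nat_lit 112) (nat_lit 5) (nat_lit 113) (nat_lit 5) (nat_lit 331) (nat_lit 308) (nat_lit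 141))))) (XT.nd (nat_lit 234) (nat_lit 1064) (nat_lit 0) (XT.nd (nat_lit 78) (nat_lit 760) (nat_lit 0) (XT.lf (nat_lit 0) (nat_lit 2446378011) (nat_lit 456) (nat_lit 36181261806) (nat_lit 76) (nat_lit 44376796654) (nat_lit 101) (nat_lit 5) (nat_lit 107) (nat_lit 5) (nat_lit 102) (nat_lit 5) (nat_lit 332) (nat_lit 308) (nat_lit 140)) (XT.nd (nat_lit 78) (nat_lit 380) (nat_lit 0) (XT.lf (nat_lit 0) (nat_lit 20431529163) (nat_lit 456) (nat_lit 56536626183) (nat_lit 76) (nat_lit 8667442928) (nat_lit 96) (nat_lit 5) (nat_lit 102) (nat_lit 5) (nat_lit 97) (nat_lit 5) (nat_lit 333) (nat_lit 308) (nat_lit 139)) (XT.lf (nat_lit 0) (nat_lit 9808287400) (nat_lit 380) (nat_lit 30366620229) (nat_lit 456) (nat_lit 48197643002) (nat_lit 91) (nat_lit 5) (nat_lit 96) (nat_lit 5) (nat_lit 97) (nat_lit 5) (nat_lit 334) (nat_lit 308) (nat_lit 138)))) (XT.nd (nat_lit 156) (nat_lit 760) (nat_lit 0) (XT.nd (nat_lit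 78) (nat_lit 304) (nat_lit 0) (XT.lf (nat_lit 0) (nat_lit 61670380791) (nat_lit 456) (nat_lit 10762900131) (nat_lit 76) (nat_lit 18790123397) (nat_lit 91) (nat_lit 5) (nat_lit 97) (nat_lit 5) (nat_lit 92) (nat_lit 5) (nat_lit 335) (nat_lit 308) (nat_lit 137)) (XT.lf (nat_lit 0) (nat_lit 61316943267) (nat_lit 304) (nat_lit 23818370072) (nat_lit 380) (nat_lit 9054648192) (nat_lit 87) (nat_lit 5) (nat_lit 91) (nat_lit 5) (nat_lit 92) (nat_lit 5) (nat_lit 336) (nat_lit 308) (nat_lit 136))) (XT.nd (nat_lit 78) (nat_lit 304) (nat_lit 0) (XT.lf (nat_lit 0) (nat_lit 12994123517) (nat_lit 456) (nat_lit 56960342120) (nat_lit 76) (nat_lit 27323723012) (nat_lit 81) (nat_lit 5) (nat_lit 87) (nat_lit 5) (nat_lit 82) (nat_lit 5) (nat_lit 337) (nat_lit 308) (nat_lit 135)) (XT.lf (nat_lit 0) (nat_lit 17346301210) (nat_lit 304) (nat_lit 19361247498) (nat_lit 380) (nat_lit 63788105792) (nat_lit 77) (nat_lit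 5) (nat_lit 81) (nat_lit 5) (nat_lit 82) (nat_lit 5) (nat_lit 338) (nat_lit 308) (nat_lit 134)))))) (XT.nd (nat_lit 546) (nat_lit 684) (nat_lit 0) (XT.nd (nat_lit 234) (nat_lit 836) (nat_lit 0) (XT.nd (nat_lit 78) (nat_lit 608) (nat_lit 0) (XT.lf (nat_lit 0) (nat_lit 62522222293) (nat_lit 380) (nat_lit 7629721970) (nat_lit 76) (nat_lit 33694583252) (nat_lit 77) (nat_lit 5) (nat_lit 82) (nat_lit 5) (nat_lit 78) (nat_lit 5) (nat_lit 339) (nat_lit 308) (nat_lit 133)) (XT.nd (nat_lit 78) (nat_lit 304) (nat_lit 0) (XT.lf (nat_lit 0) (nat_lit 72891363937) (nat_lit 304) (nat_lit 17631290910) (nat_lit 380) (nat_lit 16815439704) (nat_lit 73) (nat_lit 5) (nat_lit 77) (nat_lit 5) (nat_lit 78) (nat_lit 5) (nat_lit 340) (nat_lit 308) (nat_lit 132)) (XT.lf (nat_lit 0) (nat_lit 9645832846) (nat_lit 304) (nat_lit 63918718957) (nat_lit 76) (nat_lit 37410087080) (nat_lit 69) (nat_lit 5) (nat_lit 73) (nat_lit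 5) (nat_lit 70) (nat_lit 5) (nat_lit 341) (nat_lit 308) (nat_lit 131)))) (XT.nd (nat_lit 156) (nat_lit 532) (nat_lit 0) (XT.nd (nat_lit 78) (nat_lit 0) (nat_lit 0) (XT.lf (nat_lit 0) (nat_lit 18581113323) (nat_lit 304) (nat_lit 19218187903) (nat_lit 380) (nat_lit 76967208476) (nat_lit 65) (nat_lit 5) (nat_lit 69) (nat_lit 5) (nat_lit 70) (nat_lit 5) (nat_lit 342) (nat_lit 308) (nat_lit 130)) (XT.lf (nat_lit 0) (nat_lit 68387758102) (nat_lit 380) (nat_lit 12558324334) (nat_lit 76) (nat_lit 37771073120) (nat_lit 65) (nat_lit 5) (nat_lit 70) (nat_lit 5) (nat_lit 66) (nat_lit 5) (nat_lit 343) (nat_lit 308) (nat_lit 129))) (XT.nd (nat_lit 78) (nat_lit 304) (nat_lit 0) (XT.lf (nat_lit 0) (nat_lit 76548501063) (nat_lit 228) (nat_lit 24886007796) (nat_lit 304) (nat_lit 21402959614) (nat_lit 62) (nat_lit 5) (nat_lit 65) (nat_lit 5) (nat_lit 66) (nat_lit 5) (nat_lit 344) (nat_lit 308) (nat_lit 128))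 (XT.lf (nat_lit 0) (nat_lit 9680136188) (nat_lit 304) (nat_lit 83494981398) (nat_lit 76) (nat_lit 33959532511) (nat_lit 58) (nat_lit 5) (nat_lit 62) (nat_lit 5) (nat_lit 59) (nat_lit 5) (nat_lit 345) (nat_lit 308) (nat_lit 127))))) (XT.nd (nat_lit 234) (nat_lit 228) (nat_lit 0) (XT.nd (nat_lit 78) (nat_lit 228) (nat_lit 0) (XT.lf (nat_lit 0) (nat_lit 7064241438) (nat_lit 228) (nat_lit 35614037283) (nat_lit 304) (nat_lit 88937949421) (nat_lit 55) (nat_lit 5) (nat_lit 58) (nat_lit 5) (nat_lit 59) (nat_lit 5) (nat_lit 346) (nat_lit 308) (nat_lit 126)) (XT.nd (nat_lit 78) (nat_lit 228) (nat_lit 0) (XT.lf (nat_lit 0) (nat_lit 78432120063) (nat_lit 304) (nat_lit 32648331021) (nat_lit 76) (nat_lit 25208261012) (nat_lit 55) (nat_lit 5) (nat_lit 59) (nat_lit 5) (nat_lit 56) (nat_lit 5) (nat_lit 347) (nat_lit 308) (nat_lit 125)) (XT.lf (nat_lit 0) (nat_lit 64753368154) (nat_lit 228) (nat_lit 52201376867)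 (nat_lit 304) (nat_lit 24210643200) (nat_lit 52) (nat_lit 5) (nat_lit 55) (nat_lit 5) (nat_lit 56) (nat_lit 5) (nat_lit 348) (nat_lit 308) (nat_lit 124)))) (XT.nd (nat_lit 37596) (nat_lit 0) (nat_lit 9576) (XT.nd (nat_lit 37518) (nat_lit 0) (nat_lit 9576) (XT.lf (nat_lit 0) (nat_lit 11547266620) (nat_lit 228) (nat_lit 124620760221) (nat_lit 76) (nat_lit 10095267660) (nat_lit 49) (nat_lit 5) (nat_lit 52) (nat_lit 5) (nat_lit 50) (nat_lit 5) (nat_lit 349) (nat_lit 308) (nat_lit 123)) (XT.lf (nat_lit 0) (nat_lit 2943264870) (nat_lit 0) (nat_lit 2943264870) (nat_lit 1140) (nat_lit 16497839714) (nat_lit 175) (nat_lit 5) (nat_lit 175) (nat_lit 3) (nat_lit 190) (nat_lit 3) (nat_lit 309) (nat_lit 309) (nat_lit 162))) (XT.nd (nat_lit 78) (nat_lit 0) (nat_lit 76) (XT.lf (nat_lit 0) (nat_lit 12384758827) (nat_lit 1140) (nat_lit 6298725290) (nat_lit 1216) (nat_lit 27194874285) (nat_lit 175) (nat_lit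 5) (nat_lit 190) (nat_lit 3) (nat_lit 191) (nat_lit 5) (nat_lit 310) (nat_lit 309) (nat_lit 161)) (XT.lf (nat_lit 0) (nat_lit 13500967910) (nat_lit 1140) (nat_lit 18771163155) (nat_lit 1216) (nat_lit 14757115040) (nat_lit 176) (nat_lit 5) (nat_lit 191) (nat_lit 5) (nat_lit 192) (nat_lit 5) (nat_lit 311) (nat_lit 309) (nat_lit 160))))))))
noncomputable def xc117 : XT := (XT.nd (nat_lit 2028) (nat_lit 2660) (nat_lit 0) (XT.nd (nat_lit 1014) (nat_lit 4332) (nat_lit 0) (XT.nd (nat_lit 468) (nat_lit 2508) (nat_lit 0) (XT.nd (nat_lit 234) (nat_lit 0) (nat_lit 152) (XT.nd (nat_lit 78) (nat_lit 0) (nat_lit 0) (XT.lf (nat_lit 0) (nat_lit 15097554878) (nat_lit 1140) (nat_lit 31668715777) (nat_lit 1216) (nat_lit 1458675259) (nat_lit 177) (nat_lit 5) (nat_lit 192) (nat_lit 5) (nat_lit 193) (nat_lit 5) (nat_lit 312) (nat_lit 309) (nat_lit 159)) (XT.nd (nat_lit 78) (nat_lit 0) (nat_lit 76) (XT.lf (nat_lit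 76) (nat_lit 4322468085) (nat_lit 0) (nat_lit 13010988740) (nat_lit 1216) (nat_lit 32130193836) (nat_lit 178) (nat_lit 5) (nat_lit 177) (nat_lit 5) (nat_lit 193) (nat_lit 5) (nat_lit 313) (nat_lit 309) (nat_lit 158)) (XT.lf (nat_lit 0) (nat_lit 20223205434) (nat_lit 1140) (nat_lit 8200276875) (nat_lit 1216) (nat_lit 22324551091) (nat_lit 178) (nat_lit 5) (nat_lit 193) (nat_lit 5) (nat_lit 194) (nat_lit 5) (nat_lit 314) (nat_lit 309) (nat_lit 157)))) (XT.nd (nat_lit 78) (nat_lit 0) (nat_lit 0) (XT.lf (nat_lit 0) (nat_lit 23755566304) (nat_lit 1140) (nat_lit 21094080504) (nat_lit 1216) (nat_lit 7232048819) (nat_lit 179) (nat_lit 5) (nat_lit 194) (nat_lit 5) (nat_lit 195) (nat_lit 5) (nat_lit 315) (nat_lit 309) (nat_lit 156)) (XT.nd (nat_lit 78) (nat_lit 0) (nat_lit 76) (XT.lf (nat_lit 76) (nat_lit 18906112225) (nat_lit 0) (nat_lit 9109749201) (nat_lit 1216) (nat_lit 25449643957) (nat_lit 180)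 (nat_lit 5) (nat_lit 179) (nat_lit 5) (nat_lit 195) (nat_lit 5) (nat_lit 316) (nat_lit 309) (nat_lit 155)) (XT.lf (nat_lit 76) (nat_lit 6280490927) (nat_lit 0) (nat_lit 26759064545) (nat_lit 1216) (nat_lit 21862442344) (nat_lit 181) (nat_lit 5) (nat_lit 180) (nat_lit 5) (nat_lit 196) (nat_lit 5) (nat_lit 317) (nat_lit 309) (nat_lit 154))))) (XT.nd (nat_lit 234) (nat_lit 1748) (nat_lit 0) (XT.nd (nat_lit 78) (nat_lit 1064) (nat_lit 0) (XT.lf (nat_lit 0) (nat_lit 38864919189) (nat_lit 1140) (nat_lit 6714055233) (nat_lit 1216) (nat_lit 10814829441) (nat_lit 181) (nat_lit 5) (nat_lit 196) (nat_lit 5) (nat_lit 197) (nat_lit 5) (nat_lit 318) (nat_lit 309) (nat_lit 153)) (XT.nd (nat_lit 78) (nat_lit 1064) (nat_lit 0) (XT.lf (nat_lit 76) (nat_lit 37753578423) (nat_lit 0) (nat_lit 7858738707) (nat_lit 1216) (nat_lit 12328963469) (nat_lit 182) (nat_lit 5) (nat_lit 181) (nat_lit 5) (nat_lit 197) (nat_lit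 5) (nat_lit 319) (nat_lit 309) (nat_lit 152)) (XT.lf (nat_lit 0) (nat_lit 25204987080) (nat_lit 1140) (nat_lit 28107222450) (nat_lit 1216) (nat_lit 6235471116) (nat_lit 167) (nat_lit 5) (nat_lit 182) (nat_lit 5) (nat_lit 183) (nat_lit 5) (nat_lit 320) (nat_lit 309) (nat_lit 151)))) (XT.nd (nat_lit 156) (nat_lit 1140) (nat_lit 0) (XT.nd (nat_lit 78) (nat_lit 0) (nat_lit 0) (XT.lf (nat_lit 0) (nat_lit 676043743) (nat_lit 608) (nat_lit 49119619803) (nat_lit 76) (nat_lit 11423197520) (nat_lit 159) (nat_lit 5) (nat_lit 167) (nat_lit 5) (nat_lit 160) (nat_lit 5) (nat_lit 321) (nat_lit 309) (nat_lit 150)) (XT.lf (nat_lit 0) (nat_lit 8444103080) (nat_lit 608) (nat_lit 1734026488) (nat_lit 76) (nat_lit 52774423810) (nat_lit 159) (nat_lit 5) (nat_lit 167) (nat_lit 5) (nat_lit 160) (nat_lit 5) (nat_lit 322) (nat_lit 309) (nat_lit 149))) (XT.nd (nat_lit 78) (nat_lit 532) (nat_lit 0) (XT.lf (nat_lit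 0) (nat_lit 17376137284) (nat_lit 684) (nat_lit 16090788569) (nat_lit 76) (nat_lit 31282739988) (nat_lit 151) (nat_lit 5) (nat_lit 160) (nat_lit 5) (nat_lit 152) (nat_lit 5) (nat_lit 323) (nat_lit 309) (nat_lit 148)) (XT.lf (nat_lit 0) (nat_lit 27295760905) (nat_lit 608) (nat_lit 31142214311) (nat_lit 76) (nat_lit 8182431644) (nat_lit 144) (nat_lit 5) (nat_lit 152) (nat_lit 5) (nat_lit 145) (nat_lit 5) (nat_lit 324) (nat_lit 309) (nat_lit 147)))))) (XT.nd (nat_lit 468) (nat_lit 1900) (nat_lit 0) (XT.nd (nat_lit 234) (nat_lit 1444) (nat_lit 0) (XT.nd (nat_lit 78) (nat_lit 456) (nat_lit 0) (XT.lf (nat_lit 0) (nat_lit 21459721391) (nat_lit 532) (nat_lit 16961247434) (nat_lit 608) (nat_lit 30142430452) (nat_lit 137) (nat_lit 5) (nat_lit 144) (nat_lit 5) (nat_lit 145) (nat_lit 5) (nat_lit 325) (nat_lit 309) (nat_lit 146)) (XT.nd (nat_lit 78) (nat_lit 0) (nat_lit 0) (XT.lf (nat_lit 0) (nat_lit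 6617204843) (nat_lit 456) (nat_lit 44126504938) (nat_lit 532) (nat_lit 19840595682) (nat_lit 131) (nat_lit 5) (nat_lit 137) (nat_lit 5) (nat_lit 138) (nat_lit 5) (nat_lit 326) (nat_lit 309) (nat_lit 145)) (XT.lf (nat_lit 0) (nat_lit 63832145042) (nat_lit 456) (nat_lit 503228434) (nat_lit 532) (nat_lit 8351302125) (nat_lit 131) (nat_lit 5) (nat_lit 137) (nat_lit 5) (nat_lit 138) (nat_lit 5) (nat_lit 327) (nat_lit 309) (nat_lit 144)))) (XT.nd (nat_lit 78) (nat_lit 912) (nat_lit 0) (XT.lf (nat_lit 0) (nat_lit 4559181135) (nat_lit 532) (nat_lit 25368266166) (nat_lit 76) (nat_lit 44938073349) (nat_lit 124) (nat_lit 5) (nat_lit 131) (nat_lit 5) (nat_lit 125) (nat_lit 5) (nat_lit 328) (nat_lit 309) (nat_lit 143)) (XT.nd (nat_lit 78) (nat_lit 456) (nat_lit 0) (XT.lf (nat_lit 0) (nat_lit 18524082705) (nat_lit 532) (nat_lit 42911864059) (nat_lit 76) (nat_lit 15697434197) (nat_lit 118) (nat_lit 5)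 (nat_lit 125) (nat_lit 5) (nat_lit 119) (nat_lit 5) (nat_lit 329) (nat_lit 309) (nat_lit 142)) (XT.lf (nat_lit 0) (nat_lit 17856240771) (nat_lit 456) (nat_lit 16066979372) (nat_lit 532) (nat_lit 45569336277) (nat_lit 112) (nat_lit 5) (nat_lit 118) (nat_lit 5) (nat_lit 119) (nat_lit 5) (nat_lit 330) (nat_lit 309) (nat_lit 141))))) (XT.nd (nat_lit 234) (nat_lit 1064) (nat_lit 0) (XT.nd (nat_lit 78) (nat_lit 456) (nat_lit 0) (XT.lf (nat_lit 0) (nat_lit 299384673) (nat_lit 380) (nat_lit 50543998051) (nat_lit 456) (nat_lit 31103777651) (nat_lit 107) (nat_lit 5) (nat_lit 112) (nat_lit 5) (nat_lit 113) (nat_lit 5) (nat_lit 331) (nat_lit 309) (nat_lit 140)) (XT.nd (nat_lit 78) (nat_lit 456) (nat_lit 0) (XT.lf (nat_lit 0) (nat_lit 66452886230) (nat_lit 380) (nat_lit 2950390442) (nat_lit 456) (nat_lit 15097407843) (nat_lit 107) (nat_lit 5) (nat_lit 112) (nat_lit 5) (nat_lit 113) (nat_lit 5) (nat_lit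 332) (nat_lit 309) (nat_lit 139)) (XT.lf (nat_lit 0) (nat_lit 2609121544) (nat_lit 456) (nat_lit 37940308079) (nat_lit 76) (nat_lit 46603968017) (nat_lit 101) (nat_lit 5) (nat_lit 107) (nat_lit 5) (nat_lit 102) (nat_lit 5) (nat_lit 333) (nat_lit 309) (nat_lit 138)))) (XT.nd (nat_lit 156) (nat_lit 304) (nat_lit 0) (XT.nd (nat_lit 78) (nat_lit 380) (nat_lit 0) (XT.lf (nat_lit 0) (nat_lit 21492164721) (nat_lit 456) (nat_lit 59313752203) (nat_lit 76) (nat_lit 9110243857) (nat_lit 96) (nat_lit 5) (nat_lit 102) (nat_lit 5) (nat_lit 97) (nat_lit 5) (nat_lit 334) (nat_lit 309) (nat_lit 137)) (XT.lf (nat_lit 0) (nat_lit 10346982267) (nat_lit 380) (nat_lit 31874333988) (nat_lit 456) (nat_lit 50568688550) (nat_lit 91) (nat_lit 5) (nat_lit 96) (nat_lit 5) (nat_lit 97) (nat_lit 5) (nat_lit 335) (nat_lit 309) (nat_lit 136))) (XT.nd (nat_lit 78) (nat_lit 304) (nat_lit 0) (XT.lf (nat_lit 0) (nat_lit 64789866787)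 (nat_lit 456) (nat_lit 11254043428) (nat_lit 76) (nat_lit 19739543921) (nat_lit 91) (nat_lit 5) (nat_lit 97) (nat_lit 5) (nat_lit 92) (nat_lit 5) (nat_lit 336) (nat_lit 309) (nat_lit 135)) (XT.lf (nat_lit 0) (nat_lit 64428444845) (nat_lit 304) (nat_lit 24998327263) (nat_lit 380) (nat_lit 9471607286) (nat_lit 87) (nat_lit 5) (nat_lit 91) (nat_lit 5) (nat_lit 92) (nat_lit 5) (nat_lit 337) (nat_lit 309) (nat_lit 134))))))) (XT.nd (nat_lit 38532) (nat_lit 0) (nat_lit 7524) (XT.nd (nat_lit 468) (nat_lit 988) (nat_lit 0) (XT.nd (nat_lit 234) (nat_lit 912) (nat_lit 0) (XT.nd (nat_lit 78) (nat_lit 304) (nat_lit 0) (XT.lf (nat_lit 0) (nat_lit 13677775725) (nat_lit 456) (nat_lit 59762354542) (nat_lit 76) (nat_lit 28700912984) (nat_lit 81) (nat_lit 5) (nat_lit 87) (nat_lit 5) (nat_lit 82) (nat_lit 5) (nat_lit 338) (nat_lit 309) (nat_lit 133)) (XT.nd (nat_lit 78) (nat_lit 0) (nat_lit 0) (XT.lf (nat_lit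 0) (nat_lit 18258302240) (nat_lit 304) (nat_lit 20317383008) (nat_lit 380) (nat_lit 66943734491) (nat_lit 77) (nat_lit 5) (nat_lit 81) (nat_lit 5) (nat_lit 82) (nat_lit 5) (nat_lit 339) (nat_lit 309) (nat_lit 132)) (XT.lf (nat_lit 0) (nat_lit 65679641743) (nat_lit 380) (nat_lit 7967790157) (nat_lit 76) (nat_lit 35390449680) (nat_lit 77) (nat_lit 5) (nat_lit 82) (nat_lit 5) (nat_lit 78) (nat_lit 5) (nat_lit 340) (nat_lit 309) (nat_lit 131)))) (XT.nd (nat_lit 78) (nat_lit 608) (nat_lit 0) (XT.lf (nat_lit 0) (nat_lit 76578105480) (nat_lit 304) (nat_lit 18500904968) (nat_lit 380) (nat_lit 17625050659) (nat_lit 73) (nat_lit 5) (nat_lit 77) (nat_lit 5) (nat_lit 78) (nat_lit 5) (nat_lit 341) (nat_lit 309) (nat_lit 130)) (XT.nd (nat_lit 78) (nat_lit 304) (nat_lit 0) (XT.lf (nat_lit 0) (nat_lit 10157738477) (nat_lit 304) (nat_lit 67072272263) (nat_lit 76) (nat_lit 39292442554) (nat_lit 69) (nat_lit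 5) (nat_lit 73) (nat_lit 5) (nat_lit 70) (nat_lit 5) (nat_lit 342) (nat_lit 309) (nat_lit 129)) (XT.lf (nat_lit 0) (nat_lit 19551336742) (nat_lit 304) (nat_lit 20166529074) (nat_lit 380) (nat_lit 80786083658) (nat_lit 65) (nat_lit 5) (nat_lit 69) (nat_lit 5) (nat_lit 70) (nat_lit 5) (nat_lit 343) (nat_lit 309) (nat_lit 128))))) (XT.nd (nat_lit 234) (nat_lit 456) (nat_lit 0) (XT.nd (nat_lit 78) (nat_lit 532) (nat_lit 0) (XT.lf (nat_lit 0) (nat_lit 71834498714) (nat_lit 380) (nat_lit 13146304692) (nat_lit 76) (nat_lit 39671362940) (nat_lit 65) (nat_lit 5) (nat_lit 70) (nat_lit 5) (nat_lit 66) (nat_lit 5) (nat_lit 344) (nat_lit 309) (nat_lit 127)) (XT.nd (nat_lit 78) (nat_lit 304) (nat_lit 0) (XT.lf (nat_lit 0) (nat_lit 80414717221) (nat_lit 228) (nat_lit 26117940161) (nat_lit 304) (nat_lit 22445866672) (nat_lit 62) (nat_lit 5) (nat_lit 65) (nat_lit 5) (nat_lit 66) (nat_lit 5) (nat_lit 345)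 (nat_lit 309) (nat_lit 126)) (XT.lf (nat_lit 0) (nat_lit 10190067198) (nat_lit 304) (nat_lit 87630833188) (nat_lit 76) (nat_lit 35669681235) (nat_lit 58) (nat_lit 5) (nat_lit 62) (nat_lit 5) (nat_lit 59) (nat_lit 5) (nat_lit 346) (nat_lit 309) (nat_lit 125)))) (XT.nd (nat_lit 156) (nat_lit 228) (nat_lit 0) (XT.nd (nat_lit 78) (nat_lit 0) (nat_lit 0) (XT.lf (nat_lit 0) (nat_lit 7455235807) (nat_lit 228) (nat_lit 37382009752) (nat_lit 304) (nat_lit 93359020257) (nat_lit 55) (nat_lit 5) (nat_lit 58) (nat_lit 5) (nat_lit 59) (nat_lit 5) (nat_lit 347) (nat_lit 309) (nat_lit 124)) (XT.lf (nat_lit 0) (nat_lit 82377702509) (nat_lit 304) (nat_lit 34244144079) (nat_lit 76) (nat_lit 26480560729) (nat_lit 55) (nat_lit 5) (nat_lit 59) (nat_lit 5) (nat_lit 56) (nat_lit 5) (nat_lit 348) (nat_lit 309) (nat_lit 123))) (XT.nd (nat_lit 37596) (nat_lit 0) (nat_lit 9348) (XT.lf (nat_lit 0) (nat_lit 68026590823)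 (nat_lit 228) (nat_lit 54799067925) (nat_lit 304) (nat_lit 25397283502) (nat_lit 52) (nat_lit 5) (nat_lit 55) (nat_lit 5) (nat_lit 56) (nat_lit 5) (nat_lit 349) (nat_lit 309) (nat_lit 122)) (XT.lf (nat_lit 0) (nat_lit 3115410110) (nat_lit 0) (nat_lit 3115410110) (nat_lit 1140) (nat_lit 17271192207) (nat_lit 175) (nat_lit 5) (nat_lit 175) (nat_lit 3) (nat_lit 190) (nat_lit 3) (nat_lit 310) (nat_lit 310) (nat_lit 160)))))) (XT.nd (nat_lit 546) (nat_lit 1824) (nat_lit 0) (XT.nd (nat_lit 234) (nat_lit 0) (nat_lit 152) (XT.nd (nat_lit 78) (nat_lit 0) (nat_lit 76) (XT.lf (nat_lit 0) (nat_lit 13098708865) (nat_lit 1140) (nat_lit 6562618433) (nat_lit 1216) (nat_lit 28507961794) (nat_lit 175) (nat_lit 5) (nat_lit 190) (nat_lit 3) (nat_lit 191) (nat_lit 5) (nat_lit 311) (nat_lit 310) (nat_lit 159)) (XT.nd (nat_lit 78) (nat_lit 0) (nat_lit 76) (XT.lf (nat_lit 0) (nat_lit 14266299830) (nat_lit 1140)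 (nat_lit 19656886989) (nat_lit 1216) (nat_lit 15454674165) (nat_lit 176) (nat_lit 5) (nat_lit 191) (nat_lit 5) (nat_lit 192) (nat_lit 5) (nat_lit 312) (nat_lit 310) (nat_lit 158)) (XT.lf (nat_lit 0) (nat_lit 15938572290) (nat_lit 1140) (nat_lit 33197767135) (nat_lit 1216) (nat_lit 1497137289) (nat_lit 177) (nat_lit 5) (nat_lit 192) (nat_lit 5) (nat_lit 193) (nat_lit 5) (nat_lit 313) (nat_lit 310) (nat_lit 157)))) (XT.nd (nat_lit 156) (nat_lit 0) (nat_lit 152) (XT.nd (nat_lit 78) (nat_lit 0) (nat_lit 76) (XT.lf (nat_lit 76) (nat_lit 4591417002) (nat_lit 0) (nat_lit 13691258235) (nat_lit 1216) (nat_lit 33651555584) (nat_lit 178) (nat_lit 5) (nat_lit 177) (nat_lit 5) (nat_lit 193) (nat_lit 5) (nat_lit 314) (nat_lit 310) (nat_lit 156)) (XT.lf (nat_lit 0) (nat_lit 21312708452) (nat_lit 1140) (nat_lit 8557230173) (nat_lit 1216) (nat_lit 23413026157) (nat_lit 178) (nat_lit 5) (nat_lit 193) (nat_lit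 5) (nat_lit 194) (nat_lit 5) (nat_lit 315) (nat_lit 310) (nat_lit 155))) (XT.nd (nat_lit 78) (nat_lit 0) (nat_lit 0) (XT.lf (nat_lit 0) (nat_lit 25018225639) (nat_lit 1140) (nat_lit 22094650887) (nat_lit 1216) (nat_lit 7570543163) (nat_lit 179) (nat_lit 5) (nat_lit 194) (nat_lit 5) (nat_lit 195) (nat_lit 5) (nat_lit 316) (nat_lit 310) (nat_lit 154)) (XT.lf (nat_lit 76) (nat_lit 19903999750) (nat_lit 0) (nat_lit 9584475454) (nat_lit 1216) (nat_lit 26648041979) (nat_lit 180) (nat_lit 5) (nat_lit 179) (nat_lit 5) (nat_lit 195) (nat_lit 5) (nat_lit 317) (nat_lit 310) (nat_lit 153))))) (XT.nd (nat_lit 234) (nat_lit 2204) (nat_lit 0) (XT.nd (nat_lit 78) (nat_lit 0) (nat_lit 76) (XT.lf (nat_lit 76) (nat_lit 6647968358) (nat_lit 0) (nat_lit 28112303254) (nat_lit 1216) (nat_lit 22884660280) (nat_lit 181) (nat_lit 5) (nat_lit 180) (nat_lit 5) (nat_lit 196) (nat_lit 5) (nat_lit 318) (nat_lit 310) (nat_lit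 152)) (XT.nd (nat_lit 78) (nat_lit 0) (nat_lit 0) (XT.lf (nat_lit 0) (nat_lit 40873490322) (nat_lit 1140) (nat_lit 6996647867) (nat_lit 1216) (nat_lit 11341297383) (nat_lit 181) (nat_lit 5) (nat_lit 196) (nat_lit 5) (nat_lit 197) (nat_lit 5) (nat_lit 319) (nat_lit 310) (nat_lit 151)) (XT.lf (nat_lit 76) (nat_lit 39692845081) (nat_lit 0) (nat_lit 8262798250) (nat_lit 1216) (nat_lit 12880725961) (nat_lit 182) (nat_lit 5) (nat_lit 181) (nat_lit 5) (nat_lit 197) (nat_lit 5) (nat_lit 320) (nat_lit 310) (nat_lit 150)))) (XT.nd (nat_lit 156) (nat_lit 608) (nat_lit 0) (XT.nd (nat_lit 78) (nat_lit 608) (nat_lit 0) (XT.lf (nat_lit 0) (nat_lit 26517367985) (nat_lit 1140) (nat_lit 29520575453) (nat_lit 1216) (nat_lit 6485227988) (nat_lit 167) (nat_lit 5) (nat_lit 182) (nat_lit 5) (nat_lit 183) (nat_lit 5) (nat_lit 321) (nat_lit 310) (nat_lit 149)) (XT.lf (nat_lit 0) (nat_lit 768193159) (nat_lit 608)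 (nat_lit 51521805953) (nat_lit 76) (nat_lit 11987971789) (nat_lit 159) (nat_lit 5) (nat_lit 167) (nat_lit 5) (nat_lit 160) (nat_lit 5) (nat_lit 322) (nat_lit 310) (nat_lit 148))) (XT.nd (nat_lit 78) (nat_lit 608) (nat_lit 0) (XT.lf (nat_lit 0) (nat_lit 8921877024) (nat_lit 608) (nat_lit 1769494631) (nat_lit 76) (nat_lit 55407063470) (nat_lit 159) (nat_lit 5) (nat_lit 167) (nat_lit 5) (nat_lit 160) (nat_lit 5) (nat_lit 323) (nat_lit 310) (nat_lit 147)) (XT.lf (nat_lit 0) (nat_lit 18298310218) (nat_lit 684) (nat_lit 16843851315) (nat_lit 76) (nat_lit 32843311515) (nat_lit 151) (nat_lit 5) (nat_lit 160) (nat_lit 5) (nat_lit 152) (nat_lit 5) (nat_lit 324) (nat_lit 310) (nat_lit 146))))))))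
noncomputable def xc118 : XT := (XT.nd (nat_lit 39624) (nat_lit 0) (nat_lit 2736) (XT.nd (nat_lit 1014) (nat_lit 2736) (nat_lit 0) (XT.nd (nat_lit 468) (nat_lit 2052) (nat_lit 0) (XT.nd (nat_lit 234) (nat_lit 988) (nat_lit 0) (XT.nd (nat_lit 78) (nat_lit 988) (nat_lit 0) (XT.lf (nat_lit 0) (nat_lit 28711841881) (nat_lit 608) (nat_lit 32647700684) (nat_lit 76) (nat_lit 8590274323) (nat_lit 144) (nat_lit 5) (nat_lit 152) (nat_lit 5) (nat_lit 145) (nat_lit 5) (nat_lit 325) (nat_lit 310) (nat_lit 145)) (XT.nd (nat_lit 78) (nat_lit 456) (nat_lit 0) (XT.lf (nat_lit 0) (nat_lit 22582852002) (nat_lit 532) (nat_lit 17808497696) (nat_lit 608) (nat_lit 31598671450) (nat_lit 137) (nat_lit 5) (nat_lit 144) (nat_lit 5) (nat_lit 145) (nat_lit 5) (nat_lit 326) (nat_lit 310) (nat_lit 144)) (XT.lf (nat_lit 0) (nat_lit 6998268378) (nat_lit 456) (nat_lit 46330100178) (nat_lit 532) (nat_lit 20783663104) (nat_lit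 131) (nat_lit 5) (nat_lit 137) (nat_lit 5) (nat_lit 138) (nat_lit 5) (nat_lit 327) (nat_lit 310) (nat_lit 143)))) (XT.nd (nat_lit 78) (nat_lit 988) (nat_lit 0) (XT.lf (nat_lit 0) (nat_lit 67071564955) (nat_lit 456) (nat_lit 525789849) (nat_lit 532) (nat_lit 8722236410) (nat_lit 131) (nat_lit 5) (nat_lit 137) (nat_lit 5) (nat_lit 138) (nat_lit 5) (nat_lit 328) (nat_lit 310) (nat_lit 142)) (XT.nd (nat_lit 78) (nat_lit 456) (nat_lit 0) (XT.lf (nat_lit 0) (nat_lit 4831171919) (nat_lit 532) (nat_lit 26587950666) (nat_lit 76) (nat_lit 47188296015) (nat_lit 124) (nat_lit 5) (nat_lit 131) (nat_lit 5) (nat_lit 125) (nat_lit 5) (nat_lit 329) (nat_lit 310) (nat_lit 141)) (XT.lf (nat_lit 0) (nat_lit 19492724308) (nat_lit 532) (nat_lit 45008846651) (nat_lit 76) (nat_lit 16487151515) (nat_lit 118) (nat_lit 5) (nat_lit 125) (nat_lit 5) (nat_lit 119) (nat_lit 5) (nat_lit 330) (nat_lit 310) (nat_lit 140)))))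 (XT.nd (nat_lit 234) (nat_lit 1216) (nat_lit 0) (XT.nd (nat_lit 78) (nat_lit 380) (nat_lit 0) (XT.lf (nat_lit 0) (nat_lit 18796270007) (nat_lit 456) (nat_lit 16863981660) (nat_lit 532) (nat_lit 47805654639) (nat_lit 112) (nat_lit 5) (nat_lit 118) (nat_lit 5) (nat_lit 119) (nat_lit 5) (nat_lit 331) (nat_lit 310) (nat_lit 139)) (XT.nd (nat_lit 78) (nat_lit 0) (nat_lit 0) (XT.lf (nat_lit 0) (nat_lit 361399677) (nat_lit 380) (nat_lit 53063586821) (nat_lit 456) (nat_lit 32618299505) (nat_lit 107) (nat_lit 5) (nat_lit 112) (nat_lit 5) (nat_lit 113) (nat_lit 5) (nat_lit 332) (nat_lit 310) (nat_lit 138)) (XT.lf (nat_lit 0) (nat_lit 69820336037) (nat_lit 380) (nat_lit 3090661266) (nat_lit 456) (nat_lit 15813547731) (nat_lit 107) (nat_lit 5) (nat_lit 112) (nat_lit 5) (nat_lit 113) (nat_lit 5) (nat_lit 333) (nat_lit 310) (nat_lit 137)))) (XT.nd (nat_lit 156) (nat_lit 380) (nat_lit 0) (XT.nd (nat_lit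 78) (nat_lit 380) (nat_lit 0) (XT.lf (nat_lit 0) (nat_lit 2776243955) (nat_lit 456) (nat_lit 39791956756) (nat_lit 76) (nat_lit 48941723361) (nat_lit 101) (nat_lit 5) (nat_lit 107) (nat_lit 5) (nat_lit 102) (nat_lit 5) (nat_lit 334) (nat_lit 310) (nat_lit 136)) (XT.lf (nat_lit 0) (nat_lit 22602200712) (nat_lit 456) (nat_lit 62234355651) (nat_lit 76) (nat_lit 9574308234) (nat_lit 96) (nat_lit 5) (nat_lit 102) (nat_lit 5) (nat_lit 97) (nat_lit 5) (nat_lit 335) (nat_lit 310) (nat_lit 135))) (XT.nd (nat_lit 78) (nat_lit 0) (nat_lit 0) (XT.lf (nat_lit 0) (nat_lit 10908123215) (nat_lit 380) (nat_lit 33458420527) (nat_lit 456) (nat_lit 53061897035) (nat_lit 91) (nat_lit 5) (nat_lit 96) (nat_lit 5) (nat_lit 97) (nat_lit 5) (nat_lit 336) (nat_lit 310) (nat_lit 134)) (XT.lf (nat_lit 0) (nat_lit 68061983216) (nat_lit 456) (nat_lit 11774113663) (nat_lit 76) (nat_lit 20735513728) (nat_lit 91) (nat_lit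 5) (nat_lit 97) (nat_lit 5) (nat_lit 92) (nat_lit 5) (nat_lit 337) (nat_lit 310) (nat_lit 133)))))) (XT.nd (nat_lit 468) (nat_lit 1064) (nat_lit 0) (XT.nd (nat_lit 234) (nat_lit 608) (nat_lit 0) (XT.nd (nat_lit 78) (nat_lit 760) (nat_lit 0) (XT.lf (nat_lit 0) (nat_lit 67691276988) (nat_lit 304) (nat_lit 26238301392) (nat_lit 380) (nat_lit 9912740200) (nat_lit 87) (nat_lit 5) (nat_lit 91) (nat_lit 5) (nat_lit 92) (nat_lit 5) (nat_lit 338) (nat_lit 310) (nat_lit 132)) (XT.nd (nat_lit 78) (nat_lit 304) (nat_lit 0) (XT.lf (nat_lit 0) (nat_lit 14392454564) (nat_lit 456) (nat_lit 62708744665) (nat_lit 76) (nat_lit 30145939423) (nat_lit 81) (nat_lit 5) (nat_lit 87) (nat_lit 5) (nat_lit 82) (nat_lit 5) (nat_lit 339) (nat_lit 310) (nat_lit 131)) (XT.lf (nat_lit 0) (nat_lit 19211748843) (nat_lit 304) (nat_lit 21322434140) (nat_lit 380) (nat_lit 70260284852) (nat_lit 77) (nat_lit 5) (nat_lit 81) (nat_lit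 5) (nat_lit 82) (nat_lit 5) (nat_lit 340) (nat_lit 310) (nat_lit 130)))) (XT.nd (nat_lit 78) (nat_lit 608) (nat_lit 0) (XT.lf (nat_lit 0) (nat_lit 68992021414) (nat_lit 380) (nat_lit 8326798339) (nat_lit 76) (nat_lit 37170073993) (nat_lit 77) (nat_lit 5) (nat_lit 82) (nat_lit 5) (nat_lit 78) (nat_lit 5) (nat_lit 341) (nat_lit 310) (nat_lit 129)) (XT.nd (nat_lit 78) (nat_lit 304) (nat_lit 0) (XT.lf (nat_lit 0) (nat_lit 80445263222) (nat_lit 304) (nat_lit 19415110772) (nat_lit 380) (nat_lit 18478039219) (nat_lit 73) (nat_lit 5) (nat_lit 77) (nat_lit 5) (nat_lit 78) (nat_lit 5) (nat_lit 342) (nat_lit 310) (nat_lit 128)) (XT.lf (nat_lit 0) (nat_lit 10692486162) (nat_lit 304) (nat_lit 70387443571) (nat_lit 76) (nat_lit 41267813997) (nat_lit 69) (nat_lit 5) (nat_lit 73) (nat_lit 5) (nat_lit 70) (nat_lit 5) (nat_lit 343) (nat_lit 310) (nat_lit 127))))) (XT.nd (nat_lit 234) (nat_lit 532) (nat_lit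 0) (XT.nd (nat_lit 78) (nat_lit 228) (nat_lit 0) (XT.lf (nat_lit 0) (nat_lit 20566243943) (nat_lit 304) (nat_lit 21163455779) (nat_lit 380) (nat_lit 84798643858) (nat_lit 65) (nat_lit 5) (nat_lit 69) (nat_lit 5) (nat_lit 70) (nat_lit 5) (nat_lit 344) (nat_lit 310) (nat_lit 126)) (XT.nd (nat_lit 78) (nat_lit 228) (nat_lit 0) (XT.lf (nat_lit 0) (nat_lit 75451033361) (nat_lit 380) (nat_lit 13767396926) (nat_lit 76) (nat_lit 41665576133) (nat_lit 65) (nat_lit 5) (nat_lit 70) (nat_lit 5) (nat_lit 66) (nat_lit 5) (nat_lit 345) (nat_lit 310) (nat_lit 125)) (XT.lf (nat_lit 0) (nat_lit 84470637758) (nat_lit 228) (nat_lit 27412619006) (nat_lit 304) (nat_lit 23543451686) (nat_lit 62) (nat_lit 5) (nat_lit 65) (nat_lit 5) (nat_lit 66) (nat_lit 5) (nat_lit 346) (nat_lit 310) (nat_lit 124)))) (XT.nd (nat_lit 156) (nat_lit 0) (nat_lit 0) (XT.nd (nat_lit 78) (nat_lit 228) (nat_lit 0) (XT.lf (nat_lit 0) (nat_lit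 10723084573) (nat_lit 304) (nat_lit 91977093869) (nat_lit 76) (nat_lit 37464205749) (nat_lit 58) (nat_lit 5) (nat_lit 62) (nat_lit 5) (nat_lit 59) (nat_lit 5) (nat_lit 347) (nat_lit 310) (nat_lit 123)) (XT.lf (nat_lit 0) (nat_lit 7862267255) (nat_lit 228) (nat_lit 39239564303) (nat_lit 304) (nat_lit 98003545750) (nat_lit 55) (nat_lit 5) (nat_lit 58) (nat_lit 5) (nat_lit 59) (nat_lit 5) (nat_lit 348) (nat_lit 310) (nat_lit 122))) (XT.nd (nat_lit 37674) (nat_lit 0) (nat_lit 9120) (XT.lf (nat_lit 0) (nat_lit 86518334974) (nat_lit 304) (nat_lit 35923150835) (nat_lit 76) (nat_lit 27815370321) (nat_lit 55) (nat_lit 5) (nat_lit 59) (nat_lit 5) (nat_lit 56) (nat_lit 5) (nat_lit 349) (nat_lit 310) (nat_lit 121)) (XT.lf (nat_lit 0) (nat_lit 3293840023) (nat_lit 0) (nat_lit 3293840023) (nat_lit 1140) (nat_lit 18088003978) (nat_lit 175) (nat_lit 5) (nat_lit 175) (nat_lit 3) (nat_lit 190) (nat_lit 3)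 (nat_lit 311) (nat_lit 311) (nat_lit 158))))))) (XT.nd (nat_lit 1014) (nat_lit 5168) (nat_lit 0) (XT.nd (nat_lit 468) (nat_lit 1216) (nat_lit 0) (XT.nd (nat_lit 234) (nat_lit 0) (nat_lit 152) (XT.nd (nat_lit 78) (nat_lit 0) (nat_lit 76) (XT.lf (nat_lit 0) (nat_lit 13839550971) (nat_lit 1140) (nat_lit 6844451739) (nat_lit 1216) (nat_lit 29891041331) (nat_lit 175) (nat_lit 5) (nat_lit 190) (nat_lit 3) (nat_lit 191) (nat_lit 5) (nat_lit 312) (nat_lit 311) (nat_lit 157)) (XT.nd (nat_lit 78) (nat_lit 0) (nat_lit 76) (XT.lf (nat_lit 0) (nat_lit 15061504640) (nat_lit 1140) (nat_lit 20591809049) (nat_lit 1216) (nat_lit 16190857644) (nat_lit 176) (nat_lit 5) (nat_lit 191) (nat_lit 5) (nat_lit 192) (nat_lit 5) (nat_lit 313) (nat_lit 311) (nat_lit 156)) (XT.lf (nat_lit 0) (nat_lit 16813632124) (nat_lit 1140) (nat_lit 34808327209) (nat_lit 1216) (nat_lit 1540727275) (nat_lit 177) (nat_lit 5) (nat_lit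 192) (nat_lit 5) (nat_lit 193) (nat_lit 5) (nat_lit 314) (nat_lit 311) (nat_lit 155)))) (XT.nd (nat_lit 78) (nat_lit 0) (nat_lit 76) (XT.lf (nat_lit 76) (nat_lit 4868902149) (nat_lit 0) (nat_lit 14402778116) (nat_lit 1216) (nat_lit 35256901669) (nat_lit 178) (nat_lit 5) (nat_lit 177) (nat_lit 5) (nat_lit 193) (nat_lit 5) (nat_lit 315) (nat_lit 311) (nat_lit 154)) (XT.nd (nat_lit 78) (nat_lit 0) (nat_lit 76) (XT.lf (nat_lit 0) (nat_lit 22449403055) (nat_lit 1140) (nat_lit 8936964203) (nat_lit 1216) (nat_lit 24558505140) (nat_lit 178) (nat_lit 5) (nat_lit 193) (nat_lit 5) (nat_lit 194) (nat_lit 5) (nat_lit 316) (nat_lit 311) (nat_lit 153)) (XT.lf (nat_lit 0) (nat_lit 26337056212) (nat_lit 1140) (nat_lit 23150282621) (nat_lit 1216) (nat_lit 7928110596) (nat_lit 179) (nat_lit 5) (nat_lit 194) (nat_lit 5) (nat_lit 195) (nat_lit 5) (nat_lit 317) (nat_lit 311) (nat_lit 152))))) (XT.nd (nat_lit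 234) (nat_lit 1520) (nat_lit 0) (XT.nd (nat_lit 78) (nat_lit 0) (nat_lit 76) (XT.lf (nat_lit 76) (nat_lit 20946893082) (nat_lit 0) (nat_lit 10081149379) (nat_lit 1216) (nat_lit 27913247547) (nat_lit 180) (nat_lit 5) (nat_lit 179) (nat_lit 5) (nat_lit 195) (nat_lit 5) (nat_lit 318) (nat_lit 311) (nat_lit 151)) (XT.nd (nat_lit 78) (nat_lit 0) (nat_lit 76) (XT.lf (nat_lit 76) (nat_lit 7028850118) (nat_lit 0) (nat_lit 29531782798) (nat_lit 1216) (nat_lit 23964581111) (nat_lit 181) (nat_lit 5) (nat_lit 180) (nat_lit 5) (nat_lit 196) (nat_lit 5) (nat_lit 319) (nat_lit 311) (nat_lit 150)) (XT.lf (nat_lit 0) (nat_lit 42976416696) (nat_lit 1140) (nat_lit 7298307810) (nat_lit 1216) (nat_lit 11895415740) (nat_lit 181) (nat_lit 5) (nat_lit 196) (nat_lit 5) (nat_lit 197) (nat_lit 5) (nat_lit 320) (nat_lit 311) (nat_lit 149)))) (XT.nd (nat_lit 156) (nat_lit 608) (nat_lit 0) (XT.nd (nat_lit 78) (nat_lit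 1064) (nat_lit 0) (XT.lf (nat_lit 76) (nat_lit 41724278932) (nat_lit 0) (nat_lit 8686026695) (nat_lit 1216) (nat_lit 13466090440) (nat_lit 182) (nat_lit 5) (nat_lit 181) (nat_lit 5) (nat_lit 197) (nat_lit 5) (nat_lit 321) (nat_lit 311) (nat_lit 148)) (XT.lf (nat_lit 0) (nat_lit 27890521239) (nat_lit 1140) (nat_lit 31003853096) (nat_lit 1216) (nat_lit 6753238427) (nat_lit 167) (nat_lit 5) (nat_lit 182) (nat_lit 5) (nat_lit 183) (nat_lit 5) (nat_lit 322) (nat_lit 311) (nat_lit 147))) (XT.nd (nat_lit 78) (nat_lit 0) (nat_lit 0) (XT.lf (nat_lit 0) (nat_lit 859525475) (nat_lit 608) (nat_lit 54049102745) (nat_lit 76) (nat_lit 12581578444) (nat_lit 159) (nat_lit 5) (nat_lit 167) (nat_lit 5) (nat_lit 160) (nat_lit 5) (nat_lit 323) (nat_lit 311) (nat_lit 146)) (XT.lf (nat_lit 0) (nat_lit 9418373406) (nat_lit 608) (nat_lit 1811499356) (nat_lit 76) (nat_lit 58171900516) (nat_lit 159) (nat_lit 5) (nat_lit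 167) (nat_lit 5) (nat_lit 160) (nat_lit 5) (nat_lit 324) (nat_lit 311) (nat_lit 145)))))) (XT.nd (nat_lit 546) (nat_lit 2052) (nat_lit 0) (XT.nd (nat_lit 234) (nat_lit 1444) (nat_lit 0) (XT.nd (nat_lit 78) (nat_lit 1064) (nat_lit 0) (XT.lf (nat_lit 0) (nat_lit 19261630327) (nat_lit 684) (nat_lit 17639353013) (nat_lit 76) (nat_lit 34482243102) (nat_lit 151) (nat_lit 5) (nat_lit 160) (nat_lit 5) (nat_lit 152) (nat_lit 5) (nat_lit 325) (nat_lit 311) (nat_lit 144)) (XT.nd (nat_lit 78) (nat_lit 532) (nat_lit 0) (XT.lf (nat_lit 0) (nat_lit 30193958176) (nat_lit 608) (nat_lit 34233260918) (nat_lit 76) (nat_lit 9018628036) (nat_lit 144) (nat_lit 5) (nat_lit 152) (nat_lit 5) (nat_lit 145) (nat_lit 5) (nat_lit 326) (nat_lit 311) (nat_lit 143)) (XT.lf (nat_lit 0) (nat_lit 23757477179) (nat_lit 532) (nat_lit 18698185972) (nat_lit 608) (nat_lit 33132454888) (nat_lit 137) (nat_lit 5) (nat_lit 144) (nat_lit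 5) (nat_lit 145) (nat_lit 5) (nat_lit 327) (nat_lit 311) (nat_lit 142)))) (XT.nd (nat_lit 156) (nat_lit 988) (nat_lit 0) (XT.nd (nat_lit 78) (nat_lit 0) (nat_lit 0) (XT.lf (nat_lit 0) (nat_lit 7393717664) (nat_lit 456) (nat_lit 48644128991) (nat_lit 532) (nat_lit 21778435953) (nat_lit 131) (nat_lit 5) (nat_lit 137) (nat_lit 5) (nat_lit 138) (nat_lit 5) (nat_lit 328) (nat_lit 311) (nat_lit 141)) (XT.lf (nat_lit 0) (nat_lit 70468510695) (nat_lit 456) (nat_lit 549721059) (nat_lit 532) (nat_lit 9116052701) (nat_lit 131) (nat_lit 5) (nat_lit 137) (nat_lit 5) (nat_lit 138) (nat_lit 5) (nat_lit 329) (nat_lit 311) (nat_lit 140))) (XT.nd (nat_lit 78) (nat_lit 456) (nat_lit 0) (XT.lf (nat_lit 0) (nat_lit 5112668589) (nat_lit 532) (nat_lit 27873149734) (nat_lit 76) (nat_lit 49550721246) (nat_lit 124) (nat_lit 5) (nat_lit 131) (nat_lit 5) (nat_lit 125) (nat_lit 5) (nat_lit 330) (nat_lit 311) (nat_lit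 139)) (XT.lf (nat_lit 0) (nat_lit 20505852558) (nat_lit 532) (nat_lit 47215197727) (nat_lit 76) (nat_lit 17315904200) (nat_lit 118) (nat_lit 5) (nat_lit 125) (nat_lit 5) (nat_lit 119) (nat_lit 5) (nat_lit 331) (nat_lit 311) (nat_lit 138))))) (XT.nd (nat_lit 234) (nat_lit 1216) (nat_lit 0) (XT.nd (nat_lit 78) (nat_lit 380) (nat_lit 0) (XT.lf (nat_lit 0) (nat_lit 19778910898) (nat_lit 456) (nat_lit 17701424117) (nat_lit 532) (nat_lit 50157707483) (nat_lit 112) (nat_lit 5) (nat_lit 118) (nat_lit 5) (nat_lit 119) (nat_lit 5) (nat_lit 332) (nat_lit 311) (nat_lit 137)) (XT.nd (nat_lit 78) (nat_lit 0) (nat_lit 0) (XT.lf (nat_lit 0) (nat_lit 422141562) (nat_lit 380) (nat_lit 55709862640) (nat_lit 456) (nat_lit 34212328286) (nat_lit 107) (nat_lit 5) (nat_lit 112) (nat_lit 5) (nat_lit 113) (nat_lit 5) (nat_lit 333) (nat_lit 311) (nat_lit 136)) (XT.lf (nat_lit 0) (nat_lit 73351992744) (nat_lit 380)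 (nat_lit 3238619547) (nat_lit 456) (nat_lit 16569095410) (nat_lit 107) (nat_lit 5) (nat_lit 112) (nat_lit 5) (nat_lit 113) (nat_lit 5) (nat_lit 334) (nat_lit 311) (nat_lit 135)))) (XT.nd (nat_lit 156) (nat_lit 380) (nat_lit 0) (XT.nd (nat_lit 78) (nat_lit 380) (nat_lit 0) (XT.lf (nat_lit 0) (nat_lit 2948313599) (nat_lit 456) (nat_lit 41740405634) (nat_lit 76) (nat_lit 51395663900) (nat_lit 101) (nat_lit 5) (nat_lit 107) (nat_lit 5) (nat_lit 102) (nat_lit 5) (nat_lit 335) (nat_lit 311) (nat_lit 134)) (XT.lf (nat_lit 0) (nat_lit 23764444765) (nat_lit 456) (nat_lit 65305180769) (nat_lit 76) (nat_lit 10060780729) (nat_lit 96) (nat_lit 5) (nat_lit 102) (nat_lit 5) (nat_lit 97) (nat_lit 5) (nat_lit 336) (nat_lit 311) (nat_lit 133))) (XT.nd (nat_lit 78) (nat_lit 0) (nat_lit 0) (XT.lf (nat_lit 0) (nat_lit 11493249860) (nat_lit 380) (nat_lit 35122606713) (nat_lit 456) (nat_lit 55683040918) (nat_lit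 91) (nat_lit 5) (nat_lit 96) (nat_lit 5) (nat_lit 97) (nat_lit 5) (nat_lit 337) (nat_lit 311) (nat_lit 132)) (XT.lf (nat_lit 0) (nat_lit 71494672480) (nat_lit 456) (nat_lit 12324150924) (nat_lit 76) (nat_lit 21780445978) (nat_lit 91) (nat_lit 5) (nat_lit 97) (nat_lit 5) (nat_lit 92) (nat_lit 5) (nat_lit 338) (nat_lit 311) (nat_lit 131))))))))
noncomputable def xc119 : XT := (XT.nd (nat_lit 39780) (nat_lit 0) (nat_lit 304) (XT.nd (nat_lit 38766) (nat_lit 0) (nat_lit 6536) (XT.nd (nat_lit 468) (nat_lit 836) (nat_lit 0) (XT.nd (nat_lit 234) (nat_lit 608) (nat_lit 0) (XT.nd (nat_lit 78) (nat_lit 760) (nat_lit 0) (XT.lf (nat_lit 0) (nat_lit 71113400837) (nat_lit 304) (nat_lit 27541198563) (nat_lit 380) (nat_lit 10378946415) (nat_lit 87) (nat_lit 5) (nat_lit 91) (nat_lit 5) (nat_lit 92) (nat_lit 5) (nat_lit 339) (nat_lit 311) (nat_lit 130)) (XT.nd (nat_lit 78) (nat_lit 304) (nat_lit 0) (XT.lf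 (nat_lit 0) (nat_lit 15140004778) (nat_lit 456) (nat_lit 65806333731) (nat_lit 76) (nat_lit 31662289265) (nat_lit 81) (nat_lit 5) (nat_lit 87) (nat_lit 5) (nat_lit 82) (nat_lit 5) (nat_lit 340) (nat_lit 311) (nat_lit 129)) (XT.lf (nat_lit 0) (nat_lit 20209099543) (nat_lit 304) (nat_lit 22378743586) (nat_lit 380) (nat_lit 73745511010) (nat_lit 77) (nat_lit 5) (nat_lit 81) (nat_lit 5) (nat_lit 82) (nat_lit 5) (nat_lit 341) (nat_lit 311) (nat_lit 128)))) (XT.nd (nat_lit 78) (nat_lit 608) (nat_lit 0) (XT.lf (nat_lit 0) (nat_lit 72467379929) (nat_lit 380) (nat_lit 8707418233) (nat_lit 76) (nat_lit 39037740348) (nat_lit 77) (nat_lit 5) (nat_lit 82) (nat_lit 5) (nat_lit 78) (nat_lit 5) (nat_lit 342) (nat_lit 311) (nat_lit 127)) (XT.nd (nat_lit 78) (nat_lit 304) (nat_lit 0) (XT.lf (nat_lit 0) (nat_lit 84502222499) (nat_lit 304) (nat_lit 20376034615) (nat_lit 380) (nat_lit 19376304923) (nat_lit 73)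 (nat_lit 5) (nat_lit 77) (nat_lit 5) (nat_lit 78) (nat_lit 5) (nat_lit 343) (nat_lit 311) (nat_lit 126)) (XT.lf (nat_lit 0) (nat_lit 11251473972) (nat_lit 304) (nat_lit 73871947445) (nat_lit 76) (nat_lit 43340954642) (nat_lit 69) (nat_lit 5) (nat_lit 73) (nat_lit 5) (nat_lit 70) (nat_lit 5) (nat_lit 344) (nat_lit 311) (nat_lit 125))))) (XT.nd (nat_lit 234) (nat_lit 304) (nat_lit 0) (XT.nd (nat_lit 78) (nat_lit 228) (nat_lit 0) (XT.lf (nat_lit 0) (nat_lit 21628424952) (nat_lit 304) (nat_lit 22211288660) (nat_lit 380) (nat_lit 89014318469) (nat_lit 65) (nat_lit 5) (nat_lit 69) (nat_lit 5) (nat_lit 70) (nat_lit 5) (nat_lit 345) (nat_lit 311) (nat_lit 124)) (XT.nd (nat_lit 78) (nat_lit 228) (nat_lit 0) (XT.lf (nat_lit 0) (nat_lit 79246088168) (nat_lit 380) (nat_lit 14422911442) (nat_lit 76) (nat_lit 43758510311) (nat_lit 65) (nat_lit 5) (nat_lit 70) (nat_lit 5) (nat_lit 66) (nat_lit 5) (nat_lit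 346) (nat_lit 311) (nat_lit 123)) (XT.lf (nat_lit 0) (nat_lit 88726083184) (nat_lit 228) (nat_lit 28773074753) (nat_lit 304) (nat_lit 24698213096) (nat_lit 62) (nat_lit 5) (nat_lit 65) (nat_lit 5) (nat_lit 66) (nat_lit 5) (nat_lit 347) (nat_lit 311) (nat_lit 122)))) (XT.nd (nat_lit 37908) (nat_lit 0) (nat_lit 8892) (XT.nd (nat_lit 37830) (nat_lit 0) (nat_lit 8892) (XT.lf (nat_lit 0) (nat_lit 11280566705) (nat_lit 304) (nat_lit 96543947674) (nat_lit 76) (nat_lit 39347430053) (nat_lit 58) (nat_lit 5) (nat_lit 62) (nat_lit 5) (nat_lit 59) (nat_lit 5) (nat_lit 348) (nat_lit 311) (nat_lit 121)) (XT.lf (nat_lit 0) (nat_lit 3479084774) (nat_lit 0) (nat_lit 3479084774) (nat_lit 1140) (nat_lit 18950002508) (nat_lit 175) (nat_lit 5) (nat_lit 175) (nat_lit 3) (nat_lit 190) (nat_lit 3) (nat_lit 312) (nat_lit 312) (nat_lit 156))) (XT.nd (nat_lit 78) (nat_lit 0) (nat_lit 76) (XT.lf (nat_lit 0) (nat_lit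 14609448396) (nat_lit 1140) (nat_lit 7144681024) (nat_lit 1216) (nat_lit 31347209222) (nat_lit 175) (nat_lit 5) (nat_lit 190) (nat_lit 3) (nat_lit 191) (nat_lit 5) (nat_lit 313) (nat_lit 312) (nat_lit 155)) (XT.lf (nat_lit 0) (nat_lit 15888856351) (nat_lit 1140) (nat_lit 21577932573) (nat_lit 1216) (nat_lit 16967248392) (nat_lit 176) (nat_lit 5) (nat_lit 191) (nat_lit 5) (nat_lit 192) (nat_lit 5) (nat_lit 314) (nat_lit 312) (nat_lit 154)))))) (XT.nd (nat_lit 468) (nat_lit 2508) (nat_lit 0) (XT.nd (nat_lit 234) (nat_lit 0) (nat_lit 152) (XT.nd (nat_lit 78) (nat_lit 0) (nat_lit 0) (XT.lf (nat_lit 0) (nat_lit 17725181048) (nat_lit 1140) (nat_lit 36504001363) (nat_lit 1216) (nat_lit 1589403659) (nat_lit 177) (nat_lit 5) (nat_lit 192) (nat_lit 5) (nat_lit 193) (nat_lit 5) (nat_lit 315) (nat_lit 312) (nat_lit 153)) (XT.nd (nat_lit 78) (nat_lit 0) (nat_lit 76) (XT.lf (nat_lit 76) (nat_lit 5155806937)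 (nat_lit 0) (nat_lit 15147367787) (nat_lit 1216) (nat_lit 36949695329) (nat_lit 178) (nat_lit 5) (nat_lit 177) (nat_lit 5) (nat_lit 193) (nat_lit 5) (nat_lit 316) (nat_lit 312) (nat_lit 152)) (XT.lf (nat_lit 0) (nat_lit 23636325978) (nat_lit 1140) (nat_lit 9340159372) (nat_lit 1216) (nat_lit 25763598356) (nat_lit 178) (nat_lit 5) (nat_lit 193) (nat_lit 5) (nat_lit 194) (nat_lit 5) (nat_lit 317) (nat_lit 312) (nat_lit 151)))) (XT.nd (nat_lit 78) (nat_lit 0) (nat_lit 0) (XT.lf (nat_lit 0) (nat_lit 27715513823) (nat_lit 1140) (nat_lit 24263260870) (nat_lit 1216) (nat_lit 8305505037) (nat_lit 179) (nat_lit 5) (nat_lit 194) (nat_lit 5) (nat_lit 195) (nat_lit 5) (nat_lit 318) (nat_lit 312) (nat_lit 150)) (XT.nd (nat_lit 78) (nat_lit 0) (nat_lit 76) (XT.lf (nat_lit 76) (nat_lit 22037497006) (nat_lit 0) (nat_lit 10601034650) (nat_lit 1216) (nat_lit 29247960691) (nat_lit 180) (nat_lit 5) (nat_lit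 179) (nat_lit 5) (nat_lit 195) (nat_lit 5) (nat_lit 319) (nat_lit 312) (nat_lit 149)) (XT.lf (nat_lit 76) (nat_lit 7424268444) (nat_lit 0) (nat_lit 31020947341) (nat_lit 1216) (nat_lit 25104477121) (nat_lit 181) (nat_lit 5) (nat_lit 180) (nat_lit 5) (nat_lit 196) (nat_lit 5) (nat_lit 320) (nat_lit 312) (nat_lit 148))))) (XT.nd (nat_lit 234) (nat_lit 1748) (nat_lit 0) (XT.nd (nat_lit 78) (nat_lit 1064) (nat_lit 0) (XT.lf (nat_lit 0) (nat_lit 45178980712) (nat_lit 1140) (nat_lit 7619529367) (nat_lit 1216) (nat_lit 12478443659) (nat_lit 181) (nat_lit 5) (nat_lit 196) (nat_lit 5) (nat_lit 197) (nat_lit 5) (nat_lit 321) (nat_lit 312) (nat_lit 147)) (XT.nd (nat_lit 78) (nat_lit 1064) (nat_lit 0) (XT.lf (nat_lit 76) (nat_lit 43852934237) (nat_lit 0) (nat_lit 9129478627) (nat_lit 1216) (nat_lit 14086177892) (nat_lit 182) (nat_lit 5) (nat_lit 181) (nat_lit 5) (nat_lit 197) (nat_lit 5) (nat_lit 322)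 (nat_lit 312) (nat_lit 146)) (XT.lf (nat_lit 0) (nat_lit 29327936057) (nat_lit 1140) (nat_lit 32560620690) (nat_lit 1216) (nat_lit 7039879069) (nat_lit 167) (nat_lit 5) (nat_lit 182) (nat_lit 5) (nat_lit 183) (nat_lit 5) (nat_lit 323) (nat_lit 312) (nat_lit 145)))) (XT.nd (nat_lit 156) (nat_lit 1140) (nat_lit 0) (XT.nd (nat_lit 78) (nat_lit 0) (nat_lit 0) (XT.lf (nat_lit 0) (nat_lit 950504159) (nat_lit 608) (nat_lit 56707300734) (nat_lit 76) (nat_lit 13205403911) (nat_lit 159) (nat_lit 5) (nat_lit 167) (nat_lit 5) (nat_lit 160) (nat_lit 5) (nat_lit 324) (nat_lit 312) (nat_lit 144)) (XT.lf (nat_lit 0) (nat_lit 9935008658) (nat_lit 608) (nat_lit 1859924659) (nat_lit 76) (nat_lit 61075492251) (nat_lit 159) (nat_lit 5) (nat_lit 167) (nat_lit 5) (nat_lit 160) (nat_lit 5) (nat_lit 325) (nat_lit 312) (nat_lit 143))) (XT.nd (nat_lit 78) (nat_lit 532) (nat_lit 0) (XT.lf (nat_lit 0) (nat_lit 20268616240)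 (nat_lit 684) (nat_lit 18478970669) (nat_lit 76) (nat_lit 36203421934) (nat_lit 151) (nat_lit 5) (nat_lit 160) (nat_lit 5) (nat_lit 152) (nat_lit 5) (nat_lit 326) (nat_lit 312) (nat_lit 142)) (XT.lf (nat_lit 0) (nat_lit 31745854906) (nat_lit 608) (nat_lit 35902452489) (nat_lit 76) (nat_lit 9468507281) (nat_lit 144) (nat_lit 5) (nat_lit 152) (nat_lit 5) (nat_lit 145) (nat_lit 5) (nat_lit 327) (nat_lit 312) (nat_lit 141))))))) (XT.nd (nat_lit 1014) (nat_lit 1900) (nat_lit 0) (XT.nd (nat_lit 468) (nat_lit 1900) (nat_lit 0) (XT.nd (nat_lit 234) (nat_lit 1444) (nat_lit 0) (XT.nd (nat_lit 78) (nat_lit 456) (nat_lit 0) (XT.lf (nat_lit 0) (nat_lit 24986605076) (nat_lit 532) (nat_lit 19632427145) (nat_lit 608) (nat_lit 34747218099) (nat_lit 137) (nat_lit 5) (nat_lit 144) (nat_lit 5) (nat_lit 145) (nat_lit 5) (nat_lit 328) (nat_lit 312) (nat_lit 140)) (XT.nd (nat_lit 78) (nat_lit 0) (nat_lit 0) (XT.lf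 (nat_lit 0) (nat_lit 7804705921) (nat_lit 456) (nat_lit 51074089457) (nat_lit 532) (nat_lit 22827076294) (nat_lit 131) (nat_lit 5) (nat_lit 137) (nat_lit 5) (nat_lit 138) (nat_lit 5) (nat_lit 329) (nat_lit 312) (nat_lit 139)) (XT.lf (nat_lit 0) (nat_lit 74031271824) (nat_lit 456) (nat_lit 575068080) (nat_lit 532) (nat_lit 9533492045) (nat_lit 131) (nat_lit 5) (nat_lit 137) (nat_lit 5) (nat_lit 138) (nat_lit 5) (nat_lit 330) (nat_lit 312) (nat_lit 138)))) (XT.nd (nat_lit 78) (nat_lit 912) (nat_lit 0) (XT.lf (nat_lit 0) (nat_lit 5404527028) (nat_lit 532) (nat_lit 29226717909) (nat_lit 76) (nat_lit 52030987857) (nat_lit 124) (nat_lit 5) (nat_lit 131) (nat_lit 5) (nat_lit 125) (nat_lit 5) (nat_lit 331) (nat_lit 312) (nat_lit 137)) (XT.nd (nat_lit 78) (nat_lit 456) (nat_lit 0) (XT.lf (nat_lit 0) (nat_lit 21566058596) (nat_lit 532) (nat_lit 49535965543) (nat_lit 76) (nat_lit 18185685904) (nat_lit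 118) (nat_lit 5) (nat_lit 125) (nat_lit 5) (nat_lit 119) (nat_lit 5) (nat_lit 332) (nat_lit 312) (nat_lit 136)) (XT.lf (nat_lit 0) (nat_lit 20806702148) (nat_lit 456) (nat_lit 18581273892) (nat_lit 532) (nat_lit 52630917221) (nat_lit 112) (nat_lit 5) (nat_lit 118) (nat_lit 5) (nat_lit 119) (nat_lit 5) (nat_lit 333) (nat_lit 312) (nat_lit 135))))) (XT.nd (nat_lit 234) (nat_lit 1064) (nat_lit 0) (XT.nd (nat_lit 78) (nat_lit 456) (nat_lit 0) (XT.lf (nat_lit 0) (nat_lit 481953311) (nat_lit 380) (nat_lit 58489094074) (nat_lit 456) (nat_lit 35889487835) (nat_lit 107) (nat_lit 5) (nat_lit 112) (nat_lit 5) (nat_lit 113) (nat_lit 5) (nat_lit 334) (nat_lit 312) (nat_lit 134)) (XT.nd (nat_lit 78) (nat_lit 456) (nat_lit 0) (XT.lf (nat_lit 0) (nat_lit 77056453973) (nat_lit 380) (nat_lit 3394587002) (nat_lit 456) (nat_lit 17365686499) (nat_lit 107) (nat_lit 5) (nat_lit 112) (nat_lit 5) (nat_lit 113) (nat_lit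 5) (nat_lit 335) (nat_lit 312) (nat_lit 133)) (XT.lf (nat_lit 0) (nat_lit 3125894762) (nat_lit 456) (nat_lit 43790102597) (nat_lit 76) (nat_lit 53971664211) (nat_lit 101) (nat_lit 5) (nat_lit 107) (nat_lit 5) (nat_lit 102) (nat_lit 5) (nat_lit 336) (nat_lit 312) (nat_lit 132)))) (XT.nd (nat_lit 156) (nat_lit 304) (nat_lit 0) (XT.nd (nat_lit 78) (nat_lit 380) (nat_lit 0) (XT.lf (nat_lit 0) (nat_lit 24981813506) (nat_lit 456) (nat_lit 68533348956) (nat_lit 76) (nat_lit 10570855668) (nat_lit 96) (nat_lit 5) (nat_lit 102) (nat_lit 5) (nat_lit 97) (nat_lit 5) (nat_lit 337) (nat_lit 312) (nat_lit 131)) (XT.lf (nat_lit 0) (nat_lit 12103940003) (nat_lit 380) (nat_lit 36870814292) (nat_lit 456) (nat_lit 58438212494) (nat_lit 91) (nat_lit 5) (nat_lit 96) (nat_lit 5) (nat_lit 97) (nat_lit 5) (nat_lit 338) (nat_lit 312) (nat_lit 130))) (XT.nd (nat_lit 78) (nat_lit 304) (nat_lit 0) (XT.lf (nat_lit 0)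 (nat_lit 75096245201) (nat_lit 456) (nat_lit 12905285071) (nat_lit 76) (nat_lit 22876866520) (nat_lit 91) (nat_lit 5) (nat_lit 97) (nat_lit 5) (nat_lit 92) (nat_lit 5) (nat_lit 339) (nat_lit 312) (nat_lit 129)) (XT.lf (nat_lit 0) (nat_lit 74703138906) (nat_lit 304) (nat_lit 28910078991) (nat_lit 380) (nat_lit 10871199138) (nat_lit 87) (nat_lit 5) (nat_lit 91) (nat_lit 5) (nat_lit 92) (nat_lit 5) (nat_lit 340) (nat_lit 312) (nat_lit 128)))))) (XT.nd (nat_lit 546) (nat_lit 228) (nat_lit 0) (XT.nd (nat_lit 234) (nat_lit 912) (nat_lit 0) (XT.nd (nat_lit 78) (nat_lit 304) (nat_lit 0) (XT.lf (nat_lit 0) (nat_lit 15922336069) (nat_lit 456) (nat_lit 69062321014) (nat_lit 76) (nat_lit 33253614949) (nat_lit 81) (nat_lit 5) (nat_lit 87) (nat_lit 5) (nat_lit 82) (nat_lit 5) (nat_lit 341) (nat_lit 312) (nat_lit 127)) (XT.nd (nat_lit 78) (nat_lit 0) (nat_lit 0) (XT.lf (nat_lit 0) (nat_lit 21252899878)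 (nat_lit 304) (nat_lit 23488780755) (nat_lit 380) (nat_lit 77407581949) (nat_lit 77) (nat_lit 5) (nat_lit 81) (nat_lit 5) (nat_lit 82) (nat_lit 5) (nat_lit 342) (nat_lit 312) (nat_lit 126)) (XT.lf (nat_lit 0) (nat_lit 76114111688) (nat_lit 380) (nat_lit 9110390031) (nat_lit 76) (nat_lit 40997938165) (nat_lit 77) (nat_lit 5) (nat_lit 82) (nat_lit 5) (nat_lit 78) (nat_lit 5) (nat_lit 343) (nat_lit 312) (nat_lit 125)))) (XT.nd (nat_lit 156) (nat_lit 304) (nat_lit 0) (XT.nd (nat_lit 78) (nat_lit 304) (nat_lit 0) (XT.lf (nat_lit 0) (nat_lit 88758804024) (nat_lit 304) (nat_lit 21385918708) (nat_lit 380) (nat_lit 20321867329) (nat_lit 73) (nat_lit 5) (nat_lit 77) (nat_lit 5) (nat_lit 78) (nat_lit 5) (nat_lit 344) (nat_lit 312) (nat_lit 124)) (XT.lf (nat_lit 0) (nat_lit 11836146085) (nat_lit 304) (nat_lit 77533918237) (nat_lit 76) (nat_lit 45516845863) (nat_lit 69) (nat_lit 5) (nat_lit 73) (nat_lit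 5) (nat_lit 70) (nat_lit 5) (nat_lit 345) (nat_lit 312) (nat_lit 123))) (XT.nd (nat_lit 78) (nat_lit 0) (nat_lit 0) (XT.lf (nat_lit 0) (nat_lit 22740566210) (nat_lit 304) (nat_lit 23312474491) (nat_lit 380) (nat_lit 93443032052) (nat_lit 65) (nat_lit 5) (nat_lit 69) (nat_lit 5) (nat_lit 70) (nat_lit 5) (nat_lit 346) (nat_lit 312) (nat_lit 122)) (XT.lf (nat_lit 0) (nat_lit 83228803588) (nat_lit 380) (nat_lit 15114256262) (nat_lit 76) (nat_lit 45955193533) (nat_lit 65) (nat_lit 5) (nat_lit 70) (nat_lit 5) (nat_lit 66) (nat_lit 5) (nat_lit 347) (nat_lit 312) (nat_lit 121))))) (XT.nd (nat_lit 38064) (nat_lit 0) (nat_lit 8664) (XT.nd (nat_lit 37908) (nat_lit 0) (nat_lit 8588) (XT.lf (nat_lit 0) (nat_lit 93191333864) (nat_lit 228) (nat_lit 30202499280) (nat_lit 304) (nat_lit 25912796155) (nat_lit 62) (nat_lit 5) (nat_lit 65) (nat_lit 5) (nat_lit 66) (nat_lit 5) (nat_lit 348) (nat_lit 312) (nat_lit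 120)) (XT.nd (nat_lit 78) (nat_lit 0) (nat_lit 0) (XT.lf (nat_lit 0) (nat_lit 3671680963) (nat_lit 0) (nat_lit 3671680963) (nat_lit 1140) (nat_lit 19859043071) (nat_lit 175) (nat_lit 5) (nat_lit 175) (nat_lit 3) (nat_lit 190) (nat_lit 3) (nat_lit 313) (nat_lit 313) (nat_lit 154)) (XT.lf (nat_lit 0) (nat_lit 15410596440) (nat_lit 1140) (nat_lit 7463825913) (nat_lit 1216) (nat_lit 32879754104) (nat_lit 175) (nat_lit 5) (nat_lit 190) (nat_lit 3) (nat_lit 191) (nat_lit 5) (nat_lit 314) (nat_lit 313) (nat_lit 153)))) (XT.nd (nat_lit 156) (nat_lit 0) (nat_lit 76) (XT.nd (nat_lit 78) (nat_lit 0) (nat_lit 76) (XT.lf (nat_lit 0) (nat_lit 16750670124) (nat_lit 1140) (nat_lit 22617403415) (nat_lit 1216) (nat_lit 17785540847) (nat_lit 176) (nat_lit 5) (nat_lit 191) (nat_lit 5) (nat_lit 192) (nat_lit 5) (nat_lit 315) (nat_lit 313) (nat_lit 152)) (XT.lf (nat_lit 0) (nat_lit 18675718848) (nat_lit 1140)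 (nat_lit 38288618932) (nat_lit 1216) (nat_lit 1643150504) (nat_lit 177) (nat_lit 5) (nat_lit 192) (nat_lit 5) (nat_lit 193) (nat_lit 5) (nat_lit 316) (nat_lit 313) (nat_lit 151))) (XT.nd (nat_lit 78) (nat_lit 0) (nat_lit 76) (XT.lf (nat_lit 76) (nat_lit 5453016494) (nat_lit 0) (nat_lit 15926913741) (nat_lit 1216) (nat_lit 38733641389) (nat_lit 178) (nat_lit 5) (nat_lit 177) (nat_lit 5) (nat_lit 193) (nat_lit 5) (nat_lit 317) (nat_lit 313) (nat_lit 150)) (XT.lf (nat_lit 0) (nat_lit 24876602841) (nat_lit 1140) (nat_lit 9767572744) (nat_lit 1216) (nat_lit 27031068940) (nat_lit 178) (nat_lit 5) (nat_lit 193) (nat_lit 5) (nat_lit 194) (nat_lit 5) (nat_lit 318) (nat_lit 313) (nat_lit 149))))))))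
noncomputable def xc120 : XT := (XT.nd (nat_lit 2028) (nat_lit 912) (nat_lit 0) (XT.nd (nat_lit 1014) (nat_lit 4104) (nat_lit 0) (XT.nd (nat_lit 468) (nat_lit 2736) (nat_lit 0) (XT.nd (nat_lit 234) (nat_lit 912) (nat_lit 0) (XT.nd (nat_lit 78) (nat_lit 0) (nat_lit 0) (XT.lf (nat_lit 0) (nat_lit 29157166883) (nat_lit 1140) (nat_lit 25436028556) (nat_lit 1216) (nat_lit 8703536670) (nat_lit 179) (nat_lit 5) (nat_lit 194) (nat_lit 5) (nat_lit 195) (nat_lit 5) (nat_lit 319) (nat_lit 313) (nat_lit 148)) (XT.nd (nat_lit 78) (nat_lit 0) (nat_lit 76) (XT.lf (nat_lit 76) (nat_lit 23178609290) (nat_lit 0) (nat_lit 11145442666) (nat_lit 1216) (nat_lit 30655075973) (nat_lit 180) (nat_lit 5) (nat_lit 179) (nat_lit 5) (nat_lit 195) (nat_lit 5) (nat_lit 320) (nat_lit 313) (nat_lit 147)) (XT.lf (nat_lit 76) (nat_lit 7835369232) (nat_lit 0) (nat_lit 32583400970) (nat_lit 1216) (nat_lit 26306791185) (nat_lit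 181) (nat_lit 5) (nat_lit 180) (nat_lit 5) (nat_lit 196) (nat_lit 5) (nat_lit 321) (nat_lit 313) (nat_lit 146)))) (XT.nd (nat_lit 78) (nat_lit 1064) (nat_lit 0) (XT.lf (nat_lit 0) (nat_lit 47486676398) (nat_lit 1140) (nat_lit 7960874240) (nat_lit 1216) (nat_lit 13091714714) (nat_lit 181) (nat_lit 5) (nat_lit 196) (nat_lit 5) (nat_lit 197) (nat_lit 5) (nat_lit 322) (nat_lit 313) (nat_lit 145)) (XT.nd (nat_lit 78) (nat_lit 1064) (nat_lit 0) (XT.lf (nat_lit 76) (nat_lit 46084076512) (nat_lit 0) (nat_lit 9594252419) (nat_lit 1216) (nat_lit 14742217335) (nat_lit 182) (nat_lit 5) (nat_lit 181) (nat_lit 5) (nat_lit 197) (nat_lit 5) (nat_lit 323) (nat_lit 313) (nat_lit 144)) (XT.lf (nat_lit 0) (nat_lit 30833234226) (nat_lit 1140) (nat_lit 34194615388) (nat_lit 1216) (nat_lit 7345595218) (nat_lit 167) (nat_lit 5) (nat_lit 182) (nat_lit 5) (nat_lit 183) (nat_lit 5) (nat_lit 324) (nat_lit 313) (nat_lit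 143))))) (XT.nd (nat_lit 234) (nat_lit 1520) (nat_lit 0) (XT.nd (nat_lit 78) (nat_lit 608) (nat_lit 0) (XT.lf (nat_lit 0) (nat_lit 1041568968) (nat_lit 608) (nat_lit 59502523232) (nat_lit 76) (nat_lit 13860909068) (nat_lit 159) (nat_lit 5) (nat_lit 167) (nat_lit 5) (nat_lit 160) (nat_lit 5) (nat_lit 325) (nat_lit 313) (nat_lit 142)) (XT.nd (nat_lit 78) (nat_lit 608) (nat_lit 0) (XT.lf (nat_lit 0) (nat_lit 10473225378) (nat_lit 608) (nat_lit 1914689903) (nat_lit 76) (nat_lit 64124728731) (nat_lit 159) (nat_lit 5) (nat_lit 167) (nat_lit 5) (nat_lit 160) (nat_lit 5) (nat_lit 326) (nat_lit 313) (nat_lit 141)) (XT.lf (nat_lit 0) (nat_lit 21321869635) (nat_lit 684) (nat_lit 19364506510) (nat_lit 76) (nat_lit 38010932420) (nat_lit 151) (nat_lit 5) (nat_lit 160) (nat_lit 5) (nat_lit 152) (nat_lit 5) (nat_lit 327) (nat_lit 313) (nat_lit 140)))) (XT.nd (nat_lit 156) (nat_lit 456) (nat_lit 0) (XT.nd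 (nat_lit 78) (nat_lit 532) (nat_lit 0) (XT.lf (nat_lit 0) (nat_lit 33371423226) (nat_lit 608) (nat_lit 37659052234) (nat_lit 76) (nat_lit 9940978308) (nat_lit 144) (nat_lit 5) (nat_lit 152) (nat_lit 5) (nat_lit 145) (nat_lit 5) (nat_lit 328) (nat_lit 313) (nat_lit 139)) (XT.lf (nat_lit 0) (nat_lit 26273353959) (nat_lit 532) (nat_lit 20613442493) (nat_lit 608) (nat_lit 36446611173) (nat_lit 137) (nat_lit 5) (nat_lit 144) (nat_lit 5) (nat_lit 145) (nat_lit 5) (nat_lit 329) (nat_lit 313) (nat_lit 138))) (XT.nd (nat_lit 78) (nat_lit 0) (nat_lit 0) (XT.lf (nat_lit 0) (nat_lit 8232403688) (nat_lit 456) (nat_lit 53625756757) (nat_lit 532) (nat_lit 23931893640) (nat_lit 131) (nat_lit 5) (nat_lit 137) (nat_lit 5) (nat_lit 138) (nat_lit 5) (nat_lit 330) (nat_lit 313) (nat_lit 137)) (XT.lf (nat_lit 0) (nat_lit 77768513958) (nat_lit 456) (nat_lit 601881320) (nat_lit 532) (nat_lit 9975370010) (nat_lit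 131) (nat_lit 5) (nat_lit 137) (nat_lit 5) (nat_lit 138) (nat_lit 5) (nat_lit 331) (nat_lit 313) (nat_lit 136)))))) (XT.nd (nat_lit 468) (nat_lit 1824) (nat_lit 0) (XT.nd (nat_lit 234) (nat_lit 836) (nat_lit 0) (XT.nd (nat_lit 78) (nat_lit 912) (nat_lit 0) (XT.lf (nat_lit 0) (nat_lit 5707610532) (nat_lit 532) (nat_lit 30651691617) (nat_lit 76) (nat_lit 54635013937) (nat_lit 124) (nat_lit 5) (nat_lit 131) (nat_lit 5) (nat_lit 125) (nat_lit 5) (nat_lit 332) (nat_lit 313) (nat_lit 135)) (XT.nd (nat_lit 78) (nat_lit 456) (nat_lit 0) (XT.lf (nat_lit 0) (nat_lit 22676029017) (nat_lit 532) (nat_lit 51976489834) (nat_lit 76) (nat_lit 19098586067) (nat_lit 118) (nat_lit 5) (nat_lit 125) (nat_lit 5) (nat_lit 119) (nat_lit 5) (nat_lit 333) (nat_lit 313) (nat_lit 134)) (XT.lf (nat_lit 0) (nat_lit 21882271455) (nat_lit 456) (nat_lit 19505601596) (nat_lit 532) (nat_lit 55231011259) (nat_lit 112) (nat_lit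 5) (nat_lit 118) (nat_lit 5) (nat_lit 119) (nat_lit 5) (nat_lit 334) (nat_lit 313) (nat_lit 133)))) (XT.nd (nat_lit 78) (nat_lit 456) (nat_lit 0) (XT.lf (nat_lit 0) (nat_lit 541157255) (nat_lit 380) (nat_lit 61407869233) (nat_lit 456) (nat_lit 37653615864) (nat_lit 107) (nat_lit 5) (nat_lit 112) (nat_lit 5) (nat_lit 113) (nat_lit 5) (nat_lit 335) (nat_lit 313) (nat_lit 132)) (XT.nd (nat_lit 78) (nat_lit 456) (nat_lit 0) (XT.lf (nat_lit 0) (nat_lit 80942711222) (nat_lit 380) (nat_lit 3558907262) (nat_lit 456) (nat_lit 18205069526) (nat_lit 107) (nat_lit 5) (nat_lit 112) (nat_lit 5) (nat_lit 113) (nat_lit 5) (nat_lit 336) (nat_lit 313) (nat_lit 131)) (XT.lf (nat_lit 0) (nat_lit 3309550483) (nat_lit 456) (nat_lit 45945754376) (nat_lit 76) (nat_lit 56675886529) (nat_lit 101) (nat_lit 5) (nat_lit 107) (nat_lit 5) (nat_lit 102) (nat_lit 5) (nat_lit 337) (nat_lit 313) (nat_lit 130))))) (XT.nd (nat_lit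 234) (nat_lit 1064) (nat_lit 0) (XT.nd (nat_lit 78) (nat_lit 380) (nat_lit 0) (XT.lf (nat_lit 0) (nat_lit 26257340917) (nat_lit 456) (nat_lit 71926373907) (nat_lit 76) (nat_lit 11105780223) (nat_lit 96) (nat_lit 5) (nat_lit 102) (nat_lit 5) (nat_lit 97) (nat_lit 5) (nat_lit 338) (nat_lit 313) (nat_lit 129)) (XT.nd (nat_lit 78) (nat_lit 0) (nat_lit 0) (XT.lf (nat_lit 0) (nat_lit 12741815144) (nat_lit 380) (nat_lit 38707168832) (nat_lit 456) (nat_lit 61333836978) (nat_lit 91) (nat_lit 5) (nat_lit 96) (nat_lit 5) (nat_lit 97) (nat_lit 5) (nat_lit 339) (nat_lit 313) (nat_lit 128)) (XT.lf (nat_lit 0) (nat_lit 78875401312) (nat_lit 456) (nat_lit 13518736717) (nat_lit 76) (nat_lit 24027420271) (nat_lit 91) (nat_lit 5) (nat_lit 97) (nat_lit 5) (nat_lit 92) (nat_lit 5) (nat_lit 340) (nat_lit 313) (nat_lit 127)))) (XT.nd (nat_lit 156) (nat_lit 304) (nat_lit 0) (XT.nd (nat_lit 78) (nat_lit 456) (nat_lit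 0) (XT.lf (nat_lit 0) (nat_lit 78469196557) (nat_lit 304) (nat_lit 30348163892) (nat_lit 380) (nat_lit 11390546307) (nat_lit 87) (nat_lit 5) (nat_lit 91) (nat_lit 5) (nat_lit 92) (nat_lit 5) (nat_lit 341) (nat_lit 313) (nat_lit 126)) (XT.lf (nat_lit 0) (nat_lit 16741428884) (nat_lit 456) (nat_lit 72484299283) (nat_lit 76) (nat_lit 34923743516) (nat_lit 81) (nat_lit 5) (nat_lit 87) (nat_lit 5) (nat_lit 82) (nat_lit 5) (nat_lit 342) (nat_lit 313) (nat_lit 125))) (XT.nd (nat_lit 78) (nat_lit 0) (nat_lit 0) (XT.lf (nat_lit 0) (nat_lit 22345790094) (nat_lit 304) (nat_lit 24655147221) (nat_lit 380) (nat_lit 81255099721) (nat_lit 77) (nat_lit 5) (nat_lit 81) (nat_lit 5) (nat_lit 82) (nat_lit 5) (nat_lit 343) (nat_lit 313) (nat_lit 124)) (XT.lf (nat_lit 0) (nat_lit 79941007986) (nat_lit 380) (nat_lit 9536522581) (nat_lit 76) (nat_lit 43055373213) (nat_lit 77) (nat_lit 5) (nat_lit 82) (nat_lit 5)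 (nat_lit 78) (nat_lit 5) (nat_lit 344) (nat_lit 313) (nat_lit 123))))))) (XT.nd (nat_lit 38922) (nat_lit 0) (nat_lit 3192) (XT.nd (nat_lit 38376) (nat_lit 0) (nat_lit 8436) (XT.nd (nat_lit 234) (nat_lit 0) (nat_lit 0) (XT.nd (nat_lit 78) (nat_lit 608) (nat_lit 0) (XT.lf (nat_lit 0) (nat_lit 93225288805) (nat_lit 304) (nat_lit 22447126083) (nat_lit 380) (nat_lit 21316869684) (nat_lit 73) (nat_lit 5) (nat_lit 77) (nat_lit 5) (nat_lit 78) (nat_lit 5) (nat_lit 345) (nat_lit 313) (nat_lit 122)) (XT.nd (nat_lit 78) (nat_lit 304) (nat_lit 0) (XT.lf (nat_lit 0) (nat_lit 12447997303) (nat_lit 304) (nat_lit 81381927909) (nat_lit 76) (nat_lit 47800709460) (nat_lit 69) (nat_lit 5) (nat_lit 73) (nat_lit 5) (nat_lit 70) (nat_lit 5) (nat_lit 346) (nat_lit 313) (nat_lit 121)) (XT.lf (nat_lit 0) (nat_lit 23905458476) (nat_lit 304) (nat_lit 24469591547) (nat_lit 380) (nat_lit 98095226882) (nat_lit 65) (nat_lit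 5) (nat_lit 69) (nat_lit 5) (nat_lit 70) (nat_lit 5) (nat_lit 347) (nat_lit 313) (nat_lit 120)))) (XT.nd (nat_lit 37986) (nat_lit 0) (nat_lit 8360) (XT.lf (nat_lit 0) (nat_lit 87408757156) (nat_lit 380) (nat_lit 15842938914) (nat_lit 76) (nat_lit 48260896707) (nat_lit 65) (nat_lit 5) (nat_lit 70) (nat_lit 5) (nat_lit 66) (nat_lit 5) (nat_lit 348) (nat_lit 313) (nat_lit 119)) (XT.nd (nat_lit 78) (nat_lit 0) (nat_lit 0) (XT.lf (nat_lit 0) (nat_lit 3872173810) (nat_lit 0) (nat_lit 3872173810) (nat_lit 1140) (nat_lit 20817111267) (nat_lit 175) (nat_lit 5) (nat_lit 175) (nat_lit 3) (nat_lit 190) (nat_lit 3) (nat_lit 314) (nat_lit 314) (nat_lit 152)) (XT.lf (nat_lit 0) (nat_lit 16245231137) (nat_lit 1140) (nat_lit 7802469215) (nat_lit 1216) (nat_lit 34492163053) (nat_lit 175) (nat_lit 5) (nat_lit 190) (nat_lit 3) (nat_lit 191) (nat_lit 5) (nat_lit 315) (nat_lit 314) (nat_lit 151))))) (XT.nd (nat_lit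 234) (nat_lit 0) (nat_lit 152) (XT.nd (nat_lit 78) (nat_lit 0) (nat_lit 76) (XT.lf (nat_lit 0) (nat_lit 17649311074) (nat_lit 1140) (nat_lit 23712513236) (nat_lit 1216) (nat_lit 18647543546) (nat_lit 176) (nat_lit 5) (nat_lit 191) (nat_lit 5) (nat_lit 192) (nat_lit 5) (nat_lit 316) (nat_lit 314) (nat_lit 150)) (XT.nd (nat_lit 78) (nat_lit 0) (nat_lit 0) (XT.lf (nat_lit 0) (nat_lit 19667807509) (nat_lit 1140) (nat_lit 40166240354) (nat_lit 1216) (nat_lit 1701976203) (nat_lit 177) (nat_lit 5) (nat_lit 192) (nat_lit 5) (nat_lit 193) (nat_lit 5) (nat_lit 317) (nat_lit 314) (nat_lit 149)) (XT.lf (nat_lit 76) (nat_lit 5761421705) (nat_lit 0) (nat_lit 16743375134) (nat_lit 1216) (nat_lit 40612691978) (nat_lit 178) (nat_lit 5) (nat_lit 177) (nat_lit 5) (nat_lit 193) (nat_lit 5) (nat_lit 318) (nat_lit 314) (nat_lit 148)))) (XT.nd (nat_lit 156) (nat_lit 0) (nat_lit 76) (XT.nd (nat_lit 78) (nat_lit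 0) (nat_lit 76) (XT.lf (nat_lit 0) (nat_lit 26173458437) (nat_lit 1140) (nat_lit 10220037916) (nat_lit 1216) (nat_lit 28363838410) (nat_lit 178) (nat_lit 5) (nat_lit 193) (nat_lit 5) (nat_lit 194) (nat_lit 5) (nat_lit 319) (nat_lit 314) (nat_lit 147)) (XT.lf (nat_lit 0) (nat_lit 30665707649) (nat_lit 1140) (nat_lit 26671190203) (nat_lit 1216) (nat_lit 9123073034) (nat_lit 179) (nat_lit 5) (nat_lit 194) (nat_lit 5) (nat_lit 195) (nat_lit 5) (nat_lit 320) (nat_lit 314) (nat_lit 146))) (XT.nd (nat_lit 78) (nat_lit 0) (nat_lit 76) (XT.lf (nat_lit 76) (nat_lit 24373129263) (nat_lit 0) (nat_lit 11715736372) (nat_lit 1216) (nat_lit 32137686686) (nat_lit 180) (nat_lit 5) (nat_lit 179) (nat_lit 5) (nat_lit 195) (nat_lit 5) (nat_lit 321) (nat_lit 314) (nat_lit 145)) (XT.lf (nat_lit 76) (nat_lit 8263316710) (nat_lit 0) (nat_lit 34222916833) (nat_lit 1216) (nat_lit 27574140004) (nat_lit 181) (nat_lit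 5) (nat_lit 180) (nat_lit 5) (nat_lit 196) (nat_lit 5) (nat_lit 322) (nat_lit 314) (nat_lit 144)))))) (XT.nd (nat_lit 546) (nat_lit 2812) (nat_lit 0) (XT.nd (nat_lit 234) (nat_lit 1748) (nat_lit 0) (XT.nd (nat_lit 78) (nat_lit 1064) (nat_lit 0) (XT.lf (nat_lit 0) (nat_lit 49905224867) (nat_lit 1140) (nat_lit 8322970928) (nat_lit 1216) (nat_lit 13736639563) (nat_lit 181) (nat_lit 5) (nat_lit 196) (nat_lit 5) (nat_lit 197) (nat_lit 5) (nat_lit 323) (nat_lit 314) (nat_lit 143)) (XT.nd (nat_lit 78) (nat_lit 1064) (nat_lit 0) (XT.lf (nat_lit 76) (nat_lit 48423196948) (nat_lit 0) (nat_lit 10081493259) (nat_lit 1216) (nat_lit 15435546387) (nat_lit 182) (nat_lit 5) (nat_lit 181) (nat_lit 5) (nat_lit 197) (nat_lit 5) (nat_lit 324) (nat_lit 314) (nat_lit 142)) (XT.lf (nat_lit 0) (nat_lit 32410180624) (nat_lit 1140) (nat_lit 35909755376) (nat_lit 1216) (nat_lit 7670899647) (nat_lit 167) (nat_lit 5)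 (nat_lit 182) (nat_lit 5) (nat_lit 183) (nat_lit 5) (nat_lit 325) (nat_lit 314) (nat_lit 141)))) (XT.nd (nat_lit 156) (nat_lit 1140) (nat_lit 0) (XT.nd (nat_lit 78) (nat_lit 0) (nat_lit 0) (XT.lf (nat_lit 0) (nat_lit 1133139118) (nat_lit 608) (nat_lit 62441238929) (nat_lit 76) (nat_lit 14549632490) (nat_lit 159) (nat_lit 5) (nat_lit 167) (nat_lit 5) (nat_lit 160) (nat_lit 5) (nat_lit 326) (nat_lit 314) (nat_lit 140)) (XT.lf (nat_lit 0) (nat_lit 11034497791) (nat_lit 608) (nat_lit 1975747765) (nat_lit 76) (nat_lit 67326848948) (nat_lit 159) (nat_lit 5) (nat_lit 167) (nat_lit 5) (nat_lit 160) (nat_lit 5) (nat_lit 327) (nat_lit 314) (nat_lit 139))) (XT.nd (nat_lit 78) (nat_lit 532) (nat_lit 0) (XT.lf (nat_lit 0) (nat_lit 22424083373) (nat_lit 684) (nat_lit 20297890391) (nat_lit 76) (nat_lit 39909065789) (nat_lit 151) (nat_lit 5) (nat_lit 160) (nat_lit 5) (nat_lit 152) (nat_lit 5) (nat_lit 328)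 (nat_lit 314) (nat_lit 138)) (XT.lf (nat_lit 0) (nat_lit 35074711462) (nat_lit 608) (nat_lit 39507063459) (nat_lit 76) (nat_lit 10437161611) (nat_lit 144) (nat_lit 5) (nat_lit 152) (nat_lit 5) (nat_lit 145) (nat_lit 5) (nat_lit 329) (nat_lit 314) (nat_lit 137))))) (XT.nd (nat_lit 234) (nat_lit 1824) (nat_lit 0) (XT.nd (nat_lit 78) (nat_lit 456) (nat_lit 0) (XT.lf (nat_lit 0) (nat_lit 27620961456) (nat_lit 532) (nat_lit 21643564949) (nat_lit 608) (nat_lit 38234503790) (nat_lit 137) (nat_lit 5) (nat_lit 144) (nat_lit 5) (nat_lit 145) (nat_lit 5) (nat_lit 330) (nat_lit 314) (nat_lit 136)) (XT.nd (nat_lit 78) (nat_lit 0) (nat_lit 0) (XT.lf (nat_lit 0) (nat_lit 8678003437) (nat_lit 456) (nat_lit 56305196819) (nat_lit 532) (nat_lit 25095348668) (nat_lit 131) (nat_lit 5) (nat_lit 137) (nat_lit 5) (nat_lit 138) (nat_lit 5) (nat_lit 331) (nat_lit 314) (nat_lit 135)) (XT.lf (nat_lit 0) (nat_lit 81689301147)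 (nat_lit 456) (nat_lit 630215599) (nat_lit 532) (nat_lit 10442576935) (nat_lit 131) (nat_lit 5) (nat_lit 137) (nat_lit 5) (nat_lit 138) (nat_lit 5) (nat_lit 332) (nat_lit 314) (nat_lit 134)))) (XT.nd (nat_lit 156) (nat_lit 836) (nat_lit 0) (XT.nd (nat_lit 78) (nat_lit 456) (nat_lit 0) (XT.lf (nat_lit 0) (nat_lit 6022793464) (nat_lit 532) (nat_lit 32151294622) (nat_lit 76) (nat_lit 57369011063) (nat_lit 124) (nat_lit 5) (nat_lit 131) (nat_lit 5) (nat_lit 125) (nat_lit 5) (nat_lit 333) (nat_lit 314) (nat_lit 133)) (XT.lf (nat_lit 0) (nat_lit 23838553817) (nat_lit 532) (nat_lit 54542412751) (nat_lit 76) (nat_lit 20056795068) (nat_lit 118) (nat_lit 5) (nat_lit 125) (nat_lit 5) (nat_lit 119) (nat_lit 5) (nat_lit 334) (nat_lit 314) (nat_lit 132))) (XT.nd (nat_lit 78) (nat_lit 380) (nat_lit 0) (XT.lf (nat_lit 0) (nat_lit 23008343485) (nat_lit 456) (nat_lit 20476585992) (nat_lit 532) (nat_lit 57964034090)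 (nat_lit 112) (nat_lit 5) (nat_lit 118) (nat_lit 5) (nat_lit 119) (nat_lit 5) (nat_lit 335) (nat_lit 314) (nat_lit 131)) (XT.lf (nat_lit 0) (nat_lit 600057547) (nat_lit 380) (nat_lit 64473111180) (nat_lit 456) (nat_lit 39508771612) (nat_lit 107) (nat_lit 5) (nat_lit 112) (nat_lit 5) (nat_lit 113) (nat_lit 5) (nat_lit 336) (nat_lit 314) (nat_lit 130))))))))
noncomputable def xc121 : XT := (XT.nd (nat_lit 40092) (nat_lit 0) (nat_lit 304) (XT.nd (nat_lit 39078) (nat_lit 0) (nat_lit 6232) (XT.nd (nat_lit 468) (nat_lit 1368) (nat_lit 0) (XT.nd (nat_lit 234) (nat_lit 684) (nat_lit 0) (XT.nd (nat_lit 78) (nat_lit 836) (nat_lit 0) (XT.lf (nat_lit 0) (nat_lit 85020172906) (nat_lit 380) (nat_lit 3731946421) (nat_lit 456) (nat_lit 19089108673) (nat_lit 107) (nat_lit 5) (nat_lit 112) (nat_lit 5) (nat_lit 113) (nat_lit 5) (nat_lit 337) (nat_lit 314) (nat_lit 129)) (XT.nd (nat_lit 78) (nat_lit 380) (nat_lit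 0) (XT.lf (nat_lit 0) (nat_lit 3499845225) (nat_lit 456) (nat_lit 48212336108) (nat_lit 76) (nat_lit 59514795693) (nat_lit 101) (nat_lit 5) (nat_lit 107) (nat_lit 5) (nat_lit 102) (nat_lit 5) (nat_lit 338) (nat_lit 314) (nat_lit 128)) (XT.lf (nat_lit 0) (nat_lit 27594186862) (nat_lit 456) (nat_lit 75492177867) (nat_lit 76) (nat_lit 11666857689) (nat_lit 96) (nat_lit 5) (nat_lit 102) (nat_lit 5) (nat_lit 97) (nat_lit 5) (nat_lit 339) (nat_lit 314) (nat_lit 127)))) (XT.nd (nat_lit 78) (nat_lit 304) (nat_lit 0) (XT.lf (nat_lit 0) (nat_lit 13408545938) (nat_lit 380) (nat_lit 40636009201) (nat_lit 456) (nat_lit 64376686522) (nat_lit 91) (nat_lit 5) (nat_lit 96) (nat_lit 5) (nat_lit 97) (nat_lit 5) (nat_lit 340) (nat_lit 314) (nat_lit 126)) (XT.nd (nat_lit 78) (nat_lit 304) (nat_lit 0) (XT.lf (nat_lit 0) (nat_lit 82841251969) (nat_lit 456) (nat_lit 14165818581) (nat_lit 76) (nat_lit 25234877838)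 (nat_lit 91) (nat_lit 5) (nat_lit 97) (nat_lit 5) (nat_lit 92) (nat_lit 5) (nat_lit 341) (nat_lit 314) (nat_lit 125)) (XT.lf (nat_lit 0) (nat_lit 82420684235) (nat_lit 304) (nat_lit 31858842792) (nat_lit 380) (nat_lit 11938111910) (nat_lit 87) (nat_lit 5) (nat_lit 91) (nat_lit 5) (nat_lit 92) (nat_lit 5) (nat_lit 342) (nat_lit 314) (nat_lit 124))))) (XT.nd (nat_lit 234) (nat_lit 608) (nat_lit 0) (XT.nd (nat_lit 78) (nat_lit 304) (nat_lit 0) (XT.lf (nat_lit 0) (nat_lit 17599340248) (nat_lit 456) (nat_lit 76080271362) (nat_lit 76) (nat_lit 36676686083) (nat_lit 81) (nat_lit 5) (nat_lit 87) (nat_lit 5) (nat_lit 82) (nat_lit 5) (nat_lit 343) (nat_lit 314) (nat_lit 123)) (XT.nd (nat_lit 78) (nat_lit 0) (nat_lit 0) (XT.lf (nat_lit 0) (nat_lit 23490512908) (nat_lit 304) (nat_lit 25880582521) (nat_lit 380) (nat_lit 85297118810) (nat_lit 77) (nat_lit 5) (nat_lit 81) (nat_lit 5) (nat_lit 82) (nat_lit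 5) (nat_lit 344) (nat_lit 314) (nat_lit 122)) (XT.lf (nat_lit 0) (nat_lit 83957278988) (nat_lit 380) (nat_lit 9986693878) (nat_lit 76) (nat_lit 45214979188) (nat_lit 77) (nat_lit 5) (nat_lit 82) (nat_lit 5) (nat_lit 78) (nat_lit 5) (nat_lit 345) (nat_lit 314) (nat_lit 121)))) (XT.nd (nat_lit 38220) (nat_lit 0) (nat_lit 8056) (XT.nd (nat_lit 78) (nat_lit 304) (nat_lit 0) (XT.lf (nat_lit 0) (nat_lit 97912444022) (nat_lit 304) (nat_lit 23562145825) (nat_lit 380) (nat_lit 22363582999) (nat_lit 73) (nat_lit 5) (nat_lit 77) (nat_lit 5) (nat_lit 78) (nat_lit 5) (nat_lit 346) (nat_lit 314) (nat_lit 120)) (XT.lf (nat_lit 0) (nat_lit 13088577589) (nat_lit 304) (nat_lit 85425005038) (nat_lit 76) (nat_lit 50198020493) (nat_lit 69) (nat_lit 5) (nat_lit 73) (nat_lit 5) (nat_lit 70) (nat_lit 5) (nat_lit 347) (nat_lit 314) (nat_lit 119))) (XT.nd (nat_lit 78) (nat_lit 0) (nat_lit 0) (XT.lf (nat_lit 0) (nat_lit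 4081119279) (nat_lit 0) (nat_lit 4081119279) (nat_lit 1140) (nat_lit 21826326053) (nat_lit 175) (nat_lit 5) (nat_lit 175) (nat_lit 3) (nat_lit 190) (nat_lit 3) (nat_lit 315) (nat_lit 315) (nat_lit 150)) (XT.lf (nat_lit 0) (nat_lit 17115637705) (nat_lit 1140) (nat_lit 8161256627) (nat_lit 1216) (nat_lit 36188128343) (nat_lit 175) (nat_lit 5) (nat_lit 190) (nat_lit 3) (nat_lit 191) (nat_lit 5) (nat_lit 316) (nat_lit 315) (nat_lit 149)))))) (XT.nd (nat_lit 468) (nat_lit 1900) (nat_lit 0) (XT.nd (nat_lit 234) (nat_lit 0) (nat_lit 152) (XT.nd (nat_lit 78) (nat_lit 0) (nat_lit 76) (XT.lf (nat_lit 0) (nat_lit 18587202880) (nat_lit 1140) (nat_lit 24865703206) (nat_lit 1216) (nat_lit 19555182090) (nat_lit 176) (nat_lit 5) (nat_lit 191) (nat_lit 5) (nat_lit 192) (nat_lit 5) (nat_lit 317) (nat_lit 315) (nat_lit 148)) (XT.nd (nat_lit 78) (nat_lit 0) (nat_lit 0) (XT.lf (nat_lit 0) (nat_lit 20704080169)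 (nat_lit 1140) (nat_lit 42141165049) (nat_lit 1216) (nat_lit 1765912360) (nat_lit 177) (nat_lit 5) (nat_lit 192) (nat_lit 5) (nat_lit 193) (nat_lit 5) (nat_lit 318) (nat_lit 315) (nat_lit 147)) (XT.lf (nat_lit 76) (nat_lit 6081923073) (nat_lit 0) (nat_lit 17598789428) (nat_lit 1216) (nat_lit 42591053126) (nat_lit 178) (nat_lit 5) (nat_lit 177) (nat_lit 5) (nat_lit 193) (nat_lit 5) (nat_lit 319) (nat_lit 315) (nat_lit 146)))) (XT.nd (nat_lit 78) (nat_lit 0) (nat_lit 76) (XT.lf (nat_lit 0) (nat_lit 27530227009) (nat_lit 1140) (nat_lit 10698465240) (nat_lit 1216) (nat_lit 29764992710) (nat_lit 178) (nat_lit 5) (nat_lit 193) (nat_lit 5) (nat_lit 194) (nat_lit 5) (nat_lit 320) (nat_lit 315) (nat_lit 145)) (XT.nd (nat_lit 78) (nat_lit 0) (nat_lit 0) (XT.lf (nat_lit 0) (nat_lit 32244963481) (nat_lit 1140) (nat_lit 27971516352) (nat_lit 1216) (nat_lit 9565040318) (nat_lit 179) (nat_lit 5) (nat_lit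 194) (nat_lit 5) (nat_lit 195) (nat_lit 5) (nat_lit 321) (nat_lit 315) (nat_lit 144)) (XT.lf (nat_lit 76) (nat_lit 25624066459) (nat_lit 0) (nat_lit 12313334140) (nat_lit 1216) (nat_lit 33699089763) (nat_lit 180) (nat_lit 5) (nat_lit 179) (nat_lit 5) (nat_lit 195) (nat_lit 5) (nat_lit 322) (nat_lit 315) (nat_lit 143))))) (XT.nd (nat_lit 234) (nat_lit 2204) (nat_lit 0) (XT.nd (nat_lit 78) (nat_lit 0) (nat_lit 76) (XT.lf (nat_lit 76) (nat_lit 8709297980) (nat_lit 0) (nat_lit 35943446635) (nat_lit 1216) (nat_lit 28909317987) (nat_lit 181) (nat_lit 5) (nat_lit 180) (nat_lit 5) (nat_lit 196) (nat_lit 5) (nat_lit 323) (nat_lit 315) (nat_lit 142)) (XT.nd (nat_lit 78) (nat_lit 0) (nat_lit 0) (XT.lf (nat_lit 0) (nat_lit 52440590100) (nat_lit 1140) (nat_lit 8706514463) (nat_lit 1216) (nat_lit 14414708832) (nat_lit 181) (nat_lit 5) (nat_lit 196) (nat_lit 5) (nat_lit 197) (nat_lit 5) (nat_lit 324) (nat_lit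 315) (nat_lit 141)) (XT.lf (nat_lit 76) (nat_lit 50876027191) (nat_lit 0) (nat_lit 10592396238) (nat_lit 1216) (nat_lit 16167612309) (nat_lit 182) (nat_lit 5) (nat_lit 181) (nat_lit 5) (nat_lit 197) (nat_lit 5) (nat_lit 325) (nat_lit 315) (nat_lit 140)))) (XT.nd (nat_lit 156) (nat_lit 608) (nat_lit 0) (XT.nd (nat_lit 78) (nat_lit 608) (nat_lit 0) (XT.lf (nat_lit 0) (nat_lit 34062693906) (nat_lit 1140) (nat_lit 37710149466) (nat_lit 1216) (nat_lit 8016371765) (nat_lit 167) (nat_lit 5) (nat_lit 182) (nat_lit 5) (nat_lit 183) (nat_lit 5) (nat_lit 326) (nat_lit 315) (nat_lit 139)) (XT.lf (nat_lit 0) (nat_lit 1225616212) (nat_lit 608) (nat_lit 65530275510) (nat_lit 76) (nat_lit 15273193906) (nat_lit 159) (nat_lit 5) (nat_lit 167) (nat_lit 5) (nat_lit 160) (nat_lit 5) (nat_lit 327) (nat_lit 315) (nat_lit 138))) (XT.nd (nat_lit 78) (nat_lit 608) (nat_lit 0) (XT.lf (nat_lit 0) (nat_lit 11620337098)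 (nat_lit 608) (nat_lit 2043082424) (nat_lit 76) (nat_lit 70689457863) (nat_lit 159) (nat_lit 5) (nat_lit 167) (nat_lit 5) (nat_lit 160) (nat_lit 5) (nat_lit 328) (nat_lit 315) (nat_lit 137)) (XT.lf (nat_lit 0) (nat_lit 23578049679) (nat_lit 684) (nat_lit 21281182693) (nat_lit 76) (nat_lit 41902330187) (nat_lit 151) (nat_lit 5) (nat_lit 160) (nat_lit 5) (nat_lit 152) (nat_lit 5) (nat_lit 329) (nat_lit 315) (nat_lit 136))))))) (XT.nd (nat_lit 1014) (nat_lit 1368) (nat_lit 0) (XT.nd (nat_lit 468) (nat_lit 2052) (nat_lit 0) (XT.nd (nat_lit 234) (nat_lit 988) (nat_lit 0) (XT.nd (nat_lit 78) (nat_lit 988) (nat_lit 0) (XT.lf (nat_lit 0) (nat_lit 36859936445) (nat_lit 608) (nat_lit 41450723763) (nat_lit 76) (nat_lit 10958234556) (nat_lit 144) (nat_lit 5) (nat_lit 152) (nat_lit 5) (nat_lit 145) (nat_lit 5) (nat_lit 330) (nat_lit 315) (nat_lit 135)) (XT.nd (nat_lit 78) (nat_lit 456) (nat_lit 0) (XT.lf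 (nat_lit 0) (nat_lit 29032793927) (nat_lit 532) (nat_lit 22725244631) (nat_lit 608) (nat_lit 40114992751) (nat_lit 137) (nat_lit 5) (nat_lit 144) (nat_lit 5) (nat_lit 145) (nat_lit 5) (nat_lit 331) (nat_lit 315) (nat_lit 134)) (XT.lf (nat_lit 0) (nat_lit 9142724076) (nat_lit 456) (nat_lit 59118780672) (nat_lit 532) (nat_lit 26320057458) (nat_lit 131) (nat_lit 5) (nat_lit 137) (nat_lit 5) (nat_lit 138) (nat_lit 5) (nat_lit 332) (nat_lit 315) (nat_lit 133)))) (XT.nd (nat_lit 78) (nat_lit 988) (nat_lit 0) (XT.lf (nat_lit 0) (nat_lit 85803119030) (nat_lit 456) (nat_lit 660130201) (nat_lit 532) (nat_lit 10936078503) (nat_lit 131) (nat_lit 5) (nat_lit 137) (nat_lit 5) (nat_lit 138) (nat_lit 5) (nat_lit 333) (nat_lit 315) (nat_lit 132)) (XT.nd (nat_lit 78) (nat_lit 456) (nat_lit 0) (XT.lf (nat_lit 0) (nat_lit 6350964798) (nat_lit 532) (nat_lit 33728944092) (nat_lit 76) (nat_lit 60239499194) (nat_lit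 124) (nat_lit 5) (nat_lit 131) (nat_lit 5) (nat_lit 125) (nat_lit 5) (nat_lit 334) (nat_lit 315) (nat_lit 131)) (XT.lf (nat_lit 0) (nat_lit 25056534432) (nat_lit 532) (nat_lit 57239690690) (nat_lit 76) (nat_lit 21062609605) (nat_lit 118) (nat_lit 5) (nat_lit 125) (nat_lit 5) (nat_lit 119) (nat_lit 5) (nat_lit 335) (nat_lit 315) (nat_lit 130))))) (XT.nd (nat_lit 234) (nat_lit 1216) (nat_lit 0) (XT.nd (nat_lit 78) (nat_lit 380) (nat_lit 0) (XT.lf (nat_lit 0) (nat_lit 24187747923) (nat_lit 456) (nat_lit 21496518981) (nat_lit 532) (nat_lit 60836360302) (nat_lit 112) (nat_lit 5) (nat_lit 118) (nat_lit 5) (nat_lit 119) (nat_lit 5) (nat_lit 336) (nat_lit 315) (nat_lit 129)) (XT.nd (nat_lit 78) (nat_lit 0) (nat_lit 0) (XT.lf (nat_lit 0) (nat_lit 658942446) (nat_lit 380) (nat_lit 67692094164) (nat_lit 456) (nat_lit 41459244165) (nat_lit 107) (nat_lit 5) (nat_lit 112) (nat_lit 5) (nat_lit 113) (nat_lit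 5) (nat_lit 337) (nat_lit 315) (nat_lit 128)) (XT.lf (nat_lit 0) (nat_lit 89298688239) (nat_lit 380) (nat_lit 3914093671) (nat_lit 456) (nat_lit 20019786937) (nat_lit 107) (nat_lit 5) (nat_lit 112) (nat_lit 5) (nat_lit 113) (nat_lit 5) (nat_lit 338) (nat_lit 315) (nat_lit 127)))) (XT.nd (nat_lit 156) (nat_lit 380) (nat_lit 0) (XT.nd (nat_lit 78) (nat_lit 380) (nat_lit 0) (XT.lf (nat_lit 0) (nat_lit 3697347434) (nat_lit 456) (nat_lit 50595101679) (nat_lit 76) (nat_lit 62495174785) (nat_lit 101) (nat_lit 5) (nat_lit 107) (nat_lit 5) (nat_lit 102) (nat_lit 5) (nat_lit 339) (nat_lit 315) (nat_lit 126)) (XT.lf (nat_lit 0) (nat_lit 28995645773) (nat_lit 456) (nat_lit 79239108996) (nat_lit 76) (nat_lit 12255450873) (nat_lit 96) (nat_lit 5) (nat_lit 102) (nat_lit 5) (nat_lit 97) (nat_lit 5) (nat_lit 340) (nat_lit 315) (nat_lit 125))) (XT.nd (nat_lit 78) (nat_lit 0) (nat_lit 0) (XT.lf (nat_lit 0)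 (nat_lit 14105857622) (nat_lit 380) (nat_lit 42661897578) (nat_lit 456) (nat_lit 67573895175) (nat_lit 91) (nat_lit 5) (nat_lit 96) (nat_lit 5) (nat_lit 97) (nat_lit 5) (nat_lit 341) (nat_lit 315) (nat_lit 124)) (XT.lf (nat_lit 0) (nat_lit 87003342315) (nat_lit 456) (nat_lit 14847937199) (nat_lit 76) (nat_lit 26502142413) (nat_lit 91) (nat_lit 5) (nat_lit 97) (nat_lit 5) (nat_lit 92) (nat_lit 5) (nat_lit 342) (nat_lit 315) (nat_lit 123)))))) (XT.nd (nat_lit 38688) (nat_lit 0) (nat_lit 7828) (XT.nd (nat_lit 234) (nat_lit 304) (nat_lit 0) (XT.nd (nat_lit 78) (nat_lit 760) (nat_lit 0) (XT.lf (nat_lit 0) (nat_lit 86567140533) (nat_lit 304) (nat_lit 33445681262) (nat_lit 380) (nat_lit 12515097585) (nat_lit 87) (nat_lit 5) (nat_lit 91) (nat_lit 5) (nat_lit 92) (nat_lit 5) (nat_lit 343) (nat_lit 315) (nat_lit 122)) (XT.nd (nat_lit 78) (nat_lit 304) (nat_lit 0) (XT.lf (nat_lit 0) (nat_lit 18498209681)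 (nat_lit 456) (nat_lit 79858667801) (nat_lit 76) (nat_lit 38516647727) (nat_lit 81) (nat_lit 5) (nat_lit 87) (nat_lit 5) (nat_lit 82) (nat_lit 5) (nat_lit 344) (nat_lit 315) (nat_lit 121)) (XT.lf (nat_lit 0) (nat_lit 24689921373) (nat_lit 304) (nat_lit 27167970323) (nat_lit 380) (nat_lit 89543166681) (nat_lit 77) (nat_lit 5) (nat_lit 81) (nat_lit 5) (nat_lit 82) (nat_lit 5) (nat_lit 345) (nat_lit 315) (nat_lit 120)))) (XT.nd (nat_lit 38298) (nat_lit 0) (nat_lit 7752) (XT.nd (nat_lit 78) (nat_lit 304) (nat_lit 0) (XT.lf (nat_lit 0) (nat_lit 88172576590) (nat_lit 380) (nat_lit 10461851854) (nat_lit 76) (nat_lit 47481929794) (nat_lit 77) (nat_lit 5) (nat_lit 82) (nat_lit 5) (nat_lit 78) (nat_lit 5) (nat_lit 346) (nat_lit 315) (nat_lit 119)) (XT.lf (nat_lit 0) (nat_lit 102831549920) (nat_lit 304) (nat_lit 24733598637) (nat_lit 380) (nat_lit 23464410521) (nat_lit 73) (nat_lit 5) (nat_lit 77)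 (nat_lit 5) (nat_lit 78) (nat_lit 5) (nat_lit 347) (nat_lit 315) (nat_lit 118))) (XT.nd (nat_lit 78) (nat_lit 0) (nat_lit 0) (XT.lf (nat_lit 0) (nat_lit 4299086154) (nat_lit 0) (nat_lit 4299086154) (nat_lit 1140) (nat_lit 22888943237) (nat_lit 175) (nat_lit 5) (nat_lit 175) (nat_lit 3) (nat_lit 190) (nat_lit 3) (nat_lit 316) (nat_lit 316) (nat_lit 148)) (XT.lf (nat_lit 0) (nat_lit 18024158830) (nat_lit 1140) (nat_lit 8540896739) (nat_lit 1216) (nat_lit 37971554840) (nat_lit 175) (nat_lit 5) (nat_lit 190) (nat_lit 3) (nat_lit 191) (nat_lit 5) (nat_lit 317) (nat_lit 316) (nat_lit 147))))) (XT.nd (nat_lit 234) (nat_lit 0) (nat_lit 152) (XT.nd (nat_lit 78) (nat_lit 0) (nat_lit 76) (XT.lf (nat_lit 0) (nat_lit 19566836269) (nat_lit 1140) (nat_lit 26079568238) (nat_lit 1216) (nat_lit 20510502525) (nat_lit 176) (nat_lit 5) (nat_lit 191) (nat_lit 5) (nat_lit 192) (nat_lit 5) (nat_lit 318) (nat_lit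 316) (nat_lit 146)) (XT.nd (nat_lit 78) (nat_lit 0) (nat_lit 0) (XT.lf (nat_lit 0) (nat_lit 21787249968) (nat_lit 1140) (nat_lit 44217940015) (nat_lit 1216) (nat_lit 1835012827) (nat_lit 177) (nat_lit 5) (nat_lit 192) (nat_lit 5) (nat_lit 193) (nat_lit 5) (nat_lit 319) (nat_lit 316) (nat_lit 145)) (XT.lf (nat_lit 76) (nat_lit 6415434449) (nat_lit 0) (nat_lit 18495278140) (nat_lit 1216) (nat_lit 44673192222) (nat_lit 178) (nat_lit 5) (nat_lit 177) (nat_lit 5) (nat_lit 193) (nat_lit 5) (nat_lit 320) (nat_lit 316) (nat_lit 144)))) (XT.nd (nat_lit 156) (nat_lit 0) (nat_lit 76) (XT.nd (nat_lit 78) (nat_lit 0) (nat_lit 76) (XT.lf (nat_lit 0) (nat_lit 28950362532) (nat_lit 1140) (nat_lit 11203842405) (nat_lit 1216) (nat_lit 31237788722) (nat_lit 178) (nat_lit 5) (nat_lit 193) (nat_lit 5) (nat_lit 194) (nat_lit 5) (nat_lit 321) (nat_lit 316) (nat_lit 143)) (XT.lf (nat_lit 0) (nat_lit 33898908209)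 (nat_lit 1140) (nat_lit 29339948532) (nat_lit 1216) (nat_lit 10030424881) (nat_lit 179) (nat_lit 5) (nat_lit 194) (nat_lit 5) (nat_lit 195) (nat_lit 5) (nat_lit 322) (nat_lit 316) (nat_lit 142))) (XT.nd (nat_lit 78) (nat_lit 0) (nat_lit 76) (XT.lf (nat_lit 76) (nat_lit 26934549359) (nat_lit 0) (nat_lit 12939713727) (nat_lit 1216) (nat_lit 35342791410) (nat_lit 180) (nat_lit 5) (nat_lit 179) (nat_lit 5) (nat_lit 195) (nat_lit 5) (nat_lit 323) (nat_lit 316) (nat_lit 141)) (XT.lf (nat_lit 76) (nat_lit 9174527445) (nat_lit 0) (nat_lit 37749130494) (nat_lit 1216) (nat_lit 30315301785) (nat_lit 181) (nat_lit 5) (nat_lit 180) (nat_lit 5) (nat_lit 196) (nat_lit 5) (nat_lit 324) (nat_lit 316) (nat_lit 140))))))))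
noncomputable def xc122 : XT := (XT.nd (nat_lit 40326) (nat_lit 0) (nat_lit 304) (XT.nd (nat_lit 1014) (nat_lit 2660) (nat_lit 0) (XT.nd (nat_lit 468) (nat_lit 2964) (nat_lit 0) (XT.nd (nat_lit 234) (nat_lit 1216) (nat_lit 0) (XT.nd (nat_lit 78) (nat_lit 1064) (nat_lit 0) (XT.lf (nat_lit 0) (nat_lit 55098995106) (nat_lit 1140) (nat_lit 9112266480) (nat_lit 1216) (nat_lit 15127496238) (nat_lit 181) (nat_lit 5) (nat_lit 196) (nat_lit 5) (nat_lit 197) (nat_lit 5) (nat_lit 325) (nat_lit 316) (nat_lit 139)) (XT.nd (nat_lit 78) (nat_lit 1064) (nat_lit 0) (XT.lf (nat_lit 76) (nat_lit 53448554532) (nat_lit 0) (nat_lit 11128209534) (nat_lit 1216) (nat_lit 16939973517) (nat_lit 182) (nat_lit 5) (nat_lit 181) (nat_lit 5) (nat_lit 197) (nat_lit 5) (nat_lit 326) (nat_lit 316) (nat_lit 138)) (XT.lf (nat_lit 0) (nat_lit 35794857399) (nat_lit 1140) (nat_lit 39600107117) (nat_lit 1216) (nat_lit 8382657143)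 (nat_lit 167) (nat_lit 5) (nat_lit 182) (nat_lit 5) (nat_lit 183) (nat_lit 5) (nat_lit 327) (nat_lit 316) (nat_lit 137)))) (XT.nd (nat_lit 78) (nat_lit 608) (nat_lit 0) (XT.lf (nat_lit 0) (nat_lit 1319386943) (nat_lit 608) (nat_lit 68776834305) (nat_lit 76) (nat_lit 16033297856) (nat_lit 159) (nat_lit 5) (nat_lit 167) (nat_lit 5) (nat_lit 160) (nat_lit 5) (nat_lit 328) (nat_lit 316) (nat_lit 136)) (XT.nd (nat_lit 78) (nat_lit 608) (nat_lit 0) (XT.lf (nat_lit 0) (nat_lit 12232296734) (nat_lit 608) (nat_lit 2116707993) (nat_lit 76) (nat_lit 74220544332) (nat_lit 159) (nat_lit 5) (nat_lit 167) (nat_lit 5) (nat_lit 160) (nat_lit 5) (nat_lit 329) (nat_lit 316) (nat_lit 135)) (XT.lf (nat_lit 0) (nat_lit 24786668388) (nat_lit 684) (nat_lit 22316577685) (nat_lit 76) (nat_lit 43995461308) (nat_lit 151) (nat_lit 5) (nat_lit 160) (nat_lit 5) (nat_lit 152) (nat_lit 5) (nat_lit 330) (nat_lit 316) (nat_lit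 134))))) (XT.nd (nat_lit 234) (nat_lit 1444) (nat_lit 0) (XT.nd (nat_lit 78) (nat_lit 988) (nat_lit 0) (XT.lf (nat_lit 0) (nat_lit 38731495091) (nat_lit 608) (nat_lit 43494513586) (nat_lit 76) (nat_lit 11505434143) (nat_lit 144) (nat_lit 5) (nat_lit 152) (nat_lit 5) (nat_lit 145) (nat_lit 5) (nat_lit 331) (nat_lit 316) (nat_lit 133)) (XT.nd (nat_lit 78) (nat_lit 456) (nat_lit 0) (XT.lf (nat_lit 0) (nat_lit 30512355980) (nat_lit 532) (nat_lit 23861054649) (nat_lit 608) (nat_lit 42092410209) (nat_lit 137) (nat_lit 5) (nat_lit 144) (nat_lit 5) (nat_lit 145) (nat_lit 5) (nat_lit 332) (nat_lit 316) (nat_lit 132)) (XT.lf (nat_lit 0) (nat_lit 9627815352) (nat_lit 456) (nat_lit 62073199536) (nat_lit 532) (nat_lit 27608796256) (nat_lit 131) (nat_lit 5) (nat_lit 137) (nat_lit 5) (nat_lit 138) (nat_lit 5) (nat_lit 333) (nat_lit 316) (nat_lit 131)))) (XT.nd (nat_lit 156) (nat_lit 912) (nat_lit 0) (XT.nd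 (nat_lit 78) (nat_lit 532) (nat_lit 0) (XT.lf (nat_lit 0) (nat_lit 90119898860) (nat_lit 456) (nat_lit 691688930) (nat_lit 532) (nat_lit 11456916642) (nat_lit 131) (nat_lit 5) (nat_lit 137) (nat_lit 5) (nat_lit 138) (nat_lit 5) (nat_lit 334) (nat_lit 316) (nat_lit 130)) (XT.lf (nat_lit 0) (nat_lit 6693031551) (nat_lit 532) (nat_lit 35388257273) (nat_lit 76) (nat_lit 63253322296) (nat_lit 124) (nat_lit 5) (nat_lit 131) (nat_lit 5) (nat_lit 125) (nat_lit 5) (nat_lit 335) (nat_lit 316) (nat_lit 129))) (XT.nd (nat_lit 78) (nat_lit 456) (nat_lit 0) (XT.lf (nat_lit 0) (nat_lit 26332991923) (nat_lit 532) (nat_lit 60074607018) (nat_lit 76) (nat_lit 22118438301) (nat_lit 118) (nat_lit 5) (nat_lit 125) (nat_lit 5) (nat_lit 119) (nat_lit 5) (nat_lit 336) (nat_lit 316) (nat_lit 128)) (XT.lf (nat_lit 0) (nat_lit 25423427622) (nat_lit 456) (nat_lit 22567810860) (nat_lit 532) (nat_lit 63854708481) (nat_lit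 112) (nat_lit 5) (nat_lit 118) (nat_lit 5) (nat_lit 119) (nat_lit 5) (nat_lit 337) (nat_lit 316) (nat_lit 127)))))) (XT.nd (nat_lit 468) (nat_lit 1064) (nat_lit 0) (XT.nd (nat_lit 234) (nat_lit 760) (nat_lit 0) (XT.nd (nat_lit 78) (nat_lit 456) (nat_lit 0) (XT.lf (nat_lit 0) (nat_lit 718086414) (nat_lit 380) (nat_lit 71072460708) (nat_lit 456) (nat_lit 43509561450) (nat_lit 107) (nat_lit 5) (nat_lit 112) (nat_lit 5) (nat_lit 113) (nat_lit 5) (nat_lit 338) (nat_lit 316) (nat_lit 126)) (XT.nd (nat_lit 78) (nat_lit 456) (nat_lit 0) (XT.lf (nat_lit 0) (nat_lit 93788572027) (nat_lit 380) (nat_lit 4105762008) (nat_lit 456) (nat_lit 20999209691) (nat_lit 107) (nat_lit 5) (nat_lit 112) (nat_lit 5) (nat_lit 113) (nat_lit 5) (nat_lit 339) (nat_lit 316) (nat_lit 125)) (XT.lf (nat_lit 0) (nat_lit 3902631993) (nat_lit 456) (nat_lit 53099594871) (nat_lit 76) (nat_lit 65624141513) (nat_lit 101) (nat_lit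 5) (nat_lit 107) (nat_lit 5) (nat_lit 102) (nat_lit 5) (nat_lit 340) (nat_lit 316) (nat_lit 124)))) (XT.nd (nat_lit 78) (nat_lit 380) (nat_lit 0) (XT.lf (nat_lit 0) (nat_lit 30465155562) (nat_lit 456) (nat_lit 83175959897) (nat_lit 76) (nat_lit 12872985593) (nat_lit 96) (nat_lit 5) (nat_lit 102) (nat_lit 5) (nat_lit 97) (nat_lit 5) (nat_lit 341) (nat_lit 316) (nat_lit 123)) (XT.nd (nat_lit 78) (nat_lit 0) (nat_lit 0) (XT.lf (nat_lit 0) (nat_lit 14835535435) (nat_lit 380) (nat_lit 44789630023) (nat_lit 456) (nat_lit 70932974811) (nat_lit 91) (nat_lit 5) (nat_lit 96) (nat_lit 5) (nat_lit 97) (nat_lit 5) (nat_lit 342) (nat_lit 316) (nat_lit 122)) (XT.lf (nat_lit 0) (nat_lit 91371675187) (nat_lit 456) (nat_lit 15566595002) (nat_lit 76) (nat_lit 27832256957) (nat_lit 91) (nat_lit 5) (nat_lit 97) (nat_lit 5) (nat_lit 92) (nat_lit 5) (nat_lit 343) (nat_lit 316) (nat_lit 121))))) (XT.nd (nat_lit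 38532) (nat_lit 0) (nat_lit 7448) (XT.nd (nat_lit 78) (nat_lit 760) (nat_lit 0) (XT.lf (nat_lit 0) (nat_lit 90918556142) (nat_lit 304) (nat_lit 35112429118) (nat_lit 380) (nat_lit 13122784510) (nat_lit 87) (nat_lit 5) (nat_lit 91) (nat_lit 5) (nat_lit 92) (nat_lit 5) (nat_lit 344) (nat_lit 316) (nat_lit 120)) (XT.nd (nat_lit 78) (nat_lit 304) (nat_lit 0) (XT.lf (nat_lit 0) (nat_lit 19440265219) (nat_lit 456) (nat_lit 83828365699) (nat_lit 76) (nat_lit 40448037790) (nat_lit 81) (nat_lit 5) (nat_lit 87) (nat_lit 5) (nat_lit 82) (nat_lit 5) (nat_lit 345) (nat_lit 316) (nat_lit 119)) (XT.lf (nat_lit 0) (nat_lit 25946986892) (nat_lit 304) (nat_lit 28520344962) (nat_lit 380) (nat_lit 94003265542) (nat_lit 77) (nat_lit 5) (nat_lit 81) (nat_lit 5) (nat_lit 82) (nat_lit 5) (nat_lit 346) (nat_lit 316) (nat_lit 118)))) (XT.nd (nat_lit 156) (nat_lit 0) (nat_lit 76) (XT.nd (nat_lit 78) (nat_lit 0) (nat_lit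 0) (XT.lf (nat_lit 0) (nat_lit 4526658067) (nat_lit 0) (nat_lit 4526658067) (nat_lit 1140) (nat_lit 24007359453) (nat_lit 175) (nat_lit 5) (nat_lit 175) (nat_lit 3) (nat_lit 190) (nat_lit 3) (nat_lit 317) (nat_lit 317) (nat_lit 146)) (XT.lf (nat_lit 0) (nat_lit 18973202816) (nat_lit 1140) (nat_lit 8942161331) (nat_lit 1216) (nat_lit 39846568028) (nat_lit 175) (nat_lit 5) (nat_lit 190) (nat_lit 3) (nat_lit 191) (nat_lit 5) (nat_lit 318) (nat_lit 317) (nat_lit 145))) (XT.nd (nat_lit 78) (nat_lit 0) (nat_lit 76) (XT.lf (nat_lit 0) (nat_lit 20590777397) (nat_lit 1140) (nat_lit 27356861726) (nat_lit 1216) (nat_lit 21515675116) (nat_lit 176) (nat_lit 5) (nat_lit 191) (nat_lit 5) (nat_lit 192) (nat_lit 5) (nat_lit 319) (nat_lit 317) (nat_lit 144)) (XT.lf (nat_lit 0) (nat_lit 22920118852) (nat_lit 1140) (nat_lit 46401369182) (nat_lit 1216) (nat_lit 1909352900) (nat_lit 177) (nat_lit 5) (nat_lit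 192) (nat_lit 5) (nat_lit 193) (nat_lit 5) (nat_lit 320) (nat_lit 317) (nat_lit 143))))))) (XT.nd (nat_lit 1014) (nat_lit 4256) (nat_lit 0) (XT.nd (nat_lit 468) (nat_lit 3040) (nat_lit 0) (XT.nd (nat_lit 234) (nat_lit 0) (nat_lit 152) (XT.nd (nat_lit 78) (nat_lit 0) (nat_lit 76) (XT.lf (nat_lit 76) (nat_lit 6762886645) (nat_lit 0) (nat_lit 19435052696) (nat_lit 1216) (nat_lit 46863846335) (nat_lit 178) (nat_lit 5) (nat_lit 177) (nat_lit 5) (nat_lit 193) (nat_lit 5) (nat_lit 321) (nat_lit 317) (nat_lit 142)) (XT.nd (nat_lit 78) (nat_lit 0) (nat_lit 76) (XT.lf (nat_lit 0) (nat_lit 30437449069) (nat_lit 1140) (nat_lit 11737235344) (nat_lit 1216) (nat_lit 32785661265) (nat_lit 178) (nat_lit 5) (nat_lit 193) (nat_lit 5) (nat_lit 194) (nat_lit 5) (nat_lit 322) (nat_lit 317) (nat_lit 141)) (XT.lf (nat_lit 0) (nat_lit 35631673622) (nat_lit 1140) (nat_lit 30779604790) (nat_lit 1216) (nat_lit 10520274966)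 (nat_lit 179) (nat_lit 5) (nat_lit 194) (nat_lit 5) (nat_lit 195) (nat_lit 5) (nat_lit 323) (nat_lit 317) (nat_lit 140)))) (XT.nd (nat_lit 78) (nat_lit 0) (nat_lit 76) (XT.lf (nat_lit 76) (nat_lit 28307834266) (nat_lit 0) (nat_lit 13596416311) (nat_lit 1216) (nat_lit 37072513438) (nat_lit 180) (nat_lit 5) (nat_lit 179) (nat_lit 5) (nat_lit 195) (nat_lit 5) (nat_lit 324) (nat_lit 317) (nat_lit 139)) (XT.nd (nat_lit 78) (nat_lit 0) (nat_lit 76) (XT.lf (nat_lit 76) (nat_lit 9660251156) (nat_lit 0) (nat_lit 39644307225) (nat_lit 1216) (nat_lit 31795255445) (nat_lit 181) (nat_lit 5) (nat_lit 180) (nat_lit 5) (nat_lit 196) (nat_lit 5) (nat_lit 325) (nat_lit 317) (nat_lit 138)) (XT.lf (nat_lit 0) (nat_lit 57886938513) (nat_lit 1140) (nat_lit 9541055581) (nat_lit 1216) (nat_lit 15876661948) (nat_lit 181) (nat_lit 5) (nat_lit 196) (nat_lit 5) (nat_lit 197) (nat_lit 5) (nat_lit 326) (nat_lit 317)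 (nat_lit 137))))) (XT.nd (nat_lit 234) (nat_lit 1672) (nat_lit 0) (XT.nd (nat_lit 78) (nat_lit 1672) (nat_lit 0) (XT.lf (nat_lit 76) (nat_lit 56147037571) (nat_lit 0) (nat_lit 11690237683) (nat_lit 1216) (nat_lit 17754301528) (nat_lit 182) (nat_lit 5) (nat_lit 181) (nat_lit 5) (nat_lit 197) (nat_lit 5) (nat_lit 327) (nat_lit 317) (nat_lit 136)) (XT.nd (nat_lit 78) (nat_lit 608) (nat_lit 0) (XT.lf (nat_lit 0) (nat_lit 37610930245) (nat_lit 1140) (nat_lit 41584148915) (nat_lit 1216) (nat_lit 8770467360) (nat_lit 167) (nat_lit 5) (nat_lit 182) (nat_lit 5) (nat_lit 183) (nat_lit 5) (nat_lit 328) (nat_lit 317) (nat_lit 135)) (XT.lf (nat_lit 0) (nat_lit 1414825606) (nat_lit 608) (nat_lit 72188505970) (nat_lit 76) (nat_lit 16831737583) (nat_lit 159) (nat_lit 5) (nat_lit 167) (nat_lit 5) (nat_lit 160) (nat_lit 5) (nat_lit 329) (nat_lit 317) (nat_lit 134)))) (XT.nd (nat_lit 156) (nat_lit 1064) (nat_lit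 0) (XT.nd (nat_lit 78) (nat_lit 608) (nat_lit 0) (XT.lf (nat_lit 0) (nat_lit 12871977586) (nat_lit 608) (nat_lit 2196667155) (nat_lit 76) (nat_lit 77928499962) (nat_lit 159) (nat_lit 5) (nat_lit 167) (nat_lit 5) (nat_lit 160) (nat_lit 5) (nat_lit 330) (nat_lit 317) (nat_lit 133)) (XT.lf (nat_lit 0) (nat_lit 26052955299) (nat_lit 684) (nat_lit 23406407347) (nat_lit 76) (nat_lit 46193433568) (nat_lit 151) (nat_lit 5) (nat_lit 160) (nat_lit 5) (nat_lit 152) (nat_lit 5) (nat_lit 331) (nat_lit 317) (nat_lit 132))) (XT.nd (nat_lit 78) (nat_lit 532) (nat_lit 0) (XT.lf (nat_lit 0) (nat_lit 40693976261) (nat_lit 608) (nat_lit 45643165464) (nat_lit 76) (nat_lit 12080059917) (nat_lit 144) (nat_lit 5) (nat_lit 152) (nat_lit 5) (nat_lit 145) (nat_lit 5) (nat_lit 332) (nat_lit 317) (nat_lit 131)) (XT.lf (nat_lit 0) (nat_lit 32063300180) (nat_lit 532) (nat_lit 25053697210) (nat_lit 608) (nat_lit 44171332597)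 (nat_lit 137) (nat_lit 5) (nat_lit 144) (nat_lit 5) (nat_lit 145) (nat_lit 5) (nat_lit 333) (nat_lit 317) (nat_lit 130)))))) (XT.nd (nat_lit 546) (nat_lit 1976) (nat_lit 0) (XT.nd (nat_lit 234) (nat_lit 1292) (nat_lit 0) (XT.nd (nat_lit 78) (nat_lit 532) (nat_lit 0) (XT.lf (nat_lit 0) (nat_lit 10134562194) (nat_lit 456) (nat_lit 65175480674) (nat_lit 532) (nat_lit 28964506749) (nat_lit 131) (nat_lit 5) (nat_lit 137) (nat_lit 5) (nat_lit 138) (nat_lit 5) (nat_lit 334) (nat_lit 317) (nat_lit 129)) (XT.nd (nat_lit 78) (nat_lit 532) (nat_lit 0) (XT.lf (nat_lit 0) (nat_lit 94650042445) (nat_lit 456) (nat_lit 724960197) (nat_lit 532) (nat_lit 12006210740) (nat_lit 131) (nat_lit 5) (nat_lit 137) (nat_lit 5) (nat_lit 138) (nat_lit 5) (nat_lit 335) (nat_lit 317) (nat_lit 128)) (XT.lf (nat_lit 0) (nat_lit 7049922143) (nat_lit 532) (nat_lit 37133058777) (nat_lit 76) (nat_lit 66417664731) (nat_lit 124)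 (nat_lit 5) (nat_lit 131) (nat_lit 5) (nat_lit 125) (nat_lit 5) (nat_lit 336) (nat_lit 317) (nat_lit 127)))) (XT.nd (nat_lit 156) (nat_lit 380) (nat_lit 0) (XT.nd (nat_lit 78) (nat_lit 456) (nat_lit 0) (XT.lf (nat_lit 0) (nat_lit 27671075324) (nat_lit 532) (nat_lit 63053785707) (nat_lit 76) (nat_lit 23226807577) (nat_lit 118) (nat_lit 5) (nat_lit 125) (nat_lit 5) (nat_lit 119) (nat_lit 5) (nat_lit 337) (nat_lit 317) (nat_lit 126)) (XT.lf (nat_lit 0) (nat_lit 26718446896) (nat_lit 456) (nat_lit 23692995898) (nat_lit 532) (nat_lit 67026156073) (nat_lit 112) (nat_lit 5) (nat_lit 118) (nat_lit 5) (nat_lit 119) (nat_lit 5) (nat_lit 338) (nat_lit 317) (nat_lit 125))) (XT.nd (nat_lit 78) (nat_lit 0) (nat_lit 0) (XT.lf (nat_lit 0) (nat_lit 777752045) (nat_lit 380) (nat_lit 74622239604) (nat_lit 456) (nat_lit 45664499909) (nat_lit 107) (nat_lit 5) (nat_lit 112) (nat_lit 5) (nat_lit 113) (nat_lit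 5) (nat_lit 339) (nat_lit 317) (nat_lit 124)) (XT.lf (nat_lit 0) (nat_lit 98500630449) (nat_lit 380) (nat_lit 4307389023) (nat_lit 456) (nat_lit 22029608639) (nat_lit 107) (nat_lit 5) (nat_lit 112) (nat_lit 5) (nat_lit 113) (nat_lit 5) (nat_lit 340) (nat_lit 317) (nat_lit 123))))) (XT.nd (nat_lit 234) (nat_lit 760) (nat_lit 0) (XT.nd (nat_lit 78) (nat_lit 760) (nat_lit 0) (XT.lf (nat_lit 0) (nat_lit 4116282583) (nat_lit 456) (nat_lit 55731661334) (nat_lit 76) (nat_lit 68909165359) (nat_lit 101) (nat_lit 5) (nat_lit 107) (nat_lit 5) (nat_lit 102) (nat_lit 5) (nat_lit 341) (nat_lit 317) (nat_lit 122)) (XT.nd (nat_lit 78) (nat_lit 380) (nat_lit 0) (XT.lf (nat_lit 0) (nat_lit 32006306764) (nat_lit 456) (nat_lit 87311987326) (nat_lit 76) (nat_lit 13520954306) (nat_lit 96) (nat_lit 5) (nat_lit 102) (nat_lit 5) (nat_lit 97) (nat_lit 5) (nat_lit 342) (nat_lit 317) (nat_lit 121)) (XT.lf (nat_lit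 0) (nat_lit 15599430058) (nat_lit 380) (nat_lit 47024247639) (nat_lit 456) (nat_lit 74461832057) (nat_lit 91) (nat_lit 5) (nat_lit 96) (nat_lit 5) (nat_lit 97) (nat_lit 5) (nat_lit 343) (nat_lit 317) (nat_lit 120)))) (XT.nd (nat_lit 156) (nat_lit 456) (nat_lit 0) (XT.nd (nat_lit 78) (nat_lit 304) (nat_lit 0) (XT.lf (nat_lit 0) (nat_lit 95956735824) (nat_lit 456) (nat_lit 16323392728) (nat_lit 76) (nat_lit 29228411684) (nat_lit 91) (nat_lit 5) (nat_lit 97) (nat_lit 5) (nat_lit 92) (nat_lit 5) (nat_lit 344) (nat_lit 317) (nat_lit 119)) (XT.lf (nat_lit 0) (nat_lit 95485398762) (nat_lit 304) (nat_lit 36863029070) (nat_lit 380) (nat_lit 13762535568) (nat_lit 87) (nat_lit 5) (nat_lit 91) (nat_lit 5) (nat_lit 92) (nat_lit 5) (nat_lit 345) (nat_lit 317) (nat_lit 118))) (XT.nd (nat_lit 38454) (nat_lit 0) (nat_lit 7144) (XT.lf (nat_lit 0) (nat_lit 20427829548) (nat_lit 456) (nat_lit 87998708709) (nat_lit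 76) (nat_lit 42475480657) (nat_lit 81) (nat_lit 5) (nat_lit 87) (nat_lit 5) (nat_lit 82) (nat_lit 5) (nat_lit 346) (nat_lit 317) (nat_lit 117)) (XT.lf (nat_lit 0) (nat_lit 4764435511) (nat_lit 0) (nat_lit 4764435511) (nat_lit 1140) (nat_lit 25184116590) (nat_lit 175) (nat_lit 5) (nat_lit 175) (nat_lit 3) (nat_lit 190) (nat_lit 3) (nat_lit 318) (nat_lit 318) (nat_lit 144))))))))
noncomputable def xc123 : XT := (XT.nd (nat_lit 2028) (nat_lit 0) (nat_lit 0) (XT.nd (nat_lit 1014) (nat_lit 5168) (nat_lit 0) (XT.nd (nat_lit 468) (nat_lit 1216) (nat_lit 0) (XT.nd (nat_lit 234) (nat_lit 0) (nat_lit 152) (XT.nd (nat_lit 78) (nat_lit 0) (nat_lit 76) (XT.lf (nat_lit 0) (nat_lit 19965251659) (nat_lit 1140) (nat_lit 9365885955) (nat_lit 1216) (nat_lit 41817522684) (nat_lit 175) (nat_lit 5) (nat_lit 190) (nat_lit 3) (nat_lit 191) (nat_lit 5) (nat_lit 319) (nat_lit 318) (nat_lit 143)) (XT.nd (nat_lit 78)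 (nat_lit 0) (nat_lit 76) (XT.lf (nat_lit 0) (nat_lit 21661676190) (nat_lit 1140) (nat_lit 28700500800) (nat_lit 1216) (nat_lit 22572998522) (nat_lit 176) (nat_lit 5) (nat_lit 191) (nat_lit 5) (nat_lit 192) (nat_lit 5) (nat_lit 320) (nat_lit 318) (nat_lit 142)) (XT.lf (nat_lit 0) (nat_lit 24105586370) (nat_lit 1140) (nat_lit 48696523507) (nat_lit 1216) (nat_lit 1989028647) (nat_lit 177) (nat_lit 5) (nat_lit 192) (nat_lit 5) (nat_lit 193) (nat_lit 5) (nat_lit 321) (nat_lit 318) (nat_lit 141)))) (XT.nd (nat_lit 78) (nat_lit 0) (nat_lit 76) (XT.lf (nat_lit 76) (nat_lit 7125230953) (nat_lit 0) (nat_lit 20420420432) (nat_lit 1216) (nat_lit 49168031398) (nat_lit 178) (nat_lit 5) (nat_lit 177) (nat_lit 5) (nat_lit 193) (nat_lit 5) (nat_lit 322) (nat_lit 318) (nat_lit 140)) (XT.nd (nat_lit 78) (nat_lit 0) (nat_lit 76) (XT.lf (nat_lit 0) (nat_lit 31995211238) (nat_lit 1140) (nat_lit 12299789464) (nat_lit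 1216) (nat_lit 34412230594) (nat_lit 178) (nat_lit 5) (nat_lit 193) (nat_lit 5) (nat_lit 194) (nat_lit 5) (nat_lit 323) (nat_lit 318) (nat_lit 139)) (XT.lf (nat_lit 0) (nat_lit 37447561161) (nat_lit 1140) (nat_lit 32293785784) (nat_lit 1216) (nat_lit 11035702629) (nat_lit 179) (nat_lit 5) (nat_lit 194) (nat_lit 5) (nat_lit 195) (nat_lit 5) (nat_lit 324) (nat_lit 318) (nat_lit 138))))) (XT.nd (nat_lit 234) (nat_lit 1520) (nat_lit 0) (XT.nd (nat_lit 78) (nat_lit 0) (nat_lit 76) (XT.lf (nat_lit 76) (nat_lit 29747314359) (nat_lit 0) (nat_lit 14285050640) (nat_lit 1216) (nat_lit 38892200296) (nat_lit 180) (nat_lit 5) (nat_lit 179) (nat_lit 5) (nat_lit 195) (nat_lit 5) (nat_lit 325) (nat_lit 318) (nat_lit 137)) (XT.nd (nat_lit 78) (nat_lit 0) (nat_lit 76) (XT.lf (nat_lit 76) (nat_lit 10167751096) (nat_lit 0) (nat_lit 41633525042) (nat_lit 1216) (nat_lit 33352536195) (nat_lit 181) (nat_lit 5) (nat_lit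 180) (nat_lit 5) (nat_lit 196) (nat_lit 5) (nat_lit 326) (nat_lit 318) (nat_lit 136)) (XT.lf (nat_lit 0) (nat_lit 60811211653) (nat_lit 1140) (nat_lit 9993777998) (nat_lit 1216) (nat_lit 16663956177) (nat_lit 181) (nat_lit 5) (nat_lit 196) (nat_lit 5) (nat_lit 197) (nat_lit 5) (nat_lit 327) (nat_lit 318) (nat_lit 135)))) (XT.nd (nat_lit 156) (nat_lit 608) (nat_lit 0) (XT.nd (nat_lit 78) (nat_lit 1064) (nat_lit 0) (XT.lf (nat_lit 76) (nat_lit 58978022386) (nat_lit 0) (nat_lit 12279844962) (nat_lit 1216) (nat_lit 18612383348) (nat_lit 182) (nat_lit 5) (nat_lit 181) (nat_lit 5) (nat_lit 197) (nat_lit 5) (nat_lit 328) (nat_lit 318) (nat_lit 134)) (XT.lf (nat_lit 0) (nat_lit 39515358822) (nat_lit 1140) (nat_lit 43667017533) (nat_lit 1216) (nat_lit 9180580171) (nat_lit 167) (nat_lit 5) (nat_lit 182) (nat_lit 5) (nat_lit 183) (nat_lit 5) (nat_lit 329) (nat_lit 318) (nat_lit 133))) (XT.nd (nat_lit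 78) (nat_lit 0) (nat_lit 0) (XT.lf (nat_lit 0) (nat_lit 1512296425) (nat_lit 608) (nat_lit 75773287233) (nat_lit 76) (nat_lit 17670399142) (nat_lit 159) (nat_lit 5) (nat_lit 167) (nat_lit 5) (nat_lit 160) (nat_lit 5) (nat_lit 330) (nat_lit 318) (nat_lit 132)) (XT.lf (nat_lit 0) (nat_lit 13541033168) (nat_lit 608) (nat_lit 2283030002) (nat_lit 76) (nat_lit 81822138941) (nat_lit 159) (nat_lit 5) (nat_lit 167) (nat_lit 5) (nat_lit 160) (nat_lit 5) (nat_lit 331) (nat_lit 318) (nat_lit 131)))))) (XT.nd (nat_lit 468) (nat_lit 2508) (nat_lit 0) (XT.nd (nat_lit 234) (nat_lit 988) (nat_lit 0) (XT.nd (nat_lit 78) (nat_lit 1064) (nat_lit 0) (XT.lf (nat_lit 0) (nat_lit 27380050675) (nat_lit 684) (nat_lit 24553145653) (nat_lit 76) (nat_lit 48501471862) (nat_lit 151) (nat_lit 5) (nat_lit 160) (nat_lit 5) (nat_lit 152) (nat_lit 5) (nat_lit 332) (nat_lit 318) (nat_lit 130)) (XT.nd (nat_lit 78) (nat_lit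 532) (nat_lit 0) (XT.lf (nat_lit 0) (nat_lit 42752172957) (nat_lit 608) (nat_lit 47901674031) (nat_lit 76) (nat_lit 12683477032) (nat_lit 144) (nat_lit 5) (nat_lit 152) (nat_lit 5) (nat_lit 145) (nat_lit 5) (nat_lit 333) (nat_lit 318) (nat_lit 129)) (XT.lf (nat_lit 0) (nat_lit 33689436981) (nat_lit 532) (nat_lit 26306010034) (nat_lit 608) (nat_lit 46356590273) (nat_lit 137) (nat_lit 5) (nat_lit 144) (nat_lit 5) (nat_lit 145) (nat_lit 5) (nat_lit 334) (nat_lit 318) (nat_lit 128)))) (XT.nd (nat_lit 78) (nat_lit 532) (nat_lit 0) (XT.lf (nat_lit 0) (nat_lit 10664289011) (nat_lit 456) (nat_lit 68433004060) (nat_lit 532) (nat_lit 30390301864) (nat_lit 131) (nat_lit 5) (nat_lit 137) (nat_lit 5) (nat_lit 138) (nat_lit 5) (nat_lit 335) (nat_lit 318) (nat_lit 127)) (XT.nd (nat_lit 78) (nat_lit 532) (nat_lit 0) (XT.lf (nat_lit 0) (nat_lit 99404448098) (nat_lit 456) (nat_lit 760017114) (nat_lit 532)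 (nat_lit 12585159161) (nat_lit 131) (nat_lit 5) (nat_lit 137) (nat_lit 5) (nat_lit 138) (nat_lit 5) (nat_lit 336) (nat_lit 318) (nat_lit 126)) (XT.lf (nat_lit 0) (nat_lit 7422589691) (nat_lit 532) (nat_lit 38967388487) (nat_lit 76) (nat_lit 69740068439) (nat_lit 124) (nat_lit 5) (nat_lit 131) (nat_lit 5) (nat_lit 125) (nat_lit 5) (nat_lit 337) (nat_lit 318) (nat_lit 125))))) (XT.nd (nat_lit 234) (nat_lit 1216) (nat_lit 0) (XT.nd (nat_lit 78) (nat_lit 836) (nat_lit 0) (XT.lf (nat_lit 0) (nat_lit 29074070184) (nat_lit 532) (nat_lit 66184205911) (nat_lit 76) (nat_lit 24390367785) (nat_lit 118) (nat_lit 5) (nat_lit 125) (nat_lit 5) (nat_lit 119) (nat_lit 5) (nat_lit 338) (nat_lit 318) (nat_lit 124)) (XT.nd (nat_lit 78) (nat_lit 380) (nat_lit 0) (XT.lf (nat_lit 0) (nat_lit 28075999983) (nat_lit 456) (nat_lit 24874738205) (nat_lit 532) (nat_lit 70358155185) (nat_lit 112) (nat_lit 5) (nat_lit 118)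 (nat_lit 5) (nat_lit 119) (nat_lit 5) (nat_lit 339) (nat_lit 318) (nat_lit 123)) (XT.lf (nat_lit 0) (nat_lit 838191857) (nat_lit 380) (nat_lit 78349864837) (nat_lit 456) (nat_lit 47929094870) (nat_lit 107) (nat_lit 5) (nat_lit 112) (nat_lit 5) (nat_lit 113) (nat_lit 5) (nat_lit 340) (nat_lit 318) (nat_lit 122)))) (XT.nd (nat_lit 156) (nat_lit 760) (nat_lit 0) (XT.nd (nat_lit 78) (nat_lit 456) (nat_lit 0) (XT.lf (nat_lit 0) (nat_lit 103446187885) (nat_lit 380) (nat_lit 4519437762) (nat_lit 456) (nat_lit 23113346181) (nat_lit 107) (nat_lit 5) (nat_lit 112) (nat_lit 5) (nat_lit 113) (nat_lit 5) (nat_lit 341) (nat_lit 318) (nat_lit 121)) (XT.lf (nat_lit 0) (nat_lit 4338893982) (nat_lit 456) (nat_lit 58497461381) (nat_lit 76) (nat_lit 72358085550) (nat_lit 101) (nat_lit 5) (nat_lit 107) (nat_lit 5) (nat_lit 102) (nat_lit 5) (nat_lit 342) (nat_lit 318) (nat_lit 120))) (XT.nd (nat_lit 78) (nat_lit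 380) (nat_lit 0) (XT.lf (nat_lit 0) (nat_lit 33622851965) (nat_lit 456) (nat_lit 91656933118) (nat_lit 76) (nat_lit 14200919876) (nat_lit 96) (nat_lit 5) (nat_lit 102) (nat_lit 5) (nat_lit 97) (nat_lit 5) (nat_lit 343) (nat_lit 318) (nat_lit 119)) (XT.lf (nat_lit 0) (nat_lit 16399463105) (nat_lit 380) (nat_lit 49371048333) (nat_lit 456) (nat_lit 78168786249) (nat_lit 91) (nat_lit 5) (nat_lit 96) (nat_lit 5) (nat_lit 97) (nat_lit 5) (nat_lit 344) (nat_lit 318) (nat_lit 118))))))) (XT.nd (nat_lit 39546) (nat_lit 0) (nat_lit 380) (XT.nd (nat_lit 39000) (nat_lit 0) (nat_lit 5776) (XT.nd (nat_lit 38766) (nat_lit 0) (nat_lit 6460) (XT.nd (nat_lit 38610) (nat_lit 0) (nat_lit 6384) (XT.lf (nat_lit 0) (nat_lit 100769517628) (nat_lit 456) (nat_lit 17120032183) (nat_lit 76) (nat_lit 30693951887) (nat_lit 91) (nat_lit 5) (nat_lit 97) (nat_lit 5) (nat_lit 92) (nat_lit 5) (nat_lit 345) (nat_lit 318) (nat_lit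 117)) (XT.nd (nat_lit 78) (nat_lit 0) (nat_lit 0) (XT.lf (nat_lit 0) (nat_lit 5013037822) (nat_lit 0) (nat_lit 5013037822) (nat_lit 1140) (nat_lit 26421906696) (nat_lit 175) (nat_lit 5) (nat_lit 175) (nat_lit 3) (nat_lit 190) (nat_lit 3) (nat_lit 319) (nat_lit 319) (nat_lit 142)) (XT.lf (nat_lit 0) (nat_lit 21002869074) (nat_lit 1140) (nat_lit 9812970782) (nat_lit 1216) (nat_lit 43889012201) (nat_lit 175) (nat_lit 5) (nat_lit 190) (nat_lit 3) (nat_lit 191) (nat_lit 5) (nat_lit 320) (nat_lit 319) (nat_lit 141)))) (XT.nd (nat_lit 78) (nat_lit 0) (nat_lit 76) (XT.lf (nat_lit 0) (nat_lit 22782274669) (nat_lit 1140) (nat_lit 30113572087) (nat_lit 1216) (nat_lit 23684904367) (nat_lit 176) (nat_lit 5) (nat_lit 191) (nat_lit 5) (nat_lit 192) (nat_lit 5) (nat_lit 321) (nat_lit 319) (nat_lit 140)) (XT.nd (nat_lit 78) (nat_lit 0) (nat_lit 0) (XT.lf (nat_lit 0) (nat_lit 25346658500) (nat_lit 1140) (nat_lit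 51108751828) (nat_lit 1216) (nat_lit 2074156363) (nat_lit 177) (nat_lit 5) (nat_lit 192) (nat_lit 5) (nat_lit 193) (nat_lit 5) (nat_lit 322) (nat_lit 319) (nat_lit 139)) (XT.lf (nat_lit 76) (nat_lit 7503442592) (nat_lit 0) (nat_lit 21453790752) (nat_lit 1216) (nat_lit 51591052239) (nat_lit 178) (nat_lit 5) (nat_lit 177) (nat_lit 5) (nat_lit 193) (nat_lit 5) (nat_lit 323) (nat_lit 319) (nat_lit 138))))) (XT.nd (nat_lit 234) (nat_lit 836) (nat_lit 0) (XT.nd (nat_lit 78) (nat_lit 0) (nat_lit 76) (XT.lf (nat_lit 0) (nat_lit 33627524829) (nat_lit 1140) (nat_lit 12892731185) (nat_lit 1216) (nat_lit 36121310391) (nat_lit 178) (nat_lit 5) (nat_lit 193) (nat_lit 5) (nat_lit 194) (nat_lit 5) (nat_lit 324) (nat_lit 319) (nat_lit 137)) (XT.nd (nat_lit 78) (nat_lit 0) (nat_lit 0) (XT.lf (nat_lit 0) (nat_lit 39351053829) (nat_lit 1140) (nat_lit 33885981427) (nat_lit 1216) (nat_lit 11577885868) (nat_lit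 179) (nat_lit 5) (nat_lit 194) (nat_lit 5) (nat_lit 195) (nat_lit 5) (nat_lit 325) (nat_lit 319) (nat_lit 136)) (XT.lf (nat_lit 76) (nat_lit 31256528948) (nat_lit 0) (nat_lit 15007297287) (nat_lit 1216) (nat_lit 40806026805) (nat_lit 180) (nat_lit 5) (nat_lit 179) (nat_lit 5) (nat_lit 195) (nat_lit 5) (nat_lit 326) (nat_lit 319) (nat_lit 135)))) (XT.nd (nat_lit 156) (nat_lit 988) (nat_lit 0) (XT.nd (nat_lit 78) (nat_lit 0) (nat_lit 76) (XT.lf (nat_lit 76) (nat_lit 10698349428) (nat_lit 0) (nat_lit 43721552727) (nat_lit 1216) (nat_lit 34990700852) (nat_lit 181) (nat_lit 5) (nat_lit 180) (nat_lit 5) (nat_lit 196) (nat_lit 5) (nat_lit 327) (nat_lit 319) (nat_lit 134)) (XT.lf (nat_lit 0) (nat_lit 63878916194) (nat_lit 1140) (nat_lit 10471398543) (nat_lit 1216) (nat_lit 17491223039) (nat_lit 181) (nat_lit 5) (nat_lit 196) (nat_lit 5) (nat_lit 197) (nat_lit 5) (nat_lit 328) (nat_lit 319) (nat_lit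 133))) (XT.nd (nat_lit 78) (nat_lit 1064) (nat_lit 0) (XT.lf (nat_lit 76) (nat_lit 61948359275) (nat_lit 0) (nat_lit 12898458883) (nat_lit 1216) (nat_lit 19516124279) (nat_lit 182) (nat_lit 5) (nat_lit 181) (nat_lit 5) (nat_lit 197) (nat_lit 5) (nat_lit 329) (nat_lit 319) (nat_lit 132)) (XT.lf (nat_lit 0) (nat_lit 41512788500) (nat_lit 1140) (nat_lit 45853689201) (nat_lit 1216) (nat_lit 9613839967) (nat_lit 167) (nat_lit 5) (nat_lit 182) (nat_lit 5) (nat_lit 183) (nat_lit 5) (nat_lit 330) (nat_lit 319) (nat_lit 131)))))) (XT.nd (nat_lit 546) (nat_lit 2660) (nat_lit 0) (XT.nd (nat_lit 234) (nat_lit 1520) (nat_lit 0) (XT.nd (nat_lit 78) (nat_lit 608) (nat_lit 0) (XT.lf (nat_lit 0) (nat_lit 1612155725) (nat_lit 608) (nat_lit 79539598727) (nat_lit 76) (nat_lit 18551265747) (nat_lit 159) (nat_lit 5) (nat_lit 167) (nat_lit 5) (nat_lit 160) (nat_lit 5) (nat_lit 331) (nat_lit 319) (nat_lit 130))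 (XT.nd (nat_lit 78) (nat_lit 608) (nat_lit 0) (XT.lf (nat_lit 0) (nat_lit 14241174807) (nat_lit 608) (nat_lit 2375893057) (nat_lit 76) (nat_lit 85910718886) (nat_lit 159) (nat_lit 5) (nat_lit 167) (nat_lit 5) (nat_lit 160) (nat_lit 5) (nat_lit 332) (nat_lit 319) (nat_lit 129)) (XT.lf (nat_lit 0) (nat_lit 28771227913) (nat_lit 684) (nat_lit 25759413311) (nat_lit 76) (nat_lit 50925063927) (nat_lit 151) (nat_lit 5) (nat_lit 160) (nat_lit 5) (nat_lit 152) (nat_lit 5) (nat_lit 333) (nat_lit 319) (nat_lit 128)))) (XT.nd (nat_lit 156) (nat_lit 456) (nat_lit 0) (XT.nd (nat_lit 78) (nat_lit 532) (nat_lit 0) (XT.lf (nat_lit 0) (nat_lit 44911094877) (nat_lit 608) (nat_lit 50275306752) (nat_lit 76) (nat_lit 13317119473) (nat_lit 144) (nat_lit 5) (nat_lit 152) (nat_lit 5) (nat_lit 145) (nat_lit 5) (nat_lit 334) (nat_lit 319) (nat_lit 127)) (XT.lf (nat_lit 0) (nat_lit 35394744923) (nat_lit 532) (nat_lit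 27620973086) (nat_lit 608) (nat_lit 48653277877) (nat_lit 137) (nat_lit 5) (nat_lit 144) (nat_lit 5) (nat_lit 145) (nat_lit 5) (nat_lit 335) (nat_lit 319) (nat_lit 126))) (XT.nd (nat_lit 78) (nat_lit 0) (nat_lit 0) (XT.lf (nat_lit 0) (nat_lit 11218363967) (nat_lit 456) (nat_lit 71853519889) (nat_lit 532) (nat_lit 31889472084) (nat_lit 131) (nat_lit 5) (nat_lit 137) (nat_lit 5) (nat_lit 138) (nat_lit 5) (nat_lit 336) (nat_lit 319) (nat_lit 125)) (XT.lf (nat_lit 0) (nat_lit 104394537651) (nat_lit 456) (nat_lit 796937613) (nat_lit 532) (nat_lit 13195041050) (nat_lit 131) (nat_lit 5) (nat_lit 137) (nat_lit 5) (nat_lit 138) (nat_lit 5) (nat_lit 337) (nat_lit 319) (nat_lit 124))))) (XT.nd (nat_lit 234) (nat_lit 1216) (nat_lit 0) (XT.nd (nat_lit 78) (nat_lit 912) (nat_lit 0) (XT.lf (nat_lit 0) (nat_lit 7812015267) (nat_lit 532) (nat_lit 40895510085) (nat_lit 76) (nat_lit 73228450974) (nat_lit 124)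 (nat_lit 5) (nat_lit 131) (nat_lit 5) (nat_lit 125) (nat_lit 5) (nat_lit 338) (nat_lit 319) (nat_lit 123)) (XT.nd (nat_lit 78) (nat_lit 456) (nat_lit 0) (XT.lf (nat_lit 0) (nat_lit 30545407337) (nat_lit 532) (nat_lit 69473217494) (nat_lit 76) (nat_lit 25611899625) (nat_lit 118) (nat_lit 5) (nat_lit 125) (nat_lit 5) (nat_lit 119) (nat_lit 5) (nat_lit 339) (nat_lit 319) (nat_lit 122)) (XT.lf (nat_lit 0) (nat_lit 29499419703) (nat_lit 456) (nat_lit 26115837939) (nat_lit 532) (nat_lit 73858549392) (nat_lit 112) (nat_lit 5) (nat_lit 118) (nat_lit 5) (nat_lit 119) (nat_lit 5) (nat_lit 340) (nat_lit 319) (nat_lit 121)))) (XT.nd (nat_lit 156) (nat_lit 836) (nat_lit 0) (XT.nd (nat_lit 78) (nat_lit 0) (nat_lit 0) (XT.lf (nat_lit 0) (nat_lit 899649939) (nat_lit 380) (nat_lit 82264195496) (nat_lit 456) (nat_lit 50308651623) (nat_lit 107) (nat_lit 5) (nat_lit 112) (nat_lit 5) (nat_lit 113) (nat_lit 5)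 (nat_lit 341) (nat_lit 319) (nat_lit 120)) (XT.lf (nat_lit 0) (nat_lit 108637114888) (nat_lit 380) (nat_lit 4742397667) (nat_lit 456) (nat_lit 24252920166) (nat_lit 107) (nat_lit 5) (nat_lit 112) (nat_lit 5) (nat_lit 113) (nat_lit 5) (nat_lit 342) (nat_lit 319) (nat_lit 119))) (XT.nd (nat_lit 78) (nat_lit 380) (nat_lit 0) (XT.lf (nat_lit 0) (nat_lit 4571074300) (nat_lit 456) (nat_lit 61403483637) (nat_lit 76) (nat_lit 75979129894) (nat_lit 101) (nat_lit 5) (nat_lit 107) (nat_lit 5) (nat_lit 102) (nat_lit 5) (nat_lit 343) (nat_lit 319) (nat_lit 118)) (XT.lf (nat_lit 0) (nat_lit 35318715527) (nat_lit 456) (nat_lit 96221046374) (nat_lit 76) (nat_lit 14914519479) (nat_lit 96) (nat_lit 5) (nat_lit 102) (nat_lit 5) (nat_lit 97) (nat_lit 5) (nat_lit 344) (nat_lit 319) (nat_lit 117))))))))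
noncomputable def xc124 : XT := (XT.nd (nat_lit 79404) (nat_lit 0) (nat_lit 1216) (XT.nd (nat_lit 39624) (nat_lit 0) (nat_lit 760) (XT.nd (nat_lit 39078) (nat_lit 0) (nat_lit 5776) (XT.nd (nat_lit 38844) (nat_lit 0) (nat_lit 6460) (XT.nd (nat_lit 38688) (nat_lit 0) (nat_lit 6384) (XT.lf (nat_lit 0) (nat_lit 17237632672) (nat_lit 380) (nat_lit 51835599219) (nat_lit 456) (nat_lit 82062588455) (nat_lit 91) (nat_lit 5) (nat_lit 96) (nat_lit 5) (nat_lit 97) (nat_lit 5) (nat_lit 345) (nat_lit 319) (nat_lit 116)) (XT.nd (nat_lit 78) (nat_lit 0) (nat_lit 0) (XT.lf (nat_lit 0) (nat_lit 5273105165) (nat_lit 0) (nat_lit 5273105165) (nat_lit 1140) (nat_lit 27723577338) (nat_lit 175) (nat_lit 5) (nat_lit 175) (nat_lit 3) (nat_lit 190) (nat_lit 3) (nat_lit 320) (nat_lit 320) (nat_lit 140)) (XT.lf (nat_lit 0) (nat_lit 22088708521) (nat_lit 1140) (nat_lit 10284381706) (nat_lit 1216) (nat_lit 46065878579)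 (nat_lit 175) (nat_lit 5) (nat_lit 190) (nat_lit 3) (nat_lit 191) (nat_lit 5) (nat_lit 321) (nat_lit 320) (nat_lit 139)))) (XT.nd (nat_lit 78) (nat_lit 0) (nat_lit 76) (XT.lf (nat_lit 0) (nat_lit 23955415313) (nat_lit 1140) (nat_lit 31599337990) (nat_lit 1216) (nat_lit 24853962211) (nat_lit 176) (nat_lit 5) (nat_lit 191) (nat_lit 5) (nat_lit 192) (nat_lit 5) (nat_lit 322) (nat_lit 320) (nat_lit 138)) (XT.nd (nat_lit 78) (nat_lit 0) (nat_lit 0) (XT.lf (nat_lit 0) (nat_lit 26646456560) (nat_lit 1140) (nat_lit 53643692499) (nat_lit 1216) (nat_lit 2164872147) (nat_lit 177) (nat_lit 5) (nat_lit 192) (nat_lit 5) (nat_lit 193) (nat_lit 5) (nat_lit 323) (nat_lit 320) (nat_lit 137)) (XT.lf (nat_lit 76) (nat_lit 7898524102) (nat_lit 0) (nat_lit 22537681467) (nat_lit 1216) (nat_lit 54138513487) (nat_lit 178) (nat_lit 5) (nat_lit 177) (nat_lit 5) (nat_lit 193) (nat_lit 5) (nat_lit 324) (nat_lit 320)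 (nat_lit 136))))) (XT.nd (nat_lit 234) (nat_lit 836) (nat_lit 0) (XT.nd (nat_lit 78) (nat_lit 0) (nat_lit 76) (XT.lf (nat_lit 0) (nat_lit 35338427627) (nat_lit 1140) (nat_lit 13517369783) (nat_lit 1216) (nat_lit 37916916290) (nat_lit 178) (nat_lit 5) (nat_lit 193) (nat_lit 5) (nat_lit 194) (nat_lit 5) (nat_lit 325) (nat_lit 320) (nat_lit 135)) (XT.nd (nat_lit 78) (nat_lit 0) (nat_lit 0) (XT.lf (nat_lit 0) (nat_lit 41346828389) (nat_lit 1140) (nat_lit 35559878097) (nat_lit 1216) (nat_lit 12148070963) (nat_lit 179) (nat_lit 5) (nat_lit 194) (nat_lit 5) (nat_lit 195) (nat_lit 5) (nat_lit 326) (nat_lit 320) (nat_lit 134)) (XT.lf (nat_lit 76) (nat_lit 32839172966) (nat_lit 0) (nat_lit 15764913050) (nat_lit 1216) (nat_lit 42818406599) (nat_lit 180) (nat_lit 5) (nat_lit 179) (nat_lit 5) (nat_lit 195) (nat_lit 5) (nat_lit 327) (nat_lit 320) (nat_lit 133)))) (XT.nd (nat_lit 156) (nat_lit 988) (nat_lit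 0) (XT.nd (nat_lit 78) (nat_lit 0) (nat_lit 76) (XT.lf (nat_lit 76) (nat_lit 11253412730) (nat_lit 0) (nat_lit 45913391300) (nat_lit 1216) (nat_lit 36713512855) (nat_lit 181) (nat_lit 5) (nat_lit 180) (nat_lit 5) (nat_lit 196) (nat_lit 5) (nat_lit 328) (nat_lit 320) (nat_lit 132)) (XT.lf (nat_lit 0) (nat_lit 67097482375) (nat_lit 1140) (nat_lit 10974951822) (nat_lit 1216) (nat_lit 18360404648) (nat_lit 181) (nat_lit 5) (nat_lit 196) (nat_lit 5) (nat_lit 197) (nat_lit 5) (nat_lit 329) (nat_lit 320) (nat_lit 131))) (XT.nd (nat_lit 78) (nat_lit 1064) (nat_lit 0) (XT.lf (nat_lit 76) (nat_lit 65065220114) (nat_lit 0) (nat_lit 13547573821) (nat_lit 1216) (nat_lit 20467551140) (nat_lit 182) (nat_lit 5) (nat_lit 181) (nat_lit 5) (nat_lit 197) (nat_lit 5) (nat_lit 330) (nat_lit 320) (nat_lit 130)) (XT.lf (nat_lit 0) (nat_lit 43608075758) (nat_lit 1140) (nat_lit 48149385716) (nat_lit 1216) (nat_lit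 10071158529) (nat_lit 167) (nat_lit 5) (nat_lit 182) (nat_lit 5) (nat_lit 183) (nat_lit 5) (nat_lit 331) (nat_lit 320) (nat_lit 129)))))) (XT.nd (nat_lit 468) (nat_lit 2280) (nat_lit 0) (XT.nd (nat_lit 234) (nat_lit 1520) (nat_lit 0) (XT.nd (nat_lit 78) (nat_lit 608) (nat_lit 0) (XT.lf (nat_lit 0) (nat_lit 1714753969) (nat_lit 608) (nat_lit 83496303954) (nat_lit 76) (nat_lit 19476422366) (nat_lit 159) (nat_lit 5) (nat_lit 167) (nat_lit 5) (nat_lit 160) (nat_lit 5) (nat_lit 332) (nat_lit 320) (nat_lit 128)) (XT.nd (nat_lit 78) (nat_lit 608) (nat_lit 0) (XT.lf (nat_lit 0) (nat_lit 14974176840) (nat_lit 608) (nat_lit 2475378462) (nat_lit 76) (nat_lit 90203962766) (nat_lit 159) (nat_lit 5) (nat_lit 167) (nat_lit 5) (nat_lit 160) (nat_lit 5) (nat_lit 333) (nat_lit 320) (nat_lit 127)) (XT.lf (nat_lit 0) (nat_lit 30229902419) (nat_lit 684) (nat_lit 27027982956) (nat_lit 76) (nat_lit 53469973335)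 (nat_lit 151) (nat_lit 5) (nat_lit 160) (nat_lit 5) (nat_lit 152) (nat_lit 5) (nat_lit 334) (nat_lit 320) (nat_lit 126)))) (XT.nd (nat_lit 78) (nat_lit 988) (nat_lit 0) (XT.lf (nat_lit 0) (nat_lit 47175981387) (nat_lit 608) (nat_lit 52769615418) (nat_lit 76) (nat_lit 13982493442) (nat_lit 144) (nat_lit 5) (nat_lit 152) (nat_lit 5) (nat_lit 145) (nat_lit 5) (nat_lit 335) (nat_lit 320) (nat_lit 125)) (XT.nd (nat_lit 78) (nat_lit 456) (nat_lit 0) (XT.lf (nat_lit 0) (nat_lit 37183381120) (nat_lit 532) (nat_lit 29001715665) (nat_lit 608) (nat_lit 51066765437) (nat_lit 137) (nat_lit 5) (nat_lit 144) (nat_lit 5) (nat_lit 145) (nat_lit 5) (nat_lit 336) (nat_lit 320) (nat_lit 124)) (XT.lf (nat_lit 0) (nat_lit 11798203259) (nat_lit 456) (nat_lit 75445166973) (nat_lit 532) (nat_lit 33465492289) (nat_lit 131) (nat_lit 5) (nat_lit 137) (nat_lit 5) (nat_lit 138) (nat_lit 5) (nat_lit 337) (nat_lit 320)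 (nat_lit 123))))) (XT.nd (nat_lit 234) (nat_lit 1292) (nat_lit 0) (XT.nd (nat_lit 78) (nat_lit 988) (nat_lit 0) (XT.lf (nat_lit 0) (nat_lit 109632284622) (nat_lit 456) (nat_lit 835804579) (nat_lit 532) (nat_lit 13837218436) (nat_lit 131) (nat_lit 5) (nat_lit 137) (nat_lit 5) (nat_lit 138) (nat_lit 5) (nat_lit 338) (nat_lit 320) (nat_lit 122)) (XT.nd (nat_lit 78) (nat_lit 456) (nat_lit 0) (XT.lf (nat_lit 0) (nat_lit 8219211125) (nat_lit 532) (nat_lit 42921920214) (nat_lit 76) (nat_lit 76891124418) (nat_lit 124) (nat_lit 5) (nat_lit 131) (nat_lit 5) (nat_lit 125) (nat_lit 5) (nat_lit 339) (nat_lit 320) (nat_lit 121)) (XT.lf (nat_lit 0) (nat_lit 32088671939) (nat_lit 532) (nat_lit 72928557541) (nat_lit 76) (nat_lit 26894320865) (nat_lit 118) (nat_lit 5) (nat_lit 125) (nat_lit 5) (nat_lit 119) (nat_lit 5) (nat_lit 340) (nat_lit 320) (nat_lit 120)))) (XT.nd (nat_lit 156) (nat_lit 456) (nat_lit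 0) (XT.nd (nat_lit 78) (nat_lit 380) (nat_lit 0) (XT.lf (nat_lit 0) (nat_lit 30992186353) (nat_lit 456) (nat_lit 27419237838) (nat_lit 532) (nat_lit 77535591554) (nat_lit 112) (nat_lit 5) (nat_lit 118) (nat_lit 5) (nat_lit 119) (nat_lit 5) (nat_lit 341) (nat_lit 320) (nat_lit 119)) (XT.lf (nat_lit 0) (nat_lit 962363492) (nat_lit 380) (nat_lit 86374536715) (nat_lit 456) (nat_lit 52808757229) (nat_lit 107) (nat_lit 5) (nat_lit 112) (nat_lit 5) (nat_lit 113) (nat_lit 5) (nat_lit 342) (nat_lit 320) (nat_lit 118))) (XT.nd (nat_lit 78) (nat_lit 456) (nat_lit 0) (XT.lf (nat_lit 0) (nat_lit 114085857352) (nat_lit 380) (nat_lit 4976785592) (nat_lit 456) (nat_lit 25450969055) (nat_lit 107) (nat_lit 5) (nat_lit 112) (nat_lit 5) (nat_lit 113) (nat_lit 5) (nat_lit 343) (nat_lit 320) (nat_lit 117)) (XT.lf (nat_lit 0) (nat_lit 4813447170) (nat_lit 456) (nat_lit 64456559577) (nat_lit 76) (nat_lit 79780934521)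 (nat_lit 101) (nat_lit 5) (nat_lit 107) (nat_lit 5) (nat_lit 102) (nat_lit 5) (nat_lit 344) (nat_lit 320) (nat_lit 116))))))) (XT.nd (nat_lit 1014) (nat_lit 3952) (nat_lit 0) (XT.nd (nat_lit 468) (nat_lit 1216) (nat_lit 0) (XT.nd (nat_lit 234) (nat_lit 0) (nat_lit 152) (XT.nd (nat_lit 78) (nat_lit 0) (nat_lit 0) (XT.lf (nat_lit 0) (nat_lit 5545300515) (nat_lit 0) (nat_lit 5545300515) (nat_lit 1140) (nat_lit 29092137436) (nat_lit 175) (nat_lit 5) (nat_lit 175) (nat_lit 3) (nat_lit 190) (nat_lit 3) (nat_lit 321) (nat_lit 321) (nat_lit 138)) (XT.nd (nat_lit 78) (nat_lit 0) (nat_lit 76) (XT.lf (nat_lit 0) (nat_lit 23225521265) (nat_lit 1140) (nat_lit 10781151707) (nat_lit 1216) (nat_lit 48353223090) (nat_lit 175) (nat_lit 5) (nat_lit 190) (nat_lit 3) (nat_lit 191) (nat_lit 5) (nat_lit 322) (nat_lit 321) (nat_lit 137)) (XT.lf (nat_lit 0) (nat_lit 25184049490) (nat_lit 1140) (nat_lit 33161243483)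 (nat_lit 1216) (nat_lit 26082884924) (nat_lit 176) (nat_lit 5) (nat_lit 191) (nat_lit 5) (nat_lit 192) (nat_lit 5) (nat_lit 323) (nat_lit 321) (nat_lit 136)))) (XT.nd (nat_lit 78) (nat_lit 0) (nat_lit 0) (XT.lf (nat_lit 0) (nat_lit 28008226223) (nat_lit 1140) (nat_lit 56307285813) (nat_lit 1216) (nat_lit 2261331597) (nat_lit 177) (nat_lit 5) (nat_lit 192) (nat_lit 5) (nat_lit 193) (nat_lit 5) (nat_lit 324) (nat_lit 321) (nat_lit 135)) (XT.nd (nat_lit 78) (nat_lit 0) (nat_lit 76) (XT.lf (nat_lit 76) (nat_lit 8311508701) (nat_lit 0) (nat_lit 23674725339) (nat_lit 1216) (nat_lit 56816331348) (nat_lit 178) (nat_lit 5) (nat_lit 177) (nat_lit 5) (nat_lit 193) (nat_lit 5) (nat_lit 325) (nat_lit 321) (nat_lit 134)) (XT.lf (nat_lit 0) (nat_lit 37132130466) (nat_lit 1140) (nat_lit 14175099532) (nat_lit 1216) (nat_lit 39803274920) (nat_lit 178) (nat_lit 5) (nat_lit 193) (nat_lit 5) (nat_lit 194) (nat_lit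 5) (nat_lit 326) (nat_lit 321) (nat_lit 133))))) (XT.nd (nat_lit 234) (nat_lit 1520) (nat_lit 0) (XT.nd (nat_lit 78) (nat_lit 0) (nat_lit 0) (XT.lf (nat_lit 0) (nat_lit 43439767876) (nat_lit 1140) (nat_lit 37319366423) (nat_lit 1216) (nat_lit 12747575011) (nat_lit 179) (nat_lit 5) (nat_lit 194) (nat_lit 5) (nat_lit 195) (nat_lit 5) (nat_lit 327) (nat_lit 321) (nat_lit 132)) (XT.nd (nat_lit 78) (nat_lit 0) (nat_lit 76) (XT.lf (nat_lit 76) (nat_lit 34499106734) (nat_lit 0) (nat_lit 16559735482) (nat_lit 1216) (nat_lit 44934001263) (nat_lit 180) (nat_lit 5) (nat_lit 179) (nat_lit 5) (nat_lit 195) (nat_lit 5) (nat_lit 328) (nat_lit 321) (nat_lit 131)) (XT.lf (nat_lit 76) (nat_lit 11834356228) (nat_lit 0) (nat_lit 48214286205) (nat_lit 1216) (nat_lit 38524949912) (nat_lit 181) (nat_lit 5) (nat_lit 180) (nat_lit 5) (nat_lit 196) (nat_lit 5) (nat_lit 329) (nat_lit 321) (nat_lit 130)))) (XT.nd (nat_lit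 156) (nat_lit 1672) (nat_lit 0) (XT.nd (nat_lit 78) (nat_lit 0) (nat_lit 0) (XT.lf (nat_lit 0) (nat_lit 70474687896) (nat_lit 1140) (nat_lit 11505543723) (nat_lit 1216) (nat_lit 19273545476) (nat_lit 181) (nat_lit 5) (nat_lit 196) (nat_lit 5) (nat_lit 197) (nat_lit 5) (nat_lit 330) (nat_lit 321) (nat_lit 129)) (XT.lf (nat_lit 76) (nat_lit 68336116381) (nat_lit 0) (nat_lit 14228754774) (nat_lit 1216) (nat_lit 21468815905) (nat_lit 182) (nat_lit 5) (nat_lit 181) (nat_lit 5) (nat_lit 197) (nat_lit 5) (nat_lit 331) (nat_lit 321) (nat_lit 128))) (XT.nd (nat_lit 78) (nat_lit 608) (nat_lit 0) (XT.lf (nat_lit 0) (nat_lit 45806300710) (nat_lit 1140) (nat_lit 50559587025) (nat_lit 1216) (nat_lit 10553516060) (nat_lit 167) (nat_lit 5) (nat_lit 182) (nat_lit 5) (nat_lit 183) (nat_lit 5) (nat_lit 332) (nat_lit 321) (nat_lit 127)) (XT.lf (nat_lit 0) (nat_lit 1820437660) (nat_lit 608) (nat_lit 87652729392)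 (nat_lit 76) (nat_lit 20448060565) (nat_lit 159) (nat_lit 5) (nat_lit 167) (nat_lit 5) (nat_lit 160) (nat_lit 5) (nat_lit 333) (nat_lit 321) (nat_lit 126)))))) (XT.nd (nat_lit 546) (nat_lit 1292) (nat_lit 0) (XT.nd (nat_lit 234) (nat_lit 1520) (nat_lit 0) (XT.nd (nat_lit 78) (nat_lit 1140) (nat_lit 0) (XT.lf (nat_lit 0) (nat_lit 15741881866) (nat_lit 608) (nat_lit 2581633329) (nat_lit 76) (nat_lit 94712081933) (nat_lit 159) (nat_lit 5) (nat_lit 167) (nat_lit 5) (nat_lit 160) (nat_lit 5) (nat_lit 334) (nat_lit 321) (nat_lit 125)) (XT.nd (nat_lit 78) (nat_lit 532) (nat_lit 0) (XT.lf (nat_lit 0) (nat_lit 31759640724) (nat_lit 684) (nat_lit 28361784807) (nat_lit 76) (nat_lit 56142253145) (nat_lit 151) (nat_lit 5) (nat_lit 160) (nat_lit 5) (nat_lit 152) (nat_lit 5) (nat_lit 335) (nat_lit 321) (nat_lit 124)) (XT.lf (nat_lit 0) (nat_lit 49552314939) (nat_lit 608) (nat_lit 55390448414) (nat_lit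 76) (nat_lit 14681180921) (nat_lit 144) (nat_lit 5) (nat_lit 152) (nat_lit 5) (nat_lit 145) (nat_lit 5) (nat_lit 336) (nat_lit 321) (nat_lit 123)))) (XT.nd (nat_lit 156) (nat_lit 532) (nat_lit 0) (XT.nd (nat_lit 78) (nat_lit 456) (nat_lit 0) (XT.lf (nat_lit 0) (nat_lit 39059692080) (nat_lit 532) (nat_lit 30451523828) (nat_lit 608) (nat_lit 53602710208) (nat_lit 137) (nat_lit 5) (nat_lit 144) (nat_lit 5) (nat_lit 145) (nat_lit 5) (nat_lit 337) (nat_lit 321) (nat_lit 122)) (XT.lf (nat_lit 0) (nat_lit 12405275411) (nat_lit 456) (nat_lit 79216492069) (nat_lit 532) (nat_lit 35122029126) (nat_lit 131) (nat_lit 5) (nat_lit 137) (nat_lit 5) (nat_lit 138) (nat_lit 5) (nat_lit 338) (nat_lit 321) (nat_lit 121))) (XT.nd (nat_lit 78) (nat_lit 532) (nat_lit 0) (XT.lf (nat_lit 0) (nat_lit 115130243605) (nat_lit 456) (nat_lit 876705996) (nat_lit 532) (nat_lit 14513138617) (nat_lit 131) (nat_lit 5) (nat_lit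 137) (nat_lit 5) (nat_lit 138) (nat_lit 5) (nat_lit 339) (nat_lit 321) (nat_lit 120)) (XT.lf (nat_lit 0) (nat_lit 8645223922) (nat_lit 532) (nat_lit 45051358288) (nat_lit 76) (nat_lit 80736815238) (nat_lit 124) (nat_lit 5) (nat_lit 131) (nat_lit 5) (nat_lit 125) (nat_lit 5) (nat_lit 340) (nat_lit 321) (nat_lit 119))))) (XT.nd (nat_lit 234) (nat_lit 0) (nat_lit 0) (XT.nd (nat_lit 78) (nat_lit 836) (nat_lit 0) (XT.lf (nat_lit 0) (nat_lit 33707612779) (nat_lit 532) (nat_lit 76558367887) (nat_lit 76) (nat_lit 28240693378) (nat_lit 118) (nat_lit 5) (nat_lit 125) (nat_lit 5) (nat_lit 119) (nat_lit 5) (nat_lit 341) (nat_lit 321) (nat_lit 118)) (XT.nd (nat_lit 78) (nat_lit 380) (nat_lit 0) (XT.lf (nat_lit 0) (nat_lit 32557936864) (nat_lit 456) (nat_lit 28788030118) (nat_lit 532) (nat_lit 81397962689) (nat_lit 112) (nat_lit 5) (nat_lit 118) (nat_lit 5) (nat_lit 119) (nat_lit 5) (nat_lit 342) (nat_lit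 321) (nat_lit 117)) (XT.lf (nat_lit 0) (nat_lit 1026564257) (nat_lit 380) (nat_lit 90690661686) (nat_lit 456) (nat_lit 55435293072) (nat_lit 107) (nat_lit 5) (nat_lit 112) (nat_lit 5) (nat_lit 113) (nat_lit 5) (nat_lit 343) (nat_lit 321) (nat_lit 116)))) (XT.nd (nat_lit 39000) (nat_lit 0) (nat_lit 5168) (XT.nd (nat_lit 38922) (nat_lit 0) (nat_lit 5168) (XT.lf (nat_lit 0) (nat_lit 119805466973) (nat_lit 380) (nat_lit 5223146905) (nat_lit 456) (nat_lit 26710277490) (nat_lit 107) (nat_lit 5) (nat_lit 112) (nat_lit 5) (nat_lit 113) (nat_lit 5) (nat_lit 344) (nat_lit 321) (nat_lit 115)) (XT.lf (nat_lit 0) (nat_lit 5830311656) (nat_lit 0) (nat_lit 5830311656) (nat_lit 1140) (nat_lit 30530763565) (nat_lit 175) (nat_lit 5) (nat_lit 175) (nat_lit 3) (nat_lit 190) (nat_lit 3) (nat_lit 322) (nat_lit 322) (nat_lit 136))) (XT.nd (nat_lit 78) (nat_lit 0) (nat_lit 76) (XT.lf (nat_lit 0) (nat_lit 24416164510)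 (nat_lit 1140) (nat_lit 11304382458) (nat_lit 1216) (nat_lit 50756417652) (nat_lit 175) (nat_lit 5) (nat_lit 190) (nat_lit 3) (nat_lit 191) (nat_lit 5) (nat_lit 323) (nat_lit 322) (nat_lit 135)) (XT.lf (nat_lit 0) (nat_lit 26471245988) (nat_lit 1140) (nat_lit 34802923429) (nat_lit 1216) (nat_lit 27374534480) (nat_lit 176) (nat_lit 5) (nat_lit 191) (nat_lit 5) (nat_lit 192) (nat_lit 5) (nat_lit 324) (nat_lit 322) (nat_lit 134))))))))
noncomputable def xc125 : XT := (XT.nd (nat_lit 41028) (nat_lit 0) (nat_lit 456) (XT.nd (nat_lit 1014) (nat_lit 2432) (nat_lit 0) (XT.nd (nat_lit 468) (nat_lit 2508) (nat_lit 0) (XT.nd (nat_lit 234) (nat_lit 0) (nat_lit 152) (XT.nd (nat_lit 78) (nat_lit 0) (nat_lit 0) (XT.lf (nat_lit 0) (nat_lit 29435346681) (nat_lit 1140) (nat_lit 59105787237) (nat_lit 1216) (nat_lit 2363709599) (nat_lit 177) (nat_lit 5) (nat_lit 192) (nat_lit 5) (nat_lit 193) (nat_lit 5) (nat_lit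 325) (nat_lit 322) (nat_lit 133)) (XT.nd (nat_lit 78) (nat_lit 0) (nat_lit 76) (XT.lf (nat_lit 76) (nat_lit 8743463633) (nat_lit 0) (nat_lit 24867676842) (nat_lit 1216) (nat_lit 59630746270) (nat_lit 178) (nat_lit 5) (nat_lit 177) (nat_lit 5) (nat_lit 193) (nat_lit 5) (nat_lit 326) (nat_lit 322) (nat_lit 132)) (XT.lf (nat_lit 0) (nat_lit 39013028561) (nat_lit 1140) (nat_lit 14867402136) (nat_lit 1216) (nat_lit 41784833510) (nat_lit 178) (nat_lit 5) (nat_lit 193) (nat_lit 5) (nat_lit 194) (nat_lit 5) (nat_lit 327) (nat_lit 322) (nat_lit 131)))) (XT.nd (nat_lit 78) (nat_lit 0) (nat_lit 0) (XT.lf (nat_lit 0) (nat_lit 45634974471) (nat_lit 1140) (nat_lit 39168549639) (nat_lit 1216) (nat_lit 13377788682) (nat_lit 179) (nat_lit 5) (nat_lit 194) (nat_lit 5) (nat_lit 195) (nat_lit 5) (nat_lit 328) (nat_lit 322) (nat_lit 130)) (XT.nd (nat_lit 78) (nat_lit 0) (nat_lit 76) (XT.lf (nat_lit 76) (nat_lit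 36240366035) (nat_lit 0) (nat_lit 17393687588) (nat_lit 1216) (nat_lit 47157730201) (nat_lit 180) (nat_lit 5) (nat_lit 179) (nat_lit 5) (nat_lit 195) (nat_lit 5) (nat_lit 329) (nat_lit 322) (nat_lit 129)) (XT.lf (nat_lit 76) (nat_lit 12442648064) (nat_lit 0) (nat_lit 50629740052) (nat_lit 1216) (nat_lit 40429212297) (nat_lit 181) (nat_lit 5) (nat_lit 180) (nat_lit 5) (nat_lit 196) (nat_lit 5) (nat_lit 330) (nat_lit 322) (nat_lit 128))))) (XT.nd (nat_lit 234) (nat_lit 1748) (nat_lit 0) (XT.nd (nat_lit 78) (nat_lit 1064) (nat_lit 0) (XT.lf (nat_lit 0) (nat_lit 74018677531) (nat_lit 1140) (nat_lit 12064353163) (nat_lit 1216) (nat_lit 20232796986) (nat_lit 181) (nat_lit 5) (nat_lit 196) (nat_lit 5) (nat_lit 197) (nat_lit 5) (nat_lit 331) (nat_lit 322) (nat_lit 127)) (XT.nd (nat_lit 78) (nat_lit 1064) (nat_lit 0) (XT.lf (nat_lit 76) (nat_lit 71768917902) (nat_lit 0) (nat_lit 14943641277) (nat_lit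 1216) (nat_lit 22522199747) (nat_lit 182) (nat_lit 5) (nat_lit 181) (nat_lit 5) (nat_lit 197) (nat_lit 5) (nat_lit 332) (nat_lit 322) (nat_lit 126)) (XT.lf (nat_lit 0) (nat_lit 48112780067) (nat_lit 1140) (nat_lit 53090044402) (nat_lit 1216) (nat_lit 11061962480) (nat_lit 167) (nat_lit 5) (nat_lit 182) (nat_lit 5) (nat_lit 183) (nat_lit 5) (nat_lit 333) (nat_lit 322) (nat_lit 125)))) (XT.nd (nat_lit 156) (nat_lit 1140) (nat_lit 0) (XT.nd (nat_lit 78) (nat_lit 0) (nat_lit 0) (XT.lf (nat_lit 0) (nat_lit 1929551147) (nat_lit 608) (nat_lit 92018685808) (nat_lit 76) (nat_lit 21468483621) (nat_lit 159) (nat_lit 5) (nat_lit 167) (nat_lit 5) (nat_lit 160) (nat_lit 5) (nat_lit 334) (nat_lit 322) (nat_lit 124)) (XT.lf (nat_lit 0) (nat_lit 16546206058) (nat_lit 608) (nat_lit 2694829230) (nat_lit 76) (nat_lit 99445800342) (nat_lit 159) (nat_lit 5) (nat_lit 167) (nat_lit 5) (nat_lit 160) (nat_lit 5)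 (nat_lit 335) (nat_lit 322) (nat_lit 123))) (XT.nd (nat_lit 78) (nat_lit 532) (nat_lit 0) (XT.lf (nat_lit 0) (nat_lit 33364169865) (nat_lit 684) (nat_lit 29763912780) (nat_lit 76) (nat_lit 58948260264) (nat_lit 151) (nat_lit 5) (nat_lit 160) (nat_lit 5) (nat_lit 152) (nat_lit 5) (nat_lit 336) (nat_lit 322) (nat_lit 122)) (XT.lf (nat_lit 0) (nat_lit 52045834978) (nat_lit 608) (nat_lit 58143963783) (nat_lit 76) (nat_lit 15414843420) (nat_lit 144) (nat_lit 5) (nat_lit 152) (nat_lit 5) (nat_lit 145) (nat_lit 5) (nat_lit 337) (nat_lit 322) (nat_lit 121)))))) (XT.nd (nat_lit 39468) (nat_lit 0) (nat_lit 4788) (XT.nd (nat_lit 234) (nat_lit 1444) (nat_lit 0) (XT.nd (nat_lit 78) (nat_lit 456) (nat_lit 0) (XT.lf (nat_lit 0) (nat_lit 41028224898) (nat_lit 532) (nat_lit 31973848210) (nat_lit 608) (nat_lit 56267069301) (nat_lit 137) (nat_lit 5) (nat_lit 144) (nat_lit 5) (nat_lit 145) (nat_lit 5) (nat_lit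 338) (nat_lit 322) (nat_lit 120)) (XT.nd (nat_lit 78) (nat_lit 0) (nat_lit 0) (XT.lf (nat_lit 0) (nat_lit 13041105612) (nat_lit 456) (nat_lit 83176470185) (nat_lit 532) (nat_lit 36862948925) (nat_lit 131) (nat_lit 5) (nat_lit 137) (nat_lit 5) (nat_lit 138) (nat_lit 5) (nat_lit 339) (nat_lit 322) (nat_lit 119)) (XT.lf (nat_lit 0) (nat_lit 120901580957) (nat_lit 456) (nat_lit 919735117) (nat_lit 532) (nat_lit 15224336827) (nat_lit 131) (nat_lit 5) (nat_lit 137) (nat_lit 5) (nat_lit 138) (nat_lit 5) (nat_lit 340) (nat_lit 322) (nat_lit 118)))) (XT.nd (nat_lit 78) (nat_lit 912) (nat_lit 0) (XT.lf (nat_lit 0) (nat_lit 9091137943) (nat_lit 532) (nat_lit 47288816962) (nat_lit 76) (nat_lit 84774685115) (nat_lit 124) (nat_lit 5) (nat_lit 131) (nat_lit 5) (nat_lit 125) (nat_lit 5) (nat_lit 341) (nat_lit 322) (nat_lit 117)) (XT.nd (nat_lit 78) (nat_lit 456) (nat_lit 0) (XT.lf (nat_lit 0) (nat_lit 35406151915)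 (nat_lit 532) (nat_lit 80371213691) (nat_lit 76) (nat_lit 29654230515) (nat_lit 118) (nat_lit 5) (nat_lit 125) (nat_lit 5) (nat_lit 119) (nat_lit 5) (nat_lit 342) (nat_lit 322) (nat_lit 116)) (XT.lf (nat_lit 0) (nat_lit 34200474245) (nat_lit 456) (nat_lit 30225463722) (nat_lit 532) (nat_lit 85454791941) (nat_lit 112) (nat_lit 5) (nat_lit 118) (nat_lit 5) (nat_lit 119) (nat_lit 5) (nat_lit 343) (nat_lit 322) (nat_lit 115))))) (XT.nd (nat_lit 234) (nat_lit 0) (nat_lit 152) (XT.nd (nat_lit 78) (nat_lit 0) (nat_lit 0) (XT.lf (nat_lit 0) (nat_lit 6128853194) (nat_lit 0) (nat_lit 6128853194) (nat_lit 1140) (nat_lit 32042806738) (nat_lit 175) (nat_lit 5) (nat_lit 175) (nat_lit 3) (nat_lit 190) (nat_lit 3) (nat_lit 323) (nat_lit 323) (nat_lit 134)) (XT.nd (nat_lit 78) (nat_lit 0) (nat_lit 76) (XT.lf (nat_lit 0) (nat_lit 25663609635) (nat_lit 1140) (nat_lit 11855246176) (nat_lit 1216) (nat_lit 53281116909)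 (nat_lit 175) (nat_lit 5) (nat_lit 190) (nat_lit 3) (nat_lit 191) (nat_lit 5) (nat_lit 324) (nat_lit 323) (nat_lit 133)) (XT.lf (nat_lit 0) (nat_lit 27820199693) (nat_lit 1140) (nat_lit 36528210436) (nat_lit 1216) (nat_lit 28731928150) (nat_lit 176) (nat_lit 5) (nat_lit 191) (nat_lit 5) (nat_lit 192) (nat_lit 5) (nat_lit 325) (nat_lit 323) (nat_lit 132)))) (XT.nd (nat_lit 156) (nat_lit 0) (nat_lit 76) (XT.nd (nat_lit 78) (nat_lit 0) (nat_lit 0) (XT.lf (nat_lit 0) (nat_lit 30931339999) (nat_lit 1140) (nat_lit 62045781481) (nat_lit 1216) (nat_lit 2472200223) (nat_lit 177) (nat_lit 5) (nat_lit 192) (nat_lit 5) (nat_lit 193) (nat_lit 5) (nat_lit 326) (nat_lit 323) (nat_lit 131)) (XT.lf (nat_lit 76) (nat_lit 9195493500) (nat_lit 0) (nat_lit 26119419175) (nat_lit 1216) (nat_lit 62588336513) (nat_lit 178) (nat_lit 5) (nat_lit 177) (nat_lit 5) (nat_lit 193) (nat_lit 5) (nat_lit 327) (nat_lit 323)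 (nat_lit 130))) (XT.nd (nat_lit 78) (nat_lit 0) (nat_lit 76) (XT.lf (nat_lit 0) (nat_lit 40985713161) (nat_lit 1140) (nat_lit 15595849456) (nat_lit 1216) (nat_lit 43866270055) (nat_lit 178) (nat_lit 5) (nat_lit 193) (nat_lit 5) (nat_lit 194) (nat_lit 5) (nat_lit 328) (nat_lit 323) (nat_lit 129)) (XT.lf (nat_lit 0) (nat_lit 47937782787) (nat_lit 1140) (nat_lit 41111752535) (nat_lit 1216) (nat_lit 14040179178) (nat_lit 179) (nat_lit 5) (nat_lit 194) (nat_lit 5) (nat_lit 195) (nat_lit 5) (nat_lit 329) (nat_lit 323) (nat_lit 128))))))) (XT.nd (nat_lit 1014) (nat_lit 456) (nat_lit 0) (XT.nd (nat_lit 468) (nat_lit 2660) (nat_lit 0) (XT.nd (nat_lit 234) (nat_lit 1520) (nat_lit 0) (XT.nd (nat_lit 78) (nat_lit 0) (nat_lit 76) (XT.lf (nat_lit 76) (nat_lit 38067172513) (nat_lit 0) (nat_lit 18268782700) (nat_lit 1216) (nat_lit 49494781223) (nat_lit 180) (nat_lit 5) (nat_lit 179) (nat_lit 5) (nat_lit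 195) (nat_lit 5) (nat_lit 330) (nat_lit 323) (nat_lit 127)) (XT.nd (nat_lit 78) (nat_lit 0) (nat_lit 76) (XT.lf (nat_lit 76) (nat_lit 13079813595) (nat_lit 0) (nat_lit 53165525955) (nat_lit 1216) (nat_lit 42430731767) (nat_lit 181) (nat_lit 5) (nat_lit 180) (nat_lit 5) (nat_lit 196) (nat_lit 5) (nat_lit 331) (nat_lit 323) (nat_lit 126)) (XT.lf (nat_lit 0) (nat_lit 77737983507) (nat_lit 1140) (nat_lit 12652634090) (nat_lit 1216) (nat_lit 21240422537) (nat_lit 181) (nat_lit 5) (nat_lit 196) (nat_lit 5) (nat_lit 197) (nat_lit 5) (nat_lit 332) (nat_lit 323) (nat_lit 125)))) (XT.nd (nat_lit 78) (nat_lit 1672) (nat_lit 0) (XT.lf (nat_lit 76) (nat_lit 75371872370) (nat_lit 0) (nat_lit 15693951471) (nat_lit 1216) (nat_lit 23630117486) (nat_lit 182) (nat_lit 5) (nat_lit 181) (nat_lit 5) (nat_lit 197) (nat_lit 5) (nat_lit 333) (nat_lit 323) (nat_lit 124)) (XT.nd (nat_lit 78) (nat_lit 608) (nat_lit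 0) (XT.lf (nat_lit 0) (nat_lit 50533080586) (nat_lit 1140) (nat_lit 55746794264) (nat_lit 1216) (nat_lit 11597618986) (nat_lit 167) (nat_lit 5) (nat_lit 182) (nat_lit 5) (nat_lit 183) (nat_lit 5) (nat_lit 334) (nat_lit 323) (nat_lit 123)) (XT.lf (nat_lit 0) (nat_lit 2042438322) (nat_lit 608) (nat_lit 96604490798) (nat_lit 76) (nat_lit 22540111910) (nat_lit 159) (nat_lit 5) (nat_lit 167) (nat_lit 5) (nat_lit 160) (nat_lit 5) (nat_lit 335) (nat_lit 323) (nat_lit 122))))) (XT.nd (nat_lit 234) (nat_lit 1520) (nat_lit 0) (XT.nd (nat_lit 78) (nat_lit 1140) (nat_lit 0) (XT.lf (nat_lit 0) (nat_lit 17389144568) (nat_lit 608) (nat_lit 2815161834) (nat_lit 76) (nat_lit 104416379985) (nat_lit 159) (nat_lit 5) (nat_lit 167) (nat_lit 5) (nat_lit 160) (nat_lit 5) (nat_lit 336) (nat_lit 323) (nat_lit 121)) (XT.nd (nat_lit 78) (nat_lit 532) (nat_lit 0) (XT.lf (nat_lit 0) (nat_lit 35047387071) (nat_lit 684)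 (nat_lit 31237631079) (nat_lit 76) (nat_lit 61894670521) (nat_lit 151) (nat_lit 5) (nat_lit 160) (nat_lit 5) (nat_lit 152) (nat_lit 5) (nat_lit 337) (nat_lit 323) (nat_lit 120)) (XT.lf (nat_lit 0) (nat_lit 54662552388) (nat_lit 608) (nat_lit 61036643104) (nat_lit 76) (nat_lit 16185225911) (nat_lit 144) (nat_lit 5) (nat_lit 152) (nat_lit 5) (nat_lit 145) (nat_lit 5) (nat_lit 338) (nat_lit 323) (nat_lit 119)))) (XT.nd (nat_lit 156) (nat_lit 532) (nat_lit 0) (XT.nd (nat_lit 78) (nat_lit 456) (nat_lit 0) (XT.lf (nat_lit 0) (nat_lit 43093738830) (nat_lit 532) (nat_lit 33572312222) (nat_lit 608) (nat_lit 59066113089) (nat_lit 137) (nat_lit 5) (nat_lit 144) (nat_lit 5) (nat_lit 145) (nat_lit 5) (nat_lit 339) (nat_lit 323) (nat_lit 118)) (XT.lf (nat_lit 0) (nat_lit 13707280104) (nat_lit 456) (nat_lit 87334525906) (nat_lit 532) (nat_lit 38692326161) (nat_lit 131) (nat_lit 5) (nat_lit 137) (nat_lit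 5) (nat_lit 138) (nat_lit 5) (nat_lit 340) (nat_lit 323) (nat_lit 117))) (XT.nd (nat_lit 78) (nat_lit 532) (nat_lit 0) (XT.lf (nat_lit 0) (nat_lit 126960106873) (nat_lit 456) (nat_lit 964990645) (nat_lit 532) (nat_lit 15972439182) (nat_lit 131) (nat_lit 5) (nat_lit 137) (nat_lit 5) (nat_lit 138) (nat_lit 5) (nat_lit 341) (nat_lit 323) (nat_lit 116)) (XT.lf (nat_lit 0) (nat_lit 9558078355) (nat_lit 532) (nat_lit 49639553284) (nat_lit 76) (nat_lit 89014352809) (nat_lit 124) (nat_lit 5) (nat_lit 131) (nat_lit 5) (nat_lit 125) (nat_lit 5) (nat_lit 342) (nat_lit 323) (nat_lit 115)))))) (XT.nd (nat_lit 39624) (nat_lit 0) (nat_lit 3116) (XT.nd (nat_lit 39312) (nat_lit 0) (nat_lit 4408) (XT.nd (nat_lit 39156) (nat_lit 0) (nat_lit 4332) (XT.lf (nat_lit 0) (nat_lit 37188394656) (nat_lit 532) (nat_lit 84376103092) (nat_lit 76) (nat_lit 31138304823) (nat_lit 118) (nat_lit 5) (nat_lit 125) (nat_lit 5)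 (nat_lit 119) (nat_lit 5) (nat_lit 343) (nat_lit 323) (nat_lit 114)) (XT.nd (nat_lit 78) (nat_lit 0) (nat_lit 0) (XT.lf (nat_lit 0) (nat_lit 6441668602) (nat_lit 0) (nat_lit 6441668602) (nat_lit 1140) (nat_lit 33631799679) (nat_lit 175) (nat_lit 5) (nat_lit 175) (nat_lit 3) (nat_lit 190) (nat_lit 3) (nat_lit 324) (nat_lit 324) (nat_lit 132)) (XT.lf (nat_lit 0) (nat_lit 26970950570) (nat_lit 1140) (nat_lit 12434987709) (nat_lit 1216) (nat_lit 55933271054) (nat_lit 175) (nat_lit 5) (nat_lit 190) (nat_lit 3) (nat_lit 191) (nat_lit 5) (nat_lit 325) (nat_lit 324) (nat_lit 131)))) (XT.nd (nat_lit 156) (nat_lit 0) (nat_lit 76) (XT.nd (nat_lit 78) (nat_lit 0) (nat_lit 76) (XT.lf (nat_lit 0) (nat_lit 29234240430) (nat_lit 1140) (nat_lit 38341143258) (nat_lit 1216) (nat_lit 30158245145) (nat_lit 176) (nat_lit 5) (nat_lit 191) (nat_lit 5) (nat_lit 192) (nat_lit 5) (nat_lit 326) (nat_lit 324) (nat_lit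 130)) (XT.lf (nat_lit 0) (nat_lit 32499880680) (nat_lit 1140) (nat_lit 65134197433) (nat_lit 1216) (nat_lit 2587016714) (nat_lit 177) (nat_lit 5) (nat_lit 192) (nat_lit 5) (nat_lit 193) (nat_lit 5) (nat_lit 327) (nat_lit 324) (nat_lit 129))) (XT.nd (nat_lit 78) (nat_lit 0) (nat_lit 76) (XT.lf (nat_lit 76) (nat_lit 9668743628) (nat_lit 0) (nat_lit 27432971532) (nat_lit 1216) (nat_lit 65696032641) (nat_lit 178) (nat_lit 5) (nat_lit 177) (nat_lit 5) (nat_lit 193) (nat_lit 5) (nat_lit 328) (nat_lit 324) (nat_lit 128)) (XT.lf (nat_lit 0) (nat_lit 43054983555) (nat_lit 1140) (nat_lit 16362106521) (nat_lit 1216) (nat_lit 46052504075) (nat_lit 178) (nat_lit 5) (nat_lit 193) (nat_lit 5) (nat_lit 194) (nat_lit 5) (nat_lit 329) (nat_lit 324) (nat_lit 127))))) (XT.nd (nat_lit 234) (nat_lit 1520) (nat_lit 0) (XT.nd (nat_lit 78) (nat_lit 0) (nat_lit 0) (XT.lf (nat_lit 0) (nat_lit 50353773598) (nat_lit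 1140) (nat_lit 43153531014) (nat_lit 1216) (nat_lit 14736293408) (nat_lit 179) (nat_lit 5) (nat_lit 194) (nat_lit 5) (nat_lit 195) (nat_lit 5) (nat_lit 330) (nat_lit 324) (nat_lit 126)) (XT.nd (nat_lit 78) (nat_lit 0) (nat_lit 76) (XT.lf (nat_lit 76) (nat_lit 39983944450) (nat_lit 0) (nat_lit 19187129529) (nat_lit 1216) (nat_lit 51950621883) (nat_lit 180) (nat_lit 5) (nat_lit 179) (nat_lit 5) (nat_lit 195) (nat_lit 5) (nat_lit 331) (nat_lit 324) (nat_lit 125)) (XT.lf (nat_lit 76) (nat_lit 13747439766) (nat_lit 0) (nat_lit 55827701482) (nat_lit 1216) (nat_lit 44534181150) (nat_lit 181) (nat_lit 5) (nat_lit 180) (nat_lit 5) (nat_lit 196) (nat_lit 5) (nat_lit 332) (nat_lit 324) (nat_lit 124)))) (XT.nd (nat_lit 156) (nat_lit 1672) (nat_lit 0) (XT.nd (nat_lit 78) (nat_lit 0) (nat_lit 0) (XT.lf (nat_lit 0) (nat_lit 81641546718) (nat_lit 1140) (nat_lit 13271717739) (nat_lit 1216) (nat_lit 22298802578)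 (nat_lit 181) (nat_lit 5) (nat_lit 196) (nat_lit 5) (nat_lit 197) (nat_lit 5) (nat_lit 333) (nat_lit 324) (nat_lit 123)) (XT.lf (nat_lit 76) (nat_lit 79153625691) (nat_lit 0) (nat_lit 16481486351) (nat_lit 1216) (nat_lit 24795122454) (nat_lit 182) (nat_lit 5) (nat_lit 181) (nat_lit 5) (nat_lit 197) (nat_lit 5) (nat_lit 334) (nat_lit 324) (nat_lit 122))) (XT.nd (nat_lit 78) (nat_lit 608) (nat_lit 0) (XT.lf (nat_lit 0) (nat_lit 53073033043) (nat_lit 1140) (nat_lit 58536172655) (nat_lit 1216) (nat_lit 12161679874) (nat_lit 167) (nat_lit 5) (nat_lit 182) (nat_lit 5) (nat_lit 183) (nat_lit 5) (nat_lit 335) (nat_lit 324) (nat_lit 121)) (XT.lf (nat_lit 0) (nat_lit 2159444245) (nat_lit 608) (nat_lit 101420992617) (nat_lit 76) (nat_lit 23665488577) (nat_lit 159) (nat_lit 5) (nat_lit 167) (nat_lit 5) (nat_lit 160) (nat_lit 5) (nat_lit 336) (nat_lit 324) (nat_lit 120))))))))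
noncomputable def xc126 : XT := (XT.nd (nat_lit 80574) (nat_lit 0) (nat_lit 988) (XT.nd (nat_lit 40248) (nat_lit 0) (nat_lit 0) (XT.nd (nat_lit 39702) (nat_lit 0) (nat_lit 3344) (XT.nd (nat_lit 234) (nat_lit 988) (nat_lit 0) (XT.nd (nat_lit 78) (nat_lit 1140) (nat_lit 0) (XT.lf (nat_lit 0) (nat_lit 18272777041) (nat_lit 608) (nat_lit 2942850667) (nat_lit 76) (nat_lit 109635647625) (nat_lit 159) (nat_lit 5) (nat_lit 167) (nat_lit 5) (nat_lit 160) (nat_lit 5) (nat_lit 337) (nat_lit 324) (nat_lit 119)) (XT.nd (nat_lit 78) (nat_lit 532) (nat_lit 0) (XT.lf (nat_lit 0) (nat_lit 36813369770) (nat_lit 684) (nat_lit 32786381259) (nat_lit 76) (nat_lit 64988494517) (nat_lit 151) (nat_lit 5) (nat_lit 160) (nat_lit 5) (nat_lit 152) (nat_lit 5) (nat_lit 338) (nat_lit 324) (nat_lit 118)) (XT.lf (nat_lit 0) (nat_lit 57408764508) (nat_lit 608) (nat_lit 64075306218) (nat_lit 76) (nat_lit 16994160967) (nat_lit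 144) (nat_lit 5) (nat_lit 152) (nat_lit 5) (nat_lit 145) (nat_lit 5) (nat_lit 339) (nat_lit 324) (nat_lit 117)))) (XT.nd (nat_lit 78) (nat_lit 456) (nat_lit 0) (XT.lf (nat_lit 0) (nat_lit 45261217325) (nat_lit 532) (nat_lit 35250720669) (nat_lit 608) (nat_lit 62006439446) (nat_lit 137) (nat_lit 5) (nat_lit 144) (nat_lit 5) (nat_lit 145) (nat_lit 5) (nat_lit 340) (nat_lit 324) (nat_lit 116)) (XT.nd (nat_lit 78) (nat_lit 0) (nat_lit 0) (XT.lf (nat_lit 0) (nat_lit 14405450650) (nat_lit 456) (nat_lit 91700555794) (nat_lit 532) (nat_lit 40614452481) (nat_lit 131) (nat_lit 5) (nat_lit 137) (nat_lit 5) (nat_lit 138) (nat_lit 5) (nat_lit 341) (nat_lit 324) (nat_lit 115)) (XT.lf (nat_lit 0) (nat_lit 133320308922) (nat_lit 456) (nat_lit 1012576933) (nat_lit 532) (nat_lit 16759165915) (nat_lit 131) (nat_lit 5) (nat_lit 137) (nat_lit 5) (nat_lit 138) (nat_lit 5) (nat_lit 342) (nat_lit 324) (nat_lit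 114))))) (XT.nd (nat_lit 234) (nat_lit 0) (nat_lit 152) (XT.nd (nat_lit 78) (nat_lit 0) (nat_lit 0) (XT.lf (nat_lit 0) (nat_lit 6769532303) (nat_lit 0) (nat_lit 6769532303) (nat_lit 1140) (nat_lit 35301464586) (nat_lit 175) (nat_lit 5) (nat_lit 175) (nat_lit 3) (nat_lit 190) (nat_lit 3) (nat_lit 325) (nat_lit 325) (nat_lit 130)) (XT.nd (nat_lit 78) (nat_lit 0) (nat_lit 76) (XT.lf (nat_lit 0) (nat_lit 28341412342) (nat_lit 1140) (nat_lit 13044926868) (nat_lit 1216) (nat_lit 58719139413) (nat_lit 175) (nat_lit 5) (nat_lit 190) (nat_lit 3) (nat_lit 191) (nat_lit 5) (nat_lit 326) (nat_lit 325) (nat_lit 129)) (XT.lf (nat_lit 0) (nat_lit 30716842023) (nat_lit 1140) (nat_lit 40245975750) (nat_lit 1216) (nat_lit 31656833671) (nat_lit 176) (nat_lit 5) (nat_lit 191) (nat_lit 5) (nat_lit 192) (nat_lit 5) (nat_lit 327) (nat_lit 325) (nat_lit 128)))) (XT.nd (nat_lit 156) (nat_lit 0) (nat_lit 76) (XT.nd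 (nat_lit 78) (nat_lit 0) (nat_lit 0) (XT.lf (nat_lit 0) (nat_lit 34144805491) (nat_lit 1140) (nat_lit 68378323974) (nat_lit 1216) (nat_lit 2708391568) (nat_lit 177) (nat_lit 5) (nat_lit 192) (nat_lit 5) (nat_lit 193) (nat_lit 5) (nat_lit 328) (nat_lit 325) (nat_lit 127)) (XT.lf (nat_lit 76) (nat_lit 10164403441) (nat_lit 0) (nat_lit 28811496659) (nat_lit 1216) (nat_lit 68961132959) (nat_lit 178) (nat_lit 5) (nat_lit 177) (nat_lit 5) (nat_lit 193) (nat_lit 5) (nat_lit 329) (nat_lit 325) (nat_lit 126))) (XT.nd (nat_lit 78) (nat_lit 0) (nat_lit 76) (XT.lf (nat_lit 0) (nat_lit 45225859477) (nat_lit 1140) (nat_lit 17167934834) (nat_lit 1216) (nat_lit 48348707978) (nat_lit 178) (nat_lit 5) (nat_lit 193) (nat_lit 5) (nat_lit 194) (nat_lit 5) (nat_lit 330) (nat_lit 325) (nat_lit 125)) (XT.lf (nat_lit 0) (nat_lit 52888788057) (nat_lit 1140) (nat_lit 45298682261) (nat_lit 1216) (nat_lit 15467761386)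 (nat_lit 179) (nat_lit 5) (nat_lit 194) (nat_lit 5) (nat_lit 195) (nat_lit 5) (nat_lit 331) (nat_lit 325) (nat_lit 124)))))) (XT.nd (nat_lit 468) (nat_lit 2128) (nat_lit 0) (XT.nd (nat_lit 234) (nat_lit 1520) (nat_lit 0) (XT.nd (nat_lit 78) (nat_lit 0) (nat_lit 76) (XT.lf (nat_lit 76) (nat_lit 41995307941) (nat_lit 0) (nat_lit 20150937428) (nat_lit 1216) (nat_lit 54531011570) (nat_lit 180) (nat_lit 5) (nat_lit 179) (nat_lit 5) (nat_lit 195) (nat_lit 5) (nat_lit 332) (nat_lit 325) (nat_lit 123)) (XT.nd (nat_lit 78) (nat_lit 0) (nat_lit 76) (XT.lf (nat_lit 76) (nat_lit 14447179546) (nat_lit 0) (nat_lit 58622623271) (nat_lit 1216) (nat_lit 46744484579) (nat_lit 181) (nat_lit 5) (nat_lit 180) (nat_lit 5) (nat_lit 196) (nat_lit 5) (nat_lit 333) (nat_lit 325) (nat_lit 122)) (XT.lf (nat_lit 0) (nat_lit 85738738826) (nat_lit 1140) (nat_lit 13923015140) (nat_lit 1216) (nat_lit 23410440134) (nat_lit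 181) (nat_lit 5) (nat_lit 196) (nat_lit 5) (nat_lit 197) (nat_lit 5) (nat_lit 334) (nat_lit 325) (nat_lit 121)))) (XT.nd (nat_lit 78) (nat_lit 1672) (nat_lit 0) (XT.lf (nat_lit 76) (nat_lit 83123243215) (nat_lit 0) (nat_lit 17308134189) (nat_lit 1216) (nat_lit 26019911769) (nat_lit 182) (nat_lit 5) (nat_lit 181) (nat_lit 5) (nat_lit 197) (nat_lit 5) (nat_lit 335) (nat_lit 325) (nat_lit 120)) (XT.nd (nat_lit 78) (nat_lit 608) (nat_lit 0) (XT.lf (nat_lit 0) (nat_lit 55738746760) (nat_lit 1140) (nat_lit 61464830429) (nat_lit 1216) (nat_lit 12755414605) (nat_lit 167) (nat_lit 5) (nat_lit 182) (nat_lit 5) (nat_lit 183) (nat_lit 5) (nat_lit 336) (nat_lit 325) (nat_lit 119)) (XT.lf (nat_lit 0) (nat_lit 2280916690) (nat_lit 608) (nat_lit 106479595334) (nat_lit 76) (nat_lit 24847285521) (nat_lit 159) (nat_lit 5) (nat_lit 167) (nat_lit 5) (nat_lit 160) (nat_lit 5) (nat_lit 337) (nat_lit 325) (nat_lit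 118))))) (XT.nd (nat_lit 234) (nat_lit 988) (nat_lit 0) (XT.nd (nat_lit 78) (nat_lit 1140) (nat_lit 0) (XT.lf (nat_lit 0) (nat_lit 19199273258) (nat_lit 608) (nat_lit 3078138998) (nat_lit 76) (nat_lit 115116022877) (nat_lit 159) (nat_lit 5) (nat_lit 167) (nat_lit 5) (nat_lit 160) (nat_lit 5) (nat_lit 338) (nat_lit 325) (nat_lit 117)) (XT.nd (nat_lit 78) (nat_lit 532) (nat_lit 0) (XT.lf (nat_lit 0) (nat_lit 38666385963) (nat_lit 684) (nat_lit 34413789779) (nat_lit 76) (nat_lit 68237094273) (nat_lit 151) (nat_lit 5) (nat_lit 160) (nat_lit 5) (nat_lit 152) (nat_lit 5) (nat_lit 339) (nat_lit 325) (nat_lit 116)) (XT.lf (nat_lit 0) (nat_lit 60291070761) (nat_lit 608) (nat_lit 67267126820) (nat_lit 76) (nat_lit 17843573106) (nat_lit 144) (nat_lit 5) (nat_lit 152) (nat_lit 5) (nat_lit 145) (nat_lit 5) (nat_lit 340) (nat_lit 325) (nat_lit 115)))) (XT.nd (nat_lit 39468) (nat_lit 0) (nat_lit 3344)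 (XT.nd (nat_lit 78) (nat_lit 456) (nat_lit 0) (XT.lf (nat_lit 0) (nat_lit 47535880507) (nat_lit 532) (nat_lit 37013068798) (nat_lit 608) (nat_lit 65094988812) (nat_lit 137) (nat_lit 5) (nat_lit 144) (nat_lit 5) (nat_lit 145) (nat_lit 5) (nat_lit 341) (nat_lit 325) (nat_lit 114)) (XT.lf (nat_lit 0) (nat_lit 15137339092) (nat_lit 456) (nat_lit 96284951921) (nat_lit 532) (nat_lit 42633846319) (nat_lit 131) (nat_lit 5) (nat_lit 137) (nat_lit 5) (nat_lit 138) (nat_lit 5) (nat_lit 342) (nat_lit 325) (nat_lit 113))) (XT.nd (nat_lit 78) (nat_lit 0) (nat_lit 0) (XT.lf (nat_lit 0) (nat_lit 7113251794) (nat_lit 0) (nat_lit 7113251794) (nat_lit 1140) (nat_lit 37055721420) (nat_lit 175) (nat_lit 5) (nat_lit 175) (nat_lit 3) (nat_lit 190) (nat_lit 3) (nat_lit 326) (nat_lit 326) (nat_lit 128)) (XT.lf (nat_lit 0) (nat_lit 29778359824) (nat_lit 1140) (nat_lit 13686460987) (nat_lit 1216) (nat_lit 61645304825)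 (nat_lit 175) (nat_lit 5) (nat_lit 190) (nat_lit 3) (nat_lit 191) (nat_lit 5) (nat_lit 327) (nat_lit 326) (nat_lit 127))))))) (XT.nd (nat_lit 1014) (nat_lit 532) (nat_lit 0) (XT.nd (nat_lit 468) (nat_lit 1900) (nat_lit 0) (XT.nd (nat_lit 234) (nat_lit 0) (nat_lit 152) (XT.nd (nat_lit 78) (nat_lit 0) (nat_lit 76) (XT.lf (nat_lit 0) (nat_lit 32271631582) (nat_lit 1140) (nat_lit 42247186400) (nat_lit 1216) (nat_lit 33231218456) (nat_lit 176) (nat_lit 5) (nat_lit 191) (nat_lit 5) (nat_lit 192) (nat_lit 5) (nat_lit 328) (nat_lit 326) (nat_lit 126)) (XT.nd (nat_lit 78) (nat_lit 0) (nat_lit 0) (XT.lf (nat_lit 0) (nat_lit 35870123567) (nat_lit 1140) (nat_lit 71785826720) (nat_lit 1216) (nat_lit 2836576696) (nat_lit 177) (nat_lit 5) (nat_lit 192) (nat_lit 5) (nat_lit 193) (nat_lit 5) (nat_lit 329) (nat_lit 326) (nat_lit 125)) (XT.lf (nat_lit 76) (nat_lit 10683709901) (nat_lit 0) (nat_lit 30258308727)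 (nat_lit 1216) (nat_lit 72391319934) (nat_lit 178) (nat_lit 5) (nat_lit 177) (nat_lit 5) (nat_lit 193) (nat_lit 5) (nat_lit 330) (nat_lit 326) (nat_lit 124)))) (XT.nd (nat_lit 78) (nat_lit 0) (nat_lit 76) (XT.lf (nat_lit 0) (nat_lit 47503593943) (nat_lit 1140) (nat_lit 18015195962) (nat_lit 1216) (nat_lit 50760319069) (nat_lit 178) (nat_lit 5) (nat_lit 193) (nat_lit 5) (nat_lit 194) (nat_lit 5) (nat_lit 331) (nat_lit 326) (nat_lit 123)) (XT.nd (nat_lit 78) (nat_lit 0) (nat_lit 0) (XT.lf (nat_lit 0) (nat_lit 55548942452) (nat_lit 1140) (nat_lit 47552255554) (nat_lit 1216) (nat_lit 16236299847) (nat_lit 179) (nat_lit 5) (nat_lit 194) (nat_lit 5) (nat_lit 195) (nat_lit 5) (nat_lit 332) (nat_lit 326) (nat_lit 122)) (XT.lf (nat_lit 76) (nat_lit 44106108503) (nat_lit 0) (nat_lit 21162521871) (nat_lit 1216) (nat_lit 57242014386) (nat_lit 180) (nat_lit 5) (nat_lit 179) (nat_lit 5) (nat_lit 195)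 (nat_lit 5) (nat_lit 333) (nat_lit 326) (nat_lit 121))))) (XT.nd (nat_lit 234) (nat_lit 2204) (nat_lit 0) (XT.nd (nat_lit 78) (nat_lit 0) (nat_lit 76) (XT.lf (nat_lit 76) (nat_lit 15180756475) (nat_lit 0) (nat_lit 61556962340) (nat_lit 1216) (nat_lit 49066828419) (nat_lit 181) (nat_lit 5) (nat_lit 180) (nat_lit 5) (nat_lit 196) (nat_lit 5) (nat_lit 334) (nat_lit 326) (nat_lit 120)) (XT.nd (nat_lit 78) (nat_lit 0) (nat_lit 0) (XT.lf (nat_lit 0) (nat_lit 90039385311) (nat_lit 1140) (nat_lit 14608019878) (nat_lit 1216) (nat_lit 24577966609) (nat_lit 181) (nat_lit 5) (nat_lit 196) (nat_lit 5) (nat_lit 197) (nat_lit 5) (nat_lit 335) (nat_lit 326) (nat_lit 119)) (XT.lf (nat_lit 76) (nat_lit 87290231896) (nat_lit 0) (nat_lit 18175875157) (nat_lit 1216) (nat_lit 27307332022) (nat_lit 182) (nat_lit 5) (nat_lit 181) (nat_lit 5) (nat_lit 197) (nat_lit 5) (nat_lit 336) (nat_lit 326) (nat_lit 118))))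 (XT.nd (nat_lit 156) (nat_lit 608) (nat_lit 0) (XT.nd (nat_lit 78) (nat_lit 608) (nat_lit 0) (XT.lf (nat_lit 0) (nat_lit 58536624747) (nat_lit 1140) (nat_lit 64539749175) (nat_lit 1216) (nat_lit 13380170132) (nat_lit 167) (nat_lit 5) (nat_lit 182) (nat_lit 5) (nat_lit 183) (nat_lit 5) (nat_lit 337) (nat_lit 326) (nat_lit 117)) (XT.lf (nat_lit 0) (nat_lit 2407207634) (nat_lit 608) (nat_lit 111792285384) (nat_lit 76) (nat_lit 26088309674) (nat_lit 159) (nat_lit 5) (nat_lit 167) (nat_lit 5) (nat_lit 160) (nat_lit 5) (nat_lit 338) (nat_lit 326) (nat_lit 116))) (XT.nd (nat_lit 78) (nat_lit 608) (nat_lit 0) (XT.lf (nat_lit 0) (nat_lit 20170898930) (nat_lit 608) (nat_lit 3221293836) (nat_lit 76) (nat_lit 120870547713) (nat_lit 159) (nat_lit 5) (nat_lit 167) (nat_lit 5) (nat_lit 160) (nat_lit 5) (nat_lit 339) (nat_lit 326) (nat_lit 115)) (XT.lf (nat_lit 0) (nat_lit 40610904994) (nat_lit 684) (nat_lit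 36123676054) (nat_lit 76) (nat_lit 71648200715) (nat_lit 151) (nat_lit 5) (nat_lit 160) (nat_lit 5) (nat_lit 152) (nat_lit 5) (nat_lit 340) (nat_lit 326) (nat_lit 114)))))) (XT.nd (nat_lit 40014) (nat_lit 0) (nat_lit 1140) (XT.nd (nat_lit 39702) (nat_lit 0) (nat_lit 2432) (XT.nd (nat_lit 39546) (nat_lit 0) (nat_lit 2356) (XT.lf (nat_lit 0) (nat_lit 63316388950) (nat_lit 608) (nat_lit 70619648958) (nat_lit 76) (nat_lit 18735483363) (nat_lit 144) (nat_lit 5) (nat_lit 152) (nat_lit 5) (nat_lit 145) (nat_lit 5) (nat_lit 341) (nat_lit 326) (nat_lit 113)) (XT.nd (nat_lit 78) (nat_lit 0) (nat_lit 0) (XT.lf (nat_lit 0) (nat_lit 7473669827) (nat_lit 0) (nat_lit 7473669827) (nat_lit 1140) (nat_lit 38898696701) (nat_lit 175) (nat_lit 5) (nat_lit 175) (nat_lit 3) (nat_lit 190) (nat_lit 3) (nat_lit 327) (nat_lit 327) (nat_lit 126)) (XT.lf (nat_lit 0) (nat_lit 31285306717) (nat_lit 1140) (nat_lit 14361067733)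 (nat_lit 1216) (nat_lit 64718688833) (nat_lit 175) (nat_lit 5) (nat_lit 190) (nat_lit 3) (nat_lit 191) (nat_lit 5) (nat_lit 328) (nat_lit 327) (nat_lit 125)))) (XT.nd (nat_lit 156) (nat_lit 0) (nat_lit 76) (XT.nd (nat_lit 78) (nat_lit 0) (nat_lit 76) (XT.lf (nat_lit 0) (nat_lit 33902399063) (nat_lit 1140) (nat_lit 44349488453) (nat_lit 1216) (nat_lit 34885108722) (nat_lit 176) (nat_lit 5) (nat_lit 191) (nat_lit 5) (nat_lit 192) (nat_lit 5) (nat_lit 329) (nat_lit 327) (nat_lit 124)) (XT.lf (nat_lit 0) (nat_lit 37680026845) (nat_lit 1140) (nat_lit 75364765719) (nat_lit 1216) (nat_lit 2971843671) (nat_lit 177) (nat_lit 5) (nat_lit 192) (nat_lit 5) (nat_lit 193) (nat_lit 5) (nat_lit 330) (nat_lit 327) (nat_lit 123))) (XT.nd (nat_lit 78) (nat_lit 0) (nat_lit 76) (XT.lf (nat_lit 76) (nat_lit 11227950986) (nat_lit 0) (nat_lit 31776881519) (nat_lit 1216) (nat_lit 75994677611) (nat_lit 178) (nat_lit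 5) (nat_lit 177) (nat_lit 5) (nat_lit 193) (nat_lit 5) (nat_lit 331) (nat_lit 327) (nat_lit 122)) (XT.lf (nat_lit 0) (nat_lit 49893686558) (nat_lit 1140) (nat_lit 18905855431) (nat_lit 1216) (nat_lit 53293052203) (nat_lit 178) (nat_lit 5) (nat_lit 193) (nat_lit 5) (nat_lit 194) (nat_lit 5) (nat_lit 332) (nat_lit 327) (nat_lit 121))))) (XT.nd (nat_lit 234) (nat_lit 1520) (nat_lit 0) (XT.nd (nat_lit 78) (nat_lit 0) (nat_lit 0) (XT.lf (nat_lit 0) (nat_lit 58340643536) (nat_lit 1140) (nat_lit 49919563733) (nat_lit 1216) (nat_lit 17043716103) (nat_lit 179) (nat_lit 5) (nat_lit 194) (nat_lit 5) (nat_lit 195) (nat_lit 5) (nat_lit 333) (nat_lit 327) (nat_lit 120)) (XT.nd (nat_lit 78) (nat_lit 0) (nat_lit 76) (XT.lf (nat_lit 76) (nat_lit 46321423147) (nat_lit 0) (nat_lit 22224310161) (nat_lit 1216) (nat_lit 60090012827) (nat_lit 180) (nat_lit 5) (nat_lit 179) (nat_lit 5) (nat_lit 195) (nat_lit 5)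 (nat_lit 334) (nat_lit 327) (nat_lit 119)) (XT.lf (nat_lit 76) (nat_lit 15949969312) (nat_lit 0) (nat_lit 64637720122) (nat_lit 1216) (nat_lit 51506672889) (nat_lit 181) (nat_lit 5) (nat_lit 180) (nat_lit 5) (nat_lit 196) (nat_lit 5) (nat_lit 335) (nat_lit 327) (nat_lit 118)))) (XT.nd (nat_lit 156) (nat_lit 1672) (nat_lit 0) (XT.nd (nat_lit 78) (nat_lit 0) (nat_lit 0) (XT.lf (nat_lit 0) (nat_lit 94553789537) (nat_lit 1140) (nat_lit 15328311104) (nat_lit 1216) (nat_lit 25804147905) (nat_lit 181) (nat_lit 5) (nat_lit 196) (nat_lit 5) (nat_lit 197) (nat_lit 5) (nat_lit 336) (nat_lit 327) (nat_lit 117)) (XT.lf (nat_lit 76) (nat_lit 91664563464) (nat_lit 0) (nat_lit 19086786157) (nat_lit 1216) (nat_lit 28660385393) (nat_lit 182) (nat_lit 5) (nat_lit 181) (nat_lit 5) (nat_lit 197) (nat_lit 5) (nat_lit 337) (nat_lit 327) (nat_lit 116))) (XT.nd (nat_lit 78) (nat_lit 608) (nat_lit 0) (XT.lf (nat_lit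 0) (nat_lit 61473379476) (nat_lit 1140) (nat_lit 67768257927) (nat_lit 1216) (nat_lit 14037373465) (nat_lit 167) (nat_lit 5) (nat_lit 182) (nat_lit 5) (nat_lit 183) (nat_lit 5) (nat_lit 338) (nat_lit 327) (nat_lit 115)) (XT.lf (nat_lit 0) (nat_lit 2538674691) (nat_lit 608) (nat_lit 117371659547) (nat_lit 76) (nat_lit 27391509626) (nat_lit 159) (nat_lit 5) (nat_lit 167) (nat_lit 5) (nat_lit 160) (nat_lit 5) (nat_lit 339) (nat_lit 327) (nat_lit 114))))))))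
noncomputable def xc127 : XT := (XT.nd (nat_lit 121212) (nat_lit 0) (nat_lit 1216) (XT.nd (nat_lit 40638) (nat_lit 0) (nat_lit 0) (XT.nd (nat_lit 40092) (nat_lit 0) (nat_lit 608) (XT.nd (nat_lit 39858) (nat_lit 0) (nat_lit 1292) (XT.nd (nat_lit 39702) (nat_lit 0) (nat_lit 1216) (XT.lf (nat_lit 0) (nat_lit 21190021663) (nat_lit 608) (nat_lit 3372606046) (nat_lit 76) (nat_lit 126912917450) (nat_lit 159) (nat_lit 5) (nat_lit 167) (nat_lit 5) (nat_lit 160) (nat_lit 5) (nat_lit 340) (nat_lit 327) (nat_lit 113)) (XT.nd (nat_lit 78) (nat_lit 0) (nat_lit 0) (XT.lf (nat_lit 0) (nat_lit 7851666645) (nat_lit 0) (nat_lit 7851666645) (nat_lit 1140) (nat_lit 40834732860) (nat_lit 175) (nat_lit 5) (nat_lit 175) (nat_lit 3) (nat_lit 190) (nat_lit 3) (nat_lit 328) (nat_lit 328) (nat_lit 124)) (XT.lf (nat_lit 0) (nat_lit 32865924799) (nat_lit 1140) (nat_lit 15070308147) (nat_lit 1216) (nat_lit 67946567735)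 (nat_lit 175) (nat_lit 5) (nat_lit 190) (nat_lit 3) (nat_lit 191) (nat_lit 5) (nat_lit 329) (nat_lit 328) (nat_lit 123)))) (XT.nd (nat_lit 78) (nat_lit 0) (nat_lit 76) (XT.lf (nat_lit 0) (nat_lit 35613107136) (nat_lit 1140) (nat_lit 46557840638) (nat_lit 1216) (nat_lit 36622406647) (nat_lit 176) (nat_lit 5) (nat_lit 191) (nat_lit 5) (nat_lit 192) (nat_lit 5) (nat_lit 330) (nat_lit 328) (nat_lit 122)) (XT.nd (nat_lit 78) (nat_lit 0) (nat_lit 0) (XT.lf (nat_lit 0) (nat_lit 39578900840) (nat_lit 1140) (nat_lit 79123614129) (nat_lit 1216) (nat_lit 3114484055) (nat_lit 177) (nat_lit 5) (nat_lit 192) (nat_lit 5) (nat_lit 193) (nat_lit 5) (nat_lit 331) (nat_lit 328) (nat_lit 121)) (XT.lf (nat_lit 76) (nat_lit 11798469252) (nat_lit 0) (nat_lit 33370856984) (nat_lit 1216) (nat_lit 79779710068) (nat_lit 178) (nat_lit 5) (nat_lit 177) (nat_lit 5) (nat_lit 193) (nat_lit 5) (nat_lit 332) (nat_lit 328)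 (nat_lit 120))))) (XT.nd (nat_lit 234) (nat_lit 836) (nat_lit 0) (XT.nd (nat_lit 78) (nat_lit 0) (nat_lit 76) (XT.lf (nat_lit 0) (nat_lit 52401897342) (nat_lit 1140) (nat_lit 19841986906) (nat_lit 1216) (nat_lit 55952913140) (nat_lit 178) (nat_lit 5) (nat_lit 193) (nat_lit 5) (nat_lit 194) (nat_lit 5) (nat_lit 333) (nat_lit 328) (nat_lit 119)) (XT.nd (nat_lit 78) (nat_lit 0) (nat_lit 0) (XT.lf (nat_lit 0) (nat_lit 61270604476) (nat_lit 1140) (nat_lit 52406195345) (nat_lit 1216) (nat_lit 17891912123) (nat_lit 179) (nat_lit 5) (nat_lit 194) (nat_lit 5) (nat_lit 195) (nat_lit 5) (nat_lit 334) (nat_lit 328) (nat_lit 118)) (XT.lf (nat_lit 76) (nat_lit 48646572962) (nat_lit 0) (nat_lit 23338847390) (nat_lit 1216) (nat_lit 63081722286) (nat_lit 180) (nat_lit 5) (nat_lit 179) (nat_lit 5) (nat_lit 195) (nat_lit 5) (nat_lit 335) (nat_lit 328) (nat_lit 117)))) (XT.nd (nat_lit 156) (nat_lit 988) (nat_lit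 0) (XT.nd (nat_lit 78) (nat_lit 0) (nat_lit 76) (XT.lf (nat_lit 76) (nat_lit 16756696815) (nat_lit 0) (nat_lit 67872245280) (nat_lit 1216) (nat_lit 54069764401) (nat_lit 181) (nat_lit 5) (nat_lit 180) (nat_lit 5) (nat_lit 196) (nat_lit 5) (nat_lit 336) (nat_lit 328) (nat_lit 116)) (XT.lf (nat_lit 0) (nat_lit 99292757890) (nat_lit 1140) (nat_lit 16085556802) (nat_lit 1216) (nat_lit 27091890870) (nat_lit 181) (nat_lit 5) (nat_lit 196) (nat_lit 5) (nat_lit 197) (nat_lit 5) (nat_lit 337) (nat_lit 328) (nat_lit 115))) (XT.nd (nat_lit 78) (nat_lit 1064) (nat_lit 0) (XT.lf (nat_lit 76) (nat_lit 96256698642) (nat_lit 0) (nat_lit 20043045865) (nat_lit 1216) (nat_lit 30082236200) (nat_lit 182) (nat_lit 5) (nat_lit 181) (nat_lit 5) (nat_lit 197) (nat_lit 5) (nat_lit 338) (nat_lit 328) (nat_lit 114)) (XT.lf (nat_lit 0) (nat_lit 64556049349) (nat_lit 1140) (nat_lit 71158050680) (nat_lit 1216) (nat_lit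 14728534498) (nat_lit 167) (nat_lit 5) (nat_lit 182) (nat_lit 5) (nat_lit 183) (nat_lit 5) (nat_lit 339) (nat_lit 328) (nat_lit 113)))))) (XT.nd (nat_lit 40170) (nat_lit 0) (nat_lit 1216) (XT.nd (nat_lit 39936) (nat_lit 0) (nat_lit 1292) (XT.nd (nat_lit 39780) (nat_lit 0) (nat_lit 1216) (XT.lf (nat_lit 0) (nat_lit 2675682508) (nat_lit 608) (nat_lit 123230954447) (nat_lit 76) (nat_lit 28759982585) (nat_lit 159) (nat_lit 5) (nat_lit 167) (nat_lit 5) (nat_lit 160) (nat_lit 5) (nat_lit 340) (nat_lit 328) (nat_lit 112)) (XT.nd (nat_lit 78) (nat_lit 0) (nat_lit 0) (XT.lf (nat_lit 0) (nat_lit 8248162292) (nat_lit 0) (nat_lit 8248162292) (nat_lit 1140) (nat_lit 42868398142) (nat_lit 175) (nat_lit 5) (nat_lit 175) (nat_lit 3) (nat_lit 190) (nat_lit 3) (nat_lit 329) (nat_lit 329) (nat_lit 122)) (XT.lf (nat_lit 0) (nat_lit 34524053461) (nat_lit 1140) (nat_lit 15815829927) (nat_lit 1216) (nat_lit 71336589510)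 (nat_lit 175) (nat_lit 5) (nat_lit 190) (nat_lit 3) (nat_lit 191) (nat_lit 5) (nat_lit 330) (nat_lit 329) (nat_lit 121)))) (XT.nd (nat_lit 78) (nat_lit 0) (nat_lit 76) (XT.lf (nat_lit 0) (nat_lit 37407901377) (nat_lit 1140) (nat_lit 48877458531) (nat_lit 1216) (nat_lit 38447216311) (nat_lit 176) (nat_lit 5) (nat_lit 191) (nat_lit 5) (nat_lit 192) (nat_lit 5) (nat_lit 331) (nat_lit 329) (nat_lit 120)) (XT.nd (nat_lit 78) (nat_lit 0) (nat_lit 0) (XT.lf (nat_lit 0) (nat_lit 41571335816) (nat_lit 1140) (nat_lit 83071277942) (nat_lit 1216) (nat_lit 3264809799) (nat_lit 177) (nat_lit 5) (nat_lit 192) (nat_lit 5) (nat_lit 193) (nat_lit 5) (nat_lit 332) (nat_lit 329) (nat_lit 119)) (XT.lf (nat_lit 76) (nat_lit 12396665473) (nat_lit 0) (nat_lit 35044054153) (nat_lit 1216) (nat_lit 83755360947) (nat_lit 178) (nat_lit 5) (nat_lit 177) (nat_lit 5) (nat_lit 193) (nat_lit 5) (nat_lit 333) (nat_lit 329)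 (nat_lit 118))))) (XT.nd (nat_lit 234) (nat_lit 228) (nat_lit 0) (XT.nd (nat_lit 78) (nat_lit 0) (nat_lit 76) (XT.lf (nat_lit 0) (nat_lit 55034261103) (nat_lit 1140) (nat_lit 20825776685) (nat_lit 1216) (nat_lit 58746212609) (nat_lit 178) (nat_lit 5) (nat_lit 193) (nat_lit 5) (nat_lit 194) (nat_lit 5) (nat_lit 334) (nat_lit 329) (nat_lit 117)) (XT.nd (nat_lit 78) (nat_lit 0) (nat_lit 0) (XT.lf (nat_lit 0) (nat_lit 64345861470) (nat_lit 1140) (nat_lit 55018027493) (nat_lit 1216) (nat_lit 18782888878) (nat_lit 179) (nat_lit 5) (nat_lit 194) (nat_lit 5) (nat_lit 195) (nat_lit 5) (nat_lit 335) (nat_lit 329) (nat_lit 116)) (XT.lf (nat_lit 76) (nat_lit 51087136220) (nat_lit 0) (nat_lit 24508802657) (nat_lit 1216) (nat_lit 66224206421) (nat_lit 180) (nat_lit 5) (nat_lit 179) (nat_lit 5) (nat_lit 195) (nat_lit 5) (nat_lit 336) (nat_lit 329) (nat_lit 115)))) (XT.nd (nat_lit 156) (nat_lit 380) (nat_lit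 0) (XT.nd (nat_lit 78) (nat_lit 0) (nat_lit 76) (XT.lf (nat_lit 76) (nat_lit 17602902664) (nat_lit 0) (nat_lit 71268251332) (nat_lit 1216) (nat_lit 56762148646) (nat_lit 181) (nat_lit 5) (nat_lit 180) (nat_lit 5) (nat_lit 196) (nat_lit 5) (nat_lit 337) (nat_lit 329) (nat_lit 114)) (XT.lf (nat_lit 0) (nat_lit 104267626057) (nat_lit 1140) (nat_lit 16881517312) (nat_lit 1216) (nat_lit 28444250102) (nat_lit 181) (nat_lit 5) (nat_lit 196) (nat_lit 5) (nat_lit 197) (nat_lit 5) (nat_lit 338) (nat_lit 329) (nat_lit 113))) (XT.nd (nat_lit 39936) (nat_lit 456) (nat_lit 0) (XT.lf (nat_lit 76) (nat_lit 101077612491) (nat_lit 0) (nat_lit 21046940019) (nat_lit 1216) (nat_lit 31576217885) (nat_lit 182) (nat_lit 5) (nat_lit 181) (nat_lit 5) (nat_lit 197) (nat_lit 5) (nat_lit 339) (nat_lit 329) (nat_lit 112)) (XT.lf (nat_lit 0) (nat_lit 8664118991) (nat_lit 0) (nat_lit 8664118991) (nat_lit 1140) (nat_lit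 45004497087) (nat_lit 175) (nat_lit 5) (nat_lit 175) (nat_lit 3) (nat_lit 190) (nat_lit 3) (nat_lit 330) (nat_lit 330) (nat_lit 120))))))) (XT.nd (nat_lit 41028) (nat_lit 0) (nat_lit 0) (XT.nd (nat_lit 468) (nat_lit 0) (nat_lit 0) (XT.nd (nat_lit 234) (nat_lit 0) (nat_lit 152) (XT.nd (nat_lit 78) (nat_lit 0) (nat_lit 76) (XT.lf (nat_lit 0) (nat_lit 36263709578) (nat_lit 1140) (nat_lit 16599370969) (nat_lit 1216) (nat_lit 74896791673) (nat_lit 175) (nat_lit 5) (nat_lit 190) (nat_lit 3) (nat_lit 191) (nat_lit 5) (nat_lit 331) (nat_lit 330) (nat_lit 119)) (XT.nd (nat_lit 78) (nat_lit 0) (nat_lit 76) (XT.lf (nat_lit 0) (nat_lit 39291120831) (nat_lit 1140) (nat_lit 51313826570) (nat_lit 1216) (nat_lit 40363853165) (nat_lit 176) (nat_lit 5) (nat_lit 191) (nat_lit 5) (nat_lit 192) (nat_lit 5) (nat_lit 332) (nat_lit 330) (nat_lit 118)) (XT.lf (nat_lit 0) (nat_lit 43662138375) (nat_lit 1140) (nat_lit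 87217116766) (nat_lit 1216) (nat_lit 3423153728) (nat_lit 177) (nat_lit 5) (nat_lit 192) (nat_lit 5) (nat_lit 193) (nat_lit 5) (nat_lit 333) (nat_lit 330) (nat_lit 117)))) (XT.nd (nat_lit 78) (nat_lit 0) (nat_lit 76) (XT.lf (nat_lit 76) (nat_lit 13024002383) (nat_lit 0) (nat_lit 36800478467) (nat_lit 1216) (nat_lit 87931034096) (nat_lit 178) (nat_lit 5) (nat_lit 177) (nat_lit 5) (nat_lit 193) (nat_lit 5) (nat_lit 334) (nat_lit 330) (nat_lit 116)) (XT.nd (nat_lit 78) (nat_lit 0) (nat_lit 76) (XT.lf (nat_lit 0) (nat_lit 57797102407) (nat_lit 1140) (nat_lit 21859528498) (nat_lit 1216) (nat_lit 61679581118) (nat_lit 178) (nat_lit 5) (nat_lit 193) (nat_lit 5) (nat_lit 194) (nat_lit 5) (nat_lit 335) (nat_lit 330) (nat_lit 115)) (XT.lf (nat_lit 0) (nat_lit 67573791068) (nat_lit 1140) (nat_lit 57761239417) (nat_lit 1216) (nat_lit 19718750916) (nat_lit 179) (nat_lit 5) (nat_lit 194) (nat_lit 5) (nat_lit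 195) (nat_lit 5) (nat_lit 336) (nat_lit 330) (nat_lit 114))))) (XT.nd (nat_lit 40248) (nat_lit 0) (nat_lit 0) (XT.nd (nat_lit 78) (nat_lit 304) (nat_lit 0) (XT.lf (nat_lit 76) (nat_lit 53648962064) (nat_lit 0) (nat_lit 25736975578) (nat_lit 1216) (nat_lit 69524893405) (nat_lit 180) (nat_lit 5) (nat_lit 179) (nat_lit 5) (nat_lit 195) (nat_lit 5) (nat_lit 337) (nat_lit 330) (nat_lit 113)) (XT.nd (nat_lit 40092) (nat_lit 380) (nat_lit 0) (XT.lf (nat_lit 76) (nat_lit 18490640549) (nat_lit 0) (nat_lit 74833835135) (nat_lit 1216) (nat_lit 59590184445) (nat_lit 181) (nat_lit 5) (nat_lit 180) (nat_lit 5) (nat_lit 196) (nat_lit 5) (nat_lit 338) (nat_lit 330) (nat_lit 112)) (XT.lf (nat_lit 0) (nat_lit 9100543612) (nat_lit 0) (nat_lit 9100543612) (nat_lit 1140) (nat_lit 47248081613) (nat_lit 175) (nat_lit 5) (nat_lit 175) (nat_lit 3) (nat_lit 190) (nat_lit 3) (nat_lit 331) (nat_lit 331) (nat_lit 118))))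 (XT.nd (nat_lit 156) (nat_lit 0) (nat_lit 152) (XT.nd (nat_lit 78) (nat_lit 0) (nat_lit 76) (XT.lf (nat_lit 0) (nat_lit 38089097728) (nat_lit 1140) (nat_lit 17422763141) (nat_lit 1216) (nat_lit 78635620089) (nat_lit 175) (nat_lit 5) (nat_lit 190) (nat_lit 3) (nat_lit 191) (nat_lit 5) (nat_lit 332) (nat_lit 331) (nat_lit 117)) (XT.lf (nat_lit 0) (nat_lit 41267308968) (nat_lit 1140) (nat_lit 53872710745) (nat_lit 1216) (nat_lit 42376854021) (nat_lit 176) (nat_lit 5) (nat_lit 191) (nat_lit 5) (nat_lit 192) (nat_lit 5) (nat_lit 333) (nat_lit 331) (nat_lit 116))) (XT.nd (nat_lit 78) (nat_lit 0) (nat_lit 0) (XT.lf (nat_lit 0) (nat_lit 45856343496) (nat_lit 1140) (nat_lit 91570965734) (nat_lit 1216) (nat_lit 3589870090) (nat_lit 177) (nat_lit 5) (nat_lit 192) (nat_lit 5) (nat_lit 193) (nat_lit 5) (nat_lit 334) (nat_lit 331) (nat_lit 115)) (XT.lf (nat_lit 76) (nat_lit 13682008521) (nat_lit 0) (nat_lit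 38644331512) (nat_lit 1216) (nat_lit 92316615372) (nat_lit 178) (nat_lit 5) (nat_lit 177) (nat_lit 5) (nat_lit 193) (nat_lit 5) (nat_lit 335) (nat_lit 331) (nat_lit 114)))))) (XT.nd (nat_lit 40638) (nat_lit 0) (nat_lit 0) (XT.nd (nat_lit 40326) (nat_lit 228) (nat_lit 0) (XT.nd (nat_lit 78) (nat_lit 0) (nat_lit 76) (XT.lf (nat_lit 0) (nat_lit 60697051178) (nat_lit 1140) (nat_lit 22945668623) (nat_lit 1216) (nat_lit 64759984554) (nat_lit 178) (nat_lit 5) (nat_lit 193) (nat_lit 5) (nat_lit 194) (nat_lit 5) (nat_lit 336) (nat_lit 331) (nat_lit 113)) (XT.nd (nat_lit 78) (nat_lit 0) (nat_lit 0) (XT.lf (nat_lit 0) (nat_lit 70962128264) (nat_lit 1140) (nat_lit 60642326830) (nat_lit 1216) (nat_lit 20701711223) (nat_lit 179) (nat_lit 5) (nat_lit 194) (nat_lit 5) (nat_lit 195) (nat_lit 5) (nat_lit 337) (nat_lit 331) (nat_lit 112)) (XT.lf (nat_lit 76) (nat_lit 56338184801) (nat_lit 0) (nat_lit 27026303075)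 (nat_lit 1216) (nat_lit 72991593099) (nat_lit 180) (nat_lit 5) (nat_lit 179) (nat_lit 5) (nat_lit 195) (nat_lit 5) (nat_lit 338) (nat_lit 331) (nat_lit 111)))) (XT.nd (nat_lit 156) (nat_lit 0) (nat_lit 76) (XT.nd (nat_lit 78) (nat_lit 0) (nat_lit 0) (XT.lf (nat_lit 0) (nat_lit 9558490222) (nat_lit 0) (nat_lit 9558490222) (nat_lit 1140) (nat_lit 49604462720) (nat_lit 175) (nat_lit 5) (nat_lit 175) (nat_lit 3) (nat_lit 190) (nat_lit 3) (nat_lit 332) (nat_lit 332) (nat_lit 116)) (XT.lf (nat_lit 0) (nat_lit 40004620796) (nat_lit 1140) (nat_lit 18287936331) (nat_lit 1216) (nat_lit 82561948787) (nat_lit 175) (nat_lit 5) (nat_lit 190) (nat_lit 3) (nat_lit 191) (nat_lit 5) (nat_lit 333) (nat_lit 332) (nat_lit 115))) (XT.nd (nat_lit 78) (nat_lit 0) (nat_lit 76) (XT.lf (nat_lit 0) (nat_lit 43341225069) (nat_lit 1140) (nat_lit 56560171992) (nat_lit 1216) (nat_lit 44490987605) (nat_lit 176) (nat_lit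 5) (nat_lit 191) (nat_lit 5) (nat_lit 192) (nat_lit 5) (nat_lit 334) (nat_lit 332) (nat_lit 114)) (XT.lf (nat_lit 0) (nat_lit 48159227067) (nat_lit 1140) (nat_lit 96143158584) (nat_lit 1216) (nat_lit 3765335181) (nat_lit 177) (nat_lit 5) (nat_lit 192) (nat_lit 5) (nat_lit 193) (nat_lit 5) (nat_lit 335) (nat_lit 332) (nat_lit 113))))) (XT.nd (nat_lit 40482) (nat_lit 0) (nat_lit 0) (XT.nd (nat_lit 78) (nat_lit 152) (nat_lit 0) (XT.lf (nat_lit 76) (nat_lit 14372282207) (nat_lit 0) (nat_lit 40580021213) (nat_lit 1216) (nat_lit 96922495639) (nat_lit 178) (nat_lit 5) (nat_lit 177) (nat_lit 5) (nat_lit 193) (nat_lit 5) (nat_lit 336) (nat_lit 332) (nat_lit 112)) (XT.nd (nat_lit 40326) (nat_lit 228) (nat_lit 0) (XT.lf (nat_lit 0) (nat_lit 63741058974) (nat_lit 1140) (nat_lit 24086751328) (nat_lit 1216) (nat_lit 67994740589) (nat_lit 178) (nat_lit 5) (nat_lit 193) (nat_lit 5) (nat_lit 194) (nat_lit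 5) (nat_lit 337) (nat_lit 332) (nat_lit 111)) (XT.lf (nat_lit 0) (nat_lit 10039062742) (nat_lit 0) (nat_lit 10039062742) (nat_lit 1140) (nat_lit 52079222841) (nat_lit 175) (nat_lit 5) (nat_lit 175) (nat_lit 3) (nat_lit 190) (nat_lit 3) (nat_lit 333) (nat_lit 333) (nat_lit 114)))) (XT.nd (nat_lit 156) (nat_lit 0) (nat_lit 0) (XT.nd (nat_lit 78) (nat_lit 0) (nat_lit 76) (XT.lf (nat_lit 0) (nat_lit 42014891004) (nat_lit 1140) (nat_lit 19196922746) (nat_lit 1216) (nat_lit 86685100824) (nat_lit 175) (nat_lit 5) (nat_lit 190) (nat_lit 3) (nat_lit 191) (nat_lit 5) (nat_lit 334) (nat_lit 333) (nat_lit 113)) (XT.lf (nat_lit 0) (nat_lit 45517856076) (nat_lit 1140) (nat_lit 59382580329) (nat_lit 1216) (nat_lit 46711265676) (nat_lit 176) (nat_lit 5) (nat_lit 191) (nat_lit 5) (nat_lit 192) (nat_lit 5) (nat_lit 335) (nat_lit 333) (nat_lit 112))) (XT.nd (nat_lit 40560) (nat_lit 152) (nat_lit 0) (XT.lf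 (nat_lit 0) (nat_lit 50576318939) (nat_lit 1140) (nat_lit 100944551944) (nat_lit 1216) (nat_lit 3949948051) (nat_lit 177) (nat_lit 5) (nat_lit 192) (nat_lit 5) (nat_lit 193) (nat_lit 5) (nat_lit 336) (nat_lit 333) (nat_lit 111)) (XT.lf (nat_lit 0) (nat_lit 44124741374) (nat_lit 1140) (nat_lit 20151861490) (nat_lit 1216) (nat_lit 91014870239) (nat_lit 175) (nat_lit 5) (nat_lit 190) (nat_lit 3) (nat_lit 191) (nat_lit 5) (nat_lit 335) (nat_lit 334) (nat_lit 111))))))))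

set_option maxRecDepth 10000000 in
noncomputable def Tp : PT := (PT.nd (nat_lit 5415150) (PT.nd (nat_lit 5009316) (PT.nd (nat_lit 4643574) (PT.nd (nat_lit 4318704) pc0 pc1) (PT.nd (nat_lit 203268) pc2 pc3)) (PT.nd (nat_lit 243360) (PT.nd (nat_lit 161382) pc4 pc5) (PT.nd (nat_lit 81432) pc6 pc7))) (PT.nd (nat_lit 243126) (PT.nd (nat_lit 122226) (PT.nd (nat_lit 80418) pc8 pc9) (PT.nd (nat_lit 79638) pc10 pc11)) (PT.nd (nat_lit 123396) (PT.nd (nat_lit 41730) pc12 pc13) (PT.nd (nat_lit 122070) pc14 pc15))))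

set_option maxRecDepth 10000000 in
noncomputable def Tx : XT := (XT.nd (nat_lit 8521656) (nat_lit 0) (nat_lit 76) XT.nil (XT.nd (nat_lit 5077644) (nat_lit 0) (nat_lit 0) (XT.nd (nat_lit 2355210) (nat_lit 0) (nat_lit 380) (XT.nd (nat_lit 1624116) (nat_lit 0) (nat_lit 152) (XT.nd (nat_lit 1136148) (nat_lit 0) (nat_lit 76) (XT.nd (nat_lit 809874) (nat_lit 0) (nat_lit 0) (XT.nd (nat_lit 566826) (nat_lit 0) (nat_lit 0) (XT.nd (nat_lit 365508) (nat_lit 0) (nat_lit 0) (XT.nd (nat_lit 243672) (nat_lit 0) (nat_lit 0) xc0 xc1) (XT.nd (nat_lit 120432) (nat_lit 0) (nat_lit 0) xc2 xc3)) (XT.nd (nat_lit 122226) (nat_lit 0) (nat_lit 0) (XT.nd (nat_lit 42276) (nat_lit 0) (nat_lit 0) xc4 xc5) (XT.nd (nat_lit 41808) (nat_lit 0) (nat_lit 0) xc6 xc7))) (XT.nd (nat_lit 164346) (nat_lit 0) (nat_lit 0) (XT.nd (nat_lit 82446) (nat_lit 0) (nat_lit 0) (XT.nd (nat_lit 41262) (nat_lit 0) (nat_lit 0) xc8 xc9) (XT.nd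 (nat_lit 41028) (nat_lit 0) (nat_lit 0) xc10 xc11)) (XT.nd (nat_lit 81276) (nat_lit 0) (nat_lit 0) (XT.nd (nat_lit 40716) (nat_lit 0) (nat_lit 0) xc12 xc13) (XT.nd (nat_lit 40404) (nat_lit 0) (nat_lit 0) xc14 xc15)))) (XT.nd (nat_lit 281736) (nat_lit 0) (nat_lit 76) (XT.nd (nat_lit 159432) (nat_lit 0) (nat_lit 76) (XT.nd (nat_lit 79950) (nat_lit 0) (nat_lit 76) (XT.nd (nat_lit 40014) (nat_lit 0) (nat_lit 0) xc16 xc17) (XT.nd (nat_lit 39780) (nat_lit 0) (nat_lit 0) xc18 xc19)) (XT.nd (nat_lit 43680) (nat_lit 0) (nat_lit 0) (XT.nd (nat_lit 4134) (nat_lit 0) (nat_lit 0) xc20 xc21) (XT.nd (nat_lit 39390) (nat_lit 0) (nat_lit 0) xc22 xc23))) (XT.nd (nat_lit 120900) (nat_lit 0) (nat_lit 0) (XT.nd (nat_lit 43212) (nat_lit 0) (nat_lit 0) (XT.nd (nat_lit 4134) (nat_lit 0) (nat_lit 0) xc24 xc25) (XT.nd (nat_lit 38922) (nat_lit 0) (nat_lit 0) xc26 xc27)) (XT.nd (nat_lit 42744) (nat_lit 0) (nat_lit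 0) (XT.nd (nat_lit 4134) (nat_lit 152) (nat_lit 0) xc28 xc29) (XT.nd (nat_lit 38454) (nat_lit 0) (nat_lit 228) xc30 xc31))))) (XT.nd (nat_lit 401076) (nat_lit 0) (nat_lit 76) (XT.nd (nat_lit 202332) (nat_lit 0) (nat_lit 76) (XT.nd (nat_lit 118482) (nat_lit 0) (nat_lit 0) (XT.nd (nat_lit 76362) (nat_lit 0) (nat_lit 0) (XT.nd (nat_lit 38220) (nat_lit 0) (nat_lit 0) xc32 xc33) (XT.nd (nat_lit 4134) (nat_lit 456) (nat_lit 0) xc34 xc35)) (XT.nd (nat_lit 41964) (nat_lit 0) (nat_lit 76) (XT.nd (nat_lit 4134) (nat_lit 76) (nat_lit 0) xc36 xc37) (XT.nd (nat_lit 37752) (nat_lit 0) (nat_lit 456) xc38 xc39))) (XT.nd (nat_lit 83226) (nat_lit 0) (nat_lit 0) (XT.nd (nat_lit 41652) (nat_lit 0) (nat_lit 0) (XT.nd (nat_lit 37518) (nat_lit 0) (nat_lit 228) xc40 xc41) (XT.nd (nat_lit 37440) (nat_lit 0) (nat_lit 0) xc42 xc43)) (XT.nd (nat_lit 74412) (nat_lit 0) (nat_lit 0) (XT.nd (nat_lit 37284) (nat_lit 0)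 (nat_lit 0) xc44 xc45) (XT.nd (nat_lit 4134) (nat_lit 1064) (nat_lit 0) xc46 xc47)))) (XT.nd (nat_lit 164190) (nat_lit 0) (nat_lit 76) (XT.nd (nat_lit 81900) (nat_lit 0) (nat_lit 0) (XT.nd (nat_lit 40872) (nat_lit 0) (nat_lit 0) (XT.nd (nat_lit 4056) (nat_lit 988) (nat_lit 0) xc48 xc49) (XT.nd (nat_lit 4134) (nat_lit 684) (nat_lit 0) xc50 xc51)) (XT.nd (nat_lit 41106) (nat_lit 0) (nat_lit 0) (XT.nd (nat_lit 4134) (nat_lit 532) (nat_lit 0) xc52 xc53) (XT.nd (nat_lit 4134) (nat_lit 456) (nat_lit 0) xc54 xc55))) (XT.nd (nat_lit 82758) (nat_lit 0) (nat_lit 76) (XT.nd (nat_lit 41262) (nat_lit 0) (nat_lit 0) (XT.nd (nat_lit 4134) (nat_lit 152) (nat_lit 0) xc56 xc57) (XT.nd (nat_lit 4212) (nat_lit 76) (nat_lit 0) xc58 xc59)) (XT.nd (nat_lit 41496) (nat_lit 0) (nat_lit 0) (XT.nd (nat_lit 37362) (nat_lit 0) (nat_lit 1216) xc60 xc61) (XT.nd (nat_lit 37440) (nat_lit 0) (nat_lit 532) xc62 xc63))))))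 (XT.nd (nat_lit 853632) (nat_lit 0) (nat_lit 836) (XT.nd (nat_lit 404118) (nat_lit 0) (nat_lit 228) (XT.nd (nat_lit 200694) (nat_lit 0) (nat_lit 76) (XT.nd (nat_lit 116844) (nat_lit 0) (nat_lit 76) (XT.nd (nat_lit 41574) (nat_lit 0) (nat_lit 0) (XT.nd (nat_lit 37440) (nat_lit 0) (nat_lit 228) xc64 xc65) (XT.nd (nat_lit 37596) (nat_lit 0) (nat_lit 76) xc66 xc67)) (XT.nd (nat_lit 41886) (nat_lit 0) (nat_lit 0) (XT.nd (nat_lit 4134) (nat_lit 1444) (nat_lit 0) xc68 xc69) (XT.nd (nat_lit 4134) (nat_lit 456) (nat_lit 0) xc70 xc71))) (XT.nd (nat_lit 84396) (nat_lit 0) (nat_lit 76) (XT.nd (nat_lit 42120) (nat_lit 0) (nat_lit 0) (XT.nd (nat_lit 37986) (nat_lit 0) (nat_lit 1824) xc72 xc73) (XT.nd (nat_lit 38142) (nat_lit 0) (nat_lit 456) xc74 xc75)) (XT.nd (nat_lit 76518) (nat_lit 0) (nat_lit 76) (XT.nd (nat_lit 38220) (nat_lit 0) (nat_lit 0) xc76 xc77) (XT.nd (nat_lit 4134) (nat_lit 836) (nat_lit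 0) xc78 xc79)))) (XT.nd (nat_lit 205842) (nat_lit 0) (nat_lit 304) (XT.nd (nat_lit 119808) (nat_lit 0) (nat_lit 152) (XT.nd (nat_lit 42510) (nat_lit 0) (nat_lit 76) (XT.nd (nat_lit 38376) (nat_lit 0) (nat_lit 1292) xc80 xc81) (XT.nd (nat_lit 38532) (nat_lit 0) (nat_lit 76) xc82 xc83)) (XT.nd (nat_lit 42978) (nat_lit 0) (nat_lit 0) (XT.nd (nat_lit 4134) (nat_lit 1140) (nat_lit 0) xc84 xc85) (XT.nd (nat_lit 38922) (nat_lit 0) (nat_lit 760) xc86 xc87))) (XT.nd (nat_lit 121368) (nat_lit 0) (nat_lit 76) (XT.nd (nat_lit 78078) (nat_lit 0) (nat_lit 0) (XT.nd (nat_lit 39000) (nat_lit 0) (nat_lit 0) xc88 xc89) (XT.nd (nat_lit 39156) (nat_lit 0) (nat_lit 1368) xc90 xc91)) (XT.nd (nat_lit 78702) (nat_lit 0) (nat_lit 228) (XT.nd (nat_lit 39312) (nat_lit 0) (nat_lit 0) xc92 xc93) (XT.nd (nat_lit 39468) (nat_lit 0) (nat_lit 836) xc94 xc95))))) (XT.nd (nat_lit 607464) (nat_lit 0) (nat_lit 1596) (XT.nd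 (nat_lit 282984) (nat_lit 0) (nat_lit 532) (XT.nd (nat_lit 158730) (nat_lit 0) (nat_lit 304) (XT.nd (nat_lit 79092) (nat_lit 0) (nat_lit 76) (XT.nd (nat_lit 39468) (nat_lit 0) (nat_lit 76) xc96 xc97) (XT.nd (nat_lit 39780) (nat_lit 0) (nat_lit 152) xc98 xc99)) (XT.nd (nat_lit 44070) (nat_lit 0) (nat_lit 76) (XT.nd (nat_lit 4134) (nat_lit 532) (nat_lit 0) xc100 xc101) (XT.nd (nat_lit 40014) (nat_lit 0) (nat_lit 152) xc102 xc103))) (XT.nd (nat_lit 161382) (nat_lit 0) (nat_lit 532) (XT.nd (nat_lit 80496) (nat_lit 0) (nat_lit 152) (XT.nd (nat_lit 40170) (nat_lit 0) (nat_lit 152) xc104 xc105) (XT.nd (nat_lit 40404) (nat_lit 0) (nat_lit 152) xc106 xc107)) (XT.nd (nat_lit 81354) (nat_lit 0) (nat_lit 152) (XT.nd (nat_lit 40638) (nat_lit 0) (nat_lit 0) xc108 xc109) (XT.nd (nat_lit 40794) (nat_lit 0) (nat_lit 152) xc110 xc111)))) (XT.nd (nat_lit 406614) (nat_lit 0) (nat_lit 2052) (XT.nd (nat_lit 164658)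 (nat_lit 0) (nat_lit 608) (XT.nd (nat_lit 82056) (nat_lit 0) (nat_lit 380) (XT.nd (nat_lit 40950) (nat_lit 0) (nat_lit 0) xc112 xc113) (XT.nd (nat_lit 41262) (nat_lit 0) (nat_lit 76) xc114 xc115)) (XT.nd (nat_lit 120510) (nat_lit 0) (nat_lit 684) (XT.nd (nat_lit 78858) (nat_lit 0) (nat_lit 456) xc116 xc117) (XT.nd (nat_lit 41730) (nat_lit 0) (nat_lit 228) xc118 xc119))) (XT.nd (nat_lit 245856) (nat_lit 0) (nat_lit 1976) (XT.nd (nat_lit 122382) (nat_lit 0) (nat_lit 912) (XT.nd (nat_lit 42042) (nat_lit 0) (nat_lit 304) xc120 xc121) (XT.nd (nat_lit 80808) (nat_lit 0) (nat_lit 1064) xc122 xc123)) (XT.nd (nat_lit 202566) (nat_lit 0) (nat_lit 3040) (XT.nd (nat_lit 120354) (nat_lit 0) (nat_lit 1596) xc124 xc125) (XT.nd (nat_lit 122148) (nat_lit 0) (nat_lit 2128) xc126 xc127))))))) XT.nil))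

set_option maxRecDepth 10000000 in
noncomputable def Te : XT := XT.nil

set_option maxRecDepth 10000000 in
noncomputable def Tz : ZL := (ZL.cons (nat_lit 76) (nat_lit 6) (nat_lit 196620003249683696682) (ZL.cons (nat_lit 228) (nat_lit 3) (nat_lit 96116866166065466689) (ZL.cons (nat_lit 304) (nat_lit 6) (nat_lit 188083189331839887782) (ZL.cons (nat_lit 380) (nat_lit 6) (nat_lit 184158492003571771692) (ZL.cons (nat_lit 456) (nat_lit 3) (nat_lit 91973545313484061020) (ZL.cons (nat_lit 532) (nat_lit 6) (nat_lit 180037559808890249798) (ZL.cons (nat_lit 608) (nat_lit 6) (nat_lit 176345288470896561830) (ZL.cons (nat_lit 684) (nat_lit 3) (nat_lit 88071976913256066796) (ZL.cons (nat_lit 760) (nat_lit 6) (nat_lit 172468403566003189466) (ZL.cons (nat_lit 836) (nat_lit 6) (nat_lit 169002157717219348504) (ZL.cons (nat_lit 912) (nat_lit 3) (nat_lit 84405205218426613186) (ZL.cons (nat_lit 988) (nat_lit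 6) (nat_lit 165362599575996315494) (ZL.cons (nat_lit 1064) (nat_lit 6) (nat_lit 162116761909954226092) (ZL.cons (nat_lit 1140) (nat_lit 3) (nat_lit 80967072726231340602) (ZL.cons (nat_lit 1216) (nat_lit 6) (nat_lit 159065169253807810334) (ZL.cons (nat_lit 1292) (nat_lit 6) (nat_lit 158708632360610032220) (ZL.cons (nat_lit 1368) (nat_lit 6) (nat_lit 155678380507362528902) (ZL.cons (nat_lit 1444) (nat_lit 3) (nat_lit 77752230035828147838) (ZL.cons (nat_lit 1520) (nat_lit 6) (nat_lit 152836175007355296240) (ZL.cons (nat_lit 1596) (nat_lit 6) (nat_lit 152496616061452650416) (ZL.cons (nat_lit 1672) (nat_lit 6) (nat_lit 149677938796641468720) (ZL.cons (nat_lit 1748) (nat_lit 3) (nat_lit 74756150143222528061) (ZL.cons (nat_lit 1824) (nat_lit 6) (nat_lit 147041717140877962052) (ZL.cons (nat_lit 1900) (nat_lit 6) (nat_lit 146718327668589727936) (ZL.cons (nat_lit 1976) (nat_lit 6) (nat_lit 144581674375934122070)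 (ZL.cons (nat_lit 2052) (nat_lit 6) (nat_lit 144108045892129867456) (ZL.cons (nat_lit 2128) (nat_lit 3) (nat_lit 71975147465019022969) (ZL.cons (nat_lit 2204) (nat_lit 6) (nat_lit 141675240000454855970) (ZL.cons (nat_lit 2280) (nat_lit 6) (nat_lit 141367250026847013954) (ZL.cons (nat_lit 2356) (nat_lit 6) (nat_lit 139414117598584514880) (ZL.cons (nat_lit 2432) (nat_lit 6) (nat_lit 138963042852104272392) (ZL.cons (nat_lit 2508) (nat_lit 3) (nat_lit 69406401920294125947) (ZL.cons (nat_lit 2584) (nat_lit 6) (nat_lit 137319295061752486226) (ZL.cons (nat_lit 2660) (nat_lit 6) (nat_lit 136731949103012814718) (ZL.cons (nat_lit 2736) (nat_lit 6) (nat_lit 136438625318624393748) (ZL.cons (nat_lit 2812) (nat_lit 6) (nat_lit 134668656651598613652) (ZL.cons (nat_lit 2888) (nat_lit 6) (nat_lit 134239061654950763662) (ZL.cons (nat_lit 2964) (nat_lit 3) (nat_lit 67047988441039181595) (ZL.cons (nat_lit 3040)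 (nat_lit 6) (nat_lit 132768252896786873480) (ZL.cons (nat_lit 3116) (nat_lit 6) (nat_lit 132208875793225281564) (ZL.cons (nat_lit 3192) (nat_lit 6) (nat_lit 131929519808093452072) (ZL.cons (nat_lit 3268) (nat_lit 6) (nat_lit 130343233957586696308) (ZL.cons (nat_lit 3344) (nat_lit 6) (nat_lit 129934095865541124890) (ZL.cons (nat_lit 3420) (nat_lit 3) (nat_lit 64898912326640847935) (ZL.cons (nat_lit 3496) (nat_lit 6) (nat_lit 128637694143664439834) (ZL.cons (nat_lit 3572) (nat_lit 6) (nat_lit 128104954045034352296) (ZL.cons (nat_lit 3648) (nat_lit 6) (nat_lit 127838900725861181350) (ZL.cons (nat_lit 3724) (nat_lit 6) (nat_lit 127088195542377744862) (ZL.cons (nat_lit 3800) (nat_lit 6) (nat_lit 126437739247000499118) (ZL.cons (nat_lit 3876) (nat_lit 6) (nat_lit 126048083921242812052) (ZL.cons (nat_lit 3952) (nat_lit 3) (nat_lit 62959150907164535063) (ZL.cons (nat_lit 4028) (nat_lit 6) (nat_lit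 125691048871342595454) (ZL.cons (nat_lit 4104) (nat_lit 6) (nat_lit 124928481912396627606) (ZL.cons (nat_lit 4180) (nat_lit 6) (nat_lit 124421110389891782334) (ZL.cons (nat_lit 4256) (nat_lit 6) (nat_lit 124167726276393524288) (ZL.cons (nat_lit 4332) (nat_lit 6) (nat_lit 123573588571378442832) (ZL.cons (nat_lit 4408) (nat_lit 6) (nat_lit 122954106385304875456) (ZL.cons (nat_lit 4484) (nat_lit 6) (nat_lit 122583006075059459204) (ZL.cons (nat_lit 4560) (nat_lit 3) (nat_lit 61229702034237471542) (ZL.cons (nat_lit 4636) (nat_lit 6) (nat_lit 122369833287419711020) (ZL.cons (nat_lit 4712) (nat_lit 6) (nat_lit 121643579040804503544) (ZL.cons (nat_lit 4788) (nat_lit 6) (nat_lit 121160368066990365188) (ZL.cons (nat_lit 4864) (nat_lit 6) (nat_lit 120919049863658690862) (ZL.cons (nat_lit 4940) (nat_lit 6) (nat_lit 121314349976511006620) (ZL.cons (nat_lit 5016) (nat_lit 6) (nat_lit 120486408053189475242)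 (ZL.cons (nat_lit 5092) (nat_lit 6) (nat_lit 119896425018833696786) (ZL.cons (nat_lit 5168) (nat_lit 6) (nat_lit 119542996151933300356) (ZL.cons (nat_lit 5244) (nat_lit 3) (nat_lit 59712639977593071075) (ZL.cons (nat_lit 5320) (nat_lit 6) (nat_lit 120404625583150166048) (ZL.cons (nat_lit 5396) (nat_lit 6) (nat_lit 119479838253441659524) (ZL.cons (nat_lit 5472) (nat_lit 6) (nat_lit 118788167542379557166) (ZL.cons (nat_lit 5548) (nat_lit 6) (nat_lit 118327966614937520636) (ZL.cons (nat_lit 5624) (nat_lit 6) (nat_lit 118098139754621640326) (ZL.cons (nat_lit 5700) (nat_lit 6) (nat_lit 119638494096876806356) (ZL.cons (nat_lit 5776) (nat_lit 6) (nat_lit 118621473046799752072) (ZL.cons (nat_lit 5852) (nat_lit 6) (nat_lit 117832956929350674568) (ZL.cons (nat_lit 5928) (nat_lit 6) (nat_lit 117271068325202314136) (ZL.cons (nat_lit 6004) (nat_lit 6) (nat_lit 116934469404344793726) (ZL.cons (nat_lit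 6080) (nat_lit 3) (nat_lit 58411179370388035811) (ZL.cons (nat_lit 6156) (nat_lit 6) (nat_lit 116493286487343670884) (ZL.cons (nat_lit 6232) (nat_lit 6) (nat_lit 116634380242911250604) (ZL.cons (nat_lit 6308) (nat_lit 6) (nat_lit 116916903691559666186) (ZL.cons (nat_lit 6384) (nat_lit 6) (nat_lit 117341529508166651950) (ZL.cons (nat_lit 6460) (nat_lit 6) (nat_lit 117909268706581272150) (ZL.cons (nat_lit 6536) (nat_lit 6) (nat_lit 117028518868763646886) (ZL.cons (nat_lit 6612) (nat_lit 6) (nat_lit 116369784858228311308) (ZL.cons (nat_lit 6688) (nat_lit 6) (nat_lit 115931498260664466996) (ZL.cons (nat_lit 6764) (nat_lit 6) (nat_lit 115712615536554104792) (ZL.cons (nat_lit 6840) (nat_lit 3) (nat_lit 57606606454472465742) (ZL.cons (nat_lit 6916) (nat_lit 6) (nat_lit 115285480442284423536) (ZL.cons (nat_lit 6992) (nat_lit 6) (nat_lit 115502455107858469910) (ZL.cons (nat_lit 7068) (nat_lit 6)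 (nat_lit 115864653512013675478) (ZL.cons (nat_lit 7144) (nat_lit 6) (nat_lit 116372938031902790728) (ZL.cons (nat_lit 7220) (nat_lit 6) (nat_lit 115621970300998907390) (ZL.cons (nat_lit 7296) (nat_lit 6) (nat_lit 115086838297048087932) (ZL.cons (nat_lit 7372) (nat_lit 6) (nat_lit 114766267896231401826) (ZL.cons (nat_lit 7448) (nat_lit 3) (nat_lit 57329747917844880863) (ZL.cons (nat_lit 7524) (nat_lit 6) (nat_lit 114135188970799426062) (ZL.cons (nat_lit 7600) (nat_lit 6) (nat_lit 114283337414145384768) (ZL.cons (nat_lit 7676) (nat_lit 6) (nat_lit 114579987035226221128) (ZL.cons (nat_lit 7752) (nat_lit 6) (nat_lit 115025844142663556182) (ZL.cons (nat_lit 7828) (nat_lit 6) (nat_lit 114398478418344188964) (ZL.cons (nat_lit 7904) (nat_lit 6) (nat_lit 113981062611140527712) (ZL.cons (nat_lit 7980) (nat_lit 6) (nat_lit 113772602873892563710) (ZL.cons (nat_lit 8056) (nat_lit 3) (nat_lit 56590383519619218380)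 (ZL.cons (nat_lit 8132) (nat_lit 6) (nat_lit 113256647949244903414) (ZL.cons (nat_lit 8208) (nat_lit 6) (nat_lit 113484471348097652106) (ZL.cons (nat_lit 8284) (nat_lit 6) (nat_lit 113864779672460617952) (ZL.cons (nat_lit 8360) (nat_lit 6) (nat_lit 113355130144888408940) (ZL.cons (nat_lit 8436) (nat_lit 6) (nat_lit 113049825001253469792) (ZL.cons (nat_lit 8512) (nat_lit 3) (nat_lit 56474068662273572945) (ZL.cons (nat_lit 8588) (nat_lit 6) (nat_lit 112419942214431072318) (ZL.cons (nat_lit 8664) (nat_lit 6) (nat_lit 112575498079944328958) (ZL.cons (nat_lit 8740) (nat_lit 6) (nat_lit 112886980182079207136) (ZL.cons (nat_lit 8816) (nat_lit 6) (nat_lit 112489441318075720228) (ZL.cons (nat_lit 8892) (nat_lit 6) (nat_lit 112290908234982421180) (ZL.cons (nat_lit 8968) (nat_lit 3) (nat_lit 55885614026596214990) (ZL.cons (nat_lit 9044) (nat_lit 6) (nat_lit 111850903008699219966) (ZL.cons (nat_lit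 9120) (nat_lit 6) (nat_lit 112090117577494606092) (ZL.cons (nat_lit 9196) (nat_lit 6) (nat_lit 111799350774032759284) (ZL.cons (nat_lit 9272) (nat_lit 3) (nat_lit 55851252683822892069) (ZL.cons (nat_lit 9348) (nat_lit 6) (nat_lit 111308960908002217728) (ZL.cons (nat_lit 9424) (nat_lit 6) (nat_lit 111472294566791137200) (ZL.cons (nat_lit 9500) (nat_lit 6) (nat_lit 111283215440035614294) (ZL.cons (nat_lit 9576) (nat_lit 3) (nat_lit 55474190719759164689) (ZL.cons (nat_lit 9652) (nat_lit 6) (nat_lit 111032040142800458864) (ZL.cons (nat_lit 9728) (nat_lit 3) (nat_lit 55469903211215955552) (ZL.cons (nat_lit 9804) (nat_lit 6) (nat_lit 110768306080703545660) (ZL.cons (nat_lit 9880) (nat_lit 1) (nat_lit 18446744073709551617) ZL.nil)))))))))))))))))))))))))))))))))))))))))))))))))))))))))))))))))))))))))))))))))))))))))))))))))))))))))))))))))))))))))))))))))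

noncomputable def vl : XL := ⟨(nat_lit 0), (nat_lit 76), (nat_lit 236583411), (nat_lit 228), (nat_lit 144633332), (nat_lit 76), (nat_lit 236583411), (nat_lit 1), (nat_lit 5), (nat_lit 3), (nat_lit 4), (nat_lit 1), (nat_lit 4), (nat_lit 0), (nat_lit 0), (nat_lit 0)⟩

noncomputable def cp0 : Nat := (nat_lit 505867149475213685089918341424656844028463436927348996743450762326182623681311608688541124889098319364993481336723573749107954137496830097573503783761654216900240185563246249125360095661525812082624343386809454018820934618461795075654491816911233308895870518861669771662717419446275534577186725522207303435107848626233497721361526457052500505879319728059685065463468523246690397409661334168408250302410900052731899840703952558930255319731757330209804741928136646242275969135187485160912344984167042292018476157147659291552378542020410761989066836195052355747576919038060597674153221062956967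660312812414136861588136155900657640286571479041237709866369617936774911697128851590288878622850060539784998492066678524424021087133439255834920269185354387227313323802121618708086706112091821030619431558962482860813547933210039477016429634067420690410441750280568049117562703245384738341547212847556107815400415044661714935270936146983076973827417665747042567625143812226757996058019172829630971244239023378322211825782083266891229691659073540441355503993519296005079979303914834552482136496471295386675840937714447587518025145482953958307094742569822686615491100226747628482699604741946758375093230940538037016912789519671385019170325983140434948686677959887277541182722010321443804021278966918796693987682227552074607480944145895824597725436285265954950940385340383158761811170293618892482460896436299088060728726678768232550989526034030644994420608374826370861913107265569510553198278918595830994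716177874072060137072045658178917473491222939502177181849822707504033277992216778080704029341879867972846924360782234454656315969066584319713462862668981539525095433256943902433448677968547968592570760566643831307300158351075428132833199161827232039010317915658340739733832131961764179647992098397397653286151393340012799701044619081299991195702578019372639882787160738306363138261682270427661047438938851170193659207088795669985579727874959240228740527357838804336985465862319227745815409908158687857015976636675806704580840286626411983140783333609804872158543545266621793890288230147379964246975072162766159177557143085389680135852548695064420875845688668217978676768883765934186217880078897139278987566238821108654652531285482913927069220966199078475548469725228268983350778979966371807085514303174019939925629876971509411176829777569366692364548529007863951875751850620924908762500338781429672329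34861143401470945447791985327075778583783112546546643923026588142010710311952485699346286293991388381053831140511692767273313663516062845334915353191337945087639214378658484176082696854302610636317688872327763734307665342258962624192410451740306595976228564242790683345029319295242177795906132084060257363996316481913408067294813161157233711196867913438458389713424304998422944796191657609866591112986643589921654936195145088773851436324373380815713900198200101581885971739833149838030013505694886669270893199396907497946133602758213745354811303782437851195782778871559730419173753981590179383380803584)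

noncomputable def cp1 : Nat := (nat_lit 497133676676239398978231102182224541988113943202801132777633701668675966934937412997678877356724230689602358663187670736772965320660036633848476489948357171077485573961265828334193370716155088504701884805294713452957699178155415627127825369608052579784653549109102544780456323823000364087568331343873917835320707794073330588709877027591475128281787361533144041417854604572205198294108316501878250496269910841759663958373472339201465285494992331569559925934348206057335343352742405434316563528999193303798440442236993625827656998335236668137720672187680195285841684613456529836149347253547246521270502701212903997275393213554158682645392375074506873359437245236456947001782501560369617589372489745869524765839766915268385671973173080026813349702937745174828559929401560833203388342010304288200835478670604944045897531790751403279592161685522878461236764286786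436581115761495104570301279935023447323635959524626323538120640257235912039068145588738181639877913787311080882630514896907805675557638508785244160013349636123643223399777665817182592877921274052501160337846924263941676093418121225803294690820202722700105179853596121609153261557720073615932965442082277950556325979226811005287158522493956474372667014089299623337014110060755540595162587464914748464324179528845816598446040682251671428449440780033089230308135790199336667793042476248313035666853596205139995215954015178777053805577470712192624938359008802548584560344133063818756434580780716771321044507403541123106328569402062192862084366440011145499793403767924870879355163656579728855325982308432160472535835454063288186489090329073305728241504436935579133871026627938975366121272479758985154323021531345926084813064990647137817032836675501758555293925748990458711391949305275865100289005862510671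026921131046278001861946766154467543725965540833397515500330613490771854363467972319028603962730807766569779291158217363069942539422487456896404959762654148222110212735088274476079399623099950229271699648759393375812272561927641099685604962929126264037169835378917647482098195344433769022308019521925075234393375018379950438002561609644426749574510408093403020131719456173573500085516463479542733436693584170274866180405400072751351990016900779244325624423123026070081938963404280771172041153340191338820074134624575775384304719099147014934436877207997690015059644610239604328156077591570814415699401749148969173695102415000999161689757331231835340009811404736287596095549907479908019071775369589667304173716601495063599208131140852969009515842402628067172975516328293704240284569760674809731144272803067238613364568399325329205244562670787300657670168406856975363717919785458976831249325668462816267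486531721640008486041535543219853796463631600112065070280945852225434136722271050448511898703265734609260925448560838674736308778941919799997867728761307388774205676946786853837199281178009160303262567794579922727375566501065706247271743206097206646579720241051733199703466190345168680168557029385432728044195767056504725574385069215429611529458586533088333783148985093366664215039547216807320025955451639639838749290904710312860447919063005006772147976354782832592546794384506331430338920399898904747226373092583352732948970023773992932668731674538126291489224796371239311301486866991068181829886926617861089909667633870345129351108336878353536494682857117468097852666776061894445184825505110231916842237355306996541556588480223530946119030006273698382743462869285102217009767790218922820074679445808966497673528271270705157066945955838714892332063183468899105835530034890056757799910517510810323250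972268651855569441865081507333871075101856320547686152309507017672895792202442545157017482741057208174229323608140866892552225041670093004784076418773042545565063805756877470648091536006824938092794455046489204825928560844435819643306322849090685162192144375301796288873029533954036049665174041146371972624787540597185886755675872241018997813537689787278431561322850666285803359198444204689339078753399872910732722733520333780804573860374874720630451344520370080985582885698139782337424436036761500755781939886995352903360381159596819825470749584457007541337022760097882134334084793458248094322856597796317570204944953169869155022535941255140848042764816456220967896661577683598535364610525010154210543877476425667780698133322540089212139498952872640340301445836101027822904308777138570013843686504290679692418891334517358653978156805438384297274194359237304873059937217935522111300414458870179629823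671923506625093511283357205943051846863142251990935290401836799037558322257421131500584848907483878994687876751403549930977528694088675385994774262108266459451952368707462021358979721192755976700258697343713319426035548174959806576523342376300361331141984908277425259738237245966603132915569399262079991652158057741978086602723420607680249166778184374744740820147980118975318787561117394830430711583585632077232076345132074232707645592170674629967974109074824335181601142859152384142006323088536797714229477894968145793380804284067426762231528258839037954233906756666707347394348907105900037367702255849831795763894650030871365661815824171437213008086929904559876778037925393093780125597494152002141631680955082117053385129592301381068651390897453805273796897972990652977097983821260075355168892695911643533324490986532564311712371130380482334526213020897981252808646619729436283719370097634177255655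488753653621268332618809522991734807830758490407212352115547261896971147885985909279857934829713960244473335296318674554997999511764865353384015837817462228203545396941086069288911795167540486223679587431499314847749308941091834818383518586790479923896490581184823798964008813800133243155815651963227839240797612776605429975708116945488212534803412640355644068392482023834863370866176683787809931211375736575786297109419846711405768006152329273134136027491141239264962566299984829395119040549367197600906342716132391969217547102925943415307604495613831821930212758722771711355712361599954987963939959510259317141965761528406201345712037923421421553448177463914034378848334507692294247271475751351388677073387684000870520018562880553870184756483601604326427990973025255033324291680474423291599059094233288645652596346352494898971339829552909131864687762568685764251712302769966570158457951377274731705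3599599886393482307194178856554686594117301115629456597327850272544080292327435656948399481672589017230153148514226779211591107486160599756076727293094660122959788181128798249731458605714786265979676304325867386633764949210464718986833057784140891957128059288579010309075124880747650600204312128714438708666149565667200999780154580495620790946962689936844704512534309615096380339632593028712565073303048516508282979877832702218877812200774702457831184183127422895557262652103778727850996029546608893146028164667108804184039538420870010350488923102222613026279496018524595010966537125425563779947453728770622933478010540032501513053995236519405545166477058076084824702976)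

noncomputable def rc0 : Nat := (nat_lit 497133676676239398978231102182224541988113943202801132777633701668675966934937412997678877356724230689602358663187670736772965320660036633848476489948357171077485573961265828334193370716155088504701884805294713452957699178155415627127825369608052579784653549109102544780456323823000364087568331343873917835320707794073330588709877027591475128281787361533144041417854604572205198294108316501878250496269910841759663958373472339201465285494992331569559925934348206057335343352742405434316563528999193303798440442236993625827656998335236668137720672187680195285841684613456529836149347253547246521270502701212903997275393213554158682645392375074506873359437245236456947001782501560369617589372489745869524765839766915268385671973173080026813349702937745174828559929401560833203388342010304288200835478670604944045897531790751403279592161685522878461236764286786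436581115761495104570301279935023447323635959524626323538120640257235912039068145588738181639877913787311080882630514896907805675557638508785244160013349636123643223399777665817182592877921274052501160337846924263941676093418121225803294690820202722700105179853596121609153261557720073615932965442082277950556325979226811005287158522493956474372667014089299623337014110060755540595162587464914748464324179528845816598446040682251671428449440780033089230308135790199336667793042476248313035666853596205139995215954015178777053805577470712192624938359008802548584560344133063818756434580780716771321044507403541123106328569402062192862084366440011145499793403767924870879355163656579728855325982308432160472535835454063288186489090329073305728241504436935579133871026627938975366121272479758985154323021531345926084813064990647137817032836675501758555293925748990458711391949305275865100289005862510671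026921131046278001861946766154467543725965540833397515500330613490771854363467972319028603962730807766569779291158217363069942539422487456896404959762654148222110212735088274476079399623099950229271699648759393375812272561927641099685604962929126264037169835378917647482098195344433769022308019521925075234393375018379950438002561609644426749574510408093403020131719456173573500085516463479542733436693584170274866180405400072751351990016900779244325624423123026070081938963404280771172041153340191338820074134624575775384304719099147014934436877207997690015059644610239604328156077591570814415699401749148969173695102415000999161689757331231835340009811404736287596095549907479908019071775369589667304173716601495063599208131140852969009515842402628067172975516328293704240284569760674809731144272803067238613364568399325329205244562670787300657670168406856975363717919785458976831249325668462816267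486531721640008486041535543219853796463631600112065070280945852225434136722271050448511898703265734609260925448560838674736308778941919799997867728761307388774205676946786853837199281178009160303262567794579922727375566501065706247271743206097206646579720241051733199703466190345168680168557029385432728044195767056504725574385069215429611529458586533088333783148985093366664215039547216807320025955451639639838749290904710312860447919063005006772147976354782832592546794384506331430338920399898904747226373092583352732948970023773992932668731674538126291489224796371239311301486866991068181829886926617861089909667633870345129351108336878353536494682857117468097852666776061894445184825505110231916842237355306996541556588480223530946119030006273698382743462869285102217009767790218922820074679445808966497673528271270705157066945955838714892332063183468899105835530034890056757799910517510810323250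972268651855569441865081507333871075101856320547686152309507017672895792202442545157017482741057208174229323608140866892552225041670093004784076418773042545565063805756877470648091536006824938092794455046489204825928560844435819643306322849090685162192144375301796288873029533954036049665174041146371972624787540597185886755675872241018997813537689787278431561322850666285803359198444204689339078753399872910732722733520333780804573860374874720630451344520370080985582885698139782337424436036761500755781939886995352903360381159596819825470749584457007541337022760097882134334084793458248094322856597796317570204944953169869155022535941255140848042764816456220967896661577683598535364610525010154210543877476425667780698133322540089212139498952872640340301445836101027822904308777138570013843686504290679692418891334517358653978156805438384297274194359237304873059937217935522111300414458870179629823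671923506625093511283357205943051846863142251990935290401836799037558322257421131500584848907483878994687876751403549930977528694088675385994774262108266459451952368707462021358979721192755976700258697343713319426035548174959806576523342376300361331141984908277425259738237245966603132915569399262079991652158057741978086602723420607680249166778184374744740820147980118975318787561117394830430711583585632077232076345132074232707645592170674629967974109074824335181601142859152384142006323088536797714229477894968145793380804284067426762231528258839037954233906756666707347394348907105900037367702255849831795763894650030871365661815824171437213008086929904559876778037925393093780125597494152002141631680955082117053385129592301381068651390897453805273796897972990652977097983821260075355168892695911643533324490986532564311712371130380482334526213020897981252808646619729436283719370097634177255655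488753653621268332618809522991734807830758490407212352115547261896971147885985909279857934829713960244473335296318674554997999511764865353384015837817462228203545396941086069288911795167540486223679587431499314847749308941091834818383518586790479923896490581184823798964008813800133243155815651963227839240797612776605429975708116945488212534803412640355644068392482023834863370866176683787809931211375736575786297109419846711405768006152329273134136027491141239264962566299984829395119040549367197600906342716132391969217547102925943415307604495613831821930212758722771711355712361599954987963939959510259317141965761528406201345712037923421421553448177463914034378848334507692294247271475751351388677073387684000870520018562880553870184756483601604326427990973025255033324291680474423291599059094233288645652596346352494898971339829552909131864687762568685764251712302769966570158457951377274731705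3599599886393482307194178856554686594117301115629456597327850272544080292327435656948399481672589017230153148514226779211591107486160599756076727293094660122959788181128798249731458605714786265979676304325867386633764949210464718986833057784140891957128059288579010309075124880747650600204312128714438708666149565667200999780154580495620790946962689936844704512534309615096380339632593028712565073303048516508282979877832702218877812200774702457831184183127422895557262652103778727850996029546608893146028164667108804184039538420870010350488923102222613026279496018524595010966537125425563779947453728770622933478010540032501513053995236519405545166477058076084824702976)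

end Vale.Agent.Lib.P154.PChain.BQ.S5
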