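import Vale.Agent.Lib.P154.PChain.BQ.R5_0

set_option linter.all false

namespace Vale.Agent.Lib.P154.PChain.BQ.S6

open Vale.Agent.Lib.P154.Chain

noncomputable def pc0 : PT := (PT.nd (nat_lit 3141294) (PT.nd (nat_lit 2938338) (PT.nd (nat_lit 2816580) (PT.nd (nat_lit 2775942) (PT.nd (nat_lit 2735382) (PT.nd (nat_lit 2735304) PT.nil (PT.lf (nat_lit 76) (nat_lit 6) (nat_lit 1) (nat_lit 3) (nat_lit 161) (nat_lit 67) (nat_lit 162))) (PT.nd (nat_lit 40482) (PT.lf (nat_lit 76) (nat_lit 6) (nat_lit 1) (nat_lit 1) (nat_lit 162) (nat_lit 67) (nat_lit 161)) (PT.lf (nat_lit 152) (nat_lit 6) (nat_lit 2) (nat_lit 3) (nat_lit 160) (nat_lit 68) (nat_lit 162)))) (PT.nd (nat_lit 78) (PT.lf (nat_lit 228) (nat_lit 3) (nat_lit 3) (nat_lit 1) (nat_lit 161) (nat_lit 68) (nat_lit 161)) (PT.nd (nat_lit 40482) (PT.lf (nat_lit 152) (nat_lit 6) (nat_lit 2) (nat_lit 1) (nat_lit 162) (nat_lit 68) (nat_lit 160)) (PT.lf (nat_lit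 304) (nat_lit 6) (nat_lit 4) (nat_lit 3) (nat_lit 160) (nat_lit 69) (nat_lit 161))))) (PT.nd (nat_lit 40638) (PT.nd (nat_lit 40482) (PT.lf (nat_lit 304) (nat_lit 6) (nat_lit 4) (nat_lit 1) (nat_lit 161) (nat_lit 69) (nat_lit 160)) (PT.nd (nat_lit 78) (PT.lf (nat_lit 380) (nat_lit 6) (nat_lit 5) (nat_lit 3) (nat_lit 159) (nat_lit 70) (nat_lit 161)) (PT.lf (nat_lit 456) (nat_lit 3) (nat_lit 6) (nat_lit 1) (nat_lit 160) (nat_lit 70) (nat_lit 160)))) (PT.nd (nat_lit 40560) (PT.nd (nat_lit 40482) (PT.lf (nat_lit 380) (nat_lit 6) (nat_lit 5) (nat_lit 1) (nat_lit 161) (nat_lit 70) (nat_lit 159)) (PT.lf (nat_lit 532) (nat_lit 6) (nat_lit 7) (nat_lit 3) (nat_lit 159) (nat_lit 71) (nat_lit 160))) (PT.nd (nat_lit 40482) (PT.lf (nat_lit 532) (nat_lit 6) (nat_lit 7) (nat_lit 1) (nat_lit 160) (nat_lit 71) (nat_lit 159)) (PT.lf (nat_lit 608) (nat_lit 6) (nat_lit 8) (nat_lit 3) (nat_lit 158) (nat_lit 72) (nat_lit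 160)))))) (PT.nd (nat_lit 81276) (PT.nd (nat_lit 40638) (PT.nd (nat_lit 78) (PT.lf (nat_lit 684) (nat_lit 3) (nat_lit 9) (nat_lit 1) (nat_lit 159) (nat_lit 72) (nat_lit 159)) (PT.nd (nat_lit 40482) (PT.lf (nat_lit 608) (nat_lit 6) (nat_lit 8) (nat_lit 1) (nat_lit 160) (nat_lit 72) (nat_lit 158)) (PT.lf (nat_lit 760) (nat_lit 6) (nat_lit 10) (nat_lit 3) (nat_lit 158) (nat_lit 73) (nat_lit 159)))) (PT.nd (nat_lit 40482) (PT.lf (nat_lit 760) (nat_lit 6) (nat_lit 10) (nat_lit 1) (nat_lit 159) (nat_lit 73) (nat_lit 158)) (PT.nd (nat_lit 78) (PT.lf (nat_lit 836) (nat_lit 6) (nat_lit 11) (nat_lit 3) (nat_lit 157) (nat_lit 74) (nat_lit 159)) (PT.lf (nat_lit 912) (nat_lit 3) (nat_lit 12) (nat_lit 1) (nat_lit 158) (nat_lit 74) (nat_lit 158))))) (PT.nd (nat_lit 81042) (PT.nd (nat_lit 40482) (PT.lf (nat_lit 836) (nat_lit 6) (nat_lit 11) (nat_lit 1) (nat_lit 159) (nat_lit 74) (nat_lit 157)) (PT.nd (nat_lit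 78) (PT.lf (nat_lit 988) (nat_lit 6) (nat_lit 13) (nat_lit 3) (nat_lit 157) (nat_lit 75) (nat_lit 158)) (PT.lf (nat_lit 988) (nat_lit 6) (nat_lit 13) (nat_lit 1) (nat_lit 158) (nat_lit 75) (nat_lit 157)))) (PT.nd (nat_lit 156) (PT.nd (nat_lit 78) (PT.lf (nat_lit 1064) (nat_lit 6) (nat_lit 14) (nat_lit 3) (nat_lit 156) (nat_lit 76) (nat_lit 158)) (PT.lf (nat_lit 1140) (nat_lit 3) (nat_lit 15) (nat_lit 1) (nat_lit 157) (nat_lit 76) (nat_lit 157))) (PT.nd (nat_lit 40404) (PT.lf (nat_lit 1064) (nat_lit 6) (nat_lit 14) (nat_lit 1) (nat_lit 158) (nat_lit 76) (nat_lit 156)) (PT.lf (nat_lit 1216) (nat_lit 6) (nat_lit 16) (nat_lit 3) (nat_lit 155) (nat_lit 77) (nat_lit 158))))))) (PT.nd (nat_lit 162318) (PT.nd (nat_lit 81120) (PT.nd (nat_lit 40560) (PT.nd (nat_lit 78) (PT.lf (nat_lit 1292) (nat_lit 6) (nat_lit 17) (nat_lit 3) (nat_lit 156) (nat_lit 77) (nat_lit 157)) (PT.nd (nat_lit 78) (PT.lf (nat_lit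 1292) (nat_lit 6) (nat_lit 17) (nat_lit 1) (nat_lit 157) (nat_lit 77) (nat_lit 156)) (PT.lf (nat_lit 1216) (nat_lit 6) (nat_lit 16) (nat_lit 1) (nat_lit 158) (nat_lit 77) (nat_lit 155)))) (PT.nd (nat_lit 78) (PT.lf (nat_lit 1368) (nat_lit 6) (nat_lit 18) (nat_lit 3) (nat_lit 155) (nat_lit 78) (nat_lit 157)) (PT.nd (nat_lit 78) (PT.lf (nat_lit 1444) (nat_lit 3) (nat_lit 19) (nat_lit 1) (nat_lit 156) (nat_lit 78) (nat_lit 156)) (PT.lf (nat_lit 1368) (nat_lit 6) (nat_lit 18) (nat_lit 1) (nat_lit 157) (nat_lit 78) (nat_lit 155))))) (PT.nd (nat_lit 234) (PT.nd (nat_lit 78) (PT.lf (nat_lit 1520) (nat_lit 6) (nat_lit 20) (nat_lit 3) (nat_lit 154) (nat_lit 79) (nat_lit 157)) (PT.nd (nat_lit 78) (PT.lf (nat_lit 1596) (nat_lit 6) (nat_lit 21) (nat_lit 3) (nat_lit 155) (nat_lit 79) (nat_lit 156)) (PT.lf (nat_lit 1596) (nat_lit 6) (nat_lit 21) (nat_lit 1) (nat_lit 156) (nat_lit 79) (nat_lit 155)))) (PT.nd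 (nat_lit 40482) (PT.nd (nat_lit 40404) (PT.lf (nat_lit 1520) (nat_lit 6) (nat_lit 20) (nat_lit 1) (nat_lit 157) (nat_lit 79) (nat_lit 154)) (PT.lf (nat_lit 1672) (nat_lit 6) (nat_lit 22) (nat_lit 3) (nat_lit 154) (nat_lit 80) (nat_lit 156))) (PT.nd (nat_lit 78) (PT.lf (nat_lit 1748) (nat_lit 3) (nat_lit 23) (nat_lit 1) (nat_lit 155) (nat_lit 80) (nat_lit 155)) (PT.lf (nat_lit 1672) (nat_lit 6) (nat_lit 22) (nat_lit 1) (nat_lit 156) (nat_lit 80) (nat_lit 154)))))) (PT.nd (nat_lit 40794) (PT.nd (nat_lit 234) (PT.nd (nat_lit 78) (PT.lf (nat_lit 1824) (nat_lit 6) (nat_lit 24) (nat_lit 3) (nat_lit 153) (nat_lit 81) (nat_lit 156)) (PT.nd (nat_lit 78) (PT.lf (nat_lit 1900) (nat_lit 6) (nat_lit 25) (nat_lit 3) (nat_lit 154) (nat_lit 81) (nat_lit 155)) (PT.lf (nat_lit 1900) (nat_lit 6) (nat_lit 25) (nat_lit 1) (nat_lit 155) (nat_lit 81) (nat_lit 154)))) (PT.nd (nat_lit 40404) (PT.lf (nat_lit 1824) (nat_lit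 6) (nat_lit 24) (nat_lit 1) (nat_lit 156) (nat_lit 81) (nat_lit 153)) (PT.nd (nat_lit 78) (PT.lf (nat_lit 1976) (nat_lit 6) (nat_lit 26) (nat_lit 3) (nat_lit 153) (nat_lit 82) (nat_lit 155)) (PT.lf (nat_lit 2052) (nat_lit 3) (nat_lit 27) (nat_lit 1) (nat_lit 154) (nat_lit 82) (nat_lit 154))))) (PT.nd (nat_lit 40560) (PT.nd (nat_lit 40404) (PT.lf (nat_lit 1976) (nat_lit 6) (nat_lit 26) (nat_lit 1) (nat_lit 155) (nat_lit 82) (nat_lit 153)) (PT.nd (nat_lit 78) (PT.lf (nat_lit 2128) (nat_lit 6) (nat_lit 28) (nat_lit 3) (nat_lit 152) (nat_lit 83) (nat_lit 155)) (PT.lf (nat_lit 2204) (nat_lit 6) (nat_lit 29) (nat_lit 3) (nat_lit 153) (nat_lit 83) (nat_lit 154)))) (PT.nd (nat_lit 40404) (PT.nd (nat_lit 78) (PT.lf (nat_lit 2204) (nat_lit 6) (nat_lit 29) (nat_lit 1) (nat_lit 154) (nat_lit 83) (nat_lit 153)) (PT.lf (nat_lit 2128) (nat_lit 6) (nat_lit 28) (nat_lit 1) (nat_lit 155) (nat_lit 83) (nat_lit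 152))) (PT.nd (nat_lit 78) (PT.lf (nat_lit 2280) (nat_lit 6) (nat_lit 30) (nat_lit 3) (nat_lit 151) (nat_lit 84) (nat_lit 155)) (PT.lf (nat_lit 2356) (nat_lit 6) (nat_lit 31) (nat_lit 3) (nat_lit 152) (nat_lit 84) (nat_lit 154))))))))
noncomputable def pc1 : PT := (PT.nd (nat_lit 203190) (PT.nd (nat_lit 121758) (PT.nd (nat_lit 40716) (PT.nd (nat_lit 40482) (PT.nd (nat_lit 78) (PT.lf (nat_lit 2432) (nat_lit 3) (nat_lit 32) (nat_lit 1) (nat_lit 153) (nat_lit 84) (nat_lit 153)) (PT.nd (nat_lit 78) (PT.lf (nat_lit 2356) (nat_lit 6) (nat_lit 31) (nat_lit 1) (nat_lit 154) (nat_lit 84) (nat_lit 152)) (PT.lf (nat_lit 2280) (nat_lit 6) (nat_lit 30) (nat_lit 1) (nat_lit 155) (nat_lit 84) (nat_lit 151)))) (PT.nd (nat_lit 78) (PT.lf (nat_lit 2508) (nat_lit 6) (nat_lit 33) (nat_lit 3) (nat_lit 151) (nat_lit 85) (nat_lit 154)) (PT.nd (nat_lit 78) (PT.lf (nat_lit 2584) (nat_lit 6) (nat_lit 34) (nat_lit 3)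 (nat_lit 152) (nat_lit 85) (nat_lit 153)) (PT.lf (nat_lit 2584) (nat_lit 6) (nat_lit 34) (nat_lit 1) (nat_lit 153) (nat_lit 85) (nat_lit 152))))) (PT.nd (nat_lit 40482) (PT.nd (nat_lit 40326) (PT.lf (nat_lit 2508) (nat_lit 6) (nat_lit 33) (nat_lit 1) (nat_lit 154) (nat_lit 85) (nat_lit 151)) (PT.nd (nat_lit 78) (PT.lf (nat_lit 2660) (nat_lit 6) (nat_lit 35) (nat_lit 3) (nat_lit 150) (nat_lit 86) (nat_lit 154)) (PT.lf (nat_lit 2736) (nat_lit 6) (nat_lit 36) (nat_lit 3) (nat_lit 151) (nat_lit 86) (nat_lit 153)))) (PT.nd (nat_lit 156) (PT.nd (nat_lit 78) (PT.lf (nat_lit 2812) (nat_lit 3) (nat_lit 37) (nat_lit 1) (nat_lit 152) (nat_lit 86) (nat_lit 152)) (PT.lf (nat_lit 2736) (nat_lit 6) (nat_lit 36) (nat_lit 1) (nat_lit 153) (nat_lit 86) (nat_lit 151))) (PT.nd (nat_lit 40326) (PT.lf (nat_lit 2660) (nat_lit 6) (nat_lit 35) (nat_lit 1) (nat_lit 154) (nat_lit 86) (nat_lit 150)) (PT.lf (nat_lit 2888)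 (nat_lit 6) (nat_lit 38) (nat_lit 3) (nat_lit 150) (nat_lit 87) (nat_lit 153)))))) (PT.nd (nat_lit 40716) (PT.nd (nat_lit 40482) (PT.nd (nat_lit 78) (PT.lf (nat_lit 2964) (nat_lit 6) (nat_lit 39) (nat_lit 3) (nat_lit 151) (nat_lit 87) (nat_lit 152)) (PT.nd (nat_lit 78) (PT.lf (nat_lit 2964) (nat_lit 6) (nat_lit 39) (nat_lit 1) (nat_lit 152) (nat_lit 87) (nat_lit 151)) (PT.lf (nat_lit 2888) (nat_lit 6) (nat_lit 38) (nat_lit 1) (nat_lit 153) (nat_lit 87) (nat_lit 150)))) (PT.nd (nat_lit 78) (PT.lf (nat_lit 3040) (nat_lit 6) (nat_lit 40) (nat_lit 3) (nat_lit 149) (nat_lit 88) (nat_lit 153)) (PT.nd (nat_lit 78) (PT.lf (nat_lit 3116) (nat_lit 6) (nat_lit 41) (nat_lit 3) (nat_lit 150) (nat_lit 88) (nat_lit 152)) (PT.lf (nat_lit 3192) (nat_lit 3) (nat_lit 42) (nat_lit 1) (nat_lit 151) (nat_lit 88) (nat_lit 151))))) (PT.nd (nat_lit 40404) (PT.nd (nat_lit 78) (PT.lf (nat_lit 3116) (nat_lit 6) (nat_lit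 41) (nat_lit 1) (nat_lit 152) (nat_lit 88) (nat_lit 150)) (PT.nd (nat_lit 40248) (PT.lf (nat_lit 3040) (nat_lit 6) (nat_lit 40) (nat_lit 1) (nat_lit 153) (nat_lit 88) (nat_lit 149)) (PT.lf (nat_lit 3268) (nat_lit 6) (nat_lit 43) (nat_lit 3) (nat_lit 148) (nat_lit 89) (nat_lit 153)))) (PT.nd (nat_lit 156) (PT.nd (nat_lit 78) (PT.lf (nat_lit 3344) (nat_lit 6) (nat_lit 44) (nat_lit 3) (nat_lit 149) (nat_lit 89) (nat_lit 152)) (PT.lf (nat_lit 3420) (nat_lit 6) (nat_lit 45) (nat_lit 3) (nat_lit 150) (nat_lit 89) (nat_lit 151))) (PT.nd (nat_lit 78) (PT.lf (nat_lit 3420) (nat_lit 6) (nat_lit 45) (nat_lit 1) (nat_lit 151) (nat_lit 89) (nat_lit 150)) (PT.lf (nat_lit 3344) (nat_lit 6) (nat_lit 44) (nat_lit 1) (nat_lit 152) (nat_lit 89) (nat_lit 149))))))) (PT.nd (nat_lit 121524) (PT.nd (nat_lit 80808) (PT.nd (nat_lit 40404) (PT.nd (nat_lit 40248) (PT.lf (nat_lit 3268) (nat_lit 6) (nat_lit 43) (nat_lit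 1) (nat_lit 153) (nat_lit 89) (nat_lit 148)) (PT.nd (nat_lit 78) (PT.lf (nat_lit 3496) (nat_lit 6) (nat_lit 46) (nat_lit 3) (nat_lit 148) (nat_lit 90) (nat_lit 152)) (PT.lf (nat_lit 3572) (nat_lit 6) (nat_lit 47) (nat_lit 3) (nat_lit 149) (nat_lit 90) (nat_lit 151)))) (PT.nd (nat_lit 78) (PT.lf (nat_lit 3648) (nat_lit 3) (nat_lit 48) (nat_lit 1) (nat_lit 150) (nat_lit 90) (nat_lit 150)) (PT.nd (nat_lit 78) (PT.lf (nat_lit 3572) (nat_lit 6) (nat_lit 47) (nat_lit 1) (nat_lit 151) (nat_lit 90) (nat_lit 149)) (PT.lf (nat_lit 3496) (nat_lit 6) (nat_lit 46) (nat_lit 1) (nat_lit 152) (nat_lit 90) (nat_lit 148))))) (PT.nd (nat_lit 234) (PT.nd (nat_lit 78) (PT.lf (nat_lit 3724) (nat_lit 6) (nat_lit 49) (nat_lit 3) (nat_lit 147) (nat_lit 91) (nat_lit 152)) (PT.nd (nat_lit 78) (PT.lf (nat_lit 3800) (nat_lit 6) (nat_lit 50) (nat_lit 3) (nat_lit 148) (nat_lit 91) (nat_lit 151)) (PT.lf (nat_lit 3876) (nat_lit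 6) (nat_lit 51) (nat_lit 3) (nat_lit 149) (nat_lit 91) (nat_lit 150)))) (PT.nd (nat_lit 156) (PT.nd (nat_lit 78) (PT.lf (nat_lit 3876) (nat_lit 6) (nat_lit 51) (nat_lit 1) (nat_lit 150) (nat_lit 91) (nat_lit 149)) (PT.lf (nat_lit 3800) (nat_lit 6) (nat_lit 50) (nat_lit 1) (nat_lit 151) (nat_lit 91) (nat_lit 148))) (PT.nd (nat_lit 40248) (PT.lf (nat_lit 3724) (nat_lit 6) (nat_lit 49) (nat_lit 1) (nat_lit 152) (nat_lit 91) (nat_lit 147)) (PT.lf (nat_lit 3952) (nat_lit 6) (nat_lit 52) (nat_lit 3) (nat_lit 147) (nat_lit 92) (nat_lit 151)))))) (PT.nd (nat_lit 40716) (PT.nd (nat_lit 234) (PT.nd (nat_lit 78) (PT.lf (nat_lit 4028) (nat_lit 6) (nat_lit 53) (nat_lit 3) (nat_lit 148) (nat_lit 92) (nat_lit 150)) (PT.nd (nat_lit 78) (PT.lf (nat_lit 4104) (nat_lit 3) (nat_lit 54) (nat_lit 1) (nat_lit 149) (nat_lit 92) (nat_lit 149)) (PT.lf (nat_lit 4028) (nat_lit 6) (nat_lit 53) (nat_lit 1) (nat_lit 150)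 (nat_lit 92) (nat_lit 148)))) (PT.nd (nat_lit 40326) (PT.nd (nat_lit 40248) (PT.lf (nat_lit 3952) (nat_lit 6) (nat_lit 52) (nat_lit 1) (nat_lit 151) (nat_lit 92) (nat_lit 147)) (PT.lf (nat_lit 4180) (nat_lit 6) (nat_lit 55) (nat_lit 3) (nat_lit 146) (nat_lit 93) (nat_lit 151))) (PT.nd (nat_lit 78) (PT.lf (nat_lit 4256) (nat_lit 6) (nat_lit 56) (nat_lit 3) (nat_lit 147) (nat_lit 93) (nat_lit 150)) (PT.lf (nat_lit 4332) (nat_lit 6) (nat_lit 57) (nat_lit 3) (nat_lit 148) (nat_lit 93) (nat_lit 149))))) (PT.nd (nat_lit 40326) (PT.nd (nat_lit 78) (PT.lf (nat_lit 4332) (nat_lit 6) (nat_lit 57) (nat_lit 1) (nat_lit 149) (nat_lit 93) (nat_lit 148)) (PT.nd (nat_lit 78) (PT.lf (nat_lit 4256) (nat_lit 6) (nat_lit 56) (nat_lit 1) (nat_lit 150) (nat_lit 93) (nat_lit 147)) (PT.lf (nat_lit 4180) (nat_lit 6) (nat_lit 55) (nat_lit 1) (nat_lit 151) (nat_lit 93) (nat_lit 146)))) (PT.nd (nat_lit 156) (PT.nd (nat_lit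 78) (PT.lf (nat_lit 4408) (nat_lit 6) (nat_lit 58) (nat_lit 3) (nat_lit 145) (nat_lit 94) (nat_lit 151)) (PT.lf (nat_lit 4484) (nat_lit 6) (nat_lit 59) (nat_lit 3) (nat_lit 146) (nat_lit 94) (nat_lit 150))) (PT.nd (nat_lit 78) (PT.lf (nat_lit 4560) (nat_lit 6) (nat_lit 60) (nat_lit 3) (nat_lit 147) (nat_lit 94) (nat_lit 149)) (PT.lf (nat_lit 4636) (nat_lit 3) (nat_lit 61) (nat_lit 1) (nat_lit 148) (nat_lit 94) (nat_lit 148))))))))
noncomputable def pc2 : PT := (PT.nd (nat_lit 162240) (PT.nd (nat_lit 81198) (PT.nd (nat_lit 40560) (PT.nd (nat_lit 40326) (PT.nd (nat_lit 78) (PT.lf (nat_lit 4560) (nat_lit 6) (nat_lit 60) (nat_lit 1) (nat_lit 149) (nat_lit 94) (nat_lit 147)) (PT.nd (nat_lit 78) (PT.lf (nat_lit 4484) (nat_lit 6) (nat_lit 59) (nat_lit 1) (nat_lit 150) (nat_lit 94) (nat_lit 146)) (PT.lf (nat_lit 4408) (nat_lit 6) (nat_lit 58) (nat_lit 1) (nat_lit 151) (nat_lit 94) (nat_lit 145)))) (PT.nd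 (nat_lit 78) (PT.lf (nat_lit 4712) (nat_lit 6) (nat_lit 62) (nat_lit 3) (nat_lit 145) (nat_lit 95) (nat_lit 150)) (PT.nd (nat_lit 78) (PT.lf (nat_lit 4788) (nat_lit 6) (nat_lit 63) (nat_lit 3) (nat_lit 146) (nat_lit 95) (nat_lit 149)) (PT.lf (nat_lit 4864) (nat_lit 6) (nat_lit 64) (nat_lit 3) (nat_lit 147) (nat_lit 95) (nat_lit 148))))) (PT.nd (nat_lit 40326) (PT.nd (nat_lit 78) (PT.lf (nat_lit 4864) (nat_lit 6) (nat_lit 64) (nat_lit 1) (nat_lit 148) (nat_lit 95) (nat_lit 147)) (PT.nd (nat_lit 78) (PT.lf (nat_lit 4788) (nat_lit 6) (nat_lit 63) (nat_lit 1) (nat_lit 149) (nat_lit 95) (nat_lit 146)) (PT.lf (nat_lit 4712) (nat_lit 6) (nat_lit 62) (nat_lit 1) (nat_lit 150) (nat_lit 95) (nat_lit 145)))) (PT.nd (nat_lit 156) (PT.nd (nat_lit 78) (PT.lf (nat_lit 4940) (nat_lit 6) (nat_lit 65) (nat_lit 3) (nat_lit 144) (nat_lit 96) (nat_lit 150)) (PT.lf (nat_lit 5016) (nat_lit 6) (nat_lit 66) (nat_lit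 3) (nat_lit 145) (nat_lit 96) (nat_lit 149))) (PT.nd (nat_lit 78) (PT.lf (nat_lit 5092) (nat_lit 6) (nat_lit 67) (nat_lit 3) (nat_lit 146) (nat_lit 96) (nat_lit 148)) (PT.lf (nat_lit 5168) (nat_lit 3) (nat_lit 68) (nat_lit 1) (nat_lit 147) (nat_lit 96) (nat_lit 147)))))) (PT.nd (nat_lit 40482) (PT.nd (nat_lit 40248) (PT.nd (nat_lit 78) (PT.lf (nat_lit 5092) (nat_lit 6) (nat_lit 67) (nat_lit 1) (nat_lit 148) (nat_lit 96) (nat_lit 146)) (PT.nd (nat_lit 78) (PT.lf (nat_lit 5016) (nat_lit 6) (nat_lit 66) (nat_lit 1) (nat_lit 149) (nat_lit 96) (nat_lit 145)) (PT.lf (nat_lit 4940) (nat_lit 6) (nat_lit 65) (nat_lit 1) (nat_lit 150) (nat_lit 96) (nat_lit 144)))) (PT.nd (nat_lit 78) (PT.lf (nat_lit 5244) (nat_lit 6) (nat_lit 69) (nat_lit 3) (nat_lit 143) (nat_lit 97) (nat_lit 150)) (PT.nd (nat_lit 78) (PT.lf (nat_lit 5320) (nat_lit 6) (nat_lit 70) (nat_lit 3) (nat_lit 144) (nat_lit 97) (nat_lit 149))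 (PT.lf (nat_lit 5396) (nat_lit 6) (nat_lit 71) (nat_lit 3) (nat_lit 145) (nat_lit 97) (nat_lit 148))))) (PT.nd (nat_lit 234) (PT.nd (nat_lit 78) (PT.lf (nat_lit 5472) (nat_lit 6) (nat_lit 72) (nat_lit 3) (nat_lit 146) (nat_lit 97) (nat_lit 147)) (PT.nd (nat_lit 78) (PT.lf (nat_lit 5472) (nat_lit 6) (nat_lit 72) (nat_lit 1) (nat_lit 147) (nat_lit 97) (nat_lit 146)) (PT.lf (nat_lit 5396) (nat_lit 6) (nat_lit 71) (nat_lit 1) (nat_lit 148) (nat_lit 97) (nat_lit 145)))) (PT.nd (nat_lit 40170) (PT.nd (nat_lit 78) (PT.lf (nat_lit 5320) (nat_lit 6) (nat_lit 70) (nat_lit 1) (nat_lit 149) (nat_lit 97) (nat_lit 144)) (PT.lf (nat_lit 5244) (nat_lit 6) (nat_lit 69) (nat_lit 1) (nat_lit 150) (nat_lit 97) (nat_lit 143))) (PT.nd (nat_lit 78) (PT.lf (nat_lit 5548) (nat_lit 6) (nat_lit 73) (nat_lit 3) (nat_lit 143) (nat_lit 98) (nat_lit 149)) (PT.lf (nat_lit 5624) (nat_lit 6) (nat_lit 74) (nat_lit 3) (nat_lit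 144) (nat_lit 98) (nat_lit 148))))))) (PT.nd (nat_lit 80964) (PT.nd (nat_lit 40482) (PT.nd (nat_lit 234) (PT.nd (nat_lit 78) (PT.lf (nat_lit 5700) (nat_lit 6) (nat_lit 75) (nat_lit 3) (nat_lit 145) (nat_lit 98) (nat_lit 147)) (PT.nd (nat_lit 78) (PT.lf (nat_lit 5776) (nat_lit 3) (nat_lit 76) (nat_lit 1) (nat_lit 146) (nat_lit 98) (nat_lit 146)) (PT.lf (nat_lit 5700) (nat_lit 6) (nat_lit 75) (nat_lit 1) (nat_lit 147) (nat_lit 98) (nat_lit 145)))) (PT.nd (nat_lit 78) (PT.lf (nat_lit 5624) (nat_lit 6) (nat_lit 74) (nat_lit 1) (nat_lit 148) (nat_lit 98) (nat_lit 144)) (PT.nd (nat_lit 40092) (PT.lf (nat_lit 5548) (nat_lit 6) (nat_lit 73) (nat_lit 1) (nat_lit 149) (nat_lit 98) (nat_lit 143)) (PT.lf (nat_lit 5852) (nat_lit 6) (nat_lit 77) (nat_lit 3) (nat_lit 142) (nat_lit 99) (nat_lit 149))))) (PT.nd (nat_lit 234) (PT.nd (nat_lit 78) (PT.lf (nat_lit 5928) (nat_lit 6) (nat_lit 78) (nat_lit 3) (nat_lit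 143) (nat_lit 99) (nat_lit 148)) (PT.nd (nat_lit 78) (PT.lf (nat_lit 6004) (nat_lit 6) (nat_lit 79) (nat_lit 3) (nat_lit 144) (nat_lit 99) (nat_lit 147)) (PT.lf (nat_lit 6080) (nat_lit 6) (nat_lit 80) (nat_lit 3) (nat_lit 145) (nat_lit 99) (nat_lit 146)))) (PT.nd (nat_lit 156) (PT.nd (nat_lit 78) (PT.lf (nat_lit 6080) (nat_lit 6) (nat_lit 80) (nat_lit 1) (nat_lit 146) (nat_lit 99) (nat_lit 145)) (PT.lf (nat_lit 6004) (nat_lit 6) (nat_lit 79) (nat_lit 1) (nat_lit 147) (nat_lit 99) (nat_lit 144))) (PT.nd (nat_lit 78) (PT.lf (nat_lit 5928) (nat_lit 6) (nat_lit 78) (nat_lit 1) (nat_lit 148) (nat_lit 99) (nat_lit 143)) (PT.lf (nat_lit 5852) (nat_lit 6) (nat_lit 77) (nat_lit 1) (nat_lit 149) (nat_lit 99) (nat_lit 142)))))) (PT.nd (nat_lit 546) (PT.nd (nat_lit 234) (PT.nd (nat_lit 78) (PT.lf (nat_lit 6156) (nat_lit 6) (nat_lit 81) (nat_lit 3) (nat_lit 141) (nat_lit 100) (nat_lit 149)) (PT.nd (nat_lit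 78) (PT.lf (nat_lit 6232) (nat_lit 6) (nat_lit 82) (nat_lit 3) (nat_lit 142) (nat_lit 100) (nat_lit 148)) (PT.lf (nat_lit 6308) (nat_lit 6) (nat_lit 83) (nat_lit 3) (nat_lit 143) (nat_lit 100) (nat_lit 147)))) (PT.nd (nat_lit 156) (PT.nd (nat_lit 78) (PT.lf (nat_lit 6384) (nat_lit 6) (nat_lit 84) (nat_lit 3) (nat_lit 144) (nat_lit 100) (nat_lit 146)) (PT.lf (nat_lit 6460) (nat_lit 3) (nat_lit 85) (nat_lit 1) (nat_lit 145) (nat_lit 100) (nat_lit 145))) (PT.nd (nat_lit 78) (PT.lf (nat_lit 6384) (nat_lit 6) (nat_lit 84) (nat_lit 1) (nat_lit 146) (nat_lit 100) (nat_lit 144)) (PT.lf (nat_lit 6308) (nat_lit 6) (nat_lit 83) (nat_lit 1) (nat_lit 147) (nat_lit 100) (nat_lit 143))))) (PT.nd (nat_lit 40092) (PT.nd (nat_lit 78) (PT.lf (nat_lit 6232) (nat_lit 6) (nat_lit 82) (nat_lit 1) (nat_lit 148) (nat_lit 100) (nat_lit 142)) (PT.nd (nat_lit 39936) (PT.lf (nat_lit 6156) (nat_lit 6) (nat_lit 81) (nat_lit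 1) (nat_lit 149) (nat_lit 100) (nat_lit 141)) (PT.lf (nat_lit 6536) (nat_lit 6) (nat_lit 86) (nat_lit 3) (nat_lit 140) (nat_lit 101) (nat_lit 149)))) (PT.nd (nat_lit 156) (PT.nd (nat_lit 78) (PT.lf (nat_lit 6612) (nat_lit 6) (nat_lit 87) (nat_lit 3) (nat_lit 141) (nat_lit 101) (nat_lit 148)) (PT.lf (nat_lit 6688) (nat_lit 6) (nat_lit 88) (nat_lit 3) (nat_lit 142) (nat_lit 101) (nat_lit 147))) (PT.nd (nat_lit 78) (PT.lf (nat_lit 6764) (nat_lit 6) (nat_lit 89) (nat_lit 3) (nat_lit 143) (nat_lit 101) (nat_lit 146)) (PT.lf (nat_lit 6840) (nat_lit 6) (nat_lit 90) (nat_lit 3) (nat_lit 144) (nat_lit 101) (nat_lit 145))))))))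
noncomputable def pc3 : PT := (PT.nd (nat_lit 121524) (PT.nd (nat_lit 40872) (PT.nd (nat_lit 40326) (PT.nd (nat_lit 234) (PT.nd (nat_lit 78) (PT.lf (nat_lit 6840) (nat_lit 6) (nat_lit 90) (nat_lit 1) (nat_lit 145) (nat_lit 101) (nat_lit 144)) (PT.nd (nat_lit 78) (PT.lf (nat_lit 6764) (nat_lit 6) (nat_lit 89) (nat_lit 1) (nat_lit 146) (nat_lit 101) (nat_lit 143)) (PT.lf (nat_lit 6688) (nat_lit 6) (nat_lit 88) (nat_lit 1) (nat_lit 147) (nat_lit 101) (nat_lit 142)))) (PT.nd (nat_lit 78) (PT.lf (nat_lit 6612) (nat_lit 6) (nat_lit 87) (nat_lit 1) (nat_lit 148) (nat_lit 101) (nat_lit 141)) (PT.nd (nat_lit 39936) (PT.lf (nat_lit 6536) (nat_lit 6) (nat_lit 86) (nat_lit 1) (nat_lit 149) (nat_lit 101) (nat_lit 140)) (PT.lf (nat_lit 6916) (nat_lit 6) (nat_lit 91) (nat_lit 3) (nat_lit 140) (nat_lit 102) (nat_lit 148))))) (PT.nd (nat_lit 234) (PT.nd (nat_lit 78) (PT.lf (nat_lit 6992) (nat_lit 6) (nat_lit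 92) (nat_lit 3) (nat_lit 141) (nat_lit 102) (nat_lit 147)) (PT.nd (nat_lit 78) (PT.lf (nat_lit 7068) (nat_lit 6) (nat_lit 93) (nat_lit 3) (nat_lit 142) (nat_lit 102) (nat_lit 146)) (PT.lf (nat_lit 7144) (nat_lit 6) (nat_lit 94) (nat_lit 3) (nat_lit 143) (nat_lit 102) (nat_lit 145)))) (PT.nd (nat_lit 156) (PT.nd (nat_lit 78) (PT.lf (nat_lit 7220) (nat_lit 3) (nat_lit 95) (nat_lit 1) (nat_lit 144) (nat_lit 102) (nat_lit 144)) (PT.lf (nat_lit 7144) (nat_lit 6) (nat_lit 94) (nat_lit 1) (nat_lit 145) (nat_lit 102) (nat_lit 143))) (PT.nd (nat_lit 78) (PT.lf (nat_lit 7068) (nat_lit 6) (nat_lit 93) (nat_lit 1) (nat_lit 146) (nat_lit 102) (nat_lit 142)) (PT.lf (nat_lit 6992) (nat_lit 6) (nat_lit 92) (nat_lit 1) (nat_lit 147) (nat_lit 102) (nat_lit 141)))))) (PT.nd (nat_lit 40326) (PT.nd (nat_lit 40092) (PT.nd (nat_lit 39936) (PT.lf (nat_lit 6916) (nat_lit 6) (nat_lit 91) (nat_lit 1) (nat_lit 148) (nat_lit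 102) (nat_lit 140)) (PT.nd (nat_lit 78) (PT.lf (nat_lit 7296) (nat_lit 6) (nat_lit 96) (nat_lit 3) (nat_lit 139) (nat_lit 103) (nat_lit 148)) (PT.lf (nat_lit 7372) (nat_lit 6) (nat_lit 97) (nat_lit 3) (nat_lit 140) (nat_lit 103) (nat_lit 147)))) (PT.nd (nat_lit 78) (PT.lf (nat_lit 7448) (nat_lit 6) (nat_lit 98) (nat_lit 3) (nat_lit 141) (nat_lit 103) (nat_lit 146)) (PT.nd (nat_lit 78) (PT.lf (nat_lit 7524) (nat_lit 6) (nat_lit 99) (nat_lit 3) (nat_lit 142) (nat_lit 103) (nat_lit 145)) (PT.lf (nat_lit 7600) (nat_lit 6) (nat_lit 100) (nat_lit 3) (nat_lit 143) (nat_lit 103) (nat_lit 144))))) (PT.nd (nat_lit 234) (PT.nd (nat_lit 78) (PT.lf (nat_lit 7600) (nat_lit 6) (nat_lit 100) (nat_lit 1) (nat_lit 144) (nat_lit 103) (nat_lit 143)) (PT.nd (nat_lit 78) (PT.lf (nat_lit 7524) (nat_lit 6) (nat_lit 99) (nat_lit 1) (nat_lit 145) (nat_lit 103) (nat_lit 142)) (PT.lf (nat_lit 7448) (nat_lit 6) (nat_lit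 98) (nat_lit 1) (nat_lit 146) (nat_lit 103) (nat_lit 141)))) (PT.nd (nat_lit 39936) (PT.nd (nat_lit 78) (PT.lf (nat_lit 7372) (nat_lit 6) (nat_lit 97) (nat_lit 1) (nat_lit 147) (nat_lit 103) (nat_lit 140)) (PT.lf (nat_lit 7296) (nat_lit 6) (nat_lit 96) (nat_lit 1) (nat_lit 148) (nat_lit 103) (nat_lit 139))) (PT.nd (nat_lit 78) (PT.lf (nat_lit 7676) (nat_lit 6) (nat_lit 101) (nat_lit 3) (nat_lit 138) (nat_lit 104) (nat_lit 148)) (PT.lf (nat_lit 7752) (nat_lit 6) (nat_lit 102) (nat_lit 3) (nat_lit 139) (nat_lit 104) (nat_lit 147))))))) (PT.nd (nat_lit 40794) (PT.nd (nat_lit 468) (PT.nd (nat_lit 234) (PT.nd (nat_lit 78) (PT.lf (nat_lit 7828) (nat_lit 6) (nat_lit 103) (nat_lit 3) (nat_lit 140) (nat_lit 104) (nat_lit 146)) (PT.nd (nat_lit 78) (PT.lf (nat_lit 7904) (nat_lit 6) (nat_lit 104) (nat_lit 3) (nat_lit 141) (nat_lit 104) (nat_lit 145)) (PT.lf (nat_lit 7980) (nat_lit 6) (nat_lit 105) (nat_lit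 3) (nat_lit 142) (nat_lit 104) (nat_lit 144)))) (PT.nd (nat_lit 78) (PT.lf (nat_lit 8056) (nat_lit 3) (nat_lit 106) (nat_lit 1) (nat_lit 143) (nat_lit 104) (nat_lit 143)) (PT.nd (nat_lit 78) (PT.lf (nat_lit 7980) (nat_lit 6) (nat_lit 105) (nat_lit 1) (nat_lit 144) (nat_lit 104) (nat_lit 142)) (PT.lf (nat_lit 7904) (nat_lit 6) (nat_lit 104) (nat_lit 1) (nat_lit 145) (nat_lit 104) (nat_lit 141))))) (PT.nd (nat_lit 40014) (PT.nd (nat_lit 78) (PT.lf (nat_lit 7828) (nat_lit 6) (nat_lit 103) (nat_lit 1) (nat_lit 146) (nat_lit 104) (nat_lit 140)) (PT.nd (nat_lit 78) (PT.lf (nat_lit 7752) (nat_lit 6) (nat_lit 102) (nat_lit 1) (nat_lit 147) (nat_lit 104) (nat_lit 139)) (PT.lf (nat_lit 7676) (nat_lit 6) (nat_lit 101) (nat_lit 1) (nat_lit 148) (nat_lit 104) (nat_lit 138)))) (PT.nd (nat_lit 156) (PT.nd (nat_lit 78) (PT.lf (nat_lit 8132) (nat_lit 6) (nat_lit 107) (nat_lit 3) (nat_lit 138) (nat_lit 105) (nat_lit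 147)) (PT.lf (nat_lit 8208) (nat_lit 6) (nat_lit 108) (nat_lit 3) (nat_lit 139) (nat_lit 105) (nat_lit 146))) (PT.nd (nat_lit 78) (PT.lf (nat_lit 8284) (nat_lit 6) (nat_lit 109) (nat_lit 3) (nat_lit 140) (nat_lit 105) (nat_lit 145)) (PT.lf (nat_lit 8360) (nat_lit 6) (nat_lit 110) (nat_lit 3) (nat_lit 141) (nat_lit 105) (nat_lit 144)))))) (PT.nd (nat_lit 40326) (PT.nd (nat_lit 234) (PT.nd (nat_lit 78) (PT.lf (nat_lit 8436) (nat_lit 6) (nat_lit 111) (nat_lit 3) (nat_lit 142) (nat_lit 105) (nat_lit 143)) (PT.nd (nat_lit 78) (PT.lf (nat_lit 8436) (nat_lit 6) (nat_lit 111) (nat_lit 1) (nat_lit 143) (nat_lit 105) (nat_lit 142)) (PT.lf (nat_lit 8360) (nat_lit 6) (nat_lit 110) (nat_lit 1) (nat_lit 144) (nat_lit 105) (nat_lit 141)))) (PT.nd (nat_lit 156) (PT.nd (nat_lit 78) (PT.lf (nat_lit 8284) (nat_lit 6) (nat_lit 109) (nat_lit 1) (nat_lit 145) (nat_lit 105) (nat_lit 140)) (PT.lf (nat_lit 8208) (nat_lit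 6) (nat_lit 108) (nat_lit 1) (nat_lit 146) (nat_lit 105) (nat_lit 139))) (PT.nd (nat_lit 39858) (PT.lf (nat_lit 8132) (nat_lit 6) (nat_lit 107) (nat_lit 1) (nat_lit 147) (nat_lit 105) (nat_lit 138)) (PT.lf (nat_lit 8512) (nat_lit 6) (nat_lit 112) (nat_lit 3) (nat_lit 137) (nat_lit 106) (nat_lit 147))))) (PT.nd (nat_lit 234) (PT.nd (nat_lit 78) (PT.lf (nat_lit 8588) (nat_lit 6) (nat_lit 113) (nat_lit 3) (nat_lit 138) (nat_lit 106) (nat_lit 146)) (PT.nd (nat_lit 78) (PT.lf (nat_lit 8664) (nat_lit 6) (nat_lit 114) (nat_lit 3) (nat_lit 139) (nat_lit 106) (nat_lit 145)) (PT.lf (nat_lit 8740) (nat_lit 6) (nat_lit 115) (nat_lit 3) (nat_lit 140) (nat_lit 106) (nat_lit 144)))) (PT.nd (nat_lit 156) (PT.nd (nat_lit 78) (PT.lf (nat_lit 8816) (nat_lit 6) (nat_lit 116) (nat_lit 3) (nat_lit 141) (nat_lit 106) (nat_lit 143)) (PT.lf (nat_lit 8892) (nat_lit 3) (nat_lit 117) (nat_lit 1) (nat_lit 142) (nat_lit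 106) (nat_lit 142))) (PT.nd (nat_lit 78) (PT.lf (nat_lit 8816) (nat_lit 6) (nat_lit 116) (nat_lit 1) (nat_lit 143) (nat_lit 106) (nat_lit 141)) (PT.lf (nat_lit 8740) (nat_lit 6) (nat_lit 115) (nat_lit 1) (nat_lit 144) (nat_lit 106) (nat_lit 140))))))))
noncomputable def pc4 : PT := (PT.nd (nat_lit 81354) (PT.nd (nat_lit 40716) (PT.nd (nat_lit 40170) (PT.nd (nat_lit 39936) (PT.nd (nat_lit 78) (PT.lf (nat_lit 8664) (nat_lit 6) (nat_lit 114) (nat_lit 1) (nat_lit 145) (nat_lit 106) (nat_lit 139)) (PT.nd (nat_lit 78) (PT.lf (nat_lit 8588) (nat_lit 6) (nat_lit 113) (nat_lit 1) (nat_lit 146) (nat_lit 106) (nat_lit 138)) (PT.lf (nat_lit 8512) (nat_lit 6) (nat_lit 112) (nat_lit 1) (nat_lit 147) (nat_lit 106) (nat_lit 137)))) (PT.nd (nat_lit 78) (PT.lf (nat_lit 8968) (nat_lit 6) (nat_lit 118) (nat_lit 3) (nat_lit 136) (nat_lit 107) (nat_lit 147)) (PT.nd (nat_lit 78) (PT.lf (nat_lit 9044) (nat_lit 6) (nat_lit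 119) (nat_lit 3) (nat_lit 137) (nat_lit 107) (nat_lit 146)) (PT.lf (nat_lit 9120) (nat_lit 6) (nat_lit 120) (nat_lit 3) (nat_lit 138) (nat_lit 107) (nat_lit 145))))) (PT.nd (nat_lit 234) (PT.nd (nat_lit 78) (PT.lf (nat_lit 9196) (nat_lit 6) (nat_lit 121) (nat_lit 3) (nat_lit 139) (nat_lit 107) (nat_lit 144)) (PT.nd (nat_lit 78) (PT.lf (nat_lit 9272) (nat_lit 6) (nat_lit 122) (nat_lit 3) (nat_lit 140) (nat_lit 107) (nat_lit 143)) (PT.lf (nat_lit 9348) (nat_lit 6) (nat_lit 123) (nat_lit 3) (nat_lit 141) (nat_lit 107) (nat_lit 142)))) (PT.nd (nat_lit 156) (PT.nd (nat_lit 78) (PT.lf (nat_lit 9348) (nat_lit 6) (nat_lit 123) (nat_lit 1) (nat_lit 142) (nat_lit 107) (nat_lit 141)) (PT.lf (nat_lit 9272) (nat_lit 6) (nat_lit 122) (nat_lit 1) (nat_lit 143) (nat_lit 107) (nat_lit 140))) (PT.nd (nat_lit 78) (PT.lf (nat_lit 9196) (nat_lit 6) (nat_lit 121) (nat_lit 1) (nat_lit 144) (nat_lit 107) (nat_lit 139))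 (PT.lf (nat_lit 9120) (nat_lit 6) (nat_lit 120) (nat_lit 1) (nat_lit 145) (nat_lit 107) (nat_lit 138)))))) (PT.nd (nat_lit 40092) (PT.nd (nat_lit 39858) (PT.nd (nat_lit 78) (PT.lf (nat_lit 9044) (nat_lit 6) (nat_lit 119) (nat_lit 1) (nat_lit 146) (nat_lit 107) (nat_lit 137)) (PT.nd (nat_lit 39702) (PT.lf (nat_lit 8968) (nat_lit 6) (nat_lit 118) (nat_lit 1) (nat_lit 147) (nat_lit 107) (nat_lit 136)) (PT.lf (nat_lit 9424) (nat_lit 6) (nat_lit 124) (nat_lit 3) (nat_lit 135) (nat_lit 108) (nat_lit 147)))) (PT.nd (nat_lit 78) (PT.lf (nat_lit 9500) (nat_lit 6) (nat_lit 125) (nat_lit 3) (nat_lit 136) (nat_lit 108) (nat_lit 146)) (PT.nd (nat_lit 78) (PT.lf (nat_lit 9576) (nat_lit 6) (nat_lit 126) (nat_lit 3) (nat_lit 137) (nat_lit 108) (nat_lit 145)) (PT.lf (nat_lit 9652) (nat_lit 6) (nat_lit 127) (nat_lit 3) (nat_lit 138) (nat_lit 108) (nat_lit 144))))) (PT.nd (nat_lit 234) (PT.nd (nat_lit 78) (PT.lf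 (nat_lit 9728) (nat_lit 6) (nat_lit 128) (nat_lit 3) (nat_lit 139) (nat_lit 108) (nat_lit 143)) (PT.nd (nat_lit 78) (PT.lf (nat_lit 9804) (nat_lit 6) (nat_lit 129) (nat_lit 3) (nat_lit 140) (nat_lit 108) (nat_lit 142)) (PT.lf (nat_lit 9880) (nat_lit 3) (nat_lit 130) (nat_lit 1) (nat_lit 141) (nat_lit 108) (nat_lit 141)))) (PT.nd (nat_lit 156) (PT.nd (nat_lit 78) (PT.lf (nat_lit 9804) (nat_lit 6) (nat_lit 129) (nat_lit 1) (nat_lit 142) (nat_lit 108) (nat_lit 140)) (PT.lf (nat_lit 9728) (nat_lit 6) (nat_lit 128) (nat_lit 1) (nat_lit 143) (nat_lit 108) (nat_lit 139))) (PT.nd (nat_lit 78) (PT.lf (nat_lit 9652) (nat_lit 6) (nat_lit 127) (nat_lit 1) (nat_lit 144) (nat_lit 108) (nat_lit 138)) (PT.lf (nat_lit 9576) (nat_lit 6) (nat_lit 126) (nat_lit 1) (nat_lit 145) (nat_lit 108) (nat_lit 137))))))) (PT.nd (nat_lit 40638) (PT.nd (nat_lit 40092) (PT.nd (nat_lit 39858) (PT.nd (nat_lit 78) (PT.lf (nat_lit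 9500) (nat_lit 6) (nat_lit 125) (nat_lit 1) (nat_lit 146) (nat_lit 108) (nat_lit 136)) (PT.nd (nat_lit 39702) (PT.lf (nat_lit 9424) (nat_lit 6) (nat_lit 124) (nat_lit 1) (nat_lit 147) (nat_lit 108) (nat_lit 135)) (PT.lf (nat_lit 9956) (nat_lit 6) (nat_lit 131) (nat_lit 3) (nat_lit 135) (nat_lit 109) (nat_lit 146)))) (PT.nd (nat_lit 78) (PT.lf (nat_lit 10032) (nat_lit 6) (nat_lit 132) (nat_lit 3) (nat_lit 136) (nat_lit 109) (nat_lit 145)) (PT.nd (nat_lit 78) (PT.lf (nat_lit 10108) (nat_lit 6) (nat_lit 133) (nat_lit 3) (nat_lit 137) (nat_lit 109) (nat_lit 144)) (PT.lf (nat_lit 10184) (nat_lit 6) (nat_lit 134) (nat_lit 3) (nat_lit 138) (nat_lit 109) (nat_lit 143))))) (PT.nd (nat_lit 234) (PT.nd (nat_lit 78) (PT.lf (nat_lit 10260) (nat_lit 6) (nat_lit 135) (nat_lit 3) (nat_lit 139) (nat_lit 109) (nat_lit 142)) (PT.nd (nat_lit 78) (PT.lf (nat_lit 10336) (nat_lit 6) (nat_lit 136) (nat_lit 3) (nat_lit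 140) (nat_lit 109) (nat_lit 141)) (PT.lf (nat_lit 10336) (nat_lit 6) (nat_lit 136) (nat_lit 1) (nat_lit 141) (nat_lit 109) (nat_lit 140)))) (PT.nd (nat_lit 156) (PT.nd (nat_lit 78) (PT.lf (nat_lit 10260) (nat_lit 6) (nat_lit 135) (nat_lit 1) (nat_lit 142) (nat_lit 109) (nat_lit 139)) (PT.lf (nat_lit 10184) (nat_lit 6) (nat_lit 134) (nat_lit 1) (nat_lit 143) (nat_lit 109) (nat_lit 138))) (PT.nd (nat_lit 78) (PT.lf (nat_lit 10108) (nat_lit 6) (nat_lit 133) (nat_lit 1) (nat_lit 144) (nat_lit 109) (nat_lit 137)) (PT.lf (nat_lit 10032) (nat_lit 6) (nat_lit 132) (nat_lit 1) (nat_lit 145) (nat_lit 109) (nat_lit 136)))))) (PT.nd (nat_lit 40170) (PT.nd (nat_lit 39858) (PT.nd (nat_lit 39702) (PT.lf (nat_lit 9956) (nat_lit 6) (nat_lit 131) (nat_lit 1) (nat_lit 146) (nat_lit 109) (nat_lit 135)) (PT.nd (nat_lit 78) (PT.lf (nat_lit 10412) (nat_lit 6) (nat_lit 137) (nat_lit 3) (nat_lit 134) (nat_lit 110) (nat_lit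 146)) (PT.lf (nat_lit 10488) (nat_lit 6) (nat_lit 138) (nat_lit 3) (nat_lit 135) (nat_lit 110) (nat_lit 145)))) (PT.nd (nat_lit 156) (PT.nd (nat_lit 78) (PT.lf (nat_lit 10564) (nat_lit 6) (nat_lit 139) (nat_lit 3) (nat_lit 136) (nat_lit 110) (nat_lit 144)) (PT.lf (nat_lit 10640) (nat_lit 6) (nat_lit 140) (nat_lit 3) (nat_lit 137) (nat_lit 110) (nat_lit 143))) (PT.nd (nat_lit 78) (PT.lf (nat_lit 10716) (nat_lit 6) (nat_lit 141) (nat_lit 3) (nat_lit 138) (nat_lit 110) (nat_lit 142)) (PT.lf (nat_lit 10792) (nat_lit 6) (nat_lit 142) (nat_lit 3) (nat_lit 139) (nat_lit 110) (nat_lit 141))))) (PT.nd (nat_lit 234) (PT.nd (nat_lit 78) (PT.lf (nat_lit 10868) (nat_lit 3) (nat_lit 143) (nat_lit 1) (nat_lit 140) (nat_lit 110) (nat_lit 140)) (PT.nd (nat_lit 78) (PT.lf (nat_lit 10792) (nat_lit 6) (nat_lit 142) (nat_lit 1) (nat_lit 141) (nat_lit 110) (nat_lit 139)) (PT.lf (nat_lit 10716) (nat_lit 6) (nat_lit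 141) (nat_lit 1) (nat_lit 142) (nat_lit 110) (nat_lit 138)))) (PT.nd (nat_lit 156) (PT.nd (nat_lit 78) (PT.lf (nat_lit 10640) (nat_lit 6) (nat_lit 140) (nat_lit 1) (nat_lit 143) (nat_lit 110) (nat_lit 137)) (PT.lf (nat_lit 10564) (nat_lit 6) (nat_lit 139) (nat_lit 1) (nat_lit 144) (nat_lit 110) (nat_lit 136))) (PT.nd (nat_lit 78) (PT.lf (nat_lit 10488) (nat_lit 6) (nat_lit 138) (nat_lit 1) (nat_lit 145) (nat_lit 110) (nat_lit 135)) (PT.lf (nat_lit 10412) (nat_lit 6) (nat_lit 137) (nat_lit 1) (nat_lit 146) (nat_lit 110) (nat_lit 134))))))))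
noncomputable def pc5 : PT := (PT.nd (nat_lit 41496) (PT.nd (nat_lit 1014) (PT.nd (nat_lit 468) (PT.nd (nat_lit 234) (PT.nd (nat_lit 78) (PT.lf (nat_lit 10944) (nat_lit 6) (nat_lit 144) (nat_lit 3) (nat_lit 133) (nat_lit 111) (nat_lit 146)) (PT.nd (nat_lit 78) (PT.lf (nat_lit 11020) (nat_lit 6) (nat_lit 145) (nat_lit 3) (nat_lit 134) (nat_lit 111) (nat_lit 145)) (PT.lf (nat_lit 11096) (nat_lit 6) (nat_lit 146) (nat_lit 3) (nat_lit 135) (nat_lit 111) (nat_lit 144)))) (PT.nd (nat_lit 78) (PT.lf (nat_lit 11172) (nat_lit 6) (nat_lit 147) (nat_lit 3) (nat_lit 136) (nat_lit 111) (nat_lit 143)) (PT.nd (nat_lit 78) (PT.lf (nat_lit 11248) (nat_lit 6) (nat_lit 148) (nat_lit 3) (nat_lit 137) (nat_lit 111) (nat_lit 142)) (PT.lf (nat_lit 11324) (nat_lit 6) (nat_lit 149) (nat_lit 3) (nat_lit 138) (nat_lit 111) (nat_lit 141))))) (PT.nd (nat_lit 234) (PT.nd (nat_lit 78) (PT.lf (nat_lit 11400) (nat_lit 6) (nat_lit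 150) (nat_lit 3) (nat_lit 139) (nat_lit 111) (nat_lit 140)) (PT.nd (nat_lit 78) (PT.lf (nat_lit 11400) (nat_lit 6) (nat_lit 150) (nat_lit 1) (nat_lit 140) (nat_lit 111) (nat_lit 139)) (PT.lf (nat_lit 11324) (nat_lit 6) (nat_lit 149) (nat_lit 1) (nat_lit 141) (nat_lit 111) (nat_lit 138)))) (PT.nd (nat_lit 156) (PT.nd (nat_lit 78) (PT.lf (nat_lit 11248) (nat_lit 6) (nat_lit 148) (nat_lit 1) (nat_lit 142) (nat_lit 111) (nat_lit 137)) (PT.lf (nat_lit 11172) (nat_lit 6) (nat_lit 147) (nat_lit 1) (nat_lit 143) (nat_lit 111) (nat_lit 136))) (PT.nd (nat_lit 78) (PT.lf (nat_lit 11096) (nat_lit 6) (nat_lit 146) (nat_lit 1) (nat_lit 144) (nat_lit 111) (nat_lit 135)) (PT.lf (nat_lit 11020) (nat_lit 6) (nat_lit 145) (nat_lit 1) (nat_lit 145) (nat_lit 111) (nat_lit 134)))))) (PT.nd (nat_lit 39936) (PT.nd (nat_lit 39702) (PT.nd (nat_lit 39546) (PT.lf (nat_lit 10944) (nat_lit 6) (nat_lit 144) (nat_lit 1) (nat_lit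 146) (nat_lit 111) (nat_lit 133)) (PT.nd (nat_lit 78) (PT.lf (nat_lit 11476) (nat_lit 6) (nat_lit 151) (nat_lit 3) (nat_lit 132) (nat_lit 112) (nat_lit 146)) (PT.lf (nat_lit 11552) (nat_lit 6) (nat_lit 152) (nat_lit 3) (nat_lit 133) (nat_lit 112) (nat_lit 145)))) (PT.nd (nat_lit 78) (PT.lf (nat_lit 11628) (nat_lit 6) (nat_lit 153) (nat_lit 3) (nat_lit 134) (nat_lit 112) (nat_lit 144)) (PT.nd (nat_lit 78) (PT.lf (nat_lit 11704) (nat_lit 6) (nat_lit 154) (nat_lit 3) (nat_lit 135) (nat_lit 112) (nat_lit 143)) (PT.lf (nat_lit 11780) (nat_lit 6) (nat_lit 155) (nat_lit 3) (nat_lit 136) (nat_lit 112) (nat_lit 142))))) (PT.nd (nat_lit 234) (PT.nd (nat_lit 78) (PT.lf (nat_lit 11856) (nat_lit 6) (nat_lit 156) (nat_lit 3) (nat_lit 137) (nat_lit 112) (nat_lit 141)) (PT.nd (nat_lit 78) (PT.lf (nat_lit 11932) (nat_lit 6) (nat_lit 157) (nat_lit 3) (nat_lit 138) (nat_lit 112) (nat_lit 140)) (PT.lf (nat_lit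 12008) (nat_lit 3) (nat_lit 158) (nat_lit 1) (nat_lit 139) (nat_lit 112) (nat_lit 139)))) (PT.nd (nat_lit 156) (PT.nd (nat_lit 78) (PT.lf (nat_lit 11932) (nat_lit 6) (nat_lit 157) (nat_lit 1) (nat_lit 140) (nat_lit 112) (nat_lit 138)) (PT.lf (nat_lit 11856) (nat_lit 6) (nat_lit 156) (nat_lit 1) (nat_lit 141) (nat_lit 112) (nat_lit 137))) (PT.nd (nat_lit 78) (PT.lf (nat_lit 11780) (nat_lit 6) (nat_lit 155) (nat_lit 1) (nat_lit 142) (nat_lit 112) (nat_lit 136)) (PT.lf (nat_lit 11704) (nat_lit 6) (nat_lit 154) (nat_lit 1) (nat_lit 143) (nat_lit 112) (nat_lit 135))))))) (PT.nd (nat_lit 40404) (PT.nd (nat_lit 39858) (PT.nd (nat_lit 39624) (PT.nd (nat_lit 78) (PT.lf (nat_lit 11628) (nat_lit 6) (nat_lit 153) (nat_lit 1) (nat_lit 144) (nat_lit 112) (nat_lit 134)) (PT.nd (nat_lit 78) (PT.lf (nat_lit 11552) (nat_lit 6) (nat_lit 152) (nat_lit 1) (nat_lit 145) (nat_lit 112) (nat_lit 133)) (PT.lf (nat_lit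 11476) (nat_lit 6) (nat_lit 151) (nat_lit 1) (nat_lit 146) (nat_lit 112) (nat_lit 132)))) (PT.nd (nat_lit 78) (PT.lf (nat_lit 12084) (nat_lit 6) (nat_lit 159) (nat_lit 3) (nat_lit 131) (nat_lit 113) (nat_lit 146)) (PT.nd (nat_lit 78) (PT.lf (nat_lit 12160) (nat_lit 6) (nat_lit 160) (nat_lit 3) (nat_lit 132) (nat_lit 113) (nat_lit 145)) (PT.lf (nat_lit 12236) (nat_lit 6) (nat_lit 161) (nat_lit 3) (nat_lit 133) (nat_lit 113) (nat_lit 144))))) (PT.nd (nat_lit 234) (PT.nd (nat_lit 78) (PT.lf (nat_lit 12312) (nat_lit 6) (nat_lit 162) (nat_lit 3) (nat_lit 134) (nat_lit 113) (nat_lit 143)) (PT.nd (nat_lit 78) (PT.lf (nat_lit 12388) (nat_lit 6) (nat_lit 163) (nat_lit 3) (nat_lit 135) (nat_lit 113) (nat_lit 142)) (PT.lf (nat_lit 12464) (nat_lit 6) (nat_lit 164) (nat_lit 3) (nat_lit 136) (nat_lit 113) (nat_lit 141)))) (PT.nd (nat_lit 156) (PT.nd (nat_lit 78) (PT.lf (nat_lit 12540) (nat_lit 6) (nat_lit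 165) (nat_lit 3) (nat_lit 137) (nat_lit 113) (nat_lit 140)) (PT.lf (nat_lit 12616) (nat_lit 6) (nat_lit 166) (nat_lit 3) (nat_lit 138) (nat_lit 113) (nat_lit 139))) (PT.nd (nat_lit 78) (PT.lf (nat_lit 12616) (nat_lit 6) (nat_lit 166) (nat_lit 1) (nat_lit 139) (nat_lit 113) (nat_lit 138)) (PT.lf (nat_lit 12540) (nat_lit 6) (nat_lit 165) (nat_lit 1) (nat_lit 140) (nat_lit 113) (nat_lit 137)))))) (PT.nd (nat_lit 39936) (PT.nd (nat_lit 234) (PT.nd (nat_lit 78) (PT.lf (nat_lit 12464) (nat_lit 6) (nat_lit 164) (nat_lit 1) (nat_lit 141) (nat_lit 113) (nat_lit 136)) (PT.nd (nat_lit 78) (PT.lf (nat_lit 12388) (nat_lit 6) (nat_lit 163) (nat_lit 1) (nat_lit 142) (nat_lit 113) (nat_lit 135)) (PT.lf (nat_lit 12312) (nat_lit 6) (nat_lit 162) (nat_lit 1) (nat_lit 143) (nat_lit 113) (nat_lit 134)))) (PT.nd (nat_lit 156) (PT.nd (nat_lit 78) (PT.lf (nat_lit 12236) (nat_lit 6) (nat_lit 161) (nat_lit 1) (nat_lit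 144) (nat_lit 113) (nat_lit 133)) (PT.lf (nat_lit 12160) (nat_lit 6) (nat_lit 160) (nat_lit 1) (nat_lit 145) (nat_lit 113) (nat_lit 132))) (PT.nd (nat_lit 39468) (PT.lf (nat_lit 12084) (nat_lit 6) (nat_lit 159) (nat_lit 1) (nat_lit 146) (nat_lit 113) (nat_lit 131)) (PT.lf (nat_lit 12692) (nat_lit 6) (nat_lit 167) (nat_lit 3) (nat_lit 131) (nat_lit 114) (nat_lit 145))))) (PT.nd (nat_lit 234) (PT.nd (nat_lit 78) (PT.lf (nat_lit 12768) (nat_lit 6) (nat_lit 168) (nat_lit 3) (nat_lit 132) (nat_lit 114) (nat_lit 144)) (PT.nd (nat_lit 78) (PT.lf (nat_lit 12844) (nat_lit 6) (nat_lit 169) (nat_lit 3) (nat_lit 133) (nat_lit 114) (nat_lit 143)) (PT.lf (nat_lit 12920) (nat_lit 6) (nat_lit 170) (nat_lit 3) (nat_lit 134) (nat_lit 114) (nat_lit 142)))) (PT.nd (nat_lit 156) (PT.nd (nat_lit 78) (PT.lf (nat_lit 12996) (nat_lit 6) (nat_lit 171) (nat_lit 3) (nat_lit 135) (nat_lit 114) (nat_lit 141)) (PT.lf (nat_lit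 13072) (nat_lit 6) (nat_lit 172) (nat_lit 3) (nat_lit 136) (nat_lit 114) (nat_lit 140))) (PT.nd (nat_lit 78) (PT.lf (nat_lit 13148) (nat_lit 6) (nat_lit 173) (nat_lit 3) (nat_lit 137) (nat_lit 114) (nat_lit 139)) (PT.lf (nat_lit 13224) (nat_lit 3) (nat_lit 174) (nat_lit 1) (nat_lit 138) (nat_lit 114) (nat_lit 138))))))))
noncomputable def pc6 : PT := (PT.nd (nat_lit 80730) (PT.nd (nat_lit 40404) (PT.nd (nat_lit 468) (PT.nd (nat_lit 234) (PT.nd (nat_lit 78) (PT.lf (nat_lit 13148) (nat_lit 6) (nat_lit 173) (nat_lit 1) (nat_lit 139) (nat_lit 114) (nat_lit 137)) (PT.nd (nat_lit 78) (PT.lf (nat_lit 13072) (nat_lit 6) (nat_lit 172) (nat_lit 1) (nat_lit 140) (nat_lit 114) (nat_lit 136)) (PT.lf (nat_lit 12996) (nat_lit 6) (nat_lit 171) (nat_lit 1) (nat_lit 141) (nat_lit 114) (nat_lit 135)))) (PT.nd (nat_lit 78) (PT.lf (nat_lit 12920) (nat_lit 6) (nat_lit 170) (nat_lit 1) (nat_lit 142) (nat_lit 114)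 (nat_lit 134)) (PT.nd (nat_lit 78) (PT.lf (nat_lit 12844) (nat_lit 6) (nat_lit 169) (nat_lit 1) (nat_lit 143) (nat_lit 114) (nat_lit 133)) (PT.lf (nat_lit 12768) (nat_lit 6) (nat_lit 168) (nat_lit 1) (nat_lit 144) (nat_lit 114) (nat_lit 132))))) (PT.nd (nat_lit 39624) (PT.nd (nat_lit 39468) (PT.lf (nat_lit 12692) (nat_lit 6) (nat_lit 167) (nat_lit 1) (nat_lit 145) (nat_lit 114) (nat_lit 131)) (PT.nd (nat_lit 78) (PT.lf (nat_lit 13832) (nat_lit 6) (nat_lit 182) (nat_lit 3) (nat_lit 130) (nat_lit 115) (nat_lit 145)) (PT.lf (nat_lit 13908) (nat_lit 6) (nat_lit 183) (nat_lit 3) (nat_lit 131) (nat_lit 115) (nat_lit 144)))) (PT.nd (nat_lit 156) (PT.nd (nat_lit 78) (PT.lf (nat_lit 13984) (nat_lit 6) (nat_lit 184) (nat_lit 3) (nat_lit 132) (nat_lit 115) (nat_lit 143)) (PT.lf (nat_lit 14060) (nat_lit 6) (nat_lit 185) (nat_lit 3) (nat_lit 133) (nat_lit 115) (nat_lit 142))) (PT.nd (nat_lit 78) (PT.lf (nat_lit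 14136) (nat_lit 6) (nat_lit 186) (nat_lit 3) (nat_lit 134) (nat_lit 115) (nat_lit 141)) (PT.lf (nat_lit 14212) (nat_lit 6) (nat_lit 187) (nat_lit 3) (nat_lit 135) (nat_lit 115) (nat_lit 140)))))) (PT.nd (nat_lit 468) (PT.nd (nat_lit 234) (PT.nd (nat_lit 78) (PT.lf (nat_lit 14288) (nat_lit 6) (nat_lit 188) (nat_lit 3) (nat_lit 136) (nat_lit 115) (nat_lit 139)) (PT.nd (nat_lit 78) (PT.lf (nat_lit 14364) (nat_lit 6) (nat_lit 189) (nat_lit 3) (nat_lit 137) (nat_lit 115) (nat_lit 138)) (PT.lf (nat_lit 14364) (nat_lit 6) (nat_lit 189) (nat_lit 1) (nat_lit 138) (nat_lit 115) (nat_lit 137)))) (PT.nd (nat_lit 78) (PT.lf (nat_lit 14288) (nat_lit 6) (nat_lit 188) (nat_lit 1) (nat_lit 139) (nat_lit 115) (nat_lit 136)) (PT.nd (nat_lit 78) (PT.lf (nat_lit 14212) (nat_lit 6) (nat_lit 187) (nat_lit 1) (nat_lit 140) (nat_lit 115) (nat_lit 135)) (PT.lf (nat_lit 14136) (nat_lit 6) (nat_lit 186) (nat_lit 1) (nat_lit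 141) (nat_lit 115) (nat_lit 134))))) (PT.nd (nat_lit 234) (PT.nd (nat_lit 78) (PT.lf (nat_lit 14060) (nat_lit 6) (nat_lit 185) (nat_lit 1) (nat_lit 142) (nat_lit 115) (nat_lit 133)) (PT.nd (nat_lit 78) (PT.lf (nat_lit 13984) (nat_lit 6) (nat_lit 184) (nat_lit 1) (nat_lit 143) (nat_lit 115) (nat_lit 132)) (PT.lf (nat_lit 13908) (nat_lit 6) (nat_lit 183) (nat_lit 1) (nat_lit 144) (nat_lit 115) (nat_lit 131)))) (PT.nd (nat_lit 39468) (PT.nd (nat_lit 39390) (PT.lf (nat_lit 13832) (nat_lit 6) (nat_lit 182) (nat_lit 1) (nat_lit 145) (nat_lit 115) (nat_lit 130)) (PT.lf (nat_lit 13756) (nat_lit 6) (nat_lit 181) (nat_lit 3) (nat_lit 129) (nat_lit 116) (nat_lit 145))) (PT.nd (nat_lit 78) (PT.lf (nat_lit 14972) (nat_lit 6) (nat_lit 197) (nat_lit 3) (nat_lit 130) (nat_lit 116) (nat_lit 144)) (PT.lf (nat_lit 15048) (nat_lit 6) (nat_lit 198) (nat_lit 3) (nat_lit 131) (nat_lit 116) (nat_lit 143))))))) (PT.nd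 (nat_lit 1014) (PT.nd (nat_lit 468) (PT.nd (nat_lit 234) (PT.nd (nat_lit 78) (PT.lf (nat_lit 15124) (nat_lit 6) (nat_lit 199) (nat_lit 3) (nat_lit 132) (nat_lit 116) (nat_lit 142)) (PT.nd (nat_lit 78) (PT.lf (nat_lit 15200) (nat_lit 6) (nat_lit 200) (nat_lit 3) (nat_lit 133) (nat_lit 116) (nat_lit 141)) (PT.lf (nat_lit 15276) (nat_lit 6) (nat_lit 201) (nat_lit 3) (nat_lit 134) (nat_lit 116) (nat_lit 140)))) (PT.nd (nat_lit 78) (PT.lf (nat_lit 15352) (nat_lit 6) (nat_lit 202) (nat_lit 3) (nat_lit 135) (nat_lit 116) (nat_lit 139)) (PT.nd (nat_lit 78) (PT.lf (nat_lit 15428) (nat_lit 6) (nat_lit 203) (nat_lit 3) (nat_lit 136) (nat_lit 116) (nat_lit 138)) (PT.lf (nat_lit 15504) (nat_lit 3) (nat_lit 204) (nat_lit 1) (nat_lit 137) (nat_lit 116) (nat_lit 137))))) (PT.nd (nat_lit 234) (PT.nd (nat_lit 78) (PT.lf (nat_lit 15428) (nat_lit 6) (nat_lit 203) (nat_lit 1) (nat_lit 138) (nat_lit 116) (nat_lit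 136)) (PT.nd (nat_lit 78) (PT.lf (nat_lit 15352) (nat_lit 6) (nat_lit 202) (nat_lit 1) (nat_lit 139) (nat_lit 116) (nat_lit 135)) (PT.lf (nat_lit 15276) (nat_lit 6) (nat_lit 201) (nat_lit 1) (nat_lit 140) (nat_lit 116) (nat_lit 134)))) (PT.nd (nat_lit 156) (PT.nd (nat_lit 78) (PT.lf (nat_lit 15200) (nat_lit 6) (nat_lit 200) (nat_lit 1) (nat_lit 141) (nat_lit 116) (nat_lit 133)) (PT.lf (nat_lit 15124) (nat_lit 6) (nat_lit 199) (nat_lit 1) (nat_lit 142) (nat_lit 116) (nat_lit 132))) (PT.nd (nat_lit 78) (PT.lf (nat_lit 15048) (nat_lit 6) (nat_lit 198) (nat_lit 1) (nat_lit 143) (nat_lit 116) (nat_lit 131)) (PT.lf (nat_lit 14972) (nat_lit 6) (nat_lit 197) (nat_lit 1) (nat_lit 144) (nat_lit 116) (nat_lit 130)))))) (PT.nd (nat_lit 39780) (PT.nd (nat_lit 39468) (PT.nd (nat_lit 39312) (PT.lf (nat_lit 13756) (nat_lit 6) (nat_lit 181) (nat_lit 1) (nat_lit 145) (nat_lit 116) (nat_lit 129)) (PT.nd (nat_lit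 78) (PT.lf (nat_lit 13680) (nat_lit 6) (nat_lit 180) (nat_lit 3) (nat_lit 128) (nat_lit 117) (nat_lit 145)) (PT.lf (nat_lit 14896) (nat_lit 6) (nat_lit 196) (nat_lit 3) (nat_lit 129) (nat_lit 117) (nat_lit 144)))) (PT.nd (nat_lit 156) (PT.nd (nat_lit 78) (PT.lf (nat_lit 16036) (nat_lit 6) (nat_lit 211) (nat_lit 3) (nat_lit 130) (nat_lit 117) (nat_lit 143)) (PT.lf (nat_lit 16112) (nat_lit 6) (nat_lit 212) (nat_lit 3) (nat_lit 131) (nat_lit 117) (nat_lit 142))) (PT.nd (nat_lit 78) (PT.lf (nat_lit 16188) (nat_lit 6) (nat_lit 213) (nat_lit 3) (nat_lit 132) (nat_lit 117) (nat_lit 141)) (PT.lf (nat_lit 16264) (nat_lit 6) (nat_lit 214) (nat_lit 3) (nat_lit 133) (nat_lit 117) (nat_lit 140))))) (PT.nd (nat_lit 234) (PT.nd (nat_lit 78) (PT.lf (nat_lit 16340) (nat_lit 6) (nat_lit 215) (nat_lit 3) (nat_lit 134) (nat_lit 117) (nat_lit 139)) (PT.nd (nat_lit 78) (PT.lf (nat_lit 16416) (nat_lit 6) (nat_lit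 216) (nat_lit 3) (nat_lit 135) (nat_lit 117) (nat_lit 138)) (PT.lf (nat_lit 16492) (nat_lit 6) (nat_lit 217) (nat_lit 3) (nat_lit 136) (nat_lit 117) (nat_lit 137)))) (PT.nd (nat_lit 156) (PT.nd (nat_lit 78) (PT.lf (nat_lit 16492) (nat_lit 6) (nat_lit 217) (nat_lit 1) (nat_lit 137) (nat_lit 117) (nat_lit 136)) (PT.lf (nat_lit 16416) (nat_lit 6) (nat_lit 216) (nat_lit 1) (nat_lit 138) (nat_lit 117) (nat_lit 135))) (PT.nd (nat_lit 78) (PT.lf (nat_lit 16340) (nat_lit 6) (nat_lit 215) (nat_lit 1) (nat_lit 139) (nat_lit 117) (nat_lit 134)) (PT.lf (nat_lit 16264) (nat_lit 6) (nat_lit 214) (nat_lit 1) (nat_lit 140) (nat_lit 117) (nat_lit 133))))))))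
noncomputable def pc7 : PT := (PT.nd (nat_lit 80262) (PT.nd (nat_lit 40170) (PT.nd (nat_lit 39624) (PT.nd (nat_lit 234) (PT.nd (nat_lit 78) (PT.lf (nat_lit 16188) (nat_lit 6) (nat_lit 213) (nat_lit 1) (nat_lit 141) (nat_lit 117) (nat_lit 132)) (PT.nd (nat_lit 78) (PT.lf (nat_lit 16112) (nat_lit 6) (nat_lit 212) (nat_lit 1) (nat_lit 142) (nat_lit 117) (nat_lit 131)) (PT.lf (nat_lit 16036) (nat_lit 6) (nat_lit 211) (nat_lit 1) (nat_lit 143) (nat_lit 117) (nat_lit 130)))) (PT.nd (nat_lit 78) (PT.lf (nat_lit 14896) (nat_lit 6) (nat_lit 196) (nat_lit 1) (nat_lit 144) (nat_lit 117) (nat_lit 129)) (PT.nd (nat_lit 39234) (PT.lf (nat_lit 13680) (nat_lit 6) (nat_lit 180) (nat_lit 1) (nat_lit 145) (nat_lit 117) (nat_lit 128)) (PT.lf (nat_lit 13604) (nat_lit 6) (nat_lit 179) (nat_lit 3) (nat_lit 127) (nat_lit 118) (nat_lit 145))))) (PT.nd (nat_lit 234) (PT.nd (nat_lit 78) (PT.lf (nat_lit 14820) (nat_lit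 6) (nat_lit 195) (nat_lit 3) (nat_lit 128) (nat_lit 118) (nat_lit 144)) (PT.nd (nat_lit 78) (PT.lf (nat_lit 15960) (nat_lit 6) (nat_lit 210) (nat_lit 3) (nat_lit 129) (nat_lit 118) (nat_lit 143)) (PT.lf (nat_lit 17024) (nat_lit 6) (nat_lit 224) (nat_lit 3) (nat_lit 130) (nat_lit 118) (nat_lit 142)))) (PT.nd (nat_lit 156) (PT.nd (nat_lit 78) (PT.lf (nat_lit 17100) (nat_lit 6) (nat_lit 225) (nat_lit 3) (nat_lit 131) (nat_lit 118) (nat_lit 141)) (PT.lf (nat_lit 17176) (nat_lit 6) (nat_lit 226) (nat_lit 3) (nat_lit 132) (nat_lit 118) (nat_lit 140))) (PT.nd (nat_lit 78) (PT.lf (nat_lit 17252) (nat_lit 6) (nat_lit 227) (nat_lit 3) (nat_lit 133) (nat_lit 118) (nat_lit 139)) (PT.lf (nat_lit 17328) (nat_lit 6) (nat_lit 228) (nat_lit 3) (nat_lit 134) (nat_lit 118) (nat_lit 138)))))) (PT.nd (nat_lit 468) (PT.nd (nat_lit 234) (PT.nd (nat_lit 78) (PT.lf (nat_lit 17404) (nat_lit 6) (nat_lit 229) (nat_lit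 3) (nat_lit 135) (nat_lit 118) (nat_lit 137)) (PT.nd (nat_lit 78) (PT.lf (nat_lit 17480) (nat_lit 3) (nat_lit 230) (nat_lit 1) (nat_lit 136) (nat_lit 118) (nat_lit 136)) (PT.lf (nat_lit 17404) (nat_lit 6) (nat_lit 229) (nat_lit 1) (nat_lit 137) (nat_lit 118) (nat_lit 135)))) (PT.nd (nat_lit 78) (PT.lf (nat_lit 17328) (nat_lit 6) (nat_lit 228) (nat_lit 1) (nat_lit 138) (nat_lit 118) (nat_lit 134)) (PT.nd (nat_lit 78) (PT.lf (nat_lit 17252) (nat_lit 6) (nat_lit 227) (nat_lit 1) (nat_lit 139) (nat_lit 118) (nat_lit 133)) (PT.lf (nat_lit 17176) (nat_lit 6) (nat_lit 226) (nat_lit 1) (nat_lit 140) (nat_lit 118) (nat_lit 132))))) (PT.nd (nat_lit 234) (PT.nd (nat_lit 78) (PT.lf (nat_lit 17100) (nat_lit 6) (nat_lit 225) (nat_lit 1) (nat_lit 141) (nat_lit 118) (nat_lit 131)) (PT.nd (nat_lit 78) (PT.lf (nat_lit 17024) (nat_lit 6) (nat_lit 224) (nat_lit 1) (nat_lit 142) (nat_lit 118) (nat_lit 130)) (PT.lf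 (nat_lit 15960) (nat_lit 6) (nat_lit 210) (nat_lit 1) (nat_lit 143) (nat_lit 118) (nat_lit 129)))) (PT.nd (nat_lit 39234) (PT.nd (nat_lit 78) (PT.lf (nat_lit 14820) (nat_lit 6) (nat_lit 195) (nat_lit 1) (nat_lit 144) (nat_lit 118) (nat_lit 128)) (PT.lf (nat_lit 13604) (nat_lit 6) (nat_lit 179) (nat_lit 1) (nat_lit 145) (nat_lit 118) (nat_lit 127))) (PT.nd (nat_lit 78) (PT.lf (nat_lit 13528) (nat_lit 6) (nat_lit 178) (nat_lit 3) (nat_lit 126) (nat_lit 119) (nat_lit 145)) (PT.lf (nat_lit 14744) (nat_lit 6) (nat_lit 194) (nat_lit 3) (nat_lit 127) (nat_lit 119) (nat_lit 144))))))) (PT.nd (nat_lit 1014) (PT.nd (nat_lit 468) (PT.nd (nat_lit 234) (PT.nd (nat_lit 78) (PT.lf (nat_lit 15884) (nat_lit 6) (nat_lit 209) (nat_lit 3) (nat_lit 128) (nat_lit 119) (nat_lit 143)) (PT.nd (nat_lit 78) (PT.lf (nat_lit 16948) (nat_lit 6) (nat_lit 223) (nat_lit 3) (nat_lit 129) (nat_lit 119) (nat_lit 142)) (PT.lf (nat_lit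 17936) (nat_lit 6) (nat_lit 236) (nat_lit 3) (nat_lit 130) (nat_lit 119) (nat_lit 141)))) (PT.nd (nat_lit 78) (PT.lf (nat_lit 18012) (nat_lit 6) (nat_lit 237) (nat_lit 3) (nat_lit 131) (nat_lit 119) (nat_lit 140)) (PT.nd (nat_lit 78) (PT.lf (nat_lit 18088) (nat_lit 6) (nat_lit 238) (nat_lit 3) (nat_lit 132) (nat_lit 119) (nat_lit 139)) (PT.lf (nat_lit 18164) (nat_lit 6) (nat_lit 239) (nat_lit 3) (nat_lit 133) (nat_lit 119) (nat_lit 138))))) (PT.nd (nat_lit 234) (PT.nd (nat_lit 78) (PT.lf (nat_lit 18240) (nat_lit 6) (nat_lit 240) (nat_lit 3) (nat_lit 134) (nat_lit 119) (nat_lit 137)) (PT.nd (nat_lit 78) (PT.lf (nat_lit 18316) (nat_lit 6) (nat_lit 241) (nat_lit 3) (nat_lit 135) (nat_lit 119) (nat_lit 136)) (PT.lf (nat_lit 18316) (nat_lit 6) (nat_lit 241) (nat_lit 1) (nat_lit 136) (nat_lit 119) (nat_lit 135)))) (PT.nd (nat_lit 156) (PT.nd (nat_lit 78) (PT.lf (nat_lit 18240) (nat_lit 6) (nat_lit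 240) (nat_lit 1) (nat_lit 137) (nat_lit 119) (nat_lit 134)) (PT.lf (nat_lit 18164) (nat_lit 6) (nat_lit 239) (nat_lit 1) (nat_lit 138) (nat_lit 119) (nat_lit 133))) (PT.nd (nat_lit 78) (PT.lf (nat_lit 18088) (nat_lit 6) (nat_lit 238) (nat_lit 1) (nat_lit 139) (nat_lit 119) (nat_lit 132)) (PT.lf (nat_lit 18012) (nat_lit 6) (nat_lit 237) (nat_lit 1) (nat_lit 140) (nat_lit 119) (nat_lit 131)))))) (PT.nd (nat_lit 39546) (PT.nd (nat_lit 234) (PT.nd (nat_lit 78) (PT.lf (nat_lit 17936) (nat_lit 6) (nat_lit 236) (nat_lit 1) (nat_lit 141) (nat_lit 119) (nat_lit 130)) (PT.nd (nat_lit 78) (PT.lf (nat_lit 16948) (nat_lit 6) (nat_lit 223) (nat_lit 1) (nat_lit 142) (nat_lit 119) (nat_lit 129)) (PT.lf (nat_lit 15884) (nat_lit 6) (nat_lit 209) (nat_lit 1) (nat_lit 143) (nat_lit 119) (nat_lit 128)))) (PT.nd (nat_lit 39156) (PT.nd (nat_lit 78) (PT.lf (nat_lit 14744) (nat_lit 6) (nat_lit 194) (nat_lit 1) (nat_lit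 144) (nat_lit 119) (nat_lit 127)) (PT.lf (nat_lit 13528) (nat_lit 6) (nat_lit 178) (nat_lit 1) (nat_lit 145) (nat_lit 119) (nat_lit 126))) (PT.nd (nat_lit 78) (PT.lf (nat_lit 13452) (nat_lit 6) (nat_lit 177) (nat_lit 3) (nat_lit 125) (nat_lit 120) (nat_lit 145)) (PT.lf (nat_lit 14668) (nat_lit 6) (nat_lit 193) (nat_lit 3) (nat_lit 126) (nat_lit 120) (nat_lit 144))))) (PT.nd (nat_lit 234) (PT.nd (nat_lit 78) (PT.lf (nat_lit 15808) (nat_lit 6) (nat_lit 208) (nat_lit 3) (nat_lit 127) (nat_lit 120) (nat_lit 143)) (PT.nd (nat_lit 78) (PT.lf (nat_lit 16872) (nat_lit 6) (nat_lit 222) (nat_lit 3) (nat_lit 128) (nat_lit 120) (nat_lit 142)) (PT.lf (nat_lit 17860) (nat_lit 6) (nat_lit 235) (nat_lit 3) (nat_lit 129) (nat_lit 120) (nat_lit 141)))) (PT.nd (nat_lit 156) (PT.nd (nat_lit 78) (PT.lf (nat_lit 18772) (nat_lit 6) (nat_lit 247) (nat_lit 3) (nat_lit 130) (nat_lit 120) (nat_lit 140)) (PT.lf (nat_lit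 18848) (nat_lit 6) (nat_lit 248) (nat_lit 3) (nat_lit 131) (nat_lit 120) (nat_lit 139))) (PT.nd (nat_lit 78) (PT.lf (nat_lit 18924) (nat_lit 6) (nat_lit 249) (nat_lit 3) (nat_lit 132) (nat_lit 120) (nat_lit 138)) (PT.lf (nat_lit 19000) (nat_lit 6) (nat_lit 250) (nat_lit 3) (nat_lit 133) (nat_lit 120) (nat_lit 137))))))))
noncomputable def pc8 : PT := (PT.nd (nat_lit 40950) (PT.nd (nat_lit 39936) (PT.nd (nat_lit 468) (PT.nd (nat_lit 234) (PT.nd (nat_lit 78) (PT.lf (nat_lit 19076) (nat_lit 6) (nat_lit 251) (nat_lit 3) (nat_lit 134) (nat_lit 120) (nat_lit 136)) (PT.nd (nat_lit 78) (PT.lf (nat_lit 19152) (nat_lit 3) (nat_lit 252) (nat_lit 1) (nat_lit 135) (nat_lit 120) (nat_lit 135)) (PT.lf (nat_lit 19076) (nat_lit 6) (nat_lit 251) (nat_lit 1) (nat_lit 136) (nat_lit 120) (nat_lit 134)))) (PT.nd (nat_lit 78) (PT.lf (nat_lit 19000) (nat_lit 6) (nat_lit 250) (nat_lit 1) (nat_lit 137) (nat_lit 120)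 (nat_lit 133)) (PT.nd (nat_lit 78) (PT.lf (nat_lit 18924) (nat_lit 6) (nat_lit 249) (nat_lit 1) (nat_lit 138) (nat_lit 120) (nat_lit 132)) (PT.lf (nat_lit 18848) (nat_lit 6) (nat_lit 248) (nat_lit 1) (nat_lit 139) (nat_lit 120) (nat_lit 131))))) (PT.nd (nat_lit 234) (PT.nd (nat_lit 78) (PT.lf (nat_lit 18772) (nat_lit 6) (nat_lit 247) (nat_lit 1) (nat_lit 140) (nat_lit 120) (nat_lit 130)) (PT.nd (nat_lit 78) (PT.lf (nat_lit 17860) (nat_lit 6) (nat_lit 235) (nat_lit 1) (nat_lit 141) (nat_lit 120) (nat_lit 129)) (PT.lf (nat_lit 16872) (nat_lit 6) (nat_lit 222) (nat_lit 1) (nat_lit 142) (nat_lit 120) (nat_lit 128)))) (PT.nd (nat_lit 156) (PT.nd (nat_lit 78) (PT.lf (nat_lit 15808) (nat_lit 6) (nat_lit 208) (nat_lit 1) (nat_lit 143) (nat_lit 120) (nat_lit 127)) (PT.lf (nat_lit 14668) (nat_lit 6) (nat_lit 193) (nat_lit 1) (nat_lit 144) (nat_lit 120) (nat_lit 126))) (PT.nd (nat_lit 39000) (PT.lf (nat_lit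 13452) (nat_lit 6) (nat_lit 177) (nat_lit 1) (nat_lit 145) (nat_lit 120) (nat_lit 125)) (PT.lf (nat_lit 13376) (nat_lit 6) (nat_lit 176) (nat_lit 3) (nat_lit 124) (nat_lit 121) (nat_lit 145)))))) (PT.nd (nat_lit 468) (PT.nd (nat_lit 234) (PT.nd (nat_lit 78) (PT.lf (nat_lit 14592) (nat_lit 6) (nat_lit 192) (nat_lit 3) (nat_lit 125) (nat_lit 121) (nat_lit 144)) (PT.nd (nat_lit 78) (PT.lf (nat_lit 15732) (nat_lit 6) (nat_lit 207) (nat_lit 3) (nat_lit 126) (nat_lit 121) (nat_lit 143)) (PT.lf (nat_lit 16796) (nat_lit 6) (nat_lit 221) (nat_lit 3) (nat_lit 127) (nat_lit 121) (nat_lit 142)))) (PT.nd (nat_lit 78) (PT.lf (nat_lit 17784) (nat_lit 6) (nat_lit 234) (nat_lit 3) (nat_lit 128) (nat_lit 121) (nat_lit 141)) (PT.nd (nat_lit 78) (PT.lf (nat_lit 18696) (nat_lit 6) (nat_lit 246) (nat_lit 3) (nat_lit 129) (nat_lit 121) (nat_lit 140)) (PT.lf (nat_lit 19532) (nat_lit 6) (nat_lit 257) (nat_lit 3) (nat_lit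 130) (nat_lit 121) (nat_lit 139))))) (PT.nd (nat_lit 234) (PT.nd (nat_lit 78) (PT.lf (nat_lit 19608) (nat_lit 6) (nat_lit 258) (nat_lit 3) (nat_lit 131) (nat_lit 121) (nat_lit 138)) (PT.nd (nat_lit 78) (PT.lf (nat_lit 19684) (nat_lit 6) (nat_lit 259) (nat_lit 3) (nat_lit 132) (nat_lit 121) (nat_lit 137)) (PT.lf (nat_lit 19760) (nat_lit 6) (nat_lit 260) (nat_lit 3) (nat_lit 133) (nat_lit 121) (nat_lit 136)))) (PT.nd (nat_lit 156) (PT.nd (nat_lit 78) (PT.lf (nat_lit 19836) (nat_lit 6) (nat_lit 261) (nat_lit 3) (nat_lit 134) (nat_lit 121) (nat_lit 135)) (PT.lf (nat_lit 19836) (nat_lit 6) (nat_lit 261) (nat_lit 1) (nat_lit 135) (nat_lit 121) (nat_lit 134))) (PT.nd (nat_lit 78) (PT.lf (nat_lit 19760) (nat_lit 6) (nat_lit 260) (nat_lit 1) (nat_lit 136) (nat_lit 121) (nat_lit 133)) (PT.lf (nat_lit 19684) (nat_lit 6) (nat_lit 259) (nat_lit 1) (nat_lit 137) (nat_lit 121) (nat_lit 132))))))) (PT.nd (nat_lit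 39858) (PT.nd (nat_lit 468) (PT.nd (nat_lit 234) (PT.nd (nat_lit 78) (PT.lf (nat_lit 19608) (nat_lit 6) (nat_lit 258) (nat_lit 1) (nat_lit 138) (nat_lit 121) (nat_lit 131)) (PT.nd (nat_lit 78) (PT.lf (nat_lit 19532) (nat_lit 6) (nat_lit 257) (nat_lit 1) (nat_lit 139) (nat_lit 121) (nat_lit 130)) (PT.lf (nat_lit 18696) (nat_lit 6) (nat_lit 246) (nat_lit 1) (nat_lit 140) (nat_lit 121) (nat_lit 129)))) (PT.nd (nat_lit 78) (PT.lf (nat_lit 17784) (nat_lit 6) (nat_lit 234) (nat_lit 1) (nat_lit 141) (nat_lit 121) (nat_lit 128)) (PT.nd (nat_lit 78) (PT.lf (nat_lit 16796) (nat_lit 6) (nat_lit 221) (nat_lit 1) (nat_lit 142) (nat_lit 121) (nat_lit 127)) (PT.lf (nat_lit 15732) (nat_lit 6) (nat_lit 207) (nat_lit 1) (nat_lit 143) (nat_lit 121) (nat_lit 126))))) (PT.nd (nat_lit 39078) (PT.nd (nat_lit 78) (PT.lf (nat_lit 14592) (nat_lit 6) (nat_lit 192) (nat_lit 1) (nat_lit 144) (nat_lit 121) (nat_lit 125))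 (PT.nd (nat_lit 38922) (PT.lf (nat_lit 13376) (nat_lit 6) (nat_lit 176) (nat_lit 1) (nat_lit 145) (nat_lit 121) (nat_lit 124)) (PT.lf (nat_lit 13300) (nat_lit 6) (nat_lit 175) (nat_lit 3) (nat_lit 123) (nat_lit 122) (nat_lit 145)))) (PT.nd (nat_lit 156) (PT.nd (nat_lit 78) (PT.lf (nat_lit 14516) (nat_lit 6) (nat_lit 191) (nat_lit 3) (nat_lit 124) (nat_lit 122) (nat_lit 144)) (PT.lf (nat_lit 15656) (nat_lit 6) (nat_lit 206) (nat_lit 3) (nat_lit 125) (nat_lit 122) (nat_lit 143))) (PT.nd (nat_lit 78) (PT.lf (nat_lit 16720) (nat_lit 6) (nat_lit 220) (nat_lit 3) (nat_lit 126) (nat_lit 122) (nat_lit 142)) (PT.lf (nat_lit 17708) (nat_lit 6) (nat_lit 233) (nat_lit 3) (nat_lit 127) (nat_lit 122) (nat_lit 141)))))) (PT.nd (nat_lit 468) (PT.nd (nat_lit 234) (PT.nd (nat_lit 78) (PT.lf (nat_lit 18620) (nat_lit 6) (nat_lit 245) (nat_lit 3) (nat_lit 128) (nat_lit 122) (nat_lit 140)) (PT.nd (nat_lit 78) (PT.lf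 (nat_lit 19456) (nat_lit 6) (nat_lit 256) (nat_lit 3) (nat_lit 129) (nat_lit 122) (nat_lit 139)) (PT.lf (nat_lit 20216) (nat_lit 6) (nat_lit 266) (nat_lit 3) (nat_lit 130) (nat_lit 122) (nat_lit 138)))) (PT.nd (nat_lit 78) (PT.lf (nat_lit 20292) (nat_lit 6) (nat_lit 267) (nat_lit 3) (nat_lit 131) (nat_lit 122) (nat_lit 137)) (PT.nd (nat_lit 78) (PT.lf (nat_lit 20368) (nat_lit 6) (nat_lit 268) (nat_lit 3) (nat_lit 132) (nat_lit 122) (nat_lit 136)) (PT.lf (nat_lit 20444) (nat_lit 6) (nat_lit 269) (nat_lit 3) (nat_lit 133) (nat_lit 122) (nat_lit 135))))) (PT.nd (nat_lit 234) (PT.nd (nat_lit 78) (PT.lf (nat_lit 20520) (nat_lit 3) (nat_lit 270) (nat_lit 1) (nat_lit 134) (nat_lit 122) (nat_lit 134)) (PT.nd (nat_lit 78) (PT.lf (nat_lit 20444) (nat_lit 6) (nat_lit 269) (nat_lit 1) (nat_lit 135) (nat_lit 122) (nat_lit 133)) (PT.lf (nat_lit 20368) (nat_lit 6) (nat_lit 268) (nat_lit 1) (nat_lit 136) (nat_lit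 122) (nat_lit 132)))) (PT.nd (nat_lit 156) (PT.nd (nat_lit 78) (PT.lf (nat_lit 20292) (nat_lit 6) (nat_lit 267) (nat_lit 1) (nat_lit 137) (nat_lit 122) (nat_lit 131)) (PT.lf (nat_lit 20216) (nat_lit 6) (nat_lit 266) (nat_lit 1) (nat_lit 138) (nat_lit 122) (nat_lit 130))) (PT.nd (nat_lit 78) (PT.lf (nat_lit 19456) (nat_lit 6) (nat_lit 256) (nat_lit 1) (nat_lit 139) (nat_lit 122) (nat_lit 129)) (PT.lf (nat_lit 18620) (nat_lit 6) (nat_lit 245) (nat_lit 1) (nat_lit 140) (nat_lit 122) (nat_lit 128))))))))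
noncomputable def pc9 : PT := (PT.nd (nat_lit 40794) (PT.nd (nat_lit 39780) (PT.nd (nat_lit 39234) (PT.nd (nat_lit 234) (PT.nd (nat_lit 78) (PT.lf (nat_lit 17708) (nat_lit 6) (nat_lit 233) (nat_lit 1) (nat_lit 141) (nat_lit 122) (nat_lit 127)) (PT.nd (nat_lit 78) (PT.lf (nat_lit 16720) (nat_lit 6) (nat_lit 220) (nat_lit 1) (nat_lit 142) (nat_lit 122) (nat_lit 126)) (PT.lf (nat_lit 15656) (nat_lit 6) (nat_lit 206) (nat_lit 1) (nat_lit 143) (nat_lit 122) (nat_lit 125)))) (PT.nd (nat_lit 78) (PT.lf (nat_lit 14516) (nat_lit 6) (nat_lit 191) (nat_lit 1) (nat_lit 144) (nat_lit 122) (nat_lit 124)) (PT.nd (nat_lit 38844) (PT.lf (nat_lit 13300) (nat_lit 6) (nat_lit 175) (nat_lit 1) (nat_lit 145) (nat_lit 122) (nat_lit 123)) (PT.lf (nat_lit 13300) (nat_lit 6) (nat_lit 175) (nat_lit 5) (nat_lit 122) (nat_lit 123) (nat_lit 145))))) (PT.nd (nat_lit 234) (PT.nd (nat_lit 78) (PT.lf (nat_lit 14440) (nat_lit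 3) (nat_lit 190) (nat_lit 3) (nat_lit 123) (nat_lit 123) (nat_lit 144)) (PT.nd (nat_lit 78) (PT.lf (nat_lit 15580) (nat_lit 6) (nat_lit 205) (nat_lit 3) (nat_lit 124) (nat_lit 123) (nat_lit 143)) (PT.lf (nat_lit 16644) (nat_lit 6) (nat_lit 219) (nat_lit 3) (nat_lit 125) (nat_lit 123) (nat_lit 142)))) (PT.nd (nat_lit 156) (PT.nd (nat_lit 78) (PT.lf (nat_lit 17632) (nat_lit 6) (nat_lit 232) (nat_lit 3) (nat_lit 126) (nat_lit 123) (nat_lit 141)) (PT.lf (nat_lit 18544) (nat_lit 6) (nat_lit 244) (nat_lit 3) (nat_lit 127) (nat_lit 123) (nat_lit 140))) (PT.nd (nat_lit 78) (PT.lf (nat_lit 19380) (nat_lit 6) (nat_lit 255) (nat_lit 3) (nat_lit 128) (nat_lit 123) (nat_lit 139)) (PT.lf (nat_lit 20140) (nat_lit 6) (nat_lit 265) (nat_lit 3) (nat_lit 129) (nat_lit 123) (nat_lit 138)))))) (PT.nd (nat_lit 468) (PT.nd (nat_lit 234) (PT.nd (nat_lit 78) (PT.lf (nat_lit 20824) (nat_lit 6) (nat_lit 274) (nat_lit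 3) (nat_lit 130) (nat_lit 123) (nat_lit 137)) (PT.nd (nat_lit 78) (PT.lf (nat_lit 20900) (nat_lit 6) (nat_lit 275) (nat_lit 3) (nat_lit 131) (nat_lit 123) (nat_lit 136)) (PT.lf (nat_lit 20976) (nat_lit 6) (nat_lit 276) (nat_lit 3) (nat_lit 132) (nat_lit 123) (nat_lit 135)))) (PT.nd (nat_lit 78) (PT.lf (nat_lit 21052) (nat_lit 6) (nat_lit 277) (nat_lit 3) (nat_lit 133) (nat_lit 123) (nat_lit 134)) (PT.nd (nat_lit 78) (PT.lf (nat_lit 21052) (nat_lit 6) (nat_lit 277) (nat_lit 1) (nat_lit 134) (nat_lit 123) (nat_lit 133)) (PT.lf (nat_lit 20976) (nat_lit 6) (nat_lit 276) (nat_lit 1) (nat_lit 135) (nat_lit 123) (nat_lit 132))))) (PT.nd (nat_lit 234) (PT.nd (nat_lit 78) (PT.lf (nat_lit 20900) (nat_lit 6) (nat_lit 275) (nat_lit 1) (nat_lit 136) (nat_lit 123) (nat_lit 131)) (PT.nd (nat_lit 78) (PT.lf (nat_lit 20824) (nat_lit 6) (nat_lit 274) (nat_lit 1) (nat_lit 137) (nat_lit 123) (nat_lit 130)) (PT.lf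 (nat_lit 20140) (nat_lit 6) (nat_lit 265) (nat_lit 1) (nat_lit 138) (nat_lit 123) (nat_lit 129)))) (PT.nd (nat_lit 156) (PT.nd (nat_lit 78) (PT.lf (nat_lit 19380) (nat_lit 6) (nat_lit 255) (nat_lit 1) (nat_lit 139) (nat_lit 123) (nat_lit 128)) (PT.lf (nat_lit 18544) (nat_lit 6) (nat_lit 244) (nat_lit 1) (nat_lit 140) (nat_lit 123) (nat_lit 127))) (PT.nd (nat_lit 78) (PT.lf (nat_lit 17632) (nat_lit 6) (nat_lit 232) (nat_lit 1) (nat_lit 141) (nat_lit 123) (nat_lit 126)) (PT.lf (nat_lit 16644) (nat_lit 6) (nat_lit 219) (nat_lit 1) (nat_lit 142) (nat_lit 123) (nat_lit 125))))))) (PT.nd (nat_lit 39702) (PT.nd (nat_lit 39156) (PT.nd (nat_lit 38922) (PT.nd (nat_lit 78) (PT.lf (nat_lit 15580) (nat_lit 6) (nat_lit 205) (nat_lit 1) (nat_lit 143) (nat_lit 123) (nat_lit 124)) (PT.nd (nat_lit 78) (PT.lf (nat_lit 14440) (nat_lit 3) (nat_lit 190) (nat_lit 0) (nat_lit 144) (nat_lit 123) (nat_lit 123)) (PT.lf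 (nat_lit 13300) (nat_lit 6) (nat_lit 175) (nat_lit 0) (nat_lit 145) (nat_lit 123) (nat_lit 122)))) (PT.nd (nat_lit 78) (PT.lf (nat_lit 13376) (nat_lit 6) (nat_lit 176) (nat_lit 5) (nat_lit 121) (nat_lit 124) (nat_lit 145)) (PT.nd (nat_lit 78) (PT.lf (nat_lit 14516) (nat_lit 6) (nat_lit 191) (nat_lit 5) (nat_lit 122) (nat_lit 124) (nat_lit 144)) (PT.lf (nat_lit 15580) (nat_lit 6) (nat_lit 205) (nat_lit 5) (nat_lit 123) (nat_lit 124) (nat_lit 143))))) (PT.nd (nat_lit 234) (PT.nd (nat_lit 78) (PT.lf (nat_lit 16568) (nat_lit 3) (nat_lit 218) (nat_lit 3) (nat_lit 124) (nat_lit 124) (nat_lit 142)) (PT.nd (nat_lit 78) (PT.lf (nat_lit 17556) (nat_lit 6) (nat_lit 231) (nat_lit 3) (nat_lit 125) (nat_lit 124) (nat_lit 141)) (PT.lf (nat_lit 18468) (nat_lit 6) (nat_lit 243) (nat_lit 3) (nat_lit 126) (nat_lit 124) (nat_lit 140)))) (PT.nd (nat_lit 156) (PT.nd (nat_lit 78) (PT.lf (nat_lit 19304) (nat_lit 6)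 (nat_lit 254) (nat_lit 3) (nat_lit 127) (nat_lit 124) (nat_lit 139)) (PT.lf (nat_lit 20064) (nat_lit 6) (nat_lit 264) (nat_lit 3) (nat_lit 128) (nat_lit 124) (nat_lit 138))) (PT.nd (nat_lit 78) (PT.lf (nat_lit 20748) (nat_lit 6) (nat_lit 273) (nat_lit 3) (nat_lit 129) (nat_lit 124) (nat_lit 137)) (PT.lf (nat_lit 21356) (nat_lit 6) (nat_lit 281) (nat_lit 3) (nat_lit 130) (nat_lit 124) (nat_lit 136)))))) (PT.nd (nat_lit 546) (PT.nd (nat_lit 234) (PT.nd (nat_lit 78) (PT.lf (nat_lit 21432) (nat_lit 6) (nat_lit 282) (nat_lit 3) (nat_lit 131) (nat_lit 124) (nat_lit 135)) (PT.nd (nat_lit 78) (PT.lf (nat_lit 21508) (nat_lit 6) (nat_lit 283) (nat_lit 3) (nat_lit 132) (nat_lit 124) (nat_lit 134)) (PT.lf (nat_lit 21584) (nat_lit 3) (nat_lit 284) (nat_lit 1) (nat_lit 133) (nat_lit 124) (nat_lit 133)))) (PT.nd (nat_lit 156) (PT.nd (nat_lit 78) (PT.lf (nat_lit 21508) (nat_lit 6) (nat_lit 283) (nat_lit 1)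 (nat_lit 134) (nat_lit 124) (nat_lit 132)) (PT.lf (nat_lit 21432) (nat_lit 6) (nat_lit 282) (nat_lit 1) (nat_lit 135) (nat_lit 124) (nat_lit 131))) (PT.nd (nat_lit 78) (PT.lf (nat_lit 21356) (nat_lit 6) (nat_lit 281) (nat_lit 1) (nat_lit 136) (nat_lit 124) (nat_lit 130)) (PT.lf (nat_lit 20748) (nat_lit 6) (nat_lit 273) (nat_lit 1) (nat_lit 137) (nat_lit 124) (nat_lit 129))))) (PT.nd (nat_lit 234) (PT.nd (nat_lit 78) (PT.lf (nat_lit 20064) (nat_lit 6) (nat_lit 264) (nat_lit 1) (nat_lit 138) (nat_lit 124) (nat_lit 128)) (PT.nd (nat_lit 78) (PT.lf (nat_lit 19304) (nat_lit 6) (nat_lit 254) (nat_lit 1) (nat_lit 139) (nat_lit 124) (nat_lit 127)) (PT.lf (nat_lit 18468) (nat_lit 6) (nat_lit 243) (nat_lit 1) (nat_lit 140) (nat_lit 124) (nat_lit 126)))) (PT.nd (nat_lit 156) (PT.nd (nat_lit 78) (PT.lf (nat_lit 17556) (nat_lit 6) (nat_lit 231) (nat_lit 1) (nat_lit 141) (nat_lit 124) (nat_lit 125)) (PT.lf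 (nat_lit 16568) (nat_lit 3) (nat_lit 218) (nat_lit 0) (nat_lit 142) (nat_lit 124) (nat_lit 124))) (PT.nd (nat_lit 78) (PT.lf (nat_lit 15580) (nat_lit 6) (nat_lit 205) (nat_lit 0) (nat_lit 143) (nat_lit 124) (nat_lit 123)) (PT.lf (nat_lit 14516) (nat_lit 6) (nat_lit 191) (nat_lit 0) (nat_lit 144) (nat_lit 124) (nat_lit 122))))))))
noncomputable def pc10 : PT := (PT.nd (nat_lit 40638) (PT.nd (nat_lit 39624) (PT.nd (nat_lit 39078) (PT.nd (nat_lit 38844) (PT.nd (nat_lit 38688) (PT.lf (nat_lit 13376) (nat_lit 6) (nat_lit 176) (nat_lit 0) (nat_lit 145) (nat_lit 124) (nat_lit 121)) (PT.nd (nat_lit 78) (PT.lf (nat_lit 13452) (nat_lit 6) (nat_lit 177) (nat_lit 5) (nat_lit 120) (nat_lit 125) (nat_lit 145)) (PT.lf (nat_lit 14592) (nat_lit 6) (nat_lit 192) (nat_lit 5) (nat_lit 121) (nat_lit 125) (nat_lit 144)))) (PT.nd (nat_lit 78) (PT.lf (nat_lit 15656) (nat_lit 6) (nat_lit 206) (nat_lit 5) (nat_lit 122)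 (nat_lit 125) (nat_lit 143)) (PT.nd (nat_lit 78) (PT.lf (nat_lit 16644) (nat_lit 6) (nat_lit 219) (nat_lit 5) (nat_lit 123) (nat_lit 125) (nat_lit 142)) (PT.lf (nat_lit 17556) (nat_lit 6) (nat_lit 231) (nat_lit 5) (nat_lit 124) (nat_lit 125) (nat_lit 141))))) (PT.nd (nat_lit 234) (PT.nd (nat_lit 78) (PT.lf (nat_lit 18392) (nat_lit 3) (nat_lit 242) (nat_lit 3) (nat_lit 125) (nat_lit 125) (nat_lit 140)) (PT.nd (nat_lit 78) (PT.lf (nat_lit 19228) (nat_lit 6) (nat_lit 253) (nat_lit 3) (nat_lit 126) (nat_lit 125) (nat_lit 139)) (PT.lf (nat_lit 19988) (nat_lit 6) (nat_lit 263) (nat_lit 3) (nat_lit 127) (nat_lit 125) (nat_lit 138)))) (PT.nd (nat_lit 156) (PT.nd (nat_lit 78) (PT.lf (nat_lit 20672) (nat_lit 6) (nat_lit 272) (nat_lit 3) (nat_lit 128) (nat_lit 125) (nat_lit 137)) (PT.lf (nat_lit 21280) (nat_lit 6) (nat_lit 280) (nat_lit 3) (nat_lit 129) (nat_lit 125) (nat_lit 136))) (PT.nd (nat_lit 78)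 (PT.lf (nat_lit 21812) (nat_lit 6) (nat_lit 287) (nat_lit 3) (nat_lit 130) (nat_lit 125) (nat_lit 135)) (PT.lf (nat_lit 21888) (nat_lit 6) (nat_lit 288) (nat_lit 3) (nat_lit 131) (nat_lit 125) (nat_lit 134)))))) (PT.nd (nat_lit 468) (PT.nd (nat_lit 234) (PT.nd (nat_lit 78) (PT.lf (nat_lit 21964) (nat_lit 6) (nat_lit 289) (nat_lit 3) (nat_lit 132) (nat_lit 125) (nat_lit 133)) (PT.nd (nat_lit 78) (PT.lf (nat_lit 21964) (nat_lit 6) (nat_lit 289) (nat_lit 1) (nat_lit 133) (nat_lit 125) (nat_lit 132)) (PT.lf (nat_lit 21888) (nat_lit 6) (nat_lit 288) (nat_lit 1) (nat_lit 134) (nat_lit 125) (nat_lit 131)))) (PT.nd (nat_lit 78) (PT.lf (nat_lit 21812) (nat_lit 6) (nat_lit 287) (nat_lit 1) (nat_lit 135) (nat_lit 125) (nat_lit 130)) (PT.nd (nat_lit 78) (PT.lf (nat_lit 21280) (nat_lit 6) (nat_lit 280) (nat_lit 1) (nat_lit 136) (nat_lit 125) (nat_lit 129)) (PT.lf (nat_lit 20672) (nat_lit 6) (nat_lit 272)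 (nat_lit 1) (nat_lit 137) (nat_lit 125) (nat_lit 128))))) (PT.nd (nat_lit 234) (PT.nd (nat_lit 78) (PT.lf (nat_lit 19988) (nat_lit 6) (nat_lit 263) (nat_lit 1) (nat_lit 138) (nat_lit 125) (nat_lit 127)) (PT.nd (nat_lit 78) (PT.lf (nat_lit 19228) (nat_lit 6) (nat_lit 253) (nat_lit 1) (nat_lit 139) (nat_lit 125) (nat_lit 126)) (PT.lf (nat_lit 18392) (nat_lit 3) (nat_lit 242) (nat_lit 0) (nat_lit 140) (nat_lit 125) (nat_lit 125)))) (PT.nd (nat_lit 156) (PT.nd (nat_lit 78) (PT.lf (nat_lit 17556) (nat_lit 6) (nat_lit 231) (nat_lit 0) (nat_lit 141) (nat_lit 125) (nat_lit 124)) (PT.lf (nat_lit 16644) (nat_lit 6) (nat_lit 219) (nat_lit 0) (nat_lit 142) (nat_lit 125) (nat_lit 123))) (PT.nd (nat_lit 78) (PT.lf (nat_lit 15656) (nat_lit 6) (nat_lit 206) (nat_lit 0) (nat_lit 143) (nat_lit 125) (nat_lit 122)) (PT.lf (nat_lit 14592) (nat_lit 6) (nat_lit 192) (nat_lit 0) (nat_lit 144) (nat_lit 125) (nat_lit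 121))))))) (PT.nd (nat_lit 39546) (PT.nd (nat_lit 39000) (PT.nd (nat_lit 38766) (PT.nd (nat_lit 38610) (PT.lf (nat_lit 13452) (nat_lit 6) (nat_lit 177) (nat_lit 0) (nat_lit 145) (nat_lit 125) (nat_lit 120)) (PT.nd (nat_lit 78) (PT.lf (nat_lit 13528) (nat_lit 6) (nat_lit 178) (nat_lit 5) (nat_lit 119) (nat_lit 126) (nat_lit 145)) (PT.lf (nat_lit 14668) (nat_lit 6) (nat_lit 193) (nat_lit 5) (nat_lit 120) (nat_lit 126) (nat_lit 144)))) (PT.nd (nat_lit 78) (PT.lf (nat_lit 15732) (nat_lit 6) (nat_lit 207) (nat_lit 5) (nat_lit 121) (nat_lit 126) (nat_lit 143)) (PT.nd (nat_lit 78) (PT.lf (nat_lit 16720) (nat_lit 6) (nat_lit 220) (nat_lit 5) (nat_lit 122) (nat_lit 126) (nat_lit 142)) (PT.lf (nat_lit 17632) (nat_lit 6) (nat_lit 232) (nat_lit 5) (nat_lit 123) (nat_lit 126) (nat_lit 141))))) (PT.nd (nat_lit 234) (PT.nd (nat_lit 78) (PT.lf (nat_lit 18468) (nat_lit 6) (nat_lit 243) (nat_lit 5) (nat_lit 124)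 (nat_lit 126) (nat_lit 140)) (PT.nd (nat_lit 78) (PT.lf (nat_lit 19228) (nat_lit 6) (nat_lit 253) (nat_lit 5) (nat_lit 125) (nat_lit 126) (nat_lit 139)) (PT.lf (nat_lit 19912) (nat_lit 3) (nat_lit 262) (nat_lit 3) (nat_lit 126) (nat_lit 126) (nat_lit 138)))) (PT.nd (nat_lit 156) (PT.nd (nat_lit 78) (PT.lf (nat_lit 20596) (nat_lit 6) (nat_lit 271) (nat_lit 3) (nat_lit 127) (nat_lit 126) (nat_lit 137)) (PT.lf (nat_lit 21204) (nat_lit 6) (nat_lit 279) (nat_lit 3) (nat_lit 128) (nat_lit 126) (nat_lit 136))) (PT.nd (nat_lit 78) (PT.lf (nat_lit 21736) (nat_lit 6) (nat_lit 286) (nat_lit 3) (nat_lit 129) (nat_lit 126) (nat_lit 135)) (PT.lf (nat_lit 22192) (nat_lit 6) (nat_lit 292) (nat_lit 3) (nat_lit 130) (nat_lit 126) (nat_lit 134)))))) (PT.nd (nat_lit 546) (PT.nd (nat_lit 234) (PT.nd (nat_lit 78) (PT.lf (nat_lit 22268) (nat_lit 6) (nat_lit 293) (nat_lit 3) (nat_lit 131) (nat_lit 126) (nat_lit 133))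 (PT.nd (nat_lit 78) (PT.lf (nat_lit 22344) (nat_lit 3) (nat_lit 294) (nat_lit 1) (nat_lit 132) (nat_lit 126) (nat_lit 132)) (PT.lf (nat_lit 22268) (nat_lit 6) (nat_lit 293) (nat_lit 1) (nat_lit 133) (nat_lit 126) (nat_lit 131)))) (PT.nd (nat_lit 156) (PT.nd (nat_lit 78) (PT.lf (nat_lit 22192) (nat_lit 6) (nat_lit 292) (nat_lit 1) (nat_lit 134) (nat_lit 126) (nat_lit 130)) (PT.lf (nat_lit 21736) (nat_lit 6) (nat_lit 286) (nat_lit 1) (nat_lit 135) (nat_lit 126) (nat_lit 129))) (PT.nd (nat_lit 78) (PT.lf (nat_lit 21204) (nat_lit 6) (nat_lit 279) (nat_lit 1) (nat_lit 136) (nat_lit 126) (nat_lit 128)) (PT.lf (nat_lit 20596) (nat_lit 6) (nat_lit 271) (nat_lit 1) (nat_lit 137) (nat_lit 126) (nat_lit 127))))) (PT.nd (nat_lit 234) (PT.nd (nat_lit 78) (PT.lf (nat_lit 19912) (nat_lit 3) (nat_lit 262) (nat_lit 0) (nat_lit 138) (nat_lit 126) (nat_lit 126)) (PT.nd (nat_lit 78) (PT.lf (nat_lit 19228) (nat_lit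 6) (nat_lit 253) (nat_lit 0) (nat_lit 139) (nat_lit 126) (nat_lit 125)) (PT.lf (nat_lit 18468) (nat_lit 6) (nat_lit 243) (nat_lit 0) (nat_lit 140) (nat_lit 126) (nat_lit 124)))) (PT.nd (nat_lit 156) (PT.nd (nat_lit 78) (PT.lf (nat_lit 17632) (nat_lit 6) (nat_lit 232) (nat_lit 0) (nat_lit 141) (nat_lit 126) (nat_lit 123)) (PT.lf (nat_lit 16720) (nat_lit 6) (nat_lit 220) (nat_lit 0) (nat_lit 142) (nat_lit 126) (nat_lit 122))) (PT.nd (nat_lit 78) (PT.lf (nat_lit 15732) (nat_lit 6) (nat_lit 207) (nat_lit 0) (nat_lit 143) (nat_lit 126) (nat_lit 121)) (PT.lf (nat_lit 14668) (nat_lit 6) (nat_lit 193) (nat_lit 0) (nat_lit 144) (nat_lit 126) (nat_lit 120))))))))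
noncomputable def pc11 : PT := (PT.nd (nat_lit 40482) (PT.nd (nat_lit 39468) (PT.nd (nat_lit 38922) (PT.nd (nat_lit 38688) (PT.nd (nat_lit 38532) (PT.lf (nat_lit 13528) (nat_lit 6) (nat_lit 178) (nat_lit 0) (nat_lit 145) (nat_lit 126) (nat_lit 119)) (PT.nd (nat_lit 78) (PT.lf (nat_lit 13604) (nat_lit 6) (nat_lit 179) (nat_lit 5) (nat_lit 118) (nat_lit 127) (nat_lit 145)) (PT.lf (nat_lit 14744) (nat_lit 6) (nat_lit 194) (nat_lit 5) (nat_lit 119) (nat_lit 127) (nat_lit 144)))) (PT.nd (nat_lit 78) (PT.lf (nat_lit 15808) (nat_lit 6) (nat_lit 208) (nat_lit 5) (nat_lit 120) (nat_lit 127) (nat_lit 143)) (PT.nd (nat_lit 78) (PT.lf (nat_lit 16796) (nat_lit 6) (nat_lit 221) (nat_lit 5) (nat_lit 121) (nat_lit 127) (nat_lit 142)) (PT.lf (nat_lit 17708) (nat_lit 6) (nat_lit 233) (nat_lit 5) (nat_lit 122) (nat_lit 127) (nat_lit 141))))) (PT.nd (nat_lit 234) (PT.nd (nat_lit 78) (PT.lf (nat_lit 18544) (nat_lit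 6) (nat_lit 244) (nat_lit 5) (nat_lit 123) (nat_lit 127) (nat_lit 140)) (PT.nd (nat_lit 78) (PT.lf (nat_lit 19304) (nat_lit 6) (nat_lit 254) (nat_lit 5) (nat_lit 124) (nat_lit 127) (nat_lit 139)) (PT.lf (nat_lit 19988) (nat_lit 6) (nat_lit 263) (nat_lit 5) (nat_lit 125) (nat_lit 127) (nat_lit 138)))) (PT.nd (nat_lit 156) (PT.nd (nat_lit 78) (PT.lf (nat_lit 20596) (nat_lit 6) (nat_lit 271) (nat_lit 5) (nat_lit 126) (nat_lit 127) (nat_lit 137)) (PT.lf (nat_lit 21128) (nat_lit 3) (nat_lit 278) (nat_lit 3) (nat_lit 127) (nat_lit 127) (nat_lit 136))) (PT.nd (nat_lit 78) (PT.lf (nat_lit 21660) (nat_lit 6) (nat_lit 285) (nat_lit 3) (nat_lit 128) (nat_lit 127) (nat_lit 135)) (PT.lf (nat_lit 22116) (nat_lit 6) (nat_lit 291) (nat_lit 3) (nat_lit 129) (nat_lit 127) (nat_lit 134)))))) (PT.nd (nat_lit 468) (PT.nd (nat_lit 234) (PT.nd (nat_lit 78) (PT.lf (nat_lit 22496) (nat_lit 6) (nat_lit 296) (nat_lit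 3) (nat_lit 130) (nat_lit 127) (nat_lit 133)) (PT.nd (nat_lit 78) (PT.lf (nat_lit 22572) (nat_lit 6) (nat_lit 297) (nat_lit 3) (nat_lit 131) (nat_lit 127) (nat_lit 132)) (PT.lf (nat_lit 22572) (nat_lit 6) (nat_lit 297) (nat_lit 1) (nat_lit 132) (nat_lit 127) (nat_lit 131)))) (PT.nd (nat_lit 78) (PT.lf (nat_lit 22496) (nat_lit 6) (nat_lit 296) (nat_lit 1) (nat_lit 133) (nat_lit 127) (nat_lit 130)) (PT.nd (nat_lit 78) (PT.lf (nat_lit 22116) (nat_lit 6) (nat_lit 291) (nat_lit 1) (nat_lit 134) (nat_lit 127) (nat_lit 129)) (PT.lf (nat_lit 21660) (nat_lit 6) (nat_lit 285) (nat_lit 1) (nat_lit 135) (nat_lit 127) (nat_lit 128))))) (PT.nd (nat_lit 234) (PT.nd (nat_lit 78) (PT.lf (nat_lit 21128) (nat_lit 3) (nat_lit 278) (nat_lit 0) (nat_lit 136) (nat_lit 127) (nat_lit 127)) (PT.nd (nat_lit 78) (PT.lf (nat_lit 20596) (nat_lit 6) (nat_lit 271) (nat_lit 0) (nat_lit 137) (nat_lit 127) (nat_lit 126)) (PT.lf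 (nat_lit 19988) (nat_lit 6) (nat_lit 263) (nat_lit 0) (nat_lit 138) (nat_lit 127) (nat_lit 125)))) (PT.nd (nat_lit 156) (PT.nd (nat_lit 78) (PT.lf (nat_lit 19304) (nat_lit 6) (nat_lit 254) (nat_lit 0) (nat_lit 139) (nat_lit 127) (nat_lit 124)) (PT.lf (nat_lit 18544) (nat_lit 6) (nat_lit 244) (nat_lit 0) (nat_lit 140) (nat_lit 127) (nat_lit 123))) (PT.nd (nat_lit 78) (PT.lf (nat_lit 17708) (nat_lit 6) (nat_lit 233) (nat_lit 0) (nat_lit 141) (nat_lit 127) (nat_lit 122)) (PT.lf (nat_lit 16796) (nat_lit 6) (nat_lit 221) (nat_lit 0) (nat_lit 142) (nat_lit 127) (nat_lit 121))))))) (PT.nd (nat_lit 39390) (PT.nd (nat_lit 38844) (PT.nd (nat_lit 38610) (PT.nd (nat_lit 78) (PT.lf (nat_lit 15808) (nat_lit 6) (nat_lit 208) (nat_lit 0) (nat_lit 143) (nat_lit 127) (nat_lit 120)) (PT.nd (nat_lit 78) (PT.lf (nat_lit 14744) (nat_lit 6) (nat_lit 194) (nat_lit 0) (nat_lit 144) (nat_lit 127) (nat_lit 119)) (PT.lf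 (nat_lit 13604) (nat_lit 6) (nat_lit 179) (nat_lit 0) (nat_lit 145) (nat_lit 127) (nat_lit 118)))) (PT.nd (nat_lit 78) (PT.lf (nat_lit 13680) (nat_lit 6) (nat_lit 180) (nat_lit 5) (nat_lit 117) (nat_lit 128) (nat_lit 145)) (PT.nd (nat_lit 78) (PT.lf (nat_lit 14820) (nat_lit 6) (nat_lit 195) (nat_lit 5) (nat_lit 118) (nat_lit 128) (nat_lit 144)) (PT.lf (nat_lit 15884) (nat_lit 6) (nat_lit 209) (nat_lit 5) (nat_lit 119) (nat_lit 128) (nat_lit 143))))) (PT.nd (nat_lit 234) (PT.nd (nat_lit 78) (PT.lf (nat_lit 16872) (nat_lit 6) (nat_lit 222) (nat_lit 5) (nat_lit 120) (nat_lit 128) (nat_lit 142)) (PT.nd (nat_lit 78) (PT.lf (nat_lit 17784) (nat_lit 6) (nat_lit 234) (nat_lit 5) (nat_lit 121) (nat_lit 128) (nat_lit 141)) (PT.lf (nat_lit 18620) (nat_lit 6) (nat_lit 245) (nat_lit 5) (nat_lit 122) (nat_lit 128) (nat_lit 140)))) (PT.nd (nat_lit 156) (PT.nd (nat_lit 78) (PT.lf (nat_lit 19380) (nat_lit 6)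 (nat_lit 255) (nat_lit 5) (nat_lit 123) (nat_lit 128) (nat_lit 139)) (PT.lf (nat_lit 20064) (nat_lit 6) (nat_lit 264) (nat_lit 5) (nat_lit 124) (nat_lit 128) (nat_lit 138))) (PT.nd (nat_lit 78) (PT.lf (nat_lit 20672) (nat_lit 6) (nat_lit 272) (nat_lit 5) (nat_lit 125) (nat_lit 128) (nat_lit 137)) (PT.lf (nat_lit 21204) (nat_lit 6) (nat_lit 279) (nat_lit 5) (nat_lit 126) (nat_lit 128) (nat_lit 136)))))) (PT.nd (nat_lit 546) (PT.nd (nat_lit 234) (PT.nd (nat_lit 78) (PT.lf (nat_lit 21660) (nat_lit 6) (nat_lit 285) (nat_lit 5) (nat_lit 127) (nat_lit 128) (nat_lit 135)) (PT.nd (nat_lit 78) (PT.lf (nat_lit 22040) (nat_lit 3) (nat_lit 290) (nat_lit 3) (nat_lit 128) (nat_lit 128) (nat_lit 134)) (PT.lf (nat_lit 22420) (nat_lit 6) (nat_lit 295) (nat_lit 3) (nat_lit 129) (nat_lit 128) (nat_lit 133)))) (PT.nd (nat_lit 156) (PT.nd (nat_lit 78) (PT.lf (nat_lit 22724) (nat_lit 6) (nat_lit 299) (nat_lit 3)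 (nat_lit 130) (nat_lit 128) (nat_lit 132)) (PT.lf (nat_lit 22800) (nat_lit 3) (nat_lit 300) (nat_lit 1) (nat_lit 131) (nat_lit 128) (nat_lit 131))) (PT.nd (nat_lit 78) (PT.lf (nat_lit 22724) (nat_lit 6) (nat_lit 299) (nat_lit 1) (nat_lit 132) (nat_lit 128) (nat_lit 130)) (PT.lf (nat_lit 22420) (nat_lit 6) (nat_lit 295) (nat_lit 1) (nat_lit 133) (nat_lit 128) (nat_lit 129))))) (PT.nd (nat_lit 234) (PT.nd (nat_lit 78) (PT.lf (nat_lit 22040) (nat_lit 3) (nat_lit 290) (nat_lit 0) (nat_lit 134) (nat_lit 128) (nat_lit 128)) (PT.nd (nat_lit 78) (PT.lf (nat_lit 21660) (nat_lit 6) (nat_lit 285) (nat_lit 0) (nat_lit 135) (nat_lit 128) (nat_lit 127)) (PT.lf (nat_lit 21204) (nat_lit 6) (nat_lit 279) (nat_lit 0) (nat_lit 136) (nat_lit 128) (nat_lit 126)))) (PT.nd (nat_lit 156) (PT.nd (nat_lit 78) (PT.lf (nat_lit 20672) (nat_lit 6) (nat_lit 272) (nat_lit 0) (nat_lit 137) (nat_lit 128) (nat_lit 125)) (PT.lf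 (nat_lit 20064) (nat_lit 6) (nat_lit 264) (nat_lit 0) (nat_lit 138) (nat_lit 128) (nat_lit 124))) (PT.nd (nat_lit 78) (PT.lf (nat_lit 19380) (nat_lit 6) (nat_lit 255) (nat_lit 0) (nat_lit 139) (nat_lit 128) (nat_lit 123)) (PT.lf (nat_lit 18620) (nat_lit 6) (nat_lit 245) (nat_lit 0) (nat_lit 140) (nat_lit 128) (nat_lit 122))))))))
noncomputable def pc12 : PT := (PT.nd (nat_lit 40326) (PT.nd (nat_lit 39312) (PT.nd (nat_lit 38766) (PT.nd (nat_lit 234) (PT.nd (nat_lit 78) (PT.lf (nat_lit 17784) (nat_lit 6) (nat_lit 234) (nat_lit 0) (nat_lit 141) (nat_lit 128) (nat_lit 121)) (PT.nd (nat_lit 78) (PT.lf (nat_lit 16872) (nat_lit 6) (nat_lit 222) (nat_lit 0) (nat_lit 142) (nat_lit 128) (nat_lit 120)) (PT.lf (nat_lit 15884) (nat_lit 6) (nat_lit 209) (nat_lit 0) (nat_lit 143) (nat_lit 128) (nat_lit 119)))) (PT.nd (nat_lit 78) (PT.lf (nat_lit 14820) (nat_lit 6) (nat_lit 195) (nat_lit 0) (nat_lit 144) (nat_lit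 128) (nat_lit 118)) (PT.nd (nat_lit 38376) (PT.lf (nat_lit 13680) (nat_lit 6) (nat_lit 180) (nat_lit 0) (nat_lit 145) (nat_lit 128) (nat_lit 117)) (PT.lf (nat_lit 13756) (nat_lit 6) (nat_lit 181) (nat_lit 5) (nat_lit 116) (nat_lit 129) (nat_lit 145))))) (PT.nd (nat_lit 234) (PT.nd (nat_lit 78) (PT.lf (nat_lit 14896) (nat_lit 6) (nat_lit 196) (nat_lit 5) (nat_lit 117) (nat_lit 129) (nat_lit 144)) (PT.nd (nat_lit 78) (PT.lf (nat_lit 15960) (nat_lit 6) (nat_lit 210) (nat_lit 5) (nat_lit 118) (nat_lit 129) (nat_lit 143)) (PT.lf (nat_lit 16948) (nat_lit 6) (nat_lit 223) (nat_lit 5) (nat_lit 119) (nat_lit 129) (nat_lit 142)))) (PT.nd (nat_lit 156) (PT.nd (nat_lit 78) (PT.lf (nat_lit 17860) (nat_lit 6) (nat_lit 235) (nat_lit 5) (nat_lit 120) (nat_lit 129) (nat_lit 141)) (PT.lf (nat_lit 18696) (nat_lit 6) (nat_lit 246) (nat_lit 5) (nat_lit 121) (nat_lit 129) (nat_lit 140))) (PT.nd (nat_lit 78) (PT.lf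 (nat_lit 19456) (nat_lit 6) (nat_lit 256) (nat_lit 5) (nat_lit 122) (nat_lit 129) (nat_lit 139)) (PT.lf (nat_lit 20140) (nat_lit 6) (nat_lit 265) (nat_lit 5) (nat_lit 123) (nat_lit 129) (nat_lit 138)))))) (PT.nd (nat_lit 468) (PT.nd (nat_lit 234) (PT.nd (nat_lit 78) (PT.lf (nat_lit 20748) (nat_lit 6) (nat_lit 273) (nat_lit 5) (nat_lit 124) (nat_lit 129) (nat_lit 137)) (PT.nd (nat_lit 78) (PT.lf (nat_lit 21280) (nat_lit 6) (nat_lit 280) (nat_lit 5) (nat_lit 125) (nat_lit 129) (nat_lit 136)) (PT.lf (nat_lit 21736) (nat_lit 6) (nat_lit 286) (nat_lit 5) (nat_lit 126) (nat_lit 129) (nat_lit 135)))) (PT.nd (nat_lit 78) (PT.lf (nat_lit 22116) (nat_lit 6) (nat_lit 291) (nat_lit 5) (nat_lit 127) (nat_lit 129) (nat_lit 134)) (PT.nd (nat_lit 78) (PT.lf (nat_lit 22420) (nat_lit 6) (nat_lit 295) (nat_lit 5) (nat_lit 128) (nat_lit 129) (nat_lit 133)) (PT.lf (nat_lit 22648) (nat_lit 3) (nat_lit 298) (nat_lit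 3) (nat_lit 129) (nat_lit 129) (nat_lit 132))))) (PT.nd (nat_lit 234) (PT.nd (nat_lit 78) (PT.lf (nat_lit 22876) (nat_lit 6) (nat_lit 301) (nat_lit 3) (nat_lit 130) (nat_lit 129) (nat_lit 131)) (PT.nd (nat_lit 78) (PT.lf (nat_lit 22876) (nat_lit 6) (nat_lit 301) (nat_lit 1) (nat_lit 131) (nat_lit 129) (nat_lit 130)) (PT.lf (nat_lit 22648) (nat_lit 3) (nat_lit 298) (nat_lit 0) (nat_lit 132) (nat_lit 129) (nat_lit 129)))) (PT.nd (nat_lit 156) (PT.nd (nat_lit 78) (PT.lf (nat_lit 22420) (nat_lit 6) (nat_lit 295) (nat_lit 0) (nat_lit 133) (nat_lit 129) (nat_lit 128)) (PT.lf (nat_lit 22116) (nat_lit 6) (nat_lit 291) (nat_lit 0) (nat_lit 134) (nat_lit 129) (nat_lit 127))) (PT.nd (nat_lit 78) (PT.lf (nat_lit 21736) (nat_lit 6) (nat_lit 286) (nat_lit 0) (nat_lit 135) (nat_lit 129) (nat_lit 126)) (PT.lf (nat_lit 21280) (nat_lit 6) (nat_lit 280) (nat_lit 0) (nat_lit 136) (nat_lit 129) (nat_lit 125)))))))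 (PT.nd (nat_lit 39234) (PT.nd (nat_lit 468) (PT.nd (nat_lit 234) (PT.nd (nat_lit 78) (PT.lf (nat_lit 20748) (nat_lit 6) (nat_lit 273) (nat_lit 0) (nat_lit 137) (nat_lit 129) (nat_lit 124)) (PT.nd (nat_lit 78) (PT.lf (nat_lit 20140) (nat_lit 6) (nat_lit 265) (nat_lit 0) (nat_lit 138) (nat_lit 129) (nat_lit 123)) (PT.lf (nat_lit 19456) (nat_lit 6) (nat_lit 256) (nat_lit 0) (nat_lit 139) (nat_lit 129) (nat_lit 122)))) (PT.nd (nat_lit 78) (PT.lf (nat_lit 18696) (nat_lit 6) (nat_lit 246) (nat_lit 0) (nat_lit 140) (nat_lit 129) (nat_lit 121)) (PT.nd (nat_lit 78) (PT.lf (nat_lit 17860) (nat_lit 6) (nat_lit 235) (nat_lit 0) (nat_lit 141) (nat_lit 129) (nat_lit 120)) (PT.lf (nat_lit 16948) (nat_lit 6) (nat_lit 223) (nat_lit 0) (nat_lit 142) (nat_lit 129) (nat_lit 119))))) (PT.nd (nat_lit 38454) (PT.nd (nat_lit 78) (PT.lf (nat_lit 15960) (nat_lit 6) (nat_lit 210) (nat_lit 0) (nat_lit 143) (nat_lit 129)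 (nat_lit 118)) (PT.nd (nat_lit 78) (PT.lf (nat_lit 14896) (nat_lit 6) (nat_lit 196) (nat_lit 0) (nat_lit 144) (nat_lit 129) (nat_lit 117)) (PT.lf (nat_lit 13756) (nat_lit 6) (nat_lit 181) (nat_lit 0) (nat_lit 145) (nat_lit 129) (nat_lit 116)))) (PT.nd (nat_lit 156) (PT.nd (nat_lit 78) (PT.lf (nat_lit 13832) (nat_lit 6) (nat_lit 182) (nat_lit 5) (nat_lit 115) (nat_lit 130) (nat_lit 145)) (PT.lf (nat_lit 14972) (nat_lit 6) (nat_lit 197) (nat_lit 5) (nat_lit 116) (nat_lit 130) (nat_lit 144))) (PT.nd (nat_lit 78) (PT.lf (nat_lit 16036) (nat_lit 6) (nat_lit 211) (nat_lit 5) (nat_lit 117) (nat_lit 130) (nat_lit 143)) (PT.lf (nat_lit 17024) (nat_lit 6) (nat_lit 224) (nat_lit 5) (nat_lit 118) (nat_lit 130) (nat_lit 142)))))) (PT.nd (nat_lit 546) (PT.nd (nat_lit 234) (PT.nd (nat_lit 78) (PT.lf (nat_lit 17936) (nat_lit 6) (nat_lit 236) (nat_lit 5) (nat_lit 119) (nat_lit 130) (nat_lit 141)) (PT.nd (nat_lit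 78) (PT.lf (nat_lit 18772) (nat_lit 6) (nat_lit 247) (nat_lit 5) (nat_lit 120) (nat_lit 130) (nat_lit 140)) (PT.lf (nat_lit 19532) (nat_lit 6) (nat_lit 257) (nat_lit 5) (nat_lit 121) (nat_lit 130) (nat_lit 139)))) (PT.nd (nat_lit 156) (PT.nd (nat_lit 78) (PT.lf (nat_lit 20216) (nat_lit 6) (nat_lit 266) (nat_lit 5) (nat_lit 122) (nat_lit 130) (nat_lit 138)) (PT.lf (nat_lit 20824) (nat_lit 6) (nat_lit 274) (nat_lit 5) (nat_lit 123) (nat_lit 130) (nat_lit 137))) (PT.nd (nat_lit 78) (PT.lf (nat_lit 21356) (nat_lit 6) (nat_lit 281) (nat_lit 5) (nat_lit 124) (nat_lit 130) (nat_lit 136)) (PT.lf (nat_lit 21812) (nat_lit 6) (nat_lit 287) (nat_lit 5) (nat_lit 125) (nat_lit 130) (nat_lit 135))))) (PT.nd (nat_lit 234) (PT.nd (nat_lit 78) (PT.lf (nat_lit 22192) (nat_lit 6) (nat_lit 292) (nat_lit 5) (nat_lit 126) (nat_lit 130) (nat_lit 134)) (PT.nd (nat_lit 78) (PT.lf (nat_lit 22496) (nat_lit 6) (nat_lit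 296) (nat_lit 5) (nat_lit 127) (nat_lit 130) (nat_lit 133)) (PT.lf (nat_lit 22724) (nat_lit 6) (nat_lit 299) (nat_lit 5) (nat_lit 128) (nat_lit 130) (nat_lit 132)))) (PT.nd (nat_lit 156) (PT.nd (nat_lit 78) (PT.lf (nat_lit 22876) (nat_lit 6) (nat_lit 301) (nat_lit 5) (nat_lit 129) (nat_lit 130) (nat_lit 131)) (PT.lf (nat_lit 22952) (nat_lit 1) (nat_lit 302) (nat_lit 0) (nat_lit 130) (nat_lit 130) (nat_lit 130))) (PT.nd (nat_lit 78) (PT.lf (nat_lit 22876) (nat_lit 6) (nat_lit 301) (nat_lit 0) (nat_lit 131) (nat_lit 130) (nat_lit 129)) (PT.lf (nat_lit 22724) (nat_lit 6) (nat_lit 299) (nat_lit 0) (nat_lit 132) (nat_lit 130) (nat_lit 128))))))))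
noncomputable def pc13 : PT := (PT.nd (nat_lit 40092) (PT.nd (nat_lit 39078) (PT.nd (nat_lit 468) (PT.nd (nat_lit 234) (PT.nd (nat_lit 78) (PT.lf (nat_lit 22496) (nat_lit 6) (nat_lit 296) (nat_lit 0) (nat_lit 133) (nat_lit 130) (nat_lit 127)) (PT.nd (nat_lit 78) (PT.lf (nat_lit 22192) (nat_lit 6) (nat_lit 292) (nat_lit 0) (nat_lit 134) (nat_lit 130) (nat_lit 126)) (PT.lf (nat_lit 21812) (nat_lit 6) (nat_lit 287) (nat_lit 0) (nat_lit 135) (nat_lit 130) (nat_lit 125)))) (PT.nd (nat_lit 78) (PT.lf (nat_lit 21356) (nat_lit 6) (nat_lit 281) (nat_lit 0) (nat_lit 136) (nat_lit 130) (nat_lit 124)) (PT.nd (nat_lit 78) (PT.lf (nat_lit 20824) (nat_lit 6) (nat_lit 274) (nat_lit 0) (nat_lit 137) (nat_lit 130) (nat_lit 123)) (PT.lf (nat_lit 20216) (nat_lit 6) (nat_lit 266) (nat_lit 0) (nat_lit 138) (nat_lit 130) (nat_lit 122))))) (PT.nd (nat_lit 234) (PT.nd (nat_lit 78) (PT.lf (nat_lit 19532) (nat_lit 6)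 (nat_lit 257) (nat_lit 0) (nat_lit 139) (nat_lit 130) (nat_lit 121)) (PT.nd (nat_lit 78) (PT.lf (nat_lit 18772) (nat_lit 6) (nat_lit 247) (nat_lit 0) (nat_lit 140) (nat_lit 130) (nat_lit 120)) (PT.lf (nat_lit 17936) (nat_lit 6) (nat_lit 236) (nat_lit 0) (nat_lit 141) (nat_lit 130) (nat_lit 119)))) (PT.nd (nat_lit 156) (PT.nd (nat_lit 78) (PT.lf (nat_lit 17024) (nat_lit 6) (nat_lit 224) (nat_lit 0) (nat_lit 142) (nat_lit 130) (nat_lit 118)) (PT.lf (nat_lit 16036) (nat_lit 6) (nat_lit 211) (nat_lit 0) (nat_lit 143) (nat_lit 130) (nat_lit 117))) (PT.nd (nat_lit 78) (PT.lf (nat_lit 14972) (nat_lit 6) (nat_lit 197) (nat_lit 0) (nat_lit 144) (nat_lit 130) (nat_lit 116)) (PT.lf (nat_lit 13832) (nat_lit 6) (nat_lit 182) (nat_lit 0) (nat_lit 145) (nat_lit 130) (nat_lit 115)))))) (PT.nd (nat_lit 468) (PT.nd (nat_lit 234) (PT.nd (nat_lit 78) (PT.lf (nat_lit 12084) (nat_lit 6) (nat_lit 159) (nat_lit 5)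 (nat_lit 113) (nat_lit 131) (nat_lit 146)) (PT.nd (nat_lit 78) (PT.lf (nat_lit 12692) (nat_lit 6) (nat_lit 167) (nat_lit 5) (nat_lit 114) (nat_lit 131) (nat_lit 145)) (PT.lf (nat_lit 13908) (nat_lit 6) (nat_lit 183) (nat_lit 5) (nat_lit 115) (nat_lit 131) (nat_lit 144)))) (PT.nd (nat_lit 78) (PT.lf (nat_lit 15048) (nat_lit 6) (nat_lit 198) (nat_lit 5) (nat_lit 116) (nat_lit 131) (nat_lit 143)) (PT.nd (nat_lit 78) (PT.lf (nat_lit 16112) (nat_lit 6) (nat_lit 212) (nat_lit 5) (nat_lit 117) (nat_lit 131) (nat_lit 142)) (PT.lf (nat_lit 17100) (nat_lit 6) (nat_lit 225) (nat_lit 5) (nat_lit 118) (nat_lit 131) (nat_lit 141))))) (PT.nd (nat_lit 234) (PT.nd (nat_lit 78) (PT.lf (nat_lit 18012) (nat_lit 6) (nat_lit 237) (nat_lit 5) (nat_lit 119) (nat_lit 131) (nat_lit 140)) (PT.nd (nat_lit 78) (PT.lf (nat_lit 18848) (nat_lit 6) (nat_lit 248) (nat_lit 5) (nat_lit 120) (nat_lit 131) (nat_lit 139)) (PT.lf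 (nat_lit 19608) (nat_lit 6) (nat_lit 258) (nat_lit 5) (nat_lit 121) (nat_lit 131) (nat_lit 138)))) (PT.nd (nat_lit 156) (PT.nd (nat_lit 78) (PT.lf (nat_lit 20292) (nat_lit 6) (nat_lit 267) (nat_lit 5) (nat_lit 122) (nat_lit 131) (nat_lit 137)) (PT.lf (nat_lit 20900) (nat_lit 6) (nat_lit 275) (nat_lit 5) (nat_lit 123) (nat_lit 131) (nat_lit 136))) (PT.nd (nat_lit 78) (PT.lf (nat_lit 21432) (nat_lit 6) (nat_lit 282) (nat_lit 5) (nat_lit 124) (nat_lit 131) (nat_lit 135)) (PT.lf (nat_lit 21888) (nat_lit 6) (nat_lit 288) (nat_lit 5) (nat_lit 125) (nat_lit 131) (nat_lit 134))))))) (PT.nd (nat_lit 1014) (PT.nd (nat_lit 468) (PT.nd (nat_lit 234) (PT.nd (nat_lit 78) (PT.lf (nat_lit 22268) (nat_lit 6) (nat_lit 293) (nat_lit 5) (nat_lit 126) (nat_lit 131) (nat_lit 133)) (PT.nd (nat_lit 78) (PT.lf (nat_lit 22572) (nat_lit 6) (nat_lit 297) (nat_lit 5) (nat_lit 127) (nat_lit 131) (nat_lit 132)) (PT.lf (nat_lit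 22800) (nat_lit 3) (nat_lit 300) (nat_lit 4) (nat_lit 128) (nat_lit 131) (nat_lit 131)))) (PT.nd (nat_lit 78) (PT.lf (nat_lit 22876) (nat_lit 6) (nat_lit 301) (nat_lit 4) (nat_lit 129) (nat_lit 131) (nat_lit 130)) (PT.nd (nat_lit 78) (PT.lf (nat_lit 22876) (nat_lit 6) (nat_lit 301) (nat_lit 2) (nat_lit 130) (nat_lit 131) (nat_lit 129)) (PT.lf (nat_lit 22800) (nat_lit 3) (nat_lit 300) (nat_lit 0) (nat_lit 131) (nat_lit 131) (nat_lit 128))))) (PT.nd (nat_lit 234) (PT.nd (nat_lit 78) (PT.lf (nat_lit 22572) (nat_lit 6) (nat_lit 297) (nat_lit 0) (nat_lit 132) (nat_lit 131) (nat_lit 127)) (PT.nd (nat_lit 78) (PT.lf (nat_lit 22268) (nat_lit 6) (nat_lit 293) (nat_lit 0) (nat_lit 133) (nat_lit 131) (nat_lit 126)) (PT.lf (nat_lit 21888) (nat_lit 6) (nat_lit 288) (nat_lit 0) (nat_lit 134) (nat_lit 131) (nat_lit 125)))) (PT.nd (nat_lit 156) (PT.nd (nat_lit 78) (PT.lf (nat_lit 21432) (nat_lit 6) (nat_lit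 282) (nat_lit 0) (nat_lit 135) (nat_lit 131) (nat_lit 124)) (PT.lf (nat_lit 20900) (nat_lit 6) (nat_lit 275) (nat_lit 0) (nat_lit 136) (nat_lit 131) (nat_lit 123))) (PT.nd (nat_lit 78) (PT.lf (nat_lit 20292) (nat_lit 6) (nat_lit 267) (nat_lit 0) (nat_lit 137) (nat_lit 131) (nat_lit 122)) (PT.lf (nat_lit 19608) (nat_lit 6) (nat_lit 258) (nat_lit 0) (nat_lit 138) (nat_lit 131) (nat_lit 121)))))) (PT.nd (nat_lit 546) (PT.nd (nat_lit 234) (PT.nd (nat_lit 78) (PT.lf (nat_lit 18848) (nat_lit 6) (nat_lit 248) (nat_lit 0) (nat_lit 139) (nat_lit 131) (nat_lit 120)) (PT.nd (nat_lit 78) (PT.lf (nat_lit 18012) (nat_lit 6) (nat_lit 237) (nat_lit 0) (nat_lit 140) (nat_lit 131) (nat_lit 119)) (PT.lf (nat_lit 17100) (nat_lit 6) (nat_lit 225) (nat_lit 0) (nat_lit 141) (nat_lit 131) (nat_lit 118)))) (PT.nd (nat_lit 156) (PT.nd (nat_lit 78) (PT.lf (nat_lit 16112) (nat_lit 6) (nat_lit 212) (nat_lit 0) (nat_lit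 142) (nat_lit 131) (nat_lit 117)) (PT.lf (nat_lit 15048) (nat_lit 6) (nat_lit 198) (nat_lit 0) (nat_lit 143) (nat_lit 131) (nat_lit 116))) (PT.nd (nat_lit 78) (PT.lf (nat_lit 13908) (nat_lit 6) (nat_lit 183) (nat_lit 0) (nat_lit 144) (nat_lit 131) (nat_lit 115)) (PT.lf (nat_lit 12692) (nat_lit 6) (nat_lit 167) (nat_lit 0) (nat_lit 145) (nat_lit 131) (nat_lit 114))))) (PT.nd (nat_lit 38142) (PT.nd (nat_lit 37986) (PT.lf (nat_lit 12084) (nat_lit 6) (nat_lit 159) (nat_lit 0) (nat_lit 146) (nat_lit 131) (nat_lit 113)) (PT.nd (nat_lit 78) (PT.lf (nat_lit 11476) (nat_lit 6) (nat_lit 151) (nat_lit 5) (nat_lit 112) (nat_lit 132) (nat_lit 146)) (PT.lf (nat_lit 12160) (nat_lit 6) (nat_lit 160) (nat_lit 5) (nat_lit 113) (nat_lit 132) (nat_lit 145)))) (PT.nd (nat_lit 156) (PT.nd (nat_lit 78) (PT.lf (nat_lit 12768) (nat_lit 6) (nat_lit 168) (nat_lit 5) (nat_lit 114) (nat_lit 132) (nat_lit 144)) (PT.lf (nat_lit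 13984) (nat_lit 6) (nat_lit 184) (nat_lit 5) (nat_lit 115) (nat_lit 132) (nat_lit 143))) (PT.nd (nat_lit 78) (PT.lf (nat_lit 15124) (nat_lit 6) (nat_lit 199) (nat_lit 5) (nat_lit 116) (nat_lit 132) (nat_lit 142)) (PT.lf (nat_lit 16188) (nat_lit 6) (nat_lit 213) (nat_lit 5) (nat_lit 117) (nat_lit 132) (nat_lit 141))))))))
noncomputable def pc14 : PT := (PT.nd (nat_lit 2028) (PT.nd (nat_lit 1014) (PT.nd (nat_lit 468) (PT.nd (nat_lit 234) (PT.nd (nat_lit 78) (PT.lf (nat_lit 17176) (nat_lit 6) (nat_lit 226) (nat_lit 5) (nat_lit 118) (nat_lit 132) (nat_lit 140)) (PT.nd (nat_lit 78) (PT.lf (nat_lit 18088) (nat_lit 6) (nat_lit 238) (nat_lit 5) (nat_lit 119) (nat_lit 132) (nat_lit 139)) (PT.lf (nat_lit 18924) (nat_lit 6) (nat_lit 249) (nat_lit 5) (nat_lit 120) (nat_lit 132) (nat_lit 138)))) (PT.nd (nat_lit 78) (PT.lf (nat_lit 19684) (nat_lit 6) (nat_lit 259) (nat_lit 5) (nat_lit 121) (nat_lit 132) (nat_lit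 137)) (PT.nd (nat_lit 78) (PT.lf (nat_lit 20368) (nat_lit 6) (nat_lit 268) (nat_lit 5) (nat_lit 122) (nat_lit 132) (nat_lit 136)) (PT.lf (nat_lit 20976) (nat_lit 6) (nat_lit 276) (nat_lit 5) (nat_lit 123) (nat_lit 132) (nat_lit 135))))) (PT.nd (nat_lit 234) (PT.nd (nat_lit 78) (PT.lf (nat_lit 21508) (nat_lit 6) (nat_lit 283) (nat_lit 5) (nat_lit 124) (nat_lit 132) (nat_lit 134)) (PT.nd (nat_lit 78) (PT.lf (nat_lit 21964) (nat_lit 6) (nat_lit 289) (nat_lit 5) (nat_lit 125) (nat_lit 132) (nat_lit 133)) (PT.lf (nat_lit 22344) (nat_lit 3) (nat_lit 294) (nat_lit 4) (nat_lit 126) (nat_lit 132) (nat_lit 132)))) (PT.nd (nat_lit 156) (PT.nd (nat_lit 78) (PT.lf (nat_lit 22572) (nat_lit 6) (nat_lit 297) (nat_lit 4) (nat_lit 127) (nat_lit 132) (nat_lit 131)) (PT.lf (nat_lit 22724) (nat_lit 6) (nat_lit 299) (nat_lit 4) (nat_lit 128) (nat_lit 132) (nat_lit 130))) (PT.nd (nat_lit 78) (PT.lf (nat_lit 22648)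 (nat_lit 3) (nat_lit 298) (nat_lit 2) (nat_lit 129) (nat_lit 132) (nat_lit 129)) (PT.lf (nat_lit 22724) (nat_lit 6) (nat_lit 299) (nat_lit 2) (nat_lit 130) (nat_lit 132) (nat_lit 128)))))) (PT.nd (nat_lit 468) (PT.nd (nat_lit 234) (PT.nd (nat_lit 78) (PT.lf (nat_lit 22572) (nat_lit 6) (nat_lit 297) (nat_lit 2) (nat_lit 131) (nat_lit 132) (nat_lit 127)) (PT.nd (nat_lit 78) (PT.lf (nat_lit 22344) (nat_lit 3) (nat_lit 294) (nat_lit 0) (nat_lit 132) (nat_lit 132) (nat_lit 126)) (PT.lf (nat_lit 21964) (nat_lit 6) (nat_lit 289) (nat_lit 0) (nat_lit 133) (nat_lit 132) (nat_lit 125)))) (PT.nd (nat_lit 78) (PT.lf (nat_lit 21508) (nat_lit 6) (nat_lit 283) (nat_lit 0) (nat_lit 134) (nat_lit 132) (nat_lit 124)) (PT.nd (nat_lit 78) (PT.lf (nat_lit 20976) (nat_lit 6) (nat_lit 276) (nat_lit 0) (nat_lit 135) (nat_lit 132) (nat_lit 123)) (PT.lf (nat_lit 20368) (nat_lit 6) (nat_lit 268) (nat_lit 0) (nat_lit 136)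 (nat_lit 132) (nat_lit 122))))) (PT.nd (nat_lit 234) (PT.nd (nat_lit 78) (PT.lf (nat_lit 19684) (nat_lit 6) (nat_lit 259) (nat_lit 0) (nat_lit 137) (nat_lit 132) (nat_lit 121)) (PT.nd (nat_lit 78) (PT.lf (nat_lit 18924) (nat_lit 6) (nat_lit 249) (nat_lit 0) (nat_lit 138) (nat_lit 132) (nat_lit 120)) (PT.lf (nat_lit 18088) (nat_lit 6) (nat_lit 238) (nat_lit 0) (nat_lit 139) (nat_lit 132) (nat_lit 119)))) (PT.nd (nat_lit 156) (PT.nd (nat_lit 78) (PT.lf (nat_lit 17176) (nat_lit 6) (nat_lit 226) (nat_lit 0) (nat_lit 140) (nat_lit 132) (nat_lit 118)) (PT.lf (nat_lit 16188) (nat_lit 6) (nat_lit 213) (nat_lit 0) (nat_lit 141) (nat_lit 132) (nat_lit 117))) (PT.nd (nat_lit 78) (PT.lf (nat_lit 15124) (nat_lit 6) (nat_lit 199) (nat_lit 0) (nat_lit 142) (nat_lit 132) (nat_lit 116)) (PT.lf (nat_lit 13984) (nat_lit 6) (nat_lit 184) (nat_lit 0) (nat_lit 143) (nat_lit 132) (nat_lit 115))))))) (PT.nd (nat_lit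 38844) (PT.nd (nat_lit 38298) (PT.nd (nat_lit 38064) (PT.nd (nat_lit 78) (PT.lf (nat_lit 12768) (nat_lit 6) (nat_lit 168) (nat_lit 0) (nat_lit 144) (nat_lit 132) (nat_lit 114)) (PT.nd (nat_lit 78) (PT.lf (nat_lit 12160) (nat_lit 6) (nat_lit 160) (nat_lit 0) (nat_lit 145) (nat_lit 132) (nat_lit 113)) (PT.lf (nat_lit 11476) (nat_lit 6) (nat_lit 151) (nat_lit 0) (nat_lit 146) (nat_lit 132) (nat_lit 112)))) (PT.nd (nat_lit 78) (PT.lf (nat_lit 10944) (nat_lit 6) (nat_lit 144) (nat_lit 5) (nat_lit 111) (nat_lit 133) (nat_lit 146)) (PT.nd (nat_lit 78) (PT.lf (nat_lit 11552) (nat_lit 6) (nat_lit 152) (nat_lit 5) (nat_lit 112) (nat_lit 133) (nat_lit 145)) (PT.lf (nat_lit 12236) (nat_lit 6) (nat_lit 161) (nat_lit 5) (nat_lit 113) (nat_lit 133) (nat_lit 144))))) (PT.nd (nat_lit 234) (PT.nd (nat_lit 78) (PT.lf (nat_lit 12844) (nat_lit 6) (nat_lit 169) (nat_lit 5) (nat_lit 114) (nat_lit 133) (nat_lit 143))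 (PT.nd (nat_lit 78) (PT.lf (nat_lit 14060) (nat_lit 6) (nat_lit 185) (nat_lit 5) (nat_lit 115) (nat_lit 133) (nat_lit 142)) (PT.lf (nat_lit 15200) (nat_lit 6) (nat_lit 200) (nat_lit 5) (nat_lit 116) (nat_lit 133) (nat_lit 141)))) (PT.nd (nat_lit 156) (PT.nd (nat_lit 78) (PT.lf (nat_lit 16264) (nat_lit 6) (nat_lit 214) (nat_lit 5) (nat_lit 117) (nat_lit 133) (nat_lit 140)) (PT.lf (nat_lit 17252) (nat_lit 6) (nat_lit 227) (nat_lit 5) (nat_lit 118) (nat_lit 133) (nat_lit 139))) (PT.nd (nat_lit 78) (PT.lf (nat_lit 18164) (nat_lit 6) (nat_lit 239) (nat_lit 5) (nat_lit 119) (nat_lit 133) (nat_lit 138)) (PT.lf (nat_lit 19000) (nat_lit 6) (nat_lit 250) (nat_lit 5) (nat_lit 120) (nat_lit 133) (nat_lit 137)))))) (PT.nd (nat_lit 546) (PT.nd (nat_lit 234) (PT.nd (nat_lit 78) (PT.lf (nat_lit 19760) (nat_lit 6) (nat_lit 260) (nat_lit 5) (nat_lit 121) (nat_lit 133) (nat_lit 136)) (PT.nd (nat_lit 78) (PT.lf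 (nat_lit 20444) (nat_lit 6) (nat_lit 269) (nat_lit 5) (nat_lit 122) (nat_lit 133) (nat_lit 135)) (PT.lf (nat_lit 21052) (nat_lit 6) (nat_lit 277) (nat_lit 5) (nat_lit 123) (nat_lit 133) (nat_lit 134)))) (PT.nd (nat_lit 156) (PT.nd (nat_lit 78) (PT.lf (nat_lit 21584) (nat_lit 3) (nat_lit 284) (nat_lit 4) (nat_lit 124) (nat_lit 133) (nat_lit 133)) (PT.lf (nat_lit 21964) (nat_lit 6) (nat_lit 289) (nat_lit 4) (nat_lit 125) (nat_lit 133) (nat_lit 132))) (PT.nd (nat_lit 78) (PT.lf (nat_lit 22268) (nat_lit 6) (nat_lit 293) (nat_lit 4) (nat_lit 126) (nat_lit 133) (nat_lit 131)) (PT.lf (nat_lit 22496) (nat_lit 6) (nat_lit 296) (nat_lit 4) (nat_lit 127) (nat_lit 133) (nat_lit 130))))) (PT.nd (nat_lit 234) (PT.nd (nat_lit 78) (PT.lf (nat_lit 22420) (nat_lit 6) (nat_lit 295) (nat_lit 4) (nat_lit 128) (nat_lit 133) (nat_lit 129)) (PT.nd (nat_lit 78) (PT.lf (nat_lit 22420) (nat_lit 6) (nat_lit 295) (nat_lit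 2) (nat_lit 129) (nat_lit 133) (nat_lit 128)) (PT.lf (nat_lit 22496) (nat_lit 6) (nat_lit 296) (nat_lit 2) (nat_lit 130) (nat_lit 133) (nat_lit 127)))) (PT.nd (nat_lit 156) (PT.nd (nat_lit 78) (PT.lf (nat_lit 22268) (nat_lit 6) (nat_lit 293) (nat_lit 2) (nat_lit 131) (nat_lit 133) (nat_lit 126)) (PT.lf (nat_lit 21964) (nat_lit 6) (nat_lit 289) (nat_lit 2) (nat_lit 132) (nat_lit 133) (nat_lit 125))) (PT.nd (nat_lit 78) (PT.lf (nat_lit 21584) (nat_lit 3) (nat_lit 284) (nat_lit 0) (nat_lit 133) (nat_lit 133) (nat_lit 124)) (PT.lf (nat_lit 21052) (nat_lit 6) (nat_lit 277) (nat_lit 0) (nat_lit 134) (nat_lit 133) (nat_lit 123))))))))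
noncomputable def pc15 : PT := (PT.nd (nat_lit 39780) (PT.nd (nat_lit 38766) (PT.nd (nat_lit 468) (PT.nd (nat_lit 234) (PT.nd (nat_lit 78) (PT.lf (nat_lit 20444) (nat_lit 6) (nat_lit 269) (nat_lit 0) (nat_lit 135) (nat_lit 133) (nat_lit 122)) (PT.nd (nat_lit 78) (PT.lf (nat_lit 19760) (nat_lit 6) (nat_lit 260) (nat_lit 0) (nat_lit 136) (nat_lit 133) (nat_lit 121)) (PT.lf (nat_lit 19000) (nat_lit 6) (nat_lit 250) (nat_lit 0) (nat_lit 137) (nat_lit 133) (nat_lit 120)))) (PT.nd (nat_lit 78) (PT.lf (nat_lit 18164) (nat_lit 6) (nat_lit 239) (nat_lit 0) (nat_lit 138) (nat_lit 133) (nat_lit 119)) (PT.nd (nat_lit 78) (PT.lf (nat_lit 17252) (nat_lit 6) (nat_lit 227) (nat_lit 0) (nat_lit 139) (nat_lit 133) (nat_lit 118)) (PT.lf (nat_lit 16264) (nat_lit 6) (nat_lit 214) (nat_lit 0) (nat_lit 140) (nat_lit 133) (nat_lit 117))))) (PT.nd (nat_lit 234) (PT.nd (nat_lit 78) (PT.lf (nat_lit 15200) (nat_lit 6)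 (nat_lit 200) (nat_lit 0) (nat_lit 141) (nat_lit 133) (nat_lit 116)) (PT.nd (nat_lit 78) (PT.lf (nat_lit 14060) (nat_lit 6) (nat_lit 185) (nat_lit 0) (nat_lit 142) (nat_lit 133) (nat_lit 115)) (PT.lf (nat_lit 12844) (nat_lit 6) (nat_lit 169) (nat_lit 0) (nat_lit 143) (nat_lit 133) (nat_lit 114)))) (PT.nd (nat_lit 156) (PT.nd (nat_lit 78) (PT.lf (nat_lit 12236) (nat_lit 6) (nat_lit 161) (nat_lit 0) (nat_lit 144) (nat_lit 133) (nat_lit 113)) (PT.lf (nat_lit 11552) (nat_lit 6) (nat_lit 152) (nat_lit 0) (nat_lit 145) (nat_lit 133) (nat_lit 112))) (PT.nd (nat_lit 37830) (PT.lf (nat_lit 10944) (nat_lit 6) (nat_lit 144) (nat_lit 0) (nat_lit 146) (nat_lit 133) (nat_lit 111)) (PT.lf (nat_lit 10412) (nat_lit 6) (nat_lit 137) (nat_lit 5) (nat_lit 110) (nat_lit 134) (nat_lit 146)))))) (PT.nd (nat_lit 468) (PT.nd (nat_lit 234) (PT.nd (nat_lit 78) (PT.lf (nat_lit 11020) (nat_lit 6) (nat_lit 145) (nat_lit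 5) (nat_lit 111) (nat_lit 134) (nat_lit 145)) (PT.nd (nat_lit 78) (PT.lf (nat_lit 11628) (nat_lit 6) (nat_lit 153) (nat_lit 5) (nat_lit 112) (nat_lit 134) (nat_lit 144)) (PT.lf (nat_lit 12312) (nat_lit 6) (nat_lit 162) (nat_lit 5) (nat_lit 113) (nat_lit 134) (nat_lit 143)))) (PT.nd (nat_lit 78) (PT.lf (nat_lit 12920) (nat_lit 6) (nat_lit 170) (nat_lit 5) (nat_lit 114) (nat_lit 134) (nat_lit 142)) (PT.nd (nat_lit 78) (PT.lf (nat_lit 14136) (nat_lit 6) (nat_lit 186) (nat_lit 5) (nat_lit 115) (nat_lit 134) (nat_lit 141)) (PT.lf (nat_lit 15276) (nat_lit 6) (nat_lit 201) (nat_lit 5) (nat_lit 116) (nat_lit 134) (nat_lit 140))))) (PT.nd (nat_lit 234) (PT.nd (nat_lit 78) (PT.lf (nat_lit 16340) (nat_lit 6) (nat_lit 215) (nat_lit 5) (nat_lit 117) (nat_lit 134) (nat_lit 139)) (PT.nd (nat_lit 78) (PT.lf (nat_lit 17328) (nat_lit 6) (nat_lit 228) (nat_lit 5) (nat_lit 118) (nat_lit 134) (nat_lit 138)) (PT.lf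 (nat_lit 18240) (nat_lit 6) (nat_lit 240) (nat_lit 5) (nat_lit 119) (nat_lit 134) (nat_lit 137)))) (PT.nd (nat_lit 156) (PT.nd (nat_lit 78) (PT.lf (nat_lit 19076) (nat_lit 6) (nat_lit 251) (nat_lit 5) (nat_lit 120) (nat_lit 134) (nat_lit 136)) (PT.lf (nat_lit 19836) (nat_lit 6) (nat_lit 261) (nat_lit 5) (nat_lit 121) (nat_lit 134) (nat_lit 135))) (PT.nd (nat_lit 78) (PT.lf (nat_lit 20520) (nat_lit 3) (nat_lit 270) (nat_lit 4) (nat_lit 122) (nat_lit 134) (nat_lit 134)) (PT.lf (nat_lit 21052) (nat_lit 6) (nat_lit 277) (nat_lit 4) (nat_lit 123) (nat_lit 134) (nat_lit 133))))))) (PT.nd (nat_lit 1014) (PT.nd (nat_lit 468) (PT.nd (nat_lit 234) (PT.nd (nat_lit 78) (PT.lf (nat_lit 21508) (nat_lit 6) (nat_lit 283) (nat_lit 4) (nat_lit 124) (nat_lit 134) (nat_lit 132)) (PT.nd (nat_lit 78) (PT.lf (nat_lit 21888) (nat_lit 6) (nat_lit 288) (nat_lit 4) (nat_lit 125) (nat_lit 134) (nat_lit 131)) (PT.lf (nat_lit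 22192) (nat_lit 6) (nat_lit 292) (nat_lit 4) (nat_lit 126) (nat_lit 134) (nat_lit 130)))) (PT.nd (nat_lit 78) (PT.lf (nat_lit 22116) (nat_lit 6) (nat_lit 291) (nat_lit 4) (nat_lit 127) (nat_lit 134) (nat_lit 129)) (PT.nd (nat_lit 78) (PT.lf (nat_lit 22040) (nat_lit 3) (nat_lit 290) (nat_lit 2) (nat_lit 128) (nat_lit 134) (nat_lit 128)) (PT.lf (nat_lit 22116) (nat_lit 6) (nat_lit 291) (nat_lit 2) (nat_lit 129) (nat_lit 134) (nat_lit 127))))) (PT.nd (nat_lit 234) (PT.nd (nat_lit 78) (PT.lf (nat_lit 22192) (nat_lit 6) (nat_lit 292) (nat_lit 2) (nat_lit 130) (nat_lit 134) (nat_lit 126)) (PT.nd (nat_lit 78) (PT.lf (nat_lit 21888) (nat_lit 6) (nat_lit 288) (nat_lit 2) (nat_lit 131) (nat_lit 134) (nat_lit 125)) (PT.lf (nat_lit 21508) (nat_lit 6) (nat_lit 283) (nat_lit 2) (nat_lit 132) (nat_lit 134) (nat_lit 124)))) (PT.nd (nat_lit 156) (PT.nd (nat_lit 78) (PT.lf (nat_lit 21052) (nat_lit 6) (nat_lit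 277) (nat_lit 2) (nat_lit 133) (nat_lit 134) (nat_lit 123)) (PT.lf (nat_lit 20520) (nat_lit 3) (nat_lit 270) (nat_lit 0) (nat_lit 134) (nat_lit 134) (nat_lit 122))) (PT.nd (nat_lit 78) (PT.lf (nat_lit 19836) (nat_lit 6) (nat_lit 261) (nat_lit 0) (nat_lit 135) (nat_lit 134) (nat_lit 121)) (PT.lf (nat_lit 19076) (nat_lit 6) (nat_lit 251) (nat_lit 0) (nat_lit 136) (nat_lit 134) (nat_lit 120)))))) (PT.nd (nat_lit 546) (PT.nd (nat_lit 234) (PT.nd (nat_lit 78) (PT.lf (nat_lit 18240) (nat_lit 6) (nat_lit 240) (nat_lit 0) (nat_lit 137) (nat_lit 134) (nat_lit 119)) (PT.nd (nat_lit 78) (PT.lf (nat_lit 17328) (nat_lit 6) (nat_lit 228) (nat_lit 0) (nat_lit 138) (nat_lit 134) (nat_lit 118)) (PT.lf (nat_lit 16340) (nat_lit 6) (nat_lit 215) (nat_lit 0) (nat_lit 139) (nat_lit 134) (nat_lit 117)))) (PT.nd (nat_lit 156) (PT.nd (nat_lit 78) (PT.lf (nat_lit 15276) (nat_lit 6) (nat_lit 201) (nat_lit 0) (nat_lit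 140) (nat_lit 134) (nat_lit 116)) (PT.lf (nat_lit 14136) (nat_lit 6) (nat_lit 186) (nat_lit 0) (nat_lit 141) (nat_lit 134) (nat_lit 115))) (PT.nd (nat_lit 78) (PT.lf (nat_lit 12920) (nat_lit 6) (nat_lit 170) (nat_lit 0) (nat_lit 142) (nat_lit 134) (nat_lit 114)) (PT.lf (nat_lit 12312) (nat_lit 6) (nat_lit 162) (nat_lit 0) (nat_lit 143) (nat_lit 134) (nat_lit 113))))) (PT.nd (nat_lit 37830) (PT.nd (nat_lit 78) (PT.lf (nat_lit 11628) (nat_lit 6) (nat_lit 153) (nat_lit 0) (nat_lit 144) (nat_lit 134) (nat_lit 112)) (PT.nd (nat_lit 78) (PT.lf (nat_lit 11020) (nat_lit 6) (nat_lit 145) (nat_lit 0) (nat_lit 145) (nat_lit 134) (nat_lit 111)) (PT.lf (nat_lit 10412) (nat_lit 6) (nat_lit 137) (nat_lit 0) (nat_lit 146) (nat_lit 134) (nat_lit 110)))) (PT.nd (nat_lit 156) (PT.nd (nat_lit 78) (PT.lf (nat_lit 9424) (nat_lit 6) (nat_lit 124) (nat_lit 5) (nat_lit 108) (nat_lit 135) (nat_lit 147)) (PT.lf (nat_lit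 9956) (nat_lit 6) (nat_lit 131) (nat_lit 5) (nat_lit 109) (nat_lit 135) (nat_lit 146))) (PT.nd (nat_lit 78) (PT.lf (nat_lit 10488) (nat_lit 6) (nat_lit 138) (nat_lit 5) (nat_lit 110) (nat_lit 135) (nat_lit 145)) (PT.lf (nat_lit 11096) (nat_lit 6) (nat_lit 146) (nat_lit 5) (nat_lit 111) (nat_lit 135) (nat_lit 144))))))))
noncomputable def pc16 : PT := (PT.nd (nat_lit 2028) (PT.nd (nat_lit 1014) (PT.nd (nat_lit 468) (PT.nd (nat_lit 234) (PT.nd (nat_lit 78) (PT.lf (nat_lit 11704) (nat_lit 6) (nat_lit 154) (nat_lit 5) (nat_lit 112) (nat_lit 135) (nat_lit 143)) (PT.nd (nat_lit 78) (PT.lf (nat_lit 12388) (nat_lit 6) (nat_lit 163) (nat_lit 5) (nat_lit 113) (nat_lit 135) (nat_lit 142)) (PT.lf (nat_lit 12996) (nat_lit 6) (nat_lit 171) (nat_lit 5) (nat_lit 114) (nat_lit 135) (nat_lit 141)))) (PT.nd (nat_lit 78) (PT.lf (nat_lit 14212) (nat_lit 6) (nat_lit 187) (nat_lit 5) (nat_lit 115) (nat_lit 135) (nat_lit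 140)) (PT.nd (nat_lit 78) (PT.lf (nat_lit 15352) (nat_lit 6) (nat_lit 202) (nat_lit 5) (nat_lit 116) (nat_lit 135) (nat_lit 139)) (PT.lf (nat_lit 16416) (nat_lit 6) (nat_lit 216) (nat_lit 5) (nat_lit 117) (nat_lit 135) (nat_lit 138))))) (PT.nd (nat_lit 234) (PT.nd (nat_lit 78) (PT.lf (nat_lit 17404) (nat_lit 6) (nat_lit 229) (nat_lit 5) (nat_lit 118) (nat_lit 135) (nat_lit 137)) (PT.nd (nat_lit 78) (PT.lf (nat_lit 18316) (nat_lit 6) (nat_lit 241) (nat_lit 5) (nat_lit 119) (nat_lit 135) (nat_lit 136)) (PT.lf (nat_lit 19152) (nat_lit 3) (nat_lit 252) (nat_lit 4) (nat_lit 120) (nat_lit 135) (nat_lit 135)))) (PT.nd (nat_lit 156) (PT.nd (nat_lit 78) (PT.lf (nat_lit 19836) (nat_lit 6) (nat_lit 261) (nat_lit 4) (nat_lit 121) (nat_lit 135) (nat_lit 134)) (PT.lf (nat_lit 20444) (nat_lit 6) (nat_lit 269) (nat_lit 4) (nat_lit 122) (nat_lit 135) (nat_lit 133))) (PT.nd (nat_lit 78) (PT.lf (nat_lit 20976)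 (nat_lit 6) (nat_lit 276) (nat_lit 4) (nat_lit 123) (nat_lit 135) (nat_lit 132)) (PT.lf (nat_lit 21432) (nat_lit 6) (nat_lit 282) (nat_lit 4) (nat_lit 124) (nat_lit 135) (nat_lit 131)))))) (PT.nd (nat_lit 468) (PT.nd (nat_lit 234) (PT.nd (nat_lit 78) (PT.lf (nat_lit 21812) (nat_lit 6) (nat_lit 287) (nat_lit 4) (nat_lit 125) (nat_lit 135) (nat_lit 130)) (PT.nd (nat_lit 78) (PT.lf (nat_lit 21736) (nat_lit 6) (nat_lit 286) (nat_lit 4) (nat_lit 126) (nat_lit 135) (nat_lit 129)) (PT.lf (nat_lit 21660) (nat_lit 6) (nat_lit 285) (nat_lit 4) (nat_lit 127) (nat_lit 135) (nat_lit 128)))) (PT.nd (nat_lit 78) (PT.lf (nat_lit 21660) (nat_lit 6) (nat_lit 285) (nat_lit 2) (nat_lit 128) (nat_lit 135) (nat_lit 127)) (PT.nd (nat_lit 78) (PT.lf (nat_lit 21736) (nat_lit 6) (nat_lit 286) (nat_lit 2) (nat_lit 129) (nat_lit 135) (nat_lit 126)) (PT.lf (nat_lit 21812) (nat_lit 6) (nat_lit 287) (nat_lit 2) (nat_lit 130)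 (nat_lit 135) (nat_lit 125))))) (PT.nd (nat_lit 234) (PT.nd (nat_lit 78) (PT.lf (nat_lit 21432) (nat_lit 6) (nat_lit 282) (nat_lit 2) (nat_lit 131) (nat_lit 135) (nat_lit 124)) (PT.nd (nat_lit 78) (PT.lf (nat_lit 20976) (nat_lit 6) (nat_lit 276) (nat_lit 2) (nat_lit 132) (nat_lit 135) (nat_lit 123)) (PT.lf (nat_lit 20444) (nat_lit 6) (nat_lit 269) (nat_lit 2) (nat_lit 133) (nat_lit 135) (nat_lit 122)))) (PT.nd (nat_lit 156) (PT.nd (nat_lit 78) (PT.lf (nat_lit 19836) (nat_lit 6) (nat_lit 261) (nat_lit 2) (nat_lit 134) (nat_lit 135) (nat_lit 121)) (PT.lf (nat_lit 19152) (nat_lit 3) (nat_lit 252) (nat_lit 0) (nat_lit 135) (nat_lit 135) (nat_lit 120))) (PT.nd (nat_lit 78) (PT.lf (nat_lit 18316) (nat_lit 6) (nat_lit 241) (nat_lit 0) (nat_lit 136) (nat_lit 135) (nat_lit 119)) (PT.lf (nat_lit 17404) (nat_lit 6) (nat_lit 229) (nat_lit 0) (nat_lit 137) (nat_lit 135) (nat_lit 118))))))) (PT.nd (nat_lit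 38454) (PT.nd (nat_lit 468) (PT.nd (nat_lit 234) (PT.nd (nat_lit 78) (PT.lf (nat_lit 16416) (nat_lit 6) (nat_lit 216) (nat_lit 0) (nat_lit 138) (nat_lit 135) (nat_lit 117)) (PT.nd (nat_lit 78) (PT.lf (nat_lit 15352) (nat_lit 6) (nat_lit 202) (nat_lit 0) (nat_lit 139) (nat_lit 135) (nat_lit 116)) (PT.lf (nat_lit 14212) (nat_lit 6) (nat_lit 187) (nat_lit 0) (nat_lit 140) (nat_lit 135) (nat_lit 115)))) (PT.nd (nat_lit 78) (PT.lf (nat_lit 12996) (nat_lit 6) (nat_lit 171) (nat_lit 0) (nat_lit 141) (nat_lit 135) (nat_lit 114)) (PT.nd (nat_lit 78) (PT.lf (nat_lit 12388) (nat_lit 6) (nat_lit 163) (nat_lit 0) (nat_lit 142) (nat_lit 135) (nat_lit 113)) (PT.lf (nat_lit 11704) (nat_lit 6) (nat_lit 154) (nat_lit 0) (nat_lit 143) (nat_lit 135) (nat_lit 112))))) (PT.nd (nat_lit 234) (PT.nd (nat_lit 78) (PT.lf (nat_lit 11096) (nat_lit 6) (nat_lit 146) (nat_lit 0) (nat_lit 144) (nat_lit 135) (nat_lit 111)) (PT.nd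 (nat_lit 78) (PT.lf (nat_lit 10488) (nat_lit 6) (nat_lit 138) (nat_lit 0) (nat_lit 145) (nat_lit 135) (nat_lit 110)) (PT.lf (nat_lit 9956) (nat_lit 6) (nat_lit 131) (nat_lit 0) (nat_lit 146) (nat_lit 135) (nat_lit 109)))) (PT.nd (nat_lit 37596) (PT.nd (nat_lit 37518) (PT.lf (nat_lit 9424) (nat_lit 6) (nat_lit 124) (nat_lit 0) (nat_lit 147) (nat_lit 135) (nat_lit 108)) (PT.lf (nat_lit 8968) (nat_lit 6) (nat_lit 118) (nat_lit 5) (nat_lit 107) (nat_lit 136) (nat_lit 147))) (PT.nd (nat_lit 78) (PT.lf (nat_lit 9500) (nat_lit 6) (nat_lit 125) (nat_lit 5) (nat_lit 108) (nat_lit 136) (nat_lit 146)) (PT.lf (nat_lit 10032) (nat_lit 6) (nat_lit 132) (nat_lit 5) (nat_lit 109) (nat_lit 136) (nat_lit 145)))))) (PT.nd (nat_lit 468) (PT.nd (nat_lit 234) (PT.nd (nat_lit 78) (PT.lf (nat_lit 10564) (nat_lit 6) (nat_lit 139) (nat_lit 5) (nat_lit 110) (nat_lit 136) (nat_lit 144)) (PT.nd (nat_lit 78) (PT.lf (nat_lit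 11172) (nat_lit 6) (nat_lit 147) (nat_lit 5) (nat_lit 111) (nat_lit 136) (nat_lit 143)) (PT.lf (nat_lit 11780) (nat_lit 6) (nat_lit 155) (nat_lit 5) (nat_lit 112) (nat_lit 136) (nat_lit 142)))) (PT.nd (nat_lit 78) (PT.lf (nat_lit 12464) (nat_lit 6) (nat_lit 164) (nat_lit 5) (nat_lit 113) (nat_lit 136) (nat_lit 141)) (PT.nd (nat_lit 78) (PT.lf (nat_lit 13072) (nat_lit 6) (nat_lit 172) (nat_lit 5) (nat_lit 114) (nat_lit 136) (nat_lit 140)) (PT.lf (nat_lit 14288) (nat_lit 6) (nat_lit 188) (nat_lit 5) (nat_lit 115) (nat_lit 136) (nat_lit 139))))) (PT.nd (nat_lit 234) (PT.nd (nat_lit 78) (PT.lf (nat_lit 15428) (nat_lit 6) (nat_lit 203) (nat_lit 5) (nat_lit 116) (nat_lit 136) (nat_lit 138)) (PT.nd (nat_lit 78) (PT.lf (nat_lit 16492) (nat_lit 6) (nat_lit 217) (nat_lit 5) (nat_lit 117) (nat_lit 136) (nat_lit 137)) (PT.lf (nat_lit 17480) (nat_lit 3) (nat_lit 230) (nat_lit 4) (nat_lit 118) (nat_lit 136)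 (nat_lit 136)))) (PT.nd (nat_lit 156) (PT.nd (nat_lit 78) (PT.lf (nat_lit 18316) (nat_lit 6) (nat_lit 241) (nat_lit 4) (nat_lit 119) (nat_lit 136) (nat_lit 135)) (PT.lf (nat_lit 19076) (nat_lit 6) (nat_lit 251) (nat_lit 4) (nat_lit 120) (nat_lit 136) (nat_lit 134))) (PT.nd (nat_lit 78) (PT.lf (nat_lit 19760) (nat_lit 6) (nat_lit 260) (nat_lit 4) (nat_lit 121) (nat_lit 136) (nat_lit 133)) (PT.lf (nat_lit 20368) (nat_lit 6) (nat_lit 268) (nat_lit 4) (nat_lit 122) (nat_lit 136) (nat_lit 132))))))))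
noncomputable def pc17 : PT := (PT.nd (nat_lit 39390) (PT.nd (nat_lit 1014) (PT.nd (nat_lit 468) (PT.nd (nat_lit 234) (PT.nd (nat_lit 78) (PT.lf (nat_lit 20900) (nat_lit 6) (nat_lit 275) (nat_lit 4) (nat_lit 123) (nat_lit 136) (nat_lit 131)) (PT.nd (nat_lit 78) (PT.lf (nat_lit 21356) (nat_lit 6) (nat_lit 281) (nat_lit 4) (nat_lit 124) (nat_lit 136) (nat_lit 130)) (PT.lf (nat_lit 21280) (nat_lit 6) (nat_lit 280) (nat_lit 4) (nat_lit 125) (nat_lit 136) (nat_lit 129)))) (PT.nd (nat_lit 78) (PT.lf (nat_lit 21204) (nat_lit 6) (nat_lit 279) (nat_lit 4) (nat_lit 126) (nat_lit 136) (nat_lit 128)) (PT.nd (nat_lit 78) (PT.lf (nat_lit 21128) (nat_lit 3) (nat_lit 278) (nat_lit 2) (nat_lit 127) (nat_lit 136) (nat_lit 127)) (PT.lf (nat_lit 21204) (nat_lit 6) (nat_lit 279) (nat_lit 2) (nat_lit 128) (nat_lit 136) (nat_lit 126))))) (PT.nd (nat_lit 234) (PT.nd (nat_lit 78) (PT.lf (nat_lit 21280) (nat_lit 6) (nat_lit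 280) (nat_lit 2) (nat_lit 129) (nat_lit 136) (nat_lit 125)) (PT.nd (nat_lit 78) (PT.lf (nat_lit 21356) (nat_lit 6) (nat_lit 281) (nat_lit 2) (nat_lit 130) (nat_lit 136) (nat_lit 124)) (PT.lf (nat_lit 20900) (nat_lit 6) (nat_lit 275) (nat_lit 2) (nat_lit 131) (nat_lit 136) (nat_lit 123)))) (PT.nd (nat_lit 156) (PT.nd (nat_lit 78) (PT.lf (nat_lit 20368) (nat_lit 6) (nat_lit 268) (nat_lit 2) (nat_lit 132) (nat_lit 136) (nat_lit 122)) (PT.lf (nat_lit 19760) (nat_lit 6) (nat_lit 260) (nat_lit 2) (nat_lit 133) (nat_lit 136) (nat_lit 121))) (PT.nd (nat_lit 78) (PT.lf (nat_lit 19076) (nat_lit 6) (nat_lit 251) (nat_lit 2) (nat_lit 134) (nat_lit 136) (nat_lit 120)) (PT.lf (nat_lit 18316) (nat_lit 6) (nat_lit 241) (nat_lit 2) (nat_lit 135) (nat_lit 136) (nat_lit 119)))))) (PT.nd (nat_lit 468) (PT.nd (nat_lit 234) (PT.nd (nat_lit 78) (PT.lf (nat_lit 17480) (nat_lit 3) (nat_lit 230) (nat_lit 0) (nat_lit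 136) (nat_lit 136) (nat_lit 118)) (PT.nd (nat_lit 78) (PT.lf (nat_lit 16492) (nat_lit 6) (nat_lit 217) (nat_lit 0) (nat_lit 137) (nat_lit 136) (nat_lit 117)) (PT.lf (nat_lit 15428) (nat_lit 6) (nat_lit 203) (nat_lit 0) (nat_lit 138) (nat_lit 136) (nat_lit 116)))) (PT.nd (nat_lit 78) (PT.lf (nat_lit 14288) (nat_lit 6) (nat_lit 188) (nat_lit 0) (nat_lit 139) (nat_lit 136) (nat_lit 115)) (PT.nd (nat_lit 78) (PT.lf (nat_lit 13072) (nat_lit 6) (nat_lit 172) (nat_lit 0) (nat_lit 140) (nat_lit 136) (nat_lit 114)) (PT.lf (nat_lit 12464) (nat_lit 6) (nat_lit 164) (nat_lit 0) (nat_lit 141) (nat_lit 136) (nat_lit 113))))) (PT.nd (nat_lit 234) (PT.nd (nat_lit 78) (PT.lf (nat_lit 11780) (nat_lit 6) (nat_lit 155) (nat_lit 0) (nat_lit 142) (nat_lit 136) (nat_lit 112)) (PT.nd (nat_lit 78) (PT.lf (nat_lit 11172) (nat_lit 6) (nat_lit 147) (nat_lit 0) (nat_lit 143) (nat_lit 136) (nat_lit 111)) (PT.lf (nat_lit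 10564) (nat_lit 6) (nat_lit 139) (nat_lit 0) (nat_lit 144) (nat_lit 136) (nat_lit 110)))) (PT.nd (nat_lit 156) (PT.nd (nat_lit 78) (PT.lf (nat_lit 10032) (nat_lit 6) (nat_lit 132) (nat_lit 0) (nat_lit 145) (nat_lit 136) (nat_lit 109)) (PT.lf (nat_lit 9500) (nat_lit 6) (nat_lit 125) (nat_lit 0) (nat_lit 146) (nat_lit 136) (nat_lit 108))) (PT.nd (nat_lit 37440) (PT.lf (nat_lit 8968) (nat_lit 6) (nat_lit 118) (nat_lit 0) (nat_lit 147) (nat_lit 136) (nat_lit 107)) (PT.lf (nat_lit 8512) (nat_lit 6) (nat_lit 112) (nat_lit 5) (nat_lit 106) (nat_lit 137) (nat_lit 147))))))) (PT.nd (nat_lit 1014) (PT.nd (nat_lit 468) (PT.nd (nat_lit 234) (PT.nd (nat_lit 78) (PT.lf (nat_lit 9044) (nat_lit 6) (nat_lit 119) (nat_lit 5) (nat_lit 107) (nat_lit 137) (nat_lit 146)) (PT.nd (nat_lit 78) (PT.lf (nat_lit 9576) (nat_lit 6) (nat_lit 126) (nat_lit 5) (nat_lit 108) (nat_lit 137) (nat_lit 145)) (PT.lf (nat_lit 10108)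 (nat_lit 6) (nat_lit 133) (nat_lit 5) (nat_lit 109) (nat_lit 137) (nat_lit 144)))) (PT.nd (nat_lit 78) (PT.lf (nat_lit 10640) (nat_lit 6) (nat_lit 140) (nat_lit 5) (nat_lit 110) (nat_lit 137) (nat_lit 143)) (PT.nd (nat_lit 78) (PT.lf (nat_lit 11248) (nat_lit 6) (nat_lit 148) (nat_lit 5) (nat_lit 111) (nat_lit 137) (nat_lit 142)) (PT.lf (nat_lit 11856) (nat_lit 6) (nat_lit 156) (nat_lit 5) (nat_lit 112) (nat_lit 137) (nat_lit 141))))) (PT.nd (nat_lit 234) (PT.nd (nat_lit 78) (PT.lf (nat_lit 12540) (nat_lit 6) (nat_lit 165) (nat_lit 5) (nat_lit 113) (nat_lit 137) (nat_lit 140)) (PT.nd (nat_lit 78) (PT.lf (nat_lit 13148) (nat_lit 6) (nat_lit 173) (nat_lit 5) (nat_lit 114) (nat_lit 137) (nat_lit 139)) (PT.lf (nat_lit 14364) (nat_lit 6) (nat_lit 189) (nat_lit 5) (nat_lit 115) (nat_lit 137) (nat_lit 138)))) (PT.nd (nat_lit 156) (PT.nd (nat_lit 78) (PT.lf (nat_lit 15504) (nat_lit 3) (nat_lit 204) (nat_lit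 4) (nat_lit 116) (nat_lit 137) (nat_lit 137)) (PT.lf (nat_lit 16492) (nat_lit 6) (nat_lit 217) (nat_lit 4) (nat_lit 117) (nat_lit 137) (nat_lit 136))) (PT.nd (nat_lit 78) (PT.lf (nat_lit 17404) (nat_lit 6) (nat_lit 229) (nat_lit 4) (nat_lit 118) (nat_lit 137) (nat_lit 135)) (PT.lf (nat_lit 18240) (nat_lit 6) (nat_lit 240) (nat_lit 4) (nat_lit 119) (nat_lit 137) (nat_lit 134)))))) (PT.nd (nat_lit 546) (PT.nd (nat_lit 234) (PT.nd (nat_lit 78) (PT.lf (nat_lit 19000) (nat_lit 6) (nat_lit 250) (nat_lit 4) (nat_lit 120) (nat_lit 137) (nat_lit 133)) (PT.nd (nat_lit 78) (PT.lf (nat_lit 19684) (nat_lit 6) (nat_lit 259) (nat_lit 4) (nat_lit 121) (nat_lit 137) (nat_lit 132)) (PT.lf (nat_lit 20292) (nat_lit 6) (nat_lit 267) (nat_lit 4) (nat_lit 122) (nat_lit 137) (nat_lit 131)))) (PT.nd (nat_lit 156) (PT.nd (nat_lit 78) (PT.lf (nat_lit 20824) (nat_lit 6) (nat_lit 274) (nat_lit 4) (nat_lit 123) (nat_lit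 137) (nat_lit 130)) (PT.lf (nat_lit 20748) (nat_lit 6) (nat_lit 273) (nat_lit 4) (nat_lit 124) (nat_lit 137) (nat_lit 129))) (PT.nd (nat_lit 78) (PT.lf (nat_lit 20672) (nat_lit 6) (nat_lit 272) (nat_lit 4) (nat_lit 125) (nat_lit 137) (nat_lit 128)) (PT.lf (nat_lit 20596) (nat_lit 6) (nat_lit 271) (nat_lit 4) (nat_lit 126) (nat_lit 137) (nat_lit 127))))) (PT.nd (nat_lit 234) (PT.nd (nat_lit 78) (PT.lf (nat_lit 20596) (nat_lit 6) (nat_lit 271) (nat_lit 2) (nat_lit 127) (nat_lit 137) (nat_lit 126)) (PT.nd (nat_lit 78) (PT.lf (nat_lit 20672) (nat_lit 6) (nat_lit 272) (nat_lit 2) (nat_lit 128) (nat_lit 137) (nat_lit 125)) (PT.lf (nat_lit 20748) (nat_lit 6) (nat_lit 273) (nat_lit 2) (nat_lit 129) (nat_lit 137) (nat_lit 124)))) (PT.nd (nat_lit 156) (PT.nd (nat_lit 78) (PT.lf (nat_lit 20824) (nat_lit 6) (nat_lit 274) (nat_lit 2) (nat_lit 130) (nat_lit 137) (nat_lit 123)) (PT.lf (nat_lit 20292) (nat_lit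 6) (nat_lit 267) (nat_lit 2) (nat_lit 131) (nat_lit 137) (nat_lit 122))) (PT.nd (nat_lit 78) (PT.lf (nat_lit 19684) (nat_lit 6) (nat_lit 259) (nat_lit 2) (nat_lit 132) (nat_lit 137) (nat_lit 121)) (PT.lf (nat_lit 19000) (nat_lit 6) (nat_lit 250) (nat_lit 2) (nat_lit 133) (nat_lit 137) (nat_lit 120))))))))
noncomputable def pc18 : PT := (PT.nd (nat_lit 39234) (PT.nd (nat_lit 1014) (PT.nd (nat_lit 468) (PT.nd (nat_lit 234) (PT.nd (nat_lit 78) (PT.lf (nat_lit 18240) (nat_lit 6) (nat_lit 240) (nat_lit 2) (nat_lit 134) (nat_lit 137) (nat_lit 119)) (PT.nd (nat_lit 78) (PT.lf (nat_lit 17404) (nat_lit 6) (nat_lit 229) (nat_lit 2) (nat_lit 135) (nat_lit 137) (nat_lit 118)) (PT.lf (nat_lit 16492) (nat_lit 6) (nat_lit 217) (nat_lit 2) (nat_lit 136) (nat_lit 137) (nat_lit 117)))) (PT.nd (nat_lit 78) (PT.lf (nat_lit 15504) (nat_lit 3) (nat_lit 204) (nat_lit 0) (nat_lit 137) (nat_lit 137) (nat_lit 116)) (PT.nd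 (nat_lit 78) (PT.lf (nat_lit 14364) (nat_lit 6) (nat_lit 189) (nat_lit 0) (nat_lit 138) (nat_lit 137) (nat_lit 115)) (PT.lf (nat_lit 13148) (nat_lit 6) (nat_lit 173) (nat_lit 0) (nat_lit 139) (nat_lit 137) (nat_lit 114))))) (PT.nd (nat_lit 234) (PT.nd (nat_lit 78) (PT.lf (nat_lit 12540) (nat_lit 6) (nat_lit 165) (nat_lit 0) (nat_lit 140) (nat_lit 137) (nat_lit 113)) (PT.nd (nat_lit 78) (PT.lf (nat_lit 11856) (nat_lit 6) (nat_lit 156) (nat_lit 0) (nat_lit 141) (nat_lit 137) (nat_lit 112)) (PT.lf (nat_lit 11248) (nat_lit 6) (nat_lit 148) (nat_lit 0) (nat_lit 142) (nat_lit 137) (nat_lit 111)))) (PT.nd (nat_lit 156) (PT.nd (nat_lit 78) (PT.lf (nat_lit 10640) (nat_lit 6) (nat_lit 140) (nat_lit 0) (nat_lit 143) (nat_lit 137) (nat_lit 110)) (PT.lf (nat_lit 10108) (nat_lit 6) (nat_lit 133) (nat_lit 0) (nat_lit 144) (nat_lit 137) (nat_lit 109))) (PT.nd (nat_lit 78) (PT.lf (nat_lit 9576) (nat_lit 6) (nat_lit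 126) (nat_lit 0) (nat_lit 145) (nat_lit 137) (nat_lit 108)) (PT.lf (nat_lit 9044) (nat_lit 6) (nat_lit 119) (nat_lit 0) (nat_lit 146) (nat_lit 137) (nat_lit 107)))))) (PT.nd (nat_lit 37674) (PT.nd (nat_lit 37440) (PT.nd (nat_lit 37284) (PT.lf (nat_lit 8512) (nat_lit 6) (nat_lit 112) (nat_lit 0) (nat_lit 147) (nat_lit 137) (nat_lit 106)) (PT.nd (nat_lit 78) (PT.lf (nat_lit 7676) (nat_lit 6) (nat_lit 101) (nat_lit 5) (nat_lit 104) (nat_lit 138) (nat_lit 148)) (PT.lf (nat_lit 8132) (nat_lit 6) (nat_lit 107) (nat_lit 5) (nat_lit 105) (nat_lit 138) (nat_lit 147)))) (PT.nd (nat_lit 78) (PT.lf (nat_lit 8588) (nat_lit 6) (nat_lit 113) (nat_lit 5) (nat_lit 106) (nat_lit 138) (nat_lit 146)) (PT.nd (nat_lit 78) (PT.lf (nat_lit 9120) (nat_lit 6) (nat_lit 120) (nat_lit 5) (nat_lit 107) (nat_lit 138) (nat_lit 145)) (PT.lf (nat_lit 9652) (nat_lit 6) (nat_lit 127) (nat_lit 5) (nat_lit 108) (nat_lit 138) (nat_lit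 144))))) (PT.nd (nat_lit 234) (PT.nd (nat_lit 78) (PT.lf (nat_lit 10184) (nat_lit 6) (nat_lit 134) (nat_lit 5) (nat_lit 109) (nat_lit 138) (nat_lit 143)) (PT.nd (nat_lit 78) (PT.lf (nat_lit 10716) (nat_lit 6) (nat_lit 141) (nat_lit 5) (nat_lit 110) (nat_lit 138) (nat_lit 142)) (PT.lf (nat_lit 11324) (nat_lit 6) (nat_lit 149) (nat_lit 5) (nat_lit 111) (nat_lit 138) (nat_lit 141)))) (PT.nd (nat_lit 156) (PT.nd (nat_lit 78) (PT.lf (nat_lit 11932) (nat_lit 6) (nat_lit 157) (nat_lit 5) (nat_lit 112) (nat_lit 138) (nat_lit 140)) (PT.lf (nat_lit 12616) (nat_lit 6) (nat_lit 166) (nat_lit 5) (nat_lit 113) (nat_lit 138) (nat_lit 139))) (PT.nd (nat_lit 78) (PT.lf (nat_lit 13224) (nat_lit 3) (nat_lit 174) (nat_lit 4) (nat_lit 114) (nat_lit 138) (nat_lit 138)) (PT.lf (nat_lit 14364) (nat_lit 6) (nat_lit 189) (nat_lit 4) (nat_lit 115) (nat_lit 138) (nat_lit 137))))))) (PT.nd (nat_lit 1014) (PT.nd (nat_lit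 468) (PT.nd (nat_lit 234) (PT.nd (nat_lit 78) (PT.lf (nat_lit 15428) (nat_lit 6) (nat_lit 203) (nat_lit 4) (nat_lit 116) (nat_lit 138) (nat_lit 136)) (PT.nd (nat_lit 78) (PT.lf (nat_lit 16416) (nat_lit 6) (nat_lit 216) (nat_lit 4) (nat_lit 117) (nat_lit 138) (nat_lit 135)) (PT.lf (nat_lit 17328) (nat_lit 6) (nat_lit 228) (nat_lit 4) (nat_lit 118) (nat_lit 138) (nat_lit 134)))) (PT.nd (nat_lit 78) (PT.lf (nat_lit 18164) (nat_lit 6) (nat_lit 239) (nat_lit 4) (nat_lit 119) (nat_lit 138) (nat_lit 133)) (PT.nd (nat_lit 78) (PT.lf (nat_lit 18924) (nat_lit 6) (nat_lit 249) (nat_lit 4) (nat_lit 120) (nat_lit 138) (nat_lit 132)) (PT.lf (nat_lit 19608) (nat_lit 6) (nat_lit 258) (nat_lit 4) (nat_lit 121) (nat_lit 138) (nat_lit 131))))) (PT.nd (nat_lit 234) (PT.nd (nat_lit 78) (PT.lf (nat_lit 20216) (nat_lit 6) (nat_lit 266) (nat_lit 4) (nat_lit 122) (nat_lit 138) (nat_lit 130)) (PT.nd (nat_lit 78) (PT.lf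 (nat_lit 20140) (nat_lit 6) (nat_lit 265) (nat_lit 4) (nat_lit 123) (nat_lit 138) (nat_lit 129)) (PT.lf (nat_lit 20064) (nat_lit 6) (nat_lit 264) (nat_lit 4) (nat_lit 124) (nat_lit 138) (nat_lit 128)))) (PT.nd (nat_lit 156) (PT.nd (nat_lit 78) (PT.lf (nat_lit 19988) (nat_lit 6) (nat_lit 263) (nat_lit 4) (nat_lit 125) (nat_lit 138) (nat_lit 127)) (PT.lf (nat_lit 19912) (nat_lit 3) (nat_lit 262) (nat_lit 2) (nat_lit 126) (nat_lit 138) (nat_lit 126))) (PT.nd (nat_lit 78) (PT.lf (nat_lit 19988) (nat_lit 6) (nat_lit 263) (nat_lit 2) (nat_lit 127) (nat_lit 138) (nat_lit 125)) (PT.lf (nat_lit 20064) (nat_lit 6) (nat_lit 264) (nat_lit 2) (nat_lit 128) (nat_lit 138) (nat_lit 124)))))) (PT.nd (nat_lit 546) (PT.nd (nat_lit 234) (PT.nd (nat_lit 78) (PT.lf (nat_lit 20140) (nat_lit 6) (nat_lit 265) (nat_lit 2) (nat_lit 129) (nat_lit 138) (nat_lit 123)) (PT.nd (nat_lit 78) (PT.lf (nat_lit 20216) (nat_lit 6)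 (nat_lit 266) (nat_lit 2) (nat_lit 130) (nat_lit 138) (nat_lit 122)) (PT.lf (nat_lit 19608) (nat_lit 6) (nat_lit 258) (nat_lit 2) (nat_lit 131) (nat_lit 138) (nat_lit 121)))) (PT.nd (nat_lit 156) (PT.nd (nat_lit 78) (PT.lf (nat_lit 18924) (nat_lit 6) (nat_lit 249) (nat_lit 2) (nat_lit 132) (nat_lit 138) (nat_lit 120)) (PT.lf (nat_lit 18164) (nat_lit 6) (nat_lit 239) (nat_lit 2) (nat_lit 133) (nat_lit 138) (nat_lit 119))) (PT.nd (nat_lit 78) (PT.lf (nat_lit 17328) (nat_lit 6) (nat_lit 228) (nat_lit 2) (nat_lit 134) (nat_lit 138) (nat_lit 118)) (PT.lf (nat_lit 16416) (nat_lit 6) (nat_lit 216) (nat_lit 2) (nat_lit 135) (nat_lit 138) (nat_lit 117))))) (PT.nd (nat_lit 234) (PT.nd (nat_lit 78) (PT.lf (nat_lit 15428) (nat_lit 6) (nat_lit 203) (nat_lit 2) (nat_lit 136) (nat_lit 138) (nat_lit 116)) (PT.nd (nat_lit 78) (PT.lf (nat_lit 14364) (nat_lit 6) (nat_lit 189) (nat_lit 2) (nat_lit 137) (nat_lit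 138) (nat_lit 115)) (PT.lf (nat_lit 13224) (nat_lit 3) (nat_lit 174) (nat_lit 0) (nat_lit 138) (nat_lit 138) (nat_lit 114)))) (PT.nd (nat_lit 156) (PT.nd (nat_lit 78) (PT.lf (nat_lit 12616) (nat_lit 6) (nat_lit 166) (nat_lit 0) (nat_lit 139) (nat_lit 138) (nat_lit 113)) (PT.lf (nat_lit 11932) (nat_lit 6) (nat_lit 157) (nat_lit 0) (nat_lit 140) (nat_lit 138) (nat_lit 112))) (PT.nd (nat_lit 78) (PT.lf (nat_lit 11324) (nat_lit 6) (nat_lit 149) (nat_lit 0) (nat_lit 141) (nat_lit 138) (nat_lit 111)) (PT.lf (nat_lit 10716) (nat_lit 6) (nat_lit 141) (nat_lit 0) (nat_lit 142) (nat_lit 138) (nat_lit 110))))))))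
noncomputable def pc19 : PT := (PT.nd (nat_lit 39078) (PT.nd (nat_lit 38064) (PT.nd (nat_lit 37518) (PT.nd (nat_lit 234) (PT.nd (nat_lit 78) (PT.lf (nat_lit 10184) (nat_lit 6) (nat_lit 134) (nat_lit 0) (nat_lit 143) (nat_lit 138) (nat_lit 109)) (PT.nd (nat_lit 78) (PT.lf (nat_lit 9652) (nat_lit 6) (nat_lit 127) (nat_lit 0) (nat_lit 144) (nat_lit 138) (nat_lit 108)) (PT.lf (nat_lit 9120) (nat_lit 6) (nat_lit 120) (nat_lit 0) (nat_lit 145) (nat_lit 138) (nat_lit 107)))) (PT.nd (nat_lit 78) (PT.lf (nat_lit 8588) (nat_lit 6) (nat_lit 113) (nat_lit 0) (nat_lit 146) (nat_lit 138) (nat_lit 106)) (PT.nd (nat_lit 78) (PT.lf (nat_lit 8132) (nat_lit 6) (nat_lit 107) (nat_lit 0) (nat_lit 147) (nat_lit 138) (nat_lit 105)) (PT.lf (nat_lit 7676) (nat_lit 6) (nat_lit 101) (nat_lit 0) (nat_lit 148) (nat_lit 138) (nat_lit 104))))) (PT.nd (nat_lit 234) (PT.nd (nat_lit 78) (PT.lf (nat_lit 7296) (nat_lit 6) (nat_lit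 96) (nat_lit 5) (nat_lit 103) (nat_lit 139) (nat_lit 148)) (PT.nd (nat_lit 78) (PT.lf (nat_lit 7752) (nat_lit 6) (nat_lit 102) (nat_lit 5) (nat_lit 104) (nat_lit 139) (nat_lit 147)) (PT.lf (nat_lit 8208) (nat_lit 6) (nat_lit 108) (nat_lit 5) (nat_lit 105) (nat_lit 139) (nat_lit 146)))) (PT.nd (nat_lit 156) (PT.nd (nat_lit 78) (PT.lf (nat_lit 8664) (nat_lit 6) (nat_lit 114) (nat_lit 5) (nat_lit 106) (nat_lit 139) (nat_lit 145)) (PT.lf (nat_lit 9196) (nat_lit 6) (nat_lit 121) (nat_lit 5) (nat_lit 107) (nat_lit 139) (nat_lit 144))) (PT.nd (nat_lit 78) (PT.lf (nat_lit 9728) (nat_lit 6) (nat_lit 128) (nat_lit 5) (nat_lit 108) (nat_lit 139) (nat_lit 143)) (PT.lf (nat_lit 10260) (nat_lit 6) (nat_lit 135) (nat_lit 5) (nat_lit 109) (nat_lit 139) (nat_lit 142)))))) (PT.nd (nat_lit 468) (PT.nd (nat_lit 234) (PT.nd (nat_lit 78) (PT.lf (nat_lit 10792) (nat_lit 6) (nat_lit 142) (nat_lit 5) (nat_lit 110) (nat_lit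 139) (nat_lit 141)) (PT.nd (nat_lit 78) (PT.lf (nat_lit 11400) (nat_lit 6) (nat_lit 150) (nat_lit 5) (nat_lit 111) (nat_lit 139) (nat_lit 140)) (PT.lf (nat_lit 12008) (nat_lit 3) (nat_lit 158) (nat_lit 4) (nat_lit 112) (nat_lit 139) (nat_lit 139)))) (PT.nd (nat_lit 78) (PT.lf (nat_lit 12616) (nat_lit 6) (nat_lit 166) (nat_lit 4) (nat_lit 113) (nat_lit 139) (nat_lit 138)) (PT.nd (nat_lit 78) (PT.lf (nat_lit 13148) (nat_lit 6) (nat_lit 173) (nat_lit 4) (nat_lit 114) (nat_lit 139) (nat_lit 137)) (PT.lf (nat_lit 14288) (nat_lit 6) (nat_lit 188) (nat_lit 4) (nat_lit 115) (nat_lit 139) (nat_lit 136))))) (PT.nd (nat_lit 234) (PT.nd (nat_lit 78) (PT.lf (nat_lit 15352) (nat_lit 6) (nat_lit 202) (nat_lit 4) (nat_lit 116) (nat_lit 139) (nat_lit 135)) (PT.nd (nat_lit 78) (PT.lf (nat_lit 16340) (nat_lit 6) (nat_lit 215) (nat_lit 4) (nat_lit 117) (nat_lit 139) (nat_lit 134)) (PT.lf (nat_lit 17252) (nat_lit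 6) (nat_lit 227) (nat_lit 4) (nat_lit 118) (nat_lit 139) (nat_lit 133)))) (PT.nd (nat_lit 156) (PT.nd (nat_lit 78) (PT.lf (nat_lit 18088) (nat_lit 6) (nat_lit 238) (nat_lit 4) (nat_lit 119) (nat_lit 139) (nat_lit 132)) (PT.lf (nat_lit 18848) (nat_lit 6) (nat_lit 248) (nat_lit 4) (nat_lit 120) (nat_lit 139) (nat_lit 131))) (PT.nd (nat_lit 78) (PT.lf (nat_lit 19532) (nat_lit 6) (nat_lit 257) (nat_lit 4) (nat_lit 121) (nat_lit 139) (nat_lit 130)) (PT.lf (nat_lit 19456) (nat_lit 6) (nat_lit 256) (nat_lit 4) (nat_lit 122) (nat_lit 139) (nat_lit 129))))))) (PT.nd (nat_lit 1014) (PT.nd (nat_lit 468) (PT.nd (nat_lit 234) (PT.nd (nat_lit 78) (PT.lf (nat_lit 19380) (nat_lit 6) (nat_lit 255) (nat_lit 4) (nat_lit 123) (nat_lit 139) (nat_lit 128)) (PT.nd (nat_lit 78) (PT.lf (nat_lit 19304) (nat_lit 6) (nat_lit 254) (nat_lit 4) (nat_lit 124) (nat_lit 139) (nat_lit 127)) (PT.lf (nat_lit 19228) (nat_lit 6)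 (nat_lit 253) (nat_lit 4) (nat_lit 125) (nat_lit 139) (nat_lit 126)))) (PT.nd (nat_lit 78) (PT.lf (nat_lit 19228) (nat_lit 6) (nat_lit 253) (nat_lit 2) (nat_lit 126) (nat_lit 139) (nat_lit 125)) (PT.nd (nat_lit 78) (PT.lf (nat_lit 19304) (nat_lit 6) (nat_lit 254) (nat_lit 2) (nat_lit 127) (nat_lit 139) (nat_lit 124)) (PT.lf (nat_lit 19380) (nat_lit 6) (nat_lit 255) (nat_lit 2) (nat_lit 128) (nat_lit 139) (nat_lit 123))))) (PT.nd (nat_lit 234) (PT.nd (nat_lit 78) (PT.lf (nat_lit 19456) (nat_lit 6) (nat_lit 256) (nat_lit 2) (nat_lit 129) (nat_lit 139) (nat_lit 122)) (PT.nd (nat_lit 78) (PT.lf (nat_lit 19532) (nat_lit 6) (nat_lit 257) (nat_lit 2) (nat_lit 130) (nat_lit 139) (nat_lit 121)) (PT.lf (nat_lit 18848) (nat_lit 6) (nat_lit 248) (nat_lit 2) (nat_lit 131) (nat_lit 139) (nat_lit 120)))) (PT.nd (nat_lit 156) (PT.nd (nat_lit 78) (PT.lf (nat_lit 18088) (nat_lit 6) (nat_lit 238) (nat_lit 2) (nat_lit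 132) (nat_lit 139) (nat_lit 119)) (PT.lf (nat_lit 17252) (nat_lit 6) (nat_lit 227) (nat_lit 2) (nat_lit 133) (nat_lit 139) (nat_lit 118))) (PT.nd (nat_lit 78) (PT.lf (nat_lit 16340) (nat_lit 6) (nat_lit 215) (nat_lit 2) (nat_lit 134) (nat_lit 139) (nat_lit 117)) (PT.lf (nat_lit 15352) (nat_lit 6) (nat_lit 202) (nat_lit 2) (nat_lit 135) (nat_lit 139) (nat_lit 116)))))) (PT.nd (nat_lit 546) (PT.nd (nat_lit 234) (PT.nd (nat_lit 78) (PT.lf (nat_lit 14288) (nat_lit 6) (nat_lit 188) (nat_lit 2) (nat_lit 136) (nat_lit 139) (nat_lit 115)) (PT.nd (nat_lit 78) (PT.lf (nat_lit 13148) (nat_lit 6) (nat_lit 173) (nat_lit 2) (nat_lit 137) (nat_lit 139) (nat_lit 114)) (PT.lf (nat_lit 12616) (nat_lit 6) (nat_lit 166) (nat_lit 2) (nat_lit 138) (nat_lit 139) (nat_lit 113)))) (PT.nd (nat_lit 156) (PT.nd (nat_lit 78) (PT.lf (nat_lit 12008) (nat_lit 3) (nat_lit 158) (nat_lit 0) (nat_lit 139) (nat_lit 139) (nat_lit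 112)) (PT.lf (nat_lit 11400) (nat_lit 6) (nat_lit 150) (nat_lit 0) (nat_lit 140) (nat_lit 139) (nat_lit 111))) (PT.nd (nat_lit 78) (PT.lf (nat_lit 10792) (nat_lit 6) (nat_lit 142) (nat_lit 0) (nat_lit 141) (nat_lit 139) (nat_lit 110)) (PT.lf (nat_lit 10260) (nat_lit 6) (nat_lit 135) (nat_lit 0) (nat_lit 142) (nat_lit 139) (nat_lit 109))))) (PT.nd (nat_lit 234) (PT.nd (nat_lit 78) (PT.lf (nat_lit 9728) (nat_lit 6) (nat_lit 128) (nat_lit 0) (nat_lit 143) (nat_lit 139) (nat_lit 108)) (PT.nd (nat_lit 78) (PT.lf (nat_lit 9196) (nat_lit 6) (nat_lit 121) (nat_lit 0) (nat_lit 144) (nat_lit 139) (nat_lit 107)) (PT.lf (nat_lit 8664) (nat_lit 6) (nat_lit 114) (nat_lit 0) (nat_lit 145) (nat_lit 139) (nat_lit 106)))) (PT.nd (nat_lit 156) (PT.nd (nat_lit 78) (PT.lf (nat_lit 8208) (nat_lit 6) (nat_lit 108) (nat_lit 0) (nat_lit 146) (nat_lit 139) (nat_lit 105)) (PT.lf (nat_lit 7752) (nat_lit 6) (nat_lit 102)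 (nat_lit 0) (nat_lit 147) (nat_lit 139) (nat_lit 104))) (PT.nd (nat_lit 36972) (PT.lf (nat_lit 7296) (nat_lit 6) (nat_lit 96) (nat_lit 0) (nat_lit 148) (nat_lit 139) (nat_lit 103)) (PT.lf (nat_lit 6536) (nat_lit 6) (nat_lit 86) (nat_lit 5) (nat_lit 101) (nat_lit 140) (nat_lit 149))))))))
noncomputable def pc20 : PT := (PT.nd (nat_lit 2028) (PT.nd (nat_lit 1014) (PT.nd (nat_lit 468) (PT.nd (nat_lit 234) (PT.nd (nat_lit 78) (PT.lf (nat_lit 6916) (nat_lit 6) (nat_lit 91) (nat_lit 5) (nat_lit 102) (nat_lit 140) (nat_lit 148)) (PT.nd (nat_lit 78) (PT.lf (nat_lit 7372) (nat_lit 6) (nat_lit 97) (nat_lit 5) (nat_lit 103) (nat_lit 140) (nat_lit 147)) (PT.lf (nat_lit 7828) (nat_lit 6) (nat_lit 103) (nat_lit 5) (nat_lit 104) (nat_lit 140) (nat_lit 146)))) (PT.nd (nat_lit 78) (PT.lf (nat_lit 8284) (nat_lit 6) (nat_lit 109) (nat_lit 5) (nat_lit 105) (nat_lit 140) (nat_lit 145)) (PT.nd (nat_lit 78) (PT.lf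 (nat_lit 8740) (nat_lit 6) (nat_lit 115) (nat_lit 5) (nat_lit 106) (nat_lit 140) (nat_lit 144)) (PT.lf (nat_lit 9272) (nat_lit 6) (nat_lit 122) (nat_lit 5) (nat_lit 107) (nat_lit 140) (nat_lit 143))))) (PT.nd (nat_lit 234) (PT.nd (nat_lit 78) (PT.lf (nat_lit 9804) (nat_lit 6) (nat_lit 129) (nat_lit 5) (nat_lit 108) (nat_lit 140) (nat_lit 142)) (PT.nd (nat_lit 78) (PT.lf (nat_lit 10336) (nat_lit 6) (nat_lit 136) (nat_lit 5) (nat_lit 109) (nat_lit 140) (nat_lit 141)) (PT.lf (nat_lit 10868) (nat_lit 3) (nat_lit 143) (nat_lit 4) (nat_lit 110) (nat_lit 140) (nat_lit 140)))) (PT.nd (nat_lit 156) (PT.nd (nat_lit 78) (PT.lf (nat_lit 11400) (nat_lit 6) (nat_lit 150) (nat_lit 4) (nat_lit 111) (nat_lit 140) (nat_lit 139)) (PT.lf (nat_lit 11932) (nat_lit 6) (nat_lit 157) (nat_lit 4) (nat_lit 112) (nat_lit 140) (nat_lit 138))) (PT.nd (nat_lit 78) (PT.lf (nat_lit 12540) (nat_lit 6) (nat_lit 165) (nat_lit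 4) (nat_lit 113) (nat_lit 140) (nat_lit 137)) (PT.lf (nat_lit 13072) (nat_lit 6) (nat_lit 172) (nat_lit 4) (nat_lit 114) (nat_lit 140) (nat_lit 136)))))) (PT.nd (nat_lit 468) (PT.nd (nat_lit 234) (PT.nd (nat_lit 78) (PT.lf (nat_lit 14212) (nat_lit 6) (nat_lit 187) (nat_lit 4) (nat_lit 115) (nat_lit 140) (nat_lit 135)) (PT.nd (nat_lit 78) (PT.lf (nat_lit 15276) (nat_lit 6) (nat_lit 201) (nat_lit 4) (nat_lit 116) (nat_lit 140) (nat_lit 134)) (PT.lf (nat_lit 16264) (nat_lit 6) (nat_lit 214) (nat_lit 4) (nat_lit 117) (nat_lit 140) (nat_lit 133)))) (PT.nd (nat_lit 78) (PT.lf (nat_lit 17176) (nat_lit 6) (nat_lit 226) (nat_lit 4) (nat_lit 118) (nat_lit 140) (nat_lit 132)) (PT.nd (nat_lit 78) (PT.lf (nat_lit 18012) (nat_lit 6) (nat_lit 237) (nat_lit 4) (nat_lit 119) (nat_lit 140) (nat_lit 131)) (PT.lf (nat_lit 18772) (nat_lit 6) (nat_lit 247) (nat_lit 4) (nat_lit 120) (nat_lit 140) (nat_lit 130)))))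 (PT.nd (nat_lit 234) (PT.nd (nat_lit 78) (PT.lf (nat_lit 18696) (nat_lit 6) (nat_lit 246) (nat_lit 4) (nat_lit 121) (nat_lit 140) (nat_lit 129)) (PT.nd (nat_lit 78) (PT.lf (nat_lit 18620) (nat_lit 6) (nat_lit 245) (nat_lit 4) (nat_lit 122) (nat_lit 140) (nat_lit 128)) (PT.lf (nat_lit 18544) (nat_lit 6) (nat_lit 244) (nat_lit 4) (nat_lit 123) (nat_lit 140) (nat_lit 127)))) (PT.nd (nat_lit 156) (PT.nd (nat_lit 78) (PT.lf (nat_lit 18468) (nat_lit 6) (nat_lit 243) (nat_lit 4) (nat_lit 124) (nat_lit 140) (nat_lit 126)) (PT.lf (nat_lit 18392) (nat_lit 3) (nat_lit 242) (nat_lit 2) (nat_lit 125) (nat_lit 140) (nat_lit 125))) (PT.nd (nat_lit 78) (PT.lf (nat_lit 18468) (nat_lit 6) (nat_lit 243) (nat_lit 2) (nat_lit 126) (nat_lit 140) (nat_lit 124)) (PT.lf (nat_lit 18544) (nat_lit 6) (nat_lit 244) (nat_lit 2) (nat_lit 127) (nat_lit 140) (nat_lit 123))))))) (PT.nd (nat_lit 1014) (PT.nd (nat_lit 468) (PT.nd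 (nat_lit 234) (PT.nd (nat_lit 78) (PT.lf (nat_lit 18620) (nat_lit 6) (nat_lit 245) (nat_lit 2) (nat_lit 128) (nat_lit 140) (nat_lit 122)) (PT.nd (nat_lit 78) (PT.lf (nat_lit 18696) (nat_lit 6) (nat_lit 246) (nat_lit 2) (nat_lit 129) (nat_lit 140) (nat_lit 121)) (PT.lf (nat_lit 18772) (nat_lit 6) (nat_lit 247) (nat_lit 2) (nat_lit 130) (nat_lit 140) (nat_lit 120)))) (PT.nd (nat_lit 78) (PT.lf (nat_lit 18012) (nat_lit 6) (nat_lit 237) (nat_lit 2) (nat_lit 131) (nat_lit 140) (nat_lit 119)) (PT.nd (nat_lit 78) (PT.lf (nat_lit 17176) (nat_lit 6) (nat_lit 226) (nat_lit 2) (nat_lit 132) (nat_lit 140) (nat_lit 118)) (PT.lf (nat_lit 16264) (nat_lit 6) (nat_lit 214) (nat_lit 2) (nat_lit 133) (nat_lit 140) (nat_lit 117))))) (PT.nd (nat_lit 234) (PT.nd (nat_lit 78) (PT.lf (nat_lit 15276) (nat_lit 6) (nat_lit 201) (nat_lit 2) (nat_lit 134) (nat_lit 140) (nat_lit 116)) (PT.nd (nat_lit 78) (PT.lf (nat_lit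 14212) (nat_lit 6) (nat_lit 187) (nat_lit 2) (nat_lit 135) (nat_lit 140) (nat_lit 115)) (PT.lf (nat_lit 13072) (nat_lit 6) (nat_lit 172) (nat_lit 2) (nat_lit 136) (nat_lit 140) (nat_lit 114)))) (PT.nd (nat_lit 156) (PT.nd (nat_lit 78) (PT.lf (nat_lit 12540) (nat_lit 6) (nat_lit 165) (nat_lit 2) (nat_lit 137) (nat_lit 140) (nat_lit 113)) (PT.lf (nat_lit 11932) (nat_lit 6) (nat_lit 157) (nat_lit 2) (nat_lit 138) (nat_lit 140) (nat_lit 112))) (PT.nd (nat_lit 78) (PT.lf (nat_lit 11400) (nat_lit 6) (nat_lit 150) (nat_lit 2) (nat_lit 139) (nat_lit 140) (nat_lit 111)) (PT.lf (nat_lit 10868) (nat_lit 3) (nat_lit 143) (nat_lit 0) (nat_lit 140) (nat_lit 140) (nat_lit 110)))))) (PT.nd (nat_lit 546) (PT.nd (nat_lit 234) (PT.nd (nat_lit 78) (PT.lf (nat_lit 10336) (nat_lit 6) (nat_lit 136) (nat_lit 0) (nat_lit 141) (nat_lit 140) (nat_lit 109)) (PT.nd (nat_lit 78) (PT.lf (nat_lit 9804) (nat_lit 6) (nat_lit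 129) (nat_lit 0) (nat_lit 142) (nat_lit 140) (nat_lit 108)) (PT.lf (nat_lit 9272) (nat_lit 6) (nat_lit 122) (nat_lit 0) (nat_lit 143) (nat_lit 140) (nat_lit 107)))) (PT.nd (nat_lit 156) (PT.nd (nat_lit 78) (PT.lf (nat_lit 8740) (nat_lit 6) (nat_lit 115) (nat_lit 0) (nat_lit 144) (nat_lit 140) (nat_lit 106)) (PT.lf (nat_lit 8284) (nat_lit 6) (nat_lit 109) (nat_lit 0) (nat_lit 145) (nat_lit 140) (nat_lit 105))) (PT.nd (nat_lit 78) (PT.lf (nat_lit 7828) (nat_lit 6) (nat_lit 103) (nat_lit 0) (nat_lit 146) (nat_lit 140) (nat_lit 104)) (PT.lf (nat_lit 7372) (nat_lit 6) (nat_lit 97) (nat_lit 0) (nat_lit 147) (nat_lit 140) (nat_lit 103))))) (PT.nd (nat_lit 36972) (PT.nd (nat_lit 78) (PT.lf (nat_lit 6916) (nat_lit 6) (nat_lit 91) (nat_lit 0) (nat_lit 148) (nat_lit 140) (nat_lit 102)) (PT.nd (nat_lit 36816) (PT.lf (nat_lit 6536) (nat_lit 6) (nat_lit 86) (nat_lit 0) (nat_lit 149) (nat_lit 140) (nat_lit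 101)) (PT.lf (nat_lit 6156) (nat_lit 6) (nat_lit 81) (nat_lit 5) (nat_lit 100) (nat_lit 141) (nat_lit 149)))) (PT.nd (nat_lit 156) (PT.nd (nat_lit 78) (PT.lf (nat_lit 6612) (nat_lit 6) (nat_lit 87) (nat_lit 5) (nat_lit 101) (nat_lit 141) (nat_lit 148)) (PT.lf (nat_lit 6992) (nat_lit 6) (nat_lit 92) (nat_lit 5) (nat_lit 102) (nat_lit 141) (nat_lit 147))) (PT.nd (nat_lit 78) (PT.lf (nat_lit 7448) (nat_lit 6) (nat_lit 98) (nat_lit 5) (nat_lit 103) (nat_lit 141) (nat_lit 146)) (PT.lf (nat_lit 7904) (nat_lit 6) (nat_lit 104) (nat_lit 5) (nat_lit 104) (nat_lit 141) (nat_lit 145))))))))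
noncomputable def pc21 : PT := (PT.nd (nat_lit 2028) (PT.nd (nat_lit 1014) (PT.nd (nat_lit 468) (PT.nd (nat_lit 234) (PT.nd (nat_lit 78) (PT.lf (nat_lit 8360) (nat_lit 6) (nat_lit 110) (nat_lit 5) (nat_lit 105) (nat_lit 141) (nat_lit 144)) (PT.nd (nat_lit 78) (PT.lf (nat_lit 8816) (nat_lit 6) (nat_lit 116) (nat_lit 5) (nat_lit 106) (nat_lit 141) (nat_lit 143)) (PT.lf (nat_lit 9348) (nat_lit 6) (nat_lit 123) (nat_lit 5) (nat_lit 107) (nat_lit 141) (nat_lit 142)))) (PT.nd (nat_lit 78) (PT.lf (nat_lit 9880) (nat_lit 3) (nat_lit 130) (nat_lit 4) (nat_lit 108) (nat_lit 141) (nat_lit 141)) (PT.nd (nat_lit 78) (PT.lf (nat_lit 10336) (nat_lit 6) (nat_lit 136) (nat_lit 4) (nat_lit 109) (nat_lit 141) (nat_lit 140)) (PT.lf (nat_lit 10792) (nat_lit 6) (nat_lit 142) (nat_lit 4) (nat_lit 110) (nat_lit 141) (nat_lit 139))))) (PT.nd (nat_lit 234) (PT.nd (nat_lit 78) (PT.lf (nat_lit 11324) (nat_lit 6) (nat_lit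 149) (nat_lit 4) (nat_lit 111) (nat_lit 141) (nat_lit 138)) (PT.nd (nat_lit 78) (PT.lf (nat_lit 11856) (nat_lit 6) (nat_lit 156) (nat_lit 4) (nat_lit 112) (nat_lit 141) (nat_lit 137)) (PT.lf (nat_lit 12464) (nat_lit 6) (nat_lit 164) (nat_lit 4) (nat_lit 113) (nat_lit 141) (nat_lit 136)))) (PT.nd (nat_lit 156) (PT.nd (nat_lit 78) (PT.lf (nat_lit 12996) (nat_lit 6) (nat_lit 171) (nat_lit 4) (nat_lit 114) (nat_lit 141) (nat_lit 135)) (PT.lf (nat_lit 14136) (nat_lit 6) (nat_lit 186) (nat_lit 4) (nat_lit 115) (nat_lit 141) (nat_lit 134))) (PT.nd (nat_lit 78) (PT.lf (nat_lit 15200) (nat_lit 6) (nat_lit 200) (nat_lit 4) (nat_lit 116) (nat_lit 141) (nat_lit 133)) (PT.lf (nat_lit 16188) (nat_lit 6) (nat_lit 213) (nat_lit 4) (nat_lit 117) (nat_lit 141) (nat_lit 132)))))) (PT.nd (nat_lit 468) (PT.nd (nat_lit 234) (PT.nd (nat_lit 78) (PT.lf (nat_lit 17100) (nat_lit 6) (nat_lit 225) (nat_lit 4) (nat_lit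 118) (nat_lit 141) (nat_lit 131)) (PT.nd (nat_lit 78) (PT.lf (nat_lit 17936) (nat_lit 6) (nat_lit 236) (nat_lit 4) (nat_lit 119) (nat_lit 141) (nat_lit 130)) (PT.lf (nat_lit 17860) (nat_lit 6) (nat_lit 235) (nat_lit 4) (nat_lit 120) (nat_lit 141) (nat_lit 129)))) (PT.nd (nat_lit 78) (PT.lf (nat_lit 17784) (nat_lit 6) (nat_lit 234) (nat_lit 4) (nat_lit 121) (nat_lit 141) (nat_lit 128)) (PT.nd (nat_lit 78) (PT.lf (nat_lit 17708) (nat_lit 6) (nat_lit 233) (nat_lit 4) (nat_lit 122) (nat_lit 141) (nat_lit 127)) (PT.lf (nat_lit 17632) (nat_lit 6) (nat_lit 232) (nat_lit 4) (nat_lit 123) (nat_lit 141) (nat_lit 126))))) (PT.nd (nat_lit 234) (PT.nd (nat_lit 78) (PT.lf (nat_lit 17556) (nat_lit 6) (nat_lit 231) (nat_lit 4) (nat_lit 124) (nat_lit 141) (nat_lit 125)) (PT.nd (nat_lit 78) (PT.lf (nat_lit 17556) (nat_lit 6) (nat_lit 231) (nat_lit 2) (nat_lit 125) (nat_lit 141) (nat_lit 124)) (PT.lf (nat_lit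 17632) (nat_lit 6) (nat_lit 232) (nat_lit 2) (nat_lit 126) (nat_lit 141) (nat_lit 123)))) (PT.nd (nat_lit 156) (PT.nd (nat_lit 78) (PT.lf (nat_lit 17708) (nat_lit 6) (nat_lit 233) (nat_lit 2) (nat_lit 127) (nat_lit 141) (nat_lit 122)) (PT.lf (nat_lit 17784) (nat_lit 6) (nat_lit 234) (nat_lit 2) (nat_lit 128) (nat_lit 141) (nat_lit 121))) (PT.nd (nat_lit 78) (PT.lf (nat_lit 17860) (nat_lit 6) (nat_lit 235) (nat_lit 2) (nat_lit 129) (nat_lit 141) (nat_lit 120)) (PT.lf (nat_lit 17936) (nat_lit 6) (nat_lit 236) (nat_lit 2) (nat_lit 130) (nat_lit 141) (nat_lit 119))))))) (PT.nd (nat_lit 1014) (PT.nd (nat_lit 468) (PT.nd (nat_lit 234) (PT.nd (nat_lit 78) (PT.lf (nat_lit 17100) (nat_lit 6) (nat_lit 225) (nat_lit 2) (nat_lit 131) (nat_lit 141) (nat_lit 118)) (PT.nd (nat_lit 78) (PT.lf (nat_lit 16188) (nat_lit 6) (nat_lit 213) (nat_lit 2) (nat_lit 132) (nat_lit 141) (nat_lit 117)) (PT.lf (nat_lit 15200)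 (nat_lit 6) (nat_lit 200) (nat_lit 2) (nat_lit 133) (nat_lit 141) (nat_lit 116)))) (PT.nd (nat_lit 78) (PT.lf (nat_lit 14136) (nat_lit 6) (nat_lit 186) (nat_lit 2) (nat_lit 134) (nat_lit 141) (nat_lit 115)) (PT.nd (nat_lit 78) (PT.lf (nat_lit 12996) (nat_lit 6) (nat_lit 171) (nat_lit 2) (nat_lit 135) (nat_lit 141) (nat_lit 114)) (PT.lf (nat_lit 12464) (nat_lit 6) (nat_lit 164) (nat_lit 2) (nat_lit 136) (nat_lit 141) (nat_lit 113))))) (PT.nd (nat_lit 234) (PT.nd (nat_lit 78) (PT.lf (nat_lit 11856) (nat_lit 6) (nat_lit 156) (nat_lit 2) (nat_lit 137) (nat_lit 141) (nat_lit 112)) (PT.nd (nat_lit 78) (PT.lf (nat_lit 11324) (nat_lit 6) (nat_lit 149) (nat_lit 2) (nat_lit 138) (nat_lit 141) (nat_lit 111)) (PT.lf (nat_lit 10792) (nat_lit 6) (nat_lit 142) (nat_lit 2) (nat_lit 139) (nat_lit 141) (nat_lit 110)))) (PT.nd (nat_lit 156) (PT.nd (nat_lit 78) (PT.lf (nat_lit 10336) (nat_lit 6) (nat_lit 136) (nat_lit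 2) (nat_lit 140) (nat_lit 141) (nat_lit 109)) (PT.lf (nat_lit 9880) (nat_lit 3) (nat_lit 130) (nat_lit 0) (nat_lit 141) (nat_lit 141) (nat_lit 108))) (PT.nd (nat_lit 78) (PT.lf (nat_lit 9348) (nat_lit 6) (nat_lit 123) (nat_lit 0) (nat_lit 142) (nat_lit 141) (nat_lit 107)) (PT.lf (nat_lit 8816) (nat_lit 6) (nat_lit 116) (nat_lit 0) (nat_lit 143) (nat_lit 141) (nat_lit 106)))))) (PT.nd (nat_lit 37206) (PT.nd (nat_lit 234) (PT.nd (nat_lit 78) (PT.lf (nat_lit 8360) (nat_lit 6) (nat_lit 110) (nat_lit 0) (nat_lit 144) (nat_lit 141) (nat_lit 105)) (PT.nd (nat_lit 78) (PT.lf (nat_lit 7904) (nat_lit 6) (nat_lit 104) (nat_lit 0) (nat_lit 145) (nat_lit 141) (nat_lit 104)) (PT.lf (nat_lit 7448) (nat_lit 6) (nat_lit 98) (nat_lit 0) (nat_lit 146) (nat_lit 141) (nat_lit 103)))) (PT.nd (nat_lit 156) (PT.nd (nat_lit 78) (PT.lf (nat_lit 6992) (nat_lit 6) (nat_lit 92) (nat_lit 0) (nat_lit 147) (nat_lit 141) (nat_lit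 102)) (PT.lf (nat_lit 6612) (nat_lit 6) (nat_lit 87) (nat_lit 0) (nat_lit 148) (nat_lit 141) (nat_lit 101))) (PT.nd (nat_lit 36738) (PT.lf (nat_lit 6156) (nat_lit 6) (nat_lit 81) (nat_lit 0) (nat_lit 149) (nat_lit 141) (nat_lit 100)) (PT.lf (nat_lit 5852) (nat_lit 6) (nat_lit 77) (nat_lit 5) (nat_lit 99) (nat_lit 142) (nat_lit 149))))) (PT.nd (nat_lit 234) (PT.nd (nat_lit 78) (PT.lf (nat_lit 6232) (nat_lit 6) (nat_lit 82) (nat_lit 5) (nat_lit 100) (nat_lit 142) (nat_lit 148)) (PT.nd (nat_lit 78) (PT.lf (nat_lit 6688) (nat_lit 6) (nat_lit 88) (nat_lit 5) (nat_lit 101) (nat_lit 142) (nat_lit 147)) (PT.lf (nat_lit 7068) (nat_lit 6) (nat_lit 93) (nat_lit 5) (nat_lit 102) (nat_lit 142) (nat_lit 146)))) (PT.nd (nat_lit 156) (PT.nd (nat_lit 78) (PT.lf (nat_lit 7524) (nat_lit 6) (nat_lit 99) (nat_lit 5) (nat_lit 103) (nat_lit 142) (nat_lit 145)) (PT.lf (nat_lit 7980) (nat_lit 6) (nat_lit 105) (nat_lit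 5) (nat_lit 104) (nat_lit 142) (nat_lit 144))) (PT.nd (nat_lit 78) (PT.lf (nat_lit 8436) (nat_lit 6) (nat_lit 111) (nat_lit 5) (nat_lit 105) (nat_lit 142) (nat_lit 143)) (PT.lf (nat_lit 8892) (nat_lit 3) (nat_lit 117) (nat_lit 4) (nat_lit 106) (nat_lit 142) (nat_lit 142))))))))
noncomputable def pc22 : PT := (PT.nd (nat_lit 2028) (PT.nd (nat_lit 1014) (PT.nd (nat_lit 468) (PT.nd (nat_lit 234) (PT.nd (nat_lit 78) (PT.lf (nat_lit 9348) (nat_lit 6) (nat_lit 123) (nat_lit 4) (nat_lit 107) (nat_lit 142) (nat_lit 141)) (PT.nd (nat_lit 78) (PT.lf (nat_lit 9804) (nat_lit 6) (nat_lit 129) (nat_lit 4) (nat_lit 108) (nat_lit 142) (nat_lit 140)) (PT.lf (nat_lit 10260) (nat_lit 6) (nat_lit 135) (nat_lit 4) (nat_lit 109) (nat_lit 142) (nat_lit 139)))) (PT.nd (nat_lit 78) (PT.lf (nat_lit 10716) (nat_lit 6) (nat_lit 141) (nat_lit 4) (nat_lit 110) (nat_lit 142) (nat_lit 138)) (PT.nd (nat_lit 78) (PT.lf (nat_lit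 11248) (nat_lit 6) (nat_lit 148) (nat_lit 4) (nat_lit 111) (nat_lit 142) (nat_lit 137)) (PT.lf (nat_lit 11780) (nat_lit 6) (nat_lit 155) (nat_lit 4) (nat_lit 112) (nat_lit 142) (nat_lit 136))))) (PT.nd (nat_lit 234) (PT.nd (nat_lit 78) (PT.lf (nat_lit 12388) (nat_lit 6) (nat_lit 163) (nat_lit 4) (nat_lit 113) (nat_lit 142) (nat_lit 135)) (PT.nd (nat_lit 78) (PT.lf (nat_lit 12920) (nat_lit 6) (nat_lit 170) (nat_lit 4) (nat_lit 114) (nat_lit 142) (nat_lit 134)) (PT.lf (nat_lit 14060) (nat_lit 6) (nat_lit 185) (nat_lit 4) (nat_lit 115) (nat_lit 142) (nat_lit 133)))) (PT.nd (nat_lit 156) (PT.nd (nat_lit 78) (PT.lf (nat_lit 15124) (nat_lit 6) (nat_lit 199) (nat_lit 4) (nat_lit 116) (nat_lit 142) (nat_lit 132)) (PT.lf (nat_lit 16112) (nat_lit 6) (nat_lit 212) (nat_lit 4) (nat_lit 117) (nat_lit 142) (nat_lit 131))) (PT.nd (nat_lit 78) (PT.lf (nat_lit 17024) (nat_lit 6) (nat_lit 224) (nat_lit 4) (nat_lit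 118) (nat_lit 142) (nat_lit 130)) (PT.lf (nat_lit 16948) (nat_lit 6) (nat_lit 223) (nat_lit 4) (nat_lit 119) (nat_lit 142) (nat_lit 129)))))) (PT.nd (nat_lit 468) (PT.nd (nat_lit 234) (PT.nd (nat_lit 78) (PT.lf (nat_lit 16872) (nat_lit 6) (nat_lit 222) (nat_lit 4) (nat_lit 120) (nat_lit 142) (nat_lit 128)) (PT.nd (nat_lit 78) (PT.lf (nat_lit 16796) (nat_lit 6) (nat_lit 221) (nat_lit 4) (nat_lit 121) (nat_lit 142) (nat_lit 127)) (PT.lf (nat_lit 16720) (nat_lit 6) (nat_lit 220) (nat_lit 4) (nat_lit 122) (nat_lit 142) (nat_lit 126)))) (PT.nd (nat_lit 78) (PT.lf (nat_lit 16644) (nat_lit 6) (nat_lit 219) (nat_lit 4) (nat_lit 123) (nat_lit 142) (nat_lit 125)) (PT.nd (nat_lit 78) (PT.lf (nat_lit 16568) (nat_lit 3) (nat_lit 218) (nat_lit 2) (nat_lit 124) (nat_lit 142) (nat_lit 124)) (PT.lf (nat_lit 16644) (nat_lit 6) (nat_lit 219) (nat_lit 2) (nat_lit 125) (nat_lit 142) (nat_lit 123))))) (PT.nd (nat_lit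 234) (PT.nd (nat_lit 78) (PT.lf (nat_lit 16720) (nat_lit 6) (nat_lit 220) (nat_lit 2) (nat_lit 126) (nat_lit 142) (nat_lit 122)) (PT.nd (nat_lit 78) (PT.lf (nat_lit 16796) (nat_lit 6) (nat_lit 221) (nat_lit 2) (nat_lit 127) (nat_lit 142) (nat_lit 121)) (PT.lf (nat_lit 16872) (nat_lit 6) (nat_lit 222) (nat_lit 2) (nat_lit 128) (nat_lit 142) (nat_lit 120)))) (PT.nd (nat_lit 156) (PT.nd (nat_lit 78) (PT.lf (nat_lit 16948) (nat_lit 6) (nat_lit 223) (nat_lit 2) (nat_lit 129) (nat_lit 142) (nat_lit 119)) (PT.lf (nat_lit 17024) (nat_lit 6) (nat_lit 224) (nat_lit 2) (nat_lit 130) (nat_lit 142) (nat_lit 118))) (PT.nd (nat_lit 78) (PT.lf (nat_lit 16112) (nat_lit 6) (nat_lit 212) (nat_lit 2) (nat_lit 131) (nat_lit 142) (nat_lit 117)) (PT.lf (nat_lit 15124) (nat_lit 6) (nat_lit 199) (nat_lit 2) (nat_lit 132) (nat_lit 142) (nat_lit 116))))))) (PT.nd (nat_lit 1014) (PT.nd (nat_lit 468) (PT.nd (nat_lit 234)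 (PT.nd (nat_lit 78) (PT.lf (nat_lit 14060) (nat_lit 6) (nat_lit 185) (nat_lit 2) (nat_lit 133) (nat_lit 142) (nat_lit 115)) (PT.nd (nat_lit 78) (PT.lf (nat_lit 12920) (nat_lit 6) (nat_lit 170) (nat_lit 2) (nat_lit 134) (nat_lit 142) (nat_lit 114)) (PT.lf (nat_lit 12388) (nat_lit 6) (nat_lit 163) (nat_lit 2) (nat_lit 135) (nat_lit 142) (nat_lit 113)))) (PT.nd (nat_lit 78) (PT.lf (nat_lit 11780) (nat_lit 6) (nat_lit 155) (nat_lit 2) (nat_lit 136) (nat_lit 142) (nat_lit 112)) (PT.nd (nat_lit 78) (PT.lf (nat_lit 11248) (nat_lit 6) (nat_lit 148) (nat_lit 2) (nat_lit 137) (nat_lit 142) (nat_lit 111)) (PT.lf (nat_lit 10716) (nat_lit 6) (nat_lit 141) (nat_lit 2) (nat_lit 138) (nat_lit 142) (nat_lit 110))))) (PT.nd (nat_lit 234) (PT.nd (nat_lit 78) (PT.lf (nat_lit 10260) (nat_lit 6) (nat_lit 135) (nat_lit 2) (nat_lit 139) (nat_lit 142) (nat_lit 109)) (PT.nd (nat_lit 78) (PT.lf (nat_lit 9804) (nat_lit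 6) (nat_lit 129) (nat_lit 2) (nat_lit 140) (nat_lit 142) (nat_lit 108)) (PT.lf (nat_lit 9348) (nat_lit 6) (nat_lit 123) (nat_lit 2) (nat_lit 141) (nat_lit 142) (nat_lit 107)))) (PT.nd (nat_lit 156) (PT.nd (nat_lit 78) (PT.lf (nat_lit 8892) (nat_lit 3) (nat_lit 117) (nat_lit 0) (nat_lit 142) (nat_lit 142) (nat_lit 106)) (PT.lf (nat_lit 8436) (nat_lit 6) (nat_lit 111) (nat_lit 0) (nat_lit 143) (nat_lit 142) (nat_lit 105))) (PT.nd (nat_lit 78) (PT.lf (nat_lit 7980) (nat_lit 6) (nat_lit 105) (nat_lit 0) (nat_lit 144) (nat_lit 142) (nat_lit 104)) (PT.lf (nat_lit 7524) (nat_lit 6) (nat_lit 99) (nat_lit 0) (nat_lit 145) (nat_lit 142) (nat_lit 103)))))) (PT.nd (nat_lit 37050) (PT.nd (nat_lit 234) (PT.nd (nat_lit 78) (PT.lf (nat_lit 7068) (nat_lit 6) (nat_lit 93) (nat_lit 0) (nat_lit 146) (nat_lit 142) (nat_lit 102)) (PT.nd (nat_lit 78) (PT.lf (nat_lit 6688) (nat_lit 6) (nat_lit 88) (nat_lit 0) (nat_lit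 147) (nat_lit 142) (nat_lit 101)) (PT.lf (nat_lit 6232) (nat_lit 6) (nat_lit 82) (nat_lit 0) (nat_lit 148) (nat_lit 142) (nat_lit 100)))) (PT.nd (nat_lit 36660) (PT.nd (nat_lit 36582) (PT.lf (nat_lit 5852) (nat_lit 6) (nat_lit 77) (nat_lit 0) (nat_lit 149) (nat_lit 142) (nat_lit 99)) (PT.lf (nat_lit 5244) (nat_lit 6) (nat_lit 69) (nat_lit 5) (nat_lit 97) (nat_lit 143) (nat_lit 150))) (PT.nd (nat_lit 78) (PT.lf (nat_lit 5548) (nat_lit 6) (nat_lit 73) (nat_lit 5) (nat_lit 98) (nat_lit 143) (nat_lit 149)) (PT.lf (nat_lit 5928) (nat_lit 6) (nat_lit 78) (nat_lit 5) (nat_lit 99) (nat_lit 143) (nat_lit 148))))) (PT.nd (nat_lit 234) (PT.nd (nat_lit 78) (PT.lf (nat_lit 6308) (nat_lit 6) (nat_lit 83) (nat_lit 5) (nat_lit 100) (nat_lit 143) (nat_lit 147)) (PT.nd (nat_lit 78) (PT.lf (nat_lit 6764) (nat_lit 6) (nat_lit 89) (nat_lit 5) (nat_lit 101) (nat_lit 143) (nat_lit 146)) (PT.lf (nat_lit 7144) (nat_lit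 6) (nat_lit 94) (nat_lit 5) (nat_lit 102) (nat_lit 143) (nat_lit 145)))) (PT.nd (nat_lit 156) (PT.nd (nat_lit 78) (PT.lf (nat_lit 7600) (nat_lit 6) (nat_lit 100) (nat_lit 5) (nat_lit 103) (nat_lit 143) (nat_lit 144)) (PT.lf (nat_lit 8056) (nat_lit 3) (nat_lit 106) (nat_lit 4) (nat_lit 104) (nat_lit 143) (nat_lit 143))) (PT.nd (nat_lit 78) (PT.lf (nat_lit 8436) (nat_lit 6) (nat_lit 111) (nat_lit 4) (nat_lit 105) (nat_lit 143) (nat_lit 142)) (PT.lf (nat_lit 8816) (nat_lit 6) (nat_lit 116) (nat_lit 4) (nat_lit 106) (nat_lit 143) (nat_lit 141))))))))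
noncomputable def pc23 : PT := (PT.nd (nat_lit 2028) (PT.nd (nat_lit 1014) (PT.nd (nat_lit 468) (PT.nd (nat_lit 234) (PT.nd (nat_lit 78) (PT.lf (nat_lit 9272) (nat_lit 6) (nat_lit 122) (nat_lit 4) (nat_lit 107) (nat_lit 143) (nat_lit 140)) (PT.nd (nat_lit 78) (PT.lf (nat_lit 9728) (nat_lit 6) (nat_lit 128) (nat_lit 4) (nat_lit 108) (nat_lit 143) (nat_lit 139)) (PT.lf (nat_lit 10184) (nat_lit 6) (nat_lit 134) (nat_lit 4) (nat_lit 109) (nat_lit 143) (nat_lit 138)))) (PT.nd (nat_lit 78) (PT.lf (nat_lit 10640) (nat_lit 6) (nat_lit 140) (nat_lit 4) (nat_lit 110) (nat_lit 143) (nat_lit 137)) (PT.nd (nat_lit 78) (PT.lf (nat_lit 11172) (nat_lit 6) (nat_lit 147) (nat_lit 4) (nat_lit 111) (nat_lit 143) (nat_lit 136)) (PT.lf (nat_lit 11704) (nat_lit 6) (nat_lit 154) (nat_lit 4) (nat_lit 112) (nat_lit 143) (nat_lit 135))))) (PT.nd (nat_lit 234) (PT.nd (nat_lit 78) (PT.lf (nat_lit 12312) (nat_lit 6) (nat_lit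 162) (nat_lit 4) (nat_lit 113) (nat_lit 143) (nat_lit 134)) (PT.nd (nat_lit 78) (PT.lf (nat_lit 12844) (nat_lit 6) (nat_lit 169) (nat_lit 4) (nat_lit 114) (nat_lit 143) (nat_lit 133)) (PT.lf (nat_lit 13984) (nat_lit 6) (nat_lit 184) (nat_lit 4) (nat_lit 115) (nat_lit 143) (nat_lit 132)))) (PT.nd (nat_lit 156) (PT.nd (nat_lit 78) (PT.lf (nat_lit 15048) (nat_lit 6) (nat_lit 198) (nat_lit 4) (nat_lit 116) (nat_lit 143) (nat_lit 131)) (PT.lf (nat_lit 16036) (nat_lit 6) (nat_lit 211) (nat_lit 4) (nat_lit 117) (nat_lit 143) (nat_lit 130))) (PT.nd (nat_lit 78) (PT.lf (nat_lit 15960) (nat_lit 6) (nat_lit 210) (nat_lit 4) (nat_lit 118) (nat_lit 143) (nat_lit 129)) (PT.lf (nat_lit 15884) (nat_lit 6) (nat_lit 209) (nat_lit 4) (nat_lit 119) (nat_lit 143) (nat_lit 128)))))) (PT.nd (nat_lit 468) (PT.nd (nat_lit 234) (PT.nd (nat_lit 78) (PT.lf (nat_lit 15808) (nat_lit 6) (nat_lit 208) (nat_lit 4) (nat_lit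 120) (nat_lit 143) (nat_lit 127)) (PT.nd (nat_lit 78) (PT.lf (nat_lit 15732) (nat_lit 6) (nat_lit 207) (nat_lit 4) (nat_lit 121) (nat_lit 143) (nat_lit 126)) (PT.lf (nat_lit 15656) (nat_lit 6) (nat_lit 206) (nat_lit 4) (nat_lit 122) (nat_lit 143) (nat_lit 125)))) (PT.nd (nat_lit 78) (PT.lf (nat_lit 15580) (nat_lit 6) (nat_lit 205) (nat_lit 4) (nat_lit 123) (nat_lit 143) (nat_lit 124)) (PT.nd (nat_lit 78) (PT.lf (nat_lit 15580) (nat_lit 6) (nat_lit 205) (nat_lit 2) (nat_lit 124) (nat_lit 143) (nat_lit 123)) (PT.lf (nat_lit 15656) (nat_lit 6) (nat_lit 206) (nat_lit 2) (nat_lit 125) (nat_lit 143) (nat_lit 122))))) (PT.nd (nat_lit 234) (PT.nd (nat_lit 78) (PT.lf (nat_lit 15732) (nat_lit 6) (nat_lit 207) (nat_lit 2) (nat_lit 126) (nat_lit 143) (nat_lit 121)) (PT.nd (nat_lit 78) (PT.lf (nat_lit 15808) (nat_lit 6) (nat_lit 208) (nat_lit 2) (nat_lit 127) (nat_lit 143) (nat_lit 120)) (PT.lf (nat_lit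 15884) (nat_lit 6) (nat_lit 209) (nat_lit 2) (nat_lit 128) (nat_lit 143) (nat_lit 119)))) (PT.nd (nat_lit 156) (PT.nd (nat_lit 78) (PT.lf (nat_lit 15960) (nat_lit 6) (nat_lit 210) (nat_lit 2) (nat_lit 129) (nat_lit 143) (nat_lit 118)) (PT.lf (nat_lit 16036) (nat_lit 6) (nat_lit 211) (nat_lit 2) (nat_lit 130) (nat_lit 143) (nat_lit 117))) (PT.nd (nat_lit 78) (PT.lf (nat_lit 15048) (nat_lit 6) (nat_lit 198) (nat_lit 2) (nat_lit 131) (nat_lit 143) (nat_lit 116)) (PT.lf (nat_lit 13984) (nat_lit 6) (nat_lit 184) (nat_lit 2) (nat_lit 132) (nat_lit 143) (nat_lit 115))))))) (PT.nd (nat_lit 1014) (PT.nd (nat_lit 468) (PT.nd (nat_lit 234) (PT.nd (nat_lit 78) (PT.lf (nat_lit 12844) (nat_lit 6) (nat_lit 169) (nat_lit 2) (nat_lit 133) (nat_lit 143) (nat_lit 114)) (PT.nd (nat_lit 78) (PT.lf (nat_lit 12312) (nat_lit 6) (nat_lit 162) (nat_lit 2) (nat_lit 134) (nat_lit 143) (nat_lit 113)) (PT.lf (nat_lit 11704)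 (nat_lit 6) (nat_lit 154) (nat_lit 2) (nat_lit 135) (nat_lit 143) (nat_lit 112)))) (PT.nd (nat_lit 78) (PT.lf (nat_lit 11172) (nat_lit 6) (nat_lit 147) (nat_lit 2) (nat_lit 136) (nat_lit 143) (nat_lit 111)) (PT.nd (nat_lit 78) (PT.lf (nat_lit 10640) (nat_lit 6) (nat_lit 140) (nat_lit 2) (nat_lit 137) (nat_lit 143) (nat_lit 110)) (PT.lf (nat_lit 10184) (nat_lit 6) (nat_lit 134) (nat_lit 2) (nat_lit 138) (nat_lit 143) (nat_lit 109))))) (PT.nd (nat_lit 234) (PT.nd (nat_lit 78) (PT.lf (nat_lit 9728) (nat_lit 6) (nat_lit 128) (nat_lit 2) (nat_lit 139) (nat_lit 143) (nat_lit 108)) (PT.nd (nat_lit 78) (PT.lf (nat_lit 9272) (nat_lit 6) (nat_lit 122) (nat_lit 2) (nat_lit 140) (nat_lit 143) (nat_lit 107)) (PT.lf (nat_lit 8816) (nat_lit 6) (nat_lit 116) (nat_lit 2) (nat_lit 141) (nat_lit 143) (nat_lit 106)))) (PT.nd (nat_lit 156) (PT.nd (nat_lit 78) (PT.lf (nat_lit 8436) (nat_lit 6) (nat_lit 111) (nat_lit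 2) (nat_lit 142) (nat_lit 143) (nat_lit 105)) (PT.lf (nat_lit 8056) (nat_lit 3) (nat_lit 106) (nat_lit 0) (nat_lit 143) (nat_lit 143) (nat_lit 104))) (PT.nd (nat_lit 78) (PT.lf (nat_lit 7600) (nat_lit 6) (nat_lit 100) (nat_lit 0) (nat_lit 144) (nat_lit 143) (nat_lit 103)) (PT.lf (nat_lit 7144) (nat_lit 6) (nat_lit 94) (nat_lit 0) (nat_lit 145) (nat_lit 143) (nat_lit 102)))))) (PT.nd (nat_lit 36894) (PT.nd (nat_lit 234) (PT.nd (nat_lit 78) (PT.lf (nat_lit 6764) (nat_lit 6) (nat_lit 89) (nat_lit 0) (nat_lit 146) (nat_lit 143) (nat_lit 101)) (PT.nd (nat_lit 78) (PT.lf (nat_lit 6308) (nat_lit 6) (nat_lit 83) (nat_lit 0) (nat_lit 147) (nat_lit 143) (nat_lit 100)) (PT.lf (nat_lit 5928) (nat_lit 6) (nat_lit 78) (nat_lit 0) (nat_lit 148) (nat_lit 143) (nat_lit 99)))) (PT.nd (nat_lit 36504) (PT.nd (nat_lit 78) (PT.lf (nat_lit 5548) (nat_lit 6) (nat_lit 73) (nat_lit 0) (nat_lit 149) (nat_lit 143) (nat_lit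 98)) (PT.lf (nat_lit 5244) (nat_lit 6) (nat_lit 69) (nat_lit 0) (nat_lit 150) (nat_lit 143) (nat_lit 97))) (PT.nd (nat_lit 78) (PT.lf (nat_lit 4940) (nat_lit 6) (nat_lit 65) (nat_lit 5) (nat_lit 96) (nat_lit 144) (nat_lit 150)) (PT.lf (nat_lit 5320) (nat_lit 6) (nat_lit 70) (nat_lit 5) (nat_lit 97) (nat_lit 144) (nat_lit 149))))) (PT.nd (nat_lit 234) (PT.nd (nat_lit 78) (PT.lf (nat_lit 5624) (nat_lit 6) (nat_lit 74) (nat_lit 5) (nat_lit 98) (nat_lit 144) (nat_lit 148)) (PT.nd (nat_lit 78) (PT.lf (nat_lit 6004) (nat_lit 6) (nat_lit 79) (nat_lit 5) (nat_lit 99) (nat_lit 144) (nat_lit 147)) (PT.lf (nat_lit 6384) (nat_lit 6) (nat_lit 84) (nat_lit 5) (nat_lit 100) (nat_lit 144) (nat_lit 146)))) (PT.nd (nat_lit 156) (PT.nd (nat_lit 78) (PT.lf (nat_lit 6840) (nat_lit 6) (nat_lit 90) (nat_lit 5) (nat_lit 101) (nat_lit 144) (nat_lit 145)) (PT.lf (nat_lit 7220) (nat_lit 3) (nat_lit 95) (nat_lit 4) (nat_lit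 102) (nat_lit 144) (nat_lit 144))) (PT.nd (nat_lit 78) (PT.lf (nat_lit 7600) (nat_lit 6) (nat_lit 100) (nat_lit 4) (nat_lit 103) (nat_lit 144) (nat_lit 143)) (PT.lf (nat_lit 7980) (nat_lit 6) (nat_lit 105) (nat_lit 4) (nat_lit 104) (nat_lit 144) (nat_lit 142))))))))
noncomputable def pc24 : PT := (PT.nd (nat_lit 2028) (PT.nd (nat_lit 1014) (PT.nd (nat_lit 468) (PT.nd (nat_lit 234) (PT.nd (nat_lit 78) (PT.lf (nat_lit 8360) (nat_lit 6) (nat_lit 110) (nat_lit 4) (nat_lit 105) (nat_lit 144) (nat_lit 141)) (PT.nd (nat_lit 78) (PT.lf (nat_lit 8740) (nat_lit 6) (nat_lit 115) (nat_lit 4) (nat_lit 106) (nat_lit 144) (nat_lit 140)) (PT.lf (nat_lit 9196) (nat_lit 6) (nat_lit 121) (nat_lit 4) (nat_lit 107) (nat_lit 144) (nat_lit 139)))) (PT.nd (nat_lit 78) (PT.lf (nat_lit 9652) (nat_lit 6) (nat_lit 127) (nat_lit 4) (nat_lit 108) (nat_lit 144) (nat_lit 138)) (PT.nd (nat_lit 78) (PT.lf (nat_lit 10108) (nat_lit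 6) (nat_lit 133) (nat_lit 4) (nat_lit 109) (nat_lit 144) (nat_lit 137)) (PT.lf (nat_lit 10564) (nat_lit 6) (nat_lit 139) (nat_lit 4) (nat_lit 110) (nat_lit 144) (nat_lit 136))))) (PT.nd (nat_lit 234) (PT.nd (nat_lit 78) (PT.lf (nat_lit 11096) (nat_lit 6) (nat_lit 146) (nat_lit 4) (nat_lit 111) (nat_lit 144) (nat_lit 135)) (PT.nd (nat_lit 78) (PT.lf (nat_lit 11628) (nat_lit 6) (nat_lit 153) (nat_lit 4) (nat_lit 112) (nat_lit 144) (nat_lit 134)) (PT.lf (nat_lit 12236) (nat_lit 6) (nat_lit 161) (nat_lit 4) (nat_lit 113) (nat_lit 144) (nat_lit 133)))) (PT.nd (nat_lit 156) (PT.nd (nat_lit 78) (PT.lf (nat_lit 12768) (nat_lit 6) (nat_lit 168) (nat_lit 4) (nat_lit 114) (nat_lit 144) (nat_lit 132)) (PT.lf (nat_lit 13908) (nat_lit 6) (nat_lit 183) (nat_lit 4) (nat_lit 115) (nat_lit 144) (nat_lit 131))) (PT.nd (nat_lit 78) (PT.lf (nat_lit 14972) (nat_lit 6) (nat_lit 197) (nat_lit 4) (nat_lit 116) (nat_lit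 144) (nat_lit 130)) (PT.lf (nat_lit 14896) (nat_lit 6) (nat_lit 196) (nat_lit 4) (nat_lit 117) (nat_lit 144) (nat_lit 129)))))) (PT.nd (nat_lit 468) (PT.nd (nat_lit 234) (PT.nd (nat_lit 78) (PT.lf (nat_lit 14820) (nat_lit 6) (nat_lit 195) (nat_lit 4) (nat_lit 118) (nat_lit 144) (nat_lit 128)) (PT.nd (nat_lit 78) (PT.lf (nat_lit 14744) (nat_lit 6) (nat_lit 194) (nat_lit 4) (nat_lit 119) (nat_lit 144) (nat_lit 127)) (PT.lf (nat_lit 14668) (nat_lit 6) (nat_lit 193) (nat_lit 4) (nat_lit 120) (nat_lit 144) (nat_lit 126)))) (PT.nd (nat_lit 78) (PT.lf (nat_lit 14592) (nat_lit 6) (nat_lit 192) (nat_lit 4) (nat_lit 121) (nat_lit 144) (nat_lit 125)) (PT.nd (nat_lit 78) (PT.lf (nat_lit 14516) (nat_lit 6) (nat_lit 191) (nat_lit 4) (nat_lit 122) (nat_lit 144) (nat_lit 124)) (PT.lf (nat_lit 14440) (nat_lit 3) (nat_lit 190) (nat_lit 2) (nat_lit 123) (nat_lit 144) (nat_lit 123))))) (PT.nd (nat_lit 234) (PT.nd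 (nat_lit 78) (PT.lf (nat_lit 14516) (nat_lit 6) (nat_lit 191) (nat_lit 2) (nat_lit 124) (nat_lit 144) (nat_lit 122)) (PT.nd (nat_lit 78) (PT.lf (nat_lit 14592) (nat_lit 6) (nat_lit 192) (nat_lit 2) (nat_lit 125) (nat_lit 144) (nat_lit 121)) (PT.lf (nat_lit 14668) (nat_lit 6) (nat_lit 193) (nat_lit 2) (nat_lit 126) (nat_lit 144) (nat_lit 120)))) (PT.nd (nat_lit 156) (PT.nd (nat_lit 78) (PT.lf (nat_lit 14744) (nat_lit 6) (nat_lit 194) (nat_lit 2) (nat_lit 127) (nat_lit 144) (nat_lit 119)) (PT.lf (nat_lit 14820) (nat_lit 6) (nat_lit 195) (nat_lit 2) (nat_lit 128) (nat_lit 144) (nat_lit 118))) (PT.nd (nat_lit 78) (PT.lf (nat_lit 14896) (nat_lit 6) (nat_lit 196) (nat_lit 2) (nat_lit 129) (nat_lit 144) (nat_lit 117)) (PT.lf (nat_lit 14972) (nat_lit 6) (nat_lit 197) (nat_lit 2) (nat_lit 130) (nat_lit 144) (nat_lit 116))))))) (PT.nd (nat_lit 1014) (PT.nd (nat_lit 468) (PT.nd (nat_lit 234) (PT.nd (nat_lit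 78) (PT.lf (nat_lit 13908) (nat_lit 6) (nat_lit 183) (nat_lit 2) (nat_lit 131) (nat_lit 144) (nat_lit 115)) (PT.nd (nat_lit 78) (PT.lf (nat_lit 12768) (nat_lit 6) (nat_lit 168) (nat_lit 2) (nat_lit 132) (nat_lit 144) (nat_lit 114)) (PT.lf (nat_lit 12236) (nat_lit 6) (nat_lit 161) (nat_lit 2) (nat_lit 133) (nat_lit 144) (nat_lit 113)))) (PT.nd (nat_lit 78) (PT.lf (nat_lit 11628) (nat_lit 6) (nat_lit 153) (nat_lit 2) (nat_lit 134) (nat_lit 144) (nat_lit 112)) (PT.nd (nat_lit 78) (PT.lf (nat_lit 11096) (nat_lit 6) (nat_lit 146) (nat_lit 2) (nat_lit 135) (nat_lit 144) (nat_lit 111)) (PT.lf (nat_lit 10564) (nat_lit 6) (nat_lit 139) (nat_lit 2) (nat_lit 136) (nat_lit 144) (nat_lit 110))))) (PT.nd (nat_lit 234) (PT.nd (nat_lit 78) (PT.lf (nat_lit 10108) (nat_lit 6) (nat_lit 133) (nat_lit 2) (nat_lit 137) (nat_lit 144) (nat_lit 109)) (PT.nd (nat_lit 78) (PT.lf (nat_lit 9652) (nat_lit 6) (nat_lit 127)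 (nat_lit 2) (nat_lit 138) (nat_lit 144) (nat_lit 108)) (PT.lf (nat_lit 9196) (nat_lit 6) (nat_lit 121) (nat_lit 2) (nat_lit 139) (nat_lit 144) (nat_lit 107)))) (PT.nd (nat_lit 156) (PT.nd (nat_lit 78) (PT.lf (nat_lit 8740) (nat_lit 6) (nat_lit 115) (nat_lit 2) (nat_lit 140) (nat_lit 144) (nat_lit 106)) (PT.lf (nat_lit 8360) (nat_lit 6) (nat_lit 110) (nat_lit 2) (nat_lit 141) (nat_lit 144) (nat_lit 105))) (PT.nd (nat_lit 78) (PT.lf (nat_lit 7980) (nat_lit 6) (nat_lit 105) (nat_lit 2) (nat_lit 142) (nat_lit 144) (nat_lit 104)) (PT.lf (nat_lit 7600) (nat_lit 6) (nat_lit 100) (nat_lit 2) (nat_lit 143) (nat_lit 144) (nat_lit 103)))))) (PT.nd (nat_lit 36738) (PT.nd (nat_lit 234) (PT.nd (nat_lit 78) (PT.lf (nat_lit 7220) (nat_lit 3) (nat_lit 95) (nat_lit 0) (nat_lit 144) (nat_lit 144) (nat_lit 102)) (PT.nd (nat_lit 78) (PT.lf (nat_lit 6840) (nat_lit 6) (nat_lit 90) (nat_lit 0) (nat_lit 145) (nat_lit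 144) (nat_lit 101)) (PT.lf (nat_lit 6384) (nat_lit 6) (nat_lit 84) (nat_lit 0) (nat_lit 146) (nat_lit 144) (nat_lit 100)))) (PT.nd (nat_lit 156) (PT.nd (nat_lit 78) (PT.lf (nat_lit 6004) (nat_lit 6) (nat_lit 79) (nat_lit 0) (nat_lit 147) (nat_lit 144) (nat_lit 99)) (PT.lf (nat_lit 5624) (nat_lit 6) (nat_lit 74) (nat_lit 0) (nat_lit 148) (nat_lit 144) (nat_lit 98))) (PT.nd (nat_lit 78) (PT.lf (nat_lit 5320) (nat_lit 6) (nat_lit 70) (nat_lit 0) (nat_lit 149) (nat_lit 144) (nat_lit 97)) (PT.lf (nat_lit 4940) (nat_lit 6) (nat_lit 65) (nat_lit 0) (nat_lit 150) (nat_lit 144) (nat_lit 96))))) (PT.nd (nat_lit 234) (PT.nd (nat_lit 78) (PT.lf (nat_lit 4408) (nat_lit 6) (nat_lit 58) (nat_lit 5) (nat_lit 94) (nat_lit 145) (nat_lit 151)) (PT.nd (nat_lit 78) (PT.lf (nat_lit 4712) (nat_lit 6) (nat_lit 62) (nat_lit 5) (nat_lit 95) (nat_lit 145) (nat_lit 150)) (PT.lf (nat_lit 5016) (nat_lit 6) (nat_lit 66) (nat_lit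 5) (nat_lit 96) (nat_lit 145) (nat_lit 149)))) (PT.nd (nat_lit 156) (PT.nd (nat_lit 78) (PT.lf (nat_lit 5396) (nat_lit 6) (nat_lit 71) (nat_lit 5) (nat_lit 97) (nat_lit 145) (nat_lit 148)) (PT.lf (nat_lit 5700) (nat_lit 6) (nat_lit 75) (nat_lit 5) (nat_lit 98) (nat_lit 145) (nat_lit 147))) (PT.nd (nat_lit 78) (PT.lf (nat_lit 6080) (nat_lit 6) (nat_lit 80) (nat_lit 5) (nat_lit 99) (nat_lit 145) (nat_lit 146)) (PT.lf (nat_lit 6460) (nat_lit 3) (nat_lit 85) (nat_lit 4) (nat_lit 100) (nat_lit 145) (nat_lit 145))))))))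
noncomputable def pc25 : PT := (PT.nd (nat_lit 2028) (PT.nd (nat_lit 1014) (PT.nd (nat_lit 468) (PT.nd (nat_lit 234) (PT.nd (nat_lit 78) (PT.lf (nat_lit 6840) (nat_lit 6) (nat_lit 90) (nat_lit 4) (nat_lit 101) (nat_lit 145) (nat_lit 144)) (PT.nd (nat_lit 78) (PT.lf (nat_lit 7144) (nat_lit 6) (nat_lit 94) (nat_lit 4) (nat_lit 102) (nat_lit 145) (nat_lit 143)) (PT.lf (nat_lit 7524) (nat_lit 6) (nat_lit 99) (nat_lit 4) (nat_lit 103) (nat_lit 145) (nat_lit 142)))) (PT.nd (nat_lit 78) (PT.lf (nat_lit 7904) (nat_lit 6) (nat_lit 104) (nat_lit 4) (nat_lit 104) (nat_lit 145) (nat_lit 141)) (PT.nd (nat_lit 78) (PT.lf (nat_lit 8284) (nat_lit 6) (nat_lit 109) (nat_lit 4) (nat_lit 105) (nat_lit 145) (nat_lit 140)) (PT.lf (nat_lit 8664) (nat_lit 6) (nat_lit 114) (nat_lit 4) (nat_lit 106) (nat_lit 145) (nat_lit 139))))) (PT.nd (nat_lit 234) (PT.nd (nat_lit 78) (PT.lf (nat_lit 9120) (nat_lit 6) (nat_lit 120)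 (nat_lit 4) (nat_lit 107) (nat_lit 145) (nat_lit 138)) (PT.nd (nat_lit 78) (PT.lf (nat_lit 9576) (nat_lit 6) (nat_lit 126) (nat_lit 4) (nat_lit 108) (nat_lit 145) (nat_lit 137)) (PT.lf (nat_lit 10032) (nat_lit 6) (nat_lit 132) (nat_lit 4) (nat_lit 109) (nat_lit 145) (nat_lit 136)))) (PT.nd (nat_lit 156) (PT.nd (nat_lit 78) (PT.lf (nat_lit 10488) (nat_lit 6) (nat_lit 138) (nat_lit 4) (nat_lit 110) (nat_lit 145) (nat_lit 135)) (PT.lf (nat_lit 11020) (nat_lit 6) (nat_lit 145) (nat_lit 4) (nat_lit 111) (nat_lit 145) (nat_lit 134))) (PT.nd (nat_lit 78) (PT.lf (nat_lit 11552) (nat_lit 6) (nat_lit 152) (nat_lit 4) (nat_lit 112) (nat_lit 145) (nat_lit 133)) (PT.lf (nat_lit 12160) (nat_lit 6) (nat_lit 160) (nat_lit 4) (nat_lit 113) (nat_lit 145) (nat_lit 132)))))) (PT.nd (nat_lit 468) (PT.nd (nat_lit 234) (PT.nd (nat_lit 78) (PT.lf (nat_lit 12692) (nat_lit 6) (nat_lit 167) (nat_lit 4) (nat_lit 114) (nat_lit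 145) (nat_lit 131)) (PT.nd (nat_lit 78) (PT.lf (nat_lit 13832) (nat_lit 6) (nat_lit 182) (nat_lit 4) (nat_lit 115) (nat_lit 145) (nat_lit 130)) (PT.lf (nat_lit 13756) (nat_lit 6) (nat_lit 181) (nat_lit 4) (nat_lit 116) (nat_lit 145) (nat_lit 129)))) (PT.nd (nat_lit 78) (PT.lf (nat_lit 13680) (nat_lit 6) (nat_lit 180) (nat_lit 4) (nat_lit 117) (nat_lit 145) (nat_lit 128)) (PT.nd (nat_lit 78) (PT.lf (nat_lit 13604) (nat_lit 6) (nat_lit 179) (nat_lit 4) (nat_lit 118) (nat_lit 145) (nat_lit 127)) (PT.lf (nat_lit 13528) (nat_lit 6) (nat_lit 178) (nat_lit 4) (nat_lit 119) (nat_lit 145) (nat_lit 126))))) (PT.nd (nat_lit 234) (PT.nd (nat_lit 78) (PT.lf (nat_lit 13452) (nat_lit 6) (nat_lit 177) (nat_lit 4) (nat_lit 120) (nat_lit 145) (nat_lit 125)) (PT.nd (nat_lit 78) (PT.lf (nat_lit 13376) (nat_lit 6) (nat_lit 176) (nat_lit 4) (nat_lit 121) (nat_lit 145) (nat_lit 124)) (PT.lf (nat_lit 13300) (nat_lit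 6) (nat_lit 175) (nat_lit 4) (nat_lit 122) (nat_lit 145) (nat_lit 123)))) (PT.nd (nat_lit 156) (PT.nd (nat_lit 78) (PT.lf (nat_lit 13300) (nat_lit 6) (nat_lit 175) (nat_lit 2) (nat_lit 123) (nat_lit 145) (nat_lit 122)) (PT.lf (nat_lit 13376) (nat_lit 6) (nat_lit 176) (nat_lit 2) (nat_lit 124) (nat_lit 145) (nat_lit 121))) (PT.nd (nat_lit 78) (PT.lf (nat_lit 13452) (nat_lit 6) (nat_lit 177) (nat_lit 2) (nat_lit 125) (nat_lit 145) (nat_lit 120)) (PT.lf (nat_lit 13528) (nat_lit 6) (nat_lit 178) (nat_lit 2) (nat_lit 126) (nat_lit 145) (nat_lit 119))))))) (PT.nd (nat_lit 1014) (PT.nd (nat_lit 468) (PT.nd (nat_lit 234) (PT.nd (nat_lit 78) (PT.lf (nat_lit 13604) (nat_lit 6) (nat_lit 179) (nat_lit 2) (nat_lit 127) (nat_lit 145) (nat_lit 118)) (PT.nd (nat_lit 78) (PT.lf (nat_lit 13680) (nat_lit 6) (nat_lit 180) (nat_lit 2) (nat_lit 128) (nat_lit 145) (nat_lit 117)) (PT.lf (nat_lit 13756) (nat_lit 6)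 (nat_lit 181) (nat_lit 2) (nat_lit 129) (nat_lit 145) (nat_lit 116)))) (PT.nd (nat_lit 78) (PT.lf (nat_lit 13832) (nat_lit 6) (nat_lit 182) (nat_lit 2) (nat_lit 130) (nat_lit 145) (nat_lit 115)) (PT.nd (nat_lit 78) (PT.lf (nat_lit 12692) (nat_lit 6) (nat_lit 167) (nat_lit 2) (nat_lit 131) (nat_lit 145) (nat_lit 114)) (PT.lf (nat_lit 12160) (nat_lit 6) (nat_lit 160) (nat_lit 2) (nat_lit 132) (nat_lit 145) (nat_lit 113))))) (PT.nd (nat_lit 234) (PT.nd (nat_lit 78) (PT.lf (nat_lit 11552) (nat_lit 6) (nat_lit 152) (nat_lit 2) (nat_lit 133) (nat_lit 145) (nat_lit 112)) (PT.nd (nat_lit 78) (PT.lf (nat_lit 11020) (nat_lit 6) (nat_lit 145) (nat_lit 2) (nat_lit 134) (nat_lit 145) (nat_lit 111)) (PT.lf (nat_lit 10488) (nat_lit 6) (nat_lit 138) (nat_lit 2) (nat_lit 135) (nat_lit 145) (nat_lit 110)))) (PT.nd (nat_lit 156) (PT.nd (nat_lit 78) (PT.lf (nat_lit 10032) (nat_lit 6) (nat_lit 132) (nat_lit 2) (nat_lit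 136) (nat_lit 145) (nat_lit 109)) (PT.lf (nat_lit 9576) (nat_lit 6) (nat_lit 126) (nat_lit 2) (nat_lit 137) (nat_lit 145) (nat_lit 108))) (PT.nd (nat_lit 78) (PT.lf (nat_lit 9120) (nat_lit 6) (nat_lit 120) (nat_lit 2) (nat_lit 138) (nat_lit 145) (nat_lit 107)) (PT.lf (nat_lit 8664) (nat_lit 6) (nat_lit 114) (nat_lit 2) (nat_lit 139) (nat_lit 145) (nat_lit 106)))))) (PT.nd (nat_lit 546) (PT.nd (nat_lit 234) (PT.nd (nat_lit 78) (PT.lf (nat_lit 8284) (nat_lit 6) (nat_lit 109) (nat_lit 2) (nat_lit 140) (nat_lit 145) (nat_lit 105)) (PT.nd (nat_lit 78) (PT.lf (nat_lit 7904) (nat_lit 6) (nat_lit 104) (nat_lit 2) (nat_lit 141) (nat_lit 145) (nat_lit 104)) (PT.lf (nat_lit 7524) (nat_lit 6) (nat_lit 99) (nat_lit 2) (nat_lit 142) (nat_lit 145) (nat_lit 103)))) (PT.nd (nat_lit 156) (PT.nd (nat_lit 78) (PT.lf (nat_lit 7144) (nat_lit 6) (nat_lit 94) (nat_lit 2) (nat_lit 143) (nat_lit 145) (nat_lit 102)) (PT.lf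 (nat_lit 6840) (nat_lit 6) (nat_lit 90) (nat_lit 2) (nat_lit 144) (nat_lit 145) (nat_lit 101))) (PT.nd (nat_lit 78) (PT.lf (nat_lit 6460) (nat_lit 3) (nat_lit 85) (nat_lit 0) (nat_lit 145) (nat_lit 145) (nat_lit 100)) (PT.lf (nat_lit 6080) (nat_lit 6) (nat_lit 80) (nat_lit 0) (nat_lit 146) (nat_lit 145) (nat_lit 99))))) (PT.nd (nat_lit 234) (PT.nd (nat_lit 78) (PT.lf (nat_lit 5700) (nat_lit 6) (nat_lit 75) (nat_lit 0) (nat_lit 147) (nat_lit 145) (nat_lit 98)) (PT.nd (nat_lit 78) (PT.lf (nat_lit 5396) (nat_lit 6) (nat_lit 71) (nat_lit 0) (nat_lit 148) (nat_lit 145) (nat_lit 97)) (PT.lf (nat_lit 5016) (nat_lit 6) (nat_lit 66) (nat_lit 0) (nat_lit 149) (nat_lit 145) (nat_lit 96)))) (PT.nd (nat_lit 36192) (PT.nd (nat_lit 78) (PT.lf (nat_lit 4712) (nat_lit 6) (nat_lit 62) (nat_lit 0) (nat_lit 150) (nat_lit 145) (nat_lit 95)) (PT.lf (nat_lit 4408) (nat_lit 6) (nat_lit 58) (nat_lit 0) (nat_lit 151)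 (nat_lit 145) (nat_lit 94))) (PT.nd (nat_lit 78) (PT.lf (nat_lit 4180) (nat_lit 6) (nat_lit 55) (nat_lit 5) (nat_lit 93) (nat_lit 146) (nat_lit 151)) (PT.lf (nat_lit 4484) (nat_lit 6) (nat_lit 59) (nat_lit 5) (nat_lit 94) (nat_lit 146) (nat_lit 150))))))))
noncomputable def pc26 : PT := (PT.nd (nat_lit 3354) (PT.nd (nat_lit 1014) (PT.nd (nat_lit 468) (PT.nd (nat_lit 234) (PT.nd (nat_lit 78) (PT.lf (nat_lit 4788) (nat_lit 6) (nat_lit 63) (nat_lit 5) (nat_lit 95) (nat_lit 146) (nat_lit 149)) (PT.nd (nat_lit 78) (PT.lf (nat_lit 5092) (nat_lit 6) (nat_lit 67) (nat_lit 5) (nat_lit 96) (nat_lit 146) (nat_lit 148)) (PT.lf (nat_lit 5472) (nat_lit 6) (nat_lit 72) (nat_lit 5) (nat_lit 97) (nat_lit 146) (nat_lit 147)))) (PT.nd (nat_lit 78) (PT.lf (nat_lit 5776) (nat_lit 3) (nat_lit 76) (nat_lit 4) (nat_lit 98) (nat_lit 146) (nat_lit 146)) (PT.nd (nat_lit 78) (PT.lf (nat_lit 6080) (nat_lit 6) (nat_lit 80)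 (nat_lit 4) (nat_lit 99) (nat_lit 146) (nat_lit 145)) (PT.lf (nat_lit 6384) (nat_lit 6) (nat_lit 84) (nat_lit 4) (nat_lit 100) (nat_lit 146) (nat_lit 144))))) (PT.nd (nat_lit 234) (PT.nd (nat_lit 78) (PT.lf (nat_lit 6764) (nat_lit 6) (nat_lit 89) (nat_lit 4) (nat_lit 101) (nat_lit 146) (nat_lit 143)) (PT.nd (nat_lit 78) (PT.lf (nat_lit 7068) (nat_lit 6) (nat_lit 93) (nat_lit 4) (nat_lit 102) (nat_lit 146) (nat_lit 142)) (PT.lf (nat_lit 7448) (nat_lit 6) (nat_lit 98) (nat_lit 4) (nat_lit 103) (nat_lit 146) (nat_lit 141)))) (PT.nd (nat_lit 156) (PT.nd (nat_lit 78) (PT.lf (nat_lit 7828) (nat_lit 6) (nat_lit 103) (nat_lit 4) (nat_lit 104) (nat_lit 146) (nat_lit 140)) (PT.lf (nat_lit 8208) (nat_lit 6) (nat_lit 108) (nat_lit 4) (nat_lit 105) (nat_lit 146) (nat_lit 139))) (PT.nd (nat_lit 78) (PT.lf (nat_lit 8588) (nat_lit 6) (nat_lit 113) (nat_lit 4) (nat_lit 106) (nat_lit 146) (nat_lit 138)) (PT.lf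 (nat_lit 9044) (nat_lit 6) (nat_lit 119) (nat_lit 4) (nat_lit 107) (nat_lit 146) (nat_lit 137)))))) (PT.nd (nat_lit 1794) (PT.nd (nat_lit 234) (PT.nd (nat_lit 78) (PT.lf (nat_lit 9500) (nat_lit 6) (nat_lit 125) (nat_lit 4) (nat_lit 108) (nat_lit 146) (nat_lit 136)) (PT.nd (nat_lit 78) (PT.lf (nat_lit 9956) (nat_lit 6) (nat_lit 131) (nat_lit 4) (nat_lit 109) (nat_lit 146) (nat_lit 135)) (PT.lf (nat_lit 10412) (nat_lit 6) (nat_lit 137) (nat_lit 4) (nat_lit 110) (nat_lit 146) (nat_lit 134)))) (PT.nd (nat_lit 78) (PT.lf (nat_lit 10944) (nat_lit 6) (nat_lit 144) (nat_lit 4) (nat_lit 111) (nat_lit 146) (nat_lit 133)) (PT.nd (nat_lit 78) (PT.lf (nat_lit 11476) (nat_lit 6) (nat_lit 151) (nat_lit 4) (nat_lit 112) (nat_lit 146) (nat_lit 132)) (PT.lf (nat_lit 12084) (nat_lit 6) (nat_lit 159) (nat_lit 4) (nat_lit 113) (nat_lit 146) (nat_lit 131))))) (PT.nd (nat_lit 234) (PT.nd (nat_lit 78) (PT.lf (nat_lit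 12084) (nat_lit 6) (nat_lit 159) (nat_lit 2) (nat_lit 131) (nat_lit 146) (nat_lit 113)) (PT.nd (nat_lit 78) (PT.lf (nat_lit 11476) (nat_lit 6) (nat_lit 151) (nat_lit 2) (nat_lit 132) (nat_lit 146) (nat_lit 112)) (PT.lf (nat_lit 10944) (nat_lit 6) (nat_lit 144) (nat_lit 2) (nat_lit 133) (nat_lit 146) (nat_lit 111)))) (PT.nd (nat_lit 156) (PT.nd (nat_lit 78) (PT.lf (nat_lit 10412) (nat_lit 6) (nat_lit 137) (nat_lit 2) (nat_lit 134) (nat_lit 146) (nat_lit 110)) (PT.lf (nat_lit 9956) (nat_lit 6) (nat_lit 131) (nat_lit 2) (nat_lit 135) (nat_lit 146) (nat_lit 109))) (PT.nd (nat_lit 78) (PT.lf (nat_lit 9500) (nat_lit 6) (nat_lit 125) (nat_lit 2) (nat_lit 136) (nat_lit 146) (nat_lit 108)) (PT.lf (nat_lit 9044) (nat_lit 6) (nat_lit 119) (nat_lit 2) (nat_lit 137) (nat_lit 146) (nat_lit 107))))))) (PT.nd (nat_lit 1014) (PT.nd (nat_lit 468) (PT.nd (nat_lit 234) (PT.nd (nat_lit 78) (PT.lf (nat_lit 8588)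 (nat_lit 6) (nat_lit 113) (nat_lit 2) (nat_lit 138) (nat_lit 146) (nat_lit 106)) (PT.nd (nat_lit 78) (PT.lf (nat_lit 8208) (nat_lit 6) (nat_lit 108) (nat_lit 2) (nat_lit 139) (nat_lit 146) (nat_lit 105)) (PT.lf (nat_lit 7828) (nat_lit 6) (nat_lit 103) (nat_lit 2) (nat_lit 140) (nat_lit 146) (nat_lit 104)))) (PT.nd (nat_lit 78) (PT.lf (nat_lit 7448) (nat_lit 6) (nat_lit 98) (nat_lit 2) (nat_lit 141) (nat_lit 146) (nat_lit 103)) (PT.nd (nat_lit 78) (PT.lf (nat_lit 7068) (nat_lit 6) (nat_lit 93) (nat_lit 2) (nat_lit 142) (nat_lit 146) (nat_lit 102)) (PT.lf (nat_lit 6764) (nat_lit 6) (nat_lit 89) (nat_lit 2) (nat_lit 143) (nat_lit 146) (nat_lit 101))))) (PT.nd (nat_lit 234) (PT.nd (nat_lit 78) (PT.lf (nat_lit 6384) (nat_lit 6) (nat_lit 84) (nat_lit 2) (nat_lit 144) (nat_lit 146) (nat_lit 100)) (PT.nd (nat_lit 78) (PT.lf (nat_lit 6080) (nat_lit 6) (nat_lit 80) (nat_lit 2) (nat_lit 145) (nat_lit 146)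 (nat_lit 99)) (PT.lf (nat_lit 5776) (nat_lit 3) (nat_lit 76) (nat_lit 0) (nat_lit 146) (nat_lit 146) (nat_lit 98)))) (PT.nd (nat_lit 156) (PT.nd (nat_lit 78) (PT.lf (nat_lit 5472) (nat_lit 6) (nat_lit 72) (nat_lit 0) (nat_lit 147) (nat_lit 146) (nat_lit 97)) (PT.lf (nat_lit 5092) (nat_lit 6) (nat_lit 67) (nat_lit 0) (nat_lit 148) (nat_lit 146) (nat_lit 96))) (PT.nd (nat_lit 78) (PT.lf (nat_lit 4788) (nat_lit 6) (nat_lit 63) (nat_lit 0) (nat_lit 149) (nat_lit 146) (nat_lit 95)) (PT.lf (nat_lit 4484) (nat_lit 6) (nat_lit 59) (nat_lit 0) (nat_lit 150) (nat_lit 146) (nat_lit 94)))))) (PT.nd (nat_lit 36426) (PT.nd (nat_lit 36114) (PT.nd (nat_lit 35958) (PT.lf (nat_lit 4180) (nat_lit 6) (nat_lit 55) (nat_lit 0) (nat_lit 151) (nat_lit 146) (nat_lit 93)) (PT.nd (nat_lit 78) (PT.lf (nat_lit 3724) (nat_lit 6) (nat_lit 49) (nat_lit 5) (nat_lit 91) (nat_lit 147) (nat_lit 152)) (PT.lf (nat_lit 3952) (nat_lit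 6) (nat_lit 52) (nat_lit 5) (nat_lit 92) (nat_lit 147) (nat_lit 151)))) (PT.nd (nat_lit 156) (PT.nd (nat_lit 78) (PT.lf (nat_lit 4256) (nat_lit 6) (nat_lit 56) (nat_lit 5) (nat_lit 93) (nat_lit 147) (nat_lit 150)) (PT.lf (nat_lit 4560) (nat_lit 6) (nat_lit 60) (nat_lit 5) (nat_lit 94) (nat_lit 147) (nat_lit 149))) (PT.nd (nat_lit 78) (PT.lf (nat_lit 4864) (nat_lit 6) (nat_lit 64) (nat_lit 5) (nat_lit 95) (nat_lit 147) (nat_lit 148)) (PT.lf (nat_lit 5168) (nat_lit 3) (nat_lit 68) (nat_lit 4) (nat_lit 96) (nat_lit 147) (nat_lit 147))))) (PT.nd (nat_lit 234) (PT.nd (nat_lit 78) (PT.lf (nat_lit 5472) (nat_lit 6) (nat_lit 72) (nat_lit 4) (nat_lit 97) (nat_lit 147) (nat_lit 146)) (PT.nd (nat_lit 78) (PT.lf (nat_lit 5700) (nat_lit 6) (nat_lit 75) (nat_lit 4) (nat_lit 98) (nat_lit 147) (nat_lit 145)) (PT.lf (nat_lit 6004) (nat_lit 6) (nat_lit 79) (nat_lit 4) (nat_lit 99) (nat_lit 147) (nat_lit 144))))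 (PT.nd (nat_lit 156) (PT.nd (nat_lit 78) (PT.lf (nat_lit 6308) (nat_lit 6) (nat_lit 83) (nat_lit 4) (nat_lit 100) (nat_lit 147) (nat_lit 143)) (PT.lf (nat_lit 6688) (nat_lit 6) (nat_lit 88) (nat_lit 4) (nat_lit 101) (nat_lit 147) (nat_lit 142))) (PT.nd (nat_lit 78) (PT.lf (nat_lit 6992) (nat_lit 6) (nat_lit 92) (nat_lit 4) (nat_lit 102) (nat_lit 147) (nat_lit 141)) (PT.lf (nat_lit 7372) (nat_lit 6) (nat_lit 97) (nat_lit 4) (nat_lit 103) (nat_lit 147) (nat_lit 140))))))))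
noncomputable def pc27 : PT := (PT.nd (nat_lit 39702) (PT.nd (nat_lit 3042) (PT.nd (nat_lit 2496) (PT.nd (nat_lit 234) (PT.nd (nat_lit 78) (PT.lf (nat_lit 7752) (nat_lit 6) (nat_lit 102) (nat_lit 4) (nat_lit 104) (nat_lit 147) (nat_lit 139)) (PT.nd (nat_lit 78) (PT.lf (nat_lit 8132) (nat_lit 6) (nat_lit 107) (nat_lit 4) (nat_lit 105) (nat_lit 147) (nat_lit 138)) (PT.lf (nat_lit 8512) (nat_lit 6) (nat_lit 112) (nat_lit 4) (nat_lit 106) (nat_lit 147) (nat_lit 137)))) (PT.nd (nat_lit 78) (PT.lf (nat_lit 8968) (nat_lit 6) (nat_lit 118) (nat_lit 4) (nat_lit 107) (nat_lit 147) (nat_lit 136)) (PT.nd (nat_lit 2106) (PT.lf (nat_lit 9424) (nat_lit 6) (nat_lit 124) (nat_lit 4) (nat_lit 108) (nat_lit 147) (nat_lit 135)) (PT.lf (nat_lit 9424) (nat_lit 6) (nat_lit 124) (nat_lit 2) (nat_lit 135) (nat_lit 147) (nat_lit 108))))) (PT.nd (nat_lit 234) (PT.nd (nat_lit 78) (PT.lf (nat_lit 8968) (nat_lit 6) (nat_lit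 118) (nat_lit 2) (nat_lit 136) (nat_lit 147) (nat_lit 107)) (PT.nd (nat_lit 78) (PT.lf (nat_lit 8512) (nat_lit 6) (nat_lit 112) (nat_lit 2) (nat_lit 137) (nat_lit 147) (nat_lit 106)) (PT.lf (nat_lit 8132) (nat_lit 6) (nat_lit 107) (nat_lit 2) (nat_lit 138) (nat_lit 147) (nat_lit 105)))) (PT.nd (nat_lit 156) (PT.nd (nat_lit 78) (PT.lf (nat_lit 7752) (nat_lit 6) (nat_lit 102) (nat_lit 2) (nat_lit 139) (nat_lit 147) (nat_lit 104)) (PT.lf (nat_lit 7372) (nat_lit 6) (nat_lit 97) (nat_lit 2) (nat_lit 140) (nat_lit 147) (nat_lit 103))) (PT.nd (nat_lit 78) (PT.lf (nat_lit 6992) (nat_lit 6) (nat_lit 92) (nat_lit 2) (nat_lit 141) (nat_lit 147) (nat_lit 102)) (PT.lf (nat_lit 6688) (nat_lit 6) (nat_lit 88) (nat_lit 2) (nat_lit 142) (nat_lit 147) (nat_lit 101)))))) (PT.nd (nat_lit 468) (PT.nd (nat_lit 234) (PT.nd (nat_lit 78) (PT.lf (nat_lit 6308) (nat_lit 6) (nat_lit 83) (nat_lit 2) (nat_lit 143) (nat_lit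 147) (nat_lit 100)) (PT.nd (nat_lit 78) (PT.lf (nat_lit 6004) (nat_lit 6) (nat_lit 79) (nat_lit 2) (nat_lit 144) (nat_lit 147) (nat_lit 99)) (PT.lf (nat_lit 5700) (nat_lit 6) (nat_lit 75) (nat_lit 2) (nat_lit 145) (nat_lit 147) (nat_lit 98)))) (PT.nd (nat_lit 78) (PT.lf (nat_lit 5472) (nat_lit 6) (nat_lit 72) (nat_lit 2) (nat_lit 146) (nat_lit 147) (nat_lit 97)) (PT.nd (nat_lit 78) (PT.lf (nat_lit 5168) (nat_lit 3) (nat_lit 68) (nat_lit 0) (nat_lit 147) (nat_lit 147) (nat_lit 96)) (PT.lf (nat_lit 4864) (nat_lit 6) (nat_lit 64) (nat_lit 0) (nat_lit 148) (nat_lit 147) (nat_lit 95))))) (PT.nd (nat_lit 234) (PT.nd (nat_lit 78) (PT.lf (nat_lit 4560) (nat_lit 6) (nat_lit 60) (nat_lit 0) (nat_lit 149) (nat_lit 147) (nat_lit 94)) (PT.nd (nat_lit 78) (PT.lf (nat_lit 4256) (nat_lit 6) (nat_lit 56) (nat_lit 0) (nat_lit 150) (nat_lit 147) (nat_lit 93)) (PT.lf (nat_lit 3952) (nat_lit 6) (nat_lit 52) (nat_lit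 0) (nat_lit 151) (nat_lit 147) (nat_lit 92)))) (PT.nd (nat_lit 35802) (PT.nd (nat_lit 35724) (PT.lf (nat_lit 3724) (nat_lit 6) (nat_lit 49) (nat_lit 0) (nat_lit 152) (nat_lit 147) (nat_lit 91)) (PT.lf (nat_lit 3268) (nat_lit 6) (nat_lit 43) (nat_lit 5) (nat_lit 89) (nat_lit 148) (nat_lit 153))) (PT.nd (nat_lit 78) (PT.lf (nat_lit 3496) (nat_lit 6) (nat_lit 46) (nat_lit 5) (nat_lit 90) (nat_lit 148) (nat_lit 152)) (PT.lf (nat_lit 3800) (nat_lit 6) (nat_lit 50) (nat_lit 5) (nat_lit 91) (nat_lit 148) (nat_lit 151))))))) (PT.nd (nat_lit 3588) (PT.nd (nat_lit 468) (PT.nd (nat_lit 234) (PT.nd (nat_lit 78) (PT.lf (nat_lit 4028) (nat_lit 6) (nat_lit 53) (nat_lit 5) (nat_lit 92) (nat_lit 148) (nat_lit 150)) (PT.nd (nat_lit 78) (PT.lf (nat_lit 4332) (nat_lit 6) (nat_lit 57) (nat_lit 5) (nat_lit 93) (nat_lit 148) (nat_lit 149)) (PT.lf (nat_lit 4636) (nat_lit 3) (nat_lit 61) (nat_lit 4) (nat_lit 94) (nat_lit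 148) (nat_lit 148)))) (PT.nd (nat_lit 78) (PT.lf (nat_lit 4864) (nat_lit 6) (nat_lit 64) (nat_lit 4) (nat_lit 95) (nat_lit 148) (nat_lit 147)) (PT.nd (nat_lit 78) (PT.lf (nat_lit 5092) (nat_lit 6) (nat_lit 67) (nat_lit 4) (nat_lit 96) (nat_lit 148) (nat_lit 146)) (PT.lf (nat_lit 5396) (nat_lit 6) (nat_lit 71) (nat_lit 4) (nat_lit 97) (nat_lit 148) (nat_lit 145))))) (PT.nd (nat_lit 234) (PT.nd (nat_lit 78) (PT.lf (nat_lit 5624) (nat_lit 6) (nat_lit 74) (nat_lit 4) (nat_lit 98) (nat_lit 148) (nat_lit 144)) (PT.nd (nat_lit 78) (PT.lf (nat_lit 5928) (nat_lit 6) (nat_lit 78) (nat_lit 4) (nat_lit 99) (nat_lit 148) (nat_lit 143)) (PT.lf (nat_lit 6232) (nat_lit 6) (nat_lit 82) (nat_lit 4) (nat_lit 100) (nat_lit 148) (nat_lit 142)))) (PT.nd (nat_lit 156) (PT.nd (nat_lit 78) (PT.lf (nat_lit 6612) (nat_lit 6) (nat_lit 87) (nat_lit 4) (nat_lit 101) (nat_lit 148) (nat_lit 141)) (PT.lf (nat_lit 6916) (nat_lit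 6) (nat_lit 91) (nat_lit 4) (nat_lit 102) (nat_lit 148) (nat_lit 140))) (PT.nd (nat_lit 78) (PT.lf (nat_lit 7296) (nat_lit 6) (nat_lit 96) (nat_lit 4) (nat_lit 103) (nat_lit 148) (nat_lit 139)) (PT.lf (nat_lit 7676) (nat_lit 6) (nat_lit 101) (nat_lit 4) (nat_lit 104) (nat_lit 148) (nat_lit 138)))))) (PT.nd (nat_lit 546) (PT.nd (nat_lit 234) (PT.nd (nat_lit 78) (PT.lf (nat_lit 7676) (nat_lit 6) (nat_lit 101) (nat_lit 2) (nat_lit 138) (nat_lit 148) (nat_lit 104)) (PT.nd (nat_lit 78) (PT.lf (nat_lit 7296) (nat_lit 6) (nat_lit 96) (nat_lit 2) (nat_lit 139) (nat_lit 148) (nat_lit 103)) (PT.lf (nat_lit 6916) (nat_lit 6) (nat_lit 91) (nat_lit 2) (nat_lit 140) (nat_lit 148) (nat_lit 102)))) (PT.nd (nat_lit 156) (PT.nd (nat_lit 78) (PT.lf (nat_lit 6612) (nat_lit 6) (nat_lit 87) (nat_lit 2) (nat_lit 141) (nat_lit 148) (nat_lit 101)) (PT.lf (nat_lit 6232) (nat_lit 6) (nat_lit 82) (nat_lit 2) (nat_lit 142)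 (nat_lit 148) (nat_lit 100))) (PT.nd (nat_lit 78) (PT.lf (nat_lit 5928) (nat_lit 6) (nat_lit 78) (nat_lit 2) (nat_lit 143) (nat_lit 148) (nat_lit 99)) (PT.lf (nat_lit 5624) (nat_lit 6) (nat_lit 74) (nat_lit 2) (nat_lit 144) (nat_lit 148) (nat_lit 98))))) (PT.nd (nat_lit 234) (PT.nd (nat_lit 78) (PT.lf (nat_lit 5396) (nat_lit 6) (nat_lit 71) (nat_lit 2) (nat_lit 145) (nat_lit 148) (nat_lit 97)) (PT.nd (nat_lit 78) (PT.lf (nat_lit 5092) (nat_lit 6) (nat_lit 67) (nat_lit 2) (nat_lit 146) (nat_lit 148) (nat_lit 96)) (PT.lf (nat_lit 4864) (nat_lit 6) (nat_lit 64) (nat_lit 2) (nat_lit 147) (nat_lit 148) (nat_lit 95)))) (PT.nd (nat_lit 156) (PT.nd (nat_lit 78) (PT.lf (nat_lit 4636) (nat_lit 3) (nat_lit 61) (nat_lit 0) (nat_lit 148) (nat_lit 148) (nat_lit 94)) (PT.lf (nat_lit 4332) (nat_lit 6) (nat_lit 57) (nat_lit 0) (nat_lit 149) (nat_lit 148) (nat_lit 93))) (PT.nd (nat_lit 78) (PT.lf (nat_lit 4028)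 (nat_lit 6) (nat_lit 53) (nat_lit 0) (nat_lit 150) (nat_lit 148) (nat_lit 92)) (PT.lf (nat_lit 3800) (nat_lit 6) (nat_lit 50) (nat_lit 0) (nat_lit 151) (nat_lit 148) (nat_lit 91))))))))
noncomputable def pc28 : PT := (PT.nd (nat_lit 40482) (PT.nd (nat_lit 36504) (PT.nd (nat_lit 35958) (PT.nd (nat_lit 35724) (PT.nd (nat_lit 78) (PT.lf (nat_lit 3496) (nat_lit 6) (nat_lit 46) (nat_lit 0) (nat_lit 152) (nat_lit 148) (nat_lit 90)) (PT.nd (nat_lit 35568) (PT.lf (nat_lit 3268) (nat_lit 6) (nat_lit 43) (nat_lit 0) (nat_lit 153) (nat_lit 148) (nat_lit 89)) (PT.lf (nat_lit 3040) (nat_lit 6) (nat_lit 40) (nat_lit 5) (nat_lit 88) (nat_lit 149) (nat_lit 153)))) (PT.nd (nat_lit 78) (PT.lf (nat_lit 3344) (nat_lit 6) (nat_lit 44) (nat_lit 5) (nat_lit 89) (nat_lit 149) (nat_lit 152)) (PT.nd (nat_lit 78) (PT.lf (nat_lit 3572) (nat_lit 6) (nat_lit 47) (nat_lit 5) (nat_lit 90) (nat_lit 149) (nat_lit 151)) (PT.lf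 (nat_lit 3876) (nat_lit 6) (nat_lit 51) (nat_lit 5) (nat_lit 91) (nat_lit 149) (nat_lit 150))))) (PT.nd (nat_lit 234) (PT.nd (nat_lit 78) (PT.lf (nat_lit 4104) (nat_lit 3) (nat_lit 54) (nat_lit 4) (nat_lit 92) (nat_lit 149) (nat_lit 149)) (PT.nd (nat_lit 78) (PT.lf (nat_lit 4332) (nat_lit 6) (nat_lit 57) (nat_lit 4) (nat_lit 93) (nat_lit 149) (nat_lit 148)) (PT.lf (nat_lit 4560) (nat_lit 6) (nat_lit 60) (nat_lit 4) (nat_lit 94) (nat_lit 149) (nat_lit 147)))) (PT.nd (nat_lit 156) (PT.nd (nat_lit 78) (PT.lf (nat_lit 4788) (nat_lit 6) (nat_lit 63) (nat_lit 4) (nat_lit 95) (nat_lit 149) (nat_lit 146)) (PT.lf (nat_lit 5016) (nat_lit 6) (nat_lit 66) (nat_lit 4) (nat_lit 96) (nat_lit 149) (nat_lit 145))) (PT.nd (nat_lit 78) (PT.lf (nat_lit 5320) (nat_lit 6) (nat_lit 70) (nat_lit 4) (nat_lit 97) (nat_lit 149) (nat_lit 144)) (PT.lf (nat_lit 5548) (nat_lit 6) (nat_lit 73) (nat_lit 4) (nat_lit 98) (nat_lit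 149) (nat_lit 143)))))) (PT.nd (nat_lit 3432) (PT.nd (nat_lit 3198) (PT.nd (nat_lit 78) (PT.lf (nat_lit 5852) (nat_lit 6) (nat_lit 77) (nat_lit 4) (nat_lit 99) (nat_lit 149) (nat_lit 142)) (PT.nd (nat_lit 78) (PT.lf (nat_lit 6156) (nat_lit 6) (nat_lit 81) (nat_lit 4) (nat_lit 100) (nat_lit 149) (nat_lit 141)) (PT.lf (nat_lit 6536) (nat_lit 6) (nat_lit 86) (nat_lit 4) (nat_lit 101) (nat_lit 149) (nat_lit 140)))) (PT.nd (nat_lit 78) (PT.lf (nat_lit 6536) (nat_lit 6) (nat_lit 86) (nat_lit 2) (nat_lit 140) (nat_lit 149) (nat_lit 101)) (PT.nd (nat_lit 78) (PT.lf (nat_lit 6156) (nat_lit 6) (nat_lit 81) (nat_lit 2) (nat_lit 141) (nat_lit 149) (nat_lit 100)) (PT.lf (nat_lit 5852) (nat_lit 6) (nat_lit 77) (nat_lit 2) (nat_lit 142) (nat_lit 149) (nat_lit 99))))) (PT.nd (nat_lit 234) (PT.nd (nat_lit 78) (PT.lf (nat_lit 5548) (nat_lit 6) (nat_lit 73) (nat_lit 2) (nat_lit 143) (nat_lit 149) (nat_lit 98))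 (PT.nd (nat_lit 78) (PT.lf (nat_lit 5320) (nat_lit 6) (nat_lit 70) (nat_lit 2) (nat_lit 144) (nat_lit 149) (nat_lit 97)) (PT.lf (nat_lit 5016) (nat_lit 6) (nat_lit 66) (nat_lit 2) (nat_lit 145) (nat_lit 149) (nat_lit 96)))) (PT.nd (nat_lit 156) (PT.nd (nat_lit 78) (PT.lf (nat_lit 4788) (nat_lit 6) (nat_lit 63) (nat_lit 2) (nat_lit 146) (nat_lit 149) (nat_lit 95)) (PT.lf (nat_lit 4560) (nat_lit 6) (nat_lit 60) (nat_lit 2) (nat_lit 147) (nat_lit 149) (nat_lit 94))) (PT.nd (nat_lit 78) (PT.lf (nat_lit 4332) (nat_lit 6) (nat_lit 57) (nat_lit 2) (nat_lit 148) (nat_lit 149) (nat_lit 93)) (PT.lf (nat_lit 4104) (nat_lit 3) (nat_lit 54) (nat_lit 0) (nat_lit 149) (nat_lit 149) (nat_lit 92))))))) (PT.nd (nat_lit 36348) (PT.nd (nat_lit 35802) (PT.nd (nat_lit 234) (PT.nd (nat_lit 78) (PT.lf (nat_lit 3876) (nat_lit 6) (nat_lit 51) (nat_lit 0) (nat_lit 150) (nat_lit 149) (nat_lit 91)) (PT.nd (nat_lit 78) (PT.lf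 (nat_lit 3572) (nat_lit 6) (nat_lit 47) (nat_lit 0) (nat_lit 151) (nat_lit 149) (nat_lit 90)) (PT.lf (nat_lit 3344) (nat_lit 6) (nat_lit 44) (nat_lit 0) (nat_lit 152) (nat_lit 149) (nat_lit 89)))) (PT.nd (nat_lit 35412) (PT.lf (nat_lit 3040) (nat_lit 6) (nat_lit 40) (nat_lit 0) (nat_lit 153) (nat_lit 149) (nat_lit 88)) (PT.nd (nat_lit 78) (PT.lf (nat_lit 2660) (nat_lit 6) (nat_lit 35) (nat_lit 5) (nat_lit 86) (nat_lit 150) (nat_lit 154)) (PT.lf (nat_lit 2888) (nat_lit 6) (nat_lit 38) (nat_lit 5) (nat_lit 87) (nat_lit 150) (nat_lit 153))))) (PT.nd (nat_lit 234) (PT.nd (nat_lit 78) (PT.lf (nat_lit 3116) (nat_lit 6) (nat_lit 41) (nat_lit 5) (nat_lit 88) (nat_lit 150) (nat_lit 152)) (PT.nd (nat_lit 78) (PT.lf (nat_lit 3420) (nat_lit 6) (nat_lit 45) (nat_lit 5) (nat_lit 89) (nat_lit 150) (nat_lit 151)) (PT.lf (nat_lit 3648) (nat_lit 3) (nat_lit 48) (nat_lit 4) (nat_lit 90) (nat_lit 150) (nat_lit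 150)))) (PT.nd (nat_lit 156) (PT.nd (nat_lit 78) (PT.lf (nat_lit 3876) (nat_lit 6) (nat_lit 51) (nat_lit 4) (nat_lit 91) (nat_lit 150) (nat_lit 149)) (PT.lf (nat_lit 4028) (nat_lit 6) (nat_lit 53) (nat_lit 4) (nat_lit 92) (nat_lit 150) (nat_lit 148))) (PT.nd (nat_lit 78) (PT.lf (nat_lit 4256) (nat_lit 6) (nat_lit 56) (nat_lit 4) (nat_lit 93) (nat_lit 150) (nat_lit 147)) (PT.lf (nat_lit 4484) (nat_lit 6) (nat_lit 59) (nat_lit 4) (nat_lit 94) (nat_lit 150) (nat_lit 146)))))) (PT.nd (nat_lit 4056) (PT.nd (nat_lit 3744) (PT.nd (nat_lit 78) (PT.lf (nat_lit 4712) (nat_lit 6) (nat_lit 62) (nat_lit 4) (nat_lit 95) (nat_lit 150) (nat_lit 145)) (PT.nd (nat_lit 78) (PT.lf (nat_lit 4940) (nat_lit 6) (nat_lit 65) (nat_lit 4) (nat_lit 96) (nat_lit 150) (nat_lit 144)) (PT.lf (nat_lit 5244) (nat_lit 6) (nat_lit 69) (nat_lit 4) (nat_lit 97) (nat_lit 150) (nat_lit 143)))) (PT.nd (nat_lit 156) (PT.nd (nat_lit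 78) (PT.lf (nat_lit 5244) (nat_lit 6) (nat_lit 69) (nat_lit 2) (nat_lit 143) (nat_lit 150) (nat_lit 97)) (PT.lf (nat_lit 4940) (nat_lit 6) (nat_lit 65) (nat_lit 2) (nat_lit 144) (nat_lit 150) (nat_lit 96))) (PT.nd (nat_lit 78) (PT.lf (nat_lit 4712) (nat_lit 6) (nat_lit 62) (nat_lit 2) (nat_lit 145) (nat_lit 150) (nat_lit 95)) (PT.lf (nat_lit 4484) (nat_lit 6) (nat_lit 59) (nat_lit 2) (nat_lit 146) (nat_lit 150) (nat_lit 94))))) (PT.nd (nat_lit 234) (PT.nd (nat_lit 78) (PT.lf (nat_lit 4256) (nat_lit 6) (nat_lit 56) (nat_lit 2) (nat_lit 147) (nat_lit 150) (nat_lit 93)) (PT.nd (nat_lit 78) (PT.lf (nat_lit 4028) (nat_lit 6) (nat_lit 53) (nat_lit 2) (nat_lit 148) (nat_lit 150) (nat_lit 92)) (PT.lf (nat_lit 3876) (nat_lit 6) (nat_lit 51) (nat_lit 2) (nat_lit 149) (nat_lit 150) (nat_lit 91)))) (PT.nd (nat_lit 156) (PT.nd (nat_lit 78) (PT.lf (nat_lit 3648) (nat_lit 3) (nat_lit 48) (nat_lit 0) (nat_lit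 150) (nat_lit 150) (nat_lit 90)) (PT.lf (nat_lit 3420) (nat_lit 6) (nat_lit 45) (nat_lit 0) (nat_lit 151) (nat_lit 150) (nat_lit 89))) (PT.nd (nat_lit 78) (PT.lf (nat_lit 3116) (nat_lit 6) (nat_lit 41) (nat_lit 0) (nat_lit 152) (nat_lit 150) (nat_lit 88)) (PT.lf (nat_lit 2888) (nat_lit 6) (nat_lit 38) (nat_lit 0) (nat_lit 153) (nat_lit 150) (nat_lit 87))))))))
noncomputable def pc29 : PT := (PT.nd (nat_lit 75972) (PT.nd (nat_lit 40014) (PT.nd (nat_lit 35568) (PT.nd (nat_lit 35334) (PT.nd (nat_lit 35178) (PT.lf (nat_lit 2660) (nat_lit 6) (nat_lit 35) (nat_lit 0) (nat_lit 154) (nat_lit 150) (nat_lit 86)) (PT.nd (nat_lit 78) (PT.lf (nat_lit 2280) (nat_lit 6) (nat_lit 30) (nat_lit 5) (nat_lit 84) (nat_lit 151) (nat_lit 155)) (PT.lf (nat_lit 2508) (nat_lit 6) (nat_lit 33) (nat_lit 5) (nat_lit 85) (nat_lit 151) (nat_lit 154)))) (PT.nd (nat_lit 78) (PT.lf (nat_lit 2736) (nat_lit 6) (nat_lit 36) (nat_lit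 5) (nat_lit 86) (nat_lit 151) (nat_lit 153)) (PT.nd (nat_lit 78) (PT.lf (nat_lit 2964) (nat_lit 6) (nat_lit 39) (nat_lit 5) (nat_lit 87) (nat_lit 151) (nat_lit 152)) (PT.lf (nat_lit 3192) (nat_lit 3) (nat_lit 42) (nat_lit 4) (nat_lit 88) (nat_lit 151) (nat_lit 151))))) (PT.nd (nat_lit 234) (PT.nd (nat_lit 78) (PT.lf (nat_lit 3420) (nat_lit 6) (nat_lit 45) (nat_lit 4) (nat_lit 89) (nat_lit 151) (nat_lit 150)) (PT.nd (nat_lit 78) (PT.lf (nat_lit 3572) (nat_lit 6) (nat_lit 47) (nat_lit 4) (nat_lit 90) (nat_lit 151) (nat_lit 149)) (PT.lf (nat_lit 3800) (nat_lit 6) (nat_lit 50) (nat_lit 4) (nat_lit 91) (nat_lit 151) (nat_lit 148)))) (PT.nd (nat_lit 156) (PT.nd (nat_lit 78) (PT.lf (nat_lit 3952) (nat_lit 6) (nat_lit 52) (nat_lit 4) (nat_lit 92) (nat_lit 151) (nat_lit 147)) (PT.lf (nat_lit 4180) (nat_lit 6) (nat_lit 55) (nat_lit 4) (nat_lit 93) (nat_lit 151) (nat_lit 146))) (PT.nd (nat_lit 3978) (PT.lf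 (nat_lit 4408) (nat_lit 6) (nat_lit 58) (nat_lit 4) (nat_lit 94) (nat_lit 151) (nat_lit 145)) (PT.lf (nat_lit 4408) (nat_lit 6) (nat_lit 58) (nat_lit 2) (nat_lit 145) (nat_lit 151) (nat_lit 94)))))) (PT.nd (nat_lit 468) (PT.nd (nat_lit 234) (PT.nd (nat_lit 78) (PT.lf (nat_lit 4180) (nat_lit 6) (nat_lit 55) (nat_lit 2) (nat_lit 146) (nat_lit 151) (nat_lit 93)) (PT.nd (nat_lit 78) (PT.lf (nat_lit 3952) (nat_lit 6) (nat_lit 52) (nat_lit 2) (nat_lit 147) (nat_lit 151) (nat_lit 92)) (PT.lf (nat_lit 3800) (nat_lit 6) (nat_lit 50) (nat_lit 2) (nat_lit 148) (nat_lit 151) (nat_lit 91)))) (PT.nd (nat_lit 78) (PT.lf (nat_lit 3572) (nat_lit 6) (nat_lit 47) (nat_lit 2) (nat_lit 149) (nat_lit 151) (nat_lit 90)) (PT.nd (nat_lit 78) (PT.lf (nat_lit 3420) (nat_lit 6) (nat_lit 45) (nat_lit 2) (nat_lit 150) (nat_lit 151) (nat_lit 89)) (PT.lf (nat_lit 3192) (nat_lit 3) (nat_lit 42) (nat_lit 0) (nat_lit 151) (nat_lit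 151) (nat_lit 88))))) (PT.nd (nat_lit 234) (PT.nd (nat_lit 78) (PT.lf (nat_lit 2964) (nat_lit 6) (nat_lit 39) (nat_lit 0) (nat_lit 152) (nat_lit 151) (nat_lit 87)) (PT.nd (nat_lit 78) (PT.lf (nat_lit 2736) (nat_lit 6) (nat_lit 36) (nat_lit 0) (nat_lit 153) (nat_lit 151) (nat_lit 86)) (PT.lf (nat_lit 2508) (nat_lit 6) (nat_lit 33) (nat_lit 0) (nat_lit 154) (nat_lit 151) (nat_lit 85)))) (PT.nd (nat_lit 35100) (PT.nd (nat_lit 35022) (PT.lf (nat_lit 2280) (nat_lit 6) (nat_lit 30) (nat_lit 0) (nat_lit 155) (nat_lit 151) (nat_lit 84)) (PT.lf (nat_lit 2128) (nat_lit 6) (nat_lit 28) (nat_lit 5) (nat_lit 83) (nat_lit 152) (nat_lit 155))) (PT.nd (nat_lit 78) (PT.lf (nat_lit 2356) (nat_lit 6) (nat_lit 31) (nat_lit 5) (nat_lit 84) (nat_lit 152) (nat_lit 154)) (PT.lf (nat_lit 2584) (nat_lit 6) (nat_lit 34) (nat_lit 5) (nat_lit 85) (nat_lit 152) (nat_lit 153))))))) (PT.nd (nat_lit 5304) (PT.nd (nat_lit 4758)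 (PT.nd (nat_lit 234) (PT.nd (nat_lit 78) (PT.lf (nat_lit 2812) (nat_lit 3) (nat_lit 37) (nat_lit 4) (nat_lit 86) (nat_lit 152) (nat_lit 152)) (PT.nd (nat_lit 78) (PT.lf (nat_lit 2964) (nat_lit 6) (nat_lit 39) (nat_lit 4) (nat_lit 87) (nat_lit 152) (nat_lit 151)) (PT.lf (nat_lit 3116) (nat_lit 6) (nat_lit 41) (nat_lit 4) (nat_lit 88) (nat_lit 152) (nat_lit 150)))) (PT.nd (nat_lit 78) (PT.lf (nat_lit 3344) (nat_lit 6) (nat_lit 44) (nat_lit 4) (nat_lit 89) (nat_lit 152) (nat_lit 149)) (PT.nd (nat_lit 78) (PT.lf (nat_lit 3496) (nat_lit 6) (nat_lit 46) (nat_lit 4) (nat_lit 90) (nat_lit 152) (nat_lit 148)) (PT.lf (nat_lit 3724) (nat_lit 6) (nat_lit 49) (nat_lit 4) (nat_lit 91) (nat_lit 152) (nat_lit 147))))) (PT.nd (nat_lit 234) (PT.nd (nat_lit 78) (PT.lf (nat_lit 3724) (nat_lit 6) (nat_lit 49) (nat_lit 2) (nat_lit 147) (nat_lit 152) (nat_lit 91)) (PT.nd (nat_lit 78) (PT.lf (nat_lit 3496) (nat_lit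 6) (nat_lit 46) (nat_lit 2) (nat_lit 148) (nat_lit 152) (nat_lit 90)) (PT.lf (nat_lit 3344) (nat_lit 6) (nat_lit 44) (nat_lit 2) (nat_lit 149) (nat_lit 152) (nat_lit 89)))) (PT.nd (nat_lit 156) (PT.nd (nat_lit 78) (PT.lf (nat_lit 3116) (nat_lit 6) (nat_lit 41) (nat_lit 2) (nat_lit 150) (nat_lit 152) (nat_lit 88)) (PT.lf (nat_lit 2964) (nat_lit 6) (nat_lit 39) (nat_lit 2) (nat_lit 151) (nat_lit 152) (nat_lit 87))) (PT.nd (nat_lit 78) (PT.lf (nat_lit 2812) (nat_lit 3) (nat_lit 37) (nat_lit 0) (nat_lit 152) (nat_lit 152) (nat_lit 86)) (PT.lf (nat_lit 2584) (nat_lit 6) (nat_lit 34) (nat_lit 0) (nat_lit 153) (nat_lit 152) (nat_lit 85)))))) (PT.nd (nat_lit 35334) (PT.nd (nat_lit 35022) (PT.nd (nat_lit 78) (PT.lf (nat_lit 2356) (nat_lit 6) (nat_lit 31) (nat_lit 0) (nat_lit 154) (nat_lit 152) (nat_lit 84)) (PT.nd (nat_lit 34866) (PT.lf (nat_lit 2128) (nat_lit 6) (nat_lit 28) (nat_lit 0) (nat_lit 155)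 (nat_lit 152) (nat_lit 83)) (PT.lf (nat_lit 1824) (nat_lit 6) (nat_lit 24) (nat_lit 5) (nat_lit 81) (nat_lit 153) (nat_lit 156)))) (PT.nd (nat_lit 156) (PT.nd (nat_lit 78) (PT.lf (nat_lit 1976) (nat_lit 6) (nat_lit 26) (nat_lit 5) (nat_lit 82) (nat_lit 153) (nat_lit 155)) (PT.lf (nat_lit 2204) (nat_lit 6) (nat_lit 29) (nat_lit 5) (nat_lit 83) (nat_lit 153) (nat_lit 154))) (PT.nd (nat_lit 78) (PT.lf (nat_lit 2432) (nat_lit 3) (nat_lit 32) (nat_lit 4) (nat_lit 84) (nat_lit 153) (nat_lit 153)) (PT.lf (nat_lit 2584) (nat_lit 6) (nat_lit 34) (nat_lit 4) (nat_lit 85) (nat_lit 153) (nat_lit 152))))) (PT.nd (nat_lit 234) (PT.nd (nat_lit 78) (PT.lf (nat_lit 2736) (nat_lit 6) (nat_lit 36) (nat_lit 4) (nat_lit 86) (nat_lit 153) (nat_lit 151)) (PT.nd (nat_lit 78) (PT.lf (nat_lit 2888) (nat_lit 6) (nat_lit 38) (nat_lit 4) (nat_lit 87) (nat_lit 153) (nat_lit 150)) (PT.lf (nat_lit 3040) (nat_lit 6) (nat_lit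 40) (nat_lit 4) (nat_lit 88) (nat_lit 153) (nat_lit 149)))) (PT.nd (nat_lit 4680) (PT.nd (nat_lit 4602) (PT.lf (nat_lit 3268) (nat_lit 6) (nat_lit 43) (nat_lit 4) (nat_lit 89) (nat_lit 153) (nat_lit 148)) (PT.lf (nat_lit 3268) (nat_lit 6) (nat_lit 43) (nat_lit 2) (nat_lit 148) (nat_lit 153) (nat_lit 89))) (PT.nd (nat_lit 78) (PT.lf (nat_lit 3040) (nat_lit 6) (nat_lit 40) (nat_lit 2) (nat_lit 149) (nat_lit 153) (nat_lit 88)) (PT.lf (nat_lit 2888) (nat_lit 6) (nat_lit 38) (nat_lit 2) (nat_lit 150) (nat_lit 153) (nat_lit 87))))))))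
noncomputable def pc30 : PT := (PT.nd (nat_lit 75816) (PT.nd (nat_lit 35568) (PT.nd (nat_lit 35022) (PT.nd (nat_lit 234) (PT.nd (nat_lit 78) (PT.lf (nat_lit 2736) (nat_lit 6) (nat_lit 36) (nat_lit 2) (nat_lit 151) (nat_lit 153) (nat_lit 86)) (PT.nd (nat_lit 78) (PT.lf (nat_lit 2584) (nat_lit 6) (nat_lit 34) (nat_lit 2) (nat_lit 152) (nat_lit 153) (nat_lit 85)) (PT.lf (nat_lit 2432) (nat_lit 3) (nat_lit 32) (nat_lit 0) (nat_lit 153) (nat_lit 153) (nat_lit 84)))) (PT.nd (nat_lit 78) (PT.lf (nat_lit 2204) (nat_lit 6) (nat_lit 29) (nat_lit 0) (nat_lit 154) (nat_lit 153) (nat_lit 83)) (PT.nd (nat_lit 78) (PT.lf (nat_lit 1976) (nat_lit 6) (nat_lit 26) (nat_lit 0) (nat_lit 155) (nat_lit 153) (nat_lit 82)) (PT.lf (nat_lit 1824) (nat_lit 6) (nat_lit 24) (nat_lit 0) (nat_lit 156) (nat_lit 153) (nat_lit 81))))) (PT.nd (nat_lit 234) (PT.nd (nat_lit 78) (PT.lf (nat_lit 1520) (nat_lit 6) (nat_lit 20) (nat_lit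 5) (nat_lit 79) (nat_lit 154) (nat_lit 157)) (PT.nd (nat_lit 78) (PT.lf (nat_lit 1672) (nat_lit 6) (nat_lit 22) (nat_lit 5) (nat_lit 80) (nat_lit 154) (nat_lit 156)) (PT.lf (nat_lit 1900) (nat_lit 6) (nat_lit 25) (nat_lit 5) (nat_lit 81) (nat_lit 154) (nat_lit 155)))) (PT.nd (nat_lit 156) (PT.nd (nat_lit 78) (PT.lf (nat_lit 2052) (nat_lit 3) (nat_lit 27) (nat_lit 4) (nat_lit 82) (nat_lit 154) (nat_lit 154)) (PT.lf (nat_lit 2204) (nat_lit 6) (nat_lit 29) (nat_lit 4) (nat_lit 83) (nat_lit 154) (nat_lit 153))) (PT.nd (nat_lit 78) (PT.lf (nat_lit 2356) (nat_lit 6) (nat_lit 31) (nat_lit 4) (nat_lit 84) (nat_lit 154) (nat_lit 152)) (PT.lf (nat_lit 2508) (nat_lit 6) (nat_lit 33) (nat_lit 4) (nat_lit 85) (nat_lit 154) (nat_lit 151)))))) (PT.nd (nat_lit 5382) (PT.nd (nat_lit 5148) (PT.nd (nat_lit 4992) (PT.lf (nat_lit 2660) (nat_lit 6) (nat_lit 35) (nat_lit 4) (nat_lit 86) (nat_lit 154) (nat_lit 150))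 (PT.nd (nat_lit 78) (PT.lf (nat_lit 2660) (nat_lit 6) (nat_lit 35) (nat_lit 2) (nat_lit 150) (nat_lit 154) (nat_lit 86)) (PT.lf (nat_lit 2508) (nat_lit 6) (nat_lit 33) (nat_lit 2) (nat_lit 151) (nat_lit 154) (nat_lit 85)))) (PT.nd (nat_lit 78) (PT.lf (nat_lit 2356) (nat_lit 6) (nat_lit 31) (nat_lit 2) (nat_lit 152) (nat_lit 154) (nat_lit 84)) (PT.nd (nat_lit 78) (PT.lf (nat_lit 2204) (nat_lit 6) (nat_lit 29) (nat_lit 2) (nat_lit 153) (nat_lit 154) (nat_lit 83)) (PT.lf (nat_lit 2052) (nat_lit 3) (nat_lit 27) (nat_lit 0) (nat_lit 154) (nat_lit 154) (nat_lit 82))))) (PT.nd (nat_lit 34554) (PT.nd (nat_lit 78) (PT.lf (nat_lit 1900) (nat_lit 6) (nat_lit 25) (nat_lit 0) (nat_lit 155) (nat_lit 154) (nat_lit 81)) (PT.nd (nat_lit 78) (PT.lf (nat_lit 1672) (nat_lit 6) (nat_lit 22) (nat_lit 0) (nat_lit 156) (nat_lit 154) (nat_lit 80)) (PT.lf (nat_lit 1520) (nat_lit 6) (nat_lit 20) (nat_lit 0) (nat_lit 157)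 (nat_lit 154) (nat_lit 79)))) (PT.nd (nat_lit 156) (PT.nd (nat_lit 78) (PT.lf (nat_lit 1216) (nat_lit 6) (nat_lit 16) (nat_lit 5) (nat_lit 77) (nat_lit 155) (nat_lit 158)) (PT.lf (nat_lit 1368) (nat_lit 6) (nat_lit 18) (nat_lit 5) (nat_lit 78) (nat_lit 155) (nat_lit 157))) (PT.nd (nat_lit 78) (PT.lf (nat_lit 1596) (nat_lit 6) (nat_lit 21) (nat_lit 5) (nat_lit 79) (nat_lit 155) (nat_lit 156)) (PT.lf (nat_lit 1748) (nat_lit 3) (nat_lit 23) (nat_lit 4) (nat_lit 80) (nat_lit 155) (nat_lit 155))))))) (PT.nd (nat_lit 40326) (PT.nd (nat_lit 5616) (PT.nd (nat_lit 234) (PT.nd (nat_lit 78) (PT.lf (nat_lit 1900) (nat_lit 6) (nat_lit 25) (nat_lit 4) (nat_lit 81) (nat_lit 155) (nat_lit 154)) (PT.nd (nat_lit 78) (PT.lf (nat_lit 1976) (nat_lit 6) (nat_lit 26) (nat_lit 4) (nat_lit 82) (nat_lit 155) (nat_lit 153)) (PT.lf (nat_lit 2128) (nat_lit 6) (nat_lit 28) (nat_lit 4) (nat_lit 83) (nat_lit 155) (nat_lit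 152)))) (PT.nd (nat_lit 5226) (PT.lf (nat_lit 2280) (nat_lit 6) (nat_lit 30) (nat_lit 4) (nat_lit 84) (nat_lit 155) (nat_lit 151)) (PT.nd (nat_lit 78) (PT.lf (nat_lit 2280) (nat_lit 6) (nat_lit 30) (nat_lit 2) (nat_lit 151) (nat_lit 155) (nat_lit 84)) (PT.lf (nat_lit 2128) (nat_lit 6) (nat_lit 28) (nat_lit 2) (nat_lit 152) (nat_lit 155) (nat_lit 83))))) (PT.nd (nat_lit 234) (PT.nd (nat_lit 78) (PT.lf (nat_lit 1976) (nat_lit 6) (nat_lit 26) (nat_lit 2) (nat_lit 153) (nat_lit 155) (nat_lit 82)) (PT.nd (nat_lit 78) (PT.lf (nat_lit 1900) (nat_lit 6) (nat_lit 25) (nat_lit 2) (nat_lit 154) (nat_lit 155) (nat_lit 81)) (PT.lf (nat_lit 1748) (nat_lit 3) (nat_lit 23) (nat_lit 0) (nat_lit 155) (nat_lit 155) (nat_lit 80)))) (PT.nd (nat_lit 156) (PT.nd (nat_lit 78) (PT.lf (nat_lit 1596) (nat_lit 6) (nat_lit 21) (nat_lit 0) (nat_lit 156) (nat_lit 155) (nat_lit 79)) (PT.lf (nat_lit 1368) (nat_lit 6) (nat_lit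 18) (nat_lit 0) (nat_lit 157) (nat_lit 155) (nat_lit 78))) (PT.nd (nat_lit 34242) (PT.lf (nat_lit 1216) (nat_lit 6) (nat_lit 16) (nat_lit 0) (nat_lit 158) (nat_lit 155) (nat_lit 77)) (PT.lf (nat_lit 1064) (nat_lit 6) (nat_lit 14) (nat_lit 5) (nat_lit 76) (nat_lit 156) (nat_lit 158)))))) (PT.nd (nat_lit 6084) (PT.nd (nat_lit 234) (PT.nd (nat_lit 78) (PT.lf (nat_lit 1292) (nat_lit 6) (nat_lit 17) (nat_lit 5) (nat_lit 77) (nat_lit 156) (nat_lit 157)) (PT.nd (nat_lit 78) (PT.lf (nat_lit 1444) (nat_lit 3) (nat_lit 19) (nat_lit 4) (nat_lit 78) (nat_lit 156) (nat_lit 156)) (PT.lf (nat_lit 1596) (nat_lit 6) (nat_lit 21) (nat_lit 4) (nat_lit 79) (nat_lit 156) (nat_lit 155)))) (PT.nd (nat_lit 5694) (PT.nd (nat_lit 78) (PT.lf (nat_lit 1672) (nat_lit 6) (nat_lit 22) (nat_lit 4) (nat_lit 80) (nat_lit 156) (nat_lit 154)) (PT.lf (nat_lit 1824) (nat_lit 6) (nat_lit 24) (nat_lit 4) (nat_lit 81) (nat_lit 156)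 (nat_lit 153))) (PT.nd (nat_lit 78) (PT.lf (nat_lit 1824) (nat_lit 6) (nat_lit 24) (nat_lit 2) (nat_lit 153) (nat_lit 156) (nat_lit 81)) (PT.lf (nat_lit 1672) (nat_lit 6) (nat_lit 22) (nat_lit 2) (nat_lit 154) (nat_lit 156) (nat_lit 80))))) (PT.nd (nat_lit 234) (PT.nd (nat_lit 78) (PT.lf (nat_lit 1596) (nat_lit 6) (nat_lit 21) (nat_lit 2) (nat_lit 155) (nat_lit 156) (nat_lit 79)) (PT.nd (nat_lit 78) (PT.lf (nat_lit 1444) (nat_lit 3) (nat_lit 19) (nat_lit 0) (nat_lit 156) (nat_lit 156) (nat_lit 78)) (PT.lf (nat_lit 1292) (nat_lit 6) (nat_lit 17) (nat_lit 0) (nat_lit 157) (nat_lit 156) (nat_lit 77)))) (PT.nd (nat_lit 34164) (PT.nd (nat_lit 34086) (PT.lf (nat_lit 1064) (nat_lit 6) (nat_lit 14) (nat_lit 0) (nat_lit 158) (nat_lit 156) (nat_lit 76)) (PT.lf (nat_lit 836) (nat_lit 6) (nat_lit 11) (nat_lit 5) (nat_lit 74) (nat_lit 157) (nat_lit 159))) (PT.nd (nat_lit 78) (PT.lf (nat_lit 988) (nat_lit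 6) (nat_lit 13) (nat_lit 5) (nat_lit 75) (nat_lit 157) (nat_lit 158)) (PT.lf (nat_lit 1140) (nat_lit 3) (nat_lit 15) (nat_lit 4) (nat_lit 76) (nat_lit 157) (nat_lit 157))))))))
noncomputable def pc31 : PT := (PT.nd (nat_lit 87516) (PT.nd (nat_lit 40560) (PT.nd (nat_lit 6240) (PT.nd (nat_lit 6006) (PT.nd (nat_lit 78) (PT.lf (nat_lit 1292) (nat_lit 6) (nat_lit 17) (nat_lit 4) (nat_lit 77) (nat_lit 157) (nat_lit 156)) (PT.nd (nat_lit 78) (PT.lf (nat_lit 1368) (nat_lit 6) (nat_lit 18) (nat_lit 4) (nat_lit 78) (nat_lit 157) (nat_lit 155)) (PT.lf (nat_lit 1520) (nat_lit 6) (nat_lit 20) (nat_lit 4) (nat_lit 79) (nat_lit 157) (nat_lit 154)))) (PT.nd (nat_lit 78) (PT.lf (nat_lit 1520) (nat_lit 6) (nat_lit 20) (nat_lit 2) (nat_lit 154) (nat_lit 157) (nat_lit 79)) (PT.nd (nat_lit 78) (PT.lf (nat_lit 1368) (nat_lit 6) (nat_lit 18) (nat_lit 2) (nat_lit 155) (nat_lit 157) (nat_lit 78)) (PT.lf (nat_lit 1292)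 (nat_lit 6) (nat_lit 17) (nat_lit 2) (nat_lit 156) (nat_lit 157) (nat_lit 77))))) (PT.nd (nat_lit 34008) (PT.nd (nat_lit 78) (PT.lf (nat_lit 1140) (nat_lit 3) (nat_lit 15) (nat_lit 0) (nat_lit 157) (nat_lit 157) (nat_lit 76)) (PT.nd (nat_lit 78) (PT.lf (nat_lit 988) (nat_lit 6) (nat_lit 13) (nat_lit 0) (nat_lit 158) (nat_lit 157) (nat_lit 75)) (PT.lf (nat_lit 836) (nat_lit 6) (nat_lit 11) (nat_lit 0) (nat_lit 159) (nat_lit 157) (nat_lit 74)))) (PT.nd (nat_lit 156) (PT.nd (nat_lit 78) (PT.lf (nat_lit 608) (nat_lit 6) (nat_lit 8) (nat_lit 5) (nat_lit 72) (nat_lit 158) (nat_lit 160)) (PT.lf (nat_lit 760) (nat_lit 6) (nat_lit 10) (nat_lit 5) (nat_lit 73) (nat_lit 158) (nat_lit 159))) (PT.nd (nat_lit 78) (PT.lf (nat_lit 912) (nat_lit 3) (nat_lit 12) (nat_lit 4) (nat_lit 74) (nat_lit 158) (nat_lit 158)) (PT.lf (nat_lit 988) (nat_lit 6) (nat_lit 13) (nat_lit 4) (nat_lit 75) (nat_lit 158) (nat_lit 157))))))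 (PT.nd (nat_lit 6474) (PT.nd (nat_lit 6240) (PT.nd (nat_lit 78) (PT.lf (nat_lit 1064) (nat_lit 6) (nat_lit 14) (nat_lit 4) (nat_lit 76) (nat_lit 158) (nat_lit 156)) (PT.nd (nat_lit 6084) (PT.lf (nat_lit 1216) (nat_lit 6) (nat_lit 16) (nat_lit 4) (nat_lit 77) (nat_lit 158) (nat_lit 155)) (PT.lf (nat_lit 1216) (nat_lit 6) (nat_lit 16) (nat_lit 2) (nat_lit 155) (nat_lit 158) (nat_lit 77)))) (PT.nd (nat_lit 78) (PT.lf (nat_lit 1064) (nat_lit 6) (nat_lit 14) (nat_lit 2) (nat_lit 156) (nat_lit 158) (nat_lit 76)) (PT.nd (nat_lit 78) (PT.lf (nat_lit 988) (nat_lit 6) (nat_lit 13) (nat_lit 2) (nat_lit 157) (nat_lit 158) (nat_lit 75)) (PT.lf (nat_lit 912) (nat_lit 3) (nat_lit 12) (nat_lit 0) (nat_lit 158) (nat_lit 158) (nat_lit 74))))) (PT.nd (nat_lit 33774) (PT.nd (nat_lit 78) (PT.lf (nat_lit 760) (nat_lit 6) (nat_lit 10) (nat_lit 0) (nat_lit 159) (nat_lit 158) (nat_lit 73)) (PT.nd (nat_lit 33618) (PT.lf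 (nat_lit 608) (nat_lit 6) (nat_lit 8) (nat_lit 0) (nat_lit 160) (nat_lit 158) (nat_lit 72)) (PT.lf (nat_lit 380) (nat_lit 6) (nat_lit 5) (nat_lit 5) (nat_lit 70) (nat_lit 159) (nat_lit 161)))) (PT.nd (nat_lit 156) (PT.nd (nat_lit 78) (PT.lf (nat_lit 532) (nat_lit 6) (nat_lit 7) (nat_lit 5) (nat_lit 71) (nat_lit 159) (nat_lit 160)) (PT.lf (nat_lit 684) (nat_lit 3) (nat_lit 9) (nat_lit 4) (nat_lit 72) (nat_lit 159) (nat_lit 159))) (PT.nd (nat_lit 78) (PT.lf (nat_lit 760) (nat_lit 6) (nat_lit 10) (nat_lit 4) (nat_lit 73) (nat_lit 159) (nat_lit 158)) (PT.lf (nat_lit 836) (nat_lit 6) (nat_lit 11) (nat_lit 4) (nat_lit 74) (nat_lit 159) (nat_lit 157))))))) (PT.nd (nat_lit 40950) (PT.nd (nat_lit 33774) (PT.nd (nat_lit 234) (PT.nd (nat_lit 78) (PT.lf (nat_lit 836) (nat_lit 6) (nat_lit 11) (nat_lit 2) (nat_lit 157) (nat_lit 159) (nat_lit 74)) (PT.nd (nat_lit 78) (PT.lf (nat_lit 760) (nat_lit 6) (nat_lit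 10) (nat_lit 2) (nat_lit 158) (nat_lit 159) (nat_lit 73)) (PT.lf (nat_lit 684) (nat_lit 3) (nat_lit 9) (nat_lit 0) (nat_lit 159) (nat_lit 159) (nat_lit 72)))) (PT.nd (nat_lit 78) (PT.lf (nat_lit 532) (nat_lit 6) (nat_lit 7) (nat_lit 0) (nat_lit 160) (nat_lit 159) (nat_lit 71)) (PT.nd (nat_lit 33384) (PT.lf (nat_lit 380) (nat_lit 6) (nat_lit 5) (nat_lit 0) (nat_lit 161) (nat_lit 159) (nat_lit 70)) (PT.lf (nat_lit 152) (nat_lit 6) (nat_lit 2) (nat_lit 5) (nat_lit 68) (nat_lit 160) (nat_lit 162))))) (PT.nd (nat_lit 234) (PT.nd (nat_lit 78) (PT.lf (nat_lit 304) (nat_lit 6) (nat_lit 4) (nat_lit 5) (nat_lit 69) (nat_lit 160) (nat_lit 161)) (PT.nd (nat_lit 78) (PT.lf (nat_lit 456) (nat_lit 3) (nat_lit 6) (nat_lit 4) (nat_lit 70) (nat_lit 160) (nat_lit 160)) (PT.lf (nat_lit 532) (nat_lit 6) (nat_lit 7) (nat_lit 4) (nat_lit 71) (nat_lit 160) (nat_lit 159)))) (PT.nd (nat_lit 6786) (PT.nd (nat_lit 6708)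 (PT.lf (nat_lit 608) (nat_lit 6) (nat_lit 8) (nat_lit 4) (nat_lit 72) (nat_lit 160) (nat_lit 158)) (PT.lf (nat_lit 608) (nat_lit 6) (nat_lit 8) (nat_lit 2) (nat_lit 158) (nat_lit 160) (nat_lit 72))) (PT.nd (nat_lit 78) (PT.lf (nat_lit 532) (nat_lit 6) (nat_lit 7) (nat_lit 2) (nat_lit 159) (nat_lit 160) (nat_lit 71)) (PT.lf (nat_lit 456) (nat_lit 3) (nat_lit 6) (nat_lit 0) (nat_lit 160) (nat_lit 160) (nat_lit 70)))))) (PT.nd (nat_lit 40560) (PT.nd (nat_lit 33384) (PT.nd (nat_lit 78) (PT.lf (nat_lit 304) (nat_lit 6) (nat_lit 4) (nat_lit 0) (nat_lit 161) (nat_lit 160) (nat_lit 69)) (PT.nd (nat_lit 33228) (PT.lf (nat_lit 152) (nat_lit 6) (nat_lit 2) (nat_lit 0) (nat_lit 162) (nat_lit 160) (nat_lit 68)) (PT.lf (nat_lit 76) (nat_lit 6) (nat_lit 1) (nat_lit 5) (nat_lit 67) (nat_lit 161) (nat_lit 162)))) (PT.nd (nat_lit 156) (PT.nd (nat_lit 78) (PT.lf (nat_lit 228) (nat_lit 3) (nat_lit 3) (nat_lit 4)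 (nat_lit 68) (nat_lit 161) (nat_lit 161)) (PT.lf (nat_lit 304) (nat_lit 6) (nat_lit 4) (nat_lit 4) (nat_lit 69) (nat_lit 161) (nat_lit 160))) (PT.nd (nat_lit 6942) (PT.lf (nat_lit 380) (nat_lit 6) (nat_lit 5) (nat_lit 4) (nat_lit 70) (nat_lit 161) (nat_lit 159)) (PT.lf (nat_lit 380) (nat_lit 6) (nat_lit 5) (nat_lit 2) (nat_lit 159) (nat_lit 161) (nat_lit 70))))) (PT.nd (nat_lit 33384) (PT.nd (nat_lit 78) (PT.lf (nat_lit 304) (nat_lit 6) (nat_lit 4) (nat_lit 2) (nat_lit 160) (nat_lit 161) (nat_lit 69)) (PT.nd (nat_lit 78) (PT.lf (nat_lit 228) (nat_lit 3) (nat_lit 3) (nat_lit 0) (nat_lit 161) (nat_lit 161) (nat_lit 68)) (PT.lf (nat_lit 76) (nat_lit 6) (nat_lit 1) (nat_lit 0) (nat_lit 162) (nat_lit 161) (nat_lit 67)))) (PT.nd (nat_lit 7254) (PT.nd (nat_lit 78) (PT.lf (nat_lit 76) (nat_lit 6) (nat_lit 1) (nat_lit 4) (nat_lit 67) (nat_lit 162) (nat_lit 161)) (PT.lf (nat_lit 152) (nat_lit 6) (nat_lit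 2) (nat_lit 4) (nat_lit 68) (nat_lit 162) (nat_lit 160))) (PT.nd (nat_lit 78) (PT.lf (nat_lit 152) (nat_lit 6) (nat_lit 2) (nat_lit 2) (nat_lit 160) (nat_lit 162) (nat_lit 68)) (PT.lf (nat_lit 76) (nat_lit 6) (nat_lit 1) (nat_lit 2) (nat_lit 161) (nat_lit 162) (nat_lit 67))))))))
noncomputable def xc0 : XT := (XT.nd (nat_lit 162084) (nat_lit 0) (nat_lit 0) (XT.nd (nat_lit 81354) (nat_lit 0) (nat_lit 0) (XT.nd (nat_lit 40716) (nat_lit 0) (nat_lit 0) (XT.nd (nat_lit 40482) (nat_lit 0) (nat_lit 0) (XT.nd (nat_lit 78) (nat_lit 0) (nat_lit 0) (XT.lf (nat_lit 0) (nat_lit 39553066692) (nat_lit 76) (nat_lit 5149192107) (nat_lit 76) (nat_lit 5149192107) (nat_lit 3) (nat_lit 4) (nat_lit 4) (nat_lit 5) (nat_lit 4) (nat_lit 4) (nat_lit 408) (nat_lit 186) (nat_lit 186)) (XT.nd (nat_lit 78) (nat_lit 0) (nat_lit 0) (XT.lf (nat_lit 0) (nat_lit 85645147463) (nat_lit 76) (nat_lit 8556056080) (nat_lit 76) (nat_lit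 8424486974) (nat_lit 3) (nat_lit 4) (nat_lit 4) (nat_lit 5) (nat_lit 4) (nat_lit 4) (nat_lit 409) (nat_lit 186) (nat_lit 185)) (XT.lf (nat_lit 0) (nat_lit 92299838578) (nat_lit 76) (nat_lit 6798475042) (nat_lit 76) (nat_lit 6539168941) (nat_lit 3) (nat_lit 4) (nat_lit 4) (nat_lit 5) (nat_lit 4) (nat_lit 4) (nat_lit 410) (nat_lit 186) (nat_lit 184)))) (XT.nd (nat_lit 78) (nat_lit 0) (nat_lit 0) (XT.lf (nat_lit 0) (nat_lit 33197222166) (nat_lit 76) (nat_lit 6929765097) (nat_lit 76) (nat_lit 6929765097) (nat_lit 3) (nat_lit 4) (nat_lit 4) (nat_lit 5) (nat_lit 4) (nat_lit 4) (nat_lit 406) (nat_lit 187) (nat_lit 187)) (XT.nd (nat_lit 78) (nat_lit 0) (nat_lit 0) (XT.lf (nat_lit 0) (nat_lit 72677082642) (nat_lit 76) (nat_lit 12162498050) (nat_lit 76) (nat_lit 12026981871) (nat_lit 3) (nat_lit 4) (nat_lit 4) (nat_lit 5) (nat_lit 4) (nat_lit 4) (nat_lit 407) (nat_lit 187) (nat_lit 186)) (XT.lf (nat_lit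 0) (nat_lit 79065291913) (nat_lit 76) (nat_lit 10452682389) (nat_lit 76) (nat_lit 10185597105) (nat_lit 3) (nat_lit 4) (nat_lit 4) (nat_lit 5) (nat_lit 4) (nat_lit 4) (nat_lit 408) (nat_lit 187) (nat_lit 185))))) (XT.nd (nat_lit 40326) (nat_lit 0) (nat_lit 0) (XT.nd (nat_lit 78) (nat_lit 0) (nat_lit 0) (XT.lf (nat_lit 0) (nat_lit 85564654078) (nat_lit 76) (nat_lit 8728589201) (nat_lit 76) (nat_lit 8333766920) (nat_lit 3) (nat_lit 4) (nat_lit 4) (nat_lit 5) (nat_lit 4) (nat_lit 4) (nat_lit 409) (nat_lit 187) (nat_lit 184)) (XT.nd (nat_lit 40170) (nat_lit 0) (nat_lit 0) (XT.lf (nat_lit 0) (nat_lit 92180848189) (nat_lit 76) (nat_lit 6988711994) (nat_lit 76) (nat_lit 6469873213) (nat_lit 3) (nat_lit 4) (nat_lit 4) (nat_lit 5) (nat_lit 4) (nat_lit 4) (nat_lit 410) (nat_lit 187) (nat_lit 183)) (XT.lf (nat_lit 0) (nat_lit 27083669016) (nat_lit 76) (nat_lit 8670410644) (nat_lit 76) (nat_lit 8670410644)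 (nat_lit 3) (nat_lit 4) (nat_lit 4) (nat_lit 5) (nat_lit 4) (nat_lit 4) (nat_lit 404) (nat_lit 188) (nat_lit 188)))) (XT.nd (nat_lit 156) (nat_lit 0) (nat_lit 0) (XT.nd (nat_lit 78) (nat_lit 0) (nat_lit 0) (XT.lf (nat_lit 0) (nat_lit 60211887302) (nat_lit 76) (nat_lit 15684843334) (nat_lit 76) (nat_lit 15545261670) (nat_lit 3) (nat_lit 4) (nat_lit 4) (nat_lit 5) (nat_lit 4) (nat_lit 4) (nat_lit 405) (nat_lit 188) (nat_lit 187)) (XT.lf (nat_lit 0) (nat_lit 66352377617) (nat_lit 76) (nat_lit 14018457314) (nat_lit 76) (nat_lit 13743359471) (nat_lit 3) (nat_lit 4) (nat_lit 4) (nat_lit 5) (nat_lit 4) (nat_lit 4) (nat_lit 406) (nat_lit 188) (nat_lit 186))) (XT.nd (nat_lit 78) (nat_lit 0) (nat_lit 0) (XT.lf (nat_lit 0) (nat_lit 72594174455) (nat_lit 76) (nat_lit 12340207164) (nat_lit 76) (nat_lit 11933540215) (nat_lit 3) (nat_lit 4) (nat_lit 4) (nat_lit 5) (nat_lit 4) (nat_lit 4) (nat_lit 407) (nat_lit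 188) (nat_lit 185)) (XT.lf (nat_lit 0) (nat_lit 78942731813) (nat_lit 76) (nat_lit 10648626450) (nat_lit 76) (nat_lit 10114222505) (nat_lit 3) (nat_lit 4) (nat_lit 4) (nat_lit 5) (nat_lit 4) (nat_lit 4) (nat_lit 408) (nat_lit 188) (nat_lit 184)))))) (XT.nd (nat_lit 40404) (nat_lit 0) (nat_lit 0) (XT.nd (nat_lit 40170) (nat_lit 0) (nat_lit 0) (XT.nd (nat_lit 78) (nat_lit 0) (nat_lit 0) (XT.lf (nat_lit 0) (nat_lit 85403596973) (nat_lit 76) (nat_lit 8942237093) (nat_lit 76) (nat_lit 8283816647) (nat_lit 3) (nat_lit 4) (nat_lit 4) (nat_lit 5) (nat_lit 4) (nat_lit 4) (nat_lit 409) (nat_lit 188) (nat_lit 183)) (XT.nd (nat_lit 40014) (nat_lit 0) (nat_lit 0) (XT.lf (nat_lit 0) (nat_lit 91982415353) (nat_lit 76) (nat_lit 7219548073) (nat_lit 76) (nat_lit 6440723257) (nat_lit 3) (nat_lit 4) (nat_lit 4) (nat_lit 5) (nat_lit 4) (nat_lit 4) (nat_lit 410) (nat_lit 188) (nat_lit 182)) (XT.lf (nat_lit 0) (nat_lit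 21194821923) (nat_lit 76) (nat_lit 10375289288) (nat_lit 76) (nat_lit 10375289288) (nat_lit 3) (nat_lit 4) (nat_lit 4) (nat_lit 5) (nat_lit 4) (nat_lit 4) (nat_lit 402) (nat_lit 189) (nat_lit 189)))) (XT.nd (nat_lit 78) (nat_lit 0) (nat_lit 0) (XT.lf (nat_lit 0) (nat_lit 48213448164) (nat_lit 76) (nat_lit 19131607263) (nat_lit 76) (nat_lit 18987838149) (nat_lit 3) (nat_lit 4) (nat_lit 4) (nat_lit 5) (nat_lit 4) (nat_lit 4) (nat_lit 403) (nat_lit 189) (nat_lit 188)) (XT.nd (nat_lit 78) (nat_lit 0) (nat_lit 0) (XT.lf (nat_lit 0) (nat_lit 54124009316) (nat_lit 76) (nat_lit 17504516221) (nat_lit 76) (nat_lit 17221165443) (nat_lit 3) (nat_lit 4) (nat_lit 4) (nat_lit 5) (nat_lit 4) (nat_lit 4) (nat_lit 404) (nat_lit 189) (nat_lit 187)) (XT.lf (nat_lit 0) (nat_lit 60126491870) (nat_lit 76) (nat_lit 15867883722) (nat_lit 76) (nat_lit 15449016764) (nat_lit 3) (nat_lit 4) (nat_lit 4) (nat_lit 5) (nat_lit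 4) (nat_lit 4) (nat_lit 405) (nat_lit 189) (nat_lit 186))))) (XT.nd (nat_lit 234) (nat_lit 0) (nat_lit 0) (XT.nd (nat_lit 78) (nat_lit 0) (nat_lit 0) (XT.lf (nat_lit 0) (nat_lit 66226140714) (nat_lit 76) (nat_lit 14220279697) (nat_lit 76) (nat_lit 13669843634) (nat_lit 3) (nat_lit 4) (nat_lit 4) (nat_lit 5) (nat_lit 4) (nat_lit 4) (nat_lit 406) (nat_lit 189) (nat_lit 185)) (XT.nd (nat_lit 78) (nat_lit 0) (nat_lit 0) (XT.lf (nat_lit 0) (nat_lit 72428285637) (nat_lit 76) (nat_lit 12560264493) (nat_lit 76) (nat_lit 11882091433) (nat_lit 3) (nat_lit 4) (nat_lit 4) (nat_lit 5) (nat_lit 4) (nat_lit 4) (nat_lit 407) (nat_lit 189) (nat_lit 184)) (XT.lf (nat_lit 0) (nat_lit 78738345991) (nat_lit 76) (nat_lit 10886387610) (nat_lit 76) (nat_lit 10084198050) (nat_lit 3) (nat_lit 4) (nat_lit 4) (nat_lit 5) (nat_lit 4) (nat_lit 4) (nat_lit 408) (nat_lit 189) (nat_lit 183)))) (XT.nd (nat_lit 39936) (nat_lit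 0) (nat_lit 0) (XT.nd (nat_lit 78) (nat_lit 0) (nat_lit 0) (XT.lf (nat_lit 0) (nat_lit 85161835420) (nat_lit 76) (nat_lit 9197186439) (nat_lit 76) (nat_lit 8274592510) (nat_lit 3) (nat_lit 4) (nat_lit 4) (nat_lit 5) (nat_lit 4) (nat_lit 4) (nat_lit 409) (nat_lit 189) (nat_lit 182)) (XT.lf (nat_lit 0) (nat_lit 91704366681) (nat_lit 76) (nat_lit 7491184978) (nat_lit 76) (nat_lit 6451693602) (nat_lit 3) (nat_lit 4) (nat_lit 4) (nat_lit 5) (nat_lit 4) (nat_lit 4) (nat_lit 410) (nat_lit 189) (nat_lit 181))) (XT.nd (nat_lit 78) (nat_lit 0) (nat_lit 0) (XT.lf (nat_lit 0) (nat_lit 15513994732) (nat_lit 76) (nat_lit 12048378794) (nat_lit 76) (nat_lit 12048378794) (nat_lit 3) (nat_lit 4) (nat_lit 4) (nat_lit 5) (nat_lit 4) (nat_lit 4) (nat_lit 400) (nat_lit 190) (nat_lit 190)) (XT.lf (nat_lit 0) (nat_lit 36647507602) (nat_lit 76) (nat_lit 22510926985) (nat_lit 76) (nat_lit 22362844797) (nat_lit 3) (nat_lit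 4) (nat_lit 4) (nat_lit 5) (nat_lit 4) (nat_lit 4) (nat_lit 401) (nat_lit 190) (nat_lit 189))))))) (XT.nd (nat_lit 40638) (nat_lit 0) (nat_lit 0) (XT.nd (nat_lit 468) (nat_lit 0) (nat_lit 0) (XT.nd (nat_lit 234) (nat_lit 0) (nat_lit 0) (XT.nd (nat_lit 78) (nat_lit 0) (nat_lit 0) (XT.lf (nat_lit 0) (nat_lit 42345015268) (nat_lit 76) (nat_lit 20919184357) (nat_lit 76) (nat_lit 20627333055) (nat_lit 3) (nat_lit 4) (nat_lit 4) (nat_lit 5) (nat_lit 4) (nat_lit 4) (nat_lit 402) (nat_lit 190) (nat_lit 188)) (XT.nd (nat_lit 78) (nat_lit 0) (nat_lit 0) (XT.lf (nat_lit 0) (nat_lit 48125490869) (nat_lit 76) (nat_lit 19320138862) (nat_lit 76) (nat_lit 18888705896) (nat_lit 3) (nat_lit 4) (nat_lit 4) (nat_lit 5) (nat_lit 4) (nat_lit 4) (nat_lit 403) (nat_lit 190) (nat_lit 187)) (XT.lf (nat_lit 0) (nat_lit 53993985305) (nat_lit 76) (nat_lit 17712393275) (nat_lit 76) (nat_lit 17145444130) (nat_lit 3) (nat_lit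 4) (nat_lit 4) (nat_lit 5) (nat_lit 4) (nat_lit 4) (nat_lit 404) (nat_lit 190) (nat_lit 186)))) (XT.nd (nat_lit 78) (nat_lit 0) (nat_lit 0) (XT.lf (nat_lit 0) (nat_lit 59955626388) (nat_lit 76) (nat_lit 16094542770) (nat_lit 76) (nat_lit 15396024520) (nat_lit 3) (nat_lit 4) (nat_lit 4) (nat_lit 5) (nat_lit 4) (nat_lit 4) (nat_lit 405) (nat_lit 190) (nat_lit 185)) (XT.nd (nat_lit 78) (nat_lit 0) (nat_lit 0) (XT.lf (nat_lit 0) (nat_lit 66015623317) (nat_lit 76) (nat_lit 14465173692) (nat_lit 76) (nat_lit 13638918445) (nat_lit 3) (nat_lit 4) (nat_lit 4) (nat_lit 5) (nat_lit 4) (nat_lit 4) (nat_lit 406) (nat_lit 190) (nat_lit 184)) (XT.lf (nat_lit 0) (nat_lit 72179271237) (nat_lit 76) (nat_lit 12822862319) (nat_lit 76) (nat_lit 11872590572) (nat_lit 3) (nat_lit 4) (nat_lit 4) (nat_lit 5) (nat_lit 4) (nat_lit 4) (nat_lit 407) (nat_lit 190) (nat_lit 183))))) (XT.nd (nat_lit 39858) (nat_lit 0) (nat_lit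 0) (XT.nd (nat_lit 78) (nat_lit 0) (nat_lit 0) (XT.lf (nat_lit 0) (nat_lit 78451955859) (nat_lit 76) (nat_lit 11166173623) (nat_lit 76) (nat_lit 10095497506) (nat_lit 3) (nat_lit 4) (nat_lit 4) (nat_lit 5) (nat_lit 4) (nat_lit 4) (nat_lit 408) (nat_lit 190) (nat_lit 182)) (XT.nd (nat_lit 78) (nat_lit 0) (nat_lit 0) (XT.lf (nat_lit 0) (nat_lit 84839158170) (nat_lit 76) (nat_lit 9493660011) (nat_lit 76) (nat_lit 8306086448) (nat_lit 3) (nat_lit 4) (nat_lit 4) (nat_lit 5) (nat_lit 4) (nat_lit 4) (nat_lit 409) (nat_lit 190) (nat_lit 181)) (XT.lf (nat_lit 0) (nat_lit 91346459219) (nat_lit 76) (nat_lit 7803860064) (nat_lit 76) (nat_lit 6502793834) (nat_lit 3) (nat_lit 4) (nat_lit 4) (nat_lit 5) (nat_lit 4) (nat_lit 4) (nat_lit 410) (nat_lit 190) (nat_lit 180)))) (XT.nd (nat_lit 156) (nat_lit 0) (nat_lit 0) (XT.nd (nat_lit 78) (nat_lit 0) (nat_lit 0) (XT.lf (nat_lit 0) (nat_lit 10025345531) (nat_lit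 76) (nat_lit 13693486324) (nat_lit 76) (nat_lit 13693486324) (nat_lit 3) (nat_lit 4) (nat_lit 4) (nat_lit 5) (nat_lit 4) (nat_lit 4) (nat_lit 398) (nat_lit 191) (nat_lit 191)) (XT.lf (nat_lit 0) (nat_lit 25481550600) (nat_lit 76) (nat_lit 25830586498) (nat_lit 76) (nat_lit 25678061844) (nat_lit 3) (nat_lit 4) (nat_lit 4) (nat_lit 5) (nat_lit 4) (nat_lit 4) (nat_lit 399) (nat_lit 191) (nat_lit 190))) (XT.nd (nat_lit 78) (nat_lit 0) (nat_lit 0) (XT.lf (nat_lit 0) (nat_lit 30982022030) (nat_lit 76) (nat_lit 24270421542) (nat_lit 76) (nat_lit 23969814701) (nat_lit 3) (nat_lit 4) (nat_lit 4) (nat_lit 5) (nat_lit 4) (nat_lit 4) (nat_lit 400) (nat_lit 191) (nat_lit 189)) (XT.lf (nat_lit 0) (nat_lit 36556911587) (nat_lit 76) (nat_lit 22705114532) (nat_lit 76) (nat_lit 22260738577) (nat_lit 3) (nat_lit 4) (nat_lit 4) (nat_lit 5) (nat_lit 4) (nat_lit 4) (nat_lit 401) (nat_lit 191) (nat_lit 188)))))) (XT.nd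 (nat_lit 468) (nat_lit 0) (nat_lit 0) (XT.nd (nat_lit 234) (nat_lit 0) (nat_lit 0) (XT.nd (nat_lit 78) (nat_lit 0) (nat_lit 0) (XT.lf (nat_lit 0) (nat_lit 42211090537) (nat_lit 76) (nat_lit 21133297722) (nat_lit 76) (nat_lit 20549340103) (nat_lit 3) (nat_lit 4) (nat_lit 4) (nat_lit 5) (nat_lit 4) (nat_lit 4) (nat_lit 402) (nat_lit 191) (nat_lit 187)) (XT.nd (nat_lit 78) (nat_lit 0) (nat_lit 0) (XT.lf (nat_lit 0) (nat_lit 47949499422) (nat_lit 76) (nat_lit 19553597682) (nat_lit 76) (nat_lit 18834123884) (nat_lit 3) (nat_lit 4) (nat_lit 4) (nat_lit 5) (nat_lit 4) (nat_lit 4) (nat_lit 403) (nat_lit 191) (nat_lit 186)) (XT.lf (nat_lit 0) (nat_lit 53777152387) (nat_lit 76) (nat_lit 17964634090) (nat_lit 76) (nat_lit 17113591186) (nat_lit 3) (nat_lit 4) (nat_lit 4) (nat_lit 5) (nat_lit 4) (nat_lit 4) (nat_lit 404) (nat_lit 191) (nat_lit 185)))) (XT.nd (nat_lit 78) (nat_lit 0) (nat_lit 0) (XT.lf (nat_lit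 0) (nat_lit 59699141556) (nat_lit 76) (nat_lit 16365018532) (nat_lit 76) (nat_lit 15386238632) (nat_lit 3) (nat_lit 4) (nat_lit 4) (nat_lit 5) (nat_lit 4) (nat_lit 4) (nat_lit 405) (nat_lit 191) (nat_lit 184)) (XT.nd (nat_lit 78) (nat_lit 0) (nat_lit 0) (XT.lf (nat_lit 0) (nat_lit 65720641482) (nat_lit 76) (nat_lit 14753353285) (nat_lit 76) (nat_lit 13650556884) (nat_lit 3) (nat_lit 4) (nat_lit 4) (nat_lit 5) (nat_lit 4) (nat_lit 4) (nat_lit 406) (nat_lit 191) (nat_lit 183)) (XT.lf (nat_lit 0) (nat_lit 71846913670) (nat_lit 76) (nat_lit 13128230099) (nat_lit 76) (nat_lit 11905029328) (nat_lit 3) (nat_lit 4) (nat_lit 4) (nat_lit 5) (nat_lit 4) (nat_lit 4) (nat_lit 407) (nat_lit 191) (nat_lit 182))))) (XT.nd (nat_lit 39702) (nat_lit 0) (nat_lit 0) (XT.nd (nat_lit 78) (nat_lit 0) (nat_lit 0) (XT.lf (nat_lit 0) (nat_lit 78083311173) (nat_lit 76) (nat_lit 11488228962) (nat_lit 76) (nat_lit 10148130745)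 (nat_lit 3) (nat_lit 4) (nat_lit 4) (nat_lit 5) (nat_lit 4) (nat_lit 4) (nat_lit 408) (nat_lit 191) (nat_lit 181)) (XT.nd (nat_lit 78) (nat_lit 0) (nat_lit 0) (XT.lf (nat_lit 0) (nat_lit 84435283272) (nat_lit 76) (nat_lit 9831916864) (nat_lit 76) (nat_lit 8378325980) (nat_lit 3) (nat_lit 4) (nat_lit 4) (nat_lit 5) (nat_lit 4) (nat_lit 4) (nat_lit 409) (nat_lit 191) (nat_lit 180)) (XT.lf (nat_lit 0) (nat_lit 90908380232) (nat_lit 76) (nat_lit 8157846542) (nat_lit 76) (nat_lit 6594068603) (nat_lit 3) (nat_lit 4) (nat_lit 4) (nat_lit 5) (nat_lit 4) (nat_lit 4) (nat_lit 410) (nat_lit 191) (nat_lit 179)))) (XT.nd (nat_lit 156) (nat_lit 0) (nat_lit 0) (XT.nd (nat_lit 78) (nat_lit 0) (nat_lit 0) (XT.lf (nat_lit 0) (nat_lit 4713824774) (nat_lit 76) (nat_lit 15314259965) (nat_lit 76) (nat_lit 15314259965) (nat_lit 3) (nat_lit 4) (nat_lit 4) (nat_lit 5) (nat_lit 4) (nat_lit 4) (nat_lit 396) (nat_lit 192)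 (nat_lit 192)) (XT.lf (nat_lit 0) (nat_lit 14684698005) (nat_lit 76) (nat_lit 29098040338) (nat_lit 76) (nat_lit 28940939946) (nat_lit 3) (nat_lit 4) (nat_lit 4) (nat_lit 5) (nat_lit 4) (nat_lit 4) (nat_lit 397) (nat_lit 192) (nat_lit 191))) (XT.nd (nat_lit 78) (nat_lit 0) (nat_lit 0) (XT.lf (nat_lit 0) (nat_lit 20003344604) (nat_lit 76) (nat_lit 27565846522) (nat_lit 76) (nat_lit 27256221476) (nat_lit 3) (nat_lit 4) (nat_lit 4) (nat_lit 5) (nat_lit 4) (nat_lit 4) (nat_lit 398) (nat_lit 192) (nat_lit 190)) (XT.lf (nat_lit 0) (nat_lit 25388236706) (nat_lit 76) (nat_lit 26030599671) (nat_lit 76) (nat_lit 25572892437) (nat_lit 3) (nat_lit 4) (nat_lit 4) (nat_lit 5) (nat_lit 4) (nat_lit 4) (nat_lit 399) (nat_lit 192) (nat_lit 189))))))))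
noncomputable def xc1 : XT := (XT.nd (nat_lit 41340) (nat_lit 0) (nat_lit 0) (XT.nd (nat_lit 40326) (nat_lit 0) (nat_lit 0) (XT.nd (nat_lit 468) (nat_lit 0) (nat_lit 0) (XT.nd (nat_lit 234) (nat_lit 0) (nat_lit 0) (XT.nd (nat_lit 78) (nat_lit 0) (nat_lit 0) (XT.lf (nat_lit 0) (nat_lit 30844079556) (nat_lit 76) (nat_lit 24490958309) (nat_lit 76) (nat_lit 23889481960) (nat_lit 3) (nat_lit 4) (nat_lit 4) (nat_lit 5) (nat_lit 4) (nat_lit 4) (nat_lit 400) (nat_lit 192) (nat_lit 188)) (XT.nd (nat_lit 78) (nat_lit 0) (nat_lit 0) (XT.lf (nat_lit 0) (nat_lit 36375640397) (nat_lit 76) (nat_lit 22945577117) (nat_lit 76) (nat_lit 22204519104) (nat_lit 3) (nat_lit 4) (nat_lit 4) (nat_lit 5) (nat_lit 4) (nat_lit 4) (nat_lit 401) (nat_lit 192) (nat_lit 187)) (XT.lf (nat_lit 0) (nat_lit 41987752631) (nat_lit 76) (nat_lit 21393105762) (nat_lit 76) (nat_lit 20516531571) (nat_lit 3) (nat_lit 4) (nat_lit 4) (nat_lit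 5) (nat_lit 4) (nat_lit 4) (nat_lit 402) (nat_lit 192) (nat_lit 186)))) (XT.nd (nat_lit 78) (nat_lit 0) (nat_lit 0) (XT.lf (nat_lit 0) (nat_lit 47685320045) (nat_lit 76) (nat_lit 19832187717) (nat_lit 76) (nat_lit 18824044420) (nat_lit 3) (nat_lit 4) (nat_lit 4) (nat_lit 5) (nat_lit 4) (nat_lit 4) (nat_lit 403) (nat_lit 192) (nat_lit 185)) (XT.nd (nat_lit 78) (nat_lit 0) (nat_lit 0) (XT.lf (nat_lit 0) (nat_lit 53473321096) (nat_lit 76) (nat_lit 18261459071) (nat_lit 76) (nat_lit 17125578778) (nat_lit 3) (nat_lit 4) (nat_lit 4) (nat_lit 5) (nat_lit 4) (nat_lit 4) (nat_lit 404) (nat_lit 192) (nat_lit 184)) (XT.lf (nat_lit 0) (nat_lit 59356813261) (nat_lit 76) (nat_lit 16679547345) (nat_lit 76) (nat_lit 15419650551) (nat_lit 3) (nat_lit 4) (nat_lit 4) (nat_lit 5) (nat_lit 4) (nat_lit 4) (nat_lit 405) (nat_lit 192) (nat_lit 183))))) (XT.nd (nat_lit 234) (nat_lit 0) (nat_lit 0) (XT.nd (nat_lit 78)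 (nat_lit 0) (nat_lit 0) (XT.lf (nat_lit 0) (nat_lit 65340937455) (nat_lit 76) (nat_lit 15085070284) (nat_lit 76) (nat_lit 13704769120) (nat_lit 3) (nat_lit 4) (nat_lit 4) (nat_lit 5) (nat_lit 4) (nat_lit 4) (nat_lit 406) (nat_lit 192) (nat_lit 182)) (XT.nd (nat_lit 78) (nat_lit 0) (nat_lit 0) (XT.lf (nat_lit 0) (nat_lit 71430922525) (nat_lit 76) (nat_lit 13476634657) (nat_lit 76) (nat_lit 11979436047) (nat_lit 3) (nat_lit 4) (nat_lit 4) (nat_lit 5) (nat_lit 4) (nat_lit 4) (nat_lit 407) (nat_lit 192) (nat_lit 181)) (XT.lf (nat_lit 0) (nat_lit 77632089817) (nat_lit 76) (nat_lit 11852835033) (nat_lit 76) (nat_lit 10242143757) (nat_lit 3) (nat_lit 4) (nat_lit 4) (nat_lit 5) (nat_lit 4) (nat_lit 4) (nat_lit 408) (nat_lit 192) (nat_lit 180)))) (XT.nd (nat_lit 39468) (nat_lit 0) (nat_lit 0) (XT.nd (nat_lit 78) (nat_lit 0) (nat_lit 0) (XT.lf (nat_lit 0) (nat_lit 83949857826) (nat_lit 76) (nat_lit 10212252560)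 (nat_lit 76) (nat_lit 8491374229) (nat_lit 3) (nat_lit 4) (nat_lit 4) (nat_lit 5) (nat_lit 4) (nat_lit 4) (nat_lit 409) (nat_lit 192) (nat_lit 179)) (XT.lf (nat_lit 0) (nat_lit 90389746932) (nat_lit 76) (nat_lit 8553453719) (nat_lit 76) (nat_lit 6725597665) (nat_lit 3) (nat_lit 4) (nat_lit 4) (nat_lit 5) (nat_lit 4) (nat_lit 4) (nat_lit 410) (nat_lit 192) (nat_lit 178))) (XT.nd (nat_lit 78) (nat_lit 76) (nat_lit 0) (XT.lf (nat_lit 0) (nat_lit 16483506205) (nat_lit 152) (nat_lit 426387757) (nat_lit 0) (nat_lit 16483506205) (nat_lit 4) (nat_lit 5) (nat_lit 6) (nat_lit 4) (nat_lit 4) (nat_lit 4) (nat_lit 394) (nat_lit 193) (nat_lit 193)) (XT.lf (nat_lit 0) (nat_lit 4227605696) (nat_lit 76) (nat_lit 32320436017) (nat_lit 76) (nat_lit 32158622613) (nat_lit 3) (nat_lit 4) (nat_lit 4) (nat_lit 5) (nat_lit 4) (nat_lit 4) (nat_lit 395) (nat_lit 193) (nat_lit 192)))))) (XT.nd (nat_lit 468) (nat_lit 0)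 (nat_lit 0) (XT.nd (nat_lit 234) (nat_lit 0) (nat_lit 0) (XT.nd (nat_lit 78) (nat_lit 0) (nat_lit 0) (XT.lf (nat_lit 0) (nat_lit 9378882696) (nat_lit 76) (nat_lit 30812760020) (nat_lit 76) (nat_lit 30493846223) (nat_lit 3) (nat_lit 4) (nat_lit 4) (nat_lit 5) (nat_lit 4) (nat_lit 4) (nat_lit 396) (nat_lit 193) (nat_lit 191)) (XT.nd (nat_lit 78) (nat_lit 0) (nat_lit 0) (XT.lf (nat_lit 0) (nat_lit 14588584693) (nat_lit 76) (nat_lit 29304053907) (nat_lit 76) (nat_lit 28832615456) (nat_lit 3) (nat_lit 4) (nat_lit 4) (nat_lit 5) (nat_lit 4) (nat_lit 4) (nat_lit 397) (nat_lit 193) (nat_lit 190)) (XT.lf (nat_lit 0) (nat_lit 19861263856) (nat_lit 76) (nat_lit 27792999391) (nat_lit 76) (nat_lit 27173478753) (nat_lit 3) (nat_lit 4) (nat_lit 4) (nat_lit 5) (nat_lit 4) (nat_lit 4) (nat_lit 398) (nat_lit 193) (nat_lit 189)))) (XT.nd (nat_lit 78) (nat_lit 0) (nat_lit 0) (XT.lf (nat_lit 0) (nat_lit 25201527380)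 (nat_lit 76) (nat_lit 26278276133) (nat_lit 76) (nat_lit 25514986381) (nat_lit 3) (nat_lit 4) (nat_lit 4) (nat_lit 5) (nat_lit 4) (nat_lit 4) (nat_lit 399) (nat_lit 193) (nat_lit 188)) (XT.nd (nat_lit 78) (nat_lit 0) (nat_lit 0) (XT.lf (nat_lit 0) (nat_lit 30614041514) (nat_lit 76) (nat_lit 24758560589) (nat_lit 76) (nat_lit 23855689172) (nat_lit 3) (nat_lit 4) (nat_lit 4) (nat_lit 5) (nat_lit 4) (nat_lit 4) (nat_lit 400) (nat_lit 193) (nat_lit 187)) (XT.lf (nat_lit 0) (nat_lit 36103535639) (nat_lit 76) (nat_lit 23232524852) (nat_lit 76) (nat_lit 22194137256) (nat_lit 3) (nat_lit 4) (nat_lit 4) (nat_lit 5) (nat_lit 4) (nat_lit 4) (nat_lit 401) (nat_lit 193) (nat_lit 186))))) (XT.nd (nat_lit 234) (nat_lit 0) (nat_lit 0) (XT.nd (nat_lit 78) (nat_lit 0) (nat_lit 0) (XT.lf (nat_lit 0) (nat_lit 41674806402) (nat_lit 76) (nat_lit 21698835493) (nat_lit 76) (nat_lit 20528878791) (nat_lit 3) (nat_lit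 4) (nat_lit 4) (nat_lit 5) (nat_lit 4) (nat_lit 4) (nat_lit 402) (nat_lit 193) (nat_lit 185)) (XT.nd (nat_lit 78) (nat_lit 0) (nat_lit 0) (XT.lf (nat_lit 0) (nat_lit 47332721902) (nat_lit 76) (nat_lit 20156152394) (nat_lit 76) (nat_lit 18858458696) (nat_lit 3) (nat_lit 4) (nat_lit 4) (nat_lit 5) (nat_lit 4) (nat_lit 4) (nat_lit 403) (nat_lit 193) (nat_lit 184)) (XT.lf (nat_lit 0) (nat_lit 53082225949) (nat_lit 76) (nat_lit 18603127580) (nat_lit 76) (nat_lit 17181417381) (nat_lit 3) (nat_lit 4) (nat_lit 4) (nat_lit 5) (nat_lit 4) (nat_lit 4) (nat_lit 404) (nat_lit 193) (nat_lit 183)))) (XT.nd (nat_lit 156) (nat_lit 0) (nat_lit 0) (XT.nd (nat_lit 78) (nat_lit 0) (nat_lit 0) (XT.lf (nat_lit 0) (nat_lit 58928342382) (nat_lit 76) (nat_lit 17038404039) (nat_lit 76) (nat_lit 15496289471) (nat_lit 3) (nat_lit 4) (nat_lit 4) (nat_lit 5) (nat_lit 4) (nat_lit 4) (nat_lit 405) (nat_lit 193) (nat_lit 182))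 (XT.lf (nat_lit 0) (nat_lit 64876179458) (nat_lit 76) (nat_lit 15460614538) (nat_lit 76) (nat_lit 13801602523) (nat_lit 3) (nat_lit 4) (nat_lit 4) (nat_lit 5) (nat_lit 4) (nat_lit 4) (nat_lit 406) (nat_lit 193) (nat_lit 181))) (XT.nd (nat_lit 78) (nat_lit 0) (nat_lit 0) (XT.lf (nat_lit 0) (nat_lit 70930934316) (nat_lit 76) (nat_lit 13868380424) (nat_lit 76) (nat_lit 12095875743) (nat_lit 3) (nat_lit 4) (nat_lit 4) (nat_lit 5) (nat_lit 4) (nat_lit 4) (nat_lit 407) (nat_lit 193) (nat_lit 180)) (XT.lf (nat_lit 0) (nat_lit 77097897518) (nat_lit 76) (nat_lit 12260310426) (nat_lit 76) (nat_lit 10377618690) (nat_lit 3) (nat_lit 4) (nat_lit 4) (nat_lit 5) (nat_lit 4) (nat_lit 4) (nat_lit 408) (nat_lit 193) (nat_lit 179))))))) (XT.nd (nat_lit 40170) (nat_lit 0) (nat_lit 0) (XT.nd (nat_lit 39624) (nat_lit 0) (nat_lit 0) (XT.nd (nat_lit 39390) (nat_lit 0) (nat_lit 0) (XT.nd (nat_lit 78) (nat_lit 0) (nat_lit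 0) (XT.lf (nat_lit 0) (nat_lit 83382457674) (nat_lit 76) (nat_lit 10634999434) (nat_lit 76) (nat_lit 8645329975) (nat_lit 3) (nat_lit 4) (nat_lit 4) (nat_lit 5) (nat_lit 4) (nat_lit 4) (nat_lit 409) (nat_lit 193) (nat_lit 178)) (XT.nd (nat_lit 39234) (nat_lit 0) (nat_lit 76) (XT.lf (nat_lit 0) (nat_lit 89790106146) (nat_lit 76) (nat_lit 8991027273) (nat_lit 76) (nat_lit 6897495947) (nat_lit 3) (nat_lit 4) (nat_lit 4) (nat_lit 5) (nat_lit 4) (nat_lit 4) (nat_lit 410) (nat_lit 193) (nat_lit 177)) (XT.lf (nat_lit 0) (nat_lit 13114546837) (nat_lit 152) (nat_lit 5328315090) (nat_lit 0) (nat_lit 13114546837) (nat_lit 4) (nat_lit 5) (nat_lit 6) (nat_lit 4) (nat_lit 4) (nat_lit 4) (nat_lit 392) (nat_lit 194) (nat_lit 194)))) (XT.nd (nat_lit 78) (nat_lit 76) (nat_lit 0) (XT.lf (nat_lit 0) (nat_lit 29643888503) (nat_lit 152) (nat_lit 5802156363) (nat_lit 0) (nat_lit 29477220696) (nat_lit 4) (nat_lit 5)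 (nat_lit 6) (nat_lit 4) (nat_lit 4) (nat_lit 4) (nat_lit 393) (nat_lit 194) (nat_lit 193)) (XT.nd (nat_lit 78) (nat_lit 76) (nat_lit 0) (XT.lf (nat_lit 0) (nat_lit 33107032683) (nat_lit 152) (nat_lit 902025207) (nat_lit 0) (nat_lit 32778551472) (nat_lit 4) (nat_lit 5) (nat_lit 6) (nat_lit 4) (nat_lit 4) (nat_lit 4) (nat_lit 394) (nat_lit 194) (nat_lit 192)) (XT.lf (nat_lit 0) (nat_lit 4128608986) (nat_lit 76) (nat_lit 32532629993) (nat_lit 76) (nat_lit 32047048389) (nat_lit 3) (nat_lit 4) (nat_lit 4) (nat_lit 5) (nat_lit 4) (nat_lit 4) (nat_lit 395) (nat_lit 194) (nat_lit 191))))) (XT.nd (nat_lit 234) (nat_lit 0) (nat_lit 0) (XT.nd (nat_lit 78) (nat_lit 0) (nat_lit 0) (XT.lf (nat_lit 0) (nat_lit 9232539526) (nat_lit 76) (nat_lit 31046727476) (nat_lit 76) (nat_lit 30408621218) (nat_lit 3) (nat_lit 4) (nat_lit 4) (nat_lit 5) (nat_lit 4) (nat_lit 4) (nat_lit 396) (nat_lit 194) (nat_lit 190)) (XT.nd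 (nat_lit 78) (nat_lit 0) (nat_lit 0) (XT.lf (nat_lit 0) (nat_lit 14396274088) (nat_lit 76) (nat_lit 29559160663) (nat_lit 76) (nat_lit 28772972218) (nat_lit 3) (nat_lit 4) (nat_lit 4) (nat_lit 5) (nat_lit 4) (nat_lit 4) (nat_lit 397) (nat_lit 194) (nat_lit 189)) (XT.lf (nat_lit 0) (nat_lit 19624324672) (nat_lit 76) (nat_lit 28068629740) (nat_lit 76) (nat_lit 27138672181) (nat_lit 3) (nat_lit 4) (nat_lit 4) (nat_lit 5) (nat_lit 4) (nat_lit 4) (nat_lit 398) (nat_lit 194) (nat_lit 188)))) (XT.nd (nat_lit 156) (nat_lit 0) (nat_lit 0) (XT.nd (nat_lit 78) (nat_lit 0) (nat_lit 0) (XT.lf (nat_lit 0) (nat_lit 24921259479) (nat_lit 76) (nat_lit 26573832301) (nat_lit 76) (nat_lit 25504293077) (nat_lit 3) (nat_lit 4) (nat_lit 4) (nat_lit 5) (nat_lit 4) (nat_lit 4) (nat_lit 399) (nat_lit 194) (nat_lit 187)) (XT.lf (nat_lit 0) (nat_lit 30291706897) (nat_lit 76) (nat_lit 25073462212) (nat_lit 76) (nat_lit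 23868406809) (nat_lit 3) (nat_lit 4) (nat_lit 4) (nat_lit 5) (nat_lit 4) (nat_lit 4) (nat_lit 400) (nat_lit 194) (nat_lit 186))) (XT.nd (nat_lit 78) (nat_lit 0) (nat_lit 0) (XT.lf (nat_lit 0) (nat_lit 35740359551) (nat_lit 76) (nat_lit 23566208469) (nat_lit 76) (nat_lit 22229583961) (nat_lit 3) (nat_lit 4) (nat_lit 4) (nat_lit 5) (nat_lit 4) (nat_lit 4) (nat_lit 401) (nat_lit 194) (nat_lit 185)) (XT.lf (nat_lit 0) (nat_lit 41271978400) (nat_lit 76) (nat_lit 22050754056) (nat_lit 76) (nat_lit 20586392552) (nat_lit 3) (nat_lit 4) (nat_lit 4) (nat_lit 5) (nat_lit 4) (nat_lit 4) (nat_lit 402) (nat_lit 194) (nat_lit 184)))))) (XT.nd (nat_lit 546) (nat_lit 0) (nat_lit 0) (XT.nd (nat_lit 234) (nat_lit 0) (nat_lit 0) (XT.nd (nat_lit 78) (nat_lit 0) (nat_lit 0) (XT.lf (nat_lit 0) (nat_lit 46891396896) (nat_lit 76) (nat_lit 20525774789) (nat_lit 76) (nat_lit 18937396784) (nat_lit 3) (nat_lit 4) (nat_lit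 4) (nat_lit 5) (nat_lit 4) (nat_lit 4) (nat_lit 403) (nat_lit 194) (nat_lit 183)) (XT.nd (nat_lit 78) (nat_lit 0) (nat_lit 0) (XT.lf (nat_lit 0) (nat_lit 52603525211) (nat_lit 76) (nat_lit 18989938161) (nat_lit 76) (nat_lit 17281155786) (nat_lit 3) (nat_lit 4) (nat_lit 4) (nat_lit 5) (nat_lit 4) (nat_lit 4) (nat_lit 404) (nat_lit 194) (nat_lit 182)) (XT.lf (nat_lit 0) (nat_lit 58413354526) (nat_lit 76) (nat_lit 17441902180) (nat_lit 76) (nat_lit 15616222359) (nat_lit 3) (nat_lit 4) (nat_lit 4) (nat_lit 5) (nat_lit 4) (nat_lit 4) (nat_lit 405) (nat_lit 194) (nat_lit 181)))) (XT.nd (nat_lit 156) (nat_lit 0) (nat_lit 0) (XT.nd (nat_lit 78) (nat_lit 0) (nat_lit 0) (XT.lf (nat_lit 0) (nat_lit 64325961390) (nat_lit 76) (nat_lit 15880314192) (nat_lit 76) (nat_lit 13941141705) (nat_lit 3) (nat_lit 4) (nat_lit 4) (nat_lit 5) (nat_lit 4) (nat_lit 4) (nat_lit 406) (nat_lit 194) (nat_lit 180)) (XT.lf (nat_lit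 0) (nat_lit 70346512159) (nat_lit 76) (nat_lit 14303809704) (nat_lit 76) (nat_lit 12254450161) (nat_lit 3) (nat_lit 4) (nat_lit 4) (nat_lit 5) (nat_lit 4) (nat_lit 4) (nat_lit 407) (nat_lit 194) (nat_lit 179))) (XT.nd (nat_lit 78) (nat_lit 0) (nat_lit 0) (XT.lf (nat_lit 0) (nat_lit 76480267507) (nat_lit 76) (nat_lit 12711011186) (nat_lit 76) (nat_lit 10554673921) (nat_lit 3) (nat_lit 4) (nat_lit 4) (nat_lit 5) (nat_lit 4) (nat_lit 4) (nat_lit 408) (nat_lit 194) (nat_lit 178)) (XT.lf (nat_lit 0) (nat_lit 82732587028) (nat_lit 76) (nat_lit 11100526874) (nat_lit 76) (nat_lit 8840327742) (nat_lit 3) (nat_lit 4) (nat_lit 4) (nat_lit 5) (nat_lit 4) (nat_lit 4) (nat_lit 409) (nat_lit 194) (nat_lit 177))))) (XT.nd (nat_lit 39234) (nat_lit 0) (nat_lit 0) (XT.nd (nat_lit 39078) (nat_lit 0) (nat_lit 76) (XT.lf (nat_lit 0) (nat_lit 89108933913) (nat_lit 76) (nat_lit 9470949548) (nat_lit 76) (nat_lit 7109913651)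 (nat_lit 3) (nat_lit 4) (nat_lit 4) (nat_lit 5) (nat_lit 4) (nat_lit 4) (nat_lit 410) (nat_lit 194) (nat_lit 176)) (XT.nd (nat_lit 78) (nat_lit 0) (nat_lit 0) (XT.lf (nat_lit 0) (nat_lit 9866297359) (nat_lit 152) (nat_lit 10096643853) (nat_lit 0) (nat_lit 9866297359) (nat_lit 4) (nat_lit 5) (nat_lit 6) (nat_lit 4) (nat_lit 4) (nat_lit 4) (nat_lit 390) (nat_lit 195) (nat_lit 195)) (XT.lf (nat_lit 0) (nat_lit 23031332239) (nat_lit 152) (nat_lit 15469688432) (nat_lit 0) (nat_lit 22859664398) (nat_lit 4) (nat_lit 5) (nat_lit 6) (nat_lit 4) (nat_lit 4) (nat_lit 4) (nat_lit 391) (nat_lit 195) (nat_lit 194)))) (XT.nd (nat_lit 156) (nat_lit 76) (nat_lit 0) (XT.nd (nat_lit 78) (nat_lit 0) (nat_lit 0) (XT.lf (nat_lit 0) (nat_lit 26373314557) (nat_lit 152) (nat_lit 10707357364) (nat_lit 0) (nat_lit 26034978909) (nat_lit 4) (nat_lit 5) (nat_lit 6) (nat_lit 4) (nat_lit 4) (nat_lit 4) (nat_lit 392) (nat_lit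 195) (nat_lit 193)) (XT.lf (nat_lit 0) (nat_lit 29761461851) (nat_lit 152) (nat_lit 5902133239) (nat_lit 0) (nat_lit 29261312799) (nat_lit 4) (nat_lit 5) (nat_lit 6) (nat_lit 4) (nat_lit 4) (nat_lit 4) (nat_lit 393) (nat_lit 195) (nat_lit 192))) (XT.nd (nat_lit 78) (nat_lit 76) (nat_lit 0) (XT.lf (nat_lit 0) (nat_lit 33198734640) (nat_lit 152) (nat_lit 1049817319) (nat_lit 0) (nat_lit 32541485195) (nat_lit 4) (nat_lit 5) (nat_lit 6) (nat_lit 4) (nat_lit 4) (nat_lit 4) (nat_lit 394) (nat_lit 195) (nat_lit 191)) (XT.lf (nat_lit 0) (nat_lit 3930529062) (nat_lit 76) (nat_lit 32795389952) (nat_lit 76) (nat_lit 31985615853) (nat_lit 3) (nat_lit 4) (nat_lit 4) (nat_lit 5) (nat_lit 4) (nat_lit 4) (nat_lit 395) (nat_lit 195) (nat_lit 190))))))))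
noncomputable def xc2 : XT := (XT.nd (nat_lit 40872) (nat_lit 0) (nat_lit 0) (XT.nd (nat_lit 1014) (nat_lit 0) (nat_lit 0) (XT.nd (nat_lit 468) (nat_lit 0) (nat_lit 0) (XT.nd (nat_lit 234) (nat_lit 0) (nat_lit 0) (XT.nd (nat_lit 78) (nat_lit 0) (nat_lit 0) (XT.lf (nat_lit 0) (nat_lit 8988492166) (nat_lit 76) (nat_lit 31330626735) (nat_lit 76) (nat_lit 30372770449) (nat_lit 3) (nat_lit 4) (nat_lit 4) (nat_lit 5) (nat_lit 4) (nat_lit 4) (nat_lit 396) (nat_lit 195) (nat_lit 189)) (XT.nd (nat_lit 78) (nat_lit 0) (nat_lit 0) (XT.lf (nat_lit 0) (nat_lit 14107598150) (nat_lit 76) (nat_lit 29863583516) (nat_lit 76) (nat_lit 28761958115) (nat_lit 3) (nat_lit 4) (nat_lit 4) (nat_lit 5) (nat_lit 4) (nat_lit 4) (nat_lit 397) (nat_lit 195) (nat_lit 188)) (XT.lf (nat_lit 0) (nat_lit 19292320017) (nat_lit 76) (nat_lit 28392978411) (nat_lit 76) (nat_lit 27151771347) (nat_lit 3) (nat_lit 4) (nat_lit 4) (nat_lit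 5) (nat_lit 4) (nat_lit 4) (nat_lit 398) (nat_lit 195) (nat_lit 187)))) (XT.nd (nat_lit 78) (nat_lit 0) (nat_lit 0) (XT.lf (nat_lit 0) (nat_lit 24547188108) (nat_lit 76) (nat_lit 26917526427) (nat_lit 76) (nat_lit 25540803183) (nat_lit 3) (nat_lit 4) (nat_lit 4) (nat_lit 5) (nat_lit 4) (nat_lit 4) (nat_lit 399) (nat_lit 195) (nat_lit 186)) (XT.nd (nat_lit 78) (nat_lit 0) (nat_lit 0) (XT.lf (nat_lit 0) (nat_lit 29876794056) (nat_lit 76) (nat_lit 25435938333) (nat_lit 76) (nat_lit 23927645983) (nat_lit 3) (nat_lit 4) (nat_lit 4) (nat_lit 5) (nat_lit 4) (nat_lit 4) (nat_lit 400) (nat_lit 195) (nat_lit 185)) (XT.lf (nat_lit 0) (nat_lit 35285794796) (nat_lit 76) (nat_lit 23946919537) (nat_lit 76) (nat_lit 22310890191) (nat_lit 3) (nat_lit 4) (nat_lit 4) (nat_lit 5) (nat_lit 4) (nat_lit 4) (nat_lit 401) (nat_lit 195) (nat_lit 184))))) (XT.nd (nat_lit 234) (nat_lit 0) (nat_lit 0) (XT.nd (nat_lit 78)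 (nat_lit 0) (nat_lit 0) (XT.lf (nat_lit 0) (nat_lit 40778916640) (nat_lit 76) (nat_lit 22449168955) (nat_lit 76) (nat_lit 20689123109) (nat_lit 3) (nat_lit 4) (nat_lit 4) (nat_lit 5) (nat_lit 4) (nat_lit 4) (nat_lit 402) (nat_lit 195) (nat_lit 183)) (XT.nd (nat_lit 78) (nat_lit 0) (nat_lit 0) (XT.lf (nat_lit 0) (nat_lit 46360959405) (nat_lit 76) (nat_lit 20941377874) (nat_lit 76) (nat_lit 19060927658) (nat_lit 3) (nat_lit 4) (nat_lit 4) (nat_lit 5) (nat_lit 4) (nat_lit 4) (nat_lit 403) (nat_lit 195) (nat_lit 182)) (XT.lf (nat_lit 0) (nat_lit 52036800602) (nat_lit 76) (nat_lit 19422228806) (nat_lit 76) (nat_lit 17424881143) (nat_lit 3) (nat_lit 4) (nat_lit 4) (nat_lit 5) (nat_lit 4) (nat_lit 4) (nat_lit 404) (nat_lit 195) (nat_lit 181)))) (XT.nd (nat_lit 156) (nat_lit 0) (nat_lit 0) (XT.nd (nat_lit 78) (nat_lit 0) (nat_lit 0) (XT.lf (nat_lit 0) (nat_lit 57811399705) (nat_lit 76) (nat_lit 17890394338)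 (nat_lit 76) (nat_lit 15779554009) (nat_lit 3) (nat_lit 4) (nat_lit 4) (nat_lit 5) (nat_lit 4) (nat_lit 4) (nat_lit 405) (nat_lit 195) (nat_lit 180)) (XT.lf (nat_lit 0) (nat_lit 63689802479) (nat_lit 76) (nat_lit 16344535975) (nat_lit 76) (nat_lit 14123508592) (nat_lit 3) (nat_lit 4) (nat_lit 4) (nat_lit 5) (nat_lit 4) (nat_lit 4) (nat_lit 406) (nat_lit 195) (nat_lit 179))) (XT.nd (nat_lit 78) (nat_lit 0) (nat_lit 0) (XT.lf (nat_lit 0) (nat_lit 69677145394) (nat_lit 76) (nat_lit 14783302967) (nat_lit 76) (nat_lit 12455297861) (nat_lit 3) (nat_lit 4) (nat_lit 4) (nat_lit 5) (nat_lit 4) (nat_lit 4) (nat_lit 407) (nat_lit 195) (nat_lit 178)) (XT.lf (nat_lit 0) (nat_lit 75778660108) (nat_lit 76) (nat_lit 13205331130) (nat_lit 76) (nat_lit 10773464157) (nat_lit 3) (nat_lit 4) (nat_lit 4) (nat_lit 5) (nat_lit 4) (nat_lit 4) (nat_lit 408) (nat_lit 195) (nat_lit 177)))))) (XT.nd (nat_lit 39312) (nat_lit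 0) (nat_lit 0) (XT.nd (nat_lit 39078) (nat_lit 0) (nat_lit 76) (XT.nd (nat_lit 78) (nat_lit 0) (nat_lit 0) (XT.lf (nat_lit 0) (nat_lit 81999678042) (nat_lit 76) (nat_lit 11609241653) (nat_lit 76) (nat_lit 9076537916) (nat_lit 3) (nat_lit 4) (nat_lit 4) (nat_lit 5) (nat_lit 4) (nat_lit 4) (nat_lit 409) (nat_lit 195) (nat_lit 176)) (XT.nd (nat_lit 38922) (nat_lit 0) (nat_lit 76) (XT.lf (nat_lit 0) (nat_lit 88345635037) (nat_lit 76) (nat_lit 9993639895) (nat_lit 76) (nat_lit 7363036387) (nat_lit 3) (nat_lit 4) (nat_lit 4) (nat_lit 5) (nat_lit 4) (nat_lit 4) (nat_lit 410) (nat_lit 195) (nat_lit 175)) (XT.lf (nat_lit 0) (nat_lit 6729648064) (nat_lit 152) (nat_lit 14743476913) (nat_lit 0) (nat_lit 6729648064) (nat_lit 4) (nat_lit 5) (nat_lit 6) (nat_lit 4) (nat_lit 4) (nat_lit 4) (nat_lit 388) (nat_lit 196) (nat_lit 196)))) (XT.nd (nat_lit 78) (nat_lit 0) (nat_lit 0) (XT.lf (nat_lit 0) (nat_lit 16651037481)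 (nat_lit 152) (nat_lit 24882282600) (nat_lit 0) (nat_lit 16474219605) (nat_lit 4) (nat_lit 5) (nat_lit 6) (nat_lit 4) (nat_lit 4) (nat_lit 4) (nat_lit 389) (nat_lit 196) (nat_lit 195)) (XT.nd (nat_lit 78) (nat_lit 0) (nat_lit 0) (XT.lf (nat_lit 0) (nat_lit 19881142227) (nat_lit 152) (nat_lit 20245536705) (nat_lit 0) (nat_lit 19532656510) (nat_lit 4) (nat_lit 5) (nat_lit 6) (nat_lit 4) (nat_lit 4) (nat_lit 4) (nat_lit 390) (nat_lit 196) (nat_lit 194)) (XT.lf (nat_lit 0) (nat_lit 23152432787) (nat_lit 152) (nat_lit 15572664615) (nat_lit 0) (nat_lit 22637279263) (nat_lit 4) (nat_lit 5) (nat_lit 6) (nat_lit 4) (nat_lit 4) (nat_lit 4) (nat_lit 391) (nat_lit 196) (nat_lit 193))))) (XT.nd (nat_lit 234) (nat_lit 76) (nat_lit 0) (XT.nd (nat_lit 78) (nat_lit 0) (nat_lit 0) (XT.lf (nat_lit 0) (nat_lit 26467767572) (nat_lit 152) (nat_lit 10859583239) (nat_lit 0) (nat_lit 25790800643) (nat_lit 4) (nat_lit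 5) (nat_lit 6) (nat_lit 4) (nat_lit 4) (nat_lit 4) (nat_lit 392) (nat_lit 196) (nat_lit 192)) (XT.nd (nat_lit 78) (nat_lit 0) (nat_lit 0) (XT.lf (nat_lit 0) (nat_lit 29830043475) (nat_lit 152) (nat_lit 6102174350) (nat_lit 0) (nat_lit 28995976153) (nat_lit 4) (nat_lit 5) (nat_lit 6) (nat_lit 4) (nat_lit 4) (nat_lit 4) (nat_lit 393) (nat_lit 196) (nat_lit 191)) (XT.lf (nat_lit 0) (nat_lit 33242198408) (nat_lit 152) (nat_lit 1296280989) (nat_lit 0) (nat_lit 32255606433) (nat_lit 4) (nat_lit 5) (nat_lit 6) (nat_lit 4) (nat_lit 4) (nat_lit 4) (nat_lit 394) (nat_lit 196) (nat_lit 190)))) (XT.nd (nat_lit 156) (nat_lit 0) (nat_lit 0) (XT.nd (nat_lit 78) (nat_lit 0) (nat_lit 0) (XT.lf (nat_lit 0) (nat_lit 3633192846) (nat_lit 76) (nat_lit 33108945490) (nat_lit 76) (nat_lit 31974271328) (nat_lit 3) (nat_lit 4) (nat_lit 4) (nat_lit 5) (nat_lit 4) (nat_lit 4) (nat_lit 395) (nat_lit 196) (nat_lit 189))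 (XT.lf (nat_lit 0) (nat_lit 8646527372) (nat_lit 76) (nat_lit 31664705867) (nat_lit 76) (nat_lit 30386262590) (nat_lit 3) (nat_lit 4) (nat_lit 4) (nat_lit 5) (nat_lit 4) (nat_lit 4) (nat_lit 396) (nat_lit 196) (nat_lit 188))) (XT.nd (nat_lit 78) (nat_lit 0) (nat_lit 0) (XT.lf (nat_lit 0) (nat_lit 13722304638) (nat_lit 76) (nat_lit 30217588466) (nat_lit 76) (nat_lit 28799563524) (nat_lit 3) (nat_lit 4) (nat_lit 4) (nat_lit 5) (nat_lit 4) (nat_lit 4) (nat_lit 397) (nat_lit 196) (nat_lit 187)) (XT.lf (nat_lit 0) (nat_lit 18864959790) (nat_lit 76) (nat_lit 28766328816) (nat_lit 76) (nat_lit 27212787696) (nat_lit 3) (nat_lit 4) (nat_lit 4) (nat_lit 5) (nat_lit 4) (nat_lit 4) (nat_lit 398) (nat_lit 196) (nat_lit 186))))))) (XT.nd (nat_lit 39702) (nat_lit 0) (nat_lit 0) (XT.nd (nat_lit 468) (nat_lit 0) (nat_lit 0) (XT.nd (nat_lit 234) (nat_lit 0) (nat_lit 0) (XT.nd (nat_lit 78) (nat_lit 0) (nat_lit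 0) (XT.lf (nat_lit 0) (nat_lit 24078986410) (nat_lit 76) (nat_lit 27309658826) (nat_lit 76) (nat_lit 25624548600) (nat_lit 3) (nat_lit 4) (nat_lit 4) (nat_lit 5) (nat_lit 4) (nat_lit 4) (nat_lit 399) (nat_lit 196) (nat_lit 185)) (XT.nd (nat_lit 78) (nat_lit 0) (nat_lit 0) (XT.lf (nat_lit 0) (nat_lit 29368940443) (nat_lit 76) (nat_lit 25846305678) (nat_lit 76) (nat_lit 24033458457) (nat_lit 3) (nat_lit 4) (nat_lit 4) (nat_lit 5) (nat_lit 4) (nat_lit 4) (nat_lit 400) (nat_lit 196) (nat_lit 184)) (XT.lf (nat_lit 0) (nat_lit 34739444180) (nat_lit 76) (nat_lit 24374990714) (nat_lit 76) (nat_lit 22438126992) (nat_lit 3) (nat_lit 4) (nat_lit 4) (nat_lit 5) (nat_lit 4) (nat_lit 4) (nat_lit 401) (nat_lit 196) (nat_lit 183)))) (XT.nd (nat_lit 78) (nat_lit 0) (nat_lit 0) (XT.lf (nat_lit 0) (nat_lit 40195190292) (nat_lit 76) (nat_lit 22894428319) (nat_lit 76) (nat_lit 20837160227) (nat_lit 3) (nat_lit 4)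 (nat_lit 4) (nat_lit 5) (nat_lit 4) (nat_lit 4) (nat_lit 402) (nat_lit 196) (nat_lit 182)) (XT.nd (nat_lit 78) (nat_lit 0) (nat_lit 0) (XT.lf (nat_lit 0) (nat_lit 45740945938) (nat_lit 76) (nat_lit 21403324797) (nat_lit 76) (nat_lit 19229159258) (nat_lit 3) (nat_lit 4) (nat_lit 4) (nat_lit 5) (nat_lit 4) (nat_lit 4) (nat_lit 403) (nat_lit 196) (nat_lit 181)) (XT.lf (nat_lit 0) (nat_lit 51381556924) (nat_lit 76) (nat_lit 19900377242) (nat_lit 76) (nat_lit 17612719037) (nat_lit 3) (nat_lit 4) (nat_lit 4) (nat_lit 5) (nat_lit 4) (nat_lit 4) (nat_lit 404) (nat_lit 196) (nat_lit 180))))) (XT.nd (nat_lit 234) (nat_lit 0) (nat_lit 0) (XT.nd (nat_lit 78) (nat_lit 0) (nat_lit 0) (XT.lf (nat_lit 0) (nat_lit 57121951937) (nat_lit 76) (nat_lit 18384272400) (nat_lit 76) (nat_lit 15986427140) (nat_lit 3) (nat_lit 4) (nat_lit 4) (nat_lit 5) (nat_lit 4) (nat_lit 4) (nat_lit 405) (nat_lit 196) (nat_lit 179))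 (XT.nd (nat_lit 78) (nat_lit 0) (nat_lit 0) (XT.lf (nat_lit 0) (nat_lit 62967146858) (nat_lit 76) (nat_lit 16853685518) (nat_lit 76) (nat_lit 14348862535) (nat_lit 3) (nat_lit 4) (nat_lit 4) (nat_lit 5) (nat_lit 4) (nat_lit 4) (nat_lit 406) (nat_lit 196) (nat_lit 178)) (XT.lf (nat_lit 0) (nat_lit 68922249138) (nat_lit 76) (nat_lit 15307279190) (nat_lit 76) (nat_lit 12698594340) (nat_lit 3) (nat_lit 4) (nat_lit 4) (nat_lit 5) (nat_lit 4) (nat_lit 4) (nat_lit 407) (nat_lit 196) (nat_lit 177)))) (XT.nd (nat_lit 156) (nat_lit 0) (nat_lit 0) (XT.nd (nat_lit 78) (nat_lit 0) (nat_lit 0) (XT.lf (nat_lit 0) (nat_lit 74992462266) (nat_lit 76) (nat_lit 13743702188) (nat_lit 76) (nat_lit 11034180574) (nat_lit 3) (nat_lit 4) (nat_lit 4) (nat_lit 5) (nat_lit 4) (nat_lit 4) (nat_lit 408) (nat_lit 196) (nat_lit 176)) (XT.lf (nat_lit 0) (nat_lit 81183090309) (nat_lit 76) (nat_lit 12161588279) (nat_lit 76) (nat_lit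 9354166894) (nat_lit 3) (nat_lit 4) (nat_lit 4) (nat_lit 5) (nat_lit 4) (nat_lit 4) (nat_lit 409) (nat_lit 196) (nat_lit 175))) (XT.nd (nat_lit 38766) (nat_lit 0) (nat_lit 76) (XT.lf (nat_lit 0) (nat_lit 87499542556) (nat_lit 76) (nat_lit 10559555034) (nat_lit 76) (nat_lit 7657085328) (nat_lit 3) (nat_lit 4) (nat_lit 4) (nat_lit 5) (nat_lit 4) (nat_lit 4) (nat_lit 410) (nat_lit 196) (nat_lit 174)) (XT.lf (nat_lit 0) (nat_lit 3695946766) (nat_lit 152) (nat_lit 19280355398) (nat_lit 0) (nat_lit 3695946766) (nat_lit 4) (nat_lit 5) (nat_lit 6) (nat_lit 4) (nat_lit 4) (nat_lit 4) (nat_lit 386) (nat_lit 197) (nat_lit 197)))))) (XT.nd (nat_lit 468) (nat_lit 76) (nat_lit 0) (XT.nd (nat_lit 234) (nat_lit 0) (nat_lit 0) (XT.nd (nat_lit 78) (nat_lit 0) (nat_lit 0) (XT.lf (nat_lit 0) (nat_lit 10485251681) (nat_lit 152) (nat_lit 34063573884) (nat_lit 0) (nat_lit 10303129269) (nat_lit 4) (nat_lit 5) (nat_lit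 6) (nat_lit 4) (nat_lit 4) (nat_lit 4) (nat_lit 387) (nat_lit 197) (nat_lit 196)) (XT.nd (nat_lit 78) (nat_lit 0) (nat_lit 0) (XT.lf (nat_lit 0) (nat_lit 13612300062) (nat_lit 152) (nat_lit 29540770296) (nat_lit 0) (nat_lit 13253359773) (nat_lit 4) (nat_lit 5) (nat_lit 6) (nat_lit 4) (nat_lit 4) (nat_lit 4) (nat_lit 388) (nat_lit 197) (nat_lit 195)) (XT.lf (nat_lit 0) (nat_lit 16775771046) (nat_lit 152) (nat_lit 24988348068) (nat_lit 0) (nat_lit 16245162916) (nat_lit 4) (nat_lit 5) (nat_lit 6) (nat_lit 4) (nat_lit 4) (nat_lit 4) (nat_lit 389) (nat_lit 197) (nat_lit 194)))) (XT.nd (nat_lit 78) (nat_lit 0) (nat_lit 0) (XT.lf (nat_lit 0) (nat_lit 19978428833) (nat_lit 152) (nat_lit 20402329356) (nat_lit 0) (nat_lit 19281152896) (nat_lit 4) (nat_lit 5) (nat_lit 6) (nat_lit 4) (nat_lit 4) (nat_lit 4) (nat_lit 390) (nat_lit 197) (nat_lit 193)) (XT.nd (nat_lit 78) (nat_lit 0) (nat_lit 0) (XT.lf (nat_lit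 0) (nat_lit 23223071860) (nat_lit 152) (nat_lit 15778706959) (nat_lit 0) (nat_lit 22363982518) (nat_lit 4) (nat_lit 5) (nat_lit 6) (nat_lit 4) (nat_lit 4) (nat_lit 4) (nat_lit 391) (nat_lit 197) (nat_lit 192)) (XT.lf (nat_lit 0) (nat_lit 26512535253) (nat_lit 152) (nat_lit 11113440819) (nat_lit 0) (nat_lit 25496345518) (nat_lit 4) (nat_lit 5) (nat_lit 6) (nat_lit 4) (nat_lit 4) (nat_lit 4) (nat_lit 392) (nat_lit 197) (nat_lit 191))))) (XT.nd (nat_lit 234) (nat_lit 0) (nat_lit 0) (XT.nd (nat_lit 78) (nat_lit 76) (nat_lit 0) (XT.lf (nat_lit 0) (nat_lit 29849693300) (nat_lit 152) (nat_lit 6402454489) (nat_lit 0) (nat_lit 28680978912) (nat_lit 4) (nat_lit 5) (nat_lit 6) (nat_lit 4) (nat_lit 4) (nat_lit 4) (nat_lit 393) (nat_lit 197) (nat_lit 190)) (XT.nd (nat_lit 78) (nat_lit 76) (nat_lit 0) (XT.lf (nat_lit 0) (nat_lit 33237461964) (nat_lit 152) (nat_lit 1641631574) (nat_lit 0) (nat_lit 31920665389)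 (nat_lit 4) (nat_lit 5) (nat_lit 6) (nat_lit 4) (nat_lit 4) (nat_lit 4) (nat_lit 394) (nat_lit 197) (nat_lit 189)) (XT.lf (nat_lit 0) (nat_lit 3236340529) (nat_lit 76) (nat_lit 33473570588) (nat_lit 76) (nat_lit 32013004899) (nat_lit 3) (nat_lit 4) (nat_lit 4) (nat_lit 5) (nat_lit 4) (nat_lit 4) (nat_lit 395) (nat_lit 197) (nat_lit 188)))) (XT.nd (nat_lit 156) (nat_lit 0) (nat_lit 0) (XT.nd (nat_lit 78) (nat_lit 0) (nat_lit 0) (XT.lf (nat_lit 0) (nat_lit 8206346338) (nat_lit 76) (nat_lit 32049256783) (nat_lit 76) (nat_lit 30449109429) (nat_lit 3) (nat_lit 4) (nat_lit 4) (nat_lit 5) (nat_lit 4) (nat_lit 4) (nat_lit 396) (nat_lit 197) (nat_lit 187)) (XT.lf (nat_lit 0) (nat_lit 13240056889) (nat_lit 76) (nat_lit 30621484837) (nat_lit 76) (nat_lit 28885821304) (nat_lit 3) (nat_lit 4) (nat_lit 4) (nat_lit 5) (nat_lit 4) (nat_lit 4) (nat_lit 397) (nat_lit 197) (nat_lit 186))) (XT.nd (nat_lit 78) (nat_lit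 0) (nat_lit 0) (XT.lf (nat_lit 0) (nat_lit 18341870570) (nat_lit 76) (nat_lit 29189007182) (nat_lit 76) (nat_lit 27321774544) (nat_lit 3) (nat_lit 4) (nat_lit 4) (nat_lit 5) (nat_lit 4) (nat_lit 4) (nat_lit 398) (nat_lit 197) (nat_lit 185)) (XT.lf (nat_lit 0) (nat_lit 23516245276) (nat_lit 76) (nat_lit 27750572139) (nat_lit 76) (nat_lit 25755602505) (nat_lit 3) (nat_lit 4) (nat_lit 4) (nat_lit 5) (nat_lit 4) (nat_lit 4) (nat_lit 399) (nat_lit 197) (nat_lit 184))))))))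
noncomputable def xc3 : XT := (XT.nd (nat_lit 40560) (nat_lit 0) (nat_lit 0) (XT.nd (nat_lit 39546) (nat_lit 0) (nat_lit 0) (XT.nd (nat_lit 468) (nat_lit 0) (nat_lit 0) (XT.nd (nat_lit 234) (nat_lit 0) (nat_lit 0) (XT.nd (nat_lit 78) (nat_lit 0) (nat_lit 0) (XT.lf (nat_lit 0) (nat_lit 28767702305) (nat_lit 76) (nat_lit 26304922823) (nat_lit 76) (nat_lit 24185936688) (nat_lit 3) (nat_lit 4) (nat_lit 4) (nat_lit 5) (nat_lit 4) (nat_lit 4) (nat_lit 400) (nat_lit 197) (nat_lit 183)) (XT.nd (nat_lit 78) (nat_lit 0) (nat_lit 0) (XT.lf (nat_lit 0) (nat_lit 34100830309) (nat_lit 76) (nat_lit 24850796045) (nat_lit 76) (nat_lit 22611405540) (nat_lit 3) (nat_lit 4) (nat_lit 4) (nat_lit 5) (nat_lit 4) (nat_lit 4) (nat_lit 401) (nat_lit 197) (nat_lit 182)) (XT.lf (nat_lit 0) (nat_lit 39520289304) (nat_lit 76) (nat_lit 23386921208) (nat_lit 76) (nat_lit 21030633257) (nat_lit 3) (nat_lit 4) (nat_lit 4) (nat_lit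 5) (nat_lit 4) (nat_lit 4) (nat_lit 402) (nat_lit 197) (nat_lit 181)))) (XT.nd (nat_lit 78) (nat_lit 0) (nat_lit 0) (XT.lf (nat_lit 0) (nat_lit 45030814738) (nat_lit 76) (nat_lit 21912019200) (nat_lit 76) (nat_lit 19442238583) (nat_lit 3) (nat_lit 4) (nat_lit 4) (nat_lit 5) (nat_lit 4) (nat_lit 4) (nat_lit 403) (nat_lit 197) (nat_lit 180)) (XT.nd (nat_lit 78) (nat_lit 0) (nat_lit 0) (XT.lf (nat_lit 0) (nat_lit 50637221634) (nat_lit 76) (nat_lit 20424801270) (nat_lit 76) (nat_lit 17844833598) (nat_lit 3) (nat_lit 4) (nat_lit 4) (nat_lit 5) (nat_lit 4) (nat_lit 4) (nat_lit 404) (nat_lit 197) (nat_lit 179)) (XT.lf (nat_lit 0) (nat_lit 56344408794) (nat_lit 76) (nat_lit 18923967909) (nat_lit 76) (nat_lit 16237022513) (nat_lit 3) (nat_lit 4) (nat_lit 4) (nat_lit 5) (nat_lit 4) (nat_lit 4) (nat_lit 405) (nat_lit 197) (nat_lit 178))))) (XT.nd (nat_lit 234) (nat_lit 0) (nat_lit 0) (XT.nd (nat_lit 78)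 (nat_lit 0) (nat_lit 0) (XT.lf (nat_lit 0) (nat_lit 62157363080) (nat_lit 76) (nat_lit 17408207707) (nat_lit 76) (nat_lit 14617400444) (nat_lit 3) (nat_lit 4) (nat_lit 4) (nat_lit 5) (nat_lit 4) (nat_lit 4) (nat_lit 406) (nat_lit 197) (nat_lit 177)) (XT.nd (nat_lit 78) (nat_lit 0) (nat_lit 0) (XT.lf (nat_lit 0) (nat_lit 68081163773) (nat_lit 76) (nat_lit 15876196214) (nat_lit 76) (nat_lit 12984552188) (nat_lit 3) (nat_lit 4) (nat_lit 4) (nat_lit 5) (nat_lit 4) (nat_lit 4) (nat_lit 407) (nat_lit 197) (nat_lit 176)) (XT.lf (nat_lit 0) (nat_lit 74120987010) (nat_lit 76) (nat_lit 14326594781) (nat_lit 76) (nat_lit 11337050983) (nat_lit 3) (nat_lit 4) (nat_lit 4) (nat_lit 5) (nat_lit 4) (nat_lit 4) (nat_lit 408) (nat_lit 197) (nat_lit 175)))) (XT.nd (nat_lit 38688) (nat_lit 0) (nat_lit 76) (XT.nd (nat_lit 78) (nat_lit 0) (nat_lit 0) (XT.lf (nat_lit 0) (nat_lit 80282110306) (nat_lit 76) (nat_lit 12758049384)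 (nat_lit 76) (nat_lit 9673457266) (nat_lit 3) (nat_lit 4) (nat_lit 4) (nat_lit 5) (nat_lit 4) (nat_lit 4) (nat_lit 409) (nat_lit 197) (nat_lit 174)) (XT.lf (nat_lit 0) (nat_lit 86569917167) (nat_lit 76) (nat_lit 11169189453) (nat_lit 76) (nat_lit 7992317410) (nat_lit 3) (nat_lit 4) (nat_lit 4) (nat_lit 5) (nat_lit 4) (nat_lit 4) (nat_lit 410) (nat_lit 197) (nat_lit 173))) (XT.nd (nat_lit 78) (nat_lit 0) (nat_lit 0) (XT.lf (nat_lit 0) (nat_lit 756970574) (nat_lit 152) (nat_lit 23718294930) (nat_lit 0) (nat_lit 756970574) (nat_lit 4) (nat_lit 5) (nat_lit 6) (nat_lit 4) (nat_lit 4) (nat_lit 4) (nat_lit 384) (nat_lit 198) (nat_lit 198)) (XT.lf (nat_lit 0) (nat_lit 4517108766) (nat_lit 152) (nat_lit 43036110572) (nat_lit 0) (nat_lit 4329522681) (nat_lit 4) (nat_lit 5) (nat_lit 6) (nat_lit 4) (nat_lit 4) (nat_lit 4) (nat_lit 385) (nat_lit 198) (nat_lit 197)))))) (XT.nd (nat_lit 468) (nat_lit 76) (nat_lit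 0) (XT.nd (nat_lit 234) (nat_lit 0) (nat_lit 0) (XT.nd (nat_lit 78) (nat_lit 0) (nat_lit 0) (XT.lf (nat_lit 0) (nat_lit 7549487584) (nat_lit 152) (nat_lit 38616141760) (nat_lit 0) (nat_lit 7179779086) (nat_lit 4) (nat_lit 5) (nat_lit 6) (nat_lit 4) (nat_lit 4) (nat_lit 4) (nat_lit 386) (nat_lit 198) (nat_lit 196)) (XT.nd (nat_lit 78) (nat_lit 0) (nat_lit 0) (XT.lf (nat_lit 0) (nat_lit 10613727253) (nat_lit 152) (nat_lit 34172821316) (nat_lit 0) (nat_lit 10067200880) (nat_lit 4) (nat_lit 5) (nat_lit 6) (nat_lit 4) (nat_lit 4) (nat_lit 4) (nat_lit 387) (nat_lit 198) (nat_lit 195)) (XT.lf (nat_lit 0) (nat_lit 13712505266) (nat_lit 152) (nat_lit 29702266727) (nat_lit 0) (nat_lit 12994311051) (nat_lit 4) (nat_lit 5) (nat_lit 6) (nat_lit 4) (nat_lit 4) (nat_lit 4) (nat_lit 388) (nat_lit 198) (nat_lit 194)))) (XT.nd (nat_lit 78) (nat_lit 0) (nat_lit 0) (XT.lf (nat_lit 0) (nat_lit 16848529291) (nat_lit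 152) (nat_lit 25200571683) (nat_lit 0) (nat_lit 15963667269) (nat_lit 4) (nat_lit 5) (nat_lit 6) (nat_lit 4) (nat_lit 4) (nat_lit 4) (nat_lit 389) (nat_lit 198) (nat_lit 193)) (XT.nd (nat_lit 78) (nat_lit 0) (nat_lit 0) (XT.lf (nat_lit 0) (nat_lit 20024539544) (nat_lit 152) (nat_lit 20663802664) (nat_lit 0) (nat_lit 18977864117) (nat_lit 4) (nat_lit 5) (nat_lit 6) (nat_lit 4) (nat_lit 4) (nat_lit 4) (nat_lit 390) (nat_lit 198) (nat_lit 192)) (XT.lf (nat_lit 0) (nat_lit 23243311179) (nat_lit 152) (nat_lit 16087995503) (nat_lit 0) (nat_lit 22039535360) (nat_lit 4) (nat_lit 5) (nat_lit 6) (nat_lit 4) (nat_lit 4) (nat_lit 4) (nat_lit 391) (nat_lit 198) (nat_lit 191))))) (XT.nd (nat_lit 234) (nat_lit 76) (nat_lit 0) (XT.nd (nat_lit 78) (nat_lit 0) (nat_lit 0) (XT.lf (nat_lit 0) (nat_lit 26507656716) (nat_lit 152) (nat_lit 11469151921) (nat_lit 0) (nat_lit 25151356244) (nat_lit 4) (nat_lit 5) (nat_lit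 6) (nat_lit 4) (nat_lit 4) (nat_lit 4) (nat_lit 392) (nat_lit 198) (nat_lit 190)) (XT.nd (nat_lit 78) (nat_lit 0) (nat_lit 0) (XT.lf (nat_lit 0) (nat_lit 29820428495) (nat_lit 152) (nat_lit 6803236037) (nat_lit 0) (nat_lit 28316045835) (nat_lit 4) (nat_lit 5) (nat_lit 6) (nat_lit 4) (nat_lit 4) (nat_lit 4) (nat_lit 393) (nat_lit 198) (nat_lit 189)) (XT.lf (nat_lit 0) (nat_lit 33184521172) (nat_lit 152) (nat_lit 2086170836) (nat_lit 0) (nat_lit 31536369397) (nat_lit 4) (nat_lit 5) (nat_lit 6) (nat_lit 4) (nat_lit 4) (nat_lit 4) (nat_lit 394) (nat_lit 198) (nat_lit 188)))) (XT.nd (nat_lit 156) (nat_lit 0) (nat_lit 0) (XT.nd (nat_lit 78) (nat_lit 0) (nat_lit 0) (XT.lf (nat_lit 0) (nat_lit 2739625347) (nat_lit 76) (nat_lit 33889583851) (nat_lit 76) (nat_lit 32101850412) (nat_lit 3) (nat_lit 4) (nat_lit 4) (nat_lit 5) (nat_lit 4) (nat_lit 4) (nat_lit 395) (nat_lit 198) (nat_lit 187)) (XT.lf (nat_lit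 0) (nat_lit 7667564441) (nat_lit 76) (nat_lit 32484615500) (nat_lit 76) (nat_lit 30561365883) (nat_lit 3) (nat_lit 4) (nat_lit 4) (nat_lit 5) (nat_lit 4) (nat_lit 4) (nat_lit 396) (nat_lit 198) (nat_lit 186))) (XT.nd (nat_lit 78) (nat_lit 0) (nat_lit 0) (XT.lf (nat_lit 0) (nat_lit 12660433520) (nat_lit 76) (nat_lit 31075625549) (nat_lit 76) (nat_lit 29020806826) (nat_lit 3) (nat_lit 4) (nat_lit 4) (nat_lit 5) (nat_lit 4) (nat_lit 4) (nat_lit 397) (nat_lit 198) (nat_lit 185)) (XT.lf (nat_lit 0) (nat_lit 17722595287) (nat_lit 76) (nat_lit 29661382841) (nat_lit 76) (nat_lit 27478827122) (nat_lit 3) (nat_lit 4) (nat_lit 4) (nat_lit 5) (nat_lit 4) (nat_lit 4) (nat_lit 398) (nat_lit 198) (nat_lit 184))))))) (XT.nd (nat_lit 39390) (nat_lit 0) (nat_lit 0) (XT.nd (nat_lit 468) (nat_lit 0) (nat_lit 0) (XT.nd (nat_lit 234) (nat_lit 0) (nat_lit 0) (XT.nd (nat_lit 78) (nat_lit 0) (nat_lit 0) (XT.lf (nat_lit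 0) (nat_lit 22858472989) (nat_lit 76) (nat_lit 28240651629) (nat_lit 76) (nat_lit 25934079409) (nat_lit 3) (nat_lit 4) (nat_lit 4) (nat_lit 5) (nat_lit 4) (nat_lit 4) (nat_lit 399) (nat_lit 198) (nat_lit 183)) (XT.nd (nat_lit 78) (nat_lit 0) (nat_lit 0) (XT.lf (nat_lit 0) (nat_lit 28072554287) (nat_lit 76) (nat_lit 26812190499) (nat_lit 76) (nat_lit 24385213909) (nat_lit 3) (nat_lit 4) (nat_lit 4) (nat_lit 5) (nat_lit 4) (nat_lit 4) (nat_lit 400) (nat_lit 198) (nat_lit 182)) (XT.lf (nat_lit 0) (nat_lit 33369395173) (nat_lit 76) (nat_lit 25374751280) (nat_lit 76) (nat_lit 22830877244) (nat_lit 3) (nat_lit 4) (nat_lit 4) (nat_lit 5) (nat_lit 4) (nat_lit 4) (nat_lit 401) (nat_lit 198) (nat_lit 181)))) (XT.nd (nat_lit 78) (nat_lit 0) (nat_lit 0) (XT.lf (nat_lit 0) (nat_lit 38753623955) (nat_lit 76) (nat_lit 23927077958) (nat_lit 76) (nat_lit 21269711255) (nat_lit 3) (nat_lit 4) (nat_lit 4) (nat_lit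 5) (nat_lit 4) (nat_lit 4) (nat_lit 402) (nat_lit 198) (nat_lit 180)) (XT.nd (nat_lit 78) (nat_lit 0) (nat_lit 0) (XT.lf (nat_lit 0) (nat_lit 44229945300) (nat_lit 76) (nat_lit 22467905575) (nat_lit 76) (nat_lit 19700351817) (nat_lit 3) (nat_lit 4) (nat_lit 4) (nat_lit 5) (nat_lit 4) (nat_lit 4) (nat_lit 403) (nat_lit 198) (nat_lit 179)) (XT.lf (nat_lit 0) (nat_lit 49803144343) (nat_lit 76) (nat_lit 20995959126) (nat_lit 76) (nat_lit 18121427645) (nat_lit 3) (nat_lit 4) (nat_lit 4) (nat_lit 5) (nat_lit 4) (nat_lit 4) (nat_lit 404) (nat_lit 198) (nat_lit 178))))) (XT.nd (nat_lit 234) (nat_lit 0) (nat_lit 0) (XT.nd (nat_lit 78) (nat_lit 0) (nat_lit 0) (XT.lf (nat_lit 0) (nat_lit 55478090868) (nat_lit 76) (nat_lit 19509952444) (nat_lit 76) (nat_lit 16531559097) (nat_lit 3) (nat_lit 4) (nat_lit 4) (nat_lit 5) (nat_lit 4) (nat_lit 4) (nat_lit 405) (nat_lit 198) (nat_lit 177)) (XT.nd (nat_lit 78)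 (nat_lit 0) (nat_lit 0) (XT.lf (nat_lit 0) (nat_lit 61259743567) (nat_lit 76) (nat_lit 18008587077) (nat_lit 76) (nat_lit 14929356966) (nat_lit 3) (nat_lit 4) (nat_lit 4) (nat_lit 5) (nat_lit 4) (nat_lit 4) (nat_lit 406) (nat_lit 198) (nat_lit 176)) (XT.lf (nat_lit 0) (nat_lit 67153154370) (nat_lit 76) (nat_lit 16490551153) (nat_lit 76) (nat_lit 13313421271) (nat_lit 3) (nat_lit 4) (nat_lit 4) (nat_lit 5) (nat_lit 4) (nat_lit 4) (nat_lit 407) (nat_lit 198) (nat_lit 175)))) (XT.nd (nat_lit 156) (nat_lit 0) (nat_lit 0) (XT.nd (nat_lit 78) (nat_lit 0) (nat_lit 0) (XT.lf (nat_lit 0) (nat_lit 73163472859) (nat_lit 76) (nat_lit 14954518232) (nat_lit 76) (nat_lit 11682340028) (nat_lit 3) (nat_lit 4) (nat_lit 4) (nat_lit 5) (nat_lit 4) (nat_lit 4) (nat_lit 408) (nat_lit 198) (nat_lit 174)) (XT.lf (nat_lit 0) (nat_lit 79295950769) (nat_lit 76) (nat_lit 13399146149) (nat_lit 76) (nat_lit 10034688022)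 (nat_lit 3) (nat_lit 4) (nat_lit 4) (nat_lit 5) (nat_lit 4) (nat_lit 4) (nat_lit 409) (nat_lit 198) (nat_lit 173))) (XT.nd (nat_lit 38454) (nat_lit 0) (nat_lit 228) (XT.lf (nat_lit 0) (nat_lit 85555946574) (nat_lit 76) (nat_lit 11823075842) (nat_lit 76) (nat_lit 8369025556) (nat_lit 3) (nat_lit 4) (nat_lit 4) (nat_lit 5) (nat_lit 4) (nat_lit 4) (nat_lit 410) (nat_lit 198) (nat_lit 172)) (XT.lf (nat_lit 0) (nat_lit 19726068287) (nat_lit 76) (nat_lit 2074560569) (nat_lit 76) (nat_lit 2074560569) (nat_lit 6) (nat_lit 4) (nat_lit 7) (nat_lit 5) (nat_lit 7) (nat_lit 4) (nat_lit 382) (nat_lit 199) (nat_lit 199)))))) (XT.nd (nat_lit 546) (nat_lit 76) (nat_lit 0) (XT.nd (nat_lit 234) (nat_lit 0) (nat_lit 0) (XT.nd (nat_lit 78) (nat_lit 152) (nat_lit 0) (XT.lf (nat_lit 0) (nat_lit 46382495716) (nat_lit 76) (nat_lit 1452145124) (nat_lit 76) (nat_lit 1253135046) (nat_lit 6) (nat_lit 4) (nat_lit 7) (nat_lit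 5) (nat_lit 7) (nat_lit 4) (nat_lit 383) (nat_lit 199) (nat_lit 198)) (XT.nd (nat_lit 78) (nat_lit 0) (nat_lit 0) (XT.lf (nat_lit 0) (nat_lit 1676263021) (nat_lit 152) (nat_lit 47493683752) (nat_lit 0) (nat_lit 1295463269) (nat_lit 4) (nat_lit 5) (nat_lit 6) (nat_lit 4) (nat_lit 4) (nat_lit 4) (nat_lit 384) (nat_lit 199) (nat_lit 197)) (XT.lf (nat_lit 0) (nat_lit 4649438605) (nat_lit 152) (nat_lit 43148635427) (nat_lit 0) (nat_lit 4086516440) (nat_lit 4) (nat_lit 5) (nat_lit 6) (nat_lit 4) (nat_lit 4) (nat_lit 4) (nat_lit 385) (nat_lit 199) (nat_lit 196)))) (XT.nd (nat_lit 156) (nat_lit 0) (nat_lit 0) (XT.nd (nat_lit 78) (nat_lit 0) (nat_lit 0) (XT.lf (nat_lit 0) (nat_lit 7652698944) (nat_lit 152) (nat_lit 38782483084) (nat_lit 0) (nat_lit 6912958903) (nat_lit 4) (nat_lit 5) (nat_lit 6) (nat_lit 4) (nat_lit 4) (nat_lit 4) (nat_lit 386) (nat_lit 199) (nat_lit 195)) (XT.lf (nat_lit 0) (nat_lit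 10688668245) (nat_lit 152) (nat_lit 34391411639) (nat_lit 0) (nat_lit 9777260363) (nat_lit 4) (nat_lit 5) (nat_lit 6) (nat_lit 4) (nat_lit 4) (nat_lit 4) (nat_lit 387) (nat_lit 199) (nat_lit 194))) (XT.nd (nat_lit 78) (nat_lit 0) (nat_lit 0) (XT.lf (nat_lit 0) (nat_lit 13759999298) (nat_lit 152) (nat_lit 29971584234) (nat_lit 0) (nat_lit 12681923609) (nat_lit 4) (nat_lit 5) (nat_lit 6) (nat_lit 4) (nat_lit 4) (nat_lit 4) (nat_lit 388) (nat_lit 199) (nat_lit 193)) (XT.lf (nat_lit 0) (nat_lit 16869375790) (nat_lit 152) (nat_lit 25519138883) (nat_lit 0) (nat_lit 15629486696) (nat_lit 4) (nat_lit 5) (nat_lit 6) (nat_lit 4) (nat_lit 4) (nat_lit 4) (nat_lit 389) (nat_lit 199) (nat_lit 192))))) (XT.nd (nat_lit 234) (nat_lit 76) (nat_lit 0) (XT.nd (nat_lit 78) (nat_lit 0) (nat_lit 0) (XT.lf (nat_lit 0) (nat_lit 20019514651) (nat_lit 152) (nat_lit 21030185099) (nat_lit 0) (nat_lit 18622525164) (nat_lit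 4) (nat_lit 5) (nat_lit 6) (nat_lit 4) (nat_lit 4) (nat_lit 4) (nat_lit 390) (nat_lit 199) (nat_lit 191)) (XT.nd (nat_lit 78) (nat_lit 0) (nat_lit 0) (XT.lf (nat_lit 0) (nat_lit 23213168431) (nat_lit 152) (nat_lit 16500800497) (nat_lit 0) (nat_lit 21663654291) (nat_lit 4) (nat_lit 5) (nat_lit 6) (nat_lit 4) (nat_lit 4) (nat_lit 4) (nat_lit 391) (nat_lit 199) (nat_lit 190)) (XT.lf (nat_lit 0) (nat_lit 26453127700) (nat_lit 152) (nat_lit 11927027361) (nat_lit 0) (nat_lit 24755531372) (nat_lit 4) (nat_lit 5) (nat_lit 6) (nat_lit 4) (nat_lit 4) (nat_lit 4) (nat_lit 392) (nat_lit 199) (nat_lit 189)))) (XT.nd (nat_lit 156) (nat_lit 76) (nat_lit 0) (XT.nd (nat_lit 78) (nat_lit 0) (nat_lit 0) (XT.lf (nat_lit 0) (nat_lit 29742223490) (nat_lit 152) (nat_lit 7304869191) (nat_lit 0) (nat_lit 27900858049) (nat_lit 4) (nat_lit 5) (nat_lit 6) (nat_lit 4) (nat_lit 4) (nat_lit 4) (nat_lit 393) (nat_lit 199)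 (nat_lit 188)) (XT.lf (nat_lit 0) (nat_lit 33083329770) (nat_lit 152) (nat_lit 2630287207) (nat_lit 0) (nat_lit 31102382664) (nat_lit 4) (nat_lit 5) (nat_lit 6) (nat_lit 4) (nat_lit 4) (nat_lit 4) (nat_lit 394) (nat_lit 199) (nat_lit 187))) (XT.nd (nat_lit 78) (nat_lit 0) (nat_lit 0) (XT.lf (nat_lit 0) (nat_lit 2142613277) (nat_lit 76) (nat_lit 34357348784) (nat_lit 76) (nat_lit 32240885499) (nat_lit 3) (nat_lit 4) (nat_lit 4) (nat_lit 5) (nat_lit 4) (nat_lit 4) (nat_lit 395) (nat_lit 199) (nat_lit 186)) (XT.lf (nat_lit 0) (nat_lit 7029710900) (nat_lit 76) (nat_lit 32971162429) (nat_lit 76) (nat_lit 30723130038) (nat_lit 3) (nat_lit 4) (nat_lit 4) (nat_lit 5) (nat_lit 4) (nat_lit 4) (nat_lit 396) (nat_lit 199) (nat_lit 185))))))))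
noncomputable def xc4 : XT := (XT.nd (nat_lit 40248) (nat_lit 0) (nat_lit 0) (XT.nd (nat_lit 1014) (nat_lit 0) (nat_lit 0) (XT.nd (nat_lit 468) (nat_lit 0) (nat_lit 0) (XT.nd (nat_lit 234) (nat_lit 0) (nat_lit 0) (XT.nd (nat_lit 78) (nat_lit 0) (nat_lit 0) (XT.lf (nat_lit 0) (nat_lit 11982928065) (nat_lit 76) (nat_lit 31580407424) (nat_lit 76) (nat_lit 29204638037) (nat_lit 3) (nat_lit 4) (nat_lit 4) (nat_lit 5) (nat_lit 4) (nat_lit 4) (nat_lit 397) (nat_lit 199) (nat_lit 184)) (XT.nd (nat_lit 78) (nat_lit 0) (nat_lit 0) (XT.lf (nat_lit 0) (nat_lit 17006592828) (nat_lit 76) (nat_lit 30183868547) (nat_lit 76) (nat_lit 27684082660) (nat_lit 3) (nat_lit 4) (nat_lit 4) (nat_lit 5) (nat_lit 4) (nat_lit 4) (nat_lit 398) (nat_lit 199) (nat_lit 183)) (XT.lf (nat_lit 0) (nat_lit 22105094799) (nat_lit 76) (nat_lit 28780325522) (nat_lit 76) (nat_lit 26160135265) (nat_lit 3) (nat_lit 4) (nat_lit 4) (nat_lit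 5) (nat_lit 4) (nat_lit 4) (nat_lit 399) (nat_lit 199) (nat_lit 182)))) (XT.nd (nat_lit 78) (nat_lit 0) (nat_lit 0) (XT.lf (nat_lit 0) (nat_lit 27282888978) (nat_lit 76) (nat_lit 27368551951) (nat_lit 76) (nat_lit 24631464247) (nat_lit 3) (nat_lit 4) (nat_lit 4) (nat_lit 5) (nat_lit 4) (nat_lit 4) (nat_lit 400) (nat_lit 199) (nat_lit 181)) (XT.nd (nat_lit 78) (nat_lit 0) (nat_lit 0) (XT.lf (nat_lit 0) (nat_lit 32544499652) (nat_lit 76) (nat_lit 25947314246) (nat_lit 76) (nat_lit 23096733876) (nat_lit 3) (nat_lit 4) (nat_lit 4) (nat_lit 5) (nat_lit 4) (nat_lit 4) (nat_lit 401) (nat_lit 199) (nat_lit 180)) (XT.lf (nat_lit 0) (nat_lit 37894524345) (nat_lit 76) (nat_lit 24515370548) (nat_lit 76) (nat_lit 21554603124) (nat_lit 3) (nat_lit 4) (nat_lit 4) (nat_lit 5) (nat_lit 4) (nat_lit 4) (nat_lit 402) (nat_lit 199) (nat_lit 179))))) (XT.nd (nat_lit 234) (nat_lit 0) (nat_lit 0) (XT.nd (nat_lit 78)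 (nat_lit 0) (nat_lit 0) (XT.lf (nat_lit 0) (nat_lit 43337637837) (nat_lit 76) (nat_lit 23071469646) (nat_lit 76) (nat_lit 20003724498) (nat_lit 3) (nat_lit 4) (nat_lit 4) (nat_lit 5) (nat_lit 4) (nat_lit 4) (nat_lit 403) (nat_lit 199) (nat_lit 178)) (XT.nd (nat_lit 78) (nat_lit 0) (nat_lit 0) (XT.lf (nat_lit 0) (nat_lit 48878596244) (nat_lit 76) (nat_lit 21614349877) (nat_lit 76) (nat_lit 18442742862) (nat_lit 3) (nat_lit 4) (nat_lit 4) (nat_lit 5) (nat_lit 4) (nat_lit 4) (nat_lit 404) (nat_lit 199) (nat_lit 177)) (XT.lf (nat_lit 0) (nat_lit 54522241182) (nat_lit 76) (nat_lit 20142738031) (nat_lit 76) (nat_lit 16870294252) (nat_lit 3) (nat_lit 4) (nat_lit 4) (nat_lit 5) (nat_lit 4) (nat_lit 4) (nat_lit 405) (nat_lit 199) (nat_lit 176)))) (XT.nd (nat_lit 156) (nat_lit 0) (nat_lit 0) (XT.nd (nat_lit 78) (nat_lit 0) (nat_lit 0) (XT.lf (nat_lit 0) (nat_lit 60273503991) (nat_lit 76) (nat_lit 18655348232)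 (nat_lit 76) (nat_lit 15285004682) (nat_lit 3) (nat_lit 4) (nat_lit 4) (nat_lit 5) (nat_lit 4) (nat_lit 4) (nat_lit 406) (nat_lit 199) (nat_lit 175)) (XT.lf (nat_lit 0) (nat_lit 66137410047) (nat_lit 76) (nat_lit 17150880821) (nat_lit 76) (nat_lit 13685488949) (nat_lit 3) (nat_lit 4) (nat_lit 4) (nat_lit 5) (nat_lit 4) (nat_lit 4) (nat_lit 407) (nat_lit 199) (nat_lit 174))) (XT.nd (nat_lit 78) (nat_lit 0) (nat_lit 0) (XT.lf (nat_lit 0) (nat_lit 72119083149) (nat_lit 76) (nat_lit 15628021213) (nat_lit 76) (nat_lit 12070349418) (nat_lit 3) (nat_lit 4) (nat_lit 4) (nat_lit 5) (nat_lit 4) (nat_lit 4) (nat_lit 408) (nat_lit 199) (nat_lit 173)) (XT.lf (nat_lit 0) (nat_lit 78223750004) (nat_lit 76) (nat_lit 14085438755) (nat_lit 76) (nat_lit 10438174801) (nat_lit 3) (nat_lit 4) (nat_lit 4) (nat_lit 5) (nat_lit 4) (nat_lit 4) (nat_lit 409) (nat_lit 199) (nat_lit 172)))))) (XT.nd (nat_lit 38688) (nat_lit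 0) (nat_lit 76) (XT.nd (nat_lit 38454) (nat_lit 0) (nat_lit 76) (XT.nd (nat_lit 38298) (nat_lit 0) (nat_lit 228) (XT.lf (nat_lit 0) (nat_lit 84456744786) (nat_lit 76) (nat_lit 12521785559) (nat_lit 76) (nat_lit 8787538927) (nat_lit 3) (nat_lit 4) (nat_lit 4) (nat_lit 5) (nat_lit 4) (nat_lit 4) (nat_lit 410) (nat_lit 199) (nat_lit 171)) (XT.nd (nat_lit 78) (nat_lit 0) (nat_lit 0) (XT.lf (nat_lit 0) (nat_lit 12957957479) (nat_lit 76) (nat_lit 4819987453) (nat_lit 76) (nat_lit 4819987453) (nat_lit 6) (nat_lit 4) (nat_lit 7) (nat_lit 5) (nat_lit 7) (nat_lit 4) (nat_lit 380) (nat_lit 200) (nat_lit 200)) (XT.lf (nat_lit 0) (nat_lit 32612591303) (nat_lit 76) (nat_lit 7023081016) (nat_lit 76) (nat_lit 6818100637) (nat_lit 6) (nat_lit 4) (nat_lit 7) (nat_lit 5) (nat_lit 7) (nat_lit 4) (nat_lit 381) (nat_lit 200) (nat_lit 199)))) (XT.nd (nat_lit 78) (nat_lit 152) (nat_lit 0) (XT.lf (nat_lit 0) (nat_lit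 39395795447) (nat_lit 76) (nat_lit 4379753178) (nat_lit 76) (nat_lit 3975762720) (nat_lit 6) (nat_lit 4) (nat_lit 7) (nat_lit 5) (nat_lit 7) (nat_lit 4) (nat_lit 382) (nat_lit 200) (nat_lit 198)) (XT.nd (nat_lit 78) (nat_lit 152) (nat_lit 0) (XT.lf (nat_lit 0) (nat_lit 46271454464) (nat_lit 76) (nat_lit 1707681687) (nat_lit 76) (nat_lit 1110477562) (nat_lit 6) (nat_lit 4) (nat_lit 7) (nat_lit 5) (nat_lit 7) (nat_lit 4) (nat_lit 383) (nat_lit 200) (nat_lit 197)) (XT.lf (nat_lit 0) (nat_lit 1782570722) (nat_lit 152) (nat_lit 47665015316) (nat_lit 0) (nat_lit 1020638480) (nat_lit 4) (nat_lit 5) (nat_lit 6) (nat_lit 4) (nat_lit 4) (nat_lit 4) (nat_lit 384) (nat_lit 200) (nat_lit 196))))) (XT.nd (nat_lit 234) (nat_lit 0) (nat_lit 0) (XT.nd (nat_lit 78) (nat_lit 0) (nat_lit 0) (XT.lf (nat_lit 0) (nat_lit 4726627827) (nat_lit 152) (nat_lit 43373783460) (nat_lit 0) (nat_lit 3787877708) (nat_lit 4) (nat_lit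 5) (nat_lit 6) (nat_lit 4) (nat_lit 4) (nat_lit 4) (nat_lit 385) (nat_lit 200) (nat_lit 195)) (XT.nd (nat_lit 78) (nat_lit 0) (nat_lit 0) (XT.lf (nat_lit 0) (nat_lit 7701617797) (nat_lit 152) (nat_lit 39059880116) (nat_lit 0) (nat_lit 6591199838) (nat_lit 4) (nat_lit 5) (nat_lit 6) (nat_lit 4) (nat_lit 4) (nat_lit 4) (nat_lit 386) (nat_lit 200) (nat_lit 194)) (XT.lf (nat_lit 0) (nat_lit 10710140139) (nat_lit 152) (nat_lit 34719535855) (nat_lit 0) (nat_lit 9433054373) (nat_lit 4) (nat_lit 5) (nat_lit 6) (nat_lit 4) (nat_lit 4) (nat_lit 4) (nat_lit 387) (nat_lit 200) (nat_lit 193)))) (XT.nd (nat_lit 156) (nat_lit 0) (nat_lit 0) (XT.nd (nat_lit 78) (nat_lit 0) (nat_lit 0) (XT.lf (nat_lit 0) (nat_lit 13754823659) (nat_lit 152) (nat_lit 30348958142) (nat_lit 0) (nat_lit 12315924488) (nat_lit 4) (nat_lit 5) (nat_lit 6) (nat_lit 4) (nat_lit 4) (nat_lit 4) (nat_lit 388) (nat_lit 200) (nat_lit 192))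 (XT.lf (nat_lit 0) (nat_lit 16838328759) (nat_lit 152) (nat_lit 25944328027) (nat_lit 0) (nat_lit 15242329195) (nat_lit 4) (nat_lit 5) (nat_lit 6) (nat_lit 4) (nat_lit 4) (nat_lit 4) (nat_lit 389) (nat_lit 200) (nat_lit 191))) (XT.nd (nat_lit 78) (nat_lit 0) (nat_lit 0) (XT.lf (nat_lit 0) (nat_lit 19963349764) (nat_lit 152) (nat_lit 21501796802) (nat_lit 0) (nat_lit 18214825547) (nat_lit 4) (nat_lit 5) (nat_lit 6) (nat_lit 4) (nat_lit 4) (nat_lit 4) (nat_lit 390) (nat_lit 200) (nat_lit 190)) (XT.lf (nat_lit 0) (nat_lit 23132617276) (nat_lit 152) (nat_lit 17017482645) (nat_lit 0) (nat_lit 21236010871) (nat_lit 4) (nat_lit 5) (nat_lit 6) (nat_lit 4) (nat_lit 4) (nat_lit 4) (nat_lit 391) (nat_lit 200) (nat_lit 189))))))) (XT.nd (nat_lit 1014) (nat_lit 0) (nat_lit 0) (XT.nd (nat_lit 468) (nat_lit 0) (nat_lit 0) (XT.nd (nat_lit 234) (nat_lit 76) (nat_lit 0) (XT.nd (nat_lit 78) (nat_lit 0) (nat_lit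 0) (XT.lf (nat_lit 0) (nat_lit 26348900556) (nat_lit 152) (nat_lit 12487467224) (nat_lit 0) (nat_lit 24308525037) (nat_lit 4) (nat_lit 5) (nat_lit 6) (nat_lit 4) (nat_lit 4) (nat_lit 4) (nat_lit 392) (nat_lit 200) (nat_lit 188)) (XT.nd (nat_lit 78) (nat_lit 0) (nat_lit 0) (XT.lf (nat_lit 0) (nat_lit 29615009951) (nat_lit 152) (nat_lit 7907792271) (nat_lit 0) (nat_lit 27435052767) (nat_lit 4) (nat_lit 5) (nat_lit 6) (nat_lit 4) (nat_lit 4) (nat_lit 4) (nat_lit 393) (nat_lit 200) (nat_lit 187)) (XT.lf (nat_lit 0) (nat_lit 32933799341) (nat_lit 152) (nat_lit 3274456130) (nat_lit 0) (nat_lit 30618325979) (nat_lit 4) (nat_lit 5) (nat_lit 6) (nat_lit 4) (nat_lit 4) (nat_lit 4) (nat_lit 394) (nat_lit 200) (nat_lit 186)))) (XT.nd (nat_lit 78) (nat_lit 0) (nat_lit 0) (XT.lf (nat_lit 0) (nat_lit 1444782659) (nat_lit 76) (nat_lit 34877274116) (nat_lit 76) (nat_lit 32430231647) (nat_lit 3) (nat_lit 4) (nat_lit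 4) (nat_lit 5) (nat_lit 4) (nat_lit 4) (nat_lit 395) (nat_lit 200) (nat_lit 185)) (XT.nd (nat_lit 78) (nat_lit 0) (nat_lit 0) (XT.lf (nat_lit 0) (nat_lit 6292228367) (nat_lit 76) (nat_lit 33509322707) (nat_lit 76) (nat_lit 30934543243) (nat_lit 3) (nat_lit 4) (nat_lit 4) (nat_lit 5) (nat_lit 4) (nat_lit 4) (nat_lit 396) (nat_lit 200) (nat_lit 184)) (XT.lf (nat_lit 0) (nat_lit 11206948529) (nat_lit 76) (nat_lit 32136271533) (nat_lit 76) (nat_lit 29437475569) (nat_lit 3) (nat_lit 4) (nat_lit 4) (nat_lit 5) (nat_lit 4) (nat_lit 4) (nat_lit 397) (nat_lit 200) (nat_lit 183))))) (XT.nd (nat_lit 234) (nat_lit 0) (nat_lit 0) (XT.nd (nat_lit 78) (nat_lit 0) (nat_lit 0) (XT.lf (nat_lit 0) (nat_lit 16193237560) (nat_lit 76) (nat_lit 30756920843) (nat_lit 76) (nat_lit 27937720508) (nat_lit 3) (nat_lit 4) (nat_lit 4) (nat_lit 5) (nat_lit 4) (nat_lit 4) (nat_lit 398) (nat_lit 200) (nat_lit 182)) (XT.nd (nat_lit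 78) (nat_lit 0) (nat_lit 0) (XT.lf (nat_lit 0) (nat_lit 21255452412) (nat_lit 76) (nat_lit 29370065376) (nat_lit 76) (nat_lit 26433967595) (nat_lit 3) (nat_lit 4) (nat_lit 4) (nat_lit 5) (nat_lit 4) (nat_lit 4) (nat_lit 399) (nat_lit 200) (nat_lit 181)) (XT.lf (nat_lit 0) (nat_lit 26398016379) (nat_lit 76) (nat_lit 27974493319) (nat_lit 76) (nat_lit 24924902872) (nat_lit 3) (nat_lit 4) (nat_lit 4) (nat_lit 5) (nat_lit 4) (nat_lit 4) (nat_lit 400) (nat_lit 200) (nat_lit 180)))) (XT.nd (nat_lit 156) (nat_lit 0) (nat_lit 0) (XT.nd (nat_lit 78) (nat_lit 0) (nat_lit 0) (XT.lf (nat_lit 0) (nat_lit 31625422964) (nat_lit 76) (nat_lit 26568985239) (nat_lit 76) (nat_lit 23409207737) (nat_lit 3) (nat_lit 4) (nat_lit 4) (nat_lit 5) (nat_lit 4) (nat_lit 4) (nat_lit 401) (nat_lit 200) (nat_lit 179)) (XT.lf (nat_lit 0) (nat_lit 36942239804) (nat_lit 76) (nat_lit 25152313023) (nat_lit 76) (nat_lit 21885557797)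 (nat_lit 3) (nat_lit 4) (nat_lit 4) (nat_lit 5) (nat_lit 4) (nat_lit 4) (nat_lit 402) (nat_lit 200) (nat_lit 178))) (XT.nd (nat_lit 78) (nat_lit 0) (nat_lit 0) (XT.lf (nat_lit 0) (nat_lit 42353112661) (nat_lit 76) (nat_lit 23723238800) (nat_lit 76) (nat_lit 20352621708) (nat_lit 3) (nat_lit 4) (nat_lit 4) (nat_lit 5) (nat_lit 4) (nat_lit 4) (nat_lit 403) (nat_lit 200) (nat_lit 177)) (XT.lf (nat_lit 0) (nat_lit 47862769481) (nat_lit 76) (nat_lit 22280513867) (nat_lit 76) (nat_lit 18809060010) (nat_lit 3) (nat_lit 4) (nat_lit 4) (nat_lit 5) (nat_lit 4) (nat_lit 4) (nat_lit 404) (nat_lit 200) (nat_lit 176)))))) (XT.nd (nat_lit 38532) (nat_lit 0) (nat_lit 76) (XT.nd (nat_lit 234) (nat_lit 0) (nat_lit 0) (XT.nd (nat_lit 78) (nat_lit 0) (nat_lit 0) (XT.lf (nat_lit 0) (nat_lit 53476024529) (nat_lit 76) (nat_lit 20822877588) (nat_lit 76) (nat_lit 17253523961) (nat_lit 3) (nat_lit 4) (nat_lit 4) (nat_lit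 5) (nat_lit 4) (nat_lit 4) (nat_lit 405) (nat_lit 200) (nat_lit 175)) (XT.nd (nat_lit 78) (nat_lit 0) (nat_lit 0) (XT.lf (nat_lit 0) (nat_lit 59197782590) (nat_lit 76) (nat_lit 19349056303) (nat_lit 76) (nat_lit 15684654354) (nat_lit 3) (nat_lit 4) (nat_lit 4) (nat_lit 5) (nat_lit 4) (nat_lit 4) (nat_lit 406) (nat_lit 200) (nat_lit 174)) (XT.lf (nat_lit 0) (nat_lit 65033043259) (nat_lit 76) (nat_lit 17857762204) (nat_lit 76) (nat_lit 14101080332) (nat_lit 3) (nat_lit 4) (nat_lit 4) (nat_lit 5) (nat_lit 4) (nat_lit 4) (nat_lit 407) (nat_lit 200) (nat_lit 173)))) (XT.nd (nat_lit 78) (nat_lit 0) (nat_lit 0) (XT.lf (nat_lit 0) (nat_lit 70986905307) (nat_lit 76) (nat_lit 16347692221) (nat_lit 76) (nat_lit 12501418190) (nat_lit 3) (nat_lit 4) (nat_lit 4) (nat_lit 5) (nat_lit 4) (nat_lit 4) (nat_lit 408) (nat_lit 200) (nat_lit 172)) (XT.nd (nat_lit 78) (nat_lit 0) (nat_lit 0) (XT.lf (nat_lit 0) (nat_lit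 77064571138) (nat_lit 76) (nat_lit 14817526874) (nat_lit 76) (nat_lit 10884270165) (nat_lit 3) (nat_lit 4) (nat_lit 4) (nat_lit 5) (nat_lit 4) (nat_lit 4) (nat_lit 409) (nat_lit 200) (nat_lit 171)) (XT.lf (nat_lit 0) (nat_lit 83271351334) (nat_lit 76) (nat_lit 13265929126) (nat_lit 76) (nat_lit 9248223214) (nat_lit 3) (nat_lit 4) (nat_lit 4) (nat_lit 5) (nat_lit 4) (nat_lit 4) (nat_lit 410) (nat_lit 200) (nat_lit 170))))) (XT.nd (nat_lit 234) (nat_lit 152) (nat_lit 0) (XT.nd (nat_lit 78) (nat_lit 0) (nat_lit 0) (XT.lf (nat_lit 0) (nat_lit 6409291305) (nat_lit 76) (nat_lit 7493751058) (nat_lit 76) (nat_lit 7493751058) (nat_lit 6) (nat_lit 4) (nat_lit 7) (nat_lit 5) (nat_lit 7) (nat_lit 4) (nat_lit 378) (nat_lit 201) (nat_lit 201)) (XT.nd (nat_lit 78) (nat_lit 0) (nat_lit 0) (XT.lf (nat_lit 0) (nat_lit 19299914951) (nat_lit 76) (nat_lit 12443851248) (nat_lit 76) (nat_lit 12232721457) (nat_lit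 6) (nat_lit 4) (nat_lit 7) (nat_lit 5) (nat_lit 7) (nat_lit 4) (nat_lit 379) (nat_lit 201) (nat_lit 200)) (XT.lf (nat_lit 0) (nat_lit 25857883597) (nat_lit 76) (nat_lit 9877525908) (nat_lit 76) (nat_lit 9461415737) (nat_lit 6) (nat_lit 4) (nat_lit 7) (nat_lit 5) (nat_lit 7) (nat_lit 4) (nat_lit 380) (nat_lit 201) (nat_lit 199)))) (XT.nd (nat_lit 156) (nat_lit 152) (nat_lit 0) (XT.nd (nat_lit 78) (nat_lit 0) (nat_lit 0) (XT.lf (nat_lit 0) (nat_lit 32498218813) (nat_lit 76) (nat_lit 7286283676) (nat_lit 76) (nat_lit 6671163428) (nat_lit 6) (nat_lit 4) (nat_lit 7) (nat_lit 5) (nat_lit 7) (nat_lit 4) (nat_lit 381) (nat_lit 201) (nat_lit 198)) (XT.lf (nat_lit 0) (nat_lit 39226722833) (nat_lit 76) (nat_lit 4667860361) (nat_lit 76) (nat_lit 3859526445) (nat_lit 6) (nat_lit 4) (nat_lit 7) (nat_lit 5) (nat_lit 7) (nat_lit 4) (nat_lit 382) (nat_lit 201) (nat_lit 197))) (XT.nd (nat_lit 78) (nat_lit 152)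 (nat_lit 0) (XT.lf (nat_lit 0) (nat_lit 46049274934) (nat_lit 76) (nat_lit 2019968020) (nat_lit 76) (nat_lit 1024048019) (nat_lit 6) (nat_lit 4) (nat_lit 7) (nat_lit 5) (nat_lit 7) (nat_lit 4) (nat_lit 383) (nat_lit 201) (nat_lit 196)) (XT.lf (nat_lit 0) (nat_lit 1832957141) (nat_lit 152) (nat_lit 47950734259) (nat_lit 0) (nat_lit 689226643) (nat_lit 4) (nat_lit 5) (nat_lit 6) (nat_lit 4) (nat_lit 4) (nat_lit 4) (nat_lit 384) (nat_lit 201) (nat_lit 195))))))))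
noncomputable def xc5 : XT := (XT.nd (nat_lit 39936) (nat_lit 0) (nat_lit 0) (XT.nd (nat_lit 1014) (nat_lit 0) (nat_lit 0) (XT.nd (nat_lit 468) (nat_lit 76) (nat_lit 0) (XT.nd (nat_lit 234) (nat_lit 0) (nat_lit 0) (XT.nd (nat_lit 78) (nat_lit 0) (nat_lit 0) (XT.lf (nat_lit 0) (nat_lit 4748743878) (nat_lit 152) (nat_lit 43711751402) (nat_lit 0) (nat_lit 3433345538) (nat_lit 4) (nat_lit 5) (nat_lit 6) (nat_lit 4) (nat_lit 4) (nat_lit 4) (nat_lit 385) (nat_lit 201) (nat_lit 194)) (XT.nd (nat_lit 78) (nat_lit 0) (nat_lit 0) (XT.lf (nat_lit 0) (nat_lit 7696286889) (nat_lit 152) (nat_lit 39448575242) (nat_lit 0) (nat_lit 6214220742) (nat_lit 4) (nat_lit 5) (nat_lit 6) (nat_lit 4) (nat_lit 4) (nat_lit 4) (nat_lit 386) (nat_lit 201) (nat_lit 193)) (XT.lf (nat_lit 0) (nat_lit 10678161697) (nat_lit 152) (nat_lit 35157480673) (nat_lit 0) (nat_lit 9034282146) (nat_lit 4) (nat_lit 5) (nat_lit 6) (nat_lit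 4) (nat_lit 4) (nat_lit 4) (nat_lit 387) (nat_lit 201) (nat_lit 192)))) (XT.nd (nat_lit 78) (nat_lit 0) (nat_lit 0) (XT.lf (nat_lit 0) (nat_lit 13696973825) (nat_lit 152) (nat_lit 30834718196) (nat_lit 0) (nat_lit 11895993881) (nat_lit 4) (nat_lit 5) (nat_lit 6) (nat_lit 4) (nat_lit 4) (nat_lit 4) (nat_lit 388) (nat_lit 201) (nat_lit 191)) (XT.nd (nat_lit 78) (nat_lit 0) (nat_lit 0) (XT.lf (nat_lit 0) (nat_lit 16755361069) (nat_lit 152) (nat_lit 26476510640) (nat_lit 0) (nat_lit 14801856472) (nat_lit 4) (nat_lit 5) (nat_lit 6) (nat_lit 4) (nat_lit 4) (nat_lit 4) (nat_lit 389) (nat_lit 201) (nat_lit 190)) (XT.lf (nat_lit 0) (nat_lit 19855995806) (nat_lit 152) (nat_lit 22079049861) (nat_lit 0) (nat_lit 17754409022) (nat_lit 4) (nat_lit 5) (nat_lit 6) (nat_lit 4) (nat_lit 4) (nat_lit 4) (nat_lit 390) (nat_lit 201) (nat_lit 189))))) (XT.nd (nat_lit 234) (nat_lit 76) (nat_lit 0) (XT.nd (nat_lit 78)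 (nat_lit 0) (nat_lit 0) (XT.lf (nat_lit 0) (nat_lit 23001587330) (nat_lit 152) (nat_lit 17638493418) (nat_lit 0) (nat_lit 20756231431) (nat_lit 4) (nat_lit 5) (nat_lit 6) (nat_lit 4) (nat_lit 4) (nat_lit 4) (nat_lit 391) (nat_lit 201) (nat_lit 188)) (XT.nd (nat_lit 78) (nat_lit 0) (nat_lit 0) (XT.lf (nat_lit 0) (nat_lit 26194884214) (nat_lit 152) (nat_lit 13150961214) (nat_lit 0) (nat_lit 23809946651) (nat_lit 4) (nat_lit 5) (nat_lit 6) (nat_lit 4) (nat_lit 4) (nat_lit 4) (nat_lit 392) (nat_lit 201) (nat_lit 187)) (XT.lf (nat_lit 0) (nat_lit 29438676719) (nat_lit 152) (nat_lit 8612532104) (nat_lit 0) (nat_lit 26918222977) (nat_lit 4) (nat_lit 5) (nat_lit 6) (nat_lit 4) (nat_lit 4) (nat_lit 4) (nat_lit 393) (nat_lit 201) (nat_lit 186)))) (XT.nd (nat_lit 156) (nat_lit 0) (nat_lit 0) (XT.nd (nat_lit 78) (nat_lit 76) (nat_lit 0) (XT.lf (nat_lit 0) (nat_lit 32735799226) (nat_lit 152) (nat_lit 4019240470)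 (nat_lit 0) (nat_lit 30083776378) (nat_lit 4) (nat_lit 5) (nat_lit 6) (nat_lit 4) (nat_lit 4) (nat_lit 4) (nat_lit 394) (nat_lit 201) (nat_lit 185)) (XT.lf (nat_lit 0) (nat_lit 645523736) (nat_lit 76) (nat_lit 35449814148) (nat_lit 76) (nat_lit 32670054304) (nat_lit 3) (nat_lit 4) (nat_lit 4) (nat_lit 5) (nat_lit 4) (nat_lit 4) (nat_lit 395) (nat_lit 201) (nat_lit 184))) (XT.nd (nat_lit 78) (nat_lit 0) (nat_lit 0) (XT.lf (nat_lit 0) (nat_lit 5454472441) (nat_lit 76) (nat_lit 34099566571) (nat_lit 76) (nat_lit 31195790226) (nat_lit 3) (nat_lit 4) (nat_lit 4) (nat_lit 5) (nat_lit 4) (nat_lit 4) (nat_lit 396) (nat_lit 201) (nat_lit 183)) (XT.lf (nat_lit 0) (nat_lit 10331816871) (nat_lit 76) (nat_lit 32743703584) (nat_lit 76) (nat_lit 29719522869) (nat_lit 3) (nat_lit 4) (nat_lit 4) (nat_lit 5) (nat_lit 4) (nat_lit 4) (nat_lit 397) (nat_lit 201) (nat_lit 182)))))) (XT.nd (nat_lit 468) (nat_lit 0)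 (nat_lit 0) (XT.nd (nat_lit 234) (nat_lit 0) (nat_lit 0) (XT.nd (nat_lit 78) (nat_lit 0) (nat_lit 0) (XT.lf (nat_lit 0) (nat_lit 15281818784) (nat_lit 76) (nat_lit 31381040452) (nat_lit 76) (nat_lit 28239962291) (nat_lit 3) (nat_lit 4) (nat_lit 4) (nat_lit 5) (nat_lit 4) (nat_lit 4) (nat_lit 398) (nat_lit 201) (nat_lit 181)) (XT.nd (nat_lit 78) (nat_lit 0) (nat_lit 0) (XT.lf (nat_lit 0) (nat_lit 20308803424) (nat_lit 76) (nat_lit 30010386500) (nat_lit 76) (nat_lit 26755815672) (nat_lit 3) (nat_lit 4) (nat_lit 4) (nat_lit 5) (nat_lit 4) (nat_lit 4) (nat_lit 399) (nat_lit 201) (nat_lit 180)) (XT.lf (nat_lit 0) (nat_lit 25417163302) (nat_lit 76) (nat_lit 28630544068) (nat_lit 76) (nat_lit 25265786186) (nat_lit 3) (nat_lit 4) (nat_lit 4) (nat_lit 5) (nat_lit 4) (nat_lit 4) (nat_lit 400) (nat_lit 201) (nat_lit 179)))) (XT.nd (nat_lit 78) (nat_lit 0) (nat_lit 0) (XT.lf (nat_lit 0) (nat_lit 30611362033)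 (nat_lit 76) (nat_lit 27240307468) (nat_lit 76) (nat_lit 23768571863) (nat_lit 3) (nat_lit 4) (nat_lit 4) (nat_lit 5) (nat_lit 4) (nat_lit 4) (nat_lit 401) (nat_lit 201) (nat_lit 178)) (XT.nd (nat_lit 78) (nat_lit 0) (nat_lit 0) (XT.lf (nat_lit 0) (nat_lit 35895938238) (nat_lit 76) (nat_lit 25838461932) (nat_lit 76) (nat_lit 22262864460) (nat_lit 3) (nat_lit 4) (nat_lit 4) (nat_lit 5) (nat_lit 4) (nat_lit 4) (nat_lit 402) (nat_lit 201) (nat_lit 177)) (XT.lf (nat_lit 0) (nat_lit 41275509508) (nat_lit 76) (nat_lit 24423782545) (nat_lit 76) (nat_lit 20747348308) (nat_lit 3) (nat_lit 4) (nat_lit 4) (nat_lit 5) (nat_lit 4) (nat_lit 4) (nat_lit 403) (nat_lit 201) (nat_lit 176))))) (XT.nd (nat_lit 234) (nat_lit 0) (nat_lit 0) (XT.nd (nat_lit 78) (nat_lit 0) (nat_lit 0) (XT.lf (nat_lit 0) (nat_lit 46754776438) (nat_lit 76) (nat_lit 22995033179) (nat_lit 76) (nat_lit 19220699172) (nat_lit 3) (nat_lit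 4) (nat_lit 4) (nat_lit 5) (nat_lit 4) (nat_lit 4) (nat_lit 404) (nat_lit 201) (nat_lit 175)) (XT.nd (nat_lit 78) (nat_lit 0) (nat_lit 0) (XT.lf (nat_lit 0) (nat_lit 52338526738) (nat_lit 76) (nat_lit 21550965414) (nat_lit 76) (nat_lit 17681583085) (nat_lit 3) (nat_lit 4) (nat_lit 4) (nat_lit 5) (nat_lit 4) (nat_lit 4) (nat_lit 405) (nat_lit 201) (nat_lit 174)) (XT.lf (nat_lit 0) (nat_lit 58031639413) (nat_lit 76) (nat_lit 20090317441) (nat_lit 76) (nat_lit 16128655189) (nat_lit 3) (nat_lit 4) (nat_lit 4) (nat_lit 5) (nat_lit 4) (nat_lit 4) (nat_lit 406) (nat_lit 201) (nat_lit 173)))) (XT.nd (nat_lit 156) (nat_lit 0) (nat_lit 0) (XT.nd (nat_lit 78) (nat_lit 0) (nat_lit 0) (XT.lf (nat_lit 0) (nat_lit 63839089027) (nat_lit 76) (nat_lit 18611812968) (nat_lit 76) (nat_lit 14560558557) (nat_lit 3) (nat_lit 4) (nat_lit 4) (nat_lit 5) (nat_lit 4) (nat_lit 4) (nat_lit 407) (nat_lit 201) (nat_lit 172))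 (XT.lf (nat_lit 0) (nat_lit 69765950051) (nat_lit 76) (nat_lit 17114160096) (nat_lit 76) (nat_lit 12975923006) (nat_lit 3) (nat_lit 4) (nat_lit 4) (nat_lit 5) (nat_lit 4) (nat_lit 4) (nat_lit 408) (nat_lit 201) (nat_lit 171))) (XT.nd (nat_lit 78) (nat_lit 0) (nat_lit 0) (XT.lf (nat_lit 0) (nat_lit 75817401296) (nat_lit 76) (nat_lit 15596050197) (nat_lit 76) (nat_lit 11373363905) (nat_lit 3) (nat_lit 4) (nat_lit 4) (nat_lit 5) (nat_lit 4) (nat_lit 4) (nat_lit 409) (nat_lit 201) (nat_lit 170)) (XT.lf (nat_lit 0) (nat_lit 81998730437) (nat_lit 76) (nat_lit 14056156767) (nat_lit 76) (nat_lit 9751480958) (nat_lit 3) (nat_lit 4) (nat_lit 4) (nat_lit 5) (nat_lit 4) (nat_lit 4) (nat_lit 410) (nat_lit 201) (nat_lit 169))))))) (XT.nd (nat_lit 1014) (nat_lit 76) (nat_lit 0) (XT.nd (nat_lit 468) (nat_lit 152) (nat_lit 0) (XT.nd (nat_lit 234) (nat_lit 0) (nat_lit 0) (XT.nd (nat_lit 78) (nat_lit 0) (nat_lit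 0) (XT.lf (nat_lit 0) (nat_lit 62400567) (nat_lit 76) (nat_lit 10102543212) (nat_lit 76) (nat_lit 10102543212) (nat_lit 6) (nat_lit 4) (nat_lit 7) (nat_lit 5) (nat_lit 7) (nat_lit 4) (nat_lit 376) (nat_lit 202) (nat_lit 202)) (XT.nd (nat_lit 78) (nat_lit 0) (nat_lit 0) (XT.lf (nat_lit 0) (nat_lit 6408223276) (nat_lit 76) (nat_lit 17728164807) (nat_lit 76) (nat_lit 17510701122) (nat_lit 6) (nat_lit 4) (nat_lit 7) (nat_lit 5) (nat_lit 7) (nat_lit 4) (nat_lit 377) (nat_lit 202) (nat_lit 201)) (XT.lf (nat_lit 0) (nat_lit 12758810308) (nat_lit 76) (nat_lit 15232179647) (nat_lit 76) (nat_lit 14803586171) (nat_lit 6) (nat_lit 4) (nat_lit 7) (nat_lit 5) (nat_lit 7) (nat_lit 4) (nat_lit 378) (nat_lit 202) (nat_lit 200)))) (XT.nd (nat_lit 78) (nat_lit 0) (nat_lit 0) (XT.lf (nat_lit 0) (nat_lit 19182111286) (nat_lit 76) (nat_lit 12714949988) (nat_lit 76) (nat_lit 12081376132) (nat_lit 6) (nat_lit 4) (nat_lit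 7) (nat_lit 5) (nat_lit 7) (nat_lit 4) (nat_lit 379) (nat_lit 202) (nat_lit 199)) (XT.nd (nat_lit 78) (nat_lit 0) (nat_lit 0) (XT.lf (nat_lit 0) (nat_lit 25683738805) (nat_lit 76) (nat_lit 10174276307) (nat_lit 76) (nat_lit 9341692374) (nat_lit 6) (nat_lit 4) (nat_lit 7) (nat_lit 5) (nat_lit 7) (nat_lit 4) (nat_lit 380) (nat_lit 202) (nat_lit 198)) (XT.lf (nat_lit 0) (nat_lit 32269373897) (nat_lit 76) (nat_lit 7607938599) (nat_lit 76) (nat_lit 6582140999) (nat_lit 6) (nat_lit 4) (nat_lit 7) (nat_lit 5) (nat_lit 7) (nat_lit 4) (nat_lit 381) (nat_lit 202) (nat_lit 197))))) (XT.nd (nat_lit 234) (nat_lit 0) (nat_lit 0) (XT.nd (nat_lit 78) (nat_lit 152) (nat_lit 0) (XT.lf (nat_lit 0) (nat_lit 38944771001) (nat_lit 76) (nat_lit 5013694434) (nat_lit 76) (nat_lit 3800310748) (nat_lit 6) (nat_lit 4) (nat_lit 7) (nat_lit 5) (nat_lit 7) (nat_lit 4) (nat_lit 382) (nat_lit 202) (nat_lit 196)) (XT.nd (nat_lit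 78) (nat_lit 152) (nat_lit 0) (XT.lf (nat_lit 0) (nat_lit 45715762988) (nat_lit 76) (nat_lit 2389276995) (nat_lit 76) (nat_lit 993770896) (nat_lit 6) (nat_lit 4) (nat_lit 7) (nat_lit 5) (nat_lit 7) (nat_lit 4) (nat_lit 383) (nat_lit 202) (nat_lit 195)) (XT.lf (nat_lit 0) (nat_lit 1827466305) (nat_lit 152) (nat_lit 48351090238) (nat_lit 0) (nat_lit 300938175) (nat_lit 4) (nat_lit 5) (nat_lit 6) (nat_lit 4) (nat_lit 4) (nat_lit 4) (nat_lit 384) (nat_lit 202) (nat_lit 194)))) (XT.nd (nat_lit 156) (nat_lit 0) (nat_lit 0) (XT.nd (nat_lit 78) (nat_lit 0) (nat_lit 0) (XT.lf (nat_lit 0) (nat_lit 4715806082) (nat_lit 152) (nat_lit 44162834565) (nat_lit 0) (nat_lit 3022610145) (nat_lit 4) (nat_lit 5) (nat_lit 6) (nat_lit 4) (nat_lit 4) (nat_lit 4) (nat_lit 385) (nat_lit 202) (nat_lit 193)) (XT.lf (nat_lit 0) (nat_lit 7636701560) (nat_lit 152) (nat_lit 39948908097) (nat_lit 0) (nat_lit 5781692218) (nat_lit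 4) (nat_lit 5) (nat_lit 6) (nat_lit 4) (nat_lit 4) (nat_lit 4) (nat_lit 386) (nat_lit 202) (nat_lit 192))) (XT.nd (nat_lit 78) (nat_lit 0) (nat_lit 0) (XT.lf (nat_lit 0) (nat_lit 10592704977) (nat_lit 152) (nat_lit 35705628765) (nat_lit 0) (nat_lit 8580595242) (nat_lit 4) (nat_lit 5) (nat_lit 6) (nat_lit 4) (nat_lit 4) (nat_lit 4) (nat_lit 387) (nat_lit 202) (nat_lit 191)) (XT.lf (nat_lit 0) (nat_lit 13586399249) (nat_lit 152) (nat_lit 31429288847) (nat_lit 0) (nat_lit 11421764860) (nat_lit 4) (nat_lit 5) (nat_lit 6) (nat_lit 4) (nat_lit 4) (nat_lit 4) (nat_lit 388) (nat_lit 202) (nat_lit 190)))))) (XT.nd (nat_lit 546) (nat_lit 76) (nat_lit 0) (XT.nd (nat_lit 234) (nat_lit 0) (nat_lit 0) (XT.nd (nat_lit 78) (nat_lit 0) (nat_lit 0) (XT.lf (nat_lit 0) (nat_lit 16620400225) (nat_lit 152) (nat_lit 27116151735) (nat_lit 0) (nat_lit 14307683649) (nat_lit 4) (nat_lit 5) (nat_lit 6) (nat_lit 4) (nat_lit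 4) (nat_lit 4) (nat_lit 389) (nat_lit 202) (nat_lit 189)) (XT.nd (nat_lit 78) (nat_lit 0) (nat_lit 0) (XT.lf (nat_lit 0) (nat_lit 19697358974) (nat_lit 152) (nat_lit 22762448671) (nat_lit 0) (nat_lit 17240873284) (nat_lit 4) (nat_lit 5) (nat_lit 6) (nat_lit 4) (nat_lit 4) (nat_lit 4) (nat_lit 390) (nat_lit 202) (nat_lit 188)) (XT.lf (nat_lit 0) (nat_lit 22819964101) (nat_lit 152) (nat_lit 18364375446) (nat_lit 0) (nat_lit 20223896746) (nat_lit 4) (nat_lit 5) (nat_lit 6) (nat_lit 4) (nat_lit 4) (nat_lit 4) (nat_lit 391) (nat_lit 202) (nat_lit 187)))) (XT.nd (nat_lit 156) (nat_lit 0) (nat_lit 0) (XT.nd (nat_lit 78) (nat_lit 0) (nat_lit 0) (XT.lf (nat_lit 0) (nat_lit 25990944096) (nat_lit 152) (nat_lit 13918089084) (nat_lit 0) (nat_lit 23259360562) (nat_lit 4) (nat_lit 5) (nat_lit 6) (nat_lit 4) (nat_lit 4) (nat_lit 4) (nat_lit 392) (nat_lit 202) (nat_lit 186)) (XT.lf (nat_lit 0) (nat_lit 29213069717)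 (nat_lit 152) (nat_lit 9419704481) (nat_lit 0) (nat_lit 26349917078) (nat_lit 4) (nat_lit 5) (nat_lit 6) (nat_lit 4) (nat_lit 4) (nat_lit 4) (nat_lit 393) (nat_lit 202) (nat_lit 185))) (XT.nd (nat_lit 78) (nat_lit 0) (nat_lit 0) (XT.lf (nat_lit 0) (nat_lit 32489156415) (nat_lit 152) (nat_lit 4865291009) (nat_lit 0) (nat_lit 29498266780) (nat_lit 4) (nat_lit 5) (nat_lit 6) (nat_lit 4) (nat_lit 4) (nat_lit 4) (nat_lit 394) (nat_lit 202) (nat_lit 184)) (XT.lf (nat_lit 0) (nat_lit 35822066790) (nat_lit 152) (nat_lit 250869084) (nat_lit 0) (nat_lit 32707160654) (nat_lit 4) (nat_lit 5) (nat_lit 6) (nat_lit 4) (nat_lit 4) (nat_lit 4) (nat_lit 395) (nat_lit 202) (nat_lit 183))))) (XT.nd (nat_lit 234) (nat_lit 0) (nat_lit 0) (XT.nd (nat_lit 78) (nat_lit 0) (nat_lit 0) (XT.lf (nat_lit 0) (nat_lit 4515711101) (nat_lit 76) (nat_lit 34742409769) (nat_lit 76) (nat_lit 31507099263) (nat_lit 3) (nat_lit 4)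 (nat_lit 4) (nat_lit 5) (nat_lit 4) (nat_lit 4) (nat_lit 396) (nat_lit 202) (nat_lit 182)) (XT.nd (nat_lit 78) (nat_lit 0) (nat_lit 0) (XT.lf (nat_lit 0) (nat_lit 9356768413) (nat_lit 76) (nat_lit 33403234341) (nat_lit 76) (nat_lit 30051026389) (nat_lit 3) (nat_lit 4) (nat_lit 4) (nat_lit 5) (nat_lit 4) (nat_lit 4) (nat_lit 397) (nat_lit 202) (nat_lit 181)) (XT.lf (nat_lit 0) (nat_lit 14271540114) (nat_lit 76) (nat_lit 32056772723) (nat_lit 76) (nat_lit 28591072104) (nat_lit 3) (nat_lit 4) (nat_lit 4) (nat_lit 5) (nat_lit 4) (nat_lit 4) (nat_lit 398) (nat_lit 202) (nat_lit 180)))) (XT.nd (nat_lit 156) (nat_lit 0) (nat_lit 0) (XT.nd (nat_lit 78) (nat_lit 0) (nat_lit 0) (XT.lf (nat_lit 0) (nat_lit 19264320665) (nat_lit 76) (nat_lit 30701848396) (nat_lit 76) (nat_lit 27125960722) (nat_lit 3) (nat_lit 4) (nat_lit 4) (nat_lit 5) (nat_lit 4) (nat_lit 4) (nat_lit 399) (nat_lit 202) (nat_lit 179)) (XT.lf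 (nat_lit 0) (nat_lit 24339472689) (nat_lit 76) (nat_lit 29337277444) (nat_lit 76) (nat_lit 25654412048) (nat_lit 3) (nat_lit 4) (nat_lit 4) (nat_lit 5) (nat_lit 4) (nat_lit 4) (nat_lit 400) (nat_lit 202) (nat_lit 178))) (XT.nd (nat_lit 78) (nat_lit 0) (nat_lit 0) (XT.lf (nat_lit 0) (nat_lit 29501430786) (nat_lit 76) (nat_lit 27961867525) (nat_lit 76) (nat_lit 24175140262) (nat_lit 3) (nat_lit 4) (nat_lit 4) (nat_lit 5) (nat_lit 4) (nat_lit 4) (nat_lit 401) (nat_lit 202) (nat_lit 177)) (XT.lf (nat_lit 0) (nat_lit 34754705404) (nat_lit 76) (nat_lit 26574416824) (nat_lit 76) (nat_lit 22686852796) (nat_lit 3) (nat_lit 4) (nat_lit 4) (nat_lit 5) (nat_lit 4) (nat_lit 4) (nat_lit 402) (nat_lit 202) (nat_lit 176))))))))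
noncomputable def xc6 : XT := (XT.nd (nat_lit 39780) (nat_lit 0) (nat_lit 0) (XT.nd (nat_lit 38766) (nat_lit 0) (nat_lit 76) (XT.nd (nat_lit 468) (nat_lit 0) (nat_lit 0) (XT.nd (nat_lit 234) (nat_lit 0) (nat_lit 0) (XT.nd (nat_lit 78) (nat_lit 0) (nat_lit 0) (XT.lf (nat_lit 0) (nat_lit 40103886783) (nat_lit 76) (nat_lit 25173713005) (nat_lit 76) (nat_lit 21188249206) (nat_lit 3) (nat_lit 4) (nat_lit 4) (nat_lit 5) (nat_lit 4) (nat_lit 4) (nat_lit 403) (nat_lit 202) (nat_lit 175)) (XT.nd (nat_lit 78) (nat_lit 0) (nat_lit 0) (XT.lf (nat_lit 0) (nat_lit 45553648965) (nat_lit 76) (nat_lit 23758532152) (nat_lit 76) (nat_lit 19678020032) (nat_lit 3) (nat_lit 4) (nat_lit 4) (nat_lit 5) (nat_lit 4) (nat_lit 4) (nat_lit 404) (nat_lit 202) (nat_lit 174)) (XT.lf (nat_lit 0) (nat_lit 51108753879) (nat_lit 76) (nat_lit 22327637700) (nat_lit 76) (nat_lit 18154845656) (nat_lit 3) (nat_lit 4) (nat_lit 4) (nat_lit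 5) (nat_lit 4) (nat_lit 4) (nat_lit 405) (nat_lit 202) (nat_lit 173)))) (XT.nd (nat_lit 78) (nat_lit 0) (nat_lit 0) (XT.lf (nat_lit 0) (nat_lit 56774055499) (nat_lit 76) (nat_lit 20879779352) (nat_lit 76) (nat_lit 16617395150) (nat_lit 3) (nat_lit 4) (nat_lit 4) (nat_lit 5) (nat_lit 4) (nat_lit 4) (nat_lit 406) (nat_lit 202) (nat_lit 172)) (XT.nd (nat_lit 78) (nat_lit 0) (nat_lit 0) (XT.lf (nat_lit 0) (nat_lit 62554504090) (nat_lit 76) (nat_lit 19413691990) (nat_lit 76) (nat_lit 15064325109) (nat_lit 3) (nat_lit 4) (nat_lit 4) (nat_lit 5) (nat_lit 4) (nat_lit 4) (nat_lit 407) (nat_lit 202) (nat_lit 171)) (XT.lf (nat_lit 0) (nat_lit 68455150528) (nat_lit 76) (nat_lit 17928094566) (nat_lit 76) (nat_lit 13494278483) (nat_lit 3) (nat_lit 4) (nat_lit 4) (nat_lit 5) (nat_lit 4) (nat_lit 4) (nat_lit 408) (nat_lit 202) (nat_lit 170))))) (XT.nd (nat_lit 37986) (nat_lit 0) (nat_lit 228) (XT.nd (nat_lit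 78) (nat_lit 0) (nat_lit 0) (XT.lf (nat_lit 0) (nat_lit 74481150718) (nat_lit 76) (nat_lit 16421688985) (nat_lit 76) (nat_lit 11905883385) (nat_lit 3) (nat_lit 4) (nat_lit 4) (nat_lit 5) (nat_lit 4) (nat_lit 4) (nat_lit 409) (nat_lit 202) (nat_lit 169)) (XT.nd (nat_lit 37830) (nat_lit 0) (nat_lit 304) (XT.lf (nat_lit 0) (nat_lit 80637770097) (nat_lit 76) (nat_lit 14893158971) (nat_lit 76) (nat_lit 10297751898) (nat_lit 3) (nat_lit 4) (nat_lit 4) (nat_lit 5) (nat_lit 4) (nat_lit 4) (nat_lit 410) (nat_lit 202) (nat_lit 168)) (XT.lf (nat_lit 0) (nat_lit 6611859468) (nat_lit 152) (nat_lit 5980498174) (nat_lit 0) (nat_lit 6611859468) (nat_lit 7) (nat_lit 5) (nat_lit 9) (nat_lit 4) (nat_lit 7) (nat_lit 4) (nat_lit 374) (nat_lit 203) (nat_lit 203)))) (XT.nd (nat_lit 156) (nat_lit 0) (nat_lit 0) (XT.nd (nat_lit 78) (nat_lit 76) (nat_lit 0) (XT.lf (nat_lit 0) (nat_lit 16850757488) (nat_lit 152) (nat_lit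 5977973100) (nat_lit 0) (nat_lit 16626769893) (nat_lit 7) (nat_lit 5) (nat_lit 9) (nat_lit 4) (nat_lit 7) (nat_lit 4) (nat_lit 375) (nat_lit 203) (nat_lit 202)) (XT.lf (nat_lit 0) (nat_lit 63235662) (nat_lit 76) (nat_lit 20457104280) (nat_lit 76) (nat_lit 20015653000) (nat_lit 6) (nat_lit 4) (nat_lit 7) (nat_lit 5) (nat_lit 7) (nat_lit 4) (nat_lit 376) (nat_lit 203) (nat_lit 201))) (XT.nd (nat_lit 78) (nat_lit 0) (nat_lit 0) (XT.lf (nat_lit 0) (nat_lit 6286885501) (nat_lit 76) (nat_lit 18007396509) (nat_lit 76) (nat_lit 17354815437) (nat_lit 6) (nat_lit 4) (nat_lit 7) (nat_lit 5) (nat_lit 7) (nat_lit 4) (nat_lit 377) (nat_lit 203) (nat_lit 200)) (XT.lf (nat_lit 0) (nat_lit 12579441172) (nat_lit 76) (nat_lit 15537832558) (nat_lit 76) (nat_lit 14680271107) (nat_lit 6) (nat_lit 4) (nat_lit 7) (nat_lit 5) (nat_lit 7) (nat_lit 4) (nat_lit 378) (nat_lit 203) (nat_lit 199)))))) (XT.nd (nat_lit 468)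 (nat_lit 0) (nat_lit 0) (XT.nd (nat_lit 234) (nat_lit 152) (nat_lit 0) (XT.nd (nat_lit 78) (nat_lit 0) (nat_lit 0) (XT.lf (nat_lit 0) (nat_lit 18946401023) (nat_lit 76) (nat_lit 13046254558) (nat_lit 76) (nat_lit 11989683029) (nat_lit 6) (nat_lit 4) (nat_lit 7) (nat_lit 5) (nat_lit 7) (nat_lit 4) (nat_lit 379) (nat_lit 203) (nat_lit 198)) (XT.nd (nat_lit 78) (nat_lit 0) (nat_lit 0) (XT.lf (nat_lit 0) (nat_lit 25393328417) (nat_lit 76) (nat_lit 10530485402) (nat_lit 76) (nat_lit 9280700205) (nat_lit 6) (nat_lit 4) (nat_lit 7) (nat_lit 5) (nat_lit 7) (nat_lit 4) (nat_lit 380) (nat_lit 203) (nat_lit 197)) (XT.lf (nat_lit 0) (nat_lit 31925856592) (nat_lit 76) (nat_lit 7988326843) (nat_lit 76) (nat_lit 6550955562) (nat_lit 6) (nat_lit 4) (nat_lit 7) (nat_lit 5) (nat_lit 7) (nat_lit 4) (nat_lit 381) (nat_lit 203) (nat_lit 196)))) (XT.nd (nat_lit 78) (nat_lit 152) (nat_lit 0) (XT.lf (nat_lit 0) (nat_lit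 38549693583) (nat_lit 76) (nat_lit 5417557580) (nat_lit 76) (nat_lit 3798063886) (nat_lit 6) (nat_lit 4) (nat_lit 7) (nat_lit 5) (nat_lit 7) (nat_lit 4) (nat_lit 382) (nat_lit 203) (nat_lit 195)) (XT.nd (nat_lit 78) (nat_lit 152) (nat_lit 0) (XT.lf (nat_lit 0) (nat_lit 45270627207) (nat_lit 76) (nat_lit 2815931308) (nat_lit 76) (nat_lit 1019619738) (nat_lit 6) (nat_lit 4) (nat_lit 7) (nat_lit 5) (nat_lit 7) (nat_lit 4) (nat_lit 383) (nat_lit 203) (nat_lit 194)) (XT.lf (nat_lit 0) (nat_lit 1620067376) (nat_lit 76) (nat_lit 147443356) (nat_lit 152) (nat_lit 48720407039) (nat_lit 4) (nat_lit 5) (nat_lit 5) (nat_lit 5) (nat_lit 6) (nat_lit 4) (nat_lit 384) (nat_lit 203) (nat_lit 193))))) (XT.nd (nat_lit 234) (nat_lit 0) (nat_lit 0) (XT.nd (nat_lit 78) (nat_lit 0) (nat_lit 0) (XT.lf (nat_lit 0) (nat_lit 4627785660) (nat_lit 152) (nat_lit 44727427099) (nat_lit 0) (nat_lit 2555312633) (nat_lit 4) (nat_lit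 5) (nat_lit 6) (nat_lit 4) (nat_lit 4) (nat_lit 4) (nat_lit 385) (nat_lit 203) (nat_lit 192)) (XT.nd (nat_lit 78) (nat_lit 0) (nat_lit 0) (XT.lf (nat_lit 0) (nat_lit 7522809746) (nat_lit 152) (nat_lit 40561315867) (nat_lit 0) (nat_lit 5293236327) (nat_lit 4) (nat_lit 5) (nat_lit 6) (nat_lit 4) (nat_lit 4) (nat_lit 4) (nat_lit 386) (nat_lit 203) (nat_lit 191)) (XT.lf (nat_lit 0) (nat_lit 10453695307) (nat_lit 152) (nat_lit 36364459093) (nat_lit 0) (nat_lit 8071597234) (nat_lit 4) (nat_lit 5) (nat_lit 6) (nat_lit 4) (nat_lit 4) (nat_lit 4) (nat_lit 387) (nat_lit 203) (nat_lit 190)))) (XT.nd (nat_lit 156) (nat_lit 0) (nat_lit 0) (XT.nd (nat_lit 78) (nat_lit 0) (nat_lit 0) (XT.lf (nat_lit 0) (nat_lit 13423003311) (nat_lit 152) (nat_lit 32133189621) (nat_lit 0) (nat_lit 10892823050) (nat_lit 4) (nat_lit 5) (nat_lit 6) (nat_lit 4) (nat_lit 4) (nat_lit 4) (nat_lit 388) (nat_lit 203) (nat_lit 189))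 (XT.lf (nat_lit 0) (nat_lit 16433328299) (nat_lit 152) (nat_lit 27863810224) (nat_lit 0) (nat_lit 13759378924) (nat_lit 4) (nat_lit 5) (nat_lit 6) (nat_lit 4) (nat_lit 4) (nat_lit 4) (nat_lit 389) (nat_lit 203) (nat_lit 188))) (XT.nd (nat_lit 78) (nat_lit 0) (nat_lit 0) (XT.lf (nat_lit 0) (nat_lit 19487300652) (nat_lit 152) (nat_lit 23552590377) (nat_lit 0) (nat_lit 16673769612) (nat_lit 4) (nat_lit 5) (nat_lit 6) (nat_lit 4) (nat_lit 4) (nat_lit 4) (nat_lit 390) (nat_lit 203) (nat_lit 187)) (XT.lf (nat_lit 0) (nat_lit 22587588889) (nat_lit 152) (nat_lit 19195762994) (nat_lit 0) (nat_lit 19638541671) (nat_lit 4) (nat_lit 5) (nat_lit 6) (nat_lit 4) (nat_lit 4) (nat_lit 4) (nat_lit 391) (nat_lit 203) (nat_lit 186))))))) (XT.nd (nat_lit 1014) (nat_lit 0) (nat_lit 0) (XT.nd (nat_lit 468) (nat_lit 0) (nat_lit 0) (XT.nd (nat_lit 234) (nat_lit 76) (nat_lit 0) (XT.nd (nat_lit 78) (nat_lit 0) (nat_lit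 0) (XT.lf (nat_lit 0) (nat_lit 25736902001) (nat_lit 152) (nat_lit 14789521139) (nat_lit 0) (nat_lit 22656285676) (nat_lit 4) (nat_lit 5) (nat_lit 6) (nat_lit 4) (nat_lit 4) (nat_lit 4) (nat_lit 392) (nat_lit 203) (nat_lit 185)) (XT.nd (nat_lit 78) (nat_lit 0) (nat_lit 0) (XT.lf (nat_lit 0) (nat_lit 28937991813) (nat_lit 152) (nat_lit 10330014698) (nat_lit 0) (nat_lit 25729638493) (nat_lit 4) (nat_lit 5) (nat_lit 6) (nat_lit 4) (nat_lit 4) (nat_lit 4) (nat_lit 393) (nat_lit 203) (nat_lit 184)) (XT.lf (nat_lit 0) (nat_lit 32193655396) (nat_lit 152) (nat_lit 5813347015) (nat_lit 0) (nat_lit 28861285575) (nat_lit 4) (nat_lit 5) (nat_lit 6) (nat_lit 4) (nat_lit 4) (nat_lit 4) (nat_lit 394) (nat_lit 203) (nat_lit 183)))) (XT.nd (nat_lit 78) (nat_lit 76) (nat_lit 0) (XT.lf (nat_lit 0) (nat_lit 35506737503) (nat_lit 152) (nat_lit 1235571487) (nat_lit 0) (nat_lit 32053963312) (nat_lit 4) (nat_lit 5)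 (nat_lit 6) (nat_lit 4) (nat_lit 4) (nat_lit 4) (nat_lit 395) (nat_lit 203) (nat_lit 182)) (XT.nd (nat_lit 78) (nat_lit 0) (nat_lit 0) (XT.lf (nat_lit 0) (nat_lit 3475124071) (nat_lit 76) (nat_lit 35438414007) (nat_lit 76) (nat_lit 31868742370) (nat_lit 3) (nat_lit 4) (nat_lit 4) (nat_lit 5) (nat_lit 4) (nat_lit 4) (nat_lit 396) (nat_lit 203) (nat_lit 181)) (XT.lf (nat_lit 0) (nat_lit 8280951171) (nat_lit 76) (nat_lit 34115440093) (nat_lit 76) (nat_lit 30432275790) (nat_lit 3) (nat_lit 4) (nat_lit 4) (nat_lit 5) (nat_lit 4) (nat_lit 4) (nat_lit 397) (nat_lit 203) (nat_lit 180))))) (XT.nd (nat_lit 234) (nat_lit 0) (nat_lit 0) (XT.nd (nat_lit 78) (nat_lit 0) (nat_lit 0) (XT.lf (nat_lit 0) (nat_lit 13161518783) (nat_lit 76) (nat_lit 32784708101) (nat_lit 76) (nat_lit 28991356743) (nat_lit 3) (nat_lit 4) (nat_lit 4) (nat_lit 5) (nat_lit 4) (nat_lit 4) (nat_lit 398) (nat_lit 203) (nat_lit 179)) (XT.nd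 (nat_lit 78) (nat_lit 0) (nat_lit 0) (XT.lf (nat_lit 0) (nat_lit 18121091480) (nat_lit 76) (nat_lit 31445055254) (nat_lit 76) (nat_lit 27544726173) (nat_lit 3) (nat_lit 4) (nat_lit 4) (nat_lit 5) (nat_lit 4) (nat_lit 4) (nat_lit 399) (nat_lit 203) (nat_lit 178)) (XT.lf (nat_lit 0) (nat_lit 23164002869) (nat_lit 76) (nat_lit 30095310983) (nat_lit 76) (nat_lit 26091120035) (nat_lit 3) (nat_lit 4) (nat_lit 4) (nat_lit 5) (nat_lit 4) (nat_lit 4) (nat_lit 400) (nat_lit 203) (nat_lit 177)))) (XT.nd (nat_lit 156) (nat_lit 0) (nat_lit 0) (XT.nd (nat_lit 78) (nat_lit 0) (nat_lit 0) (XT.lf (nat_lit 0) (nat_lit 28294659379) (nat_lit 76) (nat_lit 28734295899) (nat_lit 76) (nat_lit 24629268187) (nat_lit 3) (nat_lit 4) (nat_lit 4) (nat_lit 5) (nat_lit 4) (nat_lit 4) (nat_lit 401) (nat_lit 203) (nat_lit 176)) (XT.lf (nat_lit 0) (nat_lit 33517544107) (nat_lit 76) (nat_lit 27360820766) (nat_lit 76) (nat_lit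 23157893282) (nat_lit 3) (nat_lit 4) (nat_lit 4) (nat_lit 5) (nat_lit 4) (nat_lit 4) (nat_lit 402) (nat_lit 203) (nat_lit 175))) (XT.nd (nat_lit 78) (nat_lit 0) (nat_lit 0) (XT.lf (nat_lit 0) (nat_lit 38837220738) (nat_lit 76) (nat_lit 25973685459) (nat_lit 76) (nat_lit 21675709655) (nat_lit 3) (nat_lit 4) (nat_lit 4) (nat_lit 5) (nat_lit 4) (nat_lit 4) (nat_lit 403) (nat_lit 203) (nat_lit 174)) (XT.lf (nat_lit 0) (nat_lit 44258337534) (nat_lit 76) (nat_lit 24571677920) (nat_lit 76) (nat_lit 20181422192) (nat_lit 3) (nat_lit 4) (nat_lit 4) (nat_lit 5) (nat_lit 4) (nat_lit 4) (nat_lit 404) (nat_lit 203) (nat_lit 173)))))) (XT.nd (nat_lit 38142) (nat_lit 0) (nat_lit 228) (XT.nd (nat_lit 234) (nat_lit 0) (nat_lit 0) (XT.nd (nat_lit 78) (nat_lit 0) (nat_lit 0) (XT.lf (nat_lit 0) (nat_lit 49785631394) (nat_lit 76) (nat_lit 23153573092) (nat_lit 76) (nat_lit 18673725205) (nat_lit 3) (nat_lit 4) (nat_lit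 4) (nat_lit 5) (nat_lit 4) (nat_lit 4) (nat_lit 405) (nat_lit 203) (nat_lit 172)) (XT.nd (nat_lit 78) (nat_lit 0) (nat_lit 0) (XT.lf (nat_lit 0) (nat_lit 55423931990) (nat_lit 76) (nat_lit 21718131856) (nat_lit 76) (nat_lit 17151301290) (nat_lit 3) (nat_lit 4) (nat_lit 4) (nat_lit 5) (nat_lit 4) (nat_lit 4) (nat_lit 406) (nat_lit 203) (nat_lit 171)) (XT.lf (nat_lit 0) (nat_lit 61178165994) (nat_lit 76) (nat_lit 20264099942) (nat_lit 76) (nat_lit 15612820173) (nat_lit 3) (nat_lit 4) (nat_lit 4) (nat_lit 5) (nat_lit 4) (nat_lit 4) (nat_lit 407) (nat_lit 203) (nat_lit 170)))) (XT.nd (nat_lit 156) (nat_lit 0) (nat_lit 0) (XT.nd (nat_lit 78) (nat_lit 0) (nat_lit 0) (XT.lf (nat_lit 0) (nat_lit 67053361377) (nat_lit 76) (nat_lit 18790206836) (nat_lit 76) (nat_lit 14056937551) (nat_lit 3) (nat_lit 4) (nat_lit 4) (nat_lit 5) (nat_lit 4) (nat_lit 4) (nat_lit 408) (nat_lit 203) (nat_lit 169)) (XT.lf (nat_lit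 0) (nat_lit 73054651805) (nat_lit 76) (nat_lit 17295164671) (nat_lit 76) (nat_lit 12482293913) (nat_lit 3) (nat_lit 4) (nat_lit 4) (nat_lit 5) (nat_lit 4) (nat_lit 4) (nat_lit 409) (nat_lit 203) (nat_lit 168))) (XT.nd (nat_lit 37674) (nat_lit 0) (nat_lit 304) (XT.lf (nat_lit 0) (nat_lit 79187281124) (nat_lit 76) (nat_lit 15777667100) (nat_lit 76) (nat_lit 10887513359) (nat_lit 3) (nat_lit 4) (nat_lit 4) (nat_lit 5) (nat_lit 4) (nat_lit 4) (nat_lit 410) (nat_lit 203) (nat_lit 167)) (XT.lf (nat_lit 0) (nat_lit 3174231845) (nat_lit 152) (nat_lit 11856507113) (nat_lit 0) (nat_lit 3174231845) (nat_lit 7) (nat_lit 5) (nat_lit 9) (nat_lit 4) (nat_lit 7) (nat_lit 4) (nat_lit 372) (nat_lit 204) (nat_lit 204))))) (XT.nd (nat_lit 234) (nat_lit 76) (nat_lit 0) (XT.nd (nat_lit 78) (nat_lit 0) (nat_lit 0) (XT.lf (nat_lit 0) (nat_lit 9866154394) (nat_lit 152) (nat_lit 17892295921) (nat_lit 0) (nat_lit 9635447170)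 (nat_lit 7) (nat_lit 5) (nat_lit 9) (nat_lit 4) (nat_lit 7) (nat_lit 4) (nat_lit 373) (nat_lit 204) (nat_lit 203)) (XT.nd (nat_lit 78) (nat_lit 0) (nat_lit 0) (XT.lf (nat_lit 0) (nat_lit 13420494452) (nat_lit 152) (nat_lit 12023171379) (nat_lit 0) (nat_lit 12965799633) (nat_lit 7) (nat_lit 5) (nat_lit 9) (nat_lit 4) (nat_lit 7) (nat_lit 4) (nat_lit 374) (nat_lit 204) (nat_lit 202)) (XT.lf (nat_lit 0) (nat_lit 17014589598) (nat_lit 152) (nat_lit 6100512238) (nat_lit 0) (nat_lit 16342431094) (nat_lit 7) (nat_lit 5) (nat_lit 9) (nat_lit 4) (nat_lit 7) (nat_lit 4) (nat_lit 375) (nat_lit 204) (nat_lit 201)))) (XT.nd (nat_lit 156) (nat_lit 0) (nat_lit 0) (XT.nd (nat_lit 78) (nat_lit 76) (nat_lit 0) (XT.lf (nat_lit 0) (nat_lit 20651580304) (nat_lit 152) (nat_lit 119143360) (nat_lit 0) (nat_lit 19768292009) (nat_lit 7) (nat_lit 5) (nat_lit 9) (nat_lit 4) (nat_lit 7) (nat_lit 4) (nat_lit 376) (nat_lit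 204) (nat_lit 200)) (XT.lf (nat_lit 0) (nat_lit 6044103930) (nat_lit 76) (nat_lit 18348640216) (nat_lit 76) (nat_lit 17260371542) (nat_lit 6) (nat_lit 4) (nat_lit 7) (nat_lit 5) (nat_lit 7) (nat_lit 4) (nat_lit 377) (nat_lit 204) (nat_lit 199))) (XT.nd (nat_lit 78) (nat_lit 0) (nat_lit 0) (XT.lf (nat_lit 0) (nat_lit 12280318472) (nat_lit 76) (nat_lit 15904727926) (nat_lit 76) (nat_lit 14617449173) (nat_lit 6) (nat_lit 4) (nat_lit 7) (nat_lit 5) (nat_lit 7) (nat_lit 4) (nat_lit 378) (nat_lit 204) (nat_lit 198)) (XT.lf (nat_lit 0) (nat_lit 18592578199) (nat_lit 76) (nat_lit 13438054449) (nat_lit 76) (nat_lit 11957562030) (nat_lit 6) (nat_lit 4) (nat_lit 7) (nat_lit 5) (nat_lit 7) (nat_lit 4) (nat_lit 379) (nat_lit 204) (nat_lit 197))))))))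
noncomputable def xc7 : XT := (XT.nd (nat_lit 2028) (nat_lit 0) (nat_lit 0) (XT.nd (nat_lit 1014) (nat_lit 76) (nat_lit 0) (XT.nd (nat_lit 468) (nat_lit 0) (nat_lit 0) (XT.nd (nat_lit 234) (nat_lit 152) (nat_lit 0) (XT.nd (nat_lit 78) (nat_lit 0) (nat_lit 0) (XT.lf (nat_lit 0) (nat_lit 24986398676) (nat_lit 76) (nat_lit 10946464442) (nat_lit 76) (nat_lit 9278385937) (nat_lit 6) (nat_lit 4) (nat_lit 7) (nat_lit 5) (nat_lit 7) (nat_lit 4) (nat_lit 380) (nat_lit 204) (nat_lit 196)) (XT.nd (nat_lit 78) (nat_lit 0) (nat_lit 0) (XT.lf (nat_lit 0) (nat_lit 31467366738) (nat_lit 76) (nat_lit 8427780786) (nat_lit 76) (nat_lit 6577579869) (nat_lit 6) (nat_lit 4) (nat_lit 7) (nat_lit 5) (nat_lit 7) (nat_lit 4) (nat_lit 381) (nat_lit 204) (nat_lit 195)) (XT.lf (nat_lit 0) (nat_lit 38041145367) (nat_lit 76) (nat_lit 5879802690) (nat_lit 76) (nat_lit 3852783896) (nat_lit 6) (nat_lit 4) (nat_lit 7) (nat_lit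 5) (nat_lit 7) (nat_lit 4) (nat_lit 382) (nat_lit 204) (nat_lit 194)))) (XT.nd (nat_lit 78) (nat_lit 152) (nat_lit 0) (XT.lf (nat_lit 0) (nat_lit 44713478639) (nat_lit 76) (nat_lit 3300303765) (nat_lit 76) (nat_lit 1101617130) (nat_lit 6) (nat_lit 4) (nat_lit 7) (nat_lit 5) (nat_lit 7) (nat_lit 4) (nat_lit 383) (nat_lit 204) (nat_lit 193)) (XT.nd (nat_lit 78) (nat_lit 0) (nat_lit 0) (XT.lf (nat_lit 0) (nat_lit 994568820) (nat_lit 76) (nat_lit 660565791) (nat_lit 152) (nat_lit 48842997054) (nat_lit 4) (nat_lit 5) (nat_lit 5) (nat_lit 5) (nat_lit 6) (nat_lit 4) (nat_lit 384) (nat_lit 204) (nat_lit 192)) (XT.lf (nat_lit 0) (nat_lit 4484605701) (nat_lit 152) (nat_lit 45406022337) (nat_lit 0) (nat_lit 2031044685) (nat_lit 4) (nat_lit 5) (nat_lit 6) (nat_lit 4) (nat_lit 4) (nat_lit 4) (nat_lit 385) (nat_lit 204) (nat_lit 191))))) (XT.nd (nat_lit 234) (nat_lit 0) (nat_lit 0) (XT.nd (nat_lit 78) (nat_lit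 0) (nat_lit 0) (XT.lf (nat_lit 0) (nat_lit 7354511931) (nat_lit 152) (nat_lit 41286333665) (nat_lit 0) (nat_lit 4748426262) (nat_lit 4) (nat_lit 5) (nat_lit 6) (nat_lit 4) (nat_lit 4) (nat_lit 4) (nat_lit 386) (nat_lit 204) (nat_lit 190)) (XT.nd (nat_lit 78) (nat_lit 0) (nat_lit 0) (XT.lf (nat_lit 0) (nat_lit 10261011224) (nat_lit 152) (nat_lit 37134547336) (nat_lit 0) (nat_lit 7506843368) (nat_lit 4) (nat_lit 5) (nat_lit 6) (nat_lit 4) (nat_lit 4) (nat_lit 4) (nat_lit 387) (nat_lit 204) (nat_lit 189)) (XT.lf (nat_lit 0) (nat_lit 13206643240) (nat_lit 152) (nat_lit 32947035578) (nat_lit 0) (nat_lit 10308706269) (nat_lit 4) (nat_lit 5) (nat_lit 6) (nat_lit 4) (nat_lit 4) (nat_lit 4) (nat_lit 388) (nat_lit 204) (nat_lit 188)))) (XT.nd (nat_lit 156) (nat_lit 0) (nat_lit 0) (XT.nd (nat_lit 78) (nat_lit 0) (nat_lit 0) (XT.lf (nat_lit 0) (nat_lit 16193981831) (nat_lit 152) (nat_lit 28720139399) (nat_lit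 0) (nat_lit 13156463196) (nat_lit 4) (nat_lit 5) (nat_lit 6) (nat_lit 4) (nat_lit 4) (nat_lit 4) (nat_lit 389) (nat_lit 204) (nat_lit 187)) (XT.lf (nat_lit 0) (nat_lit 19225637294) (nat_lit 152) (nat_lit 24450165394) (nat_lit 0) (nat_lit 16052602480) (nat_lit 4) (nat_lit 5) (nat_lit 6) (nat_lit 4) (nat_lit 4) (nat_lit 4) (nat_lit 390) (nat_lit 204) (nat_lit 186))) (XT.nd (nat_lit 78) (nat_lit 0) (nat_lit 0) (XT.lf (nat_lit 0) (nat_lit 22304258648) (nat_lit 152) (nat_lit 20133382518) (nat_lit 0) (nat_lit 18999654728) (nat_lit 4) (nat_lit 5) (nat_lit 6) (nat_lit 4) (nat_lit 4) (nat_lit 4) (nat_lit 391) (nat_lit 204) (nat_lit 185)) (XT.lf (nat_lit 0) (nat_lit 25432535950) (nat_lit 152) (nat_lit 15766018826) (nat_lit 0) (nat_lit 22000195035) (nat_lit 4) (nat_lit 5) (nat_lit 6) (nat_lit 4) (nat_lit 4) (nat_lit 4) (nat_lit 392) (nat_lit 204) (nat_lit 184)))))) (XT.nd (nat_lit 468) (nat_lit 0) (nat_lit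 0) (XT.nd (nat_lit 234) (nat_lit 76) (nat_lit 0) (XT.nd (nat_lit 78) (nat_lit 0) (nat_lit 0) (XT.lf (nat_lit 0) (nat_lit 28613202648) (nat_lit 152) (nat_lit 11344258174) (nat_lit 0) (nat_lit 25056845231) (nat_lit 4) (nat_lit 5) (nat_lit 6) (nat_lit 4) (nat_lit 4) (nat_lit 4) (nat_lit 393) (nat_lit 204) (nat_lit 183)) (XT.nd (nat_lit 78) (nat_lit 0) (nat_lit 0) (XT.lf (nat_lit 0) (nat_lit 31849037963) (nat_lit 152) (nat_lit 6864236887) (nat_lit 0) (nat_lit 28172276177) (nat_lit 4) (nat_lit 5) (nat_lit 6) (nat_lit 4) (nat_lit 4) (nat_lit 4) (nat_lit 394) (nat_lit 204) (nat_lit 182)) (XT.lf (nat_lit 0) (nat_lit 35142869325) (nat_lit 152) (nat_lit 2322040385) (nat_lit 0) (nat_lit 31349210092) (nat_lit 4) (nat_lit 5) (nat_lit 6) (nat_lit 4) (nat_lit 4) (nat_lit 4) (nat_lit 395) (nat_lit 204) (nat_lit 181)))) (XT.nd (nat_lit 78) (nat_lit 0) (nat_lit 0) (XT.lf (nat_lit 0) (nat_lit 2331802100) (nat_lit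 76) (nat_lit 36188187447) (nat_lit 76) (nat_lit 32281035548) (nat_lit 3) (nat_lit 4) (nat_lit 4) (nat_lit 5) (nat_lit 4) (nat_lit 4) (nat_lit 396) (nat_lit 204) (nat_lit 180)) (XT.nd (nat_lit 78) (nat_lit 0) (nat_lit 0) (XT.lf (nat_lit 0) (nat_lit 7103425111) (nat_lit 76) (nat_lit 34880943158) (nat_lit 76) (nat_lit 30863604204) (nat_lit 3) (nat_lit 4) (nat_lit 4) (nat_lit 5) (nat_lit 4) (nat_lit 4) (nat_lit 397) (nat_lit 204) (nat_lit 179)) (XT.lf (nat_lit 0) (nat_lit 11950784869) (nat_lit 76) (nat_lit 33565482646) (nat_lit 76) (nat_lit 29441165969) (nat_lit 3) (nat_lit 4) (nat_lit 4) (nat_lit 5) (nat_lit 4) (nat_lit 4) (nat_lit 398) (nat_lit 204) (nat_lit 178))))) (XT.nd (nat_lit 234) (nat_lit 0) (nat_lit 0) (XT.nd (nat_lit 78) (nat_lit 0) (nat_lit 0) (XT.lf (nat_lit 0) (nat_lit 16878116931) (nat_lit 76) (nat_lit 32240656479) (nat_lit 76) (nat_lit 28012477935) (nat_lit 3) (nat_lit 4) (nat_lit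 4) (nat_lit 5) (nat_lit 4) (nat_lit 4) (nat_lit 399) (nat_lit 204) (nat_lit 177)) (XT.nd (nat_lit 78) (nat_lit 0) (nat_lit 0) (XT.lf (nat_lit 0) (nat_lit 21889726734) (nat_lit 76) (nat_lit 30905307043) (nat_lit 76) (nat_lit 26576291735) (nat_lit 3) (nat_lit 4) (nat_lit 4) (nat_lit 5) (nat_lit 4) (nat_lit 4) (nat_lit 400) (nat_lit 204) (nat_lit 176)) (XT.lf (nat_lit 0) (nat_lit 26989993353) (nat_lit 76) (nat_lit 29558267527) (nat_lit 76) (nat_lit 25131352448) (nat_lit 3) (nat_lit 4) (nat_lit 4) (nat_lit 5) (nat_lit 4) (nat_lit 4) (nat_lit 401) (nat_lit 204) (nat_lit 175)))) (XT.nd (nat_lit 156) (nat_lit 0) (nat_lit 0) (XT.nd (nat_lit 78) (nat_lit 0) (nat_lit 0) (XT.lf (nat_lit 0) (nat_lit 32183373333) (nat_lit 76) (nat_lit 28198360907) (nat_lit 76) (nat_lit 23676397507) (nat_lit 3) (nat_lit 4) (nat_lit 4) (nat_lit 5) (nat_lit 4) (nat_lit 4) (nat_lit 402) (nat_lit 204) (nat_lit 174)) (XT.lf (nat_lit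 0) (nat_lit 37474404578) (nat_lit 76) (nat_lit 26824398914) (nat_lit 76) (nat_lit 22210155590) (nat_lit 3) (nat_lit 4) (nat_lit 4) (nat_lit 5) (nat_lit 4) (nat_lit 4) (nat_lit 403) (nat_lit 204) (nat_lit 173))) (XT.nd (nat_lit 78) (nat_lit 0) (nat_lit 0) (XT.lf (nat_lit 0) (nat_lit 42867710320) (nat_lit 76) (nat_lit 25435180999) (nat_lit 76) (nat_lit 20731345517) (nat_lit 3) (nat_lit 4) (nat_lit 4) (nat_lit 5) (nat_lit 4) (nat_lit 4) (nat_lit 404) (nat_lit 204) (nat_lit 172)) (XT.lf (nat_lit 0) (nat_lit 48368003155) (nat_lit 76) (nat_lit 24029493283) (nat_lit 76) (nat_lit 19238675122) (nat_lit 3) (nat_lit 4) (nat_lit 4) (nat_lit 5) (nat_lit 4) (nat_lit 4) (nat_lit 405) (nat_lit 204) (nat_lit 171))))))) (XT.nd (nat_lit 38454) (nat_lit 0) (nat_lit 76) (XT.nd (nat_lit 37908) (nat_lit 0) (nat_lit 228) (XT.nd (nat_lit 234) (nat_lit 0) (nat_lit 0) (XT.nd (nat_lit 78) (nat_lit 0) (nat_lit 0) (XT.lf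 (nat_lit 0) (nat_lit 53980089165) (nat_lit 76) (nat_lit 22606107494) (nat_lit 76) (nat_lit 17730840131) (nat_lit 3) (nat_lit 4) (nat_lit 4) (nat_lit 5) (nat_lit 4) (nat_lit 4) (nat_lit 406) (nat_lit 204) (nat_lit 170)) (XT.nd (nat_lit 78) (nat_lit 0) (nat_lit 0) (XT.lf (nat_lit 0) (nat_lit 59708872114) (nat_lit 76) (nat_lit 21163779898) (nat_lit 76) (nat_lit 16206523018) (nat_lit 3) (nat_lit 4) (nat_lit 4) (nat_lit 5) (nat_lit 4) (nat_lit 4) (nat_lit 407) (nat_lit 204) (nat_lit 169)) (XT.lf (nat_lit 0) (nat_lit 65559357736) (nat_lit 76) (nat_lit 19701250208) (nat_lit 76) (nat_lit 14664391855) (nat_lit 3) (nat_lit 4) (nat_lit 4) (nat_lit 5) (nat_lit 4) (nat_lit 4) (nat_lit 408) (nat_lit 204) (nat_lit 168)))) (XT.nd (nat_lit 78) (nat_lit 0) (nat_lit 0) (XT.lf (nat_lit 0) (nat_lit 71536658104) (nat_lit 76) (nat_lit 18217240486) (nat_lit 76) (nat_lit 13103099149) (nat_lit 3) (nat_lit 4) (nat_lit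 4) (nat_lit 5) (nat_lit 4) (nat_lit 4) (nat_lit 409) (nat_lit 204) (nat_lit 167)) (XT.nd (nat_lit 37518) (nat_lit 0) (nat_lit 456) (XT.lf (nat_lit 0) (nat_lit 77645996102) (nat_lit 76) (nat_lit 16710454024) (nat_lit 76) (nat_lit 11521280665) (nat_lit 3) (nat_lit 4) (nat_lit 4) (nat_lit 5) (nat_lit 4) (nat_lit 4) (nat_lit 410) (nat_lit 204) (nat_lit 166)) (XT.lf (nat_lit 0) (nat_lit 16953482635) (nat_lit 76) (nat_lit 156257184) (nat_lit 76) (nat_lit 156257184) (nat_lit 9) (nat_lit 4) (nat_lit 10) (nat_lit 5) (nat_lit 10) (nat_lit 4) (nat_lit 370) (nat_lit 205) (nat_lit 205))))) (XT.nd (nat_lit 234) (nat_lit 76) (nat_lit 0) (XT.nd (nat_lit 78) (nat_lit 0) (nat_lit 0) (XT.lf (nat_lit 0) (nat_lit 3101977070) (nat_lit 152) (nat_lit 29490412361) (nat_lit 0) (nat_lit 2864348629) (nat_lit 7) (nat_lit 5) (nat_lit 9) (nat_lit 4) (nat_lit 7) (nat_lit 4) (nat_lit 371) (nat_lit 205) (nat_lit 204)) (XT.nd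 (nat_lit 78) (nat_lit 0) (nat_lit 0) (XT.lf (nat_lit 0) (nat_lit 6551142471) (nat_lit 152) (nat_lit 23777054509) (nat_lit 0) (nat_lit 6082806807) (nat_lit 7) (nat_lit 5) (nat_lit 9) (nat_lit 4) (nat_lit 7) (nat_lit 4) (nat_lit 372) (nat_lit 205) (nat_lit 203)) (XT.lf (nat_lit 0) (nat_lit 10034901467) (nat_lit 152) (nat_lit 18018511234) (nat_lit 0) (nat_lit 9342578208) (nat_lit 7) (nat_lit 5) (nat_lit 9) (nat_lit 4) (nat_lit 7) (nat_lit 4) (nat_lit 373) (nat_lit 205) (nat_lit 202)))) (XT.nd (nat_lit 156) (nat_lit 76) (nat_lit 0) (XT.nd (nat_lit 78) (nat_lit 0) (nat_lit 0) (XT.lf (nat_lit 0) (nat_lit 13556298119) (nat_lit 152) (nat_lit 12209750799) (nat_lit 0) (nat_lit 12646511175) (nat_lit 7) (nat_lit 5) (nat_lit 9) (nat_lit 4) (nat_lit 7) (nat_lit 4) (nat_lit 374) (nat_lit 205) (nat_lit 201)) (XT.lf (nat_lit 0) (nat_lit 17118409376) (nat_lit 152) (nat_lit 6345697588) (nat_lit 0) (nat_lit 15997492641)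 (nat_lit 7) (nat_lit 5) (nat_lit 9) (nat_lit 4) (nat_lit 7) (nat_lit 4) (nat_lit 375) (nat_lit 205) (nat_lit 200))) (XT.nd (nat_lit 78) (nat_lit 76) (nat_lit 0) (XT.lf (nat_lit 0) (nat_lit 20724347763) (nat_lit 152) (nat_lit 421227671) (nat_lit 0) (nat_lit 19398450648) (nat_lit 7) (nat_lit 5) (nat_lit 9) (nat_lit 4) (nat_lit 7) (nat_lit 4) (nat_lit 376) (nat_lit 205) (nat_lit 199)) (XT.lf (nat_lit 0) (nat_lit 5679666421) (nat_lit 76) (nat_lit 18752194104) (nat_lit 76) (nat_lit 17227286912) (nat_lit 6) (nat_lit 4) (nat_lit 7) (nat_lit 5) (nat_lit 7) (nat_lit 4) (nat_lit 377) (nat_lit 205) (nat_lit 198)))))) (XT.nd (nat_lit 546) (nat_lit 0) (nat_lit 0) (XT.nd (nat_lit 234) (nat_lit 152) (nat_lit 0) (XT.nd (nat_lit 78) (nat_lit 0) (nat_lit 0) (XT.lf (nat_lit 0) (nat_lit 11861180840) (nat_lit 76) (nat_lit 16333186337) (nat_lit 76) (nat_lit 14615065478) (nat_lit 6) (nat_lit 4) (nat_lit 7) (nat_lit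 5) (nat_lit 7) (nat_lit 4) (nat_lit 378) (nat_lit 205) (nat_lit 197)) (XT.nd (nat_lit 78) (nat_lit 0) (nat_lit 0) (XT.lf (nat_lit 0) (nat_lit 18120333649) (nat_lit 76) (nat_lit 13890692010) (nat_lit 76) (nat_lit 11984985066) (nat_lit 6) (nat_lit 4) (nat_lit 7) (nat_lit 5) (nat_lit 7) (nat_lit 4) (nat_lit 379) (nat_lit 205) (nat_lit 196)) (XT.lf (nat_lit 0) (nat_lit 24462594014) (nat_lit 76) (nat_lit 11422576905) (nat_lit 76) (nat_lit 9334747548) (nat_lit 6) (nat_lit 4) (nat_lit 7) (nat_lit 5) (nat_lit 7) (nat_lit 4) (nat_lit 380) (nat_lit 205) (nat_lit 195)))) (XT.nd (nat_lit 156) (nat_lit 152) (nat_lit 0) (XT.nd (nat_lit 78) (nat_lit 0) (nat_lit 0) (XT.lf (nat_lit 0) (nat_lit 30893503713) (nat_lit 76) (nat_lit 8926684416) (nat_lit 76) (nat_lit 6662037183) (nat_lit 6) (nat_lit 4) (nat_lit 7) (nat_lit 5) (nat_lit 7) (nat_lit 4) (nat_lit 381) (nat_lit 205) (nat_lit 194)) (XT.lf (nat_lit 0) (nat_lit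 37418681990) (nat_lit 76) (nat_lit 6400833667) (nat_lit 76) (nat_lit 3964518593) (nat_lit 6) (nat_lit 4) (nat_lit 7) (nat_lit 5) (nat_lit 7) (nat_lit 4) (nat_lit 382) (nat_lit 205) (nat_lit 193))) (XT.nd (nat_lit 78) (nat_lit 152) (nat_lit 0) (XT.lf (nat_lit 0) (nat_lit 44043830455) (nat_lit 76) (nat_lit 3842817603) (nat_lit 76) (nat_lit 1239834722) (nat_lit 6) (nat_lit 4) (nat_lit 7) (nat_lit 5) (nat_lit 7) (nat_lit 4) (nat_lit 383) (nat_lit 205) (nat_lit 192)) (XT.lf (nat_lit 0) (nat_lit 254401145) (nat_lit 76) (nat_lit 1232888229) (nat_lit 152) (nat_lit 49022944460) (nat_lit 4) (nat_lit 5) (nat_lit 5) (nat_lit 5) (nat_lit 6) (nat_lit 4) (nat_lit 384) (nat_lit 205) (nat_lit 191))))) (XT.nd (nat_lit 234) (nat_lit 0) (nat_lit 0) (XT.nd (nat_lit 78) (nat_lit 0) (nat_lit 0) (XT.lf (nat_lit 0) (nat_lit 4286141095) (nat_lit 152) (nat_lit 46199213228) (nat_lit 0) (nat_lit 1449348203) (nat_lit 4)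 (nat_lit 5) (nat_lit 6) (nat_lit 4) (nat_lit 4) (nat_lit 4) (nat_lit 385) (nat_lit 205) (nat_lit 190)) (XT.nd (nat_lit 78) (nat_lit 0) (nat_lit 0) (XT.lf (nat_lit 0) (nat_lit 7131661057) (nat_lit 152) (nat_lit 42124595001) (nat_lit 0) (nat_lit 4146785977) (nat_lit 4) (nat_lit 5) (nat_lit 6) (nat_lit 4) (nat_lit 4) (nat_lit 4) (nat_lit 386) (nat_lit 205) (nat_lit 189)) (XT.lf (nat_lit 0) (nat_lit 10014484362) (nat_lit 152) (nat_lit 38016566387) (nat_lit 0) (nat_lit 6885840168) (nat_lit 4) (nat_lit 5) (nat_lit 6) (nat_lit 4) (nat_lit 4) (nat_lit 4) (nat_lit 387) (nat_lit 205) (nat_lit 188)))) (XT.nd (nat_lit 156) (nat_lit 0) (nat_lit 0) (XT.nd (nat_lit 78) (nat_lit 0) (nat_lit 0) (XT.lf (nat_lit 0) (nat_lit 12937129981) (nat_lit 152) (nat_lit 33871537846) (nat_lit 0) (nat_lit 9668904123) (nat_lit 4) (nat_lit 5) (nat_lit 6) (nat_lit 4) (nat_lit 4) (nat_lit 4) (nat_lit 388) (nat_lit 205) (nat_lit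 187)) (XT.lf (nat_lit 0) (nat_lit 15902151683) (nat_lit 152) (nat_lit 29685887509) (nat_lit 0) (nat_lit 12498409645) (nat_lit 4) (nat_lit 5) (nat_lit 6) (nat_lit 4) (nat_lit 4) (nat_lit 4) (nat_lit 389) (nat_lit 205) (nat_lit 186))) (XT.nd (nat_lit 78) (nat_lit 0) (nat_lit 0) (XT.lf (nat_lit 0) (nat_lit 18912140262) (nat_lit 152) (nat_lit 25455958011) (nat_lit 0) (nat_lit 15376829120) (nat_lit 4) (nat_lit 5) (nat_lit 6) (nat_lit 4) (nat_lit 4) (nat_lit 4) (nat_lit 390) (nat_lit 205) (nat_lit 185)) (XT.lf (nat_lit 0) (nat_lit 21969725808) (nat_lit 152) (nat_lit 21178053298) (nat_lit 0) (nat_lit 18306677669) (nat_lit 4) (nat_lit 5) (nat_lit 6) (nat_lit 4) (nat_lit 4) (nat_lit 4) (nat_lit 391) (nat_lit 205) (nat_lit 184))))))))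
noncomputable def xc8 : XT := (XT.nd (nat_lit 39312) (nat_lit 0) (nat_lit 0) (XT.nd (nat_lit 1014) (nat_lit 0) (nat_lit 0) (XT.nd (nat_lit 468) (nat_lit 0) (nat_lit 0) (XT.nd (nat_lit 234) (nat_lit 76) (nat_lit 0) (XT.nd (nat_lit 78) (nat_lit 0) (nat_lit 0) (XT.lf (nat_lit 0) (nat_lit 25077579995) (nat_lit 152) (nat_lit 16848435394) (nat_lit 0) (nat_lit 21290515355) (nat_lit 4) (nat_lit 5) (nat_lit 6) (nat_lit 4) (nat_lit 4) (nat_lit 4) (nat_lit 392) (nat_lit 205) (nat_lit 183)) (XT.nd (nat_lit 78) (nat_lit 0) (nat_lit 0) (XT.lf (nat_lit 0) (nat_lit 28238418424) (nat_lit 152) (nat_lit 12463321138) (nat_lit 0) (nat_lit 24330949415) (nat_lit 4) (nat_lit 5) (nat_lit 6) (nat_lit 4) (nat_lit 4) (nat_lit 4) (nat_lit 393) (nat_lit 205) (nat_lit 182)) (XT.lf (nat_lit 0) (nat_lit 31455002994) (nat_lit 152) (nat_lit 8018878878) (nat_lit 0) (nat_lit 27430636539) (nat_lit 4) (nat_lit 5) (nat_lit 6) (nat_lit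 4) (nat_lit 4) (nat_lit 4) (nat_lit 394) (nat_lit 205) (nat_lit 181)))) (XT.nd (nat_lit 78) (nat_lit 76) (nat_lit 0) (XT.lf (nat_lit 0) (nat_lit 34730144313) (nat_lit 152) (nat_lit 3511225119) (nat_lit 0) (nat_lit 30592285190) (nat_lit 4) (nat_lit 5) (nat_lit 6) (nat_lit 4) (nat_lit 4) (nat_lit 4) (nat_lit 395) (nat_lit 205) (nat_lit 180)) (XT.nd (nat_lit 78) (nat_lit 0) (nat_lit 0) (XT.lf (nat_lit 0) (nat_lit 1084746169) (nat_lit 76) (nat_lit 36992385228) (nat_lit 76) (nat_lit 32744339051) (nat_lit 3) (nat_lit 4) (nat_lit 4) (nat_lit 5) (nat_lit 4) (nat_lit 4) (nat_lit 396) (nat_lit 205) (nat_lit 179)) (XT.lf (nat_lit 0) (nat_lit 5823161326) (nat_lit 76) (nat_lit 35700412419) (nat_lit 76) (nat_lit 31345388519) (nat_lit 3) (nat_lit 4) (nat_lit 4) (nat_lit 5) (nat_lit 4) (nat_lit 4) (nat_lit 397) (nat_lit 205) (nat_lit 178))))) (XT.nd (nat_lit 234) (nat_lit 0) (nat_lit 0) (XT.nd (nat_lit 78)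 (nat_lit 0) (nat_lit 0) (XT.lf (nat_lit 0) (nat_lit 10638280449) (nat_lit 76) (nat_lit 34399778588) (nat_lit 76) (nat_lit 29940892821) (nat_lit 3) (nat_lit 4) (nat_lit 4) (nat_lit 5) (nat_lit 4) (nat_lit 4) (nat_lit 398) (nat_lit 205) (nat_lit 177)) (XT.nd (nat_lit 78) (nat_lit 0) (nat_lit 0) (XT.lf (nat_lit 0) (nat_lit 15534310924) (nat_lit 76) (nat_lit 33089347256) (nat_lit 76) (nat_lit 28529624725) (nat_lit 3) (nat_lit 4) (nat_lit 4) (nat_lit 5) (nat_lit 4) (nat_lit 4) (nat_lit 399) (nat_lit 205) (nat_lit 176)) (XT.lf (nat_lit 0) (nat_lit 20515530837) (nat_lit 76) (nat_lit 31767973388) (nat_lit 76) (nat_lit 27110351086) (nat_lit 3) (nat_lit 4) (nat_lit 4) (nat_lit 5) (nat_lit 4) (nat_lit 4) (nat_lit 400) (nat_lit 205) (nat_lit 175)))) (XT.nd (nat_lit 156) (nat_lit 0) (nat_lit 0) (XT.nd (nat_lit 78) (nat_lit 0) (nat_lit 0) (XT.lf (nat_lit 0) (nat_lit 25586292708) (nat_lit 76) (nat_lit 30434502385)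 (nat_lit 76) (nat_lit 25681831762) (nat_lit 3) (nat_lit 4) (nat_lit 4) (nat_lit 5) (nat_lit 4) (nat_lit 4) (nat_lit 401) (nat_lit 205) (nat_lit 174)) (XT.lf (nat_lit 0) (nat_lit 30751027302) (nat_lit 76) (nat_lit 29087769078) (nat_lit 76) (nat_lit 24242818531) (nat_lit 3) (nat_lit 4) (nat_lit 4) (nat_lit 5) (nat_lit 4) (nat_lit 4) (nat_lit 402) (nat_lit 205) (nat_lit 173))) (XT.nd (nat_lit 78) (nat_lit 0) (nat_lit 0) (XT.lf (nat_lit 0) (nat_lit 36014247492) (nat_lit 76) (nat_lit 27726596710) (nat_lit 76) (nat_lit 22792054004) (nat_lit 3) (nat_lit 4) (nat_lit 4) (nat_lit 5) (nat_lit 4) (nat_lit 4) (nat_lit 403) (nat_lit 205) (nat_lit 172)) (XT.lf (nat_lit 0) (nat_lit 41380552210) (nat_lit 76) (nat_lit 26349795906) (nat_lit 76) (nat_lit 21328270522) (nat_lit 3) (nat_lit 4) (nat_lit 4) (nat_lit 5) (nat_lit 4) (nat_lit 4) (nat_lit 404) (nat_lit 205) (nat_lit 171)))))) (XT.nd (nat_lit 37752) (nat_lit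 0) (nat_lit 304) (XT.nd (nat_lit 234) (nat_lit 0) (nat_lit 0) (XT.nd (nat_lit 78) (nat_lit 0) (nat_lit 0) (XT.lf (nat_lit 0) (nat_lit 46854630459) (nat_lit 76) (nat_lit 24956163638) (nat_lit 76) (nat_lit 19850189051) (nat_lit 3) (nat_lit 4) (nat_lit 4) (nat_lit 5) (nat_lit 4) (nat_lit 4) (nat_lit 405) (nat_lit 205) (nat_lit 170)) (XT.nd (nat_lit 78) (nat_lit 0) (nat_lit 0) (XT.lf (nat_lit 0) (nat_lit 52441265414) (nat_lit 76) (nat_lit 23544482168) (nat_lit 76) (nat_lit 18356518064) (nat_lit 3) (nat_lit 4) (nat_lit 4) (nat_lit 5) (nat_lit 4) (nat_lit 4) (nat_lit 406) (nat_lit 205) (nat_lit 169)) (XT.lf (nat_lit 0) (nat_lit 58145338602) (nat_lit 76) (nat_lit 22113517987) (nat_lit 76) (nat_lit 16845952411) (nat_lit 3) (nat_lit 4) (nat_lit 4) (nat_lit 5) (nat_lit 4) (nat_lit 4) (nat_lit 407) (nat_lit 205) (nat_lit 168)))) (XT.nd (nat_lit 78) (nat_lit 0) (nat_lit 0) (XT.lf (nat_lit 0) (nat_lit 63971834163)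 (nat_lit 76) (nat_lit 20662020740) (nat_lit 76) (nat_lit 15317172180) (nat_lit 3) (nat_lit 4) (nat_lit 4) (nat_lit 5) (nat_lit 4) (nat_lit 4) (nat_lit 408) (nat_lit 205) (nat_lit 167)) (XT.nd (nat_lit 78) (nat_lit 0) (nat_lit 0) (XT.lf (nat_lit 0) (nat_lit 69925843210) (nat_lit 76) (nat_lit 19188722127) (nat_lit 76) (nat_lit 13768841545) (nat_lit 3) (nat_lit 4) (nat_lit 4) (nat_lit 5) (nat_lit 4) (nat_lit 4) (nat_lit 409) (nat_lit 205) (nat_lit 166)) (XT.lf (nat_lit 0) (nat_lit 76012568277) (nat_lit 76) (nat_lit 17692334800) (nat_lit 76) (nat_lit 12199607594) (nat_lit 3) (nat_lit 4) (nat_lit 4) (nat_lit 5) (nat_lit 4) (nat_lit 4) (nat_lit 410) (nat_lit 205) (nat_lit 165))))) (XT.nd (nat_lit 234) (nat_lit 152) (nat_lit 0) (XT.nd (nat_lit 78) (nat_lit 0) (nat_lit 0) (XT.lf (nat_lit 0) (nat_lit 9660938783) (nat_lit 76) (nat_lit 3359797258) (nat_lit 76) (nat_lit 3359797258) (nat_lit 9) (nat_lit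 4) (nat_lit 10) (nat_lit 5) (nat_lit 10) (nat_lit 4) (nat_lit 368) (nat_lit 206) (nat_lit 206)) (XT.nd (nat_lit 78) (nat_lit 0) (nat_lit 0) (XT.lf (nat_lit 0) (nat_lit 26538704169) (nat_lit 76) (nat_lit 3673152224) (nat_lit 76) (nat_lit 3421052212) (nat_lit 9) (nat_lit 4) (nat_lit 10) (nat_lit 5) (nat_lit 10) (nat_lit 4) (nat_lit 369) (nat_lit 206) (nat_lit 205)) (XT.lf (nat_lit 0) (nat_lit 33843790226) (nat_lit 76) (nat_lit 593058765) (nat_lit 76) (nat_lit 96201460) (nat_lit 9) (nat_lit 4) (nat_lit 10) (nat_lit 5) (nat_lit 10) (nat_lit 4) (nat_lit 370) (nat_lit 206) (nat_lit 204)))) (XT.nd (nat_lit 156) (nat_lit 0) (nat_lit 0) (XT.nd (nat_lit 78) (nat_lit 0) (nat_lit 0) (XT.lf (nat_lit 0) (nat_lit 3275786555) (nat_lit 152) (nat_lit 29620414133) (nat_lit 0) (nat_lit 2562693598) (nat_lit 7) (nat_lit 5) (nat_lit 9) (nat_lit 4) (nat_lit 7) (nat_lit 4) (nat_lit 371) (nat_lit 206) (nat_lit 203))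 (XT.lf (nat_lit 0) (nat_lit 6691020248) (nat_lit 152) (nat_lit 23969231312) (nat_lit 0) (nat_lit 5753939696) (nat_lit 7) (nat_lit 5) (nat_lit 9) (nat_lit 4) (nat_lit 7) (nat_lit 4) (nat_lit 372) (nat_lit 206) (nat_lit 202))) (XT.nd (nat_lit 78) (nat_lit 0) (nat_lit 0) (XT.lf (nat_lit 0) (nat_lit 10141835838) (nat_lit 152) (nat_lit 18271052144) (nat_lit 0) (nat_lit 8987291601) (nat_lit 7) (nat_lit 5) (nat_lit 9) (nat_lit 4) (nat_lit 7) (nat_lit 4) (nat_lit 373) (nat_lit 206) (nat_lit 201)) (XT.lf (nat_lit 0) (nat_lit 13631248602) (nat_lit 152) (nat_lit 12520897639) (nat_lit 0) (nat_lit 12265574573) (nat_lit 7) (nat_lit 5) (nat_lit 9) (nat_lit 4) (nat_lit 7) (nat_lit 4) (nat_lit 374) (nat_lit 206) (nat_lit 200))))))) (XT.nd (nat_lit 1014) (nat_lit 76) (nat_lit 0) (XT.nd (nat_lit 468) (nat_lit 152) (nat_lit 0) (XT.nd (nat_lit 234) (nat_lit 0) (nat_lit 0) (XT.nd (nat_lit 78) (nat_lit 76) (nat_lit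 0) (XT.lf (nat_lit 0) (nat_lit 17162307539) (nat_lit 152) (nat_lit 6713743388) (nat_lit 0) (nat_lit 15591653131) (nat_lit 7) (nat_lit 5) (nat_lit 9) (nat_lit 4) (nat_lit 7) (nat_lit 4) (nat_lit 375) (nat_lit 206) (nat_lit 199)) (XT.nd (nat_lit 78) (nat_lit 76) (nat_lit 0) (XT.lf (nat_lit 0) (nat_lit 20738098043) (nat_lit 152) (nat_lit 844515181) (nat_lit 0) (nat_lit 18968433557) (nat_lit 7) (nat_lit 5) (nat_lit 9) (nat_lit 4) (nat_lit 7) (nat_lit 4) (nat_lit 376) (nat_lit 206) (nat_lit 198)) (XT.lf (nat_lit 0) (nat_lit 5193254536) (nat_lit 76) (nat_lit 19218410792) (nat_lit 76) (nat_lit 17255532639) (nat_lit 6) (nat_lit 4) (nat_lit 7) (nat_lit 5) (nat_lit 7) (nat_lit 4) (nat_lit 377) (nat_lit 206) (nat_lit 197)))) (XT.nd (nat_lit 78) (nat_lit 0) (nat_lit 0) (XT.lf (nat_lit 0) (nat_lit 11321662037) (nat_lit 76) (nat_lit 16823582174) (nat_lit 76) (nat_lit 14673117937) (nat_lit 6) (nat_lit 4) (nat_lit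 7) (nat_lit 5) (nat_lit 7) (nat_lit 4) (nat_lit 378) (nat_lit 206) (nat_lit 196)) (XT.nd (nat_lit 78) (nat_lit 0) (nat_lit 0) (XT.lf (nat_lit 0) (nat_lit 17529254734) (nat_lit 76) (nat_lit 14404562750) (nat_lit 76) (nat_lit 12071976099) (nat_lit 6) (nat_lit 4) (nat_lit 7) (nat_lit 5) (nat_lit 7) (nat_lit 4) (nat_lit 379) (nat_lit 206) (nat_lit 195)) (XT.lf (nat_lit 0) (nat_lit 23821456736) (nat_lit 76) (nat_lit 11959238812) (nat_lit 76) (nat_lit 9449834285) (nat_lit 6) (nat_lit 4) (nat_lit 7) (nat_lit 5) (nat_lit 7) (nat_lit 4) (nat_lit 380) (nat_lit 206) (nat_lit 194))))) (XT.nd (nat_lit 234) (nat_lit 152) (nat_lit 0) (XT.nd (nat_lit 78) (nat_lit 0) (nat_lit 0) (XT.lf (nat_lit 0) (nat_lit 30203766083) (nat_lit 76) (nat_lit 9485473670) (nat_lit 76) (nat_lit 6804401302) (nat_lit 6) (nat_lit 4) (nat_lit 7) (nat_lit 5) (nat_lit 7) (nat_lit 4) (nat_lit 381) (nat_lit 206) (nat_lit 193)) (XT.nd (nat_lit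 78) (nat_lit 0) (nat_lit 0) (XT.lf (nat_lit 0) (nat_lit 36681759552) (nat_lit 76) (nat_lit 6981105781) (nat_lit 76) (nat_lit 4133365607) (nat_lit 6) (nat_lit 4) (nat_lit 7) (nat_lit 5) (nat_lit 7) (nat_lit 4) (nat_lit 382) (nat_lit 206) (nat_lit 192)) (XT.lf (nat_lit 0) (nat_lit 43261097525) (nat_lit 76) (nat_lit 4443946864) (nat_lit 76) (nat_lit 1434393285) (nat_lit 6) (nat_lit 4) (nat_lit 7) (nat_lit 5) (nat_lit 7) (nat_lit 4) (nat_lit 383) (nat_lit 206) (nat_lit 191)))) (XT.nd (nat_lit 156) (nat_lit 0) (nat_lit 0) (XT.nd (nat_lit 78) (nat_lit 76) (nat_lit 0) (XT.lf (nat_lit 0) (nat_lit 1269606333) (nat_lit 152) (nat_lit 589353114) (nat_lit 76) (nat_lit 48665102068) (nat_lit 5) (nat_lit 5) (nat_lit 7) (nat_lit 5) (nat_lit 6) (nat_lit 4) (nat_lit 384) (nat_lit 206) (nat_lit 190)) (XT.lf (nat_lit 0) (nat_lit 4032218427) (nat_lit 152) (nat_lit 47107692849) (nat_lit 0) (nat_lit 809714907) (nat_lit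 4) (nat_lit 5) (nat_lit 6) (nat_lit 4) (nat_lit 4) (nat_lit 4) (nat_lit 385) (nat_lit 206) (nat_lit 189))) (XT.nd (nat_lit 78) (nat_lit 0) (nat_lit 0) (XT.lf (nat_lit 0) (nat_lit 6854062401) (nat_lit 152) (nat_lit 43076832336) (nat_lit 0) (nat_lit 3487789767) (nat_lit 4) (nat_lit 5) (nat_lit 6) (nat_lit 4) (nat_lit 4) (nat_lit 4) (nat_lit 386) (nat_lit 206) (nat_lit 188)) (XT.lf (nat_lit 0) (nat_lit 9713899309) (nat_lit 152) (nat_lit 39011286940) (nat_lit 0) (nat_lit 6208045011) (nat_lit 4) (nat_lit 5) (nat_lit 6) (nat_lit 4) (nat_lit 4) (nat_lit 4) (nat_lit 387) (nat_lit 206) (nat_lit 187)))))) (XT.nd (nat_lit 468) (nat_lit 76) (nat_lit 0) (XT.nd (nat_lit 234) (nat_lit 0) (nat_lit 0) (XT.nd (nat_lit 78) (nat_lit 0) (nat_lit 0) (XT.lf (nat_lit 0) (nat_lit 12614228038) (nat_lit 152) (nat_lit 34907504241) (nat_lit 0) (nat_lit 8972857561) (nat_lit 4) (nat_lit 5) (nat_lit 6) (nat_lit 4) (nat_lit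 4) (nat_lit 4) (nat_lit 388) (nat_lit 206) (nat_lit 186)) (XT.nd (nat_lit 78) (nat_lit 0) (nat_lit 0) (XT.lf (nat_lit 0) (nat_lit 15557582857) (nat_lit 152) (nat_lit 30761898411) (nat_lit 0) (nat_lit 11784643274) (nat_lit 4) (nat_lit 5) (nat_lit 6) (nat_lit 4) (nat_lit 4) (nat_lit 4) (nat_lit 389) (nat_lit 206) (nat_lit 185)) (XT.lf (nat_lit 0) (nat_lit 18546535628) (nat_lit 152) (nat_lit 26570847076) (nat_lit 0) (nat_lit 14645859049) (nat_lit 4) (nat_lit 5) (nat_lit 6) (nat_lit 4) (nat_lit 4) (nat_lit 4) (nat_lit 390) (nat_lit 206) (nat_lit 184)))) (XT.nd (nat_lit 78) (nat_lit 0) (nat_lit 0) (XT.lf (nat_lit 0) (nat_lit 21583698057) (nat_lit 152) (nat_lit 22330688151) (nat_lit 0) (nat_lit 17559004978) (nat_lit 4) (nat_lit 5) (nat_lit 6) (nat_lit 4) (nat_lit 4) (nat_lit 4) (nat_lit 391) (nat_lit 206) (nat_lit 183)) (XT.nd (nat_lit 78) (nat_lit 0) (nat_lit 0) (XT.lf (nat_lit 0) (nat_lit 24671723977)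 (nat_lit 152) (nat_lit 18037716644) (nat_lit 0) (nat_lit 20526626528) (nat_lit 4) (nat_lit 5) (nat_lit 6) (nat_lit 4) (nat_lit 4) (nat_lit 4) (nat_lit 392) (nat_lit 206) (nat_lit 182)) (XT.lf (nat_lit 0) (nat_lit 27813311662) (nat_lit 152) (nat_lit 13688181415) (nat_lit 0) (nat_lit 23551316766) (nat_lit 4) (nat_lit 5) (nat_lit 6) (nat_lit 4) (nat_lit 4) (nat_lit 4) (nat_lit 393) (nat_lit 206) (nat_lit 181))))) (XT.nd (nat_lit 234) (nat_lit 76) (nat_lit 0) (XT.nd (nat_lit 78) (nat_lit 0) (nat_lit 0) (XT.lf (nat_lit 0) (nat_lit 31011206188) (nat_lit 152) (nat_lit 9278281898) (nat_lit 0) (nat_lit 26635718626) (nat_lit 4) (nat_lit 5) (nat_lit 6) (nat_lit 4) (nat_lit 4) (nat_lit 4) (nat_lit 394) (nat_lit 206) (nat_lit 180)) (XT.nd (nat_lit 78) (nat_lit 0) (nat_lit 0) (XT.lf (nat_lit 0) (nat_lit 34268201833) (nat_lit 152) (nat_lit 4804164783) (nat_lit 0) (nat_lit 29782527216) (nat_lit 4) (nat_lit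 5) (nat_lit 6) (nat_lit 4) (nat_lit 4) (nat_lit 4) (nat_lit 395) (nat_lit 206) (nat_lit 179)) (XT.lf (nat_lit 0) (nat_lit 37587144514) (nat_lit 152) (nat_lit 261920648) (nat_lit 0) (nat_lit 32994492174) (nat_lit 4) (nat_lit 5) (nat_lit 6) (nat_lit 4) (nat_lit 4) (nat_lit 4) (nat_lit 396) (nat_lit 206) (nat_lit 178)))) (XT.nd (nat_lit 156) (nat_lit 0) (nat_lit 0) (XT.nd (nat_lit 78) (nat_lit 0) (nat_lit 0) (XT.lf (nat_lit 0) (nat_lit 4439041139) (nat_lit 76) (nat_lit 36574563920) (nat_lit 76) (nat_lit 31878049713) (nat_lit 3) (nat_lit 4) (nat_lit 4) (nat_lit 5) (nat_lit 4) (nat_lit 4) (nat_lit 397) (nat_lit 206) (nat_lit 177)) (XT.lf (nat_lit 0) (nat_lit 9222858675) (nat_lit 76) (nat_lit 35288324923) (nat_lit 76) (nat_lit 30490973952) (nat_lit 3) (nat_lit 4) (nat_lit 4) (nat_lit 5) (nat_lit 4) (nat_lit 4) (nat_lit 398) (nat_lit 206) (nat_lit 176))) (XT.nd (nat_lit 78) (nat_lit 0) (nat_lit 0)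 (XT.lf (nat_lit 0) (nat_lit 14088499260) (nat_lit 76) (nat_lit 33991869160) (nat_lit 76) (nat_lit 29096618418) (nat_lit 3) (nat_lit 4) (nat_lit 4) (nat_lit 5) (nat_lit 4) (nat_lit 4) (nat_lit 399) (nat_lit 206) (nat_lit 175)) (XT.lf (nat_lit 0) (nat_lit 19040214425) (nat_lit 76) (nat_lit 32684063805) (nat_lit 76) (nat_lit 27693764741) (nat_lit 3) (nat_lit 4) (nat_lit 4) (nat_lit 5) (nat_lit 4) (nat_lit 4) (nat_lit 400) (nat_lit 206) (nat_lit 174))))))))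
noncomputable def xc9 : XT := (XT.nd (nat_lit 39156) (nat_lit 0) (nat_lit 0) (XT.nd (nat_lit 38142) (nat_lit 0) (nat_lit 228) (XT.nd (nat_lit 468) (nat_lit 0) (nat_lit 0) (XT.nd (nat_lit 234) (nat_lit 0) (nat_lit 0) (XT.nd (nat_lit 78) (nat_lit 0) (nat_lit 0) (XT.lf (nat_lit 0) (nat_lit 24082330910) (nat_lit 76) (nat_lit 31363766115) (nat_lit 76) (nat_lit 26281187128) (nat_lit 3) (nat_lit 4) (nat_lit 4) (nat_lit 5) (nat_lit 4) (nat_lit 4) (nat_lit 401) (nat_lit 206) (nat_lit 173)) (XT.nd (nat_lit 78) (nat_lit 0) (nat_lit 0) (XT.lf (nat_lit 0) (nat_lit 29219254449) (nat_lit 76) (nat_lit 30029822433) (nat_lit 76) (nat_lit 24857651287) (nat_lit 3) (nat_lit 4) (nat_lit 4) (nat_lit 5) (nat_lit 4) (nat_lit 4) (nat_lit 402) (nat_lit 206) (nat_lit 172)) (XT.lf (nat_lit 0) (nat_lit 34455473615) (nat_lit 76) (nat_lit 28681067176) (nat_lit 76) (nat_lit 23421913351) (nat_lit 3) (nat_lit 4) (nat_lit 4) (nat_lit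 5) (nat_lit 4) (nat_lit 4) (nat_lit 403) (nat_lit 206) (nat_lit 171)))) (XT.nd (nat_lit 78) (nat_lit 0) (nat_lit 0) (XT.lf (nat_lit 0) (nat_lit 39795563747) (nat_lit 76) (nat_lit 27316321820) (nat_lit 76) (nat_lit 21972718793) (nat_lit 3) (nat_lit 4) (nat_lit 4) (nat_lit 5) (nat_lit 4) (nat_lit 4) (nat_lit 404) (nat_lit 206) (nat_lit 170)) (XT.nd (nat_lit 78) (nat_lit 0) (nat_lit 0) (XT.lf (nat_lit 0) (nat_lit 45244190941) (nat_lit 76) (nat_lit 25934393870) (nat_lit 76) (nat_lit 20508801326) (nat_lit 3) (nat_lit 4) (nat_lit 4) (nat_lit 5) (nat_lit 4) (nat_lit 4) (nat_lit 405) (nat_lit 206) (nat_lit 169)) (XT.lf (nat_lit 0) (nat_lit 50806116134) (nat_lit 76) (nat_lit 24534075816) (nat_lit 76) (nat_lit 19028881799) (nat_lit 3) (nat_lit 4) (nat_lit 4) (nat_lit 5) (nat_lit 4) (nat_lit 4) (nat_lit 406) (nat_lit 206) (nat_lit 168))))) (XT.nd (nat_lit 234) (nat_lit 0) (nat_lit 0) (XT.nd (nat_lit 78)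 (nat_lit 0) (nat_lit 0) (XT.lf (nat_lit 0) (nat_lit 56486199262) (nat_lit 76) (nat_lit 23114144078) (nat_lit 76) (nat_lit 17531667078) (nat_lit 3) (nat_lit 4) (nat_lit 4) (nat_lit 5) (nat_lit 4) (nat_lit 4) (nat_lit 407) (nat_lit 206) (nat_lit 167)) (XT.nd (nat_lit 78) (nat_lit 0) (nat_lit 0) (XT.lf (nat_lit 0) (nat_lit 62289403503) (nat_lit 76) (nat_lit 21673357940) (nat_lit 76) (nat_lit 16015848917) (nat_lit 3) (nat_lit 4) (nat_lit 4) (nat_lit 5) (nat_lit 4) (nat_lit 4) (nat_lit 408) (nat_lit 206) (nat_lit 166)) (XT.lf (nat_lit 0) (nat_lit 68220799618) (nat_lit 76) (nat_lit 20210458462) (nat_lit 76) (nat_lit 14480102815) (nat_lit 3) (nat_lit 4) (nat_lit 4) (nat_lit 5) (nat_lit 4) (nat_lit 4) (nat_lit 409) (nat_lit 206) (nat_lit 165)))) (XT.nd (nat_lit 37284) (nat_lit 0) (nat_lit 456) (XT.nd (nat_lit 37206) (nat_lit 0) (nat_lit 456) (XT.lf (nat_lit 0) (nat_lit 74285570381) (nat_lit 76) (nat_lit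 18724167383) (nat_lit 76) (nat_lit 12923086859) (nat_lit 3) (nat_lit 4) (nat_lit 4) (nat_lit 5) (nat_lit 4) (nat_lit 4) (nat_lit 410) (nat_lit 206) (nat_lit 164)) (XT.lf (nat_lit 0) (nat_lit 2597436443) (nat_lit 76) (nat_lit 6475816322) (nat_lit 76) (nat_lit 6475816322) (nat_lit 9) (nat_lit 4) (nat_lit 10) (nat_lit 5) (nat_lit 10) (nat_lit 4) (nat_lit 366) (nat_lit 207) (nat_lit 207))) (XT.nd (nat_lit 78) (nat_lit 0) (nat_lit 0) (XT.lf (nat_lit 0) (nat_lit 12187004456) (nat_lit 76) (nat_lit 9994710593) (nat_lit 76) (nat_lit 9735047581) (nat_lit 9) (nat_lit 4) (nat_lit 10) (nat_lit 5) (nat_lit 10) (nat_lit 4) (nat_lit 367) (nat_lit 207) (nat_lit 206)) (XT.lf (nat_lit 0) (nat_lit 19256807270) (nat_lit 76) (nat_lit 7008555245) (nat_lit 76) (nat_lit 6496792220) (nat_lit 9) (nat_lit 4) (nat_lit 10) (nat_lit 5) (nat_lit 10) (nat_lit 4) (nat_lit 368) (nat_lit 207) (nat_lit 205)))))) (XT.nd (nat_lit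 468) (nat_lit 76) (nat_lit 0) (XT.nd (nat_lit 234) (nat_lit 0) (nat_lit 0) (XT.nd (nat_lit 78) (nat_lit 152) (nat_lit 0) (XT.lf (nat_lit 0) (nat_lit 26410458826) (nat_lit 76) (nat_lit 3990557338) (nat_lit 76) (nat_lit 3234037021) (nat_lit 9) (nat_lit 4) (nat_lit 10) (nat_lit 5) (nat_lit 10) (nat_lit 4) (nat_lit 369) (nat_lit 207) (nat_lit 204)) (XT.nd (nat_lit 78) (nat_lit 76) (nat_lit 0) (XT.lf (nat_lit 0) (nat_lit 54974862) (nat_lit 152) (nat_lit 882549787) (nat_lit 76) (nat_lit 33598679888) (nat_lit 8) (nat_lit 5) (nat_lit 10) (nat_lit 5) (nat_lit 9) (nat_lit 4) (nat_lit 370) (nat_lit 207) (nat_lit 203)) (XT.lf (nat_lit 0) (nat_lit 3385928957) (nat_lit 152) (nat_lit 29880531271) (nat_lit 0) (nat_lit 2196748393) (nat_lit 7) (nat_lit 5) (nat_lit 9) (nat_lit 4) (nat_lit 7) (nat_lit 4) (nat_lit 371) (nat_lit 207) (nat_lit 202)))) (XT.nd (nat_lit 78) (nat_lit 0) (nat_lit 0) (XT.lf (nat_lit 0)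 (nat_lit 6768219245) (nat_lit 152) (nat_lit 24289712557) (nat_lit 0) (nat_lit 5361574996) (nat_lit 7) (nat_lit 5) (nat_lit 9) (nat_lit 4) (nat_lit 7) (nat_lit 4) (nat_lit 372) (nat_lit 207) (nat_lit 201)) (XT.nd (nat_lit 78) (nat_lit 0) (nat_lit 0) (XT.lf (nat_lit 0) (nat_lit 10187050946) (nat_lit 152) (nat_lit 18650139319) (nat_lit 0) (nat_lit 8569276906) (nat_lit 7) (nat_lit 5) (nat_lit 9) (nat_lit 4) (nat_lit 7) (nat_lit 4) (nat_lit 373) (nat_lit 207) (nat_lit 200)) (XT.lf (nat_lit 0) (nat_lit 13645411390) (nat_lit 152) (nat_lit 12956883774) (nat_lit 0) (nat_lit 11822656970) (nat_lit 7) (nat_lit 5) (nat_lit 9) (nat_lit 4) (nat_lit 7) (nat_lit 4) (nat_lit 374) (nat_lit 207) (nat_lit 199))))) (XT.nd (nat_lit 234) (nat_lit 0) (nat_lit 0) (XT.nd (nat_lit 78) (nat_lit 76) (nat_lit 0) (XT.lf (nat_lit 0) (nat_lit 17146322445) (nat_lit 152) (nat_lit 7204971233) (nat_lit 0) (nat_lit 15124557947) (nat_lit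 7) (nat_lit 5) (nat_lit 9) (nat_lit 4) (nat_lit 7) (nat_lit 4) (nat_lit 375) (nat_lit 207) (nat_lit 198)) (XT.nd (nat_lit 78) (nat_lit 76) (nat_lit 0) (XT.lf (nat_lit 0) (nat_lit 20692843159) (nat_lit 152) (nat_lit 1389375754) (nat_lit 0) (nat_lit 18477864994) (nat_lit 7) (nat_lit 5) (nat_lit 9) (nat_lit 4) (nat_lit 7) (nat_lit 4) (nat_lit 376) (nat_lit 207) (nat_lit 197)) (XT.lf (nat_lit 0) (nat_lit 4584443252) (nat_lit 76) (nat_lit 19747697654) (nat_lit 76) (nat_lit 17345133404) (nat_lit 6) (nat_lit 4) (nat_lit 7) (nat_lit 5) (nat_lit 7) (nat_lit 4) (nat_lit 377) (nat_lit 207) (nat_lit 196)))) (XT.nd (nat_lit 156) (nat_lit 0) (nat_lit 0) (XT.nd (nat_lit 78) (nat_lit 0) (nat_lit 0) (XT.lf (nat_lit 0) (nat_lit 10661290641) (nat_lit 76) (nat_lit 17376343938) (nat_lit 76) (nat_lit 14791657276) (nat_lit 6) (nat_lit 4) (nat_lit 7) (nat_lit 5) (nat_lit 7) (nat_lit 4) (nat_lit 378) (nat_lit 207) (nat_lit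 195)) (XT.lf (nat_lit 0) (nat_lit 16818824975) (nat_lit 76) (nat_lit 14980115681) (nat_lit 76) (nat_lit 12218611142) (nat_lit 6) (nat_lit 4) (nat_lit 7) (nat_lit 5) (nat_lit 7) (nat_lit 4) (nat_lit 379) (nat_lit 207) (nat_lit 194))) (XT.nd (nat_lit 78) (nat_lit 0) (nat_lit 0) (XT.lf (nat_lit 0) (nat_lit 23062426625) (nat_lit 76) (nat_lit 12556919090) (nat_lit 76) (nat_lit 9623746710) (nat_lit 6) (nat_lit 4) (nat_lit 7) (nat_lit 5) (nat_lit 7) (nat_lit 4) (nat_lit 380) (nat_lit 207) (nat_lit 193)) (XT.lf (nat_lit 0) (nat_lit 29397551165) (nat_lit 76) (nat_lit 10104636809) (nat_lit 76) (nat_lit 7004796622) (nat_lit 6) (nat_lit 4) (nat_lit 7) (nat_lit 5) (nat_lit 7) (nat_lit 4) (nat_lit 381) (nat_lit 207) (nat_lit 192))))))) (XT.nd (nat_lit 1014) (nat_lit 76) (nat_lit 0) (XT.nd (nat_lit 468) (nat_lit 0) (nat_lit 0) (XT.nd (nat_lit 234) (nat_lit 76) (nat_lit 0) (XT.nd (nat_lit 78) (nat_lit 76) (nat_lit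 0) (XT.lf (nat_lit 0) (nat_lit 35829734141) (nat_lit 76) (nat_lit 7621126067) (nat_lit 76) (nat_lit 4359472476) (nat_lit 6) (nat_lit 4) (nat_lit 7) (nat_lit 5) (nat_lit 7) (nat_lit 4) (nat_lit 382) (nat_lit 207) (nat_lit 191)) (XT.nd (nat_lit 78) (nat_lit 76) (nat_lit 0) (XT.lf (nat_lit 0) (nat_lit 42364595907) (nat_lit 76) (nat_lit 5104216806) (nat_lit 76) (nat_lit 1685462822) (nat_lit 6) (nat_lit 4) (nat_lit 7) (nat_lit 5) (nat_lit 7) (nat_lit 4) (nat_lit 383) (nat_lit 207) (nat_lit 190)) (XT.lf (nat_lit 0) (nat_lit 999673390) (nat_lit 152) (nat_lit 1541941654) (nat_lit 76) (nat_lit 47998078404) (nat_lit 5) (nat_lit 5) (nat_lit 7) (nat_lit 5) (nat_lit 6) (nat_lit 4) (nat_lit 384) (nat_lit 207) (nat_lit 189)))) (XT.nd (nat_lit 78) (nat_lit 0) (nat_lit 0) (XT.lf (nat_lit 0) (nat_lit 3722615822) (nat_lit 152) (nat_lit 48132255019) (nat_lit 0) (nat_lit 111585895) (nat_lit 4) (nat_lit 5) (nat_lit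 6) (nat_lit 4) (nat_lit 4) (nat_lit 4) (nat_lit 385) (nat_lit 207) (nat_lit 188)) (XT.nd (nat_lit 78) (nat_lit 0) (nat_lit 0) (XT.lf (nat_lit 0) (nat_lit 6521473400) (nat_lit 152) (nat_lit 44143877724) (nat_lit 0) (nat_lit 2770861808) (nat_lit 4) (nat_lit 5) (nat_lit 6) (nat_lit 4) (nat_lit 4) (nat_lit 4) (nat_lit 386) (nat_lit 207) (nat_lit 187)) (XT.lf (nat_lit 0) (nat_lit 9358993418) (nat_lit 152) (nat_lit 40119578170) (nat_lit 0) (nat_lit 5472865648) (nat_lit 4) (nat_lit 5) (nat_lit 6) (nat_lit 4) (nat_lit 4) (nat_lit 4) (nat_lit 387) (nat_lit 207) (nat_lit 186))))) (XT.nd (nat_lit 234) (nat_lit 0) (nat_lit 0) (XT.nd (nat_lit 78) (nat_lit 0) (nat_lit 0) (XT.lf (nat_lit 0) (nat_lit 12237655265) (nat_lit 152) (nat_lit 36055839978) (nat_lit 0) (nat_lit 8219958389) (nat_lit 4) (nat_lit 5) (nat_lit 6) (nat_lit 4) (nat_lit 4) (nat_lit 4) (nat_lit 388) (nat_lit 207) (nat_lit 185)) (XT.nd (nat_lit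 78) (nat_lit 0) (nat_lit 0) (XT.lf (nat_lit 0) (nat_lit 15159974274) (nat_lit 152) (nat_lit 31949112311) (nat_lit 0) (nat_lit 11014540402) (nat_lit 4) (nat_lit 5) (nat_lit 6) (nat_lit 4) (nat_lit 4) (nat_lit 4) (nat_lit 389) (nat_lit 207) (nat_lit 184)) (XT.lf (nat_lit 0) (nat_lit 18128503930) (nat_lit 152) (nat_lit 27795806764) (nat_lit 0) (nat_lit 13859053557) (nat_lit 4) (nat_lit 5) (nat_lit 6) (nat_lit 4) (nat_lit 4) (nat_lit 4) (nat_lit 390) (nat_lit 207) (nat_lit 183)))) (XT.nd (nat_lit 156) (nat_lit 0) (nat_lit 0) (XT.nd (nat_lit 78) (nat_lit 0) (nat_lit 0) (XT.lf (nat_lit 0) (nat_lit 21145838092) (nat_lit 152) (nat_lit 23592294236) (nat_lit 0) (nat_lit 16755983349) (nat_lit 4) (nat_lit 5) (nat_lit 6) (nat_lit 4) (nat_lit 4) (nat_lit 4) (nat_lit 391) (nat_lit 207) (nat_lit 182)) (XT.lf (nat_lit 0) (nat_lit 24214613266) (nat_lit 152) (nat_lit 19334901755) (nat_lit 0) (nat_lit 19707861077)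 (nat_lit 4) (nat_lit 5) (nat_lit 6) (nat_lit 4) (nat_lit 4) (nat_lit 4) (nat_lit 392) (nat_lit 207) (nat_lit 181))) (XT.nd (nat_lit 78) (nat_lit 0) (nat_lit 0) (XT.lf (nat_lit 0) (nat_lit 27337510907) (nat_lit 152) (nat_lit 15019909269) (nat_lit 0) (nat_lit 22717266052) (nat_lit 4) (nat_lit 5) (nat_lit 6) (nat_lit 4) (nat_lit 4) (nat_lit 4) (nat_lit 393) (nat_lit 207) (nat_lit 180)) (XT.lf (nat_lit 0) (nat_lit 30517259760) (nat_lit 152) (nat_lit 10643546396) (nat_lit 0) (nat_lit 25786827850) (nat_lit 4) (nat_lit 5) (nat_lit 6) (nat_lit 4) (nat_lit 4) (nat_lit 4) (nat_lit 394) (nat_lit 207) (nat_lit 179)))))) (XT.nd (nat_lit 546) (nat_lit 0) (nat_lit 0) (XT.nd (nat_lit 234) (nat_lit 0) (nat_lit 0) (XT.nd (nat_lit 78) (nat_lit 76) (nat_lit 0) (XT.lf (nat_lit 0) (nat_lit 33756638246) (nat_lit 152) (nat_lit 6201989130) (nat_lit 0) (nat_lit 28919228613) (nat_lit 4) (nat_lit 5) (nat_lit 6) (nat_lit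 4) (nat_lit 4) (nat_lit 4) (nat_lit 395) (nat_lit 207) (nat_lit 178)) (XT.nd (nat_lit 78) (nat_lit 76) (nat_lit 0) (XT.lf (nat_lit 0) (nat_lit 37058476890) (nat_lit 152) (nat_lit 1691356499) (nat_lit 0) (nat_lit 32117205390) (nat_lit 4) (nat_lit 5) (nat_lit 6) (nat_lit 4) (nat_lit 4) (nat_lit 4) (nat_lit 396) (nat_lit 207) (nat_lit 177)) (XT.lf (nat_lit 0) (nat_lit 2949855124) (nat_lit 76) (nat_lit 37504161481) (nat_lit 76) (nat_lit 32462053216) (nat_lit 3) (nat_lit 4) (nat_lit 4) (nat_lit 5) (nat_lit 4) (nat_lit 4) (nat_lit 397) (nat_lit 207) (nat_lit 176)))) (XT.nd (nat_lit 156) (nat_lit 0) (nat_lit 0) (XT.nd (nat_lit 78) (nat_lit 0) (nat_lit 0) (XT.lf (nat_lit 0) (nat_lit 7703282770) (nat_lit 76) (nat_lit 36231898052) (nat_lit 76) (nat_lit 31091890017) (nat_lit 3) (nat_lit 4) (nat_lit 4) (nat_lit 5) (nat_lit 4) (nat_lit 4) (nat_lit 398) (nat_lit 207) (nat_lit 175)) (XT.lf (nat_lit 0) (nat_lit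 12539418608) (nat_lit 76) (nat_lit 34949010802) (nat_lit 76) (nat_lit 29713954445) (nat_lit 3) (nat_lit 4) (nat_lit 4) (nat_lit 5) (nat_lit 4) (nat_lit 4) (nat_lit 399) (nat_lit 207) (nat_lit 174))) (XT.nd (nat_lit 78) (nat_lit 0) (nat_lit 0) (XT.lf (nat_lit 0) (nat_lit 17462488386) (nat_lit 76) (nat_lit 33654378760) (nat_lit 76) (nat_lit 28327042480) (nat_lit 3) (nat_lit 4) (nat_lit 4) (nat_lit 5) (nat_lit 4) (nat_lit 4) (nat_lit 400) (nat_lit 207) (nat_lit 173)) (XT.lf (nat_lit 0) (nat_lit 22476793817) (nat_lit 76) (nat_lit 32346870695) (nat_lit 76) (nat_lit 26929942256) (nat_lit 3) (nat_lit 4) (nat_lit 4) (nat_lit 5) (nat_lit 4) (nat_lit 4) (nat_lit 401) (nat_lit 207) (nat_lit 172))))) (XT.nd (nat_lit 234) (nat_lit 0) (nat_lit 0) (XT.nd (nat_lit 78) (nat_lit 0) (nat_lit 0) (XT.lf (nat_lit 0) (nat_lit 27586716332) (nat_lit 76) (nat_lit 31025344124) (nat_lit 76) (nat_lit 25521433006) (nat_lit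 3) (nat_lit 4) (nat_lit 4) (nat_lit 5) (nat_lit 4) (nat_lit 4) (nat_lit 402) (nat_lit 207) (nat_lit 171)) (XT.nd (nat_lit 78) (nat_lit 0) (nat_lit 0) (XT.lf (nat_lit 0) (nat_lit 32796720912) (nat_lit 76) (nat_lit 29688644315) (nat_lit 76) (nat_lit 24100283995) (nat_lit 3) (nat_lit 4) (nat_lit 4) (nat_lit 5) (nat_lit 4) (nat_lit 4) (nat_lit 403) (nat_lit 207) (nat_lit 170)) (XT.lf (nat_lit 0) (nat_lit 38111359988) (nat_lit 76) (nat_lit 28335603277) (nat_lit 76) (nat_lit 22665253440) (nat_lit 3) (nat_lit 4) (nat_lit 4) (nat_lit 5) (nat_lit 4) (nat_lit 4) (nat_lit 404) (nat_lit 207) (nat_lit 169)))) (XT.nd (nat_lit 156) (nat_lit 0) (nat_lit 0) (XT.nd (nat_lit 78) (nat_lit 0) (nat_lit 0) (XT.lf (nat_lit 0) (nat_lit 43535277421) (nat_lit 76) (nat_lit 26965038743) (nat_lit 76) (nat_lit 21215087433) (nat_lit 3) (nat_lit 4) (nat_lit 4) (nat_lit 5) (nat_lit 4) (nat_lit 4) (nat_lit 405) (nat_lit 207)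 (nat_lit 168)) (XT.lf (nat_lit 0) (nat_lit 49073212554) (nat_lit 76) (nat_lit 25575753131) (nat_lit 76) (nat_lit 19748518838) (nat_lit 3) (nat_lit 4) (nat_lit 4) (nat_lit 5) (nat_lit 4) (nat_lit 4) (nat_lit 406) (nat_lit 207) (nat_lit 167))) (XT.nd (nat_lit 78) (nat_lit 0) (nat_lit 0) (XT.lf (nat_lit 0) (nat_lit 54730004361) (nat_lit 76) (nat_lit 24166532503) (nat_lit 76) (nat_lit 18264266187) (nat_lit 3) (nat_lit 4) (nat_lit 4) (nat_lit 5) (nat_lit 4) (nat_lit 4) (nat_lit 407) (nat_lit 207) (nat_lit 166)) (XT.lf (nat_lit 0) (nat_lit 60510595670) (nat_lit 76) (nat_lit 22736145500) (nat_lit 76) (nat_lit 16761032560) (nat_lit 3) (nat_lit 4) (nat_lit 4) (nat_lit 5) (nat_lit 4) (nat_lit 4) (nat_lit 408) (nat_lit 207) (nat_lit 165))))))))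
noncomputable def xc10 : XT := (XT.nd (nat_lit 39000) (nat_lit 0) (nat_lit 0) (XT.nd (nat_lit 37986) (nat_lit 0) (nat_lit 76) (XT.nd (nat_lit 37440) (nat_lit 0) (nat_lit 304) (XT.nd (nat_lit 37206) (nat_lit 0) (nat_lit 456) (XT.nd (nat_lit 78) (nat_lit 0) (nat_lit 0) (XT.lf (nat_lit 0) (nat_lit 66420037481) (nat_lit 76) (nat_lit 21283342270) (nat_lit 76) (nat_lit 15237504452) (nat_lit 3) (nat_lit 4) (nat_lit 4) (nat_lit 5) (nat_lit 4) (nat_lit 4) (nat_lit 409) (nat_lit 207) (nat_lit 164)) (XT.nd (nat_lit 37050) (nat_lit 0) (nat_lit 532) (XT.lf (nat_lit 0) (nat_lit 72463493387) (nat_lit 76) (nat_lit 19806853373) (nat_lit 76) (nat_lit 13692350626) (nat_lit 3) (nat_lit 4) (nat_lit 4) (nat_lit 5) (nat_lit 4) (nat_lit 4) (nat_lit 410) (nat_lit 207) (nat_lit 163)) (XT.lf (nat_lit 0) (nat_lit 5297279914) (nat_lit 152) (nat_lit 4172812561) (nat_lit 0) (nat_lit 5297279914) (nat_lit 10) (nat_lit 5) (nat_lit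 12) (nat_lit 4) (nat_lit 10) (nat_lit 4) (nat_lit 364) (nat_lit 208) (nat_lit 208)))) (XT.nd (nat_lit 78) (nat_lit 76) (nat_lit 0) (XT.lf (nat_lit 0) (nat_lit 14440249411) (nat_lit 152) (nat_lit 1692022501) (nat_lit 0) (nat_lit 14172796508) (nat_lit 10) (nat_lit 5) (nat_lit 12) (nat_lit 4) (nat_lit 10) (nat_lit 4) (nat_lit 365) (nat_lit 208) (nat_lit 207)) (XT.nd (nat_lit 78) (nat_lit 0) (nat_lit 0) (XT.lf (nat_lit 0) (nat_lit 5127850481) (nat_lit 76) (nat_lit 13249262196) (nat_lit 76) (nat_lit 12722146281) (nat_lit 9) (nat_lit 4) (nat_lit 10) (nat_lit 5) (nat_lit 10) (nat_lit 4) (nat_lit 366) (nat_lit 208) (nat_lit 206)) (XT.lf (nat_lit 0) (nat_lit 12054911754) (nat_lit 76) (nat_lit 10321637861) (nat_lit 76) (nat_lit 9542421934) (nat_lit 9) (nat_lit 4) (nat_lit 10) (nat_lit 5) (nat_lit 10) (nat_lit 4) (nat_lit 367) (nat_lit 208) (nat_lit 205))))) (XT.nd (nat_lit 234) (nat_lit 76) (nat_lit 0)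 (XT.nd (nat_lit 78) (nat_lit 76) (nat_lit 0) (XT.lf (nat_lit 0) (nat_lit 19061539522) (nat_lit 76) (nat_lit 7363926898) (nat_lit 76) (nat_lit 6339953678) (nat_lit 9) (nat_lit 4) (nat_lit 10) (nat_lit 5) (nat_lit 10) (nat_lit 4) (nat_lit 368) (nat_lit 208) (nat_lit 204)) (XT.nd (nat_lit 78) (nat_lit 76) (nat_lit 0) (XT.lf (nat_lit 0) (nat_lit 26153856083) (nat_lit 76) (nat_lit 4373544899) (nat_lit 76) (nat_lit 3111943239) (nat_lit 9) (nat_lit 4) (nat_lit 10) (nat_lit 5) (nat_lit 10) (nat_lit 4) (nat_lit 369) (nat_lit 208) (nat_lit 203)) (XT.lf (nat_lit 0) (nat_lit 141611624) (nat_lit 152) (nat_lit 1204837286) (nat_lit 76) (nat_lit 33195016981) (nat_lit 8) (nat_lit 5) (nat_lit 10) (nat_lit 5) (nat_lit 9) (nat_lit 4) (nat_lit 370) (nat_lit 208) (nat_lit 202)))) (XT.nd (nat_lit 156) (nat_lit 0) (nat_lit 0) (XT.nd (nat_lit 78) (nat_lit 0) (nat_lit 0) (XT.lf (nat_lit 0) (nat_lit 3432500518) (nat_lit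 152) (nat_lit 30270991060) (nat_lit 0) (nat_lit 1766193257) (nat_lit 7) (nat_lit 5) (nat_lit 9) (nat_lit 4) (nat_lit 7) (nat_lit 4) (nat_lit 371) (nat_lit 208) (nat_lit 201)) (XT.lf (nat_lit 0) (nat_lit 6782806917) (nat_lit 152) (nat_lit 24738778276) (nat_lit 0) (nat_lit 4905369864) (nat_lit 7) (nat_lit 5) (nat_lit 9) (nat_lit 4) (nat_lit 7) (nat_lit 4) (nat_lit 372) (nat_lit 208) (nat_lit 200))) (XT.nd (nat_lit 78) (nat_lit 0) (nat_lit 0) (XT.lf (nat_lit 0) (nat_lit 10170586299) (nat_lit 152) (nat_lit 19156103999) (nat_lit 0) (nat_lit 8088168866) (nat_lit 7) (nat_lit 5) (nat_lit 9) (nat_lit 4) (nat_lit 7) (nat_lit 4) (nat_lit 373) (nat_lit 208) (nat_lit 199)) (XT.lf (nat_lit 0) (nat_lit 13598798860) (nat_lit 152) (nat_lit 13518090164) (nat_lit 0) (nat_lit 11317371350) (nat_lit 7) (nat_lit 5) (nat_lit 9) (nat_lit 4) (nat_lit 7) (nat_lit 4) (nat_lit 374) (nat_lit 208) (nat_lit 198)))))) (XT.nd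 (nat_lit 468) (nat_lit 152) (nat_lit 0) (XT.nd (nat_lit 234) (nat_lit 0) (nat_lit 0) (XT.nd (nat_lit 78) (nat_lit 76) (nat_lit 0) (XT.lf (nat_lit 0) (nat_lit 17070440125) (nat_lit 152) (nat_lit 7819810351) (nat_lit 0) (nat_lit 14595798947) (nat_lit 7) (nat_lit 5) (nat_lit 9) (nat_lit 4) (nat_lit 7) (nat_lit 4) (nat_lit 375) (nat_lit 208) (nat_lit 197)) (XT.nd (nat_lit 78) (nat_lit 76) (nat_lit 0) (XT.lf (nat_lit 0) (nat_lit 20588543568) (nat_lit 152) (nat_lit 2056285481) (nat_lit 0) (nat_lit 17926316305) (nat_lit 7) (nat_lit 5) (nat_lit 9) (nat_lit 4) (nat_lit 7) (nat_lit 4) (nat_lit 376) (nat_lit 208) (nat_lit 196)) (XT.lf (nat_lit 0) (nat_lit 3852700601) (nat_lit 76) (nat_lit 20340517173) (nat_lit 76) (nat_lit 17496167498) (nat_lit 6) (nat_lit 4) (nat_lit 7) (nat_lit 5) (nat_lit 7) (nat_lit 4) (nat_lit 377) (nat_lit 208) (nat_lit 195)))) (XT.nd (nat_lit 78) (nat_lit 0) (nat_lit 0) (XT.lf (nat_lit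 0) (nat_lit 9879489627) (nat_lit 76) (nat_lit 17991954624) (nat_lit 76) (nat_lit 14970787073) (nat_lit 6) (nat_lit 4) (nat_lit 7) (nat_lit 5) (nat_lit 7) (nat_lit 4) (nat_lit 378) (nat_lit 208) (nat_lit 194)) (XT.nd (nat_lit 78) (nat_lit 0) (nat_lit 0) (XT.lf (nat_lit 0) (nat_lit 15988423609) (nat_lit 76) (nat_lit 15617853714) (nat_lit 76) (nat_lit 12425018322) (nat_lit 6) (nat_lit 4) (nat_lit 7) (nat_lit 5) (nat_lit 7) (nat_lit 4) (nat_lit 379) (nat_lit 208) (nat_lit 193)) (XT.lf (nat_lit 0) (nat_lit 22184840452) (nat_lit 76) (nat_lit 13216139984) (nat_lit 76) (nat_lit 9856636785) (nat_lit 6) (nat_lit 4) (nat_lit 7) (nat_lit 5) (nat_lit 7) (nat_lit 4) (nat_lit 380) (nat_lit 208) (nat_lit 192))))) (XT.nd (nat_lit 234) (nat_lit 152) (nat_lit 0) (XT.nd (nat_lit 78) (nat_lit 0) (nat_lit 0) (XT.lf (nat_lit 0) (nat_lit 28474154499) (nat_lit 76) (nat_lit 10784714849) (nat_lit 76) (nat_lit 7263398246)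 (nat_lit 6) (nat_lit 4) (nat_lit 7) (nat_lit 5) (nat_lit 7) (nat_lit 4) (nat_lit 381) (nat_lit 208) (nat_lit 191)) (XT.nd (nat_lit 78) (nat_lit 0) (nat_lit 0) (XT.lf (nat_lit 0) (nat_lit 34861861268) (nat_lit 76) (nat_lit 8321453764) (nat_lit 76) (nat_lit 4643036768) (nat_lit 6) (nat_lit 4) (nat_lit 7) (nat_lit 5) (nat_lit 7) (nat_lit 4) (nat_lit 382) (nat_lit 208) (nat_lit 190)) (XT.lf (nat_lit 0) (nat_lit 41353542251) (nat_lit 76) (nat_lit 5824204365) (nat_lit 76) (nat_lit 1993262715) (nat_lit 6) (nat_lit 4) (nat_lit 7) (nat_lit 5) (nat_lit 7) (nat_lit 4) (nat_lit 383) (nat_lit 208) (nat_lit 189)))) (XT.nd (nat_lit 156) (nat_lit 0) (nat_lit 0) (XT.nd (nat_lit 78) (nat_lit 76) (nat_lit 0) (XT.lf (nat_lit 0) (nat_lit 674809222) (nat_lit 152) (nat_lit 2609161115) (nat_lit 76) (nat_lit 47273246317) (nat_lit 5) (nat_lit 5) (nat_lit 7) (nat_lit 5) (nat_lit 6) (nat_lit 4) (nat_lit 384) (nat_lit 208)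 (nat_lit 188)) (XT.lf (nat_lit 0) (nat_lit 2704894120) (nat_lit 76) (nat_lit 658498525) (nat_lit 152) (nat_lit 48621626351) (nat_lit 4) (nat_lit 5) (nat_lit 5) (nat_lit 5) (nat_lit 6) (nat_lit 4) (nat_lit 385) (nat_lit 208) (nat_lit 187))) (XT.nd (nat_lit 78) (nat_lit 0) (nat_lit 0) (XT.lf (nat_lit 0) (nat_lit 6133603443) (nat_lit 152) (nat_lit 45326663533) (nat_lit 0) (nat_lit 1995375660) (nat_lit 4) (nat_lit 5) (nat_lit 6) (nat_lit 4) (nat_lit 4) (nat_lit 4) (nat_lit 386) (nat_lit 208) (nat_lit 186)) (XT.lf (nat_lit 0) (nat_lit 8949456578) (nat_lit 152) (nat_lit 41342408486) (nat_lit 0) (nat_lit 4679659690) (nat_lit 4) (nat_lit 5) (nat_lit 6) (nat_lit 4) (nat_lit 4) (nat_lit 4) (nat_lit 387) (nat_lit 208) (nat_lit 185))))))) (XT.nd (nat_lit 1014) (nat_lit 0) (nat_lit 0) (XT.nd (nat_lit 468) (nat_lit 76) (nat_lit 0) (XT.nd (nat_lit 234) (nat_lit 0) (nat_lit 0) (XT.nd (nat_lit 78) (nat_lit 0)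 (nat_lit 0) (XT.lf (nat_lit 0) (nat_lit 11807082616) (nat_lit 152) (nat_lit 37317548457) (nat_lit 0) (nat_lit 7409548732) (nat_lit 4) (nat_lit 5) (nat_lit 6) (nat_lit 4) (nat_lit 4) (nat_lit 4) (nat_lit 388) (nat_lit 208) (nat_lit 184)) (XT.nd (nat_lit 78) (nat_lit 0) (nat_lit 0) (XT.lf (nat_lit 0) (nat_lit 14708978510) (nat_lit 152) (nat_lit 33248566578) (nat_lit 0) (nat_lit 10187428125) (nat_lit 4) (nat_lit 5) (nat_lit 6) (nat_lit 4) (nat_lit 4) (nat_lit 4) (nat_lit 389) (nat_lit 208) (nat_lit 183)) (XT.lf (nat_lit 0) (nat_lit 17657679898) (nat_lit 152) (nat_lit 29131907428) (nat_lit 0) (nat_lit 13015725143) (nat_lit 4) (nat_lit 5) (nat_lit 6) (nat_lit 4) (nat_lit 4) (nat_lit 4) (nat_lit 390) (nat_lit 208) (nat_lit 182)))) (XT.nd (nat_lit 78) (nat_lit 0) (nat_lit 0) (XT.lf (nat_lit 0) (nat_lit 20655763315) (nat_lit 152) (nat_lit 24963973926) (nat_lit 0) (nat_lit 15896911114) (nat_lit 4) (nat_lit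 5) (nat_lit 6) (nat_lit 4) (nat_lit 4) (nat_lit 4) (nat_lit 391) (nat_lit 208) (nat_lit 181)) (XT.nd (nat_lit 78) (nat_lit 0) (nat_lit 0) (XT.lf (nat_lit 0) (nat_lit 23705848446) (nat_lit 152) (nat_lit 20741124188) (nat_lit 0) (nat_lit 18833503578) (nat_lit 4) (nat_lit 5) (nat_lit 6) (nat_lit 4) (nat_lit 4) (nat_lit 4) (nat_lit 392) (nat_lit 208) (nat_lit 180)) (XT.lf (nat_lit 0) (nat_lit 26810600413) (nat_lit 152) (nat_lit 16459668347) (nat_lit 0) (nat_lit 21828068491) (nat_lit 4) (nat_lit 5) (nat_lit 6) (nat_lit 4) (nat_lit 4) (nat_lit 4) (nat_lit 393) (nat_lit 208) (nat_lit 179))))) (XT.nd (nat_lit 234) (nat_lit 76) (nat_lit 0) (XT.nd (nat_lit 78) (nat_lit 0) (nat_lit 0) (XT.lf (nat_lit 0) (nat_lit 29972732107) (nat_lit 152) (nat_lit 12115865323) (nat_lit 0) (nat_lit 24883222462) (nat_lit 4) (nat_lit 5) (nat_lit 6) (nat_lit 4) (nat_lit 4) (nat_lit 4) (nat_lit 394) (nat_lit 208) (nat_lit 178))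 (XT.nd (nat_lit 78) (nat_lit 0) (nat_lit 0) (XT.lf (nat_lit 0) (nat_lit 33195006555) (nat_lit 152) (nat_lit 7705919561) (nat_lit 0) (nat_lit 28001635043) (nat_lit 4) (nat_lit 5) (nat_lit 6) (nat_lit 4) (nat_lit 4) (nat_lit 4) (nat_lit 395) (nat_lit 208) (nat_lit 177)) (XT.lf (nat_lit 0) (nat_lit 36480239337) (nat_lit 152) (nat_lit 3225977710) (nat_lit 0) (nat_lit 31186031061) (nat_lit 4) (nat_lit 5) (nat_lit 6) (nat_lit 4) (nat_lit 4) (nat_lit 4) (nat_lit 396) (nat_lit 208) (nat_lit 176)))) (XT.nd (nat_lit 156) (nat_lit 0) (nat_lit 0) (XT.nd (nat_lit 78) (nat_lit 0) (nat_lit 0) (XT.lf (nat_lit 0) (nat_lit 1354302052) (nat_lit 76) (nat_lit 38490017372) (nat_lit 76) (nat_lit 33097909325) (nat_lit 3) (nat_lit 4) (nat_lit 4) (nat_lit 5) (nat_lit 4) (nat_lit 4) (nat_lit 397) (nat_lit 208) (nat_lit 175)) (XT.lf (nat_lit 0) (nat_lit 6078224951) (nat_lit 76) (nat_lit 37231322456) (nat_lit 76) (nat_lit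 31744166088) (nat_lit 3) (nat_lit 4) (nat_lit 4) (nat_lit 5) (nat_lit 4) (nat_lit 4) (nat_lit 398) (nat_lit 208) (nat_lit 174))) (XT.nd (nat_lit 78) (nat_lit 0) (nat_lit 0) (XT.lf (nat_lit 0) (nat_lit 10885715402) (nat_lit 76) (nat_lit 35961608519) (nat_lit 76) (nat_lit 30382172227) (nat_lit 3) (nat_lit 4) (nat_lit 4) (nat_lit 5) (nat_lit 4) (nat_lit 4) (nat_lit 399) (nat_lit 208) (nat_lit 173)) (XT.lf (nat_lit 0) (nat_lit 15780974125) (nat_lit 76) (nat_lit 34679766102) (nat_lit 76) (nat_lit 29010737651) (nat_lit 3) (nat_lit 4) (nat_lit 4) (nat_lit 5) (nat_lit 4) (nat_lit 4) (nat_lit 400) (nat_lit 208) (nat_lit 172)))))) (XT.nd (nat_lit 468) (nat_lit 0) (nat_lit 0) (XT.nd (nat_lit 234) (nat_lit 0) (nat_lit 0) (XT.nd (nat_lit 78) (nat_lit 0) (nat_lit 0) (XT.lf (nat_lit 0) (nat_lit 20768278532) (nat_lit 76) (nat_lit 33384675148) (nat_lit 76) (nat_lit 27628664018) (nat_lit 3) (nat_lit 4) (nat_lit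 4) (nat_lit 5) (nat_lit 4) (nat_lit 4) (nat_lit 401) (nat_lit 208) (nat_lit 171)) (XT.nd (nat_lit 78) (nat_lit 0) (nat_lit 0) (XT.lf (nat_lit 0) (nat_lit 25851986461) (nat_lit 76) (nat_lit 32075204025) (nat_lit 76) (nat_lit 26234743693) (nat_lit 3) (nat_lit 4) (nat_lit 4) (nat_lit 5) (nat_lit 4) (nat_lit 4) (nat_lit 402) (nat_lit 208) (nat_lit 170)) (XT.lf (nat_lit 0) (nat_lit 31036539986) (nat_lit 76) (nat_lit 30750208534) (nat_lit 76) (nat_lit 24827758685) (nat_lit 3) (nat_lit 4) (nat_lit 4) (nat_lit 5) (nat_lit 4) (nat_lit 4) (nat_lit 403) (nat_lit 208) (nat_lit 169)))) (XT.nd (nat_lit 78) (nat_lit 0) (nat_lit 0) (XT.lf (nat_lit 0) (nat_lit 36326469301) (nat_lit 76) (nat_lit 29408530913) (nat_lit 76) (nat_lit 23406479591) (nat_lit 3) (nat_lit 4) (nat_lit 4) (nat_lit 5) (nat_lit 4) (nat_lit 4) (nat_lit 404) (nat_lit 208) (nat_lit 168)) (XT.nd (nat_lit 78) (nat_lit 0) (nat_lit 0) (XT.lf (nat_lit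 0) (nat_lit 41726396673) (nat_lit 76) (nat_lit 28048998821) (nat_lit 76) (nat_lit 21969664516) (nat_lit 3) (nat_lit 4) (nat_lit 4) (nat_lit 5) (nat_lit 4) (nat_lit 4) (nat_lit 405) (nat_lit 208) (nat_lit 167)) (XT.lf (nat_lit 0) (nat_lit 47241040486) (nat_lit 76) (nat_lit 26670424318) (nat_lit 76) (nat_lit 20516057990) (nat_lit 3) (nat_lit 4) (nat_lit 4) (nat_lit 5) (nat_lit 4) (nat_lit 4) (nat_lit 406) (nat_lit 208) (nat_lit 166))))) (XT.nd (nat_lit 234) (nat_lit 0) (nat_lit 0) (XT.nd (nat_lit 78) (nat_lit 0) (nat_lit 0) (XT.lf (nat_lit 0) (nat_lit 52875219361) (nat_lit 76) (nat_lit 25271602825) (nat_lit 76) (nat_lit 19044389873) (nat_lit 3) (nat_lit 4) (nat_lit 4) (nat_lit 5) (nat_lit 4) (nat_lit 4) (nat_lit 407) (nat_lit 208) (nat_lit 165)) (XT.nd (nat_lit 78) (nat_lit 0) (nat_lit 0) (XT.lf (nat_lit 0) (nat_lit 58633856366) (nat_lit 76) (nat_lit 23851312069) (nat_lit 76) (nat_lit 17553374240)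 (nat_lit 3) (nat_lit 4) (nat_lit 4) (nat_lit 5) (nat_lit 4) (nat_lit 4) (nat_lit 408) (nat_lit 208) (nat_lit 164)) (XT.lf (nat_lit 0) (nat_lit 64521983320) (nat_lit 76) (nat_lit 22408311022) (nat_lit 76) (nat_lit 16041708263) (nat_lit 3) (nat_lit 4) (nat_lit 4) (nat_lit 5) (nat_lit 4) (nat_lit 4) (nat_lit 409) (nat_lit 208) (nat_lit 163)))) (XT.nd (nat_lit 36972) (nat_lit 0) (nat_lit 532) (XT.nd (nat_lit 36894) (nat_lit 0) (nat_lit 532) (XT.lf (nat_lit 0) (nat_lit 70544745189) (nat_lit 76) (nat_lit 20941338807) (nat_lit 76) (nat_lit 14508071068) (nat_lit 3) (nat_lit 4) (nat_lit 4) (nat_lit 5) (nat_lit 4) (nat_lit 4) (nat_lit 410) (nat_lit 208) (nat_lit 162)) (XT.lf (nat_lit 0) (nat_lit 1664650340) (nat_lit 152) (nat_lit 10703846875) (nat_lit 0) (nat_lit 1664650340) (nat_lit 10) (nat_lit 5) (nat_lit 12) (nat_lit 4) (nat_lit 10) (nat_lit 4) (nat_lit 362) (nat_lit 209) (nat_lit 209))) (XT.nd (nat_lit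 78) (nat_lit 0) (nat_lit 0) (XT.lf (nat_lit 0) (nat_lit 7062868072) (nat_lit 152) (nat_lit 14938834046) (nat_lit 0) (nat_lit 6787391582) (nat_lit 10) (nat_lit 5) (nat_lit 12) (nat_lit 4) (nat_lit 10) (nat_lit 4) (nat_lit 363) (nat_lit 209) (nat_lit 208)) (XT.lf (nat_lit 0) (nat_lit 10832748776) (nat_lit 152) (nat_lit 8413311117) (nat_lit 0) (nat_lit 10289819383) (nat_lit 10) (nat_lit 5) (nat_lit 12) (nat_lit 4) (nat_lit 10) (nat_lit 4) (nat_lit 364) (nat_lit 209) (nat_lit 207))))))))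
noncomputable def xc11 : XT := (XT.nd (nat_lit 2028) (nat_lit 76) (nat_lit 0) (XT.nd (nat_lit 1014) (nat_lit 152) (nat_lit 0) (XT.nd (nat_lit 468) (nat_lit 152) (nat_lit 0) (XT.nd (nat_lit 234) (nat_lit 76) (nat_lit 0) (XT.nd (nat_lit 78) (nat_lit 76) (nat_lit 0) (XT.lf (nat_lit 0) (nat_lit 14642236862) (nat_lit 152) (nat_lit 1825423052) (nat_lit 0) (nat_lit 13839644457) (nat_lit 10) (nat_lit 5) (nat_lit 12) (nat_lit 4) (nat_lit 10) (nat_lit 4) (nat_lit 365) (nat_lit 209) (nat_lit 206)) (XT.nd (nat_lit 78) (nat_lit 0) (nat_lit 0) (XT.lf (nat_lit 0) (nat_lit 4926724701) (nat_lit 76) (nat_lit 13615294999) (nat_lit 76) (nat_lit 12560602582) (nat_lit 9) (nat_lit 4) (nat_lit 10) (nat_lit 5) (nat_lit 10) (nat_lit 4) (nat_lit 366) (nat_lit 209) (nat_lit 205)) (XT.lf (nat_lit 0) (nat_lit 11790610928) (nat_lit 76) (nat_lit 10716115049) (nat_lit 76) (nat_lit 9416665339) (nat_lit 9) (nat_lit 4) (nat_lit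 10) (nat_lit 5) (nat_lit 10) (nat_lit 4) (nat_lit 367) (nat_lit 209) (nat_lit 204)))) (XT.nd (nat_lit 78) (nat_lit 76) (nat_lit 0) (XT.lf (nat_lit 0) (nat_lit 18735903701) (nat_lit 76) (nat_lit 7786019994) (nat_lit 76) (nat_lit 6248941844) (nat_lit 9) (nat_lit 4) (nat_lit 10) (nat_lit 5) (nat_lit 10) (nat_lit 4) (nat_lit 368) (nat_lit 209) (nat_lit 203)) (XT.nd (nat_lit 78) (nat_lit 76) (nat_lit 0) (XT.lf (nat_lit 0) (nat_lit 25768671722) (nat_lit 76) (nat_lit 4822449557) (nat_lit 76) (nat_lit 3054664183) (nat_lit 9) (nat_lit 4) (nat_lit 10) (nat_lit 5) (nat_lit 10) (nat_lit 4) (nat_lit 369) (nat_lit 209) (nat_lit 202)) (XT.lf (nat_lit 0) (nat_lit 165661765) (nat_lit 152) (nat_lit 1655479584) (nat_lit 76) (nat_lit 32727725504) (nat_lit 8) (nat_lit 5) (nat_lit 10) (nat_lit 5) (nat_lit 9) (nat_lit 4) (nat_lit 370) (nat_lit 209) (nat_lit 201))))) (XT.nd (nat_lit 234) (nat_lit 76) (nat_lit 0) (XT.nd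 (nat_lit 78) (nat_lit 0) (nat_lit 0) (XT.lf (nat_lit 0) (nat_lit 3415541932) (nat_lit 152) (nat_lit 30792134681) (nat_lit 0) (nat_lit 1270651976) (nat_lit 7) (nat_lit 5) (nat_lit 9) (nat_lit 4) (nat_lit 7) (nat_lit 4) (nat_lit 371) (nat_lit 209) (nat_lit 200)) (XT.nd (nat_lit 78) (nat_lit 0) (nat_lit 0) (XT.lf (nat_lit 0) (nat_lit 6734796011) (nat_lit 152) (nat_lit 25316820858) (nat_lit 0) (nat_lit 4384925675) (nat_lit 7) (nat_lit 5) (nat_lit 9) (nat_lit 4) (nat_lit 7) (nat_lit 4) (nat_lit 372) (nat_lit 209) (nat_lit 199)) (XT.lf (nat_lit 0) (nat_lit 10092427509) (nat_lit 152) (nat_lit 19789388290) (nat_lit 0) (nat_lit 7543547097) (nat_lit 7) (nat_lit 5) (nat_lit 9) (nat_lit 4) (nat_lit 7) (nat_lit 4) (nat_lit 373) (nat_lit 209) (nat_lit 198)))) (XT.nd (nat_lit 156) (nat_lit 76) (nat_lit 0) (XT.nd (nat_lit 78) (nat_lit 0) (nat_lit 0) (XT.lf (nat_lit 0) (nat_lit 13491370281) (nat_lit 152) (nat_lit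 14205007183) (nat_lit 0) (nat_lit 10749276201) (nat_lit 7) (nat_lit 5) (nat_lit 9) (nat_lit 4) (nat_lit 7) (nat_lit 4) (nat_lit 374) (nat_lit 209) (nat_lit 197)) (XT.lf (nat_lit 0) (nat_lit 16934594275) (nat_lit 152) (nat_lit 8558797979) (nat_lit 0) (nat_lit 14004914110) (nat_lit 7) (nat_lit 5) (nat_lit 9) (nat_lit 4) (nat_lit 7) (nat_lit 4) (nat_lit 375) (nat_lit 209) (nat_lit 196))) (XT.nd (nat_lit 78) (nat_lit 76) (nat_lit 0) (XT.lf (nat_lit 0) (nat_lit 20425108134) (nat_lit 152) (nat_lit 2845827099) (nat_lit 0) (nat_lit 17313305556) (nat_lit 7) (nat_lit 5) (nat_lit 9) (nat_lit 4) (nat_lit 7) (nat_lit 4) (nat_lit 376) (nat_lit 209) (nat_lit 195)) (XT.lf (nat_lit 0) (nat_lit 2997387194) (nat_lit 76) (nat_lit 20997387347) (nat_lit 76) (nat_lit 17708766893) (nat_lit 6) (nat_lit 4) (nat_lit 7) (nat_lit 5) (nat_lit 7) (nat_lit 4) (nat_lit 377) (nat_lit 209) (nat_lit 194)))))) (XT.nd (nat_lit 468)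 (nat_lit 152) (nat_lit 0) (XT.nd (nat_lit 234) (nat_lit 0) (nat_lit 0) (XT.nd (nat_lit 78) (nat_lit 0) (nat_lit 0) (XT.lf (nat_lit 0) (nat_lit 8975575868) (nat_lit 76) (nat_lit 18670952145) (nat_lit 76) (nat_lit 15210663850) (nat_lit 6) (nat_lit 4) (nat_lit 7) (nat_lit 5) (nat_lit 7) (nat_lit 4) (nat_lit 378) (nat_lit 209) (nat_lit 193)) (XT.nd (nat_lit 78) (nat_lit 0) (nat_lit 0) (XT.lf (nat_lit 0) (nat_lit 15037325043) (nat_lit 76) (nat_lit 16318334096) (nat_lit 76) (nat_lit 12691377994) (nat_lit 6) (nat_lit 4) (nat_lit 7) (nat_lit 5) (nat_lit 7) (nat_lit 4) (nat_lit 379) (nat_lit 209) (nat_lit 192)) (XT.lf (nat_lit 0) (nat_lit 21187931393) (nat_lit 76) (nat_lit 13937477512) (nat_lit 76) (nat_lit 10148708006) (nat_lit 6) (nat_lit 4) (nat_lit 7) (nat_lit 5) (nat_lit 7) (nat_lit 4) (nat_lit 380) (nat_lit 209) (nat_lit 191)))) (XT.nd (nat_lit 78) (nat_lit 0) (nat_lit 0) (XT.lf (nat_lit 0) (nat_lit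 27432769233) (nat_lit 76) (nat_lit 11526302034) (nat_lit 76) (nat_lit 7580432135) (nat_lit 6) (nat_lit 4) (nat_lit 7) (nat_lit 5) (nat_lit 7) (nat_lit 4) (nat_lit 381) (nat_lit 209) (nat_lit 190)) (XT.nd (nat_lit 78) (nat_lit 0) (nat_lit 0) (XT.lf (nat_lit 0) (nat_lit 33777295220) (nat_lit 76) (nat_lit 9082700811) (nat_lit 76) (nat_lit 4984306258) (nat_lit 6) (nat_lit 4) (nat_lit 7) (nat_lit 5) (nat_lit 7) (nat_lit 4) (nat_lit 382) (nat_lit 209) (nat_lit 189)) (XT.lf (nat_lit 0) (nat_lit 40227053112) (nat_lit 76) (nat_lit 6604538655) (nat_lit 76) (nat_lit 2358061914) (nat_lit 6) (nat_lit 4) (nat_lit 7) (nat_lit 5) (nat_lit 7) (nat_lit 4) (nat_lit 383) (nat_lit 209) (nat_lit 188))))) (XT.nd (nat_lit 234) (nat_lit 0) (nat_lit 0) (XT.nd (nat_lit 78) (nat_lit 76) (nat_lit 0) (XT.lf (nat_lit 0) (nat_lit 294729967) (nat_lit 152) (nat_lit 3791944020) (nat_lit 76) (nat_lit 46489972459) (nat_lit 5) (nat_lit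 5) (nat_lit 7) (nat_lit 5) (nat_lit 6) (nat_lit 4) (nat_lit 384) (nat_lit 209) (nat_lit 187)) (XT.nd (nat_lit 78) (nat_lit 0) (nat_lit 0) (XT.lf (nat_lit 0) (nat_lit 1457818919) (nat_lit 76) (nat_lit 1491760606) (nat_lit 152) (nat_lit 49055889320) (nat_lit 4) (nat_lit 5) (nat_lit 5) (nat_lit 5) (nat_lit 6) (nat_lit 4) (nat_lit 385) (nat_lit 209) (nat_lit 186)) (XT.lf (nat_lit 0) (nat_lit 5690113614) (nat_lit 152) (nat_lit 46626223266) (nat_lit 0) (nat_lit 1160653714) (nat_lit 4) (nat_lit 5) (nat_lit 6) (nat_lit 4) (nat_lit 4) (nat_lit 4) (nat_lit 386) (nat_lit 209) (nat_lit 185)))) (XT.nd (nat_lit 156) (nat_lit 0) (nat_lit 0) (XT.nd (nat_lit 78) (nat_lit 0) (nat_lit 0) (XT.lf (nat_lit 0) (nat_lit 8484930941) (nat_lit 152) (nat_lit 42680846381) (nat_lit 0) (nat_lit 3827734044) (nat_lit 4) (nat_lit 5) (nat_lit 6) (nat_lit 4) (nat_lit 4) (nat_lit 4) (nat_lit 387) (nat_lit 209) (nat_lit 184)) (XT.lf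 (nat_lit 0) (nat_lit 11322133863) (nat_lit 152) (nat_lit 38693732141) (nat_lit 0) (nat_lit 6540920466) (nat_lit 4) (nat_lit 5) (nat_lit 6) (nat_lit 4) (nat_lit 4) (nat_lit 4) (nat_lit 388) (nat_lit 209) (nat_lit 183))) (XT.nd (nat_lit 78) (nat_lit 0) (nat_lit 0) (XT.lf (nat_lit 0) (nat_lit 14204201490) (nat_lit 152) (nat_lit 34661396658) (nat_lit 0) (nat_lit 9302583722) (nat_lit 4) (nat_lit 5) (nat_lit 6) (nat_lit 4) (nat_lit 4) (nat_lit 4) (nat_lit 389) (nat_lit 209) (nat_lit 182)) (XT.lf (nat_lit 0) (nat_lit 17133652132) (nat_lit 152) (nat_lit 30580316534) (nat_lit 0) (nat_lit 12115136919) (nat_lit 4) (nat_lit 5) (nat_lit 6) (nat_lit 4) (nat_lit 4) (nat_lit 4) (nat_lit 390) (nat_lit 209) (nat_lit 181))))))) (XT.nd (nat_lit 1014) (nat_lit 0) (nat_lit 0) (XT.nd (nat_lit 468) (nat_lit 76) (nat_lit 0) (XT.nd (nat_lit 234) (nat_lit 0) (nat_lit 0) (XT.nd (nat_lit 78) (nat_lit 0) (nat_lit 0) (XT.lf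 (nat_lit 0) (nat_lit 20113045506) (nat_lit 152) (nat_lit 26446925776) (nat_lit 0) (nat_lit 14981037626) (nat_lit 4) (nat_lit 5) (nat_lit 6) (nat_lit 4) (nat_lit 4) (nat_lit 4) (nat_lit 391) (nat_lit 209) (nat_lit 180)) (XT.nd (nat_lit 78) (nat_lit 0) (nat_lit 0) (XT.lf (nat_lit 0) (nat_lit 23144984963) (nat_lit 152) (nat_lit 22257612683) (nat_lit 0) (nat_lit 17902790028) (nat_lit 4) (nat_lit 5) (nat_lit 6) (nat_lit 4) (nat_lit 4) (nat_lit 4) (nat_lit 392) (nat_lit 209) (nat_lit 179)) (XT.lf (nat_lit 0) (nat_lit 26232119771) (nat_lit 152) (nat_lit 18008716690) (nat_lit 0) (nat_lit 20882947114) (nat_lit 4) (nat_lit 5) (nat_lit 6) (nat_lit 4) (nat_lit 4) (nat_lit 4) (nat_lit 393) (nat_lit 209) (nat_lit 178)))) (XT.nd (nat_lit 78) (nat_lit 0) (nat_lit 0) (XT.lf (nat_lit 0) (nat_lit 29377147428) (nat_lit 152) (nat_lit 13696525169) (nat_lit 0) (nat_lit 23924112903) (nat_lit 4) (nat_lit 5) (nat_lit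 6) (nat_lit 4) (nat_lit 4) (nat_lit 4) (nat_lit 394) (nat_lit 209) (nat_lit 177)) (XT.nd (nat_lit 78) (nat_lit 0) (nat_lit 0) (XT.lf (nat_lit 0) (nat_lit 32582816014) (nat_lit 152) (nat_lit 9317270188) (nat_lit 0) (nat_lit 27028944725) (nat_lit 4) (nat_lit 5) (nat_lit 6) (nat_lit 4) (nat_lit 4) (nat_lit 4) (nat_lit 395) (nat_lit 209) (nat_lit 176)) (XT.lf (nat_lit 0) (nat_lit 35851926600) (nat_lit 152) (nat_lit 4867125211) (nat_lit 0) (nat_lit 30200155540) (nat_lit 4) (nat_lit 5) (nat_lit 6) (nat_lit 4) (nat_lit 4) (nat_lit 4) (nat_lit 396) (nat_lit 209) (nat_lit 175))))) (XT.nd (nat_lit 234) (nat_lit 0) (nat_lit 0) (XT.nd (nat_lit 78) (nat_lit 76) (nat_lit 0) (XT.lf (nat_lit 0) (nat_lit 39187335691) (nat_lit 152) (nat_lit 342201763) (nat_lit 0) (nat_lit 33440516309) (nat_lit 4) (nat_lit 5) (nat_lit 6) (nat_lit 4) (nat_lit 4) (nat_lit 4) (nat_lit 397) (nat_lit 209) (nat_lit 174)) (XT.nd (nat_lit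 78) (nat_lit 0) (nat_lit 0) (XT.lf (nat_lit 0) (nat_lit 4346265262) (nat_lit 76) (nat_lit 38287471418) (nat_lit 76) (nat_lit 32448372114) (nat_lit 3) (nat_lit 4) (nat_lit 4) (nat_lit 5) (nat_lit 4) (nat_lit 4) (nat_lit 398) (nat_lit 209) (nat_lit 173)) (XT.lf (nat_lit 0) (nat_lit 9125944658) (nat_lit 76) (nat_lit 37030547106) (nat_lit 76) (nat_lit 31101855642) (nat_lit 3) (nat_lit 4) (nat_lit 4) (nat_lit 5) (nat_lit 4) (nat_lit 4) (nat_lit 399) (nat_lit 209) (nat_lit 172)))) (XT.nd (nat_lit 156) (nat_lit 0) (nat_lit 0) (XT.nd (nat_lit 78) (nat_lit 0) (nat_lit 0) (XT.lf (nat_lit 0) (nat_lit 13994202358) (nat_lit 76) (nat_lit 35761121800) (nat_lit 76) (nat_lit 29745447658) (nat_lit 3) (nat_lit 4) (nat_lit 4) (nat_lit 5) (nat_lit 4) (nat_lit 4) (nat_lit 400) (nat_lit 209) (nat_lit 171)) (XT.lf (nat_lit 0) (nat_lit 18955292178) (nat_lit 76) (nat_lit 34478086294) (nat_lit 76) (nat_lit 28377962949)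 (nat_lit 3) (nat_lit 4) (nat_lit 4) (nat_lit 5) (nat_lit 4) (nat_lit 4) (nat_lit 401) (nat_lit 209) (nat_lit 170))) (XT.nd (nat_lit 78) (nat_lit 0) (nat_lit 0) (XT.lf (nat_lit 0) (nat_lit 24013549052) (nat_lit 76) (nat_lit 33180319489) (nat_lit 76) (nat_lit 26998206627) (nat_lit 3) (nat_lit 4) (nat_lit 4) (nat_lit 5) (nat_lit 4) (nat_lit 4) (nat_lit 402) (nat_lit 209) (nat_lit 169)) (XT.lf (nat_lit 0) (nat_lit 29173392816) (nat_lit 76) (nat_lit 31866687414) (nat_lit 76) (nat_lit 25604973080) (nat_lit 3) (nat_lit 4) (nat_lit 4) (nat_lit 5) (nat_lit 4) (nat_lit 4) (nat_lit 403) (nat_lit 209) (nat_lit 168)))))) (XT.nd (nat_lit 37206) (nat_lit 0) (nat_lit 456) (XT.nd (nat_lit 234) (nat_lit 0) (nat_lit 0) (XT.nd (nat_lit 78) (nat_lit 0) (nat_lit 0) (XT.lf (nat_lit 0) (nat_lit 34439332071) (nat_lit 76) (nat_lit 30536042235) (nat_lit 76) (nat_lit 24197044917) (nat_lit 3) (nat_lit 4) (nat_lit 4) (nat_lit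 5) (nat_lit 4) (nat_lit 4) (nat_lit 404) (nat_lit 209) (nat_lit 167)) (XT.nd (nat_lit 78) (nat_lit 0) (nat_lit 0) (XT.lf (nat_lit 0) (nat_lit 39815968123) (nat_lit 76) (nat_lit 29187221252) (nat_lit 76) (nat_lit 22773191912) (nat_lit 3) (nat_lit 4) (nat_lit 4) (nat_lit 5) (nat_lit 4) (nat_lit 4) (nat_lit 405) (nat_lit 209) (nat_lit 166)) (XT.lf (nat_lit 0) (nat_lit 45307999003) (nat_lit 76) (nat_lit 27819045885) (nat_lit 76) (nat_lit 21332169921) (nat_lit 3) (nat_lit 4) (nat_lit 4) (nat_lit 5) (nat_lit 4) (nat_lit 4) (nat_lit 406) (nat_lit 209) (nat_lit 165)))) (XT.nd (nat_lit 156) (nat_lit 0) (nat_lit 0) (XT.nd (nat_lit 78) (nat_lit 0) (nat_lit 0) (XT.lf (nat_lit 0) (nat_lit 50920223575) (nat_lit 76) (nat_lit 26430320639) (nat_lit 76) (nat_lit 19872719798) (nat_lit 3) (nat_lit 4) (nat_lit 4) (nat_lit 5) (nat_lit 4) (nat_lit 4) (nat_lit 407) (nat_lit 209) (nat_lit 164)) (XT.lf (nat_lit 0) (nat_lit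 56657545722) (nat_lit 76) (nat_lit 25019832067) (nat_lit 76) (nat_lit 18393566295) (nat_lit 3) (nat_lit 4) (nat_lit 4) (nat_lit 5) (nat_lit 4) (nat_lit 4) (nat_lit 408) (nat_lit 209) (nat_lit 163))) (XT.nd (nat_lit 78) (nat_lit 0) (nat_lit 0) (XT.lf (nat_lit 0) (nat_lit 62524978640) (nat_lit 76) (nat_lit 23586347701) (nat_lit 76) (nat_lit 16893416949) (nat_lit 3) (nat_lit 4) (nat_lit 4) (nat_lit 5) (nat_lit 4) (nat_lit 4) (nat_lit 409) (nat_lit 209) (nat_lit 162)) (XT.lf (nat_lit 0) (nat_lit 68527649211) (nat_lit 76) (nat_lit 22128614983) (nat_lit 76) (nat_lit 15370960949) (nat_lit 3) (nat_lit 4) (nat_lit 4) (nat_lit 5) (nat_lit 4) (nat_lit 4) (nat_lit 410) (nat_lit 209) (nat_lit 161))))) (XT.nd (nat_lit 234) (nat_lit 76) (nat_lit 0) (XT.nd (nat_lit 78) (nat_lit 152) (nat_lit 0) (XT.lf (nat_lit 0) (nat_lit 9660160650) (nat_lit 76) (nat_lit 1841079249) (nat_lit 76) (nat_lit 1841079249) (nat_lit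 12) (nat_lit 4) (nat_lit 13) (nat_lit 5) (nat_lit 13) (nat_lit 4) (nat_lit 360) (nat_lit 210) (nat_lit 210)) (XT.nd (nat_lit 78) (nat_lit 152) (nat_lit 0) (XT.lf (nat_lit 0) (nat_lit 26912392321) (nat_lit 76) (nat_lit 373223368) (nat_lit 76) (nat_lit 80970360) (nat_lit 12) (nat_lit 4) (nat_lit 13) (nat_lit 5) (nat_lit 13) (nat_lit 4) (nat_lit 361) (nat_lit 210) (nat_lit 209)) (XT.lf (nat_lit 0) (nat_lit 3574635296) (nat_lit 152) (nat_lit 21477410325) (nat_lit 0) (nat_lit 3015418022) (nat_lit 10) (nat_lit 5) (nat_lit 12) (nat_lit 4) (nat_lit 10) (nat_lit 4) (nat_lit 362) (nat_lit 210) (nat_lit 208)))) (XT.nd (nat_lit 156) (nat_lit 76) (nat_lit 0) (XT.nd (nat_lit 78) (nat_lit 0) (nat_lit 0) (XT.lf (nat_lit 0) (nat_lit 7270915147) (nat_lit 152) (nat_lit 15076236614) (nat_lit 0) (nat_lit 6444244969) (nat_lit 10) (nat_lit 5) (nat_lit 12) (nat_lit 4) (nat_lit 10) (nat_lit 4) (nat_lit 363) (nat_lit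 210) (nat_lit 207)) (XT.lf (nat_lit 0) (nat_lit 11004594353) (nat_lit 152) (nat_lit 8616428242) (nat_lit 0) (nat_lit 9918261164) (nat_lit 10) (nat_lit 5) (nat_lit 12) (nat_lit 4) (nat_lit 10) (nat_lit 4) (nat_lit 364) (nat_lit 210) (nat_lit 206))) (XT.nd (nat_lit 78) (nat_lit 76) (nat_lit 0) (XT.lf (nat_lit 0) (nat_lit 14778935355) (nat_lit 152) (nat_lit 2092340717) (nat_lit 0) (nat_lit 13440502153) (nat_lit 10) (nat_lit 5) (nat_lit 12) (nat_lit 4) (nat_lit 10) (nat_lit 4) (nat_lit 365) (nat_lit 210) (nat_lit 205)) (XT.lf (nat_lit 0) (nat_lit 4591319805) (nat_lit 76) (nat_lit 14050050888) (nat_lit 76) (nat_lit 12466860393) (nat_lit 9) (nat_lit 4) (nat_lit 10) (nat_lit 5) (nat_lit 10) (nat_lit 4) (nat_lit 366) (nat_lit 210) (nat_lit 204))))))))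
noncomputable def xc12 : XT := (XT.nd (nat_lit 2028) (nat_lit 76) (nat_lit 0) (XT.nd (nat_lit 1014) (nat_lit 152) (nat_lit 0) (XT.nd (nat_lit 468) (nat_lit 76) (nat_lit 0) (XT.nd (nat_lit 234) (nat_lit 152) (nat_lit 0) (XT.nd (nat_lit 78) (nat_lit 0) (nat_lit 0) (XT.lf (nat_lit 0) (nat_lit 11393871036) (nat_lit 76) (nat_lit 11178486846) (nat_lit 76) (nat_lit 9357667911) (nat_lit 9) (nat_lit 4) (nat_lit 10) (nat_lit 5) (nat_lit 10) (nat_lit 4) (nat_lit 367) (nat_lit 210) (nat_lit 203)) (XT.nd (nat_lit 78) (nat_lit 0) (nat_lit 0) (XT.lf (nat_lit 0) (nat_lit 18279615270) (nat_lit 76) (nat_lit 8275203352) (nat_lit 76) (nat_lit 6223677194) (nat_lit 9) (nat_lit 4) (nat_lit 10) (nat_lit 5) (nat_lit 10) (nat_lit 4) (nat_lit 368) (nat_lit 210) (nat_lit 202)) (XT.lf (nat_lit 0) (nat_lit 25254569175) (nat_lit 76) (nat_lit 5337663557) (nat_lit 76) (nat_lit 3062149803) (nat_lit 9) (nat_lit 4) (nat_lit 10)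 (nat_lit 5) (nat_lit 10) (nat_lit 4) (nat_lit 369) (nat_lit 210) (nat_lit 201)))) (XT.nd (nat_lit 78) (nat_lit 76) (nat_lit 0) (XT.lf (nat_lit 0) (nat_lit 127146300) (nat_lit 152) (nat_lit 2234870448) (nat_lit 76) (nat_lit 32196397143) (nat_lit 8) (nat_lit 5) (nat_lit 10) (nat_lit 5) (nat_lit 9) (nat_lit 4) (nat_lit 370) (nat_lit 210) (nat_lit 200)) (XT.nd (nat_lit 78) (nat_lit 0) (nat_lit 0) (XT.lf (nat_lit 0) (nat_lit 3335038379) (nat_lit 152) (nat_lit 31444417501) (nat_lit 0) (nat_lit 709691553) (nat_lit 7) (nat_lit 5) (nat_lit 9) (nat_lit 4) (nat_lit 7) (nat_lit 4) (nat_lit 371) (nat_lit 210) (nat_lit 199)) (XT.lf (nat_lit 0) (nat_lit 6624144574) (nat_lit 152) (nat_lit 26024345387) (nat_lit 0) (nat_lit 3799787672) (nat_lit 7) (nat_lit 5) (nat_lit 9) (nat_lit 4) (nat_lit 7) (nat_lit 4) (nat_lit 372) (nat_lit 210) (nat_lit 198))))) (XT.nd (nat_lit 234) (nat_lit 76) (nat_lit 0) (XT.nd (nat_lit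 78) (nat_lit 0) (nat_lit 0) (XT.lf (nat_lit 0) (nat_lit 9952506284) (nat_lit 152) (nat_lit 20550545547) (nat_lit 0) (nat_lit 6934935714) (nat_lit 7) (nat_lit 5) (nat_lit 9) (nat_lit 4) (nat_lit 7) (nat_lit 4) (nat_lit 373) (nat_lit 210) (nat_lit 197)) (XT.nd (nat_lit 78) (nat_lit 0) (nat_lit 0) (XT.lf (nat_lit 0) (nat_lit 13323031784) (nat_lit 152) (nat_lit 15018235049) (nat_lit 0) (nat_lit 10117875129) (nat_lit 7) (nat_lit 5) (nat_lit 9) (nat_lit 4) (nat_lit 7) (nat_lit 4) (nat_lit 374) (nat_lit 210) (nat_lit 196)) (XT.lf (nat_lit 0) (nat_lit 16738666195) (nat_lit 152) (nat_lit 9422579836) (nat_lit 0) (nat_lit 13351387127) (nat_lit 7) (nat_lit 5) (nat_lit 9) (nat_lit 4) (nat_lit 7) (nat_lit 4) (nat_lit 375) (nat_lit 210) (nat_lit 195)))) (XT.nd (nat_lit 156) (nat_lit 0) (nat_lit 0) (XT.nd (nat_lit 78) (nat_lit 76) (nat_lit 0) (XT.lf (nat_lit 0) (nat_lit 20202394050) (nat_lit 152) (nat_lit 3758690499)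 (nat_lit 0) (nat_lit 16638297107) (nat_lit 7) (nat_lit 5) (nat_lit 9) (nat_lit 4) (nat_lit 7) (nat_lit 4) (nat_lit 376) (nat_lit 210) (nat_lit 194)) (XT.lf (nat_lit 0) (nat_lit 2017755671) (nat_lit 76) (nat_lit 21718882140) (nat_lit 76) (nat_lit 17983117355) (nat_lit 6) (nat_lit 4) (nat_lit 7) (nat_lit 5) (nat_lit 7) (nat_lit 4) (nat_lit 377) (nat_lit 210) (nat_lit 193))) (XT.nd (nat_lit 78) (nat_lit 0) (nat_lit 0) (XT.lf (nat_lit 0) (nat_lit 7948759537) (nat_lit 76) (nat_lit 19413929799) (nat_lit 76) (nat_lit 15511497208) (nat_lit 6) (nat_lit 4) (nat_lit 7) (nat_lit 5) (nat_lit 7) (nat_lit 4) (nat_lit 378) (nat_lit 210) (nat_lit 192)) (XT.lf (nat_lit 0) (nat_lit 13964698219) (nat_lit 76) (nat_lit 17082168896) (nat_lit 76) (nat_lit 13017922900) (nat_lit 6) (nat_lit 4) (nat_lit 7) (nat_lit 5) (nat_lit 7) (nat_lit 4) (nat_lit 379) (nat_lit 210) (nat_lit 191)))))) (XT.nd (nat_lit 468) (nat_lit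 0) (nat_lit 0) (XT.nd (nat_lit 234) (nat_lit 152) (nat_lit 0) (XT.nd (nat_lit 78) (nat_lit 0) (nat_lit 0) (XT.lf (nat_lit 0) (nat_lit 20070828362) (nat_lit 76) (nat_lit 14721561970) (nat_lit 76) (nat_lit 10500215581) (nat_lit 6) (nat_lit 4) (nat_lit 7) (nat_lit 5) (nat_lit 7) (nat_lit 4) (nat_lit 380) (nat_lit 210) (nat_lit 190)) (XT.nd (nat_lit 78) (nat_lit 0) (nat_lit 0) (XT.lf (nat_lit 0) (nat_lit 26272485420) (nat_lit 76) (nat_lit 12330046353) (nat_lit 76) (nat_lit 7956175311) (nat_lit 6) (nat_lit 4) (nat_lit 7) (nat_lit 5) (nat_lit 7) (nat_lit 4) (nat_lit 381) (nat_lit 210) (nat_lit 189)) (XT.lf (nat_lit 0) (nat_lit 32575088316) (nat_lit 76) (nat_lit 9905532373) (nat_lit 76) (nat_lit 5383579143) (nat_lit 6) (nat_lit 4) (nat_lit 7) (nat_lit 5) (nat_lit 7) (nat_lit 4) (nat_lit 382) (nat_lit 210) (nat_lit 188)))) (XT.nd (nat_lit 78) (nat_lit 152) (nat_lit 0) (XT.lf (nat_lit 0) (nat_lit 38984144179)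 (nat_lit 76) (nat_lit 7445901522) (nat_lit 76) (nat_lit 2780179177) (nat_lit 6) (nat_lit 4) (nat_lit 7) (nat_lit 5) (nat_lit 7) (nat_lit 4) (nat_lit 383) (nat_lit 210) (nat_lit 187)) (XT.nd (nat_lit 78) (nat_lit 152) (nat_lit 0) (XT.lf (nat_lit 0) (nat_lit 45505253154) (nat_lit 76) (nat_lit 4949004607) (nat_lit 76) (nat_lit 143700599) (nat_lit 6) (nat_lit 4) (nat_lit 7) (nat_lit 5) (nat_lit 7) (nat_lit 4) (nat_lit 384) (nat_lit 210) (nat_lit 186)) (XT.lf (nat_lit 0) (nat_lit 93013235) (nat_lit 76) (nat_lit 2386707662) (nat_lit 152) (nat_lit 49548136075) (nat_lit 4) (nat_lit 5) (nat_lit 5) (nat_lit 5) (nat_lit 6) (nat_lit 4) (nat_lit 385) (nat_lit 210) (nat_lit 185))))) (XT.nd (nat_lit 234) (nat_lit 0) (nat_lit 0) (XT.nd (nat_lit 78) (nat_lit 0) (nat_lit 0) (XT.lf (nat_lit 0) (nat_lit 5190616399) (nat_lit 152) (nat_lit 48043692460) (nat_lit 0) (nat_lit 265966600) (nat_lit 4) (nat_lit 5) (nat_lit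 6) (nat_lit 4) (nat_lit 4) (nat_lit 4) (nat_lit 386) (nat_lit 210) (nat_lit 184)) (XT.nd (nat_lit 78) (nat_lit 0) (nat_lit 0) (XT.lf (nat_lit 0) (nat_lit 7965010610) (nat_lit 152) (nat_lit 44136061364) (nat_lit 0) (nat_lit 2916344310) (nat_lit 4) (nat_lit 5) (nat_lit 6) (nat_lit 4) (nat_lit 4) (nat_lit 4) (nat_lit 387) (nat_lit 210) (nat_lit 183)) (XT.lf (nat_lit 0) (nat_lit 10782385265) (nat_lit 152) (nat_lit 40185593520) (nat_lit 0) (nat_lit 5613314595) (nat_lit 4) (nat_lit 5) (nat_lit 6) (nat_lit 4) (nat_lit 4) (nat_lit 4) (nat_lit 388) (nat_lit 210) (nat_lit 182)))) (XT.nd (nat_lit 156) (nat_lit 0) (nat_lit 0) (XT.nd (nat_lit 78) (nat_lit 0) (nat_lit 0) (XT.lf (nat_lit 0) (nat_lit 13645202146) (nat_lit 152) (nat_lit 36188837064) (nat_lit 0) (nat_lit 8359234030) (nat_lit 4) (nat_lit 5) (nat_lit 6) (nat_lit 4) (nat_lit 4) (nat_lit 4) (nat_lit 389) (nat_lit 210) (nat_lit 181)) (XT.lf (nat_lit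 0) (nat_lit 16555962745) (nat_lit 152) (nat_lit 32142299683) (nat_lit 0) (nat_lit 11156501962) (nat_lit 4) (nat_lit 5) (nat_lit 6) (nat_lit 4) (nat_lit 4) (nat_lit 4) (nat_lit 390) (nat_lit 210) (nat_lit 180))) (XT.nd (nat_lit 78) (nat_lit 0) (nat_lit 0) (XT.lf (nat_lit 0) (nat_lit 19517210445) (nat_lit 152) (nat_lit 28042445569) (nat_lit 0) (nat_lit 14007562607) (nat_lit 4) (nat_lit 5) (nat_lit 6) (nat_lit 4) (nat_lit 4) (nat_lit 4) (nat_lit 391) (nat_lit 210) (nat_lit 179)) (XT.lf (nat_lit 0) (nat_lit 22531532743) (nat_lit 152) (nat_lit 23885692325) (nat_lit 0) (nat_lit 16914907183) (nat_lit 4) (nat_lit 5) (nat_lit 6) (nat_lit 4) (nat_lit 4) (nat_lit 4) (nat_lit 392) (nat_lit 210) (nat_lit 178))))))) (XT.nd (nat_lit 1014) (nat_lit 0) (nat_lit 0) (XT.nd (nat_lit 468) (nat_lit 0) (nat_lit 0) (XT.nd (nat_lit 234) (nat_lit 76) (nat_lit 0) (XT.nd (nat_lit 78) (nat_lit 0) (nat_lit 0) (XT.lf (nat_lit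 0) (nat_lit 25601563514) (nat_lit 152) (nat_lit 19668407836) (nat_lit 0) (nat_lit 19881076086) (nat_lit 4) (nat_lit 5) (nat_lit 6) (nat_lit 4) (nat_lit 4) (nat_lit 4) (nat_lit 393) (nat_lit 210) (nat_lit 177)) (XT.nd (nat_lit 78) (nat_lit 0) (nat_lit 0) (XT.lf (nat_lit 0) (nat_lit 28729985308) (nat_lit 152) (nat_lit 15386907096) (nat_lit 0) (nat_lit 22908661117) (nat_lit 4) (nat_lit 5) (nat_lit 6) (nat_lit 4) (nat_lit 4) (nat_lit 4) (nat_lit 394) (nat_lit 210) (nat_lit 176)) (XT.lf (nat_lit 0) (nat_lit 31919531699) (nat_lit 152) (nat_lit 11037448988) (nat_lit 0) (nat_lit 26000307736) (nat_lit 4) (nat_lit 5) (nat_lit 6) (nat_lit 4) (nat_lit 4) (nat_lit 4) (nat_lit 395) (nat_lit 210) (nat_lit 175)))) (XT.nd (nat_lit 78) (nat_lit 76) (nat_lit 0) (XT.lf (nat_lit 0) (nat_lit 35172989668) (nat_lit 152) (nat_lit 6616233015) (nat_lit 0) (nat_lit 29158717384) (nat_lit 4) (nat_lit 5) (nat_lit 6) (nat_lit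 4) (nat_lit 4) (nat_lit 4) (nat_lit 396) (nat_lit 210) (nat_lit 174)) (XT.nd (nat_lit 78) (nat_lit 76) (nat_lit 0) (XT.lf (nat_lit 0) (nat_lit 38493202042) (nat_lit 152) (nat_lit 2119395979) (nat_lit 0) (nat_lit 32386649835) (nat_lit 4) (nat_lit 5) (nat_lit 6) (nat_lit 4) (nat_lit 4) (nat_lit 4) (nat_lit 397) (nat_lit 210) (nat_lit 173)) (XT.lf (nat_lit 0) (nat_lit 2505890342) (nat_lit 76) (nat_lit 39401267787) (nat_lit 76) (nat_lit 33205123421) (nat_lit 3) (nat_lit 4) (nat_lit 4) (nat_lit 5) (nat_lit 4) (nat_lit 4) (nat_lit 398) (nat_lit 210) (nat_lit 172))))) (XT.nd (nat_lit 234) (nat_lit 0) (nat_lit 0) (XT.nd (nat_lit 78) (nat_lit 0) (nat_lit 0) (XT.lf (nat_lit 0) (nat_lit 7258568714) (nat_lit 76) (nat_lit 38156760586) (nat_lit 76) (nat_lit 31873633541) (nat_lit 3) (nat_lit 4) (nat_lit 4) (nat_lit 5) (nat_lit 4) (nat_lit 4) (nat_lit 399) (nat_lit 210) (nat_lit 171)) (XT.nd (nat_lit 78) (nat_lit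 0) (nat_lit 0) (XT.lf (nat_lit 0) (nat_lit 12100611828) (nat_lit 76) (nat_lit 36899390728) (nat_lit 76) (nat_lit 30531814481) (nat_lit 3) (nat_lit 4) (nat_lit 4) (nat_lit 5) (nat_lit 4) (nat_lit 4) (nat_lit 400) (nat_lit 210) (nat_lit 170)) (XT.lf (nat_lit 0) (nat_lit 17036250593) (nat_lit 76) (nat_lit 35628059540) (nat_lit 76) (nat_lit 29178493776) (nat_lit 3) (nat_lit 4) (nat_lit 4) (nat_lit 5) (nat_lit 4) (nat_lit 4) (nat_lit 401) (nat_lit 210) (nat_lit 169)))) (XT.nd (nat_lit 156) (nat_lit 0) (nat_lit 0) (XT.nd (nat_lit 78) (nat_lit 0) (nat_lit 0) (XT.lf (nat_lit 0) (nat_lit 22069797705) (nat_lit 76) (nat_lit 34341656151) (nat_lit 76) (nat_lit 27812488914) (nat_lit 3) (nat_lit 4) (nat_lit 4) (nat_lit 5) (nat_lit 4) (nat_lit 4) (nat_lit 402) (nat_lit 210) (nat_lit 168)) (XT.lf (nat_lit 0) (nat_lit 27205651409) (nat_lit 76) (nat_lit 33039056519) (nat_lit 76) (nat_lit 26432606298) (nat_lit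 3) (nat_lit 4) (nat_lit 4) (nat_lit 5) (nat_lit 4) (nat_lit 4) (nat_lit 403) (nat_lit 210) (nat_lit 167))) (XT.nd (nat_lit 78) (nat_lit 0) (nat_lit 0) (XT.lf (nat_lit 0) (nat_lit 32448299343) (nat_lit 76) (nat_lit 31719122449) (nat_lit 76) (nat_lit 25037640206) (nat_lit 3) (nat_lit 4) (nat_lit 4) (nat_lit 5) (nat_lit 4) (nat_lit 4) (nat_lit 404) (nat_lit 210) (nat_lit 166)) (XT.lf (nat_lit 0) (nat_lit 37802322463) (nat_lit 76) (nat_lit 30380700602) (nat_lit 76) (nat_lit 23626371735) (nat_lit 3) (nat_lit 4) (nat_lit 4) (nat_lit 5) (nat_lit 4) (nat_lit 4) (nat_lit 405) (nat_lit 210) (nat_lit 165)))))) (XT.nd (nat_lit 36972) (nat_lit 0) (nat_lit 532) (XT.nd (nat_lit 234) (nat_lit 0) (nat_lit 0) (XT.nd (nat_lit 78) (nat_lit 0) (nat_lit 0) (XT.lf (nat_lit 0) (nat_lit 43272399040) (nat_lit 76) (nat_lit 29022621482) (nat_lit 76) (nat_lit 22197567738) (nat_lit 3) (nat_lit 4) (nat_lit 4) (nat_lit 5)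 (nat_lit 4) (nat_lit 4) (nat_lit 406) (nat_lit 210) (nat_lit 164)) (XT.nd (nat_lit 78) (nat_lit 0) (nat_lit 0) (XT.lf (nat_lit 0) (nat_lit 48863308754) (nat_lit 76) (nat_lit 27643698419) (nat_lit 76) (nat_lit 20749979745) (nat_lit 3) (nat_lit 4) (nat_lit 4) (nat_lit 5) (nat_lit 4) (nat_lit 4) (nat_lit 407) (nat_lit 210) (nat_lit 163)) (XT.lf (nat_lit 0) (nat_lit 54579936865) (nat_lit 76) (nat_lit 26242726528) (nat_lit 76) (nat_lit 19282342873) (nat_lit 3) (nat_lit 4) (nat_lit 4) (nat_lit 5) (nat_lit 4) (nat_lit 4) (nat_lit 408) (nat_lit 210) (nat_lit 162)))) (XT.nd (nat_lit 78) (nat_lit 0) (nat_lit 0) (XT.lf (nat_lit 0) (nat_lit 60427278485) (nat_lit 76) (nat_lit 24818481659) (nat_lit 76) (nat_lit 17793374723) (nat_lit 3) (nat_lit 4) (nat_lit 4) (nat_lit 5) (nat_lit 4) (nat_lit 4) (nat_lit 409) (nat_lit 210) (nat_lit 161)) (XT.nd (nat_lit 36582) (nat_lit 0) (nat_lit 684) (XT.lf (nat_lit 0) (nat_lit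 66410442942) (nat_lit 76) (nat_lit 23369719326) (nat_lit 76) (nat_lit 16281774252) (nat_lit 3) (nat_lit 4) (nat_lit 4) (nat_lit 5) (nat_lit 4) (nat_lit 4) (nat_lit 410) (nat_lit 210) (nat_lit 160)) (XT.lf (nat_lit 0) (nat_lit 2228663355) (nat_lit 76) (nat_lit 5232026015) (nat_lit 76) (nat_lit 5232026015) (nat_lit 12) (nat_lit 4) (nat_lit 13) (nat_lit 5) (nat_lit 13) (nat_lit 4) (nat_lit 358) (nat_lit 211) (nat_lit 211))))) (XT.nd (nat_lit 234) (nat_lit 76) (nat_lit 0) (XT.nd (nat_lit 78) (nat_lit 76) (nat_lit 0) (XT.lf (nat_lit 0) (nat_lit 11813881735) (nat_lit 76) (nat_lit 7255991710) (nat_lit 76) (nat_lit 6954971112) (nat_lit 12) (nat_lit 4) (nat_lit 13) (nat_lit 5) (nat_lit 13) (nat_lit 4) (nat_lit 359) (nat_lit 211) (nat_lit 210)) (XT.nd (nat_lit 78) (nat_lit 76) (nat_lit 0) (XT.lf (nat_lit 0) (nat_lit 19251571679) (nat_lit 76) (nat_lit 4013751442) (nat_lit 76) (nat_lit 3420477836) (nat_lit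 12) (nat_lit 4) (nat_lit 13) (nat_lit 5) (nat_lit 13) (nat_lit 4) (nat_lit 360) (nat_lit 211) (nat_lit 209)) (XT.lf (nat_lit 0) (nat_lit 139735184) (nat_lit 152) (nat_lit 593351965) (nat_lit 76) (nat_lit 26635749258) (nat_lit 11) (nat_lit 5) (nat_lit 13) (nat_lit 5) (nat_lit 12) (nat_lit 4) (nat_lit 361) (nat_lit 211) (nat_lit 208)))) (XT.nd (nat_lit 156) (nat_lit 0) (nat_lit 0) (XT.nd (nat_lit 78) (nat_lit 0) (nat_lit 0) (XT.lf (nat_lit 0) (nat_lit 3751636241) (nat_lit 152) (nat_lit 21686620964) (nat_lit 0) (nat_lit 2632713056) (nat_lit 10) (nat_lit 5) (nat_lit 12) (nat_lit 4) (nat_lit 10) (nat_lit 4) (nat_lit 362) (nat_lit 211) (nat_lit 207)) (XT.lf (nat_lit 0) (nat_lit 7411714594) (nat_lit 152) (nat_lit 15351161809) (nat_lit 0) (nat_lit 6033128396) (nat_lit 10) (nat_lit 5) (nat_lit 12) (nat_lit 4) (nat_lit 10) (nat_lit 4) (nat_lit 363) (nat_lit 211) (nat_lit 206))) (XT.nd (nat_lit 78) (nat_lit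 0) (nat_lit 0) (XT.lf (nat_lit 0) (nat_lit 11110246716) (nat_lit 152) (nat_lit 8955153979) (nat_lit 0) (nat_lit 9479560507) (nat_lit 10) (nat_lit 5) (nat_lit 12) (nat_lit 4) (nat_lit 10) (nat_lit 4) (nat_lit 364) (nat_lit 211) (nat_lit 205)) (XT.lf (nat_lit 0) (nat_lit 14850464335) (nat_lit 152) (nat_lit 2493008727) (nat_lit 0) (nat_lit 12975020832) (nat_lit 10) (nat_lit 5) (nat_lit 12) (nat_lit 4) (nat_lit 10) (nat_lit 4) (nat_lit 365) (nat_lit 211) (nat_lit 204))))))))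
noncomputable def xc13 : XT := (XT.nd (nat_lit 2028) (nat_lit 76) (nat_lit 0) (XT.nd (nat_lit 1014) (nat_lit 152) (nat_lit 0) (XT.nd (nat_lit 468) (nat_lit 76) (nat_lit 0) (XT.nd (nat_lit 234) (nat_lit 152) (nat_lit 0) (XT.nd (nat_lit 78) (nat_lit 0) (nat_lit 0) (XT.lf (nat_lit 0) (nat_lit 4121342721) (nat_lit 76) (nat_lit 14553909747) (nat_lit 76) (nat_lit 12440837804) (nat_lit 9) (nat_lit 4) (nat_lit 10) (nat_lit 5) (nat_lit 10) (nat_lit 4) (nat_lit 366) (nat_lit 211) (nat_lit 203)) (XT.nd (nat_lit 78) (nat_lit 0) (nat_lit 0) (XT.lf (nat_lit 0) (nat_lit 10864345413) (nat_lit 76) (nat_lit 11709157266) (nat_lit 76) (nat_lit 9365378100) (nat_lit 9) (nat_lit 4) (nat_lit 10) (nat_lit 5) (nat_lit 10) (nat_lit 4) (nat_lit 367) (nat_lit 211) (nat_lit 202)) (XT.lf (nat_lit 0) (nat_lit 17692275531) (nat_lit 76) (nat_lit 8831904414) (nat_lit 76) (nat_lit 6264137652) (nat_lit 9) (nat_lit 4) (nat_lit 10)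 (nat_lit 5) (nat_lit 10) (nat_lit 4) (nat_lit 368) (nat_lit 211) (nat_lit 201)))) (XT.nd (nat_lit 78) (nat_lit 152) (nat_lit 0) (XT.lf (nat_lit 0) (nat_lit 24611099226) (nat_lit 76) (nat_lit 5919637086) (nat_lit 76) (nat_lit 3134406640) (nat_lit 9) (nat_lit 4) (nat_lit 10) (nat_lit 5) (nat_lit 10) (nat_lit 4) (nat_lit 369) (nat_lit 211) (nat_lit 200)) (XT.nd (nat_lit 78) (nat_lit 76) (nat_lit 0) (XT.lf (nat_lit 0) (nat_lit 26031574) (nat_lit 152) (nat_lit 2943516141) (nat_lit 76) (nat_lit 31600567631) (nat_lit 8) (nat_lit 5) (nat_lit 10) (nat_lit 5) (nat_lit 9) (nat_lit 4) (nat_lit 370) (nat_lit 211) (nat_lit 199)) (XT.lf (nat_lit 0) (nat_lit 3190919516) (nat_lit 152) (nat_lit 32228409476) (nat_lit 0) (nat_lit 82821829) (nat_lit 7) (nat_lit 5) (nat_lit 9) (nat_lit 4) (nat_lit 7) (nat_lit 4) (nat_lit 371) (nat_lit 211) (nat_lit 198))))) (XT.nd (nat_lit 234) (nat_lit 76) (nat_lit 0) (XT.nd (nat_lit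 78) (nat_lit 0) (nat_lit 0) (XT.lf (nat_lit 0) (nat_lit 6450755923) (nat_lit 152) (nat_lit 26861970090) (nat_lit 0) (nat_lit 3149444568) (nat_lit 7) (nat_lit 5) (nat_lit 9) (nat_lit 4) (nat_lit 7) (nat_lit 4) (nat_lit 372) (nat_lit 211) (nat_lit 197)) (XT.nd (nat_lit 78) (nat_lit 0) (nat_lit 0) (XT.lf (nat_lit 0) (nat_lit 9750700361) (nat_lit 152) (nat_lit 21440240859) (nat_lit 0) (nat_lit 6261802922) (nat_lit 7) (nat_lit 5) (nat_lit 9) (nat_lit 4) (nat_lit 7) (nat_lit 4) (nat_lit 373) (nat_lit 211) (nat_lit 196)) (XT.lf (nat_lit 0) (nat_lit 13093636278) (nat_lit 152) (nat_lit 15958484351) (nat_lit 0) (nat_lit 9422616426) (nat_lit 7) (nat_lit 5) (nat_lit 9) (nat_lit 4) (nat_lit 7) (nat_lit 4) (nat_lit 374) (nat_lit 211) (nat_lit 195)))) (XT.nd (nat_lit 156) (nat_lit 76) (nat_lit 0) (XT.nd (nat_lit 78) (nat_lit 0) (nat_lit 0) (XT.lf (nat_lit 0) (nat_lit 16482484685) (nat_lit 152) (nat_lit 10411910681)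 (nat_lit 0) (nat_lit 12634646957) (nat_lit 7) (nat_lit 5) (nat_lit 9) (nat_lit 4) (nat_lit 7) (nat_lit 4) (nat_lit 375) (nat_lit 211) (nat_lit 194)) (XT.lf (nat_lit 0) (nat_lit 19920206712) (nat_lit 152) (nat_lit 4795673328) (nat_lit 0) (nat_lit 15900701142) (nat_lit 7) (nat_lit 5) (nat_lit 9) (nat_lit 4) (nat_lit 7) (nat_lit 4) (nat_lit 376) (nat_lit 211) (nat_lit 193))) (XT.nd (nat_lit 78) (nat_lit 0) (nat_lit 0) (XT.lf (nat_lit 0) (nat_lit 912950043) (nat_lit 76) (nat_lit 22505631985) (nat_lit 76) (nat_lit 18319458608) (nat_lit 6) (nat_lit 4) (nat_lit 7) (nat_lit 5) (nat_lit 7) (nat_lit 4) (nat_lit 377) (nat_lit 211) (nat_lit 192)) (XT.lf (nat_lit 0) (nat_lit 6798143416) (nat_lit 76) (nat_lit 20221536791) (nat_lit 76) (nat_lit 15873550010) (nat_lit 6) (nat_lit 4) (nat_lit 7) (nat_lit 5) (nat_lit 7) (nat_lit 4) (nat_lit 378) (nat_lit 211) (nat_lit 191)))))) (XT.nd (nat_lit 468) (nat_lit 152)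 (nat_lit 0) (XT.nd (nat_lit 234) (nat_lit 0) (nat_lit 0) (XT.nd (nat_lit 78) (nat_lit 0) (nat_lit 0) (XT.lf (nat_lit 0) (nat_lit 12769605892) (nat_lit 76) (nat_lit 17910025545) (nat_lit 76) (nat_lit 13404938371) (nat_lit 6) (nat_lit 4) (nat_lit 7) (nat_lit 5) (nat_lit 7) (nat_lit 4) (nat_lit 379) (nat_lit 211) (nat_lit 190)) (XT.nd (nat_lit 78) (nat_lit 0) (nat_lit 0) (XT.lf (nat_lit 0) (nat_lit 18832555252) (nat_lit 76) (nat_lit 15569078479) (nat_lit 76) (nat_lit 10911466652) (nat_lit 6) (nat_lit 4) (nat_lit 7) (nat_lit 5) (nat_lit 7) (nat_lit 4) (nat_lit 380) (nat_lit 211) (nat_lit 189)) (XT.lf (nat_lit 0) (nat_lit 24992289219) (nat_lit 76) (nat_lit 13196650106) (nat_lit 76) (nat_lit 8390956092) (nat_lit 6) (nat_lit 4) (nat_lit 7) (nat_lit 5) (nat_lit 7) (nat_lit 4) (nat_lit 381) (nat_lit 211) (nat_lit 188)))) (XT.nd (nat_lit 78) (nat_lit 0) (nat_lit 0) (XT.lf (nat_lit 0) (nat_lit 31254190085)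 (nat_lit 76) (nat_lit 10790667431) (nat_lit 76) (nat_lit 5841204302) (nat_lit 6) (nat_lit 4) (nat_lit 7) (nat_lit 5) (nat_lit 7) (nat_lit 4) (nat_lit 382) (nat_lit 211) (nat_lit 187)) (XT.nd (nat_lit 78) (nat_lit 0) (nat_lit 0) (XT.lf (nat_lit 0) (nat_lit 37623729414) (nat_lit 76) (nat_lit 8349028137) (nat_lit 76) (nat_lit 3259983344) (nat_lit 6) (nat_lit 4) (nat_lit 7) (nat_lit 5) (nat_lit 7) (nat_lit 4) (nat_lit 383) (nat_lit 211) (nat_lit 186)) (XT.lf (nat_lit 0) (nat_lit 44106472823) (nat_lit 76) (nat_lit 5869598755) (nat_lit 76) (nat_lit 645037783) (nat_lit 6) (nat_lit 4) (nat_lit 7) (nat_lit 5) (nat_lit 7) (nat_lit 4) (nat_lit 384) (nat_lit 211) (nat_lit 185))))) (XT.nd (nat_lit 234) (nat_lit 0) (nat_lit 0) (XT.nd (nat_lit 78) (nat_lit 76) (nat_lit 0) (XT.lf (nat_lit 0) (nat_lit 1966774614) (nat_lit 152) (nat_lit 1363577610) (nat_lit 76) (nat_lit 48721449664) (nat_lit 5) (nat_lit 5) (nat_lit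 7) (nat_lit 5) (nat_lit 6) (nat_lit 4) (nat_lit 385) (nat_lit 211) (nat_lit 184)) (XT.nd (nat_lit 78) (nat_lit 0) (nat_lit 0) (XT.lf (nat_lit 0) (nat_lit 3938245627) (nat_lit 76) (nat_lit 703189200) (nat_lit 152) (nat_lit 48883879965) (nat_lit 4) (nat_lit 5) (nat_lit 5) (nat_lit 5) (nat_lit 6) (nat_lit 4) (nat_lit 386) (nat_lit 211) (nat_lit 183)) (XT.lf (nat_lit 0) (nat_lit 7389241286) (nat_lit 152) (nat_lit 45709324982) (nat_lit 0) (nat_lit 1944694126) (nat_lit 4) (nat_lit 5) (nat_lit 6) (nat_lit 4) (nat_lit 4) (nat_lit 4) (nat_lit 387) (nat_lit 211) (nat_lit 182)))) (XT.nd (nat_lit 156) (nat_lit 0) (nat_lit 0) (XT.nd (nat_lit 78) (nat_lit 0) (nat_lit 0) (XT.lf (nat_lit 0) (nat_lit 10187365196) (nat_lit 152) (nat_lit 41794436164) (nat_lit 0) (nat_lit 4625920589) (nat_lit 4) (nat_lit 5) (nat_lit 6) (nat_lit 4) (nat_lit 4) (nat_lit 4) (nat_lit 388) (nat_lit 211) (nat_lit 181)) (XT.lf (nat_lit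 0) (nat_lit 13031492033) (nat_lit 152) (nat_lit 37832222451) (nat_lit 0) (nat_lit 7356554761) (nat_lit 4) (nat_lit 5) (nat_lit 6) (nat_lit 4) (nat_lit 4) (nat_lit 4) (nat_lit 389) (nat_lit 211) (nat_lit 180))) (XT.nd (nat_lit 78) (nat_lit 0) (nat_lit 0) (XT.lf (nat_lit 0) (nat_lit 15924106959) (nat_lit 152) (nat_lit 33819221715) (nat_lit 0) (nat_lit 10138982632) (nat_lit 4) (nat_lit 5) (nat_lit 6) (nat_lit 4) (nat_lit 4) (nat_lit 4) (nat_lit 390) (nat_lit 211) (nat_lit 179)) (XT.lf (nat_lit 0) (nat_lit 18867737500) (nat_lit 152) (nat_lit 29751927450) (nat_lit 0) (nat_lit 12975635449) (nat_lit 4) (nat_lit 5) (nat_lit 6) (nat_lit 4) (nat_lit 4) (nat_lit 4) (nat_lit 391) (nat_lit 211) (nat_lit 178))))))) (XT.nd (nat_lit 1014) (nat_lit 0) (nat_lit 0) (XT.nd (nat_lit 468) (nat_lit 76) (nat_lit 0) (XT.nd (nat_lit 234) (nat_lit 0) (nat_lit 0) (XT.nd (nat_lit 78) (nat_lit 0) (nat_lit 0) (XT.lf (nat_lit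 0) (nat_lit 21864955760) (nat_lit 152) (nat_lit 25626785709) (nat_lit 0) (nat_lit 15868991843) (nat_lit 4) (nat_lit 5) (nat_lit 6) (nat_lit 4) (nat_lit 4) (nat_lit 4) (nat_lit 392) (nat_lit 211) (nat_lit 177)) (XT.nd (nat_lit 78) (nat_lit 0) (nat_lit 0) (XT.lf (nat_lit 0) (nat_lit 24918380669) (nat_lit 152) (nat_lit 21440192000) (nat_lit 0) (nat_lit 18821579988) (nat_lit 4) (nat_lit 5) (nat_lit 6) (nat_lit 4) (nat_lit 4) (nat_lit 4) (nat_lit 393) (nat_lit 211) (nat_lit 176)) (XT.lf (nat_lit 0) (nat_lit 28030680268) (nat_lit 152) (nat_lit 17188488134) (nat_lit 0) (nat_lit 21835979815) (nat_lit 4) (nat_lit 5) (nat_lit 6) (nat_lit 4) (nat_lit 4) (nat_lit 4) (nat_lit 394) (nat_lit 211) (nat_lit 175)))) (XT.nd (nat_lit 78) (nat_lit 0) (nat_lit 0) (XT.lf (nat_lit 0) (nat_lit 31204574041) (nat_lit 152) (nat_lit 12867959030) (nat_lit 0) (nat_lit 24914825267) (nat_lit 4) (nat_lit 5) (nat_lit 6) (nat_lit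 4) (nat_lit 4) (nat_lit 4) (nat_lit 395) (nat_lit 211) (nat_lit 174)) (XT.nd (nat_lit 78) (nat_lit 0) (nat_lit 0) (XT.lf (nat_lit 0) (nat_lit 34442835294) (nat_lit 152) (nat_lit 8474829469) (nat_lit 0) (nat_lit 28060806596) (nat_lit 4) (nat_lit 5) (nat_lit 6) (nat_lit 4) (nat_lit 4) (nat_lit 4) (nat_lit 396) (nat_lit 211) (nat_lit 173)) (XT.lf (nat_lit 0) (nat_lit 37748293575) (nat_lit 152) (nat_lit 4005260793) (nat_lit 0) (nat_lit 31276672719) (nat_lit 4) (nat_lit 5) (nat_lit 6) (nat_lit 4) (nat_lit 4) (nat_lit 4) (nat_lit 397) (nat_lit 211) (nat_lit 172))))) (XT.nd (nat_lit 234) (nat_lit 0) (nat_lit 0) (XT.nd (nat_lit 78) (nat_lit 0) (nat_lit 0) (XT.lf (nat_lit 0) (nat_lit 555492096) (nat_lit 76) (nat_lit 40573684783) (nat_lit 76) (nat_lit 34015081248) (nat_lit 3) (nat_lit 4) (nat_lit 4) (nat_lit 5) (nat_lit 4) (nat_lit 4) (nat_lit 398) (nat_lit 211) (nat_lit 171)) (XT.nd (nat_lit 78) (nat_lit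 0) (nat_lit 0) (XT.lf (nat_lit 0) (nat_lit 5281955882) (nat_lit 76) (nat_lit 39341233030) (nat_lit 76) (nat_lit 32698180293) (nat_lit 3) (nat_lit 4) (nat_lit 4) (nat_lit 5) (nat_lit 4) (nat_lit 4) (nat_lit 399) (nat_lit 211) (nat_lit 170)) (XT.lf (nat_lit 0) (nat_lit 10098547940) (nat_lit 76) (nat_lit 38095567490) (nat_lit 76) (nat_lit 31370525236) (nat_lit 3) (nat_lit 4) (nat_lit 4) (nat_lit 5) (nat_lit 4) (nat_lit 4) (nat_lit 400) (nat_lit 211) (nat_lit 169)))) (XT.nd (nat_lit 156) (nat_lit 0) (nat_lit 0) (XT.nd (nat_lit 78) (nat_lit 0) (nat_lit 0) (XT.lf (nat_lit 0) (nat_lit 15009476944) (nat_lit 76) (nat_lit 36835599718) (nat_lit 76) (nat_lit 30030955991) (nat_lit 3) (nat_lit 4) (nat_lit 4) (nat_lit 5) (nat_lit 4) (nat_lit 4) (nat_lit 401) (nat_lit 211) (nat_lit 168)) (XT.lf (nat_lit 0) (nat_lit 20019033996) (nat_lit 76) (nat_lit 35560228772) (nat_lit 76) (nat_lit 28678302061) (nat_lit 3)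 (nat_lit 4) (nat_lit 4) (nat_lit 5) (nat_lit 4) (nat_lit 4) (nat_lit 402) (nat_lit 211) (nat_lit 167))) (XT.nd (nat_lit 78) (nat_lit 0) (nat_lit 0) (XT.lf (nat_lit 0) (nat_lit 25131596380) (nat_lit 76) (nat_lit 34268340248) (nat_lit 76) (nat_lit 27311381516) (nat_lit 3) (nat_lit 4) (nat_lit 4) (nat_lit 5) (nat_lit 4) (nat_lit 4) (nat_lit 403) (nat_lit 211) (nat_lit 166)) (XT.lf (nat_lit 0) (nat_lit 30351631381) (nat_lit 76) (nat_lit 32958805314) (nat_lit 76) (nat_lit 25928999957) (nat_lit 3) (nat_lit 4) (nat_lit 4) (nat_lit 5) (nat_lit 4) (nat_lit 4) (nat_lit 404) (nat_lit 211) (nat_lit 165)))))) (XT.nd (nat_lit 36894) (nat_lit 0) (nat_lit 532) (XT.nd (nat_lit 234) (nat_lit 0) (nat_lit 0) (XT.nd (nat_lit 78) (nat_lit 0) (nat_lit 0) (XT.lf (nat_lit 0) (nat_lit 35683700198) (nat_lit 76) (nat_lit 31630479714) (nat_lit 76) (nat_lit 24529949480) (nat_lit 3) (nat_lit 4) (nat_lit 4) (nat_lit 5) (nat_lit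 4) (nat_lit 4) (nat_lit 405) (nat_lit 211) (nat_lit 164)) (XT.nd (nat_lit 78) (nat_lit 0) (nat_lit 0) (XT.lf (nat_lit 0) (nat_lit 41132461917) (nat_lit 76) (nat_lit 30282202777) (nat_lit 76) (nat_lit 23113007613) (nat_lit 3) (nat_lit 4) (nat_lit 4) (nat_lit 5) (nat_lit 4) (nat_lit 4) (nat_lit 406) (nat_lit 211) (nat_lit 163)) (XT.lf (nat_lit 0) (nat_lit 46702677594) (nat_lit 76) (nat_lit 28912796395) (nat_lit 76) (nat_lit 21676936251) (nat_lit 3) (nat_lit 4) (nat_lit 4) (nat_lit 5) (nat_lit 4) (nat_lit 4) (nat_lit 407) (nat_lit 211) (nat_lit 162)))) (XT.nd (nat_lit 156) (nat_lit 0) (nat_lit 0) (XT.nd (nat_lit 78) (nat_lit 0) (nat_lit 0) (XT.lf (nat_lit 0) (nat_lit 52399214408) (nat_lit 76) (nat_lit 27521064001) (nat_lit 76) (nat_lit 20220480575) (nat_lit 3) (nat_lit 4) (nat_lit 4) (nat_lit 5) (nat_lit 4) (nat_lit 4) (nat_lit 408) (nat_lit 211) (nat_lit 161)) (XT.lf (nat_lit 0) (nat_lit 58227049914)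 (nat_lit 76) (nat_lit 26105789518) (nat_lit 76) (nat_lit 18742367954) (nat_lit 3) (nat_lit 4) (nat_lit 4) (nat_lit 5) (nat_lit 4) (nat_lit 4) (nat_lit 409) (nat_lit 211) (nat_lit 160))) (XT.nd (nat_lit 36426) (nat_lit 0) (nat_lit 760) (XT.lf (nat_lit 0) (nat_lit 64191276396) (nat_lit 76) (nat_lit 24665736297) (nat_lit 76) (nat_lit 17241306833) (nat_lit 3) (nat_lit 4) (nat_lit 4) (nat_lit 5) (nat_lit 4) (nat_lit 4) (nat_lit 410) (nat_lit 211) (nat_lit 159)) (XT.lf (nat_lit 0) (nat_lit 3598568269) (nat_lit 152) (nat_lit 4885317140) (nat_lit 0) (nat_lit 3598568269) (nat_lit 13) (nat_lit 5) (nat_lit 15) (nat_lit 4) (nat_lit 13) (nat_lit 4) (nat_lit 356) (nat_lit 212) (nat_lit 212))))) (XT.nd (nat_lit 234) (nat_lit 152) (nat_lit 0) (XT.nd (nat_lit 78) (nat_lit 76) (nat_lit 0) (XT.lf (nat_lit 0) (nat_lit 11153416356) (nat_lit 152) (nat_lit 2769404865) (nat_lit 0) (nat_lit 10843365140) (nat_lit 13)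 (nat_lit 5) (nat_lit 15) (nat_lit 4) (nat_lit 13) (nat_lit 4) (nat_lit 357) (nat_lit 212) (nat_lit 211)) (XT.nd (nat_lit 78) (nat_lit 0) (nat_lit 0) (XT.lf (nat_lit 0) (nat_lit 4386514600) (nat_lit 76) (nat_lit 10805592764) (nat_lit 76) (nat_lit 10194520949) (nat_lit 12) (nat_lit 4) (nat_lit 13) (nat_lit 5) (nat_lit 13) (nat_lit 4) (nat_lit 358) (nat_lit 212) (nat_lit 210)) (XT.lf (nat_lit 0) (nat_lit 11674320003) (nat_lit 76) (nat_lit 7628104789) (nat_lit 76) (nat_lit 6724779966) (nat_lit 12) (nat_lit 4) (nat_lit 13) (nat_lit 5) (nat_lit 13) (nat_lit 4) (nat_lit 359) (nat_lit 212) (nat_lit 209)))) (XT.nd (nat_lit 156) (nat_lit 76) (nat_lit 0) (XT.nd (nat_lit 78) (nat_lit 76) (nat_lit 0) (XT.lf (nat_lit 0) (nat_lit 19045262742) (nat_lit 76) (nat_lit 4415546410) (nat_lit 76) (nat_lit 3228480803) (nat_lit 12) (nat_lit 4) (nat_lit 13) (nat_lit 5) (nat_lit 13) (nat_lit 4) (nat_lit 360) (nat_lit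 212) (nat_lit 208)) (XT.lf (nat_lit 0) (nat_lit 291627598) (nat_lit 152) (nat_lit 870538073) (nat_lit 76) (nat_lit 26211210981) (nat_lit 11) (nat_lit 5) (nat_lit 13) (nat_lit 5) (nat_lit 12) (nat_lit 4) (nat_lit 361) (nat_lit 212) (nat_lit 207))) (XT.nd (nat_lit 78) (nat_lit 0) (nat_lit 0) (XT.lf (nat_lit 0) (nat_lit 3860458175) (nat_lit 152) (nat_lit 22035508472) (nat_lit 0) (nat_lit 2180851379) (nat_lit 10) (nat_lit 5) (nat_lit 12) (nat_lit 4) (nat_lit 10) (nat_lit 4) (nat_lit 362) (nat_lit 212) (nat_lit 206)) (XT.lf (nat_lit 0) (nat_lit 7485389444) (nat_lit 152) (nat_lit 15763849859) (nat_lit 0) (nat_lit 5553682636) (nat_lit 10) (nat_lit 5) (nat_lit 12) (nat_lit 4) (nat_lit 10) (nat_lit 4) (nat_lit 363) (nat_lit 212) (nat_lit 205))))))))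
noncomputable def xc14 : XT := (XT.nd (nat_lit 2028) (nat_lit 76) (nat_lit 0) (XT.nd (nat_lit 1014) (nat_lit 228) (nat_lit 0) (XT.nd (nat_lit 468) (nat_lit 152) (nat_lit 0) (XT.nd (nat_lit 234) (nat_lit 0) (nat_lit 0) (XT.nd (nat_lit 78) (nat_lit 76) (nat_lit 0) (XT.lf (nat_lit 0) (nat_lit 11149798183) (nat_lit 152) (nat_lit 9429784301) (nat_lit 0) (nat_lit 8973334082) (nat_lit 10) (nat_lit 5) (nat_lit 12) (nat_lit 4) (nat_lit 10) (nat_lit 4) (nat_lit 364) (nat_lit 212) (nat_lit 204)) (XT.nd (nat_lit 78) (nat_lit 76) (nat_lit 0) (XT.lf (nat_lit 0) (nat_lit 14856886303) (nat_lit 152) (nat_lit 3027777178) (nat_lit 0) (nat_lit 12442793762) (nat_lit 10) (nat_lit 5) (nat_lit 12) (nat_lit 4) (nat_lit 10) (nat_lit 4) (nat_lit 365) (nat_lit 212) (nat_lit 203)) (XT.lf (nat_lit 0) (nat_lit 3516382790) (nat_lit 76) (nat_lit 15127311840) (nat_lit 76) (nat_lit 12482512076) (nat_lit 9) (nat_lit 4) (nat_lit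 10) (nat_lit 5) (nat_lit 10) (nat_lit 4) (nat_lit 366) (nat_lit 212) (nat_lit 202)))) (XT.nd (nat_lit 78) (nat_lit 0) (nat_lit 0) (XT.lf (nat_lit 0) (nat_lit 10201571366) (nat_lit 76) (nat_lit 12308590002) (nat_lit 76) (nat_lit 9439802642) (nat_lit 9) (nat_lit 4) (nat_lit 10) (nat_lit 5) (nat_lit 10) (nat_lit 4) (nat_lit 367) (nat_lit 212) (nat_lit 201)) (XT.nd (nat_lit 78) (nat_lit 0) (nat_lit 0) (XT.lf (nat_lit 0) (nat_lit 16973371274) (nat_lit 76) (nat_lit 9456609618) (nat_lit 76) (nat_lit 6370358573) (nat_lit 9) (nat_lit 4) (nat_lit 10) (nat_lit 5) (nat_lit 10) (nat_lit 4) (nat_lit 368) (nat_lit 212) (nat_lit 200)) (XT.lf (nat_lit 0) (nat_lit 23837699620) (nat_lit 76) (nat_lit 6568878667) (nat_lit 76) (nat_lit 3271497830) (nat_lit 9) (nat_lit 4) (nat_lit 10) (nat_lit 5) (nat_lit 10) (nat_lit 4) (nat_lit 369) (nat_lit 212) (nat_lit 199))))) (XT.nd (nat_lit 234) (nat_lit 0) (nat_lit 0) (XT.nd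 (nat_lit 78) (nat_lit 152) (nat_lit 0) (XT.lf (nat_lit 0) (nat_lit 30800554361) (nat_lit 76) (nat_lit 3642873889) (nat_lit 76) (nat_lit 140512672) (nat_lit 9) (nat_lit 4) (nat_lit 10) (nat_lit 5) (nat_lit 10) (nat_lit 4) (nat_lit 370) (nat_lit 212) (nat_lit 198)) (XT.nd (nat_lit 78) (nat_lit 0) (nat_lit 0) (XT.lf (nat_lit 0) (nat_lit 2366389567) (nat_lit 76) (nat_lit 622655191) (nat_lit 152) (nat_lit 32528125798) (nat_lit 7) (nat_lit 5) (nat_lit 8) (nat_lit 5) (nat_lit 9) (nat_lit 4) (nat_lit 371) (nat_lit 212) (nat_lit 197)) (XT.lf (nat_lit 0) (nat_lit 6214478552) (nat_lit 152) (nat_lit 27830426871) (nat_lit 0) (nat_lit 2433328104) (nat_lit 7) (nat_lit 5) (nat_lit 9) (nat_lit 4) (nat_lit 7) (nat_lit 4) (nat_lit 372) (nat_lit 212) (nat_lit 196)))) (XT.nd (nat_lit 156) (nat_lit 0) (nat_lit 0) (XT.nd (nat_lit 78) (nat_lit 0) (nat_lit 0) (XT.lf (nat_lit 0) (nat_lit 9486833406) (nat_lit 152) (nat_lit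 22459251630) (nat_lit 0) (nat_lit 5523560546) (nat_lit 7) (nat_lit 5) (nat_lit 9) (nat_lit 4) (nat_lit 7) (nat_lit 4) (nat_lit 373) (nat_lit 212) (nat_lit 195)) (XT.lf (nat_lit 0) (nat_lit 12802983319) (nat_lit 152) (nat_lit 17026576665) (nat_lit 0) (nat_lit 8662892583) (nat_lit 7) (nat_lit 5) (nat_lit 9) (nat_lit 4) (nat_lit 7) (nat_lit 4) (nat_lit 374) (nat_lit 212) (nat_lit 194))) (XT.nd (nat_lit 78) (nat_lit 0) (nat_lit 0) (XT.lf (nat_lit 0) (nat_lit 16165825898) (nat_lit 152) (nat_lit 11527654979) (nat_lit 0) (nat_lit 11854067320) (nat_lit 7) (nat_lit 5) (nat_lit 9) (nat_lit 4) (nat_lit 7) (nat_lit 4) (nat_lit 375) (nat_lit 212) (nat_lit 193)) (XT.lf (nat_lit 0) (nat_lit 19578299547) (nat_lit 152) (nat_lit 5957681688) (nat_lit 0) (nat_lit 15099873163) (nat_lit 7) (nat_lit 5) (nat_lit 9) (nat_lit 4) (nat_lit 7) (nat_lit 4) (nat_lit 376) (nat_lit 212) (nat_lit 192)))))) (XT.nd (nat_lit 468)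 (nat_lit 152) (nat_lit 0) (XT.nd (nat_lit 234) (nat_lit 0) (nat_lit 0) (XT.nd (nat_lit 78) (nat_lit 76) (nat_lit 0) (XT.lf (nat_lit 0) (nat_lit 23043386041) (nat_lit 152) (nat_lit 311789825) (nat_lit 0) (nat_lit 18403146252) (nat_lit 7) (nat_lit 5) (nat_lit 9) (nat_lit 4) (nat_lit 7) (nat_lit 4) (nat_lit 377) (nat_lit 212) (nat_lit 191)) (XT.nd (nat_lit 78) (nat_lit 0) (nat_lit 0) (XT.lf (nat_lit 0) (nat_lit 5522722112) (nat_lit 76) (nat_lit 21094478795) (nat_lit 76) (nat_lit 16297138614) (nat_lit 6) (nat_lit 4) (nat_lit 7) (nat_lit 5) (nat_lit 7) (nat_lit 4) (nat_lit 378) (nat_lit 212) (nat_lit 190)) (XT.lf (nat_lit 0) (nat_lit 11451003804) (nat_lit 76) (nat_lit 18802627410) (nat_lit 76) (nat_lit 13852762575) (nat_lit 6) (nat_lit 4) (nat_lit 7) (nat_lit 5) (nat_lit 7) (nat_lit 4) (nat_lit 379) (nat_lit 212) (nat_lit 189)))) (XT.nd (nat_lit 78) (nat_lit 0) (nat_lit 0) (XT.lf (nat_lit 0) (nat_lit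 17472030074) (nat_lit 76) (nat_lit 16480767589) (nat_lit 76) (nat_lit 11382820566) (nat_lit 6) (nat_lit 4) (nat_lit 7) (nat_lit 5) (nat_lit 7) (nat_lit 4) (nat_lit 380) (nat_lit 212) (nat_lit 188)) (XT.nd (nat_lit 78) (nat_lit 0) (nat_lit 0) (XT.lf (nat_lit 0) (nat_lit 23591062011) (nat_lit 76) (nat_lit 14126870520) (nat_lit 76) (nat_lit 8885154383) (nat_lit 6) (nat_lit 4) (nat_lit 7) (nat_lit 5) (nat_lit 7) (nat_lit 4) (nat_lit 381) (nat_lit 212) (nat_lit 187)) (XT.lf (nat_lit 0) (nat_lit 29813446344) (nat_lit 76) (nat_lit 11738879403) (nat_lit 76) (nat_lit 6357581601) (nat_lit 6) (nat_lit 4) (nat_lit 7) (nat_lit 5) (nat_lit 7) (nat_lit 4) (nat_lit 382) (nat_lit 212) (nat_lit 186))))) (XT.nd (nat_lit 234) (nat_lit 76) (nat_lit 0) (XT.nd (nat_lit 78) (nat_lit 76) (nat_lit 0) (XT.lf (nat_lit 0) (nat_lit 36144620107) (nat_lit 76) (nat_lit 9314707641) (nat_lit 76) (nat_lit 3797893661) (nat_lit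 6) (nat_lit 4) (nat_lit 7) (nat_lit 5) (nat_lit 7) (nat_lit 4) (nat_lit 383) (nat_lit 212) (nat_lit 185)) (XT.nd (nat_lit 78) (nat_lit 76) (nat_lit 0) (XT.lf (nat_lit 0) (nat_lit 42590115393) (nat_lit 76) (nat_lit 6852237027) (nat_lit 76) (nat_lit 1203853942) (nat_lit 6) (nat_lit 4) (nat_lit 7) (nat_lit 5) (nat_lit 7) (nat_lit 4) (nat_lit 384) (nat_lit 212) (nat_lit 184)) (XT.lf (nat_lit 0) (nat_lit 1398962103) (nat_lit 152) (nat_lit 2936227010) (nat_lit 76) (nat_lit 47742475311) (nat_lit 5) (nat_lit 5) (nat_lit 7) (nat_lit 5) (nat_lit 6) (nat_lit 4) (nat_lit 385) (nat_lit 212) (nat_lit 183)))) (XT.nd (nat_lit 156) (nat_lit 0) (nat_lit 0) (XT.nd (nat_lit 78) (nat_lit 0) (nat_lit 0) (XT.lf (nat_lit 0) (nat_lit 2298089265) (nat_lit 76) (nat_lit 1740445635) (nat_lit 152) (nat_lit 49513702197) (nat_lit 4) (nat_lit 5) (nat_lit 5) (nat_lit 5) (nat_lit 6) (nat_lit 4) (nat_lit 386) (nat_lit 212) (nat_lit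 182)) (XT.lf (nat_lit 0) (nat_lit 6757119870) (nat_lit 152) (nat_lit 47402011931) (nat_lit 0) (nat_lit 911934480) (nat_lit 4) (nat_lit 5) (nat_lit 6) (nat_lit 4) (nat_lit 4) (nat_lit 4) (nat_lit 387) (nat_lit 212) (nat_lit 181))) (XT.nd (nat_lit 78) (nat_lit 0) (nat_lit 0) (XT.lf (nat_lit 0) (nat_lit 9536553736) (nat_lit 152) (nat_lit 43521665856) (nat_lit 0) (nat_lit 3577875679) (nat_lit 4) (nat_lit 5) (nat_lit 6) (nat_lit 4) (nat_lit 4) (nat_lit 4) (nat_lit 388) (nat_lit 212) (nat_lit 180)) (XT.lf (nat_lit 0) (nat_lit 12362534900) (nat_lit 152) (nat_lit 39592988788) (nat_lit 0) (nat_lit 6293669788) (nat_lit 4) (nat_lit 5) (nat_lit 6) (nat_lit 4) (nat_lit 4) (nat_lit 4) (nat_lit 389) (nat_lit 212) (nat_lit 179))))))) (XT.nd (nat_lit 1014) (nat_lit 0) (nat_lit 0) (XT.nd (nat_lit 468) (nat_lit 76) (nat_lit 0) (XT.nd (nat_lit 234) (nat_lit 0) (nat_lit 0) (XT.nd (nat_lit 78) (nat_lit 0) (nat_lit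 0) (XT.lf (nat_lit 0) (nat_lit 15237532667) (nat_lit 152) (nat_lit 35612547900) (nat_lit 0) (nat_lit 9061689832) (nat_lit 4) (nat_lit 5) (nat_lit 6) (nat_lit 4) (nat_lit 4) (nat_lit 4) (nat_lit 390) (nat_lit 212) (nat_lit 178)) (XT.nd (nat_lit 78) (nat_lit 0) (nat_lit 0) (XT.lf (nat_lit 0) (nat_lit 18164059170) (nat_lit 152) (nat_lit 31576865139) (nat_lit 0) (nat_lit 11884354468) (nat_lit 4) (nat_lit 5) (nat_lit 6) (nat_lit 4) (nat_lit 4) (nat_lit 4) (nat_lit 391) (nat_lit 212) (nat_lit 177)) (XT.lf (nat_lit 0) (nat_lit 21144671569) (nat_lit 152) (nat_lit 27482414178) (nat_lit 0) (nat_lit 14764130103) (nat_lit 4) (nat_lit 5) (nat_lit 6) (nat_lit 4) (nat_lit 4) (nat_lit 4) (nat_lit 392) (nat_lit 212) (nat_lit 176)))) (XT.nd (nat_lit 78) (nat_lit 0) (nat_lit 0) (XT.lf (nat_lit 0) (nat_lit 24181974282) (nat_lit 152) (nat_lit 23325617344) (nat_lit 0) (nat_lit 17703533045) (nat_lit 4) (nat_lit 5)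 (nat_lit 6) (nat_lit 4) (nat_lit 4) (nat_lit 4) (nat_lit 393) (nat_lit 212) (nat_lit 175)) (XT.nd (nat_lit 78) (nat_lit 0) (nat_lit 0) (XT.lf (nat_lit 0) (nat_lit 27278621263) (nat_lit 152) (nat_lit 19102842482) (nat_lit 0) (nat_lit 20705131704) (nat_lit 4) (nat_lit 5) (nat_lit 6) (nat_lit 4) (nat_lit 4) (nat_lit 4) (nat_lit 394) (nat_lit 212) (nat_lit 174)) (XT.lf (nat_lit 0) (nat_lit 30437318320) (nat_lit 152) (nat_lit 14810399790) (nat_lit 0) (nat_lit 23771548838) (nat_lit 4) (nat_lit 5) (nat_lit 6) (nat_lit 4) (nat_lit 4) (nat_lit 4) (nat_lit 395) (nat_lit 212) (nat_lit 173))))) (XT.nd (nat_lit 234) (nat_lit 76) (nat_lit 0) (XT.nd (nat_lit 78) (nat_lit 0) (nat_lit 0) (XT.lf (nat_lit 0) (nat_lit 33660825480) (nat_lit 152) (nat_lit 10444538589) (nat_lit 0) (nat_lit 26905463839) (nat_lit 4) (nat_lit 5) (nat_lit 6) (nat_lit 4) (nat_lit 4) (nat_lit 4) (nat_lit 396) (nat_lit 212) (nat_lit 172))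 (XT.nd (nat_lit 78) (nat_lit 0) (nat_lit 0) (XT.lf (nat_lit 0) (nat_lit 36951959399) (nat_lit 152) (nat_lit 6001444050) (nat_lit 0) (nat_lit 30109615079) (nat_lit 4) (nat_lit 5) (nat_lit 6) (nat_lit 4) (nat_lit 4) (nat_lit 4) (nat_lit 397) (nat_lit 212) (nat_lit 171)) (XT.lf (nat_lit 0) (nat_lit 40313595825) (nat_lit 152) (nat_lit 1477233857) (nat_lit 0) (nat_lit 33386802303) (nat_lit 4) (nat_lit 5) (nat_lit 6) (nat_lit 4) (nat_lit 4) (nat_lit 4) (nat_lit 398) (nat_lit 212) (nat_lit 170)))) (XT.nd (nat_lit 156) (nat_lit 0) (nat_lit 0) (XT.nd (nat_lit 78) (nat_lit 0) (nat_lit 0) (XT.lf (nat_lit 0) (nat_lit 3194379023) (nat_lit 76) (nat_lit 40584999413) (nat_lit 76) (nat_lit 33576216374) (nat_lit 3) (nat_lit 4) (nat_lit 4) (nat_lit 5) (nat_lit 4) (nat_lit 4) (nat_lit 399) (nat_lit 212) (nat_lit 169)) (XT.lf (nat_lit 0) (nat_lit 7986261320) (nat_lit 76) (nat_lit 39350697289) (nat_lit 76) (nat_lit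 32262312778) (nat_lit 3) (nat_lit 4) (nat_lit 4) (nat_lit 5) (nat_lit 4) (nat_lit 4) (nat_lit 400) (nat_lit 212) (nat_lit 168))) (XT.nd (nat_lit 78) (nat_lit 0) (nat_lit 0) (XT.lf (nat_lit 0) (nat_lit 12873200264) (nat_lit 76) (nat_lit 38101761960) (nat_lit 76) (nat_lit 30936094465) (nat_lit 3) (nat_lit 4) (nat_lit 4) (nat_lit 5) (nat_lit 4) (nat_lit 4) (nat_lit 401) (nat_lit 212) (nat_lit 167)) (XT.lf (nat_lit 0) (nat_lit 17859465995) (nat_lit 76) (nat_lit 36837102122) (nat_lit 76) (nat_lit 29596402605) (nat_lit 3) (nat_lit 4) (nat_lit 4) (nat_lit 5) (nat_lit 4) (nat_lit 4) (nat_lit 402) (nat_lit 212) (nat_lit 166)))))) (XT.nd (nat_lit 546) (nat_lit 0) (nat_lit 0) (XT.nd (nat_lit 234) (nat_lit 0) (nat_lit 0) (XT.nd (nat_lit 78) (nat_lit 0) (nat_lit 0) (XT.lf (nat_lit 0) (nat_lit 22949415446) (nat_lit 76) (nat_lit 35555612734) (nat_lit 76) (nat_lit 28242066593) (nat_lit 3) (nat_lit 4) (nat_lit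 4) (nat_lit 5) (nat_lit 4) (nat_lit 4) (nat_lit 403) (nat_lit 212) (nat_lit 165)) (XT.nd (nat_lit 78) (nat_lit 0) (nat_lit 0) (XT.lf (nat_lit 0) (nat_lit 28147496145) (nat_lit 76) (nat_lit 34256174048) (nat_lit 76) (nat_lit 26871903029) (nat_lit 3) (nat_lit 4) (nat_lit 4) (nat_lit 5) (nat_lit 4) (nat_lit 4) (nat_lit 404) (nat_lit 212) (nat_lit 164)) (XT.lf (nat_lit 0) (nat_lit 33458250103) (nat_lit 76) (nat_lit 32937650630) (nat_lit 76) (nat_lit 25484714682) (nat_lit 3) (nat_lit 4) (nat_lit 4) (nat_lit 5) (nat_lit 4) (nat_lit 4) (nat_lit 405) (nat_lit 212) (nat_lit 163)))) (XT.nd (nat_lit 156) (nat_lit 0) (nat_lit 0) (XT.nd (nat_lit 78) (nat_lit 0) (nat_lit 0) (XT.lf (nat_lit 0) (nat_lit 38886317786) (nat_lit 76) (nat_lit 31598890375) (nat_lit 76) (nat_lit 24079289446) (nat_lit 3) (nat_lit 4) (nat_lit 4) (nat_lit 5) (nat_lit 4) (nat_lit 4) (nat_lit 406) (nat_lit 212) (nat_lit 162)) (XT.lf (nat_lit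 0) (nat_lit 44436442166) (nat_lit 76) (nat_lit 30238723490) (nat_lit 76) (nat_lit 22654399280) (nat_lit 3) (nat_lit 4) (nat_lit 4) (nat_lit 5) (nat_lit 4) (nat_lit 4) (nat_lit 407) (nat_lit 212) (nat_lit 161))) (XT.nd (nat_lit 78) (nat_lit 0) (nat_lit 0) (XT.lf (nat_lit 0) (nat_lit 50113472865) (nat_lit 76) (nat_lit 28855961482) (nat_lit 76) (nat_lit 21208799134) (nat_lit 3) (nat_lit 4) (nat_lit 4) (nat_lit 5) (nat_lit 4) (nat_lit 4) (nat_lit 408) (nat_lit 212) (nat_lit 160)) (XT.lf (nat_lit 0) (nat_lit 55922370396) (nat_lit 76) (nat_lit 27449396110) (nat_lit 76) (nat_lit 19741225861) (nat_lit 3) (nat_lit 4) (nat_lit 4) (nat_lit 5) (nat_lit 4) (nat_lit 4) (nat_lit 409) (nat_lit 212) (nat_lit 159))))) (XT.nd (nat_lit 36426) (nat_lit 0) (nat_lit 684) (XT.nd (nat_lit 36270) (nat_lit 0) (nat_lit 760) (XT.lf (nat_lit 0) (nat_lit 61868210495) (nat_lit 76) (nat_lit 26017798338) (nat_lit 76) (nat_lit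 18250397118) (nat_lit 3) (nat_lit 4) (nat_lit 4) (nat_lit 5) (nat_lit 4) (nat_lit 4) (nat_lit 410) (nat_lit 212) (nat_lit 158)) (XT.nd (nat_lit 78) (nat_lit 152) (nat_lit 0) (XT.lf (nat_lit 0) (nat_lit 11264304138) (nat_lit 152) (nat_lit 122851048) (nat_lit 152) (nat_lit 122851048) (nat_lit 15) (nat_lit 4) (nat_lit 17) (nat_lit 5) (nat_lit 17) (nat_lit 4) (nat_lit 354) (nat_lit 213) (nat_lit 213)) (XT.lf (nat_lit 0) (nat_lit 3596997858) (nat_lit 152) (nat_lit 16708887922) (nat_lit 0) (nat_lit 3277645105) (nat_lit 13) (nat_lit 5) (nat_lit 15) (nat_lit 4) (nat_lit 13) (nat_lit 4) (nat_lit 355) (nat_lit 213) (nat_lit 212)))) (XT.nd (nat_lit 156) (nat_lit 76) (nat_lit 0) (XT.nd (nat_lit 78) (nat_lit 0) (nat_lit 0) (XT.lf (nat_lit 0) (nat_lit 7476688129) (nat_lit 152) (nat_lit 9842147500) (nat_lit 0) (nat_lit 6847284160) (nat_lit 13) (nat_lit 5) (nat_lit 15) (nat_lit 4) (nat_lit 13) (nat_lit 4) (nat_lit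 356) (nat_lit 213) (nat_lit 211)) (XT.lf (nat_lit 0) (nat_lit 11394326043) (nat_lit 152) (nat_lit 2910348395) (nat_lit 0) (nat_lit 10463901475) (nat_lit 13) (nat_lit 5) (nat_lit 15) (nat_lit 4) (nat_lit 13) (nat_lit 4) (nat_lit 357) (nat_lit 213) (nat_lit 210))) (XT.nd (nat_lit 78) (nat_lit 0) (nat_lit 0) (XT.lf (nat_lit 0) (nat_lit 4174016395) (nat_lit 76) (nat_lit 11219441581) (nat_lit 76) (nat_lit 9996764005) (nat_lit 12) (nat_lit 4) (nat_lit 13) (nat_lit 5) (nat_lit 13) (nat_lit 4) (nat_lit 358) (nat_lit 213) (nat_lit 209)) (XT.lf (nat_lit 0) (nat_lit 11395074593) (nat_lit 76) (nat_lit 8071635495) (nat_lit 76) (nat_lit 6565217135) (nat_lit 12) (nat_lit 4) (nat_lit 13) (nat_lit 5) (nat_lit 13) (nat_lit 4) (nat_lit 359) (nat_lit 213) (nat_lit 208))))))))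
noncomputable def xc15 : XT := (XT.nd (nat_lit 2028) (nat_lit 152) (nat_lit 0) (XT.nd (nat_lit 1014) (nat_lit 152) (nat_lit 0) (XT.nd (nat_lit 468) (nat_lit 228) (nat_lit 0) (XT.nd (nat_lit 234) (nat_lit 0) (nat_lit 0) (XT.nd (nat_lit 78) (nat_lit 152) (nat_lit 0) (XT.lf (nat_lit 0) (nat_lit 18701214220) (nat_lit 76) (nat_lit 4887894485) (nat_lit 76) (nat_lit 3105999635) (nat_lit 12) (nat_lit 4) (nat_lit 13) (nat_lit 5) (nat_lit 13) (nat_lit 4) (nat_lit 360) (nat_lit 213) (nat_lit 207)) (XT.nd (nat_lit 78) (nat_lit 76) (nat_lit 0) (XT.lf (nat_lit 0) (nat_lit 376419624) (nat_lit 152) (nat_lit 1285215915) (nat_lit 76) (nat_lit 25718598557) (nat_lit 11) (nat_lit 5) (nat_lit 13) (nat_lit 5) (nat_lit 12) (nat_lit 4) (nat_lit 361) (nat_lit 213) (nat_lit 206)) (XT.lf (nat_lit 0) (nat_lit 3901196186) (nat_lit 152) (nat_lit 22524377704) (nat_lit 0) (nat_lit 1659438161) (nat_lit 10) (nat_lit 5) (nat_lit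 12) (nat_lit 4) (nat_lit 10) (nat_lit 4) (nat_lit 362) (nat_lit 213) (nat_lit 205)))) (XT.nd (nat_lit 78) (nat_lit 0) (nat_lit 0) (XT.lf (nat_lit 0) (nat_lit 7492004071) (nat_lit 152) (nat_lit 16314661364) (nat_lit 0) (nat_lit 5005488754) (nat_lit 10) (nat_lit 5) (nat_lit 12) (nat_lit 4) (nat_lit 10) (nat_lit 4) (nat_lit 363) (nat_lit 213) (nat_lit 204)) (XT.nd (nat_lit 78) (nat_lit 0) (nat_lit 0) (XT.lf (nat_lit 0) (nat_lit 11123283313) (nat_lit 152) (nat_lit 10040733935) (nat_lit 0) (nat_lit 8399139555) (nat_lit 10) (nat_lit 5) (nat_lit 12) (nat_lit 4) (nat_lit 10) (nat_lit 4) (nat_lit 364) (nat_lit 213) (nat_lit 203)) (XT.lf (nat_lit 0) (nat_lit 14798206872) (nat_lit 152) (nat_lit 3697113345) (nat_lit 0) (nat_lit 11843355891) (nat_lit 10) (nat_lit 5) (nat_lit 12) (nat_lit 4) (nat_lit 10) (nat_lit 4) (nat_lit 365) (nat_lit 213) (nat_lit 202))))) (XT.nd (nat_lit 234) (nat_lit 152) (nat_lit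 0) (XT.nd (nat_lit 78) (nat_lit 0) (nat_lit 0) (XT.lf (nat_lit 0) (nat_lit 2775911405) (nat_lit 76) (nat_lit 15770758200) (nat_lit 76) (nat_lit 12591919624) (nat_lit 9) (nat_lit 4) (nat_lit 10) (nat_lit 5) (nat_lit 10) (nat_lit 4) (nat_lit 366) (nat_lit 213) (nat_lit 201)) (XT.nd (nat_lit 78) (nat_lit 0) (nat_lit 0) (XT.lf (nat_lit 0) (nat_lit 9404969771) (nat_lit 76) (nat_lit 12977308829) (nat_lit 76) (nat_lit 9581006568) (nat_lit 9) (nat_lit 4) (nat_lit 10) (nat_lit 5) (nat_lit 10) (nat_lit 4) (nat_lit 367) (nat_lit 213) (nat_lit 200)) (XT.lf (nat_lit 0) (nat_lit 16122274330) (nat_lit 76) (nat_lit 10149864822) (nat_lit 76) (nat_lit 6542432769) (nat_lit 9) (nat_lit 4) (nat_lit 10) (nat_lit 5) (nat_lit 10) (nat_lit 4) (nat_lit 368) (nat_lit 213) (nat_lit 199)))) (XT.nd (nat_lit 156) (nat_lit 152) (nat_lit 0) (XT.nd (nat_lit 78) (nat_lit 0) (nat_lit 0) (XT.lf (nat_lit 0) (nat_lit 22933694570)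 (nat_lit 76) (nat_lit 7285955596) (nat_lit 76) (nat_lit 3473543163) (nat_lit 9) (nat_lit 4) (nat_lit 10) (nat_lit 5) (nat_lit 10) (nat_lit 4) (nat_lit 369) (nat_lit 213) (nat_lit 198)) (XT.lf (nat_lit 0) (nat_lit 29845182219) (nat_lit 76) (nat_lit 4383078706) (nat_lit 76) (nat_lit 371656196) (nat_lit 9) (nat_lit 4) (nat_lit 10) (nat_lit 5) (nat_lit 10) (nat_lit 4) (nat_lit 370) (nat_lit 213) (nat_lit 197))) (XT.nd (nat_lit 78) (nat_lit 0) (nat_lit 0) (XT.lf (nat_lit 0) (nat_lit 1326538512) (nat_lit 76) (nat_lit 1398178083) (nat_lit 152) (nat_lit 32809638801) (nat_lit 7) (nat_lit 5) (nat_lit 8) (nat_lit 5) (nat_lit 9) (nat_lit 4) (nat_lit 371) (nat_lit 213) (nat_lit 196)) (XT.lf (nat_lit 0) (nat_lit 5915106004) (nat_lit 152) (nat_lit 28930561954) (nat_lit 0) (nat_lit 1650812546) (nat_lit 7) (nat_lit 5) (nat_lit 9) (nat_lit 4) (nat_lit 7) (nat_lit 4) (nat_lit 372) (nat_lit 213) (nat_lit 195))))))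 (XT.nd (nat_lit 468) (nat_lit 76) (nat_lit 0) (XT.nd (nat_lit 234) (nat_lit 76) (nat_lit 0) (XT.nd (nat_lit 78) (nat_lit 0) (nat_lit 0) (XT.lf (nat_lit 0) (nat_lit 9160674855) (nat_lit 152) (nat_lit 23608468257) (nat_lit 0) (nat_lit 4719563520) (nat_lit 7) (nat_lit 5) (nat_lit 9) (nat_lit 4) (nat_lit 7) (nat_lit 4) (nat_lit 373) (nat_lit 213) (nat_lit 194)) (XT.nd (nat_lit 78) (nat_lit 0) (nat_lit 0) (XT.lf (nat_lit 0) (nat_lit 12450818940) (nat_lit 152) (nat_lit 18223445276) (nat_lit 0) (nat_lit 7838039764) (nat_lit 7) (nat_lit 5) (nat_lit 9) (nat_lit 4) (nat_lit 7) (nat_lit 4) (nat_lit 374) (nat_lit 213) (nat_lit 193)) (XT.lf (nat_lit 0) (nat_lit 15788413140) (nat_lit 152) (nat_lit 12770787652) (nat_lit 0) (nat_lit 11008966158) (nat_lit 7) (nat_lit 5) (nat_lit 9) (nat_lit 4) (nat_lit 7) (nat_lit 4) (nat_lit 375) (nat_lit 213) (nat_lit 192)))) (XT.nd (nat_lit 78) (nat_lit 76) (nat_lit 0) (XT.lf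 (nat_lit 0) (nat_lit 19176373802) (nat_lit 152) (nat_lit 7245730926) (nat_lit 0) (nat_lit 14235113415) (nat_lit 7) (nat_lit 5) (nat_lit 9) (nat_lit 4) (nat_lit 7) (nat_lit 4) (nat_lit 376) (nat_lit 213) (nat_lit 191)) (XT.nd (nat_lit 78) (nat_lit 76) (nat_lit 0) (XT.lf (nat_lit 0) (nat_lit 22617661279) (nat_lit 152) (nat_lit 1643447379) (nat_lit 0) (nat_lit 17519300499) (nat_lit 7) (nat_lit 5) (nat_lit 9) (nat_lit 4) (nat_lit 7) (nat_lit 4) (nat_lit 377) (nat_lit 213) (nat_lit 190)) (XT.lf (nat_lit 0) (nat_lit 4121381179) (nat_lit 76) (nat_lit 22033518578) (nat_lit 76) (nat_lit 16782633145) (nat_lit 6) (nat_lit 4) (nat_lit 7) (nat_lit 5) (nat_lit 7) (nat_lit 4) (nat_lit 378) (nat_lit 213) (nat_lit 189))))) (XT.nd (nat_lit 234) (nat_lit 76) (nat_lit 0) (XT.nd (nat_lit 78) (nat_lit 0) (nat_lit 0) (XT.lf (nat_lit 0) (nat_lit 10007739781) (nat_lit 76) (nat_lit 19760754437) (nat_lit 76) (nat_lit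 14361786816) (nat_lit 6) (nat_lit 4) (nat_lit 7) (nat_lit 5) (nat_lit 7) (nat_lit 4) (nat_lit 379) (nat_lit 213) (nat_lit 188)) (XT.nd (nat_lit 78) (nat_lit 0) (nat_lit 0) (XT.lf (nat_lit 0) (nat_lit 15988064021) (nat_lit 76) (nat_lit 17457425920) (nat_lit 76) (nat_lit 11914689184) (nat_lit 6) (nat_lit 4) (nat_lit 7) (nat_lit 5) (nat_lit 7) (nat_lit 4) (nat_lit 380) (nat_lit 213) (nat_lit 187)) (XT.lf (nat_lit 0) (nat_lit 22067579425) (nat_lit 76) (nat_lit 15121520409) (nat_lit 76) (nat_lit 9439202010) (nat_lit 6) (nat_lit 4) (nat_lit 7) (nat_lit 5) (nat_lit 7) (nat_lit 4) (nat_lit 381) (nat_lit 213) (nat_lit 186)))) (XT.nd (nat_lit 156) (nat_lit 76) (nat_lit 0) (XT.nd (nat_lit 78) (nat_lit 0) (nat_lit 0) (XT.lf (nat_lit 0) (nat_lit 28251598191) (nat_lit 76) (nat_lit 12750996823) (nat_lit 76) (nat_lit 6933162245) (nat_lit 6) (nat_lit 4) (nat_lit 7) (nat_lit 5) (nat_lit 7) (nat_lit 4) (nat_lit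 382) (nat_lit 213) (nat_lit 185)) (XT.lf (nat_lit 0) (nat_lit 34545523831) (nat_lit 76) (nat_lit 10343783831) (nat_lit 76) (nat_lit 4394380146) (nat_lit 6) (nat_lit 4) (nat_lit 7) (nat_lit 5) (nat_lit 7) (nat_lit 4) (nat_lit 383) (nat_lit 213) (nat_lit 184))) (XT.nd (nat_lit 78) (nat_lit 76) (nat_lit 0) (XT.lf (nat_lit 0) (nat_lit 40954855891) (nat_lit 76) (nat_lit 7897778041) (nat_lit 76) (nat_lit 1820637361) (nat_lit 6) (nat_lit 4) (nat_lit 7) (nat_lit 5) (nat_lit 7) (nat_lit 4) (nat_lit 384) (nat_lit 213) (nat_lit 183)) (XT.lf (nat_lit 0) (nat_lit 774893119) (nat_lit 152) (nat_lit 4628124148) (nat_lit 76) (nat_lit 46702476738) (nat_lit 5) (nat_lit 5) (nat_lit 7) (nat_lit 5) (nat_lit 6) (nat_lit 4) (nat_lit 385) (nat_lit 213) (nat_lit 182))))))) (XT.nd (nat_lit 1014) (nat_lit 76) (nat_lit 0) (XT.nd (nat_lit 468) (nat_lit 0) (nat_lit 0) (XT.nd (nat_lit 234) (nat_lit 0) (nat_lit 0) (XT.nd (nat_lit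 78) (nat_lit 0) (nat_lit 0) (XT.lf (nat_lit 0) (nat_lit 537366508) (nat_lit 76) (nat_lit 2841415786) (nat_lit 152) (nat_lit 50202361828) (nat_lit 4) (nat_lit 5) (nat_lit 5) (nat_lit 5) (nat_lit 6) (nat_lit 4) (nat_lit 386) (nat_lit 213) (nat_lit 181)) (XT.nd (nat_lit 78) (nat_lit 0) (nat_lit 0) (XT.lf (nat_lit 0) (nat_lit 5883410685) (nat_lit 76) (nat_lit 186475857) (nat_lit 152) (nat_lit 49030917920) (nat_lit 4) (nat_lit 5) (nat_lit 5) (nat_lit 5) (nat_lit 6) (nat_lit 4) (nat_lit 387) (nat_lit 213) (nat_lit 180)) (XT.lf (nat_lit 0) (nat_lit 8829382215) (nat_lit 152) (nat_lit 45368791827) (nat_lit 0) (nat_lit 2468264095) (nat_lit 4) (nat_lit 5) (nat_lit 6) (nat_lit 4) (nat_lit 4) (nat_lit 4) (nat_lit 388) (nat_lit 213) (nat_lit 179)))) (XT.nd (nat_lit 78) (nat_lit 0) (nat_lit 0) (XT.lf (nat_lit 0) (nat_lit 11637746220) (nat_lit 152) (nat_lit 41472674608) (nat_lit 0) (nat_lit 5169650377) (nat_lit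 4) (nat_lit 5) (nat_lit 6) (nat_lit 4) (nat_lit 4) (nat_lit 4) (nat_lit 389) (nat_lit 213) (nat_lit 178)) (XT.nd (nat_lit 78) (nat_lit 0) (nat_lit 0) (XT.lf (nat_lit 0) (nat_lit 14495639949) (nat_lit 152) (nat_lit 37523845224) (nat_lit 0) (nat_lit 7923682239) (nat_lit 4) (nat_lit 5) (nat_lit 6) (nat_lit 4) (nat_lit 4) (nat_lit 4) (nat_lit 390) (nat_lit 213) (nat_lit 177)) (XT.lf (nat_lit 0) (nat_lit 17405560591) (nat_lit 152) (nat_lit 33518853243) (nat_lit 0) (nat_lit 10732766116) (nat_lit 4) (nat_lit 5) (nat_lit 6) (nat_lit 4) (nat_lit 4) (nat_lit 4) (nat_lit 391) (nat_lit 213) (nat_lit 176))))) (XT.nd (nat_lit 234) (nat_lit 0) (nat_lit 0) (XT.nd (nat_lit 78) (nat_lit 0) (nat_lit 0) (XT.lf (nat_lit 0) (nat_lit 20370050794) (nat_lit 152) (nat_lit 29454199156) (nat_lit 0) (nat_lit 13599356548) (nat_lit 4) (nat_lit 5) (nat_lit 6) (nat_lit 4) (nat_lit 4) (nat_lit 4) (nat_lit 392) (nat_lit 213)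 (nat_lit 175)) (XT.nd (nat_lit 78) (nat_lit 0) (nat_lit 0) (XT.lf (nat_lit 0) (nat_lit 23391700889) (nat_lit 152) (nat_lit 25326331326) (nat_lit 0) (nat_lit 16525958323) (nat_lit 4) (nat_lit 5) (nat_lit 6) (nat_lit 4) (nat_lit 4) (nat_lit 4) (nat_lit 393) (nat_lit 213) (nat_lit 174)) (XT.lf (nat_lit 0) (nat_lit 26473151154) (nat_lit 152) (nat_lit 21131642875) (nat_lit 0) (nat_lit 19515128664) (nat_lit 4) (nat_lit 5) (nat_lit 6) (nat_lit 4) (nat_lit 4) (nat_lit 4) (nat_lit 394) (nat_lit 213) (nat_lit 173)))) (XT.nd (nat_lit 156) (nat_lit 0) (nat_lit 0) (XT.nd (nat_lit 78) (nat_lit 0) (nat_lit 0) (XT.lf (nat_lit 0) (nat_lit 29617094118) (nat_lit 152) (nat_lit 16866468544) (nat_lit 0) (nat_lit 22569479469) (nat_lit 4) (nat_lit 5) (nat_lit 6) (nat_lit 4) (nat_lit 4) (nat_lit 4) (nat_lit 395) (nat_lit 213) (nat_lit 172)) (XT.lf (nat_lit 0) (nat_lit 32826276916) (nat_lit 152) (nat_lit 12527081480)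 (nat_lit 0) (nat_lit 25691679588) (nat_lit 4) (nat_lit 5) (nat_lit 6) (nat_lit 4) (nat_lit 4) (nat_lit 4) (nat_lit 396) (nat_lit 213) (nat_lit 171))) (XT.nd (nat_lit 78) (nat_lit 0) (nat_lit 0) (XT.lf (nat_lit 0) (nat_lit 36103503687) (nat_lit 152) (nat_lit 8109689987) (nat_lit 0) (nat_lit 28884457157) (nat_lit 4) (nat_lit 5) (nat_lit 6) (nat_lit 4) (nat_lit 4) (nat_lit 4) (nat_lit 397) (nat_lit 213) (nat_lit 170)) (XT.lf (nat_lit 0) (nat_lit 39451638028) (nat_lit 152) (nat_lit 3610434206) (nat_lit 0) (nat_lit 32150601981) (nat_lit 4) (nat_lit 5) (nat_lit 6) (nat_lit 4) (nat_lit 4) (nat_lit 4) (nat_lit 398) (nat_lit 213) (nat_lit 169)))))) (XT.nd (nat_lit 546) (nat_lit 0) (nat_lit 0) (XT.nd (nat_lit 234) (nat_lit 0) (nat_lit 0) (XT.nd (nat_lit 78) (nat_lit 0) (nat_lit 0) (XT.lf (nat_lit 0) (nat_lit 994014042) (nat_lit 76) (nat_lit 41889146522) (nat_lit 76) (nat_lit 34508509002) (nat_lit 3) (nat_lit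 4) (nat_lit 4) (nat_lit 5) (nat_lit 4) (nat_lit 4) (nat_lit 399) (nat_lit 213) (nat_lit 168)) (XT.nd (nat_lit 78) (nat_lit 0) (nat_lit 0) (XT.lf (nat_lit 0) (nat_lit 5761906279) (nat_lit 76) (nat_lit 40665876840) (nat_lit 76) (nat_lit 33207956338) (nat_lit 3) (nat_lit 4) (nat_lit 4) (nat_lit 5) (nat_lit 4) (nat_lit 4) (nat_lit 400) (nat_lit 213) (nat_lit 167)) (XT.lf (nat_lit 0) (nat_lit 10625553902) (nat_lit 76) (nat_lit 39427652620) (nat_lit 76) (nat_lit 31894700095) (nat_lit 3) (nat_lit 4) (nat_lit 4) (nat_lit 5) (nat_lit 4) (nat_lit 4) (nat_lit 401) (nat_lit 213) (nat_lit 166)))) (XT.nd (nat_lit 156) (nat_lit 0) (nat_lit 0) (XT.nd (nat_lit 78) (nat_lit 0) (nat_lit 0) (XT.lf (nat_lit 0) (nat_lit 15589206702) (nat_lit 76) (nat_lit 38173391918) (nat_lit 76) (nat_lit 30567592769) (nat_lit 3) (nat_lit 4) (nat_lit 4) (nat_lit 5) (nat_lit 4) (nat_lit 4) (nat_lit 402) (nat_lit 213) (nat_lit 165))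 (XT.lf (nat_lit 0) (nat_lit 20657201849) (nat_lit 76) (nat_lit 36901998778) (nat_lit 76) (nat_lit 29225474751) (nat_lit 3) (nat_lit 4) (nat_lit 4) (nat_lit 5) (nat_lit 4) (nat_lit 4) (nat_lit 403) (nat_lit 213) (nat_lit 164))) (XT.nd (nat_lit 78) (nat_lit 0) (nat_lit 0) (XT.lf (nat_lit 0) (nat_lit 25833967690) (nat_lit 76) (nat_lit 35612362273) (nat_lit 76) (nat_lit 27867173317) (nat_lit 3) (nat_lit 4) (nat_lit 4) (nat_lit 5) (nat_lit 4) (nat_lit 4) (nat_lit 404) (nat_lit 213) (nat_lit 163)) (XT.lf (nat_lit 0) (nat_lit 31124027612) (nat_lit 76) (nat_lit 34303355538) (nat_lit 76) (nat_lit 26491501601) (nat_lit 3) (nat_lit 4) (nat_lit 4) (nat_lit 5) (nat_lit 4) (nat_lit 4) (nat_lit 405) (nat_lit 213) (nat_lit 162))))) (XT.nd (nat_lit 234) (nat_lit 0) (nat_lit 0) (XT.nd (nat_lit 78) (nat_lit 0) (nat_lit 0) (XT.lf (nat_lit 0) (nat_lit 36532003997) (nat_lit 76) (nat_lit 32973834779) (nat_lit 76)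 (nat_lit 25097257561) (nat_lit 3) (nat_lit 4) (nat_lit 4) (nat_lit 5) (nat_lit 4) (nat_lit 4) (nat_lit 406) (nat_lit 213) (nat_lit 161)) (XT.nd (nat_lit 78) (nat_lit 0) (nat_lit 0) (XT.lf (nat_lit 0) (nat_lit 42062622263) (nat_lit 76) (nat_lit 31622638280) (nat_lit 76) (nat_lit 23683222924) (nat_lit 3) (nat_lit 4) (nat_lit 4) (nat_lit 5) (nat_lit 4) (nat_lit 4) (nat_lit 407) (nat_lit 213) (nat_lit 160)) (XT.lf (nat_lit 0) (nat_lit 47720714987) (nat_lit 76) (nat_lit 30248585384) (nat_lit 76) (nat_lit 22248162127) (nat_lit 3) (nat_lit 4) (nat_lit 4) (nat_lit 5) (nat_lit 4) (nat_lit 4) (nat_lit 408) (nat_lit 213) (nat_lit 159)))) (XT.nd (nat_lit 36270) (nat_lit 0) (nat_lit 836) (XT.nd (nat_lit 36192) (nat_lit 0) (nat_lit 912) (XT.lf (nat_lit 0) (nat_lit 53511226135) (nat_lit 76) (nat_lit 28850475461) (nat_lit 76) (nat_lit 20790821232) (nat_lit 3) (nat_lit 4) (nat_lit 4) (nat_lit 5) (nat_lit 4)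 (nat_lit 4) (nat_lit 409) (nat_lit 213) (nat_lit 158)) (XT.lf (nat_lit 0) (nat_lit 3566326079) (nat_lit 152) (nat_lit 3701838571) (nat_lit 152) (nat_lit 3701838571) (nat_lit 15) (nat_lit 4) (nat_lit 17) (nat_lit 5) (nat_lit 17) (nat_lit 4) (nat_lit 352) (nat_lit 214) (nat_lit 214))) (XT.nd (nat_lit 78) (nat_lit 76) (nat_lit 0) (XT.lf (nat_lit 0) (nat_lit 14752634418) (nat_lit 152) (nat_lit 4028791850) (nat_lit 152) (nat_lit 3689990514) (nat_lit 15) (nat_lit 4) (nat_lit 17) (nat_lit 5) (nat_lit 17) (nat_lit 4) (nat_lit 353) (nat_lit 214) (nat_lit 213)) (XT.lf (nat_lit 0) (nat_lit 51294423) (nat_lit 228) (nat_lit 563606991) (nat_lit 76) (nat_lit 22406302803) (nat_lit 14) (nat_lit 5) (nat_lit 17) (nat_lit 5) (nat_lit 15) (nat_lit 4) (nat_lit 354) (nat_lit 214) (nat_lit 212))))))))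
noncomputable def xc16 : XT := (XT.nd (nat_lit 2028) (nat_lit 228) (nat_lit 0) (XT.nd (nat_lit 1014) (nat_lit 228) (nat_lit 0) (XT.nd (nat_lit 468) (nat_lit 228) (nat_lit 0) (XT.nd (nat_lit 234) (nat_lit 76) (nat_lit 0) (XT.nd (nat_lit 78) (nat_lit 0) (nat_lit 0) (XT.lf (nat_lit 0) (nat_lit 3845134835) (nat_lit 152) (nat_lit 16854059759) (nat_lit 0) (nat_lit 2886797531) (nat_lit 13) (nat_lit 5) (nat_lit 15) (nat_lit 4) (nat_lit 13) (nat_lit 4) (nat_lit 355) (nat_lit 214) (nat_lit 211)) (XT.nd (nat_lit 78) (nat_lit 0) (nat_lit 0) (XT.lf (nat_lit 0) (nat_lit 7686183202) (nat_lit 152) (nat_lit 10056749647) (nat_lit 0) (nat_lit 6426825300) (nat_lit 13) (nat_lit 5) (nat_lit 15) (nat_lit 4) (nat_lit 13) (nat_lit 4) (nat_lit 356) (nat_lit 214) (nat_lit 210)) (XT.lf (nat_lit 0) (nat_lit 11566304704) (nat_lit 152) (nat_lit 3192358612) (nat_lit 0) (nat_lit 10014693793) (nat_lit 13) (nat_lit 5) (nat_lit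 15) (nat_lit 4) (nat_lit 13) (nat_lit 4) (nat_lit 357) (nat_lit 214) (nat_lit 209)))) (XT.nd (nat_lit 78) (nat_lit 0) (nat_lit 0) (XT.lf (nat_lit 0) (nat_lit 3819646418) (nat_lit 76) (nat_lit 11705960097) (nat_lit 76) (nat_lit 9870608402) (nat_lit 12) (nat_lit 4) (nat_lit 13) (nat_lit 5) (nat_lit 13) (nat_lit 4) (nat_lit 358) (nat_lit 214) (nat_lit 208)) (XT.nd (nat_lit 78) (nat_lit 0) (nat_lit 0) (XT.lf (nat_lit 0) (nat_lit 10975901504) (nat_lit 76) (nat_lit 8586971380) (nat_lit 76) (nat_lit 6476143195) (nat_lit 12) (nat_lit 4) (nat_lit 13) (nat_lit 5) (nat_lit 13) (nat_lit 4) (nat_lit 359) (nat_lit 214) (nat_lit 207)) (XT.lf (nat_lit 0) (nat_lit 18219125488) (nat_lit 76) (nat_lit 5431208397) (nat_lit 76) (nat_lit 3052927309) (nat_lit 12) (nat_lit 4) (nat_lit 13) (nat_lit 5) (nat_lit 13) (nat_lit 4) (nat_lit 360) (nat_lit 214) (nat_lit 206))))) (XT.nd (nat_lit 234) (nat_lit 76) (nat_lit 0)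 (XT.nd (nat_lit 78) (nat_lit 76) (nat_lit 0) (XT.lf (nat_lit 0) (nat_lit 394185353) (nat_lit 152) (nat_lit 1837747832) (nat_lit 76) (nat_lit 25157481548) (nat_lit 11) (nat_lit 5) (nat_lit 13) (nat_lit 5) (nat_lit 12) (nat_lit 4) (nat_lit 361) (nat_lit 214) (nat_lit 205)) (XT.nd (nat_lit 78) (nat_lit 0) (nat_lit 0) (XT.lf (nat_lit 0) (nat_lit 3873885869) (nat_lit 152) (nat_lit 23153655827) (nat_lit 0) (nat_lit 1068017799) (nat_lit 10) (nat_lit 5) (nat_lit 12) (nat_lit 4) (nat_lit 10) (nat_lit 4) (nat_lit 362) (nat_lit 214) (nat_lit 204)) (XT.lf (nat_lit 0) (nat_lit 7431564257) (nat_lit 152) (nat_lit 17004077616) (nat_lit 0) (nat_lit 4388067746) (nat_lit 10) (nat_lit 5) (nat_lit 12) (nat_lit 4) (nat_lit 10) (nat_lit 4) (nat_lit 363) (nat_lit 214) (nat_lit 203)))) (XT.nd (nat_lit 156) (nat_lit 76) (nat_lit 0) (XT.nd (nat_lit 78) (nat_lit 0) (nat_lit 0) (XT.lf (nat_lit 0) (nat_lit 11030678937) (nat_lit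 152) (nat_lit 10788536719) (nat_lit 0) (nat_lit 7756475203) (nat_lit 10) (nat_lit 5) (nat_lit 12) (nat_lit 4) (nat_lit 10) (nat_lit 4) (nat_lit 364) (nat_lit 214) (nat_lit 202)) (XT.lf (nat_lit 0) (nat_lit 14674374766) (nat_lit 152) (nat_lit 4501602084) (nat_lit 0) (nat_lit 11176183437) (nat_lit 10) (nat_lit 5) (nat_lit 12) (nat_lit 4) (nat_lit 10) (nat_lit 4) (nat_lit 365) (nat_lit 214) (nat_lit 201))) (XT.nd (nat_lit 78) (nat_lit 0) (nat_lit 0) (XT.lf (nat_lit 0) (nat_lit 1899281553) (nat_lit 76) (nat_lit 16484811061) (nat_lit 76) (nat_lit 12769156046) (nat_lit 9) (nat_lit 4) (nat_lit 10) (nat_lit 5) (nat_lit 10) (nat_lit 4) (nat_lit 366) (nat_lit 214) (nat_lit 200)) (XT.lf (nat_lit 0) (nat_lit 8473844570) (nat_lit 76) (nat_lit 13715898066) (nat_lit 76) (nat_lit 9789113261) (nat_lit 9) (nat_lit 4) (nat_lit 10) (nat_lit 5) (nat_lit 10) (nat_lit 4) (nat_lit 367) (nat_lit 214) (nat_lit 199))))))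 (XT.nd (nat_lit 468) (nat_lit 76) (nat_lit 0) (XT.nd (nat_lit 234) (nat_lit 152) (nat_lit 0) (XT.nd (nat_lit 78) (nat_lit 0) (nat_lit 0) (XT.lf (nat_lit 0) (nat_lit 15138241023) (nat_lit 76) (nat_lit 10912275784) (nat_lit 76) (nat_lit 6780510599) (nat_lit 9) (nat_lit 4) (nat_lit 10) (nat_lit 5) (nat_lit 10) (nat_lit 4) (nat_lit 368) (nat_lit 214) (nat_lit 198)) (XT.nd (nat_lit 78) (nat_lit 0) (nat_lit 0) (XT.lf (nat_lit 0) (nat_lit 21898294170) (nat_lit 76) (nat_lit 8071494446) (nat_lit 76) (nat_lit 3740719183) (nat_lit 9) (nat_lit 4) (nat_lit 10) (nat_lit 5) (nat_lit 10) (nat_lit 4) (nat_lit 369) (nat_lit 214) (nat_lit 197)) (XT.lf (nat_lit 0) (nat_lit 28759910854) (nat_lit 76) (nat_lit 5191071816) (nat_lit 76) (nat_lit 667082886) (nat_lit 9) (nat_lit 4) (nat_lit 10) (nat_lit 5) (nat_lit 10) (nat_lit 4) (nat_lit 370) (nat_lit 214) (nat_lit 196)))) (XT.nd (nat_lit 78) (nat_lit 0) (nat_lit 0)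 (XT.lf (nat_lit 0) (nat_lit 154115911) (nat_lit 76) (nat_lit 2242776170) (nat_lit 152) (nat_lit 33156852633) (nat_lit 7) (nat_lit 5) (nat_lit 8) (nat_lit 5) (nat_lit 9) (nat_lit 4) (nat_lit 371) (nat_lit 214) (nat_lit 195)) (XT.nd (nat_lit 78) (nat_lit 0) (nat_lit 0) (XT.lf (nat_lit 0) (nat_lit 5552376693) (nat_lit 152) (nat_lit 30163336623) (nat_lit 0) (nat_lit 801214142) (nat_lit 7) (nat_lit 5) (nat_lit 9) (nat_lit 4) (nat_lit 7) (nat_lit 4) (nat_lit 372) (nat_lit 214) (nat_lit 194)) (XT.lf (nat_lit 0) (nat_lit 8771939715) (nat_lit 152) (nat_lit 24888894910) (nat_lit 0) (nat_lit 3849109323) (nat_lit 7) (nat_lit 5) (nat_lit 9) (nat_lit 4) (nat_lit 7) (nat_lit 4) (nat_lit 373) (nat_lit 214) (nat_lit 193))))) (XT.nd (nat_lit 234) (nat_lit 76) (nat_lit 0) (XT.nd (nat_lit 78) (nat_lit 0) (nat_lit 0) (XT.lf (nat_lit 0) (nat_lit 12036835422) (nat_lit 152) (nat_lit 19550135991) (nat_lit 0) (nat_lit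 6947337224) (nat_lit 7) (nat_lit 5) (nat_lit 9) (nat_lit 4) (nat_lit 7) (nat_lit 4) (nat_lit 374) (nat_lit 214) (nat_lit 192)) (XT.nd (nat_lit 78) (nat_lit 0) (nat_lit 0) (XT.lf (nat_lit 0) (nat_lit 15349916635) (nat_lit 152) (nat_lit 14142394932) (nat_lit 0) (nat_lit 10098605032) (nat_lit 7) (nat_lit 5) (nat_lit 9) (nat_lit 4) (nat_lit 7) (nat_lit 4) (nat_lit 375) (nat_lit 214) (nat_lit 191)) (XT.lf (nat_lit 0) (nat_lit 18714078280) (nat_lit 152) (nat_lit 8660946521) (nat_lit 0) (nat_lit 13305666284) (nat_lit 7) (nat_lit 5) (nat_lit 9) (nat_lit 4) (nat_lit 7) (nat_lit 4) (nat_lit 376) (nat_lit 214) (nat_lit 190)))) (XT.nd (nat_lit 156) (nat_lit 0) (nat_lit 0) (XT.nd (nat_lit 78) (nat_lit 76) (nat_lit 0) (XT.lf (nat_lit 0) (nat_lit 22132259915) (nat_lit 152) (nat_lit 3101001145) (nat_lit 0) (nat_lit 16571323265) (nat_lit 7) (nat_lit 5) (nat_lit 9) (nat_lit 4) (nat_lit 7) (nat_lit 4) (nat_lit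 377) (nat_lit 214) (nat_lit 189)) (XT.lf (nat_lit 0) (nat_lit 2592896144) (nat_lit 76) (nat_lit 23039476659) (nat_lit 76) (nat_lit 17330457822) (nat_lit 6) (nat_lit 4) (nat_lit 7) (nat_lit 5) (nat_lit 7) (nat_lit 4) (nat_lit 378) (nat_lit 214) (nat_lit 188))) (XT.nd (nat_lit 78) (nat_lit 0) (nat_lit 0) (XT.lf (nat_lit 0) (nat_lit 8438552717) (nat_lit 76) (nat_lit 20785243822) (nat_lit 76) (nat_lit 14932455871) (nat_lit 6) (nat_lit 4) (nat_lit 7) (nat_lit 5) (nat_lit 7) (nat_lit 4) (nat_lit 379) (nat_lit 214) (nat_lit 187)) (XT.lf (nat_lit 0) (nat_lit 14379360423) (nat_lit 76) (nat_lit 18499906863) (nat_lit 76) (nat_lit 12507537247) (nat_lit 6) (nat_lit 4) (nat_lit 7) (nat_lit 5) (nat_lit 7) (nat_lit 4) (nat_lit 380) (nat_lit 214) (nat_lit 186))))))) (XT.nd (nat_lit 1014) (nat_lit 76) (nat_lit 0) (XT.nd (nat_lit 468) (nat_lit 76) (nat_lit 0) (XT.nd (nat_lit 234) (nat_lit 76) (nat_lit 0) (XT.nd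 (nat_lit 78) (nat_lit 0) (nat_lit 0) (XT.lf (nat_lit 0) (nat_lit 20420510261) (nat_lit 76) (nat_lit 16181468885) (nat_lit 76) (nat_lit 10053583090) (nat_lit 6) (nat_lit 4) (nat_lit 7) (nat_lit 5) (nat_lit 7) (nat_lit 4) (nat_lit 381) (nat_lit 214) (nat_lit 185)) (XT.nd (nat_lit 78) (nat_lit 0) (nat_lit 0) (XT.lf (nat_lit 0) (nat_lit 26567280904) (nat_lit 76) (nat_lit 13827904068) (nat_lit 76) (nat_lit 7568449167) (nat_lit 6) (nat_lit 4) (nat_lit 7) (nat_lit 5) (nat_lit 7) (nat_lit 4) (nat_lit 382) (nat_lit 214) (nat_lit 184)) (XT.lf (nat_lit 0) (nat_lit 32825043318) (nat_lit 76) (nat_lit 11437155899) (nat_lit 76) (nat_lit 5049964003) (nat_lit 6) (nat_lit 4) (nat_lit 7) (nat_lit 5) (nat_lit 7) (nat_lit 4) (nat_lit 383) (nat_lit 214) (nat_lit 183)))) (XT.nd (nat_lit 78) (nat_lit 76) (nat_lit 0) (XT.lf (nat_lit 0) (nat_lit 39199265450) (nat_lit 76) (nat_lit 9007135376) (nat_lit 76) (nat_lit 2495926978)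 (nat_lit 6) (nat_lit 4) (nat_lit 7) (nat_lit 5) (nat_lit 7) (nat_lit 4) (nat_lit 384) (nat_lit 214) (nat_lit 182)) (XT.nd (nat_lit 78) (nat_lit 0) (nat_lit 0) (XT.lf (nat_lit 0) (nat_lit 94022358) (nat_lit 152) (nat_lit 6440747379) (nat_lit 76) (nat_lit 45600545208) (nat_lit 5) (nat_lit 5) (nat_lit 7) (nat_lit 5) (nat_lit 6) (nat_lit 4) (nat_lit 385) (nat_lit 214) (nat_lit 181)) (XT.lf (nat_lit 0) (nat_lit 2674533925) (nat_lit 152) (nat_lit 1319206344) (nat_lit 76) (nat_lit 49617932856) (nat_lit 5) (nat_lit 5) (nat_lit 7) (nat_lit 5) (nat_lit 6) (nat_lit 4) (nat_lit 386) (nat_lit 214) (nat_lit 180))))) (XT.nd (nat_lit 234) (nat_lit 0) (nat_lit 0) (XT.nd (nat_lit 78) (nat_lit 0) (nat_lit 0) (XT.lf (nat_lit 0) (nat_lit 3967447448) (nat_lit 76) (nat_lit 1367257146) (nat_lit 152) (nat_lit 49797563417) (nat_lit 4) (nat_lit 5) (nat_lit 5) (nat_lit 5) (nat_lit 6) (nat_lit 4) (nat_lit 387) (nat_lit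 214) (nat_lit 179)) (XT.nd (nat_lit 78) (nat_lit 0) (nat_lit 0) (XT.lf (nat_lit 0) (nat_lit 8065232716) (nat_lit 152) (nat_lit 47337428071) (nat_lit 0) (nat_lit 1296116275) (nat_lit 4) (nat_lit 5) (nat_lit 6) (nat_lit 4) (nat_lit 4) (nat_lit 4) (nat_lit 388) (nat_lit 214) (nat_lit 178)) (XT.lf (nat_lit 0) (nat_lit 10856492684) (nat_lit 152) (nat_lit 43472922355) (nat_lit 0) (nat_lit 3983514375) (nat_lit 4) (nat_lit 5) (nat_lit 6) (nat_lit 4) (nat_lit 4) (nat_lit 4) (nat_lit 389) (nat_lit 214) (nat_lit 177)))) (XT.nd (nat_lit 156) (nat_lit 0) (nat_lit 0) (XT.nd (nat_lit 78) (nat_lit 0) (nat_lit 0) (XT.lf (nat_lit 0) (nat_lit 13697780551) (nat_lit 152) (nat_lit 39554783751) (nat_lit 0) (nat_lit 6723965478) (nat_lit 4) (nat_lit 5) (nat_lit 6) (nat_lit 4) (nat_lit 4) (nat_lit 4) (nat_lit 390) (nat_lit 214) (nat_lit 176)) (XT.lf (nat_lit 0) (nat_lit 16591578996) (nat_lit 152) (nat_lit 35579588644)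 (nat_lit 0) (nat_lit 9519864153) (nat_lit 4) (nat_lit 5) (nat_lit 6) (nat_lit 4) (nat_lit 4) (nat_lit 4) (nat_lit 391) (nat_lit 214) (nat_lit 175))) (XT.nd (nat_lit 78) (nat_lit 0) (nat_lit 0) (XT.lf (nat_lit 0) (nat_lit 19540416582) (nat_lit 152) (nat_lit 31543863562) (nat_lit 0) (nat_lit 12373653417) (nat_lit 4) (nat_lit 5) (nat_lit 6) (nat_lit 4) (nat_lit 4) (nat_lit 4) (nat_lit 392) (nat_lit 214) (nat_lit 174)) (XT.lf (nat_lit 0) (nat_lit 22546869961) (nat_lit 152) (nat_lit 27444082143) (nat_lit 0) (nat_lit 15287826873) (nat_lit 4) (nat_lit 5) (nat_lit 6) (nat_lit 4) (nat_lit 4) (nat_lit 4) (nat_lit 393) (nat_lit 214) (nat_lit 173)))))) (XT.nd (nat_lit 468) (nat_lit 76) (nat_lit 0) (XT.nd (nat_lit 234) (nat_lit 0) (nat_lit 0) (XT.nd (nat_lit 78) (nat_lit 0) (nat_lit 0) (XT.lf (nat_lit 0) (nat_lit 25613566133) (nat_lit 152) (nat_lit 23276662053) (nat_lit 0) (nat_lit 18264930886) (nat_lit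 4) (nat_lit 5) (nat_lit 6) (nat_lit 4) (nat_lit 4) (nat_lit 4) (nat_lit 394) (nat_lit 214) (nat_lit 172)) (XT.nd (nat_lit 78) (nat_lit 0) (nat_lit 0) (XT.lf (nat_lit 0) (nat_lit 28743184735) (nat_lit 152) (nat_lit 19037961859) (nat_lit 0) (nat_lit 21307566809) (nat_lit 4) (nat_lit 5) (nat_lit 6) (nat_lit 4) (nat_lit 4) (nat_lit 4) (nat_lit 395) (nat_lit 214) (nat_lit 171)) (XT.lf (nat_lit 0) (nat_lit 31938460384) (nat_lit 152) (nat_lit 14724277840) (nat_lit 0) (nat_lit 24418393256) (nat_lit 4) (nat_lit 5) (nat_lit 6) (nat_lit 4) (nat_lit 4) (nat_lit 4) (nat_lit 396) (nat_lit 214) (nat_lit 170)))) (XT.nd (nat_lit 78) (nat_lit 0) (nat_lit 0) (XT.lf (nat_lit 0) (nat_lit 35202185070) (nat_lit 152) (nat_lit 10331840759) (nat_lit 0) (nat_lit 27600128425) (nat_lit 4) (nat_lit 5) (nat_lit 6) (nat_lit 4) (nat_lit 4) (nat_lit 4) (nat_lit 397) (nat_lit 214) (nat_lit 169)) (XT.nd (nat_lit 78) (nat_lit 0)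 (nat_lit 0) (XT.lf (nat_lit 0) (nat_lit 38537210591) (nat_lit 152) (nat_lit 5856812565) (nat_lit 0) (nat_lit 30855552473) (nat_lit 4) (nat_lit 5) (nat_lit 6) (nat_lit 4) (nat_lit 4) (nat_lit 4) (nat_lit 398) (nat_lit 214) (nat_lit 168)) (XT.lf (nat_lit 0) (nat_lit 41946451046) (nat_lit 152) (nat_lit 1295283037) (nat_lit 0) (nat_lit 34187509945) (nat_lit 4) (nat_lit 5) (nat_lit 6) (nat_lit 4) (nat_lit 4) (nat_lit 4) (nat_lit 399) (nat_lit 214) (nat_lit 167))))) (XT.nd (nat_lit 234) (nat_lit 0) (nat_lit 0) (XT.nd (nat_lit 78) (nat_lit 0) (nat_lit 0) (XT.lf (nat_lit 0) (nat_lit 3423539206) (nat_lit 76) (nat_lit 42042255330) (nat_lit 76) (nat_lit 34208282206) (nat_lit 3) (nat_lit 4) (nat_lit 4) (nat_lit 5) (nat_lit 4) (nat_lit 4) (nat_lit 400) (nat_lit 214) (nat_lit 166)) (XT.nd (nat_lit 78) (nat_lit 0) (nat_lit 0) (XT.lf (nat_lit 0) (nat_lit 8264573897) (nat_lit 76) (nat_lit 40814430245) (nat_lit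 76) (nat_lit 32907610498) (nat_lit 3) (nat_lit 4) (nat_lit 4) (nat_lit 5) (nat_lit 4) (nat_lit 4) (nat_lit 401) (nat_lit 214) (nat_lit 165)) (XT.lf (nat_lit 0) (nat_lit 13206272393) (nat_lit 76) (nat_lit 39570265791) (nat_lit 76) (nat_lit 31592721166) (nat_lit 3) (nat_lit 4) (nat_lit 4) (nat_lit 5) (nat_lit 4) (nat_lit 4) (nat_lit 402) (nat_lit 214) (nat_lit 164)))) (XT.nd (nat_lit 156) (nat_lit 0) (nat_lit 0) (XT.nd (nat_lit 78) (nat_lit 0) (nat_lit 0) (XT.lf (nat_lit 0) (nat_lit 18252952683) (nat_lit 76) (nat_lit 38308674833) (nat_lit 76) (nat_lit 30262465278) (nat_lit 3) (nat_lit 4) (nat_lit 4) (nat_lit 5) (nat_lit 4) (nat_lit 4) (nat_lit 403) (nat_lit 214) (nat_lit 163)) (XT.lf (nat_lit 0) (nat_lit 23409024487) (nat_lit 76) (nat_lit 37028555010) (nat_lit 76) (nat_lit 28915680475) (nat_lit 3) (nat_lit 4) (nat_lit 4) (nat_lit 5) (nat_lit 4) (nat_lit 4) (nat_lit 404) (nat_lit 214) (nat_lit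 162))) (XT.nd (nat_lit 78) (nat_lit 0) (nat_lit 0) (XT.lf (nat_lit 0) (nat_lit 28678993112) (nat_lit 76) (nat_lit 35728787772) (nat_lit 76) (nat_lit 27551189955) (nat_lit 3) (nat_lit 4) (nat_lit 4) (nat_lit 5) (nat_lit 4) (nat_lit 4) (nat_lit 405) (nat_lit 214) (nat_lit 161)) (XT.lf (nat_lit 0) (nat_lit 34067463383) (nat_lit 76) (nat_lit 34408237399) (nat_lit 76) (nat_lit 26167801444) (nat_lit 3) (nat_lit 4) (nat_lit 4) (nat_lit 5) (nat_lit 4) (nat_lit 4) (nat_lit 406) (nat_lit 214) (nat_lit 160))))))))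
noncomputable def xc17 : XT := (XT.nd (nat_lit 37986) (nat_lit 0) (nat_lit 76) (XT.nd (nat_lit 36972) (nat_lit 0) (nat_lit 304) (XT.nd (nat_lit 36426) (nat_lit 0) (nat_lit 684) (XT.nd (nat_lit 36192) (nat_lit 0) (nat_lit 912) (XT.nd (nat_lit 78) (nat_lit 0) (nat_lit 0) (XT.lf (nat_lit 0) (nat_lit 39579143674) (nat_lit 76) (nat_lit 33065750011) (nat_lit 76) (nat_lit 24764306156) (nat_lit 3) (nat_lit 4) (nat_lit 4) (nat_lit 5) (nat_lit 4) (nat_lit 4) (nat_lit 407) (nat_lit 214) (nat_lit 159)) (XT.nd (nat_lit 78) (nat_lit 0) (nat_lit 0) (XT.lf (nat_lit 0) (nat_lit 45218850014) (nat_lit 76) (nat_lit 31700152563) (nat_lit 76) (nat_lit 23339477737) (nat_lit 3) (nat_lit 4) (nat_lit 4) (nat_lit 5) (nat_lit 4) (nat_lit 4) (nat_lit 408) (nat_lit 214) (nat_lit 158)) (XT.lf (nat_lit 0) (nat_lit 50991510304) (nat_lit 76) (nat_lit 30310251814) (nat_lit 76) (nat_lit 21892071190) (nat_lit 3) (nat_lit 4) (nat_lit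 4) (nat_lit 5) (nat_lit 4) (nat_lit 4) (nat_lit 409) (nat_lit 214) (nat_lit 157)))) (XT.nd (nat_lit 78) (nat_lit 152) (nat_lit 0) (XT.lf (nat_lit 0) (nat_lit 3319163039) (nat_lit 152) (nat_lit 3825169012) (nat_lit 0) (nat_lit 3319163039) (nat_lit 17) (nat_lit 5) (nat_lit 19) (nat_lit 4) (nat_lit 17) (nat_lit 4) (nat_lit 350) (nat_lit 215) (nat_lit 215)) (XT.nd (nat_lit 78) (nat_lit 152) (nat_lit 0) (XT.lf (nat_lit 0) (nat_lit 10687426404) (nat_lit 152) (nat_lit 400518710) (nat_lit 0) (nat_lit 10338461029) (nat_lit 17) (nat_lit 5) (nat_lit 19) (nat_lit 4) (nat_lit 17) (nat_lit 4) (nat_lit 351) (nat_lit 215) (nat_lit 214)) (XT.lf (nat_lit 0) (nat_lit 7060044288) (nat_lit 152) (nat_lit 7784485951) (nat_lit 152) (nat_lit 7096719240) (nat_lit 15) (nat_lit 4) (nat_lit 17) (nat_lit 5) (nat_lit 17) (nat_lit 4) (nat_lit 352) (nat_lit 215) (nat_lit 213))))) (XT.nd (nat_lit 234) (nat_lit 76) (nat_lit 0)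 (XT.nd (nat_lit 78) (nat_lit 152) (nat_lit 0) (XT.lf (nat_lit 0) (nat_lit 14609533471) (nat_lit 152) (nat_lit 4440516614) (nat_lit 152) (nat_lit 3423816568) (nat_lit 15) (nat_lit 4) (nat_lit 17) (nat_lit 5) (nat_lit 17) (nat_lit 4) (nat_lit 353) (nat_lit 215) (nat_lit 212)) (XT.nd (nat_lit 78) (nat_lit 76) (nat_lit 0) (XT.lf (nat_lit 0) (nat_lit 273450946) (nat_lit 228) (nat_lit 780947376) (nat_lit 76) (nat_lit 21970362107) (nat_lit 14) (nat_lit 5) (nat_lit 17) (nat_lit 5) (nat_lit 15) (nat_lit 4) (nat_lit 354) (nat_lit 215) (nat_lit 211)) (XT.lf (nat_lit 0) (nat_lit 4022272856) (nat_lit 152) (nat_lit 17144530281) (nat_lit 0) (nat_lit 2424113618) (nat_lit 13) (nat_lit 5) (nat_lit 15) (nat_lit 4) (nat_lit 13) (nat_lit 4) (nat_lit 355) (nat_lit 215) (nat_lit 210)))) (XT.nd (nat_lit 156) (nat_lit 76) (nat_lit 0) (XT.nd (nat_lit 78) (nat_lit 0) (nat_lit 0) (XT.lf (nat_lit 0) (nat_lit 7825804811)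 (nat_lit 152) (nat_lit 10414628238) (nat_lit 0) (nat_lit 5935392565) (nat_lit 13) (nat_lit 5) (nat_lit 15) (nat_lit 4) (nat_lit 13) (nat_lit 4) (nat_lit 356) (nat_lit 215) (nat_lit 209)) (XT.lf (nat_lit 0) (nat_lit 11669502612) (nat_lit 152) (nat_lit 3615681930) (nat_lit 0) (nat_lit 9495349581) (nat_lit 13) (nat_lit 5) (nat_lit 15) (nat_lit 4) (nat_lit 13) (nat_lit 4) (nat_lit 357) (nat_lit 215) (nat_lit 208))) (XT.nd (nat_lit 78) (nat_lit 0) (nat_lit 0) (XT.lf (nat_lit 0) (nat_lit 3323095024) (nat_lit 76) (nat_lit 12265573427) (nat_lit 76) (nat_lit 9815943906) (nat_lit 12) (nat_lit 4) (nat_lit 13) (nat_lit 5) (nat_lit 13) (nat_lit 4) (nat_lit 358) (nat_lit 215) (nat_lit 207)) (XT.lf (nat_lit 0) (nat_lit 10416434467) (nat_lit 76) (nat_lit 9174562737) (nat_lit 76) (nat_lit 6457480313) (nat_lit 12) (nat_lit 4) (nat_lit 13) (nat_lit 5) (nat_lit 13) (nat_lit 4) (nat_lit 359) (nat_lit 215) (nat_lit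 206)))))) (XT.nd (nat_lit 468) (nat_lit 228) (nat_lit 0) (XT.nd (nat_lit 234) (nat_lit 0) (nat_lit 0) (XT.nd (nat_lit 78) (nat_lit 152) (nat_lit 0) (XT.lf (nat_lit 0) (nat_lit 17598575304) (nat_lit 76) (nat_lit 6045962887) (nat_lit 76) (nat_lit 3069217451) (nat_lit 12) (nat_lit 4) (nat_lit 13) (nat_lit 5) (nat_lit 13) (nat_lit 4) (nat_lit 360) (nat_lit 215) (nat_lit 205)) (XT.nd (nat_lit 78) (nat_lit 76) (nat_lit 0) (XT.lf (nat_lit 0) (nat_lit 344940309) (nat_lit 152) (nat_lit 2528616619) (nat_lit 76) (nat_lit 24527369659) (nat_lit 11) (nat_lit 5) (nat_lit 13) (nat_lit 5) (nat_lit 12) (nat_lit 4) (nat_lit 361) (nat_lit 215) (nat_lit 204)) (XT.lf (nat_lit 0) (nat_lit 3778503362) (nat_lit 152) (nat_lit 23923892695) (nat_lit 0) (nat_lit 406073516) (nat_lit 10) (nat_lit 5) (nat_lit 12) (nat_lit 4) (nat_lit 10) (nat_lit 4) (nat_lit 362) (nat_lit 215) (nat_lit 203)))) (XT.nd (nat_lit 78) (nat_lit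 0) (nat_lit 0) (XT.lf (nat_lit 0) (nat_lit 7304017188) (nat_lit 152) (nat_lit 17832701017) (nat_lit 0) (nat_lit 3700880119) (nat_lit 10) (nat_lit 5) (nat_lit 12) (nat_lit 4) (nat_lit 10) (nat_lit 4) (nat_lit 363) (nat_lit 215) (nat_lit 202)) (XT.nd (nat_lit 78) (nat_lit 0) (nat_lit 0) (XT.lf (nat_lit 0) (nat_lit 10871904139) (nat_lit 152) (nat_lit 11673846075) (nat_lit 0) (nat_lit 7044779474) (nat_lit 10) (nat_lit 5) (nat_lit 12) (nat_lit 4) (nat_lit 10) (nat_lit 4) (nat_lit 364) (nat_lit 215) (nat_lit 201)) (XT.lf (nat_lit 0) (nat_lit 14485281785) (nat_lit 152) (nat_lit 5441946346) (nat_lit 0) (nat_lit 10440693435) (nat_lit 10) (nat_lit 5) (nat_lit 12) (nat_lit 4) (nat_lit 10) (nat_lit 4) (nat_lit 365) (nat_lit 215) (nat_lit 200))))) (XT.nd (nat_lit 234) (nat_lit 152) (nat_lit 0) (XT.nd (nat_lit 78) (nat_lit 0) (nat_lit 0) (XT.lf (nat_lit 0) (nat_lit 885727247) (nat_lit 76) (nat_lit 17270094351)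 (nat_lit 76) (nat_lit 13014376210) (nat_lit 9) (nat_lit 4) (nat_lit 10) (nat_lit 5) (nat_lit 10) (nat_lit 4) (nat_lit 366) (nat_lit 215) (nat_lit 199)) (XT.nd (nat_lit 78) (nat_lit 0) (nat_lit 0) (XT.lf (nat_lit 0) (nat_lit 7407382158) (nat_lit 76) (nat_lit 14525003082) (nat_lit 76) (nat_lit 10064304561) (nat_lit 9) (nat_lit 4) (nat_lit 10) (nat_lit 5) (nat_lit 10) (nat_lit 4) (nat_lit 367) (nat_lit 215) (nat_lit 198)) (XT.lf (nat_lit 0) (nat_lit 14020411518) (nat_lit 76) (nat_lit 11744508687) (nat_lit 76) (nat_lit 7084800089) (nat_lit 9) (nat_lit 4) (nat_lit 10) (nat_lit 5) (nat_lit 10) (nat_lit 4) (nat_lit 368) (nat_lit 215) (nat_lit 197)))) (XT.nd (nat_lit 156) (nat_lit 152) (nat_lit 0) (XT.nd (nat_lit 78) (nat_lit 0) (nat_lit 0) (XT.lf (nat_lit 0) (nat_lit 20730593701) (nat_lit 76) (nat_lit 8926181610) (nat_lit 76) (nat_lit 4073259344) (nat_lit 9) (nat_lit 4) (nat_lit 10) (nat_lit 5) (nat_lit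 10) (nat_lit 4) (nat_lit 369) (nat_lit 215) (nat_lit 196)) (XT.lf (nat_lit 0) (nat_lit 27543791973) (nat_lit 76) (nat_lit 6067559233) (nat_lit 76) (nat_lit 1027050883) (nat_lit 9) (nat_lit 4) (nat_lit 10) (nat_lit 5) (nat_lit 10) (nat_lit 4) (nat_lit 370) (nat_lit 215) (nat_lit 195))) (XT.nd (nat_lit 78) (nat_lit 76) (nat_lit 0) (XT.lf (nat_lit 0) (nat_lit 2016357561) (nat_lit 152) (nat_lit 1129424912) (nat_lit 76) (nat_lit 32429240795) (nat_lit 8) (nat_lit 5) (nat_lit 10) (nat_lit 5) (nat_lit 9) (nat_lit 4) (nat_lit 371) (nat_lit 215) (nat_lit 194)) (XT.lf (nat_lit 0) (nat_lit 5008590708) (nat_lit 76) (nat_lit 118522270) (nat_lit 152) (nat_lit 31412445098) (nat_lit 7) (nat_lit 5) (nat_lit 8) (nat_lit 5) (nat_lit 9) (nat_lit 4) (nat_lit 372) (nat_lit 215) (nat_lit 193))))))) (XT.nd (nat_lit 1014) (nat_lit 152) (nat_lit 0) (XT.nd (nat_lit 468) (nat_lit 0) (nat_lit 0) (XT.nd (nat_lit 234) (nat_lit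 76) (nat_lit 0) (XT.nd (nat_lit 78) (nat_lit 0) (nat_lit 0) (XT.lf (nat_lit 0) (nat_lit 8320288315) (nat_lit 152) (nat_lit 26301650408) (nat_lit 0) (nat_lit 2911437364) (nat_lit 7) (nat_lit 5) (nat_lit 9) (nat_lit 4) (nat_lit 7) (nat_lit 4) (nat_lit 373) (nat_lit 215) (nat_lit 192)) (XT.nd (nat_lit 78) (nat_lit 0) (nat_lit 0) (XT.lf (nat_lit 0) (nat_lit 11560671035) (nat_lit 152) (nat_lit 21007808055) (nat_lit 0) (nat_lit 5990006678) (nat_lit 7) (nat_lit 5) (nat_lit 9) (nat_lit 4) (nat_lit 7) (nat_lit 4) (nat_lit 374) (nat_lit 215) (nat_lit 191)) (XT.lf (nat_lit 0) (nat_lit 14849953230) (nat_lit 152) (nat_lit 15643675311) (nat_lit 0) (nat_lit 9122188481) (nat_lit 7) (nat_lit 5) (nat_lit 9) (nat_lit 4) (nat_lit 7) (nat_lit 4) (nat_lit 375) (nat_lit 215) (nat_lit 190)))) (XT.nd (nat_lit 78) (nat_lit 76) (nat_lit 0) (XT.lf (nat_lit 0) (nat_lit 18191009033) (nat_lit 152) (nat_lit 10204565071) (nat_lit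 0) (nat_lit 12310719630) (nat_lit 7) (nat_lit 5) (nat_lit 9) (nat_lit 4) (nat_lit 7) (nat_lit 4) (nat_lit 376) (nat_lit 215) (nat_lit 189)) (XT.nd (nat_lit 78) (nat_lit 76) (nat_lit 0) (XT.lf (nat_lit 0) (nat_lit 21586757811) (nat_lit 152) (nat_lit 4685724715) (nat_lit 0) (nat_lit 15558386221) (nat_lit 7) (nat_lit 5) (nat_lit 9) (nat_lit 4) (nat_lit 7) (nat_lit 4) (nat_lit 377) (nat_lit 215) (nat_lit 188)) (XT.lf (nat_lit 0) (nat_lit 935931439) (nat_lit 76) (nat_lit 24113232031) (nat_lit 76) (nat_lit 17941091327) (nat_lit 6) (nat_lit 4) (nat_lit 7) (nat_lit 5) (nat_lit 7) (nat_lit 4) (nat_lit 378) (nat_lit 215) (nat_lit 187))))) (XT.nd (nat_lit 234) (nat_lit 0) (nat_lit 0) (XT.nd (nat_lit 78) (nat_lit 0) (nat_lit 0) (XT.lf (nat_lit 0) (nat_lit 6742071478) (nat_lit 76) (nat_lit 21876990752) (nat_lit 76) (nat_lit 15565268383) (nat_lit 6) (nat_lit 4) (nat_lit 7) (nat_lit 5) (nat_lit 7) (nat_lit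 4) (nat_lit 379) (nat_lit 215) (nat_lit 186)) (XT.nd (nat_lit 78) (nat_lit 0) (nat_lit 0) (XT.lf (nat_lit 0) (nat_lit 12644513617) (nat_lit 76) (nat_lit 19609121325) (nat_lit 76) (nat_lit 13161882777) (nat_lit 6) (nat_lit 4) (nat_lit 7) (nat_lit 5) (nat_lit 7) (nat_lit 4) (nat_lit 380) (nat_lit 215) (nat_lit 185)) (XT.lf (nat_lit 0) (nat_lit 18648415332) (nat_lit 76) (nat_lit 17307642115) (nat_lit 76) (nat_lit 10728834462) (nat_lit 6) (nat_lit 4) (nat_lit 7) (nat_lit 5) (nat_lit 7) (nat_lit 4) (nat_lit 381) (nat_lit 215) (nat_lit 184)))) (XT.nd (nat_lit 156) (nat_lit 0) (nat_lit 0) (XT.nd (nat_lit 78) (nat_lit 0) (nat_lit 0) (XT.lf (nat_lit 0) (nat_lit 24759022750) (nat_lit 76) (nat_lit 14970542122) (nat_lit 76) (nat_lit 8263997473) (nat_lit 6) (nat_lit 4) (nat_lit 7) (nat_lit 5) (nat_lit 7) (nat_lit 4) (nat_lit 382) (nat_lit 215) (nat_lit 183)) (XT.lf (nat_lit 0) (nat_lit 30981675235) (nat_lit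 76) (nat_lit 12595779220) (nat_lit 76) (nat_lit 5765218070) (nat_lit 6) (nat_lit 4) (nat_lit 7) (nat_lit 5) (nat_lit 7) (nat_lit 4) (nat_lit 383) (nat_lit 215) (nat_lit 182))) (XT.nd (nat_lit 78) (nat_lit 0) (nat_lit 0) (XT.lf (nat_lit 0) (nat_lit 37321810058) (nat_lit 76) (nat_lit 10181278372) (nat_lit 76) (nat_lit 3230312852) (nat_lit 6) (nat_lit 4) (nat_lit 7) (nat_lit 5) (nat_lit 7) (nat_lit 4) (nat_lit 384) (nat_lit 215) (nat_lit 181)) (XT.lf (nat_lit 0) (nat_lit 43784967142) (nat_lit 76) (nat_lit 7724929822) (nat_lit 76) (nat_lit 657066855) (nat_lit 6) (nat_lit 4) (nat_lit 7) (nat_lit 5) (nat_lit 7) (nat_lit 4) (nat_lit 385) (nat_lit 215) (nat_lit 180)))))) (XT.nd (nat_lit 546) (nat_lit 0) (nat_lit 0) (XT.nd (nat_lit 234) (nat_lit 0) (nat_lit 0) (XT.nd (nat_lit 78) (nat_lit 76) (nat_lit 0) (XT.lf (nat_lit 0) (nat_lit 1918584788) (nat_lit 152) (nat_lit 3286628511) (nat_lit 76) (nat_lit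 48438835173) (nat_lit 5) (nat_lit 5) (nat_lit 7) (nat_lit 5) (nat_lit 6) (nat_lit 4) (nat_lit 386) (nat_lit 215) (nat_lit 179)) (XT.nd (nat_lit 78) (nat_lit 0) (nat_lit 0) (XT.lf (nat_lit 0) (nat_lit 1928699246) (nat_lit 76) (nat_lit 2613291853) (nat_lit 152) (nat_lit 50623761537) (nat_lit 4) (nat_lit 5) (nat_lit 5) (nat_lit 5) (nat_lit 6) (nat_lit 4) (nat_lit 387) (nat_lit 215) (nat_lit 178)) (XT.lf (nat_lit 0) (nat_lit 7243437535) (nat_lit 152) (nat_lit 49429294754) (nat_lit 0) (nat_lit 60408011) (nat_lit 4) (nat_lit 5) (nat_lit 6) (nat_lit 4) (nat_lit 4) (nat_lit 4) (nat_lit 388) (nat_lit 215) (nat_lit 177)))) (XT.nd (nat_lit 156) (nat_lit 0) (nat_lit 0) (XT.nd (nat_lit 78) (nat_lit 0) (nat_lit 0) (XT.lf (nat_lit 0) (nat_lit 10018091641) (nat_lit 152) (nat_lit 45595479818) (nat_lit 0) (nat_lit 2734225352) (nat_lit 4) (nat_lit 5) (nat_lit 6) (nat_lit 4) (nat_lit 4) (nat_lit 4) (nat_lit 389)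 (nat_lit 215) (nat_lit 176)) (XT.lf (nat_lit 0) (nat_lit 12843257313) (nat_lit 152) (nat_lit 41707138089) (nat_lit 0) (nat_lit 5461491253) (nat_lit 4) (nat_lit 5) (nat_lit 6) (nat_lit 4) (nat_lit 4) (nat_lit 4) (nat_lit 390) (nat_lit 215) (nat_lit 175))) (XT.nd (nat_lit 78) (nat_lit 0) (nat_lit 0) (XT.lf (nat_lit 0) (nat_lit 15721403141) (nat_lit 152) (nat_lit 37760871986) (nat_lit 0) (nat_lit 8244588759) (nat_lit 4) (nat_lit 5) (nat_lit 6) (nat_lit 4) (nat_lit 4) (nat_lit 4) (nat_lit 391) (nat_lit 215) (nat_lit 174)) (XT.lf (nat_lit 0) (nat_lit 18655044010) (nat_lit 152) (nat_lit 33753233315) (nat_lit 0) (nat_lit 11085949705) (nat_lit 4) (nat_lit 5) (nat_lit 6) (nat_lit 4) (nat_lit 4) (nat_lit 4) (nat_lit 392) (nat_lit 215) (nat_lit 173))))) (XT.nd (nat_lit 234) (nat_lit 0) (nat_lit 0) (XT.nd (nat_lit 78) (nat_lit 0) (nat_lit 0) (XT.lf (nat_lit 0) (nat_lit 21646743297) (nat_lit 152) (nat_lit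 29680720257) (nat_lit 0) (nat_lit 13988056833) (nat_lit 4) (nat_lit 5) (nat_lit 6) (nat_lit 4) (nat_lit 4) (nat_lit 4) (nat_lit 393) (nat_lit 215) (nat_lit 172)) (XT.nd (nat_lit 78) (nat_lit 0) (nat_lit 0) (XT.lf (nat_lit 0) (nat_lit 24699115106) (nat_lit 152) (nat_lit 25539774304) (nat_lit 0) (nat_lit 16953445964) (nat_lit 4) (nat_lit 5) (nat_lit 6) (nat_lit 4) (nat_lit 4) (nat_lit 4) (nat_lit 394) (nat_lit 215) (nat_lit 171)) (XT.lf (nat_lit 0) (nat_lit 27814826560) (nat_lit 152) (nat_lit 21326777155) (nat_lit 0) (nat_lit 19984708215) (nat_lit 4) (nat_lit 5) (nat_lit 6) (nat_lit 4) (nat_lit 4) (nat_lit 4) (nat_lit 395) (nat_lit 215) (nat_lit 170)))) (XT.nd (nat_lit 156) (nat_lit 0) (nat_lit 0) (XT.nd (nat_lit 78) (nat_lit 0) (nat_lit 0) (XT.lf (nat_lit 0) (nat_lit 30996600124) (nat_lit 152) (nat_lit 17038047549) (nat_lit 0) (nat_lit 23084492263) (nat_lit 4) (nat_lit 5) (nat_lit 6) (nat_lit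 4) (nat_lit 4) (nat_lit 4) (nat_lit 396) (nat_lit 215) (nat_lit 169)) (XT.lf (nat_lit 0) (nat_lit 34247215989) (nat_lit 152) (nat_lit 12669838054) (nat_lit 0) (nat_lit 26255506655) (nat_lit 4) (nat_lit 5) (nat_lit 6) (nat_lit 4) (nat_lit 4) (nat_lit 4) (nat_lit 397) (nat_lit 215) (nat_lit 168))) (XT.nd (nat_lit 78) (nat_lit 0) (nat_lit 0) (XT.lf (nat_lit 0) (nat_lit 37569514500) (nat_lit 152) (nat_lit 8218331786) (nat_lit 0) (nat_lit 29500522182) (nat_lit 4) (nat_lit 5) (nat_lit 6) (nat_lit 4) (nat_lit 4) (nat_lit 4) (nat_lit 398) (nat_lit 215) (nat_lit 167)) (XT.lf (nat_lit 0) (nat_lit 40966398634) (nat_lit 152) (nat_lit 3679639082) (nat_lit 0) (nat_lit 32822374294) (nat_lit 4) (nat_lit 5) (nat_lit 6) (nat_lit 4) (nat_lit 4) (nat_lit 4) (nat_lit 399) (nat_lit 215) (nat_lit 166))))))))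
noncomputable def xc18 : XT := (XT.nd (nat_lit 37830) (nat_lit 0) (nat_lit 76) (XT.nd (nat_lit 36816) (nat_lit 0) (nat_lit 532) (XT.nd (nat_lit 468) (nat_lit 0) (nat_lit 0) (XT.nd (nat_lit 234) (nat_lit 0) (nat_lit 0) (XT.nd (nat_lit 78) (nat_lit 0) (nat_lit 0) (XT.lf (nat_lit 0) (nat_lit 969116869) (nat_lit 76) (nat_lit 43481035419) (nat_lit 76) (nat_lit 35264164455) (nat_lit 3) (nat_lit 4) (nat_lit 4) (nat_lit 5) (nat_lit 4) (nat_lit 4) (nat_lit 400) (nat_lit 215) (nat_lit 165)) (XT.nd (nat_lit 78) (nat_lit 0) (nat_lit 0) (XT.lf (nat_lit 0) (nat_lit 5788197256) (nat_lit 76) (nat_lit 42263306582) (nat_lit 76) (nat_lit 33975710740) (nat_lit 3) (nat_lit 4) (nat_lit 4) (nat_lit 5) (nat_lit 4) (nat_lit 4) (nat_lit 401) (nat_lit 215) (nat_lit 164)) (XT.lf (nat_lit 0) (nat_lit 10708580895) (nat_lit 76) (nat_lit 41028944310) (nat_lit 76) (nat_lit 32672683539) (nat_lit 3) (nat_lit 4) (nat_lit 4) (nat_lit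 5) (nat_lit 4) (nat_lit 4) (nat_lit 402) (nat_lit 215) (nat_lit 163)))) (XT.nd (nat_lit 78) (nat_lit 0) (nat_lit 0) (XT.lf (nat_lit 0) (nat_lit 15734567148) (nat_lit 76) (nat_lit 39776870034) (nat_lit 76) (nat_lit 31353944282) (nat_lit 3) (nat_lit 4) (nat_lit 4) (nat_lit 5) (nat_lit 4) (nat_lit 4) (nat_lit 403) (nat_lit 215) (nat_lit 162)) (XT.nd (nat_lit 78) (nat_lit 0) (nat_lit 0) (XT.lf (nat_lit 0) (nat_lit 20870547655) (nat_lit 76) (nat_lit 38505989708) (nat_lit 76) (nat_lit 30018340675) (nat_lit 3) (nat_lit 4) (nat_lit 4) (nat_lit 5) (nat_lit 4) (nat_lit 4) (nat_lit 404) (nat_lit 215) (nat_lit 161)) (XT.lf (nat_lit 0) (nat_lit 26121010165) (nat_lit 76) (nat_lit 37215192855) (nat_lit 76) (nat_lit 28664705684) (nat_lit 3) (nat_lit 4) (nat_lit 4) (nat_lit 5) (nat_lit 4) (nat_lit 4) (nat_lit 405) (nat_lit 215) (nat_lit 160))))) (XT.nd (nat_lit 234) (nat_lit 0) (nat_lit 0) (XT.nd (nat_lit 78)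 (nat_lit 0) (nat_lit 0) (XT.lf (nat_lit 0) (nat_lit 31490542461) (nat_lit 76) (nat_lit 35903351594) (nat_lit 76) (nat_lit 27291856522) (nat_lit 3) (nat_lit 4) (nat_lit 4) (nat_lit 5) (nat_lit 4) (nat_lit 4) (nat_lit 406) (nat_lit 215) (nat_lit 159)) (XT.nd (nat_lit 78) (nat_lit 0) (nat_lit 0) (XT.lf (nat_lit 0) (nat_lit 36983836368) (nat_lit 76) (nat_lit 34569319655) (nat_lit 76) (nat_lit 25898593612) (nat_lit 3) (nat_lit 4) (nat_lit 4) (nat_lit 5) (nat_lit 4) (nat_lit 4) (nat_lit 407) (nat_lit 215) (nat_lit 158)) (XT.lf (nat_lit 0) (nat_lit 42605691851) (nat_lit 76) (nat_lit 33211931380) (nat_lit 76) (nat_lit 24483699540) (nat_lit 3) (nat_lit 4) (nat_lit 4) (nat_lit 5) (nat_lit 4) (nat_lit 4) (nat_lit 408) (nat_lit 215) (nat_lit 157)))) (XT.nd (nat_lit 35958) (nat_lit 0) (nat_lit 1064) (XT.nd (nat_lit 35880) (nat_lit 0) (nat_lit 1216) (XT.lf (nat_lit 0) (nat_lit 48361021212) (nat_lit 76) (nat_lit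 31830000702) (nat_lit 76) (nat_lit 23045937990) (nat_lit 3) (nat_lit 4) (nat_lit 4) (nat_lit 5) (nat_lit 4) (nat_lit 4) (nat_lit 409) (nat_lit 215) (nat_lit 156)) (XT.lf (nat_lit 0) (nat_lit 9045898942) (nat_lit 152) (nat_lit 471154987) (nat_lit 152) (nat_lit 471154987) (nat_lit 19) (nat_lit 4) (nat_lit 21) (nat_lit 5) (nat_lit 21) (nat_lit 4) (nat_lit 348) (nat_lit 216) (nat_lit 216))) (XT.nd (nat_lit 78) (nat_lit 0) (nat_lit 0) (XT.lf (nat_lit 0) (nat_lit 2985260088) (nat_lit 152) (nat_lit 14833515342) (nat_lit 0) (nat_lit 2625825751) (nat_lit 17) (nat_lit 5) (nat_lit 19) (nat_lit 4) (nat_lit 17) (nat_lit 4) (nat_lit 349) (nat_lit 216) (nat_lit 215)) (XT.lf (nat_lit 0) (nat_lit 6956491937) (nat_lit 152) (nat_lit 7723664784) (nat_lit 0) (nat_lit 6248092225) (nat_lit 17) (nat_lit 5) (nat_lit 19) (nat_lit 4) (nat_lit 17) (nat_lit 4) (nat_lit 350) (nat_lit 216) (nat_lit 214)))))) (XT.nd (nat_lit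 468) (nat_lit 228) (nat_lit 0) (XT.nd (nat_lit 234) (nat_lit 152) (nat_lit 0) (XT.nd (nat_lit 78) (nat_lit 152) (nat_lit 0) (XT.lf (nat_lit 0) (nat_lit 10965525777) (nat_lit 152) (nat_lit 545036498) (nat_lit 0) (nat_lit 9918324729) (nat_lit 17) (nat_lit 5) (nat_lit 19) (nat_lit 4) (nat_lit 17) (nat_lit 4) (nat_lit 351) (nat_lit 216) (nat_lit 213)) (XT.nd (nat_lit 78) (nat_lit 0) (nat_lit 0) (XT.lf (nat_lit 0) (nat_lit 6842157236) (nat_lit 152) (nat_lit 8239478413) (nat_lit 152) (nat_lit 6863344030) (nat_lit 15) (nat_lit 4) (nat_lit 17) (nat_lit 5) (nat_lit 17) (nat_lit 4) (nat_lit 352) (nat_lit 216) (nat_lit 212)) (XT.lf (nat_lit 0) (nat_lit 14323206538) (nat_lit 152) (nat_lit 4925524566) (nat_lit 152) (nat_lit 3230037430) (nat_lit 15) (nat_lit 4) (nat_lit 17) (nat_lit 5) (nat_lit 17) (nat_lit 4) (nat_lit 353) (nat_lit 216) (nat_lit 211)))) (XT.nd (nat_lit 78) (nat_lit 76) (nat_lit 0) (XT.lf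 (nat_lit 0) (nat_lit 425756123) (nat_lit 228) (nat_lit 1141253421) (nat_lit 76) (nat_lit 21463745528) (nat_lit 14) (nat_lit 5) (nat_lit 17) (nat_lit 5) (nat_lit 15) (nat_lit 4) (nat_lit 354) (nat_lit 216) (nat_lit 210)) (XT.nd (nat_lit 78) (nat_lit 0) (nat_lit 0) (XT.lf (nat_lit 0) (nat_lit 4128566701) (nat_lit 152) (nat_lit 17580553299) (nat_lit 0) (nat_lit 1889189080) (nat_lit 13) (nat_lit 5) (nat_lit 15) (nat_lit 4) (nat_lit 13) (nat_lit 4) (nat_lit 355) (nat_lit 216) (nat_lit 209)) (XT.lf (nat_lit 0) (nat_lit 7895674955) (nat_lit 152) (nat_lit 10916095983) (nat_lit 0) (nat_lit 5372556549) (nat_lit 13) (nat_lit 5) (nat_lit 15) (nat_lit 4) (nat_lit 13) (nat_lit 4) (nat_lit 356) (nat_lit 216) (nat_lit 208))))) (XT.nd (nat_lit 234) (nat_lit 152) (nat_lit 0) (XT.nd (nat_lit 78) (nat_lit 76) (nat_lit 0) (XT.lf (nat_lit 0) (nat_lit 11704009939) (nat_lit 152) (nat_lit 4180688244) (nat_lit 0) (nat_lit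 8905415043) (nat_lit 13) (nat_lit 5) (nat_lit 15) (nat_lit 4) (nat_lit 13) (nat_lit 4) (nat_lit 357) (nat_lit 216) (nat_lit 207)) (XT.nd (nat_lit 78) (nat_lit 0) (nat_lit 0) (XT.lf (nat_lit 0) (nat_lit 2683928334) (nat_lit 76) (nat_lit 12898770552) (nat_lit 76) (nat_lit 9832722753) (nat_lit 12) (nat_lit 4) (nat_lit 13) (nat_lit 5) (nat_lit 13) (nat_lit 4) (nat_lit 358) (nat_lit 216) (nat_lit 206)) (XT.lf (nat_lit 0) (nat_lit 9716184629) (nat_lit 76) (nat_lit 9834922995) (nat_lit 76) (nat_lit 6509212184) (nat_lit 12) (nat_lit 4) (nat_lit 13) (nat_lit 5) (nat_lit 13) (nat_lit 4) (nat_lit 359) (nat_lit 216) (nat_lit 205)))) (XT.nd (nat_lit 156) (nat_lit 76) (nat_lit 0) (XT.nd (nat_lit 78) (nat_lit 76) (nat_lit 0) (XT.lf (nat_lit 0) (nat_lit 16839021438) (nat_lit 76) (nat_lit 6732695120) (nat_lit 76) (nat_lit 3154884296) (nat_lit 12) (nat_lit 4) (nat_lit 13) (nat_lit 5) (nat_lit 13) (nat_lit 4)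 (nat_lit 360) (nat_lit 216) (nat_lit 204)) (XT.lf (nat_lit 0) (nat_lit 228641462) (nat_lit 152) (nat_lit 3358425948) (nat_lit 76) (nat_lit 23827712305) (nat_lit 11) (nat_lit 5) (nat_lit 13) (nat_lit 5) (nat_lit 12) (nat_lit 4) (nat_lit 361) (nat_lit 216) (nat_lit 203))) (XT.nd (nat_lit 78) (nat_lit 0) (nat_lit 0) (XT.lf (nat_lit 0) (nat_lit 3284690449) (nat_lit 76) (nat_lit 333480489) (nat_lit 152) (nat_lit 24505486460) (nat_lit 10) (nat_lit 5) (nat_lit 11) (nat_lit 5) (nat_lit 12) (nat_lit 4) (nat_lit 362) (nat_lit 216) (nat_lit 202)) (XT.lf (nat_lit 0) (nat_lit 7109251417) (nat_lit 152) (nat_lit 18801255607) (nat_lit 0) (nat_lit 2943325417) (nat_lit 10) (nat_lit 5) (nat_lit 12) (nat_lit 4) (nat_lit 10) (nat_lit 4) (nat_lit 363) (nat_lit 216) (nat_lit 201))))))) (XT.nd (nat_lit 1014) (nat_lit 228) (nat_lit 0) (XT.nd (nat_lit 468) (nat_lit 152) (nat_lit 0) (XT.nd (nat_lit 234) (nat_lit 76) (nat_lit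 0) (XT.nd (nat_lit 78) (nat_lit 0) (nat_lit 0) (XT.lf (nat_lit 0) (nat_lit 10646820184) (nat_lit 152) (nat_lit 12697435572) (nat_lit 0) (nat_lit 6263430499) (nat_lit 10) (nat_lit 5) (nat_lit 12) (nat_lit 4) (nat_lit 10) (nat_lit 4) (nat_lit 364) (nat_lit 216) (nat_lit 200)) (XT.nd (nat_lit 78) (nat_lit 0) (nat_lit 0) (XT.lf (nat_lit 0) (nat_lit 14230762700) (nat_lit 152) (nat_lit 6518967792) (nat_lit 0) (nat_lit 9636243224) (nat_lit 10) (nat_lit 5) (nat_lit 12) (nat_lit 4) (nat_lit 10) (nat_lit 4) (nat_lit 365) (nat_lit 216) (nat_lit 199)) (XT.lf (nat_lit 0) (nat_lit 17864210566) (nat_lit 152) (nat_lit 260453605) (nat_lit 0) (nat_lit 13064710710) (nat_lit 10) (nat_lit 5) (nat_lit 12) (nat_lit 4) (nat_lit 10) (nat_lit 4) (nat_lit 366) (nat_lit 216) (nat_lit 198)))) (XT.nd (nat_lit 78) (nat_lit 0) (nat_lit 0) (XT.lf (nat_lit 0) (nat_lit 6204650675) (nat_lit 76) (nat_lit 15405330861) (nat_lit 76)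 (nat_lit 10406820927) (nat_lit 9) (nat_lit 4) (nat_lit 10) (nat_lit 5) (nat_lit 10) (nat_lit 4) (nat_lit 367) (nat_lit 216) (nat_lit 197)) (XT.nd (nat_lit 78) (nat_lit 0) (nat_lit 0) (XT.lf (nat_lit 0) (nat_lit 12767809070) (nat_lit 76) (nat_lit 12647290727) (nat_lit 76) (nat_lit 7455567126) (nat_lit 9) (nat_lit 4) (nat_lit 10) (nat_lit 5) (nat_lit 10) (nat_lit 4) (nat_lit 368) (nat_lit 216) (nat_lit 196)) (XT.lf (nat_lit 0) (nat_lit 19429572841) (nat_lit 76) (nat_lit 9850763902) (nat_lit 76) (nat_lit 4471454216) (nat_lit 9) (nat_lit 4) (nat_lit 10) (nat_lit 5) (nat_lit 10) (nat_lit 4) (nat_lit 369) (nat_lit 216) (nat_lit 195))))) (XT.nd (nat_lit 234) (nat_lit 0) (nat_lit 0) (XT.nd (nat_lit 78) (nat_lit 152) (nat_lit 0) (XT.lf (nat_lit 0) (nat_lit 26195762946) (nat_lit 76) (nat_lit 7013306819) (nat_lit 76) (nat_lit 1451874721) (nat_lit 9) (nat_lit 4) (nat_lit 10) (nat_lit 5) (nat_lit 10) (nat_lit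 4) (nat_lit 370) (nat_lit 216) (nat_lit 194)) (XT.nd (nat_lit 78) (nat_lit 76) (nat_lit 0) (XT.lf (nat_lit 0) (nat_lit 1574474693) (nat_lit 152) (nat_lit 2542066346) (nat_lit 76) (nat_lit 31481917790) (nat_lit 8) (nat_lit 5) (nat_lit 10) (nat_lit 5) (nat_lit 9) (nat_lit 4) (nat_lit 371) (nat_lit 216) (nat_lit 193)) (XT.lf (nat_lit 0) (nat_lit 3522133751) (nat_lit 76) (nat_lit 1124197069) (nat_lit 152) (nat_lit 31917839686) (nat_lit 7) (nat_lit 5) (nat_lit 8) (nat_lit 5) (nat_lit 9) (nat_lit 4) (nat_lit 372) (nat_lit 216) (nat_lit 192)))) (XT.nd (nat_lit 156) (nat_lit 0) (nat_lit 0) (XT.nd (nat_lit 78) (nat_lit 0) (nat_lit 0) (XT.lf (nat_lit 0) (nat_lit 7805326008) (nat_lit 152) (nat_lit 27847969199) (nat_lit 0) (nat_lit 1905728316) (nat_lit 7) (nat_lit 5) (nat_lit 9) (nat_lit 4) (nat_lit 7) (nat_lit 4) (nat_lit 373) (nat_lit 216) (nat_lit 191)) (XT.lf (nat_lit 0) (nat_lit 11021909710) (nat_lit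 152) (nat_lit 22597735161) (nat_lit 0) (nat_lit 4965211626) (nat_lit 7) (nat_lit 5) (nat_lit 9) (nat_lit 4) (nat_lit 7) (nat_lit 4) (nat_lit 374) (nat_lit 216) (nat_lit 190))) (XT.nd (nat_lit 78) (nat_lit 0) (nat_lit 0) (XT.lf (nat_lit 0) (nat_lit 14288086064) (nat_lit 152) (nat_lit 17275940588) (nat_lit 0) (nat_lit 8078863326) (nat_lit 7) (nat_lit 5) (nat_lit 9) (nat_lit 4) (nat_lit 7) (nat_lit 4) (nat_lit 375) (nat_lit 216) (nat_lit 189)) (XT.lf (nat_lit 0) (nat_lit 17606709010) (nat_lit 152) (nat_lit 11877935368) (nat_lit 0) (nat_lit 11249404085) (nat_lit 7) (nat_lit 5) (nat_lit 9) (nat_lit 4) (nat_lit 7) (nat_lit 4) (nat_lit 376) (nat_lit 216) (nat_lit 188)))))) (XT.nd (nat_lit 468) (nat_lit 152) (nat_lit 0) (XT.nd (nat_lit 234) (nat_lit 0) (nat_lit 0) (XT.nd (nat_lit 78) (nat_lit 76) (nat_lit 0) (XT.lf (nat_lit 0) (nat_lit 20980678316) (nat_lit 152) (nat_lit 6399002798) (nat_lit 0) (nat_lit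 14479604277) (nat_lit 7) (nat_lit 5) (nat_lit 9) (nat_lit 4) (nat_lit 7) (nat_lit 4) (nat_lit 377) (nat_lit 216) (nat_lit 187)) (XT.nd (nat_lit 78) (nat_lit 76) (nat_lit 0) (XT.lf (nat_lit 0) (nat_lit 24412942111) (nat_lit 152) (nat_lit 834355460) (nat_lit 0) (nat_lit 17772286407) (nat_lit 7) (nat_lit 5) (nat_lit 9) (nat_lit 4) (nat_lit 7) (nat_lit 4) (nat_lit 378) (nat_lit 216) (nat_lit 186)) (XT.lf (nat_lit 0) (nat_lit 4916813701) (nat_lit 76) (nat_lit 23036949179) (nat_lit 76) (nat_lit 16260777296) (nat_lit 6) (nat_lit 4) (nat_lit 7) (nat_lit 5) (nat_lit 7) (nat_lit 4) (nat_lit 379) (nat_lit 216) (nat_lit 185)))) (XT.nd (nat_lit 78) (nat_lit 0) (nat_lit 0) (XT.lf (nat_lit 0) (nat_lit 10782007718) (nat_lit 76) (nat_lit 20786038521) (nat_lit 76) (nat_lit 13878297532) (nat_lit 6) (nat_lit 4) (nat_lit 7) (nat_lit 5) (nat_lit 7) (nat_lit 4) (nat_lit 380) (nat_lit 216) (nat_lit 184)) (XT.nd (nat_lit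 78) (nat_lit 0) (nat_lit 0) (XT.lf (nat_lit 0) (nat_lit 16749746207) (nat_lit 76) (nat_lit 18501024135) (nat_lit 76) (nat_lit 11465546151) (nat_lit 6) (nat_lit 4) (nat_lit 7) (nat_lit 5) (nat_lit 7) (nat_lit 4) (nat_lit 381) (nat_lit 216) (nat_lit 183)) (XT.lf (nat_lit 0) (nat_lit 22825243696) (nat_lit 76) (nat_lit 16179909408) (nat_lit 76) (nat_lit 9020414923) (nat_lit 6) (nat_lit 4) (nat_lit 7) (nat_lit 5) (nat_lit 7) (nat_lit 4) (nat_lit 382) (nat_lit 216) (nat_lit 182))))) (XT.nd (nat_lit 234) (nat_lit 152) (nat_lit 0) (XT.nd (nat_lit 78) (nat_lit 0) (nat_lit 0) (XT.lf (nat_lit 0) (nat_lit 29013808873) (nat_lit 76) (nat_lit 13820666182) (nat_lit 76) (nat_lit 6540767327) (nat_lit 6) (nat_lit 4) (nat_lit 7) (nat_lit 5) (nat_lit 7) (nat_lit 4) (nat_lit 383) (nat_lit 216) (nat_lit 181)) (XT.nd (nat_lit 78) (nat_lit 0) (nat_lit 0) (XT.lf (nat_lit 0) (nat_lit 35320849221) (nat_lit 76) (nat_lit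 11421232981) (nat_lit 76) (nat_lit 4024436679) (nat_lit 6) (nat_lit 4) (nat_lit 7) (nat_lit 5) (nat_lit 7) (nat_lit 4) (nat_lit 384) (nat_lit 216) (nat_lit 180)) (XT.lf (nat_lit 0) (nat_lit 41751875747) (nat_lit 76) (nat_lit 8979513213) (nat_lit 76) (nat_lit 1469224245) (nat_lit 6) (nat_lit 4) (nat_lit 7) (nat_lit 5) (nat_lit 7) (nat_lit 4) (nat_lit 385) (nat_lit 216) (nat_lit 179)))) (XT.nd (nat_lit 156) (nat_lit 76) (nat_lit 0) (XT.nd (nat_lit 78) (nat_lit 0) (nat_lit 0) (XT.lf (nat_lit 0) (nat_lit 1105108851) (nat_lit 152) (nat_lit 5377105053) (nat_lit 76) (nat_lit 47196239510) (nat_lit 5) (nat_lit 5) (nat_lit 7) (nat_lit 5) (nat_lit 6) (nat_lit 4) (nat_lit 386) (nat_lit 216) (nat_lit 178)) (XT.lf (nat_lit 0) (nat_lit 3693308662) (nat_lit 152) (nat_lit 230037160) (nat_lit 76) (nat_lit 51277874116) (nat_lit 5) (nat_lit 5) (nat_lit 7) (nat_lit 5) (nat_lit 6) (nat_lit 4) (nat_lit 387) (nat_lit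 216) (nat_lit 177))) (XT.nd (nat_lit 78) (nat_lit 0) (nat_lit 0) (XT.lf (nat_lit 0) (nat_lit 5110817192) (nat_lit 76) (nat_lit 1264617687) (nat_lit 152) (nat_lit 50393758314) (nat_lit 4) (nat_lit 5) (nat_lit 5) (nat_lit 5) (nat_lit 6) (nat_lit 4) (nat_lit 388) (nat_lit 216) (nat_lit 176)) (XT.lf (nat_lit 0) (nat_lit 9121810510) (nat_lit 152) (nat_lit 47842201660) (nat_lit 0) (nat_lit 1420691697) (nat_lit 4) (nat_lit 5) (nat_lit 6) (nat_lit 4) (nat_lit 4) (nat_lit 4) (nat_lit 389) (nat_lit 216) (nat_lit 175))))))))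
noncomputable def xc19 : XT := (XT.nd (nat_lit 37674) (nat_lit 0) (nat_lit 304) (XT.nd (nat_lit 1014) (nat_lit 0) (nat_lit 0) (XT.nd (nat_lit 468) (nat_lit 76) (nat_lit 0) (XT.nd (nat_lit 234) (nat_lit 0) (nat_lit 0) (XT.nd (nat_lit 78) (nat_lit 0) (nat_lit 0) (XT.lf (nat_lit 0) (nat_lit 11931323564) (nat_lit 152) (nat_lit 43982788935) (nat_lit 0) (nat_lit 4135156430) (nat_lit 4) (nat_lit 5) (nat_lit 6) (nat_lit 4) (nat_lit 4) (nat_lit 4) (nat_lit 390) (nat_lit 216) (nat_lit 174)) (XT.nd (nat_lit 78) (nat_lit 0) (nat_lit 0) (XT.lf (nat_lit 0) (nat_lit 14794272676) (nat_lit 152) (nat_lit 40064609243) (nat_lit 0) (nat_lit 6905825618) (nat_lit 4) (nat_lit 5) (nat_lit 6) (nat_lit 4) (nat_lit 4) (nat_lit 4) (nat_lit 391) (nat_lit 216) (nat_lit 173)) (XT.lf (nat_lit 0) (nat_lit 17713159452) (nat_lit 152) (nat_lit 36084238933) (nat_lit 0) (nat_lit 9735120236) (nat_lit 4) (nat_lit 5) (nat_lit 6) (nat_lit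 4) (nat_lit 4) (nat_lit 4) (nat_lit 392) (nat_lit 216) (nat_lit 172)))) (XT.nd (nat_lit 78) (nat_lit 0) (nat_lit 0) (XT.lf (nat_lit 0) (nat_lit 20690534376) (nat_lit 152) (nat_lit 32038200011) (nat_lit 0) (nat_lit 12625512481) (nat_lit 4) (nat_lit 5) (nat_lit 6) (nat_lit 4) (nat_lit 4) (nat_lit 4) (nat_lit 393) (nat_lit 216) (nat_lit 171)) (XT.nd (nat_lit 78) (nat_lit 0) (nat_lit 0) (XT.lf (nat_lit 0) (nat_lit 23728999038) (nat_lit 152) (nat_lit 27922957104) (nat_lit 0) (nat_lit 15579527941) (nat_lit 4) (nat_lit 5) (nat_lit 6) (nat_lit 4) (nat_lit 4) (nat_lit 4) (nat_lit 394) (nat_lit 216) (nat_lit 170)) (XT.lf (nat_lit 0) (nat_lit 26831208407) (nat_lit 152) (nat_lit 23734914368) (nat_lit 0) (nat_lit 18599747792) (nat_lit 4) (nat_lit 5) (nat_lit 6) (nat_lit 4) (nat_lit 4) (nat_lit 4) (nat_lit 395) (nat_lit 216) (nat_lit 169))))) (XT.nd (nat_lit 234) (nat_lit 76) (nat_lit 0) (XT.nd (nat_lit 78)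 (nat_lit 0) (nat_lit 0) (XT.lf (nat_lit 0) (nat_lit 29999873150) (nat_lit 152) (nat_lit 19470412348) (nat_lit 0) (nat_lit 21688811063) (nat_lit 4) (nat_lit 5) (nat_lit 6) (nat_lit 4) (nat_lit 4) (nat_lit 4) (nat_lit 396) (nat_lit 216) (nat_lit 168)) (XT.nd (nat_lit 78) (nat_lit 0) (nat_lit 0) (XT.lf (nat_lit 0) (nat_lit 33237762005) (nat_lit 152) (nat_lit 15125724780) (nat_lit 0) (nat_lit 24849416935) (nat_lit 4) (nat_lit 5) (nat_lit 6) (nat_lit 4) (nat_lit 4) (nat_lit 4) (nat_lit 397) (nat_lit 216) (nat_lit 167)) (XT.lf (nat_lit 0) (nat_lit 36547704195) (nat_lit 152) (nat_lit 10697055335) (nat_lit 0) (nat_lit 28084327102) (nat_lit 4) (nat_lit 5) (nat_lit 6) (nat_lit 4) (nat_lit 4) (nat_lit 4) (nat_lit 398) (nat_lit 216) (nat_lit 166)))) (XT.nd (nat_lit 156) (nat_lit 76) (nat_lit 0) (XT.nd (nat_lit 78) (nat_lit 0) (nat_lit 0) (XT.lf (nat_lit 0) (nat_lit 39932591901) (nat_lit 152) (nat_lit 6180534303)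 (nat_lit 0) (nat_lit 31396368184) (nat_lit 4) (nat_lit 5) (nat_lit 6) (nat_lit 4) (nat_lit 4) (nat_lit 4) (nat_lit 399) (nat_lit 216) (nat_lit 165)) (XT.lf (nat_lit 0) (nat_lit 43395382794) (nat_lit 152) (nat_lit 1572215208) (nat_lit 0) (nat_lit 34788434199) (nat_lit 4) (nat_lit 5) (nat_lit 6) (nat_lit 4) (nat_lit 4) (nat_lit 4) (nat_lit 400) (nat_lit 216) (nat_lit 164))) (XT.nd (nat_lit 78) (nat_lit 0) (nat_lit 0) (XT.lf (nat_lit 0) (nat_lit 3194260155) (nat_lit 76) (nat_lit 43775547639) (nat_lit 76) (nat_lit 35099934115) (nat_lit 3) (nat_lit 4) (nat_lit 4) (nat_lit 5) (nat_lit 4) (nat_lit 4) (nat_lit 401) (nat_lit 216) (nat_lit 163)) (XT.lf (nat_lit 0) (nat_lit 8093949757) (nat_lit 76) (nat_lit 42550702048) (nat_lit 76) (nat_lit 33808423544) (nat_lit 3) (nat_lit 4) (nat_lit 4) (nat_lit 5) (nat_lit 4) (nat_lit 4) (nat_lit 402) (nat_lit 216) (nat_lit 162)))))) (XT.nd (nat_lit 468) (nat_lit 0)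 (nat_lit 0) (XT.nd (nat_lit 234) (nat_lit 0) (nat_lit 0) (XT.nd (nat_lit 78) (nat_lit 0) (nat_lit 0) (XT.lf (nat_lit 0) (nat_lit 13099844713) (nat_lit 76) (nat_lit 41307867269) (nat_lit 76) (nat_lit 32500865483) (nat_lit 3) (nat_lit 4) (nat_lit 4) (nat_lit 5) (nat_lit 4) (nat_lit 4) (nat_lit 403) (nat_lit 216) (nat_lit 161)) (XT.nd (nat_lit 78) (nat_lit 0) (nat_lit 0) (XT.lf (nat_lit 0) (nat_lit 18216319105) (nat_lit 76) (nat_lit 40045957329) (nat_lit 76) (nat_lit 31176117405) (nat_lit 3) (nat_lit 4) (nat_lit 4) (nat_lit 5) (nat_lit 4) (nat_lit 4) (nat_lit 404) (nat_lit 216) (nat_lit 160)) (XT.lf (nat_lit 0) (nat_lit 23447843641) (nat_lit 76) (nat_lit 38763869588) (nat_lit 76) (nat_lit 29833021764) (nat_lit 3) (nat_lit 4) (nat_lit 4) (nat_lit 5) (nat_lit 4) (nat_lit 4) (nat_lit 405) (nat_lit 216) (nat_lit 159)))) (XT.nd (nat_lit 78) (nat_lit 0) (nat_lit 0) (XT.lf (nat_lit 0) (nat_lit 28798989554)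 (nat_lit 76) (nat_lit 37460483775) (nat_lit 76) (nat_lit 28470404979) (nat_lit 3) (nat_lit 4) (nat_lit 4) (nat_lit 5) (nat_lit 4) (nat_lit 4) (nat_lit 406) (nat_lit 216) (nat_lit 158)) (XT.nd (nat_lit 78) (nat_lit 0) (nat_lit 0) (XT.lf (nat_lit 0) (nat_lit 34274432603) (nat_lit 76) (nat_lit 36134661010) (nat_lit 76) (nat_lit 27087076417) (nat_lit 3) (nat_lit 4) (nat_lit 4) (nat_lit 5) (nat_lit 4) (nat_lit 4) (nat_lit 407) (nat_lit 216) (nat_lit 157)) (XT.lf (nat_lit 0) (nat_lit 39878957156) (nat_lit 76) (nat_lit 34785242806) (nat_lit 76) (nat_lit 25681827342) (nat_lit 3) (nat_lit 4) (nat_lit 4) (nat_lit 5) (nat_lit 4) (nat_lit 4) (nat_lit 408) (nat_lit 216) (nat_lit 156))))) (XT.nd (nat_lit 35880) (nat_lit 0) (nat_lit 1064) (XT.nd (nat_lit 35724) (nat_lit 0) (nat_lit 1216) (XT.lf (nat_lit 0) (nat_lit 45617460371) (nat_lit 76) (nat_lit 33411050061) (nat_lit 76) (nat_lit 24253429867) (nat_lit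 3) (nat_lit 4) (nat_lit 4) (nat_lit 5) (nat_lit 4) (nat_lit 4) (nat_lit 409) (nat_lit 216) (nat_lit 155)) (XT.nd (nat_lit 78) (nat_lit 0) (nat_lit 0) (XT.lf (nat_lit 0) (nat_lit 1299643467) (nat_lit 152) (nat_lit 4120293766) (nat_lit 152) (nat_lit 4120293766) (nat_lit 19) (nat_lit 4) (nat_lit 21) (nat_lit 5) (nat_lit 21) (nat_lit 4) (nat_lit 346) (nat_lit 217) (nat_lit 217)) (XT.lf (nat_lit 0) (nat_lit 10267723983) (nat_lit 152) (nat_lit 4817391723) (nat_lit 152) (nat_lit 4436067835) (nat_lit 19) (nat_lit 4) (nat_lit 21) (nat_lit 5) (nat_lit 21) (nat_lit 4) (nat_lit 347) (nat_lit 217) (nat_lit 216)))) (XT.nd (nat_lit 156) (nat_lit 0) (nat_lit 0) (XT.nd (nat_lit 78) (nat_lit 152) (nat_lit 0) (XT.lf (nat_lit 0) (nat_lit 18019549089) (nat_lit 152) (nat_lit 1354831748) (nat_lit 152) (nat_lit 603290493) (nat_lit 19) (nat_lit 4) (nat_lit 21) (nat_lit 5) (nat_lit 21) (nat_lit 4) (nat_lit 348) (nat_lit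 217) (nat_lit 215)) (XT.lf (nat_lit 0) (nat_lit 3271702442) (nat_lit 152) (nat_lit 14982368663) (nat_lit 0) (nat_lit 2193085363) (nat_lit 17) (nat_lit 5) (nat_lit 19) (nat_lit 4) (nat_lit 17) (nat_lit 4) (nat_lit 349) (nat_lit 217) (nat_lit 214))) (XT.nd (nat_lit 78) (nat_lit 0) (nat_lit 0) (XT.lf (nat_lit 0) (nat_lit 7202867806) (nat_lit 152) (nat_lit 7943709134) (nat_lit 0) (nat_lit 5785449392) (nat_lit 17) (nat_lit 5) (nat_lit 19) (nat_lit 4) (nat_lit 17) (nat_lit 4) (nat_lit 350) (nat_lit 217) (nat_lit 213)) (XT.lf (nat_lit 0) (nat_lit 11173002147) (nat_lit 152) (nat_lit 834198352) (nat_lit 0) (nat_lit 9426650397) (nat_lit 17) (nat_lit 5) (nat_lit 19) (nat_lit 4) (nat_lit 17) (nat_lit 4) (nat_lit 351) (nat_lit 217) (nat_lit 212))))))) (XT.nd (nat_lit 1014) (nat_lit 228) (nat_lit 0) (XT.nd (nat_lit 468) (nat_lit 228) (nat_lit 0) (XT.nd (nat_lit 234) (nat_lit 76) (nat_lit 0) (XT.nd (nat_lit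 78) (nat_lit 76) (nat_lit 0) (XT.lf (nat_lit 0) (nat_lit 6478800613) (nat_lit 152) (nat_lit 8769052094) (nat_lit 152) (nat_lit 6703347592) (nat_lit 15) (nat_lit 4) (nat_lit 17) (nat_lit 5) (nat_lit 17) (nat_lit 4) (nat_lit 352) (nat_lit 217) (nat_lit 211)) (XT.nd (nat_lit 78) (nat_lit 76) (nat_lit 0) (XT.lf (nat_lit 0) (nat_lit 13893403430) (nat_lit 152) (nat_lit 5484239500) (nat_lit 152) (nat_lit 3108483781) (nat_lit 15) (nat_lit 4) (nat_lit 17) (nat_lit 5) (nat_lit 17) (nat_lit 4) (nat_lit 353) (nat_lit 217) (nat_lit 210)) (XT.lf (nat_lit 0) (nat_lit 508343034) (nat_lit 228) (nat_lit 1644839956) (nat_lit 76) (nat_lit 20886010390) (nat_lit 14) (nat_lit 5) (nat_lit 17) (nat_lit 5) (nat_lit 15) (nat_lit 4) (nat_lit 354) (nat_lit 217) (nat_lit 209)))) (XT.nd (nat_lit 78) (nat_lit 0) (nat_lit 0) (XT.lf (nat_lit 0) (nat_lit 4164109249) (nat_lit 152) (nat_lit 18162509802) (nat_lit 0) (nat_lit 1281556506)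 (nat_lit 13) (nat_lit 5) (nat_lit 15) (nat_lit 4) (nat_lit 13) (nat_lit 4) (nat_lit 355) (nat_lit 217) (nat_lit 208)) (XT.nd (nat_lit 78) (nat_lit 0) (nat_lit 0) (XT.lf (nat_lit 0) (nat_lit 7895854686) (nat_lit 152) (nat_lit 11561591056) (nat_lit 0) (nat_lit 4737825453) (nat_lit 13) (nat_lit 5) (nat_lit 15) (nat_lit 4) (nat_lit 13) (nat_lit 4) (nat_lit 356) (nat_lit 217) (nat_lit 207)) (XT.lf (nat_lit 0) (nat_lit 11669856839) (nat_lit 152) (nat_lit 4887871249) (nat_lit 0) (nat_lit 8244374703) (nat_lit 13) (nat_lit 5) (nat_lit 15) (nat_lit 4) (nat_lit 13) (nat_lit 4) (nat_lit 357) (nat_lit 217) (nat_lit 206))))) (XT.nd (nat_lit 234) (nat_lit 152) (nat_lit 0) (XT.nd (nat_lit 78) (nat_lit 0) (nat_lit 0) (XT.lf (nat_lit 0) (nat_lit 1901587852) (nat_lit 76) (nat_lit 13606104751) (nat_lit 76) (nat_lit 9920959603) (nat_lit 12) (nat_lit 4) (nat_lit 13) (nat_lit 5) (nat_lit 13) (nat_lit 4) (nat_lit 358)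 (nat_lit 217) (nat_lit 205)) (XT.nd (nat_lit 78) (nat_lit 0) (nat_lit 0) (XT.lf (nat_lit 0) (nat_lit 8874540120) (nat_lit 76) (nat_lit 10568629169) (nat_lit 76) (nat_lit 6631384009) (nat_lit 12) (nat_lit 4) (nat_lit 13) (nat_lit 5) (nat_lit 13) (nat_lit 4) (nat_lit 359) (nat_lit 217) (nat_lit 204)) (XT.lf (nat_lit 0) (nat_lit 15939800203) (nat_lit 76) (nat_lit 7492005152) (nat_lit 76) (nat_lit 3310002699) (nat_lit 12) (nat_lit 4) (nat_lit 13) (nat_lit 5) (nat_lit 13) (nat_lit 4) (nat_lit 360) (nat_lit 217) (nat_lit 203)))) (XT.nd (nat_lit 156) (nat_lit 0) (nat_lit 0) (XT.nd (nat_lit 78) (nat_lit 76) (nat_lit 0) (XT.lf (nat_lit 0) (nat_lit 45187191) (nat_lit 152) (nat_lit 4327900894) (nat_lit 76) (nat_lit 23057898136) (nat_lit 11) (nat_lit 5) (nat_lit 13) (nat_lit 5) (nat_lit 12) (nat_lit 4) (nat_lit 361) (nat_lit 217) (nat_lit 202)) (XT.lf (nat_lit 0) (nat_lit 2239937736) (nat_lit 76) (nat_lit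 1154286821) (nat_lit 152) (nat_lit 24746867403) (nat_lit 10) (nat_lit 5) (nat_lit 11) (nat_lit 5) (nat_lit 12) (nat_lit 4) (nat_lit 362) (nat_lit 217) (nat_lit 201))) (XT.nd (nat_lit 78) (nat_lit 0) (nat_lit 0) (XT.lf (nat_lit 0) (nat_lit 6847096760) (nat_lit 152) (nat_lit 19910587696) (nat_lit 0) (nat_lit 2114741699) (nat_lit 10) (nat_lit 5) (nat_lit 12) (nat_lit 4) (nat_lit 10) (nat_lit 4) (nat_lit 363) (nat_lit 217) (nat_lit 200)) (XT.lf (nat_lit 0) (nat_lit 10355230397) (nat_lit 152) (nat_lit 13860199610) (nat_lit 0) (nat_lit 5411745545) (nat_lit 10) (nat_lit 5) (nat_lit 12) (nat_lit 4) (nat_lit 10) (nat_lit 4) (nat_lit 364) (nat_lit 217) (nat_lit 199)))))) (XT.nd (nat_lit 546) (nat_lit 76) (nat_lit 0) (XT.nd (nat_lit 234) (nat_lit 76) (nat_lit 0) (XT.nd (nat_lit 78) (nat_lit 76) (nat_lit 0) (XT.lf (nat_lit 0) (nat_lit 13910595117) (nat_lit 152) (nat_lit 7733607508) (nat_lit 0) (nat_lit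 8762129885) (nat_lit 10) (nat_lit 5) (nat_lit 12) (nat_lit 4) (nat_lit 10) (nat_lit 4) (nat_lit 365) (nat_lit 217) (nat_lit 198)) (XT.nd (nat_lit 78) (nat_lit 76) (nat_lit 0) (XT.lf (nat_lit 0) (nat_lit 17516297549) (nat_lit 152) (nat_lit 1525458057) (nat_lit 0) (nat_lit 12168822240) (nat_lit 10) (nat_lit 5) (nat_lit 12) (nat_lit 4) (nat_lit 10) (nat_lit 4) (nat_lit 366) (nat_lit 217) (nat_lit 197)) (XT.lf (nat_lit 0) (nat_lit 4864599189) (nat_lit 76) (nat_lit 16357650622) (nat_lit 76) (nat_lit 10816961645) (nat_lit 9) (nat_lit 4) (nat_lit 10) (nat_lit 5) (nat_lit 10) (nat_lit 4) (nat_lit 367) (nat_lit 217) (nat_lit 196)))) (XT.nd (nat_lit 156) (nat_lit 76) (nat_lit 0) (XT.nd (nat_lit 78) (nat_lit 0) (nat_lit 0) (XT.lf (nat_lit 0) (nat_lit 11379339172) (nat_lit 76) (nat_lit 13621410740) (nat_lit 76) (nat_lit 7893135679) (nat_lit 9) (nat_lit 4) (nat_lit 10) (nat_lit 5) (nat_lit 10) (nat_lit 4)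 (nat_lit 368) (nat_lit 217) (nat_lit 195)) (XT.lf (nat_lit 0) (nat_lit 17994094777) (nat_lit 76) (nat_lit 10846049210) (nat_lit 76) (nat_lit 4935651736) (nat_lit 9) (nat_lit 4) (nat_lit 10) (nat_lit 5) (nat_lit 10) (nat_lit 4) (nat_lit 369) (nat_lit 217) (nat_lit 194))) (XT.nd (nat_lit 78) (nat_lit 76) (nat_lit 0) (XT.lf (nat_lit 0) (nat_lit 24714645885) (nat_lit 76) (nat_lit 8029140956) (nat_lit 76) (nat_lit 1941925606) (nat_lit 9) (nat_lit 4) (nat_lit 10) (nat_lit 5) (nat_lit 10) (nat_lit 4) (nat_lit 370) (nat_lit 217) (nat_lit 193)) (XT.lf (nat_lit 0) (nat_lit 1069375909) (nat_lit 152) (nat_lit 4088050093) (nat_lit 76) (nat_lit 30466690314) (nat_lit 8) (nat_lit 5) (nat_lit 10) (nat_lit 5) (nat_lit 9) (nat_lit 4) (nat_lit 371) (nat_lit 217) (nat_lit 192))))) (XT.nd (nat_lit 234) (nat_lit 0) (nat_lit 0) (XT.nd (nat_lit 78) (nat_lit 0) (nat_lit 0) (XT.lf (nat_lit 0) (nat_lit 1901011809) (nat_lit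 76) (nat_lit 2200743267) (nat_lit 152) (nat_lit 32489266827) (nat_lit 7) (nat_lit 5) (nat_lit 8) (nat_lit 5) (nat_lit 9) (nat_lit 4) (nat_lit 372) (nat_lit 217) (nat_lit 191)) (XT.nd (nat_lit 78) (nat_lit 0) (nat_lit 0) (XT.lf (nat_lit 0) (nat_lit 7226602827) (nat_lit 152) (nat_lit 29529202434) (nat_lit 0) (nat_lit 831103407) (nat_lit 7) (nat_lit 5) (nat_lit 9) (nat_lit 4) (nat_lit 7) (nat_lit 4) (nat_lit 373) (nat_lit 217) (nat_lit 190)) (XT.lf (nat_lit 0) (nat_lit 10420080687) (nat_lit 152) (nat_lit 24321306567) (nat_lit 0) (nat_lit 3872056613) (nat_lit 7) (nat_lit 5) (nat_lit 9) (nat_lit 4) (nat_lit 7) (nat_lit 4) (nat_lit 374) (nat_lit 217) (nat_lit 189)))) (XT.nd (nat_lit 156) (nat_lit 0) (nat_lit 0) (XT.nd (nat_lit 78) (nat_lit 0) (nat_lit 0) (XT.lf (nat_lit 0) (nat_lit 13663824184) (nat_lit 152) (nat_lit 19040617013) (nat_lit 0) (nat_lit 6967717923) (nat_lit 7) (nat_lit 5) (nat_lit 9)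 (nat_lit 4) (nat_lit 7) (nat_lit 4) (nat_lit 375) (nat_lit 217) (nat_lit 188)) (XT.lf (nat_lit 0) (nat_lit 16960667658) (nat_lit 152) (nat_lit 13682519580) (nat_lit 0) (nat_lit 10120792283) (nat_lit 7) (nat_lit 5) (nat_lit 9) (nat_lit 4) (nat_lit 7) (nat_lit 4) (nat_lit 376) (nat_lit 217) (nat_lit 187))) (XT.nd (nat_lit 78) (nat_lit 0) (nat_lit 0) (XT.lf (nat_lit 0) (nat_lit 20313491846) (nat_lit 152) (nat_lit 8242332433) (nat_lit 0) (nat_lit 13334034807) (nat_lit 7) (nat_lit 5) (nat_lit 9) (nat_lit 4) (nat_lit 7) (nat_lit 4) (nat_lit 377) (nat_lit 217) (nat_lit 186)) (XT.lf (nat_lit 0) (nat_lit 23725226399) (nat_lit 152) (nat_lit 2715302012) (nat_lit 0) (nat_lit 16610253181) (nat_lit 7) (nat_lit 5) (nat_lit 9) (nat_lit 4) (nat_lit 7) (nat_lit 4) (nat_lit 378) (nat_lit 217) (nat_lit 185))))))))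
noncomputable def xc20 : XT := (XT.nd (nat_lit 2028) (nat_lit 0) (nat_lit 0) (XT.nd (nat_lit 1014) (nat_lit 76) (nat_lit 0) (XT.nd (nat_lit 468) (nat_lit 152) (nat_lit 0) (XT.nd (nat_lit 234) (nat_lit 0) (nat_lit 0) (XT.nd (nat_lit 78) (nat_lit 0) (nat_lit 0) (XT.lf (nat_lit 0) (nat_lit 2961184502) (nat_lit 76) (nat_lit 24266132660) (nat_lit 76) (nat_lit 17019590336) (nat_lit 6) (nat_lit 4) (nat_lit 7) (nat_lit 5) (nat_lit 7) (nat_lit 4) (nat_lit 379) (nat_lit 217) (nat_lit 184)) (XT.nd (nat_lit 78) (nat_lit 0) (nat_lit 0) (XT.lf (nat_lit 0) (nat_lit 8790215293) (nat_lit 76) (nat_lit 22031686826) (nat_lit 76) (nat_lit 14657407506) (nat_lit 6) (nat_lit 4) (nat_lit 7) (nat_lit 5) (nat_lit 7) (nat_lit 4) (nat_lit 380) (nat_lit 217) (nat_lit 183)) (XT.lf (nat_lit 0) (nat_lit 14722843854) (nat_lit 76) (nat_lit 19762657706) (nat_lit 76) (nat_lit 12264361885) (nat_lit 6) (nat_lit 4) (nat_lit 7) (nat_lit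 5) (nat_lit 7) (nat_lit 4) (nat_lit 381) (nat_lit 217) (nat_lit 182)))) (XT.nd (nat_lit 78) (nat_lit 0) (nat_lit 0) (XT.lf (nat_lit 0) (nat_lit 20764254034) (nat_lit 76) (nat_lit 17457062655) (nat_lit 76) (nat_lit 9838362465) (nat_lit 6) (nat_lit 4) (nat_lit 7) (nat_lit 5) (nat_lit 7) (nat_lit 4) (nat_lit 382) (nat_lit 217) (nat_lit 181)) (XT.nd (nat_lit 78) (nat_lit 0) (nat_lit 0) (XT.lf (nat_lit 0) (nat_lit 26919724736) (nat_lit 76) (nat_lit 15112887075) (nat_lit 76) (nat_lit 7377289438) (nat_lit 6) (nat_lit 4) (nat_lit 7) (nat_lit 5) (nat_lit 7) (nat_lit 4) (nat_lit 383) (nat_lit 217) (nat_lit 180)) (XT.lf (nat_lit 0) (nat_lit 33194634526) (nat_lit 76) (nat_lit 12728082657) (nat_lit 76) (nat_lit 4878992354) (nat_lit 6) (nat_lit 4) (nat_lit 7) (nat_lit 5) (nat_lit 7) (nat_lit 4) (nat_lit 384) (nat_lit 217) (nat_lit 179))))) (XT.nd (nat_lit 234) (nat_lit 76) (nat_lit 0) (XT.nd (nat_lit 78)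 (nat_lit 76) (nat_lit 0) (XT.lf (nat_lit 0) (nat_lit 39594466336) (nat_lit 76) (nat_lit 10300565592) (nat_lit 76) (nat_lit 2341288233) (nat_lit 6) (nat_lit 4) (nat_lit 7) (nat_lit 5) (nat_lit 7) (nat_lit 4) (nat_lit 385) (nat_lit 217) (nat_lit 178)) (XT.nd (nat_lit 78) (nat_lit 0) (nat_lit 0) (XT.lf (nat_lit 0) (nat_lit 233395309) (nat_lit 152) (nat_lit 7592462602) (nat_lit 76) (nat_lit 45889060106) (nat_lit 5) (nat_lit 5) (nat_lit 7) (nat_lit 5) (nat_lit 6) (nat_lit 4) (nat_lit 386) (nat_lit 217) (nat_lit 177)) (XT.lf (nat_lit 0) (nat_lit 2805413893) (nat_lit 152) (nat_lit 2475126743) (nat_lit 76) (nat_lit 49957635325) (nat_lit 5) (nat_lit 5) (nat_lit 7) (nat_lit 5) (nat_lit 6) (nat_lit 4) (nat_lit 387) (nat_lit 217) (nat_lit 176)))) (XT.nd (nat_lit 156) (nat_lit 0) (nat_lit 0) (XT.nd (nat_lit 78) (nat_lit 0) (nat_lit 0) (XT.lf (nat_lit 0) (nat_lit 2791605381) (nat_lit 76) (nat_lit 2657931118)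 (nat_lit 152) (nat_lit 51357758635) (nat_lit 4) (nat_lit 5) (nat_lit 5) (nat_lit 5) (nat_lit 6) (nat_lit 4) (nat_lit 388) (nat_lit 217) (nat_lit 175)) (XT.lf (nat_lit 0) (nat_lit 8166866131) (nat_lit 152) (nat_lit 50215051035) (nat_lit 0) (nat_lit 41765662) (nat_lit 4) (nat_lit 5) (nat_lit 6) (nat_lit 4) (nat_lit 4) (nat_lit 4) (nat_lit 389) (nat_lit 217) (nat_lit 174))) (XT.nd (nat_lit 78) (nat_lit 0) (nat_lit 0) (XT.lf (nat_lit 0) (nat_lit 10961182469) (nat_lit 152) (nat_lit 46383724721) (nat_lit 0) (nat_lit 2743802076) (nat_lit 4) (nat_lit 5) (nat_lit 6) (nat_lit 4) (nat_lit 4) (nat_lit 4) (nat_lit 390) (nat_lit 217) (nat_lit 173)) (XT.lf (nat_lit 0) (nat_lit 13809377488) (nat_lit 152) (nat_lit 42492813391) (nat_lit 0) (nat_lit 5502404936) (nat_lit 4) (nat_lit 5) (nat_lit 6) (nat_lit 4) (nat_lit 4) (nat_lit 4) (nat_lit 391) (nat_lit 217) (nat_lit 172)))))) (XT.nd (nat_lit 468) (nat_lit 76)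 (nat_lit 0) (XT.nd (nat_lit 234) (nat_lit 0) (nat_lit 0) (XT.nd (nat_lit 78) (nat_lit 0) (nat_lit 0) (XT.lf (nat_lit 0) (nat_lit 16713939902) (nat_lit 152) (nat_lit 38538917217) (nat_lit 0) (nat_lit 8319984672) (nat_lit 4) (nat_lit 5) (nat_lit 6) (nat_lit 4) (nat_lit 4) (nat_lit 4) (nat_lit 392) (nat_lit 217) (nat_lit 171)) (XT.nd (nat_lit 78) (nat_lit 0) (nat_lit 0) (XT.lf (nat_lit 0) (nat_lit 19677407679) (nat_lit 152) (nat_lit 34518581341) (nat_lit 0) (nat_lit 11199003246) (nat_lit 4) (nat_lit 5) (nat_lit 6) (nat_lit 4) (nat_lit 4) (nat_lit 4) (nat_lit 393) (nat_lit 217) (nat_lit 170)) (XT.lf (nat_lit 0) (nat_lit 22702370255) (nat_lit 152) (nat_lit 30428292846) (nat_lit 0) (nat_lit 14141976305) (nat_lit 4) (nat_lit 5) (nat_lit 6) (nat_lit 4) (nat_lit 4) (nat_lit 4) (nat_lit 394) (nat_lit 217) (nat_lit 169)))) (XT.nd (nat_lit 78) (nat_lit 0) (nat_lit 0) (XT.lf (nat_lit 0) (nat_lit 25791470803)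 (nat_lit 152) (nat_lit 26264477695) (nat_lit 0) (nat_lit 17151475381) (nat_lit 4) (nat_lit 5) (nat_lit 6) (nat_lit 4) (nat_lit 4) (nat_lit 4) (nat_lit 395) (nat_lit 217) (nat_lit 168)) (XT.nd (nat_lit 78) (nat_lit 0) (nat_lit 0) (XT.lf (nat_lit 0) (nat_lit 28947408536) (nat_lit 152) (nat_lit 22023497603) (nat_lit 0) (nat_lit 20230130131) (nat_lit 4) (nat_lit 5) (nat_lit 6) (nat_lit 4) (nat_lit 4) (nat_lit 4) (nat_lit 396) (nat_lit 217) (nat_lit 167)) (XT.lf (nat_lit 0) (nat_lit 32172941070) (nat_lit 152) (nat_lit 17701646858) (nat_lit 0) (nat_lit 23380630642) (nat_lit 4) (nat_lit 5) (nat_lit 6) (nat_lit 4) (nat_lit 4) (nat_lit 4) (nat_lit 397) (nat_lit 217) (nat_lit 166))))) (XT.nd (nat_lit 234) (nat_lit 76) (nat_lit 0) (XT.nd (nat_lit 78) (nat_lit 0) (nat_lit 0) (XT.lf (nat_lit 0) (nat_lit 35470886832) (nat_lit 152) (nat_lit 13295149086) (nat_lit 0) (nat_lit 26605729780) (nat_lit 4) (nat_lit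 5) (nat_lit 6) (nat_lit 4) (nat_lit 4) (nat_lit 4) (nat_lit 398) (nat_lit 217) (nat_lit 165)) (XT.nd (nat_lit 78) (nat_lit 0) (nat_lit 0) (XT.lf (nat_lit 0) (nat_lit 38844127521) (nat_lit 152) (nat_lit 8800153950) (nat_lit 0) (nat_lit 29908245591) (nat_lit 4) (nat_lit 5) (nat_lit 6) (nat_lit 4) (nat_lit 4) (nat_lit 4) (nat_lit 399) (nat_lit 217) (nat_lit 164)) (XT.lf (nat_lit 0) (nat_lit 42295610629) (nat_lit 152) (nat_lit 4212733783) (nat_lit 0) (nat_lit 33291063770) (nat_lit 4) (nat_lit 5) (nat_lit 6) (nat_lit 4) (nat_lit 4) (nat_lit 4) (nat_lit 400) (nat_lit 217) (nat_lit 163)))) (XT.nd (nat_lit 156) (nat_lit 0) (nat_lit 0) (XT.nd (nat_lit 78) (nat_lit 0) (nat_lit 0) (XT.lf (nat_lit 0) (nat_lit 480496047) (nat_lit 76) (nat_lit 45352474791) (nat_lit 76) (nat_lit 36281262952) (nat_lit 3) (nat_lit 4) (nat_lit 4) (nat_lit 5) (nat_lit 4) (nat_lit 4) (nat_lit 401) (nat_lit 217) (nat_lit 162)) (XT.lf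 (nat_lit 0) (nat_lit 5360094351) (nat_lit 76) (nat_lit 44136868698) (nat_lit 76) (nat_lit 35000933577) (nat_lit 3) (nat_lit 4) (nat_lit 4) (nat_lit 5) (nat_lit 4) (nat_lit 4) (nat_lit 402) (nat_lit 217) (nat_lit 161))) (XT.nd (nat_lit 78) (nat_lit 0) (nat_lit 0) (XT.lf (nat_lit 0) (nat_lit 10346483192) (nat_lit 76) (nat_lit 42903004304) (nat_lit 76) (nat_lit 33704231045) (nat_lit 3) (nat_lit 4) (nat_lit 4) (nat_lit 5) (nat_lit 4) (nat_lit 4) (nat_lit 403) (nat_lit 217) (nat_lit 160)) (XT.lf (nat_lit 0) (nat_lit 15444019610) (nat_lit 76) (nat_lit 41649803476) (nat_lit 76) (nat_lit 32390022316) (nat_lit 3) (nat_lit 4) (nat_lit 4) (nat_lit 5) (nat_lit 4) (nat_lit 4) (nat_lit 404) (nat_lit 217) (nat_lit 159))))))) (XT.nd (nat_lit 36504) (nat_lit 0) (nat_lit 532) (XT.nd (nat_lit 35958) (nat_lit 0) (nat_lit 1064) (XT.nd (nat_lit 234) (nat_lit 0) (nat_lit 0) (XT.nd (nat_lit 78) (nat_lit 0) (nat_lit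 0) (XT.lf (nat_lit 0) (nat_lit 20657157762) (nat_lit 76) (nat_lit 40376171183) (nat_lit 76) (nat_lit 31057159052) (nat_lit 3) (nat_lit 4) (nat_lit 4) (nat_lit 5) (nat_lit 4) (nat_lit 4) (nat_lit 405) (nat_lit 217) (nat_lit 158)) (XT.nd (nat_lit 78) (nat_lit 0) (nat_lit 0) (XT.lf (nat_lit 0) (nat_lit 25990452817) (nat_lit 76) (nat_lit 39080994544) (nat_lit 76) (nat_lit 29704476615) (nat_lit 3) (nat_lit 4) (nat_lit 4) (nat_lit 5) (nat_lit 4) (nat_lit 4) (nat_lit 406) (nat_lit 217) (nat_lit 157)) (XT.lf (nat_lit 0) (nat_lit 31448564937) (nat_lit 76) (nat_lit 37763141850) (nat_lit 76) (nat_lit 28330793050) (nat_lit 3) (nat_lit 4) (nat_lit 4) (nat_lit 5) (nat_lit 4) (nat_lit 4) (nat_lit 407) (nat_lit 217) (nat_lit 156)))) (XT.nd (nat_lit 78) (nat_lit 0) (nat_lit 0) (XT.lf (nat_lit 0) (nat_lit 37036263345) (nat_lit 76) (nat_lit 36421461580) (nat_lit 76) (nat_lit 26934908050) (nat_lit 3) (nat_lit 4)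 (nat_lit 4) (nat_lit 5) (nat_lit 4) (nat_lit 4) (nat_lit 408) (nat_lit 217) (nat_lit 155)) (XT.nd (nat_lit 35568) (nat_lit 0) (nat_lit 1368) (XT.lf (nat_lit 0) (nat_lit 42758430496) (nat_lit 76) (nat_lit 35054781391) (nat_lit 76) (nat_lit 25515601911) (nat_lit 3) (nat_lit 4) (nat_lit 4) (nat_lit 5) (nat_lit 4) (nat_lit 4) (nat_lit 409) (nat_lit 217) (nat_lit 154)) (XT.lf (nat_lit 0) (nat_lit 1511266305) (nat_lit 152) (nat_lit 6097404466) (nat_lit 0) (nat_lit 1511266305) (nat_lit 21) (nat_lit 5) (nat_lit 23) (nat_lit 4) (nat_lit 21) (nat_lit 4) (nat_lit 344) (nat_lit 218) (nat_lit 218))))) (XT.nd (nat_lit 234) (nat_lit 152) (nat_lit 0) (XT.nd (nat_lit 78) (nat_lit 152) (nat_lit 0) (XT.lf (nat_lit 0) (nat_lit 7075701891) (nat_lit 152) (nat_lit 4895041705) (nat_lit 0) (nat_lit 6682938286) (nat_lit 21) (nat_lit 5) (nat_lit 23) (nat_lit 4) (nat_lit 21) (nat_lit 4) (nat_lit 345) (nat_lit 218) (nat_lit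 217)) (XT.nd (nat_lit 78) (nat_lit 0) (nat_lit 0) (XT.lf (nat_lit 0) (nat_lit 2524870675) (nat_lit 152) (nat_lit 8665484958) (nat_lit 152) (nat_lit 7891397466) (nat_lit 19) (nat_lit 4) (nat_lit 21) (nat_lit 5) (nat_lit 21) (nat_lit 4) (nat_lit 346) (nat_lit 218) (nat_lit 216)) (XT.lf (nat_lit 0) (nat_lit 10121058929) (nat_lit 152) (nat_lit 5273487035) (nat_lit 152) (nat_lit 4129182176) (nat_lit 19) (nat_lit 4) (nat_lit 21) (nat_lit 5) (nat_lit 21) (nat_lit 4) (nat_lit 347) (nat_lit 218) (nat_lit 215)))) (XT.nd (nat_lit 156) (nat_lit 0) (nat_lit 0) (XT.nd (nat_lit 78) (nat_lit 152) (nat_lit 0) (XT.lf (nat_lit 0) (nat_lit 17802739573) (nat_lit 152) (nat_lit 1841216269) (nat_lit 152) (nat_lit 337477073) (nat_lit 19) (nat_lit 4) (nat_lit 21) (nat_lit 5) (nat_lit 21) (nat_lit 4) (nat_lit 348) (nat_lit 218) (nat_lit 214)) (XT.lf (nat_lit 0) (nat_lit 3485403103) (nat_lit 152) (nat_lit 15280205372)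 (nat_lit 0) (nat_lit 1686660801) (nat_lit 17) (nat_lit 5) (nat_lit 19) (nat_lit 4) (nat_lit 17) (nat_lit 4) (nat_lit 349) (nat_lit 218) (nat_lit 213))) (XT.nd (nat_lit 78) (nat_lit 0) (nat_lit 0) (XT.lf (nat_lit 0) (nat_lit 7377668967) (nat_lit 152) (nat_lit 8310663347) (nat_lit 0) (nat_lit 5249993330) (nat_lit 17) (nat_lit 5) (nat_lit 19) (nat_lit 4) (nat_lit 17) (nat_lit 4) (nat_lit 350) (nat_lit 218) (nat_lit 212)) (XT.lf (nat_lit 0) (nat_lit 11310036803) (nat_lit 152) (nat_lit 1268256936) (nat_lit 0) (nat_lit 8863008413) (nat_lit 17) (nat_lit 5) (nat_lit 19) (nat_lit 4) (nat_lit 17) (nat_lit 4) (nat_lit 351) (nat_lit 218) (nat_lit 211)))))) (XT.nd (nat_lit 468) (nat_lit 228) (nat_lit 0) (XT.nd (nat_lit 234) (nat_lit 76) (nat_lit 0) (XT.nd (nat_lit 78) (nat_lit 76) (nat_lit 0) (XT.lf (nat_lit 0) (nat_lit 5969656926) (nat_lit 152) (nat_lit 9373669729) (nat_lit 152) (nat_lit 6616590122) (nat_lit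 15) (nat_lit 4) (nat_lit 17) (nat_lit 5) (nat_lit 17) (nat_lit 4) (nat_lit 352) (nat_lit 218) (nat_lit 210)) (XT.nd (nat_lit 78) (nat_lit 76) (nat_lit 0) (XT.lf (nat_lit 0) (nat_lit 13319748590) (nat_lit 152) (nat_lit 6117149613) (nat_lit 152) (nat_lit 3059049408) (nat_lit 15) (nat_lit 4) (nat_lit 17) (nat_lit 5) (nat_lit 17) (nat_lit 4) (nat_lit 353) (nat_lit 218) (nat_lit 209)) (XT.lf (nat_lit 0) (nat_lit 521283844) (nat_lit 228) (nat_lit 2292147008) (nat_lit 76) (nat_lit 20236651878) (nat_lit 14) (nat_lit 5) (nat_lit 17) (nat_lit 5) (nat_lit 15) (nat_lit 4) (nat_lit 354) (nat_lit 218) (nat_lit 208)))) (XT.nd (nat_lit 78) (nat_lit 0) (nat_lit 0) (XT.lf (nat_lit 0) (nat_lit 4128931555) (nat_lit 152) (nat_lit 18890908297) (nat_lit 0) (nat_lit 600684955) (nat_lit 13) (nat_lit 5) (nat_lit 15) (nat_lit 4) (nat_lit 13) (nat_lit 4) (nat_lit 355) (nat_lit 218) (nat_lit 207)) (XT.nd (nat_lit 78) (nat_lit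 0) (nat_lit 0) (XT.lf (nat_lit 0) (nat_lit 7826344161) (nat_lit 152) (nat_lit 12351677483) (nat_lit 0) (nat_lit 4030644659) (nat_lit 13) (nat_lit 5) (nat_lit 15) (nat_lit 4) (nat_lit 13) (nat_lit 4) (nat_lit 356) (nat_lit 218) (nat_lit 206)) (XT.lf (nat_lit 0) (nat_lit 11567013468) (nat_lit 152) (nat_lit 5737848872) (nat_lit 0) (nat_lit 7511650953) (nat_lit 13) (nat_lit 5) (nat_lit 15) (nat_lit 4) (nat_lit 13) (nat_lit 4) (nat_lit 357) (nat_lit 218) (nat_lit 205))))) (XT.nd (nat_lit 234) (nat_lit 152) (nat_lit 0) (XT.nd (nat_lit 78) (nat_lit 0) (nat_lit 0) (XT.lf (nat_lit 0) (nat_lit 975389980) (nat_lit 76) (nat_lit 14388194085) (nat_lit 76) (nat_lit 10080731558) (nat_lit 12) (nat_lit 4) (nat_lit 13) (nat_lit 5) (nat_lit 13) (nat_lit 4) (nat_lit 358) (nat_lit 218) (nat_lit 204)) (XT.nd (nat_lit 78) (nat_lit 0) (nat_lit 0) (XT.lf (nat_lit 0) (nat_lit 7890765523) (nat_lit 76) (nat_lit 11376322361)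 (nat_lit 76) (nat_lit 6824102541) (nat_lit 12) (nat_lit 4) (nat_lit 13) (nat_lit 5) (nat_lit 13) (nat_lit 4) (nat_lit 359) (nat_lit 218) (nat_lit 203)) (XT.lf (nat_lit 0) (nat_lit 14900125872) (nat_lit 76) (nat_lit 8324556459) (nat_lit 76) (nat_lit 3534708198) (nat_lit 12) (nat_lit 4) (nat_lit 13) (nat_lit 5) (nat_lit 13) (nat_lit 4) (nat_lit 360) (nat_lit 218) (nat_lit 202)))) (XT.nd (nat_lit 156) (nat_lit 0) (nat_lit 0) (XT.nd (nat_lit 78) (nat_lit 152) (nat_lit 0) (XT.lf (nat_lit 0) (nat_lit 22009595713) (nat_lit 76) (nat_lit 5230229787) (nat_lit 76) (nat_lit 209674303) (nat_lit 12) (nat_lit 4) (nat_lit 13) (nat_lit 5) (nat_lit 13) (nat_lit 4) (nat_lit 361) (nat_lit 218) (nat_lit 201)) (XT.lf (nat_lit 0) (nat_lit 1053506394) (nat_lit 76) (nat_lit 2048981030) (nat_lit 152) (nat_lit 25058420501) (nat_lit 10) (nat_lit 5) (nat_lit 11) (nat_lit 5) (nat_lit 12) (nat_lit 4) (nat_lit 362) (nat_lit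 218) (nat_lit 200))) (XT.nd (nat_lit 78) (nat_lit 0) (nat_lit 0) (XT.lf (nat_lit 0) (nat_lit 6517324149) (nat_lit 152) (nat_lit 21161666604) (nat_lit 0) (nat_lit 1214404961) (nat_lit 10) (nat_lit 5) (nat_lit 12) (nat_lit 4) (nat_lit 10) (nat_lit 4) (nat_lit 363) (nat_lit 218) (nat_lit 199)) (XT.lf (nat_lit 0) (nat_lit 9996879990) (nat_lit 152) (nat_lit 15163154196) (nat_lit 0) (nat_lit 4488980422) (nat_lit 10) (nat_lit 5) (nat_lit 12) (nat_lit 4) (nat_lit 10) (nat_lit 4) (nat_lit 364) (nat_lit 218) (nat_lit 198))))))))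
noncomputable def xc21 : XT := (XT.nd (nat_lit 2028) (nat_lit 76) (nat_lit 0) (XT.nd (nat_lit 1014) (nat_lit 228) (nat_lit 0) (XT.nd (nat_lit 468) (nat_lit 152) (nat_lit 0) (XT.nd (nat_lit 234) (nat_lit 0) (nat_lit 0) (XT.nd (nat_lit 78) (nat_lit 76) (nat_lit 0) (XT.lf (nat_lit 0) (nat_lit 13524499277) (nat_lit 152) (nat_lit 9086926830) (nat_lit 0) (nat_lit 7817589631) (nat_lit 10) (nat_lit 5) (nat_lit 12) (nat_lit 4) (nat_lit 10) (nat_lit 4) (nat_lit 365) (nat_lit 218) (nat_lit 197)) (XT.nd (nat_lit 78) (nat_lit 76) (nat_lit 0) (XT.lf (nat_lit 0) (nat_lit 17103264396) (nat_lit 152) (nat_lit 2927675182) (nat_lit 0) (nat_lit 11203141082) (nat_lit 10) (nat_lit 5) (nat_lit 12) (nat_lit 4) (nat_lit 10) (nat_lit 4) (nat_lit 366) (nat_lit 218) (nat_lit 196)) (XT.lf (nat_lit 0) (nat_lit 3386056783) (nat_lit 76) (nat_lit 17382794489) (nat_lit 76) (nat_lit 11295085091) (nat_lit 9) (nat_lit 4) (nat_lit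 10) (nat_lit 5) (nat_lit 10) (nat_lit 4) (nat_lit 367) (nat_lit 218) (nat_lit 195)))) (XT.nd (nat_lit 78) (nat_lit 0) (nat_lit 0) (XT.lf (nat_lit 0) (nat_lit 9853788599) (nat_lit 76) (nat_lit 14667719901) (nat_lit 76) (nat_lit 8397888091) (nat_lit 9) (nat_lit 4) (nat_lit 10) (nat_lit 5) (nat_lit 10) (nat_lit 4) (nat_lit 368) (nat_lit 218) (nat_lit 194)) (XT.nd (nat_lit 78) (nat_lit 0) (nat_lit 0) (XT.lf (nat_lit 0) (nat_lit 16422905206) (nat_lit 76) (nat_lit 11912907200) (nat_lit 76) (nat_lit 5466257513) (nat_lit 9) (nat_lit 4) (nat_lit 10) (nat_lit 5) (nat_lit 10) (nat_lit 4) (nat_lit 369) (nat_lit 218) (nat_lit 193)) (XT.lf (nat_lit 0) (nat_lit 23099146609) (nat_lit 76) (nat_lit 9115949265) (nat_lit 76) (nat_lit 2497631738) (nat_lit 9) (nat_lit 4) (nat_lit 10) (nat_lit 5) (nat_lit 10) (nat_lit 4) (nat_lit 370) (nat_lit 218) (nat_lit 192))))) (XT.nd (nat_lit 234) (nat_lit 0) (nat_lit 0) (XT.nd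 (nat_lit 78) (nat_lit 76) (nat_lit 0) (XT.lf (nat_lit 0) (nat_lit 500619862) (nat_lit 152) (nat_lit 5768727014) (nat_lit 76) (nat_lit 29382671275) (nat_lit 8) (nat_lit 5) (nat_lit 10) (nat_lit 5) (nat_lit 9) (nat_lit 4) (nat_lit 371) (nat_lit 218) (nat_lit 191)) (XT.nd (nat_lit 78) (nat_lit 0) (nat_lit 0) (XT.lf (nat_lit 0) (nat_lit 143808369) (nat_lit 76) (nat_lit 3349101536) (nat_lit 152) (nat_lit 33127225829) (nat_lit 7) (nat_lit 5) (nat_lit 8) (nat_lit 5) (nat_lit 9) (nat_lit 4) (nat_lit 372) (nat_lit 218) (nat_lit 190)) (XT.lf (nat_lit 0) (nat_lit 6267072246) (nat_lit 76) (nat_lit 319613161) (nat_lit 152) (nat_lit 31030278308) (nat_lit 7) (nat_lit 5) (nat_lit 8) (nat_lit 5) (nat_lit 9) (nat_lit 4) (nat_lit 373) (nat_lit 218) (nat_lit 189)))) (XT.nd (nat_lit 156) (nat_lit 0) (nat_lit 0) (XT.nd (nat_lit 78) (nat_lit 0) (nat_lit 0) (XT.lf (nat_lit 0) (nat_lit 9754658094) (nat_lit 152) (nat_lit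 26180028305) (nat_lit 0) (nat_lit 2709586458) (nat_lit 7) (nat_lit 5) (nat_lit 9) (nat_lit 4) (nat_lit 7) (nat_lit 4) (nat_lit 374) (nat_lit 218) (nat_lit 188)) (XT.lf (nat_lit 0) (nat_lit 12976622120) (nat_lit 152) (nat_lit 20939246538) (nat_lit 0) (nat_lit 5787781369) (nat_lit 7) (nat_lit 5) (nat_lit 9) (nat_lit 4) (nat_lit 7) (nat_lit 4) (nat_lit 375) (nat_lit 218) (nat_lit 187))) (XT.nd (nat_lit 78) (nat_lit 0) (nat_lit 0) (XT.lf (nat_lit 0) (nat_lit 16252320475) (nat_lit 152) (nat_lit 15619894528) (nat_lit 0) (nat_lit 8923898060) (nat_lit 7) (nat_lit 5) (nat_lit 9) (nat_lit 4) (nat_lit 7) (nat_lit 4) (nat_lit 376) (nat_lit 218) (nat_lit 186)) (XT.lf (nat_lit 0) (nat_lit 19584615422) (nat_lit 152) (nat_lit 10217324298) (nat_lit 0) (nat_lit 12120676828) (nat_lit 7) (nat_lit 5) (nat_lit 9) (nat_lit 4) (nat_lit 7) (nat_lit 4) (nat_lit 377) (nat_lit 218) (nat_lit 185)))))) (XT.nd (nat_lit 468)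 (nat_lit 152) (nat_lit 0) (XT.nd (nat_lit 234) (nat_lit 0) (nat_lit 0) (XT.nd (nat_lit 78) (nat_lit 76) (nat_lit 0) (XT.lf (nat_lit 0) (nat_lit 22976418673) (nat_lit 152) (nat_lit 4726815154) (nat_lit 0) (nat_lit 15380910973) (nat_lit 7) (nat_lit 5) (nat_lit 9) (nat_lit 4) (nat_lit 7) (nat_lit 4) (nat_lit 378) (nat_lit 218) (nat_lit 184)) (XT.nd (nat_lit 78) (nat_lit 0) (nat_lit 0) (XT.lf (nat_lit 0) (nat_lit 873475078) (nat_lit 76) (nat_lit 25565615238) (nat_lit 76) (nat_lit 17842370543) (nat_lit 6) (nat_lit 4) (nat_lit 7) (nat_lit 5) (nat_lit 7) (nat_lit 4) (nat_lit 379) (nat_lit 218) (nat_lit 183)) (XT.lf (nat_lit 0) (nat_lit 6667395941) (nat_lit 76) (nat_lit 23347154670) (nat_lit 76) (nat_lit 15499893474) (nat_lit 6) (nat_lit 4) (nat_lit 7) (nat_lit 5) (nat_lit 7) (nat_lit 4) (nat_lit 380) (nat_lit 218) (nat_lit 182)))) (XT.nd (nat_lit 78) (nat_lit 0) (nat_lit 0) (XT.lf (nat_lit 0) (nat_lit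 12565937193) (nat_lit 76) (nat_lit 21093645227) (nat_lit 76) (nat_lit 13125979660) (nat_lit 6) (nat_lit 4) (nat_lit 7) (nat_lit 5) (nat_lit 7) (nat_lit 4) (nat_lit 381) (nat_lit 218) (nat_lit 181)) (XT.nd (nat_lit 78) (nat_lit 0) (nat_lit 0) (XT.lf (nat_lit 0) (nat_lit 18574252898) (nat_lit 76) (nat_lit 18803117822) (nat_lit 76) (nat_lit 10718554810) (nat_lit 6) (nat_lit 4) (nat_lit 7) (nat_lit 5) (nat_lit 7) (nat_lit 4) (nat_lit 382) (nat_lit 218) (nat_lit 180)) (XT.lf (nat_lit 0) (nat_lit 24697593042) (nat_lit 76) (nat_lit 16473571025) (nat_lit 76) (nat_lit 8275515346) (nat_lit 6) (nat_lit 4) (nat_lit 7) (nat_lit 5) (nat_lit 7) (nat_lit 4) (nat_lit 383) (nat_lit 218) (nat_lit 179))))) (XT.nd (nat_lit 234) (nat_lit 152) (nat_lit 0) (XT.nd (nat_lit 78) (nat_lit 0) (nat_lit 0) (XT.lf (nat_lit 0) (nat_lit 30941308116) (nat_lit 76) (nat_lit 14102969309) (nat_lit 76) (nat_lit 5794726575) (nat_lit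 6) (nat_lit 4) (nat_lit 7) (nat_lit 5) (nat_lit 7) (nat_lit 4) (nat_lit 384) (nat_lit 218) (nat_lit 178)) (XT.nd (nat_lit 78) (nat_lit 0) (nat_lit 0) (XT.lf (nat_lit 0) (nat_lit 37310853793) (nat_lit 76) (nat_lit 11689241274) (nat_lit 76) (nat_lit 3274020818) (nat_lit 6) (nat_lit 4) (nat_lit 7) (nat_lit 5) (nat_lit 7) (nat_lit 4) (nat_lit 385) (nat_lit 218) (nat_lit 177)) (XT.lf (nat_lit 0) (nat_lit 43811795696) (nat_lit 76) (nat_lit 9230277838) (nat_lit 76) (nat_lit 711195514) (nat_lit 6) (nat_lit 4) (nat_lit 7) (nat_lit 5) (nat_lit 7) (nat_lit 4) (nat_lit 386) (nat_lit 218) (nat_lit 176)))) (XT.nd (nat_lit 156) (nat_lit 0) (nat_lit 0) (XT.nd (nat_lit 78) (nat_lit 76) (nat_lit 0) (XT.lf (nat_lit 0) (nat_lit 1858991126) (nat_lit 152) (nat_lit 4846167100) (nat_lit 76) (nat_lit 48572050967) (nat_lit 5) (nat_lit 5) (nat_lit 7) (nat_lit 5) (nat_lit 6) (nat_lit 4) (nat_lit 387) (nat_lit 218) (nat_lit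 175)) (XT.lf (nat_lit 0) (nat_lit 344793620) (nat_lit 76) (nat_lit 4119547502) (nat_lit 152) (nat_lit 52383156061) (nat_lit 4) (nat_lit 5) (nat_lit 5) (nat_lit 5) (nat_lit 6) (nat_lit 4) (nat_lit 388) (nat_lit 218) (nat_lit 174))) (XT.nd (nat_lit 78) (nat_lit 0) (nat_lit 0) (XT.lf (nat_lit 0) (nat_lit 5734491248) (nat_lit 76) (nat_lit 1431695169) (nat_lit 152) (nat_lit 51298168468) (nat_lit 4) (nat_lit 5) (nat_lit 5) (nat_lit 5) (nat_lit 6) (nat_lit 4) (nat_lit 389) (nat_lit 218) (nat_lit 173)) (XT.lf (nat_lit 0) (nat_lit 9931986333) (nat_lit 152) (nat_lit 48912043354) (nat_lit 0) (nat_lit 1286212445) (nat_lit 4) (nat_lit 5) (nat_lit 6) (nat_lit 4) (nat_lit 4) (nat_lit 4) (nat_lit 390) (nat_lit 218) (nat_lit 172))))))) (XT.nd (nat_lit 1014) (nat_lit 0) (nat_lit 0) (XT.nd (nat_lit 468) (nat_lit 76) (nat_lit 0) (XT.nd (nat_lit 234) (nat_lit 0) (nat_lit 0) (XT.nd (nat_lit 78) (nat_lit 0) (nat_lit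 0) (XT.lf (nat_lit 0) (nat_lit 12765856989) (nat_lit 152) (nat_lit 45047606160) (nat_lit 0) (nat_lit 4033100424) (nat_lit 4) (nat_lit 5) (nat_lit 6) (nat_lit 4) (nat_lit 4) (nat_lit 4) (nat_lit 391) (nat_lit 218) (nat_lit 171)) (XT.nd (nat_lit 78) (nat_lit 0) (nat_lit 0) (XT.lf (nat_lit 0) (nat_lit 15656512256) (nat_lit 152) (nat_lit 41119413032) (nat_lit 0) (nat_lit 6839306487) (nat_lit 4) (nat_lit 5) (nat_lit 6) (nat_lit 4) (nat_lit 4) (nat_lit 4) (nat_lit 392) (nat_lit 218) (nat_lit 170)) (XT.lf (nat_lit 0) (nat_lit 18606477947) (nat_lit 152) (nat_lit 37124031569) (nat_lit 0) (nat_lit 9707282662) (nat_lit 4) (nat_lit 5) (nat_lit 6) (nat_lit 4) (nat_lit 4) (nat_lit 4) (nat_lit 393) (nat_lit 218) (nat_lit 169)))) (XT.nd (nat_lit 78) (nat_lit 0) (nat_lit 0) (XT.lf (nat_lit 0) (nat_lit 21618331702) (nat_lit 152) (nat_lit 33057970660) (nat_lit 0) (nat_lit 12639534945) (nat_lit 4) (nat_lit 5) (nat_lit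 6) (nat_lit 4) (nat_lit 4) (nat_lit 4) (nat_lit 394) (nat_lit 218) (nat_lit 168)) (XT.nd (nat_lit 78) (nat_lit 0) (nat_lit 0) (XT.lf (nat_lit 0) (nat_lit 24694705240) (nat_lit 152) (nat_lit 28917677436) (nat_lit 0) (nat_lit 15638625499) (nat_lit 4) (nat_lit 5) (nat_lit 6) (nat_lit 4) (nat_lit 4) (nat_lit 4) (nat_lit 395) (nat_lit 218) (nat_lit 167)) (XT.lf (nat_lit 0) (nat_lit 27838286652) (nat_lit 152) (nat_lit 24699534166) (nat_lit 0) (nat_lit 18707174889) (nat_lit 4) (nat_lit 5) (nat_lit 6) (nat_lit 4) (nat_lit 4) (nat_lit 4) (nat_lit 396) (nat_lit 218) (nat_lit 166))))) (XT.nd (nat_lit 234) (nat_lit 76) (nat_lit 0) (XT.nd (nat_lit 78) (nat_lit 0) (nat_lit 0) (XT.lf (nat_lit 0) (nat_lit 31051822759) (nat_lit 152) (nat_lit 20399855094) (nat_lit 0) (nat_lit 21847864371) (nat_lit 4) (nat_lit 5) (nat_lit 6) (nat_lit 4) (nat_lit 4) (nat_lit 4) (nat_lit 397) (nat_lit 218) (nat_lit 165)) (XT.nd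 (nat_lit 78) (nat_lit 0) (nat_lit 0) (XT.lf (nat_lit 0) (nat_lit 34338121503) (nat_lit 152) (nat_lit 16014883218) (nat_lit 0) (nat_lit 25063438238) (nat_lit 4) (nat_lit 5) (nat_lit 6) (nat_lit 4) (nat_lit 4) (nat_lit 4) (nat_lit 398) (nat_lit 218) (nat_lit 164)) (XT.lf (nat_lit 0) (nat_lit 37700054408) (nat_lit 152) (nat_lit 11540787010) (nat_lit 0) (nat_lit 28356706213) (nat_lit 4) (nat_lit 5) (nat_lit 6) (nat_lit 4) (nat_lit 4) (nat_lit 4) (nat_lit 399) (nat_lit 218) (nat_lit 163)))) (XT.nd (nat_lit 156) (nat_lit 76) (nat_lit 0) (XT.nd (nat_lit 78) (nat_lit 0) (nat_lit 0) (XT.lf (nat_lit 0) (nat_lit 41140559086) (nat_lit 152) (nat_lit 6973657064) (nat_lit 0) (nat_lit 31730545911) (nat_lit 4) (nat_lit 5) (nat_lit 6) (nat_lit 4) (nat_lit 4) (nat_lit 4) (nat_lit 400) (nat_lit 218) (nat_lit 162)) (XT.lf (nat_lit 0) (nat_lit 44662641802) (nat_lit 152) (nat_lit 2309502686) (nat_lit 0) (nat_lit 35187905345)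 (nat_lit 4) (nat_lit 5) (nat_lit 6) (nat_lit 4) (nat_lit 4) (nat_lit 4) (nat_lit 401) (nat_lit 218) (nat_lit 161))) (XT.nd (nat_lit 78) (nat_lit 0) (nat_lit 0) (XT.lf (nat_lit 0) (nat_lit 2504625871) (nat_lit 76) (nat_lit 45788830229) (nat_lit 76) (nat_lit 36251255635) (nat_lit 3) (nat_lit 4) (nat_lit 4) (nat_lit 5) (nat_lit 4) (nat_lit 4) (nat_lit 402) (nat_lit 218) (nat_lit 160)) (XT.lf (nat_lit 0) (nat_lit 7472076738) (nat_lit 76) (nat_lit 44563674947) (nat_lit 76) (nat_lit 34965092453) (nat_lit 3) (nat_lit 4) (nat_lit 4) (nat_lit 5) (nat_lit 4) (nat_lit 4) (nat_lit 403) (nat_lit 218) (nat_lit 159)))))) (XT.nd (nat_lit 35880) (nat_lit 0) (nat_lit 1064) (XT.nd (nat_lit 234) (nat_lit 0) (nat_lit 0) (XT.nd (nat_lit 78) (nat_lit 0) (nat_lit 0) (XT.lf (nat_lit 0) (nat_lit 12551226772) (nat_lit 76) (nat_lit 43318929568) (nat_lit 76) (nat_lit 33661116101) (nat_lit 3) (nat_lit 4) (nat_lit 4) (nat_lit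 5) (nat_lit 4) (nat_lit 4) (nat_lit 404) (nat_lit 218) (nat_lit 158)) (XT.nd (nat_lit 78) (nat_lit 0) (nat_lit 0) (XT.lf (nat_lit 0) (nat_lit 17746514066) (nat_lit 76) (nat_lit 42053506449) (nat_lit 76) (nat_lit 32338187185) (nat_lit 3) (nat_lit 4) (nat_lit 4) (nat_lit 5) (nat_lit 4) (nat_lit 4) (nat_lit 405) (nat_lit 218) (nat_lit 157)) (XT.lf (nat_lit 0) (nat_lit 23062478192) (nat_lit 76) (nat_lit 40766299881) (nat_lit 76) (nat_lit 30995149745) (nat_lit 3) (nat_lit 4) (nat_lit 4) (nat_lit 5) (nat_lit 4) (nat_lit 4) (nat_lit 406) (nat_lit 218) (nat_lit 156)))) (XT.nd (nat_lit 156) (nat_lit 0) (nat_lit 0) (XT.nd (nat_lit 78) (nat_lit 0) (nat_lit 0) (XT.lf (nat_lit 0) (nat_lit 28503764166) (nat_lit 76) (nat_lit 39456185120) (nat_lit 76) (nat_lit 29630830255) (nat_lit 3) (nat_lit 4) (nat_lit 4) (nat_lit 5) (nat_lit 4) (nat_lit 4) (nat_lit 407) (nat_lit 218) (nat_lit 155)) (XT.lf (nat_lit 0) (nat_lit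 34075126510) (nat_lit 76) (nat_lit 38122017406) (nat_lit 76) (nat_lit 28244036590) (nat_lit 3) (nat_lit 4) (nat_lit 4) (nat_lit 5) (nat_lit 4) (nat_lit 4) (nat_lit 408) (nat_lit 218) (nat_lit 154))) (XT.nd (nat_lit 35412) (nat_lit 0) (nat_lit 1520) (XT.lf (nat_lit 0) (nat_lit 39781433405) (nat_lit 76) (nat_lit 36762630962) (nat_lit 76) (nat_lit 26833556989) (nat_lit 3) (nat_lit 4) (nat_lit 4) (nat_lit 5) (nat_lit 4) (nat_lit 4) (nat_lit 409) (nat_lit 218) (nat_lit 153)) (XT.lf (nat_lit 0) (nat_lit 4231426674) (nat_lit 152) (nat_lit 2246584744) (nat_lit 152) (nat_lit 2246584744) (nat_lit 23) (nat_lit 4) (nat_lit 25) (nat_lit 5) (nat_lit 25) (nat_lit 4) (nat_lit 342) (nat_lit 219) (nat_lit 219))))) (XT.nd (nat_lit 234) (nat_lit 304) (nat_lit 0) (XT.nd (nat_lit 78) (nat_lit 152) (nat_lit 0) (XT.lf (nat_lit 0) (nat_lit 16265974990) (nat_lit 152) (nat_lit 995241523) (nat_lit 152) (nat_lit 578558615)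 (nat_lit 23) (nat_lit 4) (nat_lit 25) (nat_lit 5) (nat_lit 25) (nat_lit 4) (nat_lit 343) (nat_lit 219) (nat_lit 218)) (XT.nd (nat_lit 78) (nat_lit 0) (nat_lit 0) (XT.lf (nat_lit 0) (nat_lit 3384265006) (nat_lit 152) (nat_lit 12269961985) (nat_lit 0) (nat_lit 2586954889) (nat_lit 21) (nat_lit 5) (nat_lit 23) (nat_lit 4) (nat_lit 21) (nat_lit 4) (nat_lit 344) (nat_lit 219) (nat_lit 217)) (XT.lf (nat_lit 0) (nat_lit 7395867185) (nat_lit 152) (nat_lit 5043158889) (nat_lit 0) (nat_lit 6217233180) (nat_lit 21) (nat_lit 5) (nat_lit 23) (nat_lit 4) (nat_lit 21) (nat_lit 4) (nat_lit 345) (nat_lit 219) (nat_lit 216)))) (XT.nd (nat_lit 156) (nat_lit 152) (nat_lit 0) (XT.nd (nat_lit 78) (nat_lit 0) (nat_lit 0) (XT.lf (nat_lit 0) (nat_lit 2301556873) (nat_lit 152) (nat_lit 9166461014) (nat_lit 152) (nat_lit 7617609642) (nat_lit 19) (nat_lit 4) (nat_lit 21) (nat_lit 5) (nat_lit 21) (nat_lit 4) (nat_lit 346)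 (nat_lit 219) (nat_lit 215)) (XT.lf (nat_lit 0) (nat_lit 9827600665) (nat_lit 152) (nat_lit 5804752300) (nat_lit 152) (nat_lit 3896466592) (nat_lit 19) (nat_lit 4) (nat_lit 21) (nat_lit 5) (nat_lit 21) (nat_lit 4) (nat_lit 347) (nat_lit 219) (nat_lit 214))) (XT.nd (nat_lit 78) (nat_lit 152) (nat_lit 0) (XT.lf (nat_lit 0) (nat_lit 17441179891) (nat_lit 152) (nat_lit 2401888533) (nat_lit 152) (nat_lit 144637449) (nat_lit 19) (nat_lit 4) (nat_lit 21) (nat_lit 5) (nat_lit 21) (nat_lit 4) (nat_lit 348) (nat_lit 219) (nat_lit 213)) (XT.lf (nat_lit 0) (nat_lit 3626548799) (nat_lit 152) (nat_lit 15727285714) (nat_lit 0) (nat_lit 1106109557) (nat_lit 17) (nat_lit 5) (nat_lit 19) (nat_lit 4) (nat_lit 17) (nat_lit 4) (nat_lit 349) (nat_lit 219) (nat_lit 212))))))))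
noncomputable def xc22 : XT := (XT.nd (nat_lit 2028) (nat_lit 228) (nat_lit 0) (XT.nd (nat_lit 1014) (nat_lit 304) (nat_lit 0) (XT.nd (nat_lit 468) (nat_lit 152) (nat_lit 0) (XT.nd (nat_lit 234) (nat_lit 152) (nat_lit 0) (XT.nd (nat_lit 78) (nat_lit 152) (nat_lit 0) (XT.lf (nat_lit 0) (nat_lit 7481048159) (nat_lit 152) (nat_lit 8824848061) (nat_lit 0) (nat_lit 4641256164) (nat_lit 17) (nat_lit 5) (nat_lit 19) (nat_lit 4) (nat_lit 17) (nat_lit 4) (nat_lit 350) (nat_lit 219) (nat_lit 211)) (XT.nd (nat_lit 78) (nat_lit 152) (nat_lit 0) (XT.lf (nat_lit 0) (nat_lit 11376749486) (nat_lit 152) (nat_lit 1847591527) (nat_lit 0) (nat_lit 8226906275) (nat_lit 17) (nat_lit 5) (nat_lit 19) (nat_lit 4) (nat_lit 17) (nat_lit 4) (nat_lit 351) (nat_lit 219) (nat_lit 210)) (XT.lf (nat_lit 0) (nat_lit 5314281289) (nat_lit 152) (nat_lit 10053859624) (nat_lit 152) (nat_lit 6602995814) (nat_lit 15) (nat_lit 4) (nat_lit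 17) (nat_lit 5) (nat_lit 17) (nat_lit 4) (nat_lit 352) (nat_lit 219) (nat_lit 209)))) (XT.nd (nat_lit 78) (nat_lit 152) (nat_lit 0) (XT.lf (nat_lit 0) (nat_lit 12601740768) (nat_lit 152) (nat_lit 6824807933) (nat_lit 152) (nat_lit 3081691116) (nat_lit 15) (nat_lit 4) (nat_lit 17) (nat_lit 5) (nat_lit 17) (nat_lit 4) (nat_lit 353) (nat_lit 219) (nat_lit 208)) (XT.nd (nat_lit 78) (nat_lit 76) (nat_lit 0) (XT.lf (nat_lit 0) (nat_lit 464589860) (nat_lit 228) (nat_lit 3083740185) (nat_lit 76) (nat_lit 19515102590) (nat_lit 14) (nat_lit 5) (nat_lit 17) (nat_lit 5) (nat_lit 15) (nat_lit 4) (nat_lit 354) (nat_lit 219) (nat_lit 207)) (XT.lf (nat_lit 0) (nat_lit 3867427071) (nat_lit 76) (nat_lit 157085817) (nat_lit 152) (nat_lit 19610809437) (nat_lit 13) (nat_lit 5) (nat_lit 14) (nat_lit 5) (nat_lit 15) (nat_lit 4) (nat_lit 355) (nat_lit 219) (nat_lit 206))))) (XT.nd (nat_lit 234) (nat_lit 152) (nat_lit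 0) (XT.nd (nat_lit 78) (nat_lit 0) (nat_lit 0) (XT.lf (nat_lit 0) (nat_lit 7687082643) (nat_lit 152) (nat_lit 13287045631) (nat_lit 0) (nat_lit 3250396240) (nat_lit 13) (nat_lit 5) (nat_lit 15) (nat_lit 4) (nat_lit 13) (nat_lit 4) (nat_lit 356) (nat_lit 219) (nat_lit 205)) (XT.nd (nat_lit 78) (nat_lit 0) (nat_lit 0) (XT.lf (nat_lit 0) (nat_lit 11395389962) (nat_lit 152) (nat_lit 6731363812) (nat_lit 0) (nat_lit 6706603547) (nat_lit 13) (nat_lit 5) (nat_lit 15) (nat_lit 4) (nat_lit 13) (nat_lit 4) (nat_lit 357) (nat_lit 219) (nat_lit 204)) (XT.lf (nat_lit 0) (nat_lit 15151165111) (nat_lit 152) (nat_lit 93611526) (nat_lit 0) (nat_lit 10217621403) (nat_lit 13) (nat_lit 5) (nat_lit 15) (nat_lit 4) (nat_lit 13) (nat_lit 4) (nat_lit 358) (nat_lit 219) (nat_lit 203)))) (XT.nd (nat_lit 156) (nat_lit 76) (nat_lit 0) (XT.nd (nat_lit 78) (nat_lit 0) (nat_lit 0) (XT.lf (nat_lit 0) (nat_lit 6764001229) (nat_lit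 76) (nat_lit 12258708322) (nat_lit 76) (nat_lit 7087536173) (nat_lit 12) (nat_lit 4) (nat_lit 13) (nat_lit 5) (nat_lit 13) (nat_lit 4) (nat_lit 359) (nat_lit 219) (nat_lit 202)) (XT.lf (nat_lit 0) (nat_lit 13719089992) (nat_lit 76) (nat_lit 9231076512) (nat_lit 76) (nat_lit 3829197140) (nat_lit 12) (nat_lit 4) (nat_lit 13) (nat_lit 5) (nat_lit 13) (nat_lit 4) (nat_lit 360) (nat_lit 219) (nat_lit 201))) (XT.nd (nat_lit 78) (nat_lit 76) (nat_lit 0) (XT.lf (nat_lit 0) (nat_lit 20775868972) (nat_lit 76) (nat_lit 6160180997) (nat_lit 76) (nat_lit 534314030) (nat_lit 12) (nat_lit 4) (nat_lit 13) (nat_lit 5) (nat_lit 13) (nat_lit 4) (nat_lit 361) (nat_lit 219) (nat_lit 200)) (XT.lf (nat_lit 0) (nat_lit 2745354247) (nat_lit 152) (nat_lit 270261529) (nat_lit 76) (nat_lit 25167427345) (nat_lit 11) (nat_lit 5) (nat_lit 13) (nat_lit 5) (nat_lit 12) (nat_lit 4) (nat_lit 362) (nat_lit 219) (nat_lit 199))))))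 (XT.nd (nat_lit 468) (nat_lit 152) (nat_lit 0) (XT.nd (nat_lit 234) (nat_lit 76) (nat_lit 0) (XT.nd (nat_lit 78) (nat_lit 0) (nat_lit 0) (XT.lf (nat_lit 0) (nat_lit 6119645434) (nat_lit 152) (nat_lit 22555585506) (nat_lit 0) (nat_lit 241528499) (nat_lit 10) (nat_lit 5) (nat_lit 12) (nat_lit 4) (nat_lit 10) (nat_lit 4) (nat_lit 363) (nat_lit 219) (nat_lit 198)) (XT.nd (nat_lit 78) (nat_lit 0) (nat_lit 0) (XT.lf (nat_lit 0) (nat_lit 9571455842) (nat_lit 152) (nat_lit 16607437834) (nat_lit 0) (nat_lit 3494328829) (nat_lit 10) (nat_lit 5) (nat_lit 12) (nat_lit 4) (nat_lit 10) (nat_lit 4) (nat_lit 364) (nat_lit 219) (nat_lit 197)) (XT.lf (nat_lit 0) (nat_lit 13072137815) (nat_lit 152) (nat_lit 10580108270) (nat_lit 0) (nat_lit 6801797135) (nat_lit 10) (nat_lit 5) (nat_lit 12) (nat_lit 4) (nat_lit 10) (nat_lit 4) (nat_lit 365) (nat_lit 219) (nat_lit 196)))) (XT.nd (nat_lit 78) (nat_lit 76) (nat_lit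 0) (XT.lf (nat_lit 0) (nat_lit 16624750202) (nat_lit 152) (nat_lit 4468330216) (nat_lit 0) (nat_lit 10166823437) (nat_lit 10) (nat_lit 5) (nat_lit 12) (nat_lit 4) (nat_lit 10) (nat_lit 4) (nat_lit 366) (nat_lit 219) (nat_lit 195)) (XT.nd (nat_lit 78) (nat_lit 0) (nat_lit 0) (XT.lf (nat_lit 0) (nat_lit 1767731525) (nat_lit 76) (nat_lit 18481658218) (nat_lit 76) (nat_lit 11841609041) (nat_lit 9) (nat_lit 4) (nat_lit 10) (nat_lit 5) (nat_lit 10) (nat_lit 4) (nat_lit 367) (nat_lit 219) (nat_lit 194)) (XT.lf (nat_lit 0) (nat_lit 8189824345) (nat_lit 76) (nat_lit 15787132460) (nat_lit 76) (nat_lit 8970265407) (nat_lit 9) (nat_lit 4) (nat_lit 10) (nat_lit 5) (nat_lit 10) (nat_lit 4) (nat_lit 368) (nat_lit 219) (nat_lit 193))))) (XT.nd (nat_lit 234) (nat_lit 152) (nat_lit 0) (XT.nd (nat_lit 78) (nat_lit 0) (nat_lit 0) (XT.lf (nat_lit 0) (nat_lit 14714631246) (nat_lit 76) (nat_lit 13052270078) (nat_lit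 76) (nat_lit 6063735183) (nat_lit 9) (nat_lit 4) (nat_lit 10) (nat_lit 5) (nat_lit 10) (nat_lit 4) (nat_lit 369) (nat_lit 219) (nat_lit 192)) (XT.nd (nat_lit 78) (nat_lit 0) (nat_lit 0) (XT.lf (nat_lit 0) (nat_lit 21347853517) (nat_lit 76) (nat_lit 10274681386) (nat_lit 76) (nat_lit 3119478685) (nat_lit 9) (nat_lit 4) (nat_lit 10) (nat_lit 5) (nat_lit 10) (nat_lit 4) (nat_lit 370) (nat_lit 219) (nat_lit 191)) (XT.lf (nat_lit 0) (nat_lit 28095287177) (nat_lit 76) (nat_lit 7451939365) (nat_lit 76) (nat_lit 134923259) (nat_lit 9) (nat_lit 4) (nat_lit 10) (nat_lit 5) (nat_lit 10) (nat_lit 4) (nat_lit 371) (nat_lit 219) (nat_lit 190)))) (XT.nd (nat_lit 156) (nat_lit 0) (nat_lit 0) (XT.nd (nat_lit 78) (nat_lit 76) (nat_lit 0) (XT.lf (nat_lit 0) (nat_lit 2836095103) (nat_lit 152) (nat_lit 1716843439) (nat_lit 76) (nat_lit 32098093938) (nat_lit 8) (nat_lit 5) (nat_lit 10) (nat_lit 5) (nat_lit 9) (nat_lit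 4) (nat_lit 372) (nat_lit 219) (nat_lit 189)) (XT.lf (nat_lit 0) (nat_lit 4331646972) (nat_lit 76) (nat_lit 1559135355) (nat_lit 152) (nat_lit 31758259571) (nat_lit 7) (nat_lit 5) (nat_lit 8) (nat_lit 5) (nat_lit 9) (nat_lit 4) (nat_lit 373) (nat_lit 219) (nat_lit 188))) (XT.nd (nat_lit 78) (nat_lit 0) (nat_lit 0) (XT.lf (nat_lit 0) (nat_lit 9025060496) (nat_lit 152) (nat_lit 28175524502) (nat_lit 0) (nat_lit 1476785408) (nat_lit 7) (nat_lit 5) (nat_lit 9) (nat_lit 4) (nat_lit 7) (nat_lit 4) (nat_lit 374) (nat_lit 219) (nat_lit 187)) (XT.lf (nat_lit 0) (nat_lit 12225879403) (nat_lit 152) (nat_lit 22973488158) (nat_lit 0) (nat_lit 4538022651) (nat_lit 7) (nat_lit 5) (nat_lit 9) (nat_lit 4) (nat_lit 7) (nat_lit 4) (nat_lit 375) (nat_lit 219) (nat_lit 186))))))) (XT.nd (nat_lit 1014) (nat_lit 76) (nat_lit 0) (XT.nd (nat_lit 468) (nat_lit 76) (nat_lit 0) (XT.nd (nat_lit 234) (nat_lit 76) (nat_lit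 0) (XT.nd (nat_lit 78) (nat_lit 0) (nat_lit 0) (XT.lf (nat_lit 0) (nat_lit 15481048517) (nat_lit 152) (nat_lit 17691753065) (nat_lit 0) (nat_lit 7657675586) (nat_lit 7) (nat_lit 5) (nat_lit 9) (nat_lit 4) (nat_lit 7) (nat_lit 4) (nat_lit 376) (nat_lit 219) (nat_lit 185)) (XT.nd (nat_lit 78) (nat_lit 0) (nat_lit 0) (XT.lf (nat_lit 0) (nat_lit 18793412161) (nat_lit 152) (nat_lit 12325704112) (nat_lit 0) (nat_lit 10838470125) (nat_lit 7) (nat_lit 5) (nat_lit 9) (nat_lit 4) (nat_lit 7) (nat_lit 4) (nat_lit 377) (nat_lit 219) (nat_lit 184)) (XT.lf (nat_lit 0) (nat_lit 22165864633) (nat_lit 152) (nat_lit 6870652520) (nat_lit 0) (nat_lit 14083185601) (nat_lit 7) (nat_lit 5) (nat_lit 9) (nat_lit 4) (nat_lit 7) (nat_lit 4) (nat_lit 378) (nat_lit 219) (nat_lit 183)))) (XT.nd (nat_lit 78) (nat_lit 76) (nat_lit 0) (XT.lf (nat_lit 0) (nat_lit 25601352737) (nat_lit 152) (nat_lit 1321831738) (nat_lit 0) (nat_lit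 17394657204) (nat_lit 7) (nat_lit 5) (nat_lit 9) (nat_lit 4) (nat_lit 7) (nat_lit 4) (nat_lit 379) (nat_lit 219) (nat_lit 182)) (XT.nd (nat_lit 78) (nat_lit 0) (nat_lit 0) (XT.lf (nat_lit 0) (nat_lit 4411694771) (nat_lit 76) (nat_lit 24733591492) (nat_lit 76) (nat_lit 16406491589) (nat_lit 6) (nat_lit 4) (nat_lit 7) (nat_lit 5) (nat_lit 7) (nat_lit 4) (nat_lit 380) (nat_lit 219) (nat_lit 181)) (XT.lf (nat_lit 0) (nat_lit 10277141548) (nat_lit 76) (nat_lit 22495149695) (nat_lit 76) (nat_lit 14051152345) (nat_lit 6) (nat_lit 4) (nat_lit 7) (nat_lit 5) (nat_lit 7) (nat_lit 4) (nat_lit 381) (nat_lit 219) (nat_lit 180))))) (XT.nd (nat_lit 234) (nat_lit 76) (nat_lit 0) (XT.nd (nat_lit 78) (nat_lit 0) (nat_lit 0) (XT.lf (nat_lit 0) (nat_lit 16253326696) (nat_lit 76) (nat_lit 20219251073) (nat_lit 76) (nat_lit 11661761058) (nat_lit 6) (nat_lit 4) (nat_lit 7) (nat_lit 5) (nat_lit 7) (nat_lit 4) (nat_lit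 382) (nat_lit 219) (nat_lit 179)) (XT.nd (nat_lit 78) (nat_lit 0) (nat_lit 0) (XT.lf (nat_lit 0) (nat_lit 22345472123) (nat_lit 76) (nat_lit 17903906978) (nat_lit 76) (nat_lit 9236229908) (nat_lit 6) (nat_lit 4) (nat_lit 7) (nat_lit 5) (nat_lit 7) (nat_lit 4) (nat_lit 383) (nat_lit 219) (nat_lit 178)) (XT.lf (nat_lit 0) (nat_lit 28558901064) (nat_lit 76) (nat_lit 15547094293) (nat_lit 76) (nat_lit 6772439500) (nat_lit 6) (nat_lit 4) (nat_lit 7) (nat_lit 5) (nat_lit 7) (nat_lit 4) (nat_lit 384) (nat_lit 219) (nat_lit 177)))) (XT.nd (nat_lit 156) (nat_lit 76) (nat_lit 0) (XT.nd (nat_lit 78) (nat_lit 0) (nat_lit 0) (XT.lf (nat_lit 0) (nat_lit 34899042729) (nat_lit 76) (nat_lit 13146753667) (nat_lit 76) (nat_lit 4268237007) (nat_lit 6) (nat_lit 4) (nat_lit 7) (nat_lit 5) (nat_lit 7) (nat_lit 4) (nat_lit 385) (nat_lit 219) (nat_lit 176)) (XT.lf (nat_lit 0) (nat_lit 41371437048) (nat_lit 76) (nat_lit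 10700787715) (nat_lit 76) (nat_lit 1721434291) (nat_lit 6) (nat_lit 4) (nat_lit 7) (nat_lit 5) (nat_lit 7) (nat_lit 4) (nat_lit 386) (nat_lit 219) (nat_lit 175))) (XT.nd (nat_lit 78) (nat_lit 0) (nat_lit 0) (XT.lf (nat_lit 0) (nat_lit 853213389) (nat_lit 152) (nat_lit 7345230014) (nat_lit 76) (nat_lit 47119910337) (nat_lit 5) (nat_lit 5) (nat_lit 7) (nat_lit 5) (nat_lit 6) (nat_lit 4) (nat_lit 387) (nat_lit 219) (nat_lit 174)) (XT.lf (nat_lit 0) (nat_lit 3440440903) (nat_lit 152) (nat_lit 2188206481) (nat_lit 76) (nat_lit 51260543495) (nat_lit 5) (nat_lit 5) (nat_lit 7) (nat_lit 5) (nat_lit 6) (nat_lit 4) (nat_lit 388) (nat_lit 219) (nat_lit 173)))))) (XT.nd (nat_lit 546) (nat_lit 0) (nat_lit 0) (XT.nd (nat_lit 234) (nat_lit 0) (nat_lit 0) (XT.nd (nat_lit 78) (nat_lit 0) (nat_lit 0) (XT.lf (nat_lit 0) (nat_lit 3130999279) (nat_lit 76) (nat_lit 2975198119) (nat_lit 152) (nat_lit 52400939165)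 (nat_lit 4) (nat_lit 5) (nat_lit 5) (nat_lit 5) (nat_lit 6) (nat_lit 4) (nat_lit 389) (nat_lit 219) (nat_lit 172)) (XT.nd (nat_lit 78) (nat_lit 0) (nat_lit 0) (XT.lf (nat_lit 0) (nat_lit 8601537492) (nat_lit 76) (nat_lit 243640385) (nat_lit 152) (nat_lit 51328655678) (nat_lit 4) (nat_lit 5) (nat_lit 5) (nat_lit 5) (nat_lit 6) (nat_lit 4) (nat_lit 390) (nat_lit 219) (nat_lit 171)) (XT.lf (nat_lit 0) (nat_lit 11662799365) (nat_lit 152) (nat_lit 47731219895) (nat_lit 0) (nat_lit 2496628222) (nat_lit 4) (nat_lit 5) (nat_lit 6) (nat_lit 4) (nat_lit 4) (nat_lit 4) (nat_lit 391) (nat_lit 219) (nat_lit 170)))) (XT.nd (nat_lit 156) (nat_lit 0) (nat_lit 0) (XT.nd (nat_lit 78) (nat_lit 0) (nat_lit 0) (XT.lf (nat_lit 0) (nat_lit 14539952546) (nat_lit 152) (nat_lit 43827981180) (nat_lit 0) (nat_lit 5291791886) (nat_lit 4) (nat_lit 5) (nat_lit 6) (nat_lit 4) (nat_lit 4) (nat_lit 4) (nat_lit 392) (nat_lit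 219) (nat_lit 169)) (XT.lf (nat_lit 0) (nat_lit 17476809417) (nat_lit 152) (nat_lit 39856827301) (nat_lit 0) (nat_lit 8149047283) (nat_lit 4) (nat_lit 5) (nat_lit 6) (nat_lit 4) (nat_lit 4) (nat_lit 4) (nat_lit 393) (nat_lit 219) (nat_lit 168))) (XT.nd (nat_lit 78) (nat_lit 0) (nat_lit 0) (XT.lf (nat_lit 0) (nat_lit 20475936162) (nat_lit 152) (nat_lit 35814288320) (nat_lit 0) (nat_lit 11070891046) (nat_lit 4) (nat_lit 5) (nat_lit 6) (nat_lit 4) (nat_lit 4) (nat_lit 4) (nat_lit 394) (nat_lit 219) (nat_lit 167)) (XT.lf (nat_lit 0) (nat_lit 23539953379) (nat_lit 152) (nat_lit 31696831919) (nat_lit 0) (nat_lit 14059876240) (nat_lit 4) (nat_lit 5) (nat_lit 6) (nat_lit 4) (nat_lit 4) (nat_lit 4) (nat_lit 395) (nat_lit 219) (nat_lit 166))))) (XT.nd (nat_lit 234) (nat_lit 0) (nat_lit 0) (XT.nd (nat_lit 78) (nat_lit 0) (nat_lit 0) (XT.lf (nat_lit 0) (nat_lit 26671538364) (nat_lit 152) (nat_lit 27500860322)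 (nat_lit 0) (nat_lit 17118614601) (nat_lit 4) (nat_lit 5) (nat_lit 6) (nat_lit 4) (nat_lit 4) (nat_lit 4) (nat_lit 396) (nat_lit 219) (nat_lit 165)) (XT.nd (nat_lit 78) (nat_lit 0) (nat_lit 0) (XT.lf (nat_lit 0) (nat_lit 29873427452) (nat_lit 152) (nat_lit 23222707146) (nat_lit 0) (nat_lit 20249778812) (nat_lit 4) (nat_lit 5) (nat_lit 6) (nat_lit 4) (nat_lit 4) (nat_lit 4) (nat_lit 397) (nat_lit 219) (nat_lit 164)) (XT.lf (nat_lit 0) (nat_lit 33148418413) (nat_lit 152) (nat_lit 18858634198) (nat_lit 0) (nat_lit 23456104843) (nat_lit 4) (nat_lit 5) (nat_lit 6) (nat_lit 4) (nat_lit 4) (nat_lit 4) (nat_lit 398) (nat_lit 219) (nat_lit 163)))) (XT.nd (nat_lit 156) (nat_lit 0) (nat_lit 0) (XT.nd (nat_lit 78) (nat_lit 0) (nat_lit 0) (XT.lf (nat_lit 0) (nat_lit 36499372887) (nat_lit 152) (nat_lit 14404828211) (nat_lit 0) (nat_lit 26740394337) (nat_lit 4) (nat_lit 5) (nat_lit 6) (nat_lit 4) (nat_lit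 4) (nat_lit 4) (nat_lit 399) (nat_lit 219) (nat_lit 162)) (XT.lf (nat_lit 0) (nat_lit 39929218894) (nat_lit 152) (nat_lit 9857397510) (nat_lit 0) (nat_lit 30105517062) (nat_lit 4) (nat_lit 5) (nat_lit 6) (nat_lit 4) (nat_lit 4) (nat_lit 4) (nat_lit 400) (nat_lit 219) (nat_lit 161))) (XT.nd (nat_lit 78) (nat_lit 0) (nat_lit 0) (XT.lf (nat_lit 0) (nat_lit 43440953386) (nat_lit 152) (nat_lit 5212368611) (nat_lit 0) (nat_lit 33554413416) (nat_lit 4) (nat_lit 5) (nat_lit 6) (nat_lit 4) (nat_lit 4) (nat_lit 4) (nat_lit 401) (nat_lit 219) (nat_lit 160)) (XT.lf (nat_lit 0) (nat_lit 47037644869) (nat_lit 152) (nat_lit 465682752) (nat_lit 0) (nat_lit 37090096999) (nat_lit 4) (nat_lit 5) (nat_lit 6) (nat_lit 4) (nat_lit 4) (nat_lit 4) (nat_lit 402) (nat_lit 219) (nat_lit 159))))))))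
noncomputable def xc23 : XT := (XT.nd (nat_lit 37206) (nat_lit 0) (nat_lit 228) (XT.nd (nat_lit 36192) (nat_lit 0) (nat_lit 760) (XT.nd (nat_lit 468) (nat_lit 0) (nat_lit 0) (XT.nd (nat_lit 234) (nat_lit 0) (nat_lit 0) (XT.nd (nat_lit 78) (nat_lit 0) (nat_lit 0) (XT.lf (nat_lit 0) (nat_lit 4474113731) (nat_lit 76) (nat_lit 46291330271) (nat_lit 76) (nat_lit 36284551429) (nat_lit 3) (nat_lit 4) (nat_lit 4) (nat_lit 5) (nat_lit 4) (nat_lit 4) (nat_lit 403) (nat_lit 219) (nat_lit 158)) (XT.nd (nat_lit 78) (nat_lit 0) (nat_lit 0) (XT.lf (nat_lit 0) (nat_lit 9535412907) (nat_lit 76) (nat_lit 45054794064) (nat_lit 76) (nat_lit 34990509425) (nat_lit 3) (nat_lit 4) (nat_lit 4) (nat_lit 5) (nat_lit 4) (nat_lit 4) (nat_lit 404) (nat_lit 219) (nat_lit 157)) (XT.lf (nat_lit 0) (nat_lit 14713369272) (nat_lit 76) (nat_lit 43797341017) (nat_lit 76) (nat_lit 33677225506) (nat_lit 3) (nat_lit 4) (nat_lit 4)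 (nat_lit 5) (nat_lit 4) (nat_lit 4) (nat_lit 405) (nat_lit 219) (nat_lit 156)))) (XT.nd (nat_lit 78) (nat_lit 0) (nat_lit 0) (XT.lf (nat_lit 0) (nat_lit 20012507252) (nat_lit 76) (nat_lit 42517872382) (nat_lit 76) (nat_lit 32343552141) (nat_lit 3) (nat_lit 4) (nat_lit 4) (nat_lit 5) (nat_lit 4) (nat_lit 4) (nat_lit 406) (nat_lit 219) (nat_lit 155)) (XT.nd (nat_lit 78) (nat_lit 0) (nat_lit 0) (XT.lf (nat_lit 0) (nat_lit 25437457162) (nat_lit 76) (nat_lit 41215270178) (nat_lit 76) (nat_lit 30988323986) (nat_lit 3) (nat_lit 4) (nat_lit 4) (nat_lit 5) (nat_lit 4) (nat_lit 4) (nat_lit 407) (nat_lit 219) (nat_lit 154)) (XT.lf (nat_lit 0) (nat_lit 30992959251) (nat_lit 76) (nat_lit 39888396208) (nat_lit 76) (nat_lit 29610356860) (nat_lit 3) (nat_lit 4) (nat_lit 4) (nat_lit 5) (nat_lit 4) (nat_lit 4) (nat_lit 408) (nat_lit 219) (nat_lit 153))))) (XT.nd (nat_lit 35412) (nat_lit 0) (nat_lit 1368) (XT.nd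 (nat_lit 35256) (nat_lit 0) (nat_lit 1520) (XT.lf (nat_lit 0) (nat_lit 36683867840) (nat_lit 76) (nat_lit 38536091069) (nat_lit 76) (nat_lit 28208446715) (nat_lit 3) (nat_lit 4) (nat_lit 4) (nat_lit 5) (nat_lit 4) (nat_lit 4) (nat_lit 409) (nat_lit 219) (nat_lit 152)) (XT.nd (nat_lit 78) (nat_lit 152) (nat_lit 0) (XT.lf (nat_lit 0) (nat_lit 2502451450) (nat_lit 152) (nat_lit 3348206155) (nat_lit 0) (nat_lit 2502451450) (nat_lit 25) (nat_lit 5) (nat_lit 27) (nat_lit 4) (nat_lit 25) (nat_lit 4) (nat_lit 340) (nat_lit 220) (nat_lit 220)) (XT.lf (nat_lit 0) (nat_lit 741138553) (nat_lit 152) (nat_lit 8380299181) (nat_lit 152) (nat_lit 7951115785) (nat_lit 23) (nat_lit 4) (nat_lit 25) (nat_lit 5) (nat_lit 25) (nat_lit 4) (nat_lit 341) (nat_lit 220) (nat_lit 219)))) (XT.nd (nat_lit 156) (nat_lit 152) (nat_lit 0) (XT.nd (nat_lit 78) (nat_lit 0) (nat_lit 0) (XT.lf (nat_lit 0) (nat_lit 8388841231) (nat_lit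 152) (nat_lit 4953760135) (nat_lit 152) (nat_lit 4107893832) (nat_lit 23) (nat_lit 4) (nat_lit 25) (nat_lit 5) (nat_lit 25) (nat_lit 4) (nat_lit 342) (nat_lit 220) (nat_lit 218)) (XT.lf (nat_lit 0) (nat_lit 16120106447) (nat_lit 152) (nat_lit 1486324647) (nat_lit 152) (nat_lit 235911831) (nat_lit 23) (nat_lit 4) (nat_lit 25) (nat_lit 5) (nat_lit 25) (nat_lit 4) (nat_lit 343) (nat_lit 220) (nat_lit 217))) (XT.nd (nat_lit 78) (nat_lit 0) (nat_lit 0) (XT.lf (nat_lit 0) (nat_lit 3672468156) (nat_lit 152) (nat_lit 12495486815) (nat_lit 0) (nat_lit 2077151244) (nat_lit 21) (nat_lit 5) (nat_lit 23) (nat_lit 4) (nat_lit 21) (nat_lit 4) (nat_lit 344) (nat_lit 220) (nat_lit 216)) (XT.lf (nat_lit 0) (nat_lit 7643713925) (nat_lit 152) (nat_lit 5339522679) (nat_lit 0) (nat_lit 5678179645) (nat_lit 21) (nat_lit 5) (nat_lit 23) (nat_lit 4) (nat_lit 21) (nat_lit 4) (nat_lit 345) (nat_lit 220) (nat_lit 215))))))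 (XT.nd (nat_lit 468) (nat_lit 304) (nat_lit 0) (XT.nd (nat_lit 234) (nat_lit 152) (nat_lit 0) (XT.nd (nat_lit 78) (nat_lit 0) (nat_lit 0) (XT.lf (nat_lit 0) (nat_lit 1929150401) (nat_lit 152) (nat_lit 9743953447) (nat_lit 152) (nat_lit 7418984830) (nat_lit 19) (nat_lit 4) (nat_lit 21) (nat_lit 5) (nat_lit 21) (nat_lit 4) (nat_lit 346) (nat_lit 220) (nat_lit 214)) (XT.nd (nat_lit 78) (nat_lit 0) (nat_lit 0) (XT.lf (nat_lit 0) (nat_lit 9387092774) (nat_lit 152) (nat_lit 6411651732) (nat_lit 152) (nat_lit 3737717740) (nat_lit 19) (nat_lit 4) (nat_lit 21) (nat_lit 5) (nat_lit 21) (nat_lit 4) (nat_lit 347) (nat_lit 220) (nat_lit 213)) (XT.lf (nat_lit 0) (nat_lit 16934554117) (nat_lit 152) (nat_lit 3037338449) (nat_lit 152) (nat_lit 24603121) (nat_lit 19) (nat_lit 4) (nat_lit 21) (nat_lit 5) (nat_lit 21) (nat_lit 4) (nat_lit 348) (nat_lit 220) (nat_lit 212)))) (XT.nd (nat_lit 78) (nat_lit 0) (nat_lit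 0) (XT.lf (nat_lit 0) (nat_lit 3695262862) (nat_lit 152) (nat_lit 16324000343) (nat_lit 0) (nat_lit 450924354) (nat_lit 17) (nat_lit 5) (nat_lit 19) (nat_lit 4) (nat_lit 17) (nat_lit 4) (nat_lit 349) (nat_lit 220) (nat_lit 211)) (XT.nd (nat_lit 78) (nat_lit 0) (nat_lit 0) (XT.lf (nat_lit 0) (nat_lit 7513095713) (nat_lit 152) (nat_lit 9486712565) (nat_lit 0) (nat_lit 3958705989) (nat_lit 17) (nat_lit 5) (nat_lit 19) (nat_lit 4) (nat_lit 17) (nat_lit 4) (nat_lit 350) (nat_lit 220) (nat_lit 210)) (XT.lf (nat_lit 0) (nat_lit 11373198487) (nat_lit 152) (nat_lit 2572708338) (nat_lit 0) (nat_lit 7517788165) (nat_lit 17) (nat_lit 5) (nat_lit 19) (nat_lit 4) (nat_lit 17) (nat_lit 4) (nat_lit 351) (nat_lit 220) (nat_lit 209))))) (XT.nd (nat_lit 234) (nat_lit 76) (nat_lit 0) (XT.nd (nat_lit 78) (nat_lit 76) (nat_lit 0) (XT.lf (nat_lit 0) (nat_lit 4512101046) (nat_lit 152) (nat_lit 10810216119) (nat_lit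 152) (nat_lit 6662552789) (nat_lit 15) (nat_lit 4) (nat_lit 17) (nat_lit 5) (nat_lit 17) (nat_lit 4) (nat_lit 352) (nat_lit 220) (nat_lit 208)) (XT.nd (nat_lit 78) (nat_lit 76) (nat_lit 0) (XT.lf (nat_lit 0) (nat_lit 11738752577) (nat_lit 152) (nat_lit 7607832803) (nat_lit 152) (nat_lit 3176428688) (nat_lit 15) (nat_lit 4) (nat_lit 17) (nat_lit 5) (nat_lit 17) (nat_lit 4) (nat_lit 353) (nat_lit 220) (nat_lit 207)) (XT.lf (nat_lit 0) (nat_lit 338211544) (nat_lit 228) (nat_lit 4020311170) (nat_lit 76) (nat_lit 18720732046) (nat_lit 14) (nat_lit 5) (nat_lit 17) (nat_lit 5) (nat_lit 15) (nat_lit 4) (nat_lit 354) (nat_lit 220) (nat_lit 206)))) (XT.nd (nat_lit 156) (nat_lit 0) (nat_lit 0) (XT.nd (nat_lit 78) (nat_lit 0) (nat_lit 0) (XT.lf (nat_lit 0) (nat_lit 2853082751) (nat_lit 76) (nat_lit 1002787326) (nat_lit 152) (nat_lit 19796557715) (nat_lit 13) (nat_lit 5) (nat_lit 14) (nat_lit 5) (nat_lit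 15) (nat_lit 4) (nat_lit 355) (nat_lit 220) (nat_lit 205)) (XT.lf (nat_lit 0) (nat_lit 7477948446) (nat_lit 152) (nat_lit 14368512811) (nat_lit 0) (nat_lit 2396398426) (nat_lit 13) (nat_lit 5) (nat_lit 15) (nat_lit 4) (nat_lit 13) (nat_lit 4) (nat_lit 356) (nat_lit 220) (nat_lit 204))) (XT.nd (nat_lit 78) (nat_lit 0) (nat_lit 0) (XT.lf (nat_lit 0) (nat_lit 11154836361) (nat_lit 152) (nat_lit 7869284188) (nat_lit 0) (nat_lit 5828529048) (nat_lit 13) (nat_lit 5) (nat_lit 15) (nat_lit 4) (nat_lit 13) (nat_lit 4) (nat_lit 357) (nat_lit 220) (nat_lit 203)) (XT.lf (nat_lit 0) (nat_lit 14880107233) (nat_lit 152) (nat_lit 1286340831) (nat_lit 0) (nat_lit 9316171481) (nat_lit 13) (nat_lit 5) (nat_lit 15) (nat_lit 4) (nat_lit 13) (nat_lit 4) (nat_lit 358) (nat_lit 220) (nat_lit 202))))))) (XT.nd (nat_lit 1014) (nat_lit 228) (nat_lit 0) (XT.nd (nat_lit 468) (nat_lit 76) (nat_lit 0) (XT.nd (nat_lit 234)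 (nat_lit 152) (nat_lit 0) (XT.nd (nat_lit 78) (nat_lit 0) (nat_lit 0) (XT.lf (nat_lit 0) (nat_lit 5493262686) (nat_lit 76) (nat_lit 13216558068) (nat_lit 76) (nat_lit 7421915092) (nat_lit 12) (nat_lit 4) (nat_lit 13) (nat_lit 5) (nat_lit 13) (nat_lit 4) (nat_lit 359) (nat_lit 220) (nat_lit 201)) (XT.nd (nat_lit 78) (nat_lit 0) (nat_lit 0) (XT.lf (nat_lit 0) (nat_lit 12395660589) (nat_lit 76) (nat_lit 10212357416) (nat_lit 76) (nat_lit 4193726844) (nat_lit 12) (nat_lit 4) (nat_lit 13) (nat_lit 5) (nat_lit 13) (nat_lit 4) (nat_lit 360) (nat_lit 220) (nat_lit 200)) (XT.lf (nat_lit 0) (nat_lit 19401283395) (nat_lit 76) (nat_lit 7164210598) (nat_lit 76) (nat_lit 928116342) (nat_lit 12) (nat_lit 4) (nat_lit 13) (nat_lit 5) (nat_lit 13) (nat_lit 4) (nat_lit 361) (nat_lit 220) (nat_lit 199)))) (XT.nd (nat_lit 78) (nat_lit 76) (nat_lit 0) (XT.lf (nat_lit 0) (nat_lit 2331371007) (nat_lit 152) (nat_lit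 1714540902) (nat_lit 76) (nat_lit 24161339237) (nat_lit 11) (nat_lit 5) (nat_lit 13) (nat_lit 5) (nat_lit 12) (nat_lit 4) (nat_lit 362) (nat_lit 220) (nat_lit 198)) (XT.nd (nat_lit 78) (nat_lit 0) (nat_lit 0) (XT.lf (nat_lit 0) (nat_lit 4840849083) (nat_lit 76) (nat_lit 820753631) (nat_lit 152) (nat_lit 23280698344) (nat_lit 10) (nat_lit 5) (nat_lit 11) (nat_lit 5) (nat_lit 12) (nat_lit 4) (nat_lit 363) (nat_lit 220) (nat_lit 197)) (XT.lf (nat_lit 0) (nat_lit 9078586222) (nat_lit 152) (nat_lit 18194312519) (nat_lit 0) (nat_lit 2426921655) (nat_lit 10) (nat_lit 5) (nat_lit 12) (nat_lit 4) (nat_lit 10) (nat_lit 4) (nat_lit 364) (nat_lit 220) (nat_lit 196))))) (XT.nd (nat_lit 234) (nat_lit 0) (nat_lit 0) (XT.nd (nat_lit 78) (nat_lit 76) (nat_lit 0) (XT.lf (nat_lit 0) (nat_lit 12553115464) (nat_lit 152) (nat_lit 12214456550) (nat_lit 0) (nat_lit 5713864811) (nat_lit 10) (nat_lit 5) (nat_lit 12)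 (nat_lit 4) (nat_lit 10) (nat_lit 4) (nat_lit 365) (nat_lit 220) (nat_lit 195)) (XT.nd (nat_lit 78) (nat_lit 76) (nat_lit 0) (XT.lf (nat_lit 0) (nat_lit 16080336849) (nat_lit 152) (nat_lit 6148769364) (nat_lit 0) (nat_lit 9058963784) (nat_lit 10) (nat_lit 5) (nat_lit 12) (nat_lit 4) (nat_lit 10) (nat_lit 4) (nat_lit 366) (nat_lit 220) (nat_lit 194)) (XT.lf (nat_lit 0) (nat_lit 8209347) (nat_lit 76) (nat_lit 19655201983) (nat_lit 76) (nat_lit 12457011041) (nat_lit 9) (nat_lit 4) (nat_lit 10) (nat_lit 5) (nat_lit 10) (nat_lit 4) (nat_lit 367) (nat_lit 220) (nat_lit 193)))) (XT.nd (nat_lit 156) (nat_lit 0) (nat_lit 0) (XT.nd (nat_lit 78) (nat_lit 0) (nat_lit 0) (XT.lf (nat_lit 0) (nat_lit 6385992460) (nat_lit 76) (nat_lit 16980626544) (nat_lit 76) (nat_lit 9610767762) (nat_lit 9) (nat_lit 4) (nat_lit 10) (nat_lit 5) (nat_lit 10) (nat_lit 4) (nat_lit 368) (nat_lit 220) (nat_lit 192)) (XT.lf (nat_lit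 0) (nat_lit 12867780230) (nat_lit 76) (nat_lit 14265133404) (nat_lit 76) (nat_lit 6728606815) (nat_lit 9) (nat_lit 4) (nat_lit 10) (nat_lit 5) (nat_lit 10) (nat_lit 4) (nat_lit 369) (nat_lit 220) (nat_lit 191))) (XT.nd (nat_lit 78) (nat_lit 0) (nat_lit 0) (XT.lf (nat_lit 0) (nat_lit 19459236353) (nat_lit 76) (nat_lit 11506349802) (nat_lit 76) (nat_lit 3808009808) (nat_lit 9) (nat_lit 4) (nat_lit 10) (nat_lit 5) (nat_lit 10) (nat_lit 4) (nat_lit 370) (nat_lit 220) (nat_lit 190)) (XT.lf (nat_lit 0) (nat_lit 26166120355) (nat_lit 76) (nat_lit 8701865150) (nat_lit 76) (nat_lit 846424763) (nat_lit 9) (nat_lit 4) (nat_lit 10) (nat_lit 5) (nat_lit 10) (nat_lit 4) (nat_lit 371) (nat_lit 220) (nat_lit 189)))))) (XT.nd (nat_lit 546) (nat_lit 76) (nat_lit 0) (XT.nd (nat_lit 234) (nat_lit 0) (nat_lit 0) (XT.nd (nat_lit 78) (nat_lit 76) (nat_lit 0) (XT.lf (nat_lit 0) (nat_lit 2116611395) (nat_lit 152) (nat_lit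 3711243906) (nat_lit 76) (nat_lit 30856307599) (nat_lit 8) (nat_lit 5) (nat_lit 10) (nat_lit 5) (nat_lit 9) (nat_lit 4) (nat_lit 372) (nat_lit 220) (nat_lit 188)) (XT.nd (nat_lit 78) (nat_lit 0) (nat_lit 0) (XT.lf (nat_lit 0) (nat_lit 2258131778) (nat_lit 76) (nat_lit 2872005663) (nat_lit 152) (nat_lit 32553278244) (nat_lit 7) (nat_lit 5) (nat_lit 8) (nat_lit 5) (nat_lit 9) (nat_lit 4) (nat_lit 373) (nat_lit 220) (nat_lit 187)) (XT.lf (nat_lit 0) (nat_lit 8230650379) (nat_lit 152) (nat_lit 30309538794) (nat_lit 0) (nat_lit 172576260) (nat_lit 7) (nat_lit 5) (nat_lit 9) (nat_lit 4) (nat_lit 7) (nat_lit 4) (nat_lit 374) (nat_lit 220) (nat_lit 186)))) (XT.nd (nat_lit 156) (nat_lit 0) (nat_lit 0) (XT.nd (nat_lit 78) (nat_lit 0) (nat_lit 0) (XT.lf (nat_lit 0) (nat_lit 11410940044) (nat_lit 152) (nat_lit 25145119367) (nat_lit 0) (nat_lit 3217349747) (nat_lit 7) (nat_lit 5) (nat_lit 9) (nat_lit 4)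 (nat_lit 7) (nat_lit 4) (nat_lit 375) (nat_lit 220) (nat_lit 185)) (XT.lf (nat_lit 0) (nat_lit 14646177856) (nat_lit 152) (nat_lit 19899905551) (nat_lit 0) (nat_lit 6321018453) (nat_lit 7) (nat_lit 5) (nat_lit 9) (nat_lit 4) (nat_lit 7) (nat_lit 4) (nat_lit 376) (nat_lit 220) (nat_lit 184))) (XT.nd (nat_lit 78) (nat_lit 0) (nat_lit 0) (XT.lf (nat_lit 0) (nat_lit 17939190721) (nat_lit 152) (nat_lit 14569314150) (nat_lit 0) (nat_lit 9486294322) (nat_lit 7) (nat_lit 5) (nat_lit 9) (nat_lit 4) (nat_lit 7) (nat_lit 4) (nat_lit 377) (nat_lit 220) (nat_lit 183)) (XT.lf (nat_lit 0) (nat_lit 21292856030) (nat_lit 152) (nat_lit 9148687364) (nat_lit 0) (nat_lit 12715943130) (nat_lit 7) (nat_lit 5) (nat_lit 9) (nat_lit 4) (nat_lit 7) (nat_lit 4) (nat_lit 378) (nat_lit 220) (nat_lit 182))))) (XT.nd (nat_lit 234) (nat_lit 0) (nat_lit 0) (XT.nd (nat_lit 78) (nat_lit 76) (nat_lit 0) (XT.lf (nat_lit 0) (nat_lit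 24710104168) (nat_lit 152) (nat_lit 3633288726) (nat_lit 0) (nat_lit 16012786898) (nat_lit 7) (nat_lit 5) (nat_lit 9) (nat_lit 4) (nat_lit 7) (nat_lit 4) (nat_lit 379) (nat_lit 220) (nat_lit 181)) (XT.nd (nat_lit 78) (nat_lit 0) (nat_lit 0) (XT.lf (nat_lit 0) (nat_lit 2021140783) (nat_lit 76) (nat_lit 26192208740) (nat_lit 76) (nat_lit 17377994024) (nat_lit 6) (nat_lit 4) (nat_lit 7) (nat_lit 5) (nat_lit 7) (nat_lit 4) (nat_lit 380) (nat_lit 220) (nat_lit 180)) (XT.lf (nat_lit 0) (nat_lit 7854457002) (nat_lit 76) (nat_lit 23968395726) (nat_lit 76) (nat_lit 15040688344) (nat_lit 6) (nat_lit 4) (nat_lit 7) (nat_lit 5) (nat_lit 7) (nat_lit 4) (nat_lit 381) (nat_lit 220) (nat_lit 179)))) (XT.nd (nat_lit 156) (nat_lit 0) (nat_lit 0) (XT.nd (nat_lit 78) (nat_lit 0) (nat_lit 0) (XT.lf (nat_lit 0) (nat_lit 13799447433) (nat_lit 76) (nat_lit 21706699807) (nat_lit 76) (nat_lit 12668805370) (nat_lit 6)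 (nat_lit 4) (nat_lit 7) (nat_lit 5) (nat_lit 7) (nat_lit 4) (nat_lit 382) (nat_lit 220) (nat_lit 178)) (XT.lf (nat_lit 0) (nat_lit 19861306728) (nat_lit 76) (nat_lit 19405144743) (nat_lit 76) (nat_lit 10260272582) (nat_lit 6) (nat_lit 4) (nat_lit 7) (nat_lit 5) (nat_lit 7) (nat_lit 4) (nat_lit 383) (nat_lit 220) (nat_lit 177))) (XT.nd (nat_lit 78) (nat_lit 0) (nat_lit 0) (XT.lf (nat_lit 0) (nat_lit 26045331657) (nat_lit 76) (nat_lit 17061719466) (nat_lit 76) (nat_lit 7812985439) (nat_lit 6) (nat_lit 4) (nat_lit 7) (nat_lit 5) (nat_lit 7) (nat_lit 4) (nat_lit 384) (nat_lit 220) (nat_lit 176)) (XT.lf (nat_lit 0) (nat_lit 32356925737) (nat_lit 76) (nat_lit 14674376324) (nat_lit 76) (nat_lit 5324805533) (nat_lit 6) (nat_lit 4) (nat_lit 7) (nat_lit 5) (nat_lit 7) (nat_lit 4) (nat_lit 385) (nat_lit 220) (nat_lit 175))))))))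
noncomputable def xc24 : XT := (XT.nd (nat_lit 37050) (nat_lit 0) (nat_lit 532) (XT.nd (nat_lit 1014) (nat_lit 76) (nat_lit 0) (XT.nd (nat_lit 468) (nat_lit 0) (nat_lit 0) (XT.nd (nat_lit 234) (nat_lit 76) (nat_lit 0) (XT.nd (nat_lit 78) (nat_lit 76) (nat_lit 0) (XT.lf (nat_lit 0) (nat_lit 38801603954) (nat_lit 76) (nat_lit 12241029289) (nat_lit 76) (nat_lit 2793558727) (nat_lit 6) (nat_lit 4) (nat_lit 7) (nat_lit 5) (nat_lit 7) (nat_lit 4) (nat_lit 386) (nat_lit 220) (nat_lit 174)) (XT.nd (nat_lit 78) (nat_lit 76) (nat_lit 0) (XT.lf (nat_lit 0) (nat_lit 45384997579) (nat_lit 76) (nat_lit 9759552135) (nat_lit 76) (nat_lit 217033252) (nat_lit 6) (nat_lit 4) (nat_lit 7) (nat_lit 5) (nat_lit 7) (nat_lit 4) (nat_lit 387) (nat_lit 220) (nat_lit 173)) (XT.lf (nat_lit 0) (nat_lit 2360052552) (nat_lit 152) (nat_lit 4843892126) (nat_lit 76) (nat_lit 49728974637) (nat_lit 5) (nat_lit 5) (nat_lit 7) (nat_lit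 5) (nat_lit 6) (nat_lit 4) (nat_lit 388) (nat_lit 220) (nat_lit 172)))) (XT.nd (nat_lit 78) (nat_lit 0) (nat_lit 0) (XT.lf (nat_lit 0) (nat_lit 396302741) (nat_lit 76) (nat_lit 4589260661) (nat_lit 152) (nat_lit 53566514126) (nat_lit 4) (nat_lit 5) (nat_lit 5) (nat_lit 5) (nat_lit 6) (nat_lit 4) (nat_lit 389) (nat_lit 220) (nat_lit 171)) (XT.nd (nat_lit 78) (nat_lit 0) (nat_lit 0) (XT.lf (nat_lit 0) (nat_lit 5841445282) (nat_lit 76) (nat_lit 1869302957) (nat_lit 152) (nat_lit 52508445161) (nat_lit 4) (nat_lit 5) (nat_lit 5) (nat_lit 5) (nat_lit 6) (nat_lit 4) (nat_lit 390) (nat_lit 220) (nat_lit 170)) (XT.lf (nat_lit 0) (nat_lit 10499240780) (nat_lit 152) (nat_lit 50545999499) (nat_lit 0) (nat_lit 891645782) (nat_lit 4) (nat_lit 5) (nat_lit 6) (nat_lit 4) (nat_lit 4) (nat_lit 4) (nat_lit 391) (nat_lit 220) (nat_lit 169))))) (XT.nd (nat_lit 234) (nat_lit 0) (nat_lit 0) (XT.nd (nat_lit 78) (nat_lit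 0) (nat_lit 0) (XT.lf (nat_lit 0) (nat_lit 13363285140) (nat_lit 152) (nat_lit 46666988370) (nat_lit 0) (nat_lit 3676088670) (nat_lit 4) (nat_lit 5) (nat_lit 6) (nat_lit 4) (nat_lit 4) (nat_lit 4) (nat_lit 392) (nat_lit 220) (nat_lit 168)) (XT.nd (nat_lit 78) (nat_lit 0) (nat_lit 0) (XT.lf (nat_lit 0) (nat_lit 16287415000) (nat_lit 152) (nat_lit 42719356419) (nat_lit 0) (nat_lit 6522935547) (nat_lit 4) (nat_lit 5) (nat_lit 6) (nat_lit 4) (nat_lit 4) (nat_lit 4) (nat_lit 393) (nat_lit 220) (nat_lit 167)) (XT.lf (nat_lit 0) (nat_lit 19274185425) (nat_lit 152) (nat_lit 38699654260) (nat_lit 0) (nat_lit 9434673949) (nat_lit 4) (nat_lit 5) (nat_lit 6) (nat_lit 4) (nat_lit 4) (nat_lit 4) (nat_lit 394) (nat_lit 220) (nat_lit 166)))) (XT.nd (nat_lit 156) (nat_lit 0) (nat_lit 0) (XT.nd (nat_lit 78) (nat_lit 0) (nat_lit 0) (XT.lf (nat_lit 0) (nat_lit 22326206214) (nat_lit 152) (nat_lit 34604369533) (nat_lit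 0) (nat_lit 12413848114) (nat_lit 4) (nat_lit 5) (nat_lit 6) (nat_lit 4) (nat_lit 4) (nat_lit 4) (nat_lit 395) (nat_lit 220) (nat_lit 165)) (XT.lf (nat_lit 0) (nat_lit 25446144181) (nat_lit 152) (nat_lit 30429923831) (nat_lit 0) (nat_lit 15463061204) (nat_lit 4) (nat_lit 5) (nat_lit 6) (nat_lit 4) (nat_lit 4) (nat_lit 4) (nat_lit 396) (nat_lit 220) (nat_lit 164))) (XT.nd (nat_lit 78) (nat_lit 0) (nat_lit 0) (XT.lf (nat_lit 0) (nat_lit 28636725486) (nat_lit 152) (nat_lit 26172669583) (nat_lit 0) (nat_lit 18584977579) (nat_lit 4) (nat_lit 5) (nat_lit 6) (nat_lit 4) (nat_lit 4) (nat_lit 4) (nat_lit 397) (nat_lit 220) (nat_lit 163)) (XT.lf (nat_lit 0) (nat_lit 31900738015) (nat_lit 152) (nat_lit 21828886856) (nat_lit 0) (nat_lit 21782325128) (nat_lit 4) (nat_lit 5) (nat_lit 6) (nat_lit 4) (nat_lit 4) (nat_lit 4) (nat_lit 398) (nat_lit 220) (nat_lit 162)))))) (XT.nd (nat_lit 468) (nat_lit 0) (nat_lit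 0) (XT.nd (nat_lit 234) (nat_lit 76) (nat_lit 0) (XT.nd (nat_lit 78) (nat_lit 0) (nat_lit 0) (XT.lf (nat_lit 0) (nat_lit 35241033819) (nat_lit 152) (nat_lit 17394780113) (nat_lit 0) (nat_lit 25057897650) (nat_lit 4) (nat_lit 5) (nat_lit 6) (nat_lit 4) (nat_lit 4) (nat_lit 4) (nat_lit 399) (nat_lit 220) (nat_lit 161)) (XT.nd (nat_lit 78) (nat_lit 0) (nat_lit 0) (XT.lf (nat_lit 0) (nat_lit 38660531601) (nat_lit 152) (nat_lit 12866474892) (nat_lit 0) (nat_lit 28414557295) (nat_lit 4) (nat_lit 5) (nat_lit 6) (nat_lit 4) (nat_lit 4) (nat_lit 4) (nat_lit 400) (nat_lit 220) (nat_lit 160)) (XT.lf (nat_lit 0) (nat_lit 42162219274) (nat_lit 152) (nat_lit 8240014420) (nat_lit 0) (nat_lit 31855237067) (nat_lit 4) (nat_lit 5) (nat_lit 6) (nat_lit 4) (nat_lit 4) (nat_lit 4) (nat_lit 401) (nat_lit 220) (nat_lit 159)))) (XT.nd (nat_lit 78) (nat_lit 76) (nat_lit 0) (XT.lf (nat_lit 0) (nat_lit 45749156564) (nat_lit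 152) (nat_lit 3511356159) (nat_lit 0) (nat_lit 35382943385) (nat_lit 4) (nat_lit 5) (nat_lit 6) (nat_lit 4) (nat_lit 4) (nat_lit 4) (nat_lit 402) (nat_lit 220) (nat_lit 158)) (XT.nd (nat_lit 78) (nat_lit 0) (nat_lit 0) (XT.lf (nat_lit 0) (nat_lit 1349974593) (nat_lit 76) (nat_lit 48087479876) (nat_lit 76) (nat_lit 37663760899) (nat_lit 3) (nat_lit 4) (nat_lit 4) (nat_lit 5) (nat_lit 4) (nat_lit 4) (nat_lit 403) (nat_lit 220) (nat_lit 157)) (XT.lf (nat_lit 0) (nat_lit 6393942839) (nat_lit 76) (nat_lit 46858913741) (nat_lit 76) (nat_lit 36379363893) (nat_lit 3) (nat_lit 4) (nat_lit 4) (nat_lit 5) (nat_lit 4) (nat_lit 4) (nat_lit 404) (nat_lit 220) (nat_lit 156))))) (XT.nd (nat_lit 234) (nat_lit 0) (nat_lit 0) (XT.nd (nat_lit 78) (nat_lit 0) (nat_lit 0) (XT.lf (nat_lit 0) (nat_lit 11555073058) (nat_lit 76) (nat_lit 45609198626) (nat_lit 76) (nat_lit 35075444049) (nat_lit 3) (nat_lit 4) (nat_lit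 4) (nat_lit 5) (nat_lit 4) (nat_lit 4) (nat_lit 405) (nat_lit 220) (nat_lit 155)) (XT.nd (nat_lit 78) (nat_lit 0) (nat_lit 0) (XT.lf (nat_lit 0) (nat_lit 16837874975) (nat_lit 76) (nat_lit 44337242548) (nat_lit 76) (nat_lit 33750862019) (nat_lit 3) (nat_lit 4) (nat_lit 4) (nat_lit 5) (nat_lit 4) (nat_lit 4) (nat_lit 406) (nat_lit 220) (nat_lit 154)) (XT.lf (nat_lit 0) (nat_lit 22246964630) (nat_lit 76) (nat_lit 43041934088) (nat_lit 76) (nat_lit 32404460403) (nat_lit 3) (nat_lit 4) (nat_lit 4) (nat_lit 5) (nat_lit 4) (nat_lit 4) (nat_lit 407) (nat_lit 220) (nat_lit 153)))) (XT.nd (nat_lit 35178) (nat_lit 0) (nat_lit 1672) (XT.nd (nat_lit 78) (nat_lit 0) (nat_lit 0) (XT.lf (nat_lit 0) (nat_lit 27787068412) (nat_lit 76) (nat_lit 41722141423) (nat_lit 76) (nat_lit 31035062733) (nat_lit 3) (nat_lit 4) (nat_lit 4) (nat_lit 5) (nat_lit 4) (nat_lit 4) (nat_lit 408) (nat_lit 220) (nat_lit 152)) (XT.lf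 (nat_lit 0) (nat_lit 33463027188) (nat_lit 76) (nat_lit 40376711337) (nat_lit 76) (nat_lit 29641472446) (nat_lit 3) (nat_lit 4) (nat_lit 4) (nat_lit 5) (nat_lit 4) (nat_lit 4) (nat_lit 409) (nat_lit 220) (nat_lit 151))) (XT.nd (nat_lit 78) (nat_lit 152) (nat_lit 0) (XT.lf (nat_lit 0) (nat_lit 5402843474) (nat_lit 152) (nat_lit 1300638024) (nat_lit 152) (nat_lit 1300638024) (nat_lit 27) (nat_lit 4) (nat_lit 29) (nat_lit 5) (nat_lit 29) (nat_lit 4) (nat_lit 338) (nat_lit 221) (nat_lit 221)) (XT.lf (nat_lit 0) (nat_lit 1372199176) (nat_lit 152) (nat_lit 14050607216) (nat_lit 0) (nat_lit 930140279) (nat_lit 25) (nat_lit 5) (nat_lit 27) (nat_lit 4) (nat_lit 25) (nat_lit 4) (nat_lit 339) (nat_lit 221) (nat_lit 220))))))) (XT.nd (nat_lit 1014) (nat_lit 380) (nat_lit 0) (XT.nd (nat_lit 468) (nat_lit 456) (nat_lit 0) (XT.nd (nat_lit 234) (nat_lit 152) (nat_lit 0) (XT.nd (nat_lit 78) (nat_lit 152) (nat_lit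 0) (XT.lf (nat_lit 0) (nat_lit 5403811579) (nat_lit 152) (nat_lit 6771157222) (nat_lit 0) (nat_lit 4532569287) (nat_lit 25) (nat_lit 5) (nat_lit 27) (nat_lit 4) (nat_lit 25) (nat_lit 4) (nat_lit 340) (nat_lit 221) (nat_lit 219)) (XT.nd (nat_lit 78) (nat_lit 0) (nat_lit 0) (XT.lf (nat_lit 0) (nat_lit 590893953) (nat_lit 152) (nat_lit 8886114798) (nat_lit 152) (nat_lit 7598189598) (nat_lit 23) (nat_lit 4) (nat_lit 25) (nat_lit 5) (nat_lit 25) (nat_lit 4) (nat_lit 341) (nat_lit 221) (nat_lit 218)) (XT.lf (nat_lit 0) (nat_lit 8166740206) (nat_lit 152) (nat_lit 5490068230) (nat_lit 152) (nat_lit 3797596517) (nat_lit 23) (nat_lit 4) (nat_lit 25) (nat_lit 5) (nat_lit 25) (nat_lit 4) (nat_lit 342) (nat_lit 221) (nat_lit 217)))) (XT.nd (nat_lit 78) (nat_lit 76) (nat_lit 0) (XT.lf (nat_lit 0) (nat_lit 32354314) (nat_lit 228) (nat_lit 2019556059) (nat_lit 76) (nat_lit 15795560873) (nat_lit 22) (nat_lit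 5) (nat_lit 25) (nat_lit 5) (nat_lit 23) (nat_lit 4) (nat_lit 343) (nat_lit 221) (nat_lit 216)) (XT.nd (nat_lit 78) (nat_lit 0) (nat_lit 0) (XT.lf (nat_lit 0) (nat_lit 3887393888) (nat_lit 152) (nat_lit 12871580480) (nat_lit 0) (nat_lit 1492676213) (nat_lit 21) (nat_lit 5) (nat_lit 23) (nat_lit 4) (nat_lit 21) (nat_lit 4) (nat_lit 344) (nat_lit 221) (nat_lit 215)) (XT.lf (nat_lit 0) (nat_lit 7819458675) (nat_lit 152) (nat_lit 5784392035) (nat_lit 0) (nat_lit 5065306663) (nat_lit 21) (nat_lit 5) (nat_lit 23) (nat_lit 4) (nat_lit 21) (nat_lit 4) (nat_lit 345) (nat_lit 221) (nat_lit 214))))) (XT.nd (nat_lit 234) (nat_lit 228) (nat_lit 0) (XT.nd (nat_lit 78) (nat_lit 76) (nat_lit 0) (XT.lf (nat_lit 0) (nat_lit 1407325854) (nat_lit 152) (nat_lit 10398466860) (nat_lit 152) (nat_lit 7295349473) (nat_lit 19) (nat_lit 4) (nat_lit 21) (nat_lit 5) (nat_lit 21) (nat_lit 4) (nat_lit 346) (nat_lit 221) (nat_lit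 213)) (XT.nd (nat_lit 78) (nat_lit 76) (nat_lit 0) (XT.lf (nat_lit 0) (nat_lit 8799150344) (nat_lit 152) (nat_lit 7094715630) (nat_lit 152) (nat_lit 3652796907) (nat_lit 19) (nat_lit 4) (nat_lit 21) (nat_lit 5) (nat_lit 21) (nat_lit 4) (nat_lit 347) (nat_lit 221) (nat_lit 212)) (XT.lf (nat_lit 0) (nat_lit 22287234) (nat_lit 228) (nat_lit 3725608972) (nat_lit 76) (nat_lit 16259907277) (nat_lit 18) (nat_lit 5) (nat_lit 21) (nat_lit 5) (nat_lit 19) (nat_lit 4) (nat_lit 348) (nat_lit 221) (nat_lit 211)))) (XT.nd (nat_lit 156) (nat_lit 152) (nat_lit 0) (XT.nd (nat_lit 78) (nat_lit 0) (nat_lit 0) (XT.lf (nat_lit 0) (nat_lit 3409315963) (nat_lit 76) (nat_lit 285029245) (nat_lit 152) (nat_lit 16788581288) (nat_lit 17) (nat_lit 5) (nat_lit 18) (nat_lit 5) (nat_lit 19) (nat_lit 4) (nat_lit 349) (nat_lit 221) (nat_lit 210)) (XT.lf (nat_lit 0) (nat_lit 7473839631) (nat_lit 152) (nat_lit 10296835187) (nat_lit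 0) (nat_lit 3201746401) (nat_lit 17) (nat_lit 5) (nat_lit 19) (nat_lit 4) (nat_lit 17) (nat_lit 4) (nat_lit 350) (nat_lit 221) (nat_lit 209))) (XT.nd (nat_lit 78) (nat_lit 152) (nat_lit 0) (XT.lf (nat_lit 0) (nat_lit 11299380704) (nat_lit 152) (nat_lit 3444240966) (nat_lit 0) (nat_lit 6735034465) (nat_lit 17) (nat_lit 5) (nat_lit 19) (nat_lit 4) (nat_lit 17) (nat_lit 4) (nat_lit 351) (nat_lit 221) (nat_lit 208)) (XT.lf (nat_lit 0) (nat_lit 3562415261) (nat_lit 152) (nat_lit 11643400109) (nat_lit 152) (nat_lit 6795313086) (nat_lit 15) (nat_lit 4) (nat_lit 17) (nat_lit 5) (nat_lit 17) (nat_lit 4) (nat_lit 352) (nat_lit 221) (nat_lit 207)))))) (XT.nd (nat_lit 468) (nat_lit 228) (nat_lit 0) (XT.nd (nat_lit 234) (nat_lit 0) (nat_lit 0) (XT.nd (nat_lit 78) (nat_lit 152) (nat_lit 0) (XT.lf (nat_lit 0) (nat_lit 10730029950) (nat_lit 152) (nat_lit 8466908419) (nat_lit 152) (nat_lit 3343344906) (nat_lit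 15) (nat_lit 4) (nat_lit 17) (nat_lit 5) (nat_lit 17) (nat_lit 4) (nat_lit 353) (nat_lit 221) (nat_lit 206)) (XT.nd (nat_lit 78) (nat_lit 76) (nat_lit 0) (XT.lf (nat_lit 0) (nat_lit 142038467) (nat_lit 228) (nat_lit 5102678326) (nat_lit 76) (nat_lit 17852846137) (nat_lit 14) (nat_lit 5) (nat_lit 17) (nat_lit 5) (nat_lit 15) (nat_lit 4) (nat_lit 354) (nat_lit 221) (nat_lit 205)) (XT.lf (nat_lit 0) (nat_lit 1691762972) (nat_lit 76) (nat_lit 1925203727) (nat_lit 152) (nat_lit 20055066133) (nat_lit 13) (nat_lit 5) (nat_lit 14) (nat_lit 5) (nat_lit 15) (nat_lit 4) (nat_lit 355) (nat_lit 221) (nat_lit 204)))) (XT.nd (nat_lit 78) (nat_lit 0) (nat_lit 0) (XT.lf (nat_lit 0) (nat_lit 7198758832) (nat_lit 152) (nat_lit 15597023995) (nat_lit 0) (nat_lit 1467905007) (nat_lit 13) (nat_lit 5) (nat_lit 15) (nat_lit 4) (nat_lit 13) (nat_lit 4) (nat_lit 356) (nat_lit 221) (nat_lit 203)) (XT.nd (nat_lit 78) (nat_lit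 0) (nat_lit 0) (XT.lf (nat_lit 0) (nat_lit 10845142471) (nat_lit 152) (nat_lit 9152604300) (nat_lit 0) (nat_lit 4876660206) (nat_lit 13) (nat_lit 5) (nat_lit 15) (nat_lit 4) (nat_lit 13) (nat_lit 4) (nat_lit 357) (nat_lit 221) (nat_lit 202)) (XT.lf (nat_lit 0) (nat_lit 14540797541) (nat_lit 152) (nat_lit 2622873495) (nat_lit 0) (nat_lit 8341608053) (nat_lit 13) (nat_lit 5) (nat_lit 15) (nat_lit 4) (nat_lit 13) (nat_lit 4) (nat_lit 358) (nat_lit 221) (nat_lit 201))))) (XT.nd (nat_lit 234) (nat_lit 152) (nat_lit 0) (XT.nd (nat_lit 78) (nat_lit 0) (nat_lit 0) (XT.lf (nat_lit 0) (nat_lit 4077439541) (nat_lit 76) (nat_lit 14250708557) (nat_lit 76) (nat_lit 7827531473) (nat_lit 12) (nat_lit 4) (nat_lit 13) (nat_lit 5) (nat_lit 13) (nat_lit 4) (nat_lit 359) (nat_lit 221) (nat_lit 200)) (XT.nd (nat_lit 78) (nat_lit 0) (nat_lit 0) (XT.lf (nat_lit 0) (nat_lit 10928681269) (nat_lit 76) (nat_lit 11269256601)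 (nat_lit 76) (nat_lit 4628615832) (nat_lit 12) (nat_lit 4) (nat_lit 13) (nat_lit 5) (nat_lit 13) (nat_lit 4) (nat_lit 360) (nat_lit 221) (nat_lit 199)) (XT.lf (nat_lit 0) (nat_lit 17884637885) (nat_lit 76) (nat_lit 8243195897) (nat_lit 76) (nat_lit 1391425336) (nat_lit 12) (nat_lit 4) (nat_lit 13) (nat_lit 5) (nat_lit 13) (nat_lit 4) (nat_lit 361) (nat_lit 221) (nat_lit 198)))) (XT.nd (nat_lit 156) (nat_lit 0) (nat_lit 0) (XT.nd (nat_lit 78) (nat_lit 76) (nat_lit 0) (XT.lf (nat_lit 0) (nat_lit 1850049024) (nat_lit 152) (nat_lit 3301151420) (nat_lit 76) (nat_lit 23082656518) (nat_lit 11) (nat_lit 5) (nat_lit 13) (nat_lit 5) (nat_lit 12) (nat_lit 4) (nat_lit 362) (nat_lit 221) (nat_lit 197)) (XT.lf (nat_lit 0) (nat_lit 3174370205) (nat_lit 76) (nat_lit 1963625470) (nat_lit 152) (nat_lit 23832191215) (nat_lit 10) (nat_lit 5) (nat_lit 11) (nat_lit 5) (nat_lit 12) (nat_lit 4) (nat_lit 363) (nat_lit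 221) (nat_lit 196))) (XT.nd (nat_lit 78) (nat_lit 0) (nat_lit 0) (XT.lf (nat_lit 0) (nat_lit 8517840469) (nat_lit 152) (nat_lit 19925164841) (nat_lit 0) (nat_lit 1285826212) (nat_lit 10) (nat_lit 5) (nat_lit 12) (nat_lit 4) (nat_lit 10) (nat_lit 4) (nat_lit 364) (nat_lit 221) (nat_lit 195)) (XT.lf (nat_lit 0) (nat_lit 11966978709) (nat_lit 152) (nat_lit 13991399740) (nat_lit 0) (nat_lit 4552842039) (nat_lit 10) (nat_lit 5) (nat_lit 12) (nat_lit 4) (nat_lit 10) (nat_lit 4) (nat_lit 365) (nat_lit 221) (nat_lit 194))))))))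
noncomputable def xc25 : XT := (XT.nd (nat_lit 2028) (nat_lit 76) (nat_lit 0) (XT.nd (nat_lit 1014) (nat_lit 228) (nat_lit 0) (XT.nd (nat_lit 468) (nat_lit 152) (nat_lit 0) (XT.nd (nat_lit 234) (nat_lit 0) (nat_lit 0) (XT.nd (nat_lit 78) (nat_lit 76) (nat_lit 0) (XT.lf (nat_lit 0) (nat_lit 15469548637) (nat_lit 152) (nat_lit 7970460970) (nat_lit 0) (nat_lit 7878594091) (nat_lit 10) (nat_lit 5) (nat_lit 12) (nat_lit 4) (nat_lit 10) (nat_lit 4) (nat_lit 366) (nat_lit 221) (nat_lit 193)) (XT.nd (nat_lit 78) (nat_lit 76) (nat_lit 0) (XT.lf (nat_lit 0) (nat_lit 19028610750) (nat_lit 152) (nat_lit 1857087516) (nat_lit 0) (nat_lit 11265988363) (nat_lit 10) (nat_lit 5) (nat_lit 12) (nat_lit 4) (nat_lit 10) (nat_lit 4) (nat_lit 367) (nat_lit 221) (nat_lit 192)) (XT.lf (nat_lit 0) (nat_lit 4440716781) (nat_lit 76) (nat_lit 18249245013) (nat_lit 76) (nat_lit 10319954819) (nat_lit 9) (nat_lit 4) (nat_lit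 10) (nat_lit 5) (nat_lit 10) (nat_lit 4) (nat_lit 368) (nat_lit 221) (nat_lit 191)))) (XT.nd (nat_lit 78) (nat_lit 0) (nat_lit 0) (XT.lf (nat_lit 0) (nat_lit 10880738404) (nat_lit 76) (nat_lit 15552556963) (nat_lit 76) (nat_lit 7461453364) (nat_lit 9) (nat_lit 4) (nat_lit 10) (nat_lit 5) (nat_lit 10) (nat_lit 4) (nat_lit 369) (nat_lit 221) (nat_lit 190)) (XT.nd (nat_lit 78) (nat_lit 0) (nat_lit 0) (XT.lf (nat_lit 0) (nat_lit 17431644869) (nat_lit 76) (nat_lit 12812030729) (nat_lit 76) (nat_lit 4563826737) (nat_lit 9) (nat_lit 4) (nat_lit 10) (nat_lit 5) (nat_lit 10) (nat_lit 4) (nat_lit 370) (nat_lit 221) (nat_lit 189)) (XT.lf (nat_lit 0) (nat_lit 24099160271) (nat_lit 76) (nat_lit 10025271677) (nat_lit 76) (nat_lit 1624543032) (nat_lit 9) (nat_lit 4) (nat_lit 10) (nat_lit 5) (nat_lit 10) (nat_lit 4) (nat_lit 371) (nat_lit 221) (nat_lit 188))))) (XT.nd (nat_lit 234) (nat_lit 0) (nat_lit 0) (XT.nd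 (nat_lit 78) (nat_lit 76) (nat_lit 0) (XT.lf (nat_lit 0) (nat_lit 1332447734) (nat_lit 152) (nat_lit 5843941931) (nat_lit 76) (nat_lit 29543207750) (nat_lit 8) (nat_lit 5) (nat_lit 10) (nat_lit 5) (nat_lit 9) (nat_lit 4) (nat_lit 372) (nat_lit 221) (nat_lit 187)) (XT.nd (nat_lit 78) (nat_lit 0) (nat_lit 0) (XT.lf (nat_lit 0) (nat_lit 44714854) (nat_lit 76) (nat_lit 4259371254) (nat_lit 152) (nat_lit 33416029004) (nat_lit 7) (nat_lit 5) (nat_lit 8) (nat_lit 5) (nat_lit 9) (nat_lit 4) (nat_lit 373) (nat_lit 221) (nat_lit 186)) (XT.lf (nat_lit 0) (nat_lit 6154393148) (nat_lit 76) (nat_lit 1228146141) (nat_lit 152) (nat_lit 31367595405) (nat_lit 7) (nat_lit 5) (nat_lit 8) (nat_lit 5) (nat_lit 9) (nat_lit 4) (nat_lit 374) (nat_lit 221) (nat_lit 185)))) (XT.nd (nat_lit 156) (nat_lit 0) (nat_lit 0) (XT.nd (nat_lit 78) (nat_lit 0) (nat_lit 0) (XT.lf (nat_lit 0) (nat_lit 10531091961) (nat_lit 152) (nat_lit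 27456037706) (nat_lit 0) (nat_lit 1824608670) (nat_lit 7) (nat_lit 5) (nat_lit 9) (nat_lit 4) (nat_lit 7) (nat_lit 4) (nat_lit 375) (nat_lit 221) (nat_lit 184)) (XT.lf (nat_lit 0) (nat_lit 13746978994) (nat_lit 152) (nat_lit 22246281441) (nat_lit 0) (nat_lit 4912758707) (nat_lit 7) (nat_lit 5) (nat_lit 9) (nat_lit 4) (nat_lit 7) (nat_lit 4) (nat_lit 376) (nat_lit 221) (nat_lit 183))) (XT.nd (nat_lit 78) (nat_lit 0) (nat_lit 0) (XT.lf (nat_lit 0) (nat_lit 17021204696) (nat_lit 152) (nat_lit 16950114847) (nat_lit 0) (nat_lit 8062967908) (nat_lit 7) (nat_lit 5) (nat_lit 9) (nat_lit 4) (nat_lit 7) (nat_lit 4) (nat_lit 377) (nat_lit 221) (nat_lit 182)) (XT.lf (nat_lit 0) (nat_lit 20356630039) (nat_lit 152) (nat_lit 11562910204) (nat_lit 0) (nat_lit 11277988881) (nat_lit 7) (nat_lit 5) (nat_lit 9) (nat_lit 4) (nat_lit 7) (nat_lit 4) (nat_lit 378) (nat_lit 221) (nat_lit 181)))))) (XT.nd (nat_lit 468)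 (nat_lit 152) (nat_lit 0) (XT.nd (nat_lit 234) (nat_lit 0) (nat_lit 0) (XT.nd (nat_lit 78) (nat_lit 76) (nat_lit 0) (XT.lf (nat_lit 0) (nat_lit 23756169474) (nat_lit 152) (nat_lit 6079960248) (nat_lit 0) (nat_lit 14560630870) (nat_lit 7) (nat_lit 5) (nat_lit 9) (nat_lit 4) (nat_lit 7) (nat_lit 4) (nat_lit 379) (nat_lit 221) (nat_lit 180)) (XT.nd (nat_lit 78) (nat_lit 76) (nat_lit 0) (XT.lf (nat_lit 0) (nat_lit 27222793471) (nat_lit 152) (nat_lit 496474050) (nat_lit 0) (nat_lit 17913762201) (nat_lit 7) (nat_lit 5) (nat_lit 9) (nat_lit 4) (nat_lit 7) (nat_lit 4) (nat_lit 380) (nat_lit 221) (nat_lit 179)) (XT.lf (nat_lit 0) (nat_lit 5295766644) (nat_lit 76) (nat_lit 25514670624) (nat_lit 76) (nat_lit 16095452299) (nat_lit 6) (nat_lit 4) (nat_lit 7) (nat_lit 5) (nat_lit 7) (nat_lit 4) (nat_lit 381) (nat_lit 221) (nat_lit 178)))) (XT.nd (nat_lit 78) (nat_lit 0) (nat_lit 0) (XT.lf (nat_lit 0) (nat_lit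 11210470943) (nat_lit 76) (nat_lit 23266763735) (nat_lit 76) (nat_lit 13740567687) (nat_lit 6) (nat_lit 4) (nat_lit 7) (nat_lit 5) (nat_lit 7) (nat_lit 4) (nat_lit 382) (nat_lit 221) (nat_lit 177)) (XT.nd (nat_lit 78) (nat_lit 0) (nat_lit 0) (XT.lf (nat_lit 0) (nat_lit 17242926226) (nat_lit 76) (nat_lit 20978596080) (nat_lit 76) (nat_lit 11348538165) (nat_lit 6) (nat_lit 4) (nat_lit 7) (nat_lit 5) (nat_lit 7) (nat_lit 4) (nat_lit 383) (nat_lit 221) (nat_lit 176)) (XT.lf (nat_lit 0) (nat_lit 23398403570) (nat_lit 76) (nat_lit 18648168288) (nat_lit 76) (nat_lit 8917273608) (nat_lit 6) (nat_lit 4) (nat_lit 7) (nat_lit 5) (nat_lit 7) (nat_lit 4) (nat_lit 384) (nat_lit 221) (nat_lit 175))))) (XT.nd (nat_lit 234) (nat_lit 152) (nat_lit 0) (XT.nd (nat_lit 78) (nat_lit 0) (nat_lit 0) (XT.lf (nat_lit 0) (nat_lit 29682281549) (nat_lit 76) (nat_lit 16273444063) (nat_lit 76) (nat_lit 6444649612) (nat_lit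 6) (nat_lit 4) (nat_lit 7) (nat_lit 5) (nat_lit 7) (nat_lit 4) (nat_lit 385) (nat_lit 221) (nat_lit 174)) (XT.nd (nat_lit 78) (nat_lit 0) (nat_lit 0) (XT.lf (nat_lit 0) (nat_lit 36100050929) (nat_lit 76) (nat_lit 13852348403) (nat_lit 76) (nat_lit 3928505631) (nat_lit 6) (nat_lit 4) (nat_lit 7) (nat_lit 5) (nat_lit 7) (nat_lit 4) (nat_lit 386) (nat_lit 221) (nat_lit 173)) (XT.lf (nat_lit 0) (nat_lit 42657319470) (nat_lit 76) (nat_lit 11382765788) (nat_lit 76) (nat_lit 1366643093) (nat_lit 6) (nat_lit 4) (nat_lit 7) (nat_lit 5) (nat_lit 7) (nat_lit 4) (nat_lit 387) (nat_lit 221) (nat_lit 172)))) (XT.nd (nat_lit 156) (nat_lit 76) (nat_lit 0) (XT.nd (nat_lit 78) (nat_lit 0) (nat_lit 0) (XT.lf (nat_lit 0) (nat_lit 1218917671) (nat_lit 152) (nat_lit 7631311981) (nat_lit 76) (nat_lit 48128590475) (nat_lit 5) (nat_lit 5) (nat_lit 7) (nat_lit 5) (nat_lit 6) (nat_lit 4) (nat_lit 388) (nat_lit 221) (nat_lit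 171)) (XT.lf (nat_lit 0) (nat_lit 3827067495) (nat_lit 152) (nat_lit 2423750517) (nat_lit 76) (nat_lit 52347686170) (nat_lit 5) (nat_lit 5) (nat_lit 7) (nat_lit 5) (nat_lit 6) (nat_lit 4) (nat_lit 389) (nat_lit 221) (nat_lit 170))) (XT.nd (nat_lit 78) (nat_lit 0) (nat_lit 0) (XT.lf (nat_lit 0) (nat_lit 2948498644) (nat_lit 76) (nat_lit 3566597601) (nat_lit 152) (nat_lit 53751643357) (nat_lit 4) (nat_lit 5) (nat_lit 5) (nat_lit 5) (nat_lit 6) (nat_lit 4) (nat_lit 390) (nat_lit 221) (nat_lit 169)) (XT.lf (nat_lit 0) (nat_lit 8483005942) (nat_lit 76) (nat_lit 798837502) (nat_lit 152) (nat_lit 52703245902) (nat_lit 4) (nat_lit 5) (nat_lit 5) (nat_lit 5) (nat_lit 6) (nat_lit 4) (nat_lit 391) (nat_lit 221) (nat_lit 168))))))) (XT.nd (nat_lit 1014) (nat_lit 0) (nat_lit 0) (XT.nd (nat_lit 468) (nat_lit 76) (nat_lit 0) (XT.nd (nat_lit 234) (nat_lit 0) (nat_lit 0) (XT.nd (nat_lit 78) (nat_lit 0) (nat_lit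 0) (XT.lf (nat_lit 0) (nat_lit 12125481880) (nat_lit 152) (nat_lit 49638915289) (nat_lit 0) (nat_lit 1990785060) (nat_lit 4) (nat_lit 5) (nat_lit 6) (nat_lit 4) (nat_lit 4) (nat_lit 4) (nat_lit 392) (nat_lit 221) (nat_lit 167)) (XT.nd (nat_lit 78) (nat_lit 0) (nat_lit 0) (XT.lf (nat_lit 0) (nat_lit 15037255420) (nat_lit 152) (nat_lit 45714120161) (nat_lit 0) (nat_lit 4827526577) (nat_lit 4) (nat_lit 5) (nat_lit 6) (nat_lit 4) (nat_lit 4) (nat_lit 4) (nat_lit 393) (nat_lit 221) (nat_lit 166)) (XT.lf (nat_lit 0) (nat_lit 18012029416) (nat_lit 152) (nat_lit 41716589675) (nat_lit 0) (nat_lit 7729453950) (nat_lit 4) (nat_lit 5) (nat_lit 6) (nat_lit 4) (nat_lit 4) (nat_lit 4) (nat_lit 394) (nat_lit 221) (nat_lit 165)))) (XT.nd (nat_lit 78) (nat_lit 0) (nat_lit 0) (XT.lf (nat_lit 0) (nat_lit 21052403188) (nat_lit 152) (nat_lit 37642830843) (nat_lit 0) (nat_lit 10699102844) (nat_lit 4) (nat_lit 5) (nat_lit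 6) (nat_lit 4) (nat_lit 4) (nat_lit 4) (nat_lit 395) (nat_lit 221) (nat_lit 164)) (XT.nd (nat_lit 78) (nat_lit 0) (nat_lit 0) (XT.lf (nat_lit 0) (nat_lit 24161033371) (nat_lit 152) (nat_lit 33489284070) (nat_lit 0) (nat_lit 13739068098) (nat_lit 4) (nat_lit 5) (nat_lit 6) (nat_lit 4) (nat_lit 4) (nat_lit 4) (nat_lit 396) (nat_lit 221) (nat_lit 163)) (XT.lf (nat_lit 0) (nat_lit 27340636245) (nat_lit 152) (nat_lit 29252320042) (nat_lit 0) (nat_lit 16852005991) (nat_lit 4) (nat_lit 5) (nat_lit 6) (nat_lit 4) (nat_lit 4) (nat_lit 4) (nat_lit 397) (nat_lit 221) (nat_lit 162))))) (XT.nd (nat_lit 234) (nat_lit 76) (nat_lit 0) (XT.nd (nat_lit 78) (nat_lit 0) (nat_lit 0) (XT.lf (nat_lit 0) (nat_lit 30593990104) (nat_lit 152) (nat_lit 24928236560) (nat_lit 0) (nat_lit 20040636568) (nat_lit 4) (nat_lit 5) (nat_lit 6) (nat_lit 4) (nat_lit 4) (nat_lit 4) (nat_lit 398) (nat_lit 221) (nat_lit 161)) (XT.nd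 (nat_lit 78) (nat_lit 0) (nat_lit 0) (XT.lf (nat_lit 0) (nat_lit 33923937683) (nat_lit 152) (nat_lit 20513255296) (nat_lit 0) (nat_lit 23307746010) (nat_lit 4) (nat_lit 5) (nat_lit 6) (nat_lit 4) (nat_lit 4) (nat_lit 4) (nat_lit 399) (nat_lit 221) (nat_lit 160)) (XT.lf (nat_lit 0) (nat_lit 37333388647) (nat_lit 152) (nat_lit 16003518502) (nat_lit 0) (nat_lit 26656189073) (nat_lit 4) (nat_lit 5) (nat_lit 6) (nat_lit 4) (nat_lit 4) (nat_lit 4) (nat_lit 400) (nat_lit 221) (nat_lit 159)))) (XT.nd (nat_lit 156) (nat_lit 76) (nat_lit 0) (XT.nd (nat_lit 78) (nat_lit 0) (nat_lit 0) (XT.lf (nat_lit 0) (nat_lit 40825322125) (nat_lit 152) (nat_lit 11395085628) (nat_lit 0) (nat_lit 30088891580) (nat_lit 4) (nat_lit 5) (nat_lit 6) (nat_lit 4) (nat_lit 4) (nat_lit 4) (nat_lit 401) (nat_lit 221) (nat_lit 158)) (XT.lf (nat_lit 0) (nat_lit 44402789324) (nat_lit 152) (nat_lit 6683929891) (nat_lit 0) (nat_lit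 33608852981) (nat_lit 4) (nat_lit 5) (nat_lit 6) (nat_lit 4) (nat_lit 4) (nat_lit 4) (nat_lit 402) (nat_lit 221) (nat_lit 157))) (XT.nd (nat_lit 78) (nat_lit 76) (nat_lit 0) (XT.lf (nat_lit 0) (nat_lit 48068916185) (nat_lit 152) (nat_lit 1865934746) (nat_lit 0) (nat_lit 37219148970) (nat_lit 4) (nat_lit 5) (nat_lit 6) (nat_lit 4) (nat_lit 4) (nat_lit 4) (nat_lit 403) (nat_lit 221) (nat_lit 156)) (XT.lf (nat_lit 0) (nat_lit 3124071594) (nat_lit 76) (nat_lit 48732865011) (nat_lit 76) (nat_lit 37828893067) (nat_lit 3) (nat_lit 4) (nat_lit 4) (nat_lit 5) (nat_lit 4) (nat_lit 4) (nat_lit 404) (nat_lit 221) (nat_lit 155)))))) (XT.nd (nat_lit 35412) (nat_lit 0) (nat_lit 1368) (XT.nd (nat_lit 234) (nat_lit 0) (nat_lit 0) (XT.nd (nat_lit 78) (nat_lit 0) (nat_lit 0) (XT.lf (nat_lit 0) (nat_lit 8268865750) (nat_lit 76) (nat_lit 47490662453) (nat_lit 76) (nat_lit 36534064558) (nat_lit 3) (nat_lit 4) (nat_lit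 4) (nat_lit 5) (nat_lit 4) (nat_lit 4) (nat_lit 405) (nat_lit 221) (nat_lit 154)) (XT.nd (nat_lit 78) (nat_lit 0) (nat_lit 0) (XT.lf (nat_lit 0) (nat_lit 13535807410) (nat_lit 76) (nat_lit 46226000119) (nat_lit 76) (nat_lit 35218309068) (nat_lit 3) (nat_lit 4) (nat_lit 4) (nat_lit 5) (nat_lit 4) (nat_lit 4) (nat_lit 406) (nat_lit 221) (nat_lit 153)) (XT.lf (nat_lit 0) (nat_lit 18929498759) (nat_lit 76) (nat_lit 44937772964) (nat_lit 76) (nat_lit 33880476907) (nat_lit 3) (nat_lit 4) (nat_lit 4) (nat_lit 5) (nat_lit 4) (nat_lit 4) (nat_lit 407) (nat_lit 221) (nat_lit 152)))) (XT.nd (nat_lit 35022) (nat_lit 0) (nat_lit 1824) (XT.nd (nat_lit 78) (nat_lit 0) (nat_lit 0) (XT.lf (nat_lit 0) (nat_lit 24454652728) (nat_lit 76) (nat_lit 43624855353) (nat_lit 76) (nat_lit 32519399096) (nat_lit 3) (nat_lit 4) (nat_lit 4) (nat_lit 5) (nat_lit 4) (nat_lit 4) (nat_lit 408) (nat_lit 221) (nat_lit 151)) (XT.lf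 (nat_lit 0) (nat_lit 30116097124) (nat_lit 76) (nat_lit 42286100077) (nat_lit 76) (nat_lit 31133886343) (nat_lit 3) (nat_lit 4) (nat_lit 4) (nat_lit 5) (nat_lit 4) (nat_lit 4) (nat_lit 409) (nat_lit 221) (nat_lit 150))) (XT.nd (nat_lit 78) (nat_lit 152) (nat_lit 0) (XT.lf (nat_lit 0) (nat_lit 2726670558) (nat_lit 228) (nat_lit 2222267400) (nat_lit 0) (nat_lit 2726670558) (nat_lit 29) (nat_lit 5) (nat_lit 32) (nat_lit 4) (nat_lit 29) (nat_lit 4) (nat_lit 336) (nat_lit 222) (nat_lit 222)) (XT.lf (nat_lit 0) (nat_lit 3060337494) (nat_lit 152) (nat_lit 6541755833) (nat_lit 152) (nat_lit 6072775549) (nat_lit 27) (nat_lit 4) (nat_lit 29) (nat_lit 5) (nat_lit 29) (nat_lit 4) (nat_lit 337) (nat_lit 222) (nat_lit 221))))) (XT.nd (nat_lit 234) (nat_lit 304) (nat_lit 0) (XT.nd (nat_lit 78) (nat_lit 152) (nat_lit 0) (XT.lf (nat_lit 0) (nat_lit 10732116446) (nat_lit 152) (nat_lit 3100869642) (nat_lit 152)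 (nat_lit 2176568694) (nat_lit 27) (nat_lit 4) (nat_lit 29) (nat_lit 5) (nat_lit 29) (nat_lit 4) (nat_lit 338) (nat_lit 222) (nat_lit 220)) (XT.nd (nat_lit 78) (nat_lit 0) (nat_lit 0) (XT.lf (nat_lit 0) (nat_lit 1739924895) (nat_lit 152) (nat_lit 14202339386) (nat_lit 0) (nat_lit 413361939) (nat_lit 25) (nat_lit 5) (nat_lit 27) (nat_lit 4) (nat_lit 25) (nat_lit 4) (nat_lit 339) (nat_lit 222) (nat_lit 219)) (XT.lf (nat_lit 0) (nat_lit 5729643881) (nat_lit 152) (nat_lit 6995457267) (nat_lit 0) (nat_lit 3986398017) (nat_lit 25) (nat_lit 5) (nat_lit 27) (nat_lit 4) (nat_lit 25) (nat_lit 4) (nat_lit 340) (nat_lit 222) (nat_lit 218)))) (XT.nd (nat_lit 156) (nat_lit 152) (nat_lit 0) (XT.nd (nat_lit 78) (nat_lit 0) (nat_lit 0) (XT.lf (nat_lit 0) (nat_lit 290273472) (nat_lit 152) (nat_lit 9469004613) (nat_lit 152) (nat_lit 7321212236) (nat_lit 23) (nat_lit 4) (nat_lit 25) (nat_lit 5) (nat_lit 25) (nat_lit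 4) (nat_lit 341) (nat_lit 222) (nat_lit 217)) (XT.lf (nat_lit 0) (nat_lit 7796356206) (nat_lit 152) (nat_lit 6102562392) (nat_lit 152) (nat_lit 3562006410) (nat_lit 23) (nat_lit 4) (nat_lit 25) (nat_lit 5) (nat_lit 25) (nat_lit 4) (nat_lit 342) (nat_lit 222) (nat_lit 216))) (XT.nd (nat_lit 78) (nat_lit 76) (nat_lit 0) (XT.lf (nat_lit 0) (nat_lit 223949500) (nat_lit 228) (nat_lit 2467262384) (nat_lit 76) (nat_lit 15163915378) (nat_lit 22) (nat_lit 5) (nat_lit 25) (nat_lit 5) (nat_lit 23) (nat_lit 4) (nat_lit 343) (nat_lit 222) (nat_lit 215)) (XT.lf (nat_lit 0) (nat_lit 4029230000) (nat_lit 152) (nat_lit 13398571607) (nat_lit 0) (nat_lit 833019091) (nat_lit 21) (nat_lit 5) (nat_lit 23) (nat_lit 4) (nat_lit 21) (nat_lit 4) (nat_lit 344) (nat_lit 222) (nat_lit 214))))))))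
noncomputable def xc26 : XT := (XT.nd (nat_lit 2028) (nat_lit 380) (nat_lit 0) (XT.nd (nat_lit 1014) (nat_lit 304) (nat_lit 0) (XT.nd (nat_lit 468) (nat_lit 304) (nat_lit 0) (XT.nd (nat_lit 234) (nat_lit 152) (nat_lit 0) (XT.nd (nat_lit 78) (nat_lit 152) (nat_lit 0) (XT.lf (nat_lit 0) (nat_lit 7923254999) (nat_lit 152) (nat_lit 6378155677) (nat_lit 0) (nat_lit 4378078715) (nat_lit 21) (nat_lit 5) (nat_lit 23) (nat_lit 4) (nat_lit 21) (nat_lit 4) (nat_lit 345) (nat_lit 222) (nat_lit 213)) (XT.nd (nat_lit 78) (nat_lit 0) (nat_lit 0) (XT.lf (nat_lit 0) (nat_lit 735627269) (nat_lit 152) (nat_lit 11130573159) (nat_lit 152) (nat_lit 7246595540) (nat_lit 19) (nat_lit 4) (nat_lit 21) (nat_lit 5) (nat_lit 21) (nat_lit 4) (nat_lit 346) (nat_lit 222) (nat_lit 212)) (XT.lf (nat_lit 0) (nat_lit 8063259640) (nat_lit 152) (nat_lit 7854540846) (nat_lit 152) (nat_lit 3641629891) (nat_lit 19) (nat_lit 4) (nat_lit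 21) (nat_lit 5) (nat_lit 21) (nat_lit 4) (nat_lit 347) (nat_lit 222) (nat_lit 211)))) (XT.nd (nat_lit 78) (nat_lit 152) (nat_lit 0) (XT.lf (nat_lit 0) (nat_lit 15484206419) (nat_lit 152) (nat_lit 4534858050) (nat_lit 152) (nat_lit 2594342) (nat_lit 19) (nat_lit 4) (nat_lit 21) (nat_lit 5) (nat_lit 21) (nat_lit 4) (nat_lit 348) (nat_lit 222) (nat_lit 210)) (XT.nd (nat_lit 78) (nat_lit 0) (nat_lit 0) (XT.lf (nat_lit 0) (nat_lit 2518905930) (nat_lit 76) (nat_lit 1107311239) (nat_lit 152) (nat_lit 16871882179) (nat_lit 17) (nat_lit 5) (nat_lit 18) (nat_lit 5) (nat_lit 19) (nat_lit 4) (nat_lit 349) (nat_lit 222) (nat_lit 209)) (XT.lf (nat_lit 0) (nat_lit 7363245613) (nat_lit 152) (nat_lit 11255923801) (nat_lit 0) (nat_lit 2369715979) (nat_lit 17) (nat_lit 5) (nat_lit 19) (nat_lit 4) (nat_lit 17) (nat_lit 4) (nat_lit 350) (nat_lit 222) (nat_lit 208))))) (XT.nd (nat_lit 234) (nat_lit 152) (nat_lit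 0) (XT.nd (nat_lit 78) (nat_lit 152) (nat_lit 0) (XT.lf (nat_lit 0) (nat_lit 11155231635) (nat_lit 152) (nat_lit 4462950946) (nat_lit 0) (nat_lit 5877961217) (nat_lit 17) (nat_lit 5) (nat_lit 19) (nat_lit 4) (nat_lit 17) (nat_lit 4) (nat_lit 351) (nat_lit 222) (nat_lit 207)) (XT.nd (nat_lit 78) (nat_lit 0) (nat_lit 0) (XT.lf (nat_lit 0) (nat_lit 2464394113) (nat_lit 152) (nat_lit 12554139619) (nat_lit 152) (nat_lit 7001392711) (nat_lit 15) (nat_lit 4) (nat_lit 17) (nat_lit 5) (nat_lit 17) (nat_lit 4) (nat_lit 352) (nat_lit 222) (nat_lit 206)) (XT.lf (nat_lit 0) (nat_lit 9574691479) (nat_lit 152) (nat_lit 9402785429) (nat_lit 152) (nat_lit 3582585618) (nat_lit 15) (nat_lit 4) (nat_lit 17) (nat_lit 5) (nat_lit 17) (nat_lit 4) (nat_lit 353) (nat_lit 222) (nat_lit 205)))) (XT.nd (nat_lit 156) (nat_lit 0) (nat_lit 0) (XT.nd (nat_lit 78) (nat_lit 152) (nat_lit 0) (XT.lf (nat_lit 0) (nat_lit 16785332557)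 (nat_lit 152) (nat_lit 6206433454) (nat_lit 152) (nat_lit 126570631) (nat_lit 15) (nat_lit 4) (nat_lit 17) (nat_lit 5) (nat_lit 17) (nat_lit 4) (nat_lit 354) (nat_lit 222) (nat_lit 204)) (XT.lf (nat_lit 0) (nat_lit 382452988) (nat_lit 76) (nat_lit 2925141013) (nat_lit 152) (nat_lit 20386560572) (nat_lit 13) (nat_lit 5) (nat_lit 14) (nat_lit 5) (nat_lit 15) (nat_lit 4) (nat_lit 355) (nat_lit 222) (nat_lit 203))) (XT.nd (nat_lit 78) (nat_lit 0) (nat_lit 0) (XT.lf (nat_lit 0) (nat_lit 6849269849) (nat_lit 152) (nat_lit 16973652639) (nat_lit 0) (nat_lit 464104676) (nat_lit 13) (nat_lit 5) (nat_lit 15) (nat_lit 4) (nat_lit 13) (nat_lit 4) (nat_lit 356) (nat_lit 222) (nat_lit 202)) (XT.lf (nat_lit 0) (nat_lit 10466037686) (nat_lit 152) (nat_lit 10582445496) (nat_lit 0) (nat_lit 3850165289) (nat_lit 13) (nat_lit 5) (nat_lit 15) (nat_lit 4) (nat_lit 13) (nat_lit 4) (nat_lit 357) (nat_lit 222) (nat_lit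 201)))))) (XT.nd (nat_lit 468) (nat_lit 76) (nat_lit 0) (XT.nd (nat_lit 234) (nat_lit 152) (nat_lit 0) (XT.nd (nat_lit 78) (nat_lit 76) (nat_lit 0) (XT.lf (nat_lit 0) (nat_lit 14132939550) (nat_lit 152) (nat_lit 4104377363) (nat_lit 0) (nat_lit 7293079558) (nat_lit 13) (nat_lit 5) (nat_lit 15) (nat_lit 4) (nat_lit 13) (nat_lit 4) (nat_lit 358) (nat_lit 222) (nat_lit 200)) (XT.nd (nat_lit 78) (nat_lit 0) (nat_lit 0) (XT.lf (nat_lit 0) (nat_lit 2515294666) (nat_lit 76) (nat_lit 15362063415) (nat_lit 76) (nat_lit 8304739738) (nat_lit 12) (nat_lit 4) (nat_lit 13) (nat_lit 5) (nat_lit 13) (nat_lit 4) (nat_lit 359) (nat_lit 222) (nat_lit 199)) (XT.lf (nat_lit 0) (nat_lit 9316870206) (nat_lit 76) (nat_lit 12402697572) (nat_lit 76) (nat_lit 5134244104) (nat_lit 12) (nat_lit 4) (nat_lit 13) (nat_lit 5) (nat_lit 13) (nat_lit 4) (nat_lit 360) (nat_lit 222) (nat_lit 198)))) (XT.nd (nat_lit 78) (nat_lit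 152) (nat_lit 0) (XT.lf (nat_lit 0) (nat_lit 16224607220) (nat_lit 76) (nat_lit 9398079696) (nat_lit 76) (nat_lit 1924645848) (nat_lit 12) (nat_lit 4) (nat_lit 13) (nat_lit 5) (nat_lit 13) (nat_lit 4) (nat_lit 361) (nat_lit 222) (nat_lit 197)) (XT.nd (nat_lit 78) (nat_lit 76) (nat_lit 0) (XT.lf (nat_lit 0) (nat_lit 1300967725) (nat_lit 152) (nat_lit 5031479443) (nat_lit 76) (nat_lit 21930436650) (nat_lit 11) (nat_lit 5) (nat_lit 13) (nat_lit 5) (nat_lit 12) (nat_lit 4) (nat_lit 362) (nat_lit 222) (nat_lit 196)) (XT.lf (nat_lit 0) (nat_lit 1362720118) (nat_lit 76) (nat_lit 3183278754) (nat_lit 152) (nat_lit 24454513471) (nat_lit 10) (nat_lit 5) (nat_lit 11) (nat_lit 5) (nat_lit 12) (nat_lit 4) (nat_lit 363) (nat_lit 222) (nat_lit 195))))) (XT.nd (nat_lit 234) (nat_lit 76) (nat_lit 0) (XT.nd (nat_lit 78) (nat_lit 0) (nat_lit 0) (XT.lf (nat_lit 0) (nat_lit 7888728610) (nat_lit 152) (nat_lit 21801507196)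 (nat_lit 0) (nat_lit 70045428) (nat_lit 10) (nat_lit 5) (nat_lit 12) (nat_lit 4) (nat_lit 10) (nat_lit 4) (nat_lit 364) (nat_lit 222) (nat_lit 194)) (XT.nd (nat_lit 78) (nat_lit 0) (nat_lit 0) (XT.lf (nat_lit 0) (nat_lit 11313215392) (nat_lit 152) (nat_lit 15912490511) (nat_lit 0) (nat_lit 3317714333) (nat_lit 10) (nat_lit 5) (nat_lit 12) (nat_lit 4) (nat_lit 10) (nat_lit 4) (nat_lit 365) (nat_lit 222) (nat_lit 193)) (XT.lf (nat_lit 0) (nat_lit 14791851865) (nat_lit 152) (nat_lit 9934996804) (nat_lit 0) (nat_lit 6624682966) (nat_lit 10) (nat_lit 5) (nat_lit 12) (nat_lit 4) (nat_lit 10) (nat_lit 4) (nat_lit 366) (nat_lit 222) (nat_lit 192)))) (XT.nd (nat_lit 156) (nat_lit 0) (nat_lit 0) (XT.nd (nat_lit 78) (nat_lit 76) (nat_lit 0) (XT.lf (nat_lit 0) (nat_lit 18327677615) (nat_lit 152) (nat_lit 3863803024) (nat_lit 0) (nat_lit 9993840908) (nat_lit 10) (nat_lit 5) (nat_lit 12) (nat_lit 4) (nat_lit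 10) (nat_lit 4) (nat_lit 367) (nat_lit 222) (nat_lit 191)) (XT.lf (nat_lit 0) (nat_lit 2352297553) (nat_lit 76) (nat_lit 19594096367) (nat_lit 76) (nat_lit 11098446256) (nat_lit 9) (nat_lit 4) (nat_lit 10) (nat_lit 5) (nat_lit 10) (nat_lit 4) (nat_lit 368) (nat_lit 222) (nat_lit 190))) (XT.nd (nat_lit 78) (nat_lit 0) (nat_lit 0) (XT.lf (nat_lit 0) (nat_lit 8751769517) (nat_lit 76) (nat_lit 16915665685) (nat_lit 76) (nat_lit 8262915181) (nat_lit 9) (nat_lit 4) (nat_lit 10) (nat_lit 5) (nat_lit 10) (nat_lit 4) (nat_lit 369) (nat_lit 222) (nat_lit 189)) (XT.lf (nat_lit 0) (nat_lit 15263307383) (nat_lit 76) (nat_lit 14192865052) (nat_lit 76) (nat_lit 5387589895) (nat_lit 9) (nat_lit 4) (nat_lit 10) (nat_lit 5) (nat_lit 10) (nat_lit 4) (nat_lit 370) (nat_lit 222) (nat_lit 188))))))) (XT.nd (nat_lit 1014) (nat_lit 152) (nat_lit 0) (XT.nd (nat_lit 468) (nat_lit 76) (nat_lit 0) (XT.nd (nat_lit 234)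 (nat_lit 76) (nat_lit 0) (XT.nd (nat_lit 78) (nat_lit 76) (nat_lit 0) (XT.lf (nat_lit 0) (nat_lit 21892600844) (nat_lit 76) (nat_lit 11423315321) (nat_lit 76) (nat_lit 2469957976) (nat_lit 9) (nat_lit 4) (nat_lit 10) (nat_lit 5) (nat_lit 10) (nat_lit 4) (nat_lit 371) (nat_lit 222) (nat_lit 187)) (XT.nd (nat_lit 78) (nat_lit 0) (nat_lit 0) (XT.lf (nat_lit 0) (nat_lit 482918927) (nat_lit 152) (nat_lit 8116801036) (nat_lit 76) (nat_lit 28157647024) (nat_lit 8) (nat_lit 5) (nat_lit 10) (nat_lit 5) (nat_lit 9) (nat_lit 4) (nat_lit 372) (nat_lit 222) (nat_lit 186)) (XT.lf (nat_lit 0) (nat_lit 3434116840) (nat_lit 152) (nat_lit 2265450936) (nat_lit 76) (nat_lit 32058938163) (nat_lit 8) (nat_lit 5) (nat_lit 10) (nat_lit 5) (nat_lit 9) (nat_lit 4) (nat_lit 373) (nat_lit 222) (nat_lit 185)))) (XT.nd (nat_lit 78) (nat_lit 0) (nat_lit 0) (XT.lf (nat_lit 0) (nat_lit 3763063501) (nat_lit 76) (nat_lit 2707521623)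 (nat_lit 152) (nat_lit 32319207752) (nat_lit 7) (nat_lit 5) (nat_lit 8) (nat_lit 5) (nat_lit 9) (nat_lit 4) (nat_lit 374) (nat_lit 222) (nat_lit 184)) (XT.nd (nat_lit 78) (nat_lit 0) (nat_lit 0) (XT.lf (nat_lit 0) (nat_lit 9585566355) (nat_lit 152) (nat_lit 29908262424) (nat_lit 0) (nat_lit 358582463) (nat_lit 7) (nat_lit 5) (nat_lit 9) (nat_lit 4) (nat_lit 7) (nat_lit 4) (nat_lit 375) (nat_lit 222) (nat_lit 183)) (XT.lf (nat_lit 0) (nat_lit 12782666224) (nat_lit 152) (nat_lit 24732930966) (nat_lit 0) (nat_lit 3431665832) (nat_lit 7) (nat_lit 5) (nat_lit 9) (nat_lit 4) (nat_lit 7) (nat_lit 4) (nat_lit 376) (nat_lit 222) (nat_lit 182))))) (XT.nd (nat_lit 234) (nat_lit 76) (nat_lit 0) (XT.nd (nat_lit 78) (nat_lit 0) (nat_lit 0) (XT.lf (nat_lit 0) (nat_lit 16038651960) (nat_lit 152) (nat_lit 19470186515) (nat_lit 0) (nat_lit 6567247198) (nat_lit 7) (nat_lit 5) (nat_lit 9) (nat_lit 4) (nat_lit 7)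 (nat_lit 4) (nat_lit 377) (nat_lit 222) (nat_lit 181)) (XT.nd (nat_lit 78) (nat_lit 0) (nat_lit 0) (XT.lf (nat_lit 0) (nat_lit 19356368600) (nat_lit 152) (nat_lit 14115430555) (nat_lit 0) (nat_lit 9768066391) (nat_lit 7) (nat_lit 5) (nat_lit 9) (nat_lit 4) (nat_lit 7) (nat_lit 4) (nat_lit 378) (nat_lit 222) (nat_lit 180)) (XT.lf (nat_lit 0) (nat_lit 22738715118) (nat_lit 152) (nat_lit 8663984173) (nat_lit 0) (nat_lit 13036920243) (nat_lit 7) (nat_lit 5) (nat_lit 9) (nat_lit 4) (nat_lit 7) (nat_lit 4) (nat_lit 379) (nat_lit 222) (nat_lit 179)))) (XT.nd (nat_lit 156) (nat_lit 0) (nat_lit 0) (XT.nd (nat_lit 78) (nat_lit 76) (nat_lit 0) (XT.lf (nat_lit 0) (nat_lit 26188646963) (nat_lit 152) (nat_lit 3111083970) (nat_lit 0) (nat_lit 16376665034) (nat_lit 7) (nat_lit 5) (nat_lit 9) (nat_lit 4) (nat_lit 7) (nat_lit 4) (nat_lit 380) (nat_lit 222) (nat_lit 178)) (XT.lf (nat_lit 0) (nat_lit 2598834727)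 (nat_lit 76) (nat_lit 27135325501) (nat_lit 76) (nat_lit 17216365849) (nat_lit 6) (nat_lit 4) (nat_lit 7) (nat_lit 5) (nat_lit 7) (nat_lit 4) (nat_lit 381) (nat_lit 222) (nat_lit 177))) (XT.nd (nat_lit 78) (nat_lit 0) (nat_lit 0) (XT.lf (nat_lit 0) (nat_lit 8484135014) (nat_lit 76) (nat_lit 24900806021) (nat_lit 76) (nat_lit 14877984502) (nat_lit 6) (nat_lit 4) (nat_lit 7) (nat_lit 5) (nat_lit 7) (nat_lit 4) (nat_lit 382) (nat_lit 222) (nat_lit 176)) (XT.lf (nat_lit 0) (nat_lit 14488042712) (nat_lit 76) (nat_lit 22625635850) (nat_lit 76) (nat_lit 12501977566) (nat_lit 6) (nat_lit 4) (nat_lit 7) (nat_lit 5) (nat_lit 7) (nat_lit 4) (nat_lit 383) (nat_lit 222) (nat_lit 175)))))) (XT.nd (nat_lit 468) (nat_lit 76) (nat_lit 0) (XT.nd (nat_lit 234) (nat_lit 76) (nat_lit 0) (XT.nd (nat_lit 78) (nat_lit 0) (nat_lit 0) (XT.lf (nat_lit 0) (nat_lit 20615803955) (nat_lit 76) (nat_lit 20307826975) (nat_lit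 76) (nat_lit 10086268920) (nat_lit 6) (nat_lit 4) (nat_lit 7) (nat_lit 5) (nat_lit 7) (nat_lit 4) (nat_lit 384) (nat_lit 222) (nat_lit 174)) (XT.nd (nat_lit 78) (nat_lit 0) (nat_lit 0) (XT.lf (nat_lit 0) (nat_lit 26872773097) (nat_lit 76) (nat_lit 17945354125) (nat_lit 76) (nat_lit 7628747749) (nat_lit 6) (nat_lit 4) (nat_lit 7) (nat_lit 5) (nat_lit 7) (nat_lit 4) (nat_lit 385) (nat_lit 222) (nat_lit 173)) (XT.lf (nat_lit 0) (nat_lit 33264417394) (nat_lit 76) (nat_lit 15536153005) (nat_lit 76) (nat_lit 5127266705) (nat_lit 6) (nat_lit 4) (nat_lit 7) (nat_lit 5) (nat_lit 7) (nat_lit 4) (nat_lit 386) (nat_lit 222) (nat_lit 172)))) (XT.nd (nat_lit 78) (nat_lit 76) (nat_lit 0) (XT.lf (nat_lit 0) (nat_lit 39796321776) (nat_lit 76) (nat_lit 13078118486) (nat_lit 76) (nat_lit 2579640028) (nat_lit 6) (nat_lit 4) (nat_lit 7) (nat_lit 5) (nat_lit 7) (nat_lit 4) (nat_lit 387) (nat_lit 222) (nat_lit 171))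 (XT.nd (nat_lit 78) (nat_lit 0) (nat_lit 0) (XT.lf (nat_lit 0) (nat_lit 16039153) (nat_lit 152) (nat_lit 10552901655) (nat_lit 76) (nat_lit 46457992615) (nat_lit 5) (nat_lit 5) (nat_lit 7) (nat_lit 5) (nat_lit 6) (nat_lit 4) (nat_lit 388) (nat_lit 222) (nat_lit 170)) (XT.lf (nat_lit 0) (nat_lit 2611032159) (nat_lit 152) (nat_lit 5369515056) (nat_lit 76) (nat_lit 50666469834) (nat_lit 5) (nat_lit 5) (nat_lit 7) (nat_lit 5) (nat_lit 6) (nat_lit 4) (nat_lit 389) (nat_lit 222) (nat_lit 169))))) (XT.nd (nat_lit 234) (nat_lit 0) (nat_lit 0) (XT.nd (nat_lit 78) (nat_lit 76) (nat_lit 0) (XT.lf (nat_lit 0) (nat_lit 5257944527) (nat_lit 152) (nat_lit 78272465) (nat_lit 76) (nat_lit 54980273692) (nat_lit 5) (nat_lit 5) (nat_lit 7) (nat_lit 5) (nat_lit 6) (nat_lit 4) (nat_lit 390) (nat_lit 222) (nat_lit 168)) (XT.nd (nat_lit 78) (nat_lit 0) (nat_lit 0) (XT.lf (nat_lit 0) (nat_lit 5431436420) (nat_lit 76)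 (nat_lit 2579862963) (nat_lit 152) (nat_lit 54023947402) (nat_lit 4) (nat_lit 5) (nat_lit 5) (nat_lit 5) (nat_lit 6) (nat_lit 4) (nat_lit 391) (nat_lit 222) (nat_lit 167)) (XT.lf (nat_lit 0) (nat_lit 10825461192) (nat_lit 152) (nat_lit 52746358765) (nat_lit 0) (nat_lit 234408461) (nat_lit 4) (nat_lit 5) (nat_lit 6) (nat_lit 4) (nat_lit 4) (nat_lit 4) (nat_lit 392) (nat_lit 222) (nat_lit 166)))) (XT.nd (nat_lit 156) (nat_lit 0) (nat_lit 0) (XT.nd (nat_lit 78) (nat_lit 0) (nat_lit 0) (XT.lf (nat_lit 0) (nat_lit 13725238303) (nat_lit 152) (nat_lit 48843735310) (nat_lit 0) (nat_lit 3061338949) (nat_lit 4) (nat_lit 5) (nat_lit 6) (nat_lit 4) (nat_lit 4) (nat_lit 4) (nat_lit 393) (nat_lit 222) (nat_lit 165)) (XT.lf (nat_lit 0) (nat_lit 16688365283) (nat_lit 152) (nat_lit 44867730720) (nat_lit 0) (nat_lit 5953741051) (nat_lit 4) (nat_lit 5) (nat_lit 6) (nat_lit 4) (nat_lit 4) (nat_lit 4) (nat_lit 394)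 (nat_lit 222) (nat_lit 164))) (XT.nd (nat_lit 78) (nat_lit 0) (nat_lit 0) (XT.lf (nat_lit 0) (nat_lit 19717431270) (nat_lit 152) (nat_lit 40814870816) (nat_lit 0) (nat_lit 8914142109) (nat_lit 4) (nat_lit 5) (nat_lit 6) (nat_lit 4) (nat_lit 4) (nat_lit 4) (nat_lit 395) (nat_lit 222) (nat_lit 163)) (XT.lf (nat_lit 0) (nat_lit 22815083023) (nat_lit 152) (nat_lit 36681614264) (nat_lit 0) (nat_lit 11945128881) (nat_lit 4) (nat_lit 5) (nat_lit 6) (nat_lit 4) (nat_lit 4) (nat_lit 4) (nat_lit 396) (nat_lit 222) (nat_lit 162))))))))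
noncomputable def xc27 : XT := (XT.nd (nat_lit 36738) (nat_lit 0) (nat_lit 380) (XT.nd (nat_lit 35724) (nat_lit 0) (nat_lit 1368) (XT.nd (nat_lit 468) (nat_lit 76) (nat_lit 0) (XT.nd (nat_lit 234) (nat_lit 0) (nat_lit 0) (XT.nd (nat_lit 78) (nat_lit 0) (nat_lit 0) (XT.lf (nat_lit 0) (nat_lit 25984027226) (nat_lit 152) (nat_lit 32464349481) (nat_lit 0) (nat_lit 15049349802) (nat_lit 4) (nat_lit 5) (nat_lit 6) (nat_lit 4) (nat_lit 4) (nat_lit 4) (nat_lit 397) (nat_lit 222) (nat_lit 161)) (XT.nd (nat_lit 78) (nat_lit 0) (nat_lit 0) (XT.lf (nat_lit 0) (nat_lit 29227032860) (nat_lit 152) (nat_lit 28159391478) (nat_lit 0) (nat_lit 18229517299) (nat_lit 4) (nat_lit 5) (nat_lit 6) (nat_lit 4) (nat_lit 4) (nat_lit 4) (nat_lit 398) (nat_lit 222) (nat_lit 160)) (XT.lf (nat_lit 0) (nat_lit 32546933620) (nat_lit 152) (nat_lit 23762978641) (nat_lit 0) (nat_lit 21488410158) (nat_lit 4) (nat_lit 5) (nat_lit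 6) (nat_lit 4) (nat_lit 4) (nat_lit 4) (nat_lit 399) (nat_lit 222) (nat_lit 159)))) (XT.nd (nat_lit 78) (nat_lit 0) (nat_lit 0) (XT.lf (nat_lit 0) (nat_lit 35946630390) (nat_lit 152) (nat_lit 19271269445) (nat_lit 0) (nat_lit 24828875956) (nat_lit 4) (nat_lit 5) (nat_lit 6) (nat_lit 4) (nat_lit 4) (nat_lit 4) (nat_lit 400) (nat_lit 222) (nat_lit 158)) (XT.nd (nat_lit 78) (nat_lit 0) (nat_lit 0) (XT.lf (nat_lit 0) (nat_lit 39429093778) (nat_lit 152) (nat_lit 14680339096) (nat_lit 0) (nat_lit 28253833547) (nat_lit 4) (nat_lit 5) (nat_lit 6) (nat_lit 4) (nat_lit 4) (nat_lit 4) (nat_lit 401) (nat_lit 222) (nat_lit 157)) (XT.lf (nat_lit 0) (nat_lit 42997366713) (nat_lit 152) (nat_lit 9986176099) (nat_lit 0) (nat_lit 31766275611) (nat_lit 4) (nat_lit 5) (nat_lit 6) (nat_lit 4) (nat_lit 4) (nat_lit 4) (nat_lit 402) (nat_lit 222) (nat_lit 156))))) (XT.nd (nat_lit 234) (nat_lit 0) (nat_lit 0) (XT.nd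 (nat_lit 78) (nat_lit 76) (nat_lit 0) (XT.lf (nat_lit 0) (nat_lit 46654567105) (nat_lit 152) (nat_lit 5184678761) (nat_lit 0) (nat_lit 35369271273) (nat_lit 4) (nat_lit 5) (nat_lit 6) (nat_lit 4) (nat_lit 4) (nat_lit 4) (nat_lit 403) (nat_lit 222) (nat_lit 155)) (XT.nd (nat_lit 78) (nat_lit 76) (nat_lit 0) (XT.lf (nat_lit 0) (nat_lit 50403890565) (nat_lit 152) (nat_lit 271651597) (nat_lit 0) (nat_lit 39065968782) (nat_lit 4) (nat_lit 5) (nat_lit 6) (nat_lit 4) (nat_lit 4) (nat_lit 4) (nat_lit 404) (nat_lit 222) (nat_lit 154)) (XT.lf (nat_lit 0) (nat_lit 4851875902) (nat_lit 76) (nat_lit 49443376496) (nat_lit 76) (nat_lit 38054361557) (nat_lit 3) (nat_lit 4) (nat_lit 4) (nat_lit 5) (nat_lit 4) (nat_lit 4) (nat_lit 405) (nat_lit 222) (nat_lit 153)))) (XT.nd (nat_lit 156) (nat_lit 0) (nat_lit 0) (XT.nd (nat_lit 78) (nat_lit 0) (nat_lit 0) (XT.lf (nat_lit 0) (nat_lit 10103419256) (nat_lit 76) (nat_lit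 48185795467) (nat_lit 76) (nat_lit 36747175522) (nat_lit 3) (nat_lit 4) (nat_lit 4) (nat_lit 5) (nat_lit 4) (nat_lit 4) (nat_lit 406) (nat_lit 222) (nat_lit 152)) (XT.lf (nat_lit 0) (nat_lit 15482160792) (nat_lit 76) (nat_lit 46904443366) (nat_lit 76) (nat_lit 35417663220) (nat_lit 3) (nat_lit 4) (nat_lit 4) (nat_lit 5) (nat_lit 4) (nat_lit 4) (nat_lit 407) (nat_lit 222) (nat_lit 151))) (XT.nd (nat_lit 78) (nat_lit 0) (nat_lit 0) (XT.lf (nat_lit 0) (nat_lit 20992800381) (nat_lit 76) (nat_lit 45598200564) (nat_lit 76) (nat_lit 34064662943) (nat_lit 3) (nat_lit 4) (nat_lit 4) (nat_lit 5) (nat_lit 4) (nat_lit 4) (nat_lit 408) (nat_lit 222) (nat_lit 150)) (XT.lf (nat_lit 0) (nat_lit 26640153145) (nat_lit 76) (nat_lit 44265925684) (nat_lit 76) (nat_lit 32686992455) (nat_lit 3) (nat_lit 4) (nat_lit 4) (nat_lit 5) (nat_lit 4) (nat_lit 4) (nat_lit 409) (nat_lit 222) (nat_lit 149)))))) (XT.nd (nat_lit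 468) (nat_lit 304) (nat_lit 0) (XT.nd (nat_lit 234) (nat_lit 304) (nat_lit 0) (XT.nd (nat_lit 78) (nat_lit 228) (nat_lit 0) (XT.lf (nat_lit 0) (nat_lit 5229895894) (nat_lit 152) (nat_lit 1068612203) (nat_lit 152) (nat_lit 1068612203) (nat_lit 32) (nat_lit 4) (nat_lit 34) (nat_lit 5) (nat_lit 34) (nat_lit 4) (nat_lit 334) (nat_lit 223) (nat_lit 223)) (XT.nd (nat_lit 78) (nat_lit 0) (nat_lit 0) (XT.lf (nat_lit 0) (nat_lit 1851269569) (nat_lit 228) (nat_lit 11819273542) (nat_lit 0) (nat_lit 1368219877) (nat_lit 29) (nat_lit 5) (nat_lit 32) (nat_lit 4) (nat_lit 29) (nat_lit 4) (nat_lit 335) (nat_lit 223) (nat_lit 222)) (XT.lf (nat_lit 0) (nat_lit 5892873320) (nat_lit 228) (nat_lit 4518833724) (nat_lit 0) (nat_lit 4940843344) (nat_lit 29) (nat_lit 5) (nat_lit 32) (nat_lit 4) (nat_lit 29) (nat_lit 4) (nat_lit 336) (nat_lit 223) (nat_lit 221)))) (XT.nd (nat_lit 78) (nat_lit 152) (nat_lit 0) (XT.lf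 (nat_lit 0) (nat_lit 2910989375) (nat_lit 152) (nat_lit 7086950542) (nat_lit 152) (nat_lit 5679599901) (nat_lit 27) (nat_lit 4) (nat_lit 29) (nat_lit 5) (nat_lit 29) (nat_lit 4) (nat_lit 337) (nat_lit 223) (nat_lit 220)) (XT.nd (nat_lit 78) (nat_lit 152) (nat_lit 0) (XT.lf (nat_lit 0) (nat_lit 10511340655) (nat_lit 152) (nat_lit 3675786009) (nat_lit 152) (nat_lit 1826376472) (nat_lit 27) (nat_lit 4) (nat_lit 29) (nat_lit 5) (nat_lit 29) (nat_lit 4) (nat_lit 338) (nat_lit 223) (nat_lit 219)) (XT.lf (nat_lit 0) (nat_lit 1853247968) (nat_lit 76) (nat_lit 182141637) (nat_lit 152) (nat_lit 14325545527) (nat_lit 25) (nat_lit 5) (nat_lit 26) (nat_lit 5) (nat_lit 27) (nat_lit 4) (nat_lit 339) (nat_lit 223) (nat_lit 218))))) (XT.nd (nat_lit 234) (nat_lit 152) (nat_lit 0) (XT.nd (nat_lit 78) (nat_lit 152) (nat_lit 0) (XT.lf (nat_lit 0) (nat_lit 5982684515) (nat_lit 152) (nat_lit 7369508436) (nat_lit 0)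 (nat_lit 3365911854) (nat_lit 25) (nat_lit 5) (nat_lit 27) (nat_lit 4) (nat_lit 25) (nat_lit 4) (nat_lit 340) (nat_lit 223) (nat_lit 217)) (XT.nd (nat_lit 78) (nat_lit 152) (nat_lit 0) (XT.lf (nat_lit 0) (nat_lit 9970039871) (nat_lit 152) (nat_lit 157844159) (nat_lit 0) (nat_lit 6960503605) (nat_lit 25) (nat_lit 5) (nat_lit 27) (nat_lit 4) (nat_lit 25) (nat_lit 4) (nat_lit 341) (nat_lit 223) (nat_lit 216)) (XT.lf (nat_lit 0) (nat_lit 7277365593) (nat_lit 152) (nat_lit 6791777809) (nat_lit 152) (nat_lit 3400917656) (nat_lit 23) (nat_lit 4) (nat_lit 25) (nat_lit 5) (nat_lit 25) (nat_lit 4) (nat_lit 342) (nat_lit 223) (nat_lit 215)))) (XT.nd (nat_lit 156) (nat_lit 0) (nat_lit 0) (XT.nd (nat_lit 78) (nat_lit 76) (nat_lit 0) (XT.lf (nat_lit 0) (nat_lit 343644629) (nat_lit 228) (nat_lit 3063478922) (nat_lit 76) (nat_lit 14458262142) (nat_lit 22) (nat_lit 5) (nat_lit 25) (nat_lit 5) (nat_lit 23) (nat_lit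 4) (nat_lit 343) (nat_lit 223) (nat_lit 214)) (XT.lf (nat_lit 0) (nat_lit 4098100427) (nat_lit 152) (nat_lit 14076920673) (nat_lit 0) (nat_lit 97603478) (nat_lit 21) (nat_lit 5) (nat_lit 23) (nat_lit 4) (nat_lit 21) (nat_lit 4) (nat_lit 344) (nat_lit 223) (nat_lit 213))) (XT.nd (nat_lit 78) (nat_lit 0) (nat_lit 0) (XT.lf (nat_lit 0) (nat_lit 7955193594) (nat_lit 152) (nat_lit 7121332427) (nat_lit 0) (nat_lit 3615895310) (nat_lit 21) (nat_lit 5) (nat_lit 23) (nat_lit 4) (nat_lit 21) (nat_lit 4) (nat_lit 345) (nat_lit 223) (nat_lit 212)) (XT.lf (nat_lit 0) (nat_lit 11855211576) (nat_lit 152) (nat_lit 84843718) (nat_lit 0) (nat_lit 7186979957) (nat_lit 21) (nat_lit 5) (nat_lit 23) (nat_lit 4) (nat_lit 21) (nat_lit 4) (nat_lit 346) (nat_lit 223) (nat_lit 211))))))) (XT.nd (nat_lit 1014) (nat_lit 304) (nat_lit 0) (XT.nd (nat_lit 468) (nat_lit 228) (nat_lit 0) (XT.nd (nat_lit 234) (nat_lit 152) (nat_lit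 0) (XT.nd (nat_lit 78) (nat_lit 152) (nat_lit 0) (XT.lf (nat_lit 0) (nat_lit 7178777651) (nat_lit 152) (nat_lit 8691791306) (nat_lit 152) (nat_lit 3704206934) (nat_lit 19) (nat_lit 4) (nat_lit 21) (nat_lit 5) (nat_lit 21) (nat_lit 4) (nat_lit 347) (nat_lit 223) (nat_lit 210)) (XT.nd (nat_lit 78) (nat_lit 152) (nat_lit 0) (XT.lf (nat_lit 0) (nat_lit 14539217201) (nat_lit 152) (nat_lit 5398236248) (nat_lit 152) (nat_lit 100600659) (nat_lit 19) (nat_lit 4) (nat_lit 21) (nat_lit 5) (nat_lit 21) (nat_lit 4) (nat_lit 348) (nat_lit 223) (nat_lit 209)) (XT.lf (nat_lit 0) (nat_lit 1478732542) (nat_lit 76) (nat_lit 2007665846) (nat_lit 152) (nat_lit 17029453610) (nat_lit 17) (nat_lit 5) (nat_lit 18) (nat_lit 5) (nat_lit 19) (nat_lit 4) (nat_lit 349) (nat_lit 223) (nat_lit 208)))) (XT.nd (nat_lit 78) (nat_lit 152) (nat_lit 0) (XT.lf (nat_lit 0) (nat_lit 7181217022) (nat_lit 152) (nat_lit 12364816446) (nat_lit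 0) (nat_lit 1461887707) (nat_lit 17) (nat_lit 5) (nat_lit 19) (nat_lit 4) (nat_lit 17) (nat_lit 4) (nat_lit 350) (nat_lit 223) (nat_lit 207)) (XT.nd (nat_lit 78) (nat_lit 152) (nat_lit 0) (XT.lf (nat_lit 0) (nat_lit 10940625326) (nat_lit 152) (nat_lit 5629728411) (nat_lit 0) (nat_lit 4945819521) (nat_lit 17) (nat_lit 5) (nat_lit 19) (nat_lit 4) (nat_lit 17) (nat_lit 4) (nat_lit 351) (nat_lit 223) (nat_lit 206)) (XT.lf (nat_lit 0) (nat_lit 1217078166) (nat_lit 152) (nat_lit 13543230441) (nat_lit 152) (nat_lit 7280971733) (nat_lit 15) (nat_lit 4) (nat_lit 17) (nat_lit 5) (nat_lit 17) (nat_lit 4) (nat_lit 352) (nat_lit 223) (nat_lit 205))))) (XT.nd (nat_lit 234) (nat_lit 152) (nat_lit 0) (XT.nd (nat_lit 78) (nat_lit 76) (nat_lit 0) (XT.lf (nat_lit 0) (nat_lit 8271727646) (nat_lit 152) (nat_lit 10416281591) (nat_lit 152) (nat_lit 3894359871) (nat_lit 15) (nat_lit 4) (nat_lit 17) (nat_lit 5) (nat_lit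 17) (nat_lit 4) (nat_lit 353) (nat_lit 223) (nat_lit 204)) (XT.nd (nat_lit 78) (nat_lit 76) (nat_lit 0) (XT.lf (nat_lit 0) (nat_lit 15428341650) (nat_lit 152) (nat_lit 7243624121) (nat_lit 152) (nat_lit 469602389) (nat_lit 15) (nat_lit 4) (nat_lit 17) (nat_lit 5) (nat_lit 17) (nat_lit 4) (nat_lit 354) (nat_lit 223) (nat_lit 203)) (XT.lf (nat_lit 0) (nat_lit 2937824745) (nat_lit 228) (nat_lit 1054994792) (nat_lit 76) (nat_lit 19725682515) (nat_lit 14) (nat_lit 5) (nat_lit 17) (nat_lit 5) (nat_lit 15) (nat_lit 4) (nat_lit 355) (nat_lit 223) (nat_lit 202)))) (XT.nd (nat_lit 156) (nat_lit 76) (nat_lit 0) (XT.nd (nat_lit 78) (nat_lit 0) (nat_lit 0) (XT.lf (nat_lit 0) (nat_lit 5807077268) (nat_lit 76) (nat_lit 628136886) (nat_lit 152) (nat_lit 17877502772) (nat_lit 13) (nat_lit 5) (nat_lit 14) (nat_lit 5) (nat_lit 15) (nat_lit 4) (nat_lit 356) (nat_lit 223) (nat_lit 201)) (XT.lf (nat_lit 0) (nat_lit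 10017190750) (nat_lit 152) (nat_lit 12160057152) (nat_lit 0) (nat_lit 2748147362) (nat_lit 13) (nat_lit 5) (nat_lit 15) (nat_lit 4) (nat_lit 13) (nat_lit 4) (nat_lit 357) (nat_lit 223) (nat_lit 200))) (XT.nd (nat_lit 78) (nat_lit 76) (nat_lit 0) (XT.lf (nat_lit 0) (nat_lit 13656176880) (nat_lit 152) (nat_lit 5732146952) (nat_lit 0) (nat_lit 6169669808) (nat_lit 13) (nat_lit 5) (nat_lit 15) (nat_lit 4) (nat_lit 13) (nat_lit 4) (nat_lit 358) (nat_lit 223) (nat_lit 199)) (XT.lf (nat_lit 0) (nat_lit 805463081) (nat_lit 76) (nat_lit 16551593728) (nat_lit 76) (nat_lit 8853956864) (nat_lit 12) (nat_lit 4) (nat_lit 13) (nat_lit 5) (nat_lit 13) (nat_lit 4) (nat_lit 359) (nat_lit 223) (nat_lit 198)))))) (XT.nd (nat_lit 546) (nat_lit 152) (nat_lit 0) (XT.nd (nat_lit 234) (nat_lit 76) (nat_lit 0) (XT.nd (nat_lit 78) (nat_lit 76) (nat_lit 0) (XT.lf (nat_lit 0) (nat_lit 7558819019) (nat_lit 76) (nat_lit 13613670714)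 (nat_lit 76) (nat_lit 5711053470) (nat_lit 12) (nat_lit 4) (nat_lit 13) (nat_lit 5) (nat_lit 13) (nat_lit 4) (nat_lit 360) (nat_lit 223) (nat_lit 197)) (XT.nd (nat_lit 78) (nat_lit 76) (nat_lit 0) (XT.lf (nat_lit 0) (nat_lit 14419740888) (nat_lit 76) (nat_lit 10629871117) (nat_lit 76) (nat_lit 2528243796) (nat_lit 12) (nat_lit 4) (nat_lit 13) (nat_lit 5) (nat_lit 13) (nat_lit 4) (nat_lit 361) (nat_lit 223) (nat_lit 196)) (XT.lf (nat_lit 0) (nat_lit 683647330) (nat_lit 152) (nat_lit 6907036907) (nat_lit 76) (nat_lit 20703672838) (nat_lit 11) (nat_lit 5) (nat_lit 13) (nat_lit 5) (nat_lit 12) (nat_lit 4) (nat_lit 362) (nat_lit 223) (nat_lit 195)))) (XT.nd (nat_lit 156) (nat_lit 0) (nat_lit 0) (XT.nd (nat_lit 78) (nat_lit 76) (nat_lit 0) (XT.lf (nat_lit 0) (nat_lit 3890821104) (nat_lit 152) (nat_lit 584060230) (nat_lit 76) (nat_lit 24558250795) (nat_lit 11) (nat_lit 5) (nat_lit 13) (nat_lit 5) (nat_lit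 12) (nat_lit 4) (nat_lit 363) (nat_lit 223) (nat_lit 194)) (XT.lf (nat_lit 0) (nat_lit 5956883321) (nat_lit 76) (nat_lit 1245792938) (nat_lit 152) (nat_lit 22591161491) (nat_lit 10) (nat_lit 5) (nat_lit 11) (nat_lit 5) (nat_lit 12) (nat_lit 4) (nat_lit 364) (nat_lit 223) (nat_lit 193))) (XT.nd (nat_lit 78) (nat_lit 0) (nat_lit 0) (XT.lf (nat_lit 0) (nat_lit 10591254263) (nat_lit 152) (nat_lit 17979407483) (nat_lit 0) (nat_lit 2007402455) (nat_lit 10) (nat_lit 5) (nat_lit 12) (nat_lit 4) (nat_lit 10) (nat_lit 4) (nat_lit 365) (nat_lit 223) (nat_lit 192)) (XT.lf (nat_lit 0) (nat_lit 14046654373) (nat_lit 152) (nat_lit 12044093451) (nat_lit 0) (nat_lit 5296134758) (nat_lit 10) (nat_lit 5) (nat_lit 12) (nat_lit 4) (nat_lit 10) (nat_lit 4) (nat_lit 366) (nat_lit 223) (nat_lit 191))))) (XT.nd (nat_lit 234) (nat_lit 76) (nat_lit 0) (XT.nd (nat_lit 78) (nat_lit 76) (nat_lit 0) (XT.lf (nat_lit 0) (nat_lit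 17559920547) (nat_lit 152) (nat_lit 6013850810) (nat_lit 0) (nat_lit 8647587527) (nat_lit 10) (nat_lit 5) (nat_lit 12) (nat_lit 4) (nat_lit 10) (nat_lit 4) (nat_lit 367) (nat_lit 223) (nat_lit 190)) (XT.nd (nat_lit 78) (nat_lit 0) (nat_lit 0) (XT.lf (nat_lit 0) (nat_lit 118909943) (nat_lit 76) (nat_lit 21016355720) (nat_lit 76) (nat_lit 11946922308) (nat_lit 9) (nat_lit 4) (nat_lit 10) (nat_lit 5) (nat_lit 10) (nat_lit 4) (nat_lit 368) (nat_lit 223) (nat_lit 189)) (XT.lf (nat_lit 0) (nat_lit 6479013307) (nat_lit 76) (nat_lit 18355650639) (nat_lit 76) (nat_lit 9133692574) (nat_lit 9) (nat_lit 4) (nat_lit 10) (nat_lit 5) (nat_lit 10) (nat_lit 4) (nat_lit 369) (nat_lit 223) (nat_lit 188)))) (XT.nd (nat_lit 156) (nat_lit 76) (nat_lit 0) (XT.nd (nat_lit 78) (nat_lit 0) (nat_lit 0) (XT.lf (nat_lit 0) (nat_lit 12952329232) (nat_lit 76) (nat_lit 15650059327) (nat_lit 76) (nat_lit 6280019074) (nat_lit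 9) (nat_lit 4) (nat_lit 10) (nat_lit 5) (nat_lit 10) (nat_lit 4) (nat_lit 370) (nat_lit 223) (nat_lit 187)) (XT.lf (nat_lit 0) (nat_lit 19544514011) (nat_lit 76) (nat_lit 12897217674) (nat_lit 76) (nat_lit 3383408307) (nat_lit 9) (nat_lit 4) (nat_lit 10) (nat_lit 5) (nat_lit 10) (nat_lit 4) (nat_lit 371) (nat_lit 223) (nat_lit 186))) (XT.nd (nat_lit 78) (nat_lit 76) (nat_lit 0) (XT.lf (nat_lit 0) (nat_lit 26261327808) (nat_lit 76) (nat_lit 10094720286) (nat_lit 76) (nat_lit 441329255) (nat_lit 9) (nat_lit 4) (nat_lit 10) (nat_lit 5) (nat_lit 10) (nat_lit 4) (nat_lit 372) (nat_lit 223) (nat_lit 185)) (XT.lf (nat_lit 0) (nat_lit 2499052781) (nat_lit 152) (nat_lit 4715830064) (nat_lit 76) (nat_lit 30584351367) (nat_lit 8) (nat_lit 5) (nat_lit 10) (nat_lit 5) (nat_lit 9) (nat_lit 4) (nat_lit 373) (nat_lit 223) (nat_lit 184))))))))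
noncomputable def xc28 : XT := (XT.nd (nat_lit 2028) (nat_lit 76) (nat_lit 0) (XT.nd (nat_lit 1014) (nat_lit 152) (nat_lit 0) (XT.nd (nat_lit 468) (nat_lit 76) (nat_lit 0) (XT.nd (nat_lit 234) (nat_lit 0) (nat_lit 0) (XT.nd (nat_lit 78) (nat_lit 0) (nat_lit 0) (XT.lf (nat_lit 0) (nat_lit 1228890868) (nat_lit 76) (nat_lit 4263408237) (nat_lit 152) (nat_lit 33339526283) (nat_lit 7) (nat_lit 5) (nat_lit 8) (nat_lit 5) (nat_lit 9) (nat_lit 4) (nat_lit 374) (nat_lit 223) (nat_lit 183)) (XT.nd (nat_lit 78) (nat_lit 0) (nat_lit 0) (XT.lf (nat_lit 0) (nat_lit 7379591188) (nat_lit 76) (nat_lit 1205534181) (nat_lit 152) (nat_lit 31309990393) (nat_lit 7) (nat_lit 5) (nat_lit 8) (nat_lit 5) (nat_lit 9) (nat_lit 4) (nat_lit 375) (nat_lit 223) (nat_lit 182)) (XT.lf (nat_lit 0) (nat_lit 11752396941) (nat_lit 152) (nat_lit 27362026927) (nat_lit 0) (nat_lit 1876445667) (nat_lit 7) (nat_lit 5) (nat_lit 9) (nat_lit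 4) (nat_lit 7) (nat_lit 4) (nat_lit 376) (nat_lit 223) (nat_lit 181)))) (XT.nd (nat_lit 78) (nat_lit 0) (nat_lit 0) (XT.lf (nat_lit 0) (nat_lit 14990673974) (nat_lit 152) (nat_lit 22131731158) (nat_lit 0) (nat_lit 4997825253) (nat_lit 7) (nat_lit 5) (nat_lit 9) (nat_lit 4) (nat_lit 7) (nat_lit 4) (nat_lit 377) (nat_lit 223) (nat_lit 180)) (XT.nd (nat_lit 78) (nat_lit 0) (nat_lit 0) (XT.lf (nat_lit 0) (nat_lit 18291197697) (nat_lit 152) (nat_lit 16808478773) (nat_lit 0) (nat_lit 8184856309) (nat_lit 7) (nat_lit 5) (nat_lit 9) (nat_lit 4) (nat_lit 7) (nat_lit 4) (nat_lit 378) (nat_lit 223) (nat_lit 179)) (XT.lf (nat_lit 0) (nat_lit 21656852063) (nat_lit 152) (nat_lit 11387618386) (nat_lit 0) (nat_lit 11440323621) (nat_lit 7) (nat_lit 5) (nat_lit 9) (nat_lit 4) (nat_lit 7) (nat_lit 4) (nat_lit 379) (nat_lit 223) (nat_lit 178))))) (XT.nd (nat_lit 234) (nat_lit 0) (nat_lit 0) (XT.nd (nat_lit 78)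 (nat_lit 76) (nat_lit 0) (XT.lf (nat_lit 0) (nat_lit 25090577936) (nat_lit 152) (nat_lit 5864413325) (nat_lit 0) (nat_lit 14767071771) (nat_lit 7) (nat_lit 5) (nat_lit 9) (nat_lit 4) (nat_lit 7) (nat_lit 4) (nat_lit 380) (nat_lit 223) (nat_lit 177)) (XT.nd (nat_lit 78) (nat_lit 76) (nat_lit 0) (XT.lf (nat_lit 0) (nat_lit 28595375658) (nat_lit 152) (nat_lit 234037486) (nat_lit 0) (nat_lit 18168007626) (nat_lit 7) (nat_lit 5) (nat_lit 9) (nat_lit 4) (nat_lit 7) (nat_lit 4) (nat_lit 381) (nat_lit 223) (nat_lit 176)) (XT.lf (nat_lit 0) (nat_lit 5618057410) (nat_lit 76) (nat_lit 26610254469) (nat_lit 76) (nat_lit 16082049673) (nat_lit 6) (nat_lit 4) (nat_lit 7) (nat_lit 5) (nat_lit 7) (nat_lit 4) (nat_lit 382) (nat_lit 223) (nat_lit 175)))) (XT.nd (nat_lit 156) (nat_lit 0) (nat_lit 0) (XT.nd (nat_lit 78) (nat_lit 0) (nat_lit 0) (XT.lf (nat_lit 0) (nat_lit 11594249007) (nat_lit 76) (nat_lit 24347703214)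 (nat_lit 76) (nat_lit 13721598647) (nat_lit 6) (nat_lit 4) (nat_lit 7) (nat_lit 5) (nat_lit 7) (nat_lit 4) (nat_lit 383) (nat_lit 223) (nat_lit 174)) (XT.lf (nat_lit 0) (nat_lit 17695101413) (nat_lit 76) (nat_lit 22042145714) (nat_lit 76) (nat_lit 11320992826) (nat_lit 6) (nat_lit 4) (nat_lit 7) (nat_lit 5) (nat_lit 7) (nat_lit 4) (nat_lit 384) (nat_lit 223) (nat_lit 173))) (XT.nd (nat_lit 78) (nat_lit 0) (nat_lit 0) (XT.lf (nat_lit 0) (nat_lit 23925945472) (nat_lit 76) (nat_lit 19691567404) (nat_lit 76) (nat_lit 8878134592) (nat_lit 6) (nat_lit 4) (nat_lit 7) (nat_lit 5) (nat_lit 7) (nat_lit 4) (nat_lit 385) (nat_lit 223) (nat_lit 172)) (XT.lf (nat_lit 0) (nat_lit 30292225609) (nat_lit 76) (nat_lit 17293914380) (nat_lit 76) (nat_lit 6390889409) (nat_lit 6) (nat_lit 4) (nat_lit 7) (nat_lit 5) (nat_lit 7) (nat_lit 4) (nat_lit 386) (nat_lit 223) (nat_lit 171)))))) (XT.nd (nat_lit 468) (nat_lit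 0) (nat_lit 0) (XT.nd (nat_lit 234) (nat_lit 76) (nat_lit 0) (XT.nd (nat_lit 78) (nat_lit 76) (nat_lit 0) (XT.lf (nat_lit 0) (nat_lit 36799504593) (nat_lit 76) (nat_lit 14847091606) (nat_lit 76) (nat_lit 3857083956) (nat_lit 6) (nat_lit 4) (nat_lit 7) (nat_lit 5) (nat_lit 7) (nat_lit 4) (nat_lit 387) (nat_lit 223) (nat_lit 170)) (XT.nd (nat_lit 78) (nat_lit 76) (nat_lit 0) (XT.lf (nat_lit 0) (nat_lit 43453468398) (nat_lit 76) (nat_lit 12348961080) (nat_lit 76) (nat_lit 1274504228) (nat_lit 6) (nat_lit 4) (nat_lit 7) (nat_lit 5) (nat_lit 7) (nat_lit 4) (nat_lit 388) (nat_lit 223) (nat_lit 169)) (XT.lf (nat_lit 0) (nat_lit 1332585335) (nat_lit 152) (nat_lit 8451298137) (nat_lit 76) (nat_lit 48913889330) (nat_lit 5) (nat_lit 5) (nat_lit 7) (nat_lit 5) (nat_lit 6) (nat_lit 4) (nat_lit 389) (nat_lit 223) (nat_lit 168)))) (XT.nd (nat_lit 78) (nat_lit 76) (nat_lit 0) (XT.lf (nat_lit 0) (nat_lit 3967096141)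 (nat_lit 152) (nat_lit 3182842675) (nat_lit 76) (nat_lit 53217684256) (nat_lit 5) (nat_lit 5) (nat_lit 7) (nat_lit 5) (nat_lit 6) (nat_lit 4) (nat_lit 390) (nat_lit 223) (nat_lit 167)) (XT.nd (nat_lit 78) (nat_lit 0) (nat_lit 0) (XT.lf (nat_lit 0) (nat_lit 2242515450) (nat_lit 76) (nat_lit 4435241335) (nat_lit 152) (nat_lit 55409907666) (nat_lit 4) (nat_lit 5) (nat_lit 5) (nat_lit 5) (nat_lit 6) (nat_lit 4) (nat_lit 391) (nat_lit 223) (nat_lit 166)) (XT.lf (nat_lit 0) (nat_lit 7851409220) (nat_lit 76) (nat_lit 1626311009) (nat_lit 152) (nat_lit 54381356128) (nat_lit 4) (nat_lit 5) (nat_lit 5) (nat_lit 5) (nat_lit 6) (nat_lit 4) (nat_lit 392) (nat_lit 223) (nat_lit 165))))) (XT.nd (nat_lit 234) (nat_lit 0) (nat_lit 0) (XT.nd (nat_lit 78) (nat_lit 0) (nat_lit 0) (XT.lf (nat_lit 0) (nat_lit 12350217228) (nat_lit 152) (nat_lit 52110936483) (nat_lit 0) (nat_lit 1222829392) (nat_lit 4) (nat_lit 5)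 (nat_lit 6) (nat_lit 4) (nat_lit 4) (nat_lit 4) (nat_lit 393) (nat_lit 223) (nat_lit 164)) (XT.nd (nat_lit 78) (nat_lit 0) (nat_lit 0) (XT.lf (nat_lit 0) (nat_lit 15302036424) (nat_lit 152) (nat_lit 48155830821) (nat_lit 0) (nat_lit 4105983657) (nat_lit 4) (nat_lit 5) (nat_lit 6) (nat_lit 4) (nat_lit 4) (nat_lit 4) (nat_lit 394) (nat_lit 223) (nat_lit 163)) (XT.lf (nat_lit 0) (nat_lit 18320123980) (nat_lit 152) (nat_lit 44123261138) (nat_lit 0) (nat_lit 7057406234) (nat_lit 4) (nat_lit 5) (nat_lit 6) (nat_lit 4) (nat_lit 4) (nat_lit 4) (nat_lit 395) (nat_lit 223) (nat_lit 162)))) (XT.nd (nat_lit 156) (nat_lit 0) (nat_lit 0) (XT.nd (nat_lit 78) (nat_lit 0) (nat_lit 0) (XT.lf (nat_lit 0) (nat_lit 21407117062) (nat_lit 152) (nat_lit 40009703830) (nat_lit 0) (nat_lit 10079676034) (nat_lit 4) (nat_lit 5) (nat_lit 6) (nat_lit 4) (nat_lit 4) (nat_lit 4) (nat_lit 396) (nat_lit 223) (nat_lit 161)) (XT.lf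 (nat_lit 0) (nat_lit 24565713041) (nat_lit 152) (nat_lit 35811564526) (nat_lit 0) (nat_lit 13175433875) (nat_lit 4) (nat_lit 5) (nat_lit 6) (nat_lit 4) (nat_lit 4) (nat_lit 4) (nat_lit 397) (nat_lit 223) (nat_lit 160))) (XT.nd (nat_lit 78) (nat_lit 0) (nat_lit 0) (XT.lf (nat_lit 0) (nat_lit 27798671856) (nat_lit 152) (nat_lit 31525174950) (nat_lit 0) (nat_lit 16347384790) (nat_lit 4) (nat_lit 5) (nat_lit 6) (nat_lit 4) (nat_lit 4) (nat_lit 4) (nat_lit 398) (nat_lit 223) (nat_lit 159)) (XT.lf (nat_lit 0) (nat_lit 31108818422) (nat_lit 152) (nat_lit 27146789713) (nat_lit 0) (nat_lit 19598300384) (nat_lit 4) (nat_lit 5) (nat_lit 6) (nat_lit 4) (nat_lit 4) (nat_lit 4) (nat_lit 399) (nat_lit 223) (nat_lit 158))))))) (XT.nd (nat_lit 35568) (nat_lit 0) (nat_lit 1216) (XT.nd (nat_lit 468) (nat_lit 0) (nat_lit 0) (XT.nd (nat_lit 234) (nat_lit 76) (nat_lit 0) (XT.nd (nat_lit 78) (nat_lit 0) (nat_lit 0)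 (XT.lf (nat_lit 0) (nat_lit 34499045101) (nat_lit 152) (nat_lit 22672583040) (nat_lit 0) (nat_lit 22931021265) (nat_lit 4) (nat_lit 5) (nat_lit 6) (nat_lit 4) (nat_lit 4) (nat_lit 4) (nat_lit 400) (nat_lit 223) (nat_lit 157)) (XT.nd (nat_lit 78) (nat_lit 0) (nat_lit 0) (XT.lf (nat_lit 0) (nat_lit 37972314226) (nat_lit 152) (nat_lit 18098645431) (nat_lit 0) (nat_lit 26348459519) (nat_lit 4) (nat_lit 5) (nat_lit 6) (nat_lit 4) (nat_lit 4) (nat_lit 4) (nat_lit 401) (nat_lit 223) (nat_lit 156)) (XT.lf (nat_lit 0) (nat_lit 41531660692) (nat_lit 152) (nat_lit 13420980241) (nat_lit 0) (nat_lit 29853601256) (nat_lit 4) (nat_lit 5) (nat_lit 6) (nat_lit 4) (nat_lit 4) (nat_lit 4) (nat_lit 402) (nat_lit 223) (nat_lit 155)))) (XT.nd (nat_lit 78) (nat_lit 76) (nat_lit 0) (XT.lf (nat_lit 0) (nat_lit 45180194609) (nat_lit 152) (nat_lit 8635500191) (nat_lit 0) (nat_lit 33449509222) (nat_lit 4) (nat_lit 5) (nat_lit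 6) (nat_lit 4) (nat_lit 4) (nat_lit 4) (nat_lit 403) (nat_lit 223) (nat_lit 154)) (XT.nd (nat_lit 78) (nat_lit 76) (nat_lit 0) (XT.lf (nat_lit 0) (nat_lit 48921104015) (nat_lit 152) (nat_lit 3738023792) (nat_lit 0) (nat_lit 37139325472) (nat_lit 4) (nat_lit 5) (nat_lit 6) (nat_lit 4) (nat_lit 4) (nat_lit 4) (nat_lit 404) (nat_lit 223) (nat_lit 153)) (XT.lf (nat_lit 0) (nat_lit 1301117797) (nat_lit 76) (nat_lit 51469047010) (nat_lit 76) (nat_lit 39637663460) (nat_lit 3) (nat_lit 4) (nat_lit 4) (nat_lit 5) (nat_lit 4) (nat_lit 4) (nat_lit 405) (nat_lit 223) (nat_lit 152))))) (XT.nd (nat_lit 234) (nat_lit 0) (nat_lit 0) (XT.nd (nat_lit 78) (nat_lit 0) (nat_lit 0) (XT.lf (nat_lit 0) (nat_lit 6537711339) (nat_lit 76) (nat_lit 50218341034) (nat_lit 76) (nat_lit 38338797284) (nat_lit 3) (nat_lit 4) (nat_lit 4) (nat_lit 5) (nat_lit 4) (nat_lit 4) (nat_lit 406) (nat_lit 223) (nat_lit 151)) (XT.nd (nat_lit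 78) (nat_lit 0) (nat_lit 0) (XT.lf (nat_lit 0) (nat_lit 11901938494) (nat_lit 76) (nat_lit 48943663742) (nat_lit 76) (nat_lit 37017362516) (nat_lit 3) (nat_lit 4) (nat_lit 4) (nat_lit 5) (nat_lit 4) (nat_lit 4) (nat_lit 407) (nat_lit 223) (nat_lit 150)) (XT.lf (nat_lit 0) (nat_lit 17398486451) (nat_lit 76) (nat_lit 47643901337) (nat_lit 76) (nat_lit 35672204504) (nat_lit 3) (nat_lit 4) (nat_lit 4) (nat_lit 5) (nat_lit 4) (nat_lit 4) (nat_lit 408) (nat_lit 223) (nat_lit 149)))) (XT.nd (nat_lit 34710) (nat_lit 0) (nat_lit 2204) (XT.nd (nat_lit 34632) (nat_lit 0) (nat_lit 2356) (XT.lf (nat_lit 0) (nat_lit 23032158018) (nat_lit 76) (nat_lit 46317918106) (nat_lit 76) (nat_lit 34302147867) (nat_lit 3) (nat_lit 4) (nat_lit 4) (nat_lit 5) (nat_lit 4) (nat_lit 4) (nat_lit 409) (nat_lit 223) (nat_lit 148)) (XT.lf (nat_lit 0) (nat_lit 2370885608) (nat_lit 228) (nat_lit 2334777288) (nat_lit 0) (nat_lit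 2370885608) (nat_lit 34) (nat_lit 5) (nat_lit 37) (nat_lit 4) (nat_lit 34) (nat_lit 4) (nat_lit 332) (nat_lit 224) (nat_lit 224))) (XT.nd (nat_lit 78) (nat_lit 0) (nat_lit 0) (XT.lf (nat_lit 0) (nat_lit 2773256087) (nat_lit 152) (nat_lit 6089304050) (nat_lit 152) (nat_lit 5576836631) (nat_lit 32) (nat_lit 4) (nat_lit 34) (nat_lit 5) (nat_lit 34) (nat_lit 4) (nat_lit 333) (nat_lit 224) (nat_lit 223)) (XT.lf (nat_lit 0) (nat_lit 10386703853) (nat_lit 152) (nat_lit 2679437571) (nat_lit 152) (nat_lit 1669428969) (nat_lit 32) (nat_lit 4) (nat_lit 34) (nat_lit 5) (nat_lit 34) (nat_lit 4) (nat_lit 334) (nat_lit 224) (nat_lit 222)))))) (XT.nd (nat_lit 468) (nat_lit 456) (nat_lit 0) (XT.nd (nat_lit 234) (nat_lit 152) (nat_lit 0) (XT.nd (nat_lit 78) (nat_lit 152) (nat_lit 0) (XT.lf (nat_lit 0) (nat_lit 2260470251) (nat_lit 228) (nat_lit 11970100355) (nat_lit 0) (nat_lit 810899091) (nat_lit 29) (nat_lit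 5) (nat_lit 32) (nat_lit 4) (nat_lit 29) (nat_lit 4) (nat_lit 335) (nat_lit 224) (nat_lit 221)) (XT.nd (nat_lit 78) (nat_lit 152) (nat_lit 0) (XT.lf (nat_lit 0) (nat_lit 6259824013) (nat_lit 228) (nat_lit 4741795414) (nat_lit 0) (nat_lit 4354932189) (nat_lit 29) (nat_lit 5) (nat_lit 32) (nat_lit 4) (nat_lit 29) (nat_lit 4) (nat_lit 336) (nat_lit 224) (nat_lit 220)) (XT.lf (nat_lit 0) (nat_lit 2612162638) (nat_lit 152) (nat_lit 7708836059) (nat_lit 152) (nat_lit 5361885338) (nat_lit 27) (nat_lit 4) (nat_lit 29) (nat_lit 5) (nat_lit 29) (nat_lit 4) (nat_lit 337) (nat_lit 224) (nat_lit 219)))) (XT.nd (nat_lit 78) (nat_lit 152) (nat_lit 0) (XT.lf (nat_lit 0) (nat_lit 10143166664) (nat_lit 152) (nat_lit 4326527506) (nat_lit 152) (nat_lit 1550393390) (nat_lit 27) (nat_lit 4) (nat_lit 29) (nat_lit 5) (nat_lit 29) (nat_lit 4) (nat_lit 338) (nat_lit 224) (nat_lit 218)) (XT.nd (nat_lit 78) (nat_lit 0)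 (nat_lit 0) (XT.lf (nat_lit 0) (nat_lit 1398827199) (nat_lit 76) (nat_lit 863066506) (nat_lit 152) (nat_lit 14106893076) (nat_lit 25) (nat_lit 5) (nat_lit 26) (nat_lit 5) (nat_lit 27) (nat_lit 4) (nat_lit 339) (nat_lit 224) (nat_lit 217)) (XT.lf (nat_lit 0) (nat_lit 6163154585) (nat_lit 152) (nat_lit 7893637570) (nat_lit 0) (nat_lit 2670568627) (nat_lit 25) (nat_lit 5) (nat_lit 27) (nat_lit 4) (nat_lit 25) (nat_lit 4) (nat_lit 340) (nat_lit 224) (nat_lit 216))))) (XT.nd (nat_lit 234) (nat_lit 228) (nat_lit 0) (XT.nd (nat_lit 78) (nat_lit 228) (nat_lit 0) (XT.lf (nat_lit 0) (nat_lit 10112171530) (nat_lit 152) (nat_lit 748383178) (nat_lit 0) (nat_lit 6238261684) (nat_lit 25) (nat_lit 5) (nat_lit 27) (nat_lit 4) (nat_lit 25) (nat_lit 4) (nat_lit 341) (nat_lit 224) (nat_lit 215)) (XT.nd (nat_lit 78) (nat_lit 76) (nat_lit 0) (XT.lf (nat_lit 0) (nat_lit 6609314881) (nat_lit 152) (nat_lit 7558316710)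 (nat_lit 152) (nat_lit 3314189497) (nat_lit 23) (nat_lit 4) (nat_lit 25) (nat_lit 5) (nat_lit 25) (nat_lit 4) (nat_lit 342) (nat_lit 224) (nat_lit 214)) (XT.lf (nat_lit 0) (nat_lit 391544289) (nat_lit 228) (nat_lit 3808726641) (nat_lit 76) (nat_lit 13677984573) (nat_lit 22) (nat_lit 5) (nat_lit 25) (nat_lit 5) (nat_lit 23) (nat_lit 4) (nat_lit 343) (nat_lit 224) (nat_lit 213)))) (XT.nd (nat_lit 156) (nat_lit 152) (nat_lit 0) (XT.nd (nat_lit 78) (nat_lit 0) (nat_lit 0) (XT.lf (nat_lit 0) (nat_lit 3372639972) (nat_lit 76) (nat_lit 728427464) (nat_lit 152) (nat_lit 14185795036) (nat_lit 21) (nat_lit 5) (nat_lit 22) (nat_lit 5) (nat_lit 23) (nat_lit 4) (nat_lit 344) (nat_lit 224) (nat_lit 212)) (XT.lf (nat_lit 0) (nat_lit 7915302366) (nat_lit 152) (nat_lit 8014571664) (nat_lit 0) (nat_lit 2778090463) (nat_lit 21) (nat_lit 5) (nat_lit 23) (nat_lit 4) (nat_lit 21) (nat_lit 4) (nat_lit 345) (nat_lit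 224) (nat_lit 211))) (XT.nd (nat_lit 78) (nat_lit 152) (nat_lit 0) (XT.lf (nat_lit 0) (nat_lit 11780508553) (nat_lit 152) (nat_lit 1039189265) (nat_lit 0) (nat_lit 6323943897) (nat_lit 21) (nat_lit 5) (nat_lit 23) (nat_lit 4) (nat_lit 21) (nat_lit 4) (nat_lit 346) (nat_lit 224) (nat_lit 210)) (XT.lf (nat_lit 0) (nat_lit 6144931528) (nat_lit 152) (nat_lit 9607198587) (nat_lit 152) (nat_lit 3840582715) (nat_lit 19) (nat_lit 4) (nat_lit 21) (nat_lit 5) (nat_lit 21) (nat_lit 4) (nat_lit 347) (nat_lit 224) (nat_lit 209))))))))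
noncomputable def xc29 : XT := (XT.nd (nat_lit 2028) (nat_lit 304) (nat_lit 0) (XT.nd (nat_lit 1014) (nat_lit 304) (nat_lit 0) (XT.nd (nat_lit 468) (nat_lit 228) (nat_lit 0) (XT.nd (nat_lit 234) (nat_lit 152) (nat_lit 0) (XT.nd (nat_lit 78) (nat_lit 152) (nat_lit 0) (XT.lf (nat_lit 0) (nat_lit 13446626195) (nat_lit 152) (nat_lit 6339010265) (nat_lit 152) (nat_lit 271373794) (nat_lit 19) (nat_lit 4) (nat_lit 21) (nat_lit 5) (nat_lit 21) (nat_lit 4) (nat_lit 348) (nat_lit 224) (nat_lit 208)) (XT.nd (nat_lit 78) (nat_lit 0) (nat_lit 0) (XT.lf (nat_lit 0) (nat_lit 287886908) (nat_lit 76) (nat_lit 2986879784) (nat_lit 152) (nat_lit 17261433265) (nat_lit 17) (nat_lit 5) (nat_lit 18) (nat_lit 5) (nat_lit 19) (nat_lit 4) (nat_lit 349) (nat_lit 224) (nat_lit 207)) (XT.lf (nat_lit 0) (nat_lit 6927594805) (nat_lit 152) (nat_lit 13624482056) (nat_lit 0) (nat_lit 477468336) (nat_lit 17) (nat_lit 5) (nat_lit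 19) (nat_lit 4) (nat_lit 17) (nat_lit 4) (nat_lit 350) (nat_lit 224) (nat_lit 206)))) (XT.nd (nat_lit 78) (nat_lit 152) (nat_lit 0) (XT.lf (nat_lit 0) (nat_lit 10655374256) (nat_lit 152) (nat_lit 6945592877) (nat_lit 0) (nat_lit 3937794884) (nat_lit 17) (nat_lit 5) (nat_lit 19) (nat_lit 4) (nat_lit 17) (nat_lit 4) (nat_lit 351) (nat_lit 224) (nat_lit 205)) (XT.nd (nat_lit 78) (nat_lit 152) (nat_lit 0) (XT.lf (nat_lit 0) (nat_lit 14432650613) (nat_lit 152) (nat_lit 177097873) (nat_lit 0) (nat_lit 7455408228) (nat_lit 17) (nat_lit 5) (nat_lit 19) (nat_lit 4) (nat_lit 17) (nat_lit 4) (nat_lit 352) (nat_lit 224) (nat_lit 204)) (XT.lf (nat_lit 0) (nat_lit 6819999937) (nat_lit 152) (nat_lit 11508282483) (nat_lit 152) (nat_lit 4278940087) (nat_lit 15) (nat_lit 4) (nat_lit 17) (nat_lit 5) (nat_lit 17) (nat_lit 4) (nat_lit 353) (nat_lit 224) (nat_lit 203))))) (XT.nd (nat_lit 234) (nat_lit 76) (nat_lit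 0) (XT.nd (nat_lit 78) (nat_lit 152) (nat_lit 0) (XT.lf (nat_lit 0) (nat_lit 13924160471) (nat_lit 152) (nat_lit 8358629387) (nat_lit 152) (nat_lit 884529698) (nat_lit 15) (nat_lit 4) (nat_lit 17) (nat_lit 5) (nat_lit 17) (nat_lit 4) (nat_lit 354) (nat_lit 224) (nat_lit 202)) (XT.nd (nat_lit 78) (nat_lit 76) (nat_lit 0) (XT.lf (nat_lit 0) (nat_lit 2502105899) (nat_lit 228) (nat_lit 2632453154) (nat_lit 76) (nat_lit 18610694390) (nat_lit 14) (nat_lit 5) (nat_lit 17) (nat_lit 5) (nat_lit 15) (nat_lit 4) (nat_lit 355) (nat_lit 224) (nat_lit 201)) (XT.lf (nat_lit 0) (nat_lit 4147215112) (nat_lit 76) (nat_lit 1808277727) (nat_lit 152) (nat_lit 18385308843) (nat_lit 13) (nat_lit 5) (nat_lit 14) (nat_lit 5) (nat_lit 15) (nat_lit 4) (nat_lit 356) (nat_lit 224) (nat_lit 200)))) (XT.nd (nat_lit 156) (nat_lit 76) (nat_lit 0) (XT.nd (nat_lit 78) (nat_lit 0) (nat_lit 0) (XT.lf (nat_lit 0) (nat_lit 9498209465)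 (nat_lit 152) (nat_lit 13886817762) (nat_lit 0) (nat_lit 1569643496) (nat_lit 13) (nat_lit 5) (nat_lit 15) (nat_lit 4) (nat_lit 13) (nat_lit 4) (nat_lit 357) (nat_lit 224) (nat_lit 199)) (XT.lf (nat_lit 0) (nat_lit 13110092941) (nat_lit 152) (nat_lit 7507604586) (nat_lit 0) (nat_lit 4970397181) (nat_lit 13) (nat_lit 5) (nat_lit 15) (nat_lit 4) (nat_lit 13) (nat_lit 4) (nat_lit 358) (nat_lit 224) (nat_lit 198))) (XT.nd (nat_lit 78) (nat_lit 76) (nat_lit 0) (XT.lf (nat_lit 0) (nat_lit 16776917011) (nat_lit 152) (nat_lit 1032990700) (nat_lit 0) (nat_lit 8432240870) (nat_lit 13) (nat_lit 5) (nat_lit 15) (nat_lit 4) (nat_lit 13) (nat_lit 4) (nat_lit 359) (nat_lit 224) (nat_lit 197)) (XT.lf (nat_lit 0) (nat_lit 5652991550) (nat_lit 76) (nat_lit 14903234158) (nat_lit 76) (nat_lit 6359547940) (nat_lit 12) (nat_lit 4) (nat_lit 13) (nat_lit 5) (nat_lit 13) (nat_lit 4) (nat_lit 360) (nat_lit 224) (nat_lit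 196)))))) (XT.nd (nat_lit 468) (nat_lit 152) (nat_lit 0) (XT.nd (nat_lit 234) (nat_lit 76) (nat_lit 0) (XT.nd (nat_lit 78) (nat_lit 76) (nat_lit 0) (XT.lf (nat_lit 0) (nat_lit 12468461819) (nat_lit 76) (nat_lit 11939646483) (nat_lit 76) (nat_lit 3202746598) (nat_lit 12) (nat_lit 4) (nat_lit 13) (nat_lit 5) (nat_lit 13) (nat_lit 4) (nat_lit 361) (nat_lit 224) (nat_lit 195)) (XT.nd (nat_lit 78) (nat_lit 76) (nat_lit 0) (XT.lf (nat_lit 0) (nat_lit 19398816832) (nat_lit 76) (nat_lit 8926986327) (nat_lit 76) (nat_lit 2500356) (nat_lit 12) (nat_lit 4) (nat_lit 13) (nat_lit 5) (nat_lit 13) (nat_lit 4) (nat_lit 362) (nat_lit 224) (nat_lit 194)) (XT.lf (nat_lit 0) (nat_lit 3180685243) (nat_lit 152) (nat_lit 2649817338) (nat_lit 76) (nat_lit 23237308310) (nat_lit 11) (nat_lit 5) (nat_lit 13) (nat_lit 5) (nat_lit 12) (nat_lit 4) (nat_lit 363) (nat_lit 224) (nat_lit 193)))) (XT.nd (nat_lit 78) (nat_lit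 0) (nat_lit 0) (XT.lf (nat_lit 0) (nat_lit 3807107047) (nat_lit 76) (nat_lit 2641431527) (nat_lit 152) (nat_lit 23381308180) (nat_lit 10) (nat_lit 5) (nat_lit 11) (nat_lit 5) (nat_lit 12) (nat_lit 4) (nat_lit 364) (nat_lit 224) (nat_lit 192)) (XT.nd (nat_lit 78) (nat_lit 0) (nat_lit 0) (XT.lf (nat_lit 0) (nat_lit 9800464483) (nat_lit 152) (nat_lit 20193956703) (nat_lit 0) (nat_lit 620761473) (nat_lit 10) (nat_lit 5) (nat_lit 12) (nat_lit 4) (nat_lit 10) (nat_lit 4) (nat_lit 365) (nat_lit 224) (nat_lit 191)) (XT.lf (nat_lit 0) (nat_lit 13233305017) (nat_lit 152) (nat_lit 14299593810) (nat_lit 0) (nat_lit 3891788602) (nat_lit 10) (nat_lit 5) (nat_lit 12) (nat_lit 4) (nat_lit 10) (nat_lit 4) (nat_lit 366) (nat_lit 224) (nat_lit 190))))) (XT.nd (nat_lit 234) (nat_lit 76) (nat_lit 0) (XT.nd (nat_lit 78) (nat_lit 76) (nat_lit 0) (XT.lf (nat_lit 0) (nat_lit 16724668689) (nat_lit 152) (nat_lit 8309109557)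 (nat_lit 0) (nat_lit 7226051882) (nat_lit 10) (nat_lit 5) (nat_lit 12) (nat_lit 4) (nat_lit 10) (nat_lit 4) (nat_lit 367) (nat_lit 224) (nat_lit 189)) (XT.nd (nat_lit 78) (nat_lit 76) (nat_lit 0) (XT.lf (nat_lit 0) (nat_lit 20277606207) (nat_lit 152) (nat_lit 2217269541) (nat_lit 0) (nat_lit 10626464746) (nat_lit 10) (nat_lit 5) (nat_lit 12) (nat_lit 4) (nat_lit 10) (nat_lit 4) (nat_lit 368) (nat_lit 224) (nat_lit 188)) (XT.lf (nat_lit 0) (nat_lit 4060483870) (nat_lit 76) (nat_lit 19873770063) (nat_lit 76) (nat_lit 10074546414) (nat_lit 9) (nat_lit 4) (nat_lit 10) (nat_lit 5) (nat_lit 10) (nat_lit 4) (nat_lit 369) (nat_lit 224) (nat_lit 187)))) (XT.nd (nat_lit 156) (nat_lit 76) (nat_lit 0) (XT.nd (nat_lit 78) (nat_lit 0) (nat_lit 0) (XT.lf (nat_lit 0) (nat_lit 10496691113) (nat_lit 76) (nat_lit 17184886829) (nat_lit 76) (nat_lit 7241894066) (nat_lit 9) (nat_lit 4) (nat_lit 10) (nat_lit 5) (nat_lit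 10) (nat_lit 4) (nat_lit 370) (nat_lit 224) (nat_lit 186)) (XT.lf (nat_lit 0) (nat_lit 17052848047) (nat_lit 76) (nat_lit 14448266612) (nat_lit 76) (nat_lit 4365692185) (nat_lit 9) (nat_lit 4) (nat_lit 10) (nat_lit 5) (nat_lit 10) (nat_lit 4) (nat_lit 371) (nat_lit 224) (nat_lit 185))) (XT.nd (nat_lit 78) (nat_lit 76) (nat_lit 0) (XT.lf (nat_lit 0) (nat_lit 23734683352) (nat_lit 76) (nat_lit 11661518190) (nat_lit 76) (nat_lit 1443427584) (nat_lit 9) (nat_lit 4) (nat_lit 10) (nat_lit 5) (nat_lit 10) (nat_lit 4) (nat_lit 372) (nat_lit 224) (nat_lit 184)) (XT.lf (nat_lit 0) (nat_lit 1497647056) (nat_lit 152) (nat_lit 7309436185) (nat_lit 76) (nat_lit 29035265171) (nat_lit 8) (nat_lit 5) (nat_lit 10) (nat_lit 5) (nat_lit 9) (nat_lit 4) (nat_lit 373) (nat_lit 224) (nat_lit 183))))))) (XT.nd (nat_lit 1014) (nat_lit 152) (nat_lit 0) (XT.nd (nat_lit 468) (nat_lit 76) (nat_lit 0) (XT.nd (nat_lit 234)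 (nat_lit 0) (nat_lit 0) (XT.nd (nat_lit 78) (nat_lit 76) (nat_lit 0) (XT.lf (nat_lit 0) (nat_lit 4460767965) (nat_lit 152) (nat_lit 1422037737) (nat_lit 76) (nat_lit 32993045008) (nat_lit 8) (nat_lit 5) (nat_lit 10) (nat_lit 5) (nat_lit 9) (nat_lit 4) (nat_lit 374) (nat_lit 224) (nat_lit 182)) (XT.nd (nat_lit 78) (nat_lit 0) (nat_lit 0) (XT.lf (nat_lit 0) (nat_lit 4667345732) (nat_lit 76) (nat_lit 2854210396) (nat_lit 152) (nat_lit 32418553244) (nat_lit 7) (nat_lit 5) (nat_lit 8) (nat_lit 5) (nat_lit 9) (nat_lit 4) (nat_lit 375) (nat_lit 224) (nat_lit 181)) (XT.lf (nat_lit 0) (nat_lit 10655270912) (nat_lit 152) (nat_lit 30135866592) (nat_lit 0) (nat_lit 245739282) (nat_lit 7) (nat_lit 5) (nat_lit 9) (nat_lit 4) (nat_lit 7) (nat_lit 4) (nat_lit 376) (nat_lit 224) (nat_lit 180)))) (XT.nd (nat_lit 78) (nat_lit 0) (nat_lit 0) (XT.lf (nat_lit 0) (nat_lit 13876355027) (nat_lit 152) (nat_lit 24937074397)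 (nat_lit 0) (nat_lit 3353330732) (nat_lit 7) (nat_lit 5) (nat_lit 9) (nat_lit 4) (nat_lit 7) (nat_lit 4) (nat_lit 377) (nat_lit 224) (nat_lit 179)) (XT.nd (nat_lit 78) (nat_lit 0) (nat_lit 0) (XT.lf (nat_lit 0) (nat_lit 17160186599) (nat_lit 152) (nat_lit 19644408008) (nat_lit 0) (nat_lit 6526975248) (nat_lit 7) (nat_lit 5) (nat_lit 9) (nat_lit 4) (nat_lit 7) (nat_lit 4) (nat_lit 378) (nat_lit 224) (nat_lit 178)) (XT.lf (nat_lit 0) (nat_lit 20509634992) (nat_lit 152) (nat_lit 14253242762) (nat_lit 0) (nat_lit 9769445919) (nat_lit 7) (nat_lit 5) (nat_lit 9) (nat_lit 4) (nat_lit 7) (nat_lit 4) (nat_lit 379) (nat_lit 224) (nat_lit 177))))) (XT.nd (nat_lit 234) (nat_lit 0) (nat_lit 0) (XT.nd (nat_lit 78) (nat_lit 76) (nat_lit 0) (XT.lf (nat_lit 0) (nat_lit 23927626911) (nat_lit 152) (nat_lit 8758867934) (nat_lit 0) (nat_lit 13083575971) (nat_lit 7) (nat_lit 5) (nat_lit 9) (nat_lit 4) (nat_lit 7)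 (nat_lit 4) (nat_lit 380) (nat_lit 224) (nat_lit 176)) (XT.nd (nat_lit 78) (nat_lit 76) (nat_lit 0) (XT.lf (nat_lit 0) (nat_lit 27417148950) (nat_lit 152) (nat_lit 3156482614) (nat_lit 0) (nat_lit 16472261245) (nat_lit 7) (nat_lit 5) (nat_lit 9) (nat_lit 4) (nat_lit 7) (nat_lit 4) (nat_lit 381) (nat_lit 224) (nat_lit 175)) (XT.lf (nat_lit 0) (nat_lit 2609733792) (nat_lit 76) (nat_lit 28396602771) (nat_lit 76) (nat_lit 17353815295) (nat_lit 6) (nat_lit 4) (nat_lit 7) (nat_lit 5) (nat_lit 7) (nat_lit 4) (nat_lit 382) (nat_lit 224) (nat_lit 174)))) (XT.nd (nat_lit 156) (nat_lit 0) (nat_lit 0) (XT.nd (nat_lit 78) (nat_lit 0) (nat_lit 0) (XT.lf (nat_lit 0) (nat_lit 8559016552) (nat_lit 76) (nat_lit 26146302892) (nat_lit 76) (nat_lit 15008467095) (nat_lit 6) (nat_lit 4) (nat_lit 7) (nat_lit 5) (nat_lit 7) (nat_lit 4) (nat_lit 383) (nat_lit 224) (nat_lit 173)) (XT.lf (nat_lit 0) (nat_lit 14633743875)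 (nat_lit 76) (nat_lit 23852639931) (nat_lit 76) (nat_lit 12622524211) (nat_lit 6) (nat_lit 4) (nat_lit 7) (nat_lit 5) (nat_lit 7) (nat_lit 4) (nat_lit 384) (nat_lit 224) (nat_lit 172))) (XT.nd (nat_lit 78) (nat_lit 0) (nat_lit 0) (XT.lf (nat_lit 0) (nat_lit 20839223774) (nat_lit 76) (nat_lit 21513609717) (nat_lit 76) (nat_lit 10193901838) (nat_lit 6) (nat_lit 4) (nat_lit 7) (nat_lit 5) (nat_lit 7) (nat_lit 4) (nat_lit 385) (nat_lit 224) (nat_lit 171)) (XT.lf (nat_lit 0) (nat_lit 27180878514) (nat_lit 76) (nat_lit 19127168437) (nat_lit 76) (nat_lit 7720477879) (nat_lit 6) (nat_lit 4) (nat_lit 7) (nat_lit 5) (nat_lit 7) (nat_lit 4) (nat_lit 386) (nat_lit 224) (nat_lit 170)))))) (XT.nd (nat_lit 546) (nat_lit 0) (nat_lit 0) (XT.nd (nat_lit 234) (nat_lit 152) (nat_lit 0) (XT.nd (nat_lit 78) (nat_lit 0) (nat_lit 0) (XT.lf (nat_lit 0) (nat_lit 33664249346) (nat_lit 76) (nat_lit 16691230851) (nat_lit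 76) (nat_lit 5200091091) (nat_lit 6) (nat_lit 4) (nat_lit 7) (nat_lit 5) (nat_lit 7) (nat_lit 4) (nat_lit 387) (nat_lit 224) (nat_lit 169)) (XT.nd (nat_lit 78) (nat_lit 0) (nat_lit 0) (XT.lf (nat_lit 0) (nat_lit 40295001352) (nat_lit 76) (nat_lit 14203668470) (nat_lit 76) (nat_lit 2630539193) (nat_lit 6) (nat_lit 4) (nat_lit 7) (nat_lit 5) (nat_lit 7) (nat_lit 4) (nat_lit 388) (nat_lit 224) (nat_lit 168)) (XT.lf (nat_lit 0) (nat_lit 47078928392) (nat_lit 76) (nat_lit 11662307696) (nat_lit 76) (nat_lit 9576946) (nat_lit 6) (nat_lit 4) (nat_lit 7) (nat_lit 5) (nat_lit 7) (nat_lit 4) (nat_lit 389) (nat_lit 224) (nat_lit 167)))) (XT.nd (nat_lit 156) (nat_lit 76) (nat_lit 0) (XT.nd (nat_lit 78) (nat_lit 0) (nat_lit 0) (XT.lf (nat_lit 0) (nat_lit 2613080387) (nat_lit 152) (nat_lit 6425460545) (nat_lit 76) (nat_lit 51382490794) (nat_lit 5) (nat_lit 5) (nat_lit 7) (nat_lit 5) (nat_lit 6) (nat_lit 4)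 (nat_lit 390) (nat_lit 224) (nat_lit 166)) (XT.lf (nat_lit 0) (nat_lit 5290494940) (nat_lit 152) (nat_lit 1065341027) (nat_lit 76) (nat_lit 55786238845) (nat_lit 5) (nat_lit 5) (nat_lit 7) (nat_lit 5) (nat_lit 6) (nat_lit 4) (nat_lit 391) (nat_lit 224) (nat_lit 165))) (XT.nd (nat_lit 78) (nat_lit 0) (nat_lit 0) (XT.lf (nat_lit 0) (nat_lit 4501081892) (nat_lit 76) (nat_lit 3567378340) (nat_lit 152) (nat_lit 55845690628) (nat_lit 4) (nat_lit 5) (nat_lit 5) (nat_lit 5) (nat_lit 6) (nat_lit 4) (nat_lit 392) (nat_lit 224) (nat_lit 164)) (XT.lf (nat_lit 0) (nat_lit 10214418466) (nat_lit 76) (nat_lit 703333121) (nat_lit 152) (nat_lit 54822006261) (nat_lit 4) (nat_lit 5) (nat_lit 5) (nat_lit 5) (nat_lit 6) (nat_lit 4) (nat_lit 393) (nat_lit 224) (nat_lit 163))))) (XT.nd (nat_lit 234) (nat_lit 0) (nat_lit 0) (XT.nd (nat_lit 78) (nat_lit 0) (nat_lit 0) (XT.lf (nat_lit 0) (nat_lit 13851831484) (nat_lit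 152) (nat_lit 51583763073) (nat_lit 0) (nat_lit 2184567225) (nat_lit 4) (nat_lit 5) (nat_lit 6) (nat_lit 4) (nat_lit 4) (nat_lit 4) (nat_lit 394) (nat_lit 224) (nat_lit 162)) (XT.nd (nat_lit 78) (nat_lit 0) (nat_lit 0) (XT.lf (nat_lit 0) (nat_lit 16859260370) (nat_lit 152) (nat_lit 47570892635) (nat_lit 0) (nat_lit 5127272829) (nat_lit 4) (nat_lit 5) (nat_lit 6) (nat_lit 4) (nat_lit 4) (nat_lit 4) (nat_lit 395) (nat_lit 224) (nat_lit 161)) (XT.lf (nat_lit 0) (nat_lit 19935905227) (nat_lit 152) (nat_lit 43476460806) (nat_lit 0) (nat_lit 8141079549) (nat_lit 4) (nat_lit 5) (nat_lit 6) (nat_lit 4) (nat_lit 4) (nat_lit 4) (nat_lit 396) (nat_lit 224) (nat_lit 160)))) (XT.nd (nat_lit 156) (nat_lit 0) (nat_lit 0) (XT.nd (nat_lit 78) (nat_lit 0) (nat_lit 0) (XT.lf (nat_lit 0) (nat_lit 23084454387) (nat_lit 152) (nat_lit 39296889930) (nat_lit 0) (nat_lit 11228620808) (nat_lit 4) (nat_lit 5) (nat_lit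 6) (nat_lit 4) (nat_lit 4) (nat_lit 4) (nat_lit 397) (nat_lit 224) (nat_lit 159)) (XT.lf (nat_lit 0) (nat_lit 26307659008) (nat_lit 152) (nat_lit 35028527952) (nat_lit 0) (nat_lit 14392594458) (nat_lit 4) (nat_lit 5) (nat_lit 6) (nat_lit 4) (nat_lit 4) (nat_lit 4) (nat_lit 398) (nat_lit 224) (nat_lit 158))) (XT.nd (nat_lit 78) (nat_lit 0) (nat_lit 0) (XT.lf (nat_lit 0) (nat_lit 29608335484) (nat_lit 152) (nat_lit 30667645238) (nat_lit 0) (nat_lit 17635765136) (nat_lit 4) (nat_lit 5) (nat_lit 6) (nat_lit 4) (nat_lit 4) (nat_lit 4) (nat_lit 399) (nat_lit 224) (nat_lit 157)) (XT.lf (nat_lit 0) (nat_lit 32989367899) (nat_lit 152) (nat_lit 26210431306) (nat_lit 0) (nat_lit 20960966680) (nat_lit 4) (nat_lit 5) (nat_lit 6) (nat_lit 4) (nat_lit 4) (nat_lit 4) (nat_lit 400) (nat_lit 224) (nat_lit 156))))))))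
noncomputable def xc30 : XT := (XT.nd (nat_lit 36426) (nat_lit 0) (nat_lit 380) (XT.nd (nat_lit 35412) (nat_lit 0) (nat_lit 1368) (XT.nd (nat_lit 468) (nat_lit 0) (nat_lit 0) (XT.nd (nat_lit 234) (nat_lit 76) (nat_lit 0) (XT.nd (nat_lit 78) (nat_lit 0) (nat_lit 0) (XT.lf (nat_lit 0) (nat_lit 36453710555) (nat_lit 152) (nat_lit 21652991504) (nat_lit 0) (nat_lit 24371104606) (nat_lit 4) (nat_lit 5) (nat_lit 6) (nat_lit 4) (nat_lit 4) (nat_lit 4) (nat_lit 401) (nat_lit 224) (nat_lit 155)) (XT.nd (nat_lit 78) (nat_lit 0) (nat_lit 0) (XT.lf (nat_lit 0) (nat_lit 40004390547) (nat_lit 152) (nat_lit 16991343602) (nat_lit 0) (nat_lit 27869158647) (nat_lit 4) (nat_lit 5) (nat_lit 6) (nat_lit 4) (nat_lit 4) (nat_lit 4) (nat_lit 402) (nat_lit 224) (nat_lit 154)) (XT.lf (nat_lit 0) (nat_lit 43644510410) (nat_lit 152) (nat_lit 12221414317) (nat_lit 0) (nat_lit 31458185354) (nat_lit 4) (nat_lit 5) (nat_lit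 6) (nat_lit 4) (nat_lit 4) (nat_lit 4) (nat_lit 403) (nat_lit 224) (nat_lit 153)))) (XT.nd (nat_lit 78) (nat_lit 76) (nat_lit 0) (XT.lf (nat_lit 0) (nat_lit 47377250833) (nat_lit 152) (nat_lit 7339035748) (nat_lit 0) (nat_lit 35141320771) (nat_lit 4) (nat_lit 5) (nat_lit 6) (nat_lit 4) (nat_lit 4) (nat_lit 4) (nat_lit 404) (nat_lit 224) (nat_lit 152)) (XT.nd (nat_lit 78) (nat_lit 76) (nat_lit 0) (XT.lf (nat_lit 0) (nat_lit 51205873433) (nat_lit 152) (nat_lit 2339941740) (nat_lit 0) (nat_lit 38921783170) (nat_lit 4) (nat_lit 5) (nat_lit 6) (nat_lit 4) (nat_lit 4) (nat_lit 4) (nat_lit 405) (nat_lit 224) (nat_lit 151)) (XT.lf (nat_lit 0) (nat_lit 2835567991) (nat_lit 76) (nat_lit 52325412831) (nat_lit 76) (nat_lit 39994565092) (nat_lit 3) (nat_lit 4) (nat_lit 4) (nat_lit 5) (nat_lit 4) (nat_lit 4) (nat_lit 406) (nat_lit 224) (nat_lit 150))))) (XT.nd (nat_lit 34632) (nat_lit 0) (nat_lit 2204) (XT.nd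 (nat_lit 78) (nat_lit 0) (nat_lit 0) (XT.lf (nat_lit 0) (nat_lit 8185703514) (nat_lit 76) (nat_lit 51057215936) (nat_lit 76) (nat_lit 38680972590) (nat_lit 3) (nat_lit 4) (nat_lit 4) (nat_lit 5) (nat_lit 4) (nat_lit 4) (nat_lit 407) (nat_lit 224) (nat_lit 149)) (XT.nd (nat_lit 78) (nat_lit 0) (nat_lit 0) (XT.lf (nat_lit 0) (nat_lit 13668570275) (nat_lit 76) (nat_lit 49763745179) (nat_lit 76) (nat_lit 37343428427) (nat_lit 3) (nat_lit 4) (nat_lit 4) (nat_lit 5) (nat_lit 4) (nat_lit 4) (nat_lit 408) (nat_lit 224) (nat_lit 148)) (XT.lf (nat_lit 0) (nat_lit 19288959128) (nat_lit 76) (nat_lit 48443870343) (nat_lit 76) (nat_lit 35980763878) (nat_lit 3) (nat_lit 4) (nat_lit 4) (nat_lit 5) (nat_lit 4) (nat_lit 4) (nat_lit 409) (nat_lit 224) (nat_lit 147)))) (XT.nd (nat_lit 156) (nat_lit 152) (nat_lit 0) (XT.nd (nat_lit 78) (nat_lit 228) (nat_lit 0) (XT.lf (nat_lit 0) (nat_lit 4051898726) (nat_lit 152)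 (nat_lit 1375826412) (nat_lit 152) (nat_lit 1375826412) (nat_lit 37) (nat_lit 4) (nat_lit 39) (nat_lit 5) (nat_lit 39) (nat_lit 4) (nat_lit 330) (nat_lit 225) (nat_lit 225)) (XT.lf (nat_lit 0) (nat_lit 1208170057) (nat_lit 228) (nat_lit 11988517641) (nat_lit 0) (nat_lit 680328616) (nat_lit 34) (nat_lit 5) (nat_lit 37) (nat_lit 4) (nat_lit 34) (nat_lit 4) (nat_lit 331) (nat_lit 225) (nat_lit 224))) (XT.nd (nat_lit 78) (nat_lit 152) (nat_lit 0) (XT.lf (nat_lit 0) (nat_lit 5225693844) (nat_lit 228) (nat_lit 4743366156) (nat_lit 0) (nat_lit 4185384984) (nat_lit 34) (nat_lit 5) (nat_lit 37) (nat_lit 4) (nat_lit 34) (nat_lit 4) (nat_lit 332) (nat_lit 225) (nat_lit 223)) (XT.lf (nat_lit 0) (nat_lit 2624887577) (nat_lit 152) (nat_lit 6677529354) (nat_lit 152) (nat_lit 5139679311) (nat_lit 32) (nat_lit 4) (nat_lit 34) (nat_lit 5) (nat_lit 34) (nat_lit 4) (nat_lit 333) (nat_lit 225) (nat_lit 222))))))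 (XT.nd (nat_lit 468) (nat_lit 304) (nat_lit 0) (XT.nd (nat_lit 234) (nat_lit 304) (nat_lit 0) (XT.nd (nat_lit 78) (nat_lit 228) (nat_lit 0) (XT.lf (nat_lit 0) (nat_lit 10167376180) (nat_lit 152) (nat_lit 3296542240) (nat_lit 152) (nat_lit 1275642504) (nat_lit 32) (nat_lit 4) (nat_lit 34) (nat_lit 5) (nat_lit 34) (nat_lit 4) (nat_lit 334) (nat_lit 225) (nat_lit 221)) (XT.nd (nat_lit 78) (nat_lit 0) (nat_lit 0) (XT.lf (nat_lit 0) (nat_lit 2596179475) (nat_lit 228) (nat_lit 12271885772) (nat_lit 0) (nat_lit 178820233) (nat_lit 29) (nat_lit 5) (nat_lit 32) (nat_lit 4) (nat_lit 29) (nat_lit 4) (nat_lit 335) (nat_lit 225) (nat_lit 220)) (XT.lf (nat_lit 0) (nat_lit 6554513830) (nat_lit 228) (nat_lit 5113614692) (nat_lit 0) (nat_lit 3695095691) (nat_lit 29) (nat_lit 5) (nat_lit 32) (nat_lit 4) (nat_lit 29) (nat_lit 4) (nat_lit 336) (nat_lit 225) (nat_lit 219)))) (XT.nd (nat_lit 78) (nat_lit 152) (nat_lit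 0) (XT.lf (nat_lit 0) (nat_lit 2163596173) (nat_lit 152) (nat_lit 8407955779) (nat_lit 152) (nat_lit 5119354245) (nat_lit 27) (nat_lit 4) (nat_lit 29) (nat_lit 5) (nat_lit 29) (nat_lit 4) (nat_lit 337) (nat_lit 225) (nat_lit 218)) (XT.nd (nat_lit 78) (nat_lit 152) (nat_lit 0) (XT.lf (nat_lit 0) (nat_lit 9627272768) (nat_lit 152) (nat_lit 5053662740) (nat_lit 152) (nat_lit 1348378298) (nat_lit 27) (nat_lit 4) (nat_lit 29) (nat_lit 5) (nat_lit 29) (nat_lit 4) (nat_lit 338) (nat_lit 225) (nat_lit 217)) (XT.lf (nat_lit 0) (nat_lit 793801605) (nat_lit 76) (nat_lit 1621780936) (nat_lit 152) (nat_lit 13963727063) (nat_lit 25) (nat_lit 5) (nat_lit 26) (nat_lit 5) (nat_lit 27) (nat_lit 4) (nat_lit 339) (nat_lit 225) (nat_lit 216))))) (XT.nd (nat_lit 234) (nat_lit 152) (nat_lit 0) (XT.nd (nat_lit 78) (nat_lit 152) (nat_lit 0) (XT.lf (nat_lit 0) (nat_lit 6271211783) (nat_lit 152) (nat_lit 8568302646) (nat_lit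 0) (nat_lit 1899760754) (nat_lit 25) (nat_lit 5) (nat_lit 27) (nat_lit 4) (nat_lit 25) (nat_lit 4) (nat_lit 340) (nat_lit 225) (nat_lit 215)) (XT.nd (nat_lit 78) (nat_lit 152) (nat_lit 0) (XT.lf (nat_lit 0) (nat_lit 10183006969) (nat_lit 152) (nat_lit 1487523871) (nat_lit 0) (nat_lit 5441338573) (nat_lit 25) (nat_lit 5) (nat_lit 27) (nat_lit 4) (nat_lit 25) (nat_lit 4) (nat_lit 341) (nat_lit 225) (nat_lit 214)) (XT.lf (nat_lit 0) (nat_lit 5791620336) (nat_lit 152) (nat_lit 8402848885) (nat_lit 152) (nat_lit 3301746152) (nat_lit 23) (nat_lit 4) (nat_lit 25) (nat_lit 5) (nat_lit 25) (nat_lit 4) (nat_lit 342) (nat_lit 225) (nat_lit 213)))) (XT.nd (nat_lit 156) (nat_lit 0) (nat_lit 0) (XT.nd (nat_lit 78) (nat_lit 76) (nat_lit 0) (XT.lf (nat_lit 0) (nat_lit 367690335) (nat_lit 228) (nat_lit 4703656727) (nat_lit 76) (nat_lit 12822400878) (nat_lit 22) (nat_lit 5) (nat_lit 25) (nat_lit 5) (nat_lit 23)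 (nat_lit 4) (nat_lit 343) (nat_lit 225) (nat_lit 212)) (XT.lf (nat_lit 0) (nat_lit 2397792298) (nat_lit 76) (nat_lit 1635045998) (nat_lit 152) (nat_lit 14270867388) (nat_lit 21) (nat_lit 5) (nat_lit 22) (nat_lit 5) (nat_lit 23) (nat_lit 4) (nat_lit 344) (nat_lit 225) (nat_lit 211))) (XT.nd (nat_lit 78) (nat_lit 0) (nat_lit 0) (XT.lf (nat_lit 0) (nat_lit 7803546459) (nat_lit 152) (nat_lit 9058653888) (nat_lit 0) (nat_lit 1863932110) (nat_lit 21) (nat_lit 5) (nat_lit 23) (nat_lit 4) (nat_lit 21) (nat_lit 4) (nat_lit 345) (nat_lit 225) (nat_lit 210)) (XT.lf (nat_lit 0) (nat_lit 11634954788) (nat_lit 152) (nat_lit 2142598003) (nat_lit 0) (nat_lit 5385289223) (nat_lit 21) (nat_lit 5) (nat_lit 23) (nat_lit 4) (nat_lit 21) (nat_lit 4) (nat_lit 346) (nat_lit 225) (nat_lit 209))))))) (XT.nd (nat_lit 1014) (nat_lit 380) (nat_lit 0) (XT.nd (nat_lit 468) (nat_lit 304) (nat_lit 0) (XT.nd (nat_lit 234) (nat_lit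 76) (nat_lit 0) (XT.nd (nat_lit 78) (nat_lit 76) (nat_lit 0) (XT.lf (nat_lit 0) (nat_lit 4960817910) (nat_lit 152) (nat_lit 10601562560) (nat_lit 152) (nat_lit 4050876397) (nat_lit 19) (nat_lit 4) (nat_lit 21) (nat_lit 5) (nat_lit 21) (nat_lit 4) (nat_lit 347) (nat_lit 225) (nat_lit 208)) (XT.nd (nat_lit 78) (nat_lit 76) (nat_lit 0) (XT.lf (nat_lit 0) (nat_lit 12205478711) (nat_lit 152) (nat_lit 7358002137) (nat_lit 152) (nat_lit 515062966) (nat_lit 19) (nat_lit 4) (nat_lit 21) (nat_lit 5) (nat_lit 21) (nat_lit 4) (nat_lit 348) (nat_lit 225) (nat_lit 207)) (XT.lf (nat_lit 0) (nat_lit 3001275311) (nat_lit 228) (nat_lit 1034091074) (nat_lit 76) (nat_lit 16523490477) (nat_lit 18) (nat_lit 5) (nat_lit 21) (nat_lit 5) (nat_lit 19) (nat_lit 4) (nat_lit 349) (nat_lit 225) (nat_lit 206)))) (XT.nd (nat_lit 78) (nat_lit 0) (nat_lit 0) (XT.lf (nat_lit 0) (nat_lit 6011853726) (nat_lit 76) (nat_lit 596033057)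 (nat_lit 152) (nat_lit 14445717688) (nat_lit 17) (nat_lit 5) (nat_lit 18) (nat_lit 5) (nat_lit 19) (nat_lit 4) (nat_lit 350) (nat_lit 225) (nat_lit 205)) (XT.nd (nat_lit 78) (nat_lit 0) (nat_lit 0) (XT.lf (nat_lit 0) (nat_lit 10299229176) (nat_lit 152) (nat_lit 8411694127) (nat_lit 0) (nat_lit 2853006508) (nat_lit 17) (nat_lit 5) (nat_lit 19) (nat_lit 4) (nat_lit 17) (nat_lit 4) (nat_lit 351) (nat_lit 225) (nat_lit 204)) (XT.lf (nat_lit 0) (nat_lit 14046692306) (nat_lit 152) (nat_lit 1696171935) (nat_lit 0) (nat_lit 6348369625) (nat_lit 17) (nat_lit 5) (nat_lit 19) (nat_lit 4) (nat_lit 17) (nat_lit 4) (nat_lit 352) (nat_lit 225) (nat_lit 203))))) (XT.nd (nat_lit 234) (nat_lit 76) (nat_lit 0) (XT.nd (nat_lit 78) (nat_lit 76) (nat_lit 0) (XT.lf (nat_lit 0) (nat_lit 5218239853) (nat_lit 152) (nat_lit 12679742281) (nat_lit 152) (nat_lit 4736662307) (nat_lit 15) (nat_lit 4) (nat_lit 17) (nat_lit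 5) (nat_lit 17) (nat_lit 4) (nat_lit 353) (nat_lit 225) (nat_lit 202)) (XT.nd (nat_lit 78) (nat_lit 76) (nat_lit 0) (XT.lf (nat_lit 0) (nat_lit 12271474688) (nat_lit 152) (nat_lit 9552423529) (nat_lit 152) (nat_lit 1371715116) (nat_lit 15) (nat_lit 4) (nat_lit 17) (nat_lit 5) (nat_lit 17) (nat_lit 4) (nat_lit 354) (nat_lit 225) (nat_lit 201)) (XT.lf (nat_lit 0) (nat_lit 1996380365) (nat_lit 228) (nat_lit 4358763494) (nat_lit 76) (nat_lit 17419398551) (nat_lit 14) (nat_lit 5) (nat_lit 17) (nat_lit 5) (nat_lit 15) (nat_lit 4) (nat_lit 355) (nat_lit 225) (nat_lit 200)))) (XT.nd (nat_lit 156) (nat_lit 0) (nat_lit 0) (XT.nd (nat_lit 78) (nat_lit 0) (nat_lit 0) (XT.lf (nat_lit 0) (nat_lit 2337024238) (nat_lit 76) (nat_lit 3068112446) (nat_lit 152) (nat_lit 18966305789) (nat_lit 13) (nat_lit 5) (nat_lit 14) (nat_lit 5) (nat_lit 15) (nat_lit 4) (nat_lit 356) (nat_lit 225) (nat_lit 199)) (XT.lf (nat_lit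 0) (nat_lit 8908640354) (nat_lit 152) (nat_lit 15764236148) (nat_lit 0) (nat_lit 313623929) (nat_lit 13) (nat_lit 5) (nat_lit 15) (nat_lit 4) (nat_lit 13) (nat_lit 4) (nat_lit 357) (nat_lit 225) (nat_lit 198))) (XT.nd (nat_lit 78) (nat_lit 0) (nat_lit 0) (XT.lf (nat_lit 0) (nat_lit 12494210574) (nat_lit 152) (nat_lit 9432301634) (nat_lit 0) (nat_lit 3694213769) (nat_lit 13) (nat_lit 5) (nat_lit 15) (nat_lit 4) (nat_lit 13) (nat_lit 4) (nat_lit 358) (nat_lit 225) (nat_lit 197)) (XT.lf (nat_lit 0) (nat_lit 16135487792) (nat_lit 152) (nat_lit 3003589363) (nat_lit 0) (nat_lit 7136480910) (nat_lit 13) (nat_lit 5) (nat_lit 15) (nat_lit 4) (nat_lit 13) (nat_lit 4) (nat_lit 359) (nat_lit 225) (nat_lit 196)))))) (XT.nd (nat_lit 546) (nat_lit 152) (nat_lit 0) (XT.nd (nat_lit 234) (nat_lit 152) (nat_lit 0) (XT.nd (nat_lit 78) (nat_lit 0) (nat_lit 0) (XT.lf (nat_lit 0) (nat_lit 3597722510) (nat_lit 76)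 (nat_lit 16272514707) (nat_lit 76) (nat_lit 7080294158) (nat_lit 12) (nat_lit 4) (nat_lit 13) (nat_lit 5) (nat_lit 13) (nat_lit 4) (nat_lit 360) (nat_lit 225) (nat_lit 195)) (XT.nd (nat_lit 78) (nat_lit 0) (nat_lit 0) (XT.lf (nat_lit 0) (nat_lit 10369065014) (nat_lit 76) (nat_lit 13328550258) (nat_lit 76) (nat_lit 3948743624) (nat_lit 12) (nat_lit 4) (nat_lit 13) (nat_lit 5) (nat_lit 13) (nat_lit 4) (nat_lit 361) (nat_lit 225) (nat_lit 194)) (XT.lf (nat_lit 0) (nat_lit 17256577535) (nat_lit 76) (nat_lit 10334941777) (nat_lit 76) (nat_lit 773012730) (nat_lit 12) (nat_lit 4) (nat_lit 13) (nat_lit 5) (nat_lit 13) (nat_lit 4) (nat_lit 362) (nat_lit 225) (nat_lit 193)))) (XT.nd (nat_lit 156) (nat_lit 0) (nat_lit 0) (XT.nd (nat_lit 78) (nat_lit 76) (nat_lit 0) (XT.lf (nat_lit 0) (nat_lit 2401871482) (nat_lit 152) (nat_lit 4862947814) (nat_lit 76) (nat_lit 21840152615) (nat_lit 11) (nat_lit 5) (nat_lit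 13) (nat_lit 5) (nat_lit 12) (nat_lit 4) (nat_lit 363) (nat_lit 225) (nat_lit 192)) (XT.lf (nat_lit 0) (nat_lit 1508274092) (nat_lit 76) (nat_lit 4116695787) (nat_lit 152) (nat_lit 24243390432) (nat_lit 10) (nat_lit 5) (nat_lit 11) (nat_lit 5) (nat_lit 12) (nat_lit 4) (nat_lit 364) (nat_lit 225) (nat_lit 191))) (XT.nd (nat_lit 78) (nat_lit 0) (nat_lit 0) (XT.lf (nat_lit 0) (nat_lit 8088217937) (nat_lit 76) (nat_lit 860205958) (nat_lit 152) (nat_lit 21706136080) (nat_lit 10) (nat_lit 5) (nat_lit 11) (nat_lit 5) (nat_lit 12) (nat_lit 4) (nat_lit 365) (nat_lit 225) (nat_lit 190)) (XT.lf (nat_lit 0) (nat_lit 12351093102) (nat_lit 152) (nat_lit 16703468707) (nat_lit 0) (nat_lit 2410417398) (nat_lit 10) (nat_lit 5) (nat_lit 12) (nat_lit 4) (nat_lit 10) (nat_lit 4) (nat_lit 366) (nat_lit 225) (nat_lit 189))))) (XT.nd (nat_lit 234) (nat_lit 76) (nat_lit 0) (XT.nd (nat_lit 78) (nat_lit 76) (nat_lit 0)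 (XT.lf (nat_lit 0) (nat_lit 15821192211) (nat_lit 152) (nat_lit 10751584831) (nat_lit 0) (nat_lit 5727991853) (nat_lit 10) (nat_lit 5) (nat_lit 12) (nat_lit 4) (nat_lit 10) (nat_lit 4) (nat_lit 367) (nat_lit 225) (nat_lit 188)) (XT.nd (nat_lit 78) (nat_lit 76) (nat_lit 0) (XT.lf (nat_lit 0) (nat_lit 19353484520) (nat_lit 152) (nat_lit 4697220909) (nat_lit 0) (nat_lit 9112201975) (nat_lit 10) (nat_lit 5) (nat_lit 12) (nat_lit 4) (nat_lit 10) (nat_lit 4) (nat_lit 368) (nat_lit 225) (nat_lit 187)) (XT.lf (nat_lit 0) (nat_lit 1494067926) (nat_lit 76) (nat_lit 21471350468) (nat_lit 76) (nat_lit 11086298809) (nat_lit 9) (nat_lit 4) (nat_lit 10) (nat_lit 5) (nat_lit 10) (nat_lit 4) (nat_lit 369) (nat_lit 225) (nat_lit 186)))) (XT.nd (nat_lit 156) (nat_lit 76) (nat_lit 0) (XT.nd (nat_lit 78) (nat_lit 0) (nat_lit 0) (XT.lf (nat_lit 0) (nat_lit 7894247324) (nat_lit 76) (nat_lit 18798688670) (nat_lit 76)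 (nat_lit 8274055346) (nat_lit 9) (nat_lit 4) (nat_lit 10) (nat_lit 5) (nat_lit 10) (nat_lit 4) (nat_lit 370) (nat_lit 225) (nat_lit 185)) (XT.lf (nat_lit 0) (nat_lit 14415425767) (nat_lit 76) (nat_lit 16077817419) (nat_lit 76) (nat_lit 5417667917) (nat_lit 9) (nat_lit 4) (nat_lit 10) (nat_lit 5) (nat_lit 10) (nat_lit 4) (nat_lit 371) (nat_lit 225) (nat_lit 184))) (XT.nd (nat_lit 78) (nat_lit 76) (nat_lit 0) (XT.lf (nat_lit 0) (nat_lit 21063301373) (nat_lit 76) (nat_lit 13306359256) (nat_lit 76) (nat_lit 2514640648) (nat_lit 9) (nat_lit 4) (nat_lit 10) (nat_lit 5) (nat_lit 10) (nat_lit 4) (nat_lit 372) (nat_lit 225) (nat_lit 183)) (XT.lf (nat_lit 0) (nat_lit 429024653) (nat_lit 152) (nat_lit 10048535558) (nat_lit 76) (nat_lit 27410326003) (nat_lit 8) (nat_lit 5) (nat_lit 10) (nat_lit 5) (nat_lit 9) (nat_lit 4) (nat_lit 373) (nat_lit 225) (nat_lit 182))))))))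
noncomputable def xc31 : XT := (XT.nd (nat_lit 2028) (nat_lit 76) (nat_lit 0) (XT.nd (nat_lit 1014) (nat_lit 152) (nat_lit 0) (XT.nd (nat_lit 468) (nat_lit 76) (nat_lit 0) (XT.nd (nat_lit 234) (nat_lit 0) (nat_lit 0) (XT.nd (nat_lit 78) (nat_lit 76) (nat_lit 0) (XT.lf (nat_lit 0) (nat_lit 3374366372) (nat_lit 152) (nat_lit 4193508369) (nat_lit 76) (nat_lit 31354054290) (nat_lit 8) (nat_lit 5) (nat_lit 10) (nat_lit 5) (nat_lit 9) (nat_lit 4) (nat_lit 374) (nat_lit 225) (nat_lit 181)) (XT.nd (nat_lit 78) (nat_lit 0) (nat_lit 0) (XT.lf (nat_lit 0) (nat_lit 1808663505) (nat_lit 76) (nat_lit 4581750277) (nat_lit 152) (nat_lit 33597123070) (nat_lit 7) (nat_lit 5) (nat_lit 8) (nat_lit 5) (nat_lit 9) (nat_lit 4) (nat_lit 375) (nat_lit 225) (nat_lit 180)) (XT.lf (nat_lit 0) (nat_lit 8013689167) (nat_lit 76) (nat_lit 1490972452) (nat_lit 152) (nat_lit 31580233390) (nat_lit 7) (nat_lit 5) (nat_lit 8) (nat_lit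 5) (nat_lit 9) (nat_lit 4) (nat_lit 376) (nat_lit 225) (nat_lit 179)))) (XT.nd (nat_lit 78) (nat_lit 0) (nat_lit 0) (XT.lf (nat_lit 0) (nat_lit 12694721444) (nat_lit 152) (nat_lit 27888667504) (nat_lit 0) (nat_lit 1632326699) (nat_lit 7) (nat_lit 5) (nat_lit 9) (nat_lit 4) (nat_lit 7) (nat_lit 4) (nat_lit 377) (nat_lit 225) (nat_lit 178)) (XT.nd (nat_lit 78) (nat_lit 0) (nat_lit 0) (XT.lf (nat_lit 0) (nat_lit 15962347043) (nat_lit 152) (nat_lit 22625696256) (nat_lit 0) (nat_lit 4792974574) (nat_lit 7) (nat_lit 5) (nat_lit 9) (nat_lit 4) (nat_lit 7) (nat_lit 4) (nat_lit 378) (nat_lit 225) (nat_lit 177)) (XT.lf (nat_lit 0) (nat_lit 19296061483) (nat_lit 152) (nat_lit 17263361244) (nat_lit 0) (nat_lit 8022827147) (nat_lit 7) (nat_lit 5) (nat_lit 9) (nat_lit 4) (nat_lit 7) (nat_lit 4) (nat_lit 379) (nat_lit 225) (nat_lit 176))))) (XT.nd (nat_lit 234) (nat_lit 76) (nat_lit 0) (XT.nd (nat_lit 78)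 (nat_lit 0) (nat_lit 0) (XT.lf (nat_lit 0) (nat_lit 22698777718) (nat_lit 152) (nat_lit 11796976935) (nat_lit 0) (nat_lit 11324706618) (nat_lit 7) (nat_lit 5) (nat_lit 9) (nat_lit 4) (nat_lit 7) (nat_lit 4) (nat_lit 380) (nat_lit 225) (nat_lit 175)) (XT.nd (nat_lit 78) (nat_lit 0) (nat_lit 0) (XT.lf (nat_lit 0) (nat_lit 26173468996) (nat_lit 152) (nat_lit 6221766875) (nat_lit 0) (nat_lit 14701498125) (nat_lit 7) (nat_lit 5) (nat_lit 9) (nat_lit 4) (nat_lit 7) (nat_lit 4) (nat_lit 381) (nat_lit 225) (nat_lit 174)) (XT.lf (nat_lit 0) (nat_lit 29723171455) (nat_lit 152) (nat_lit 532859522) (nat_lit 0) (nat_lit 18156152263) (nat_lit 7) (nat_lit 5) (nat_lit 9) (nat_lit 4) (nat_lit 7) (nat_lit 4) (nat_lit 382) (nat_lit 225) (nat_lit 173)))) (XT.nd (nat_lit 156) (nat_lit 0) (nat_lit 0) (XT.nd (nat_lit 78) (nat_lit 0) (nat_lit 0) (XT.lf (nat_lit 0) (nat_lit 5379693204) (nat_lit 76) (nat_lit 28023006474)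 (nat_lit 76) (nat_lit 16363707358) (nat_lit 6) (nat_lit 4) (nat_lit 7) (nat_lit 5) (nat_lit 7) (nat_lit 4) (nat_lit 383) (nat_lit 225) (nat_lit 172)) (XT.lf (nat_lit 0) (nat_lit 11429056367) (nat_lit 76) (nat_lit 25740891610) (nat_lit 76) (nat_lit 13992000335) (nat_lit 6) (nat_lit 4) (nat_lit 7) (nat_lit 5) (nat_lit 7) (nat_lit 4) (nat_lit 384) (nat_lit 225) (nat_lit 171))) (XT.nd (nat_lit 78) (nat_lit 0) (nat_lit 0) (XT.lf (nat_lit 0) (nat_lit 17609910869) (nat_lit 76) (nat_lit 23413073140) (nat_lit 76) (nat_lit 11577199187) (nat_lit 6) (nat_lit 4) (nat_lit 7) (nat_lit 5) (nat_lit 7) (nat_lit 4) (nat_lit 385) (nat_lit 225) (nat_lit 170)) (XT.lf (nat_lit 0) (nat_lit 23927657456) (nat_lit 76) (nat_lit 21037517048) (nat_lit 76) (nat_lit 9117193893) (nat_lit 6) (nat_lit 4) (nat_lit 7) (nat_lit 5) (nat_lit 7) (nat_lit 4) (nat_lit 386) (nat_lit 225) (nat_lit 169)))))) (XT.nd (nat_lit 468) (nat_lit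 0) (nat_lit 0) (XT.nd (nat_lit 234) (nat_lit 152) (nat_lit 0) (XT.nd (nat_lit 78) (nat_lit 0) (nat_lit 0) (XT.lf (nat_lit 0) (nat_lit 30387816490) (nat_lit 76) (nat_lit 18612147606) (nat_lit 76) (nat_lit 6609834934) (nat_lit 6) (nat_lit 4) (nat_lit 7) (nat_lit 5) (nat_lit 7) (nat_lit 4) (nat_lit 387) (nat_lit 225) (nat_lit 168)) (XT.nd (nat_lit 78) (nat_lit 0) (nat_lit 0) (XT.lf (nat_lit 0) (nat_lit 36996032768) (nat_lit 76) (nat_lit 16134845559) (nat_lit 76) (nat_lit 4052931414) (nat_lit 6) (nat_lit 4) (nat_lit 7) (nat_lit 5) (nat_lit 7) (nat_lit 4) (nat_lit 388) (nat_lit 225) (nat_lit 167)) (XT.lf (nat_lit 0) (nat_lit 43758080462) (nat_lit 76) (nat_lit 13603446274) (nat_lit 76) (nat_lit 1444249146) (nat_lit 6) (nat_lit 4) (nat_lit 7) (nat_lit 5) (nat_lit 7) (nat_lit 4) (nat_lit 389) (nat_lit 225) (nat_lit 166)))) (XT.nd (nat_lit 78) (nat_lit 76) (nat_lit 0) (XT.lf (nat_lit 0) (nat_lit 1194714147)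 (nat_lit 152) (nat_lit 9808959431) (nat_lit 76) (nat_lit 49473089739) (nat_lit 5) (nat_lit 5) (nat_lit 7) (nat_lit 5) (nat_lit 6) (nat_lit 4) (nat_lit 390) (nat_lit 225) (nat_lit 165)) (XT.nd (nat_lit 78) (nat_lit 76) (nat_lit 0) (XT.lf (nat_lit 0) (nat_lit 3860779512) (nat_lit 152) (nat_lit 4469693363) (nat_lit 76) (nat_lit 53867678199) (nat_lit 5) (nat_lit 5) (nat_lit 7) (nat_lit 5) (nat_lit 6) (nat_lit 4) (nat_lit 391) (nat_lit 225) (nat_lit 164)) (XT.lf (nat_lit 0) (nat_lit 1008327264) (nat_lit 76) (nat_lit 5585824418) (nat_lit 152) (nat_lit 57377417309) (nat_lit 4) (nat_lit 5) (nat_lit 5) (nat_lit 5) (nat_lit 6) (nat_lit 4) (nat_lit 392) (nat_lit 225) (nat_lit 163))))) (XT.nd (nat_lit 234) (nat_lit 0) (nat_lit 0) (XT.nd (nat_lit 78) (nat_lit 0) (nat_lit 0) (XT.lf (nat_lit 0) (nat_lit 6701616261) (nat_lit 76) (nat_lit 2730936370) (nat_lit 152) (nat_lit 56364954016) (nat_lit 4) (nat_lit 5)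 (nat_lit 5) (nat_lit 5) (nat_lit 6) (nat_lit 4) (nat_lit 393) (nat_lit 225) (nat_lit 162)) (XT.nd (nat_lit 78) (nat_lit 0) (nat_lit 0) (XT.lf (nat_lit 0) (nat_lit 12336483294) (nat_lit 152) (nat_lit 55154522759) (nat_lit 0) (nat_lit 187812846) (nat_lit 4) (nat_lit 5) (nat_lit 6) (nat_lit 4) (nat_lit 4) (nat_lit 4) (nat_lit 394) (nat_lit 225) (nat_lit 161)) (XT.lf (nat_lit 0) (nat_lit 15333563956) (nat_lit 152) (nat_lit 51160777800) (nat_lit 0) (nat_lit 3122055370) (nat_lit 4) (nat_lit 5) (nat_lit 6) (nat_lit 4) (nat_lit 4) (nat_lit 4) (nat_lit 395) (nat_lit 225) (nat_lit 160)))) (XT.nd (nat_lit 156) (nat_lit 0) (nat_lit 0) (XT.nd (nat_lit 78) (nat_lit 0) (nat_lit 0) (XT.lf (nat_lit 0) (nat_lit 18400161994) (nat_lit 152) (nat_lit 47084914399) (nat_lit 0) (nat_lit 6127645507) (nat_lit 4) (nat_lit 5) (nat_lit 6) (nat_lit 4) (nat_lit 4) (nat_lit 4) (nat_lit 396) (nat_lit 225) (nat_lit 159)) (XT.lf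 (nat_lit 0) (nat_lit 21538956960) (nat_lit 152) (nat_lit 42923371121) (nat_lit 0) (nat_lit 9207209502) (nat_lit 4) (nat_lit 5) (nat_lit 6) (nat_lit 4) (nat_lit 4) (nat_lit 4) (nat_lit 397) (nat_lit 225) (nat_lit 158))) (XT.nd (nat_lit 78) (nat_lit 0) (nat_lit 0) (XT.lf (nat_lit 0) (nat_lit 24752691491) (nat_lit 152) (nat_lit 38672511667) (nat_lit 0) (nat_lit 12363438234) (nat_lit 4) (nat_lit 5) (nat_lit 6) (nat_lit 4) (nat_lit 4) (nat_lit 4) (nat_lit 398) (nat_lit 225) (nat_lit 157)) (XT.lf (nat_lit 0) (nat_lit 28044173703) (nat_lit 152) (nat_lit 34328621693) (nat_lit 0) (nat_lit 15599089575) (nat_lit 4) (nat_lit 5) (nat_lit 6) (nat_lit 4) (nat_lit 4) (nat_lit 4) (nat_lit 399) (nat_lit 225) (nat_lit 156))))))) (XT.nd (nat_lit 35256) (nat_lit 0) (nat_lit 1368) (XT.nd (nat_lit 468) (nat_lit 76) (nat_lit 0) (XT.nd (nat_lit 234) (nat_lit 0) (nat_lit 0) (XT.nd (nat_lit 78) (nat_lit 0) (nat_lit 0)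 (XT.lf (nat_lit 0) (nat_lit 31416279649) (nat_lit 152) (nat_lit 29887905568) (nat_lit 0) (nat_lit 18916990792) (nat_lit 4) (nat_lit 5) (nat_lit 6) (nat_lit 4) (nat_lit 4) (nat_lit 4) (nat_lit 400) (nat_lit 225) (nat_lit 155)) (XT.nd (nat_lit 78) (nat_lit 0) (nat_lit 0) (XT.lf (nat_lit 0) (nat_lit 34871955830) (nat_lit 152) (nat_lit 25346483054) (nat_lit 0) (nat_lit 22320041022) (nat_lit 4) (nat_lit 5) (nat_lit 6) (nat_lit 4) (nat_lit 4) (nat_lit 4) (nat_lit 401) (nat_lit 225) (nat_lit 154)) (XT.lf (nat_lit 0) (nat_lit 38414221769) (nat_lit 152) (nat_lit 20700385917) (nat_lit 0) (nat_lit 25811213805) (nat_lit 4) (nat_lit 5) (nat_lit 6) (nat_lit 4) (nat_lit 4) (nat_lit 4) (nat_lit 402) (nat_lit 225) (nat_lit 153)))) (XT.nd (nat_lit 78) (nat_lit 0) (nat_lit 0) (XT.lf (nat_lit 0) (nat_lit 42046172649) (nat_lit 152) (nat_lit 15945554462) (nat_lit 0) (nat_lit 29393559679) (nat_lit 4) (nat_lit 5) (nat_lit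 6) (nat_lit 4) (nat_lit 4) (nat_lit 4) (nat_lit 403) (nat_lit 225) (nat_lit 152)) (XT.nd (nat_lit 78) (nat_lit 0) (nat_lit 0) (XT.lf (nat_lit 0) (nat_lit 45770982020) (nat_lit 152) (nat_lit 11077833981) (nat_lit 0) (nat_lit 33070208849) (nat_lit 4) (nat_lit 5) (nat_lit 6) (nat_lit 4) (nat_lit 4) (nat_lit 4) (nat_lit 404) (nat_lit 225) (nat_lit 151)) (XT.lf (nat_lit 0) (nat_lit 49591904569) (nat_lit 152) (nat_lit 6092971126) (nat_lit 0) (nat_lit 36844373922) (nat_lit 4) (nat_lit 5) (nat_lit 6) (nat_lit 4) (nat_lit 4) (nat_lit 4) (nat_lit 405) (nat_lit 225) (nat_lit 150))))) (XT.nd (nat_lit 234) (nat_lit 0) (nat_lit 0) (XT.nd (nat_lit 78) (nat_lit 76) (nat_lit 0) (XT.lf (nat_lit 0) (nat_lit 53512278966) (nat_lit 152) (nat_lit 986610192) (nat_lit 0) (nat_lit 40719352712) (nat_lit 4) (nat_lit 5) (nat_lit 6) (nat_lit 4) (nat_lit 4) (nat_lit 4) (nat_lit 406) (nat_lit 225) (nat_lit 149)) (XT.nd (nat_lit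 78) (nat_lit 0) (nat_lit 0) (XT.lf (nat_lit 0) (nat_lit 4330208656) (nat_lit 76) (nat_lit 53246946741) (nat_lit 76) (nat_lit 40409947081) (nat_lit 3) (nat_lit 4) (nat_lit 4) (nat_lit 5) (nat_lit 4) (nat_lit 4) (nat_lit 407) (nat_lit 225) (nat_lit 148)) (XT.lf (nat_lit 0) (nat_lit 9799792702) (nat_lit 76) (nat_lit 51959584380) (nat_lit 76) (nat_lit 39079795006) (nat_lit 3) (nat_lit 4) (nat_lit 4) (nat_lit 5) (nat_lit 4) (nat_lit 4) (nat_lit 408) (nat_lit 225) (nat_lit 147)))) (XT.nd (nat_lit 34398) (nat_lit 0) (nat_lit 2584) (XT.nd (nat_lit 34320) (nat_lit 0) (nat_lit 2736) (XT.lf (nat_lit 0) (nat_lit 15407285716) (nat_lit 76) (nat_lit 50645640025) (nat_lit 76) (nat_lit 37724307240) (nat_lit 3) (nat_lit 4) (nat_lit 4) (nat_lit 5) (nat_lit 4) (nat_lit 4) (nat_lit 409) (nat_lit 225) (nat_lit 146)) (XT.lf (nat_lit 0) (nat_lit 1587397189) (nat_lit 228) (nat_lit 3371767839) (nat_lit 0) (nat_lit 1587397189)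 (nat_lit 39) (nat_lit 5) (nat_lit 42) (nat_lit 4) (nat_lit 39) (nat_lit 4) (nat_lit 328) (nat_lit 226) (nat_lit 226))) (XT.nd (nat_lit 78) (nat_lit 0) (nat_lit 0) (XT.lf (nat_lit 0) (nat_lit 539141515) (nat_lit 152) (nat_lit 6683742602) (nat_lit 152) (nat_lit 6123755617) (nat_lit 37) (nat_lit 4) (nat_lit 39) (nat_lit 5) (nat_lit 39) (nat_lit 4) (nat_lit 329) (nat_lit 226) (nat_lit 225)) (XT.lf (nat_lit 0) (nat_lit 8031236828) (nat_lit 152) (nat_lit 3340437545) (nat_lit 152) (nat_lit 2236773875) (nat_lit 37) (nat_lit 4) (nat_lit 39) (nat_lit 5) (nat_lit 39) (nat_lit 4) (nat_lit 330) (nat_lit 226) (nat_lit 224)))))) (XT.nd (nat_lit 546) (nat_lit 456) (nat_lit 0) (XT.nd (nat_lit 234) (nat_lit 380) (nat_lit 0) (XT.nd (nat_lit 78) (nat_lit 152) (nat_lit 0) (XT.lf (nat_lit 0) (nat_lit 1662691550) (nat_lit 228) (nat_lit 12138355147) (nat_lit 0) (nat_lit 78706006) (nat_lit 34) (nat_lit 5) (nat_lit 37)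 (nat_lit 4) (nat_lit 34) (nat_lit 4) (nat_lit 331) (nat_lit 226) (nat_lit 223)) (XT.nd (nat_lit 78) (nat_lit 152) (nat_lit 0) (XT.lf (nat_lit 0) (nat_lit 5637575712) (nat_lit 228) (nat_lit 4964865390) (nat_lit 0) (nat_lit 3556048984) (nat_lit 34) (nat_lit 5) (nat_lit 37) (nat_lit 4) (nat_lit 34) (nat_lit 4) (nat_lit 332) (nat_lit 226) (nat_lit 222)) (XT.lf (nat_lit 0) (nat_lit 2328020913) (nat_lit 152) (nat_lit 7342026528) (nat_lit 152) (nat_lit 4777450108) (nat_lit 32) (nat_lit 4) (nat_lit 34) (nat_lit 5) (nat_lit 34) (nat_lit 4) (nat_lit 333) (nat_lit 226) (nat_lit 221)))) (XT.nd (nat_lit 156) (nat_lit 152) (nat_lit 0) (XT.nd (nat_lit 78) (nat_lit 228) (nat_lit 0) (XT.lf (nat_lit 0) (nat_lit 9801617127) (nat_lit 152) (nat_lit 3989077632) (nat_lit 152) (nat_lit 955520928) (nat_lit 32) (nat_lit 4) (nat_lit 34) (nat_lit 5) (nat_lit 34) (nat_lit 4) (nat_lit 334) (nat_lit 226) (nat_lit 220)) (XT.lf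 (nat_lit 0) (nat_lit 2324784070) (nat_lit 152) (nat_lit 539088559) (nat_lit 228) (nat_lit 12190986979) (nat_lit 29) (nat_lit 5) (nat_lit 31) (nat_lit 5) (nat_lit 32) (nat_lit 4) (nat_lit 335) (nat_lit 226) (nat_lit 219))) (XT.nd (nat_lit 78) (nat_lit 152) (nat_lit 0) (XT.lf (nat_lit 0) (nat_lit 6777200269) (nat_lit 228) (nat_lit 5634616449) (nat_lit 0) (nat_lit 2960757293) (nat_lit 29) (nat_lit 5) (nat_lit 32) (nat_lit 4) (nat_lit 29) (nat_lit 4) (nat_lit 336) (nat_lit 226) (nat_lit 218)) (XT.lf (nat_lit 0) (nat_lit 1564898029) (nat_lit 152) (nat_lit 9184920585) (nat_lit 152) (nat_lit 4951794701) (nat_lit 27) (nat_lit 4) (nat_lit 29) (nat_lit 5) (nat_lit 29) (nat_lit 4) (nat_lit 337) (nat_lit 226) (nat_lit 217))))) (XT.nd (nat_lit 234) (nat_lit 304) (nat_lit 0) (XT.nd (nat_lit 78) (nat_lit 152) (nat_lit 0) (XT.lf (nat_lit 0) (nat_lit 8963208185) (nat_lit 152) (nat_lit 5857827074) (nat_lit 152)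 (nat_lit 1220154678) (nat_lit 27) (nat_lit 4) (nat_lit 29) (nat_lit 5) (nat_lit 29) (nat_lit 4) (nat_lit 338) (nat_lit 226) (nat_lit 216)) (XT.nd (nat_lit 78) (nat_lit 0) (nat_lit 0) (XT.lf (nat_lit 0) (nat_lit 37642522) (nat_lit 76) (nat_lit 2458947883) (nat_lit 152) (nat_lit 13895922391) (nat_lit 25) (nat_lit 5) (nat_lit 26) (nat_lit 5) (nat_lit 27) (nat_lit 4) (nat_lit 339) (nat_lit 226) (nat_lit 215)) (XT.lf (nat_lit 0) (nat_lit 6306950527) (nat_lit 152) (nat_lit 9394093176) (nat_lit 0) (nat_lit 1052814713) (nat_lit 25) (nat_lit 5) (nat_lit 27) (nat_lit 4) (nat_lit 25) (nat_lit 4) (nat_lit 340) (nat_lit 226) (nat_lit 214)))) (XT.nd (nat_lit 156) (nat_lit 152) (nat_lit 0) (XT.nd (nat_lit 78) (nat_lit 152) (nat_lit 0) (XT.lf (nat_lit 0) (nat_lit 10182608085) (nat_lit 152) (nat_lit 2375912088) (nat_lit 0) (nat_lit 4569037933) (nat_lit 25) (nat_lit 5) (nat_lit 27) (nat_lit 4) (nat_lit 25) (nat_lit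 4) (nat_lit 341) (nat_lit 226) (nat_lit 213)) (XT.lf (nat_lit 0) (nat_lit 4823567468) (nat_lit 152) (nat_lit 9326112275) (nat_lit 152) (nat_lit 3363576748) (nat_lit 23) (nat_lit 4) (nat_lit 25) (nat_lit 5) (nat_lit 25) (nat_lit 4) (nat_lit 342) (nat_lit 226) (nat_lit 212))) (XT.nd (nat_lit 78) (nat_lit 76) (nat_lit 0) (XT.lf (nat_lit 0) (nat_lit 272061922) (nat_lit 228) (nat_lit 5749051158) (nat_lit 76) (nat_lit 11890763456) (nat_lit 22) (nat_lit 5) (nat_lit 25) (nat_lit 5) (nat_lit 23) (nat_lit 4) (nat_lit 343) (nat_lit 226) (nat_lit 211)) (XT.lf (nat_lit 0) (nat_lit 1271294676) (nat_lit 76) (nat_lit 2621101813) (nat_lit 152) (nat_lit 14430801145) (nat_lit 21) (nat_lit 5) (nat_lit 22) (nat_lit 5) (nat_lit 23) (nat_lit 4) (nat_lit 344) (nat_lit 226) (nat_lit 210))))))))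
noncomputable def xc32 : XT := (XT.nd (nat_lit 2028) (nat_lit 380) (nat_lit 0) (XT.nd (nat_lit 1014) (nat_lit 304) (nat_lit 0) (XT.nd (nat_lit 468) (nat_lit 304) (nat_lit 0) (XT.nd (nat_lit 234) (nat_lit 152) (nat_lit 0) (XT.nd (nat_lit 78) (nat_lit 152) (nat_lit 0) (XT.lf (nat_lit 0) (nat_lit 7619828222) (nat_lit 152) (nat_lit 10254491403) (nat_lit 0) (nat_lit 872621474) (nat_lit 21) (nat_lit 5) (nat_lit 23) (nat_lit 4) (nat_lit 21) (nat_lit 4) (nat_lit 345) (nat_lit 226) (nat_lit 209)) (XT.nd (nat_lit 78) (nat_lit 152) (nat_lit 0) (XT.lf (nat_lit 0) (nat_lit 11418423096) (nat_lit 152) (nat_lit 3396034076) (nat_lit 0) (nat_lit 4370195750) (nat_lit 21) (nat_lit 5) (nat_lit 23) (nat_lit 4) (nat_lit 21) (nat_lit 4) (nat_lit 346) (nat_lit 226) (nat_lit 208)) (XT.lf (nat_lit 0) (nat_lit 3625402135) (nat_lit 152) (nat_lit 11675752087) (nat_lit 152) (nat_lit 4335271733) (nat_lit 19) (nat_lit 4) (nat_lit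 21) (nat_lit 5) (nat_lit 21) (nat_lit 4) (nat_lit 347) (nat_lit 226) (nat_lit 207)))) (XT.nd (nat_lit 78) (nat_lit 152) (nat_lit 0) (XT.lf (nat_lit 0) (nat_lit 10814690250) (nat_lit 152) (nat_lit 8456102245) (nat_lit 152) (nat_lit 831881106) (nat_lit 19) (nat_lit 4) (nat_lit 21) (nat_lit 5) (nat_lit 21) (nat_lit 4) (nat_lit 348) (nat_lit 226) (nat_lit 206)) (XT.nd (nat_lit 78) (nat_lit 76) (nat_lit 0) (XT.lf (nat_lit 0) (nat_lit 2659775240) (nat_lit 228) (nat_lit 2500353890) (nat_lit 76) (nat_lit 15423890680) (nat_lit 18) (nat_lit 5) (nat_lit 21) (nat_lit 5) (nat_lit 19) (nat_lit 4) (nat_lit 349) (nat_lit 226) (nat_lit 205)) (XT.lf (nat_lit 0) (nat_lit 4462552622) (nat_lit 76) (nat_lit 1758976024) (nat_lit 152) (nat_lit 14858599923) (nat_lit 17) (nat_lit 5) (nat_lit 18) (nat_lit 5) (nat_lit 19) (nat_lit 4) (nat_lit 350) (nat_lit 226) (nat_lit 204))))) (XT.nd (nat_lit 234) (nat_lit 152) (nat_lit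 0) (XT.nd (nat_lit 78) (nat_lit 152) (nat_lit 0) (XT.lf (nat_lit 0) (nat_lit 9871878892) (nat_lit 152) (nat_lit 10029313222) (nat_lit 0) (nat_lit 1690506520) (nat_lit 17) (nat_lit 5) (nat_lit 19) (nat_lit 4) (nat_lit 17) (nat_lit 4) (nat_lit 351) (nat_lit 226) (nat_lit 203)) (XT.nd (nat_lit 78) (nat_lit 152) (nat_lit 0) (XT.lf (nat_lit 0) (nat_lit 13590397141) (nat_lit 152) (nat_lit 3365220943) (nat_lit 0) (nat_lit 5164267475) (nat_lit 17) (nat_lit 5) (nat_lit 19) (nat_lit 4) (nat_lit 17) (nat_lit 4) (nat_lit 352) (nat_lit 226) (nat_lit 202)) (XT.lf (nat_lit 0) (nat_lit 3465047798) (nat_lit 152) (nat_lit 13931684591) (nat_lit 152) (nat_lit 5267926485) (nat_lit 15) (nat_lit 4) (nat_lit 17) (nat_lit 5) (nat_lit 17) (nat_lit 4) (nat_lit 353) (nat_lit 226) (nat_lit 201)))) (XT.nd (nat_lit 156) (nat_lit 76) (nat_lit 0) (XT.nd (nat_lit 78) (nat_lit 76) (nat_lit 0) (XT.lf (nat_lit 0) (nat_lit 10468840207)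 (nat_lit 152) (nat_lit 10826049668) (nat_lit 152) (nat_lit 1931584338) (nat_lit 15) (nat_lit 4) (nat_lit 17) (nat_lit 5) (nat_lit 17) (nat_lit 4) (nat_lit 354) (nat_lit 226) (nat_lit 200)) (XT.lf (nat_lit 0) (nat_lit 1420206248) (nat_lit 228) (nat_lit 6235434239) (nat_lit 76) (nat_lit 16150754060) (nat_lit 14) (nat_lit 5) (nat_lit 17) (nat_lit 5) (nat_lit 15) (nat_lit 4) (nat_lit 355) (nat_lit 226) (nat_lit 199))) (XT.nd (nat_lit 78) (nat_lit 0) (nat_lit 0) (XT.lf (nat_lit 0) (nat_lit 374922927) (nat_lit 76) (nat_lit 4408741869) (nat_lit 152) (nat_lit 19621001277) (nat_lit 13) (nat_lit 5) (nat_lit 14) (nat_lit 5) (nat_lit 15) (nat_lit 4) (nat_lit 356) (nat_lit 226) (nat_lit 198)) (XT.lf (nat_lit 0) (nat_lit 7216649243) (nat_lit 76) (nat_lit 1041328906) (nat_lit 152) (nat_lit 16762633755) (nat_lit 13) (nat_lit 5) (nat_lit 14) (nat_lit 5) (nat_lit 15) (nat_lit 4) (nat_lit 357) (nat_lit 226) (nat_lit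 197)))))) (XT.nd (nat_lit 468) (nat_lit 152) (nat_lit 0) (XT.nd (nat_lit 234) (nat_lit 76) (nat_lit 0) (XT.nd (nat_lit 78) (nat_lit 76) (nat_lit 0) (XT.lf (nat_lit 0) (nat_lit 11807991627) (nat_lit 152) (nat_lit 11507919872) (nat_lit 0) (nat_lit 2340004461) (nat_lit 13) (nat_lit 5) (nat_lit 15) (nat_lit 4) (nat_lit 13) (nat_lit 4) (nat_lit 358) (nat_lit 226) (nat_lit 196)) (XT.nd (nat_lit 78) (nat_lit 76) (nat_lit 0) (XT.lf (nat_lit 0) (nat_lit 15424466078) (nat_lit 152) (nat_lit 5123772276) (nat_lit 0) (nat_lit 5763265244) (nat_lit 13) (nat_lit 5) (nat_lit 15) (nat_lit 4) (nat_lit 13) (nat_lit 4) (nat_lit 359) (nat_lit 226) (nat_lit 195)) (XT.lf (nat_lit 0) (nat_lit 1391216035) (nat_lit 76) (nat_lit 17722708821) (nat_lit 76) (nat_lit 7873921903) (nat_lit 12) (nat_lit 4) (nat_lit 13) (nat_lit 5) (nat_lit 13) (nat_lit 4) (nat_lit 360) (nat_lit 226) (nat_lit 194)))) (XT.nd (nat_lit 78) (nat_lit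 76) (nat_lit 0) (XT.lf (nat_lit 0) (nat_lit 8119716047) (nat_lit 76) (nat_lit 14797796047) (nat_lit 76) (nat_lit 4766886717) (nat_lit 12) (nat_lit 4) (nat_lit 13) (nat_lit 5) (nat_lit 13) (nat_lit 4) (nat_lit 361) (nat_lit 226) (nat_lit 193)) (XT.nd (nat_lit 78) (nat_lit 76) (nat_lit 0) (XT.lf (nat_lit 0) (nat_lit 14965633917) (nat_lit 76) (nat_lit 11822684338) (nat_lit 76) (nat_lit 1614957131) (nat_lit 12) (nat_lit 4) (nat_lit 13) (nat_lit 5) (nat_lit 13) (nat_lit 4) (nat_lit 362) (nat_lit 226) (nat_lit 192)) (XT.lf (nat_lit 0) (nat_lit 1553699304) (nat_lit 152) (nat_lit 7225385460) (nat_lit 76) (nat_lit 20365562894) (nat_lit 11) (nat_lit 5) (nat_lit 13) (nat_lit 5) (nat_lit 12) (nat_lit 4) (nat_lit 363) (nat_lit 226) (nat_lit 191))))) (XT.nd (nat_lit 234) (nat_lit 76) (nat_lit 0) (XT.nd (nat_lit 78) (nat_lit 76) (nat_lit 0) (XT.lf (nat_lit 0) (nat_lit 4740302020) (nat_lit 152) (nat_lit 923249752)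 (nat_lit 76) (nat_lit 24245588758) (nat_lit 11) (nat_lit 5) (nat_lit 13) (nat_lit 5) (nat_lit 12) (nat_lit 4) (nat_lit 364) (nat_lit 226) (nat_lit 190)) (XT.nd (nat_lit 78) (nat_lit 0) (nat_lit 0) (XT.lf (nat_lit 0) (nat_lit 5599054042) (nat_lit 76) (nat_lit 2433916549) (nat_lit 152) (nat_lit 22663302489) (nat_lit 10) (nat_lit 5) (nat_lit 11) (nat_lit 5) (nat_lit 12) (nat_lit 4) (nat_lit 365) (nat_lit 226) (nat_lit 189)) (XT.lf (nat_lit 0) (nat_lit 11399247765) (nat_lit 152) (nat_lit 19257818615) (nat_lit 0) (nat_lit 850726744) (nat_lit 10) (nat_lit 5) (nat_lit 12) (nat_lit 4) (nat_lit 10) (nat_lit 4) (nat_lit 366) (nat_lit 226) (nat_lit 188)))) (XT.nd (nat_lit 156) (nat_lit 76) (nat_lit 0) (XT.nd (nat_lit 78) (nat_lit 0) (nat_lit 0) (XT.lf (nat_lit 0) (nat_lit 14848701666) (nat_lit 152) (nat_lit 13343410833) (nat_lit 0) (nat_lit 4152098456) (nat_lit 10) (nat_lit 5) (nat_lit 12) (nat_lit 4)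 (nat_lit 10) (nat_lit 4) (nat_lit 367) (nat_lit 226) (nat_lit 187)) (XT.lf (nat_lit 0) (nat_lit 18360950084) (nat_lit 152) (nat_lit 7325431468) (nat_lit 0) (nat_lit 7520577761) (nat_lit 10) (nat_lit 5) (nat_lit 12) (nat_lit 4) (nat_lit 10) (nat_lit 4) (nat_lit 368) (nat_lit 226) (nat_lit 186))) (XT.nd (nat_lit 78) (nat_lit 76) (nat_lit 0) (XT.lf (nat_lit 0) (nat_lit 21939061976) (nat_lit 152) (nat_lit 1198622091) (nat_lit 0) (nat_lit 10959107988) (nat_lit 10) (nat_lit 5) (nat_lit 12) (nat_lit 4) (nat_lit 10) (nat_lit 4) (nat_lit 369) (nat_lit 226) (nat_lit 185)) (XT.lf (nat_lit 0) (nat_lit 5142723885) (nat_lit 76) (nat_lit 20492874968) (nat_lit 76) (nat_lit 9377404801) (nat_lit 9) (nat_lit 4) (nat_lit 10) (nat_lit 5) (nat_lit 10) (nat_lit 4) (nat_lit 370) (nat_lit 226) (nat_lit 184))))))) (XT.nd (nat_lit 1014) (nat_lit 152) (nat_lit 0) (XT.nd (nat_lit 468) (nat_lit 76) (nat_lit 0) (XT.nd (nat_lit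 234) (nat_lit 152) (nat_lit 0) (XT.nd (nat_lit 78) (nat_lit 0) (nat_lit 0) (XT.lf (nat_lit 0) (nat_lit 11629942628) (nat_lit 76) (nat_lit 17787293976) (nat_lit 76) (nat_lit 6540254704) (nat_lit 9) (nat_lit 4) (nat_lit 10) (nat_lit 5) (nat_lit 10) (nat_lit 4) (nat_lit 371) (nat_lit 226) (nat_lit 183)) (XT.nd (nat_lit 78) (nat_lit 0) (nat_lit 0) (XT.lf (nat_lit 0) (nat_lit 18244847651) (nat_lit 76) (nat_lit 15030680725) (nat_lit 76) (nat_lit 3655904456) (nat_lit 9) (nat_lit 4) (nat_lit 10) (nat_lit 5) (nat_lit 10) (nat_lit 4) (nat_lit 372) (nat_lit 226) (nat_lit 182)) (XT.lf (nat_lit 0) (nat_lit 24993218968) (nat_lit 76) (nat_lit 12220626522) (nat_lit 76) (nat_lit 721833753) (nat_lit 9) (nat_lit 4) (nat_lit 10) (nat_lit 5) (nat_lit 10) (nat_lit 4) (nat_lit 373) (nat_lit 226) (nat_lit 181)))) (XT.nd (nat_lit 78) (nat_lit 76) (nat_lit 0) (XT.lf (nat_lit 0) (nat_lit 2220332192) (nat_lit 152) (nat_lit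 7111922788) (nat_lit 76) (nat_lit 29638200020) (nat_lit 8) (nat_lit 5) (nat_lit 10) (nat_lit 5) (nat_lit 9) (nat_lit 4) (nat_lit 374) (nat_lit 226) (nat_lit 180)) (XT.nd (nat_lit 78) (nat_lit 76) (nat_lit 0) (XT.lf (nat_lit 0) (nat_lit 5202235032) (nat_lit 152) (nat_lit 1175557469) (nat_lit 76) (nat_lit 33659301392) (nat_lit 8) (nat_lit 5) (nat_lit 10) (nat_lit 5) (nat_lit 9) (nat_lit 4) (nat_lit 375) (nat_lit 226) (nat_lit 179)) (XT.lf (nat_lit 0) (nat_lit 4975858424) (nat_lit 76) (nat_lit 3312538460) (nat_lit 152) (nat_lit 32846904284) (nat_lit 7) (nat_lit 5) (nat_lit 8) (nat_lit 5) (nat_lit 9) (nat_lit 4) (nat_lit 376) (nat_lit 226) (nat_lit 178))))) (XT.nd (nat_lit 234) (nat_lit 76) (nat_lit 0) (XT.nd (nat_lit 78) (nat_lit 0) (nat_lit 0) (XT.lf (nat_lit 0) (nat_lit 11276366845) (nat_lit 76) (nat_lit 170008106) (nat_lit 152) (nat_lit 30820715657) (nat_lit 7) (nat_lit 5) (nat_lit 8) (nat_lit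 5) (nat_lit 9) (nat_lit 4) (nat_lit 377) (nat_lit 226) (nat_lit 177)) (XT.nd (nat_lit 78) (nat_lit 0) (nat_lit 0) (XT.lf (nat_lit 0) (nat_lit 14696632374) (nat_lit 152) (nat_lit 25754948526) (nat_lit 0) (nat_lit 2981339141) (nat_lit 7) (nat_lit 5) (nat_lit 9) (nat_lit 4) (nat_lit 7) (nat_lit 4) (nat_lit 378) (nat_lit 226) (nat_lit 176)) (XT.lf (nat_lit 0) (nat_lit 18015071130) (nat_lit 152) (nat_lit 20420604033) (nat_lit 0) (nat_lit 6198941133) (nat_lit 7) (nat_lit 5) (nat_lit 9) (nat_lit 4) (nat_lit 7) (nat_lit 4) (nat_lit 379) (nat_lit 226) (nat_lit 175)))) (XT.nd (nat_lit 156) (nat_lit 76) (nat_lit 0) (XT.nd (nat_lit 78) (nat_lit 0) (nat_lit 0) (XT.lf (nat_lit 0) (nat_lit 21402956604) (nat_lit 152) (nat_lit 14981394984) (nat_lit 0) (nat_lit 9488926837) (nat_lit 7) (nat_lit 5) (nat_lit 9) (nat_lit 4) (nat_lit 7) (nat_lit 4) (nat_lit 380) (nat_lit 226) (nat_lit 174)) (XT.lf (nat_lit 0) (nat_lit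 24863249086) (nat_lit 152) (nat_lit 9432568673) (nat_lit 0) (nat_lit 12854170997) (nat_lit 7) (nat_lit 5) (nat_lit 9) (nat_lit 4) (nat_lit 7) (nat_lit 4) (nat_lit 381) (nat_lit 226) (nat_lit 173))) (XT.nd (nat_lit 78) (nat_lit 76) (nat_lit 0) (XT.lf (nat_lit 0) (nat_lit 28398972130) (nat_lit 152) (nat_lit 3769276609) (nat_lit 0) (nat_lit 16297614117) (nat_lit 7) (nat_lit 5) (nat_lit 9) (nat_lit 4) (nat_lit 7) (nat_lit 4) (nat_lit 382) (nat_lit 226) (nat_lit 172)) (XT.lf (nat_lit 0) (nat_lit 2053500911) (nat_lit 76) (nat_lit 29979453800) (nat_lit 76) (nat_lit 17788503628) (nat_lit 6) (nat_lit 4) (nat_lit 7) (nat_lit 5) (nat_lit 7) (nat_lit 4) (nat_lit 383) (nat_lit 226) (nat_lit 171)))))) (XT.nd (nat_lit 468) (nat_lit 152) (nat_lit 0) (XT.nd (nat_lit 234) (nat_lit 0) (nat_lit 0) (XT.nd (nat_lit 78) (nat_lit 0) (nat_lit 0) (XT.lf (nat_lit 0) (nat_lit 8078238678) (nat_lit 76) (nat_lit 27708550679)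 (nat_lit 76) (nat_lit 15430617829) (nat_lit 6) (nat_lit 4) (nat_lit 7) (nat_lit 5) (nat_lit 7) (nat_lit 4) (nat_lit 384) (nat_lit 226) (nat_lit 170)) (XT.nd (nat_lit 78) (nat_lit 0) (nat_lit 0) (XT.lf (nat_lit 0) (nat_lit 14235185027) (nat_lit 76) (nat_lit 25391617398) (nat_lit 76) (nat_lit 13029235345) (nat_lit 6) (nat_lit 4) (nat_lit 7) (nat_lit 5) (nat_lit 7) (nat_lit 4) (nat_lit 385) (nat_lit 226) (nat_lit 169)) (XT.lf (nat_lit 0) (nat_lit 20529719816) (nat_lit 76) (nat_lit 23026629450) (nat_lit 76) (nat_lit 10582257881) (nat_lit 6) (nat_lit 4) (nat_lit 7) (nat_lit 5) (nat_lit 7) (nat_lit 4) (nat_lit 386) (nat_lit 226) (nat_lit 168)))) (XT.nd (nat_lit 78) (nat_lit 0) (nat_lit 0) (XT.lf (nat_lit 0) (nat_lit 26967343122) (nat_lit 76) (nat_lit 20611520342) (nat_lit 76) (nat_lit 8087547300) (nat_lit 6) (nat_lit 4) (nat_lit 7) (nat_lit 5) (nat_lit 7) (nat_lit 4) (nat_lit 387) (nat_lit 226) (nat_lit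 167)) (XT.nd (nat_lit 78) (nat_lit 0) (nat_lit 0) (XT.lf (nat_lit 0) (nat_lit 33553680054) (nat_lit 76) (nat_lit 18144179785) (nat_lit 76) (nat_lit 5542923759) (nat_lit 6) (nat_lit 4) (nat_lit 7) (nat_lit 5) (nat_lit 7) (nat_lit 4) (nat_lit 388) (nat_lit 226) (nat_lit 166)) (XT.lf (nat_lit 0) (nat_lit 40294485664) (nat_lit 76) (nat_lit 15622451848) (nat_lit 76) (nat_lit 2946163800) (nat_lit 6) (nat_lit 4) (nat_lit 7) (nat_lit 5) (nat_lit 7) (nat_lit 4) (nat_lit 389) (nat_lit 226) (nat_lit 165))))) (XT.nd (nat_lit 234) (nat_lit 76) (nat_lit 0) (XT.nd (nat_lit 78) (nat_lit 76) (nat_lit 0) (XT.lf (nat_lit 0) (nat_lit 47195649976) (nat_lit 76) (nat_lit 13044133082) (nat_lit 76) (nat_lit 294998410) (nat_lit 6) (nat_lit 4) (nat_lit 7) (nat_lit 5) (nat_lit 7) (nat_lit 4) (nat_lit 390) (nat_lit 226) (nat_lit 164)) (XT.nd (nat_lit 78) (nat_lit 0) (nat_lit 0) (XT.lf (nat_lit 0) (nat_lit 2365804808) (nat_lit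 152) (nat_lit 8017275788) (nat_lit 76) (nat_lit 51873508335) (nat_lit 5) (nat_lit 5) (nat_lit 7) (nat_lit 5) (nat_lit 6) (nat_lit 4) (nat_lit 391) (nat_lit 226) (nat_lit 163)) (XT.lf (nat_lit 0) (nat_lit 5078786622) (nat_lit 152) (nat_lit 2578587634) (nat_lit 76) (nat_lit 56373248258) (nat_lit 5) (nat_lit 5) (nat_lit 7) (nat_lit 5) (nat_lit 6) (nat_lit 4) (nat_lit 392) (nat_lit 226) (nat_lit 162)))) (XT.nd (nat_lit 156) (nat_lit 0) (nat_lit 0) (XT.nd (nat_lit 78) (nat_lit 0) (nat_lit 0) (XT.lf (nat_lit 0) (nat_lit 3043918744) (nat_lit 76) (nat_lit 4837415346) (nat_lit 152) (nat_lit 57976305526) (nat_lit 4) (nat_lit 5) (nat_lit 5) (nat_lit 5) (nat_lit 6) (nat_lit 4) (nat_lit 393) (nat_lit 226) (nat_lit 161)) (XT.lf (nat_lit 0) (nat_lit 8849598401) (nat_lit 76) (nat_lit 1923559796) (nat_lit 152) (nat_lit 56966160596) (nat_lit 4) (nat_lit 5) (nat_lit 5) (nat_lit 5) (nat_lit 6) (nat_lit 4) (nat_lit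 394) (nat_lit 226) (nat_lit 160))) (XT.nd (nat_lit 78) (nat_lit 0) (nat_lit 0) (XT.lf (nat_lit 0) (nat_lit 13741701607) (nat_lit 152) (nat_lit 54896053427) (nat_lit 0) (nat_lit 1040001724) (nat_lit 4) (nat_lit 5) (nat_lit 6) (nat_lit 4) (nat_lit 4) (nat_lit 4) (nat_lit 395) (nat_lit 226) (nat_lit 159)) (XT.lf (nat_lit 0) (nat_lit 16798545451) (nat_lit 152) (nat_lit 50838217624) (nat_lit 0) (nat_lit 4037614597) (nat_lit 4) (nat_lit 5) (nat_lit 6) (nat_lit 4) (nat_lit 4) (nat_lit 4) (nat_lit 396) (nat_lit 226) (nat_lit 158))))))))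
noncomputable def xc33 : XT := (XT.nd (nat_lit 36192) (nat_lit 0) (nat_lit 532) (XT.nd (nat_lit 35178) (nat_lit 0) (nat_lit 1748) (XT.nd (nat_lit 468) (nat_lit 76) (nat_lit 0) (XT.nd (nat_lit 234) (nat_lit 0) (nat_lit 0) (XT.nd (nat_lit 78) (nat_lit 0) (nat_lit 0) (XT.lf (nat_lit 0) (nat_lit 19927870326) (nat_lit 152) (nat_lit 46694176869) (nat_lit 0) (nat_lit 7109433675) (nat_lit 4) (nat_lit 5) (nat_lit 6) (nat_lit 4) (nat_lit 4) (nat_lit 4) (nat_lit 397) (nat_lit 226) (nat_lit 157)) (XT.nd (nat_lit 78) (nat_lit 0) (nat_lit 0) (XT.lf (nat_lit 0) (nat_lit 23132410593) (nat_lit 152) (nat_lit 42460310156) (nat_lit 0) (nat_lit 10258143070) (nat_lit 4) (nat_lit 5) (nat_lit 6) (nat_lit 4) (nat_lit 4) (nat_lit 4) (nat_lit 398) (nat_lit 226) (nat_lit 156)) (XT.lf (nat_lit 0) (nat_lit 26414966336) (nat_lit 152) (nat_lit 38132917989) (nat_lit 0) (nat_lit 13486494084) (nat_lit 4) (nat_lit 5) (nat_lit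 6) (nat_lit 4) (nat_lit 4) (nat_lit 4) (nat_lit 399) (nat_lit 226) (nat_lit 155)))) (XT.nd (nat_lit 78) (nat_lit 0) (nat_lit 0) (XT.lf (nat_lit 0) (nat_lit 29778405808) (nat_lit 152) (nat_lit 33708219152) (nat_lit 0) (nat_lit 16797307605) (nat_lit 4) (nat_lit 5) (nat_lit 6) (nat_lit 4) (nat_lit 4) (nat_lit 4) (nat_lit 400) (nat_lit 226) (nat_lit 154)) (XT.nd (nat_lit 78) (nat_lit 0) (nat_lit 0) (XT.lf (nat_lit 0) (nat_lit 33225667936) (nat_lit 152) (nat_lit 29182347403) (nat_lit 0) (nat_lit 20193476576) (nat_lit 4) (nat_lit 5) (nat_lit 6) (nat_lit 4) (nat_lit 4) (nat_lit 4) (nat_lit 401) (nat_lit 226) (nat_lit 153)) (XT.lf (nat_lit 0) (nat_lit 36759764891) (nat_lit 152) (nat_lit 24551348097) (nat_lit 0) (nat_lit 23677968525) (nat_lit 4) (nat_lit 5) (nat_lit 6) (nat_lit 4) (nat_lit 4) (nat_lit 4) (nat_lit 402) (nat_lit 226) (nat_lit 152))))) (XT.nd (nat_lit 234) (nat_lit 76) (nat_lit 0) (XT.nd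 (nat_lit 78) (nat_lit 0) (nat_lit 0) (XT.lf (nat_lit 0) (nat_lit 40383784719) (nat_lit 152) (nat_lit 19811174729) (nat_lit 0) (nat_lit 27253828153) (nat_lit 4) (nat_lit 5) (nat_lit 6) (nat_lit 4) (nat_lit 4) (nat_lit 4) (nat_lit 403) (nat_lit 226) (nat_lit 151)) (XT.nd (nat_lit 78) (nat_lit 0) (nat_lit 0) (XT.lf (nat_lit 0) (nat_lit 44100894039) (nat_lit 152) (nat_lit 14957685402) (nat_lit 0) (nat_lit 30924179997) (nat_lit 4) (nat_lit 5) (nat_lit 6) (nat_lit 4) (nat_lit 4) (nat_lit 4) (nat_lit 404) (nat_lit 226) (nat_lit 150)) (XT.lf (nat_lit 0) (nat_lit 47914340811) (nat_lit 152) (nat_lit 9986639200) (nat_lit 0) (nat_lit 34692231162) (nat_lit 4) (nat_lit 5) (nat_lit 6) (nat_lit 4) (nat_lit 4) (nat_lit 4) (nat_lit 405) (nat_lit 226) (nat_lit 149)))) (XT.nd (nat_lit 156) (nat_lit 0) (nat_lit 0) (XT.nd (nat_lit 78) (nat_lit 76) (nat_lit 0) (XT.lf (nat_lit 0) (nat_lit 51827457172) (nat_lit 152)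 (nat_lit 4893692493) (nat_lit 0) (nat_lit 38561274118) (nat_lit 4) (nat_lit 5) (nat_lit 6) (nat_lit 4) (nat_lit 4) (nat_lit 4) (nat_lit 406) (nat_lit 226) (nat_lit 148)) (XT.lf (nat_lit 0) (nat_lit 332085043) (nat_lit 76) (nat_lit 55514769513) (nat_lit 76) (nat_lit 42205796744) (nat_lit 3) (nat_lit 4) (nat_lit 4) (nat_lit 5) (nat_lit 4) (nat_lit 4) (nat_lit 407) (nat_lit 226) (nat_lit 147))) (XT.nd (nat_lit 34242) (nat_lit 0) (nat_lit 2964) (XT.lf (nat_lit 0) (nat_lit 5788773249) (nat_lit 76) (nat_lit 54233337634) (nat_lit 76) (nat_lit 40882821453) (nat_lit 3) (nat_lit 4) (nat_lit 4) (nat_lit 5) (nat_lit 4) (nat_lit 4) (nat_lit 408) (nat_lit 226) (nat_lit 146)) (XT.lf (nat_lit 0) (nat_lit 2144893208) (nat_lit 228) (nat_lit 2079934560) (nat_lit 228) (nat_lit 2079934560) (nat_lit 42) (nat_lit 4) (nat_lit 45) (nat_lit 5) (nat_lit 45) (nat_lit 4) (nat_lit 326) (nat_lit 227) (nat_lit 227)))))) (XT.nd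 (nat_lit 468) (nat_lit 608) (nat_lit 0) (XT.nd (nat_lit 234) (nat_lit 228) (nat_lit 0) (XT.nd (nat_lit 78) (nat_lit 380) (nat_lit 0) (XT.lf (nat_lit 0) (nat_lit 11760890348) (nat_lit 228) (nat_lit 841046611) (nat_lit 228) (nat_lit 246956419) (nat_lit 42) (nat_lit 4) (nat_lit 45) (nat_lit 5) (nat_lit 45) (nat_lit 4) (nat_lit 327) (nat_lit 227) (nat_lit 226)) (XT.nd (nat_lit 78) (nat_lit 152) (nat_lit 0) (XT.lf (nat_lit 0) (nat_lit 3707223621) (nat_lit 228) (nat_lit 6816814724) (nat_lit 0) (nat_lit 2570450041) (nat_lit 39) (nat_lit 5) (nat_lit 42) (nat_lit 4) (nat_lit 39) (nat_lit 4) (nat_lit 328) (nat_lit 227) (nat_lit 225)) (XT.lf (nat_lit 0) (nat_lit 391843448) (nat_lit 152) (nat_lit 7318988601) (nat_lit 152) (nat_lit 5638538337) (nat_lit 37) (nat_lit 4) (nat_lit 39) (nat_lit 5) (nat_lit 39) (nat_lit 4) (nat_lit 329) (nat_lit 227) (nat_lit 224)))) (XT.nd (nat_lit 78) (nat_lit 228) (nat_lit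 0) (XT.lf (nat_lit 0) (nat_lit 7813491554) (nat_lit 152) (nat_lit 4003642511) (nat_lit 152) (nat_lit 1795350805) (nat_lit 37) (nat_lit 4) (nat_lit 39) (nat_lit 5) (nat_lit 39) (nat_lit 4) (nat_lit 330) (nat_lit 227) (nat_lit 223)) (XT.nd (nat_lit 78) (nat_lit 0) (nat_lit 0) (XT.lf (nat_lit 0) (nat_lit 1441036000) (nat_lit 152) (nat_lit 609109381) (nat_lit 228) (nat_lit 11834906836) (nat_lit 34) (nat_lit 5) (nat_lit 36) (nat_lit 5) (nat_lit 37) (nat_lit 4) (nat_lit 331) (nat_lit 227) (nat_lit 222)) (XT.lf (nat_lit 0) (nat_lit 5977776717) (nat_lit 228) (nat_lit 5334245820) (nat_lit 0) (nat_lit 2853213312) (nat_lit 34) (nat_lit 5) (nat_lit 37) (nat_lit 4) (nat_lit 34) (nat_lit 4) (nat_lit 332) (nat_lit 227) (nat_lit 221))))) (XT.nd (nat_lit 234) (nat_lit 228) (nat_lit 0) (XT.nd (nat_lit 78) (nat_lit 228) (nat_lit 0) (XT.lf (nat_lit 0) (nat_lit 1882396697) (nat_lit 152) (nat_lit 8083376200) (nat_lit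 152) (nat_lit 4489832511) (nat_lit 32) (nat_lit 4) (nat_lit 34) (nat_lit 5) (nat_lit 34) (nat_lit 4) (nat_lit 333) (nat_lit 227) (nat_lit 220)) (XT.nd (nat_lit 78) (nat_lit 228) (nat_lit 0) (XT.lf (nat_lit 0) (nat_lit 9289107096) (nat_lit 152) (nat_lit 4757648874) (nat_lit 152) (nat_lit 708784521) (nat_lit 32) (nat_lit 4) (nat_lit 34) (nat_lit 5) (nat_lit 34) (nat_lit 4) (nat_lit 334) (nat_lit 227) (nat_lit 219)) (XT.lf (nat_lit 0) (nat_lit 1723098748) (nat_lit 152) (nat_lit 1337995832) (nat_lit 228) (nat_lit 12004385141) (nat_lit 29) (nat_lit 5) (nat_lit 31) (nat_lit 5) (nat_lit 32) (nat_lit 4) (nat_lit 335) (nat_lit 227) (nat_lit 218)))) (XT.nd (nat_lit 156) (nat_lit 76) (nat_lit 0) (XT.nd (nat_lit 78) (nat_lit 152) (nat_lit 0) (XT.lf (nat_lit 0) (nat_lit 6928077910) (nat_lit 228) (nat_lit 6305255929) (nat_lit 0) (nat_lit 2151275341) (nat_lit 29) (nat_lit 5) (nat_lit 32) (nat_lit 4) (nat_lit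 29) (nat_lit 4) (nat_lit 336) (nat_lit 227) (nat_lit 217)) (XT.lf (nat_lit 0) (nat_lit 815545070) (nat_lit 152) (nat_lit 10040409377) (nat_lit 152) (nat_lit 4859060296) (nat_lit 27) (nat_lit 4) (nat_lit 29) (nat_lit 5) (nat_lit 29) (nat_lit 4) (nat_lit 337) (nat_lit 227) (nat_lit 216))) (XT.nd (nat_lit 78) (nat_lit 76) (nat_lit 0) (XT.lf (nat_lit 0) (nat_lit 8150392665) (nat_lit 152) (nat_lit 6739723175) (nat_lit 152) (nat_lit 1165610489) (nat_lit 27) (nat_lit 4) (nat_lit 29) (nat_lit 5) (nat_lit 29) (nat_lit 4) (nat_lit 338) (nat_lit 227) (nat_lit 215)) (XT.lf (nat_lit 0) (nat_lit 2513354040) (nat_lit 228) (nat_lit 853327872) (nat_lit 76) (nat_lit 13041475002) (nat_lit 26) (nat_lit 5) (nat_lit 29) (nat_lit 5) (nat_lit 27) (nat_lit 4) (nat_lit 339) (nat_lit 227) (nat_lit 214))))))) (XT.nd (nat_lit 1014) (nat_lit 532) (nat_lit 0) (XT.nd (nat_lit 468) (nat_lit 304) (nat_lit 0) (XT.nd (nat_lit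 234) (nat_lit 152) (nat_lit 0) (XT.nd (nat_lit 78) (nat_lit 152) (nat_lit 0) (XT.lf (nat_lit 0) (nat_lit 6270402047) (nat_lit 152) (nat_lit 10371730726) (nat_lit 0) (nat_lit 128990454) (nat_lit 25) (nat_lit 5) (nat_lit 27) (nat_lit 4) (nat_lit 25) (nat_lit 4) (nat_lit 340) (nat_lit 227) (nat_lit 213)) (XT.nd (nat_lit 78) (nat_lit 152) (nat_lit 0) (XT.lf (nat_lit 0) (nat_lit 10110974527) (nat_lit 152) (nat_lit 3414324091) (nat_lit 0) (nat_lit 3620597559) (nat_lit 25) (nat_lit 5) (nat_lit 27) (nat_lit 4) (nat_lit 25) (nat_lit 4) (nat_lit 341) (nat_lit 227) (nat_lit 212)) (XT.lf (nat_lit 0) (nat_lit 3704310405) (nat_lit 152) (nat_lit 10328913615) (nat_lit 152) (nat_lit 3499735311) (nat_lit 23) (nat_lit 4) (nat_lit 25) (nat_lit 5) (nat_lit 25) (nat_lit 4) (nat_lit 342) (nat_lit 227) (nat_lit 211)))) (XT.nd (nat_lit 78) (nat_lit 76) (nat_lit 0) (XT.lf (nat_lit 0) (nat_lit 104575493) (nat_lit 228)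 (nat_lit 6945823387) (nat_lit 76) (nat_lit 10882258258) (nat_lit 22) (nat_lit 5) (nat_lit 25) (nat_lit 5) (nat_lit 23) (nat_lit 4) (nat_lit 343) (nat_lit 227) (nat_lit 210)) (XT.nd (nat_lit 78) (nat_lit 76) (nat_lit 0) (XT.lf (nat_lit 0) (nat_lit 3679694636) (nat_lit 228) (nat_lit 7684278) (nat_lit 76) (nat_lit 14657974181) (nat_lit 22) (nat_lit 5) (nat_lit 25) (nat_lit 5) (nat_lit 23) (nat_lit 4) (nat_lit 344) (nat_lit 227) (nat_lit 209)) (XT.lf (nat_lit 0) (nat_lit 7165293123) (nat_lit 76) (nat_lit 200622507) (nat_lit 152) (nat_lit 11404435115) (nat_lit 21) (nat_lit 5) (nat_lit 22) (nat_lit 5) (nat_lit 23) (nat_lit 4) (nat_lit 345) (nat_lit 227) (nat_lit 208))))) (XT.nd (nat_lit 234) (nat_lit 152) (nat_lit 0) (XT.nd (nat_lit 78) (nat_lit 152) (nat_lit 0) (XT.lf (nat_lit 0) (nat_lit 11130724276) (nat_lit 152) (nat_lit 4800592720) (nat_lit 0) (nat_lit 3277776503) (nat_lit 21) (nat_lit 5) (nat_lit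 23) (nat_lit 4) (nat_lit 21) (nat_lit 4) (nat_lit 346) (nat_lit 227) (nat_lit 207)) (XT.nd (nat_lit 78) (nat_lit 0) (nat_lit 0) (XT.lf (nat_lit 0) (nat_lit 2137517335) (nat_lit 152) (nat_lit 12830705780) (nat_lit 152) (nat_lit 4694017222) (nat_lit 19) (nat_lit 4) (nat_lit 21) (nat_lit 5) (nat_lit 21) (nat_lit 4) (nat_lit 347) (nat_lit 227) (nat_lit 206)) (XT.lf (nat_lit 0) (nat_lit 9273045561) (nat_lit 152) (nat_lit 9634270094) (nat_lit 152) (nat_lit 1222105047) (nat_lit 19) (nat_lit 4) (nat_lit 21) (nat_lit 5) (nat_lit 21) (nat_lit 4) (nat_lit 348) (nat_lit 227) (nat_lit 205)))) (XT.nd (nat_lit 156) (nat_lit 0) (nat_lit 0) (XT.nd (nat_lit 78) (nat_lit 76) (nat_lit 0) (XT.lf (nat_lit 0) (nat_lit 2247200738) (nat_lit 228) (nat_lit 4117800452) (nat_lit 76) (nat_lit 14246792619) (nat_lit 18) (nat_lit 5) (nat_lit 21) (nat_lit 5) (nat_lit 19) (nat_lit 4) (nat_lit 349) (nat_lit 227) (nat_lit 204))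 (XT.lf (nat_lit 0) (nat_lit 2760627565) (nat_lit 76) (nat_lit 3002874172) (nat_lit 152) (nat_lit 15345779364) (nat_lit 17) (nat_lit 5) (nat_lit 18) (nat_lit 5) (nat_lit 19) (nat_lit 4) (nat_lit 350) (nat_lit 227) (nat_lit 203))) (XT.nd (nat_lit 78) (nat_lit 0) (nat_lit 0) (XT.lf (nat_lit 0) (nat_lit 9372949992) (nat_lit 152) (nat_lit 11799863614) (nat_lit 0) (nat_lit 449279143) (nat_lit 17) (nat_lit 5) (nat_lit 19) (nat_lit 4) (nat_lit 17) (nat_lit 4) (nat_lit 351) (nat_lit 227) (nat_lit 202)) (XT.lf (nat_lit 0) (nat_lit 13063366414) (nat_lit 152) (nat_lit 5185703290) (nat_lit 0) (nat_lit 3902067125) (nat_lit 17) (nat_lit 5) (nat_lit 19) (nat_lit 4) (nat_lit 17) (nat_lit 4) (nat_lit 352) (nat_lit 227) (nat_lit 201)))))) (XT.nd (nat_lit 546) (nat_lit 228) (nat_lit 0) (XT.nd (nat_lit 234) (nat_lit 76) (nat_lit 0) (XT.nd (nat_lit 78) (nat_lit 76) (nat_lit 0) (XT.lf (nat_lit 0) (nat_lit 1558891857)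 (nat_lit 152) (nat_lit 15265203342) (nat_lit 152) (nat_lit 5873196829) (nat_lit 15) (nat_lit 4) (nat_lit 17) (nat_lit 5) (nat_lit 17) (nat_lit 4) (nat_lit 353) (nat_lit 227) (nat_lit 200)) (XT.nd (nat_lit 78) (nat_lit 76) (nat_lit 0) (XT.lf (nat_lit 0) (nat_lit 8514681910) (nat_lit 152) (nat_lit 12180620680) (nat_lit 152) (nat_lit 2564626572) (nat_lit 15) (nat_lit 4) (nat_lit 17) (nat_lit 5) (nat_lit 17) (nat_lit 4) (nat_lit 354) (nat_lit 227) (nat_lit 199)) (XT.lf (nat_lit 0) (nat_lit 773080095) (nat_lit 228) (nat_lit 8264105198) (nat_lit 76) (nat_lit 14803652393) (nat_lit 14) (nat_lit 5) (nat_lit 17) (nat_lit 5) (nat_lit 15) (nat_lit 4) (nat_lit 355) (nat_lit 227) (nat_lit 198)))) (XT.nd (nat_lit 156) (nat_lit 0) (nat_lit 0) (XT.nd (nat_lit 78) (nat_lit 76) (nat_lit 0) (XT.lf (nat_lit 0) (nat_lit 4107267806) (nat_lit 228) (nat_lit 1706833936) (nat_lit 76) (nat_lit 18625897758) (nat_lit 14)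 (nat_lit 5) (nat_lit 17) (nat_lit 5) (nat_lit 15) (nat_lit 4) (nat_lit 356) (nat_lit 227) (nat_lit 197)) (XT.lf (nat_lit 0) (nat_lit 5055601952) (nat_lit 76) (nat_lit 2483890617) (nat_lit 152) (nat_lit 17517727230) (nat_lit 13) (nat_lit 5) (nat_lit 14) (nat_lit 5) (nat_lit 15) (nat_lit 4) (nat_lit 357) (nat_lit 227) (nat_lit 196))) (XT.nd (nat_lit 78) (nat_lit 0) (nat_lit 0) (XT.lf (nat_lit 0) (nat_lit 11050836494) (nat_lit 152) (nat_lit 13736272947) (nat_lit 0) (nat_lit 906585968) (nat_lit 13) (nat_lit 5) (nat_lit 15) (nat_lit 4) (nat_lit 13) (nat_lit 4) (nat_lit 358) (nat_lit 227) (nat_lit 195)) (XT.lf (nat_lit 0) (nat_lit 14643230587) (nat_lit 152) (nat_lit 7395392024) (nat_lit 0) (nat_lit 4311393976) (nat_lit 13) (nat_lit 5) (nat_lit 15) (nat_lit 4) (nat_lit 13) (nat_lit 4) (nat_lit 359) (nat_lit 227) (nat_lit 194))))) (XT.nd (nat_lit 234) (nat_lit 152) (nat_lit 0) (XT.nd (nat_lit 78) (nat_lit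 76) (nat_lit 0) (XT.lf (nat_lit 0) (nat_lit 18295937158) (nat_lit 152) (nat_lit 949557828) (nat_lit 0) (nat_lit 7781978135) (nat_lit 13) (nat_lit 5) (nat_lit 15) (nat_lit 4) (nat_lit 13) (nat_lit 4) (nat_lit 360) (nat_lit 227) (nat_lit 193)) (XT.nd (nat_lit 78) (nat_lit 0) (nat_lit 0) (XT.lf (nat_lit 0) (nat_lit 5718449469) (nat_lit 76) (nat_lit 16348667657) (nat_lit 76) (nat_lit 5657890758) (nat_lit 12) (nat_lit 4) (nat_lit 13) (nat_lit 5) (nat_lit 13) (nat_lit 4) (nat_lit 361) (nat_lit 227) (nat_lit 192)) (XT.lf (nat_lit 0) (nat_lit 12523984182) (nat_lit 76) (nat_lit 13391513979) (nat_lit 76) (nat_lit 2529069239) (nat_lit 12) (nat_lit 4) (nat_lit 13) (nat_lit 5) (nat_lit 13) (nat_lit 4) (nat_lit 362) (nat_lit 227) (nat_lit 191)))) (XT.nd (nat_lit 156) (nat_lit 76) (nat_lit 0) (XT.nd (nat_lit 78) (nat_lit 0) (nat_lit 0) (XT.lf (nat_lit 0) (nat_lit 635427588) (nat_lit 152) (nat_lit 9739194542)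 (nat_lit 76) (nat_lit 18812250670) (nat_lit 11) (nat_lit 5) (nat_lit 13) (nat_lit 5) (nat_lit 12) (nat_lit 4) (nat_lit 363) (nat_lit 227) (nat_lit 190)) (XT.lf (nat_lit 0) (nat_lit 3800673773) (nat_lit 152) (nat_lit 3475558192) (nat_lit 76) (nat_lit 22675783727) (nat_lit 11) (nat_lit 5) (nat_lit 13) (nat_lit 5) (nat_lit 12) (nat_lit 4) (nat_lit 364) (nat_lit 227) (nat_lit 189))) (XT.nd (nat_lit 78) (nat_lit 0) (nat_lit 0) (XT.lf (nat_lit 0) (nat_lit 2957827746) (nat_lit 76) (nat_lit 4089391017) (nat_lit 152) (nat_lit 23693322237) (nat_lit 10) (nat_lit 5) (nat_lit 11) (nat_lit 5) (nat_lit 12) (nat_lit 4) (nat_lit 365) (nat_lit 227) (nat_lit 188)) (XT.lf (nat_lit 0) (nat_lit 9580327319) (nat_lit 76) (nat_lit 804341802) (nat_lit 152) (nat_lit 21168265514) (nat_lit 10) (nat_lit 5) (nat_lit 11) (nat_lit 5) (nat_lit 12) (nat_lit 4) (nat_lit 366) (nat_lit 227) (nat_lit 187))))))))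
noncomputable def xc34 : XT := (XT.nd (nat_lit 2028) (nat_lit 152) (nat_lit 0) (XT.nd (nat_lit 1014) (nat_lit 152) (nat_lit 0) (XT.nd (nat_lit 468) (nat_lit 152) (nat_lit 0) (XT.nd (nat_lit 234) (nat_lit 76) (nat_lit 0) (XT.nd (nat_lit 78) (nat_lit 0) (nat_lit 0) (XT.lf (nat_lit 0) (nat_lit 13806347306) (nat_lit 152) (nat_lit 16086852266) (nat_lit 0) (nat_lit 2496994698) (nat_lit 10) (nat_lit 5) (nat_lit 12) (nat_lit 4) (nat_lit 10) (nat_lit 4) (nat_lit 367) (nat_lit 227) (nat_lit 186)) (XT.nd (nat_lit 78) (nat_lit 0) (nat_lit 0) (XT.lf (nat_lit 0) (nat_lit 17299135636) (nat_lit 152) (nat_lit 10104197713) (nat_lit 0) (nat_lit 5850201364) (nat_lit 10) (nat_lit 5) (nat_lit 12) (nat_lit 4) (nat_lit 10) (nat_lit 4) (nat_lit 368) (nat_lit 227) (nat_lit 185)) (XT.lf (nat_lit 0) (nat_lit 20858354237) (nat_lit 152) (nat_lit 4011684271) (nat_lit 0) (nat_lit 9273903786) (nat_lit 10) (nat_lit 5) (nat_lit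 12) (nat_lit 4) (nat_lit 10) (nat_lit 4) (nat_lit 369) (nat_lit 227) (nat_lit 184)))) (XT.nd (nat_lit 78) (nat_lit 0) (nat_lit 0) (XT.lf (nat_lit 0) (nat_lit 2239716552) (nat_lit 76) (nat_lit 22268926081) (nat_lit 76) (nat_lit 10552906524) (nat_lit 9) (nat_lit 4) (nat_lit 10) (nat_lit 5) (nat_lit 10) (nat_lit 4) (nat_lit 370) (nat_lit 227) (nat_lit 183)) (XT.nd (nat_lit 78) (nat_lit 0) (nat_lit 0) (XT.lf (nat_lit 0) (nat_lit 8693964712) (nat_lit 76) (nat_lit 19578190000) (nat_lit 76) (nat_lit 7734433448) (nat_lit 9) (nat_lit 4) (nat_lit 10) (nat_lit 5) (nat_lit 10) (nat_lit 4) (nat_lit 371) (nat_lit 227) (nat_lit 182)) (XT.lf (nat_lit 0) (nat_lit 15276859461) (nat_lit 76) (nat_lit 16835989284) (nat_lit 76) (nat_lit 4868216231) (nat_lit 9) (nat_lit 4) (nat_lit 10) (nat_lit 5) (nat_lit 10) (nat_lit 4) (nat_lit 372) (nat_lit 227) (nat_lit 181))))) (XT.nd (nat_lit 234) (nat_lit 76) (nat_lit 0) (XT.nd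 (nat_lit 78) (nat_lit 76) (nat_lit 0) (XT.lf (nat_lit 0) (nat_lit 21994152842) (nat_lit 76) (nat_lit 14039927834) (nat_lit 76) (nat_lit 1951750411) (nat_lit 9) (nat_lit 4) (nat_lit 10) (nat_lit 5) (nat_lit 10) (nat_lit 4) (nat_lit 373) (nat_lit 227) (nat_lit 180)) (XT.nd (nat_lit 78) (nat_lit 0) (nat_lit 0) (XT.lf (nat_lit 0) (nat_lit 997657047) (nat_lit 152) (nat_lit 10179831063) (nat_lit 76) (nat_lit 27843982908) (nat_lit 8) (nat_lit 5) (nat_lit 10) (nat_lit 5) (nat_lit 9) (nat_lit 4) (nat_lit 374) (nat_lit 227) (nat_lit 179)) (XT.lf (nat_lit 0) (nat_lit 3963289410) (nat_lit 152) (nat_lit 4273090033) (nat_lit 76) (nat_lit 31852225121) (nat_lit 8) (nat_lit 5) (nat_lit 10) (nat_lit 5) (nat_lit 9) (nat_lit 4) (nat_lit 375) (nat_lit 227) (nat_lit 178)))) (XT.nd (nat_lit 156) (nat_lit 0) (nat_lit 0) (XT.nd (nat_lit 78) (nat_lit 0) (nat_lit 0) (XT.lf (nat_lit 0) (nat_lit 1787345034) (nat_lit 76)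 (nat_lit 5215659707) (nat_lit 152) (nat_lit 34185206842) (nat_lit 7) (nat_lit 5) (nat_lit 8) (nat_lit 5) (nat_lit 9) (nat_lit 4) (nat_lit 376) (nat_lit 227) (nat_lit 177)) (XT.lf (nat_lit 0) (nat_lit 8059373985) (nat_lit 76) (nat_lit 2085998575) (nat_lit 152) (nat_lit 32175102932) (nat_lit 7) (nat_lit 5) (nat_lit 8) (nat_lit 5) (nat_lit 9) (nat_lit 4) (nat_lit 377) (nat_lit 227) (nat_lit 176))) (XT.nd (nat_lit 78) (nat_lit 0) (nat_lit 0) (XT.lf (nat_lit 0) (nat_lit 13361936627) (nat_lit 152) (nat_lit 29034899117) (nat_lit 0) (nat_lit 1090485966) (nat_lit 7) (nat_lit 5) (nat_lit 9) (nat_lit 4) (nat_lit 7) (nat_lit 4) (nat_lit 378) (nat_lit 227) (nat_lit 175)) (XT.lf (nat_lit 0) (nat_lit 16665544622) (nat_lit 152) (nat_lit 23727729884) (nat_lit 0) (nat_lit 4296194191) (nat_lit 7) (nat_lit 5) (nat_lit 9) (nat_lit 4) (nat_lit 7) (nat_lit 4) (nat_lit 379) (nat_lit 227) (nat_lit 174)))))) (XT.nd (nat_lit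 468) (nat_lit 76) (nat_lit 0) (XT.nd (nat_lit 234) (nat_lit 76) (nat_lit 0) (XT.nd (nat_lit 78) (nat_lit 0) (nat_lit 0) (XT.lf (nat_lit 0) (nat_lit 20039031300) (nat_lit 152) (nat_lit 18314904584) (nat_lit 0) (nat_lit 7574632547) (nat_lit 7) (nat_lit 5) (nat_lit 9) (nat_lit 4) (nat_lit 7) (nat_lit 4) (nat_lit 380) (nat_lit 227) (nat_lit 173)) (XT.nd (nat_lit 78) (nat_lit 0) (nat_lit 0) (XT.lf (nat_lit 0) (nat_lit 23485344367) (nat_lit 152) (nat_lit 12791693562) (nat_lit 0) (nat_lit 10928665690) (nat_lit 7) (nat_lit 5) (nat_lit 9) (nat_lit 4) (nat_lit 7) (nat_lit 4) (nat_lit 381) (nat_lit 227) (nat_lit 172)) (XT.lf (nat_lit 0) (nat_lit 27007495164) (nat_lit 152) (nat_lit 7153270711) (nat_lit 0) (nat_lit 14361224329) (nat_lit 7) (nat_lit 5) (nat_lit 9) (nat_lit 4) (nat_lit 7) (nat_lit 4) (nat_lit 382) (nat_lit 227) (nat_lit 171)))) (XT.nd (nat_lit 78) (nat_lit 76) (nat_lit 0) (XT.lf (nat_lit 0)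 (nat_lit 30608561300) (nat_lit 152) (nat_lit 1394709256) (nat_lit 0) (nat_lit 17875307786) (nat_lit 7) (nat_lit 5) (nat_lit 9) (nat_lit 4) (nat_lit 7) (nat_lit 4) (nat_lit 383) (nat_lit 227) (nat_lit 170)) (XT.nd (nat_lit 78) (nat_lit 0) (nat_lit 0) (XT.lf (nat_lit 0) (nat_lit 4578362908) (nat_lit 76) (nat_lit 29757336453) (nat_lit 76) (nat_lit 16939633737) (nat_lit 6) (nat_lit 4) (nat_lit 7) (nat_lit 5) (nat_lit 7) (nat_lit 4) (nat_lit 384) (nat_lit 227) (nat_lit 169)) (XT.lf (nat_lit 0) (nat_lit 10712097458) (nat_lit 76) (nat_lit 27450971316) (nat_lit 76) (nat_lit 14551279082) (nat_lit 6) (nat_lit 4) (nat_lit 7) (nat_lit 5) (nat_lit 7) (nat_lit 4) (nat_lit 385) (nat_lit 227) (nat_lit 168))))) (XT.nd (nat_lit 234) (nat_lit 76) (nat_lit 0) (XT.nd (nat_lit 78) (nat_lit 0) (nat_lit 0) (XT.lf (nat_lit 0) (nat_lit 16984096520) (nat_lit 76) (nat_lit 25096243702) (nat_lit 76) (nat_lit 12116949996)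 (nat_lit 6) (nat_lit 4) (nat_lit 7) (nat_lit 5) (nat_lit 7) (nat_lit 4) (nat_lit 386) (nat_lit 227) (nat_lit 167)) (XT.nd (nat_lit 78) (nat_lit 0) (nat_lit 0) (XT.lf (nat_lit 0) (nat_lit 23399840480) (nat_lit 76) (nat_lit 22691096084) (nat_lit 76) (nat_lit 9634519394) (nat_lit 6) (nat_lit 4) (nat_lit 7) (nat_lit 5) (nat_lit 7) (nat_lit 4) (nat_lit 387) (nat_lit 227) (nat_lit 166)) (XT.lf (nat_lit 0) (nat_lit 29964935328) (nat_lit 76) (nat_lit 20233426875) (nat_lit 76) (nat_lit 7101818163) (nat_lit 6) (nat_lit 4) (nat_lit 7) (nat_lit 5) (nat_lit 7) (nat_lit 4) (nat_lit 388) (nat_lit 227) (nat_lit 165)))) (XT.nd (nat_lit 156) (nat_lit 76) (nat_lit 0) (XT.nd (nat_lit 78) (nat_lit 0) (nat_lit 0) (XT.lf (nat_lit 0) (nat_lit 36685117556) (nat_lit 76) (nat_lit 17721088598) (nat_lit 76) (nat_lit 4516633262) (nat_lit 6) (nat_lit 4) (nat_lit 7) (nat_lit 5) (nat_lit 7) (nat_lit 4) (nat_lit 389) (nat_lit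 227) (nat_lit 164)) (XT.lf (nat_lit 0) (nat_lit 43566259166) (nat_lit 76) (nat_lit 15151886006) (nat_lit 76) (nat_lit 1876705792) (nat_lit 6) (nat_lit 4) (nat_lit 7) (nat_lit 5) (nat_lit 7) (nat_lit 4) (nat_lit 390) (nat_lit 227) (nat_lit 163))) (XT.nd (nat_lit 78) (nat_lit 0) (nat_lit 0) (XT.lf (nat_lit 0) (nat_lit 804264537) (nat_lit 152) (nat_lit 11711188132) (nat_lit 76) (nat_lit 49801986775) (nat_lit 5) (nat_lit 5) (nat_lit 7) (nat_lit 5) (nat_lit 6) (nat_lit 4) (nat_lit 391) (nat_lit 227) (nat_lit 162)) (XT.lf (nat_lit 0) (nat_lit 3506860238) (nat_lit 152) (nat_lit 6291583839) (nat_lit 76) (nat_lit 54293344374) (nat_lit 5) (nat_lit 5) (nat_lit 7) (nat_lit 5) (nat_lit 6) (nat_lit 4) (nat_lit 392) (nat_lit 227) (nat_lit 161))))))) (XT.nd (nat_lit 1014) (nat_lit 76) (nat_lit 0) (XT.nd (nat_lit 468) (nat_lit 0) (nat_lit 0) (XT.nd (nat_lit 234) (nat_lit 0) (nat_lit 0) (XT.nd (nat_lit 78) (nat_lit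 76) (nat_lit 0) (XT.lf (nat_lit 0) (nat_lit 6270064091) (nat_lit 152) (nat_lit 747003299) (nat_lit 76) (nat_lit 58902922199) (nat_lit 5) (nat_lit 5) (nat_lit 7) (nat_lit 5) (nat_lit 6) (nat_lit 4) (nat_lit 393) (nat_lit 227) (nat_lit 160)) (XT.nd (nat_lit 78) (nat_lit 0) (nat_lit 0) (XT.lf (nat_lit 0) (nat_lit 5025463153) (nat_lit 76) (nat_lit 4119135218) (nat_lit 152) (nat_lit 58657592710) (nat_lit 4) (nat_lit 5) (nat_lit 5) (nat_lit 5) (nat_lit 6) (nat_lit 4) (nat_lit 394) (nat_lit 227) (nat_lit 159)) (XT.lf (nat_lit 0) (nat_lit 10950258049) (nat_lit 76) (nat_lit 1143011651) (nat_lit 152) (nat_lit 57647959024) (nat_lit 4) (nat_lit 5) (nat_lit 5) (nat_lit 5) (nat_lit 6) (nat_lit 4) (nat_lit 395) (nat_lit 227) (nat_lit 158)))) (XT.nd (nat_lit 78) (nat_lit 0) (nat_lit 0) (XT.lf (nat_lit 0) (nat_lit 15129656127) (nat_lit 152) (nat_lit 54739650068) (nat_lit 0) (nat_lit 1869160578) (nat_lit 4) (nat_lit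 5) (nat_lit 6) (nat_lit 4) (nat_lit 4) (nat_lit 4) (nat_lit 396) (nat_lit 227) (nat_lit 157)) (XT.nd (nat_lit 78) (nat_lit 0) (nat_lit 0) (XT.lf (nat_lit 0) (nat_lit 18249786739) (nat_lit 152) (nat_lit 50612602055) (nat_lit 0) (nat_lit 4933460319) (nat_lit 4) (nat_lit 5) (nat_lit 6) (nat_lit 4) (nat_lit 4) (nat_lit 4) (nat_lit 397) (nat_lit 227) (nat_lit 156)) (XT.lf (nat_lit 0) (nat_lit 21445400537) (nat_lit 152) (nat_lit 46395233148) (nat_lit 0) (nat_lit 8074869387) (nat_lit 4) (nat_lit 5) (nat_lit 6) (nat_lit 4) (nat_lit 4) (nat_lit 4) (nat_lit 398) (nat_lit 227) (nat_lit 155))))) (XT.nd (nat_lit 234) (nat_lit 0) (nat_lit 0) (XT.nd (nat_lit 78) (nat_lit 0) (nat_lit 0) (XT.lf (nat_lit 0) (nat_lit 24719289805) (nat_lit 152) (nat_lit 42083858269) (nat_lit 0) (nat_lit 11296132705) (nat_lit 4) (nat_lit 5) (nat_lit 6) (nat_lit 4) (nat_lit 4) (nat_lit 4) (nat_lit 399) (nat_lit 227) (nat_lit 154))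 (XT.nd (nat_lit 78) (nat_lit 0) (nat_lit 0) (XT.lf (nat_lit 0) (nat_lit 28074315224) (nat_lit 152) (nat_lit 37674710197) (nat_lit 0) (nat_lit 14600064967) (nat_lit 4) (nat_lit 5) (nat_lit 6) (nat_lit 4) (nat_lit 4) (nat_lit 4) (nat_lit 400) (nat_lit 227) (nat_lit 153)) (XT.lf (nat_lit 0) (nat_lit 31513408368) (nat_lit 152) (nat_lit 33163936279) (nat_lit 0) (nat_lit 17989553105) (nat_lit 4) (nat_lit 5) (nat_lit 6) (nat_lit 4) (nat_lit 4) (nat_lit 4) (nat_lit 401) (nat_lit 227) (nat_lit 152)))) (XT.nd (nat_lit 156) (nat_lit 0) (nat_lit 0) (XT.nd (nat_lit 78) (nat_lit 0) (nat_lit 0) (XT.lf (nat_lit 0) (nat_lit 35039574271) (nat_lit 152) (nat_lit 28547595060) (nat_lit 0) (nat_lit 21467558808) (nat_lit 4) (nat_lit 5) (nat_lit 6) (nat_lit 4) (nat_lit 4) (nat_lit 4) (nat_lit 402) (nat_lit 227) (nat_lit 151)) (XT.lf (nat_lit 0) (nat_lit 38655894048) (nat_lit 152) (nat_lit 23821652846) (nat_lit 0) (nat_lit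 25037121110) (nat_lit 4) (nat_lit 5) (nat_lit 6) (nat_lit 4) (nat_lit 4) (nat_lit 4) (nat_lit 403) (nat_lit 227) (nat_lit 150))) (XT.nd (nat_lit 78) (nat_lit 0) (nat_lit 0) (XT.lf (nat_lit 0) (nat_lit 42365527591) (nat_lit 152) (nat_lit 18981980171) (nat_lit 0) (nat_lit 28701359045) (nat_lit 4) (nat_lit 5) (nat_lit 6) (nat_lit 4) (nat_lit 4) (nat_lit 4) (nat_lit 404) (nat_lit 227) (nat_lit 149)) (XT.lf (nat_lit 0) (nat_lit 46171716327) (nat_lit 152) (nat_lit 14024348196) (nat_lit 0) (nat_lit 32463474375) (nat_lit 4) (nat_lit 5) (nat_lit 6) (nat_lit 4) (nat_lit 4) (nat_lit 4) (nat_lit 405) (nat_lit 227) (nat_lit 148)))))) (XT.nd (nat_lit 34476) (nat_lit 0) (nat_lit 2204) (XT.nd (nat_lit 34242) (nat_lit 0) (nat_lit 2964) (XT.nd (nat_lit 78) (nat_lit 76) (nat_lit 0) (XT.lf (nat_lit 0) (nat_lit 50077786051) (nat_lit 152) (nat_lit 8944425010) (nat_lit 0) (nat_lit 36326754385) (nat_lit 4) (nat_lit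 5) (nat_lit 6) (nat_lit 4) (nat_lit 4) (nat_lit 4) (nat_lit 406) (nat_lit 227) (nat_lit 147)) (XT.nd (nat_lit 78) (nat_lit 76) (nat_lit 0) (XT.lf (nat_lit 0) (nat_lit 54087149835) (nat_lit 152) (nat_lit 3737771844) (nat_lit 0) (nat_lit 40294574758) (nat_lit 4) (nat_lit 5) (nat_lit 6) (nat_lit 4) (nat_lit 4) (nat_lit 4) (nat_lit 407) (nat_lit 227) (nat_lit 146)) (XT.lf (nat_lit 0) (nat_lit 1632007141) (nat_lit 76) (nat_lit 56586991716) (nat_lit 76) (nat_lit 42754083229) (nat_lit 3) (nat_lit 4) (nat_lit 4) (nat_lit 5) (nat_lit 4) (nat_lit 4) (nat_lit 408) (nat_lit 227) (nat_lit 145)))) (XT.nd (nat_lit 78) (nat_lit 228) (nat_lit 0) (XT.lf (nat_lit 0) (nat_lit 499934222) (nat_lit 228) (nat_lit 5077714111) (nat_lit 0) (nat_lit 499934222) (nat_lit 45) (nat_lit 5) (nat_lit 48) (nat_lit 4) (nat_lit 45) (nat_lit 4) (nat_lit 324) (nat_lit 228) (nat_lit 228)) (XT.nd (nat_lit 78) (nat_lit 228) (nat_lit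 0) (XT.lf (nat_lit 0) (nat_lit 4972922875) (nat_lit 228) (nat_lit 3044983598) (nat_lit 0) (nat_lit 4361009977) (nat_lit 45) (nat_lit 5) (nat_lit 48) (nat_lit 4) (nat_lit 45) (nat_lit 4) (nat_lit 325) (nat_lit 228) (nat_lit 227)) (XT.lf (nat_lit 0) (nat_lit 4217802001) (nat_lit 228) (nat_lit 4799543839) (nat_lit 228) (nat_lit 3593540748) (nat_lit 42) (nat_lit 4) (nat_lit 45) (nat_lit 5) (nat_lit 45) (nat_lit 4) (nat_lit 326) (nat_lit 228) (nat_lit 226))))) (XT.nd (nat_lit 234) (nat_lit 380) (nat_lit 0) (XT.nd (nat_lit 78) (nat_lit 304) (nat_lit 0) (XT.lf (nat_lit 0) (nat_lit 269746643) (nat_lit 304) (nat_lit 1235203998) (nat_lit 76) (nat_lit 11346547595) (nat_lit 41) (nat_lit 5) (nat_lit 45) (nat_lit 5) (nat_lit 42) (nat_lit 4) (nat_lit 327) (nat_lit 228) (nat_lit 225)) (XT.nd (nat_lit 78) (nat_lit 152) (nat_lit 0) (XT.lf (nat_lit 0) (nat_lit 4168202997) (nat_lit 228) (nat_lit 7036715892) (nat_lit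 0) (nat_lit 1893662540) (nat_lit 39) (nat_lit 5) (nat_lit 42) (nat_lit 4) (nat_lit 39) (nat_lit 4) (nat_lit 328) (nat_lit 228) (nat_lit 224)) (XT.lf (nat_lit 0) (nat_lit 97118609) (nat_lit 152) (nat_lit 8030048682) (nat_lit 152) (nat_lit 5227666784) (nat_lit 37) (nat_lit 4) (nat_lit 39) (nat_lit 5) (nat_lit 39) (nat_lit 4) (nat_lit 329) (nat_lit 228) (nat_lit 223)))) (XT.nd (nat_lit 156) (nat_lit 152) (nat_lit 0) (XT.nd (nat_lit 78) (nat_lit 228) (nat_lit 0) (XT.lf (nat_lit 0) (nat_lit 7450371367) (nat_lit 152) (nat_lit 4741847220) (nat_lit 152) (nat_lit 1426997904) (nat_lit 37) (nat_lit 4) (nat_lit 39) (nat_lit 5) (nat_lit 39) (nat_lit 4) (nat_lit 330) (nat_lit 228) (nat_lit 222)) (XT.lf (nat_lit 0) (nat_lit 991636515) (nat_lit 152) (nat_lit 1374879255) (nat_lit 228) (nat_lit 11526534346) (nat_lit 34) (nat_lit 5) (nat_lit 36) (nat_lit 5) (nat_lit 37) (nat_lit 4) (nat_lit 331) (nat_lit 228)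 (nat_lit 221))) (XT.nd (nat_lit 78) (nat_lit 152) (nat_lit 0) (XT.lf (nat_lit 0) (nat_lit 6246594122) (nat_lit 228) (nat_lit 5851830208) (nat_lit 0) (nat_lit 2076263838) (nat_lit 34) (nat_lit 5) (nat_lit 37) (nat_lit 4) (nat_lit 34) (nat_lit 4) (nat_lit 332) (nat_lit 228) (nat_lit 220)) (XT.lf (nat_lit 0) (nat_lit 1287625550) (nat_lit 152) (nat_lit 8902226151) (nat_lit 152) (nat_lit 4276575203) (nat_lit 32) (nat_lit 4) (nat_lit 34) (nat_lit 5) (nat_lit 34) (nat_lit 4) (nat_lit 333) (nat_lit 228) (nat_lit 219))))))))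
noncomputable def xc35 : XT := (XT.nd (nat_lit 2028) (nat_lit 532) (nat_lit 0) (XT.nd (nat_lit 1014) (nat_lit 608) (nat_lit 0) (XT.nd (nat_lit 468) (nat_lit 380) (nat_lit 0) (XT.nd (nat_lit 234) (nat_lit 228) (nat_lit 0) (XT.nd (nat_lit 78) (nat_lit 228) (nat_lit 0) (XT.lf (nat_lit 0) (nat_lit 8629398264) (nat_lit 152) (nat_lit 5602927535) (nat_lit 152) (nat_lit 535217690) (nat_lit 32) (nat_lit 4) (nat_lit 34) (nat_lit 5) (nat_lit 34) (nat_lit 4) (nat_lit 334) (nat_lit 228) (nat_lit 218)) (XT.nd (nat_lit 78) (nat_lit 0) (nat_lit 0) (XT.lf (nat_lit 0) (nat_lit 971223731) (nat_lit 152) (nat_lit 2215040786) (nat_lit 228) (nat_lit 11892543174) (nat_lit 29) (nat_lit 5) (nat_lit 31) (nat_lit 5) (nat_lit 32) (nat_lit 4) (nat_lit 335) (nat_lit 228) (nat_lit 217)) (XT.lf (nat_lit 0) (nat_lit 7007278586) (nat_lit 228) (nat_lit 7126119127) (nat_lit 0) (nat_lit 1265942520) (nat_lit 29) (nat_lit 5) (nat_lit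 32) (nat_lit 4) (nat_lit 29) (nat_lit 4) (nat_lit 336) (nat_lit 228) (nat_lit 216)))) (XT.nd (nat_lit 78) (nat_lit 228) (nat_lit 0) (XT.lf (nat_lit 0) (nat_lit 10890870395) (nat_lit 228) (nat_lit 83456527) (nat_lit 0) (nat_lit 4756770724) (nat_lit 29) (nat_lit 5) (nat_lit 32) (nat_lit 4) (nat_lit 29) (nat_lit 4) (nat_lit 337) (nat_lit 228) (nat_lit 215)) (XT.nd (nat_lit 78) (nat_lit 76) (nat_lit 0) (XT.lf (nat_lit 0) (nat_lit 7188115981) (nat_lit 152) (nat_lit 7700121631) (nat_lit 152) (nat_lit 1184698073) (nat_lit 27) (nat_lit 4) (nat_lit 29) (nat_lit 5) (nat_lit 29) (nat_lit 4) (nat_lit 338) (nat_lit 228) (nat_lit 214)) (XT.lf (nat_lit 0) (nat_lit 2459343431) (nat_lit 228) (nat_lit 1893173759) (nat_lit 76) (nat_lit 12073934777) (nat_lit 26) (nat_lit 5) (nat_lit 29) (nat_lit 5) (nat_lit 27) (nat_lit 4) (nat_lit 339) (nat_lit 228) (nat_lit 213))))) (XT.nd (nat_lit 234) (nat_lit 152) (nat_lit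 0) (XT.nd (nat_lit 78) (nat_lit 152) (nat_lit 0) (XT.lf (nat_lit 0) (nat_lit 5280204425) (nat_lit 76) (nat_lit 889884090) (nat_lit 152) (nat_lit 10620739562) (nat_lit 25) (nat_lit 5) (nat_lit 26) (nat_lit 5) (nat_lit 27) (nat_lit 4) (nat_lit 340) (nat_lit 228) (nat_lit 212)) (XT.nd (nat_lit 78) (nat_lit 152) (nat_lit 0) (XT.lf (nat_lit 0) (nat_lit 9968043704) (nat_lit 152) (nat_lit 4603667229) (nat_lit 0) (nat_lit 2595188716) (nat_lit 25) (nat_lit 5) (nat_lit 27) (nat_lit 4) (nat_lit 25) (nat_lit 4) (nat_lit 341) (nat_lit 228) (nat_lit 211)) (XT.lf (nat_lit 0) (nat_lit 2432871156) (nat_lit 152) (nat_lit 11412129139) (nat_lit 152) (nat_lit 3710340815) (nat_lit 23) (nat_lit 4) (nat_lit 25) (nat_lit 5) (nat_lit 25) (nat_lit 4) (nat_lit 342) (nat_lit 228) (nat_lit 210)))) (XT.nd (nat_lit 156) (nat_lit 76) (nat_lit 0) (XT.nd (nat_lit 78) (nat_lit 76) (nat_lit 0) (XT.lf (nat_lit 0) (nat_lit 9659726385)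 (nat_lit 152) (nat_lit 8158741455) (nat_lit 152) (nat_lit 137600378) (nat_lit 23) (nat_lit 4) (nat_lit 25) (nat_lit 5) (nat_lit 25) (nat_lit 4) (nat_lit 343) (nat_lit 228) (nat_lit 209)) (XT.lf (nat_lit 0) (nat_lit 3408169900) (nat_lit 228) (nat_lit 1412607394) (nat_lit 76) (nat_lit 13549005444) (nat_lit 22) (nat_lit 5) (nat_lit 25) (nat_lit 5) (nat_lit 23) (nat_lit 4) (nat_lit 344) (nat_lit 228) (nat_lit 208))) (XT.nd (nat_lit 78) (nat_lit 0) (nat_lit 0) (XT.lf (nat_lit 0) (nat_lit 5677228262) (nat_lit 76) (nat_lit 1371757527) (nat_lit 152) (nat_lit 11747174094) (nat_lit 21) (nat_lit 5) (nat_lit 22) (nat_lit 5) (nat_lit 23) (nat_lit 4) (nat_lit 345) (nat_lit 228) (nat_lit 207)) (XT.lf (nat_lit 0) (nat_lit 10771606940) (nat_lit 152) (nat_lit 6357501218) (nat_lit 0) (nat_lit 2107076941) (nat_lit 21) (nat_lit 5) (nat_lit 23) (nat_lit 4) (nat_lit 21) (nat_lit 4) (nat_lit 346) (nat_lit 228) (nat_lit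 206)))))) (XT.nd (nat_lit 468) (nat_lit 304) (nat_lit 0) (XT.nd (nat_lit 234) (nat_lit 76) (nat_lit 0) (XT.nd (nat_lit 78) (nat_lit 76) (nat_lit 0) (XT.lf (nat_lit 0) (nat_lit 495863416) (nat_lit 152) (nat_lit 14067432821) (nat_lit 152) (nat_lit 5127426333) (nat_lit 19) (nat_lit 4) (nat_lit 21) (nat_lit 5) (nat_lit 21) (nat_lit 4) (nat_lit 347) (nat_lit 228) (nat_lit 205)) (XT.nd (nat_lit 78) (nat_lit 76) (nat_lit 0) (XT.lf (nat_lit 0) (nat_lit 7579197575) (nat_lit 152) (nat_lit 10893535152) (nat_lit 152) (nat_lit 1686075760) (nat_lit 19) (nat_lit 4) (nat_lit 21) (nat_lit 5) (nat_lit 21) (nat_lit 4) (nat_lit 348) (nat_lit 228) (nat_lit 204)) (XT.lf (nat_lit 0) (nat_lit 1763191301) (nat_lit 228) (nat_lit 5887844061) (nat_lit 76) (nat_lit 12991167765) (nat_lit 18) (nat_lit 5) (nat_lit 21) (nat_lit 5) (nat_lit 19) (nat_lit 4) (nat_lit 349) (nat_lit 228) (nat_lit 203)))) (XT.nd (nat_lit 78) (nat_lit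 0) (nat_lit 0) (XT.lf (nat_lit 0) (nat_lit 904591434) (nat_lit 76) (nat_lit 4328814402) (nat_lit 152) (nat_lit 15907681700) (nat_lit 17) (nat_lit 5) (nat_lit 18) (nat_lit 5) (nat_lit 19) (nat_lit 4) (nat_lit 350) (nat_lit 228) (nat_lit 202)) (XT.nd (nat_lit 78) (nat_lit 0) (nat_lit 0) (XT.lf (nat_lit 0) (nat_lit 7921443258) (nat_lit 76) (nat_lit 889109927) (nat_lit 152) (nat_lit 12844329128) (nat_lit 17) (nat_lit 5) (nat_lit 18) (nat_lit 5) (nat_lit 19) (nat_lit 4) (nat_lit 351) (nat_lit 228) (nat_lit 201)) (XT.lf (nat_lit 0) (nat_lit 12465139613) (nat_lit 152) (nat_lit 7159209689) (nat_lit 0) (nat_lit 2560665682) (nat_lit 17) (nat_lit 5) (nat_lit 19) (nat_lit 4) (nat_lit 17) (nat_lit 4) (nat_lit 352) (nat_lit 228) (nat_lit 200))))) (XT.nd (nat_lit 234) (nat_lit 76) (nat_lit 0) (XT.nd (nat_lit 78) (nat_lit 228) (nat_lit 0) (XT.lf (nat_lit 0) (nat_lit 16184394709) (nat_lit 152) (nat_lit 492099793)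 (nat_lit 0) (nat_lit 6055933182) (nat_lit 17) (nat_lit 5) (nat_lit 19) (nat_lit 4) (nat_lit 17) (nat_lit 4) (nat_lit 353) (nat_lit 228) (nat_lit 199)) (XT.nd (nat_lit 78) (nat_lit 76) (nat_lit 0) (XT.lf (nat_lit 0) (nat_lit 6407292281) (nat_lit 152) (nat_lit 13617320172) (nat_lit 152) (nat_lit 3271394960) (nat_lit 15) (nat_lit 4) (nat_lit 17) (nat_lit 5) (nat_lit 17) (nat_lit 4) (nat_lit 354) (nat_lit 228) (nat_lit 198)) (XT.lf (nat_lit 0) (nat_lit 54436455) (nat_lit 228) (nat_lit 10446548997) (nat_lit 76) (nat_lit 13376916471) (nat_lit 14) (nat_lit 5) (nat_lit 17) (nat_lit 5) (nat_lit 15) (nat_lit 4) (nat_lit 355) (nat_lit 228) (nat_lit 197)))) (XT.nd (nat_lit 156) (nat_lit 0) (nat_lit 0) (XT.nd (nat_lit 78) (nat_lit 76) (nat_lit 0) (XT.lf (nat_lit 0) (nat_lit 3363704897) (nat_lit 228) (nat_lit 3933714441) (nat_lit 76) (nat_lit 17180403786) (nat_lit 14) (nat_lit 5) (nat_lit 17) (nat_lit 5)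 (nat_lit 15) (nat_lit 4) (nat_lit 356) (nat_lit 228) (nat_lit 196)) (XT.lf (nat_lit 0) (nat_lit 2740401105) (nat_lit 76) (nat_lit 4009079961) (nat_lit 152) (nat_lit 18346967280) (nat_lit 13) (nat_lit 5) (nat_lit 14) (nat_lit 5) (nat_lit 15) (nat_lit 4) (nat_lit 357) (nat_lit 228) (nat_lit 195))) (XT.nd (nat_lit 78) (nat_lit 0) (nat_lit 0) (XT.lf (nat_lit 0) (nat_lit 9608656887) (nat_lit 76) (nat_lit 619380558) (nat_lit 152) (nat_lit 15505881268) (nat_lit 13) (nat_lit 5) (nat_lit 14) (nat_lit 5) (nat_lit 15) (nat_lit 4) (nat_lit 358) (nat_lit 228) (nat_lit 194)) (XT.lf (nat_lit 0) (nat_lit 13791098686) (nat_lit 152) (nat_lit 9820433519) (nat_lit 0) (nat_lit 2779598480) (nat_lit 13) (nat_lit 5) (nat_lit 15) (nat_lit 4) (nat_lit 13) (nat_lit 4) (nat_lit 359) (nat_lit 228) (nat_lit 193))))))) (XT.nd (nat_lit 1014) (nat_lit 228) (nat_lit 0) (XT.nd (nat_lit 468) (nat_lit 76) (nat_lit 0) (XT.nd (nat_lit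 234) (nat_lit 152) (nat_lit 0) (XT.nd (nat_lit 78) (nat_lit 76) (nat_lit 0) (XT.lf (nat_lit 0) (nat_lit 17421107211) (nat_lit 152) (nat_lit 3415382313) (nat_lit 0) (nat_lit 6232789128) (nat_lit 13) (nat_lit 5) (nat_lit 15) (nat_lit 4) (nat_lit 13) (nat_lit 4) (nat_lit 360) (nat_lit 228) (nat_lit 192)) (XT.nd (nat_lit 78) (nat_lit 0) (nat_lit 0) (XT.lf (nat_lit 0) (nat_lit 3163167085) (nat_lit 76) (nat_lit 17982520219) (nat_lit 76) (nat_lit 6622534295) (nat_lit 12) (nat_lit 4) (nat_lit 13) (nat_lit 5) (nat_lit 13) (nat_lit 4) (nat_lit 361) (nat_lit 228) (nat_lit 191)) (XT.lf (nat_lit 0) (nat_lit 9929494849) (nat_lit 76) (nat_lit 15042801522) (nat_lit 76) (nat_lit 3516147792) (nat_lit 12) (nat_lit 4) (nat_lit 13) (nat_lit 5) (nat_lit 13) (nat_lit 4) (nat_lit 362) (nat_lit 228) (nat_lit 190)))) (XT.nd (nat_lit 78) (nat_lit 152) (nat_lit 0) (XT.lf (nat_lit 0) (nat_lit 16821540500) (nat_lit 76) (nat_lit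 12049253413) (nat_lit 76) (nat_lit 360786278) (nat_lit 12) (nat_lit 4) (nat_lit 13) (nat_lit 5) (nat_lit 13) (nat_lit 4) (nat_lit 363) (nat_lit 228) (nat_lit 189)) (XT.nd (nat_lit 78) (nat_lit 76) (nat_lit 0) (XT.lf (nat_lit 0) (nat_lit 2790765648) (nat_lit 152) (nat_lit 6180313261) (nat_lit 76) (nat_lit 21026379303) (nat_lit 11) (nat_lit 5) (nat_lit 13) (nat_lit 5) (nat_lit 12) (nat_lit 4) (nat_lit 364) (nat_lit 228) (nat_lit 188)) (XT.lf (nat_lit 0) (nat_lit 162231182) (nat_lit 76) (nat_lit 5828075893) (nat_lit 152) (nat_lit 24797095340) (nat_lit 10) (nat_lit 5) (nat_lit 11) (nat_lit 5) (nat_lit 12) (nat_lit 4) (nat_lit 365) (nat_lit 228) (nat_lit 187))))) (XT.nd (nat_lit 234) (nat_lit 76) (nat_lit 0) (XT.nd (nat_lit 78) (nat_lit 0) (nat_lit 0) (XT.lf (nat_lit 0) (nat_lit 6748797196) (nat_lit 76) (nat_lit 2559070569) (nat_lit 152) (nat_lit 22292533506) (nat_lit 10) (nat_lit 5) (nat_lit 11)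 (nat_lit 5) (nat_lit 12) (nat_lit 4) (nat_lit 366) (nat_lit 228) (nat_lit 186)) (XT.nd (nat_lit 78) (nat_lit 0) (nat_lit 0) (XT.lf (nat_lit 0) (nat_lit 12693218335) (nat_lit 152) (nat_lit 18984306311) (nat_lit 0) (nat_lit 761234370) (nat_lit 10) (nat_lit 5) (nat_lit 12) (nat_lit 4) (nat_lit 10) (nat_lit 4) (nat_lit 367) (nat_lit 228) (nat_lit 185)) (XT.lf (nat_lit 0) (nat_lit 16167113375) (nat_lit 152) (nat_lit 13035947693) (nat_lit 0) (nat_lit 4099613232) (nat_lit 10) (nat_lit 5) (nat_lit 12) (nat_lit 4) (nat_lit 10) (nat_lit 4) (nat_lit 368) (nat_lit 228) (nat_lit 184)))) (XT.nd (nat_lit 156) (nat_lit 76) (nat_lit 0) (XT.nd (nat_lit 78) (nat_lit 0) (nat_lit 0) (XT.lf (nat_lit 0) (nat_lit 19707988977) (nat_lit 152) (nat_lit 6976731275) (nat_lit 0) (nat_lit 7508919728) (nat_lit 10) (nat_lit 5) (nat_lit 12) (nat_lit 4) (nat_lit 10) (nat_lit 4) (nat_lit 369) (nat_lit 228) (nat_lit 183)) (XT.lf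 (nat_lit 0) (nat_lit 23318939109) (nat_lit 152) (nat_lit 801362596) (nat_lit 0) (nat_lit 10992132864) (nat_lit 10) (nat_lit 5) (nat_lit 12) (nat_lit 4) (nat_lit 10) (nat_lit 4) (nat_lit 370) (nat_lit 228) (nat_lit 182))) (XT.nd (nat_lit 78) (nat_lit 0) (nat_lit 0) (XT.lf (nat_lit 0) (nat_lit 5604926602) (nat_lit 76) (nat_lit 21452070351) (nat_lit 76) (nat_lit 9001247606) (nat_lit 9) (nat_lit 4) (nat_lit 10) (nat_lit 5) (nat_lit 10) (nat_lit 4) (nat_lit 371) (nat_lit 228) (nat_lit 181)) (XT.lf (nat_lit 0) (nat_lit 12156743415) (nat_lit 76) (nat_lit 18723862388) (nat_lit 76) (nat_lit 6152635272) (nat_lit 9) (nat_lit 4) (nat_lit 10) (nat_lit 5) (nat_lit 10) (nat_lit 4) (nat_lit 372) (nat_lit 228) (nat_lit 180)))))) (XT.nd (nat_lit 546) (nat_lit 76) (nat_lit 0) (XT.nd (nat_lit 234) (nat_lit 76) (nat_lit 0) (XT.nd (nat_lit 78) (nat_lit 76) (nat_lit 0) (XT.lf (nat_lit 0) (nat_lit 18843864042) (nat_lit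 76) (nat_lit 15941386135) (nat_lit 76) (nat_lit 3253261573) (nat_lit 9) (nat_lit 4) (nat_lit 10) (nat_lit 5) (nat_lit 10) (nat_lit 4) (nat_lit 373) (nat_lit 228) (nat_lit 179)) (XT.nd (nat_lit 78) (nat_lit 76) (nat_lit 0) (XT.lf (nat_lit 0) (nat_lit 25672131600) (nat_lit 76) (nat_lit 13102210303) (nat_lit 76) (nat_lit 300593074) (nat_lit 9) (nat_lit 4) (nat_lit 10) (nat_lit 5) (nat_lit 10) (nat_lit 4) (nat_lit 374) (nat_lit 228) (nat_lit 178)) (XT.lf (nat_lit 0) (nat_lit 2655108362) (nat_lit 152) (nat_lit 7521934307) (nat_lit 76) (nat_lit 29965592783) (nat_lit 8) (nat_lit 5) (nat_lit 10) (nat_lit 5) (nat_lit 9) (nat_lit 4) (nat_lit 375) (nat_lit 228) (nat_lit 177)))) (XT.nd (nat_lit 156) (nat_lit 0) (nat_lit 0) (XT.nd (nat_lit 78) (nat_lit 76) (nat_lit 0) (XT.lf (nat_lit 0) (nat_lit 5662306154) (nat_lit 152) (nat_lit 1524300512) (nat_lit 76) (nat_lit 34056617495) (nat_lit 8) (nat_lit 5) (nat_lit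 10) (nat_lit 5) (nat_lit 9) (nat_lit 4) (nat_lit 376) (nat_lit 228) (nat_lit 176)) (XT.lf (nat_lit 0) (nat_lit 4689741898) (nat_lit 76) (nat_lit 4084832373) (nat_lit 152) (nat_lit 33601822775) (nat_lit 7) (nat_lit 5) (nat_lit 8) (nat_lit 5) (nat_lit 9) (nat_lit 4) (nat_lit 377) (nat_lit 228) (nat_lit 175))) (XT.nd (nat_lit 78) (nat_lit 0) (nat_lit 0) (XT.lf (nat_lit 0) (nat_lit 11066957645) (nat_lit 76) (nat_lit 898775498) (nat_lit 152) (nat_lit 31578278086) (nat_lit 7) (nat_lit 5) (nat_lit 8) (nat_lit 5) (nat_lit 9) (nat_lit 4) (nat_lit 378) (nat_lit 228) (nat_lit 174)) (XT.lf (nat_lit 0) (nat_lit 15246302762) (nat_lit 152) (nat_lit 27187628520) (nat_lit 0) (nat_lit 2312923725) (nat_lit 7) (nat_lit 5) (nat_lit 9) (nat_lit 4) (nat_lit 7) (nat_lit 4) (nat_lit 379) (nat_lit 228) (nat_lit 173))))) (XT.nd (nat_lit 234) (nat_lit 76) (nat_lit 0) (XT.nd (nat_lit 78) (nat_lit 0) (nat_lit 0) (XT.lf (nat_lit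 0) (nat_lit 18605810026) (nat_lit 152) (nat_lit 21800418509) (nat_lit 0) (nat_lit 5580151065) (nat_lit 7) (nat_lit 5) (nat_lit 9) (nat_lit 4) (nat_lit 7) (nat_lit 4) (nat_lit 380) (nat_lit 228) (nat_lit 172)) (XT.nd (nat_lit 78) (nat_lit 0) (nat_lit 0) (XT.lf (nat_lit 0) (nat_lit 22038550845) (nat_lit 152) (nat_lit 16302076700) (nat_lit 0) (nat_lit 8923299726) (nat_lit 7) (nat_lit 5) (nat_lit 9) (nat_lit 4) (nat_lit 7) (nat_lit 4) (nat_lit 381) (nat_lit 228) (nat_lit 171)) (XT.lf (nat_lit 0) (nat_lit 25547524704) (nat_lit 152) (nat_lit 10687798717) (nat_lit 0) (nat_lit 12345290906) (nat_lit 7) (nat_lit 5) (nat_lit 9) (nat_lit 4) (nat_lit 7) (nat_lit 4) (nat_lit 382) (nat_lit 228) (nat_lit 170)))) (XT.nd (nat_lit 156) (nat_lit 0) (nat_lit 0) (XT.nd (nat_lit 78) (nat_lit 76) (nat_lit 0) (XT.lf (nat_lit 0) (nat_lit 29135797695) (nat_lit 152) (nat_lit 4952678880) (nat_lit 0) (nat_lit 15849114695)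 (nat_lit 7) (nat_lit 5) (nat_lit 9) (nat_lit 4) (nat_lit 7) (nat_lit 4) (nat_lit 383) (nat_lit 228) (nat_lit 169)) (XT.lf (nat_lit 0) (nat_lit 926370913) (nat_lit 76) (nat_lit 31889039133) (nat_lit 76) (nat_lit 18520366615) (nat_lit 6) (nat_lit 4) (nat_lit 7) (nat_lit 5) (nat_lit 7) (nat_lit 4) (nat_lit 384) (nat_lit 228) (nat_lit 168))) (XT.nd (nat_lit 78) (nat_lit 0) (nat_lit 0) (XT.lf (nat_lit 0) (nat_lit 7037569737) (nat_lit 76) (nat_lit 29592934329) (nat_lit 76) (nat_lit 16144660339) (nat_lit 6) (nat_lit 4) (nat_lit 7) (nat_lit 5) (nat_lit 7) (nat_lit 4) (nat_lit 385) (nat_lit 228) (nat_lit 167)) (XT.lf (nat_lit 0) (nat_lit 13287689452) (nat_lit 76) (nat_lit 27248168205) (nat_lit 76) (nat_lit 13722611232) (nat_lit 6) (nat_lit 4) (nat_lit 7) (nat_lit 5) (nat_lit 7) (nat_lit 4) (nat_lit 386) (nat_lit 228) (nat_lit 166))))))))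
noncomputable def xc36 : XT := (XT.nd (nat_lit 35880) (nat_lit 0) (nat_lit 988) (XT.nd (nat_lit 1014) (nat_lit 0) (nat_lit 0) (XT.nd (nat_lit 468) (nat_lit 76) (nat_lit 0) (XT.nd (nat_lit 234) (nat_lit 76) (nat_lit 0) (XT.nd (nat_lit 78) (nat_lit 0) (nat_lit 0) (XT.lf (nat_lit 0) (nat_lit 19682191328) (nat_lit 76) (nat_lit 24852691936) (nat_lit 76) (nat_lit 11252102940) (nat_lit 6) (nat_lit 4) (nat_lit 7) (nat_lit 5) (nat_lit 7) (nat_lit 4) (nat_lit 387) (nat_lit 228) (nat_lit 165)) (XT.nd (nat_lit 78) (nat_lit 0) (nat_lit 0) (XT.lf (nat_lit 0) (nat_lit 26226662794) (nat_lit 76) (nat_lit 22404412386) (nat_lit 76) (nat_lit 8730976766) (nat_lit 6) (nat_lit 4) (nat_lit 7) (nat_lit 5) (nat_lit 7) (nat_lit 4) (nat_lit 388) (nat_lit 228) (nat_lit 164)) (XT.lf (nat_lit 0) (nat_lit 32926822320) (nat_lit 76) (nat_lit 19901190283) (nat_lit 76) (nat_lit 6157029786) (nat_lit 6) (nat_lit 4) (nat_lit 7) (nat_lit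 5) (nat_lit 7) (nat_lit 4) (nat_lit 389) (nat_lit 228) (nat_lit 163)))) (XT.nd (nat_lit 78) (nat_lit 76) (nat_lit 0) (XT.lf (nat_lit 0) (nat_lit 39788524414) (nat_lit 76) (nat_lit 17340838345) (nat_lit 76) (nat_lit 3528012918) (nat_lit 6) (nat_lit 4) (nat_lit 7) (nat_lit 5) (nat_lit 7) (nat_lit 4) (nat_lit 390) (nat_lit 228) (nat_lit 162)) (XT.nd (nat_lit 78) (nat_lit 76) (nat_lit 0) (XT.lf (nat_lit 0) (nat_lit 46817764739) (nat_lit 76) (nat_lit 14721119372) (nat_lit 76) (nat_lit 841628964) (nat_lit 6) (nat_lit 4) (nat_lit 7) (nat_lit 5) (nat_lit 7) (nat_lit 4) (nat_lit 391) (nat_lit 228) (nat_lit 161)) (XT.lf (nat_lit 0) (nat_lit 1867306343) (nat_lit 152) (nat_lit 10153581811) (nat_lit 76) (nat_lit 52134522872) (nat_lit 5) (nat_lit 5) (nat_lit 7) (nat_lit 5) (nat_lit 6) (nat_lit 4) (nat_lit 392) (nat_lit 228) (nat_lit 160))))) (XT.nd (nat_lit 234) (nat_lit 0) (nat_lit 0) (XT.nd (nat_lit 78)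 (nat_lit 76) (nat_lit 0) (XT.lf (nat_lit 0) (nat_lit 4620720288) (nat_lit 152) (nat_lit 4626989641) (nat_lit 76) (nat_lit 56736199554) (nat_lit 5) (nat_lit 5) (nat_lit 7) (nat_lit 5) (nat_lit 6) (nat_lit 4) (nat_lit 393) (nat_lit 228) (nat_lit 159)) (XT.nd (nat_lit 78) (nat_lit 0) (nat_lit 0) (XT.lf (nat_lit 0) (nat_lit 1050445462) (nat_lit 76) (nat_lit 6397094039) (nat_lit 152) (nat_lit 60420006441) (nat_lit 4) (nat_lit 5) (nat_lit 5) (nat_lit 5) (nat_lit 6) (nat_lit 4) (nat_lit 394) (nat_lit 228) (nat_lit 158)) (XT.lf (nat_lit 0) (nat_lit 6957947141) (nat_lit 76) (nat_lit 3428869528) (nat_lit 152) (nat_lit 59420052152) (nat_lit 4) (nat_lit 5) (nat_lit 5) (nat_lit 5) (nat_lit 6) (nat_lit 4) (nat_lit 395) (nat_lit 228) (nat_lit 157)))) (XT.nd (nat_lit 156) (nat_lit 0) (nat_lit 0) (XT.nd (nat_lit 78) (nat_lit 0) (nat_lit 0) (XT.lf (nat_lit 0) (nat_lit 13008591124) (nat_lit 76) (nat_lit 387166324)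 (nat_lit 152) (nat_lit 58409176105) (nat_lit 4) (nat_lit 5) (nat_lit 5) (nat_lit 5) (nat_lit 6) (nat_lit 4) (nat_lit 396) (nat_lit 228) (nat_lit 156)) (XT.lf (nat_lit 0) (nat_lit 16503239912) (nat_lit 152) (nat_lit 54682070543) (nat_lit 0) (nat_lit 2677388098) (nat_lit 4) (nat_lit 5) (nat_lit 6) (nat_lit 4) (nat_lit 4) (nat_lit 4) (nat_lit 397) (nat_lit 228) (nat_lit 155))) (XT.nd (nat_lit 78) (nat_lit 0) (nat_lit 0) (XT.lf (nat_lit 0) (nat_lit 19690187235) (nat_lit 152) (nat_lit 50480718925) (nat_lit 0) (nat_lit 5811709471) (nat_lit 4) (nat_lit 5) (nat_lit 6) (nat_lit 4) (nat_lit 4) (nat_lit 4) (nat_lit 398) (nat_lit 228) (nat_lit 154)) (XT.lf (nat_lit 0) (nat_lit 22955662450) (nat_lit 152) (nat_lit 46184894811) (nat_lit 0) (nat_lit 9026091530) (nat_lit 4) (nat_lit 5) (nat_lit 6) (nat_lit 4) (nat_lit 4) (nat_lit 4) (nat_lit 399) (nat_lit 228) (nat_lit 153)))))) (XT.nd (nat_lit 468) (nat_lit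 0) (nat_lit 0) (XT.nd (nat_lit 234) (nat_lit 0) (nat_lit 0) (XT.nd (nat_lit 78) (nat_lit 0) (nat_lit 0) (XT.lf (nat_lit 0) (nat_lit 26302518885) (nat_lit 152) (nat_lit 41790844569) (nat_lit 0) (nat_lit 12323342958) (nat_lit 4) (nat_lit 5) (nat_lit 6) (nat_lit 4) (nat_lit 4) (nat_lit 4) (nat_lit 400) (nat_lit 228) (nat_lit 152)) (XT.nd (nat_lit 78) (nat_lit 0) (nat_lit 0) (XT.lf (nat_lit 0) (nat_lit 29733680977) (nat_lit 152) (nat_lit 37294728738) (nat_lit 0) (nat_lit 15706344850) (nat_lit 4) (nat_lit 5) (nat_lit 6) (nat_lit 4) (nat_lit 4) (nat_lit 4) (nat_lit 401) (nat_lit 228) (nat_lit 151)) (XT.lf (nat_lit 0) (nat_lit 33252146830) (nat_lit 152) (nat_lit 32692618673) (nat_lit 0) (nat_lit 19178053227) (nat_lit 4) (nat_lit 5) (nat_lit 6) (nat_lit 4) (nat_lit 4) (nat_lit 4) (nat_lit 402) (nat_lit 228) (nat_lit 150)))) (XT.nd (nat_lit 78) (nat_lit 0) (nat_lit 0) (XT.lf (nat_lit 0) (nat_lit 36860990830)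 (nat_lit 152) (nat_lit 27980493111) (nat_lit 0) (nat_lit 22741501619) (nat_lit 4) (nat_lit 5) (nat_lit 6) (nat_lit 4) (nat_lit 4) (nat_lit 4) (nat_lit 403) (nat_lit 228) (nat_lit 149)) (XT.nd (nat_lit 78) (nat_lit 0) (nat_lit 0) (XT.lf (nat_lit 0) (nat_lit 40563366336) (nat_lit 152) (nat_lit 23154234664) (nat_lit 0) (nat_lit 26399803721) (nat_lit 4) (nat_lit 5) (nat_lit 6) (nat_lit 4) (nat_lit 4) (nat_lit 4) (nat_lit 404) (nat_lit 228) (nat_lit 148)) (XT.lf (nat_lit 0) (nat_lit 44362508435) (nat_lit 152) (nat_lit 18209626210) (nat_lit 0) (nat_lit 30156156105) (nat_lit 4) (nat_lit 5) (nat_lit 6) (nat_lit 4) (nat_lit 4) (nat_lit 4) (nat_lit 405) (nat_lit 228) (nat_lit 147))))) (XT.nd (nat_lit 34086) (nat_lit 0) (nat_lit 3116) (XT.nd (nat_lit 78) (nat_lit 0) (nat_lit 0) (XT.lf (nat_lit 0) (nat_lit 48261736764) (nat_lit 152) (nat_lit 13142347219) (nat_lit 0) (nat_lit 34013841023) (nat_lit 4) (nat_lit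 5) (nat_lit 6) (nat_lit 4) (nat_lit 4) (nat_lit 4) (nat_lit 406) (nat_lit 228) (nat_lit 146)) (XT.nd (nat_lit 78) (nat_lit 0) (nat_lit 0) (XT.lf (nat_lit 0) (nat_lit 52264458417) (nat_lit 152) (nat_lit 7947969970) (nat_lit 0) (nat_lit 37976229266) (nat_lit 4) (nat_lit 5) (nat_lit 6) (nat_lit 4) (nat_lit 4) (nat_lit 4) (nat_lit 407) (nat_lit 228) (nat_lit 145)) (XT.lf (nat_lit 0) (nat_lit 56374170917) (nat_lit 152) (nat_lit 2621955689) (nat_lit 0) (nat_lit 42046783116) (nat_lit 4) (nat_lit 5) (nat_lit 6) (nat_lit 4) (nat_lit 4) (nat_lit 4) (nat_lit 408) (nat_lit 228) (nat_lit 144)))) (XT.nd (nat_lit 156) (nat_lit 228) (nat_lit 0) (XT.nd (nat_lit 78) (nat_lit 228) (nat_lit 0) (XT.lf (nat_lit 0) (nat_lit 2800625063) (nat_lit 228) (nat_lit 261969478) (nat_lit 0) (nat_lit 2800625063) (nat_lit 51) (nat_lit 5) (nat_lit 54) (nat_lit 4) (nat_lit 51) (nat_lit 4) (nat_lit 322) (nat_lit 229) (nat_lit 229))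 (XT.lf (nat_lit 0) (nat_lit 6727789820) (nat_lit 228) (nat_lit 2929496044) (nat_lit 228) (nat_lit 2280317650) (nat_lit 48) (nat_lit 4) (nat_lit 51) (nat_lit 5) (nat_lit 51) (nat_lit 4) (nat_lit 323) (nat_lit 229) (nat_lit 228))) (XT.nd (nat_lit 78) (nat_lit 0) (nat_lit 0) (XT.lf (nat_lit 0) (nat_lit 1585302173) (nat_lit 228) (nat_lit 10228125355) (nat_lit 0) (nat_lit 343118990) (nat_lit 45) (nat_lit 5) (nat_lit 48) (nat_lit 4) (nat_lit 45) (nat_lit 4) (nat_lit 324) (nat_lit 229) (nat_lit 227)) (XT.lf (nat_lit 0) (nat_lit 5514825968) (nat_lit 228) (nat_lit 3188260470) (nat_lit 0) (nat_lit 3678552592) (nat_lit 45) (nat_lit 5) (nat_lit 48) (nat_lit 4) (nat_lit 45) (nat_lit 4) (nat_lit 325) (nat_lit 229) (nat_lit 226))))))) (XT.nd (nat_lit 1014) (nat_lit 760) (nat_lit 0) (XT.nd (nat_lit 468) (nat_lit 532) (nat_lit 0) (XT.nd (nat_lit 234) (nat_lit 380) (nat_lit 0) (XT.nd (nat_lit 78) (nat_lit 228)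 (nat_lit 0) (XT.lf (nat_lit 0) (nat_lit 4001785857) (nat_lit 228) (nat_lit 5513123843) (nat_lit 228) (nat_lit 3100063872) (nat_lit 42) (nat_lit 4) (nat_lit 45) (nat_lit 5) (nat_lit 45) (nat_lit 4) (nat_lit 326) (nat_lit 229) (nat_lit 225)) (XT.nd (nat_lit 78) (nat_lit 152) (nat_lit 0) (XT.lf (nat_lit 0) (nat_lit 711464676) (nat_lit 304) (nat_lit 1528773662) (nat_lit 76) (nat_lit 10616500717) (nat_lit 41) (nat_lit 5) (nat_lit 45) (nat_lit 5) (nat_lit 42) (nat_lit 4) (nat_lit 327) (nat_lit 229) (nat_lit 224)) (XT.lf (nat_lit 0) (nat_lit 4558135305) (nat_lit 228) (nat_lit 7403431328) (nat_lit 0) (nat_lit 1143840509) (nat_lit 39) (nat_lit 5) (nat_lit 42) (nat_lit 4) (nat_lit 39) (nat_lit 4) (nat_lit 328) (nat_lit 229) (nat_lit 223)))) (XT.nd (nat_lit 78) (nat_lit 380) (nat_lit 0) (XT.lf (nat_lit 0) (nat_lit 8475572775) (nat_lit 228) (nat_lit 338552668) (nat_lit 0) (nat_lit 4548810560) (nat_lit 39)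 (nat_lit 5) (nat_lit 42) (nat_lit 4) (nat_lit 39) (nat_lit 4) (nat_lit 329) (nat_lit 229) (nat_lit 222)) (XT.nd (nat_lit 78) (nat_lit 228) (nat_lit 0) (XT.lf (nat_lit 0) (nat_lit 6941558978) (nat_lit 152) (nat_lit 5555696708) (nat_lit 152) (nat_lit 1131393309) (nat_lit 37) (nat_lit 4) (nat_lit 39) (nat_lit 5) (nat_lit 39) (nat_lit 4) (nat_lit 330) (nat_lit 229) (nat_lit 221)) (XT.lf (nat_lit 0) (nat_lit 393601199) (nat_lit 152) (nat_lit 2217706332) (nat_lit 228) (nat_lit 11292469009) (nat_lit 34) (nat_lit 5) (nat_lit 36) (nat_lit 5) (nat_lit 37) (nat_lit 4) (nat_lit 331) (nat_lit 229) (nat_lit 220))))) (XT.nd (nat_lit 234) (nat_lit 380) (nat_lit 0) (XT.nd (nat_lit 78) (nat_lit 152) (nat_lit 0) (XT.lf (nat_lit 0) (nat_lit 6444262816) (nat_lit 228) (nat_lit 6518070810) (nat_lit 0) (nat_lit 1224521676) (nat_lit 34) (nat_lit 5) (nat_lit 37) (nat_lit 4) (nat_lit 34) (nat_lit 4) (nat_lit 332) (nat_lit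 229) (nat_lit 219)) (XT.nd (nat_lit 78) (nat_lit 0) (nat_lit 0) (XT.lf (nat_lit 0) (nat_lit 543187769) (nat_lit 152) (nat_lit 9799291880) (nat_lit 152) (nat_lit 4137491843) (nat_lit 32) (nat_lit 4) (nat_lit 34) (nat_lit 5) (nat_lit 34) (nat_lit 4) (nat_lit 333) (nat_lit 229) (nat_lit 218)) (XT.lf (nat_lit 0) (nat_lit 7821914187) (nat_lit 152) (nat_lit 6525652206) (nat_lit 152) (nat_lit 434668773) (nat_lit 32) (nat_lit 4) (nat_lit 34) (nat_lit 5) (nat_lit 34) (nat_lit 4) (nat_lit 334) (nat_lit 229) (nat_lit 217)))) (XT.nd (nat_lit 156) (nat_lit 152) (nat_lit 0) (XT.nd (nat_lit 78) (nat_lit 0) (nat_lit 0) (XT.lf (nat_lit 0) (nat_lit 68502041) (nat_lit 152) (nat_lit 3170989772) (nat_lit 228) (nat_lit 11855363352) (nat_lit 29) (nat_lit 5) (nat_lit 31) (nat_lit 5) (nat_lit 32) (nat_lit 4) (nat_lit 335) (nat_lit 229) (nat_lit 216)) (XT.lf (nat_lit 0) (nat_lit 7014871504) (nat_lit 228) (nat_lit 8097923303)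 (nat_lit 0) (nat_lit 303985239) (nat_lit 29) (nat_lit 5) (nat_lit 32) (nat_lit 4) (nat_lit 29) (nat_lit 4) (nat_lit 336) (nat_lit 229) (nat_lit 215))) (XT.nd (nat_lit 78) (nat_lit 152) (nat_lit 0) (XT.lf (nat_lit 0) (nat_lit 10863079612) (nat_lit 228) (nat_lit 1115672526) (nat_lit 0) (nat_lit 3770869458) (nat_lit 29) (nat_lit 5) (nat_lit 32) (nat_lit 4) (nat_lit 29) (nat_lit 4) (nat_lit 337) (nat_lit 229) (nat_lit 214)) (XT.lf (nat_lit 0) (nat_lit 6075537309) (nat_lit 152) (nat_lit 8739861627) (nat_lit 152) (nat_lit 1277434107) (nat_lit 27) (nat_lit 4) (nat_lit 29) (nat_lit 5) (nat_lit 29) (nat_lit 4) (nat_lit 338) (nat_lit 229) (nat_lit 213)))))) (XT.nd (nat_lit 468) (nat_lit 380) (nat_lit 0) (XT.nd (nat_lit 234) (nat_lit 228) (nat_lit 0) (XT.nd (nat_lit 78) (nat_lit 76) (nat_lit 0) (XT.lf (nat_lit 0) (nat_lit 2334149542) (nat_lit 228) (nat_lit 3083538284) (nat_lit 76) (nat_lit 11029736973)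 (nat_lit 26) (nat_lit 5) (nat_lit 29) (nat_lit 5) (nat_lit 27) (nat_lit 4) (nat_lit 339) (nat_lit 229) (nat_lit 212)) (XT.nd (nat_lit 78) (nat_lit 0) (nat_lit 0) (XT.lf (nat_lit 0) (nat_lit 4007945655) (nat_lit 76) (nat_lit 1991449855) (nat_lit 152) (nat_lit 10813790477) (nat_lit 25) (nat_lit 5) (nat_lit 26) (nat_lit 5) (nat_lit 27) (nat_lit 4) (nat_lit 340) (nat_lit 229) (nat_lit 211)) (XT.lf (nat_lit 0) (nat_lit 9753690725) (nat_lit 152) (nat_lit 5944980736) (nat_lit 0) (nat_lit 1491915416) (nat_lit 25) (nat_lit 5) (nat_lit 27) (nat_lit 4) (nat_lit 25) (nat_lit 4) (nat_lit 341) (nat_lit 229) (nat_lit 210)))) (XT.nd (nat_lit 78) (nat_lit 76) (nat_lit 0) (XT.lf (nat_lit 0) (nat_lit 1008138755) (nat_lit 152) (nat_lit 12576705346) (nat_lit 152) (nat_lit 3995577285) (nat_lit 23) (nat_lit 4) (nat_lit 25) (nat_lit 5) (nat_lit 25) (nat_lit 4) (nat_lit 342) (nat_lit 229) (nat_lit 209)) (XT.nd (nat_lit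 78) (nat_lit 76) (nat_lit 0) (XT.lf (nat_lit 0) (nat_lit 8179922016) (nat_lit 152) (nat_lit 9346687607) (nat_lit 152) (nat_lit 455508329) (nat_lit 23) (nat_lit 4) (nat_lit 25) (nat_lit 5) (nat_lit 25) (nat_lit 4) (nat_lit 343) (nat_lit 229) (nat_lit 208)) (XT.lf (nat_lit 0) (nat_lit 3065364563) (nat_lit 228) (nat_lit 2969509811) (nat_lit 76) (nat_lit 12362000145) (nat_lit 22) (nat_lit 5) (nat_lit 25) (nat_lit 5) (nat_lit 23) (nat_lit 4) (nat_lit 344) (nat_lit 229) (nat_lit 207))))) (XT.nd (nat_lit 234) (nat_lit 304) (nat_lit 0) (XT.nd (nat_lit 78) (nat_lit 0) (nat_lit 0) (XT.lf (nat_lit 0) (nat_lit 4035766627) (nat_lit 76) (nat_lit 2624440028) (nat_lit 152) (nat_lit 12164441061) (nat_lit 21) (nat_lit 5) (nat_lit 22) (nat_lit 5) (nat_lit 23) (nat_lit 4) (nat_lit 345) (nat_lit 229) (nat_lit 206)) (XT.nd (nat_lit 78) (nat_lit 0) (nat_lit 0) (XT.lf (nat_lit 0) (nat_lit 10340757296) (nat_lit 152)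 (nat_lit 8068119975) (nat_lit 0) (nat_lit 857074123) (nat_lit 21) (nat_lit 5) (nat_lit 23) (nat_lit 4) (nat_lit 21) (nat_lit 4) (nat_lit 346) (nat_lit 229) (nat_lit 205)) (XT.lf (nat_lit 0) (nat_lit 14098525722) (nat_lit 152) (nat_lit 1275606995) (nat_lit 0) (nat_lit 4347389646) (nat_lit 21) (nat_lit 5) (nat_lit 23) (nat_lit 4) (nat_lit 21) (nat_lit 4) (nat_lit 347) (nat_lit 229) (nat_lit 204)))) (XT.nd (nat_lit 156) (nat_lit 76) (nat_lit 0) (XT.nd (nat_lit 78) (nat_lit 76) (nat_lit 0) (XT.lf (nat_lit 0) (nat_lit 5731666232) (nat_lit 152) (nat_lit 12234997746) (nat_lit 152) (nat_lit 2224198658) (nat_lit 19) (nat_lit 4) (nat_lit 21) (nat_lit 5) (nat_lit 21) (nat_lit 4) (nat_lit 348) (nat_lit 229) (nat_lit 203)) (XT.lf (nat_lit 0) (nat_lit 1207324011) (nat_lit 228) (nat_lit 7812031357) (nat_lit 76) (nat_lit 11655918967) (nat_lit 18) (nat_lit 5) (nat_lit 21) (nat_lit 5) (nat_lit 19) (nat_lit 4)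 (nat_lit 349) (nat_lit 229) (nat_lit 202))) (XT.nd (nat_lit 78) (nat_lit 76) (nat_lit 0) (XT.lf (nat_lit 0) (nat_lit 4641420624) (nat_lit 228) (nat_lit 1085572525) (nat_lit 76) (nat_lit 15448263235) (nat_lit 18) (nat_lit 5) (nat_lit 21) (nat_lit 5) (nat_lit 19) (nat_lit 4) (nat_lit 350) (nat_lit 229) (nat_lit 201)) (XT.lf (nat_lit 0) (nat_lit 5861823223) (nat_lit 76) (nat_lit 2319018184) (nat_lit 152) (nat_lit 13509355241) (nat_lit 17) (nat_lit 5) (nat_lit 18) (nat_lit 5) (nat_lit 19) (nat_lit 4) (nat_lit 351) (nat_lit 229) (nat_lit 200))))))))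
noncomputable def xc37 : XT := (XT.nd (nat_lit 2028) (nat_lit 228) (nat_lit 0) (XT.nd (nat_lit 1014) (nat_lit 304) (nat_lit 0) (XT.nd (nat_lit 468) (nat_lit 152) (nat_lit 0) (XT.nd (nat_lit 234) (nat_lit 152) (nat_lit 0) (XT.nd (nat_lit 78) (nat_lit 152) (nat_lit 0) (XT.lf (nat_lit 0) (nat_lit 11795194015) (nat_lit 152) (nat_lit 9287464563) (nat_lit 0) (nat_lit 1138891047) (nat_lit 17) (nat_lit 5) (nat_lit 19) (nat_lit 4) (nat_lit 17) (nat_lit 4) (nat_lit 352) (nat_lit 229) (nat_lit 199)) (XT.nd (nat_lit 78) (nat_lit 152) (nat_lit 0) (XT.lf (nat_lit 0) (nat_lit 15488731959) (nat_lit 152) (nat_lit 2666049479) (nat_lit 0) (nat_lit 4614965306) (nat_lit 17) (nat_lit 5) (nat_lit 19) (nat_lit 4) (nat_lit 17) (nat_lit 4) (nat_lit 353) (nat_lit 229) (nat_lit 198)) (XT.lf (nat_lit 0) (nat_lit 4144829909) (nat_lit 152) (nat_lit 15137403512) (nat_lit 152) (nat_lit 4052507068) (nat_lit 15) (nat_lit 4) (nat_lit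 17) (nat_lit 5) (nat_lit 17) (nat_lit 4) (nat_lit 354) (nat_lit 229) (nat_lit 197)))) (XT.nd (nat_lit 78) (nat_lit 152) (nat_lit 0) (XT.lf (nat_lit 0) (nat_lit 11125511302) (nat_lit 152) (nat_lit 12040884296) (nat_lit 152) (nat_lit 751007472) (nat_lit 15) (nat_lit 4) (nat_lit 17) (nat_lit 5) (nat_lit 17) (nat_lit 4) (nat_lit 355) (nat_lit 229) (nat_lit 196)) (XT.nd (nat_lit 78) (nat_lit 76) (nat_lit 0) (XT.lf (nat_lit 0) (nat_lit 2548722363) (nat_lit 228) (nat_lit 6314980503) (nat_lit 76) (nat_lit 15654575248) (nat_lit 14) (nat_lit 5) (nat_lit 17) (nat_lit 5) (nat_lit 15) (nat_lit 4) (nat_lit 356) (nat_lit 229) (nat_lit 195)) (XT.lf (nat_lit 0) (nat_lit 269023711) (nat_lit 76) (nat_lit 5618229628) (nat_lit 152) (nat_lit 19251078483) (nat_lit 13) (nat_lit 5) (nat_lit 14) (nat_lit 5) (nat_lit 15) (nat_lit 4) (nat_lit 357) (nat_lit 229) (nat_lit 194))))) (XT.nd (nat_lit 234) (nat_lit 152) (nat_lit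 0) (XT.nd (nat_lit 78) (nat_lit 0) (nat_lit 0) (XT.lf (nat_lit 0) (nat_lit 7095804281) (nat_lit 76) (nat_lit 2246802090) (nat_lit 152) (nat_lit 16433902726) (nat_lit 13) (nat_lit 5) (nat_lit 14) (nat_lit 5) (nat_lit 15) (nat_lit 4) (nat_lit 358) (nat_lit 229) (nat_lit 193)) (XT.nd (nat_lit 78) (nat_lit 0) (nat_lit 0) (XT.lf (nat_lit 0) (nat_lit 12867325794) (nat_lit 152) (nat_lit 12401015729) (nat_lit 0) (nat_lit 1166540293) (nat_lit 13) (nat_lit 5) (nat_lit 15) (nat_lit 4) (nat_lit 13) (nat_lit 4) (nat_lit 359) (nat_lit 229) (nat_lit 192)) (XT.lf (nat_lit 0) (nat_lit 16475297381) (nat_lit 152) (nat_lit 6035559659) (nat_lit 0) (nat_lit 4602844039) (nat_lit 13) (nat_lit 5) (nat_lit 15) (nat_lit 4) (nat_lit 13) (nat_lit 4) (nat_lit 360) (nat_lit 229) (nat_lit 191)))) (XT.nd (nat_lit 156) (nat_lit 76) (nat_lit 0) (XT.nd (nat_lit 78) (nat_lit 0) (nat_lit 0) (XT.lf (nat_lit 0) (nat_lit 451636124)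 (nat_lit 76) (nat_lit 19700781370) (nat_lit 76) (nat_lit 7661660221) (nat_lit 12) (nat_lit 4) (nat_lit 13) (nat_lit 5) (nat_lit 13) (nat_lit 4) (nat_lit 361) (nat_lit 229) (nat_lit 190)) (XT.lf (nat_lit 0) (nat_lit 7179898890) (nat_lit 76) (nat_lit 16777989840) (nat_lit 76) (nat_lit 4577055287) (nat_lit 12) (nat_lit 4) (nat_lit 13) (nat_lit 5) (nat_lit 13) (nat_lit 4) (nat_lit 362) (nat_lit 229) (nat_lit 189))) (XT.nd (nat_lit 78) (nat_lit 76) (nat_lit 0) (XT.lf (nat_lit 0) (nat_lit 14034988231) (nat_lit 76) (nat_lit 13800875874) (nat_lit 76) (nat_lit 1442840927) (nat_lit 12) (nat_lit 4) (nat_lit 13) (nat_lit 5) (nat_lit 13) (nat_lit 4) (nat_lit 363) (nat_lit 229) (nat_lit 188)) (XT.lf (nat_lit 0) (nat_lit 1709695203) (nat_lit 152) (nat_lit 9039878336) (nat_lit 76) (nat_lit 19295934259) (nat_lit 11) (nat_lit 5) (nat_lit 13) (nat_lit 5) (nat_lit 12) (nat_lit 4) (nat_lit 364) (nat_lit 229) (nat_lit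 187)))))) (XT.nd (nat_lit 468) (nat_lit 228) (nat_lit 0) (XT.nd (nat_lit 234) (nat_lit 0) (nat_lit 0) (XT.nd (nat_lit 78) (nat_lit 76) (nat_lit 0) (XT.lf (nat_lit 0) (nat_lit 4888132913) (nat_lit 152) (nat_lit 2735731973) (nat_lit 76) (nat_lit 23212228758) (nat_lit 11) (nat_lit 5) (nat_lit 13) (nat_lit 5) (nat_lit 12) (nat_lit 4) (nat_lit 365) (nat_lit 229) (nat_lit 186)) (XT.nd (nat_lit 78) (nat_lit 0) (nat_lit 0) (XT.lf (nat_lit 0) (nat_lit 3761500659) (nat_lit 76) (nat_lit 4398061686) (nat_lit 152) (nat_lit 23490922377) (nat_lit 10) (nat_lit 5) (nat_lit 11) (nat_lit 5) (nat_lit 12) (nat_lit 4) (nat_lit 366) (nat_lit 229) (nat_lit 185)) (XT.lf (nat_lit 0) (nat_lit 10440972317) (nat_lit 76) (nat_lit 1077729595) (nat_lit 152) (nat_lit 20970934926) (nat_lit 10) (nat_lit 5) (nat_lit 11) (nat_lit 5) (nat_lit 12) (nat_lit 4) (nat_lit 367) (nat_lit 229) (nat_lit 184)))) (XT.nd (nat_lit 78) (nat_lit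 0) (nat_lit 0) (XT.lf (nat_lit 0) (nat_lit 14963894157) (nat_lit 152) (nat_lit 16123243131) (nat_lit 0) (nat_lit 2267283725) (nat_lit 10) (nat_lit 5) (nat_lit 12) (nat_lit 4) (nat_lit 10) (nat_lit 4) (nat_lit 368) (nat_lit 229) (nat_lit 183)) (XT.nd (nat_lit 78) (nat_lit 0) (nat_lit 0) (XT.lf (nat_lit 0) (nat_lit 18486961021) (nat_lit 152) (nat_lit 10096353921) (nat_lit 0) (nat_lit 5662613593) (nat_lit 10) (nat_lit 5) (nat_lit 12) (nat_lit 4) (nat_lit 10) (nat_lit 4) (nat_lit 369) (nat_lit 229) (nat_lit 182)) (XT.lf (nat_lit 0) (nat_lit 22080621117) (nat_lit 152) (nat_lit 3952370880) (nat_lit 0) (nat_lit 9132257188) (nat_lit 10) (nat_lit 5) (nat_lit 12) (nat_lit 4) (nat_lit 10) (nat_lit 4) (nat_lit 370) (nat_lit 229) (nat_lit 181))))) (XT.nd (nat_lit 234) (nat_lit 152) (nat_lit 0) (XT.nd (nat_lit 78) (nat_lit 0) (nat_lit 0) (XT.lf (nat_lit 0) (nat_lit 2360129139) (nat_lit 76) (nat_lit 23410572401)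 (nat_lit 76) (nat_lit 10341804102) (nat_lit 9) (nat_lit 4) (nat_lit 10) (nat_lit 5) (nat_lit 10) (nat_lit 4) (nat_lit 371) (nat_lit 229) (nat_lit 180)) (XT.nd (nat_lit 78) (nat_lit 0) (nat_lit 0) (XT.lf (nat_lit 0) (nat_lit 8881773198) (nat_lit 76) (nat_lit 20695949634) (nat_lit 76) (nat_lit 7510283889) (nat_lit 9) (nat_lit 4) (nat_lit 10) (nat_lit 5) (nat_lit 10) (nat_lit 4) (nat_lit 372) (nat_lit 229) (nat_lit 179)) (XT.lf (nat_lit 0) (nat_lit 15539599890) (nat_lit 76) (nat_lit 17926662893) (nat_lit 76) (nat_lit 4627504481) (nat_lit 9) (nat_lit 4) (nat_lit 10) (nat_lit 5) (nat_lit 10) (nat_lit 4) (nat_lit 373) (nat_lit 229) (nat_lit 178)))) (XT.nd (nat_lit 156) (nat_lit 76) (nat_lit 0) (XT.nd (nat_lit 78) (nat_lit 76) (nat_lit 0) (XT.lf (nat_lit 0) (nat_lit 22339426733) (nat_lit 76) (nat_lit 15100292411) (nat_lit 76) (nat_lit 1690946945) (nat_lit 9) (nat_lit 4) (nat_lit 10) (nat_lit 5) (nat_lit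 10) (nat_lit 4) (nat_lit 374) (nat_lit 229) (nat_lit 177)) (XT.lf (nat_lit 0) (nat_lit 1276548817) (nat_lit 152) (nat_lit 10924929088) (nat_lit 76) (nat_lit 27997755866) (nat_lit 8) (nat_lit 5) (nat_lit 10) (nat_lit 5) (nat_lit 9) (nat_lit 4) (nat_lit 375) (nat_lit 229) (nat_lit 176))) (XT.nd (nat_lit 78) (nat_lit 76) (nat_lit 0) (XT.lf (nat_lit 0) (nat_lit 4268856818) (nat_lit 152) (nat_lit 4954405714) (nat_lit 76) (nat_lit 32077012625) (nat_lit 8) (nat_lit 5) (nat_lit 10) (nat_lit 5) (nat_lit 9) (nat_lit 4) (nat_lit 376) (nat_lit 229) (nat_lit 175)) (XT.lf (nat_lit 0) (nat_lit 1164526245) (nat_lit 76) (nat_lit 6168256052) (nat_lit 152) (nat_lit 35102121833) (nat_lit 7) (nat_lit 5) (nat_lit 8) (nat_lit 5) (nat_lit 9) (nat_lit 4) (nat_lit 377) (nat_lit 229) (nat_lit 174))))))) (XT.nd (nat_lit 1014) (nat_lit 152) (nat_lit 0) (XT.nd (nat_lit 468) (nat_lit 76) (nat_lit 0) (XT.nd (nat_lit 234) (nat_lit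 0) (nat_lit 0) (XT.nd (nat_lit 78) (nat_lit 0) (nat_lit 0) (XT.lf (nat_lit 0) (nat_lit 7515679243) (nat_lit 76) (nat_lit 2993976340) (nat_lit 152) (nat_lit 33093296939) (nat_lit 7) (nat_lit 5) (nat_lit 8) (nat_lit 5) (nat_lit 9) (nat_lit 4) (nat_lit 378) (nat_lit 229) (nat_lit 173)) (XT.nd (nat_lit 78) (nat_lit 0) (nat_lit 0) (XT.lf (nat_lit 0) (nat_lit 13756105435) (nat_lit 152) (nat_lit 30803323152) (nat_lit 0) (nat_lit 247396782) (nat_lit 7) (nat_lit 5) (nat_lit 9) (nat_lit 4) (nat_lit 7) (nat_lit 4) (nat_lit 379) (nat_lit 229) (nat_lit 172)) (XT.lf (nat_lit 0) (nat_lit 17102040451) (nat_lit 152) (nat_lit 25440982354) (nat_lit 0) (nat_lit 3503739639) (nat_lit 7) (nat_lit 5) (nat_lit 9) (nat_lit 4) (nat_lit 7) (nat_lit 4) (nat_lit 380) (nat_lit 229) (nat_lit 171)))) (XT.nd (nat_lit 78) (nat_lit 0) (nat_lit 0) (XT.lf (nat_lit 0) (nat_lit 20521604332) (nat_lit 152) (nat_lit 19966785412) (nat_lit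 0) (nat_lit 6836320842) (nat_lit 7) (nat_lit 5) (nat_lit 9) (nat_lit 4) (nat_lit 7) (nat_lit 4) (nat_lit 381) (nat_lit 229) (nat_lit 170)) (XT.nd (nat_lit 78) (nat_lit 0) (nat_lit 0) (XT.lf (nat_lit 0) (nat_lit 24017785047) (nat_lit 152) (nat_lit 14375949048) (nat_lit 0) (nat_lit 10248052354) (nat_lit 7) (nat_lit 5) (nat_lit 9) (nat_lit 4) (nat_lit 7) (nat_lit 4) (nat_lit 382) (nat_lit 229) (nat_lit 169)) (XT.lf (nat_lit 0) (nat_lit 27593637509) (nat_lit 152) (nat_lit 8663588063) (nat_lit 0) (nat_lit 13741915299) (nat_lit 7) (nat_lit 5) (nat_lit 9) (nat_lit 4) (nat_lit 7) (nat_lit 4) (nat_lit 383) (nat_lit 229) (nat_lit 168))))) (XT.nd (nat_lit 234) (nat_lit 0) (nat_lit 0) (XT.nd (nat_lit 78) (nat_lit 76) (nat_lit 0) (XT.lf (nat_lit 0) (nat_lit 31252286251) (nat_lit 152) (nat_lit 2824711076) (nat_lit 0) (nat_lit 17320962569) (nat_lit 7) (nat_lit 5) (nat_lit 9) (nat_lit 4) (nat_lit 7) (nat_lit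 4) (nat_lit 384) (nat_lit 229) (nat_lit 167)) (XT.nd (nat_lit 78) (nat_lit 0) (nat_lit 0) (XT.lf (nat_lit 0) (nat_lit 3208391111) (nat_lit 76) (nat_lit 31819378057) (nat_lit 76) (nat_lit 17810771391) (nat_lit 6) (nat_lit 4) (nat_lit 7) (nat_lit 5) (nat_lit 7) (nat_lit 4) (nat_lit 385) (nat_lit 229) (nat_lit 166)) (XT.lf (nat_lit 0) (nat_lit 9437268742) (nat_lit 76) (nat_lit 29484283282) (nat_lit 76) (nat_lit 15400644593) (nat_lit 6) (nat_lit 4) (nat_lit 7) (nat_lit 5) (nat_lit 7) (nat_lit 4) (nat_lit 386) (nat_lit 229) (nat_lit 165)))) (XT.nd (nat_lit 156) (nat_lit 0) (nat_lit 0) (XT.nd (nat_lit 78) (nat_lit 0) (nat_lit 0) (XT.lf (nat_lit 0) (nat_lit 15811147236) (nat_lit 76) (nat_lit 27098196671) (nat_lit 76) (nat_lit 12941711359) (nat_lit 6) (nat_lit 4) (nat_lit 7) (nat_lit 5) (nat_lit 7) (nat_lit 4) (nat_lit 387) (nat_lit 229) (nat_lit 164)) (XT.lf (nat_lit 0) (nat_lit 22335596000) (nat_lit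 76) (nat_lit 24659033296) (nat_lit 76) (nat_lit 10431823106) (nat_lit 6) (nat_lit 4) (nat_lit 7) (nat_lit 5) (nat_lit 7) (nat_lit 4) (nat_lit 388) (nat_lit 229) (nat_lit 163))) (XT.nd (nat_lit 78) (nat_lit 0) (nat_lit 0) (XT.lf (nat_lit 0) (nat_lit 29016316010) (nat_lit 76) (nat_lit 22164661847) (nat_lit 76) (nat_lit 7868786727) (nat_lit 6) (nat_lit 4) (nat_lit 7) (nat_lit 5) (nat_lit 7) (nat_lit 4) (nat_lit 389) (nat_lit 229) (nat_lit 162)) (XT.lf (nat_lit 0) (nat_lit 35859144787) (nat_lit 76) (nat_lit 19612902777) (nat_lit 76) (nat_lit 5250362678) (nat_lit 6) (nat_lit 4) (nat_lit 7) (nat_lit 5) (nat_lit 7) (nat_lit 4) (nat_lit 390) (nat_lit 229) (nat_lit 161)))))) (XT.nd (nat_lit 546) (nat_lit 0) (nat_lit 0) (XT.nd (nat_lit 234) (nat_lit 76) (nat_lit 0) (XT.nd (nat_lit 78) (nat_lit 76) (nat_lit 0) (XT.lf (nat_lit 0) (nat_lit 42870061504) (nat_lit 76) (nat_lit 17001526394) (nat_lit 76) (nat_lit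 2574263013) (nat_lit 6) (nat_lit 4) (nat_lit 7) (nat_lit 5) (nat_lit 7) (nat_lit 4) (nat_lit 391) (nat_lit 229) (nat_lit 160)) (XT.nd (nat_lit 78) (nat_lit 0) (nat_lit 0) (XT.lf (nat_lit 0) (nat_lit 158692317) (nat_lit 152) (nat_lit 14167956114) (nat_lit 76) (nat_lit 49894897403) (nat_lit 5) (nat_lit 5) (nat_lit 7) (nat_lit 5) (nat_lit 6) (nat_lit 4) (nat_lit 392) (nat_lit 229) (nat_lit 159)) (XT.lf (nat_lit 0) (nat_lit 2902601497) (nat_lit 152) (nat_lit 8658828380) (nat_lit 76) (nat_lit 54488903072) (nat_lit 5) (nat_lit 5) (nat_lit 7) (nat_lit 5) (nat_lit 6) (nat_lit 4) (nat_lit 393) (nat_lit 229) (nat_lit 158)))) (XT.nd (nat_lit 156) (nat_lit 0) (nat_lit 0) (XT.nd (nat_lit 78) (nat_lit 76) (nat_lit 0) (XT.lf (nat_lit 0) (nat_lit 5710095259) (nat_lit 152) (nat_lit 3018847013) (nat_lit 76) (nat_lit 59205610311) (nat_lit 5) (nat_lit 5) (nat_lit 7) (nat_lit 5) (nat_lit 6) (nat_lit 4) (nat_lit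 394) (nat_lit 229) (nat_lit 157)) (XT.lf (nat_lit 0) (nat_lit 2811784159) (nat_lit 76) (nat_lit 5798871184) (nat_lit 152) (nat_lit 61264384945) (nat_lit 4) (nat_lit 5) (nat_lit 5) (nat_lit 5) (nat_lit 6) (nat_lit 4) (nat_lit 395) (nat_lit 229) (nat_lit 156))) (XT.nd (nat_lit 78) (nat_lit 0) (nat_lit 0) (XT.lf (nat_lit 0) (nat_lit 8846127627) (nat_lit 76) (nat_lit 2764613598) (nat_lit 152) (nat_lit 60262632659) (nat_lit 4) (nat_lit 5) (nat_lit 5) (nat_lit 5) (nat_lit 6) (nat_lit 4) (nat_lit 396) (nat_lit 229) (nat_lit 155)) (XT.lf (nat_lit 0) (nat_lit 14686703736) (nat_lit 152) (nat_lit 58906138181) (nat_lit 0) (nat_lit 339245688) (nat_lit 4) (nat_lit 5) (nat_lit 6) (nat_lit 4) (nat_lit 4) (nat_lit 4) (nat_lit 397) (nat_lit 229) (nat_lit 154))))) (XT.nd (nat_lit 234) (nat_lit 0) (nat_lit 0) (XT.nd (nat_lit 78) (nat_lit 0) (nat_lit 0) (XT.lf (nat_lit 0) (nat_lit 17865237006) (nat_lit 152) (nat_lit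 54720337328) (nat_lit 0) (nat_lit 3466685802) (nat_lit 4) (nat_lit 5) (nat_lit 6) (nat_lit 4) (nat_lit 4) (nat_lit 4) (nat_lit 398) (nat_lit 229) (nat_lit 153)) (XT.nd (nat_lit 78) (nat_lit 0) (nat_lit 0) (XT.lf (nat_lit 0) (nat_lit 21122543238) (nat_lit 152) (nat_lit 50439611044) (nat_lit 0) (nat_lit 6674387027) (nat_lit 4) (nat_lit 5) (nat_lit 6) (nat_lit 4) (nat_lit 4) (nat_lit 4) (nat_lit 399) (nat_lit 229) (nat_lit 152)) (XT.lf (nat_lit 0) (nat_lit 24461468621) (nat_lit 152) (nat_lit 46060218890) (nat_lit 0) (nat_lit 9965152210) (nat_lit 4) (nat_lit 5) (nat_lit 6) (nat_lit 4) (nat_lit 4) (nat_lit 4) (nat_lit 400) (nat_lit 229) (nat_lit 151)))) (XT.nd (nat_lit 156) (nat_lit 0) (nat_lit 0) (XT.nd (nat_lit 78) (nat_lit 0) (nat_lit 0) (XT.lf (nat_lit 0) (nat_lit 27884930662) (nat_lit 152) (nat_lit 41578334212) (nat_lit 0) (nat_lit 13341856776) (nat_lit 4) (nat_lit 5) (nat_lit 6) (nat_lit 4)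 (nat_lit 4) (nat_lit 4) (nat_lit 401) (nat_lit 229) (nat_lit 150)) (XT.lf (nat_lit 0) (nat_lit 31395920737) (nat_lit 152) (nat_lit 36990040800) (nat_lit 0) (nat_lit 16807451243) (nat_lit 4) (nat_lit 5) (nat_lit 6) (nat_lit 4) (nat_lit 4) (nat_lit 4) (nat_lit 402) (nat_lit 229) (nat_lit 149))) (XT.nd (nat_lit 78) (nat_lit 0) (nat_lit 0) (XT.lf (nat_lit 0) (nat_lit 34997506701) (nat_lit 152) (nat_lit 32291329465) (nat_lit 0) (nat_lit 20364963801) (nat_lit 4) (nat_lit 5) (nat_lit 6) (nat_lit 4) (nat_lit 4) (nat_lit 4) (nat_lit 403) (nat_lit 229) (nat_lit 148)) (XT.lf (nat_lit 0) (nat_lit 38692835571) (nat_lit 152) (nat_lit 27478094539) (nat_lit 0) (nat_lit 24017502957) (nat_lit 4) (nat_lit 5) (nat_lit 6) (nat_lit 4) (nat_lit 4) (nat_lit 4) (nat_lit 404) (nat_lit 229) (nat_lit 147))))))))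
noncomputable def xc38 : XT := (XT.nd (nat_lit 35724) (nat_lit 0) (nat_lit 456) (XT.nd (nat_lit 34710) (nat_lit 0) (nat_lit 1596) (XT.nd (nat_lit 34164) (nat_lit 0) (nat_lit 2660) (XT.nd (nat_lit 234) (nat_lit 0) (nat_lit 0) (XT.nd (nat_lit 78) (nat_lit 0) (nat_lit 0) (XT.lf (nat_lit 0) (nat_lit 42485136274) (nat_lit 152) (nat_lit 22546130280) (nat_lit 0) (nat_lit 27768260249) (nat_lit 4) (nat_lit 5) (nat_lit 6) (nat_lit 4) (nat_lit 4) (nat_lit 4) (nat_lit 405) (nat_lit 229) (nat_lit 146)) (XT.nd (nat_lit 78) (nat_lit 0) (nat_lit 0) (XT.lf (nat_lit 0) (nat_lit 46377722472) (nat_lit 152) (nat_lit 17491127206) (nat_lit 0) (nat_lit 31620513037) (nat_lit 4) (nat_lit 5) (nat_lit 6) (nat_lit 4) (nat_lit 4) (nat_lit 4) (nat_lit 406) (nat_lit 229) (nat_lit 145)) (XT.lf (nat_lit 0) (nat_lit 50373995454) (nat_lit 152) (nat_lit 12308668324) (nat_lit 0) (nat_lit 35577627369) (nat_lit 4) (nat_lit 5) (nat_lit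 6) (nat_lit 4) (nat_lit 4) (nat_lit 4) (nat_lit 407) (nat_lit 229) (nat_lit 144)))) (XT.nd (nat_lit 33774) (nat_lit 0) (nat_lit 3572) (XT.lf (nat_lit 0) (nat_lit 54477447108) (nat_lit 152) (nat_lit 6994225273) (nat_lit 0) (nat_lit 39643060917) (nat_lit 4) (nat_lit 5) (nat_lit 6) (nat_lit 4) (nat_lit 4) (nat_lit 4) (nat_lit 408) (nat_lit 229) (nat_lit 143)) (XT.nd (nat_lit 78) (nat_lit 228) (nat_lit 0) (XT.lf (nat_lit 0) (nat_lit 4094701509) (nat_lit 228) (nat_lit 783518444) (nat_lit 228) (nat_lit 783518444) (nat_lit 54) (nat_lit 4) (nat_lit 57) (nat_lit 5) (nat_lit 57) (nat_lit 4) (nat_lit 320) (nat_lit 230) (nat_lit 230)) (XT.lf (nat_lit 0) (nat_lit 2307997733) (nat_lit 228) (nat_lit 7574879747) (nat_lit 0) (nat_lit 1639343987) (nat_lit 51) (nat_lit 5) (nat_lit 54) (nat_lit 4) (nat_lit 51) (nat_lit 4) (nat_lit 321) (nat_lit 230) (nat_lit 229))))) (XT.nd (nat_lit 234) (nat_lit 456) (nat_lit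 0) (XT.nd (nat_lit 78) (nat_lit 456) (nat_lit 0) (XT.lf (nat_lit 0) (nat_lit 6225864849) (nat_lit 228) (nat_lit 593901345) (nat_lit 0) (nat_lit 4908032710) (nat_lit 51) (nat_lit 5) (nat_lit 54) (nat_lit 4) (nat_lit 51) (nat_lit 4) (nat_lit 322) (nat_lit 230) (nat_lit 228)) (XT.nd (nat_lit 78) (nat_lit 228) (nat_lit 0) (XT.lf (nat_lit 0) (nat_lit 6587158562) (nat_lit 228) (nat_lit 3650633858) (nat_lit 228) (nat_lit 1702531433) (nat_lit 48) (nat_lit 4) (nat_lit 51) (nat_lit 5) (nat_lit 51) (nat_lit 4) (nat_lit 323) (nat_lit 230) (nat_lit 227)) (XT.lf (nat_lit 0) (nat_lit 1710518680) (nat_lit 152) (nat_lit 393192650) (nat_lit 228) (nat_lit 10056867230) (nat_lit 45) (nat_lit 5) (nat_lit 47) (nat_lit 5) (nat_lit 48) (nat_lit 4) (nat_lit 324) (nat_lit 230) (nat_lit 226)))) (XT.nd (nat_lit 156) (nat_lit 228) (nat_lit 0) (XT.nd (nat_lit 78) (nat_lit 228) (nat_lit 0) (XT.lf (nat_lit 0) (nat_lit 5987192764)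 (nat_lit 228) (nat_lit 3474939408) (nat_lit 0) (nat_lit 2924954400) (nat_lit 45) (nat_lit 5) (nat_lit 48) (nat_lit 4) (nat_lit 45) (nat_lit 4) (nat_lit 325) (nat_lit 230) (nat_lit 225)) (XT.lf (nat_lit 0) (nat_lit 3641549231) (nat_lit 228) (nat_lit 6301232649) (nat_lit 228) (nat_lit 2679007300) (nat_lit 42) (nat_lit 4) (nat_lit 45) (nat_lit 5) (nat_lit 45) (nat_lit 4) (nat_lit 326) (nat_lit 230) (nat_lit 224))) (XT.nd (nat_lit 78) (nat_lit 152) (nat_lit 0) (XT.lf (nat_lit 0) (nat_lit 1083402654) (nat_lit 304) (nat_lit 1966594644) (nat_lit 76) (nat_lit 9814694332) (nat_lit 41) (nat_lit 5) (nat_lit 45) (nat_lit 5) (nat_lit 42) (nat_lit 4) (nat_lit 327) (nat_lit 230) (nat_lit 223)) (XT.lf (nat_lit 0) (nat_lit 4877361263) (nat_lit 228) (nat_lit 7917281463) (nat_lit 0) (nat_lit 320328763) (nat_lit 39) (nat_lit 5) (nat_lit 42) (nat_lit 4) (nat_lit 39) (nat_lit 4) (nat_lit 328) (nat_lit 230) (nat_lit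 222)))))) (XT.nd (nat_lit 468) (nat_lit 532) (nat_lit 0) (XT.nd (nat_lit 234) (nat_lit 304) (nat_lit 0) (XT.nd (nat_lit 78) (nat_lit 228) (nat_lit 0) (XT.lf (nat_lit 0) (nat_lit 8755387799) (nat_lit 228) (nat_lit 917510287) (nat_lit 0) (nat_lit 3700814116) (nat_lit 39) (nat_lit 5) (nat_lit 42) (nat_lit 4) (nat_lit 39) (nat_lit 4) (nat_lit 329) (nat_lit 230) (nat_lit 221)) (XT.nd (nat_lit 78) (nat_lit 76) (nat_lit 0) (XT.lf (nat_lit 0) (nat_lit 6286609793) (nat_lit 152) (nat_lit 6445902103) (nat_lit 152) (nat_lit 908278727) (nat_lit 37) (nat_lit 4) (nat_lit 39) (nat_lit 5) (nat_lit 39) (nat_lit 4) (nat_lit 330) (nat_lit 230) (nat_lit 220)) (XT.lf (nat_lit 0) (nat_lit 2788133506) (nat_lit 228) (nat_lit 346692640) (nat_lit 76) (nat_lit 10782312744) (nat_lit 36) (nat_lit 5) (nat_lit 39) (nat_lit 5) (nat_lit 37) (nat_lit 4) (nat_lit 331) (nat_lit 230) (nat_lit 219)))) (XT.nd (nat_lit 78) (nat_lit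 152) (nat_lit 0) (XT.lf (nat_lit 0) (nat_lit 6570955520) (nat_lit 228) (nat_lit 7333549779) (nat_lit 0) (nat_lit 297242584) (nat_lit 34) (nat_lit 5) (nat_lit 37) (nat_lit 4) (nat_lit 34) (nat_lit 4) (nat_lit 332) (nat_lit 230) (nat_lit 218)) (XT.nd (nat_lit 78) (nat_lit 152) (nat_lit 0) (XT.lf (nat_lit 0) (nat_lit 10427169585) (nat_lit 228) (nat_lit 344706785) (nat_lit 0) (nat_lit 3724273254) (nat_lit 34) (nat_lit 5) (nat_lit 37) (nat_lit 4) (nat_lit 34) (nat_lit 4) (nat_lit 333) (nat_lit 230) (nat_lit 217)) (XT.lf (nat_lit 0) (nat_lit 6865949295) (nat_lit 152) (nat_lit 7526629152) (nat_lit 152) (nat_lit 407049913) (nat_lit 32) (nat_lit 4) (nat_lit 34) (nat_lit 5) (nat_lit 34) (nat_lit 4) (nat_lit 334) (nat_lit 230) (nat_lit 216))))) (XT.nd (nat_lit 234) (nat_lit 304) (nat_lit 0) (XT.nd (nat_lit 78) (nat_lit 152) (nat_lit 0) (XT.lf (nat_lit 0) (nat_lit 3230299619) (nat_lit 228) (nat_lit 966617524)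 (nat_lit 76) (nat_lit 10916434722) (nat_lit 31) (nat_lit 5) (nat_lit 34) (nat_lit 5) (nat_lit 32) (nat_lit 4) (nat_lit 335) (nat_lit 230) (nat_lit 215)) (XT.nd (nat_lit 78) (nat_lit 0) (nat_lit 0) (XT.lf (nat_lit 0) (nat_lit 6207999776) (nat_lit 152) (nat_lit 750073687) (nat_lit 228) (nat_lit 8478654085) (nat_lit 29) (nat_lit 5) (nat_lit 31) (nat_lit 5) (nat_lit 32) (nat_lit 4) (nat_lit 336) (nat_lit 230) (nat_lit 214)) (XT.lf (nat_lit 0) (nat_lit 10764718297) (nat_lit 228) (nat_lit 2297919085) (nat_lit 0) (nat_lit 2708200585) (nat_lit 29) (nat_lit 5) (nat_lit 32) (nat_lit 4) (nat_lit 29) (nat_lit 4) (nat_lit 337) (nat_lit 230) (nat_lit 213)))) (XT.nd (nat_lit 156) (nat_lit 76) (nat_lit 0) (XT.nd (nat_lit 78) (nat_lit 76) (nat_lit 0) (XT.lf (nat_lit 0) (nat_lit 4811684492) (nat_lit 152) (nat_lit 9859851671) (nat_lit 152) (nat_lit 1443899622) (nat_lit 27) (nat_lit 4) (nat_lit 29) (nat_lit 5)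 (nat_lit 29) (nat_lit 4) (nat_lit 338) (nat_lit 230) (nat_lit 212)) (XT.lf (nat_lit 0) (nat_lit 2137662981) (nat_lit 228) (nat_lit 4425461571) (nat_lit 76) (nat_lit 9907969182) (nat_lit 26) (nat_lit 5) (nat_lit 29) (nat_lit 5) (nat_lit 27) (nat_lit 4) (nat_lit 339) (nat_lit 230) (nat_lit 211))) (XT.nd (nat_lit 78) (nat_lit 0) (nat_lit 0) (XT.lf (nat_lit 0) (nat_lit 2582807058) (nat_lit 76) (nat_lit 3174102211) (nat_lit 152) (nat_lit 11081345162) (nat_lit 25) (nat_lit 5) (nat_lit 26) (nat_lit 5) (nat_lit 27) (nat_lit 4) (nat_lit 340) (nat_lit 230) (nat_lit 210)) (XT.lf (nat_lit 0) (nat_lit 9467728291) (nat_lit 152) (nat_lit 7439436633) (nat_lit 0) (nat_lit 309813635) (nat_lit 25) (nat_lit 5) (nat_lit 27) (nat_lit 4) (nat_lit 25) (nat_lit 4) (nat_lit 341) (nat_lit 230) (nat_lit 209))))))) (XT.nd (nat_lit 1014) (nat_lit 380) (nat_lit 0) (XT.nd (nat_lit 468) (nat_lit 456) (nat_lit 0) (XT.nd (nat_lit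 234) (nat_lit 76) (nat_lit 0) (XT.nd (nat_lit 78) (nat_lit 228) (nat_lit 0) (XT.lf (nat_lit 0) (nat_lit 13258018184) (nat_lit 152) (nat_lit 559986873) (nat_lit 0) (nat_lit 3790052312) (nat_lit 25) (nat_lit 5) (nat_lit 27) (nat_lit 4) (nat_lit 25) (nat_lit 4) (nat_lit 342) (nat_lit 230) (nat_lit 208)) (XT.nd (nat_lit 78) (nat_lit 76) (nat_lit 0) (XT.lf (nat_lit 0) (nat_lit 6547183622) (nat_lit 152) (nat_lit 10616331355) (nat_lit 152) (nat_lit 847344884) (nat_lit 23) (nat_lit 4) (nat_lit 25) (nat_lit 5) (nat_lit 25) (nat_lit 4) (nat_lit 343) (nat_lit 230) (nat_lit 207)) (XT.lf (nat_lit 0) (nat_lit 2650979087) (nat_lit 228) (nat_lit 4679751930) (nat_lit 76) (nat_lit 11095921097) (nat_lit 22) (nat_lit 5) (nat_lit 25) (nat_lit 5) (nat_lit 23) (nat_lit 4) (nat_lit 344) (nat_lit 230) (nat_lit 206)))) (XT.nd (nat_lit 78) (nat_lit 0) (nat_lit 0) (XT.lf (nat_lit 0) (nat_lit 2239473931) (nat_lit 76) (nat_lit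 3959764587) (nat_lit 152) (nat_lit 12656600619) (nat_lit 21) (nat_lit 5) (nat_lit 22) (nat_lit 5) (nat_lit 23) (nat_lit 4) (nat_lit 345) (nat_lit 230) (nat_lit 205)) (XT.nd (nat_lit 78) (nat_lit 0) (nat_lit 0) (XT.lf (nat_lit 0) (nat_lit 9359695041) (nat_lit 76) (nat_lit 482744266) (nat_lit 152) (nat_lit 9455839876) (nat_lit 21) (nat_lit 5) (nat_lit 22) (nat_lit 5) (nat_lit 23) (nat_lit 4) (nat_lit 346) (nat_lit 230) (nat_lit 204)) (XT.lf (nat_lit 0) (nat_lit 13567262125) (nat_lit 152) (nat_lit 3191115750) (nat_lit 0) (nat_lit 2996476052) (nat_lit 21) (nat_lit 5) (nat_lit 23) (nat_lit 4) (nat_lit 21) (nat_lit 4) (nat_lit 347) (nat_lit 230) (nat_lit 203))))) (XT.nd (nat_lit 234) (nat_lit 228) (nat_lit 0) (XT.nd (nat_lit 78) (nat_lit 76) (nat_lit 0) (XT.lf (nat_lit 0) (nat_lit 3728837182) (nat_lit 152) (nat_lit 13659830029) (nat_lit 152) (nat_lit 2836943944) (nat_lit 19) (nat_lit 4) (nat_lit 21)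 (nat_lit 5) (nat_lit 21) (nat_lit 4) (nat_lit 348) (nat_lit 230) (nat_lit 202)) (XT.nd (nat_lit 78) (nat_lit 0) (nat_lit 0) (XT.lf (nat_lit 0) (nat_lit 579113156) (nat_lit 228) (nat_lit 9892043670) (nat_lit 76) (nat_lit 10239879505) (nat_lit 18) (nat_lit 5) (nat_lit 21) (nat_lit 5) (nat_lit 19) (nat_lit 4) (nat_lit 349) (nat_lit 230) (nat_lit 201)) (XT.lf (nat_lit 0) (nat_lit 3986586046) (nat_lit 228) (nat_lit 3212502145) (nat_lit 76) (nat_lit 14012742592) (nat_lit 18) (nat_lit 5) (nat_lit 21) (nat_lit 5) (nat_lit 19) (nat_lit 4) (nat_lit 350) (nat_lit 230) (nat_lit 200)))) (XT.nd (nat_lit 156) (nat_lit 152) (nat_lit 0) (XT.nd (nat_lit 78) (nat_lit 0) (nat_lit 0) (XT.lf (nat_lit 0) (nat_lit 3646106199) (nat_lit 76) (nat_lit 3832753525) (nat_lit 152) (nat_lit 14249339026) (nat_lit 17) (nat_lit 5) (nat_lit 18) (nat_lit 5) (nat_lit 19) (nat_lit 4) (nat_lit 351) (nat_lit 230) (nat_lit 199)) (XT.lf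 (nat_lit 0) (nat_lit 10684764398) (nat_lit 76) (nat_lit 371753353) (nat_lit 152) (nat_lit 11204147719) (nat_lit 17) (nat_lit 5) (nat_lit 18) (nat_lit 5) (nat_lit 19) (nat_lit 4) (nat_lit 352) (nat_lit 230) (nat_lit 198))) (XT.nd (nat_lit 78) (nat_lit 152) (nat_lit 0) (XT.lf (nat_lit 0) (nat_lit 14721514066) (nat_lit 152) (nat_lit 4995276363) (nat_lit 0) (nat_lit 3092940938) (nat_lit 17) (nat_lit 5) (nat_lit 19) (nat_lit 4) (nat_lit 17) (nat_lit 4) (nat_lit 353) (nat_lit 230) (nat_lit 197)) (XT.lf (nat_lit 0) (nat_lit 1725317888) (nat_lit 152) (nat_lit 16742198929) (nat_lit 152) (nat_lit 4908645420) (nat_lit 15) (nat_lit 4) (nat_lit 17) (nat_lit 5) (nat_lit 17) (nat_lit 4) (nat_lit 354) (nat_lit 230) (nat_lit 196)))))) (XT.nd (nat_lit 546) (nat_lit 228) (nat_lit 0) (XT.nd (nat_lit 234) (nat_lit 76) (nat_lit 0) (XT.nd (nat_lit 78) (nat_lit 76) (nat_lit 0) (XT.lf (nat_lit 0) (nat_lit 8663349809)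 (nat_lit 152) (nat_lit 13664384373) (nat_lit 152) (nat_lit 1631820787) (nat_lit 15) (nat_lit 4) (nat_lit 17) (nat_lit 5) (nat_lit 17) (nat_lit 4) (nat_lit 355) (nat_lit 230) (nat_lit 195)) (XT.nd (nat_lit 78) (nat_lit 0) (nat_lit 0) (XT.lf (nat_lit 0) (nat_lit 1661608086) (nat_lit 228) (nat_lit 8852712838) (nat_lit 76) (nat_lit 14047078894) (nat_lit 14) (nat_lit 5) (nat_lit 17) (nat_lit 5) (nat_lit 15) (nat_lit 4) (nat_lit 356) (nat_lit 230) (nat_lit 194)) (XT.lf (nat_lit 0) (nat_lit 4974748380) (nat_lit 228) (nat_lit 2314624126) (nat_lit 76) (nat_lit 17892853548) (nat_lit 14) (nat_lit 5) (nat_lit 17) (nat_lit 5) (nat_lit 15) (nat_lit 4) (nat_lit 357) (nat_lit 230) (nat_lit 193)))) (XT.nd (nat_lit 156) (nat_lit 0) (nat_lit 0) (XT.nd (nat_lit 78) (nat_lit 0) (nat_lit 0) (XT.lf (nat_lit 0) (nat_lit 4425823687) (nat_lit 76) (nat_lit 3959057809) (nat_lit 152) (nat_lit 17436888923) (nat_lit 13) (nat_lit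 5) (nat_lit 14) (nat_lit 5) (nat_lit 15) (nat_lit 4) (nat_lit 358) (nat_lit 230) (nat_lit 192)) (XT.lf (nat_lit 0) (nat_lit 11336570898) (nat_lit 76) (nat_lit 539721971) (nat_lit 152) (nat_lit 14604859698) (nat_lit 13) (nat_lit 5) (nat_lit 14) (nat_lit 5) (nat_lit 15) (nat_lit 4) (nat_lit 359) (nat_lit 230) (nat_lit 191))) (XT.nd (nat_lit 78) (nat_lit 0) (nat_lit 0) (XT.lf (nat_lit 0) (nat_lit 15457681233) (nat_lit 152) (nat_lit 8812379341) (nat_lit 0) (nat_lit 2890718642) (nat_lit 13) (nat_lit 5) (nat_lit 15) (nat_lit 4) (nat_lit 13) (nat_lit 4) (nat_lit 360) (nat_lit 230) (nat_lit 190)) (XT.lf (nat_lit 0) (nat_lit 19109688016) (nat_lit 152) (nat_lit 2371318818) (nat_lit 0) (nat_lit 6380912021) (nat_lit 13) (nat_lit 5) (nat_lit 15) (nat_lit 4) (nat_lit 13) (nat_lit 4) (nat_lit 361) (nat_lit 230) (nat_lit 189))))) (XT.nd (nat_lit 234) (nat_lit 76) (nat_lit 0) (XT.nd (nat_lit 78) (nat_lit 76)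 (nat_lit 0) (XT.lf (nat_lit 0) (nat_lit 4272793744) (nat_lit 76) (nat_lit 18598595117) (nat_lit 76) (nat_lit 5712718729) (nat_lit 12) (nat_lit 4) (nat_lit 13) (nat_lit 5) (nat_lit 13) (nat_lit 4) (nat_lit 362) (nat_lit 230) (nat_lit 188)) (XT.nd (nat_lit 78) (nat_lit 76) (nat_lit 0) (XT.lf (nat_lit 0) (nat_lit 11092003174) (nat_lit 76) (nat_lit 15637436629) (nat_lit 76) (nat_lit 2599035587) (nat_lit 12) (nat_lit 4) (nat_lit 13) (nat_lit 5) (nat_lit 13) (nat_lit 4) (nat_lit 363) (nat_lit 230) (nat_lit 187)) (XT.lf (nat_lit 0) (nat_lit 556517813) (nat_lit 152) (nat_lit 12056752066) (nat_lit 76) (nat_lit 17482936556) (nat_lit 11) (nat_lit 5) (nat_lit 13) (nat_lit 5) (nat_lit 12) (nat_lit 4) (nat_lit 364) (nat_lit 230) (nat_lit 186)))) (XT.nd (nat_lit 156) (nat_lit 0) (nat_lit 0) (XT.nd (nat_lit 78) (nat_lit 76) (nat_lit 0) (XT.lf (nat_lit 0) (nat_lit 3715980521) (nat_lit 152) (nat_lit 5786811884)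 (nat_lit 76) (nat_lit 21384577409) (nat_lit 11) (nat_lit 5) (nat_lit 13) (nat_lit 5) (nat_lit 12) (nat_lit 4) (nat_lit 365) (nat_lit 230) (nat_lit 185)) (XT.lf (nat_lit 0) (nat_lit 615827449) (nat_lit 76) (nat_lit 6322922036) (nat_lit 152) (nat_lit 24764479263) (nat_lit 10) (nat_lit 5) (nat_lit 11) (nat_lit 5) (nat_lit 12) (nat_lit 4) (nat_lit 366) (nat_lit 230) (nat_lit 184))) (XT.nd (nat_lit 78) (nat_lit 0) (nat_lit 0) (XT.lf (nat_lit 0) (nat_lit 7262414810) (nat_lit 76) (nat_lit 3017272380) (nat_lit 152) (nat_lit 22263247538) (nat_lit 10) (nat_lit 5) (nat_lit 11) (nat_lit 5) (nat_lit 12) (nat_lit 4) (nat_lit 367) (nat_lit 230) (nat_lit 183)) (XT.lf (nat_lit 0) (nat_lit 13688426625) (nat_lit 152) (nat_lit 19368781664) (nat_lit 0) (nat_lit 351611778) (nat_lit 10) (nat_lit 5) (nat_lit 12) (nat_lit 4) (nat_lit 10) (nat_lit 4) (nat_lit 368) (nat_lit 230) (nat_lit 182))))))))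
noncomputable def xc39 : XT := (XT.nd (nat_lit 2028) (nat_lit 76) (nat_lit 0) (XT.nd (nat_lit 1014) (nat_lit 152) (nat_lit 0) (XT.nd (nat_lit 468) (nat_lit 152) (nat_lit 0) (XT.nd (nat_lit 234) (nat_lit 76) (nat_lit 0) (XT.nd (nat_lit 78) (nat_lit 0) (nat_lit 0) (XT.lf (nat_lit 0) (nat_lit 17194203452) (nat_lit 152) (nat_lit 13373278092) (nat_lit 0) (nat_lit 3733372105) (nat_lit 10) (nat_lit 5) (nat_lit 12) (nat_lit 4) (nat_lit 10) (nat_lit 4) (nat_lit 369) (nat_lit 230) (nat_lit 181)) (XT.nd (nat_lit 78) (nat_lit 0) (nat_lit 0) (XT.lf (nat_lit 0) (nat_lit 20771077105) (nat_lit 152) (nat_lit 7259766545) (nat_lit 0) (nat_lit 7189841387) (nat_lit 10) (nat_lit 5) (nat_lit 12) (nat_lit 4) (nat_lit 10) (nat_lit 4) (nat_lit 370) (nat_lit 230) (nat_lit 180)) (XT.lf (nat_lit 0) (nat_lit 24422173005) (nat_lit 152) (nat_lit 1022905120) (nat_lit 0) (nat_lit 10724039842) (nat_lit 10) (nat_lit 5) (nat_lit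 12) (nat_lit 4) (nat_lit 10) (nat_lit 4) (nat_lit 371) (nat_lit 230) (nat_lit 179)))) (XT.nd (nat_lit 78) (nat_lit 0) (nat_lit 0) (XT.lf (nat_lit 0) (nat_lit 5449087185) (nat_lit 76) (nat_lit 22753974206) (nat_lit 76) (nat_lit 8942348376) (nat_lit 9) (nat_lit 4) (nat_lit 10) (nat_lit 5) (nat_lit 10) (nat_lit 4) (nat_lit 372) (nat_lit 230) (nat_lit 178)) (XT.nd (nat_lit 78) (nat_lit 0) (nat_lit 0) (XT.lf (nat_lit 0) (nat_lit 12078473163) (nat_lit 76) (nat_lit 19997492816) (nat_lit 76) (nat_lit 6075679931) (nat_lit 9) (nat_lit 4) (nat_lit 10) (nat_lit 5) (nat_lit 10) (nat_lit 4) (nat_lit 373) (nat_lit 230) (nat_lit 177)) (XT.lf (nat_lit 0) (nat_lit 18850687663) (nat_lit 76) (nat_lit 17183554714) (nat_lit 76) (nat_lit 3154764106) (nat_lit 9) (nat_lit 4) (nat_lit 10) (nat_lit 5) (nat_lit 10) (nat_lit 4) (nat_lit 374) (nat_lit 230) (nat_lit 176))))) (XT.nd (nat_lit 234) (nat_lit 76) (nat_lit 0) (XT.nd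 (nat_lit 78) (nat_lit 76) (nat_lit 0) (XT.lf (nat_lit 0) (nat_lit 25771648152) (nat_lit 76) (nat_lit 14309701120) (nat_lit 76) (nat_lit 177048645) (nat_lit 9) (nat_lit 4) (nat_lit 10) (nat_lit 5) (nat_lit 10) (nat_lit 4) (nat_lit 375) (nat_lit 230) (nat_lit 175)) (XT.nd (nat_lit 78) (nat_lit 0) (nat_lit 0) (XT.lf (nat_lit 0) (nat_lit 2804258103) (nat_lit 152) (nat_lit 8540845288) (nat_lit 76) (nat_lit 30014826462) (nat_lit 8) (nat_lit 5) (nat_lit 10) (nat_lit 5) (nat_lit 9) (nat_lit 4) (nat_lit 376) (nat_lit 230) (nat_lit 174)) (XT.lf (nat_lit 0) (nat_lit 5842954388) (nat_lit 152) (nat_lit 2470191601) (nat_lit 76) (nat_lit 34182175354) (nat_lit 8) (nat_lit 5) (nat_lit 10) (nat_lit 5) (nat_lit 9) (nat_lit 4) (nat_lit 377) (nat_lit 230) (nat_lit 173)))) (XT.nd (nat_lit 156) (nat_lit 0) (nat_lit 0) (XT.nd (nat_lit 78) (nat_lit 0) (nat_lit 0) (XT.lf (nat_lit 0) (nat_lit 3806496098) (nat_lit 76)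 (nat_lit 5175244507) (nat_lit 152) (nat_lit 34682777217) (nat_lit 7) (nat_lit 5) (nat_lit 8) (nat_lit 5) (nat_lit 9) (nat_lit 4) (nat_lit 378) (nat_lit 230) (nat_lit 172)) (XT.lf (nat_lit 0) (nat_lit 10272250654) (nat_lit 76) (nat_lit 1940048808) (nat_lit 152) (nat_lit 32656573254) (nat_lit 7) (nat_lit 5) (nat_lit 8) (nat_lit 5) (nat_lit 9) (nat_lit 4) (nat_lit 379) (nat_lit 230) (nat_lit 171))) (XT.nd (nat_lit 78) (nat_lit 0) (nat_lit 0) (XT.lf (nat_lit 0) (nat_lit 15526408604) (nat_lit 152) (nat_lit 29239777195) (nat_lit 0) (nat_lit 1343583930) (nat_lit 7) (nat_lit 5) (nat_lit 9) (nat_lit 4) (nat_lit 7) (nat_lit 4) (nat_lit 380) (nat_lit 230) (nat_lit 170)) (XT.lf (nat_lit 0) (nat_lit 18933179341) (nat_lit 152) (nat_lit 23789021872) (nat_lit 0) (nat_lit 4665905465) (nat_lit 7) (nat_lit 5) (nat_lit 9) (nat_lit 4) (nat_lit 7) (nat_lit 4) (nat_lit 381) (nat_lit 230) (nat_lit 169)))))) (XT.nd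 (nat_lit 468) (nat_lit 76) (nat_lit 0) (XT.nd (nat_lit 234) (nat_lit 76) (nat_lit 0) (XT.nd (nat_lit 78) (nat_lit 0) (nat_lit 0) (XT.lf (nat_lit 0) (nat_lit 22416939526) (nat_lit 152) (nat_lit 18220944360) (nat_lit 0) (nat_lit 8067676133) (nat_lit 7) (nat_lit 5) (nat_lit 9) (nat_lit 4) (nat_lit 7) (nat_lit 4) (nat_lit 382) (nat_lit 230) (nat_lit 168)) (XT.nd (nat_lit 78) (nat_lit 0) (nat_lit 0) (XT.lf (nat_lit 0) (nat_lit 25980733223) (nat_lit 152) (nat_lit 12530679349) (nat_lit 0) (nat_lit 11551868357) (nat_lit 7) (nat_lit 5) (nat_lit 9) (nat_lit 4) (nat_lit 7) (nat_lit 4) (nat_lit 383) (nat_lit 230) (nat_lit 167)) (XT.lf (nat_lit 0) (nat_lit 29627674426) (nat_lit 152) (nat_lit 6713254764) (nat_lit 0) (nat_lit 15121526577) (nat_lit 7) (nat_lit 5) (nat_lit 9) (nat_lit 4) (nat_lit 7) (nat_lit 4) (nat_lit 384) (nat_lit 230) (nat_lit 166)))) (XT.nd (nat_lit 78) (nat_lit 76) (nat_lit 0) (XT.lf (nat_lit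 0) (nat_lit 33360949782) (nat_lit 152) (nat_lit 763587417) (nat_lit 0) (nat_lit 18779769910) (nat_lit 7) (nat_lit 5) (nat_lit 9) (nat_lit 4) (nat_lit 7) (nat_lit 4) (nat_lit 385) (nat_lit 230) (nat_lit 165)) (XT.nd (nat_lit 78) (nat_lit 0) (nat_lit 0) (XT.lf (nat_lit 0) (nat_lit 5429469944) (nat_lit 76) (nat_lit 31806542819) (nat_lit 76) (nat_lit 17152516323) (nat_lit 6) (nat_lit 4) (nat_lit 7) (nat_lit 5) (nat_lit 7) (nat_lit 4) (nat_lit 386) (nat_lit 230) (nat_lit 164)) (XT.lf (nat_lit 0) (nat_lit 11783325736) (nat_lit 76) (nat_lit 29429572382) (nat_lit 76) (nat_lit 14704821009) (nat_lit 6) (nat_lit 4) (nat_lit 7) (nat_lit 5) (nat_lit 7) (nat_lit 4) (nat_lit 387) (nat_lit 230) (nat_lit 163))))) (XT.nd (nat_lit 234) (nat_lit 76) (nat_lit 0) (XT.nd (nat_lit 78) (nat_lit 0) (nat_lit 0) (XT.lf (nat_lit 0) (nat_lit 18288334984) (nat_lit 76) (nat_lit 26999259661) (nat_lit 76) (nat_lit 12205843358)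 (nat_lit 6) (nat_lit 4) (nat_lit 7) (nat_lit 5) (nat_lit 7) (nat_lit 4) (nat_lit 388) (nat_lit 230) (nat_lit 162)) (XT.nd (nat_lit 78) (nat_lit 0) (nat_lit 0) (XT.lf (nat_lit 0) (nat_lit 24950181678) (nat_lit 76) (nat_lit 24513481080) (nat_lit 76) (nat_lit 9653399797) (nat_lit 6) (nat_lit 4) (nat_lit 7) (nat_lit 5) (nat_lit 7) (nat_lit 4) (nat_lit 389) (nat_lit 230) (nat_lit 161)) (XT.lf (nat_lit 0) (nat_lit 31774686847) (nat_lit 76) (nat_lit 21970064601) (nat_lit 76) (nat_lit 7045260036) (nat_lit 6) (nat_lit 4) (nat_lit 7) (nat_lit 5) (nat_lit 7) (nat_lit 4) (nat_lit 390) (nat_lit 230) (nat_lit 160)))) (XT.nd (nat_lit 156) (nat_lit 76) (nat_lit 0) (XT.nd (nat_lit 78) (nat_lit 0) (nat_lit 0) (XT.lf (nat_lit 0) (nat_lit 38767813652) (nat_lit 76) (nat_lit 19366787820) (nat_lit 76) (nat_lit 4379145118) (nat_lit 6) (nat_lit 4) (nat_lit 7) (nat_lit 5) (nat_lit 7) (nat_lit 4) (nat_lit 391) (nat_lit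 230) (nat_lit 159)) (XT.lf (nat_lit 0) (nat_lit 45935672593) (nat_lit 76) (nat_lit 16701376030) (nat_lit 76) (nat_lit 1652725427) (nat_lit 6) (nat_lit 4) (nat_lit 7) (nat_lit 5) (nat_lit 7) (nat_lit 4) (nat_lit 392) (nat_lit 230) (nat_lit 158))) (XT.nd (nat_lit 78) (nat_lit 0) (nat_lit 0) (XT.lf (nat_lit 0) (nat_lit 1114206450) (nat_lit 152) (nat_lit 12846042480) (nat_lit 76) (nat_lit 52159069095) (nat_lit 5) (nat_lit 5) (nat_lit 7) (nat_lit 5) (nat_lit 6) (nat_lit 4) (nat_lit 393) (nat_lit 230) (nat_lit 157)) (XT.lf (nat_lit 0) (nat_lit 3912741059) (nat_lit 152) (nat_lit 7222523020) (nat_lit 76) (nat_lit 56868545669) (nat_lit 5) (nat_lit 5) (nat_lit 7) (nat_lit 5) (nat_lit 6) (nat_lit 4) (nat_lit 394) (nat_lit 230) (nat_lit 156))))))) (XT.nd (nat_lit 1014) (nat_lit 0) (nat_lit 0) (XT.nd (nat_lit 468) (nat_lit 0) (nat_lit 0) (XT.nd (nat_lit 234) (nat_lit 0) (nat_lit 0) (XT.nd (nat_lit 78) (nat_lit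 76) (nat_lit 0) (XT.lf (nat_lit 0) (nat_lit 6777574347) (nat_lit 152) (nat_lit 1462742317) (nat_lit 76) (nat_lit 61705055809) (nat_lit 5) (nat_lit 5) (nat_lit 7) (nat_lit 5) (nat_lit 6) (nat_lit 4) (nat_lit 395) (nat_lit 230) (nat_lit 155)) (XT.nd (nat_lit 78) (nat_lit 0) (nat_lit 0) (XT.lf (nat_lit 0) (nat_lit 4526663967) (nat_lit 76) (nat_lit 5228058663) (nat_lit 152) (nat_lit 62189674690) (nat_lit 4) (nat_lit 5) (nat_lit 5) (nat_lit 5) (nat_lit 6) (nat_lit 4) (nat_lit 396) (nat_lit 230) (nat_lit 154)) (XT.lf (nat_lit 0) (nat_lit 10694546681) (nat_lit 76) (nat_lit 2124465931) (nat_lit 152) (nat_lit 61184451636) (nat_lit 4) (nat_lit 5) (nat_lit 5) (nat_lit 5) (nat_lit 6) (nat_lit 4) (nat_lit 397) (nat_lit 230) (nat_lit 153)))) (XT.nd (nat_lit 78) (nat_lit 0) (nat_lit 0) (XT.lf (nat_lit 0) (nat_lit 15968955234) (nat_lit 152) (nat_lit 59117792879) (nat_lit 0) (nat_lit 1037749331) (nat_lit 4)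 (nat_lit 5) (nat_lit 6) (nat_lit 4) (nat_lit 4) (nat_lit 4) (nat_lit 398) (nat_lit 230) (nat_lit 152)) (XT.nd (nat_lit 78) (nat_lit 0) (nat_lit 0) (XT.lf (nat_lit 0) (nat_lit 19218330413) (nat_lit 152) (nat_lit 54851724683) (nat_lit 0) (nat_lit 4238964310) (nat_lit 4) (nat_lit 5) (nat_lit 6) (nat_lit 4) (nat_lit 4) (nat_lit 4) (nat_lit 399) (nat_lit 230) (nat_lit 151)) (XT.lf (nat_lit 0) (nat_lit 22549555746) (nat_lit 152) (nat_lit 50486563681) (nat_lit 0) (nat_lit 7523432166) (nat_lit 4) (nat_lit 5) (nat_lit 6) (nat_lit 4) (nat_lit 4) (nat_lit 4) (nat_lit 400) (nat_lit 230) (nat_lit 150))))) (XT.nd (nat_lit 234) (nat_lit 0) (nat_lit 0) (XT.nd (nat_lit 78) (nat_lit 0) (nat_lit 0) (XT.lf (nat_lit 0) (nat_lit 25965542010) (nat_lit 152) (nat_lit 46018495657) (nat_lit 0) (nat_lit 10894022823) (nat_lit 4) (nat_lit 5) (nat_lit 6) (nat_lit 4) (nat_lit 4) (nat_lit 4) (nat_lit 401) (nat_lit 230) (nat_lit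 149)) (XT.nd (nat_lit 78) (nat_lit 0) (nat_lit 0) (XT.lf (nat_lit 0) (nat_lit 29469274049) (nat_lit 152) (nat_lit 41443616471) (nat_lit 0) (nat_lit 14353681457) (nat_lit 4) (nat_lit 5) (nat_lit 6) (nat_lit 4) (nat_lit 4) (nat_lit 4) (nat_lit 402) (nat_lit 230) (nat_lit 148)) (XT.lf (nat_lit 0) (nat_lit 33063813376) (nat_lit 152) (nat_lit 36757928658) (nat_lit 0) (nat_lit 17905431069) (nat_lit 4) (nat_lit 5) (nat_lit 6) (nat_lit 4) (nat_lit 4) (nat_lit 4) (nat_lit 403) (nat_lit 230) (nat_lit 147)))) (XT.nd (nat_lit 156) (nat_lit 0) (nat_lit 0) (XT.nd (nat_lit 78) (nat_lit 0) (nat_lit 0) (XT.lf (nat_lit 0) (nat_lit 36752300850) (nat_lit 152) (nat_lit 31957337926) (nat_lit 0) (nat_lit 21552375132) (nat_lit 4) (nat_lit 5) (nat_lit 6) (nat_lit 4) (nat_lit 4) (nat_lit 4) (nat_lit 404) (nat_lit 230) (nat_lit 146)) (XT.lf (nat_lit 0) (nat_lit 40537959422) (nat_lit 152) (nat_lit 27037649585) (nat_lit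 0) (nat_lit 25297700295) (nat_lit 4) (nat_lit 5) (nat_lit 6) (nat_lit 4) (nat_lit 4) (nat_lit 4) (nat_lit 405) (nat_lit 230) (nat_lit 145))) (XT.nd (nat_lit 78) (nat_lit 0) (nat_lit 0) (XT.lf (nat_lit 0) (nat_lit 44424096949) (nat_lit 152) (nat_lit 21994564878) (nat_lit 0) (nat_lit 29144679172) (nat_lit 4) (nat_lit 5) (nat_lit 6) (nat_lit 4) (nat_lit 4) (nat_lit 4) (nat_lit 406) (nat_lit 230) (nat_lit 144)) (XT.lf (nat_lit 0) (nat_lit 48414109085) (nat_lit 152) (nat_lit 16823677226) (nat_lit 0) (nat_lit 33096673201) (nat_lit 4) (nat_lit 5) (nat_lit 6) (nat_lit 4) (nat_lit 4) (nat_lit 4) (nat_lit 407) (nat_lit 230) (nat_lit 143)))))) (XT.nd (nat_lit 34086) (nat_lit 0) (nat_lit 2508) (XT.nd (nat_lit 33774) (nat_lit 0) (nat_lit 3344) (XT.nd (nat_lit 33618) (nat_lit 0) (nat_lit 3800) (XT.lf (nat_lit 0) (nat_lit 52511482248) (nat_lit 152) (nat_lit 11520468377) (nat_lit 0) (nat_lit 37157135581) (nat_lit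 4) (nat_lit 5) (nat_lit 6) (nat_lit 4) (nat_lit 4) (nat_lit 4) (nat_lit 408) (nat_lit 230) (nat_lit 142)) (XT.nd (nat_lit 78) (nat_lit 228) (nat_lit 0) (XT.lf (nat_lit 0) (nat_lit 1263630720) (nat_lit 304) (nat_lit 2944595984) (nat_lit 0) (nat_lit 1263630720) (nat_lit 57) (nat_lit 5) (nat_lit 61) (nat_lit 4) (nat_lit 57) (nat_lit 4) (nat_lit 318) (nat_lit 231) (nat_lit 231)) (XT.lf (nat_lit 0) (nat_lit 1021418415) (nat_lit 228) (nat_lit 5409467546) (nat_lit 228) (nat_lit 4700092787) (nat_lit 54) (nat_lit 4) (nat_lit 57) (nat_lit 5) (nat_lit 57) (nat_lit 4) (nat_lit 319) (nat_lit 231) (nat_lit 230)))) (XT.nd (nat_lit 156) (nat_lit 228) (nat_lit 0) (XT.nd (nat_lit 78) (nat_lit 228) (nat_lit 0) (XT.lf (nat_lit 0) (nat_lit 8120794521) (nat_lit 228) (nat_lit 2301064957) (nat_lit 228) (nat_lit 902976841) (nat_lit 54) (nat_lit 4) (nat_lit 57) (nat_lit 5) (nat_lit 57) (nat_lit 4) (nat_lit 320) (nat_lit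 231) (nat_lit 229)) (XT.lf (nat_lit 0) (nat_lit 2907311874) (nat_lit 228) (nat_lit 7716903394) (nat_lit 0) (nat_lit 900766377) (nat_lit 51) (nat_lit 5) (nat_lit 54) (nat_lit 4) (nat_lit 51) (nat_lit 4) (nat_lit 321) (nat_lit 231) (nat_lit 228))) (XT.nd (nat_lit 78) (nat_lit 228) (nat_lit 0) (XT.lf (nat_lit 0) (nat_lit 6782422657) (nat_lit 228) (nat_lit 803849640) (nat_lit 0) (nat_lit 4145606875) (nat_lit 51) (nat_lit 5) (nat_lit 54) (nat_lit 4) (nat_lit 51) (nat_lit 4) (nat_lit 322) (nat_lit 231) (nat_lit 227)) (XT.lf (nat_lit 0) (nat_lit 6305773164) (nat_lit 228) (nat_lit 4444361212) (nat_lit 228) (nat_lit 1195632532) (nat_lit 48) (nat_lit 4) (nat_lit 51) (nat_lit 5) (nat_lit 51) (nat_lit 4) (nat_lit 323) (nat_lit 231) (nat_lit 226))))) (XT.nd (nat_lit 234) (nat_lit 380) (nat_lit 0) (XT.nd (nat_lit 78) (nat_lit 228) (nat_lit 0) (XT.lf (nat_lit 0) (nat_lit 1345538233) (nat_lit 152) (nat_lit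 1210302705) (nat_lit 228) (nat_lit 9611415062) (nat_lit 45) (nat_lit 5) (nat_lit 47) (nat_lit 5) (nat_lit 48) (nat_lit 4) (nat_lit 324) (nat_lit 231) (nat_lit 225)) (XT.nd (nat_lit 78) (nat_lit 228) (nat_lit 0) (XT.lf (nat_lit 0) (nat_lit 6390436010) (nat_lit 228) (nat_lit 3905270906) (nat_lit 0) (nat_lit 2099556915) (nat_lit 45) (nat_lit 5) (nat_lit 48) (nat_lit 4) (nat_lit 45) (nat_lit 4) (nat_lit 325) (nat_lit 231) (nat_lit 224)) (XT.lf (nat_lit 0) (nat_lit 3136777355) (nat_lit 228) (nat_lit 7164558897) (nat_lit 228) (nat_lit 2330003118) (nat_lit 42) (nat_lit 4) (nat_lit 45) (nat_lit 5) (nat_lit 45) (nat_lit 4) (nat_lit 326) (nat_lit 231) (nat_lit 223)))) (XT.nd (nat_lit 156) (nat_lit 152) (nat_lit 0) (XT.nd (nat_lit 78) (nat_lit 152) (nat_lit 0) (XT.lf (nat_lit 0) (nat_lit 1385885572) (nat_lit 304) (nat_lit 2549049507) (nat_lit 76) (nat_lit 8940427832) (nat_lit 41) (nat_lit 5) (nat_lit 45)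 (nat_lit 5) (nat_lit 42) (nat_lit 4) (nat_lit 327) (nat_lit 231) (nat_lit 222)) (XT.lf (nat_lit 0) (nat_lit 4542734983) (nat_lit 152) (nat_lit 589087490) (nat_lit 228) (nat_lit 7995290472) (nat_lit 39) (nat_lit 5) (nat_lit 41) (nat_lit 5) (nat_lit 42) (nat_lit 4) (nat_lit 328) (nat_lit 231) (nat_lit 221))) (XT.nd (nat_lit 78) (nat_lit 152) (nat_lit 0) (XT.lf (nat_lit 0) (nat_lit 8965923300) (nat_lit 228) (nat_lit 1642155265) (nat_lit 0) (nat_lit 2779121530) (nat_lit 39) (nat_lit 5) (nat_lit 42) (nat_lit 4) (nat_lit 39) (nat_lit 4) (nat_lit 329) (nat_lit 231) (nat_lit 220)) (XT.lf (nat_lit 0) (nat_lit 5484951527) (nat_lit 152) (nat_lit 7413241255) (nat_lit 152) (nat_lit 757459202) (nat_lit 37) (nat_lit 4) (nat_lit 39) (nat_lit 5) (nat_lit 39) (nat_lit 4) (nat_lit 330) (nat_lit 231) (nat_lit 219))))))))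
noncomputable def xc40 : XT := (XT.nd (nat_lit 2028) (nat_lit 532) (nat_lit 0) (XT.nd (nat_lit 1014) (nat_lit 684) (nat_lit 0) (XT.nd (nat_lit 468) (nat_lit 456) (nat_lit 0) (XT.nd (nat_lit 234) (nat_lit 380) (nat_lit 0) (XT.nd (nat_lit 78) (nat_lit 152) (nat_lit 0) (XT.lf (nat_lit 0) (nat_lit 2898969900) (nat_lit 228) (nat_lit 1226193820) (nat_lit 76) (nat_lit 9807930474) (nat_lit 36) (nat_lit 5) (nat_lit 39) (nat_lit 5) (nat_lit 37) (nat_lit 4) (nat_lit 331) (nat_lit 231) (nat_lit 218)) (XT.nd (nat_lit 78) (nat_lit 0) (nat_lit 0) (XT.lf (nat_lit 0) (nat_lit 5913266164) (nat_lit 152) (nat_lit 720442100) (nat_lit 228) (nat_lit 7585462899) (nat_lit 34) (nat_lit 5) (nat_lit 36) (nat_lit 5) (nat_lit 37) (nat_lit 4) (nat_lit 332) (nat_lit 231) (nat_lit 217)) (XT.lf (nat_lit 0) (nat_lit 10447286986) (nat_lit 228) (nat_lit 1370152244) (nat_lit 0) (nat_lit 2697437462) (nat_lit 34) (nat_lit 5) (nat_lit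 37) (nat_lit 4) (nat_lit 34) (nat_lit 4) (nat_lit 333) (nat_lit 231) (nat_lit 216)))) (XT.nd (nat_lit 78) (nat_lit 228) (nat_lit 0) (XT.lf (nat_lit 0) (nat_lit 5760668280) (nat_lit 152) (nat_lit 8606733013) (nat_lit 152) (nat_lit 452336977) (nat_lit 32) (nat_lit 4) (nat_lit 34) (nat_lit 5) (nat_lit 34) (nat_lit 4) (nat_lit 334) (nat_lit 231) (nat_lit 215)) (XT.nd (nat_lit 78) (nat_lit 152) (nat_lit 0) (XT.lf (nat_lit 0) (nat_lit 3151319931) (nat_lit 228) (nat_lit 2149980179) (nat_lit 76) (nat_lit 9833234642) (nat_lit 31) (nat_lit 5) (nat_lit 34) (nat_lit 5) (nat_lit 32) (nat_lit 4) (nat_lit 335) (nat_lit 231) (nat_lit 214)) (XT.lf (nat_lit 0) (nat_lit 4943251446) (nat_lit 152) (nat_lit 1890115536) (nat_lit 228) (nat_lit 8625937227) (nat_lit 29) (nat_lit 5) (nat_lit 31) (nat_lit 5) (nat_lit 32) (nat_lit 4) (nat_lit 336) (nat_lit 231) (nat_lit 213))))) (XT.nd (nat_lit 234) (nat_lit 228) (nat_lit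 0) (XT.nd (nat_lit 78) (nat_lit 228) (nat_lit 0) (XT.lf (nat_lit 0) (nat_lit 10595700505) (nat_lit 228) (nat_lit 3631229234) (nat_lit 0) (nat_lit 1567835557) (nat_lit 29) (nat_lit 5) (nat_lit 32) (nat_lit 4) (nat_lit 29) (nat_lit 4) (nat_lit 337) (nat_lit 231) (nat_lit 212)) (XT.nd (nat_lit 78) (nat_lit 76) (nat_lit 0) (XT.lf (nat_lit 0) (nat_lit 3395453193) (nat_lit 152) (nat_lit 11061070398) (nat_lit 152) (nat_lit 1684240075) (nat_lit 27) (nat_lit 4) (nat_lit 29) (nat_lit 5) (nat_lit 29) (nat_lit 4) (nat_lit 338) (nat_lit 231) (nat_lit 211)) (XT.lf (nat_lit 0) (nat_lit 1869712061) (nat_lit 228) (nat_lit 5920116173) (nat_lit 76) (nat_lit 8707651219) (nat_lit 26) (nat_lit 5) (nat_lit 29) (nat_lit 5) (nat_lit 27) (nat_lit 4) (nat_lit 339) (nat_lit 231) (nat_lit 210)))) (XT.nd (nat_lit 156) (nat_lit 152) (nat_lit 0) (XT.nd (nat_lit 78) (nat_lit 0) (nat_lit 0) (XT.lf (nat_lit 0) (nat_lit 1003543369)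 (nat_lit 76) (nat_lit 4438874543) (nat_lit 152) (nat_lit 11423637402) (nat_lit 25) (nat_lit 5) (nat_lit 26) (nat_lit 5) (nat_lit 27) (nat_lit 4) (nat_lit 340) (nat_lit 231) (nat_lit 209)) (XT.lf (nat_lit 0) (nat_lit 8148142155) (nat_lit 76) (nat_lit 971099175) (nat_lit 152) (nat_lit 8126576378) (nat_lit 25) (nat_lit 5) (nat_lit 26) (nat_lit 5) (nat_lit 27) (nat_lit 4) (nat_lit 341) (nat_lit 231) (nat_lit 208))) (XT.nd (nat_lit 78) (nat_lit 152) (nat_lit 0) (XT.lf (nat_lit 0) (nat_lit 12869931729) (nat_lit 152) (nat_lit 2261315571) (nat_lit 0) (nat_lit 2506855066) (nat_lit 25) (nat_lit 5) (nat_lit 27) (nat_lit 4) (nat_lit 25) (nat_lit 4) (nat_lit 342) (nat_lit 231) (nat_lit 207)) (XT.lf (nat_lit 0) (nat_lit 4760084536) (nat_lit 152) (nat_lit 11968782096) (nat_lit 152) (nat_lit 1313452425) (nat_lit 23) (nat_lit 4) (nat_lit 25) (nat_lit 5) (nat_lit 25) (nat_lit 4) (nat_lit 343) (nat_lit 231) (nat_lit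 206)))))) (XT.nd (nat_lit 468) (nat_lit 380) (nat_lit 0) (XT.nd (nat_lit 234) (nat_lit 152) (nat_lit 0) (XT.nd (nat_lit 78) (nat_lit 76) (nat_lit 0) (XT.lf (nat_lit 0) (nat_lit 2164651387) (nat_lit 228) (nat_lit 6544828138) (nat_lit 76) (nat_lit 9749662016) (nat_lit 22) (nat_lit 5) (nat_lit 25) (nat_lit 5) (nat_lit 23) (nat_lit 4) (nat_lit 344) (nat_lit 231) (nat_lit 205)) (XT.nd (nat_lit 78) (nat_lit 0) (nat_lit 0) (XT.lf (nat_lit 0) (nat_lit 286780599) (nat_lit 76) (nat_lit 5378897993) (nat_lit 152) (nat_lit 13224082809) (nat_lit 21) (nat_lit 5) (nat_lit 22) (nat_lit 5) (nat_lit 23) (nat_lit 4) (nat_lit 345) (nat_lit 231) (nat_lit 204)) (XT.lf (nat_lit 0) (nat_lit 7357974086) (nat_lit 76) (nat_lit 1922801250) (nat_lit 152) (nat_lit 10052284640) (nat_lit 21) (nat_lit 5) (nat_lit 22) (nat_lit 5) (nat_lit 23) (nat_lit 4) (nat_lit 346) (nat_lit 231) (nat_lit 203)))) (XT.nd (nat_lit 78) (nat_lit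 152) (nat_lit 0) (XT.lf (nat_lit 0) (nat_lit 12964274695) (nat_lit 152) (nat_lit 5262012676) (nat_lit 0) (nat_lit 1564602015) (nat_lit 21) (nat_lit 5) (nat_lit 23) (nat_lit 4) (nat_lit 21) (nat_lit 4) (nat_lit 347) (nat_lit 231) (nat_lit 202)) (XT.nd (nat_lit 78) (nat_lit 0) (nat_lit 0) (XT.lf (nat_lit 0) (nat_lit 1568960382) (nat_lit 152) (nat_lit 15169277000) (nat_lit 152) (nat_lit 3524847027) (nat_lit 19) (nat_lit 4) (nat_lit 21) (nat_lit 5) (nat_lit 21) (nat_lit 4) (nat_lit 348) (nat_lit 231) (nat_lit 201)) (XT.lf (nat_lit 0) (nat_lit 8618590017) (nat_lit 152) (nat_lit 12006476441) (nat_lit 152) (nat_lit 124418027) (nat_lit 19) (nat_lit 4) (nat_lit 21) (nat_lit 5) (nat_lit 21) (nat_lit 4) (nat_lit 349) (nat_lit 231) (nat_lit 200))))) (XT.nd (nat_lit 234) (nat_lit 228) (nat_lit 0) (XT.nd (nat_lit 78) (nat_lit 76) (nat_lit 0) (XT.lf (nat_lit 0) (nat_lit 3259634429) (nat_lit 228) (nat_lit 5495707744)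 (nat_lit 76) (nat_lit 12495761381) (nat_lit 18) (nat_lit 5) (nat_lit 21) (nat_lit 5) (nat_lit 19) (nat_lit 4) (nat_lit 350) (nat_lit 231) (nat_lit 199)) (XT.nd (nat_lit 78) (nat_lit 0) (nat_lit 0) (XT.lf (nat_lit 0) (nat_lit 1272356124) (nat_lit 76) (nat_lit 5431638632) (nat_lit 152) (nat_lit 15064927072) (nat_lit 17) (nat_lit 5) (nat_lit 18) (nat_lit 5) (nat_lit 19) (nat_lit 4) (nat_lit 351) (nat_lit 231) (nat_lit 198)) (XT.lf (nat_lit 0) (nat_lit 8267223831) (nat_lit 76) (nat_lit 1989643532) (nat_lit 152) (nat_lit 12045277275) (nat_lit 17) (nat_lit 5) (nat_lit 18) (nat_lit 5) (nat_lit 19) (nat_lit 4) (nat_lit 352) (nat_lit 231) (nat_lit 197)))) (XT.nd (nat_lit 156) (nat_lit 228) (nat_lit 0) (XT.nd (nat_lit 78) (nat_lit 0) (nat_lit 0) (XT.lf (nat_lit 0) (nat_lit 13882070646) (nat_lit 152) (nat_lit 7481815692) (nat_lit 0) (nat_lit 1488530152) (nat_lit 17) (nat_lit 5) (nat_lit 19) (nat_lit 4)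 (nat_lit 17) (nat_lit 4) (nat_lit 353) (nat_lit 231) (nat_lit 196)) (XT.lf (nat_lit 0) (nat_lit 17587953749) (nat_lit 152) (nat_lit 836705832) (nat_lit 0) (nat_lit 4995403178) (nat_lit 17) (nat_lit 5) (nat_lit 19) (nat_lit 4) (nat_lit 17) (nat_lit 4) (nat_lit 354) (nat_lit 231) (nat_lit 195))) (XT.nd (nat_lit 78) (nat_lit 76) (nat_lit 0) (XT.lf (nat_lit 0) (nat_lit 6043266748) (nat_lit 152) (nat_lit 15373453980) (nat_lit 152) (nat_lit 2587689741) (nat_lit 15) (nat_lit 4) (nat_lit 17) (nat_lit 5) (nat_lit 17) (nat_lit 4) (nat_lit 355) (nat_lit 231) (nat_lit 194)) (XT.lf (nat_lit 0) (nat_lit 701586916) (nat_lit 228) (nat_lit 11549128883) (nat_lit 76) (nat_lit 12356510117) (nat_lit 14) (nat_lit 5) (nat_lit 17) (nat_lit 5) (nat_lit 15) (nat_lit 4) (nat_lit 356) (nat_lit 231) (nat_lit 193))))))) (XT.nd (nat_lit 1014) (nat_lit 228) (nat_lit 0) (XT.nd (nat_lit 468) (nat_lit 152) (nat_lit 0) (XT.nd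 (nat_lit 234) (nat_lit 76) (nat_lit 0) (XT.nd (nat_lit 78) (nat_lit 76) (nat_lit 0) (XT.lf (nat_lit 0) (nat_lit 3992586761) (nat_lit 228) (nat_lit 5050521610) (nat_lit 76) (nat_lit 16185618487) (nat_lit 14) (nat_lit 5) (nat_lit 17) (nat_lit 5) (nat_lit 15) (nat_lit 4) (nat_lit 357) (nat_lit 231) (nat_lit 192)) (XT.nd (nat_lit 78) (nat_lit 0) (nat_lit 0) (XT.lf (nat_lit 0) (nat_lit 1596382113) (nat_lit 76) (nat_lit 5757643859) (nat_lit 152) (nat_lit 18515716255) (nat_lit 13) (nat_lit 5) (nat_lit 14) (nat_lit 5) (nat_lit 15) (nat_lit 4) (nat_lit 358) (nat_lit 231) (nat_lit 191)) (XT.lf (nat_lit 0) (nat_lit 8469173630) (nat_lit 76) (nat_lit 2355029366) (nat_lit 152) (nat_lit 15705568299) (nat_lit 13) (nat_lit 5) (nat_lit 14) (nat_lit 5) (nat_lit 15) (nat_lit 4) (nat_lit 359) (nat_lit 231) (nat_lit 190)))) (XT.nd (nat_lit 78) (nat_lit 76) (nat_lit 0) (XT.lf (nat_lit 0) (nat_lit 14367369587) (nat_lit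 152) (nat_lit 11748267706) (nat_lit 0) (nat_lit 1094916907) (nat_lit 13) (nat_lit 5) (nat_lit 15) (nat_lit 4) (nat_lit 13) (nat_lit 4) (nat_lit 360) (nat_lit 231) (nat_lit 189)) (XT.nd (nat_lit 78) (nat_lit 76) (nat_lit 0) (XT.lf (nat_lit 0) (nat_lit 17999209450) (nat_lit 152) (nat_lit 5343442341) (nat_lit 0) (nat_lit 4569656377) (nat_lit 13) (nat_lit 5) (nat_lit 15) (nat_lit 4) (nat_lit 13) (nat_lit 4) (nat_lit 361) (nat_lit 231) (nat_lit 188)) (XT.lf (nat_lit 0) (nat_lit 1205639223) (nat_lit 76) (nat_lit 20506208172) (nat_lit 76) (nat_lit 6924130447) (nat_lit 12) (nat_lit 4) (nat_lit 13) (nat_lit 5) (nat_lit 13) (nat_lit 4) (nat_lit 362) (nat_lit 231) (nat_lit 187))))) (XT.nd (nat_lit 234) (nat_lit 76) (nat_lit 0) (XT.nd (nat_lit 78) (nat_lit 76) (nat_lit 0) (XT.lf (nat_lit 0) (nat_lit 7990013787) (nat_lit 76) (nat_lit 17560540439) (nat_lit 76) (nat_lit 3830380526) (nat_lit 12) (nat_lit 4)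 (nat_lit 13) (nat_lit 5) (nat_lit 13) (nat_lit 4) (nat_lit 363) (nat_lit 231) (nat_lit 186)) (XT.nd (nat_lit 78) (nat_lit 76) (nat_lit 0) (XT.lf (nat_lit 0) (nat_lit 14909264463) (nat_lit 76) (nat_lit 14557032998) (nat_lit 76) (nat_lit 683103970) (nat_lit 12) (nat_lit 4) (nat_lit 13) (nat_lit 5) (nat_lit 13) (nat_lit 4) (nat_lit 364) (nat_lit 231) (nat_lit 185)) (XT.lf (nat_lit 0) (nat_lit 2471266223) (nat_lit 152) (nat_lit 8996840258) (nat_lit 76) (nat_lit 19473216034) (nat_lit 11) (nat_lit 5) (nat_lit 13) (nat_lit 5) (nat_lit 12) (nat_lit 4) (nat_lit 365) (nat_lit 231) (nat_lit 184)))) (XT.nd (nat_lit 156) (nat_lit 0) (nat_lit 0) (XT.nd (nat_lit 78) (nat_lit 76) (nat_lit 0) (XT.lf (nat_lit 0) (nat_lit 5670229718) (nat_lit 152) (nat_lit 2638460542) (nat_lit 76) (nat_lit 23449213159) (nat_lit 11) (nat_lit 5) (nat_lit 13) (nat_lit 5) (nat_lit 12) (nat_lit 4) (nat_lit 366) (nat_lit 231) (nat_lit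 183)) (XT.lf (nat_lit 0) (nat_lit 3923689778) (nat_lit 76) (nat_lit 5043938672) (nat_lit 152) (nat_lit 23631294699) (nat_lit 10) (nat_lit 5) (nat_lit 11) (nat_lit 5) (nat_lit 12) (nat_lit 4) (nat_lit 367) (nat_lit 231) (nat_lit 182))) (XT.nd (nat_lit 78) (nat_lit 0) (nat_lit 0) (XT.lf (nat_lit 0) (nat_lit 10673867357) (nat_lit 76) (nat_lit 1681896351) (nat_lit 152) (nat_lit 21109670263) (nat_lit 10) (nat_lit 5) (nat_lit 11) (nat_lit 5) (nat_lit 12) (nat_lit 4) (nat_lit 368) (nat_lit 231) (nat_lit 181)) (XT.lf (nat_lit 0) (nat_lit 15828586676) (nat_lit 152) (nat_lit 16810367120) (nat_lit 0) (nat_lit 1719509518) (nat_lit 10) (nat_lit 5) (nat_lit 12) (nat_lit 4) (nat_lit 10) (nat_lit 4) (nat_lit 369) (nat_lit 231) (nat_lit 180)))))) (XT.nd (nat_lit 468) (nat_lit 152) (nat_lit 0) (XT.nd (nat_lit 234) (nat_lit 0) (nat_lit 0) (XT.nd (nat_lit 78) (nat_lit 76) (nat_lit 0) (XT.lf (nat_lit 0) (nat_lit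 19389162811) (nat_lit 152) (nat_lit 10726439548) (nat_lit 0) (nat_lit 5163188206) (nat_lit 10) (nat_lit 5) (nat_lit 12) (nat_lit 4) (nat_lit 10) (nat_lit 4) (nat_lit 370) (nat_lit 231) (nat_lit 179)) (XT.nd (nat_lit 78) (nat_lit 76) (nat_lit 0) (XT.lf (nat_lit 0) (nat_lit 23024435879) (nat_lit 152) (nat_lit 4518300428) (nat_lit 0) (nat_lit 8684968608) (nat_lit 10) (nat_lit 5) (nat_lit 12) (nat_lit 4) (nat_lit 10) (nat_lit 4) (nat_lit 371) (nat_lit 231) (nat_lit 178)) (XT.lf (nat_lit 0) (nat_lit 1855685943) (nat_lit 76) (nat_lit 24899734378) (nat_lit 76) (nat_lit 10450080052) (nat_lit 9) (nat_lit 4) (nat_lit 10) (nat_lit 5) (nat_lit 10) (nat_lit 4) (nat_lit 372) (nat_lit 231) (nat_lit 177)))) (XT.nd (nat_lit 78) (nat_lit 0) (nat_lit 0) (XT.lf (nat_lit 0) (nat_lit 8457459577) (nat_lit 76) (nat_lit 22155685367) (nat_lit 76) (nat_lit 7599053318) (nat_lit 9) (nat_lit 4) (nat_lit 10) (nat_lit 5) (nat_lit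 10) (nat_lit 4) (nat_lit 373) (nat_lit 231) (nat_lit 176)) (XT.nd (nat_lit 78) (nat_lit 0) (nat_lit 0) (XT.lf (nat_lit 0) (nat_lit 15202865976) (nat_lit 76) (nat_lit 19353817537) (nat_lit 76) (nat_lit 4693323621) (nat_lit 9) (nat_lit 4) (nat_lit 10) (nat_lit 5) (nat_lit 10) (nat_lit 4) (nat_lit 374) (nat_lit 231) (nat_lit 175)) (XT.lf (nat_lit 0) (nat_lit 22097799183) (nat_lit 76) (nat_lit 16491682653) (nat_lit 76) (nat_lit 1730351973) (nat_lit 9) (nat_lit 4) (nat_lit 10) (nat_lit 5) (nat_lit 10) (nat_lit 4) (nat_lit 375) (nat_lit 231) (nat_lit 174))))) (XT.nd (nat_lit 234) (nat_lit 76) (nat_lit 0) (XT.nd (nat_lit 78) (nat_lit 0) (nat_lit 0) (XT.lf (nat_lit 0) (nat_lit 1267230262) (nat_lit 152) (nat_lit 12286753018) (nat_lit 76) (nat_lit 27868257095) (nat_lit 8) (nat_lit 5) (nat_lit 10) (nat_lit 5) (nat_lit 9) (nat_lit 4) (nat_lit 376) (nat_lit 231) (nat_lit 173)) (XT.nd (nat_lit 78) (nat_lit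 0) (nat_lit 0) (XT.lf (nat_lit 0) (nat_lit 4292300278) (nat_lit 152) (nat_lit 6240909206) (nat_lit 76) (nat_lit 32024836645) (nat_lit 8) (nat_lit 5) (nat_lit 10) (nat_lit 5) (nat_lit 9) (nat_lit 4) (nat_lit 377) (nat_lit 231) (nat_lit 172)) (XT.lf (nat_lit 0) (nat_lit 7381266740) (nat_lit 152) (nat_lit 62587212) (nat_lit 76) (nat_lit 36284888565) (nat_lit 8) (nat_lit 5) (nat_lit 10) (nat_lit 5) (nat_lit 9) (nat_lit 4) (nat_lit 378) (nat_lit 231) (nat_lit 171)))) (XT.nd (nat_lit 156) (nat_lit 0) (nat_lit 0) (XT.nd (nat_lit 78) (nat_lit 0) (nat_lit 0) (XT.lf (nat_lit 0) (nat_lit 6378070627) (nat_lit 76) (nat_lit 4220068034) (nat_lit 152) (nat_lit 34335374521) (nat_lit 7) (nat_lit 5) (nat_lit 8) (nat_lit 5) (nat_lit 9) (nat_lit 4) (nat_lit 379) (nat_lit 231) (nat_lit 170)) (XT.lf (nat_lit 0) (nat_lit 12966223655) (nat_lit 76) (nat_lit 920159196) (nat_lit 152) (nat_lit 32288808304) (nat_lit 7) (nat_lit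 5) (nat_lit 8) (nat_lit 5) (nat_lit 9) (nat_lit 4) (nat_lit 380) (nat_lit 231) (nat_lit 169))) (XT.nd (nat_lit 78) (nat_lit 0) (nat_lit 0) (XT.lf (nat_lit 0) (nat_lit 17271887926) (nat_lit 152) (nat_lit 27772125896) (nat_lit 0) (nat_lit 2410157114) (nat_lit 7) (nat_lit 5) (nat_lit 9) (nat_lit 4) (nat_lit 7) (nat_lit 4) (nat_lit 381) (nat_lit 231) (nat_lit 168)) (XT.lf (nat_lit 0) (nat_lit 20743589346) (nat_lit 152) (nat_lit 22226144358) (nat_lit 0) (nat_lit 5802257061) (nat_lit 7) (nat_lit 5) (nat_lit 9) (nat_lit 4) (nat_lit 7) (nat_lit 4) (nat_lit 382) (nat_lit 231) (nat_lit 167))))))))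
noncomputable def xc41 : XT := (XT.nd (nat_lit 35412) (nat_lit 0) (nat_lit 1596) (XT.nd (nat_lit 1014) (nat_lit 76) (nat_lit 0) (XT.nd (nat_lit 468) (nat_lit 76) (nat_lit 0) (XT.nd (nat_lit 234) (nat_lit 76) (nat_lit 0) (XT.nd (nat_lit 78) (nat_lit 0) (nat_lit 0) (XT.lf (nat_lit 0) (nat_lit 24295675503) (nat_lit 152) (nat_lit 16557331749) (nat_lit 0) (nat_lit 9277060236) (nat_lit 7) (nat_lit 5) (nat_lit 9) (nat_lit 4) (nat_lit 7) (nat_lit 4) (nat_lit 383) (nat_lit 231) (nat_lit 166)) (XT.nd (nat_lit 78) (nat_lit 0) (nat_lit 0) (XT.lf (nat_lit 0) (nat_lit 27931250163) (nat_lit 152) (nat_lit 10760734738) (nat_lit 0) (nat_lit 12837602872) (nat_lit 7) (nat_lit 5) (nat_lit 9) (nat_lit 4) (nat_lit 7) (nat_lit 4) (nat_lit 384) (nat_lit 231) (nat_lit 165)) (XT.lf (nat_lit 0) (nat_lit 31653490040) (nat_lit 152) (nat_lit 4831288337) (nat_lit 0) (nat_lit 16486996126) (nat_lit 7) (nat_lit 5) (nat_lit 9)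 (nat_lit 4) (nat_lit 7) (nat_lit 4) (nat_lit 385) (nat_lit 231) (nat_lit 164)))) (XT.nd (nat_lit 78) (nat_lit 0) (nat_lit 0) (XT.lf (nat_lit 0) (nat_lit 1260791098) (nat_lit 76) (nat_lit 34216975975) (nat_lit 76) (nat_lit 18979757183) (nat_lit 6) (nat_lit 4) (nat_lit 7) (nat_lit 5) (nat_lit 7) (nat_lit 4) (nat_lit 386) (nat_lit 231) (nat_lit 163)) (XT.nd (nat_lit 78) (nat_lit 0) (nat_lit 0) (XT.lf (nat_lit 0) (nat_lit 7595207374) (nat_lit 76) (nat_lit 31848856192) (nat_lit 76) (nat_lit 16542972471) (nat_lit 6) (nat_lit 4) (nat_lit 7) (nat_lit 5) (nat_lit 7) (nat_lit 4) (nat_lit 387) (nat_lit 231) (nat_lit 162)) (XT.lf (nat_lit 0) (nat_lit 14081343306) (nat_lit 76) (nat_lit 29427136339) (nat_lit 76) (nat_lit 14054587638) (nat_lit 6) (nat_lit 4) (nat_lit 7) (nat_lit 5) (nat_lit 7) (nat_lit 4) (nat_lit 388) (nat_lit 231) (nat_lit 161))))) (XT.nd (nat_lit 234) (nat_lit 76) (nat_lit 0) (XT.nd (nat_lit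 78) (nat_lit 0) (nat_lit 0) (XT.lf (nat_lit 0) (nat_lit 20724866391) (nat_lit 76) (nat_lit 26949700349) (nat_lit 76) (nat_lit 11512428366) (nat_lit 6) (nat_lit 4) (nat_lit 7) (nat_lit 5) (nat_lit 7) (nat_lit 4) (nat_lit 389) (nat_lit 231) (nat_lit 160)) (XT.nd (nat_lit 78) (nat_lit 0) (nat_lit 0) (XT.lf (nat_lit 0) (nat_lit 27531581649) (nat_lit 76) (nat_lit 24414383472) (nat_lit 76) (nat_lit 8914273351) (nat_lit 6) (nat_lit 4) (nat_lit 7) (nat_lit 5) (nat_lit 7) (nat_lit 4) (nat_lit 390) (nat_lit 231) (nat_lit 159)) (XT.lf (nat_lit 0) (nat_lit 34507436697) (nat_lit 76) (nat_lit 21818970384) (nat_lit 76) (nat_lit 6257852362) (nat_lit 6) (nat_lit 4) (nat_lit 7) (nat_lit 5) (nat_lit 7) (nat_lit 4) (nat_lit 391) (nat_lit 231) (nat_lit 158)))) (XT.nd (nat_lit 156) (nat_lit 76) (nat_lit 0) (XT.nd (nat_lit 78) (nat_lit 0) (nat_lit 0) (XT.lf (nat_lit 0) (nat_lit 41658526940) (nat_lit 76) (nat_lit 19161193246)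 (nat_lit 76) (nat_lit 3540844253) (nat_lit 6) (nat_lit 4) (nat_lit 7) (nat_lit 5) (nat_lit 7) (nat_lit 4) (nat_lit 392) (nat_lit 231) (nat_lit 157)) (XT.lf (nat_lit 0) (nat_lit 48991100904) (nat_lit 76) (nat_lit 16438729730) (nat_lit 76) (nat_lit 760874939) (nat_lit 6) (nat_lit 4) (nat_lit 7) (nat_lit 5) (nat_lit 7) (nat_lit 4) (nat_lit 393) (nat_lit 231) (nat_lit 156))) (XT.nd (nat_lit 78) (nat_lit 0) (nat_lit 0) (XT.lf (nat_lit 0) (nat_lit 2043808874) (nat_lit 152) (nat_lit 11584753647) (nat_lit 76) (nat_lit 54447118358) (nat_lit 5) (nat_lit 5) (nat_lit 7) (nat_lit 5) (nat_lit 6) (nat_lit 4) (nat_lit 394) (nat_lit 231) (nat_lit 155)) (XT.lf (nat_lit 0) (nat_lit 4900197301) (nat_lit 152) (nat_lit 5840489869) (nat_lit 76) (nat_lit 59276812902) (nat_lit 5) (nat_lit 5) (nat_lit 7) (nat_lit 5) (nat_lit 6) (nat_lit 4) (nat_lit 395) (nat_lit 231) (nat_lit 154)))))) (XT.nd (nat_lit 468) (nat_lit 0)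 (nat_lit 0) (XT.nd (nat_lit 234) (nat_lit 0) (nat_lit 0) (XT.nd (nat_lit 78) (nat_lit 0) (nat_lit 0) (XT.lf (nat_lit 0) (nat_lit 46425855) (nat_lit 76) (nat_lit 7779654044) (nat_lit 152) (nat_lit 64191986021) (nat_lit 4) (nat_lit 5) (nat_lit 5) (nat_lit 5) (nat_lit 6) (nat_lit 4) (nat_lit 396) (nat_lit 231) (nat_lit 153)) (XT.nd (nat_lit 78) (nat_lit 0) (nat_lit 0) (XT.lf (nat_lit 0) (nat_lit 6199391290) (nat_lit 76) (nat_lit 4682875108) (nat_lit 152) (nat_lit 63195112501) (nat_lit 4) (nat_lit 5) (nat_lit 5) (nat_lit 5) (nat_lit 6) (nat_lit 4) (nat_lit 397) (nat_lit 231) (nat_lit 152)) (XT.lf (nat_lit 0) (nat_lit 12507545610) (nat_lit 76) (nat_lit 1506621934) (nat_lit 152) (nat_lit 62184788651) (nat_lit 4) (nat_lit 5) (nat_lit 5) (nat_lit 5) (nat_lit 6) (nat_lit 4) (nat_lit 398) (nat_lit 231) (nat_lit 151)))) (XT.nd (nat_lit 78) (nat_lit 0) (nat_lit 0) (XT.lf (nat_lit 0) (nat_lit 17241360101)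 (nat_lit 152) (nat_lit 59425090971) (nat_lit 0) (nat_lit 1717695339) (nat_lit 4) (nat_lit 5) (nat_lit 6) (nat_lit 4) (nat_lit 4) (nat_lit 4) (nat_lit 399) (nat_lit 231) (nat_lit 150)) (XT.nd (nat_lit 78) (nat_lit 0) (nat_lit 0) (XT.lf (nat_lit 0) (nat_lit 20565109656) (nat_lit 152) (nat_lit 55073746623) (nat_lit 0) (nat_lit 4996049286) (nat_lit 4) (nat_lit 5) (nat_lit 6) (nat_lit 4) (nat_lit 4) (nat_lit 4) (nat_lit 400) (nat_lit 231) (nat_lit 149)) (XT.lf (nat_lit 0) (nat_lit 23973837885) (nat_lit 152) (nat_lit 50619092825) (nat_lit 0) (nat_lit 8360704109) (nat_lit 4) (nat_lit 5) (nat_lit 6) (nat_lit 4) (nat_lit 4) (nat_lit 4) (nat_lit 401) (nat_lit 231) (nat_lit 148))))) (XT.nd (nat_lit 234) (nat_lit 0) (nat_lit 0) (XT.nd (nat_lit 78) (nat_lit 0) (nat_lit 0) (XT.lf (nat_lit 0) (nat_lit 27470523286) (nat_lit 152) (nat_lit 46057237160) (nat_lit 0) (nat_lit 11814599797) (nat_lit 4) (nat_lit 5)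 (nat_lit 6) (nat_lit 4) (nat_lit 4) (nat_lit 4) (nat_lit 402) (nat_lit 231) (nat_lit 147)) (XT.nd (nat_lit 78) (nat_lit 0) (nat_lit 0) (XT.lf (nat_lit 0) (nat_lit 31058221218) (nat_lit 152) (nat_lit 41384193542) (nat_lit 0) (nat_lit 15360754317) (nat_lit 4) (nat_lit 5) (nat_lit 6) (nat_lit 4) (nat_lit 4) (nat_lit 4) (nat_lit 403) (nat_lit 231) (nat_lit 146)) (XT.lf (nat_lit 0) (nat_lit 34740066561) (nat_lit 152) (nat_lit 36595878727) (nat_lit 0) (nat_lit 19002266251) (nat_lit 4) (nat_lit 5) (nat_lit 6) (nat_lit 4) (nat_lit 4) (nat_lit 4) (nat_lit 404) (nat_lit 231) (nat_lit 145)))) (XT.nd (nat_lit 156) (nat_lit 0) (nat_lit 0) (XT.nd (nat_lit 78) (nat_lit 0) (nat_lit 0) (XT.lf (nat_lit 0) (nat_lit 38519276462) (nat_lit 152) (nat_lit 31688108753) (nat_lit 0) (nat_lit 22742317502) (nat_lit 4) (nat_lit 5) (nat_lit 6) (nat_lit 4) (nat_lit 4) (nat_lit 4) (nat_lit 405) (nat_lit 231) (nat_lit 144))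 (XT.lf (nat_lit 0) (nat_lit 42399153143) (nat_lit 152) (nat_lit 26656595276) (nat_lit 0) (nat_lit 26584176076) (nat_lit 4) (nat_lit 5) (nat_lit 6) (nat_lit 4) (nat_lit 4) (nat_lit 4) (nat_lit 406) (nat_lit 231) (nat_lit 143))) (XT.nd (nat_lit 78) (nat_lit 0) (nat_lit 0) (XT.lf (nat_lit 0) (nat_lit 46383086788) (nat_lit 152) (nat_lit 21496941827) (nat_lit 0) (nat_lit 30531198938) (nat_lit 4) (nat_lit 5) (nat_lit 6) (nat_lit 4) (nat_lit 4) (nat_lit 4) (nat_lit 407) (nat_lit 231) (nat_lit 142)) (XT.lf (nat_lit 0) (nat_lit 50474558504) (nat_lit 152) (nat_lit 16204639973) (nat_lit 0) (nat_lit 34586834941) (nat_lit 4) (nat_lit 5) (nat_lit 6) (nat_lit 4) (nat_lit 4) (nat_lit 4) (nat_lit 408) (nat_lit 231) (nat_lit 141))))))) (XT.nd (nat_lit 1014) (nat_lit 1064) (nat_lit 0) (XT.nd (nat_lit 468) (nat_lit 912) (nat_lit 0) (XT.nd (nat_lit 234) (nat_lit 456) (nat_lit 0) (XT.nd (nat_lit 78) (nat_lit 304)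 (nat_lit 0) (XT.lf (nat_lit 0) (nat_lit 925890541) (nat_lit 228) (nat_lit 2183668264) (nat_lit 228) (nat_lit 2183668264) (nat_lit 61) (nat_lit 4) (nat_lit 64) (nat_lit 5) (nat_lit 64) (nat_lit 4) (nat_lit 316) (nat_lit 232) (nat_lit 232)) (XT.nd (nat_lit 78) (nat_lit 304) (nat_lit 0) (XT.lf (nat_lit 0) (nat_lit 8830949074) (nat_lit 228) (nat_lit 1342417190) (nat_lit 228) (nat_lit 589841508) (nat_lit 61) (nat_lit 4) (nat_lit 64) (nat_lit 5) (nat_lit 64) (nat_lit 4) (nat_lit 317) (nat_lit 232) (nat_lit 231)) (XT.lf (nat_lit 0) (nat_lit 3213322890) (nat_lit 304) (nat_lit 5958479759) (nat_lit 0) (nat_lit 1773292130) (nat_lit 57) (nat_lit 5) (nat_lit 61) (nat_lit 4) (nat_lit 57) (nat_lit 4) (nat_lit 318) (nat_lit 232) (nat_lit 230)))) (XT.nd (nat_lit 78) (nat_lit 228) (nat_lit 0) (XT.lf (nat_lit 0) (nat_lit 882143164) (nat_lit 228) (nat_lit 6190169768) (nat_lit 228) (nat_lit 4061425650) (nat_lit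 54) (nat_lit 4) (nat_lit 57) (nat_lit 5) (nat_lit 57) (nat_lit 4) (nat_lit 319) (nat_lit 232) (nat_lit 229)) (XT.nd (nat_lit 78) (nat_lit 228) (nat_lit 0) (XT.lf (nat_lit 0) (nat_lit 7914909077) (nat_lit 228) (nat_lit 3105702433) (nat_lit 228) (nat_lit 308304569) (nat_lit 54) (nat_lit 4) (nat_lit 57) (nat_lit 5) (nat_lit 57) (nat_lit 4) (nat_lit 320) (nat_lit 232) (nat_lit 228)) (XT.lf (nat_lit 0) (nat_lit 3437810083) (nat_lit 228) (nat_lit 8001074786) (nat_lit 0) (nat_lit 91619542) (nat_lit 51) (nat_lit 5) (nat_lit 54) (nat_lit 4) (nat_lit 51) (nat_lit 4) (nat_lit 321) (nat_lit 232) (nat_lit 227))))) (XT.nd (nat_lit 234) (nat_lit 456) (nat_lit 0) (XT.nd (nat_lit 78) (nat_lit 456) (nat_lit 0) (XT.lf (nat_lit 0) (nat_lit 7271409863) (nat_lit 228) (nat_lit 1153967292) (nat_lit 0) (nat_lit 3313306424) (nat_lit 51) (nat_lit 5) (nat_lit 54) (nat_lit 4) (nat_lit 51) (nat_lit 4) (nat_lit 322) (nat_lit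 232) (nat_lit 226)) (XT.nd (nat_lit 78) (nat_lit 228) (nat_lit 0) (XT.lf (nat_lit 0) (nat_lit 5883387756) (nat_lit 228) (nat_lit 5311371656) (nat_lit 228) (nat_lit 759178024) (nat_lit 48) (nat_lit 4) (nat_lit 51) (nat_lit 5) (nat_lit 51) (nat_lit 4) (nat_lit 323) (nat_lit 232) (nat_lit 225)) (XT.lf (nat_lit 0) (nat_lit 836625737) (nat_lit 152) (nat_lit 2102096412) (nat_lit 228) (nat_lit 9237963440) (nat_lit 45) (nat_lit 5) (nat_lit 47) (nat_lit 5) (nat_lit 48) (nat_lit 4) (nat_lit 324) (nat_lit 232) (nat_lit 224)))) (XT.nd (nat_lit 156) (nat_lit 228) (nat_lit 0) (XT.nd (nat_lit 78) (nat_lit 228) (nat_lit 0) (XT.lf (nat_lit 0) (nat_lit 6724908055) (nat_lit 228) (nat_lit 4479630984) (nat_lit 0) (nat_lit 1201638917) (nat_lit 45) (nat_lit 5) (nat_lit 48) (nat_lit 4) (nat_lit 45) (nat_lit 4) (nat_lit 325) (nat_lit 232) (nat_lit 223)) (XT.lf (nat_lit 0) (nat_lit 2487029164) (nat_lit 228) (nat_lit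 8103856948) (nat_lit 228) (nat_lit 2052746370) (nat_lit 42) (nat_lit 4) (nat_lit 45) (nat_lit 5) (nat_lit 45) (nat_lit 4) (nat_lit 326) (nat_lit 232) (nat_lit 222))) (XT.nd (nat_lit 78) (nat_lit 152) (nat_lit 0) (XT.lf (nat_lit 0) (nat_lit 1619177736) (nat_lit 304) (nat_lit 3276647192) (nat_lit 76) (nat_lit 7992937296) (nat_lit 41) (nat_lit 5) (nat_lit 45) (nat_lit 5) (nat_lit 42) (nat_lit 4) (nat_lit 327) (nat_lit 232) (nat_lit 221)) (XT.lf (nat_lit 0) (nat_lit 3738382040) (nat_lit 152) (nat_lit 1581569300) (nat_lit 228) (nat_lit 7821944482) (nat_lit 39) (nat_lit 5) (nat_lit 41) (nat_lit 5) (nat_lit 42) (nat_lit 4) (nat_lit 328) (nat_lit 232) (nat_lit 220)))))) (XT.nd (nat_lit 546) (nat_lit 456) (nat_lit 0) (XT.nd (nat_lit 234) (nat_lit 380) (nat_lit 0) (XT.nd (nat_lit 78) (nat_lit 228) (nat_lit 0) (XT.lf (nat_lit 0) (nat_lit 9107363239) (nat_lit 228) (nat_lit 2513120789) (nat_lit 0) (nat_lit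 1782927440) (nat_lit 39) (nat_lit 5) (nat_lit 42) (nat_lit 4) (nat_lit 39) (nat_lit 4) (nat_lit 329) (nat_lit 232) (nat_lit 219)) (XT.nd (nat_lit 78) (nat_lit 76) (nat_lit 0) (XT.lf (nat_lit 0) (nat_lit 4535883701) (nat_lit 152) (nat_lit 8458559413) (nat_lit 152) (nat_lit 678802950) (nat_lit 37) (nat_lit 4) (nat_lit 39) (nat_lit 5) (nat_lit 39) (nat_lit 4) (nat_lit 330) (nat_lit 232) (nat_lit 218)) (XT.lf (nat_lit 0) (nat_lit 2940130023) (nat_lit 228) (nat_lit 2253351412) (nat_lit 76) (nat_lit 8758288461) (nat_lit 36) (nat_lit 5) (nat_lit 39) (nat_lit 5) (nat_lit 37) (nat_lit 4) (nat_lit 331) (nat_lit 232) (nat_lit 217)))) (XT.nd (nat_lit 156) (nat_lit 228) (nat_lit 0) (XT.nd (nat_lit 78) (nat_lit 0) (nat_lit 0) (XT.lf (nat_lit 0) (nat_lit 4806512209) (nat_lit 152) (nat_lit 1822803536) (nat_lit 228) (nat_lit 7609922427) (nat_lit 34) (nat_lit 5) (nat_lit 36) (nat_lit 5) (nat_lit 37) (nat_lit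 4) (nat_lit 332) (nat_lit 232) (nat_lit 216)) (XT.lf (nat_lit 0) (nat_lit 10397627977) (nat_lit 228) (nat_lit 2544644178) (nat_lit 0) (nat_lit 1594053546) (nat_lit 34) (nat_lit 5) (nat_lit 37) (nat_lit 4) (nat_lit 34) (nat_lit 4) (nat_lit 333) (nat_lit 232) (nat_lit 215))) (XT.nd (nat_lit 78) (nat_lit 76) (nat_lit 0) (XT.lf (nat_lit 0) (nat_lit 4505105362) (nat_lit 152) (nat_lit 9766907570) (nat_lit 152) (nat_lit 570569535) (nat_lit 32) (nat_lit 4) (nat_lit 34) (nat_lit 5) (nat_lit 34) (nat_lit 4) (nat_lit 334) (nat_lit 232) (nat_lit 214)) (XT.lf (nat_lit 0) (nat_lit 3001825257) (nat_lit 228) (nat_lit 3483956650) (nat_lit 76) (nat_lit 8672660184) (nat_lit 31) (nat_lit 5) (nat_lit 34) (nat_lit 5) (nat_lit 32) (nat_lit 4) (nat_lit 335) (nat_lit 232) (nat_lit 213))))) (XT.nd (nat_lit 234) (nat_lit 152) (nat_lit 0) (XT.nd (nat_lit 78) (nat_lit 152) (nat_lit 0) (XT.lf (nat_lit 0) (nat_lit 3526576287)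 (nat_lit 152) (nat_lit 3111086558) (nat_lit 228) (nat_lit 8846956317) (nat_lit 29) (nat_lit 5) (nat_lit 31) (nat_lit 5) (nat_lit 32) (nat_lit 4) (nat_lit 336) (nat_lit 232) (nat_lit 212)) (XT.nd (nat_lit 78) (nat_lit 152) (nat_lit 0) (XT.lf (nat_lit 0) (nat_lit 10355878548) (nat_lit 228) (nat_lit 5116768001) (nat_lit 0) (nat_lit 348777940) (nat_lit 29) (nat_lit 5) (nat_lit 32) (nat_lit 4) (nat_lit 29) (nat_lit 4) (nat_lit 337) (nat_lit 232) (nat_lit 211)) (XT.lf (nat_lit 0) (nat_lit 1825605928) (nat_lit 152) (nat_lit 12344567414) (nat_lit 152) (nat_lit 1998665471) (nat_lit 27) (nat_lit 4) (nat_lit 29) (nat_lit 5) (nat_lit 29) (nat_lit 4) (nat_lit 338) (nat_lit 232) (nat_lit 210)))) (XT.nd (nat_lit 156) (nat_lit 76) (nat_lit 0) (XT.nd (nat_lit 78) (nat_lit 0) (nat_lit 0) (XT.lf (nat_lit 0) (nat_lit 1530062649) (nat_lit 228) (nat_lit 7568808101) (nat_lit 76) (nat_lit 7427734264) (nat_lit 26) (nat_lit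 5) (nat_lit 29) (nat_lit 5) (nat_lit 27) (nat_lit 4) (nat_lit 339) (nat_lit 232) (nat_lit 209)) (XT.lf (nat_lit 0) (nat_lit 5062675625) (nat_lit 228) (nat_lit 716956511) (nat_lit 76) (nat_lit 11116769923) (nat_lit 26) (nat_lit 5) (nat_lit 29) (nat_lit 5) (nat_lit 27) (nat_lit 4) (nat_lit 340) (nat_lit 232) (nat_lit 208))) (XT.nd (nat_lit 78) (nat_lit 0) (nat_lit 0) (XT.lf (nat_lit 0) (nat_lit 6361660238) (nat_lit 76) (nat_lit 2340753301) (nat_lit 152) (nat_lit 8574881341) (nat_lit 25) (nat_lit 5) (nat_lit 26) (nat_lit 5) (nat_lit 27) (nat_lit 4) (nat_lit 341) (nat_lit 232) (nat_lit 207)) (XT.lf (nat_lit 0) (nat_lit 12410554785) (nat_lit 152) (nat_lit 4117006355) (nat_lit 0) (nat_lit 1143312216) (nat_lit 25) (nat_lit 5) (nat_lit 27) (nat_lit 4) (nat_lit 25) (nat_lit 4) (nat_lit 342) (nat_lit 232) (nat_lit 206))))))))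
noncomputable def xc42 : XT := (XT.nd (nat_lit 2028) (nat_lit 380) (nat_lit 0) (XT.nd (nat_lit 1014) (nat_lit 380) (nat_lit 0) (XT.nd (nat_lit 468) (nat_lit 456) (nat_lit 0) (XT.nd (nat_lit 234) (nat_lit 76) (nat_lit 0) (XT.nd (nat_lit 78) (nat_lit 76) (nat_lit 0) (XT.lf (nat_lit 0) (nat_lit 2817063216) (nat_lit 152) (nat_lit 13405221584) (nat_lit 152) (nat_lit 1854238230) (nat_lit 23) (nat_lit 4) (nat_lit 25) (nat_lit 5) (nat_lit 25) (nat_lit 4) (nat_lit 343) (nat_lit 232) (nat_lit 205)) (XT.nd (nat_lit 78) (nat_lit 0) (nat_lit 0) (XT.lf (nat_lit 0) (nat_lit 1605956518) (nat_lit 228) (nat_lit 8566368112) (nat_lit 76) (nat_lit 8322046560) (nat_lit 22) (nat_lit 5) (nat_lit 25) (nat_lit 5) (nat_lit 23) (nat_lit 4) (nat_lit 344) (nat_lit 232) (nat_lit 204)) (XT.lf (nat_lit 0) (nat_lit 5076594252) (nat_lit 228) (nat_lit 1788426413) (nat_lit 76) (nat_lit 12060897477) (nat_lit 22) (nat_lit 5) (nat_lit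 25) (nat_lit 5) (nat_lit 23) (nat_lit 4) (nat_lit 345) (nat_lit 232) (nat_lit 203)))) (XT.nd (nat_lit 78) (nat_lit 0) (nat_lit 0) (XT.lf (nat_lit 0) (nat_lit 5199574248) (nat_lit 76) (nat_lit 3447297676) (nat_lit 152) (nat_lit 10723704325) (nat_lit 21) (nat_lit 5) (nat_lit 22) (nat_lit 5) (nat_lit 23) (nat_lit 4) (nat_lit 346) (nat_lit 232) (nat_lit 202)) (XT.nd (nat_lit 78) (nat_lit 0) (nat_lit 0) (XT.lf (nat_lit 0) (nat_lit 12289036548) (nat_lit 152) (nat_lit 7490107293) (nat_lit 0) (nat_lit 50516382) (nat_lit 21) (nat_lit 5) (nat_lit 23) (nat_lit 4) (nat_lit 21) (nat_lit 4) (nat_lit 347) (nat_lit 232) (nat_lit 201)) (XT.lf (nat_lit 0) (nat_lit 16022014185) (nat_lit 152) (nat_lit 735219136) (nat_lit 0) (nat_lit 3545865579) (nat_lit 21) (nat_lit 5) (nat_lit 23) (nat_lit 4) (nat_lit 21) (nat_lit 4) (nat_lit 348) (nat_lit 232) (nat_lit 200))))) (XT.nd (nat_lit 234) (nat_lit 228) (nat_lit 0) (XT.nd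 (nat_lit 78) (nat_lit 76) (nat_lit 0) (XT.lf (nat_lit 0) (nat_lit 6254755134) (nat_lit 152) (nat_lit 13621298524) (nat_lit 152) (nat_lit 914442695) (nat_lit 19) (nat_lit 4) (nat_lit 21) (nat_lit 5) (nat_lit 21) (nat_lit 4) (nat_lit 349) (nat_lit 232) (nat_lit 199)) (XT.nd (nat_lit 78) (nat_lit 0) (nat_lit 0) (XT.lf (nat_lit 0) (nat_lit 2459930574) (nat_lit 228) (nat_lit 7937184357) (nat_lit 76) (nat_lit 10895994085) (nat_lit 18) (nat_lit 5) (nat_lit 21) (nat_lit 5) (nat_lit 19) (nat_lit 4) (nat_lit 350) (nat_lit 232) (nat_lit 198)) (XT.lf (nat_lit 0) (nat_lit 5867695757) (nat_lit 228) (nat_lit 1236884721) (nat_lit 76) (nat_lit 14707457195) (nat_lit 18) (nat_lit 5) (nat_lit 21) (nat_lit 5) (nat_lit 19) (nat_lit 4) (nat_lit 351) (nat_lit 232) (nat_lit 197)))) (XT.nd (nat_lit 156) (nat_lit 152) (nat_lit 0) (XT.nd (nat_lit 78) (nat_lit 0) (nat_lit 0) (XT.lf (nat_lit 0) (nat_lit 5690851512) (nat_lit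 76) (nat_lit 3693527016) (nat_lit 152) (nat_lit 12961979814) (nat_lit 17) (nat_lit 5) (nat_lit 18) (nat_lit 5) (nat_lit 19) (nat_lit 4) (nat_lit 352) (nat_lit 232) (nat_lit 196)) (XT.lf (nat_lit 0) (nat_lit 12767982977) (nat_lit 76) (nat_lit 203642765) (nat_lit 152) (nat_lit 9926154943) (nat_lit 17) (nat_lit 5) (nat_lit 18) (nat_lit 5) (nat_lit 19) (nat_lit 4) (nat_lit 353) (nat_lit 232) (nat_lit 195))) (XT.nd (nat_lit 78) (nat_lit 152) (nat_lit 0) (XT.lf (nat_lit 0) (nat_lit 16652701950) (nat_lit 152) (nat_lit 3523329559) (nat_lit 0) (nat_lit 3290151117) (nat_lit 17) (nat_lit 5) (nat_lit 19) (nat_lit 4) (nat_lit 17) (nat_lit 4) (nat_lit 354) (nat_lit 232) (nat_lit 194)) (XT.lf (nat_lit 0) (nat_lit 3262972724) (nat_lit 152) (nat_lit 17169586477) (nat_lit 152) (nat_lit 3619449559) (nat_lit 15) (nat_lit 4) (nat_lit 17) (nat_lit 5) (nat_lit 17) (nat_lit 4) (nat_lit 355) (nat_lit 232) (nat_lit 193))))))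 (XT.nd (nat_lit 468) (nat_lit 228) (nat_lit 0) (XT.nd (nat_lit 234) (nat_lit 76) (nat_lit 0) (XT.nd (nat_lit 78) (nat_lit 76) (nat_lit 0) (XT.lf (nat_lit 0) (nat_lit 10245857354) (nat_lit 152) (nat_lit 14071050363) (nat_lit 152) (nat_lit 338791033) (nat_lit 15) (nat_lit 4) (nat_lit 17) (nat_lit 5) (nat_lit 17) (nat_lit 4) (nat_lit 356) (nat_lit 232) (nat_lit 192)) (XT.nd (nat_lit 78) (nat_lit 0) (nat_lit 0) (XT.lf (nat_lit 0) (nat_lit 2937324264) (nat_lit 228) (nat_lit 7946308950) (nat_lit 76) (nat_lit 14394319233) (nat_lit 14) (nat_lit 5) (nat_lit 17) (nat_lit 5) (nat_lit 15) (nat_lit 4) (nat_lit 357) (nat_lit 232) (nat_lit 191)) (XT.lf (nat_lit 0) (nat_lit 6262548578) (nat_lit 228) (nat_lit 1367771434) (nat_lit 76) (nat_lit 18289744141) (nat_lit 14) (nat_lit 5) (nat_lit 17) (nat_lit 5) (nat_lit 15) (nat_lit 4) (nat_lit 358) (nat_lit 232) (nat_lit 190)))) (XT.nd (nat_lit 78) (nat_lit 0) (nat_lit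 0) (XT.lf (nat_lit 0) (nat_lit 5440948560) (nat_lit 76) (nat_lit 4257751644) (nat_lit 152) (nat_lit 16882423381) (nat_lit 13) (nat_lit 5) (nat_lit 14) (nat_lit 5) (nat_lit 15) (nat_lit 4) (nat_lit 359) (nat_lit 232) (nat_lit 189)) (XT.nd (nat_lit 78) (nat_lit 0) (nat_lit 0) (XT.lf (nat_lit 0) (nat_lit 12409341055) (nat_lit 76) (nat_lit 801775848) (nat_lit 152) (nat_lit 14051721405) (nat_lit 13) (nat_lit 5) (nat_lit 14) (nat_lit 5) (nat_lit 15) (nat_lit 4) (nat_lit 360) (nat_lit 232) (nat_lit 188)) (XT.lf (nat_lit 0) (nat_lit 16815670072) (nat_lit 152) (nat_lit 8476144495) (nat_lit 0) (nat_lit 2673605361) (nat_lit 13) (nat_lit 5) (nat_lit 15) (nat_lit 4) (nat_lit 13) (nat_lit 4) (nat_lit 361) (nat_lit 232) (nat_lit 187))))) (XT.nd (nat_lit 234) (nat_lit 152) (nat_lit 0) (XT.nd (nat_lit 78) (nat_lit 76) (nat_lit 0) (XT.lf (nat_lit 0) (nat_lit 20497709420) (nat_lit 152) (nat_lit 1984744405) (nat_lit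 0) (nat_lit 6207562522) (nat_lit 13) (nat_lit 5) (nat_lit 15) (nat_lit 4) (nat_lit 13) (nat_lit 4) (nat_lit 362) (nat_lit 232) (nat_lit 186)) (XT.nd (nat_lit 78) (nat_lit 0) (nat_lit 0) (XT.lf (nat_lit 0) (nat_lit 4726309594) (nat_lit 76) (nat_lit 19571867688) (nat_lit 76) (nat_lit 5137951676) (nat_lit 12) (nat_lit 4) (nat_lit 13) (nat_lit 5) (nat_lit 13) (nat_lit 4) (nat_lit 363) (nat_lit 232) (nat_lit 185)) (XT.lf (nat_lit 0) (nat_lit 11612725069) (nat_lit 76) (nat_lit 16582961770) (nat_lit 76) (nat_lit 2009464093) (nat_lit 12) (nat_lit 4) (nat_lit 13) (nat_lit 5) (nat_lit 13) (nat_lit 4) (nat_lit 364) (nat_lit 232) (nat_lit 184)))) (XT.nd (nat_lit 156) (nat_lit 76) (nat_lit 0) (XT.nd (nat_lit 78) (nat_lit 0) (nat_lit 0) (XT.lf (nat_lit 0) (nat_lit 1152902405) (nat_lit 152) (nat_lit 12368621973) (nat_lit 76) (nat_lit 17476474510) (nat_lit 11) (nat_lit 5) (nat_lit 13) (nat_lit 5) (nat_lit 12)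 (nat_lit 4) (nat_lit 365) (nat_lit 232) (nat_lit 183)) (XT.lf (nat_lit 0) (nat_lit 4334501085) (nat_lit 152) (nat_lit 6041545758) (nat_lit 76) (nat_lit 21439061474) (nat_lit 11) (nat_lit 5) (nat_lit 13) (nat_lit 5) (nat_lit 12) (nat_lit 4) (nat_lit 366) (nat_lit 232) (nat_lit 182))) (XT.nd (nat_lit 78) (nat_lit 0) (nat_lit 0) (XT.lf (nat_lit 0) (nat_lit 421879890) (nat_lit 76) (nat_lit 7159499345) (nat_lit 152) (nat_lit 25076271788) (nat_lit 10) (nat_lit 5) (nat_lit 11) (nat_lit 5) (nat_lit 12) (nat_lit 4) (nat_lit 367) (nat_lit 232) (nat_lit 181)) (XT.lf (nat_lit 0) (nat_lit 7141963678) (nat_lit 76) (nat_lit 3810893531) (nat_lit 152) (nat_lit 22571811500) (nat_lit 10) (nat_lit 5) (nat_lit 11) (nat_lit 5) (nat_lit 12) (nat_lit 4) (nat_lit 368) (nat_lit 232) (nat_lit 180))))))) (XT.nd (nat_lit 1014) (nat_lit 152) (nat_lit 0) (XT.nd (nat_lit 468) (nat_lit 152) (nat_lit 0) (XT.nd (nat_lit 234)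 (nat_lit 76) (nat_lit 0) (XT.nd (nat_lit 78) (nat_lit 0) (nat_lit 0) (XT.lf (nat_lit 0) (nat_lit 14004338918) (nat_lit 76) (nat_lit 388311202) (nat_lit 152) (nat_lit 20026045770) (nat_lit 10) (nat_lit 5) (nat_lit 11) (nat_lit 5) (nat_lit 12) (nat_lit 4) (nat_lit 369) (nat_lit 232) (nat_lit 179)) (XT.nd (nat_lit 78) (nat_lit 0) (nat_lit 0) (XT.lf (nat_lit 0) (nat_lit 17933670738) (nat_lit 152) (nat_lit 14355419020) (nat_lit 0) (nat_lit 3050526782) (nat_lit 10) (nat_lit 5) (nat_lit 12) (nat_lit 4) (nat_lit 10) (nat_lit 4) (nat_lit 370) (nat_lit 232) (nat_lit 178)) (XT.lf (nat_lit 0) (nat_lit 21553581833) (nat_lit 152) (nat_lit 8175165634) (nat_lit 0) (nat_lit 6560250822) (nat_lit 10) (nat_lit 5) (nat_lit 12) (nat_lit 4) (nat_lit 10) (nat_lit 4) (nat_lit 371) (nat_lit 232) (nat_lit 177)))) (XT.nd (nat_lit 78) (nat_lit 76) (nat_lit 0) (XT.lf (nat_lit 0) (nat_lit 25251813749) (nat_lit 152) (nat_lit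 1864463906) (nat_lit 0) (nat_lit 10151505015) (nat_lit 10) (nat_lit 5) (nat_lit 12) (nat_lit 4) (nat_lit 10) (nat_lit 4) (nat_lit 372) (nat_lit 232) (nat_lit 176)) (XT.nd (nat_lit 78) (nat_lit 0) (nat_lit 0) (XT.lf (nat_lit 0) (nat_lit 4673395139) (nat_lit 76) (nat_lit 24403126346) (nat_lit 76) (nat_lit 9198955745) (nat_lit 9) (nat_lit 4) (nat_lit 10) (nat_lit 5) (nat_lit 10) (nat_lit 4) (nat_lit 373) (nat_lit 232) (nat_lit 175)) (XT.lf (nat_lit 0) (nat_lit 11392774255) (nat_lit 76) (nat_lit 21612977226) (nat_lit 76) (nat_lit 6307969861) (nat_lit 9) (nat_lit 4) (nat_lit 10) (nat_lit 5) (nat_lit 10) (nat_lit 4) (nat_lit 374) (nat_lit 232) (nat_lit 174))))) (XT.nd (nat_lit 234) (nat_lit 76) (nat_lit 0) (XT.nd (nat_lit 78) (nat_lit 76) (nat_lit 0) (XT.lf (nat_lit 0) (nat_lit 18262438257) (nat_lit 76) (nat_lit 18762219730) (nat_lit 76) (nat_lit 3359312595) (nat_lit 9) (nat_lit 4) (nat_lit 10) (nat_lit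 5) (nat_lit 10) (nat_lit 4) (nat_lit 375) (nat_lit 232) (nat_lit 173)) (XT.nd (nat_lit 78) (nat_lit 76) (nat_lit 0) (XT.lf (nat_lit 0) (nat_lit 25288389762) (nat_lit 76) (nat_lit 15848362907) (nat_lit 76) (nat_lit 350407450) (nat_lit 9) (nat_lit 4) (nat_lit 10) (nat_lit 5) (nat_lit 10) (nat_lit 4) (nat_lit 376) (nat_lit 232) (nat_lit 172)) (XT.lf (nat_lit 0) (nat_lit 2668270890) (nat_lit 152) (nat_lit 10173645472) (nat_lit 76) (nat_lit 29781552758) (nat_lit 8) (nat_lit 5) (nat_lit 10) (nat_lit 5) (nat_lit 9) (nat_lit 4) (nat_lit 377) (nat_lit 232) (nat_lit 171)))) (XT.nd (nat_lit 156) (nat_lit 0) (nat_lit 0) (XT.nd (nat_lit 78) (nat_lit 76) (nat_lit 0) (XT.lf (nat_lit 0) (nat_lit 5744393287) (nat_lit 152) (nat_lit 4018709165) (nat_lit 76) (nat_lit 34031453540) (nat_lit 8) (nat_lit 5) (nat_lit 10) (nat_lit 5) (nat_lit 9) (nat_lit 4) (nat_lit 378) (nat_lit 232) (nat_lit 170)) (XT.lf (nat_lit 0)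 (nat_lit 2320057674) (nat_lit 76) (nat_lit 6589729464) (nat_lit 152) (nat_lit 36091088871) (nat_lit 7) (nat_lit 5) (nat_lit 8) (nat_lit 5) (nat_lit 9) (nat_lit 4) (nat_lit 379) (nat_lit 232) (nat_lit 169))) (XT.nd (nat_lit 78) (nat_lit 0) (nat_lit 0) (XT.lf (nat_lit 0) (nat_lit 8885728746) (nat_lit 76) (nat_lit 3299979710) (nat_lit 152) (nat_lit 34057220079) (nat_lit 7) (nat_lit 5) (nat_lit 8) (nat_lit 5) (nat_lit 9) (nat_lit 4) (nat_lit 380) (nat_lit 232) (nat_lit 168)) (XT.lf (nat_lit 0) (nat_lit 15536278475) (nat_lit 152) (nat_lit 31919577868) (nat_lit 0) (nat_lit 67104749) (nat_lit 7) (nat_lit 5) (nat_lit 9) (nat_lit 4) (nat_lit 7) (nat_lit 4) (nat_lit 381) (nat_lit 232) (nat_lit 167)))))) (XT.nd (nat_lit 468) (nat_lit 76) (nat_lit 0) (XT.nd (nat_lit 234) (nat_lit 76) (nat_lit 0) (XT.nd (nat_lit 78) (nat_lit 0) (nat_lit 0) (XT.lf (nat_lit 0) (nat_lit 18996272355) (nat_lit 152) (nat_lit 26395048732)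 (nat_lit 0) (nat_lit 3449815646) (nat_lit 7) (nat_lit 5) (nat_lit 9) (nat_lit 4) (nat_lit 7) (nat_lit 4) (nat_lit 382) (nat_lit 232) (nat_lit 166)) (XT.nd (nat_lit 78) (nat_lit 0) (nat_lit 0) (XT.lf (nat_lit 0) (nat_lit 22536991969) (nat_lit 152) (nat_lit 20747063697) (nat_lit 0) (nat_lit 6915503238) (nat_lit 7) (nat_lit 5) (nat_lit 9) (nat_lit 4) (nat_lit 7) (nat_lit 4) (nat_lit 383) (nat_lit 232) (nat_lit 165)) (XT.lf (nat_lit 0) (nat_lit 26161531150) (nat_lit 152) (nat_lit 14970687632) (nat_lit 0) (nat_lit 10467195795) (nat_lit 7) (nat_lit 5) (nat_lit 9) (nat_lit 4) (nat_lit 7) (nat_lit 4) (nat_lit 384) (nat_lit 232) (nat_lit 164)))) (XT.nd (nat_lit 78) (nat_lit 76) (nat_lit 0) (XT.lf (nat_lit 0) (nat_lit 29873056970) (nat_lit 152) (nat_lit 9060873218) (nat_lit 0) (nat_lit 14107996737) (nat_lit 7) (nat_lit 5) (nat_lit 9) (nat_lit 4) (nat_lit 7) (nat_lit 4) (nat_lit 385) (nat_lit 232) (nat_lit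 163)) (XT.nd (nat_lit 78) (nat_lit 76) (nat_lit 0) (XT.lf (nat_lit 0) (nat_lit 33674812511) (nat_lit 152) (nat_lit 3012456538) (nat_lit 0) (nat_lit 17841087348) (nat_lit 7) (nat_lit 5) (nat_lit 9) (nat_lit 4) (nat_lit 7) (nat_lit 4) (nat_lit 386) (nat_lit 232) (nat_lit 162)) (XT.lf (nat_lit 0) (nat_lit 3243132629) (nat_lit 76) (nat_lit 34358162040) (nat_lit 76) (nat_lit 18457771897) (nat_lit 6) (nat_lit 4) (nat_lit 7) (nat_lit 5) (nat_lit 7) (nat_lit 4) (nat_lit 387) (nat_lit 232) (nat_lit 161))))) (XT.nd (nat_lit 234) (nat_lit 76) (nat_lit 0) (XT.nd (nat_lit 78) (nat_lit 0) (nat_lit 0) (XT.lf (nat_lit 0) (nat_lit 9710944952) (nat_lit 76) (nat_lit 31944784777) (nat_lit 76) (nat_lit 15979671352) (nat_lit 6) (nat_lit 4) (nat_lit 7) (nat_lit 5) (nat_lit 7) (nat_lit 4) (nat_lit 388) (nat_lit 232) (nat_lit 160)) (XT.nd (nat_lit 78) (nat_lit 0) (nat_lit 0) (XT.lf (nat_lit 0) (nat_lit 16336678127)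 (nat_lit 76) (nat_lit 29475448389) (nat_lit 76) (nat_lit 13447496827) (nat_lit 6) (nat_lit 4) (nat_lit 7) (nat_lit 5) (nat_lit 7) (nat_lit 4) (nat_lit 389) (nat_lit 232) (nat_lit 159)) (XT.lf (nat_lit 0) (nat_lit 23126121627) (nat_lit 76) (nat_lit 26947995204) (nat_lit 76) (nat_lit 10859035741) (nat_lit 6) (nat_lit 4) (nat_lit 7) (nat_lit 5) (nat_lit 7) (nat_lit 4) (nat_lit 390) (nat_lit 232) (nat_lit 158)))) (XT.nd (nat_lit 156) (nat_lit 76) (nat_lit 0) (XT.nd (nat_lit 78) (nat_lit 0) (nat_lit 0) (XT.lf (nat_lit 0) (nat_lit 30085207977) (nat_lit 76) (nat_lit 24360216767) (nat_lit 76) (nat_lit 8212026333) (nat_lit 6) (nat_lit 4) (nat_lit 7) (nat_lit 5) (nat_lit 7) (nat_lit 4) (nat_lit 391) (nat_lit 232) (nat_lit 157)) (XT.lf (nat_lit 0) (nat_lit 37220017931) (nat_lit 76) (nat_lit 21709851913) (nat_lit 76) (nat_lit 5504155681) (nat_lit 6) (nat_lit 4) (nat_lit 7) (nat_lit 5) (nat_lit 7) (nat_lit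 4) (nat_lit 392) (nat_lit 232) (nat_lit 156))) (XT.nd (nat_lit 78) (nat_lit 76) (nat_lit 0) (XT.lf (nat_lit 0) (nat_lit 44536785791) (nat_lit 76) (nat_lit 18994584789) (nat_lit 76) (nat_lit 2733057686) (nat_lit 6) (nat_lit 4) (nat_lit 7) (nat_lit 5) (nat_lit 7) (nat_lit 4) (nat_lit 393) (nat_lit 232) (nat_lit 155)) (XT.lf (nat_lit 0) (nat_lit 101665655) (nat_lit 152) (nat_lit 16109350552) (nat_lit 76) (nat_lit 51939212567) (nat_lit 5) (nat_lit 5) (nat_lit 7) (nat_lit 5) (nat_lit 6) (nat_lit 4) (nat_lit 394) (nat_lit 232) (nat_lit 154))))))))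
noncomputable def xc43 : XT := (XT.nd (nat_lit 35256) (nat_lit 0) (nat_lit 988) (XT.nd (nat_lit 1014) (nat_lit 0) (nat_lit 0) (XT.nd (nat_lit 468) (nat_lit 0) (nat_lit 0) (XT.nd (nat_lit 234) (nat_lit 0) (nat_lit 0) (XT.nd (nat_lit 78) (nat_lit 76) (nat_lit 0) (XT.lf (nat_lit 0) (nat_lit 2949855188) (nat_lit 152) (nat_lit 10380151750) (nat_lit 76) (nat_lit 56762290028) (nat_lit 5) (nat_lit 5) (nat_lit 7) (nat_lit 5) (nat_lit 6) (nat_lit 4) (nat_lit 395) (nat_lit 232) (nat_lit 153)) (XT.nd (nat_lit 78) (nat_lit 76) (nat_lit 0) (XT.lf (nat_lit 0) (nat_lit 5867331423) (nat_lit 152) (nat_lit 4508768151) (nat_lit 76) (nat_lit 61717018377) (nat_lit 5) (nat_lit 5) (nat_lit 7) (nat_lit 5) (nat_lit 6) (nat_lit 4) (nat_lit 396) (nat_lit 232) (nat_lit 152)) (XT.lf (nat_lit 0) (nat_lit 1539981159) (nat_lit 76) (nat_lit 7331465690) (nat_lit 152) (nat_lit 65282549068) (nat_lit 4) (nat_lit 5) (nat_lit 5) (nat_lit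 5) (nat_lit 6) (nat_lit 4) (nat_lit 397) (nat_lit 232) (nat_lit 151)))) (XT.nd (nat_lit 78) (nat_lit 0) (nat_lit 0) (XT.lf (nat_lit 0) (nat_lit 7834074512) (nat_lit 76) (nat_lit 4161635171) (nat_lit 152) (nat_lit 64280095454) (nat_lit 4) (nat_lit 5) (nat_lit 5) (nat_lit 5) (nat_lit 6) (nat_lit 4) (nat_lit 398) (nat_lit 232) (nat_lit 150)) (XT.nd (nat_lit 78) (nat_lit 0) (nat_lit 0) (XT.lf (nat_lit 0) (nat_lit 14289278273) (nat_lit 76) (nat_lit 909367980) (nat_lit 152) (nat_lit 63263079474) (nat_lit 4) (nat_lit 5) (nat_lit 5) (nat_lit 5) (nat_lit 6) (nat_lit 4) (nat_lit 399) (nat_lit 232) (nat_lit 149)) (XT.lf (nat_lit 0) (nat_lit 18506396371) (nat_lit 152) (nat_lit 59825775932) (nat_lit 0) (nat_lit 2380795177) (nat_lit 4) (nat_lit 5) (nat_lit 6) (nat_lit 4) (nat_lit 4) (nat_lit 4) (nat_lit 400) (nat_lit 232) (nat_lit 148))))) (XT.nd (nat_lit 234) (nat_lit 0) (nat_lit 0) (XT.nd (nat_lit 78) (nat_lit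 0) (nat_lit 0) (XT.lf (nat_lit 0) (nat_lit 21908077962) (nat_lit 152) (nat_lit 55384145655) (nat_lit 0) (nat_lit 5739687054) (nat_lit 4) (nat_lit 5) (nat_lit 6) (nat_lit 4) (nat_lit 4) (nat_lit 4) (nat_lit 401) (nat_lit 232) (nat_lit 147)) (XT.nd (nat_lit 78) (nat_lit 0) (nat_lit 0) (XT.lf (nat_lit 0) (nat_lit 25397921969) (nat_lit 152) (nat_lit 50834934186) (nat_lit 0) (nat_lit 9187987649) (nat_lit 4) (nat_lit 5) (nat_lit 6) (nat_lit 4) (nat_lit 4) (nat_lit 4) (nat_lit 402) (nat_lit 232) (nat_lit 146)) (XT.lf (nat_lit 0) (nat_lit 28978977769) (nat_lit 152) (nat_lit 46174166485) (nat_lit 0) (nat_lit 12728710040) (nat_lit 4) (nat_lit 5) (nat_lit 6) (nat_lit 4) (nat_lit 4) (nat_lit 4) (nat_lit 403) (nat_lit 232) (nat_lit 145)))) (XT.nd (nat_lit 156) (nat_lit 0) (nat_lit 0) (XT.nd (nat_lit 78) (nat_lit 0) (nat_lit 0) (XT.lf (nat_lit 0) (nat_lit 32654374441) (nat_lit 152) (nat_lit 41397770037) (nat_lit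 0) (nat_lit 16364948062) (nat_lit 4) (nat_lit 5) (nat_lit 6) (nat_lit 4) (nat_lit 4) (nat_lit 4) (nat_lit 404) (nat_lit 232) (nat_lit 144)) (XT.lf (nat_lit 0) (nat_lit 36427323496) (nat_lit 152) (nat_lit 36501571293) (nat_lit 0) (nat_lit 20099879011) (nat_lit 4) (nat_lit 5) (nat_lit 6) (nat_lit 4) (nat_lit 4) (nat_lit 4) (nat_lit 405) (nat_lit 232) (nat_lit 143))) (XT.nd (nat_lit 78) (nat_lit 0) (nat_lit 0) (XT.lf (nat_lit 0) (nat_lit 40301121687) (nat_lit 152) (nat_lit 31481292019) (nat_lit 0) (nat_lit 23936766417) (nat_lit 4) (nat_lit 5) (nat_lit 6) (nat_lit 4) (nat_lit 4) (nat_lit 4) (nat_lit 406) (nat_lit 232) (nat_lit 142)) (XT.lf (nat_lit 0) (nat_lit 44279153884) (nat_lit 152) (nat_lit 26332545564) (nat_lit 0) (nat_lit 27878962903) (nat_lit 4) (nat_lit 5) (nat_lit 6) (nat_lit 4) (nat_lit 4) (nat_lit 4) (nat_lit 407) (nat_lit 232) (nat_lit 141)))))) (XT.nd (nat_lit 33696) (nat_lit 0) (nat_lit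 3116) (XT.nd (nat_lit 33462) (nat_lit 0) (nat_lit 4028) (XT.nd (nat_lit 33306) (nat_lit 0) (nat_lit 4560) (XT.lf (nat_lit 0) (nat_lit 48364896039) (nat_lit 152) (nat_lit 21050833024) (nat_lit 0) (nat_lit 31929913104) (nat_lit 4) (nat_lit 5) (nat_lit 6) (nat_lit 4) (nat_lit 4) (nat_lit 4) (nat_lit 408) (nat_lit 232) (nat_lit 140)) (XT.nd (nat_lit 78) (nat_lit 304) (nat_lit 0) (XT.lf (nat_lit 0) (nat_lit 4456177068) (nat_lit 304) (nat_lit 334608814) (nat_lit 304) (nat_lit 334608814) (nat_lit 68) (nat_lit 4) (nat_lit 72) (nat_lit 5) (nat_lit 72) (nat_lit 4) (nat_lit 314) (nat_lit 233) (nat_lit 233)) (XT.lf (nat_lit 0) (nat_lit 3116035886) (nat_lit 304) (nat_lit 4959192617) (nat_lit 0) (nat_lit 2340882935) (nat_lit 64) (nat_lit 5) (nat_lit 68) (nat_lit 4) (nat_lit 64) (nat_lit 4) (nat_lit 315) (nat_lit 233) (nat_lit 232)))) (XT.nd (nat_lit 78) (nat_lit 304) (nat_lit 0) (XT.lf (nat_lit 0) (nat_lit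 1783902508) (nat_lit 228) (nat_lit 5165830525) (nat_lit 228) (nat_lit 3638101892) (nat_lit 61) (nat_lit 4) (nat_lit 64) (nat_lit 5) (nat_lit 64) (nat_lit 4) (nat_lit 316) (nat_lit 233) (nat_lit 231)) (XT.nd (nat_lit 78) (nat_lit 228) (nat_lit 0) (XT.lf (nat_lit 0) (nat_lit 92962112) (nat_lit 304) (nat_lit 2069671545) (nat_lit 76) (nat_lit 8603268124) (nat_lit 60) (nat_lit 5) (nat_lit 64) (nat_lit 5) (nat_lit 61) (nat_lit 4) (nat_lit 317) (nat_lit 233) (nat_lit 230)) (XT.lf (nat_lit 0) (nat_lit 3832075953) (nat_lit 304) (nat_lit 6166403672) (nat_lit 0) (nat_lit 950756154) (nat_lit 57) (nat_lit 5) (nat_lit 61) (nat_lit 4) (nat_lit 57) (nat_lit 4) (nat_lit 318) (nat_lit 233) (nat_lit 229))))) (XT.nd (nat_lit 234) (nat_lit 456) (nat_lit 0) (XT.nd (nat_lit 78) (nat_lit 228) (nat_lit 0) (XT.lf (nat_lit 0) (nat_lit 603470965) (nat_lit 228) (nat_lit 7042881621) (nat_lit 228) (nat_lit 3492908076) (nat_lit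 54) (nat_lit 4) (nat_lit 57) (nat_lit 5) (nat_lit 57) (nat_lit 4) (nat_lit 319) (nat_lit 233) (nat_lit 228)) (XT.nd (nat_lit 78) (nat_lit 152) (nat_lit 0) (XT.lf (nat_lit 0) (nat_lit 213255342) (nat_lit 304) (nat_lit 3766243592) (nat_lit 76) (nat_lit 7356157985) (nat_lit 53) (nat_lit 5) (nat_lit 57) (nat_lit 5) (nat_lit 54) (nat_lit 4) (nat_lit 320) (nat_lit 233) (nat_lit 227)) (XT.lf (nat_lit 0) (nat_lit 3103186996) (nat_lit 152) (nat_lit 804502274) (nat_lit 228) (nat_lit 7630873322) (nat_lit 51) (nat_lit 5) (nat_lit 53) (nat_lit 5) (nat_lit 54) (nat_lit 4) (nat_lit 321) (nat_lit 233) (nat_lit 226)))) (XT.nd (nat_lit 156) (nat_lit 228) (nat_lit 0) (XT.nd (nat_lit 78) (nat_lit 228) (nat_lit 0) (XT.lf (nat_lit 0) (nat_lit 7693253738) (nat_lit 228) (nat_lit 1644560230) (nat_lit 0) (nat_lit 2410404105) (nat_lit 51) (nat_lit 5) (nat_lit 54) (nat_lit 4) (nat_lit 51) (nat_lit 4) (nat_lit 322) (nat_lit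 233) (nat_lit 225)) (XT.lf (nat_lit 0) (nat_lit 5319633262) (nat_lit 228) (nat_lit 6252422770) (nat_lit 228) (nat_lit 392786542) (nat_lit 48) (nat_lit 4) (nat_lit 51) (nat_lit 5) (nat_lit 51) (nat_lit 4) (nat_lit 323) (nat_lit 233) (nat_lit 224))) (XT.nd (nat_lit 78) (nat_lit 0) (nat_lit 0) (XT.lf (nat_lit 0) (nat_lit 183336510) (nat_lit 152) (nat_lit 3069353008) (nat_lit 228) (nat_lit 8936186047) (nat_lit 45) (nat_lit 5) (nat_lit 47) (nat_lit 5) (nat_lit 48) (nat_lit 4) (nat_lit 324) (nat_lit 233) (nat_lit 223)) (XT.lf (nat_lit 0) (nat_lit 6990901155) (nat_lit 228) (nat_lit 5198521510) (nat_lit 0) (nat_lit 230415818) (nat_lit 45) (nat_lit 5) (nat_lit 48) (nat_lit 4) (nat_lit 45) (nat_lit 4) (nat_lit 325) (nat_lit 233) (nat_lit 222))))))) (XT.nd (nat_lit 1014) (nat_lit 760) (nat_lit 0) (XT.nd (nat_lit 468) (nat_lit 684) (nat_lit 0) (XT.nd (nat_lit 234) (nat_lit 228) (nat_lit 0) (XT.nd (nat_lit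 78) (nat_lit 228) (nat_lit 0) (XT.lf (nat_lit 0) (nat_lit 1691736919) (nat_lit 228) (nat_lit 9119947549) (nat_lit 228) (nat_lit 1846994793) (nat_lit 42) (nat_lit 4) (nat_lit 45) (nat_lit 5) (nat_lit 45) (nat_lit 4) (nat_lit 326) (nat_lit 233) (nat_lit 221)) (XT.nd (nat_lit 78) (nat_lit 152) (nat_lit 0) (XT.lf (nat_lit 0) (nat_lit 1783482993) (nat_lit 304) (nat_lit 4150023462) (nat_lit 76) (nat_lit 6971394819) (nat_lit 41) (nat_lit 5) (nat_lit 45) (nat_lit 5) (nat_lit 42) (nat_lit 4) (nat_lit 327) (nat_lit 233) (nat_lit 220)) (XT.lf (nat_lit 0) (nat_lit 2787163054) (nat_lit 152) (nat_lit 2651608712) (nat_lit 228) (nat_lit 7720655480) (nat_lit 39) (nat_lit 5) (nat_lit 41) (nat_lit 5) (nat_lit 42) (nat_lit 4) (nat_lit 328) (nat_lit 233) (nat_lit 219)))) (XT.nd (nat_lit 78) (nat_lit 228) (nat_lit 0) (XT.lf (nat_lit 0) (nat_lit 9179831205) (nat_lit 228) (nat_lit 3531167897) (nat_lit 0) (nat_lit 711361384)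 (nat_lit 39) (nat_lit 5) (nat_lit 42) (nat_lit 4) (nat_lit 39) (nat_lit 4) (nat_lit 329) (nat_lit 233) (nat_lit 218)) (XT.nd (nat_lit 78) (nat_lit 76) (nat_lit 0) (XT.lf (nat_lit 0) (nat_lit 3438577033) (nat_lit 152) (nat_lit 9582769961) (nat_lit 152) (nat_lit 672241243) (nat_lit 37) (nat_lit 4) (nat_lit 39) (nat_lit 5) (nat_lit 39) (nat_lit 4) (nat_lit 330) (nat_lit 233) (nat_lit 217)) (XT.lf (nat_lit 0) (nat_lit 2911649841) (nat_lit 228) (nat_lit 3429062934) (nat_lit 76) (nat_lit 7632469543) (nat_lit 36) (nat_lit 5) (nat_lit 39) (nat_lit 5) (nat_lit 37) (nat_lit 4) (nat_lit 331) (nat_lit 233) (nat_lit 216))))) (XT.nd (nat_lit 234) (nat_lit 380) (nat_lit 0) (XT.nd (nat_lit 78) (nat_lit 152) (nat_lit 0) (XT.lf (nat_lit 0) (nat_lit 3549970739) (nat_lit 152) (nat_lit 3004889241) (nat_lit 228) (nat_lit 7707193888) (nat_lit 34) (nat_lit 5) (nat_lit 36) (nat_lit 5) (nat_lit 37) (nat_lit 4) (nat_lit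 332) (nat_lit 233) (nat_lit 215)) (XT.nd (nat_lit 78) (nat_lit 152) (nat_lit 0) (XT.lf (nat_lit 0) (nat_lit 10278149167) (nat_lit 228) (nat_lit 3869208841) (nat_lit 0) (nat_lit 413157386) (nat_lit 34) (nat_lit 5) (nat_lit 37) (nat_lit 4) (nat_lit 34) (nat_lit 4) (nat_lit 333) (nat_lit 233) (nat_lit 214)) (XT.lf (nat_lit 0) (nat_lit 3098163447) (nat_lit 152) (nat_lit 11008166566) (nat_lit 152) (nat_lit 761850898) (nat_lit 32) (nat_lit 4) (nat_lit 34) (nat_lit 5) (nat_lit 34) (nat_lit 4) (nat_lit 334) (nat_lit 233) (nat_lit 213)))) (XT.nd (nat_lit 156) (nat_lit 152) (nat_lit 0) (XT.nd (nat_lit 78) (nat_lit 152) (nat_lit 0) (XT.lf (nat_lit 0) (nat_lit 2781684968) (nat_lit 228) (nat_lit 4969712549) (nat_lit 76) (nat_lit 7433697255) (nat_lit 31) (nat_lit 5) (nat_lit 34) (nat_lit 5) (nat_lit 32) (nat_lit 4) (nat_lit 335) (nat_lit 233) (nat_lit 212)) (XT.lf (nat_lit 0) (nat_lit 1956736427) (nat_lit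 152) (nat_lit 4414053621) (nat_lit 228) (nat_lit 9141904477) (nat_lit 29) (nat_lit 5) (nat_lit 31) (nat_lit 5) (nat_lit 32) (nat_lit 4) (nat_lit 336) (nat_lit 233) (nat_lit 211))) (XT.nd (nat_lit 78) (nat_lit 152) (nat_lit 0) (XT.lf (nat_lit 0) (nat_lit 9085411899) (nat_lit 152) (nat_lit 968945069) (nat_lit 228) (nat_lit 5796202454) (nat_lit 29) (nat_lit 5) (nat_lit 31) (nat_lit 5) (nat_lit 32) (nat_lit 4) (nat_lit 337) (nat_lit 233) (nat_lit 210)) (XT.lf (nat_lit 0) (nat_lit 100770987) (nat_lit 152) (nat_lit 13711464223) (nat_lit 152) (nat_lit 2387450551) (nat_lit 27) (nat_lit 4) (nat_lit 29) (nat_lit 5) (nat_lit 29) (nat_lit 4) (nat_lit 338) (nat_lit 233) (nat_lit 209)))))) (XT.nd (nat_lit 546) (nat_lit 380) (nat_lit 0) (XT.nd (nat_lit 234) (nat_lit 228) (nat_lit 0) (XT.nd (nat_lit 78) (nat_lit 76) (nat_lit 0) (XT.lf (nat_lit 0) (nat_lit 1118417964) (nat_lit 228) (nat_lit 9372977957) (nat_lit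 76) (nat_lit 6067099941) (nat_lit 26) (nat_lit 5) (nat_lit 29) (nat_lit 5) (nat_lit 27) (nat_lit 4) (nat_lit 339) (nat_lit 233) (nat_lit 208)) (XT.nd (nat_lit 78) (nat_lit 76) (nat_lit 0) (XT.lf (nat_lit 0) (nat_lit 4621471521) (nat_lit 228) (nat_lit 2571830453) (nat_lit 76) (nat_lit 9735895580) (nat_lit 26) (nat_lit 5) (nat_lit 29) (nat_lit 5) (nat_lit 27) (nat_lit 4) (nat_lit 340) (nat_lit 233) (nat_lit 207)) (XT.lf (nat_lit 0) (nat_lit 4419663682) (nat_lit 76) (nat_lit 3794179629) (nat_lit 152) (nat_lit 9097685391) (nat_lit 25) (nat_lit 5) (nat_lit 26) (nat_lit 5) (nat_lit 27) (nat_lit 4) (nat_lit 341) (nat_lit 233) (nat_lit 206)))) (XT.nd (nat_lit 156) (nat_lit 76) (nat_lit 0) (XT.nd (nat_lit 78) (nat_lit 152) (nat_lit 0) (XT.lf (nat_lit 0) (nat_lit 11574671010) (nat_lit 76) (nat_lit 307773451) (nat_lit 152) (nat_lit 5823865756) (nat_lit 25) (nat_lit 5) (nat_lit 26) (nat_lit 5) (nat_lit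 27) (nat_lit 4) (nat_lit 342) (nat_lit 233) (nat_lit 205)) (XT.lf (nat_lit 0) (nat_lit 716421877) (nat_lit 152) (nat_lit 14926904960) (nat_lit 152) (nat_lit 2470174831) (nat_lit 23) (nat_lit 4) (nat_lit 25) (nat_lit 5) (nat_lit 25) (nat_lit 4) (nat_lit 343) (nat_lit 233) (nat_lit 204))) (XT.nd (nat_lit 78) (nat_lit 0) (nat_lit 0) (XT.lf (nat_lit 0) (nat_lit 974406298) (nat_lit 228) (nat_lit 10746138246) (nat_lit 76) (nat_lit 6811827297) (nat_lit 22) (nat_lit 5) (nat_lit 25) (nat_lit 5) (nat_lit 23) (nat_lit 4) (nat_lit 344) (nat_lit 233) (nat_lit 203)) (XT.lf (nat_lit 0) (nat_lit 4418216110) (nat_lit 228) (nat_lit 4014867340) (nat_lit 76) (nat_lit 10531655142) (nat_lit 22) (nat_lit 5) (nat_lit 25) (nat_lit 5) (nat_lit 23) (nat_lit 4) (nat_lit 345) (nat_lit 233) (nat_lit 202))))) (XT.nd (nat_lit 234) (nat_lit 304) (nat_lit 0) (XT.nd (nat_lit 78) (nat_lit 0) (nat_lit 0) (XT.lf (nat_lit 0) (nat_lit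 2882609544) (nat_lit 76) (nat_lit 5057565628) (nat_lit 152) (nat_lit 11470685609) (nat_lit 21) (nat_lit 5) (nat_lit 22) (nat_lit 5) (nat_lit 23) (nat_lit 4) (nat_lit 346) (nat_lit 233) (nat_lit 201)) (XT.nd (nat_lit 78) (nat_lit 0) (nat_lit 0) (XT.lf (nat_lit 0) (nat_lit 9978231124) (nat_lit 76) (nat_lit 1577894232) (nat_lit 152) (nat_lit 8314619934) (nat_lit 21) (nat_lit 5) (nat_lit 22) (nat_lit 5) (nat_lit 23) (nat_lit 4) (nat_lit 347) (nat_lit 233) (nat_lit 200)) (XT.lf (nat_lit 0) (nat_lit 15248786528) (nat_lit 152) (nat_lit 3166602822) (nat_lit 0) (nat_lit 1930017800) (nat_lit 21) (nat_lit 5) (nat_lit 23) (nat_lit 4) (nat_lit 21) (nat_lit 4) (nat_lit 348) (nat_lit 233) (nat_lit 199)))) (XT.nd (nat_lit 156) (nat_lit 76) (nat_lit 0) (XT.nd (nat_lit 78) (nat_lit 76) (nat_lit 0) (XT.lf (nat_lit 0) (nat_lit 3731270436) (nat_lit 152) (nat_lit 15322881995) (nat_lit 152) (nat_lit 1780125672) (nat_lit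 19) (nat_lit 4) (nat_lit 21) (nat_lit 5) (nat_lit 21) (nat_lit 4) (nat_lit 349) (nat_lit 233) (nat_lit 198)) (XT.lf (nat_lit 0) (nat_lit 1586775711) (nat_lit 228) (nat_lit 10539065312) (nat_lit 76) (nat_lit 9212042849) (nat_lit 18) (nat_lit 5) (nat_lit 21) (nat_lit 5) (nat_lit 19) (nat_lit 4) (nat_lit 350) (nat_lit 233) (nat_lit 197))) (XT.nd (nat_lit 78) (nat_lit 76) (nat_lit 0) (XT.lf (nat_lit 0) (nat_lit 4970886060) (nat_lit 228) (nat_lit 3880451096) (nat_lit 76) (nat_lit 13006197181) (nat_lit 18) (nat_lit 5) (nat_lit 21) (nat_lit 5) (nat_lit 19) (nat_lit 4) (nat_lit 351) (nat_lit 233) (nat_lit 196)) (XT.lf (nat_lit 0) (nat_lit 2953396244) (nat_lit 76) (nat_lit 5484892634) (nat_lit 152) (nat_lit 13955056337) (nat_lit 17) (nat_lit 5) (nat_lit 18) (nat_lit 5) (nat_lit 19) (nat_lit 4) (nat_lit 352) (nat_lit 233) (nat_lit 195))))))))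
noncomputable def xc44 : XT := (XT.nd (nat_lit 2028) (nat_lit 304) (nat_lit 0) (XT.nd (nat_lit 1014) (nat_lit 304) (nat_lit 0) (XT.nd (nat_lit 468) (nat_lit 152) (nat_lit 0) (XT.nd (nat_lit 234) (nat_lit 76) (nat_lit 0) (XT.nd (nat_lit 78) (nat_lit 152) (nat_lit 0) (XT.lf (nat_lit 0) (nat_lit 9990453204) (nat_lit 76) (nat_lit 2012400716) (nat_lit 152) (nat_lit 10942605567) (nat_lit 17) (nat_lit 5) (nat_lit 18) (nat_lit 5) (nat_lit 19) (nat_lit 4) (nat_lit 353) (nat_lit 233) (nat_lit 194)) (XT.nd (nat_lit 78) (nat_lit 152) (nat_lit 0) (XT.lf (nat_lit 0) (nat_lit 15644359400) (nat_lit 152) (nat_lit 6370567993) (nat_lit 0) (nat_lit 1500132289) (nat_lit 17) (nat_lit 5) (nat_lit 19) (nat_lit 4) (nat_lit 17) (nat_lit 4) (nat_lit 354) (nat_lit 233) (nat_lit 193)) (XT.lf (nat_lit 0) (nat_lit 320038355) (nat_lit 152) (nat_lit 19054351301) (nat_lit 152) (nat_lit 4728001778) (nat_lit 15) (nat_lit 4) (nat_lit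 17) (nat_lit 5) (nat_lit 17) (nat_lit 4) (nat_lit 355) (nat_lit 233) (nat_lit 192)))) (XT.nd (nat_lit 78) (nat_lit 76) (nat_lit 0) (XT.lf (nat_lit 0) (nat_lit 7265029482) (nat_lit 152) (nat_lit 15972434036) (nat_lit 152) (nat_lit 1469266637) (nat_lit 15) (nat_lit 4) (nat_lit 17) (nat_lit 5) (nat_lit 17) (nat_lit 4) (nat_lit 356) (nat_lit 233) (nat_lit 191)) (XT.nd (nat_lit 78) (nat_lit 0) (nat_lit 0) (XT.lf (nat_lit 0) (nat_lit 1808038814) (nat_lit 228) (nat_lit 11004516447) (nat_lit 76) (nat_lit 12517390571) (nat_lit 14) (nat_lit 5) (nat_lit 17) (nat_lit 5) (nat_lit 15) (nat_lit 4) (nat_lit 357) (nat_lit 233) (nat_lit 190)) (XT.lf (nat_lit 0) (nat_lit 5113001481) (nat_lit 228) (nat_lit 4462110040) (nat_lit 76) (nat_lit 16397563469) (nat_lit 14) (nat_lit 5) (nat_lit 17) (nat_lit 5) (nat_lit 15) (nat_lit 4) (nat_lit 358) (nat_lit 233) (nat_lit 189))))) (XT.nd (nat_lit 234) (nat_lit 76) (nat_lit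 0) (XT.nd (nat_lit 78) (nat_lit 0) (nat_lit 0) (XT.lf (nat_lit 0) (nat_lit 2249249665) (nat_lit 76) (nat_lit 6249551377) (nat_lit 152) (nat_lit 18136453264) (nat_lit 13) (nat_lit 5) (nat_lit 14) (nat_lit 5) (nat_lit 15) (nat_lit 4) (nat_lit 359) (nat_lit 233) (nat_lit 188)) (XT.nd (nat_lit 78) (nat_lit 0) (nat_lit 0) (XT.lf (nat_lit 0) (nat_lit 9182907324) (nat_lit 76) (nat_lit 2808877980) (nat_lit 152) (nat_lit 15325775750) (nat_lit 13) (nat_lit 5) (nat_lit 14) (nat_lit 5) (nat_lit 15) (nat_lit 4) (nat_lit 360) (nat_lit 233) (nat_lit 187)) (XT.lf (nat_lit 0) (nat_lit 15558035723) (nat_lit 152) (nat_lit 11772162590) (nat_lit 0) (nat_lit 691102230) (nat_lit 13) (nat_lit 5) (nat_lit 15) (nat_lit 4) (nat_lit 13) (nat_lit 4) (nat_lit 361) (nat_lit 233) (nat_lit 186)))) (XT.nd (nat_lit 156) (nat_lit 0) (nat_lit 0) (XT.nd (nat_lit 78) (nat_lit 76) (nat_lit 0) (XT.lf (nat_lit 0) (nat_lit 19221619482)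 (nat_lit 152) (nat_lit 5313922804) (nat_lit 0) (nat_lit 4210916875) (nat_lit 13) (nat_lit 5) (nat_lit 15) (nat_lit 4) (nat_lit 13) (nat_lit 4) (nat_lit 362) (nat_lit 233) (nat_lit 185)) (XT.lf (nat_lit 0) (nat_lit 1298038815) (nat_lit 76) (nat_lit 21673175846) (nat_lit 76) (nat_lit 6522891574) (nat_lit 12) (nat_lit 4) (nat_lit 13) (nat_lit 5) (nat_lit 13) (nat_lit 4) (nat_lit 363) (nat_lit 233) (nat_lit 184))) (XT.nd (nat_lit 78) (nat_lit 0) (nat_lit 0) (XT.lf (nat_lit 0) (nat_lit 8152575453) (nat_lit 76) (nat_lit 18698446163) (nat_lit 76) (nat_lit 3412645712) (nat_lit 12) (nat_lit 4) (nat_lit 13) (nat_lit 5) (nat_lit 13) (nat_lit 4) (nat_lit 364) (nat_lit 233) (nat_lit 183)) (XT.lf (nat_lit 0) (nat_lit 15149919026) (nat_lit 76) (nat_lit 15662414161) (nat_lit 76) (nat_lit 245044604) (nat_lit 12) (nat_lit 4) (nat_lit 13) (nat_lit 5) (nat_lit 13) (nat_lit 4) (nat_lit 365) (nat_lit 233) (nat_lit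 182)))))) (XT.nd (nat_lit 468) (nat_lit 152) (nat_lit 0) (XT.nd (nat_lit 234) (nat_lit 0) (nat_lit 0) (XT.nd (nat_lit 78) (nat_lit 76) (nat_lit 0) (XT.lf (nat_lit 0) (nat_lit 2924476734) (nat_lit 152) (nat_lit 9608418780) (nat_lit 76) (nat_lit 19342175501) (nat_lit 11) (nat_lit 5) (nat_lit 13) (nat_lit 5) (nat_lit 12) (nat_lit 4) (nat_lit 366) (nat_lit 233) (nat_lit 181)) (XT.nd (nat_lit 78) (nat_lit 76) (nat_lit 0) (XT.lf (nat_lit 0) (nat_lit 6150931513) (nat_lit 152) (nat_lit 3182732080) (nat_lit 76) (nat_lit 23384569975) (nat_lit 11) (nat_lit 5) (nat_lit 13) (nat_lit 5) (nat_lit 12) (nat_lit 4) (nat_lit 367) (nat_lit 233) (nat_lit 180)) (XT.lf (nat_lit 0) (nat_lit 3444791827) (nat_lit 76) (nat_lit 6030242286) (nat_lit 152) (nat_lit 24111645340) (nat_lit 10) (nat_lit 5) (nat_lit 11) (nat_lit 5) (nat_lit 12) (nat_lit 4) (nat_lit 368) (nat_lit 233) (nat_lit 179)))) (XT.nd (nat_lit 78) (nat_lit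 0) (nat_lit 0) (XT.lf (nat_lit 0) (nat_lit 10278800783) (nat_lit 76) (nat_lit 2620325153) (nat_lit 152) (nat_lit 21582058465) (nat_lit 10) (nat_lit 5) (nat_lit 11) (nat_lit 5) (nat_lit 12) (nat_lit 4) (nat_lit 369) (nat_lit 233) (nat_lit 178)) (XT.nd (nat_lit 78) (nat_lit 0) (nat_lit 0) (XT.lf (nat_lit 0) (nat_lit 16403329097) (nat_lit 152) (nat_lit 18149875916) (nat_lit 0) (nat_lit 850011101) (nat_lit 10) (nat_lit 5) (nat_lit 12) (nat_lit 4) (nat_lit 10) (nat_lit 4) (nat_lit 370) (nat_lit 233) (nat_lit 177)) (XT.lf (nat_lit 0) (nat_lit 20008325654) (nat_lit 152) (nat_lit 11996696057) (nat_lit 0) (nat_lit 4348029935) (nat_lit 10) (nat_lit 5) (nat_lit 12) (nat_lit 4) (nat_lit 10) (nat_lit 4) (nat_lit 371) (nat_lit 233) (nat_lit 176))))) (XT.nd (nat_lit 234) (nat_lit 76) (nat_lit 0) (XT.nd (nat_lit 78) (nat_lit 76) (nat_lit 0) (XT.lf (nat_lit 0) (nat_lit 23692077437) (nat_lit 152) (nat_lit 5712279307)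 (nat_lit 0) (nat_lit 7927919851) (nat_lit 10) (nat_lit 5) (nat_lit 12) (nat_lit 4) (nat_lit 10) (nat_lit 4) (nat_lit 372) (nat_lit 233) (nat_lit 175)) (XT.nd (nat_lit 78) (nat_lit 0) (nat_lit 0) (XT.lf (nat_lit 0) (nat_lit 722973384) (nat_lit 76) (nat_lit 26741779536) (nat_lit 76) (nat_lit 10876785186) (nat_lit 9) (nat_lit 4) (nat_lit 10) (nat_lit 5) (nat_lit 10) (nat_lit 4) (nat_lit 373) (nat_lit 233) (nat_lit 174)) (XT.lf (nat_lit 0) (nat_lit 7417083294) (nat_lit 76) (nat_lit 23963007804) (nat_lit 76) (nat_lit 8000113683) (nat_lit 9) (nat_lit 4) (nat_lit 10) (nat_lit 5) (nat_lit 10) (nat_lit 4) (nat_lit 374) (nat_lit 233) (nat_lit 173)))) (XT.nd (nat_lit 156) (nat_lit 76) (nat_lit 0) (XT.nd (nat_lit 78) (nat_lit 0) (nat_lit 0) (XT.lf (nat_lit 0) (nat_lit 14262214086) (nat_lit 76) (nat_lit 21123296317) (nat_lit 76) (nat_lit 5065353875) (nat_lit 9) (nat_lit 4) (nat_lit 10) (nat_lit 5) (nat_lit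 10) (nat_lit 4) (nat_lit 375) (nat_lit 233) (nat_lit 172)) (XT.lf (nat_lit 0) (nat_lit 21264346942) (nat_lit 76) (nat_lit 18220163773) (nat_lit 76) (nat_lit 2069941407) (nat_lit 9) (nat_lit 4) (nat_lit 10) (nat_lit 5) (nat_lit 10) (nat_lit 4) (nat_lit 376) (nat_lit 233) (nat_lit 171))) (XT.nd (nat_lit 78) (nat_lit 0) (nat_lit 0) (XT.lf (nat_lit 0) (nat_lit 969447169) (nat_lit 152) (nat_lit 14271836770) (nat_lit 76) (nat_lit 27450363544) (nat_lit 8) (nat_lit 5) (nat_lit 10) (nat_lit 5) (nat_lit 9) (nat_lit 4) (nat_lit 377) (nat_lit 233) (nat_lit 170)) (XT.lf (nat_lit 0) (nat_lit 4033099600) (nat_lit 152) (nat_lit 8139605014) (nat_lit 76) (nat_lit 31690408852) (nat_lit 8) (nat_lit 5) (nat_lit 10) (nat_lit 5) (nat_lit 9) (nat_lit 4) (nat_lit 378) (nat_lit 233) (nat_lit 169))))))) (XT.nd (nat_lit 1014) (nat_lit 152) (nat_lit 0) (XT.nd (nat_lit 468) (nat_lit 76) (nat_lit 0) (XT.nd (nat_lit 234) (nat_lit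 0) (nat_lit 0) (XT.nd (nat_lit 78) (nat_lit 76) (nat_lit 0) (XT.lf (nat_lit 0) (nat_lit 7164084875) (nat_lit 152) (nat_lit 1868154108) (nat_lit 76) (nat_lit 36038231623) (nat_lit 8) (nat_lit 5) (nat_lit 10) (nat_lit 5) (nat_lit 9) (nat_lit 4) (nat_lit 379) (nat_lit 233) (nat_lit 168)) (XT.nd (nat_lit 78) (nat_lit 0) (nat_lit 0) (XT.lf (nat_lit 0) (nat_lit 4638509891) (nat_lit 76) (nat_lit 5771217110) (nat_lit 152) (nat_lit 35903709229) (nat_lit 7) (nat_lit 5) (nat_lit 8) (nat_lit 5) (nat_lit 9) (nat_lit 4) (nat_lit 380) (nat_lit 233) (nat_lit 167)) (XT.lf (nat_lit 0) (nat_lit 11335650595) (nat_lit 76) (nat_lit 2412373045) (nat_lit 152) (nat_lit 33845817935) (nat_lit 7) (nat_lit 5) (nat_lit 8) (nat_lit 5) (nat_lit 9) (nat_lit 4) (nat_lit 381) (nat_lit 233) (nat_lit 166)))) (XT.nd (nat_lit 78) (nat_lit 0) (nat_lit 0) (XT.lf (nat_lit 0) (nat_lit 17173461772) (nat_lit 152) (nat_lit 30731300212)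 (nat_lit 0) (nat_lit 1008296356) (nat_lit 7) (nat_lit 5) (nat_lit 9) (nat_lit 4) (nat_lit 7) (nat_lit 4) (nat_lit 382) (nat_lit 233) (nat_lit 165)) (XT.nd (nat_lit 78) (nat_lit 0) (nat_lit 0) (XT.lf (nat_lit 0) (nat_lit 20703145908) (nat_lit 152) (nat_lit 25103536124) (nat_lit 0) (nat_lit 4465133868) (nat_lit 7) (nat_lit 5) (nat_lit 9) (nat_lit 4) (nat_lit 7) (nat_lit 4) (nat_lit 383) (nat_lit 233) (nat_lit 164)) (XT.lf (nat_lit 0) (nat_lit 24316971031) (nat_lit 152) (nat_lit 19346792045) (nat_lit 0) (nat_lit 8008234114) (nat_lit 7) (nat_lit 5) (nat_lit 9) (nat_lit 4) (nat_lit 7) (nat_lit 4) (nat_lit 384) (nat_lit 233) (nat_lit 163))))) (XT.nd (nat_lit 234) (nat_lit 76) (nat_lit 0) (XT.nd (nat_lit 78) (nat_lit 0) (nat_lit 0) (XT.lf (nat_lit 0) (nat_lit 28018094854) (nat_lit 152) (nat_lit 13456037812) (nat_lit 0) (nat_lit 11640693007) (nat_lit 7) (nat_lit 5) (nat_lit 9) (nat_lit 4) (nat_lit 7)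 (nat_lit 4) (nat_lit 385) (nat_lit 233) (nat_lit 162)) (XT.nd (nat_lit 78) (nat_lit 0) (nat_lit 0) (XT.lf (nat_lit 0) (nat_lit 31809751368) (nat_lit 152) (nat_lit 7426126162) (nat_lit 0) (nat_lit 15365684541) (nat_lit 7) (nat_lit 5) (nat_lit 9) (nat_lit 4) (nat_lit 7) (nat_lit 4) (nat_lit 386) (nat_lit 233) (nat_lit 161)) (XT.lf (nat_lit 0) (nat_lit 35695253671) (nat_lit 152) (nat_lit 1251788242) (nat_lit 0) (nat_lit 19186463562) (nat_lit 7) (nat_lit 5) (nat_lit 9) (nat_lit 4) (nat_lit 7) (nat_lit 4) (nat_lit 387) (nat_lit 233) (nat_lit 160)))) (XT.nd (nat_lit 156) (nat_lit 0) (nat_lit 0) (XT.nd (nat_lit 78) (nat_lit 0) (nat_lit 0) (XT.lf (nat_lit 0) (nat_lit 5173321129) (nat_lit 76) (nat_lit 34554404861) (nat_lit 76) (nat_lit 17982776614) (nat_lit 6) (nat_lit 4) (nat_lit 7) (nat_lit 5) (nat_lit 7) (nat_lit 4) (nat_lit 388) (nat_lit 233) (nat_lit 159)) (XT.lf (nat_lit 0) (nat_lit 11781782545)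 (nat_lit 76) (nat_lit 32092932165) (nat_lit 76) (nat_lit 15460296017) (nat_lit 6) (nat_lit 4) (nat_lit 7) (nat_lit 5) (nat_lit 7) (nat_lit 4) (nat_lit 389) (nat_lit 233) (nat_lit 158))) (XT.nd (nat_lit 78) (nat_lit 0) (nat_lit 0) (XT.lf (nat_lit 0) (nat_lit 18554457348) (nat_lit 76) (nat_lit 29573113632) (nat_lit 76) (nat_lit 12881246513) (nat_lit 6) (nat_lit 4) (nat_lit 7) (nat_lit 5) (nat_lit 7) (nat_lit 4) (nat_lit 390) (nat_lit 233) (nat_lit 157)) (XT.lf (nat_lit 0) (nat_lit 25497263409) (nat_lit 76) (nat_lit 26992747479) (nat_lit 76) (nat_lit 10243374562) (nat_lit 6) (nat_lit 4) (nat_lit 7) (nat_lit 5) (nat_lit 7) (nat_lit 4) (nat_lit 391) (nat_lit 233) (nat_lit 156)))))) (XT.nd (nat_lit 468) (nat_lit 76) (nat_lit 0) (XT.nd (nat_lit 234) (nat_lit 76) (nat_lit 0) (XT.nd (nat_lit 78) (nat_lit 0) (nat_lit 0) (XT.lf (nat_lit 0) (nat_lit 32616267259) (nat_lit 76) (nat_lit 24349579016) (nat_lit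 76) (nat_lit 7544375228) (nat_lit 6) (nat_lit 4) (nat_lit 7) (nat_lit 5) (nat_lit 7) (nat_lit 4) (nat_lit 392) (nat_lit 233) (nat_lit 155)) (XT.nd (nat_lit 78) (nat_lit 0) (nat_lit 0) (XT.lf (nat_lit 0) (nat_lit 39917689384) (nat_lit 76) (nat_lit 21641298680) (nat_lit 76) (nat_lit 4781890163) (nat_lit 6) (nat_lit 4) (nat_lit 7) (nat_lit 5) (nat_lit 7) (nat_lit 4) (nat_lit 393) (nat_lit 233) (nat_lit 154)) (XT.lf (nat_lit 0) (nat_lit 47407909670) (nat_lit 76) (nat_lit 18865540012) (nat_lit 76) (nat_lit 1953505543) (nat_lit 6) (nat_lit 4) (nat_lit 7) (nat_lit 5) (nat_lit 7) (nat_lit 4) (nat_lit 394) (nat_lit 233) (nat_lit 153)))) (XT.nd (nat_lit 78) (nat_lit 0) (nat_lit 0) (XT.lf (nat_lit 0) (nat_lit 924843827) (nat_lit 152) (nat_lit 15085694654) (nat_lit 76) (nat_lit 54159290032) (nat_lit 5) (nat_lit 5) (nat_lit 7) (nat_lit 5) (nat_lit 6) (nat_lit 4) (nat_lit 395) (nat_lit 233) (nat_lit 152))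 (XT.nd (nat_lit 78) (nat_lit 0) (nat_lit 0) (XT.lf (nat_lit 0) (nat_lit 3834591818) (nat_lit 152) (nat_lit 9228511240) (nat_lit 76) (nat_lit 59107781144) (nat_lit 5) (nat_lit 5) (nat_lit 7) (nat_lit 5) (nat_lit 6) (nat_lit 4) (nat_lit 396) (nat_lit 233) (nat_lit 151)) (XT.lf (nat_lit 0) (nat_lit 6816400854) (nat_lit 152) (nat_lit 3223599096) (nat_lit 76) (nat_lit 64192434185) (nat_lit 5) (nat_lit 5) (nat_lit 7) (nat_lit 5) (nat_lit 6) (nat_lit 4) (nat_lit 397) (nat_lit 233) (nat_lit 150))))) (XT.nd (nat_lit 234) (nat_lit 0) (nat_lit 0) (XT.nd (nat_lit 78) (nat_lit 0) (nat_lit 0) (XT.lf (nat_lit 0) (nat_lit 2992686888) (nat_lit 76) (nat_lit 6908957049) (nat_lit 152) (nat_lit 66453772704) (nat_lit 4) (nat_lit 5) (nat_lit 5) (nat_lit 5) (nat_lit 6) (nat_lit 4) (nat_lit 398) (nat_lit 233) (nat_lit 149)) (XT.nd (nat_lit 78) (nat_lit 0) (nat_lit 0) (XT.lf (nat_lit 0) (nat_lit 9434636839) (nat_lit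 76) (nat_lit 3662743827) (nat_lit 152) (nat_lit 65444175176) (nat_lit 4) (nat_lit 5) (nat_lit 5) (nat_lit 5) (nat_lit 6) (nat_lit 4) (nat_lit 399) (nat_lit 233) (nat_lit 148)) (XT.lf (nat_lit 0) (nat_lit 16043723701) (nat_lit 76) (nat_lit 331075816) (nat_lit 152) (nat_lit 64418910555) (nat_lit 4) (nat_lit 5) (nat_lit 5) (nat_lit 5) (nat_lit 6) (nat_lit 4) (nat_lit 400) (nat_lit 233) (nat_lit 147)))) (XT.nd (nat_lit 156) (nat_lit 0) (nat_lit 0) (XT.nd (nat_lit 78) (nat_lit 0) (nat_lit 0) (XT.lf (nat_lit 0) (nat_lit 19766457210) (nat_lit 152) (nat_lit 60317817787) (nat_lit 0) (nat_lit 3028681449) (nat_lit 4) (nat_lit 5) (nat_lit 6) (nat_lit 4) (nat_lit 4) (nat_lit 4) (nat_lit 401) (nat_lit 233) (nat_lit 146)) (XT.lf (nat_lit 0) (nat_lit 23249659085) (nat_lit 152) (nat_lit 55780882235) (nat_lit 0) (nat_lit 6471549915) (nat_lit 4) (nat_lit 5) (nat_lit 6) (nat_lit 4) (nat_lit 4) (nat_lit 4) (nat_lit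 402) (nat_lit 233) (nat_lit 145))) (XT.nd (nat_lit 78) (nat_lit 0) (nat_lit 0) (XT.lf (nat_lit 0) (nat_lit 26824266215) (nat_lit 152) (nat_lit 51132032901) (nat_lit 0) (nat_lit 10006998394) (nat_lit 4) (nat_lit 5) (nat_lit 6) (nat_lit 4) (nat_lit 4) (nat_lit 4) (nat_lit 403) (nat_lit 233) (nat_lit 144)) (XT.lf (nat_lit 0) (nat_lit 30493402041) (nat_lit 152) (nat_lit 46367207683) (nat_lit 0) (nat_lit 13638116114) (nat_lit 4) (nat_lit 5) (nat_lit 6) (nat_lit 4) (nat_lit 4) (nat_lit 4) (nat_lit 404) (nat_lit 233) (nat_lit 143))))))))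
noncomputable def xc45 : XT := (XT.nd (nat_lit 35100) (nat_lit 0) (nat_lit 684) (XT.nd (nat_lit 34086) (nat_lit 0) (nat_lit 2280) (XT.nd (nat_lit 33540) (nat_lit 0) (nat_lit 3724) (XT.nd (nat_lit 234) (nat_lit 0) (nat_lit 0) (XT.nd (nat_lit 78) (nat_lit 0) (nat_lit 0) (XT.lf (nat_lit 0) (nat_lit 34260272605) (nat_lit 152) (nat_lit 41482243142) (nat_lit 0) (nat_lit 17368075895) (nat_lit 4) (nat_lit 5) (nat_lit 6) (nat_lit 4) (nat_lit 4) (nat_lit 4) (nat_lit 405) (nat_lit 233) (nat_lit 142)) (XT.nd (nat_lit 78) (nat_lit 0) (nat_lit 0) (XT.lf (nat_lit 0) (nat_lit 38128169348) (nat_lit 152) (nat_lit 36472870862) (nat_lit 0) (nat_lit 21200136925) (nat_lit 4) (nat_lit 5) (nat_lit 6) (nat_lit 4) (nat_lit 4) (nat_lit 4) (nat_lit 406) (nat_lit 233) (nat_lit 141)) (XT.lf (nat_lit 0) (nat_lit 42100471984) (nat_lit 152) (nat_lit 31334713721) (nat_lit 0) (nat_lit 25137647608) (nat_lit 4) (nat_lit 5) (nat_lit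 6) (nat_lit 4) (nat_lit 4) (nat_lit 4) (nat_lit 407) (nat_lit 233) (nat_lit 140)))) (XT.nd (nat_lit 33150) (nat_lit 0) (nat_lit 4864) (XT.lf (nat_lit 0) (nat_lit 46180651458) (nat_lit 152) (nat_lit 26063282069) (nat_lit 0) (nat_lit 29184048487) (nat_lit 4) (nat_lit 5) (nat_lit 6) (nat_lit 4) (nat_lit 4) (nat_lit 4) (nat_lit 408) (nat_lit 233) (nat_lit 139)) (XT.nd (nat_lit 78) (nat_lit 304) (nat_lit 0) (XT.lf (nat_lit 0) (nat_lit 1348890937) (nat_lit 304) (nat_lit 2269078713) (nat_lit 0) (nat_lit 1348890937) (nat_lit 72) (nat_lit 5) (nat_lit 76) (nat_lit 4) (nat_lit 72) (nat_lit 4) (nat_lit 312) (nat_lit 234) (nat_lit 234)) (XT.lf (nat_lit 0) (nat_lit 2074928657) (nat_lit 304) (nat_lit 4418664565) (nat_lit 304) (nat_lit 3596304798) (nat_lit 68) (nat_lit 4) (nat_lit 72) (nat_lit 5) (nat_lit 72) (nat_lit 4) (nat_lit 313) (nat_lit 234) (nat_lit 233))))) (XT.nd (nat_lit 234) (nat_lit 608) (nat_lit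 0) (XT.nd (nat_lit 78) (nat_lit 456) (nat_lit 0) (XT.lf (nat_lit 0) (nat_lit 105814962) (nat_lit 380) (nat_lit 1405962932) (nat_lit 76) (nat_lit 8740343499) (nat_lit 67) (nat_lit 5) (nat_lit 72) (nat_lit 5) (nat_lit 68) (nat_lit 4) (nat_lit 314) (nat_lit 234) (nat_lit 232)) (XT.nd (nat_lit 78) (nat_lit 228) (nat_lit 0) (XT.lf (nat_lit 0) (nat_lit 3825356796) (nat_lit 304) (nat_lit 5094297275) (nat_lit 0) (nat_lit 1499220622) (nat_lit 64) (nat_lit 5) (nat_lit 68) (nat_lit 4) (nat_lit 64) (nat_lit 4) (nat_lit 315) (nat_lit 234) (nat_lit 231)) (XT.lf (nat_lit 0) (nat_lit 1580207474) (nat_lit 228) (nat_lit 6034281593) (nat_lit 228) (nat_lit 2977489417) (nat_lit 61) (nat_lit 4) (nat_lit 64) (nat_lit 5) (nat_lit 64) (nat_lit 4) (nat_lit 316) (nat_lit 234) (nat_lit 230)))) (XT.nd (nat_lit 156) (nat_lit 304) (nat_lit 0) (XT.nd (nat_lit 78) (nat_lit 228) (nat_lit 0) (XT.lf (nat_lit 0) (nat_lit 698245838)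 (nat_lit 304) (nat_lit 2348727880) (nat_lit 76) (nat_lit 7724195119) (nat_lit 60) (nat_lit 5) (nat_lit 64) (nat_lit 5) (nat_lit 61) (nat_lit 4) (nat_lit 317) (nat_lit 234) (nat_lit 229)) (XT.lf (nat_lit 0) (nat_lit 4384061287) (nat_lit 304) (nat_lit 6513145389) (nat_lit 0) (nat_lit 58934790) (nat_lit 57) (nat_lit 5) (nat_lit 61) (nat_lit 4) (nat_lit 57) (nat_lit 4) (nat_lit 318) (nat_lit 234) (nat_lit 228))) (XT.nd (nat_lit 78) (nat_lit 76) (nat_lit 0) (XT.lf (nat_lit 0) (nat_lit 185158318) (nat_lit 228) (nat_lit 7968348193) (nat_lit 228) (nat_lit 2994043302) (nat_lit 54) (nat_lit 4) (nat_lit 57) (nat_lit 5) (nat_lit 57) (nat_lit 4) (nat_lit 319) (nat_lit 234) (nat_lit 227)) (XT.lf (nat_lit 0) (nat_lit 661725304) (nat_lit 304) (nat_lit 4261272806) (nat_lit 76) (nat_lit 6422060215) (nat_lit 53) (nat_lit 5) (nat_lit 57) (nat_lit 5) (nat_lit 54) (nat_lit 4) (nat_lit 320) (nat_lit 234) (nat_lit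 226)))))) (XT.nd (nat_lit 468) (nat_lit 608) (nat_lit 0) (XT.nd (nat_lit 234) (nat_lit 456) (nat_lit 0) (XT.nd (nat_lit 78) (nat_lit 228) (nat_lit 0) (XT.lf (nat_lit 0) (nat_lit 2535297550) (nat_lit 152) (nat_lit 1775926894) (nat_lit 228) (nat_lit 7238122850) (nat_lit 51) (nat_lit 5) (nat_lit 53) (nat_lit 5) (nat_lit 54) (nat_lit 4) (nat_lit 321) (nat_lit 234) (nat_lit 225)) (XT.nd (nat_lit 78) (nat_lit 228) (nat_lit 0) (XT.lf (nat_lit 0) (nat_lit 8048322884) (nat_lit 228) (nat_lit 2276057126) (nat_lit 0) (nat_lit 1436110974) (nat_lit 51) (nat_lit 5) (nat_lit 54) (nat_lit 4) (nat_lit 51) (nat_lit 4) (nat_lit 322) (nat_lit 234) (nat_lit 224)) (XT.lf (nat_lit 0) (nat_lit 4614017082) (nat_lit 228) (nat_lit 7268336832) (nat_lit 228) (nat_lit 96137938) (nat_lit 48) (nat_lit 4) (nat_lit 51) (nat_lit 5) (nat_lit 51) (nat_lit 4) (nat_lit 323) (nat_lit 234) (nat_lit 223)))) (XT.nd (nat_lit 78) (nat_lit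 380) (nat_lit 0) (XT.lf (nat_lit 0) (nat_lit 3503928185) (nat_lit 304) (nat_lit 602901362) (nat_lit 76) (nat_lit 8096829710) (nat_lit 47) (nat_lit 5) (nat_lit 51) (nat_lit 5) (nat_lit 48) (nat_lit 4) (nat_lit 324) (nat_lit 234) (nat_lit 222)) (XT.nd (nat_lit 78) (nat_lit 228) (nat_lit 0) (XT.lf (nat_lit 0) (nat_lit 6365457200) (nat_lit 152) (nat_lit 831180346) (nat_lit 228) (nat_lit 5239380107) (nat_lit 45) (nat_lit 5) (nat_lit 47) (nat_lit 5) (nat_lit 48) (nat_lit 4) (nat_lit 325) (nat_lit 234) (nat_lit 221)) (XT.lf (nat_lit 0) (nat_lit 750205703) (nat_lit 228) (nat_lit 10213718546) (nat_lit 228) (nat_lit 1712568605) (nat_lit 42) (nat_lit 4) (nat_lit 45) (nat_lit 5) (nat_lit 45) (nat_lit 4) (nat_lit 326) (nat_lit 234) (nat_lit 220))))) (XT.nd (nat_lit 234) (nat_lit 380) (nat_lit 0) (XT.nd (nat_lit 78) (nat_lit 152) (nat_lit 0) (XT.lf (nat_lit 0) (nat_lit 1878944910) (nat_lit 304) (nat_lit 5169941464)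 (nat_lit 76) (nat_lit 5874907791) (nat_lit 41) (nat_lit 5) (nat_lit 45) (nat_lit 5) (nat_lit 42) (nat_lit 4) (nat_lit 327) (nat_lit 234) (nat_lit 219)) (XT.nd (nat_lit 78) (nat_lit 0) (nat_lit 0) (XT.lf (nat_lit 0) (nat_lit 1688246864) (nat_lit 152) (nat_lit 3800140712) (nat_lit 228) (nat_lit 7691334963) (nat_lit 39) (nat_lit 5) (nat_lit 41) (nat_lit 5) (nat_lit 42) (nat_lit 4) (nat_lit 328) (nat_lit 234) (nat_lit 218)) (XT.lf (nat_lit 0) (nat_lit 8742469639) (nat_lit 152) (nat_lit 445200419) (nat_lit 228) (nat_lit 4256265261) (nat_lit 39) (nat_lit 5) (nat_lit 41) (nat_lit 5) (nat_lit 42) (nat_lit 4) (nat_lit 329) (nat_lit 234) (nat_lit 217)))) (XT.nd (nat_lit 156) (nat_lit 152) (nat_lit 0) (XT.nd (nat_lit 78) (nat_lit 76) (nat_lit 0) (XT.lf (nat_lit 0) (nat_lit 2192072712) (nat_lit 152) (nat_lit 10786855218) (nat_lit 152) (nat_lit 737768346) (nat_lit 37) (nat_lit 4) (nat_lit 39) (nat_lit 5)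 (nat_lit 39) (nat_lit 4) (nat_lit 330) (nat_lit 234) (nat_lit 216)) (XT.lf (nat_lit 0) (nat_lit 2813504469) (nat_lit 228) (nat_lit 4754355707) (nat_lit 76) (nat_lit 6429489993) (nat_lit 36) (nat_lit 5) (nat_lit 39) (nat_lit 5) (nat_lit 37) (nat_lit 4) (nat_lit 331) (nat_lit 234) (nat_lit 215))) (XT.nd (nat_lit 78) (nat_lit 0) (nat_lit 0) (XT.lf (nat_lit 0) (nat_lit 2142543806) (nat_lit 152) (nat_lit 4267732104) (nat_lit 228) (nat_lit 7877362276) (nat_lit 34) (nat_lit 5) (nat_lit 36) (nat_lit 5) (nat_lit 37) (nat_lit 4) (nat_lit 332) (nat_lit 234) (nat_lit 214)) (XT.lf (nat_lit 0) (nat_lit 9233917490) (nat_lit 152) (nat_lit 863125557) (nat_lit 228) (nat_lit 4490174954) (nat_lit 34) (nat_lit 5) (nat_lit 36) (nat_lit 5) (nat_lit 37) (nat_lit 4) (nat_lit 333) (nat_lit 234) (nat_lit 213))))))) (XT.nd (nat_lit 1014) (nat_lit 608) (nat_lit 0) (XT.nd (nat_lit 468) (nat_lit 380) (nat_lit 0) (XT.nd (nat_lit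 234) (nat_lit 228) (nat_lit 0) (XT.nd (nat_lit 78) (nat_lit 228) (nat_lit 0) (XT.lf (nat_lit 0) (nat_lit 1538613169) (nat_lit 152) (nat_lit 12331594598) (nat_lit 152) (nat_lit 1026348205) (nat_lit 32) (nat_lit 4) (nat_lit 34) (nat_lit 5) (nat_lit 34) (nat_lit 4) (nat_lit 334) (nat_lit 234) (nat_lit 212)) (XT.nd (nat_lit 78) (nat_lit 152) (nat_lit 0) (XT.lf (nat_lit 0) (nat_lit 2490706709) (nat_lit 228) (nat_lit 6608546109) (nat_lit 76) (nat_lit 6115263265) (nat_lit 31) (nat_lit 5) (nat_lit 34) (nat_lit 5) (nat_lit 32) (nat_lit 4) (nat_lit 335) (nat_lit 234) (nat_lit 211)) (XT.lf (nat_lit 0) (nat_lit 232360162) (nat_lit 152) (nat_lit 5800155240) (nat_lit 228) (nat_lit 9511039430) (nat_lit 29) (nat_lit 5) (nat_lit 31) (nat_lit 5) (nat_lit 32) (nat_lit 4) (nat_lit 336) (nat_lit 234) (nat_lit 210)))) (XT.nd (nat_lit 78) (nat_lit 228) (nat_lit 0) (XT.lf (nat_lit 0) (nat_lit 7309650484) (nat_lit 152)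 (nat_lit 2376112039) (nat_lit 228) (nat_lit 6196586318) (nat_lit 29) (nat_lit 5) (nat_lit 31) (nat_lit 5) (nat_lit 32) (nat_lit 4) (nat_lit 337) (nat_lit 234) (nat_lit 209)) (XT.nd (nat_lit 78) (nat_lit 228) (nat_lit 0) (XT.lf (nat_lit 0) (nat_lit 13399512252) (nat_lit 228) (nat_lit 1745813653) (nat_lit 0) (nat_lit 1087492082) (nat_lit 29) (nat_lit 5) (nat_lit 32) (nat_lit 4) (nat_lit 29) (nat_lit 4) (nat_lit 338) (nat_lit 234) (nat_lit 208)) (XT.lf (nat_lit 0) (nat_lit 634418317) (nat_lit 228) (nat_lit 11334202203) (nat_lit 76) (nat_lit 4624559348) (nat_lit 26) (nat_lit 5) (nat_lit 29) (nat_lit 5) (nat_lit 27) (nat_lit 4) (nat_lit 339) (nat_lit 234) (nat_lit 207))))) (XT.nd (nat_lit 234) (nat_lit 304) (nat_lit 0) (XT.nd (nat_lit 78) (nat_lit 76) (nat_lit 0) (XT.lf (nat_lit 0) (nat_lit 4108773408) (nat_lit 228) (nat_lit 4582281965) (nat_lit 76) (nat_lit 8273704482) (nat_lit 26) (nat_lit 5) (nat_lit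 29) (nat_lit 5) (nat_lit 27) (nat_lit 4) (nat_lit 340) (nat_lit 234) (nat_lit 206)) (XT.nd (nat_lit 78) (nat_lit 0) (nat_lit 0) (XT.lf (nat_lit 0) (nat_lit 2320455595) (nat_lit 76) (nat_lit 5332648142) (nat_lit 152) (nat_lit 9695445347) (nat_lit 25) (nat_lit 5) (nat_lit 26) (nat_lit 5) (nat_lit 27) (nat_lit 4) (nat_lit 341) (nat_lit 234) (nat_lit 205)) (XT.lf (nat_lit 0) (nat_lit 9428138024) (nat_lit 76) (nat_lit 1866060892) (nat_lit 152) (nat_lit 6449973210) (nat_lit 25) (nat_lit 5) (nat_lit 26) (nat_lit 5) (nat_lit 27) (nat_lit 4) (nat_lit 342) (nat_lit 234) (nat_lit 204)))) (XT.nd (nat_lit 156) (nat_lit 76) (nat_lit 0) (XT.nd (nat_lit 78) (nat_lit 228) (nat_lit 0) (XT.lf (nat_lit 0) (nat_lit 15006325605) (nat_lit 152) (nat_lit 1513552334) (nat_lit 0) (nat_lit 1632964180) (nat_lit 25) (nat_lit 5) (nat_lit 27) (nat_lit 4) (nat_lit 25) (nat_lit 4) (nat_lit 343) (nat_lit 234) (nat_lit 203)) (XT.lf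 (nat_lit 0) (nat_lit 269448888) (nat_lit 228) (nat_lit 13086043194) (nat_lit 76) (nat_lit 5217684619) (nat_lit 22) (nat_lit 5) (nat_lit 25) (nat_lit 5) (nat_lit 23) (nat_lit 4) (nat_lit 344) (nat_lit 234) (nat_lit 202))) (XT.nd (nat_lit 78) (nat_lit 76) (nat_lit 0) (XT.lf (nat_lit 0) (nat_lit 3687212172) (nat_lit 228) (nat_lit 6400083738) (nat_lit 76) (nat_lit 8919043461) (nat_lit 22) (nat_lit 5) (nat_lit 25) (nat_lit 5) (nat_lit 23) (nat_lit 4) (nat_lit 345) (nat_lit 234) (nat_lit 201)) (XT.lf (nat_lit 0) (nat_lit 405055443) (nat_lit 76) (nat_lit 6755012136) (nat_lit 152) (nat_lit 12293881192) (nat_lit 21) (nat_lit 5) (nat_lit 22) (nat_lit 5) (nat_lit 23) (nat_lit 4) (nat_lit 346) (nat_lit 234) (nat_lit 200)))))) (XT.nd (nat_lit 546) (nat_lit 304) (nat_lit 0) (XT.nd (nat_lit 234) (nat_lit 152) (nat_lit 0) (XT.nd (nat_lit 78) (nat_lit 152) (nat_lit 0) (XT.lf (nat_lit 0) (nat_lit 7457116615)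 (nat_lit 76) (nat_lit 3293931068) (nat_lit 152) (nat_lit 9163548389) (nat_lit 21) (nat_lit 5) (nat_lit 22) (nat_lit 5) (nat_lit 23) (nat_lit 4) (nat_lit 347) (nat_lit 234) (nat_lit 199)) (XT.nd (nat_lit 78) (nat_lit 152) (nat_lit 0) (XT.lf (nat_lit 0) (nat_lit 14402796968) (nat_lit 152) (nat_lit 5757931255) (nat_lit 0) (nat_lit 229770359) (nat_lit 21) (nat_lit 5) (nat_lit 23) (nat_lit 4) (nat_lit 21) (nat_lit 4) (nat_lit 348) (nat_lit 234) (nat_lit 198)) (XT.lf (nat_lit 0) (nat_lit 1045930934) (nat_lit 152) (nat_lit 17112713673) (nat_lit 152) (nat_lit 2722223380) (nat_lit 19) (nat_lit 4) (nat_lit 21) (nat_lit 5) (nat_lit 21) (nat_lit 4) (nat_lit 349) (nat_lit 234) (nat_lit 197)))) (XT.nd (nat_lit 156) (nat_lit 76) (nat_lit 0) (XT.nd (nat_lit 78) (nat_lit 0) (nat_lit 0) (XT.lf (nat_lit 0) (nat_lit 639406889) (nat_lit 228) (nat_lit 13303624098) (nat_lit 76) (nat_lit 7442436258) (nat_lit 18) (nat_lit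 5) (nat_lit 21) (nat_lit 5) (nat_lit 19) (nat_lit 4) (nat_lit 350) (nat_lit 234) (nat_lit 196)) (XT.lf (nat_lit 0) (nat_lit 4000551379) (nat_lit 228) (nat_lit 6685481163) (nat_lit 76) (nat_lit 11219785953) (nat_lit 18) (nat_lit 5) (nat_lit 21) (nat_lit 5) (nat_lit 19) (nat_lit 4) (nat_lit 351) (nat_lit 234) (nat_lit 195))) (XT.nd (nat_lit 78) (nat_lit 0) (nat_lit 0) (XT.lf (nat_lit 0) (nat_lit 52466074) (nat_lit 76) (nat_lit 7365305657) (nat_lit 152) (nat_lit 15025374581) (nat_lit 17) (nat_lit 5) (nat_lit 18) (nat_lit 5) (nat_lit 19) (nat_lit 4) (nat_lit 352) (nat_lit 234) (nat_lit 194)) (XT.lf (nat_lit 0) (nat_lit 7050615749) (nat_lit 76) (nat_lit 3909699500) (nat_lit 152) (nat_lit 12035617113) (nat_lit 17) (nat_lit 5) (nat_lit 18) (nat_lit 5) (nat_lit 19) (nat_lit 4) (nat_lit 353) (nat_lit 234) (nat_lit 193))))) (XT.nd (nat_lit 234) (nat_lit 152) (nat_lit 0) (XT.nd (nat_lit 78) (nat_lit 152)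 (nat_lit 0) (XT.lf (nat_lit 0) (nat_lit 14182028566) (nat_lit 76) (nat_lit 383704862) (nat_lit 152) (nat_lit 9000892556) (nat_lit 17) (nat_lit 5) (nat_lit 18) (nat_lit 5) (nat_lit 19) (nat_lit 4) (nat_lit 354) (nat_lit 234) (nat_lit 192)) (XT.nd (nat_lit 78) (nat_lit 152) (nat_lit 0) (XT.lf (nat_lit 0) (nat_lit 18268088476) (nat_lit 152) (nat_lit 2733701828) (nat_lit 0) (nat_lit 3153008179) (nat_lit 17) (nat_lit 5) (nat_lit 19) (nat_lit 4) (nat_lit 17) (nat_lit 4) (nat_lit 355) (nat_lit 234) (nat_lit 191)) (XT.lf (nat_lit 0) (nat_lit 4120093463) (nat_lit 152) (nat_lit 17963612874) (nat_lit 152) (nat_lit 2676864735) (nat_lit 15) (nat_lit 4) (nat_lit 17) (nat_lit 5) (nat_lit 17) (nat_lit 4) (nat_lit 356) (nat_lit 234) (nat_lit 190)))) (XT.nd (nat_lit 156) (nat_lit 76) (nat_lit 0) (XT.nd (nat_lit 78) (nat_lit 0) (nat_lit 0) (XT.lf (nat_lit 0) (nat_lit 603743657) (nat_lit 228) (nat_lit 14227816320)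 (nat_lit 76) (nat_lit 10553192468) (nat_lit 14) (nat_lit 5) (nat_lit 17) (nat_lit 5) (nat_lit 15) (nat_lit 4) (nat_lit 357) (nat_lit 234) (nat_lit 189)) (XT.lf (nat_lit 0) (nat_lit 3889034822) (nat_lit 228) (nat_lit 7720488660) (nat_lit 76) (nat_lit 14418557588) (nat_lit 14) (nat_lit 5) (nat_lit 17) (nat_lit 5) (nat_lit 15) (nat_lit 4) (nat_lit 358) (nat_lit 234) (nat_lit 188))) (XT.nd (nat_lit 78) (nat_lit 76) (nat_lit 0) (XT.lf (nat_lit 0) (nat_lit 7234114675) (nat_lit 228) (nat_lit 1087076952) (nat_lit 76) (nat_lit 18370699402) (nat_lit 14) (nat_lit 5) (nat_lit 17) (nat_lit 5) (nat_lit 15) (nat_lit 4) (nat_lit 359) (nat_lit 234) (nat_lit 187)) (XT.lf (nat_lit 0) (nat_lit 5791222599) (nat_lit 76) (nat_lit 4906352275) (nat_lit 152) (nat_lit 16677517412) (nat_lit 13) (nat_lit 5) (nat_lit 14) (nat_lit 5) (nat_lit 15) (nat_lit 4) (nat_lit 360) (nat_lit 234) (nat_lit 186))))))))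
noncomputable def xc46 : XT := (XT.nd (nat_lit 2028) (nat_lit 228) (nat_lit 0) (XT.nd (nat_lit 1014) (nat_lit 228) (nat_lit 0) (XT.nd (nat_lit 468) (nat_lit 76) (nat_lit 0) (XT.nd (nat_lit 234) (nat_lit 152) (nat_lit 0) (XT.nd (nat_lit 78) (nat_lit 0) (nat_lit 0) (XT.lf (nat_lit 0) (nat_lit 12831691091) (nat_lit 76) (nat_lit 1407041753) (nat_lit 152) (nat_lit 13840860236) (nat_lit 13) (nat_lit 5) (nat_lit 14) (nat_lit 5) (nat_lit 15) (nat_lit 4) (nat_lit 361) (nat_lit 234) (nat_lit 185)) (XT.nd (nat_lit 78) (nat_lit 0) (nat_lit 0) (XT.lf (nat_lit 0) (nat_lit 17870873210) (nat_lit 152) (nat_lit 8808331327) (nat_lit 0) (nat_lit 2126498746) (nat_lit 13) (nat_lit 5) (nat_lit 15) (nat_lit 4) (nat_lit 13) (nat_lit 4) (nat_lit 362) (nat_lit 234) (nat_lit 184)) (XT.lf (nat_lit 0) (nat_lit 21590594684) (nat_lit 152) (nat_lit 2252955885) (nat_lit 0) (nat_lit 5710704041) (nat_lit 13) (nat_lit 5) (nat_lit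 15) (nat_lit 4) (nat_lit 13) (nat_lit 4) (nat_lit 363) (nat_lit 234) (nat_lit 183)))) (XT.nd (nat_lit 78) (nat_lit 76) (nat_lit 0) (XT.lf (nat_lit 0) (nat_lit 4525792185) (nat_lit 76) (nat_lit 20905334659) (nat_lit 76) (nat_lit 4893874910) (nat_lit 12) (nat_lit 4) (nat_lit 13) (nat_lit 5) (nat_lit 13) (nat_lit 4) (nat_lit 364) (nat_lit 234) (nat_lit 182)) (XT.nd (nat_lit 78) (nat_lit 76) (nat_lit 0) (XT.lf (nat_lit 0) (nat_lit 11493086896) (nat_lit 76) (nat_lit 17882665118) (nat_lit 76) (nat_lit 1743468374) (nat_lit 12) (nat_lit 4) (nat_lit 13) (nat_lit 5) (nat_lit 13) (nat_lit 4) (nat_lit 365) (nat_lit 234) (nat_lit 181)) (XT.lf (nat_lit 0) (nat_lit 1438924606) (nat_lit 152) (nat_lit 13342196293) (nat_lit 76) (nat_lit 17156723012) (nat_lit 11) (nat_lit 5) (nat_lit 13) (nat_lit 5) (nat_lit 12) (nat_lit 4) (nat_lit 366) (nat_lit 234) (nat_lit 180))))) (XT.nd (nat_lit 234) (nat_lit 0) (nat_lit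 0) (XT.nd (nat_lit 78) (nat_lit 76) (nat_lit 0) (XT.lf (nat_lit 0) (nat_lit 4649488120) (nat_lit 152) (nat_lit 6945156731) (nat_lit 76) (nat_lit 21186845288) (nat_lit 11) (nat_lit 5) (nat_lit 13) (nat_lit 5) (nat_lit 12) (nat_lit 4) (nat_lit 367) (nat_lit 234) (nat_lit 179)) (XT.nd (nat_lit 78) (nat_lit 76) (nat_lit 0) (XT.lf (nat_lit 0) (nat_lit 7925048860) (nat_lit 152) (nat_lit 412665875) (nat_lit 76) (nat_lit 25313684279) (nat_lit 11) (nat_lit 5) (nat_lit 13) (nat_lit 5) (nat_lit 12) (nat_lit 4) (nat_lit 368) (nat_lit 234) (nat_lit 178)) (XT.lf (nat_lit 0) (nat_lit 6385590140) (nat_lit 76) (nat_lit 4944261026) (nat_lit 152) (nat_lit 23216638021) (nat_lit 10) (nat_lit 5) (nat_lit 11) (nat_lit 5) (nat_lit 12) (nat_lit 4) (nat_lit 369) (nat_lit 234) (nat_lit 177)))) (XT.nd (nat_lit 156) (nat_lit 0) (nat_lit 0) (XT.nd (nat_lit 78) (nat_lit 0) (nat_lit 0) (XT.lf (nat_lit 0) (nat_lit 13341975058)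 (nat_lit 76) (nat_lit 1468946045) (nat_lit 152) (nat_lit 20658300141) (nat_lit 10) (nat_lit 5) (nat_lit 11) (nat_lit 5) (nat_lit 12) (nat_lit 4) (nat_lit 370) (nat_lit 234) (nat_lit 176)) (XT.lf (nat_lit 0) (nat_lit 18387317119) (nat_lit 152) (nat_lit 15986230898) (nat_lit 0) (nat_lit 2046372938) (nat_lit 10) (nat_lit 5) (nat_lit 12) (nat_lit 4) (nat_lit 10) (nat_lit 4) (nat_lit 371) (nat_lit 234) (nat_lit 175))) (XT.nd (nat_lit 78) (nat_lit 0) (nat_lit 0) (XT.lf (nat_lit 0) (nat_lit 22057010520) (nat_lit 152) (nat_lit 9727333545) (nat_lit 0) (nat_lit 5615229575) (nat_lit 10) (nat_lit 5) (nat_lit 12) (nat_lit 4) (nat_lit 10) (nat_lit 4) (nat_lit 372) (nat_lit 234) (nat_lit 174)) (XT.lf (nat_lit 0) (nat_lit 25809087426) (nat_lit 152) (nat_lit 3330964780) (nat_lit 0) (nat_lit 9269406711) (nat_lit 10) (nat_lit 5) (nat_lit 12) (nat_lit 4) (nat_lit 10) (nat_lit 4) (nat_lit 373) (nat_lit 234) (nat_lit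 173)))))) (XT.nd (nat_lit 468) (nat_lit 76) (nat_lit 0) (XT.nd (nat_lit 234) (nat_lit 76) (nat_lit 0) (XT.nd (nat_lit 78) (nat_lit 0) (nat_lit 0) (XT.lf (nat_lit 0) (nat_lit 3272319189) (nat_lit 76) (nat_lit 26405962696) (nat_lit 76) (nat_lit 9771233659) (nat_lit 9) (nat_lit 4) (nat_lit 10) (nat_lit 5) (nat_lit 10) (nat_lit 4) (nat_lit 374) (nat_lit 234) (nat_lit 172)) (XT.nd (nat_lit 78) (nat_lit 0) (nat_lit 0) (XT.lf (nat_lit 0) (nat_lit 10093631331) (nat_lit 76) (nat_lit 23576975489) (nat_lit 76) (nat_lit 6849966528) (nat_lit 9) (nat_lit 4) (nat_lit 10) (nat_lit 5) (nat_lit 10) (nat_lit 4) (nat_lit 375) (nat_lit 234) (nat_lit 171)) (XT.lf (nat_lit 0) (nat_lit 17072639283) (nat_lit 76) (nat_lit 20684254867) (nat_lit 76) (nat_lit 3867653748) (nat_lit 9) (nat_lit 4) (nat_lit 10) (nat_lit 5) (nat_lit 10) (nat_lit 4) (nat_lit 376) (nat_lit 234) (nat_lit 170)))) (XT.nd (nat_lit 78) (nat_lit 76)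 (nat_lit 0) (XT.lf (nat_lit 0) (nat_lit 24215441208) (nat_lit 76) (nat_lit 17725273212) (nat_lit 76) (nat_lit 821689414) (nat_lit 9) (nat_lit 4) (nat_lit 10) (nat_lit 5) (nat_lit 10) (nat_lit 4) (nat_lit 377) (nat_lit 234) (nat_lit 169)) (XT.nd (nat_lit 78) (nat_lit 0) (nat_lit 0) (XT.lf (nat_lit 0) (nat_lit 2245890373) (nat_lit 152) (nat_lit 12428875541) (nat_lit 76) (nat_lit 29259708927) (nat_lit 8) (nat_lit 5) (nat_lit 10) (nat_lit 5) (nat_lit 9) (nat_lit 4) (nat_lit 378) (nat_lit 234) (nat_lit 168)) (XT.lf (nat_lit 0) (nat_lit 5365121510) (nat_lit 152) (nat_lit 6178825851) (nat_lit 76) (nat_lit 33598241968) (nat_lit 8) (nat_lit 5) (nat_lit 10) (nat_lit 5) (nat_lit 9) (nat_lit 4) (nat_lit 379) (nat_lit 234) (nat_lit 167))))) (XT.nd (nat_lit 234) (nat_lit 0) (nat_lit 0) (XT.nd (nat_lit 78) (nat_lit 0) (nat_lit 0) (XT.lf (nat_lit 0) (nat_lit 220855927) (nat_lit 76) (nat_lit 8336030731) (nat_lit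 152) (nat_lit 37829889191) (nat_lit 7) (nat_lit 5) (nat_lit 8) (nat_lit 5) (nat_lit 9) (nat_lit 4) (nat_lit 380) (nat_lit 234) (nat_lit 166)) (XT.nd (nat_lit 78) (nat_lit 0) (nat_lit 0) (XT.lf (nat_lit 0) (nat_lit 6897422456) (nat_lit 76) (nat_lit 4986483666) (nat_lit 152) (nat_lit 35783617839) (nat_lit 7) (nat_lit 5) (nat_lit 8) (nat_lit 5) (nat_lit 9) (nat_lit 4) (nat_lit 381) (nat_lit 234) (nat_lit 165)) (XT.lf (nat_lit 0) (nat_lit 13733736878) (nat_lit 76) (nat_lit 1554773404) (nat_lit 152) (nat_lit 33698859787) (nat_lit 7) (nat_lit 5) (nat_lit 8) (nat_lit 5) (nat_lit 9) (nat_lit 4) (nat_lit 382) (nat_lit 234) (nat_lit 164)))) (XT.nd (nat_lit 156) (nat_lit 0) (nat_lit 0) (XT.nd (nat_lit 78) (nat_lit 0) (nat_lit 0) (XT.lf (nat_lit 0) (nat_lit 18792534928) (nat_lit 152) (nat_lit 29630555656) (nat_lit 0) (nat_lit 1923811025) (nat_lit 7) (nat_lit 5) (nat_lit 9) (nat_lit 4) (nat_lit 7) (nat_lit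 4) (nat_lit 383) (nat_lit 234) (nat_lit 163)) (XT.lf (nat_lit 0) (nat_lit 22395958054) (nat_lit 152) (nat_lit 23892871758) (nat_lit 0) (nat_lit 5458569222) (nat_lit 7) (nat_lit 5) (nat_lit 9) (nat_lit 4) (nat_lit 7) (nat_lit 4) (nat_lit 384) (nat_lit 234) (nat_lit 162))) (XT.nd (nat_lit 78) (nat_lit 0) (nat_lit 0) (XT.lf (nat_lit 0) (nat_lit 26086982851) (nat_lit 152) (nat_lit 18020622555) (nat_lit 0) (nat_lit 9082929038) (nat_lit 7) (nat_lit 5) (nat_lit 9) (nat_lit 4) (nat_lit 7) (nat_lit 4) (nat_lit 385) (nat_lit 234) (nat_lit 161)) (XT.lf (nat_lit 0) (nat_lit 29868834485) (nat_lit 152) (nat_lit 12008676954) (nat_lit 0) (nat_lit 12800057391) (nat_lit 7) (nat_lit 5) (nat_lit 9) (nat_lit 4) (nat_lit 7) (nat_lit 4) (nat_lit 386) (nat_lit 234) (nat_lit 160))))))) (XT.nd (nat_lit 1014) (nat_lit 0) (nat_lit 0) (XT.nd (nat_lit 468) (nat_lit 152) (nat_lit 0) (XT.nd (nat_lit 234) (nat_lit 0) (nat_lit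 0) (XT.nd (nat_lit 78) (nat_lit 76) (nat_lit 0) (XT.lf (nat_lit 0) (nat_lit 33744817487) (nat_lit 152) (nat_lit 5851781800) (nat_lit 0) (nat_lit 16613202255) (nat_lit 7) (nat_lit 5) (nat_lit 9) (nat_lit 4) (nat_lit 7) (nat_lit 4) (nat_lit 387) (nat_lit 234) (nat_lit 159)) (XT.nd (nat_lit 78) (nat_lit 0) (nat_lit 0) (XT.lf (nat_lit 0) (nat_lit 464506922) (nat_lit 76) (nat_lit 37258276841) (nat_lit 76) (nat_lit 20065653708) (nat_lit 6) (nat_lit 4) (nat_lit 7) (nat_lit 5) (nat_lit 7) (nat_lit 4) (nat_lit 388) (nat_lit 234) (nat_lit 158)) (XT.lf (nat_lit 0) (nat_lit 7056199641) (nat_lit 76) (nat_lit 34804438797) (nat_lit 76) (nat_lit 17552584693) (nat_lit 6) (nat_lit 4) (nat_lit 7) (nat_lit 5) (nat_lit 7) (nat_lit 4) (nat_lit 389) (nat_lit 234) (nat_lit 157)))) (XT.nd (nat_lit 78) (nat_lit 0) (nat_lit 0) (XT.lf (nat_lit 0) (nat_lit 13812594155) (nat_lit 76) (nat_lit 32292032548) (nat_lit 76) (nat_lit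 14982672646) (nat_lit 6) (nat_lit 4) (nat_lit 7) (nat_lit 5) (nat_lit 7) (nat_lit 4) (nat_lit 390) (nat_lit 234) (nat_lit 156)) (XT.nd (nat_lit 78) (nat_lit 0) (nat_lit 0) (XT.lf (nat_lit 0) (nat_lit 20739594111) (nat_lit 76) (nat_lit 29718862787) (nat_lit 76) (nat_lit 12353672014) (nat_lit 6) (nat_lit 4) (nat_lit 7) (nat_lit 5) (nat_lit 7) (nat_lit 4) (nat_lit 391) (nat_lit 234) (nat_lit 155)) (XT.lf (nat_lit 0) (nat_lit 27843252227) (nat_lit 76) (nat_lit 27082681113) (nat_lit 76) (nat_lit 9663285610) (nat_lit 6) (nat_lit 4) (nat_lit 7) (nat_lit 5) (nat_lit 7) (nat_lit 4) (nat_lit 392) (nat_lit 234) (nat_lit 154))))) (XT.nd (nat_lit 234) (nat_lit 152) (nat_lit 0) (XT.nd (nat_lit 78) (nat_lit 0) (nat_lit 0) (XT.lf (nat_lit 0) (nat_lit 35129775582) (nat_lit 76) (nat_lit 24381184066) (nat_lit 76) (nat_lit 6909162612) (nat_lit 6) (nat_lit 4) (nat_lit 7) (nat_lit 5) (nat_lit 7) (nat_lit 4) (nat_lit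 393) (nat_lit 234) (nat_lit 153)) (XT.nd (nat_lit 78) (nat_lit 0) (nat_lit 0) (XT.lf (nat_lit 0) (nat_lit 42605531043) (nat_lit 76) (nat_lit 21612011116) (nat_lit 76) (nat_lit 4088896506) (nat_lit 6) (nat_lit 4) (nat_lit 7) (nat_lit 5) (nat_lit 7) (nat_lit 4) (nat_lit 394) (nat_lit 234) (nat_lit 152)) (XT.lf (nat_lit 0) (nat_lit 50277050821) (nat_lit 76) (nat_lit 18772742596) (nat_lit 76) (nat_lit 1200022980) (nat_lit 6) (nat_lit 4) (nat_lit 7) (nat_lit 5) (nat_lit 7) (nat_lit 4) (nat_lit 395) (nat_lit 234) (nat_lit 151)))) (XT.nd (nat_lit 156) (nat_lit 76) (nat_lit 0) (XT.nd (nat_lit 78) (nat_lit 0) (nat_lit 0) (XT.lf (nat_lit 0) (nat_lit 1725638631) (nat_lit 152) (nat_lit 14117833394) (nat_lit 76) (nat_lit 56407973990) (nat_lit 5) (nat_lit 5) (nat_lit 7) (nat_lit 5) (nat_lit 6) (nat_lit 4) (nat_lit 396) (nat_lit 234) (nat_lit 150)) (XT.lf (nat_lit 0) (nat_lit 4700163056) (nat_lit 152) (nat_lit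 8126306286) (nat_lit 76) (nat_lit 61486747838) (nat_lit 5) (nat_lit 5) (nat_lit 7) (nat_lit 5) (nat_lit 6) (nat_lit 4) (nat_lit 397) (nat_lit 234) (nat_lit 149))) (XT.nd (nat_lit 78) (nat_lit 76) (nat_lit 0) (XT.lf (nat_lit 0) (nat_lit 7749566165) (nat_lit 152) (nat_lit 1981413582) (nat_lit 76) (nat_lit 66706297754) (nat_lit 5) (nat_lit 5) (nat_lit 7) (nat_lit 5) (nat_lit 6) (nat_lit 4) (nat_lit 398) (nat_lit 234) (nat_lit 148)) (XT.lf (nat_lit 0) (nat_lit 4408234575) (nat_lit 76) (nat_lit 6510652558) (nat_lit 152) (nat_lit 67705324582) (nat_lit 4) (nat_lit 5) (nat_lit 5) (nat_lit 5) (nat_lit 6) (nat_lit 4) (nat_lit 399) (nat_lit 234) (nat_lit 147)))))) (XT.nd (nat_lit 546) (nat_lit 0) (nat_lit 0) (XT.nd (nat_lit 234) (nat_lit 0) (nat_lit 0) (XT.nd (nat_lit 78) (nat_lit 0) (nat_lit 0) (XT.lf (nat_lit 0) (nat_lit 11004828449) (nat_lit 76) (nat_lit 3184690993) (nat_lit 152) (nat_lit 66687052564)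 (nat_lit 4) (nat_lit 5) (nat_lit 5) (nat_lit 5) (nat_lit 6) (nat_lit 4) (nat_lit 400) (nat_lit 234) (nat_lit 146)) (XT.nd (nat_lit 78) (nat_lit 0) (nat_lit 0) (XT.lf (nat_lit 0) (nat_lit 17547104309) (nat_lit 152) (nat_lit 65424420195) (nat_lit 0) (nat_lit 225318453) (nat_lit 4) (nat_lit 5) (nat_lit 6) (nat_lit 4) (nat_lit 4) (nat_lit 4) (nat_lit 401) (nat_lit 234) (nat_lit 145)) (XT.lf (nat_lit 0) (nat_lit 21023857513) (nat_lit 152) (nat_lit 60899403010) (nat_lit 0) (nat_lit 3662913008) (nat_lit 4) (nat_lit 5) (nat_lit 6) (nat_lit 4) (nat_lit 4) (nat_lit 4) (nat_lit 402) (nat_lit 234) (nat_lit 144)))) (XT.nd (nat_lit 156) (nat_lit 0) (nat_lit 0) (XT.nd (nat_lit 78) (nat_lit 0) (nat_lit 0) (XT.lf (nat_lit 0) (nat_lit 24592203796) (nat_lit 152) (nat_lit 56262124905) (nat_lit 0) (nat_lit 7193241185) (nat_lit 4) (nat_lit 5) (nat_lit 6) (nat_lit 4) (nat_lit 4) (nat_lit 4) (nat_lit 403) (nat_lit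 234) (nat_lit 143)) (XT.lf (nat_lit 0) (nat_lit 28255261132) (nat_lit 152) (nat_lit 51508533891) (nat_lit 0) (nat_lit 10819387737) (nat_lit 4) (nat_lit 5) (nat_lit 6) (nat_lit 4) (nat_lit 4) (nat_lit 4) (nat_lit 404) (nat_lit 234) (nat_lit 142))) (XT.nd (nat_lit 78) (nat_lit 0) (nat_lit 0) (XT.lf (nat_lit 0) (nat_lit 32016230248) (nat_lit 152) (nat_lit 46634476344) (nat_lit 0) (nat_lit 14544521141) (nat_lit 4) (nat_lit 5) (nat_lit 6) (nat_lit 4) (nat_lit 4) (nat_lit 4) (nat_lit 405) (nat_lit 234) (nat_lit 141)) (XT.lf (nat_lit 0) (nat_lit 35878397430) (nat_lit 152) (nat_lit 41635693378) (nat_lit 0) (nat_lit 18371896370) (nat_lit 4) (nat_lit 5) (nat_lit 6) (nat_lit 4) (nat_lit 4) (nat_lit 4) (nat_lit 406) (nat_lit 234) (nat_lit 140))))) (XT.nd (nat_lit 33150) (nat_lit 0) (nat_lit 4788) (XT.nd (nat_lit 78) (nat_lit 0) (nat_lit 0) (XT.lf (nat_lit 0) (nat_lit 39845137386) (nat_lit 152) (nat_lit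 36507817125) (nat_lit 0) (nat_lit 22304857730) (nat_lit 4) (nat_lit 5) (nat_lit 6) (nat_lit 4) (nat_lit 4) (nat_lit 4) (nat_lit 407) (nat_lit 234) (nat_lit 139)) (XT.nd (nat_lit 32994) (nat_lit 0) (nat_lit 5472) (XT.lf (nat_lit 0) (nat_lit 43919916200) (nat_lit 152) (nat_lit 31246366917) (nat_lit 0) (nat_lit 26346841792) (nat_lit 4) (nat_lit 5) (nat_lit 6) (nat_lit 4) (nat_lit 4) (nat_lit 4) (nat_lit 408) (nat_lit 234) (nat_lit 138)) (XT.lf (nat_lit 0) (nat_lit 958515498) (nat_lit 304) (nat_lit 1929737509) (nat_lit 304) (nat_lit 1929737509) (nat_lit 76) (nat_lit 4) (nat_lit 80) (nat_lit 5) (nat_lit 80) (nat_lit 4) (nat_lit 310) (nat_lit 235) (nat_lit 235)))) (XT.nd (nat_lit 156) (nat_lit 380) (nat_lit 0) (XT.nd (nat_lit 78) (nat_lit 304) (nat_lit 0) (XT.lf (nat_lit 0) (nat_lit 8531200876) (nat_lit 304) (nat_lit 1062374367) (nat_lit 304) (nat_lit 189932891) (nat_lit 76) (nat_lit 4) (nat_lit 80)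 (nat_lit 5) (nat_lit 80) (nat_lit 4) (nat_lit 311) (nat_lit 235) (nat_lit 234)) (XT.lf (nat_lit 0) (nat_lit 3500283385) (nat_lit 304) (nat_lit 4603929402) (nat_lit 0) (nat_lit 1830893059) (nat_lit 72) (nat_lit 5) (nat_lit 76) (nat_lit 4) (nat_lit 72) (nat_lit 4) (nat_lit 312) (nat_lit 235) (nat_lit 233))) (XT.nd (nat_lit 78) (nat_lit 76) (nat_lit 0) (XT.lf (nat_lit 0) (nat_lit 1942720539) (nat_lit 304) (nat_lit 5308871243) (nat_lit 304) (nat_lit 2841073376) (nat_lit 68) (nat_lit 4) (nat_lit 72) (nat_lit 5) (nat_lit 72) (nat_lit 4) (nat_lit 313) (nat_lit 235) (nat_lit 232)) (XT.lf (nat_lit 0) (nat_lit 803261701) (nat_lit 380) (nat_lit 1612329565) (nat_lit 76) (nat_lit 7840415553) (nat_lit 67) (nat_lit 5) (nat_lit 72) (nat_lit 5) (nat_lit 68) (nat_lit 4) (nat_lit 314) (nat_lit 235) (nat_lit 231))))))))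
noncomputable def xc47 : XT := (XT.nd (nat_lit 2028) (nat_lit 1140) (nat_lit 0) (XT.nd (nat_lit 1014) (nat_lit 1140) (nat_lit 0) (XT.nd (nat_lit 468) (nat_lit 912) (nat_lit 0) (XT.nd (nat_lit 234) (nat_lit 532) (nat_lit 0) (XT.nd (nat_lit 78) (nat_lit 304) (nat_lit 0) (XT.lf (nat_lit 0) (nat_lit 4469465459) (nat_lit 304) (nat_lit 5364624644) (nat_lit 0) (nat_lit 590313517) (nat_lit 64) (nat_lit 5) (nat_lit 68) (nat_lit 4) (nat_lit 64) (nat_lit 4) (nat_lit 315) (nat_lit 235) (nat_lit 230)) (XT.nd (nat_lit 78) (nat_lit 76) (nat_lit 0) (XT.lf (nat_lit 0) (nat_lit 1240517995) (nat_lit 228) (nat_lit 6973448572) (nat_lit 228) (nat_lit 2384921872) (nat_lit 61) (nat_lit 4) (nat_lit 64) (nat_lit 5) (nat_lit 64) (nat_lit 4) (nat_lit 316) (nat_lit 235) (nat_lit 229)) (XT.lf (nat_lit 0) (nat_lit 1238048490) (nat_lit 304) (nat_lit 2764001622) (nat_lit 76) (nat_lit 6777133529) (nat_lit 60) (nat_lit 5) (nat_lit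 64) (nat_lit 5) (nat_lit 61) (nat_lit 4) (nat_lit 317) (nat_lit 235) (nat_lit 228)))) (XT.nd (nat_lit 78) (nat_lit 304) (nat_lit 0) (XT.lf (nat_lit 0) (nat_lit 3957691948) (nat_lit 228) (nat_lit 920921722) (nat_lit 304) (nat_lit 6086938628) (nat_lit 57) (nat_lit 5) (nat_lit 60) (nat_lit 5) (nat_lit 61) (nat_lit 4) (nat_lit 318) (nat_lit 235) (nat_lit 227)) (XT.nd (nat_lit 78) (nat_lit 304) (nat_lit 0) (XT.lf (nat_lit 0) (nat_lit 8597804896) (nat_lit 304) (nat_lit 365878590) (nat_lit 0) (nat_lit 2194822180) (nat_lit 57) (nat_lit 5) (nat_lit 61) (nat_lit 4) (nat_lit 57) (nat_lit 4) (nat_lit 319) (nat_lit 235) (nat_lit 226)) (XT.lf (nat_lit 0) (nat_lit 1043513315) (nat_lit 304) (nat_lit 4896563583) (nat_lit 76) (nat_lit 5417140521) (nat_lit 53) (nat_lit 5) (nat_lit 57) (nat_lit 5) (nat_lit 54) (nat_lit 4) (nat_lit 320) (nat_lit 235) (nat_lit 225))))) (XT.nd (nat_lit 234) (nat_lit 456) (nat_lit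 0) (XT.nd (nat_lit 78) (nat_lit 304) (nat_lit 0) (XT.lf (nat_lit 0) (nat_lit 1826190251) (nat_lit 152) (nat_lit 2821679727) (nat_lit 228) (nat_lit 6915024912) (nat_lit 51) (nat_lit 5) (nat_lit 53) (nat_lit 5) (nat_lit 54) (nat_lit 4) (nat_lit 321) (nat_lit 235) (nat_lit 224)) (XT.nd (nat_lit 78) (nat_lit 304) (nat_lit 0) (XT.lf (nat_lit 0) (nat_lit 8336927553) (nat_lit 228) (nat_lit 3049009775) (nat_lit 0) (nat_lit 389575707) (nat_lit 51) (nat_lit 5) (nat_lit 54) (nat_lit 4) (nat_lit 51) (nat_lit 4) (nat_lit 322) (nat_lit 235) (nat_lit 223)) (XT.lf (nat_lit 0) (nat_lit 128470186) (nat_lit 304) (nat_lit 8230234052) (nat_lit 76) (nat_lit 3636155175) (nat_lit 47) (nat_lit 5) (nat_lit 51) (nat_lit 5) (nat_lit 48) (nat_lit 4) (nat_lit 323) (nat_lit 235) (nat_lit 222)))) (XT.nd (nat_lit 156) (nat_lit 304) (nat_lit 0) (XT.nd (nat_lit 78) (nat_lit 152) (nat_lit 0) (XT.lf (nat_lit 0) (nat_lit 3689904087)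 (nat_lit 304) (nat_lit 1528364673) (nat_lit 76) (nat_lit 7002863428) (nat_lit 47) (nat_lit 5) (nat_lit 51) (nat_lit 5) (nat_lit 48) (nat_lit 4) (nat_lit 324) (nat_lit 235) (nat_lit 221)) (XT.lf (nat_lit 0) (nat_lit 5363371734) (nat_lit 152) (nat_lit 1973923401) (nat_lit 228) (nat_lit 5117584525) (nat_lit 45) (nat_lit 5) (nat_lit 47) (nat_lit 5) (nat_lit 48) (nat_lit 4) (nat_lit 325) (nat_lit 235) (nat_lit 220))) (XT.nd (nat_lit 78) (nat_lit 304) (nat_lit 0) (XT.lf (nat_lit 0) (nat_lit 11050991265) (nat_lit 228) (nat_lit 331784026) (nat_lit 0) (nat_lit 1314215951) (nat_lit 45) (nat_lit 5) (nat_lit 48) (nat_lit 4) (nat_lit 45) (nat_lit 4) (nat_lit 326) (nat_lit 235) (nat_lit 219)) (XT.lf (nat_lit 0) (nat_lit 1905646901) (nat_lit 304) (nat_lit 6337292387) (nat_lit 76) (nat_lit 4702518116) (nat_lit 41) (nat_lit 5) (nat_lit 45) (nat_lit 5) (nat_lit 42) (nat_lit 4) (nat_lit 327) (nat_lit 235) (nat_lit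 218)))))) (XT.nd (nat_lit 468) (nat_lit 608) (nat_lit 0) (XT.nd (nat_lit 234) (nat_lit 228) (nat_lit 0) (XT.nd (nat_lit 78) (nat_lit 152) (nat_lit 0) (XT.lf (nat_lit 0) (nat_lit 440673253) (nat_lit 152) (nat_lit 5028168872) (nat_lit 228) (nat_lit 7733957309) (nat_lit 39) (nat_lit 5) (nat_lit 41) (nat_lit 5) (nat_lit 42) (nat_lit 4) (nat_lit 328) (nat_lit 235) (nat_lit 217)) (XT.nd (nat_lit 78) (nat_lit 152) (nat_lit 0) (XT.lf (nat_lit 0) (nat_lit 7439565817) (nat_lit 152) (nat_lit 1694769639) (nat_lit 228) (nat_lit 4333715901) (nat_lit 39) (nat_lit 5) (nat_lit 41) (nat_lit 5) (nat_lit 42) (nat_lit 4) (nat_lit 329) (nat_lit 235) (nat_lit 216)) (XT.lf (nat_lit 0) (nat_lit 795281558) (nat_lit 152) (nat_lit 12071867299) (nat_lit 152) (nat_lit 875441517) (nat_lit 37) (nat_lit 4) (nat_lit 39) (nat_lit 5) (nat_lit 39) (nat_lit 4) (nat_lit 330) (nat_lit 235) (nat_lit 215)))) (XT.nd (nat_lit 78) (nat_lit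 152) (nat_lit 0) (XT.lf (nat_lit 0) (nat_lit 2645608148) (nat_lit 228) (nat_lit 6230387752) (nat_lit 76) (nat_lit 5148298665) (nat_lit 36) (nat_lit 5) (nat_lit 39) (nat_lit 5) (nat_lit 37) (nat_lit 4) (nat_lit 331) (nat_lit 235) (nat_lit 214)) (XT.nd (nat_lit 78) (nat_lit 0) (nat_lit 0) (XT.lf (nat_lit 0) (nat_lit 583001619) (nat_lit 152) (nat_lit 5612435581) (nat_lit 228) (nat_lit 8120576281) (nat_lit 34) (nat_lit 5) (nat_lit 36) (nat_lit 5) (nat_lit 37) (nat_lit 4) (nat_lit 332) (nat_lit 235) (nat_lit 213)) (XT.lf (nat_lit 0) (nat_lit 7621817818) (nat_lit 152) (nat_lit 2228860804) (nat_lit 228) (nat_lit 4765882416) (nat_lit 34) (nat_lit 5) (nat_lit 36) (nat_lit 5) (nat_lit 37) (nat_lit 4) (nat_lit 333) (nat_lit 235) (nat_lit 212))))) (XT.nd (nat_lit 234) (nat_lit 380) (nat_lit 0) (XT.nd (nat_lit 78) (nat_lit 228) (nat_lit 0) (XT.lf (nat_lit 0) (nat_lit 13565121197) (nat_lit 228) (nat_lit 171495097)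 (nat_lit 0) (nat_lit 1191065708) (nat_lit 34) (nat_lit 5) (nat_lit 37) (nat_lit 4) (nat_lit 34) (nat_lit 4) (nat_lit 334) (nat_lit 235) (nat_lit 211)) (XT.nd (nat_lit 78) (nat_lit 0) (nat_lit 0) (XT.lf (nat_lit 0) (nat_lit 2128636228) (nat_lit 228) (nat_lit 8401889319) (nat_lit 76) (nat_lit 4716206184) (nat_lit 31) (nat_lit 5) (nat_lit 34) (nat_lit 5) (nat_lit 32) (nat_lit 4) (nat_lit 335) (nat_lit 235) (nat_lit 210)) (XT.lf (nat_lit 0) (nat_lit 5638385481) (nat_lit 228) (nat_lit 1615899672) (nat_lit 76) (nat_lit 8322466631) (nat_lit 31) (nat_lit 5) (nat_lit 34) (nat_lit 5) (nat_lit 32) (nat_lit 4) (nat_lit 336) (nat_lit 235) (nat_lit 209)))) (XT.nd (nat_lit 156) (nat_lit 228) (nat_lit 0) (XT.nd (nat_lit 78) (nat_lit 0) (nat_lit 0) (XT.lf (nat_lit 0) (nat_lit 5379342583) (nat_lit 152) (nat_lit 3867011169) (nat_lit 228) (nat_lit 6670569358) (nat_lit 29) (nat_lit 5) (nat_lit 31) (nat_lit 5) (nat_lit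 32) (nat_lit 4) (nat_lit 337) (nat_lit 235) (nat_lit 208)) (XT.lf (nat_lit 0) (nat_lit 12519242539) (nat_lit 152) (nat_lit 401619936) (nat_lit 228) (nat_lit 3347725408) (nat_lit 29) (nat_lit 5) (nat_lit 31) (nat_lit 5) (nat_lit 32) (nat_lit 4) (nat_lit 338) (nat_lit 235) (nat_lit 207))) (XT.nd (nat_lit 78) (nat_lit 0) (nat_lit 0) (XT.lf (nat_lit 0) (nat_lit 77640795) (nat_lit 228) (nat_lit 13454194527) (nat_lit 76) (nat_lit 3098852012) (nat_lit 26) (nat_lit 5) (nat_lit 29) (nat_lit 5) (nat_lit 27) (nat_lit 4) (nat_lit 339) (nat_lit 235) (nat_lit 206)) (XT.lf (nat_lit 0) (nat_lit 3524133299) (nat_lit 228) (nat_lit 6750067753) (nat_lit 76) (nat_lit 6728918985) (nat_lit 26) (nat_lit 5) (nat_lit 29) (nat_lit 5) (nat_lit 27) (nat_lit 4) (nat_lit 340) (nat_lit 235) (nat_lit 205))))))) (XT.nd (nat_lit 1014) (nat_lit 456) (nat_lit 0) (XT.nd (nat_lit 468) (nat_lit 380) (nat_lit 0) (XT.nd (nat_lit 234)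 (nat_lit 228) (nat_lit 0) (XT.nd (nat_lit 78) (nat_lit 0) (nat_lit 0) (XT.lf (nat_lit 0) (nat_lit 62201719) (nat_lit 76) (nat_lit 6957503135) (nat_lit 152) (nat_lit 10368683522) (nat_lit 25) (nat_lit 5) (nat_lit 26) (nat_lit 5) (nat_lit 27) (nat_lit 4) (nat_lit 341) (nat_lit 235) (nat_lit 204)) (XT.nd (nat_lit 78) (nat_lit 0) (nat_lit 0) (XT.lf (nat_lit 0) (nat_lit 7123937644) (nat_lit 76) (nat_lit 3510157562) (nat_lit 152) (nat_lit 7150733228) (nat_lit 25) (nat_lit 5) (nat_lit 26) (nat_lit 5) (nat_lit 27) (nat_lit 4) (nat_lit 342) (nat_lit 235) (nat_lit 203)) (XT.lf (nat_lit 0) (nat_lit 14304311239) (nat_lit 152) (nat_lit 3887826859) (nat_lit 0) (nat_lit 2633056) (nat_lit 25) (nat_lit 5) (nat_lit 27) (nat_lit 4) (nat_lit 25) (nat_lit 4) (nat_lit 343) (nat_lit 235) (nat_lit 202)))) (XT.nd (nat_lit 78) (nat_lit 76) (nat_lit 0) (XT.lf (nat_lit 0) (nat_lit 3023548619) (nat_lit 152) (nat_lit 15073450569)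 (nat_lit 152) (nat_lit 519672373) (nat_lit 23) (nat_lit 4) (nat_lit 25) (nat_lit 5) (nat_lit 25) (nat_lit 4) (nat_lit 344) (nat_lit 235) (nat_lit 201)) (XT.nd (nat_lit 78) (nat_lit 0) (nat_lit 0) (XT.lf (nat_lit 0) (nat_lit 2882943700) (nat_lit 228) (nat_lit 8946159776) (nat_lit 76) (nat_lit 7221653356) (nat_lit 22) (nat_lit 5) (nat_lit 25) (nat_lit 5) (nat_lit 23) (nat_lit 4) (nat_lit 345) (nat_lit 235) (nat_lit 200)) (XT.lf (nat_lit 0) (nat_lit 6327354116) (nat_lit 228) (nat_lit 2191635072) (nat_lit 76) (nat_lit 10980244084) (nat_lit 22) (nat_lit 5) (nat_lit 25) (nat_lit 5) (nat_lit 23) (nat_lit 4) (nat_lit 346) (nat_lit 235) (nat_lit 199))))) (XT.nd (nat_lit 234) (nat_lit 304) (nat_lit 0) (XT.nd (nat_lit 78) (nat_lit 0) (nat_lit 0) (XT.lf (nat_lit 0) (nat_lit 4774516606) (nat_lit 76) (nat_lit 5098088200) (nat_lit 152) (nat_lit 10088660941) (nat_lit 21) (nat_lit 5) (nat_lit 22) (nat_lit 5)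 (nat_lit 23) (nat_lit 4) (nat_lit 347) (nat_lit 235) (nat_lit 198)) (XT.nd (nat_lit 78) (nat_lit 0) (nat_lit 0) (XT.lf (nat_lit 0) (nat_lit 11911227687) (nat_lit 76) (nat_lit 1587337058) (nat_lit 152) (nat_lit 6939390096) (nat_lit 21) (nat_lit 5) (nat_lit 22) (nat_lit 5) (nat_lit 23) (nat_lit 4) (nat_lit 348) (nat_lit 235) (nat_lit 197)) (XT.lf (nat_lit 0) (nat_lit 17206085105) (nat_lit 152) (nat_lit 1768414860) (nat_lit 0) (nat_lit 1955286627) (nat_lit 21) (nat_lit 5) (nat_lit 23) (nat_lit 4) (nat_lit 21) (nat_lit 4) (nat_lit 349) (nat_lit 235) (nat_lit 196)))) (XT.nd (nat_lit 156) (nat_lit 76) (nat_lit 0) (XT.nd (nat_lit 78) (nat_lit 76) (nat_lit 0) (XT.lf (nat_lit 0) (nat_lit 5198756779) (nat_lit 152) (nat_lit 15846405072) (nat_lit 152) (nat_lit 390626214) (nat_lit 19) (nat_lit 4) (nat_lit 21) (nat_lit 5) (nat_lit 21) (nat_lit 4) (nat_lit 350) (nat_lit 235) (nat_lit 195)) (XT.lf (nat_lit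 0) (nat_lit 2955843849) (nat_lit 228) (nat_lit 9654425920) (nat_lit 76) (nat_lit 9346662568) (nat_lit 18) (nat_lit 5) (nat_lit 21) (nat_lit 5) (nat_lit 19) (nat_lit 4) (nat_lit 351) (nat_lit 235) (nat_lit 194))) (XT.nd (nat_lit 78) (nat_lit 76) (nat_lit 0) (XT.lf (nat_lit 0) (nat_lit 6350912342) (nat_lit 228) (nat_lit 2955650548) (nat_lit 76) (nat_lit 13188372952) (nat_lit 18) (nat_lit 5) (nat_lit 21) (nat_lit 5) (nat_lit 19) (nat_lit 4) (nat_lit 352) (nat_lit 235) (nat_lit 193)) (XT.lf (nat_lit 0) (nat_lit 3945901822) (nat_lit 76) (nat_lit 5897196951) (nat_lit 152) (nat_lit 13206144640) (nat_lit 17) (nat_lit 5) (nat_lit 18) (nat_lit 5) (nat_lit 19) (nat_lit 4) (nat_lit 353) (nat_lit 235) (nat_lit 192)))))) (XT.nd (nat_lit 546) (nat_lit 152) (nat_lit 0) (XT.nd (nat_lit 234) (nat_lit 152) (nat_lit 0) (XT.nd (nat_lit 78) (nat_lit 152) (nat_lit 0) (XT.lf (nat_lit 0) (nat_lit 11040640790) (nat_lit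 76) (nat_lit 2387118761) (nat_lit 152) (nat_lit 10192810696) (nat_lit 17) (nat_lit 5) (nat_lit 18) (nat_lit 5) (nat_lit 19) (nat_lit 4) (nat_lit 354) (nat_lit 235) (nat_lit 191)) (XT.nd (nat_lit 78) (nat_lit 152) (nat_lit 0) (XT.lf (nat_lit 0) (nat_lit 17090555202) (nat_lit 152) (nat_lit 5945847735) (nat_lit 0) (nat_lit 1173536779) (nat_lit 17) (nat_lit 5) (nat_lit 19) (nat_lit 4) (nat_lit 17) (nat_lit 4) (nat_lit 355) (nat_lit 235) (nat_lit 190)) (XT.lf (nat_lit 0) (nat_lit 808301294) (nat_lit 152) (nat_lit 20046326741) (nat_lit 152) (nat_lit 3962640510) (nat_lit 15) (nat_lit 4) (nat_lit 17) (nat_lit 5) (nat_lit 17) (nat_lit 4) (nat_lit 356) (nat_lit 235) (nat_lit 189)))) (XT.nd (nat_lit 156) (nat_lit 76) (nat_lit 0) (XT.nd (nat_lit 78) (nat_lit 76) (nat_lit 0) (XT.lf (nat_lit 0) (nat_lit 7816562661) (nat_lit 152) (nat_lit 16935579073) (nat_lit 152) (nat_lit 690079438) (nat_lit 15) (nat_lit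 4) (nat_lit 17) (nat_lit 5) (nat_lit 17) (nat_lit 4) (nat_lit 357) (nat_lit 235) (nat_lit 188)) (XT.lf (nat_lit 0) (nat_lit 2589579116) (nat_lit 228) (nat_lit 11145754421) (nat_lit 76) (nat_lit 12350997271) (nat_lit 14) (nat_lit 5) (nat_lit 17) (nat_lit 5) (nat_lit 15) (nat_lit 4) (nat_lit 358) (nat_lit 235) (nat_lit 187))) (XT.nd (nat_lit 78) (nat_lit 76) (nat_lit 0) (XT.lf (nat_lit 0) (nat_lit 5916116691) (nat_lit 228) (nat_lit 4545407796) (nat_lit 76) (nat_lit 16289181335) (nat_lit 14) (nat_lit 5) (nat_lit 17) (nat_lit 5) (nat_lit 15) (nat_lit 4) (nat_lit 359) (nat_lit 235) (nat_lit 186)) (XT.lf (nat_lit 0) (nat_lit 2231323274) (nat_lit 76) (nat_lit 7096031475) (nat_lit 152) (nat_lit 18108127526) (nat_lit 13) (nat_lit 5) (nat_lit 14) (nat_lit 5) (nat_lit 15) (nat_lit 4) (nat_lit 360) (nat_lit 235) (nat_lit 185))))) (XT.nd (nat_lit 234) (nat_lit 152) (nat_lit 0) (XT.nd (nat_lit 78) (nat_lit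 0) (nat_lit 0) (XT.lf (nat_lit 0) (nat_lit 9240004469) (nat_lit 76) (nat_lit 3610724817) (nat_lit 152) (nat_lit 15289795570) (nat_lit 13) (nat_lit 5) (nat_lit 14) (nat_lit 5) (nat_lit 15) (nat_lit 4) (nat_lit 361) (nat_lit 235) (nat_lit 184)) (XT.nd (nat_lit 78) (nat_lit 0) (nat_lit 0) (XT.lf (nat_lit 0) (nat_lit 16396297350) (nat_lit 76) (nat_lit 48458806) (nat_lit 152) (nat_lit 12423030350) (nat_lit 13) (nat_lit 5) (nat_lit 14) (nat_lit 5) (nat_lit 15) (nat_lit 4) (nat_lit 362) (nat_lit 235) (nat_lit 183)) (XT.lf (nat_lit 0) (nat_lit 20147122336) (nat_lit 152) (nat_lit 5945994273) (nat_lit 0) (nat_lit 3523749689) (nat_lit 13) (nat_lit 5) (nat_lit 15) (nat_lit 4) (nat_lit 13) (nat_lit 4) (nat_lit 363) (nat_lit 235) (nat_lit 182)))) (XT.nd (nat_lit 156) (nat_lit 76) (nat_lit 0) (XT.nd (nat_lit 78) (nat_lit 0) (nat_lit 0) (XT.lf (nat_lit 0) (nat_lit 729206230) (nat_lit 76) (nat_lit 23205555607)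 (nat_lit 76) (nat_lit 6454445964) (nat_lit 12) (nat_lit 4) (nat_lit 13) (nat_lit 5) (nat_lit 13) (nat_lit 4) (nat_lit 364) (nat_lit 235) (nat_lit 181)) (XT.lf (nat_lit 0) (nat_lit 7667327290) (nat_lit 76) (nat_lit 20195859331) (nat_lit 76) (nat_lit 3320733187) (nat_lit 12) (nat_lit 4) (nat_lit 13) (nat_lit 5) (nat_lit 13) (nat_lit 4) (nat_lit 365) (nat_lit 235) (nat_lit 180))) (XT.nd (nat_lit 78) (nat_lit 76) (nat_lit 0) (XT.lf (nat_lit 0) (nat_lit 14756094396) (nat_lit 76) (nat_lit 17121440831) (nat_lit 76) (nat_lit 125910317) (nat_lit 12) (nat_lit 4) (nat_lit 13) (nat_lit 5) (nat_lit 13) (nat_lit 4) (nat_lit 366) (nat_lit 235) (nat_lit 179)) (XT.lf (nat_lit 0) (nat_lit 3071681746) (nat_lit 152) (nat_lit 10876914015) (nat_lit 76) (nat_lit 18899001907) (nat_lit 11) (nat_lit 5) (nat_lit 13) (nat_lit 5) (nat_lit 12) (nat_lit 4) (nat_lit 367) (nat_lit 235) (nat_lit 178))))))))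
noncomputable def xc48 : XT := (XT.nd (nat_lit 2028) (nat_lit 152) (nat_lit 0) (XT.nd (nat_lit 1014) (nat_lit 152) (nat_lit 0) (XT.nd (nat_lit 468) (nat_lit 152) (nat_lit 0) (XT.nd (nat_lit 234) (nat_lit 0) (nat_lit 0) (XT.nd (nat_lit 78) (nat_lit 76) (nat_lit 0) (XT.lf (nat_lit 0) (nat_lit 6332263444) (nat_lit 152) (nat_lit 4371425833) (nat_lit 76) (nat_lit 23014273176) (nat_lit 11) (nat_lit 5) (nat_lit 13) (nat_lit 5) (nat_lit 12) (nat_lit 4) (nat_lit 368) (nat_lit 235) (nat_lit 177)) (XT.nd (nat_lit 78) (nat_lit 0) (nat_lit 0) (XT.lf (nat_lit 0) (nat_lit 2321305153) (nat_lit 76) (nat_lit 7362149444) (nat_lit 152) (nat_lit 24931212711) (nat_lit 10) (nat_lit 5) (nat_lit 11) (nat_lit 5) (nat_lit 12) (nat_lit 4) (nat_lit 369) (nat_lit 235) (nat_lit 176)) (XT.lf (nat_lit 0) (nat_lit 9251730903) (nat_lit 76) (nat_lit 3898424913) (nat_lit 152) (nat_lit 22387680775) (nat_lit 10) (nat_lit 5) (nat_lit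 11) (nat_lit 5) (nat_lit 12) (nat_lit 4) (nat_lit 370) (nat_lit 235) (nat_lit 175)))) (XT.nd (nat_lit 78) (nat_lit 0) (nat_lit 0) (XT.lf (nat_lit 0) (nat_lit 16338907182) (nat_lit 76) (nat_lit 353631957) (nat_lit 152) (nat_lit 19797023528) (nat_lit 10) (nat_lit 5) (nat_lit 11) (nat_lit 5) (nat_lit 12) (nat_lit 4) (nat_lit 371) (nat_lit 235) (nat_lit 174)) (XT.nd (nat_lit 78) (nat_lit 0) (nat_lit 0) (XT.lf (nat_lit 0) (nat_lit 20345184299) (nat_lit 152) (nat_lit 13913134918) (nat_lit 0) (nat_lit 3211413391) (nat_lit 10) (nat_lit 5) (nat_lit 12) (nat_lit 4) (nat_lit 10) (nat_lit 4) (nat_lit 372) (nat_lit 235) (nat_lit 173)) (XT.lf (nat_lit 0) (nat_lit 24084009832) (nat_lit 152) (nat_lit 7540820632) (nat_lit 0) (nat_lit 6855190602) (nat_lit 10) (nat_lit 5) (nat_lit 12) (nat_lit 4) (nat_lit 10) (nat_lit 4) (nat_lit 373) (nat_lit 235) (nat_lit 172))))) (XT.nd (nat_lit 234) (nat_lit 76) (nat_lit 0)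 (XT.nd (nat_lit 78) (nat_lit 76) (nat_lit 0) (XT.lf (nat_lit 0) (nat_lit 27908883346) (nat_lit 152) (nat_lit 1024745258) (nat_lit 0) (nat_lit 10587784193) (nat_lit 10) (nat_lit 5) (nat_lit 12) (nat_lit 4) (nat_lit 10) (nat_lit 4) (nat_lit 374) (nat_lit 235) (nat_lit 171)) (XT.nd (nat_lit 78) (nat_lit 0) (nat_lit 0) (XT.lf (nat_lit 0) (nat_lit 5753047539) (nat_lit 76) (nat_lit 26125401238) (nat_lit 76) (nat_lit 8714709926) (nat_lit 9) (nat_lit 4) (nat_lit 10) (nat_lit 5) (nat_lit 10) (nat_lit 4) (nat_lit 375) (nat_lit 235) (nat_lit 170)) (XT.lf (nat_lit 0) (nat_lit 12709604129) (nat_lit 76) (nat_lit 23242789279) (nat_lit 76) (nat_lit 5745115288) (nat_lit 9) (nat_lit 4) (nat_lit 10) (nat_lit 5) (nat_lit 10) (nat_lit 4) (nat_lit 376) (nat_lit 235) (nat_lit 169)))) (XT.nd (nat_lit 156) (nat_lit 0) (nat_lit 0) (XT.nd (nat_lit 78) (nat_lit 76) (nat_lit 0) (XT.lf (nat_lit 0) (nat_lit 19830608615) (nat_lit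 76) (nat_lit 20293621858) (nat_lit 76) (nat_lit 2711498665) (nat_lit 9) (nat_lit 4) (nat_lit 10) (nat_lit 5) (nat_lit 10) (nat_lit 4) (nat_lit 377) (nat_lit 235) (nat_lit 168)) (XT.lf (nat_lit 0) (nat_lit 381203968) (nat_lit 152) (nat_lit 16890268653) (nat_lit 76) (nat_lit 26737229854) (nat_lit 8) (nat_lit 5) (nat_lit 10) (nat_lit 5) (nat_lit 9) (nat_lit 4) (nat_lit 378) (nat_lit 235) (nat_lit 167))) (XT.nd (nat_lit 78) (nat_lit 0) (nat_lit 0) (XT.lf (nat_lit 0) (nat_lit 3489023319) (nat_lit 152) (nat_lit 10660996843) (nat_lit 76) (nat_lit 31066743740) (nat_lit 8) (nat_lit 5) (nat_lit 10) (nat_lit 5) (nat_lit 9) (nat_lit 4) (nat_lit 379) (nat_lit 235) (nat_lit 166)) (XT.lf (nat_lit 0) (nat_lit 6667586063) (nat_lit 152) (nat_lit 4285797457) (nat_lit 76) (nat_lit 35508367426) (nat_lit 8) (nat_lit 5) (nat_lit 10) (nat_lit 5) (nat_lit 9) (nat_lit 4) (nat_lit 380) (nat_lit 235) (nat_lit 165))))))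 (XT.nd (nat_lit 468) (nat_lit 76) (nat_lit 0) (XT.nd (nat_lit 234) (nat_lit 0) (nat_lit 0) (XT.nd (nat_lit 78) (nat_lit 0) (nat_lit 0) (XT.lf (nat_lit 0) (nat_lit 2285498370) (nat_lit 76) (nat_lit 7656140820) (nat_lit 152) (nat_lit 37802453181) (nat_lit 7) (nat_lit 5) (nat_lit 8) (nat_lit 5) (nat_lit 9) (nat_lit 4) (nat_lit 381) (nat_lit 235) (nat_lit 164)) (XT.nd (nat_lit 78) (nat_lit 0) (nat_lit 0) (XT.lf (nat_lit 0) (nat_lit 9102419659) (nat_lit 76) (nat_lit 4233193873) (nat_lit 152) (nat_lit 35728648039) (nat_lit 7) (nat_lit 5) (nat_lit 8) (nat_lit 5) (nat_lit 9) (nat_lit 4) (nat_lit 382) (nat_lit 235) (nat_lit 163)) (XT.lf (nat_lit 0) (nat_lit 16085627169) (nat_lit 76) (nat_lit 724829904) (nat_lit 152) (nat_lit 33614215546) (nat_lit 7) (nat_lit 5) (nat_lit 8) (nat_lit 5) (nat_lit 9) (nat_lit 4) (nat_lit 383) (nat_lit 235) (nat_lit 162)))) (XT.nd (nat_lit 78) (nat_lit 0) (nat_lit 0) (XT.lf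 (nat_lit 0) (nat_lit 20396813665) (nat_lit 152) (nat_lit 28612899074) (nat_lit 0) (nat_lit 2815973257) (nat_lit 7) (nat_lit 5) (nat_lit 9) (nat_lit 4) (nat_lit 7) (nat_lit 4) (nat_lit 384) (nat_lit 235) (nat_lit 161)) (XT.nd (nat_lit 78) (nat_lit 0) (nat_lit 0) (XT.lf (nat_lit 0) (nat_lit 24078033581) (nat_lit 152) (nat_lit 22758615919) (nat_lit 0) (nat_lit 6432469892) (nat_lit 7) (nat_lit 5) (nat_lit 9) (nat_lit 4) (nat_lit 7) (nat_lit 4) (nat_lit 385) (nat_lit 235) (nat_lit 160)) (XT.lf (nat_lit 0) (nat_lit 27850365914) (nat_lit 152) (nat_lit 16764113084) (nat_lit 0) (nat_lit 10141964088) (nat_lit 7) (nat_lit 5) (nat_lit 9) (nat_lit 4) (nat_lit 7) (nat_lit 4) (nat_lit 386) (nat_lit 235) (nat_lit 159))))) (XT.nd (nat_lit 234) (nat_lit 0) (nat_lit 0) (XT.nd (nat_lit 78) (nat_lit 76) (nat_lit 0) (XT.lf (nat_lit 0) (nat_lit 31717106877) (nat_lit 152) (nat_lit 10624152654) (nat_lit 0) (nat_lit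 13947697150) (nat_lit 7) (nat_lit 5) (nat_lit 9) (nat_lit 4) (nat_lit 7) (nat_lit 4) (nat_lit 387) (nat_lit 235) (nat_lit 158)) (XT.nd (nat_lit 78) (nat_lit 76) (nat_lit 0) (XT.lf (nat_lit 0) (nat_lit 35681635174) (nat_lit 152) (nat_lit 4333369614) (nat_lit 0) (nat_lit 17852994475) (nat_lit 7) (nat_lit 5) (nat_lit 9) (nat_lit 4) (nat_lit 7) (nat_lit 4) (nat_lit 388) (nat_lit 235) (nat_lit 157)) (XT.lf (nat_lit 0) (nat_lit 2155800263) (nat_lit 76) (nat_lit 37612337564) (nat_lit 76) (nat_lit 19726191068) (nat_lit 6) (nat_lit 4) (nat_lit 7) (nat_lit 5) (nat_lit 7) (nat_lit 4) (nat_lit 389) (nat_lit 235) (nat_lit 156)))) (XT.nd (nat_lit 156) (nat_lit 0) (nat_lit 0) (XT.nd (nat_lit 78) (nat_lit 0) (nat_lit 0) (XT.lf (nat_lit 0) (nat_lit 8896388672) (nat_lit 76) (nat_lit 35107127707) (nat_lit 76) (nat_lit 17165150339) (nat_lit 6) (nat_lit 4) (nat_lit 7) (nat_lit 5) (nat_lit 7) (nat_lit 4) (nat_lit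 390) (nat_lit 235) (nat_lit 155)) (XT.lf (nat_lit 0) (nat_lit 15808042895) (nat_lit 76) (nat_lit 32540944734) (nat_lit 76) (nat_lit 14544762637) (nat_lit 6) (nat_lit 4) (nat_lit 7) (nat_lit 5) (nat_lit 7) (nat_lit 4) (nat_lit 391) (nat_lit 235) (nat_lit 154))) (XT.nd (nat_lit 78) (nat_lit 0) (nat_lit 0) (XT.lf (nat_lit 0) (nat_lit 22896802240) (nat_lit 76) (nat_lit 29911546349) (nat_lit 76) (nat_lit 11862738301) (nat_lit 6) (nat_lit 4) (nat_lit 7) (nat_lit 5) (nat_lit 7) (nat_lit 4) (nat_lit 392) (nat_lit 235) (nat_lit 153)) (XT.lf (nat_lit 0) (nat_lit 30168860770) (nat_lit 76) (nat_lit 27216635021) (nat_lit 76) (nat_lit 9116733816) (nat_lit 6) (nat_lit 4) (nat_lit 7) (nat_lit 5) (nat_lit 7) (nat_lit 4) (nat_lit 393) (nat_lit 235) (nat_lit 152))))))) (XT.nd (nat_lit 1014) (nat_lit 0) (nat_lit 0) (XT.nd (nat_lit 468) (nat_lit 76) (nat_lit 0) (XT.nd (nat_lit 234) (nat_lit 76) (nat_lit 0) (XT.nd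 (nat_lit 78) (nat_lit 0) (nat_lit 0) (XT.lf (nat_lit 0) (nat_lit 37630572711) (nat_lit 76) (nat_lit 24453855971) (nat_lit 76) (nat_lit 6304349761) (nat_lit 6) (nat_lit 4) (nat_lit 7) (nat_lit 5) (nat_lit 7) (nat_lit 4) (nat_lit 394) (nat_lit 235) (nat_lit 151)) (XT.nd (nat_lit 78) (nat_lit 0) (nat_lit 0) (XT.lf (nat_lit 0) (nat_lit 45288458004) (nat_lit 76) (nat_lit 21620795122) (nat_lit 76) (nat_lit 3423128712) (nat_lit 6) (nat_lit 4) (nat_lit 7) (nat_lit 5) (nat_lit 7) (nat_lit 4) (nat_lit 395) (nat_lit 235) (nat_lit 150)) (XT.lf (nat_lit 0) (nat_lit 53149208006) (nat_lit 76) (nat_lit 18714976984) (nat_lit 76) (nat_lit 470553097) (nat_lit 6) (nat_lit 4) (nat_lit 7) (nat_lit 5) (nat_lit 7) (nat_lit 4) (nat_lit 396) (nat_lit 235) (nat_lit 149)))) (XT.nd (nat_lit 78) (nat_lit 0) (nat_lit 0) (XT.lf (nat_lit 0) (nat_lit 2506081075) (nat_lit 152) (nat_lit 13202474910) (nat_lit 76) (nat_lit 58688303753)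 (nat_lit 5) (nat_lit 5) (nat_lit 7) (nat_lit 5) (nat_lit 6) (nat_lit 4) (nat_lit 397) (nat_lit 235) (nat_lit 148)) (XT.nd (nat_lit 78) (nat_lit 0) (nat_lit 0) (XT.lf (nat_lit 0) (nat_lit 5548617740) (nat_lit 152) (nat_lit 7070198886) (nat_lit 76) (nat_lit 63902311965) (nat_lit 5) (nat_lit 5) (nat_lit 7) (nat_lit 5) (nat_lit 6) (nat_lit 4) (nat_lit 398) (nat_lit 235) (nat_lit 147)) (XT.lf (nat_lit 0) (nat_lit 8668897608) (nat_lit 152) (nat_lit 778820467) (nat_lit 76) (nat_lit 69261818426) (nat_lit 5) (nat_lit 5) (nat_lit 7) (nat_lit 5) (nat_lit 6) (nat_lit 4) (nat_lit 399) (nat_lit 235) (nat_lit 146))))) (XT.nd (nat_lit 234) (nat_lit 0) (nat_lit 0) (XT.nd (nat_lit 78) (nat_lit 0) (nat_lit 0) (XT.lf (nat_lit 0) (nat_lit 5790144237) (nat_lit 76) (nat_lit 6135161310) (nat_lit 152) (nat_lit 69037020371) (nat_lit 4) (nat_lit 5) (nat_lit 5) (nat_lit 5) (nat_lit 6) (nat_lit 4) (nat_lit 400) (nat_lit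 235) (nat_lit 145)) (XT.nd (nat_lit 78) (nat_lit 0) (nat_lit 0) (XT.lf (nat_lit 0) (nat_lit 12548237987) (nat_lit 76) (nat_lit 2726046456) (nat_lit 152) (nat_lit 68008572929) (nat_lit 4) (nat_lit 5) (nat_lit 5) (nat_lit 5) (nat_lit 6) (nat_lit 4) (nat_lit 401) (nat_lit 235) (nat_lit 144)) (XT.lf (nat_lit 0) (nat_lit 18718572376) (nat_lit 152) (nat_lit 66194969004) (nat_lit 0) (nat_lit 759622779) (nat_lit 4) (nat_lit 5) (nat_lit 6) (nat_lit 4) (nat_lit 4) (nat_lit 4) (nat_lit 402) (nat_lit 235) (nat_lit 143)))) (XT.nd (nat_lit 156) (nat_lit 0) (nat_lit 0) (XT.nd (nat_lit 78) (nat_lit 0) (nat_lit 0) (XT.lf (nat_lit 0) (nat_lit 22280840169) (nat_lit 152) (nat_lit 61568925103) (nat_lit 0) (nat_lit 4284979789) (nat_lit 4) (nat_lit 5) (nat_lit 6) (nat_lit 4) (nat_lit 4) (nat_lit 4) (nat_lit 403) (nat_lit 235) (nat_lit 142)) (XT.lf (nat_lit 0) (nat_lit 25937996056) (nat_lit 152) (nat_lit 56826241083)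 (nat_lit 0) (nat_lit 7906299964) (nat_lit 4) (nat_lit 5) (nat_lit 6) (nat_lit 4) (nat_lit 4) (nat_lit 4) (nat_lit 404) (nat_lit 235) (nat_lit 141))) (XT.nd (nat_lit 78) (nat_lit 0) (nat_lit 0) (XT.lf (nat_lit 0) (nat_lit 29693235612) (nat_lit 152) (nat_lit 51962772850) (nat_lit 0) (nat_lit 11626747567) (nat_lit 4) (nat_lit 5) (nat_lit 6) (nat_lit 4) (nat_lit 4) (nat_lit 4) (nat_lit 405) (nat_lit 235) (nat_lit 140)) (XT.lf (nat_lit 0) (nat_lit 33549840114) (nat_lit 152) (nat_lit 46974270772) (nat_lit 0) (nat_lit 15449573473) (nat_lit 4) (nat_lit 5) (nat_lit 6) (nat_lit 4) (nat_lit 4) (nat_lit 4) (nat_lit 406) (nat_lit 235) (nat_lit 139)))))) (XT.nd (nat_lit 33228) (nat_lit 0) (nat_lit 4028) (XT.nd (nat_lit 32994) (nat_lit 0) (nat_lit 5396) (XT.nd (nat_lit 78) (nat_lit 0) (nat_lit 0) (XT.lf (nat_lit 0) (nat_lit 37511179409) (nat_lit 152) (nat_lit 41856375964) (nat_lit 0) (nat_lit 19378118016)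 (nat_lit 4) (nat_lit 5) (nat_lit 6) (nat_lit 4) (nat_lit 4) (nat_lit 4) (nat_lit 407) (nat_lit 235) (nat_lit 138)) (XT.nd (nat_lit 32838) (nat_lit 0) (nat_lit 6156) (XT.lf (nat_lit 0) (nat_lit 41580714863) (nat_lit 152) (nat_lit 36604616478) (nat_lit 0) (nat_lit 23415813904) (nat_lit 4) (nat_lit 5) (nat_lit 6) (nat_lit 4) (nat_lit 4) (nat_lit 4) (nat_lit 408) (nat_lit 235) (nat_lit 137)) (XT.lf (nat_lit 0) (nat_lit 3945474167) (nat_lit 380) (nat_lit 366369266) (nat_lit 380) (nat_lit 366369266) (nat_lit 85) (nat_lit 4) (nat_lit 90) (nat_lit 5) (nat_lit 90) (nat_lit 4) (nat_lit 308) (nat_lit 236) (nat_lit 236)))) (XT.nd (nat_lit 78) (nat_lit 380) (nat_lit 0) (XT.lf (nat_lit 0) (nat_lit 2925976683) (nat_lit 380) (nat_lit 4540811777) (nat_lit 0) (nat_lit 2027361962) (nat_lit 80) (nat_lit 5) (nat_lit 85) (nat_lit 4) (nat_lit 80) (nat_lit 4) (nat_lit 309) (nat_lit 236) (nat_lit 235)) (XT.nd (nat_lit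 78) (nat_lit 76) (nat_lit 0) (XT.lf (nat_lit 0) (nat_lit 1852750027) (nat_lit 304) (nat_lit 4777837486) (nat_lit 304) (nat_lit 3006781289) (nat_lit 76) (nat_lit 4) (nat_lit 80) (nat_lit 5) (nat_lit 80) (nat_lit 4) (nat_lit 310) (nat_lit 236) (nat_lit 234)) (XT.lf (nat_lit 0) (nat_lit 606114485) (nat_lit 380) (nat_lit 1387674351) (nat_lit 76) (nat_lit 7792276144) (nat_lit 75) (nat_lit 5) (nat_lit 80) (nat_lit 5) (nat_lit 76) (nat_lit 4) (nat_lit 311) (nat_lit 236) (nat_lit 233))))) (XT.nd (nat_lit 234) (nat_lit 760) (nat_lit 0) (XT.nd (nat_lit 78) (nat_lit 380) (nat_lit 0) (XT.lf (nat_lit 0) (nat_lit 4239098806) (nat_lit 304) (nat_lit 4801302799) (nat_lit 0) (nat_lit 898859463) (nat_lit 72) (nat_lit 5) (nat_lit 76) (nat_lit 4) (nat_lit 72) (nat_lit 4) (nat_lit 312) (nat_lit 236) (nat_lit 232)) (XT.nd (nat_lit 78) (nat_lit 76) (nat_lit 0) (XT.lf (nat_lit 0) (nat_lit 1678188780) (nat_lit 304) (nat_lit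 6267702683) (nat_lit 304) (nat_lit 2152310388) (nat_lit 68) (nat_lit 4) (nat_lit 72) (nat_lit 5) (nat_lit 72) (nat_lit 4) (nat_lit 313) (nat_lit 236) (nat_lit 231)) (XT.lf (nat_lit 0) (nat_lit 1436790851) (nat_lit 380) (nat_lit 1951282547) (nat_lit 76) (nat_lit 6874568654) (nat_lit 67) (nat_lit 5) (nat_lit 72) (nat_lit 5) (nat_lit 68) (nat_lit 4) (nat_lit 314) (nat_lit 236) (nat_lit 230)))) (XT.nd (nat_lit 156) (nat_lit 304) (nat_lit 0) (XT.nd (nat_lit 78) (nat_lit 228) (nat_lit 0) (XT.lf (nat_lit 0) (nat_lit 4658387884) (nat_lit 228) (nat_lit 394327318) (nat_lit 304) (nat_lit 5379874128) (nat_lit 64) (nat_lit 5) (nat_lit 67) (nat_lit 5) (nat_lit 68) (nat_lit 4) (nat_lit 315) (nat_lit 236) (nat_lit 229)) (XT.lf (nat_lit 0) (nat_lit 764537254) (nat_lit 228) (nat_lit 7984152096) (nat_lit 228) (nat_lit 1859881478) (nat_lit 61) (nat_lit 4) (nat_lit 64) (nat_lit 5) (nat_lit 64) (nat_lit 4) (nat_lit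 316) (nat_lit 236) (nat_lit 228))) (XT.nd (nat_lit 78) (nat_lit 228) (nat_lit 0) (XT.lf (nat_lit 0) (nat_lit 1712841740) (nat_lit 304) (nat_lit 3315855629) (nat_lit 76) (nat_lit 5761255823) (nat_lit 60) (nat_lit 5) (nat_lit 64) (nat_lit 5) (nat_lit 61) (nat_lit 4) (nat_lit 317) (nat_lit 236) (nat_lit 227)) (XT.lf (nat_lit 0) (nat_lit 3334310544) (nat_lit 228) (nat_lit 1974267436) (nat_lit 304) (nat_lit 5669126139) (nat_lit 57) (nat_lit 5) (nat_lit 60) (nat_lit 5) (nat_lit 61) (nat_lit 4) (nat_lit 318) (nat_lit 236) (nat_lit 226))))))))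
noncomputable def xc49 : XT := (XT.nd (nat_lit 2028) (nat_lit 988) (nat_lit 0) (XT.nd (nat_lit 1014) (nat_lit 988) (nat_lit 0) (XT.nd (nat_lit 468) (nat_lit 836) (nat_lit 0) (XT.nd (nat_lit 234) (nat_lit 304) (nat_lit 0) (XT.nd (nat_lit 78) (nat_lit 456) (nat_lit 0) (XT.lf (nat_lit 0) (nat_lit 8979176152) (nat_lit 304) (nat_lit 1051054668) (nat_lit 0) (nat_lit 1141920771) (nat_lit 57) (nat_lit 5) (nat_lit 61) (nat_lit 4) (nat_lit 57) (nat_lit 4) (nat_lit 319) (nat_lit 236) (nat_lit 225)) (XT.nd (nat_lit 78) (nat_lit 152) (nat_lit 0) (XT.lf (nat_lit 0) (nat_lit 1358952976) (nat_lit 304) (nat_lit 5672671031) (nat_lit 76) (nat_lit 4340520820) (nat_lit 53) (nat_lit 5) (nat_lit 57) (nat_lit 5) (nat_lit 54) (nat_lit 4) (nat_lit 320) (nat_lit 236) (nat_lit 224)) (XT.lf (nat_lit 0) (nat_lit 975245490) (nat_lit 152) (nat_lit 3942674538) (nat_lit 228) (nat_lit 6661297188) (nat_lit 51) (nat_lit 5) (nat_lit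 53) (nat_lit 5) (nat_lit 54) (nat_lit 4) (nat_lit 321) (nat_lit 236) (nat_lit 223)))) (XT.nd (nat_lit 78) (nat_lit 304) (nat_lit 0) (XT.lf (nat_lit 0) (nat_lit 7821831041) (nat_lit 152) (nat_lit 744646886) (nat_lit 228) (nat_lit 3226604687) (nat_lit 51) (nat_lit 5) (nat_lit 53) (nat_lit 5) (nat_lit 54) (nat_lit 4) (nat_lit 322) (nat_lit 236) (nat_lit 222)) (XT.nd (nat_lit 78) (nat_lit 0) (nat_lit 0) (XT.lf (nat_lit 0) (nat_lit 283269140) (nat_lit 304) (nat_lit 9242241157) (nat_lit 76) (nat_lit 2488479334) (nat_lit 47) (nat_lit 5) (nat_lit 51) (nat_lit 5) (nat_lit 48) (nat_lit 4) (nat_lit 323) (nat_lit 236) (nat_lit 221)) (XT.lf (nat_lit 0) (nat_lit 3809017386) (nat_lit 304) (nat_lit 2597439637) (nat_lit 76) (nat_lit 5834905479) (nat_lit 47) (nat_lit 5) (nat_lit 51) (nat_lit 5) (nat_lit 48) (nat_lit 4) (nat_lit 324) (nat_lit 236) (nat_lit 220))))) (XT.nd (nat_lit 234) (nat_lit 380) (nat_lit 0)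 (XT.nd (nat_lit 78) (nat_lit 304) (nat_lit 0) (XT.lf (nat_lit 0) (nat_lit 4216511713) (nat_lit 152) (nat_lit 3194226132) (nat_lit 228) (nat_lit 5065770908) (nat_lit 45) (nat_lit 5) (nat_lit 47) (nat_lit 5) (nat_lit 48) (nat_lit 4) (nat_lit 325) (nat_lit 236) (nat_lit 219)) (XT.nd (nat_lit 78) (nat_lit 304) (nat_lit 0) (XT.lf (nat_lit 0) (nat_lit 11078340194) (nat_lit 228) (nat_lit 1544259143) (nat_lit 0) (nat_lit 97431643) (nat_lit 45) (nat_lit 5) (nat_lit 48) (nat_lit 4) (nat_lit 45) (nat_lit 4) (nat_lit 326) (nat_lit 236) (nat_lit 218)) (XT.lf (nat_lit 0) (nat_lit 1863612299) (nat_lit 304) (nat_lit 7653096246) (nat_lit 76) (nat_lit 3453201377) (nat_lit 41) (nat_lit 5) (nat_lit 45) (nat_lit 5) (nat_lit 42) (nat_lit 4) (nat_lit 327) (nat_lit 236) (nat_lit 217)))) (XT.nd (nat_lit 156) (nat_lit 228) (nat_lit 0) (XT.nd (nat_lit 78) (nat_lit 152) (nat_lit 0) (XT.lf (nat_lit 0) (nat_lit 5389314218)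 (nat_lit 304) (nat_lit 937980246) (nat_lit 76) (nat_lit 6901107754) (nat_lit 41) (nat_lit 5) (nat_lit 45) (nat_lit 5) (nat_lit 42) (nat_lit 4) (nat_lit 328) (nat_lit 236) (nat_lit 216)) (XT.lf (nat_lit 0) (nat_lit 5988526020) (nat_lit 152) (nat_lit 3024280643) (nat_lit 228) (nat_lit 4482132232) (nat_lit 39) (nat_lit 5) (nat_lit 41) (nat_lit 5) (nat_lit 42) (nat_lit 4) (nat_lit 329) (nat_lit 236) (nat_lit 215))) (XT.nd (nat_lit 78) (nat_lit 228) (nat_lit 0) (XT.lf (nat_lit 0) (nat_lit 12693150563) (nat_lit 228) (nat_lit 738322852) (nat_lit 0) (nat_lit 339602587) (nat_lit 39) (nat_lit 5) (nat_lit 42) (nat_lit 4) (nat_lit 39) (nat_lit 4) (nat_lit 330) (nat_lit 236) (nat_lit 214)) (XT.lf (nat_lit 0) (nat_lit 2407814173) (nat_lit 228) (nat_lit 7858448807) (nat_lit 76) (nat_lit 3787776070) (nat_lit 36) (nat_lit 5) (nat_lit 39) (nat_lit 5) (nat_lit 37) (nat_lit 4) (nat_lit 331) (nat_lit 236) (nat_lit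 213)))))) (XT.nd (nat_lit 468) (nat_lit 456) (nat_lit 0) (XT.nd (nat_lit 234) (nat_lit 380) (nat_lit 0) (XT.nd (nat_lit 78) (nat_lit 152) (nat_lit 0) (XT.lf (nat_lit 0) (nat_lit 5921018557) (nat_lit 228) (nat_lit 1107967795) (nat_lit 76) (nat_lit 7317892324) (nat_lit 36) (nat_lit 5) (nat_lit 39) (nat_lit 5) (nat_lit 37) (nat_lit 4) (nat_lit 332) (nat_lit 236) (nat_lit 212)) (XT.nd (nat_lit 78) (nat_lit 0) (nat_lit 0) (XT.lf (nat_lit 0) (nat_lit 5857770986) (nat_lit 152) (nat_lit 3677019072) (nat_lit 228) (nat_lit 5113901601) (nat_lit 34) (nat_lit 5) (nat_lit 36) (nat_lit 5) (nat_lit 37) (nat_lit 4) (nat_lit 333) (nat_lit 236) (nat_lit 211)) (XT.lf (nat_lit 0) (nat_lit 12954627031) (nat_lit 152) (nat_lit 253212477) (nat_lit 228) (nat_lit 1753235617) (nat_lit 34) (nat_lit 5) (nat_lit 36) (nat_lit 5) (nat_lit 37) (nat_lit 4) (nat_lit 334) (nat_lit 236) (nat_lit 210)))) (XT.nd (nat_lit 78) (nat_lit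 152) (nat_lit 0) (XT.lf (nat_lit 0) (nat_lit 1695157152) (nat_lit 228) (nat_lit 10351309180) (nat_lit 76) (nat_lit 3235303536) (nat_lit 31) (nat_lit 5) (nat_lit 34) (nat_lit 5) (nat_lit 32) (nat_lit 4) (nat_lit 335) (nat_lit 236) (nat_lit 209)) (XT.nd (nat_lit 78) (nat_lit 152) (nat_lit 0) (XT.lf (nat_lit 0) (nat_lit 5175949267) (nat_lit 228) (nat_lit 3614234523) (nat_lit 76) (nat_lit 6822493795) (nat_lit 31) (nat_lit 5) (nat_lit 34) (nat_lit 5) (nat_lit 32) (nat_lit 4) (nat_lit 336) (nat_lit 236) (nat_lit 208)) (XT.lf (nat_lit 0) (nat_lit 3292801518) (nat_lit 152) (nat_lit 5442945184) (nat_lit 228) (nat_lit 7218565732) (nat_lit 29) (nat_lit 5) (nat_lit 31) (nat_lit 5) (nat_lit 32) (nat_lit 4) (nat_lit 337) (nat_lit 236) (nat_lit 207))))) (XT.nd (nat_lit 234) (nat_lit 228) (nat_lit 0) (XT.nd (nat_lit 78) (nat_lit 228) (nat_lit 0) (XT.lf (nat_lit 0) (nat_lit 10385676783) (nat_lit 152) (nat_lit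 1996831733) (nat_lit 228) (nat_lit 3924318963) (nat_lit 29) (nat_lit 5) (nat_lit 31) (nat_lit 5) (nat_lit 32) (nat_lit 4) (nat_lit 338) (nat_lit 236) (nat_lit 206)) (XT.nd (nat_lit 78) (nat_lit 76) (nat_lit 0) (XT.lf (nat_lit 0) (nat_lit 930665517) (nat_lit 152) (nat_lit 15176828080) (nat_lit 152) (nat_lit 563394969) (nat_lit 27) (nat_lit 4) (nat_lit 29) (nat_lit 5) (nat_lit 29) (nat_lit 4) (nat_lit 339) (nat_lit 236) (nat_lit 205)) (XT.lf (nat_lit 0) (nat_lit 2867040342) (nat_lit 228) (nat_lit 9077081999) (nat_lit 76) (nat_lit 5100189277) (nat_lit 26) (nat_lit 5) (nat_lit 29) (nat_lit 5) (nat_lit 27) (nat_lit 4) (nat_lit 340) (nat_lit 236) (nat_lit 204)))) (XT.nd (nat_lit 156) (nat_lit 152) (nat_lit 0) (XT.nd (nat_lit 78) (nat_lit 76) (nat_lit 0) (XT.lf (nat_lit 0) (nat_lit 6335750816) (nat_lit 228) (nat_lit 2311076228) (nat_lit 76) (nat_lit 8783574618) (nat_lit 26) (nat_lit 5) (nat_lit 29)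 (nat_lit 5) (nat_lit 27) (nat_lit 4) (nat_lit 341) (nat_lit 236) (nat_lit 203)) (XT.lf (nat_lit 0) (nat_lit 4660056490) (nat_lit 76) (nat_lit 5241500050) (nat_lit 152) (nat_lit 7926758126) (nat_lit 25) (nat_lit 5) (nat_lit 26) (nat_lit 5) (nat_lit 27) (nat_lit 4) (nat_lit 342) (nat_lit 236) (nat_lit 202))) (XT.nd (nat_lit 78) (nat_lit 152) (nat_lit 0) (XT.lf (nat_lit 0) (nat_lit 11799780743) (nat_lit 76) (nat_lit 1746794154) (nat_lit 152) (nat_lit 4692453379) (nat_lit 25) (nat_lit 5) (nat_lit 26) (nat_lit 5) (nat_lit 27) (nat_lit 4) (nat_lit 343) (nat_lit 236) (nat_lit 201)) (XT.lf (nat_lit 0) (nat_lit 395000785) (nat_lit 152) (nat_lit 16877595631) (nat_lit 152) (nat_lit 1390346784) (nat_lit 23) (nat_lit 4) (nat_lit 25) (nat_lit 5) (nat_lit 25) (nat_lit 4) (nat_lit 344) (nat_lit 236) (nat_lit 200))))))) (XT.nd (nat_lit 1014) (nat_lit 380) (nat_lit 0) (XT.nd (nat_lit 468) (nat_lit 304) (nat_lit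 0) (XT.nd (nat_lit 234) (nat_lit 152) (nat_lit 0) (XT.nd (nat_lit 78) (nat_lit 76) (nat_lit 0) (XT.lf (nat_lit 0) (nat_lit 2004707933) (nat_lit 228) (nat_lit 11655320181) (nat_lit 76) (nat_lit 5438001671) (nat_lit 22) (nat_lit 5) (nat_lit 25) (nat_lit 5) (nat_lit 23) (nat_lit 4) (nat_lit 345) (nat_lit 236) (nat_lit 199)) (XT.nd (nat_lit 78) (nat_lit 76) (nat_lit 0) (XT.lf (nat_lit 0) (nat_lit 5425282087) (nat_lit 228) (nat_lit 4942261872) (nat_lit 76) (nat_lit 9179690645) (nat_lit 22) (nat_lit 5) (nat_lit 25) (nat_lit 5) (nat_lit 23) (nat_lit 4) (nat_lit 346) (nat_lit 236) (nat_lit 198)) (XT.lf (nat_lit 0) (nat_lit 1928087078) (nat_lit 76) (nat_lit 6991942076) (nat_lit 152) (nat_lit 11090765940) (nat_lit 21) (nat_lit 5) (nat_lit 22) (nat_lit 5) (nat_lit 23) (nat_lit 4) (nat_lit 347) (nat_lit 236) (nat_lit 197)))) (XT.nd (nat_lit 78) (nat_lit 152) (nat_lit 0) (XT.lf (nat_lit 0) (nat_lit 9024934214)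 (nat_lit 76) (nat_lit 3498203718) (nat_lit 152) (nat_lit 7965044318) (nat_lit 21) (nat_lit 5) (nat_lit 22) (nat_lit 5) (nat_lit 23) (nat_lit 4) (nat_lit 348) (nat_lit 236) (nat_lit 196)) (XT.nd (nat_lit 78) (nat_lit 152) (nat_lit 0) (XT.lf (nat_lit 0) (nat_lit 16189945507) (nat_lit 152) (nat_lit 4725789138) (nat_lit 0) (nat_lit 65512904) (nat_lit 21) (nat_lit 5) (nat_lit 23) (nat_lit 4) (nat_lit 21) (nat_lit 4) (nat_lit 349) (nat_lit 236) (nat_lit 195)) (XT.lf (nat_lit 0) (nat_lit 2143687667) (nat_lit 152) (nat_lit 17834273834) (nat_lit 152) (nat_lit 1510831153) (nat_lit 19) (nat_lit 4) (nat_lit 21) (nat_lit 5) (nat_lit 21) (nat_lit 4) (nat_lit 350) (nat_lit 236) (nat_lit 194))))) (XT.nd (nat_lit 234) (nat_lit 152) (nat_lit 0) (XT.nd (nat_lit 78) (nat_lit 76) (nat_lit 0) (XT.lf (nat_lit 0) (nat_lit 1835850619) (nat_lit 228) (nat_lit 12789879589) (nat_lit 76) (nat_lit 7385190317) (nat_lit 18)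 (nat_lit 5) (nat_lit 21) (nat_lit 5) (nat_lit 19) (nat_lit 4) (nat_lit 351) (nat_lit 236) (nat_lit 193)) (XT.nd (nat_lit 78) (nat_lit 76) (nat_lit 0) (XT.lf (nat_lit 0) (nat_lit 5209902098) (nat_lit 228) (nat_lit 6128141173) (nat_lit 76) (nat_lit 11211522076) (nat_lit 18) (nat_lit 5) (nat_lit 21) (nat_lit 5) (nat_lit 19) (nat_lit 4) (nat_lit 352) (nat_lit 236) (nat_lit 192)) (XT.lf (nat_lit 0) (nat_lit 673598565) (nat_lit 76) (nat_lit 7976629716) (nat_lit 152) (nat_lit 14455210938) (nat_lit 17) (nat_lit 5) (nat_lit 18) (nat_lit 5) (nat_lit 19) (nat_lit 4) (nat_lit 353) (nat_lit 236) (nat_lit 191)))) (XT.nd (nat_lit 156) (nat_lit 152) (nat_lit 0) (XT.nd (nat_lit 78) (nat_lit 0) (nat_lit 0) (XT.lf (nat_lit 0) (nat_lit 7732731855) (nat_lit 76) (nat_lit 4482004389) (nat_lit 152) (nat_lit 11462644580) (nat_lit 17) (nat_lit 5) (nat_lit 18) (nat_lit 5) (nat_lit 19) (nat_lit 4) (nat_lit 354) (nat_lit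 236) (nat_lit 190)) (XT.lf (nat_lit 0) (nat_lit 14933464848) (nat_lit 76) (nat_lit 912995945) (nat_lit 152) (nat_lit 8421231523) (nat_lit 17) (nat_lit 5) (nat_lit 18) (nat_lit 5) (nat_lit 19) (nat_lit 4) (nat_lit 355) (nat_lit 236) (nat_lit 189))) (XT.nd (nat_lit 78) (nat_lit 152) (nat_lit 0) (XT.lf (nat_lit 0) (nat_lit 19574851488) (nat_lit 152) (nat_lit 2621076265) (nat_lit 0) (nat_lit 2680173459) (nat_lit 17) (nat_lit 5) (nat_lit 19) (nat_lit 4) (nat_lit 17) (nat_lit 4) (nat_lit 356) (nat_lit 236) (nat_lit 188)) (XT.lf (nat_lit 0) (nat_lit 4301352658) (nat_lit 152) (nat_lit 19126413449) (nat_lit 152) (nat_lit 2074635027) (nat_lit 15) (nat_lit 4) (nat_lit 17) (nat_lit 5) (nat_lit 17) (nat_lit 4) (nat_lit 357) (nat_lit 236) (nat_lit 187)))))) (XT.nd (nat_lit 546) (nat_lit 228) (nat_lit 0) (XT.nd (nat_lit 234) (nat_lit 76) (nat_lit 0) (XT.nd (nat_lit 78) (nat_lit 0) (nat_lit 0) (XT.lf (nat_lit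 0) (nat_lit 1213498916) (nat_lit 228) (nat_lit 14740900274) (nat_lit 76) (nat_lit 10193075912) (nat_lit 14) (nat_lit 5) (nat_lit 17) (nat_lit 5) (nat_lit 15) (nat_lit 4) (nat_lit 358) (nat_lit 236) (nat_lit 186)) (XT.nd (nat_lit 78) (nat_lit 0) (nat_lit 0) (XT.lf (nat_lit 0) (nat_lit 4522034280) (nat_lit 228) (nat_lit 8172655672) (nat_lit 76) (nat_lit 14117708761) (nat_lit 14) (nat_lit 5) (nat_lit 17) (nat_lit 5) (nat_lit 15) (nat_lit 4) (nat_lit 359) (nat_lit 236) (nat_lit 185)) (XT.lf (nat_lit 0) (nat_lit 7894345620) (nat_lit 228) (nat_lit 1470632766) (nat_lit 76) (nat_lit 18133372864) (nat_lit 14) (nat_lit 5) (nat_lit 17) (nat_lit 5) (nat_lit 15) (nat_lit 4) (nat_lit 360) (nat_lit 236) (nat_lit 184)))) (XT.nd (nat_lit 156) (nat_lit 0) (nat_lit 0) (XT.nd (nat_lit 78) (nat_lit 0) (nat_lit 0) (XT.lf (nat_lit 0) (nat_lit 5477918499) (nat_lit 76) (nat_lit 5908118220) (nat_lit 152) (nat_lit 16818315657)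 (nat_lit 13) (nat_lit 5) (nat_lit 14) (nat_lit 5) (nat_lit 15) (nat_lit 4) (nat_lit 361) (nat_lit 236) (nat_lit 183)) (XT.lf (nat_lit 0) (nat_lit 12604248803) (nat_lit 76) (nat_lit 2359052193) (nat_lit 152) (nat_lit 13968823714) (nat_lit 13) (nat_lit 5) (nat_lit 14) (nat_lit 5) (nat_lit 15) (nat_lit 4) (nat_lit 362) (nat_lit 236) (nat_lit 182))) (XT.nd (nat_lit 78) (nat_lit 0) (nat_lit 0) (XT.lf (nat_lit 0) (nat_lit 18627058788) (nat_lit 152) (nat_lit 9809632688) (nat_lit 0) (nat_lit 1245678860) (nat_lit 13) (nat_lit 5) (nat_lit 15) (nat_lit 4) (nat_lit 13) (nat_lit 4) (nat_lit 363) (nat_lit 236) (nat_lit 181)) (XT.lf (nat_lit 0) (nat_lit 22391768760) (nat_lit 152) (nat_lit 3177265992) (nat_lit 0) (nat_lit 4886372331) (nat_lit 13) (nat_lit 5) (nat_lit 15) (nat_lit 4) (nat_lit 13) (nat_lit 4) (nat_lit 364) (nat_lit 236) (nat_lit 180))))) (XT.nd (nat_lit 234) (nat_lit 76) (nat_lit 0) (XT.nd (nat_lit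 78) (nat_lit 76) (nat_lit 0) (XT.lf (nat_lit 0) (nat_lit 3669297310) (nat_lit 76) (nat_lit 22604018034) (nat_lit 76) (nat_lit 4978217236) (nat_lit 12) (nat_lit 4) (nat_lit 13) (nat_lit 5) (nat_lit 13) (nat_lit 4) (nat_lit 365) (nat_lit 236) (nat_lit 179)) (XT.nd (nat_lit 78) (nat_lit 76) (nat_lit 0) (XT.lf (nat_lit 0) (nat_lit 10730565451) (nat_lit 76) (nat_lit 19541828080) (nat_lit 76) (nat_lit 1799129835) (nat_lit 12) (nat_lit 4) (nat_lit 13) (nat_lit 5) (nat_lit 13) (nat_lit 4) (nat_lit 366) (nat_lit 236) (nat_lit 178)) (XT.lf (nat_lit 0) (nat_lit 1416133726) (nat_lit 152) (nat_lit 14981439447) (nat_lit 76) (nat_lit 16519040747) (nat_lit 11) (nat_lit 5) (nat_lit 13) (nat_lit 5) (nat_lit 12) (nat_lit 4) (nat_lit 367) (nat_lit 236) (nat_lit 177)))) (XT.nd (nat_lit 156) (nat_lit 76) (nat_lit 0) (XT.nd (nat_lit 78) (nat_lit 0) (nat_lit 0) (XT.lf (nat_lit 0) (nat_lit 4662172665) (nat_lit 152)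 (nat_lit 8502167455) (nat_lit 76) (nat_lit 20623081216) (nat_lit 11) (nat_lit 5) (nat_lit 13) (nat_lit 5) (nat_lit 12) (nat_lit 4) (nat_lit 368) (nat_lit 236) (nat_lit 176)) (XT.lf (nat_lit 0) (nat_lit 7976930830) (nat_lit 152) (nat_lit 1880186103) (nat_lit 76) (nat_lit 24828108411) (nat_lit 11) (nat_lit 5) (nat_lit 13) (nat_lit 5) (nat_lit 12) (nat_lit 4) (nat_lit 369) (nat_lit 236) (nat_lit 175))) (XT.nd (nat_lit 78) (nat_lit 0) (nat_lit 0) (XT.lf (nat_lit 0) (nat_lit 4987617180) (nat_lit 76) (nat_lit 6423631458) (nat_lit 152) (nat_lit 24198123475) (nat_lit 10) (nat_lit 5) (nat_lit 11) (nat_lit 5) (nat_lit 12) (nat_lit 4) (nat_lit 370) (nat_lit 236) (nat_lit 174)) (XT.lf (nat_lit 0) (nat_lit 12050324454) (nat_lit 76) (nat_lit 2889763612) (nat_lit 152) (nat_lit 21621422250) (nat_lit 10) (nat_lit 5) (nat_lit 11) (nat_lit 5) (nat_lit 12) (nat_lit 4) (nat_lit 371) (nat_lit 236) (nat_lit 173))))))))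
noncomputable def xc50 : XT := (XT.nd (nat_lit 2028) (nat_lit 76) (nat_lit 0) (XT.nd (nat_lit 1014) (nat_lit 152) (nat_lit 0) (XT.nd (nat_lit 468) (nat_lit 152) (nat_lit 0) (XT.nd (nat_lit 234) (nat_lit 76) (nat_lit 0) (XT.nd (nat_lit 78) (nat_lit 0) (nat_lit 0) (XT.lf (nat_lit 0) (nat_lit 18555103003) (nat_lit 152) (nat_lit 18273340924) (nat_lit 0) (nat_lit 714370876) (nat_lit 10) (nat_lit 5) (nat_lit 12) (nat_lit 4) (nat_lit 10) (nat_lit 4) (nat_lit 372) (nat_lit 236) (nat_lit 172)) (XT.nd (nat_lit 78) (nat_lit 0) (nat_lit 0) (XT.lf (nat_lit 0) (nat_lit 22281063125) (nat_lit 152) (nat_lit 11924380501) (nat_lit 0) (nat_lit 4348051074) (nat_lit 10) (nat_lit 5) (nat_lit 12) (nat_lit 4) (nat_lit 10) (nat_lit 4) (nat_lit 373) (nat_lit 236) (nat_lit 171)) (XT.lf (nat_lit 0) (nat_lit 26093445949) (nat_lit 152) (nat_lit 5430978780) (nat_lit 0) (nat_lit 8070841739) (nat_lit 10) (nat_lit 5) (nat_lit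 12) (nat_lit 4) (nat_lit 10) (nat_lit 4) (nat_lit 374) (nat_lit 236) (nat_lit 170)))) (XT.nd (nat_lit 78) (nat_lit 0) (nat_lit 0) (XT.lf (nat_lit 0) (nat_lit 1236669968) (nat_lit 76) (nat_lit 28770800344) (nat_lit 76) (nat_lit 10661213455) (nat_lit 9) (nat_lit 4) (nat_lit 10) (nat_lit 5) (nat_lit 10) (nat_lit 4) (nat_lit 375) (nat_lit 236) (nat_lit 169)) (XT.nd (nat_lit 78) (nat_lit 0) (nat_lit 0) (XT.lf (nat_lit 0) (nat_lit 8171429119) (nat_lit 76) (nat_lit 25898002620) (nat_lit 76) (nat_lit 7703966529) (nat_lit 9) (nat_lit 4) (nat_lit 10) (nat_lit 5) (nat_lit 10) (nat_lit 4) (nat_lit 376) (nat_lit 236) (nat_lit 168)) (XT.lf (nat_lit 0) (nat_lit 15271271043) (nat_lit 76) (nat_lit 22958363583) (nat_lit 76) (nat_lit 4682337975) (nat_lit 9) (nat_lit 4) (nat_lit 10) (nat_lit 5) (nat_lit 10) (nat_lit 4) (nat_lit 377) (nat_lit 236) (nat_lit 167))))) (XT.nd (nat_lit 234) (nat_lit 76) (nat_lit 0) (XT.nd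 (nat_lit 78) (nat_lit 76) (nat_lit 0) (XT.lf (nat_lit 0) (nat_lit 22542399486) (nat_lit 76) (nat_lit 19949314617) (nat_lit 76) (nat_lit 1593687536) (nat_lit 9) (nat_lit 4) (nat_lit 10) (nat_lit 5) (nat_lit 10) (nat_lit 4) (nat_lit 378) (nat_lit 236) (nat_lit 166)) (XT.nd (nat_lit 78) (nat_lit 0) (nat_lit 0) (XT.lf (nat_lit 0) (nat_lit 1534150995) (nat_lit 152) (nat_lit 15318583543) (nat_lit 76) (nat_lit 28441524948) (nat_lit 8) (nat_lit 5) (nat_lit 10) (nat_lit 5) (nat_lit 9) (nat_lit 4) (nat_lit 379) (nat_lit 236) (nat_lit 165)) (XT.lf (nat_lit 0) (nat_lit 4701957036) (nat_lit 152) (nat_lit 8962969302) (nat_lit 76) (nat_lit 32874647215) (nat_lit 8) (nat_lit 5) (nat_lit 10) (nat_lit 5) (nat_lit 9) (nat_lit 4) (nat_lit 380) (nat_lit 236) (nat_lit 164)))) (XT.nd (nat_lit 156) (nat_lit 0) (nat_lit 0) (XT.nd (nat_lit 78) (nat_lit 76) (nat_lit 0) (XT.lf (nat_lit 0) (nat_lit 7943597156) (nat_lit 152)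 (nat_lit 2455286482) (nat_lit 76) (nat_lit 37424007928) (nat_lit 8) (nat_lit 5) (nat_lit 10) (nat_lit 5) (nat_lit 9) (nat_lit 4) (nat_lit 381) (nat_lit 236) (nat_lit 163)) (XT.lf (nat_lit 0) (nat_lit 4293941506) (nat_lit 76) (nat_lit 7009238343) (nat_lit 152) (nat_lit 37840916741) (nat_lit 7) (nat_lit 5) (nat_lit 8) (nat_lit 5) (nat_lit 9) (nat_lit 4) (nat_lit 382) (nat_lit 236) (nat_lit 162))) (XT.nd (nat_lit 78) (nat_lit 0) (nat_lit 0) (XT.lf (nat_lit 0) (nat_lit 11258869127) (nat_lit 76) (nat_lit 3509134638) (nat_lit 152) (nat_lit 35736808417) (nat_lit 7) (nat_lit 5) (nat_lit 8) (nat_lit 5) (nat_lit 9) (nat_lit 4) (nat_lit 383) (nat_lit 236) (nat_lit 161)) (XT.lf (nat_lit 0) (nat_lit 18317791037) (nat_lit 152) (nat_lit 33510998288) (nat_lit 0) (nat_lit 78137155) (nat_lit 7) (nat_lit 5) (nat_lit 9) (nat_lit 4) (nat_lit 7) (nat_lit 4) (nat_lit 384) (nat_lit 236) (nat_lit 160)))))) (XT.nd (nat_lit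 468) (nat_lit 76) (nat_lit 0) (XT.nd (nat_lit 234) (nat_lit 76) (nat_lit 0) (XT.nd (nat_lit 78) (nat_lit 0) (nat_lit 0) (XT.lf (nat_lit 0) (nat_lit 21989491652) (nat_lit 152) (nat_lit 27674157899) (nat_lit 0) (nat_lit 3686999633) (nat_lit 7) (nat_lit 5) (nat_lit 9) (nat_lit 4) (nat_lit 7) (nat_lit 4) (nat_lit 385) (nat_lit 236) (nat_lit 159)) (XT.nd (nat_lit 78) (nat_lit 0) (nat_lit 0) (XT.lf (nat_lit 0) (nat_lit 25752581946) (nat_lit 152) (nat_lit 21696589788) (nat_lit 0) (nat_lit 7389082026) (nat_lit 7) (nat_lit 5) (nat_lit 9) (nat_lit 4) (nat_lit 7) (nat_lit 4) (nat_lit 386) (nat_lit 236) (nat_lit 158)) (XT.lf (nat_lit 0) (nat_lit 29610350054) (nat_lit 152) (nat_lit 15573070837) (nat_lit 0) (nat_lit 11187619163) (nat_lit 7) (nat_lit 5) (nat_lit 9) (nat_lit 4) (nat_lit 7) (nat_lit 4) (nat_lit 387) (nat_lit 236) (nat_lit 157)))) (XT.nd (nat_lit 78) (nat_lit 76) (nat_lit 0) (XT.lf (nat_lit 0)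 (nat_lit 33566166843) (nat_lit 152) (nat_lit 9298250398) (nat_lit 0) (nat_lit 15085930154) (nat_lit 7) (nat_lit 5) (nat_lit 9) (nat_lit 4) (nat_lit 7) (nat_lit 4) (nat_lit 388) (nat_lit 236) (nat_lit 156)) (XT.nd (nat_lit 78) (nat_lit 76) (nat_lit 0) (XT.lf (nat_lit 0) (nat_lit 37623488850) (nat_lit 152) (nat_lit 2866645620) (nat_lit 0) (nat_lit 19087421290) (nat_lit 7) (nat_lit 5) (nat_lit 9) (nat_lit 4) (nat_lit 7) (nat_lit 4) (nat_lit 389) (nat_lit 236) (nat_lit 155)) (XT.lf (nat_lit 0) (nat_lit 3801545186) (nat_lit 76) (nat_lit 38020858901) (nat_lit 76) (nat_lit 19430586611) (nat_lit 6) (nat_lit 4) (nat_lit 7) (nat_lit 5) (nat_lit 7) (nat_lit 4) (nat_lit 390) (nat_lit 236) (nat_lit 154))))) (XT.nd (nat_lit 234) (nat_lit 76) (nat_lit 0) (XT.nd (nat_lit 78) (nat_lit 0) (nat_lit 0) (XT.lf (nat_lit 0) (nat_lit 10698300639) (nat_lit 76) (nat_lit 35461459217) (nat_lit 76) (nat_lit 16818560977)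 (nat_lit 6) (nat_lit 4) (nat_lit 7) (nat_lit 5) (nat_lit 7) (nat_lit 4) (nat_lit 391) (nat_lit 236) (nat_lit 153)) (XT.nd (nat_lit 78) (nat_lit 0) (nat_lit 0) (XT.lf (nat_lit 0) (nat_lit 17772595158) (nat_lit 76) (nat_lit 32838646551) (nat_lit 76) (nat_lit 14144655154) (nat_lit 6) (nat_lit 4) (nat_lit 7) (nat_lit 5) (nat_lit 7) (nat_lit 4) (nat_lit 392) (nat_lit 236) (nat_lit 152)) (XT.lf (nat_lit 0) (nat_lit 25030610168) (nat_lit 76) (nat_lit 30150129123) (nat_lit 76) (nat_lit 11406532720) (nat_lit 6) (nat_lit 4) (nat_lit 7) (nat_lit 5) (nat_lit 7) (nat_lit 4) (nat_lit 393) (nat_lit 236) (nat_lit 151)))) (XT.nd (nat_lit 156) (nat_lit 76) (nat_lit 0) (XT.nd (nat_lit 78) (nat_lit 0) (nat_lit 0) (XT.lf (nat_lit 0) (nat_lit 32478687623) (nat_lit 76) (nat_lit 27393557745) (nat_lit 76) (nat_lit 8601801142) (nat_lit 6) (nat_lit 4) (nat_lit 7) (nat_lit 5) (nat_lit 7) (nat_lit 4) (nat_lit 394) (nat_lit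 236) (nat_lit 150)) (XT.lf (nat_lit 0) (nat_lit 40123335552) (nat_lit 76) (nat_lit 24566523761) (nat_lit 76) (nat_lit 5728009682) (nat_lit 6) (nat_lit 4) (nat_lit 7) (nat_lit 5) (nat_lit 7) (nat_lit 4) (nat_lit 395) (nat_lit 236) (nat_lit 149))) (XT.nd (nat_lit 78) (nat_lit 76) (nat_lit 0) (XT.lf (nat_lit 0) (nat_lit 47971233744) (nat_lit 76) (nat_lit 21666556947) (nat_lit 76) (nat_lit 2782647260) (nat_lit 6) (nat_lit 4) (nat_lit 7) (nat_lit 5) (nat_lit 7) (nat_lit 4) (nat_lit 396) (nat_lit 236) (nat_lit 148)) (XT.lf (nat_lit 0) (nat_lit 232237752) (nat_lit 152) (nat_lit 18456540453) (nat_lit 76) (nat_lit 55794656687) (nat_lit 5) (nat_lit 5) (nat_lit 7) (nat_lit 5) (nat_lit 6) (nat_lit 4) (nat_lit 397) (nat_lit 236) (nat_lit 147))))))) (XT.nd (nat_lit 33618) (nat_lit 0) (nat_lit 3724) (XT.nd (nat_lit 468) (nat_lit 0) (nat_lit 0) (XT.nd (nat_lit 234) (nat_lit 0) (nat_lit 0) (XT.nd (nat_lit 78)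 (nat_lit 76) (nat_lit 0) (XT.lf (nat_lit 0) (nat_lit 3268107966) (nat_lit 152) (nat_lit 12336513634) (nat_lit 76) (nat_lit 61003284605) (nat_lit 5) (nat_lit 5) (nat_lit 7) (nat_lit 5) (nat_lit 6) (nat_lit 4) (nat_lit 398) (nat_lit 236) (nat_lit 146)) (XT.nd (nat_lit 78) (nat_lit 76) (nat_lit 0) (XT.lf (nat_lit 0) (nat_lit 6381915552) (nat_lit 152) (nat_lit 6057027646) (nat_lit 76) (nat_lit 66357567479) (nat_lit 5) (nat_lit 5) (nat_lit 7) (nat_lit 5) (nat_lit 6) (nat_lit 4) (nat_lit 399) (nat_lit 236) (nat_lit 145)) (XT.lf (nat_lit 0) (nat_lit 395114547) (nat_lit 76) (nat_lit 9185064848) (nat_lit 152) (nat_lit 71470867345) (nat_lit 4) (nat_lit 5) (nat_lit 5) (nat_lit 5) (nat_lit 6) (nat_lit 4) (nat_lit 400) (nat_lit 236) (nat_lit 144)))) (XT.nd (nat_lit 78) (nat_lit 0) (nat_lit 0) (XT.lf (nat_lit 0) (nat_lit 7141775443) (nat_lit 76) (nat_lit 5781172202) (nat_lit 152) (nat_lit 70448819125) (nat_lit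 4) (nat_lit 5) (nat_lit 5) (nat_lit 5) (nat_lit 6) (nat_lit 4) (nat_lit 401) (nat_lit 236) (nat_lit 143)) (XT.nd (nat_lit 78) (nat_lit 0) (nat_lit 0) (XT.lf (nat_lit 0) (nat_lit 14068303455) (nat_lit 76) (nat_lit 2285455085) (nat_lit 152) (nat_lit 69408721518) (nat_lit 4) (nat_lit 5) (nat_lit 5) (nat_lit 5) (nat_lit 6) (nat_lit 4) (nat_lit 402) (nat_lit 236) (nat_lit 142)) (XT.lf (nat_lit 0) (nat_lit 19888155694) (nat_lit 152) (nat_lit 67057070504) (nat_lit 0) (nat_lit 1279673007) (nat_lit 4) (nat_lit 5) (nat_lit 6) (nat_lit 4) (nat_lit 4) (nat_lit 4) (nat_lit 403) (nat_lit 236) (nat_lit 141))))) (XT.nd (nat_lit 234) (nat_lit 0) (nat_lit 0) (XT.nd (nat_lit 78) (nat_lit 0) (nat_lit 0) (XT.lf (nat_lit 0) (nat_lit 23539582021) (nat_lit 152) (nat_lit 62324975798) (nat_lit 0) (nat_lit 4896307381) (nat_lit 4) (nat_lit 5) (nat_lit 6) (nat_lit 4) (nat_lit 4) (nat_lit 4) (nat_lit 404) (nat_lit 236) (nat_lit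 140)) (XT.nd (nat_lit 78) (nat_lit 0) (nat_lit 0) (XT.lf (nat_lit 0) (nat_lit 27289258896) (nat_lit 152) (nat_lit 57471788453) (nat_lit 0) (nat_lit 8612205661) (nat_lit 4) (nat_lit 5) (nat_lit 6) (nat_lit 4) (nat_lit 4) (nat_lit 4) (nat_lit 405) (nat_lit 236) (nat_lit 139)) (XT.lf (nat_lit 0) (nat_lit 31140462737) (nat_lit 152) (nat_lit 52493267819) (nat_lit 0) (nat_lit 12430614749) (nat_lit 4) (nat_lit 5) (nat_lit 6) (nat_lit 4) (nat_lit 4) (nat_lit 4) (nat_lit 406) (nat_lit 236) (nat_lit 138)))) (XT.nd (nat_lit 32760) (nat_lit 0) (nat_lit 6156) (XT.nd (nat_lit 78) (nat_lit 0) (nat_lit 0) (XT.lf (nat_lit 0) (nat_lit 35096558673) (nat_lit 152) (nat_lit 47385063734) (nat_lit 0) (nat_lit 16354871119) (nat_lit 4) (nat_lit 5) (nat_lit 6) (nat_lit 4) (nat_lit 4) (nat_lit 4) (nat_lit 407) (nat_lit 236) (nat_lit 137)) (XT.lf (nat_lit 0) (nat_lit 39161003486) (nat_lit 152) (nat_lit 42142712717) (nat_lit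 0) (nat_lit 20388403733) (nat_lit 4) (nat_lit 5) (nat_lit 6) (nat_lit 4) (nat_lit 4) (nat_lit 4) (nat_lit 408) (nat_lit 236) (nat_lit 136))) (XT.nd (nat_lit 78) (nat_lit 380) (nat_lit 0) (XT.lf (nat_lit 0) (nat_lit 1079971363) (nat_lit 380) (nat_lit 2386408999) (nat_lit 0) (nat_lit 1079971363) (nat_lit 90) (nat_lit 5) (nat_lit 95) (nat_lit 4) (nat_lit 90) (nat_lit 4) (nat_lit 306) (nat_lit 237) (nat_lit 237)) (XT.lf (nat_lit 0) (nat_lit 1448504448) (nat_lit 380) (nat_lit 4363733506) (nat_lit 380) (nat_lit 3410393149) (nat_lit 85) (nat_lit 4) (nat_lit 90) (nat_lit 5) (nat_lit 90) (nat_lit 4) (nat_lit 307) (nat_lit 237) (nat_lit 236)))))) (XT.nd (nat_lit 468) (nat_lit 1140) (nat_lit 0) (XT.nd (nat_lit 234) (nat_lit 608) (nat_lit 0) (XT.nd (nat_lit 78) (nat_lit 608) (nat_lit 0) (XT.lf (nat_lit 0) (nat_lit 171855717) (nat_lit 456) (nat_lit 1530046413) (nat_lit 76) (nat_lit 7655846218) (nat_lit 84)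 (nat_lit 5) (nat_lit 90) (nat_lit 5) (nat_lit 85) (nat_lit 4) (nat_lit 308) (nat_lit 237) (nat_lit 235)) (XT.nd (nat_lit 78) (nat_lit 304) (nat_lit 0) (XT.lf (nat_lit 0) (nat_lit 3762401755) (nat_lit 380) (nat_lit 4668755809) (nat_lit 0) (nat_lit 1065772396) (nat_lit 80) (nat_lit 5) (nat_lit 85) (nat_lit 4) (nat_lit 80) (nat_lit 4) (nat_lit 309) (nat_lit 237) (nat_lit 234)) (XT.lf (nat_lit 0) (nat_lit 1659850949) (nat_lit 304) (nat_lit 5762671144) (nat_lit 304) (nat_lit 2219011225) (nat_lit 76) (nat_lit 4) (nat_lit 80) (nat_lit 5) (nat_lit 80) (nat_lit 4) (nat_lit 310) (nat_lit 237) (nat_lit 233)))) (XT.nd (nat_lit 78) (nat_lit 532) (nat_lit 0) (XT.lf (nat_lit 0) (nat_lit 1336072024) (nat_lit 380) (nat_lit 1653793476) (nat_lit 76) (nat_lit 6801457408) (nat_lit 75) (nat_lit 5) (nat_lit 80) (nat_lit 5) (nat_lit 76) (nat_lit 4) (nat_lit 311) (nat_lit 237) (nat_lit 232)) (XT.nd (nat_lit 78) (nat_lit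 304) (nat_lit 0) (XT.lf (nat_lit 0) (nat_lit 4814739343) (nat_lit 228) (nat_lit 101106257) (nat_lit 304) (nat_lit 5030315716) (nat_lit 72) (nat_lit 5) (nat_lit 75) (nat_lit 5) (nat_lit 76) (nat_lit 4) (nat_lit 312) (nat_lit 237) (nat_lit 231)) (XT.lf (nat_lit 0) (nat_lit 1281102237) (nat_lit 304) (nat_lit 7295996699) (nat_lit 304) (nat_lit 1529414001) (nat_lit 68) (nat_lit 4) (nat_lit 72) (nat_lit 5) (nat_lit 72) (nat_lit 4) (nat_lit 313) (nat_lit 237) (nat_lit 230))))) (XT.nd (nat_lit 234) (nat_lit 608) (nat_lit 0) (XT.nd (nat_lit 78) (nat_lit 456) (nat_lit 0) (XT.lf (nat_lit 0) (nat_lit 2006955984) (nat_lit 380) (nat_lit 2423118049) (nat_lit 76) (nat_lit 5841958858) (nat_lit 67) (nat_lit 5) (nat_lit 72) (nat_lit 5) (nat_lit 68) (nat_lit 4) (nat_lit 314) (nat_lit 237) (nat_lit 229)) (XT.nd (nat_lit 78) (nat_lit 228) (nat_lit 0) (XT.lf (nat_lit 0) (nat_lit 4117304366) (nat_lit 228) (nat_lit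 1460980275) (nat_lit 304) (nat_lit 4865074268) (nat_lit 64) (nat_lit 5) (nat_lit 67) (nat_lit 5) (nat_lit 68) (nat_lit 4) (nat_lit 315) (nat_lit 237) (nat_lit 228)) (XT.lf (nat_lit 0) (nat_lit 151849346) (nat_lit 228) (nat_lit 9067275302) (nat_lit 228) (nat_lit 1401909462) (nat_lit 61) (nat_lit 4) (nat_lit 64) (nat_lit 5) (nat_lit 64) (nat_lit 4) (nat_lit 316) (nat_lit 237) (nat_lit 227)))) (XT.nd (nat_lit 156) (nat_lit 304) (nat_lit 0) (XT.nd (nat_lit 78) (nat_lit 228) (nat_lit 0) (XT.lf (nat_lit 0) (nat_lit 2123040456) (nat_lit 304) (nat_lit 4004772106) (nat_lit 76) (nat_lit 4675674342) (nat_lit 60) (nat_lit 5) (nat_lit 64) (nat_lit 5) (nat_lit 61) (nat_lit 4) (nat_lit 317) (nat_lit 237) (nat_lit 226)) (XT.lf (nat_lit 0) (nat_lit 2572902288) (nat_lit 228) (nat_lit 3100849833) (nat_lit 304) (nat_lit 5318872759) (nat_lit 57) (nat_lit 5) (nat_lit 60) (nat_lit 5) (nat_lit 61) (nat_lit 4) (nat_lit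 318) (nat_lit 237) (nat_lit 225))) (XT.nd (nat_lit 78) (nat_lit 304) (nat_lit 0) (XT.lf (nat_lit 0) (nat_lit 9296173659) (nat_lit 304) (nat_lit 1874581718) (nat_lit 0) (nat_lit 17797526) (nat_lit 57) (nat_lit 5) (nat_lit 61) (nat_lit 4) (nat_lit 57) (nat_lit 4) (nat_lit 319) (nat_lit 237) (nat_lit 224)) (XT.lf (nat_lit 0) (nat_lit 1608319913) (nat_lit 304) (nat_lit 6590273303) (nat_lit 76) (nat_lit 3191260375) (nat_lit 53) (nat_lit 5) (nat_lit 57) (nat_lit 5) (nat_lit 54) (nat_lit 4) (nat_lit 320) (nat_lit 237) (nat_lit 223))))))))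
noncomputable def xc51 : XT := (XT.nd (nat_lit 2028) (nat_lit 912) (nat_lit 0) (XT.nd (nat_lit 1014) (nat_lit 912) (nat_lit 0) (XT.nd (nat_lit 468) (nat_lit 836) (nat_lit 0) (XT.nd (nat_lit 234) (nat_lit 152) (nat_lit 0) (XT.nd (nat_lit 78) (nat_lit 456) (nat_lit 0) (XT.lf (nat_lit 0) (nat_lit 5121786281) (nat_lit 304) (nat_lit 17923560) (nat_lit 76) (nat_lit 6458613421) (nat_lit 53) (nat_lit 5) (nat_lit 57) (nat_lit 5) (nat_lit 54) (nat_lit 4) (nat_lit 321) (nat_lit 237) (nat_lit 222)) (XT.nd (nat_lit 78) (nat_lit 304) (nat_lit 0) (XT.lf (nat_lit 0) (nat_lit 6772323324) (nat_lit 152) (nat_lit 1962233188) (nat_lit 228) (nat_lit 3078737101) (nat_lit 51) (nat_lit 5) (nat_lit 53) (nat_lit 5) (nat_lit 54) (nat_lit 4) (nat_lit 322) (nat_lit 237) (nat_lit 221)) (XT.lf (nat_lit 0) (nat_lit 370270182) (nat_lit 304) (nat_lit 10400456227) (nat_lit 76) (nat_lit 1265200537) (nat_lit 47) (nat_lit 5) (nat_lit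 51) (nat_lit 5) (nat_lit 48) (nat_lit 4) (nat_lit 323) (nat_lit 237) (nat_lit 220)))) (XT.nd (nat_lit 78) (nat_lit 152) (nat_lit 0) (XT.lf (nat_lit 0) (nat_lit 3861372160) (nat_lit 304) (nat_lit 3811060395) (nat_lit 76) (nat_lit 4591935314) (nat_lit 47) (nat_lit 5) (nat_lit 51) (nat_lit 5) (nat_lit 48) (nat_lit 4) (nat_lit 324) (nat_lit 237) (nat_lit 219)) (XT.nd (nat_lit 78) (nat_lit 0) (nat_lit 0) (XT.lf (nat_lit 0) (nat_lit 2923875028) (nat_lit 152) (nat_lit 4493154824) (nat_lit 228) (nat_lit 5083893982) (nat_lit 45) (nat_lit 5) (nat_lit 47) (nat_lit 5) (nat_lit 48) (nat_lit 4) (nat_lit 325) (nat_lit 237) (nat_lit 218)) (XT.lf (nat_lit 0) (nat_lit 9830854463) (nat_lit 152) (nat_lit 1219653083) (nat_lit 228) (nat_lit 1694989273) (nat_lit 45) (nat_lit 5) (nat_lit 47) (nat_lit 5) (nat_lit 48) (nat_lit 4) (nat_lit 326) (nat_lit 237) (nat_lit 217))))) (XT.nd (nat_lit 234) (nat_lit 380) (nat_lit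 0) (XT.nd (nat_lit 78) (nat_lit 152) (nat_lit 0) (XT.lf (nat_lit 0) (nat_lit 1752804373) (nat_lit 304) (nat_lit 9118502774) (nat_lit 76) (nat_lit 2125865937) (nat_lit 41) (nat_lit 5) (nat_lit 45) (nat_lit 5) (nat_lit 42) (nat_lit 4) (nat_lit 327) (nat_lit 237) (nat_lit 216)) (XT.nd (nat_lit 78) (nat_lit 152) (nat_lit 0) (XT.lf (nat_lit 0) (nat_lit 5246217668) (nat_lit 304) (nat_lit 2456057180) (nat_lit 76) (nat_lit 5554383917) (nat_lit 41) (nat_lit 5) (nat_lit 45) (nat_lit 5) (nat_lit 42) (nat_lit 4) (nat_lit 328) (nat_lit 237) (nat_lit 215)) (XT.lf (nat_lit 0) (nat_lit 4388082349) (nat_lit 152) (nat_lit 4434895140) (nat_lit 228) (nat_lit 4701643937) (nat_lit 39) (nat_lit 5) (nat_lit 41) (nat_lit 5) (nat_lit 42) (nat_lit 4) (nat_lit 329) (nat_lit 237) (nat_lit 214)))) (XT.nd (nat_lit 156) (nat_lit 152) (nat_lit 0) (XT.nd (nat_lit 78) (nat_lit 228) (nat_lit 0) (XT.lf (nat_lit 0) (nat_lit 11385103819)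 (nat_lit 152) (nat_lit 1083966272) (nat_lit 228) (nat_lit 1332739288) (nat_lit 39) (nat_lit 5) (nat_lit 41) (nat_lit 5) (nat_lit 42) (nat_lit 4) (nat_lit 330) (nat_lit 237) (nat_lit 213)) (XT.lf (nat_lit 0) (nat_lit 2099914763) (nat_lit 228) (nat_lit 9639961449) (nat_lit 76) (nat_lit 2346733404) (nat_lit 36) (nat_lit 5) (nat_lit 39) (nat_lit 5) (nat_lit 37) (nat_lit 4) (nat_lit 331) (nat_lit 237) (nat_lit 212))) (XT.nd (nat_lit 78) (nat_lit 152) (nat_lit 0) (XT.lf (nat_lit 0) (nat_lit 5583002156) (nat_lit 228) (nat_lit 2939511408) (nat_lit 76) (nat_lit 5857860517) (nat_lit 36) (nat_lit 5) (nat_lit 39) (nat_lit 5) (nat_lit 37) (nat_lit 4) (nat_lit 332) (nat_lit 237) (nat_lit 211)) (XT.lf (nat_lit 0) (nat_lit 3940235594) (nat_lit 152) (nat_lit 5208865744) (nat_lit 228) (nat_lit 5534536604) (nat_lit 34) (nat_lit 5) (nat_lit 36) (nat_lit 5) (nat_lit 37) (nat_lit 4) (nat_lit 333) (nat_lit 237) (nat_lit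 210)))))) (XT.nd (nat_lit 468) (nat_lit 532) (nat_lit 0) (XT.nd (nat_lit 234) (nat_lit 152) (nat_lit 0) (XT.nd (nat_lit 78) (nat_lit 228) (nat_lit 0) (XT.lf (nat_lit 0) (nat_lit 10988994095) (nat_lit 152) (nat_lit 1804306197) (nat_lit 228) (nat_lit 2203606735) (nat_lit 34) (nat_lit 5) (nat_lit 36) (nat_lit 5) (nat_lit 37) (nat_lit 4) (nat_lit 334) (nat_lit 237) (nat_lit 209)) (XT.nd (nat_lit 78) (nat_lit 0) (nat_lit 0) (XT.lf (nat_lit 0) (nat_lit 1189890714) (nat_lit 228) (nat_lit 12458509067) (nat_lit 76) (nat_lit 1671261327) (nat_lit 31) (nat_lit 5) (nat_lit 34) (nat_lit 5) (nat_lit 32) (nat_lit 4) (nat_lit 335) (nat_lit 237) (nat_lit 208)) (XT.lf (nat_lit 0) (nat_lit 4642569102) (nat_lit 228) (nat_lit 5768924692) (nat_lit 76) (nat_lit 5239936841) (nat_lit 31) (nat_lit 5) (nat_lit 34) (nat_lit 5) (nat_lit 32) (nat_lit 4) (nat_lit 336) (nat_lit 237) (nat_lit 207)))) (XT.nd (nat_lit 78) (nat_lit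 0) (nat_lit 0) (XT.lf (nat_lit 0) (nat_lit 1048204099) (nat_lit 152) (nat_lit 7105291115) (nat_lit 228) (nat_lit 7841054274) (nat_lit 29) (nat_lit 5) (nat_lit 31) (nat_lit 5) (nat_lit 32) (nat_lit 4) (nat_lit 337) (nat_lit 237) (nat_lit 206)) (XT.nd (nat_lit 78) (nat_lit 0) (nat_lit 0) (XT.lf (nat_lit 0) (nat_lit 8095424323) (nat_lit 152) (nat_lit 3677893956) (nat_lit 228) (nat_lit 4574571757) (nat_lit 29) (nat_lit 5) (nat_lit 31) (nat_lit 5) (nat_lit 32) (nat_lit 4) (nat_lit 338) (nat_lit 237) (nat_lit 205)) (XT.lf (nat_lit 0) (nat_lit 15264080834) (nat_lit 152) (nat_lit 184562331) (nat_lit 228) (nat_lit 1264814602) (nat_lit 29) (nat_lit 5) (nat_lit 31) (nat_lit 5) (nat_lit 32) (nat_lit 4) (nat_lit 339) (nat_lit 237) (nat_lit 204))))) (XT.nd (nat_lit 234) (nat_lit 228) (nat_lit 0) (XT.nd (nat_lit 78) (nat_lit 76) (nat_lit 0) (XT.lf (nat_lit 0) (nat_lit 2136920379) (nat_lit 228) (nat_lit 11565358015)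 (nat_lit 76) (nat_lit 3386092197) (nat_lit 26) (nat_lit 5) (nat_lit 29) (nat_lit 5) (nat_lit 27) (nat_lit 4) (nat_lit 340) (nat_lit 237) (nat_lit 203)) (XT.nd (nat_lit 78) (nat_lit 76) (nat_lit 0) (XT.lf (nat_lit 0) (nat_lit 5580132637) (nat_lit 228) (nat_lit 4843090033) (nat_lit 76) (nat_lit 7052018318) (nat_lit 26) (nat_lit 5) (nat_lit 29) (nat_lit 5) (nat_lit 27) (nat_lit 4) (nat_lit 341) (nat_lit 237) (nat_lit 202)) (XT.lf (nat_lit 0) (nat_lit 2034341658) (nat_lit 76) (nat_lit 7061601178) (nat_lit 152) (nat_lit 8778725983) (nat_lit 25) (nat_lit 5) (nat_lit 26) (nat_lit 5) (nat_lit 27) (nat_lit 4) (nat_lit 342) (nat_lit 237) (nat_lit 201)))) (XT.nd (nat_lit 156) (nat_lit 228) (nat_lit 0) (XT.nd (nat_lit 78) (nat_lit 0) (nat_lit 0) (XT.lf (nat_lit 0) (nat_lit 9132018350) (nat_lit 76) (nat_lit 3584504143) (nat_lit 152) (nat_lit 5569607621) (nat_lit 25) (nat_lit 5) (nat_lit 26) (nat_lit 5) (nat_lit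 27) (nat_lit 4) (nat_lit 343) (nat_lit 237) (nat_lit 200)) (XT.lf (nat_lit 0) (nat_lit 16359754908) (nat_lit 76) (nat_lit 37799039) (nat_lit 152) (nat_lit 2313854894) (nat_lit 25) (nat_lit 5) (nat_lit 26) (nat_lit 5) (nat_lit 27) (nat_lit 4) (nat_lit 344) (nat_lit 237) (nat_lit 199))) (XT.nd (nat_lit 78) (nat_lit 0) (nat_lit 0) (XT.lf (nat_lit 0) (nat_lit 1051737481) (nat_lit 228) (nat_lit 14529932181) (nat_lit 76) (nat_lit 3566529876) (nat_lit 22) (nat_lit 5) (nat_lit 25) (nat_lit 5) (nat_lit 23) (nat_lit 4) (nat_lit 345) (nat_lit 237) (nat_lit 198)) (XT.lf (nat_lit 0) (nat_lit 4449169633) (nat_lit 228) (nat_lit 7857132508) (nat_lit 76) (nat_lit 7291809380) (nat_lit 22) (nat_lit 5) (nat_lit 25) (nat_lit 5) (nat_lit 23) (nat_lit 4) (nat_lit 346) (nat_lit 237) (nat_lit 197))))))) (XT.nd (nat_lit 1014) (nat_lit 304) (nat_lit 0) (XT.nd (nat_lit 468) (nat_lit 304) (nat_lit 0) (XT.nd (nat_lit 234)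 (nat_lit 228) (nat_lit 0) (XT.nd (nat_lit 78) (nat_lit 76) (nat_lit 0) (XT.lf (nat_lit 0) (nat_lit 7902914784) (nat_lit 228) (nat_lit 1063493535) (nat_lit 76) (nat_lit 11096506276) (nat_lit 22) (nat_lit 5) (nat_lit 25) (nat_lit 5) (nat_lit 23) (nat_lit 4) (nat_lit 347) (nat_lit 237) (nat_lit 196)) (XT.nd (nat_lit 78) (nat_lit 0) (nat_lit 0) (XT.lf (nat_lit 0) (nat_lit 5973485136) (nat_lit 76) (nat_lit 5499926428) (nat_lit 152) (nat_lit 9067880713) (nat_lit 21) (nat_lit 5) (nat_lit 22) (nat_lit 5) (nat_lit 23) (nat_lit 4) (nat_lit 348) (nat_lit 237) (nat_lit 195)) (XT.lf (nat_lit 0) (nat_lit 13167095295) (nat_lit 76) (nat_lit 1950942150) (nat_lit 152) (nat_lit 5916997390) (nat_lit 21) (nat_lit 5) (nat_lit 22) (nat_lit 5) (nat_lit 23) (nat_lit 4) (nat_lit 349) (nat_lit 237) (nat_lit 194)))) (XT.nd (nat_lit 78) (nat_lit 228) (nat_lit 0) (XT.lf (nat_lit 0) (nat_lit 18845631645) (nat_lit 152) (nat_lit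 1058510476) (nat_lit 0) (nat_lit 1640261939) (nat_lit 21) (nat_lit 5) (nat_lit 23) (nat_lit 4) (nat_lit 21) (nat_lit 4) (nat_lit 350) (nat_lit 237) (nat_lit 193)) (XT.nd (nat_lit 78) (nat_lit 0) (nat_lit 0) (XT.lf (nat_lit 0) (nat_lit 639593055) (nat_lit 228) (nat_lit 16094581888) (nat_lit 76) (nat_lit 5333655292) (nat_lit 18) (nat_lit 5) (nat_lit 21) (nat_lit 5) (nat_lit 19) (nat_lit 4) (nat_lit 351) (nat_lit 237) (nat_lit 192)) (XT.lf (nat_lit 0) (nat_lit 3993239665) (nat_lit 228) (nat_lit 9468801681) (nat_lit 76) (nat_lit 9145056348) (nat_lit 18) (nat_lit 5) (nat_lit 21) (nat_lit 5) (nat_lit 19) (nat_lit 4) (nat_lit 352) (nat_lit 237) (nat_lit 191))))) (XT.nd (nat_lit 234) (nat_lit 228) (nat_lit 0) (XT.nd (nat_lit 78) (nat_lit 76) (nat_lit 0) (XT.lf (nat_lit 0) (nat_lit 7407280255) (nat_lit 228) (nat_lit 2715117160) (nat_lit 76) (nat_lit 13041372905) (nat_lit 18) (nat_lit 5) (nat_lit 21)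 (nat_lit 5) (nat_lit 19) (nat_lit 4) (nat_lit 353) (nat_lit 237) (nat_lit 190)) (XT.nd (nat_lit 78) (nat_lit 0) (nat_lit 0) (XT.lf (nat_lit 0) (nat_lit 4255411355) (nat_lit 76) (nat_lit 6670192228) (nat_lit 152) (nat_lit 12811503772) (nat_lit 17) (nat_lit 5) (nat_lit 18) (nat_lit 5) (nat_lit 19) (nat_lit 4) (nat_lit 354) (nat_lit 237) (nat_lit 189)) (XT.lf (nat_lit 0) (nat_lit 11422582582) (nat_lit 76) (nat_lit 3115749590) (nat_lit 152) (nat_lit 9789666157) (nat_lit 17) (nat_lit 5) (nat_lit 18) (nat_lit 5) (nat_lit 19) (nat_lit 4) (nat_lit 355) (nat_lit 237) (nat_lit 188)))) (XT.nd (nat_lit 156) (nat_lit 76) (nat_lit 0) (XT.nd (nat_lit 78) (nat_lit 152) (nat_lit 0) (XT.lf (nat_lit 0) (nat_lit 18226970034) (nat_lit 152) (nat_lit 6204101232) (nat_lit 0) (nat_lit 506537866) (nat_lit 17) (nat_lit 5) (nat_lit 19) (nat_lit 4) (nat_lit 17) (nat_lit 4) (nat_lit 356) (nat_lit 237) (nat_lit 187)) (XT.lf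 (nat_lit 0) (nat_lit 614331200) (nat_lit 152) (nat_lit 21412074054) (nat_lit 152) (nat_lit 3539117233) (nat_lit 15) (nat_lit 4) (nat_lit 17) (nat_lit 5) (nat_lit 17) (nat_lit 4) (nat_lit 357) (nat_lit 237) (nat_lit 186))) (XT.nd (nat_lit 78) (nat_lit 76) (nat_lit 0) (XT.lf (nat_lit 0) (nat_lit 7700072118) (nat_lit 152) (nat_lit 18266231780) (nat_lit 152) (nat_lit 245192771) (nat_lit 15) (nat_lit 4) (nat_lit 17) (nat_lit 5) (nat_lit 17) (nat_lit 4) (nat_lit 358) (nat_lit 237) (nat_lit 185)) (XT.lf (nat_lit 0) (nat_lit 3050649312) (nat_lit 228) (nat_lit 11971990018) (nat_lit 76) (nat_lit 11854384278) (nat_lit 14) (nat_lit 5) (nat_lit 17) (nat_lit 5) (nat_lit 15) (nat_lit 4) (nat_lit 359) (nat_lit 237) (nat_lit 184)))))) (XT.nd (nat_lit 546) (nat_lit 152) (nat_lit 0) (XT.nd (nat_lit 234) (nat_lit 76) (nat_lit 0) (XT.nd (nat_lit 78) (nat_lit 76) (nat_lit 0) (XT.lf (nat_lit 0) (nat_lit 6405991841)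 (nat_lit 228) (nat_lit 5300226348) (nat_lit 76) (nat_lit 15857275062) (nat_lit 14) (nat_lit 5) (nat_lit 17) (nat_lit 5) (nat_lit 15) (nat_lit 4) (nat_lit 360) (nat_lit 237) (nat_lit 183)) (XT.nd (nat_lit 78) (nat_lit 0) (nat_lit 0) (XT.lf (nat_lit 0) (nat_lit 1542145920) (nat_lit 76) (nat_lit 8301229393) (nat_lit 152) (nat_lit 18427756100) (nat_lit 13) (nat_lit 5) (nat_lit 14) (nat_lit 5) (nat_lit 15) (nat_lit 4) (nat_lit 361) (nat_lit 237) (nat_lit 182)) (XT.lf (nat_lit 0) (nat_lit 8639386345) (nat_lit 76) (nat_lit 4764978884) (nat_lit 152) (nat_lit 15595034329) (nat_lit 13) (nat_lit 5) (nat_lit 14) (nat_lit 5) (nat_lit 15) (nat_lit 4) (nat_lit 362) (nat_lit 237) (nat_lit 181)))) (XT.nd (nat_lit 156) (nat_lit 76) (nat_lit 0) (XT.nd (nat_lit 78) (nat_lit 0) (nat_lit 0) (XT.lf (nat_lit 0) (nat_lit 15892211502) (nat_lit 76) (nat_lit 1147898630) (nat_lit 152) (nat_lit 12710382796) (nat_lit 13)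 (nat_lit 5) (nat_lit 14) (nat_lit 5) (nat_lit 15) (nat_lit 4) (nat_lit 363) (nat_lit 237) (nat_lit 180)) (XT.lf (nat_lit 0) (nat_lit 20778329536) (nat_lit 152) (nat_lit 7242651659) (nat_lit 0) (nat_lit 2503350344) (nat_lit 13) (nat_lit 5) (nat_lit 15) (nat_lit 4) (nat_lit 13) (nat_lit 4) (nat_lit 364) (nat_lit 237) (nat_lit 179))) (XT.nd (nat_lit 78) (nat_lit 76) (nat_lit 0) (XT.lf (nat_lit 0) (nat_lit 24609598507) (nat_lit 152) (nat_lit 494651924) (nat_lit 0) (nat_lit 6217721869) (nat_lit 13) (nat_lit 5) (nat_lit 15) (nat_lit 4) (nat_lit 13) (nat_lit 4) (nat_lit 365) (nat_lit 237) (nat_lit 178)) (XT.lf (nat_lit 0) (nat_lit 6530073649) (nat_lit 76) (nat_lit 22058927867) (nat_lit 76) (nat_lit 3553558561) (nat_lit 12) (nat_lit 4) (nat_lit 13) (nat_lit 5) (nat_lit 13) (nat_lit 4) (nat_lit 366) (nat_lit 237) (nat_lit 177))))) (XT.nd (nat_lit 234) (nat_lit 76) (nat_lit 0) (XT.nd (nat_lit 78) (nat_lit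 76) (nat_lit 0) (XT.lf (nat_lit 0) (nat_lit 13723062434) (nat_lit 76) (nat_lit 18940499710) (nat_lit 76) (nat_lit 324943350) (nat_lit 12) (nat_lit 4) (nat_lit 13) (nat_lit 5) (nat_lit 13) (nat_lit 4) (nat_lit 367) (nat_lit 237) (nat_lit 176)) (XT.nd (nat_lit 78) (nat_lit 0) (nat_lit 0) (XT.lf (nat_lit 0) (nat_lit 2913317220) (nat_lit 152) (nat_lit 12808500126) (nat_lit 76) (nat_lit 18138019010) (nat_lit 11) (nat_lit 5) (nat_lit 13) (nat_lit 5) (nat_lit 12) (nat_lit 4) (nat_lit 368) (nat_lit 237) (nat_lit 175)) (XT.lf (nat_lit 0) (nat_lit 6214367439) (nat_lit 152) (nat_lit 6211230047) (nat_lit 76) (nat_lit 22332460100) (nat_lit 11) (nat_lit 5) (nat_lit 13) (nat_lit 5) (nat_lit 12) (nat_lit 4) (nat_lit 369) (nat_lit 237) (nat_lit 174)))) (XT.nd (nat_lit 156) (nat_lit 0) (nat_lit 0) (XT.nd (nat_lit 78) (nat_lit 0) (nat_lit 0) (XT.lf (nat_lit 0) (nat_lit 545907965) (nat_lit 76) (nat_lit 9046772172)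 (nat_lit 152) (nat_lit 26091210180) (nat_lit 10) (nat_lit 5) (nat_lit 11) (nat_lit 5) (nat_lit 12) (nat_lit 4) (nat_lit 370) (nat_lit 237) (nat_lit 173)) (XT.lf (nat_lit 0) (nat_lit 7584858922) (nat_lit 76) (nat_lit 5523511228) (nat_lit 152) (nat_lit 23528058491) (nat_lit 10) (nat_lit 5) (nat_lit 11) (nat_lit 5) (nat_lit 12) (nat_lit 4) (nat_lit 371) (nat_lit 237) (nat_lit 172))) (XT.nd (nat_lit 78) (nat_lit 0) (nat_lit 0) (XT.lf (nat_lit 0) (nat_lit 14788157709) (nat_lit 76) (nat_lit 1915457323) (nat_lit 152) (nat_lit 20914716676) (nat_lit 10) (nat_lit 5) (nat_lit 11) (nat_lit 5) (nat_lit 12) (nat_lit 4) (nat_lit 372) (nat_lit 237) (nat_lit 171)) (XT.lf (nat_lit 0) (nat_lit 20398671916) (nat_lit 152) (nat_lit 16485474681) (nat_lit 0) (nat_lit 1745797421) (nat_lit 10) (nat_lit 5) (nat_lit 12) (nat_lit 4) (nat_lit 10) (nat_lit 4) (nat_lit 373) (nat_lit 237) (nat_lit 170))))))))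
noncomputable def xc52 : XT := (XT.nd (nat_lit 2028) (nat_lit 76) (nat_lit 0) (XT.nd (nat_lit 1014) (nat_lit 152) (nat_lit 0) (XT.nd (nat_lit 468) (nat_lit 152) (nat_lit 0) (XT.nd (nat_lit 234) (nat_lit 0) (nat_lit 0) (XT.nd (nat_lit 78) (nat_lit 76) (nat_lit 0) (XT.lf (nat_lit 0) (nat_lit 24198927857) (nat_lit 152) (nat_lit 10014086216) (nat_lit 0) (nat_lit 5459070683) (nat_lit 10) (nat_lit 5) (nat_lit 12) (nat_lit 4) (nat_lit 10) (nat_lit 4) (nat_lit 374) (nat_lit 237) (nat_lit 169)) (XT.nd (nat_lit 78) (nat_lit 76) (nat_lit 0) (XT.lf (nat_lit 0) (nat_lit 28089290918) (nat_lit 152) (nat_lit 3391941444) (nat_lit 0) (nat_lit 9264984542) (nat_lit 10) (nat_lit 5) (nat_lit 12) (nat_lit 4) (nat_lit 10) (nat_lit 4) (nat_lit 375) (nat_lit 237) (nat_lit 168)) (XT.lf (nat_lit 0) (nat_lit 3454148858) (nat_lit 76) (nat_lit 28652214980) (nat_lit 76) (nat_lit 9745919087) (nat_lit 9) (nat_lit 4) (nat_lit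 10) (nat_lit 5) (nat_lit 10) (nat_lit 4) (nat_lit 376) (nat_lit 237) (nat_lit 167)))) (XT.nd (nat_lit 78) (nat_lit 0) (nat_lit 0) (XT.lf (nat_lit 0) (nat_lit 10533444605) (nat_lit 76) (nat_lit 25721826801) (nat_lit 76) (nat_lit 6735929436) (nat_lit 9) (nat_lit 4) (nat_lit 10) (nat_lit 5) (nat_lit 10) (nat_lit 4) (nat_lit 377) (nat_lit 237) (nat_lit 166)) (XT.nd (nat_lit 78) (nat_lit 0) (nat_lit 0) (XT.lf (nat_lit 0) (nat_lit 17784625302) (nat_lit 76) (nat_lit 22721759251) (nat_lit 76) (nat_lit 3658578902) (nat_lit 9) (nat_lit 4) (nat_lit 10) (nat_lit 5) (nat_lit 10) (nat_lit 4) (nat_lit 378) (nat_lit 237) (nat_lit 165)) (XT.lf (nat_lit 0) (nat_lit 25214026934) (nat_lit 76) (nat_lit 19649390910) (nat_lit 76) (nat_lit 511178538) (nat_lit 9) (nat_lit 4) (nat_lit 10) (nat_lit 5) (nat_lit 10) (nat_lit 4) (nat_lit 379) (nat_lit 237) (nat_lit 164))))) (XT.nd (nat_lit 234) (nat_lit 76) (nat_lit 0) (XT.nd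 (nat_lit 78) (nat_lit 0) (nat_lit 0) (XT.lf (nat_lit 0) (nat_lit 2656159036) (nat_lit 152) (nat_lit 13819056151) (nat_lit 76) (nat_lit 30145160176) (nat_lit 8) (nat_lit 5) (nat_lit 10) (nat_lit 5) (nat_lit 9) (nat_lit 4) (nat_lit 380) (nat_lit 237) (nat_lit 163)) (XT.nd (nat_lit 78) (nat_lit 0) (nat_lit 0) (XT.lf (nat_lit 0) (nat_lit 5887659933) (nat_lit 152) (nat_lit 7329834208) (nat_lit 76) (nat_lit 34686507486) (nat_lit 8) (nat_lit 5) (nat_lit 10) (nat_lit 5) (nat_lit 9) (nat_lit 4) (nat_lit 381) (nat_lit 237) (nat_lit 162)) (XT.lf (nat_lit 0) (nat_lit 9196122727) (nat_lit 152) (nat_lit 682319665) (nat_lit 76) (nat_lit 39348301810) (nat_lit 8) (nat_lit 5) (nat_lit 10) (nat_lit 5) (nat_lit 9) (nat_lit 4) (nat_lit 382) (nat_lit 237) (nat_lit 161)))) (XT.nd (nat_lit 156) (nat_lit 0) (nat_lit 0) (XT.nd (nat_lit 78) (nat_lit 0) (nat_lit 0) (XT.lf (nat_lit 0) (nat_lit 6251280991) (nat_lit 76) (nat_lit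 6393248453) (nat_lit 152) (nat_lit 37943426707) (nat_lit 7) (nat_lit 5) (nat_lit 8) (nat_lit 5) (nat_lit 9) (nat_lit 4) (nat_lit 383) (nat_lit 237) (nat_lit 160)) (XT.lf (nat_lit 0) (nat_lit 13371898541) (nat_lit 76) (nat_lit 2812207668) (nat_lit 152) (nat_lit 35806274285) (nat_lit 7) (nat_lit 5) (nat_lit 8) (nat_lit 5) (nat_lit 9) (nat_lit 4) (nat_lit 384) (nat_lit 237) (nat_lit 159))) (XT.nd (nat_lit 78) (nat_lit 0) (nat_lit 0) (XT.lf (nat_lit 0) (nat_lit 19819532125) (nat_lit 152) (nat_lit 32771543627) (nat_lit 0) (nat_lit 844119307) (nat_lit 7) (nat_lit 5) (nat_lit 9) (nat_lit 4) (nat_lit 7) (nat_lit 4) (nat_lit 385) (nat_lit 237) (nat_lit 158)) (XT.lf (nat_lit 0) (nat_lit 23573649564) (nat_lit 152) (nat_lit 26810416996) (nat_lit 0) (nat_lit 4539005775) (nat_lit 7) (nat_lit 5) (nat_lit 9) (nat_lit 4) (nat_lit 7) (nat_lit 4) (nat_lit 386) (nat_lit 237) (nat_lit 157)))))) (XT.nd (nat_lit 468)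 (nat_lit 76) (nat_lit 0) (XT.nd (nat_lit 234) (nat_lit 76) (nat_lit 0) (XT.nd (nat_lit 78) (nat_lit 0) (nat_lit 0) (XT.lf (nat_lit 0) (nat_lit 27422706164) (nat_lit 152) (nat_lit 20702860646) (nat_lit 0) (nat_lit 8330556577) (nat_lit 7) (nat_lit 5) (nat_lit 9) (nat_lit 4) (nat_lit 7) (nat_lit 4) (nat_lit 387) (nat_lit 237) (nat_lit 156)) (XT.nd (nat_lit 78) (nat_lit 0) (nat_lit 0) (XT.lf (nat_lit 0) (nat_lit 31370065177) (nat_lit 152) (nat_lit 14443537879) (nat_lit 0) (nat_lit 12222084718) (nat_lit 7) (nat_lit 5) (nat_lit 9) (nat_lit 4) (nat_lit 7) (nat_lit 4) (nat_lit 388) (nat_lit 237) (nat_lit 155)) (XT.lf (nat_lit 0) (nat_lit 35419175752) (nat_lit 152) (nat_lit 8026979383) (nat_lit 0) (nat_lit 16216990564) (nat_lit 7) (nat_lit 5) (nat_lit 9) (nat_lit 4) (nat_lit 7) (nat_lit 4) (nat_lit 389) (nat_lit 237) (nat_lit 154)))) (XT.nd (nat_lit 78) (nat_lit 76) (nat_lit 0) (XT.lf (nat_lit 0) (nat_lit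 39573575947) (nat_lit 152) (nat_lit 1447578457) (nat_lit 0) (nat_lit 20318764808) (nat_lit 7) (nat_lit 5) (nat_lit 9) (nat_lit 4) (nat_lit 7) (nat_lit 4) (nat_lit 390) (nat_lit 237) (nat_lit 153)) (XT.nd (nat_lit 78) (nat_lit 0) (nat_lit 0) (XT.lf (nat_lit 0) (nat_lit 5405902519) (nat_lit 76) (nat_lit 38482958143) (nat_lit 76) (nat_lit 19177053848) (nat_lit 6) (nat_lit 4) (nat_lit 7) (nat_lit 5) (nat_lit 7) (nat_lit 4) (nat_lit 391) (nat_lit 237) (nat_lit 152)) (XT.lf (nat_lit 0) (nat_lit 12466153518) (nat_lit 76) (nat_lit 35866539377) (nat_lit 76) (nat_lit 16511030076) (nat_lit 6) (nat_lit 4) (nat_lit 7) (nat_lit 5) (nat_lit 7) (nat_lit 4) (nat_lit 392) (nat_lit 237) (nat_lit 151))))) (XT.nd (nat_lit 234) (nat_lit 76) (nat_lit 0) (XT.nd (nat_lit 78) (nat_lit 0) (nat_lit 0) (XT.lf (nat_lit 0) (nat_lit 19710534043) (nat_lit 76) (nat_lit 33184229621) (nat_lit 76) (nat_lit 13780560119) (nat_lit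 6) (nat_lit 4) (nat_lit 7) (nat_lit 5) (nat_lit 7) (nat_lit 4) (nat_lit 393) (nat_lit 237) (nat_lit 150)) (XT.nd (nat_lit 78) (nat_lit 0) (nat_lit 0) (XT.lf (nat_lit 0) (nat_lit 27145374133) (nat_lit 76) (nat_lit 30433685107) (nat_lit 76) (nat_lit 10983258130) (nat_lit 6) (nat_lit 4) (nat_lit 7) (nat_lit 5) (nat_lit 7) (nat_lit 4) (nat_lit 394) (nat_lit 237) (nat_lit 149)) (XT.lf (nat_lit 0) (nat_lit 34777170252) (nat_lit 76) (nat_lit 27612502448) (nat_lit 76) (nat_lit 8116679863) (nat_lit 6) (nat_lit 4) (nat_lit 7) (nat_lit 5) (nat_lit 7) (nat_lit 4) (nat_lit 395) (nat_lit 237) (nat_lit 148)))) (XT.nd (nat_lit 156) (nat_lit 76) (nat_lit 0) (XT.nd (nat_lit 78) (nat_lit 0) (nat_lit 0) (XT.lf (nat_lit 0) (nat_lit 42612590958) (nat_lit 76) (nat_lit 24718216532) (nat_lit 76) (nat_lit 5178320542) (nat_lit 6) (nat_lit 4) (nat_lit 7) (nat_lit 5) (nat_lit 7) (nat_lit 4) (nat_lit 396) (nat_lit 237) (nat_lit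 147)) (XT.lf (nat_lit 0) (nat_lit 50658482737) (nat_lit 76) (nat_lit 21748298373) (nat_lit 76) (nat_lit 2165612668) (nat_lit 6) (nat_lit 4) (nat_lit 7) (nat_lit 5) (nat_lit 7) (nat_lit 4) (nat_lit 397) (nat_lit 237) (nat_lit 146))) (XT.nd (nat_lit 78) (nat_lit 0) (nat_lit 0) (XT.lf (nat_lit 0) (nat_lit 906044165) (nat_lit 152) (nat_lit 17784959460) (nat_lit 76) (nat_lit 58006682543) (nat_lit 5) (nat_lit 5) (nat_lit 7) (nat_lit 5) (nat_lit 6) (nat_lit 4) (nat_lit 398) (nat_lit 237) (nat_lit 145)) (XT.lf (nat_lit 0) (nat_lit 4013567981) (nat_lit 152) (nat_lit 11517019522) (nat_lit 76) (nat_lit 63355893974) (nat_lit 5) (nat_lit 5) (nat_lit 7) (nat_lit 5) (nat_lit 6) (nat_lit 4) (nat_lit 399) (nat_lit 237) (nat_lit 144))))))) (XT.nd (nat_lit 33462) (nat_lit 0) (nat_lit 3724) (XT.nd (nat_lit 468) (nat_lit 0) (nat_lit 0) (XT.nd (nat_lit 234) (nat_lit 0) (nat_lit 0) (XT.nd (nat_lit 78) (nat_lit 76)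 (nat_lit 0) (XT.lf (nat_lit 0) (nat_lit 7201932995) (nat_lit 152) (nat_lit 5083797193) (nat_lit 76) (nat_lit 68855586572) (nat_lit 5) (nat_lit 5) (nat_lit 7) (nat_lit 5) (nat_lit 6) (nat_lit 4) (nat_lit 400) (nat_lit 237) (nat_lit 143)) (XT.nd (nat_lit 78) (nat_lit 0) (nat_lit 0) (XT.lf (nat_lit 0) (nat_lit 1550586312) (nat_lit 76) (nat_lit 8938244029) (nat_lit 152) (nat_lit 72974884767) (nat_lit 4) (nat_lit 5) (nat_lit 5) (nat_lit 5) (nat_lit 6) (nat_lit 4) (nat_lit 401) (nat_lit 237) (nat_lit 142)) (XT.lf (nat_lit 0) (nat_lit 8466337764) (nat_lit 76) (nat_lit 5447449343) (nat_lit 152) (nat_lit 71940819040) (nat_lit 4) (nat_lit 5) (nat_lit 5) (nat_lit 5) (nat_lit 6) (nat_lit 4) (nat_lit 402) (nat_lit 237) (nat_lit 141)))) (XT.nd (nat_lit 78) (nat_lit 0) (nat_lit 0) (XT.lf (nat_lit 0) (nat_lit 15568322518) (nat_lit 76) (nat_lit 1861632307) (nat_lit 152) (nat_lit 70887619417) (nat_lit 4) (nat_lit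 5) (nat_lit 5) (nat_lit 5) (nat_lit 6) (nat_lit 4) (nat_lit 403) (nat_lit 237) (nat_lit 140)) (XT.nd (nat_lit 78) (nat_lit 0) (nat_lit 0) (XT.lf (nat_lit 0) (nat_lit 21057923323) (nat_lit 152) (nat_lit 68009542757) (nat_lit 0) (nat_lit 1786779895) (nat_lit 4) (nat_lit 5) (nat_lit 6) (nat_lit 4) (nat_lit 4) (nat_lit 4) (nat_lit 404) (nat_lit 237) (nat_lit 139)) (XT.lf (nat_lit 0) (nat_lit 24802199538) (nat_lit 152) (nat_lit 63166336857) (nat_lit 0) (nat_lit 5498261357) (nat_lit 4) (nat_lit 5) (nat_lit 6) (nat_lit 4) (nat_lit 4) (nat_lit 4) (nat_lit 405) (nat_lit 237) (nat_lit 138))))) (XT.nd (nat_lit 32682) (nat_lit 0) (nat_lit 6156) (XT.nd (nat_lit 78) (nat_lit 0) (nat_lit 0) (XT.lf (nat_lit 0) (nat_lit 28648160019) (nat_lit 152) (nat_lit 58197506946) (nat_lit 0) (nat_lit 9312382272) (nat_lit 4) (nat_lit 5) (nat_lit 6) (nat_lit 4) (nat_lit 4) (nat_lit 4) (nat_lit 406) (nat_lit 237) (nat_lit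 137)) (XT.nd (nat_lit 78) (nat_lit 0) (nat_lit 0) (XT.lf (nat_lit 0) (nat_lit 32599165314) (nat_lit 152) (nat_lit 53098711329) (nat_lit 0) (nat_lit 13232475368) (nat_lit 4) (nat_lit 5) (nat_lit 6) (nat_lit 4) (nat_lit 4) (nat_lit 4) (nat_lit 407) (nat_lit 237) (nat_lit 136)) (XT.lf (nat_lit 0) (nat_lit 36658667758) (nat_lit 152) (nat_lit 47865494748) (nat_lit 0) (nat_lit 17261965967) (nat_lit 4) (nat_lit 5) (nat_lit 6) (nat_lit 4) (nat_lit 4) (nat_lit 4) (nat_lit 408) (nat_lit 237) (nat_lit 135)))) (XT.nd (nat_lit 156) (nat_lit 760) (nat_lit 0) (XT.nd (nat_lit 78) (nat_lit 0) (nat_lit 0) (XT.lf (nat_lit 0) (nat_lit 424131217) (nat_lit 380) (nat_lit 1999292034) (nat_lit 380) (nat_lit 1999292034) (nat_lit 95) (nat_lit 4) (nat_lit 100) (nat_lit 5) (nat_lit 100) (nat_lit 4) (nat_lit 304) (nat_lit 238) (nat_lit 238)) (XT.lf (nat_lit 0) (nat_lit 7047774157) (nat_lit 380) (nat_lit 1465703688) (nat_lit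 380) (nat_lit 454304903) (nat_lit 95) (nat_lit 4) (nat_lit 100) (nat_lit 5) (nat_lit 100) (nat_lit 4) (nat_lit 305) (nat_lit 238) (nat_lit 237))) (XT.nd (nat_lit 78) (nat_lit 380) (nat_lit 0) (XT.lf (nat_lit 0) (nat_lit 3097221397) (nat_lit 380) (nat_lit 4834938013) (nat_lit 0) (nat_lit 1161940472) (nat_lit 90) (nat_lit 5) (nat_lit 95) (nat_lit 4) (nat_lit 90) (nat_lit 4) (nat_lit 306) (nat_lit 238) (nat_lit 236)) (XT.lf (nat_lit 0) (nat_lit 1323637130) (nat_lit 380) (nat_lit 5381318127) (nat_lit 380) (nat_lit 2520464040) (nat_lit 85) (nat_lit 4) (nat_lit 90) (nat_lit 5) (nat_lit 90) (nat_lit 4) (nat_lit 307) (nat_lit 238) (nat_lit 235)))))) (XT.nd (nat_lit 468) (nat_lit 1140) (nat_lit 0) (XT.nd (nat_lit 234) (nat_lit 608) (nat_lit 0) (XT.nd (nat_lit 78) (nat_lit 608) (nat_lit 0) (XT.lf (nat_lit 0) (nat_lit 1001272141) (nat_lit 456) (nat_lit 1726886361) (nat_lit 76) (nat_lit 6633467584) (nat_lit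 84) (nat_lit 5) (nat_lit 90) (nat_lit 5) (nat_lit 85) (nat_lit 4) (nat_lit 308) (nat_lit 238) (nat_lit 234)) (XT.nd (nat_lit 78) (nat_lit 304) (nat_lit 0) (XT.lf (nat_lit 0) (nat_lit 4537368036) (nat_lit 380) (nat_lit 4924755669) (nat_lit 0) (nat_lit 40367760) (nat_lit 80) (nat_lit 5) (nat_lit 85) (nat_lit 4) (nat_lit 80) (nat_lit 4) (nat_lit 309) (nat_lit 238) (nat_lit 233)) (XT.lf (nat_lit 0) (nat_lit 1338165210) (nat_lit 304) (nat_lit 6814836527) (nat_lit 304) (nat_lit 1495476484) (nat_lit 76) (nat_lit 4) (nat_lit 80) (nat_lit 5) (nat_lit 80) (nat_lit 4) (nat_lit 310) (nat_lit 238) (nat_lit 232)))) (XT.nd (nat_lit 78) (nat_lit 532) (nat_lit 0) (XT.lf (nat_lit 0) (nat_lit 2004283827) (nat_lit 380) (nat_lit 2049071413) (nat_lit 76) (nat_lit 5745986043) (nat_lit 75) (nat_lit 5) (nat_lit 80) (nat_lit 5) (nat_lit 76) (nat_lit 4) (nat_lit 311) (nat_lit 238) (nat_lit 231)) (XT.nd (nat_lit 78) (nat_lit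 304) (nat_lit 0) (XT.lf (nat_lit 0) (nat_lit 4352487583) (nat_lit 228) (nat_lit 1187122327) (nat_lit 304) (nat_lit 4415947865) (nat_lit 72) (nat_lit 5) (nat_lit 75) (nat_lit 5) (nat_lit 76) (nat_lit 4) (nat_lit 312) (nat_lit 238) (nat_lit 230)) (XT.lf (nat_lit 0) (nat_lit 751113941) (nat_lit 304) (nat_lit 8394651799) (nat_lit 304) (nat_lit 971839938) (nat_lit 68) (nat_lit 4) (nat_lit 72) (nat_lit 5) (nat_lit 72) (nat_lit 4) (nat_lit 313) (nat_lit 238) (nat_lit 229))))) (XT.nd (nat_lit 234) (nat_lit 836) (nat_lit 0) (XT.nd (nat_lit 78) (nat_lit 228) (nat_lit 0) (XT.lf (nat_lit 0) (nat_lit 2514255301) (nat_lit 380) (nat_lit 3028248357) (nat_lit 76) (nat_lit 4741683886) (nat_lit 67) (nat_lit 5) (nat_lit 72) (nat_lit 5) (nat_lit 68) (nat_lit 4) (nat_lit 314) (nat_lit 238) (nat_lit 228)) (XT.nd (nat_lit 78) (nat_lit 0) (nat_lit 0) (XT.lf (nat_lit 0) (nat_lit 3442016640) (nat_lit 228) (nat_lit 2598828984)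 (nat_lit 304) (nat_lit 4416049766) (nat_lit 64) (nat_lit 5) (nat_lit 67) (nat_lit 5) (nat_lit 68) (nat_lit 4) (nat_lit 315) (nat_lit 238) (nat_lit 227)) (XT.lf (nat_lit 0) (nat_lit 9631432643) (nat_lit 304) (nat_lit 586410371) (nat_lit 0) (nat_lit 418273688) (nat_lit 64) (nat_lit 5) (nat_lit 68) (nat_lit 4) (nat_lit 64) (nat_lit 4) (nat_lit 316) (nat_lit 238) (nat_lit 226)))) (XT.nd (nat_lit 156) (nat_lit 304) (nat_lit 0) (XT.nd (nat_lit 78) (nat_lit 228) (nat_lit 0) (XT.lf (nat_lit 0) (nat_lit 2469003064) (nat_lit 304) (nat_lit 4831353018) (nat_lit 76) (nat_lit 3519440520) (nat_lit 60) (nat_lit 5) (nat_lit 64) (nat_lit 5) (nat_lit 61) (nat_lit 4) (nat_lit 317) (nat_lit 238) (nat_lit 225)) (XT.lf (nat_lit 0) (nat_lit 1672801873) (nat_lit 228) (nat_lit 4301653304) (nat_lit 304) (nat_lit 5035872440) (nat_lit 57) (nat_lit 5) (nat_lit 60) (nat_lit 5) (nat_lit 61) (nat_lit 4) (nat_lit 318) (nat_lit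 238) (nat_lit 224))) (XT.nd (nat_lit 78) (nat_lit 304) (nat_lit 0) (XT.lf (nat_lit 0) (nat_lit 8358643771) (nat_lit 228) (nat_lit 1201984850) (nat_lit 304) (nat_lit 1646748691) (nat_lit 57) (nat_lit 5) (nat_lit 60) (nat_lit 5) (nat_lit 61) (nat_lit 4) (nat_lit 319) (nat_lit 238) (nat_lit 223)) (XT.lf (nat_lit 0) (nat_lit 1791832021) (nat_lit 304) (nat_lit 7650172186) (nat_lit 76) (nat_lit 1968354979) (nat_lit 53) (nat_lit 5) (nat_lit 57) (nat_lit 5) (nat_lit 54) (nat_lit 4) (nat_lit 320) (nat_lit 238) (nat_lit 222))))))))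
noncomputable def xc53 : XT := (XT.nd (nat_lit 2028) (nat_lit 912) (nat_lit 0) (XT.nd (nat_lit 1014) (nat_lit 912) (nat_lit 0) (XT.nd (nat_lit 468) (nat_lit 836) (nat_lit 0) (XT.nd (nat_lit 234) (nat_lit 152) (nat_lit 0) (XT.nd (nat_lit 78) (nat_lit 456) (nat_lit 0) (XT.lf (nat_lit 0) (nat_lit 5270224575) (nat_lit 304) (nat_lit 1132711985) (nat_lit 76) (nat_lit 5216975834) (nat_lit 53) (nat_lit 5) (nat_lit 57) (nat_lit 5) (nat_lit 54) (nat_lit 4) (nat_lit 321) (nat_lit 238) (nat_lit 221)) (XT.nd (nat_lit 78) (nat_lit 304) (nat_lit 0) (XT.lf (nat_lit 0) (nat_lit 5580997014) (nat_lit 152) (nat_lit 3256493788) (nat_lit 228) (nat_lit 2998787473) (nat_lit 51) (nat_lit 5) (nat_lit 53) (nat_lit 5) (nat_lit 54) (nat_lit 4) (nat_lit 322) (nat_lit 238) (nat_lit 220)) (XT.lf (nat_lit 0) (nat_lit 354448324) (nat_lit 228) (nat_lit 35441695) (nat_lit 304) (nat_lit 11670790287) (nat_lit 47) (nat_lit 5) (nat_lit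 50) (nat_lit 5) (nat_lit 51) (nat_lit 5) (nat_lit 323) (nat_lit 238) (nat_lit 219)))) (XT.nd (nat_lit 78) (nat_lit 152) (nat_lit 0) (XT.lf (nat_lit 0) (nat_lit 3847014157) (nat_lit 304) (nat_lit 5170287393) (nat_lit 76) (nat_lit 3272866844) (nat_lit 47) (nat_lit 5) (nat_lit 51) (nat_lit 5) (nat_lit 48) (nat_lit 4) (nat_lit 324) (nat_lit 238) (nat_lit 218)) (XT.nd (nat_lit 78) (nat_lit 0) (nat_lit 0) (XT.lf (nat_lit 0) (nat_lit 1484332189) (nat_lit 152) (nat_lit 5871844463) (nat_lit 228) (nat_lit 5171969582) (nat_lit 45) (nat_lit 5) (nat_lit 47) (nat_lit 5) (nat_lit 48) (nat_lit 4) (nat_lit 325) (nat_lit 238) (nat_lit 217)) (XT.lf (nat_lit 0) (nat_lit 8339598461) (nat_lit 152) (nat_lit 2617852544) (nat_lit 228) (nat_lit 1816260546) (nat_lit 45) (nat_lit 5) (nat_lit 47) (nat_lit 5) (nat_lit 48) (nat_lit 4) (nat_lit 326) (nat_lit 238) (nat_lit 216))))) (XT.nd (nat_lit 234) (nat_lit 380) (nat_lit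 0) (XT.nd (nat_lit 78) (nat_lit 152) (nat_lit 0) (XT.lf (nat_lit 0) (nat_lit 1573126301) (nat_lit 304) (nat_lit 10734792422) (nat_lit 76) (nat_lit 719351989) (nat_lit 41) (nat_lit 5) (nat_lit 45) (nat_lit 5) (nat_lit 42) (nat_lit 4) (nat_lit 327) (nat_lit 238) (nat_lit 215)) (XT.nd (nat_lit 78) (nat_lit 152) (nat_lit 0) (XT.lf (nat_lit 0) (nat_lit 5035191416) (nat_lit 304) (nat_lit 4123483145) (nat_lit 76) (nat_lit 4129046283) (nat_lit 41) (nat_lit 5) (nat_lit 45) (nat_lit 5) (nat_lit 42) (nat_lit 4) (nat_lit 328) (nat_lit 238) (nat_lit 214)) (XT.lf (nat_lit 0) (nat_lit 2636836358) (nat_lit 152) (nat_lit 5927845707) (nat_lit 228) (nat_lit 4992442823) (nat_lit 39) (nat_lit 5) (nat_lit 41) (nat_lit 5) (nat_lit 42) (nat_lit 4) (nat_lit 329) (nat_lit 238) (nat_lit 213)))) (XT.nd (nat_lit 156) (nat_lit 152) (nat_lit 0) (XT.nd (nat_lit 78) (nat_lit 228) (nat_lit 0) (XT.lf (nat_lit 0) (nat_lit 9584697653)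 (nat_lit 152) (nat_lit 2596055790) (nat_lit 228) (nat_lit 1654482662) (nat_lit 39) (nat_lit 5) (nat_lit 41) (nat_lit 5) (nat_lit 42) (nat_lit 4) (nat_lit 330) (nat_lit 238) (nat_lit 212)) (XT.lf (nat_lit 0) (nat_lit 1721640880) (nat_lit 228) (nat_lit 11576482340) (nat_lit 76) (nat_lit 823911502) (nat_lit 36) (nat_lit 5) (nat_lit 39) (nat_lit 5) (nat_lit 37) (nat_lit 4) (nat_lit 331) (nat_lit 238) (nat_lit 211))) (XT.nd (nat_lit 78) (nat_lit 152) (nat_lit 0) (XT.lf (nat_lit 0) (nat_lit 5175488476) (nat_lit 228) (nat_lit 4924606056) (nat_lit 76) (nat_lit 4316602556) (nat_lit 36) (nat_lit 5) (nat_lit 39) (nat_lit 5) (nat_lit 37) (nat_lit 4) (nat_lit 332) (nat_lit 238) (nat_lit 210)) (XT.lf (nat_lit 0) (nat_lit 1867536126) (nat_lit 152) (nat_lit 6825739324) (nat_lit 228) (nat_lit 6028154970) (nat_lit 34) (nat_lit 5) (nat_lit 36) (nat_lit 5) (nat_lit 37) (nat_lit 4) (nat_lit 333) (nat_lit 238) (nat_lit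 209)))))) (XT.nd (nat_lit 468) (nat_lit 532) (nat_lit 0) (XT.nd (nat_lit 234) (nat_lit 152) (nat_lit 0) (XT.nd (nat_lit 78) (nat_lit 228) (nat_lit 0) (XT.lf (nat_lit 0) (nat_lit 8869597981) (nat_lit 152) (nat_lit 3439866233) (nat_lit 228) (nat_lit 2726095116) (nat_lit 34) (nat_lit 5) (nat_lit 36) (nat_lit 5) (nat_lit 37) (nat_lit 4) (nat_lit 334) (nat_lit 238) (nat_lit 208)) (XT.nd (nat_lit 78) (nat_lit 0) (nat_lit 0) (XT.lf (nat_lit 0) (nat_lit 612395417) (nat_lit 228) (nat_lit 14725330224) (nat_lit 76) (nat_lit 22712920) (nat_lit 31) (nat_lit 5) (nat_lit 34) (nat_lit 5) (nat_lit 32) (nat_lit 4) (nat_lit 335) (nat_lit 238) (nat_lit 207)) (XT.lf (nat_lit 0) (nat_lit 4037778925) (nat_lit 228) (nat_lit 8081852919) (nat_lit 76) (nat_lit 3573412953) (nat_lit 31) (nat_lit 5) (nat_lit 34) (nat_lit 5) (nat_lit 32) (nat_lit 4) (nat_lit 336) (nat_lit 238) (nat_lit 206)))) (XT.nd (nat_lit 78) (nat_lit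 152) (nat_lit 0) (XT.lf (nat_lit 0) (nat_lit 7512129175) (nat_lit 228) (nat_lit 1329942510) (nat_lit 76) (nat_lit 7195206583) (nat_lit 31) (nat_lit 5) (nat_lit 34) (nat_lit 5) (nat_lit 32) (nat_lit 4) (nat_lit 337) (nat_lit 238) (nat_lit 205)) (XT.nd (nat_lit 78) (nat_lit 0) (nat_lit 0) (XT.lf (nat_lit 0) (nat_lit 5646483969) (nat_lit 152) (nat_lit 5446275495) (nat_lit 228) (nat_lit 5299051973) (nat_lit 29) (nat_lit 5) (nat_lit 31) (nat_lit 5) (nat_lit 32) (nat_lit 4) (nat_lit 338) (nat_lit 238) (nat_lit 204)) (XT.lf (nat_lit 0) (nat_lit 12772106225) (nat_lit 152) (nat_lit 1970585771) (nat_lit 228) (nat_lit 2015465289) (nat_lit 29) (nat_lit 5) (nat_lit 31) (nat_lit 5) (nat_lit 32) (nat_lit 4) (nat_lit 339) (nat_lit 238) (nat_lit 203))))) (XT.nd (nat_lit 234) (nat_lit 304) (nat_lit 0) (XT.nd (nat_lit 78) (nat_lit 0) (nat_lit 0) (XT.lf (nat_lit 0) (nat_lit 1333135441) (nat_lit 228) (nat_lit 14217070024)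 (nat_lit 76) (nat_lit 1585129989) (nat_lit 26) (nat_lit 5) (nat_lit 29) (nat_lit 5) (nat_lit 27) (nat_lit 4) (nat_lit 340) (nat_lit 238) (nat_lit 202)) (XT.nd (nat_lit 78) (nat_lit 0) (nat_lit 0) (XT.lf (nat_lit 0) (nat_lit 4751592151) (nat_lit 228) (nat_lit 7537265915) (nat_lit 76) (nat_lit 5234105411) (nat_lit 26) (nat_lit 5) (nat_lit 29) (nat_lit 5) (nat_lit 27) (nat_lit 4) (nat_lit 341) (nat_lit 238) (nat_lit 201)) (XT.lf (nat_lit 0) (nat_lit 8223812500) (nat_lit 228) (nat_lit 740758618) (nat_lit 76) (nat_lit 8959142410) (nat_lit 26) (nat_lit 5) (nat_lit 29) (nat_lit 5) (nat_lit 27) (nat_lit 4) (nat_lit 342) (nat_lit 238) (nat_lit 200)))) (XT.nd (nat_lit 156) (nat_lit 228) (nat_lit 0) (XT.nd (nat_lit 78) (nat_lit 0) (nat_lit 0) (XT.lf (nat_lit 0) (nat_lit 6301352650) (nat_lit 76) (nat_lit 5512050274) (nat_lit 152) (nat_lit 6522715677) (nat_lit 25) (nat_lit 5) (nat_lit 26) (nat_lit 5) (nat_lit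 27) (nat_lit 4) (nat_lit 343) (nat_lit 238) (nat_lit 199)) (XT.lf (nat_lit 0) (nat_lit 13489455350) (nat_lit 76) (nat_lit 1981943210) (nat_lit 152) (nat_lit 3290703533) (nat_lit 25) (nat_lit 5) (nat_lit 26) (nat_lit 5) (nat_lit 27) (nat_lit 4) (nat_lit 344) (nat_lit 238) (nat_lit 198))) (XT.nd (nat_lit 78) (nat_lit 0) (nat_lit 0) (XT.lf (nat_lit 0) (nat_lit 23199651) (nat_lit 228) (nat_lit 17572507572) (nat_lit 76) (nat_lit 1605602703) (nat_lit 22) (nat_lit 5) (nat_lit 25) (nat_lit 5) (nat_lit 23) (nat_lit 4) (nat_lit 345) (nat_lit 238) (nat_lit 197)) (XT.lf (nat_lit 0) (nat_lit 3398163840) (nat_lit 228) (nat_lit 10938793953) (nat_lit 76) (nat_lit 5314950684) (nat_lit 22) (nat_lit 5) (nat_lit 25) (nat_lit 5) (nat_lit 23) (nat_lit 4) (nat_lit 346) (nat_lit 238) (nat_lit 196))))))) (XT.nd (nat_lit 1014) (nat_lit 304) (nat_lit 0) (XT.nd (nat_lit 468) (nat_lit 304) (nat_lit 0) (XT.nd (nat_lit 234)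 (nat_lit 228) (nat_lit 0) (XT.nd (nat_lit 78) (nat_lit 76) (nat_lit 0) (XT.lf (nat_lit 0) (nat_lit 6830095435) (nat_lit 228) (nat_lit 4183102606) (nat_lit 76) (nat_lit 9104180081) (nat_lit 22) (nat_lit 5) (nat_lit 25) (nat_lit 5) (nat_lit 23) (nat_lit 4) (nat_lit 347) (nat_lit 238) (nat_lit 195)) (XT.nd (nat_lit 78) (nat_lit 0) (nat_lit 0) (XT.lf (nat_lit 0) (nat_lit 2754214138) (nat_lit 76) (nat_lit 7594254265) (nat_lit 152) (nat_lit 10248862924) (nat_lit 21) (nat_lit 5) (nat_lit 22) (nat_lit 5) (nat_lit 23) (nat_lit 4) (nat_lit 348) (nat_lit 238) (nat_lit 194)) (XT.lf (nat_lit 0) (nat_lit 9911343141) (nat_lit 76) (nat_lit 4060839094) (nat_lit 152) (nat_lit 7119530477) (nat_lit 21) (nat_lit 5) (nat_lit 22) (nat_lit 5) (nat_lit 23) (nat_lit 4) (nat_lit 349) (nat_lit 238) (nat_lit 193)))) (XT.nd (nat_lit 78) (nat_lit 228) (nat_lit 0) (XT.lf (nat_lit 0) (nat_lit 17211286262) (nat_lit 76) (nat_lit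 452106214) (nat_lit 152) (nat_lit 3938792111) (nat_lit 21) (nat_lit 5) (nat_lit 22) (nat_lit 5) (nat_lit 23) (nat_lit 4) (nat_lit 350) (nat_lit 238) (nat_lit 192)) (XT.nd (nat_lit 78) (nat_lit 76) (nat_lit 0) (XT.lf (nat_lit 0) (nat_lit 2549888875) (nat_lit 152) (nat_lit 18931044408) (nat_lit 152) (nat_lit 646591446) (nat_lit 19) (nat_lit 4) (nat_lit 21) (nat_lit 5) (nat_lit 21) (nat_lit 4) (nat_lit 351) (nat_lit 238) (nat_lit 191)) (XT.lf (nat_lit 0) (nat_lit 2699861941) (nat_lit 228) (nat_lit 12980551097) (nat_lit 76) (nat_lit 6987170117) (nat_lit 18) (nat_lit 5) (nat_lit 21) (nat_lit 5) (nat_lit 19) (nat_lit 4) (nat_lit 352) (nat_lit 238) (nat_lit 190))))) (XT.nd (nat_lit 234) (nat_lit 228) (nat_lit 0) (XT.nd (nat_lit 78) (nat_lit 76) (nat_lit 0) (XT.lf (nat_lit 0) (nat_lit 6094668986) (nat_lit 228) (nat_lit 6260760636) (nat_lit 76) (nat_lit 10869413054) (nat_lit 18) (nat_lit 5) (nat_lit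 21) (nat_lit 5) (nat_lit 19) (nat_lit 4) (nat_lit 353) (nat_lit 238) (nat_lit 189)) (XT.nd (nat_lit 78) (nat_lit 0) (nat_lit 0) (XT.lf (nat_lit 0) (nat_lit 605640855) (nat_lit 76) (nat_lit 8953594288) (nat_lit 152) (nat_lit 14240566887) (nat_lit 17) (nat_lit 5) (nat_lit 18) (nat_lit 5) (nat_lit 19) (nat_lit 4) (nat_lit 354) (nat_lit 238) (nat_lit 188)) (XT.lf (nat_lit 0) (nat_lit 7740227843) (nat_lit 76) (nat_lit 5413293208) (nat_lit 152) (nat_lit 11237734555) (nat_lit 17) (nat_lit 5) (nat_lit 18) (nat_lit 5) (nat_lit 19) (nat_lit 4) (nat_lit 355) (nat_lit 238) (nat_lit 187)))) (XT.nd (nat_lit 156) (nat_lit 228) (nat_lit 0) (XT.nd (nat_lit 78) (nat_lit 0) (nat_lit 0) (XT.lf (nat_lit 0) (nat_lit 15024633017) (nat_lit 76) (nat_lit 1794654323) (nat_lit 152) (nat_lit 8182274267) (nat_lit 17) (nat_lit 5) (nat_lit 18) (nat_lit 5) (nat_lit 19) (nat_lit 4) (nat_lit 356) (nat_lit 238) (nat_lit 186))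 (XT.lf (nat_lit 0) (nat_lit 20578053789) (nat_lit 152) (nat_lit 3184348600) (nat_lit 0) (nat_lit 1868301422) (nat_lit 17) (nat_lit 5) (nat_lit 19) (nat_lit 4) (nat_lit 17) (nat_lit 4) (nat_lit 357) (nat_lit 238) (nat_lit 185))) (XT.nd (nat_lit 78) (nat_lit 76) (nat_lit 0) (XT.lf (nat_lit 0) (nat_lit 3807206651) (nat_lit 152) (nat_lit 20662228438) (nat_lit 152) (nat_lit 1808706957) (nat_lit 15) (nat_lit 4) (nat_lit 17) (nat_lit 5) (nat_lit 17) (nat_lit 4) (nat_lit 358) (nat_lit 238) (nat_lit 184)) (XT.lf (nat_lit 0) (nat_lit 1500676109) (nat_lit 228) (nat_lit 15946730643) (nat_lit 76) (nat_lit 9497230223) (nat_lit 14) (nat_lit 5) (nat_lit 17) (nat_lit 5) (nat_lit 15) (nat_lit 4) (nat_lit 359) (nat_lit 238) (nat_lit 183)))))) (XT.nd (nat_lit 546) (nat_lit 152) (nat_lit 0) (XT.nd (nat_lit 234) (nat_lit 76) (nat_lit 0) (XT.nd (nat_lit 78) (nat_lit 76) (nat_lit 0) (XT.lf (nat_lit 0) (nat_lit 4839544065)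 (nat_lit 228) (nat_lit 9304344870) (nat_lit 76) (nat_lit 13487719727) (nat_lit 14) (nat_lit 5) (nat_lit 17) (nat_lit 5) (nat_lit 15) (nat_lit 4) (nat_lit 360) (nat_lit 238) (nat_lit 182)) (XT.nd (nat_lit 78) (nat_lit 76) (nat_lit 0) (XT.lf (nat_lit 0) (nat_lit 8246108755) (nat_lit 228) (nat_lit 2520587654) (nat_lit 76) (nat_lit 17573482557) (nat_lit 14) (nat_lit 5) (nat_lit 17) (nat_lit 5) (nat_lit 15) (nat_lit 4) (nat_lit 361) (nat_lit 238) (nat_lit 181)) (XT.lf (nat_lit 0) (nat_lit 4498245532) (nat_lit 76) (nat_lit 7268341146) (nat_lit 152) (nat_lit 17303083154) (nat_lit 13) (nat_lit 5) (nat_lit 14) (nat_lit 5) (nat_lit 15) (nat_lit 4) (nat_lit 362) (nat_lit 238) (nat_lit 180)))) (XT.nd (nat_lit 156) (nat_lit 76) (nat_lit 0) (XT.nd (nat_lit 78) (nat_lit 0) (nat_lit 0) (XT.lf (nat_lit 0) (nat_lit 11723650687) (nat_lit 76) (nat_lit 3663340747) (nat_lit 152) (nat_lit 14434239116) (nat_lit 13)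 (nat_lit 5) (nat_lit 14) (nat_lit 5) (nat_lit 15) (nat_lit 4) (nat_lit 363) (nat_lit 238) (nat_lit 179)) (XT.lf (nat_lit 0) (nat_lit 19086024788) (nat_lit 152) (nat_lit 11484732489) (nat_lit 0) (nat_lit 25494403) (nat_lit 13) (nat_lit 5) (nat_lit 15) (nat_lit 4) (nat_lit 13) (nat_lit 4) (nat_lit 364) (nat_lit 238) (nat_lit 178))) (XT.nd (nat_lit 78) (nat_lit 76) (nat_lit 0) (XT.lf (nat_lit 0) (nat_lit 22902724747) (nat_lit 152) (nat_lit 4762909803) (nat_lit 0) (nat_lit 3728701696) (nat_lit 13) (nat_lit 5) (nat_lit 15) (nat_lit 4) (nat_lit 13) (nat_lit 4) (nat_lit 365) (nat_lit 238) (nat_lit 177)) (XT.lf (nat_lit 0) (nat_lit 2150948657) (nat_lit 76) (nat_lit 24674939597) (nat_lit 76) (nat_lit 5390729492) (nat_lit 12) (nat_lit 4) (nat_lit 13) (nat_lit 5) (nat_lit 13) (nat_lit 4) (nat_lit 366) (nat_lit 238) (nat_lit 176))))) (XT.nd (nat_lit 234) (nat_lit 76) (nat_lit 0) (XT.nd (nat_lit 78) (nat_lit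 76) (nat_lit 0) (XT.lf (nat_lit 0) (nat_lit 9318771993) (nat_lit 76) (nat_lit 21567702292) (nat_lit 76) (nat_lit 2176514464) (nat_lit 12) (nat_lit 4) (nat_lit 13) (nat_lit 5) (nat_lit 13) (nat_lit 4) (nat_lit 367) (nat_lit 238) (nat_lit 175)) (XT.nd (nat_lit 78) (nat_lit 0) (nat_lit 0) (XT.lf (nat_lit 0) (nat_lit 1084168982) (nat_lit 152) (nat_lit 17294186660) (nat_lit 76) (nat_lit 15556915144) (nat_lit 11) (nat_lit 5) (nat_lit 13) (nat_lit 5) (nat_lit 12) (nat_lit 4) (nat_lit 368) (nat_lit 238) (nat_lit 174)) (XT.lf (nat_lit 0) (nat_lit 4371910517) (nat_lit 152) (nat_lit 10720908108) (nat_lit 76) (nat_lit 19741078461) (nat_lit 11) (nat_lit 5) (nat_lit 13) (nat_lit 5) (nat_lit 12) (nat_lit 4) (nat_lit 369) (nat_lit 238) (nat_lit 173)))) (XT.nd (nat_lit 156) (nat_lit 0) (nat_lit 0) (XT.nd (nat_lit 78) (nat_lit 76) (nat_lit 0) (XT.lf (nat_lit 0) (nat_lit 7732054561) (nat_lit 152) (nat_lit 3997715471)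 (nat_lit 76) (nat_lit 24030510486) (nat_lit 11) (nat_lit 5) (nat_lit 13) (nat_lit 5) (nat_lit 12) (nat_lit 4) (nat_lit 370) (nat_lit 238) (nat_lit 172)) (XT.lf (nat_lit 0) (nat_lit 2938608725) (nat_lit 76) (nat_lit 8257176140) (nat_lit 152) (nat_lit 25518598245) (nat_lit 10) (nat_lit 5) (nat_lit 11) (nat_lit 5) (nat_lit 12) (nat_lit 4) (nat_lit 371) (nat_lit 238) (nat_lit 171))) (XT.nd (nat_lit 78) (nat_lit 0) (nat_lit 0) (XT.lf (nat_lit 0) (nat_lit 10119514905) (nat_lit 76) (nat_lit 4659120257) (nat_lit 152) (nat_lit 22918028167) (nat_lit 10) (nat_lit 5) (nat_lit 11) (nat_lit 5) (nat_lit 12) (nat_lit 4) (nat_lit 372) (nat_lit 238) (nat_lit 170)) (XT.lf (nat_lit 0) (nat_lit 17471715270) (nat_lit 76) (nat_lit 972827539) (nat_lit 152) (nat_lit 20264612469) (nat_lit 10) (nat_lit 5) (nat_lit 11) (nat_lit 5) (nat_lit 12) (nat_lit 4) (nat_lit 373) (nat_lit 238) (nat_lit 169))))))))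
noncomputable def xc54 : XT := (XT.nd (nat_lit 2028) (nat_lit 76) (nat_lit 0) (XT.nd (nat_lit 1014) (nat_lit 152) (nat_lit 0) (XT.nd (nat_lit 468) (nat_lit 152) (nat_lit 0) (XT.nd (nat_lit 234) (nat_lit 76) (nat_lit 0) (XT.nd (nat_lit 78) (nat_lit 0) (nat_lit 0) (XT.lf (nat_lit 0) (nat_lit 22223673663) (nat_lit 152) (nat_lit 14778072223) (nat_lit 0) (nat_lit 2750188893) (nat_lit 10) (nat_lit 5) (nat_lit 12) (nat_lit 4) (nat_lit 10) (nat_lit 4) (nat_lit 374) (nat_lit 238) (nat_lit 168)) (XT.nd (nat_lit 78) (nat_lit 0) (nat_lit 0) (XT.lf (nat_lit 0) (nat_lit 26102605974) (nat_lit 152) (nat_lit 8176677056) (nat_lit 0) (nat_lit 6547131687) (nat_lit 10) (nat_lit 5) (nat_lit 12) (nat_lit 4) (nat_lit 10) (nat_lit 4) (nat_lit 375) (nat_lit 238) (nat_lit 167)) (XT.lf (nat_lit 0) (nat_lit 30075377686) (nat_lit 152) (nat_lit 1418134885) (nat_lit 0) (nat_lit 10440301926) (nat_lit 10) (nat_lit 5) (nat_lit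 12) (nat_lit 4) (nat_lit 10) (nat_lit 4) (nat_lit 376) (nat_lit 238) (nat_lit 166)))) (XT.nd (nat_lit 78) (nat_lit 0) (nat_lit 0) (XT.lf (nat_lit 0) (nat_lit 5612989451) (nat_lit 76) (nat_lit 28586426190) (nat_lit 76) (nat_lit 8874067447) (nat_lit 9) (nat_lit 4) (nat_lit 10) (nat_lit 5) (nat_lit 10) (nat_lit 4) (nat_lit 377) (nat_lit 238) (nat_lit 165)) (XT.nd (nat_lit 78) (nat_lit 0) (nat_lit 0) (XT.lf (nat_lit 0) (nat_lit 12844803407) (nat_lit 76) (nat_lit 25595078460) (nat_lit 76) (nat_lit 5807687695) (nat_lit 9) (nat_lit 4) (nat_lit 10) (nat_lit 5) (nat_lit 10) (nat_lit 4) (nat_lit 378) (nat_lit 238) (nat_lit 164)) (XT.lf (nat_lit 0) (nat_lit 20255402376) (nat_lit 76) (nat_lit 22531175965) (nat_lit 76) (nat_lit 2670938576) (nat_lit 9) (nat_lit 4) (nat_lit 10) (nat_lit 5) (nat_lit 10) (nat_lit 4) (nat_lit 379) (nat_lit 238) (nat_lit 163))))) (XT.nd (nat_lit 234) (nat_lit 76) (nat_lit 0) (XT.nd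 (nat_lit 78) (nat_lit 0) (nat_lit 0) (XT.lf (nat_lit 0) (nat_lit 528404473) (nat_lit 152) (nat_lit 18858301185) (nat_lit 76) (nat_lit 27317521317) (nat_lit 8) (nat_lit 5) (nat_lit 10) (nat_lit 5) (nat_lit 9) (nat_lit 4) (nat_lit 380) (nat_lit 238) (nat_lit 162)) (XT.nd (nat_lit 78) (nat_lit 0) (nat_lit 0) (XT.lf (nat_lit 0) (nat_lit 3750061464) (nat_lit 152) (nat_lit 12387002424) (nat_lit 76) (nat_lit 31851088625) (nat_lit 8) (nat_lit 5) (nat_lit 10) (nat_lit 5) (nat_lit 9) (nat_lit 4) (nat_lit 381) (nat_lit 238) (nat_lit 161)) (XT.lf (nat_lit 0) (nat_lit 7048967067) (nat_lit 152) (nat_lit 5756889029) (nat_lit 76) (nat_lit 36505329549) (nat_lit 8) (nat_lit 5) (nat_lit 10) (nat_lit 5) (nat_lit 9) (nat_lit 4) (nat_lit 382) (nat_lit 238) (nat_lit 160)))) (XT.nd (nat_lit 156) (nat_lit 0) (nat_lit 0) (XT.nd (nat_lit 78) (nat_lit 0) (nat_lit 0) (XT.lf (nat_lit 0) (nat_lit 1058487200) (nat_lit 76)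 (nat_lit 9379691449) (nat_lit 152) (nat_lit 40235998529) (nat_lit 7) (nat_lit 5) (nat_lit 8) (nat_lit 5) (nat_lit 9) (nat_lit 4) (nat_lit 383) (nat_lit 238) (nat_lit 159)) (XT.lf (nat_lit 0) (nat_lit 8162376062) (nat_lit 76) (nat_lit 5806209976) (nat_lit 152) (nat_lit 38108294183) (nat_lit 7) (nat_lit 5) (nat_lit 8) (nat_lit 5) (nat_lit 9) (nat_lit 4) (nat_lit 384) (nat_lit 238) (nat_lit 158))) (XT.nd (nat_lit 78) (nat_lit 0) (nat_lit 0) (XT.lf (nat_lit 0) (nat_lit 15446411460) (nat_lit 76) (nat_lit 2140422508) (nat_lit 152) (nat_lit 35935379673) (nat_lit 7) (nat_lit 5) (nat_lit 8) (nat_lit 5) (nat_lit 9) (nat_lit 4) (nat_lit 385) (nat_lit 238) (nat_lit 157)) (XT.lf (nat_lit 0) (nat_lit 21311664848) (nat_lit 152) (nat_lit 32110063101) (nat_lit 0) (nat_lit 1589244976) (nat_lit 7) (nat_lit 5) (nat_lit 9) (nat_lit 4) (nat_lit 7) (nat_lit 4) (nat_lit 386) (nat_lit 238) (nat_lit 156)))))) (XT.nd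 (nat_lit 468) (nat_lit 76) (nat_lit 0) (XT.nd (nat_lit 234) (nat_lit 76) (nat_lit 0) (XT.nd (nat_lit 78) (nat_lit 0) (nat_lit 0) (XT.lf (nat_lit 0) (nat_lit 25152263672) (nat_lit 152) (nat_lit 26018004423) (nat_lit 0) (nat_lit 5374012929) (nat_lit 7) (nat_lit 5) (nat_lit 9) (nat_lit 4) (nat_lit 7) (nat_lit 4) (nat_lit 387) (nat_lit 238) (nat_lit 155)) (XT.nd (nat_lit 78) (nat_lit 0) (nat_lit 0) (XT.lf (nat_lit 0) (nat_lit 29091411252) (nat_lit 152) (nat_lit 19773727939) (nat_lit 0) (nat_lit 9258955779) (nat_lit 7) (nat_lit 5) (nat_lit 9) (nat_lit 4) (nat_lit 7) (nat_lit 4) (nat_lit 388) (nat_lit 238) (nat_lit 154)) (XT.lf (nat_lit 0) (nat_lit 33132549563) (nat_lit 152) (nat_lit 13371777485) (nat_lit 0) (nat_lit 13247468139) (nat_lit 7) (nat_lit 5) (nat_lit 9) (nat_lit 4) (nat_lit 7) (nat_lit 4) (nat_lit 389) (nat_lit 238) (nat_lit 153)))) (XT.nd (nat_lit 78) (nat_lit 76) (nat_lit 0) (XT.lf (nat_lit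 0) (nat_lit 37279209695) (nat_lit 152) (nat_lit 6806559123) (nat_lit 0) (nat_lit 17343035115) (nat_lit 7) (nat_lit 5) (nat_lit 9) (nat_lit 4) (nat_lit 7) (nat_lit 4) (nat_lit 390) (nat_lit 238) (nat_lit 152)) (XT.nd (nat_lit 78) (nat_lit 76) (nat_lit 0) (XT.lf (nat_lit 0) (nat_lit 41535014944) (nat_lit 152) (nat_lit 72336256) (nat_lit 0) (nat_lit 21549235358) (nat_lit 7) (nat_lit 5) (nat_lit 9) (nat_lit 4) (nat_lit 7) (nat_lit 4) (nat_lit 391) (nat_lit 238) (nat_lit 151)) (XT.lf (nat_lit 0) (nat_lit 6972840624) (nat_lit 76) (nat_lit 38997870560) (nat_lit 76) (nat_lit 18963930774) (nat_lit 6) (nat_lit 4) (nat_lit 7) (nat_lit 5) (nat_lit 7) (nat_lit 4) (nat_lit 392) (nat_lit 238) (nat_lit 150))))) (XT.nd (nat_lit 234) (nat_lit 76) (nat_lit 0) (XT.nd (nat_lit 78) (nat_lit 0) (nat_lit 0) (XT.lf (nat_lit 0) (nat_lit 14203983784) (nat_lit 76) (nat_lit 36321587669) (nat_lit 76) (nat_lit 16240890406)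 (nat_lit 6) (nat_lit 4) (nat_lit 7) (nat_lit 5) (nat_lit 7) (nat_lit 4) (nat_lit 393) (nat_lit 238) (nat_lit 149)) (XT.nd (nat_lit 78) (nat_lit 0) (nat_lit 0) (XT.lf (nat_lit 0) (nat_lit 21625972064) (nat_lit 76) (nat_lit 33576894480) (nat_lit 76) (nat_lit 13450801610) (nat_lit 6) (nat_lit 4) (nat_lit 7) (nat_lit 5) (nat_lit 7) (nat_lit 4) (nat_lit 394) (nat_lit 238) (nat_lit 148)) (XT.lf (nat_lit 0) (nat_lit 29245290697) (nat_lit 76) (nat_lit 30761392719) (nat_lit 76) (nat_lit 10591226444) (nat_lit 6) (nat_lit 4) (nat_lit 7) (nat_lit 5) (nat_lit 7) (nat_lit 4) (nat_lit 395) (nat_lit 238) (nat_lit 147)))) (XT.nd (nat_lit 156) (nat_lit 76) (nat_lit 0) (XT.nd (nat_lit 78) (nat_lit 0) (nat_lit 0) (XT.lf (nat_lit 0) (nat_lit 37068597340) (nat_lit 76) (nat_lit 27872622239) (nat_lit 76) (nat_lit 7659666249) (nat_lit 6) (nat_lit 4) (nat_lit 7) (nat_lit 5) (nat_lit 7) (nat_lit 4) (nat_lit 396) (nat_lit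 238) (nat_lit 146)) (XT.lf (nat_lit 0) (nat_lit 45102727891) (nat_lit 76) (nat_lit 24908058871) (nat_lit 76) (nat_lit 4653559469) (nat_lit 6) (nat_lit 4) (nat_lit 7) (nat_lit 5) (nat_lit 7) (nat_lit 4) (nat_lit 397) (nat_lit 238) (nat_lit 145))) (XT.nd (nat_lit 78) (nat_lit 76) (nat_lit 0) (XT.lf (nat_lit 0) (nat_lit 53354702466) (nat_lit 76) (nat_lit 21865112219) (nat_lit 76) (nat_lit 1570279409) (nat_lit 6) (nat_lit 4) (nat_lit 7) (nat_lit 5) (nat_lit 7) (nat_lit 4) (nat_lit 398) (nat_lit 238) (nat_lit 144)) (XT.lf (nat_lit 0) (nat_lit 1561785467) (nat_lit 152) (nat_lit 17163566962) (nat_lit 76) (nat_lit 60254175088) (nat_lit 5) (nat_lit 5) (nat_lit 7) (nat_lit 5) (nat_lit 6) (nat_lit 4) (nat_lit 399) (nat_lit 238) (nat_lit 143))))))) (XT.nd (nat_lit 33306) (nat_lit 0) (nat_lit 4028) (XT.nd (nat_lit 468) (nat_lit 0) (nat_lit 0) (XT.nd (nat_lit 234) (nat_lit 0) (nat_lit 0) (XT.nd (nat_lit 78)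 (nat_lit 76) (nat_lit 0) (XT.lf (nat_lit 0) (nat_lit 4744227426) (nat_lit 152) (nat_lit 10741227892) (nat_lit 76) (nat_lit 65749087364) (nat_lit 5) (nat_lit 5) (nat_lit 7) (nat_lit 5) (nat_lit 6) (nat_lit 4) (nat_lit 400) (nat_lit 238) (nat_lit 142)) (XT.nd (nat_lit 78) (nat_lit 76) (nat_lit 0) (XT.lf (nat_lit 0) (nat_lit 8010469048) (nat_lit 152) (nat_lit 4147668181) (nat_lit 76) (nat_lit 71399425598) (nat_lit 5) (nat_lit 5) (nat_lit 7) (nat_lit 5) (nat_lit 6) (nat_lit 4) (nat_lit 401) (nat_lit 238) (nat_lit 141)) (XT.lf (nat_lit 0) (nat_lit 2675073860) (nat_lit 76) (nat_lit 8714004919) (nat_lit 152) (nat_lit 74560767563) (nat_lit 4) (nat_lit 5) (nat_lit 5) (nat_lit 5) (nat_lit 6) (nat_lit 4) (nat_lit 402) (nat_lit 238) (nat_lit 140)))) (XT.nd (nat_lit 78) (nat_lit 0) (nat_lit 0) (XT.lf (nat_lit 0) (nat_lit 9766900672) (nat_lit 76) (nat_lit 5132827745) (nat_lit 152) (nat_lit 73513253566) (nat_lit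 4) (nat_lit 5) (nat_lit 5) (nat_lit 5) (nat_lit 6) (nat_lit 4) (nat_lit 403) (nat_lit 238) (nat_lit 139)) (XT.nd (nat_lit 78) (nat_lit 0) (nat_lit 0) (XT.lf (nat_lit 0) (nat_lit 17051462266) (nat_lit 76) (nat_lit 1453359840) (nat_lit 152) (nat_lit 72445519801) (nat_lit 4) (nat_lit 5) (nat_lit 5) (nat_lit 5) (nat_lit 6) (nat_lit 4) (nat_lit 404) (nat_lit 238) (nat_lit 138)) (XT.lf (nat_lit 0) (nat_lit 22229884378) (nat_lit 152) (nat_lit 69051393879) (nat_lit 0) (nat_lit 2282193733) (nat_lit 4) (nat_lit 5) (nat_lit 6) (nat_lit 4) (nat_lit 4) (nat_lit 4) (nat_lit 405) (nat_lit 238) (nat_lit 137))))) (XT.nd (nat_lit 32526) (nat_lit 0) (nat_lit 6840) (XT.nd (nat_lit 78) (nat_lit 0) (nat_lit 0) (XT.lf (nat_lit 0) (nat_lit 26070754218) (nat_lit 152) (nat_lit 64091972437) (nat_lit 0) (nat_lit 6092151374) (nat_lit 4) (nat_lit 5) (nat_lit 6) (nat_lit 4) (nat_lit 4) (nat_lit 4) (nat_lit 406) (nat_lit 238)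 (nat_lit 136)) (XT.nd (nat_lit 78) (nat_lit 0) (nat_lit 0) (XT.lf (nat_lit 0) (nat_lit 30016817144) (nat_lit 152) (nat_lit 59002311256) (nat_lit 0) (nat_lit 10008202455) (nat_lit 4) (nat_lit 5) (nat_lit 6) (nat_lit 4) (nat_lit 4) (nat_lit 4) (nat_lit 407) (nat_lit 238) (nat_lit 135)) (XT.lf (nat_lit 0) (nat_lit 34071521171) (nat_lit 152) (nat_lit 53777963059) (nat_lit 0) (nat_lit 14033768769) (nat_lit 4) (nat_lit 5) (nat_lit 6) (nat_lit 4) (nat_lit 4) (nat_lit 4) (nat_lit 408) (nat_lit 238) (nat_lit 134)))) (XT.nd (nat_lit 156) (nat_lit 456) (nat_lit 0) (XT.nd (nat_lit 78) (nat_lit 456) (nat_lit 0) (XT.lf (nat_lit 0) (nat_lit 3081678753) (nat_lit 380) (nat_lit 612527049) (nat_lit 380) (nat_lit 612527049) (nat_lit 106) (nat_lit 4) (nat_lit 111) (nat_lit 5) (nat_lit 111) (nat_lit 4) (nat_lit 302) (nat_lit 239) (nat_lit 239)) (XT.lf (nat_lit 0) (nat_lit 2291434530) (nat_lit 456) (nat_lit 5186751523)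 (nat_lit 0) (nat_lit 1249693782) (nat_lit 100) (nat_lit 5) (nat_lit 106) (nat_lit 4) (nat_lit 100) (nat_lit 4) (nat_lit 303) (nat_lit 239) (nat_lit 238))) (XT.nd (nat_lit 78) (nat_lit 76) (nat_lit 0) (XT.lf (nat_lit 0) (nat_lit 787732397) (nat_lit 380) (nat_lit 5056119888) (nat_lit 380) (nat_lit 3002980355) (nat_lit 95) (nat_lit 4) (nat_lit 100) (nat_lit 5) (nat_lit 100) (nat_lit 4) (nat_lit 304) (nat_lit 239) (nat_lit 237)) (XT.lf (nat_lit 0) (nat_lit 486816962) (nat_lit 456) (nat_lit 2046841667) (nat_lit 76) (nat_lit 6436744234) (nat_lit 94) (nat_lit 5) (nat_lit 100) (nat_lit 5) (nat_lit 95) (nat_lit 4) (nat_lit 305) (nat_lit 239) (nat_lit 236)))))) (XT.nd (nat_lit 546) (nat_lit 1140) (nat_lit 0) (XT.nd (nat_lit 234) (nat_lit 912) (nat_lit 0) (XT.nd (nat_lit 78) (nat_lit 456) (nat_lit 0) (XT.lf (nat_lit 0) (nat_lit 3974595463) (nat_lit 380) (nat_lit 5021352335) (nat_lit 0) (nat_lit 102342590)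 (nat_lit 90) (nat_lit 5) (nat_lit 95) (nat_lit 4) (nat_lit 90) (nat_lit 4) (nat_lit 306) (nat_lit 239) (nat_lit 235)) (XT.nd (nat_lit 78) (nat_lit 76) (nat_lit 0) (XT.lf (nat_lit 0) (nat_lit 1073793385) (nat_lit 380) (nat_lit 6464036165) (nat_lit 380) (nat_lit 1693168572) (nat_lit 85) (nat_lit 4) (nat_lit 90) (nat_lit 5) (nat_lit 90) (nat_lit 4) (nat_lit 307) (nat_lit 239) (nat_lit 234)) (XT.lf (nat_lit 0) (nat_lit 1770533840) (nat_lit 456) (nat_lit 2049125373) (nat_lit 76) (nat_lit 5548614093) (nat_lit 84) (nat_lit 5) (nat_lit 90) (nat_lit 5) (nat_lit 85) (nat_lit 4) (nat_lit 308) (nat_lit 239) (nat_lit 233)))) (XT.nd (nat_lit 156) (nat_lit 304) (nat_lit 0) (XT.nd (nat_lit 78) (nat_lit 304) (nat_lit 0) (XT.lf (nat_lit 0) (nat_lit 4191204356) (nat_lit 304) (nat_lit 1070639971) (nat_lit 380) (nat_lit 4248686721) (nat_lit 80) (nat_lit 5) (nat_lit 84) (nat_lit 5) (nat_lit 85) (nat_lit 4) (nat_lit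 309) (nat_lit 239) (nat_lit 232)) (XT.lf (nat_lit 0) (nat_lit 887411726) (nat_lit 304) (nat_lit 7935253003) (nat_lit 304) (nat_lit 835544852) (nat_lit 76) (nat_lit 4) (nat_lit 80) (nat_lit 5) (nat_lit 80) (nat_lit 4) (nat_lit 310) (nat_lit 239) (nat_lit 231))) (XT.nd (nat_lit 78) (nat_lit 228) (nat_lit 0) (XT.lf (nat_lit 0) (nat_lit 2611333770) (nat_lit 380) (nat_lit 2573853550) (nat_lit 76) (nat_lit 4624939793) (nat_lit 75) (nat_lit 5) (nat_lit 80) (nat_lit 5) (nat_lit 76) (nat_lit 4) (nat_lit 311) (nat_lit 239) (nat_lit 230)) (XT.lf (nat_lit 0) (nat_lit 3759875799) (nat_lit 228) (nat_lit 2342248626) (nat_lit 304) (nat_lit 3865598600) (nat_lit 72) (nat_lit 5) (nat_lit 75) (nat_lit 5) (nat_lit 76) (nat_lit 4) (nat_lit 312) (nat_lit 239) (nat_lit 229))))) (XT.nd (nat_lit 234) (nat_lit 532) (nat_lit 0) (XT.nd (nat_lit 78) (nat_lit 304) (nat_lit 0) (XT.lf (nat_lit 0) (nat_lit 87760795) (nat_lit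 304) (nat_lit 9564627975) (nat_lit 304) (nat_lit 479100998) (nat_lit 68) (nat_lit 4) (nat_lit 72) (nat_lit 5) (nat_lit 72) (nat_lit 4) (nat_lit 313) (nat_lit 239) (nat_lit 228)) (XT.nd (nat_lit 78) (nat_lit 228) (nat_lit 0) (XT.lf (nat_lit 0) (nat_lit 2959132074) (nat_lit 380) (nat_lit 3767202223) (nat_lit 76) (nat_lit 3572782330) (nat_lit 67) (nat_lit 5) (nat_lit 72) (nat_lit 5) (nat_lit 68) (nat_lit 4) (nat_lit 314) (nat_lit 239) (nat_lit 227)) (XT.lf (nat_lit 0) (nat_lit 2631934648) (nat_lit 228) (nat_lit 3808867681) (nat_lit 304) (nat_lit 4032408269) (nat_lit 64) (nat_lit 5) (nat_lit 67) (nat_lit 5) (nat_lit 68) (nat_lit 4) (nat_lit 315) (nat_lit 239) (nat_lit 226)))) (XT.nd (nat_lit 156) (nat_lit 228) (nat_lit 0) (XT.nd (nat_lit 78) (nat_lit 304) (nat_lit 0) (XT.lf (nat_lit 0) (nat_lit 9189069933) (nat_lit 228) (nat_lit 801640611) (nat_lit 304) (nat_lit 662979130) (nat_lit 64) (nat_lit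 5) (nat_lit 67) (nat_lit 5) (nat_lit 68) (nat_lit 4) (nat_lit 316) (nat_lit 239) (nat_lit 225)) (XT.lf (nat_lit 0) (nat_lit 2751031861) (nat_lit 304) (nat_lit 5796320621) (nat_lit 76) (nat_lit 2291544054) (nat_lit 60) (nat_lit 5) (nat_lit 64) (nat_lit 5) (nat_lit 61) (nat_lit 4) (nat_lit 317) (nat_lit 239) (nat_lit 224))) (XT.nd (nat_lit 78) (nat_lit 0) (nat_lit 0) (XT.lf (nat_lit 0) (nat_lit 633222803) (nat_lit 228) (nat_lit 5577727095) (nat_lit 304) (nat_lit 4819877902) (nat_lit 57) (nat_lit 5) (nat_lit 60) (nat_lit 5) (nat_lit 61) (nat_lit 4) (nat_lit 318) (nat_lit 239) (nat_lit 223)) (XT.lf (nat_lit 0) (nat_lit 7265271768) (nat_lit 228) (nat_lit 2496828653) (nat_lit 304) (nat_lit 1466860991) (nat_lit 57) (nat_lit 5) (nat_lit 60) (nat_lit 5) (nat_lit 61) (nat_lit 4) (nat_lit 319) (nat_lit 239) (nat_lit 222))))))))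
noncomputable def xc55 : XT := (XT.nd (nat_lit 2028) (nat_lit 1140) (nat_lit 0) (XT.nd (nat_lit 1014) (nat_lit 836) (nat_lit 0) (XT.nd (nat_lit 468) (nat_lit 836) (nat_lit 0) (XT.nd (nat_lit 234) (nat_lit 304) (nat_lit 0) (XT.nd (nat_lit 78) (nat_lit 152) (nat_lit 0) (XT.lf (nat_lit 0) (nat_lit 1909649649) (nat_lit 304) (nat_lit 8853293805) (nat_lit 76) (nat_lit 670736073) (nat_lit 53) (nat_lit 5) (nat_lit 57) (nat_lit 5) (nat_lit 54) (nat_lit 4) (nat_lit 320) (nat_lit 239) (nat_lit 221)) (XT.nd (nat_lit 78) (nat_lit 152) (nat_lit 0) (XT.lf (nat_lit 0) (nat_lit 5353989957) (nat_lit 304) (nat_lit 2389124422) (nat_lit 76) (nat_lit 3901170334) (nat_lit 53) (nat_lit 5) (nat_lit 57) (nat_lit 5) (nat_lit 54) (nat_lit 4) (nat_lit 321) (nat_lit 239) (nat_lit 220)) (XT.lf (nat_lit 0) (nat_lit 4246811147) (nat_lit 152) (nat_lit 4628559592) (nat_lit 228) (nat_lit 2986685943) (nat_lit 51) (nat_lit 5) (nat_lit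 53) (nat_lit 5) (nat_lit 54) (nat_lit 4) (nat_lit 322) (nat_lit 239) (nat_lit 219)))) (XT.nd (nat_lit 78) (nat_lit 228) (nat_lit 0) (XT.lf (nat_lit 0) (nat_lit 365407476) (nat_lit 228) (nat_lit 1064463671) (nat_lit 76) (nat_lit 10657702343) (nat_lit 50) (nat_lit 5) (nat_lit 53) (nat_lit 5) (nat_lit 51) (nat_lit 5) (nat_lit 323) (nat_lit 239) (nat_lit 218)) (XT.nd (nat_lit 78) (nat_lit 0) (nat_lit 0) (XT.lf (nat_lit 0) (nat_lit 3765930831) (nat_lit 304) (nat_lit 6676308305) (nat_lit 76) (nat_lit 1876547485) (nat_lit 47) (nat_lit 5) (nat_lit 51) (nat_lit 5) (nat_lit 48) (nat_lit 4) (nat_lit 324) (nat_lit 239) (nat_lit 217)) (XT.lf (nat_lit 0) (nat_lit 7229118775) (nat_lit 304) (nat_lit 101357442) (nat_lit 76) (nat_lit 5227693713) (nat_lit 47) (nat_lit 5) (nat_lit 51) (nat_lit 5) (nat_lit 48) (nat_lit 4) (nat_lit 325) (nat_lit 239) (nat_lit 216))))) (XT.nd (nat_lit 234) (nat_lit 380) (nat_lit 0)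 (XT.nd (nat_lit 78) (nat_lit 304) (nat_lit 0) (XT.lf (nat_lit 0) (nat_lit 6701684663) (nat_lit 152) (nat_lit 4096449385) (nat_lit 228) (nat_lit 2006594441) (nat_lit 45) (nat_lit 5) (nat_lit 47) (nat_lit 5) (nat_lit 48) (nat_lit 4) (nat_lit 326) (nat_lit 239) (nat_lit 215)) (XT.nd (nat_lit 78) (nat_lit 0) (nat_lit 0) (XT.lf (nat_lit 0) (nat_lit 549100677) (nat_lit 228) (nat_lit 782845596) (nat_lit 304) (nat_lit 11728057077) (nat_lit 41) (nat_lit 5) (nat_lit 44) (nat_lit 5) (nat_lit 45) (nat_lit 5) (nat_lit 327) (nat_lit 239) (nat_lit 214)) (XT.lf (nat_lit 0) (nat_lit 4756051073) (nat_lit 304) (nat_lit 5941715115) (nat_lit 76) (nat_lit 2623849411) (nat_lit 41) (nat_lit 5) (nat_lit 45) (nat_lit 5) (nat_lit 42) (nat_lit 4) (nat_lit 328) (nat_lit 239) (nat_lit 213)))) (XT.nd (nat_lit 156) (nat_lit 228) (nat_lit 0) (XT.nd (nat_lit 78) (nat_lit 0) (nat_lit 0) (XT.lf (nat_lit 0) (nat_lit 733257831)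 (nat_lit 152) (nat_lit 7504436862) (nat_lit 228) (nat_lit 5354782987) (nat_lit 39) (nat_lit 5) (nat_lit 41) (nat_lit 5) (nat_lit 42) (nat_lit 4) (nat_lit 329) (nat_lit 239) (nat_lit 212)) (XT.lf (nat_lit 0) (nat_lit 7633390802) (nat_lit 152) (nat_lit 4191228453) (nat_lit 228) (nat_lit 2046866018) (nat_lit 39) (nat_lit 5) (nat_lit 41) (nat_lit 5) (nat_lit 42) (nat_lit 4) (nat_lit 330) (nat_lit 239) (nat_lit 211))) (XT.nd (nat_lit 78) (nat_lit 0) (nat_lit 0) (XT.lf (nat_lit 0) (nat_lit 482744865) (nat_lit 152) (nat_lit 797583991) (nat_lit 228) (nat_lit 12879786458) (nat_lit 36) (nat_lit 5) (nat_lit 38) (nat_lit 5) (nat_lit 39) (nat_lit 5) (nat_lit 331) (nat_lit 239) (nat_lit 210)) (XT.lf (nat_lit 0) (nat_lit 4698121436) (nat_lit 228) (nat_lit 7064986289) (nat_lit 76) (nat_lit 2692771712) (nat_lit 36) (nat_lit 5) (nat_lit 39) (nat_lit 5) (nat_lit 37) (nat_lit 4) (nat_lit 332) (nat_lit 239) (nat_lit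 209)))))) (XT.nd (nat_lit 468) (nat_lit 304) (nat_lit 0) (XT.nd (nat_lit 234) (nat_lit 380) (nat_lit 0) (XT.nd (nat_lit 78) (nat_lit 152) (nat_lit 0) (XT.lf (nat_lit 0) (nat_lit 8170395198) (nat_lit 228) (nat_lit 355071888) (nat_lit 76) (nat_lit 6236530598) (nat_lit 36) (nat_lit 5) (nat_lit 39) (nat_lit 5) (nat_lit 37) (nat_lit 4) (nat_lit 333) (nat_lit 239) (nat_lit 208)) (XT.nd (nat_lit 78) (nat_lit 0) (nat_lit 0) (XT.lf (nat_lit 0) (nat_lit 6594586791) (nat_lit 152) (nat_lit 5161321714) (nat_lit 228) (nat_lit 3321157302) (nat_lit 34) (nat_lit 5) (nat_lit 36) (nat_lit 5) (nat_lit 37) (nat_lit 4) (nat_lit 334) (nat_lit 239) (nat_lit 207)) (XT.lf (nat_lit 0) (nat_lit 13670661243) (nat_lit 152) (nat_lit 1728314851) (nat_lit 228) (nat_lit 4147565) (nat_lit 34) (nat_lit 5) (nat_lit 36) (nat_lit 5) (nat_lit 37) (nat_lit 4) (nat_lit 335) (nat_lit 239) (nat_lit 206)))) (XT.nd (nat_lit 78) (nat_lit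 152) (nat_lit 0) (XT.lf (nat_lit 0) (nat_lit 3361050280) (nat_lit 228) (nat_lit 10555040208) (nat_lit 76) (nat_lit 1821465944) (nat_lit 31) (nat_lit 5) (nat_lit 34) (nat_lit 5) (nat_lit 32) (nat_lit 4) (nat_lit 336) (nat_lit 239) (nat_lit 205)) (XT.nd (nat_lit 78) (nat_lit 152) (nat_lit 0) (XT.lf (nat_lit 0) (nat_lit 6809672487) (nat_lit 228) (nat_lit 3846590135) (nat_lit 76) (nat_lit 5426315959) (nat_lit 31) (nat_lit 5) (nat_lit 34) (nat_lit 5) (nat_lit 32) (nat_lit 4) (nat_lit 337) (nat_lit 239) (nat_lit 204)) (XT.lf (nat_lit 0) (nat_lit 3036715868) (nat_lit 152) (nat_lit 7303521539) (nat_lit 228) (nat_lit 6098392651) (nat_lit 29) (nat_lit 5) (nat_lit 31) (nat_lit 5) (nat_lit 32) (nat_lit 4) (nat_lit 338) (nat_lit 239) (nat_lit 203))))) (XT.nd (nat_lit 234) (nat_lit 76) (nat_lit 0) (XT.nd (nat_lit 78) (nat_lit 228) (nat_lit 0) (XT.lf (nat_lit 0) (nat_lit 10120557296) (nat_lit 152) (nat_lit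 3844959874) (nat_lit 228) (nat_lit 2840214191) (nat_lit 29) (nat_lit 5) (nat_lit 31) (nat_lit 5) (nat_lit 32) (nat_lit 4) (nat_lit 339) (nat_lit 239) (nat_lit 202)) (XT.nd (nat_lit 78) (nat_lit 0) (nat_lit 0) (XT.lf (nat_lit 0) (nat_lit 147639647) (nat_lit 152) (nat_lit 310326592) (nat_lit 228) (nat_lit 16727191512) (nat_lit 26) (nat_lit 5) (nat_lit 28) (nat_lit 5) (nat_lit 29) (nat_lit 5) (nat_lit 340) (nat_lit 239) (nat_lit 201)) (XT.lf (nat_lit 0) (nat_lit 3849405388) (nat_lit 228) (nat_lit 10395958008) (nat_lit 76) (nat_lit 3328247431) (nat_lit 26) (nat_lit 5) (nat_lit 29) (nat_lit 5) (nat_lit 27) (nat_lit 4) (nat_lit 341) (nat_lit 239) (nat_lit 200)))) (XT.nd (nat_lit 156) (nat_lit 0) (nat_lit 0) (XT.nd (nat_lit 78) (nat_lit 76) (nat_lit 0) (XT.lf (nat_lit 0) (nat_lit 7298291258) (nat_lit 228) (nat_lit 3639476984) (nat_lit 76) (nat_lit 7037306771) (nat_lit 26) (nat_lit 5) (nat_lit 29) (nat_lit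 5) (nat_lit 27) (nat_lit 4) (nat_lit 342) (nat_lit 239) (nat_lit 199)) (XT.lf (nat_lit 0) (nat_lit 3305310247) (nat_lit 76) (nat_lit 7531116810) (nat_lit 152) (nat_lit 7552610358) (nat_lit 25) (nat_lit 5) (nat_lit 26) (nat_lit 5) (nat_lit 27) (nat_lit 4) (nat_lit 343) (nat_lit 239) (nat_lit 198))) (XT.nd (nat_lit 78) (nat_lit 0) (nat_lit 0) (XT.lf (nat_lit 0) (nat_lit 10454933472) (nat_lit 76) (nat_lit 4017124348) (nat_lit 152) (nat_lit 4343647325) (nat_lit 25) (nat_lit 5) (nat_lit 26) (nat_lit 5) (nat_lit 27) (nat_lit 4) (nat_lit 344) (nat_lit 239) (nat_lit 197)) (XT.lf (nat_lit 0) (nat_lit 17743207207) (nat_lit 76) (nat_lit 429471958) (nat_lit 152) (nat_lit 1083842287) (nat_lit 25) (nat_lit 5) (nat_lit 26) (nat_lit 5) (nat_lit 27) (nat_lit 4) (nat_lit 345) (nat_lit 239) (nat_lit 196))))))) (XT.nd (nat_lit 1014) (nat_lit 532) (nat_lit 0) (XT.nd (nat_lit 468) (nat_lit 304) (nat_lit 0) (XT.nd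 (nat_lit 234) (nat_lit 76) (nat_lit 0) (XT.nd (nat_lit 78) (nat_lit 0) (nat_lit 0) (XT.lf (nat_lit 0) (nat_lit 2271346354) (nat_lit 228) (nat_lit 14189938922) (nat_lit 76) (nat_lit 3247387203) (nat_lit 22) (nat_lit 5) (nat_lit 25) (nat_lit 5) (nat_lit 23) (nat_lit 4) (nat_lit 346) (nat_lit 239) (nat_lit 195)) (XT.nd (nat_lit 78) (nat_lit 0) (nat_lit 0) (XT.lf (nat_lit 0) (nat_lit 5682099740) (nat_lit 228) (nat_lit 7471089930) (nat_lit 76) (nat_lit 7021599611) (nat_lit 22) (nat_lit 5) (nat_lit 25) (nat_lit 5) (nat_lit 23) (nat_lit 4) (nat_lit 347) (nat_lit 239) (nat_lit 194)) (XT.lf (nat_lit 0) (nat_lit 9153436147) (nat_lit 228) (nat_lit 623287100) (nat_lit 76) (nat_lit 10879441800) (nat_lit 22) (nat_lit 5) (nat_lit 25) (nat_lit 5) (nat_lit 23) (nat_lit 4) (nat_lit 348) (nat_lit 239) (nat_lit 193)))) (XT.nd (nat_lit 78) (nat_lit 0) (nat_lit 0) (XT.lf (nat_lit 0) (nat_lit 6486018670) (nat_lit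 76) (nat_lit 6264717693) (nat_lit 152) (nat_lit 8400613611) (nat_lit 21) (nat_lit 5) (nat_lit 22) (nat_lit 5) (nat_lit 23) (nat_lit 4) (nat_lit 349) (nat_lit 239) (nat_lit 192)) (XT.nd (nat_lit 78) (nat_lit 0) (nat_lit 0) (XT.lf (nat_lit 0) (nat_lit 13751574802) (nat_lit 76) (nat_lit 2670660189) (nat_lit 152) (nat_lit 5240189011) (nat_lit 21) (nat_lit 5) (nat_lit 22) (nat_lit 5) (nat_lit 23) (nat_lit 4) (nat_lit 350) (nat_lit 239) (nat_lit 191)) (XT.lf (nat_lit 0) (nat_lit 20174664163) (nat_lit 152) (nat_lit 1032326500) (nat_lit 0) (nat_lit 982737323) (nat_lit 21) (nat_lit 5) (nat_lit 23) (nat_lit 4) (nat_lit 21) (nat_lit 4) (nat_lit 351) (nat_lit 239) (nat_lit 190))))) (XT.nd (nat_lit 234) (nat_lit 76) (nat_lit 0) (XT.nd (nat_lit 78) (nat_lit 0) (nat_lit 0) (XT.lf (nat_lit 0) (nat_lit 1328638788) (nat_lit 228) (nat_lit 16666457939) (nat_lit 76) (nat_lit 4735977851) (nat_lit 18) (nat_lit 5)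 (nat_lit 21) (nat_lit 5) (nat_lit 19) (nat_lit 4) (nat_lit 352) (nat_lit 239) (nat_lit 189)) (XT.nd (nat_lit 78) (nat_lit 0) (nat_lit 0) (XT.lf (nat_lit 0) (nat_lit 4704772489) (nat_lit 228) (nat_lit 9979574333) (nat_lit 76) (nat_lit 8604557080) (nat_lit 18) (nat_lit 5) (nat_lit 21) (nat_lit 5) (nat_lit 19) (nat_lit 4) (nat_lit 353) (nat_lit 239) (nat_lit 188)) (XT.lf (nat_lit 0) (nat_lit 8145387395) (nat_lit 228) (nat_lit 3156939478) (nat_lit 76) (nat_lit 12562264242) (nat_lit 18) (nat_lit 5) (nat_lit 21) (nat_lit 5) (nat_lit 19) (nat_lit 4) (nat_lit 354) (nat_lit 239) (nat_lit 187)))) (XT.nd (nat_lit 156) (nat_lit 0) (nat_lit 0) (XT.nd (nat_lit 78) (nat_lit 0) (nat_lit 0) (XT.lf (nat_lit 0) (nat_lit 3883183039) (nat_lit 76) (nat_lit 7807634362) (nat_lit 152) (nat_lit 12766702019) (nat_lit 17) (nat_lit 5) (nat_lit 18) (nat_lit 5) (nat_lit 19) (nat_lit 4) (nat_lit 355) (nat_lit 239) (nat_lit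 186)) (XT.lf (nat_lit 0) (nat_lit 11136874443) (nat_lit 76) (nat_lit 4202325252) (nat_lit 152) (nat_lit 9729156033) (nat_lit 17) (nat_lit 5) (nat_lit 18) (nat_lit 5) (nat_lit 19) (nat_lit 4) (nat_lit 356) (nat_lit 239) (nat_lit 185))) (XT.nd (nat_lit 78) (nat_lit 0) (nat_lit 0) (XT.lf (nat_lit 0) (nat_lit 18547643624) (nat_lit 76) (nat_lit 515128173) (nat_lit 152) (nat_lit 6635790497) (nat_lit 17) (nat_lit 5) (nat_lit 18) (nat_lit 5) (nat_lit 19) (nat_lit 4) (nat_lit 357) (nat_lit 239) (nat_lit 184)) (XT.lf (nat_lit 0) (nat_lit 22896097310) (nat_lit 152) (nat_lit 258033768) (nat_lit 0) (nat_lit 3193619407) (nat_lit 17) (nat_lit 5) (nat_lit 19) (nat_lit 4) (nat_lit 17) (nat_lit 4) (nat_lit 358) (nat_lit 239) (nat_lit 183)))))) (XT.nd (nat_lit 546) (nat_lit 228) (nat_lit 0) (XT.nd (nat_lit 234) (nat_lit 76) (nat_lit 0) (XT.nd (nat_lit 78) (nat_lit 76) (nat_lit 0) (XT.lf (nat_lit 0) (nat_lit 6913642207)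 (nat_lit 152) (nat_lit 19969805878) (nat_lit 152) (nat_lit 131811796) (nat_lit 15) (nat_lit 4) (nat_lit 17) (nat_lit 5) (nat_lit 17) (nat_lit 4) (nat_lit 359) (nat_lit 239) (nat_lit 182)) (XT.nd (nat_lit 78) (nat_lit 0) (nat_lit 0) (XT.lf (nat_lit 0) (nat_lit 3193633551) (nat_lit 228) (nat_lit 13486487078) (nat_lit 76) (nat_lit 11022636373) (nat_lit 14) (nat_lit 5) (nat_lit 17) (nat_lit 5) (nat_lit 15) (nat_lit 4) (nat_lit 360) (nat_lit 239) (nat_lit 181)) (XT.lf (nat_lit 0) (nat_lit 6584669376) (nat_lit 228) (nat_lit 6730421348) (nat_lit 76) (nat_lit 15096709807) (nat_lit 14) (nat_lit 5) (nat_lit 17) (nat_lit 5) (nat_lit 15) (nat_lit 4) (nat_lit 361) (nat_lit 239) (nat_lit 180)))) (XT.nd (nat_lit 156) (nat_lit 0) (nat_lit 0) (XT.nd (nat_lit 78) (nat_lit 0) (nat_lit 0) (XT.lf (nat_lit 0) (nat_lit 177207891) (nat_lit 76) (nat_lit 9871326382) (nat_lit 152) (nat_lit 19094462659) (nat_lit 13) (nat_lit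 5) (nat_lit 14) (nat_lit 5) (nat_lit 15) (nat_lit 4) (nat_lit 362) (nat_lit 239) (nat_lit 179)) (XT.lf (nat_lit 0) (nat_lit 7375991686) (nat_lit 76) (nat_lit 6278053998) (nat_lit 152) (nat_lit 16240965704) (nat_lit 13) (nat_lit 5) (nat_lit 14) (nat_lit 5) (nat_lit 15) (nat_lit 4) (nat_lit 363) (nat_lit 239) (nat_lit 178))) (XT.nd (nat_lit 78) (nat_lit 0) (nat_lit 0) (XT.lf (nat_lit 0) (nat_lit 14738271652) (nat_lit 76) (nat_lit 2600097881) (nat_lit 152) (nat_lit 13332111004) (nat_lit 13) (nat_lit 5) (nat_lit 14) (nat_lit 5) (nat_lit 15) (nat_lit 4) (nat_lit 364) (nat_lit 239) (nat_lit 177)) (XT.lf (nat_lit 0) (nat_lit 21115931089) (nat_lit 152) (nat_lit 9210807080) (nat_lit 0) (nat_lit 1143007626) (nat_lit 13) (nat_lit 5) (nat_lit 15) (nat_lit 4) (nat_lit 13) (nat_lit 4) (nat_lit 365) (nat_lit 239) (nat_lit 176))))) (XT.nd (nat_lit 234) (nat_lit 152) (nat_lit 0) (XT.nd (nat_lit 78) (nat_lit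 76) (nat_lit 0) (XT.lf (nat_lit 0) (nat_lit 25004685672) (nat_lit 152) (nat_lit 2363595754) (nat_lit 0) (nat_lit 4924784485) (nat_lit 13) (nat_lit 5) (nat_lit 15) (nat_lit 4) (nat_lit 13) (nat_lit 4) (nat_lit 366) (nat_lit 239) (nat_lit 175)) (XT.nd (nat_lit 78) (nat_lit 0) (nat_lit 0) (XT.lf (nat_lit 0) (nat_lit 4732754918) (nat_lit 76) (nat_lit 24295776708) (nat_lit 76) (nat_lit 4112013654) (nat_lit 12) (nat_lit 4) (nat_lit 13) (nat_lit 5) (nat_lit 13) (nat_lit 4) (nat_lit 367) (nat_lit 239) (nat_lit 174)) (XT.lf (nat_lit 0) (nat_lit 12042294183) (nat_lit 76) (nat_lit 21127926489) (nat_lit 76) (nat_lit 843326672) (nat_lit 12) (nat_lit 4) (nat_lit 13) (nat_lit 5) (nat_lit 13) (nat_lit 4) (nat_lit 368) (nat_lit 239) (nat_lit 173)))) (XT.nd (nat_lit 156) (nat_lit 76) (nat_lit 0) (XT.nd (nat_lit 78) (nat_lit 0) (nat_lit 0) (XT.lf (nat_lit 0) (nat_lit 2447950150) (nat_lit 152) (nat_lit 15413160783)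 (nat_lit 76) (nat_lit 17051699181) (nat_lit 11) (nat_lit 5) (nat_lit 13) (nat_lit 5) (nat_lit 12) (nat_lit 4) (nat_lit 369) (nat_lit 239) (nat_lit 172)) (XT.lf (nat_lit 0) (nat_lit 5795549482) (nat_lit 152) (nat_lit 8712582461) (nat_lit 76) (nat_lit 21331443420) (nat_lit 11) (nat_lit 5) (nat_lit 13) (nat_lit 5) (nat_lit 12) (nat_lit 4) (nat_lit 370) (nat_lit 239) (nat_lit 171))) (XT.nd (nat_lit 78) (nat_lit 76) (nat_lit 0) (XT.lf (nat_lit 0) (nat_lit 9218852750) (nat_lit 152) (nat_lit 1855556750) (nat_lit 76) (nat_lit 25720486582) (nat_lit 11) (nat_lit 5) (nat_lit 13) (nat_lit 5) (nat_lit 12) (nat_lit 4) (nat_lit 371) (nat_lit 239) (nat_lit 170)) (XT.lf (nat_lit 0) (nat_lit 5266679817) (nat_lit 76) (nat_lit 7504797921) (nat_lit 152) (nat_lit 25006610485) (nat_lit 10) (nat_lit 5) (nat_lit 11) (nat_lit 5) (nat_lit 12) (nat_lit 4) (nat_lit 372) (nat_lit 239) (nat_lit 169))))))))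
noncomputable def xc56 : XT := (XT.nd (nat_lit 2028) (nat_lit 152) (nat_lit 0) (XT.nd (nat_lit 1014) (nat_lit 76) (nat_lit 0) (XT.nd (nat_lit 468) (nat_lit 152) (nat_lit 0) (XT.nd (nat_lit 234) (nat_lit 76) (nat_lit 0) (XT.nd (nat_lit 78) (nat_lit 0) (nat_lit 0) (XT.lf (nat_lit 0) (nat_lit 12597773003) (nat_lit 76) (nat_lit 3827929299) (nat_lit 152) (nat_lit 22365233374) (nat_lit 10) (nat_lit 5) (nat_lit 11) (nat_lit 5) (nat_lit 12) (nat_lit 4) (nat_lit 373) (nat_lit 239) (nat_lit 168)) (XT.nd (nat_lit 78) (nat_lit 0) (nat_lit 0) (XT.lf (nat_lit 0) (nat_lit 20107199399) (nat_lit 76) (nat_lit 59328321) (nat_lit 152) (nat_lit 19668341485) (nat_lit 10) (nat_lit 5) (nat_lit 11) (nat_lit 5) (nat_lit 12) (nat_lit 4) (nat_lit 374) (nat_lit 239) (nat_lit 167)) (XT.lf (nat_lit 0) (nat_lit 24033791914) (nat_lit 152) (nat_lit 13145849587) (nat_lit 0) (nat_lit 3730062408) (nat_lit 10) (nat_lit 5) (nat_lit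 12) (nat_lit 4) (nat_lit 10) (nat_lit 4) (nat_lit 375) (nat_lit 239) (nat_lit 166)))) (XT.nd (nat_lit 78) (nat_lit 76) (nat_lit 0) (XT.lf (nat_lit 0) (nat_lit 27995789046) (nat_lit 152) (nat_lit 6406865909) (nat_lit 0) (nat_lit 7614776558) (nat_lit 10) (nat_lit 5) (nat_lit 12) (nat_lit 4) (nat_lit 10) (nat_lit 4) (nat_lit 376) (nat_lit 239) (nat_lit 165)) (XT.nd (nat_lit 78) (nat_lit 0) (nat_lit 0) (XT.lf (nat_lit 0) (nat_lit 505606156) (nat_lit 76) (nat_lit 31554664796) (nat_lit 76) (nat_lit 11098620285) (nat_lit 9) (nat_lit 4) (nat_lit 10) (nat_lit 5) (nat_lit 10) (nat_lit 4) (nat_lit 377) (nat_lit 239) (nat_lit 164)) (XT.lf (nat_lit 0) (nat_lit 7718617449) (nat_lit 76) (nat_lit 28571782912) (nat_lit 76) (nat_lit 8042891777) (nat_lit 9) (nat_lit 4) (nat_lit 10) (nat_lit 5) (nat_lit 10) (nat_lit 4) (nat_lit 378) (nat_lit 239) (nat_lit 163))))) (XT.nd (nat_lit 234) (nat_lit 76) (nat_lit 0) (XT.nd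 (nat_lit 78) (nat_lit 76) (nat_lit 0) (XT.lf (nat_lit 0) (nat_lit 15110961407) (nat_lit 76) (nat_lit 25516099684) (nat_lit 76) (nat_lit 4916483672) (nat_lit 9) (nat_lit 4) (nat_lit 10) (nat_lit 5) (nat_lit 10) (nat_lit 4) (nat_lit 379) (nat_lit 239) (nat_lit 162)) (XT.nd (nat_lit 78) (nat_lit 76) (nat_lit 0) (XT.lf (nat_lit 0) (nat_lit 22689097358) (nat_lit 76) (nat_lit 22384945098) (nat_lit 76) (nat_lit 1716664156) (nat_lit 9) (nat_lit 4) (nat_lit 10) (nat_lit 5) (nat_lit 10) (nat_lit 4) (nat_lit 380) (nat_lit 239) (nat_lit 161)) (XT.lf (nat_lit 0) (nat_lit 1528933943) (nat_lit 152) (nat_lit 17631210015) (nat_lit 76) (nat_lit 28915273796) (nat_lit 8) (nat_lit 5) (nat_lit 10) (nat_lit 5) (nat_lit 9) (nat_lit 4) (nat_lit 381) (nat_lit 239) (nat_lit 160)))) (XT.nd (nat_lit 156) (nat_lit 76) (nat_lit 0) (XT.nd (nat_lit 78) (nat_lit 0) (nat_lit 0) (XT.lf (nat_lit 0) (nat_lit 4818560721) (nat_lit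 152) (nat_lit 11017990938) (nat_lit 76) (nat_lit 33562181322) (nat_lit 8) (nat_lit 5) (nat_lit 10) (nat_lit 5) (nat_lit 9) (nat_lit 4) (nat_lit 382) (nat_lit 239) (nat_lit 159)) (XT.lf (nat_lit 0) (nat_lit 8188588908) (nat_lit 152) (nat_lit 4239671857) (nat_lit 76) (nat_lit 38334042871) (nat_lit 8) (nat_lit 5) (nat_lit 10) (nat_lit 5) (nat_lit 9) (nat_lit 4) (nat_lit 383) (nat_lit 239) (nat_lit 158))) (XT.nd (nat_lit 78) (nat_lit 0) (nat_lit 0) (XT.lf (nat_lit 0) (nat_lit 2763597778) (nat_lit 76) (nat_lit 8904930803) (nat_lit 152) (nat_lit 40497995645) (nat_lit 7) (nat_lit 5) (nat_lit 8) (nat_lit 5) (nat_lit 9) (nat_lit 4) (nat_lit 384) (nat_lit 239) (nat_lit 157)) (XT.lf (nat_lit 0) (nat_lit 10031864783) (nat_lit 76) (nat_lit 5246268712) (nat_lit 152) (nat_lit 38333986853) (nat_lit 7) (nat_lit 5) (nat_lit 8) (nat_lit 5) (nat_lit 9) (nat_lit 4) (nat_lit 385) (nat_lit 239) (nat_lit 156))))))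 (XT.nd (nat_lit 468) (nat_lit 76) (nat_lit 0) (XT.nd (nat_lit 234) (nat_lit 0) (nat_lit 0) (XT.nd (nat_lit 78) (nat_lit 0) (nat_lit 0) (XT.lf (nat_lit 0) (nat_lit 17487102288) (nat_lit 76) (nat_lit 1491889977) (nat_lit 152) (nat_lit 36122609844) (nat_lit 7) (nat_lit 5) (nat_lit 8) (nat_lit 5) (nat_lit 9) (nat_lit 4) (nat_lit 386) (nat_lit 239) (nat_lit 155)) (XT.nd (nat_lit 78) (nat_lit 0) (nat_lit 0) (XT.lf (nat_lit 0) (nat_lit 22797038698) (nat_lit 152) (nat_lit 31523146467) (nat_lit 0) (nat_lit 2315404831) (nat_lit 7) (nat_lit 5) (nat_lit 9) (nat_lit 4) (nat_lit 7) (nat_lit 4) (nat_lit 387) (nat_lit 239) (nat_lit 154)) (XT.lf (nat_lit 0) (nat_lit 26728214013) (nat_lit 152) (nat_lit 25293478025) (nat_lit 0) (nat_lit 6193954195) (nat_lit 7) (nat_lit 5) (nat_lit 9) (nat_lit 4) (nat_lit 7) (nat_lit 4) (nat_lit 388) (nat_lit 239) (nat_lit 153)))) (XT.nd (nat_lit 78) (nat_lit 0) (nat_lit 0) (XT.lf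 (nat_lit 0) (nat_lit 30761612261) (nat_lit 152) (nat_lit 18905710136) (nat_lit 0) (nat_lit 10176259287) (nat_lit 7) (nat_lit 5) (nat_lit 9) (nat_lit 4) (nat_lit 7) (nat_lit 4) (nat_lit 389) (nat_lit 239) (nat_lit 152)) (XT.nd (nat_lit 78) (nat_lit 0) (nat_lit 0) (XT.lf (nat_lit 0) (nat_lit 34900757769) (nat_lit 152) (nat_lit 12354261254) (nat_lit 0) (nat_lit 14265799789) (nat_lit 7) (nat_lit 5) (nat_lit 9) (nat_lit 4) (nat_lit 7) (nat_lit 4) (nat_lit 390) (nat_lit 239) (nat_lit 151)) (XT.lf (nat_lit 0) (nat_lit 39149267267) (nat_lit 152) (nat_lit 5633406815) (nat_lit 0) (nat_lit 18466149086) (nat_lit 7) (nat_lit 5) (nat_lit 9) (nat_lit 4) (nat_lit 7) (nat_lit 4) (nat_lit 391) (nat_lit 239) (nat_lit 150))))) (XT.nd (nat_lit 234) (nat_lit 0) (nat_lit 0) (XT.nd (nat_lit 78) (nat_lit 0) (nat_lit 0) (XT.lf (nat_lit 0) (nat_lit 1287856493) (nat_lit 76) (nat_lit 42235376215) (nat_lit 76) (nat_lit 21505500559)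 (nat_lit 6) (nat_lit 4) (nat_lit 7) (nat_lit 5) (nat_lit 7) (nat_lit 4) (nat_lit 392) (nat_lit 239) (nat_lit 149)) (XT.nd (nat_lit 78) (nat_lit 0) (nat_lit 0) (XT.lf (nat_lit 0) (nat_lit 8506147843) (nat_lit 76) (nat_lit 39564944648) (nat_lit 76) (nat_lit 18789673384) (nat_lit 6) (nat_lit 4) (nat_lit 7) (nat_lit 5) (nat_lit 7) (nat_lit 4) (nat_lit 393) (nat_lit 239) (nat_lit 148)) (XT.lf (nat_lit 0) (nat_lit 15915658638) (nat_lit 76) (nat_lit 36825932358) (nat_lit 76) (nat_lit 16006587689) (nat_lit 6) (nat_lit 4) (nat_lit 7) (nat_lit 5) (nat_lit 7) (nat_lit 4) (nat_lit 394) (nat_lit 239) (nat_lit 147)))) (XT.nd (nat_lit 156) (nat_lit 0) (nat_lit 0) (XT.nd (nat_lit 78) (nat_lit 0) (nat_lit 0) (XT.lf (nat_lit 0) (nat_lit 23522863207) (nat_lit 76) (nat_lit 34015946032) (nat_lit 76) (nat_lit 13153811649) (nat_lit 6) (nat_lit 4) (nat_lit 7) (nat_lit 5) (nat_lit 7) (nat_lit 4) (nat_lit 395) (nat_lit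 239) (nat_lit 146)) (XT.lf (nat_lit 0) (nat_lit 31334408623) (nat_lit 76) (nat_lit 31132530343) (nat_lit 76) (nat_lit 10228852548) (nat_lit 6) (nat_lit 4) (nat_lit 7) (nat_lit 5) (nat_lit 7) (nat_lit 4) (nat_lit 396) (nat_lit 239) (nat_lit 145))) (XT.nd (nat_lit 78) (nat_lit 0) (nat_lit 0) (XT.lf (nat_lit 0) (nat_lit 39357120507) (nat_lit 76) (nat_lit 28173165802) (nat_lit 76) (nat_lit 7229154597) (nat_lit 6) (nat_lit 4) (nat_lit 7) (nat_lit 5) (nat_lit 7) (nat_lit 4) (nat_lit 397) (nat_lit 239) (nat_lit 144)) (XT.lf (nat_lit 0) (nat_lit 47598008997) (nat_lit 76) (nat_lit 25135266555) (nat_lit 76) (nat_lit 4152096700) (nat_lit 6) (nat_lit 4) (nat_lit 7) (nat_lit 5) (nat_lit 7) (nat_lit 4) (nat_lit 398) (nat_lit 239) (nat_lit 143))))))) (XT.nd (nat_lit 33150) (nat_lit 0) (nat_lit 4560) (XT.nd (nat_lit 468) (nat_lit 0) (nat_lit 0) (XT.nd (nat_lit 234) (nat_lit 76) (nat_lit 0) (XT.nd (nat_lit 78)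 (nat_lit 76) (nat_lit 0) (XT.lf (nat_lit 0) (nat_lit 56064274869) (nat_lit 76) (nat_lit 22016178128) (nat_lit 76) (nat_lit 994990167) (nat_lit 6) (nat_lit 4) (nat_lit 7) (nat_lit 5) (nat_lit 7) (nat_lit 4) (nat_lit 399) (nat_lit 239) (nat_lit 142)) (XT.nd (nat_lit 78) (nat_lit 0) (nat_lit 0) (XT.lf (nat_lit 0) (nat_lit 2201117094) (nat_lit 152) (nat_lit 16589831042) (nat_lit 76) (nat_lit 62539971769) (nat_lit 5) (nat_lit 5) (nat_lit 7) (nat_lit 5) (nat_lit 6) (nat_lit 4) (nat_lit 400) (nat_lit 239) (nat_lit 141)) (XT.lf (nat_lit 0) (nat_lit 5461775669) (nat_lit 152) (nat_lit 10006529847) (nat_lit 76) (nat_lit 68185804091) (nat_lit 5) (nat_lit 5) (nat_lit 7) (nat_lit 5) (nat_lit 6) (nat_lit 4) (nat_lit 401) (nat_lit 239) (nat_lit 140)))) (XT.nd (nat_lit 78) (nat_lit 76) (nat_lit 0) (XT.lf (nat_lit 0) (nat_lit 8809250518) (nat_lit 152) (nat_lit 3245947856) (nat_lit 76) (nat_lit 73992130798) (nat_lit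 5) (nat_lit 5) (nat_lit 7) (nat_lit 5) (nat_lit 6) (nat_lit 4) (nat_lit 402) (nat_lit 239) (nat_lit 139)) (XT.nd (nat_lit 78) (nat_lit 0) (nat_lit 0) (XT.lf (nat_lit 0) (nat_lit 3771416149) (nat_lit 76) (nat_lit 8511303631) (nat_lit 152) (nat_lit 76228862391) (nat_lit 4) (nat_lit 5) (nat_lit 5) (nat_lit 5) (nat_lit 6) (nat_lit 4) (nat_lit 403) (nat_lit 239) (nat_lit 138)) (XT.lf (nat_lit 0) (nat_lit 11046402908) (nat_lit 76) (nat_lit 4836209242) (nat_lit 152) (nat_lit 75166487873) (nat_lit 4) (nat_lit 5) (nat_lit 5) (nat_lit 5) (nat_lit 6) (nat_lit 4) (nat_lit 404) (nat_lit 239) (nat_lit 137))))) (XT.nd (nat_lit 234) (nat_lit 0) (nat_lit 0) (XT.nd (nat_lit 78) (nat_lit 0) (nat_lit 0) (XT.lf (nat_lit 0) (nat_lit 18520768480) (nat_lit 76) (nat_lit 1059481669) (nat_lit 152) (nat_lit 74082804521) (nat_lit 4) (nat_lit 5) (nat_lit 5) (nat_lit 5) (nat_lit 6) (nat_lit 4) (nat_lit 405) (nat_lit 239)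 (nat_lit 136)) (XT.nd (nat_lit 78) (nat_lit 0) (nat_lit 0) (XT.lf (nat_lit 0) (nat_lit 23405993234) (nat_lit 152) (nat_lit 70181814798) (nat_lit 0) (nat_lit 2767108260) (nat_lit 4) (nat_lit 5) (nat_lit 6) (nat_lit 4) (nat_lit 4) (nat_lit 4) (nat_lit 406) (nat_lit 239) (nat_lit 135)) (XT.lf (nat_lit 0) (nat_lit 27347257743) (nat_lit 152) (nat_lit 65101022001) (nat_lit 0) (nat_lit 6679235056) (nat_lit 4) (nat_lit 5) (nat_lit 6) (nat_lit 4) (nat_lit 4) (nat_lit 4) (nat_lit 407) (nat_lit 239) (nat_lit 134)))) (XT.nd (nat_lit 32292) (nat_lit 0) (nat_lit 7752) (XT.nd (nat_lit 32214) (nat_lit 0) (nat_lit 8132) (XT.lf (nat_lit 0) (nat_lit 31397303113) (nat_lit 152) (nat_lit 59885283885) (nat_lit 0) (nat_lit 10700991384) (nat_lit 4) (nat_lit 5) (nat_lit 6) (nat_lit 4) (nat_lit 4) (nat_lit 4) (nat_lit 408) (nat_lit 239) (nat_lit 133)) (XT.lf (nat_lit 0) (nat_lit 692167151) (nat_lit 456) (nat_lit 2813541563)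 (nat_lit 0) (nat_lit 692167151) (nat_lit 111) (nat_lit 5) (nat_lit 117) (nat_lit 4) (nat_lit 111) (nat_lit 4) (nat_lit 300) (nat_lit 240) (nat_lit 240))) (XT.nd (nat_lit 78) (nat_lit 0) (nat_lit 0) (XT.lf (nat_lit 0) (nat_lit 153482915) (nat_lit 380) (nat_lit 4727416764) (nat_lit 380) (nat_lit 3622234004) (nat_lit 106) (nat_lit 4) (nat_lit 111) (nat_lit 5) (nat_lit 111) (nat_lit 4) (nat_lit 301) (nat_lit 240) (nat_lit 239)) (XT.lf (nat_lit 0) (nat_lit 6105631176) (nat_lit 380) (nat_lit 2343700900) (nat_lit 380) (nat_lit 165525169) (nat_lit 106) (nat_lit 4) (nat_lit 111) (nat_lit 5) (nat_lit 111) (nat_lit 4) (nat_lit 302) (nat_lit 240) (nat_lit 238)))))) (XT.nd (nat_lit 468) (nat_lit 1520) (nat_lit 0) (XT.nd (nat_lit 234) (nat_lit 760) (nat_lit 0) (XT.nd (nat_lit 78) (nat_lit 456) (nat_lit 0) (XT.lf (nat_lit 0) (nat_lit 3274796676) (nat_lit 456) (nat_lit 5307229746) (nat_lit 0) (nat_lit 148664171)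 (nat_lit 100) (nat_lit 5) (nat_lit 106) (nat_lit 4) (nat_lit 100) (nat_lit 4) (nat_lit 303) (nat_lit 240) (nat_lit 237)) (XT.nd (nat_lit 78) (nat_lit 76) (nat_lit 0) (XT.lf (nat_lit 0) (nat_lit 606089394) (nat_lit 380) (nat_lit 6176511871) (nat_lit 380) (nat_lit 2068438799) (nat_lit 95) (nat_lit 4) (nat_lit 100) (nat_lit 5) (nat_lit 100) (nat_lit 4) (nat_lit 304) (nat_lit 240) (nat_lit 236)) (XT.lf (nat_lit 0) (nat_lit 1360482286) (nat_lit 456) (nat_lit 2299634388) (nat_lit 76) (nat_lit 5315558234) (nat_lit 94) (nat_lit 5) (nat_lit 100) (nat_lit 5) (nat_lit 95) (nat_lit 4) (nat_lit 305) (nat_lit 240) (nat_lit 235)))) (XT.nd (nat_lit 78) (nat_lit 456) (nat_lit 0) (XT.lf (nat_lit 0) (nat_lit 3762757037) (nat_lit 304) (nat_lit 1040072336) (nat_lit 380) (nat_lit 4302149327) (nat_lit 90) (nat_lit 5) (nat_lit 94) (nat_lit 5) (nat_lit 95) (nat_lit 4) (nat_lit 306) (nat_lit 240) (nat_lit 234)) (XT.nd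 (nat_lit 78) (nat_lit 76) (nat_lit 0) (XT.lf (nat_lit 0) (nat_lit 698754904) (nat_lit 380) (nat_lit 7612833682) (nat_lit 380) (nat_lit 927783864) (nat_lit 85) (nat_lit 4) (nat_lit 90) (nat_lit 5) (nat_lit 90) (nat_lit 4) (nat_lit 307) (nat_lit 240) (nat_lit 233)) (XT.lf (nat_lit 0) (nat_lit 2480312984) (nat_lit 456) (nat_lit 2497045018) (nat_lit 76) (nat_lit 4400337816) (nat_lit 84) (nat_lit 5) (nat_lit 90) (nat_lit 5) (nat_lit 85) (nat_lit 4) (nat_lit 308) (nat_lit 240) (nat_lit 232))))) (XT.nd (nat_lit 234) (nat_lit 836) (nat_lit 0) (XT.nd (nat_lit 78) (nat_lit 380) (nat_lit 0) (XT.lf (nat_lit 0) (nat_lit 3677781032) (nat_lit 304) (nat_lit 2249421517) (nat_lit 380) (nat_lit 3594131017) (nat_lit 80) (nat_lit 5) (nat_lit 84) (nat_lit 5) (nat_lit 85) (nat_lit 4) (nat_lit 309) (nat_lit 240) (nat_lit 231)) (XT.nd (nat_lit 78) (nat_lit 76) (nat_lit 0) (XT.lf (nat_lit 0) (nat_lit 307196635) (nat_lit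 304) (nat_lit 9124899577) (nat_lit 304) (nat_lit 238639688) (nat_lit 76) (nat_lit 4) (nat_lit 80) (nat_lit 5) (nat_lit 80) (nat_lit 4) (nat_lit 310) (nat_lit 240) (nat_lit 230)) (XT.lf (nat_lit 0) (nat_lit 3157752283) (nat_lit 380) (nat_lit 3228598434) (nat_lit 76) (nat_lit 3437339103) (nat_lit 75) (nat_lit 5) (nat_lit 80) (nat_lit 5) (nat_lit 76) (nat_lit 4) (nat_lit 311) (nat_lit 240) (nat_lit 229)))) (XT.nd (nat_lit 156) (nat_lit 608) (nat_lit 0) (XT.nd (nat_lit 78) (nat_lit 0) (nat_lit 0) (XT.lf (nat_lit 0) (nat_lit 3036386175) (nat_lit 228) (nat_lit 3567494488) (nat_lit 304) (nat_lit 3378787033) (nat_lit 72) (nat_lit 5) (nat_lit 75) (nat_lit 5) (nat_lit 76) (nat_lit 4) (nat_lit 312) (nat_lit 240) (nat_lit 228)) (XT.lf (nat_lit 0) (nat_lit 9445698098) (nat_lit 228) (nat_lit 664924772) (nat_lit 304) (nat_lit 37158101) (nat_lit 72) (nat_lit 5) (nat_lit 75) (nat_lit 5) (nat_lit 76) (nat_lit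 4) (nat_lit 313) (nat_lit 240) (nat_lit 227))) (XT.nd (nat_lit 78) (nat_lit 228) (nat_lit 0) (XT.lf (nat_lit 0) (nat_lit 3341975029) (nat_lit 380) (nat_lit 4640625337) (nat_lit 76) (nat_lit 2334232822) (nat_lit 67) (nat_lit 5) (nat_lit 72) (nat_lit 5) (nat_lit 68) (nat_lit 4) (nat_lit 314) (nat_lit 240) (nat_lit 226)) (XT.lf (nat_lit 0) (nat_lit 1686350551) (nat_lit 228) (nat_lit 5092153681) (nat_lit 304) (nat_lit 3713814559) (nat_lit 64) (nat_lit 5) (nat_lit 67) (nat_lit 5) (nat_lit 68) (nat_lit 4) (nat_lit 315) (nat_lit 240) (nat_lit 225))))))))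
noncomputable def xc57 : XT := (XT.nd (nat_lit 2028) (nat_lit 1064) (nat_lit 0) (XT.nd (nat_lit 1014) (nat_lit 1140) (nat_lit 0) (XT.nd (nat_lit 468) (nat_lit 912) (nat_lit 0) (XT.nd (nat_lit 234) (nat_lit 532) (nat_lit 0) (XT.nd (nat_lit 78) (nat_lit 304) (nat_lit 0) (XT.lf (nat_lit 0) (nat_lit 8190303167) (nat_lit 228) (nat_lit 2102596583) (nat_lit 304) (nat_lit 380999810) (nat_lit 64) (nat_lit 5) (nat_lit 67) (nat_lit 5) (nat_lit 68) (nat_lit 4) (nat_lit 316) (nat_lit 240) (nat_lit 224)) (XT.nd (nat_lit 78) (nat_lit 0) (nat_lit 0) (XT.lf (nat_lit 0) (nat_lit 2969373281) (nat_lit 304) (nat_lit 6900518088) (nat_lit 76) (nat_lit 990912026) (nat_lit 60) (nat_lit 5) (nat_lit 64) (nat_lit 5) (nat_lit 61) (nat_lit 4) (nat_lit 317) (nat_lit 240) (nat_lit 223)) (XT.lf (nat_lit 0) (nat_lit 6388698563) (nat_lit 304) (nat_lit 536074360) (nat_lit 76) (nat_lit 4129212750) (nat_lit 60) (nat_lit 5) (nat_lit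 64) (nat_lit 5) (nat_lit 61) (nat_lit 4) (nat_lit 318) (nat_lit 240) (nat_lit 222)))) (XT.nd (nat_lit 78) (nat_lit 304) (nat_lit 0) (XT.lf (nat_lit 0) (nat_lit 6033079525) (nat_lit 228) (nat_lit 3867511092) (nat_lit 304) (nat_lit 1352738683) (nat_lit 57) (nat_lit 5) (nat_lit 60) (nat_lit 5) (nat_lit 61) (nat_lit 4) (nat_lit 319) (nat_lit 240) (nat_lit 221)) (XT.nd (nat_lit 78) (nat_lit 0) (nat_lit 0) (XT.lf (nat_lit 0) (nat_lit 1252049364) (nat_lit 228) (nat_lit 716715893) (nat_lit 304) (nat_lit 9490863052) (nat_lit 53) (nat_lit 5) (nat_lit 56) (nat_lit 5) (nat_lit 57) (nat_lit 5) (nat_lit 320) (nat_lit 240) (nat_lit 220)) (XT.lf (nat_lit 0) (nat_lit 5373155619) (nat_lit 304) (nat_lit 3788258708) (nat_lit 76) (nat_lit 2510047190) (nat_lit 53) (nat_lit 5) (nat_lit 57) (nat_lit 5) (nat_lit 54) (nat_lit 4) (nat_lit 321) (nat_lit 240) (nat_lit 219))))) (XT.nd (nat_lit 234) (nat_lit 456) (nat_lit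 0) (XT.nd (nat_lit 78) (nat_lit 304) (nat_lit 0) (XT.lf (nat_lit 0) (nat_lit 2768599930) (nat_lit 152) (nat_lit 6079629493) (nat_lit 228) (nat_lit 3042421937) (nat_lit 51) (nat_lit 5) (nat_lit 53) (nat_lit 5) (nat_lit 54) (nat_lit 4) (nat_lit 322) (nat_lit 240) (nat_lit 218)) (XT.nd (nat_lit 78) (nat_lit 228) (nat_lit 0) (XT.lf (nat_lit 0) (nat_lit 278777777) (nat_lit 228) (nat_lit 2621136547) (nat_lit 76) (nat_lit 9217256376) (nat_lit 50) (nat_lit 5) (nat_lit 53) (nat_lit 5) (nat_lit 51) (nat_lit 5) (nat_lit 323) (nat_lit 240) (nat_lit 217)) (XT.lf (nat_lit 0) (nat_lit 3618051332) (nat_lit 304) (nat_lit 8330439072) (nat_lit 76) (nat_lit 401757153) (nat_lit 47) (nat_lit 5) (nat_lit 51) (nat_lit 5) (nat_lit 48) (nat_lit 4) (nat_lit 324) (nat_lit 240) (nat_lit 216)))) (XT.nd (nat_lit 156) (nat_lit 304) (nat_lit 0) (XT.nd (nat_lit 78) (nat_lit 152) (nat_lit 0) (XT.lf (nat_lit 0) (nat_lit 7050456516)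 (nat_lit 304) (nat_lit 1804715445) (nat_lit 76) (nat_lit 3735407855) (nat_lit 47) (nat_lit 5) (nat_lit 51) (nat_lit 5) (nat_lit 48) (nat_lit 4) (nat_lit 325) (nat_lit 240) (nat_lit 215)) (XT.lf (nat_lit 0) (nat_lit 4915681880) (nat_lit 152) (nat_lit 5656735583) (nat_lit 228) (nat_lit 2266157268) (nat_lit 45) (nat_lit 5) (nat_lit 47) (nat_lit 5) (nat_lit 48) (nat_lit 4) (nat_lit 326) (nat_lit 240) (nat_lit 214))) (XT.nd (nat_lit 78) (nat_lit 228) (nat_lit 0) (XT.lf (nat_lit 0) (nat_lit 1042384215) (nat_lit 228) (nat_lit 1326909178) (nat_lit 76) (nat_lit 10725706285) (nat_lit 44) (nat_lit 5) (nat_lit 47) (nat_lit 5) (nat_lit 45) (nat_lit 5) (nat_lit 327) (nat_lit 240) (nat_lit 213)) (XT.lf (nat_lit 0) (nat_lit 4408552727) (nat_lit 304) (nat_lit 7912341837) (nat_lit 76) (nat_lit 1037478080) (nat_lit 41) (nat_lit 5) (nat_lit 45) (nat_lit 5) (nat_lit 42) (nat_lit 4) (nat_lit 328) (nat_lit 240) (nat_lit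 212)))))) (XT.nd (nat_lit 468) (nat_lit 608) (nat_lit 0) (XT.nd (nat_lit 234) (nat_lit 304) (nat_lit 0) (XT.nd (nat_lit 78) (nat_lit 228) (nat_lit 0) (XT.lf (nat_lit 0) (nat_lit 7854459801) (nat_lit 304) (nat_lit 1298474364) (nat_lit 76) (nat_lit 4477394625) (nat_lit 41) (nat_lit 5) (nat_lit 45) (nat_lit 5) (nat_lit 42) (nat_lit 4) (nat_lit 329) (nat_lit 240) (nat_lit 211)) (XT.nd (nat_lit 78) (nat_lit 76) (nat_lit 0) (XT.lf (nat_lit 0) (nat_lit 5529478239) (nat_lit 152) (nat_lit 5870878099) (nat_lit 228) (nat_lit 2510232214) (nat_lit 39) (nat_lit 5) (nat_lit 41) (nat_lit 5) (nat_lit 42) (nat_lit 4) (nat_lit 330) (nat_lit 240) (nat_lit 210)) (XT.lf (nat_lit 0) (nat_lit 793598173) (nat_lit 228) (nat_lit 1710798135) (nat_lit 76) (nat_lit 11695948210) (nat_lit 38) (nat_lit 5) (nat_lit 41) (nat_lit 5) (nat_lit 39) (nat_lit 5) (nat_lit 331) (nat_lit 240) (nat_lit 209)))) (XT.nd (nat_lit 78) (nat_lit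 152) (nat_lit 0) (XT.lf (nat_lit 0) (nat_lit 4150483919) (nat_lit 228) (nat_lit 9362522343) (nat_lit 76) (nat_lit 984949101) (nat_lit 36) (nat_lit 5) (nat_lit 39) (nat_lit 5) (nat_lit 37) (nat_lit 4) (nat_lit 332) (nat_lit 240) (nat_lit 208)) (XT.nd (nat_lit 78) (nat_lit 152) (nat_lit 0) (XT.lf (nat_lit 0) (nat_lit 7595999125) (nat_lit 228) (nat_lit 2697059810) (nat_lit 76) (nat_lit 4511836382) (nat_lit 36) (nat_lit 5) (nat_lit 39) (nat_lit 5) (nat_lit 37) (nat_lit 4) (nat_lit 333) (nat_lit 240) (nat_lit 207)) (XT.lf (nat_lit 0) (nat_lit 4161972651) (nat_lit 152) (nat_lit 6970176826) (nat_lit 228) (nat_lit 3989313253) (nat_lit 34) (nat_lit 5) (nat_lit 36) (nat_lit 5) (nat_lit 37) (nat_lit 4) (nat_lit 334) (nat_lit 240) (nat_lit 206))))) (XT.nd (nat_lit 234) (nat_lit 380) (nat_lit 0) (XT.nd (nat_lit 78) (nat_lit 228) (nat_lit 0) (XT.lf (nat_lit 0) (nat_lit 11195313057) (nat_lit 152) (nat_lit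 3554270717) (nat_lit 228) (nat_lit 698723668) (nat_lit 34) (nat_lit 5) (nat_lit 36) (nat_lit 5) (nat_lit 37) (nat_lit 4) (nat_lit 335) (nat_lit 240) (nat_lit 205)) (XT.nd (nat_lit 78) (nat_lit 0) (nat_lit 0) (XT.lf (nat_lit 0) (nat_lit 2594180777) (nat_lit 152) (nat_lit 17782003) (nat_lit 228) (nat_lit 13173036524) (nat_lit 31) (nat_lit 5) (nat_lit 33) (nat_lit 5) (nat_lit 34) (nat_lit 5) (nat_lit 336) (nat_lit 240) (nat_lit 204)) (XT.lf (nat_lit 0) (nat_lit 6035435375) (nat_lit 228) (nat_lit 6524392024) (nat_lit 76) (nat_lit 3570964891) (nat_lit 31) (nat_lit 5) (nat_lit 34) (nat_lit 5) (nat_lit 32) (nat_lit 4) (nat_lit 337) (nat_lit 240) (nat_lit 203)))) (XT.nd (nat_lit 156) (nat_lit 228) (nat_lit 0) (XT.nd (nat_lit 78) (nat_lit 0) (nat_lit 0) (XT.lf (nat_lit 0) (nat_lit 263839642) (nat_lit 152) (nat_lit 9251254923) (nat_lit 228) (nat_lit 6973292245) (nat_lit 29) (nat_lit 5) (nat_lit 31) (nat_lit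 5) (nat_lit 32) (nat_lit 4) (nat_lit 338) (nat_lit 240) (nat_lit 202)) (XT.lf (nat_lit 0) (nat_lit 7307117158) (nat_lit 152) (nat_lit 5809322441) (nat_lit 228) (nat_lit 3739781964) (nat_lit 29) (nat_lit 5) (nat_lit 31) (nat_lit 5) (nat_lit 32) (nat_lit 4) (nat_lit 339) (nat_lit 240) (nat_lit 201))) (XT.nd (nat_lit 78) (nat_lit 228) (nat_lit 0) (XT.lf (nat_lit 0) (nat_lit 14481746649) (nat_lit 152) (nat_lit 2296906006) (nat_lit 228) (nat_lit 457884241) (nat_lit 29) (nat_lit 5) (nat_lit 31) (nat_lit 5) (nat_lit 32) (nat_lit 4) (nat_lit 340) (nat_lit 240) (nat_lit 200)) (XT.lf (nat_lit 0) (nat_lit 2872784030) (nat_lit 228) (nat_lit 13421664198) (nat_lit 76) (nat_lit 1332779063) (nat_lit 26) (nat_lit 5) (nat_lit 29) (nat_lit 5) (nat_lit 27) (nat_lit 4) (nat_lit 341) (nat_lit 240) (nat_lit 199))))))) (XT.nd (nat_lit 1014) (nat_lit 456) (nat_lit 0) (XT.nd (nat_lit 468) (nat_lit 304) (nat_lit 0) (XT.nd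 (nat_lit 234) (nat_lit 228) (nat_lit 0) (XT.nd (nat_lit 78) (nat_lit 76) (nat_lit 0) (XT.lf (nat_lit 0) (nat_lit 6299015067) (nat_lit 228) (nat_lit 6704043633) (nat_lit 76) (nat_lit 5026326113) (nat_lit 26) (nat_lit 5) (nat_lit 29) (nat_lit 5) (nat_lit 27) (nat_lit 4) (nat_lit 342) (nat_lit 240) (nat_lit 198)) (XT.nd (nat_lit 78) (nat_lit 0) (nat_lit 0) (XT.lf (nat_lit 0) (nat_lit 141273238) (nat_lit 76) (nat_lit 9643467984) (nat_lit 152) (nat_lit 8660191574) (nat_lit 25) (nat_lit 5) (nat_lit 26) (nat_lit 5) (nat_lit 27) (nat_lit 4) (nat_lit 343) (nat_lit 240) (nat_lit 197)) (XT.lf (nat_lit 0) (nat_lit 7253537750) (nat_lit 76) (nat_lit 6145120766) (nat_lit 152) (nat_lit 5473606317) (nat_lit 25) (nat_lit 5) (nat_lit 26) (nat_lit 5) (nat_lit 27) (nat_lit 4) (nat_lit 344) (nat_lit 240) (nat_lit 196)))) (XT.nd (nat_lit 78) (nat_lit 228) (nat_lit 0) (XT.lf (nat_lit 0) (nat_lit 14505540890) (nat_lit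 76) (nat_lit 2572657934) (nat_lit 152) (nat_lit 2235527277) (nat_lit 25) (nat_lit 5) (nat_lit 26) (nat_lit 5) (nat_lit 27) (nat_lit 4) (nat_lit 345) (nat_lit 240) (nat_lit 195)) (XT.nd (nat_lit 78) (nat_lit 0) (nat_lit 0) (XT.lf (nat_lit 0) (nat_lit 1067732578) (nat_lit 228) (nat_lit 17613408220) (nat_lit 76) (nat_lit 1087312330) (nat_lit 22) (nat_lit 5) (nat_lit 25) (nat_lit 5) (nat_lit 23) (nat_lit 4) (nat_lit 346) (nat_lit 240) (nat_lit 194)) (XT.lf (nat_lit 0) (nat_lit 4457924594) (nat_lit 228) (nat_lit 10930328505) (nat_lit 76) (nat_lit 4846945137) (nat_lit 22) (nat_lit 5) (nat_lit 25) (nat_lit 5) (nat_lit 23) (nat_lit 4) (nat_lit 347) (nat_lit 240) (nat_lit 193))))) (XT.nd (nat_lit 234) (nat_lit 228) (nat_lit 0) (XT.nd (nat_lit 78) (nat_lit 76) (nat_lit 0) (XT.lf (nat_lit 0) (nat_lit 7909298507) (nat_lit 228) (nat_lit 4117253129) (nat_lit 76) (nat_lit 8690632373) (nat_lit 22) (nat_lit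 5) (nat_lit 25) (nat_lit 5) (nat_lit 23) (nat_lit 4) (nat_lit 348) (nat_lit 240) (nat_lit 192)) (XT.nd (nat_lit 78) (nat_lit 0) (nat_lit 0) (XT.lf (nat_lit 0) (nat_lit 2888128878) (nat_lit 76) (nat_lit 8564503664) (nat_lit 152) (nat_lit 9761366185) (nat_lit 21) (nat_lit 5) (nat_lit 22) (nat_lit 5) (nat_lit 23) (nat_lit 4) (nat_lit 349) (nat_lit 240) (nat_lit 191)) (XT.lf (nat_lit 0) (nat_lit 10120299586) (nat_lit 76) (nat_lit 4984694100) (nat_lit 152) (nat_lit 6620663689) (nat_lit 21) (nat_lit 5) (nat_lit 22) (nat_lit 5) (nat_lit 23) (nat_lit 4) (nat_lit 350) (nat_lit 240) (nat_lit 190)))) (XT.nd (nat_lit 156) (nat_lit 76) (nat_lit 0) (XT.nd (nat_lit 78) (nat_lit 152) (nat_lit 0) (XT.lf (nat_lit 0) (nat_lit 17503636955) (nat_lit 76) (nat_lit 1325571137) (nat_lit 152) (nat_lit 3424609895) (nat_lit 21) (nat_lit 5) (nat_lit 22) (nat_lit 5) (nat_lit 23) (nat_lit 4) (nat_lit 351) (nat_lit 240) (nat_lit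 189)) (XT.lf (nat_lit 0) (nat_lit 2266656338) (nat_lit 152) (nat_lit 20406886751) (nat_lit 152) (nat_lit 124048582) (nat_lit 19) (nat_lit 4) (nat_lit 21) (nat_lit 5) (nat_lit 21) (nat_lit 4) (nat_lit 352) (nat_lit 240) (nat_lit 188))) (XT.nd (nat_lit 78) (nat_lit 0) (nat_lit 0) (XT.lf (nat_lit 0) (nat_lit 3236376292) (nat_lit 228) (nat_lit 13874807700) (nat_lit 76) (nat_lit 6244825983) (nat_lit 18) (nat_lit 5) (nat_lit 21) (nat_lit 5) (nat_lit 19) (nat_lit 4) (nat_lit 353) (nat_lit 240) (nat_lit 187)) (XT.lf (nat_lit 0) (nat_lit 6659389780) (nat_lit 228) (nat_lit 7083190712) (nat_lit 76) (nat_lit 10189653789) (nat_lit 18) (nat_lit 5) (nat_lit 21) (nat_lit 5) (nat_lit 19) (nat_lit 4) (nat_lit 354) (nat_lit 240) (nat_lit 186)))))) (XT.nd (nat_lit 546) (nat_lit 152) (nat_lit 0) (XT.nd (nat_lit 234) (nat_lit 228) (nat_lit 0) (XT.nd (nat_lit 78) (nat_lit 76) (nat_lit 0) (XT.lf (nat_lit 0) (nat_lit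 10150403499) (nat_lit 228) (nat_lit 148957516) (nat_lit 76) (nat_lit 14227442845) (nat_lit 18) (nat_lit 5) (nat_lit 21) (nat_lit 5) (nat_lit 19) (nat_lit 4) (nat_lit 355) (nat_lit 240) (nat_lit 185)) (XT.nd (nat_lit 78) (nat_lit 0) (nat_lit 0) (XT.lf (nat_lit 0) (nat_lit 7071950146) (nat_lit 76) (nat_lit 6708497614) (nat_lit 152) (nat_lit 11357751081) (nat_lit 17) (nat_lit 5) (nat_lit 18) (nat_lit 5) (nat_lit 19) (nat_lit 4) (nat_lit 356) (nat_lit 240) (nat_lit 184)) (XT.lf (nat_lit 0) (nat_lit 14453768653) (nat_lit 76) (nat_lit 3033865127) (nat_lit 152) (nat_lit 8281271493) (nat_lit 17) (nat_lit 5) (nat_lit 18) (nat_lit 5) (nat_lit 19) (nat_lit 4) (nat_lit 357) (nat_lit 240) (nat_lit 183)))) (XT.nd (nat_lit 156) (nat_lit 76) (nat_lit 0) (XT.nd (nat_lit 78) (nat_lit 152) (nat_lit 0) (XT.lf (nat_lit 0) (nat_lit 21280721574) (nat_lit 152) (nat_lit 4426515573) (nat_lit 0) (nat_lit 712071490) (nat_lit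 17) (nat_lit 5) (nat_lit 19) (nat_lit 4) (nat_lit 17) (nat_lit 4) (nat_lit 358) (nat_lit 240) (nat_lit 182)) (XT.lf (nat_lit 0) (nat_lit 2634003115) (nat_lit 152) (nat_lit 22577371424) (nat_lit 152) (nat_lit 1877152235) (nat_lit 15) (nat_lit 4) (nat_lit 17) (nat_lit 5) (nat_lit 17) (nat_lit 4) (nat_lit 359) (nat_lit 240) (nat_lit 181))) (XT.nd (nat_lit 78) (nat_lit 0) (nat_lit 0) (XT.lf (nat_lit 0) (nat_lit 1466822125) (nat_lit 228) (nat_lit 17850307269) (nat_lit 76) (nat_lit 8459871044) (nat_lit 14) (nat_lit 5) (nat_lit 17) (nat_lit 5) (nat_lit 15) (nat_lit 4) (nat_lit 360) (nat_lit 240) (nat_lit 180)) (XT.lf (nat_lit 0) (nat_lit 4842781382) (nat_lit 228) (nat_lit 11121126478) (nat_lit 76) (nat_lit 12522595550) (nat_lit 14) (nat_lit 5) (nat_lit 17) (nat_lit 5) (nat_lit 15) (nat_lit 4) (nat_lit 361) (nat_lit 240) (nat_lit 179))))) (XT.nd (nat_lit 234) (nat_lit 76) (nat_lit 0) (XT.nd (nat_lit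 78) (nat_lit 76) (nat_lit 0) (XT.lf (nat_lit 0) (nat_lit 8290305404) (nat_lit 228) (nat_lit 4243057084) (nat_lit 76) (nat_lit 16684834485) (nat_lit 14) (nat_lit 5) (nat_lit 17) (nat_lit 5) (nat_lit 15) (nat_lit 4) (nat_lit 362) (nat_lit 240) (nat_lit 178)) (XT.nd (nat_lit 78) (nat_lit 0) (nat_lit 0) (XT.lf (nat_lit 0) (nat_lit 2845435573) (nat_lit 76) (nat_lit 8994323084) (nat_lit 152) (nat_lit 18132141253) (nat_lit 13) (nat_lit 5) (nat_lit 14) (nat_lit 5) (nat_lit 15) (nat_lit 4) (nat_lit 363) (nat_lit 240) (nat_lit 177)) (XT.lf (nat_lit 0) (nat_lit 10182622353) (nat_lit 76) (nat_lit 5327421745) (nat_lit 152) (nat_lit 15237752651) (nat_lit 13) (nat_lit 5) (nat_lit 14) (nat_lit 5) (nat_lit 15) (nat_lit 4) (nat_lit 364) (nat_lit 240) (nat_lit 176)))) (XT.nd (nat_lit 156) (nat_lit 76) (nat_lit 0) (XT.nd (nat_lit 78) (nat_lit 0) (nat_lit 0) (XT.lf (nat_lit 0) (nat_lit 17690469236) (nat_lit 76)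 (nat_lit 1572300940) (nat_lit 152) (nat_lit 12285043243) (nat_lit 13) (nat_lit 5) (nat_lit 14) (nat_lit 5) (nat_lit 15) (nat_lit 4) (nat_lit 365) (nat_lit 240) (nat_lit 175)) (XT.lf (nat_lit 0) (nat_lit 23123078131) (nat_lit 152) (nat_lit 7018974648) (nat_lit 0) (nat_lit 2229940319) (nat_lit 13) (nat_lit 5) (nat_lit 15) (nat_lit 4) (nat_lit 13) (nat_lit 4) (nat_lit 366) (nat_lit 240) (nat_lit 174))) (XT.nd (nat_lit 78) (nat_lit 76) (nat_lit 0) (XT.lf (nat_lit 0) (nat_lit 27088485571) (nat_lit 152) (nat_lit 38235040) (nat_lit 0) (nat_lit 6094510995) (nat_lit 13) (nat_lit 5) (nat_lit 15) (nat_lit 4) (nat_lit 13) (nat_lit 4) (nat_lit 367) (nat_lit 240) (nat_lit 173)) (XT.lf (nat_lit 0) (nat_lit 7247513323) (nat_lit 76) (nat_lit 23969497706) (nat_lit 76) (nat_lit 2877623359) (nat_lit 12) (nat_lit 4) (nat_lit 13) (nat_lit 5) (nat_lit 13) (nat_lit 4) (nat_lit 368) (nat_lit 240) (nat_lit 172))))))))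
noncomputable def xc58 : XT := (XT.nd (nat_lit 2028) (nat_lit 152) (nat_lit 0) (XT.nd (nat_lit 1014) (nat_lit 228) (nat_lit 0) (XT.nd (nat_lit 468) (nat_lit 76) (nat_lit 0) (XT.nd (nat_lit 234) (nat_lit 76) (nat_lit 0) (XT.nd (nat_lit 78) (nat_lit 0) (nat_lit 0) (XT.lf (nat_lit 0) (nat_lit 440805207) (nat_lit 152) (nat_lit 20292088097) (nat_lit 76) (nat_lit 14261972317) (nat_lit 11) (nat_lit 5) (nat_lit 13) (nat_lit 5) (nat_lit 12) (nat_lit 4) (nat_lit 369) (nat_lit 240) (nat_lit 171)) (XT.nd (nat_lit 78) (nat_lit 0) (nat_lit 0) (XT.lf (nat_lit 0) (nat_lit 3776225207) (nat_lit 152) (nat_lit 13613465421) (nat_lit 76) (nat_lit 18532310938) (nat_lit 11) (nat_lit 5) (nat_lit 13) (nat_lit 5) (nat_lit 12) (nat_lit 4) (nat_lit 370) (nat_lit 240) (nat_lit 170)) (XT.lf (nat_lit 0) (nat_lit 7187703881) (nat_lit 152) (nat_lit 6777755872) (nat_lit 76) (nat_lit 22912222433) (nat_lit 11) (nat_lit 5) (nat_lit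 13) (nat_lit 5) (nat_lit 12) (nat_lit 4) (nat_lit 371) (nat_lit 240) (nat_lit 169)))) (XT.nd (nat_lit 78) (nat_lit 0) (nat_lit 0) (XT.lf (nat_lit 0) (nat_lit 225412102) (nat_lit 76) (nat_lit 10454976829) (nat_lit 152) (nat_lit 27182288604) (nat_lit 10) (nat_lit 5) (nat_lit 11) (nat_lit 5) (nat_lit 12) (nat_lit 4) (nat_lit 372) (nat_lit 240) (nat_lit 168)) (XT.nd (nat_lit 78) (nat_lit 0) (nat_lit 0) (XT.lf (nat_lit 0) (nat_lit 7536012882) (nat_lit 76) (nat_lit 6787257814) (nat_lit 152) (nat_lit 24552599442) (nat_lit 10) (nat_lit 5) (nat_lit 11) (nat_lit 5) (nat_lit 12) (nat_lit 4) (nat_lit 373) (nat_lit 240) (nat_lit 167)) (XT.lf (nat_lit 0) (nat_lit 15025543737) (nat_lit 76) (nat_lit 3027539950) (nat_lit 152) (nat_lit 21867055076) (nat_lit 10) (nat_lit 5) (nat_lit 11) (nat_lit 5) (nat_lit 12) (nat_lit 4) (nat_lit 374) (nat_lit 240) (nat_lit 166))))) (XT.nd (nat_lit 234) (nat_lit 76) (nat_lit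 0) (XT.nd (nat_lit 78) (nat_lit 0) (nat_lit 0) (XT.lf (nat_lit 0) (nat_lit 21881041036) (nat_lit 152) (nat_lit 18303801033) (nat_lit 0) (nat_lit 811315190) (nat_lit 10) (nat_lit 5) (nat_lit 12) (nat_lit 4) (nat_lit 10) (nat_lit 4) (nat_lit 375) (nat_lit 240) (nat_lit 165)) (XT.nd (nat_lit 78) (nat_lit 0) (nat_lit 0) (XT.lf (nat_lit 0) (nat_lit 25832577412) (nat_lit 152) (nat_lit 11583806182) (nat_lit 0) (nat_lit 4687819543) (nat_lit 10) (nat_lit 5) (nat_lit 12) (nat_lit 4) (nat_lit 10) (nat_lit 4) (nat_lit 376) (nat_lit 240) (nat_lit 164)) (XT.lf (nat_lit 0) (nat_lit 29882043049) (nat_lit 152) (nat_lit 4699636068) (nat_lit 0) (nat_lit 8664438556) (nat_lit 10) (nat_lit 5) (nat_lit 12) (nat_lit 4) (nat_lit 10) (nat_lit 4) (nat_lit 377) (nat_lit 240) (nat_lit 163)))) (XT.nd (nat_lit 156) (nat_lit 0) (nat_lit 0) (XT.nd (nat_lit 78) (nat_lit 0) (nat_lit 0) (XT.lf (nat_lit 0) (nat_lit 2401588239)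 (nat_lit 76) (nat_lit 31654473610) (nat_lit 76) (nat_lit 10366144240) (nat_lit 9) (nat_lit 4) (nat_lit 10) (nat_lit 5) (nat_lit 10) (nat_lit 4) (nat_lit 378) (nat_lit 240) (nat_lit 162)) (XT.lf (nat_lit 0) (nat_lit 9776208883) (nat_lit 76) (nat_lit 28606770254) (nat_lit 76) (nat_lit 7249775954) (nat_lit 9) (nat_lit 4) (nat_lit 10) (nat_lit 5) (nat_lit 10) (nat_lit 4) (nat_lit 379) (nat_lit 240) (nat_lit 161))) (XT.nd (nat_lit 78) (nat_lit 0) (nat_lit 0) (XT.lf (nat_lit 0) (nat_lit 17337137735) (nat_lit 76) (nat_lit 25483363116) (nat_lit 76) (nat_lit 4059703836) (nat_lit 9) (nat_lit 4) (nat_lit 10) (nat_lit 5) (nat_lit 10) (nat_lit 4) (nat_lit 380) (nat_lit 240) (nat_lit 160)) (XT.lf (nat_lit 0) (nat_lit 25090981430) (nat_lit 76) (nat_lit 22281523006) (nat_lit 76) (nat_lit 793140444) (nat_lit 9) (nat_lit 4) (nat_lit 10) (nat_lit 5) (nat_lit 10) (nat_lit 4) (nat_lit 381) (nat_lit 240) (nat_lit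 159)))))) (XT.nd (nat_lit 468) (nat_lit 76) (nat_lit 0) (XT.nd (nat_lit 234) (nat_lit 76) (nat_lit 0) (XT.nd (nat_lit 78) (nat_lit 0) (nat_lit 0) (XT.lf (nat_lit 0) (nat_lit 2502954791) (nat_lit 152) (nat_lit 16470222473) (nat_lit 76) (nat_lit 30516285445) (nat_lit 8) (nat_lit 5) (nat_lit 10) (nat_lit 5) (nat_lit 9) (nat_lit 4) (nat_lit 382) (nat_lit 240) (nat_lit 158)) (XT.nd (nat_lit 78) (nat_lit 0) (nat_lit 0) (XT.lf (nat_lit 0) (nat_lit 5864236794) (nat_lit 152) (nat_lit 9707827906) (nat_lit 76) (nat_lit 35281234563) (nat_lit 8) (nat_lit 5) (nat_lit 10) (nat_lit 5) (nat_lit 9) (nat_lit 4) (nat_lit 383) (nat_lit 240) (nat_lit 157)) (XT.lf (nat_lit 0) (nat_lit 9309119635) (nat_lit 152) (nat_lit 2773946711) (nat_lit 76) (nat_lit 40175508624) (nat_lit 8) (nat_lit 5) (nat_lit 10) (nat_lit 5) (nat_lit 9) (nat_lit 4) (nat_lit 384) (nat_lit 240) (nat_lit 156)))) (XT.nd (nat_lit 78) (nat_lit 0) (nat_lit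 0) (XT.lf (nat_lit 0) (nat_lit 4423804196) (nat_lit 76) (nat_lit 8459333520) (nat_lit 152) (nat_lit 40822104295) (nat_lit 7) (nat_lit 5) (nat_lit 8) (nat_lit 5) (nat_lit 9) (nat_lit 4) (nat_lit 385) (nat_lit 240) (nat_lit 155)) (XT.nd (nat_lit 78) (nat_lit 0) (nat_lit 0) (XT.lf (nat_lit 0) (nat_lit 11864178479) (nat_lit 76) (nat_lit 4711671136) (nat_lit 152) (nat_lit 38619121780) (nat_lit 7) (nat_lit 5) (nat_lit 8) (nat_lit 5) (nat_lit 9) (nat_lit 4) (nat_lit 386) (nat_lit 240) (nat_lit 154)) (XT.lf (nat_lit 0) (nat_lit 19498470456) (nat_lit 76) (nat_lit 864815960) (nat_lit 152) (nat_lit 36366594277) (nat_lit 7) (nat_lit 5) (nat_lit 8) (nat_lit 5) (nat_lit 9) (nat_lit 4) (nat_lit 387) (nat_lit 240) (nat_lit 153))))) (XT.nd (nat_lit 234) (nat_lit 76) (nat_lit 0) (XT.nd (nat_lit 78) (nat_lit 0) (nat_lit 0) (XT.lf (nat_lit 0) (nat_lit 24278408529) (nat_lit 152) (nat_lit 31007611220) (nat_lit 0)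 (nat_lit 3024401810) (nat_lit 7) (nat_lit 5) (nat_lit 9) (nat_lit 4) (nat_lit 7) (nat_lit 4) (nat_lit 388) (nat_lit 240) (nat_lit 152)) (XT.nd (nat_lit 78) (nat_lit 0) (nat_lit 0) (XT.lf (nat_lit 0) (nat_lit 28304292153) (nat_lit 152) (nat_lit 24633612811) (nat_lit 0) (nat_lit 7000680427) (nat_lit 7) (nat_lit 5) (nat_lit 9) (nat_lit 4) (nat_lit 7) (nat_lit 4) (nat_lit 389) (nat_lit 240) (nat_lit 151)) (XT.lf (nat_lit 0) (nat_lit 32436141909) (nat_lit 152) (nat_lit 18095532357) (nat_lit 0) (nat_lit 11084369983) (nat_lit 7) (nat_lit 5) (nat_lit 9) (nat_lit 4) (nat_lit 7) (nat_lit 4) (nat_lit 390) (nat_lit 240) (nat_lit 150)))) (XT.nd (nat_lit 156) (nat_lit 76) (nat_lit 0) (XT.nd (nat_lit 78) (nat_lit 0) (nat_lit 0) (XT.lf (nat_lit 0) (nat_lit 36677568153) (nat_lit 152) (nat_lit 11387656973) (nat_lit 0) (nat_lit 15279038751) (nat_lit 7) (nat_lit 5) (nat_lit 9) (nat_lit 4) (nat_lit 7) (nat_lit 4)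 (nat_lit 391) (nat_lit 240) (nat_lit 149)) (XT.lf (nat_lit 0) (nat_lit 41032276985) (nat_lit 152) (nat_lit 4504125409) (nat_lit 0) (nat_lit 19588351975) (nat_lit 7) (nat_lit 5) (nat_lit 9) (nat_lit 4) (nat_lit 7) (nat_lit 4) (nat_lit 392) (nat_lit 240) (nat_lit 148))) (XT.nd (nat_lit 78) (nat_lit 0) (nat_lit 0) (XT.lf (nat_lit 0) (nat_lit 2612047528) (nat_lit 76) (nat_lit 42917134560) (nat_lit 76) (nat_lit 21429136145) (nat_lit 6) (nat_lit 4) (nat_lit 7) (nat_lit 5) (nat_lit 7) (nat_lit 4) (nat_lit 393) (nat_lit 240) (nat_lit 147)) (XT.lf (nat_lit 0) (nat_lit 10009444259) (nat_lit 76) (nat_lit 40183637705) (nat_lit 76) (nat_lit 18652849576) (nat_lit 6) (nat_lit 4) (nat_lit 7) (nat_lit 5) (nat_lit 7) (nat_lit 4) (nat_lit 394) (nat_lit 240) (nat_lit 146))))))) (XT.nd (nat_lit 1014) (nat_lit 0) (nat_lit 0) (XT.nd (nat_lit 468) (nat_lit 152) (nat_lit 0) (XT.nd (nat_lit 234) (nat_lit 0) (nat_lit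 0) (XT.nd (nat_lit 78) (nat_lit 0) (nat_lit 0) (XT.lf (nat_lit 0) (nat_lit 17604887601) (nat_lit 76) (nat_lit 37379006171) (nat_lit 76) (nat_lit 15806674630) (nat_lit 6) (nat_lit 4) (nat_lit 7) (nat_lit 5) (nat_lit 7) (nat_lit 4) (nat_lit 395) (nat_lit 240) (nat_lit 145)) (XT.nd (nat_lit 78) (nat_lit 0) (nat_lit 0) (XT.lf (nat_lit 0) (nat_lit 25405014350) (nat_lit 76) (nat_lit 34500789308) (nat_lit 76) (nat_lit 12888124359) (nat_lit 6) (nat_lit 4) (nat_lit 7) (nat_lit 5) (nat_lit 7) (nat_lit 4) (nat_lit 396) (nat_lit 240) (nat_lit 144)) (XT.lf (nat_lit 0) (nat_lit 33416640150) (nat_lit 76) (nat_lit 31546472171) (nat_lit 76) (nat_lit 9894648571) (nat_lit 6) (nat_lit 4) (nat_lit 7) (nat_lit 5) (nat_lit 7) (nat_lit 4) (nat_lit 397) (nat_lit 240) (nat_lit 143)))) (XT.nd (nat_lit 78) (nat_lit 0) (nat_lit 0) (XT.lf (nat_lit 0) (nat_lit 41646765451) (nat_lit 76) (nat_lit 28513473317) (nat_lit 76) (nat_lit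 6823631611) (nat_lit 6) (nat_lit 4) (nat_lit 7) (nat_lit 5) (nat_lit 7) (nat_lit 4) (nat_lit 398) (nat_lit 240) (nat_lit 142)) (XT.nd (nat_lit 78) (nat_lit 0) (nat_lit 0) (XT.lf (nat_lit 0) (nat_lit 50102581625) (nat_lit 76) (nat_lit 25399142553) (nat_lit 76) (nat_lit 3672390063) (nat_lit 6) (nat_lit 4) (nat_lit 7) (nat_lit 5) (nat_lit 7) (nat_lit 4) (nat_lit 399) (nat_lit 240) (nat_lit 141)) (XT.lf (nat_lit 0) (nat_lit 58791477249) (nat_lit 76) (nat_lit 22200758619) (nat_lit 76) (nat_lit 438170417) (nat_lit 6) (nat_lit 4) (nat_lit 7) (nat_lit 5) (nat_lit 7) (nat_lit 4) (nat_lit 400) (nat_lit 240) (nat_lit 140))))) (XT.nd (nat_lit 234) (nat_lit 76) (nat_lit 0) (XT.nd (nat_lit 78) (nat_lit 0) (nat_lit 0) (XT.lf (nat_lit 0) (nat_lit 2825618005) (nat_lit 152) (nat_lit 16061375603) (nat_lit 76) (nat_lit 64866893354) (nat_lit 5) (nat_lit 5) (nat_lit 7) (nat_lit 5) (nat_lit 6) (nat_lit 4) (nat_lit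 401) (nat_lit 240) (nat_lit 139)) (XT.nd (nat_lit 78) (nat_lit 0) (nat_lit 0) (XT.lf (nat_lit 0) (nat_lit 6167830297) (nat_lit 152) (nat_lit 9310463247) (nat_lit 76) (nat_lit 70668972808) (nat_lit 5) (nat_lit 5) (nat_lit 7) (nat_lit 5) (nat_lit 6) (nat_lit 4) (nat_lit 402) (nat_lit 240) (nat_lit 138)) (XT.lf (nat_lit 0) (nat_lit 9599937119) (nat_lit 152) (nat_lit 2376081150) (nat_lit 76) (nat_lit 76636743843) (nat_lit 5) (nat_lit 5) (nat_lit 7) (nat_lit 5) (nat_lit 6) (nat_lit 4) (nat_lit 403) (nat_lit 240) (nat_lit 137)))) (XT.nd (nat_lit 156) (nat_lit 0) (nat_lit 0) (XT.nd (nat_lit 78) (nat_lit 0) (nat_lit 0) (XT.lf (nat_lit 0) (nat_lit 4842320979) (nat_lit 76) (nat_lit 8329163773) (nat_lit 152) (nat_lit 77979647389) (nat_lit 4) (nat_lit 5) (nat_lit 5) (nat_lit 5) (nat_lit 6) (nat_lit 4) (nat_lit 404) (nat_lit 240) (nat_lit 136)) (XT.lf (nat_lit 0) (nat_lit 12307661351) (nat_lit 76) (nat_lit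 4556558658) (nat_lit 152) (nat_lit 76901015642) (nat_lit 4) (nat_lit 5) (nat_lit 5) (nat_lit 5) (nat_lit 6) (nat_lit 4) (nat_lit 405) (nat_lit 240) (nat_lit 135))) (XT.nd (nat_lit 78) (nat_lit 0) (nat_lit 0) (XT.lf (nat_lit 0) (nat_lit 19979174404) (nat_lit 76) (nat_lit 678900234) (nat_lit 152) (nat_lit 75799981018) (nat_lit 4) (nat_lit 5) (nat_lit 5) (nat_lit 5) (nat_lit 6) (nat_lit 4) (nat_lit 406) (nat_lit 240) (nat_lit 134)) (XT.lf (nat_lit 0) (nat_lit 24588154486) (nat_lit 152) (nat_lit 71400172533) (nat_lit 0) (nat_lit 3242664363) (nat_lit 4) (nat_lit 5) (nat_lit 6) (nat_lit 4) (nat_lit 4) (nat_lit 4) (nat_lit 407) (nat_lit 240) (nat_lit 133)))))) (XT.nd (nat_lit 32526) (nat_lit 0) (nat_lit 5700) (XT.nd (nat_lit 32214) (nat_lit 0) (nat_lit 7296) (XT.nd (nat_lit 32058) (nat_lit 0) (nat_lit 8588) (XT.lf (nat_lit 0) (nat_lit 28633676888) (nat_lit 152) (nat_lit 66192793720) (nat_lit 0) (nat_lit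 7260721676) (nat_lit 4) (nat_lit 5) (nat_lit 6) (nat_lit 4) (nat_lit 4) (nat_lit 4) (nat_lit 408) (nat_lit 240) (nat_lit 132)) (XT.nd (nat_lit 78) (nat_lit 456) (nat_lit 0) (XT.lf (nat_lit 0) (nat_lit 1927392007) (nat_lit 532) (nat_lit 241159152) (nat_lit 0) (nat_lit 1927392007) (nat_lit 123) (nat_lit 5) (nat_lit 130) (nat_lit 4) (nat_lit 123) (nat_lit 4) (nat_lit 298) (nat_lit 241) (nat_lit 241)) (XT.lf (nat_lit 0) (nat_lit 5265416582) (nat_lit 456) (nat_lit 2099772607) (nat_lit 456) (nat_lit 927284217) (nat_lit 117) (nat_lit 4) (nat_lit 123) (nat_lit 5) (nat_lit 123) (nat_lit 4) (nat_lit 299) (nat_lit 241) (nat_lit 240)))) (XT.nd (nat_lit 156) (nat_lit 456) (nat_lit 0) (XT.nd (nat_lit 78) (nat_lit 380) (nat_lit 0) (XT.lf (nat_lit 0) (nat_lit 2477653935) (nat_lit 456) (nat_lit 5685381004) (nat_lit 0) (nat_lit 234132932) (nat_lit 111) (nat_lit 5) (nat_lit 117) (nat_lit 4) (nat_lit 111) (nat_lit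 4) (nat_lit 300) (nat_lit 241) (nat_lit 239)) (XT.lf (nat_lit 0) (nat_lit 36298465) (nat_lit 380) (nat_lit 5893087009) (nat_lit 380) (nat_lit 2576573035) (nat_lit 106) (nat_lit 4) (nat_lit 111) (nat_lit 5) (nat_lit 111) (nat_lit 4) (nat_lit 301) (nat_lit 241) (nat_lit 238))) (XT.nd (nat_lit 78) (nat_lit 380) (nat_lit 0) (XT.lf (nat_lit 0) (nat_lit 819501995) (nat_lit 456) (nat_lit 2694665672) (nat_lit 76) (nat_lit 5104624387) (nat_lit 105) (nat_lit 5) (nat_lit 111) (nat_lit 5) (nat_lit 106) (nat_lit 4) (nat_lit 302) (nat_lit 241) (nat_lit 237)) (XT.lf (nat_lit 0) (nat_lit 3177797663) (nat_lit 380) (nat_lit 1032769415) (nat_lit 456) (nat_lit 4525449662) (nat_lit 100) (nat_lit 5) (nat_lit 105) (nat_lit 5) (nat_lit 106) (nat_lit 4) (nat_lit 303) (nat_lit 241) (nat_lit 236))))) (XT.nd (nat_lit 234) (nat_lit 836) (nat_lit 0) (XT.nd (nat_lit 78) (nat_lit 380) (nat_lit 0) (XT.lf (nat_lit 0) (nat_lit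 303174707) (nat_lit 380) (nat_lit 7360739001) (nat_lit 380) (nat_lit 1194142812) (nat_lit 95) (nat_lit 4) (nat_lit 100) (nat_lit 5) (nat_lit 100) (nat_lit 4) (nat_lit 304) (nat_lit 241) (nat_lit 235)) (XT.nd (nat_lit 78) (nat_lit 304) (nat_lit 0) (XT.lf (nat_lit 0) (nat_lit 2176319589) (nat_lit 456) (nat_lit 2674240585) (nat_lit 76) (nat_lit 4133174328) (nat_lit 94) (nat_lit 5) (nat_lit 100) (nat_lit 5) (nat_lit 95) (nat_lit 4) (nat_lit 305) (nat_lit 241) (nat_lit 234)) (XT.lf (nat_lit 0) (nat_lit 3324976331) (nat_lit 304) (nat_lit 2249289877) (nat_lit 380) (nat_lit 3540155871) (nat_lit 90) (nat_lit 5) (nat_lit 94) (nat_lit 5) (nat_lit 95) (nat_lit 4) (nat_lit 306) (nat_lit 241) (nat_lit 233)))) (XT.nd (nat_lit 156) (nat_lit 380) (nat_lit 0) (XT.nd (nat_lit 78) (nat_lit 76) (nat_lit 0) (XT.lf (nat_lit 0) (nat_lit 198193983) (nat_lit 380) (nat_lit 8828714484) (nat_lit 380) (nat_lit 223641135)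 (nat_lit 85) (nat_lit 4) (nat_lit 90) (nat_lit 5) (nat_lit 90) (nat_lit 4) (nat_lit 307) (nat_lit 241) (nat_lit 232)) (XT.lf (nat_lit 0) (nat_lit 3131229770) (nat_lit 456) (nat_lit 3071036681) (nat_lit 76) (nat_lit 3187635405) (nat_lit 84) (nat_lit 5) (nat_lit 90) (nat_lit 5) (nat_lit 85) (nat_lit 4) (nat_lit 308) (nat_lit 241) (nat_lit 231))) (XT.nd (nat_lit 78) (nat_lit 76) (nat_lit 0) (XT.lf (nat_lit 0) (nat_lit 3037424839) (nat_lit 304) (nat_lit 3496203483) (nat_lit 380) (nat_lit 3001292010) (nat_lit 80) (nat_lit 5) (nat_lit 84) (nat_lit 5) (nat_lit 85) (nat_lit 4) (nat_lit 309) (nat_lit 241) (nat_lit 230)) (XT.lf (nat_lit 0) (nat_lit 300781270) (nat_lit 380) (nat_lit 404884643) (nat_lit 76) (nat_lit 8979993157) (nat_lit 79) (nat_lit 5) (nat_lit 84) (nat_lit 5) (nat_lit 80) (nat_lit 5) (nat_lit 310) (nat_lit 241) (nat_lit 229))))))))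
noncomputable def xc59 : XT := (XT.nd (nat_lit 2028) (nat_lit 1444) (nat_lit 0) (XT.nd (nat_lit 1014) (nat_lit 1292) (nat_lit 0) (XT.nd (nat_lit 468) (nat_lit 1064) (nat_lit 0) (XT.nd (nat_lit 234) (nat_lit 532) (nat_lit 0) (XT.nd (nat_lit 78) (nat_lit 304) (nat_lit 0) (XT.lf (nat_lit 0) (nat_lit 3644016820) (nat_lit 380) (nat_lit 4013878174) (nat_lit 76) (nat_lit 2182146264) (nat_lit 75) (nat_lit 5) (nat_lit 80) (nat_lit 5) (nat_lit 76) (nat_lit 4) (nat_lit 311) (nat_lit 241) (nat_lit 228)) (XT.nd (nat_lit 78) (nat_lit 76) (nat_lit 0) (XT.lf (nat_lit 0) (nat_lit 2181386534) (nat_lit 228) (nat_lit 4863930515) (nat_lit 304) (nat_lit 2955087797) (nat_lit 72) (nat_lit 5) (nat_lit 75) (nat_lit 5) (nat_lit 76) (nat_lit 4) (nat_lit 312) (nat_lit 241) (nat_lit 227)) (XT.lf (nat_lit 0) (nat_lit 342554619) (nat_lit 304) (nat_lit 1631814978) (nat_lit 76) (nat_lit 8192168889) (nat_lit 71) (nat_lit 5) (nat_lit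 75) (nat_lit 5) (nat_lit 72) (nat_lit 5) (nat_lit 313) (nat_lit 241) (nat_lit 226)))) (XT.nd (nat_lit 78) (nat_lit 228) (nat_lit 0) (XT.lf (nat_lit 0) (nat_lit 3663118691) (nat_lit 380) (nat_lit 5649280883) (nat_lit 76) (nat_lit 1024953133) (nat_lit 67) (nat_lit 5) (nat_lit 72) (nat_lit 5) (nat_lit 68) (nat_lit 4) (nat_lit 314) (nat_lit 241) (nat_lit 225)) (XT.nd (nat_lit 78) (nat_lit 0) (nat_lit 0) (XT.lf (nat_lit 0) (nat_lit 604438112) (nat_lit 228) (nat_lit 6449808303) (nat_lit 304) (nat_lit 3459990250) (nat_lit 64) (nat_lit 5) (nat_lit 67) (nat_lit 5) (nat_lit 68) (nat_lit 4) (nat_lit 315) (nat_lit 241) (nat_lit 224)) (XT.lf (nat_lit 0) (nat_lit 7056757068) (nat_lit 228) (nat_lit 3477406517) (nat_lit 304) (nat_lit 162723454) (nat_lit 64) (nat_lit 5) (nat_lit 67) (nat_lit 5) (nat_lit 68) (nat_lit 4) (nat_lit 316) (nat_lit 241) (nat_lit 223))))) (XT.nd (nat_lit 234) (nat_lit 532) (nat_lit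 0) (XT.nd (nat_lit 78) (nat_lit 228) (nat_lit 0) (XT.lf (nat_lit 0) (nat_lit 2736752541) (nat_lit 228) (nat_lit 391226271) (nat_lit 304) (nat_lit 7757444690) (nat_lit 60) (nat_lit 5) (nat_lit 63) (nat_lit 5) (nat_lit 64) (nat_lit 5) (nat_lit 317) (nat_lit 241) (nat_lit 222)) (XT.nd (nat_lit 78) (nat_lit 228) (nat_lit 0) (XT.lf (nat_lit 0) (nat_lit 6510042582) (nat_lit 304) (nat_lit 1831673554) (nat_lit 76) (nat_lit 2738039750) (nat_lit 60) (nat_lit 5) (nat_lit 64) (nat_lit 5) (nat_lit 61) (nat_lit 4) (nat_lit 318) (nat_lit 241) (nat_lit 221)) (XT.lf (nat_lit 0) (nat_lit 4660990368) (nat_lit 228) (nat_lit 5315229853) (nat_lit 304) (nat_lit 1304282048) (nat_lit 57) (nat_lit 5) (nat_lit 60) (nat_lit 5) (nat_lit 61) (nat_lit 4) (nat_lit 319) (nat_lit 241) (nat_lit 220)))) (XT.nd (nat_lit 156) (nat_lit 228) (nat_lit 0) (XT.nd (nat_lit 78) (nat_lit 228) (nat_lit 0) (XT.lf (nat_lit 0) (nat_lit 1971842777)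 (nat_lit 304) (nat_lit 222013012) (nat_lit 76) (nat_lit 9294294046) (nat_lit 56) (nat_lit 5) (nat_lit 60) (nat_lit 5) (nat_lit 57) (nat_lit 5) (nat_lit 320) (nat_lit 241) (nat_lit 219)) (XT.lf (nat_lit 0) (nat_lit 5327738310) (nat_lit 304) (nat_lit 5331337387) (nat_lit 76) (nat_lit 1042390856) (nat_lit 53) (nat_lit 5) (nat_lit 57) (nat_lit 5) (nat_lit 54) (nat_lit 4) (nat_lit 321) (nat_lit 241) (nat_lit 218))) (XT.nd (nat_lit 78) (nat_lit 76) (nat_lit 0) (XT.lf (nat_lit 0) (nat_lit 1145071721) (nat_lit 152) (nat_lit 7610971416) (nat_lit 228) (nat_lit 3166044156) (nat_lit 51) (nat_lit 5) (nat_lit 53) (nat_lit 5) (nat_lit 54) (nat_lit 4) (nat_lit 322) (nat_lit 241) (nat_lit 217)) (XT.lf (nat_lit 0) (nat_lit 126518053) (nat_lit 228) (nat_lit 4323847065) (nat_lit 76) (nat_lit 7699234894) (nat_lit 50) (nat_lit 5) (nat_lit 53) (nat_lit 5) (nat_lit 51) (nat_lit 5) (nat_lit 323) (nat_lit 241) (nat_lit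 216)))))) (XT.nd (nat_lit 468) (nat_lit 608) (nat_lit 0) (XT.nd (nat_lit 234) (nat_lit 304) (nat_lit 0) (XT.nd (nat_lit 78) (nat_lit 152) (nat_lit 0) (XT.lf (nat_lit 0) (nat_lit 2238812693) (nat_lit 228) (nat_lit 1175735642) (nat_lit 304) (nat_lit 8969691298) (nat_lit 47) (nat_lit 5) (nat_lit 50) (nat_lit 5) (nat_lit 51) (nat_lit 5) (nat_lit 324) (nat_lit 241) (nat_lit 215)) (XT.nd (nat_lit 78) (nat_lit 152) (nat_lit 0) (XT.lf (nat_lit 0) (nat_lit 6805765455) (nat_lit 304) (nat_lit 3656194857) (nat_lit 76) (nat_lit 2163871949) (nat_lit 47) (nat_lit 5) (nat_lit 51) (nat_lit 5) (nat_lit 48) (nat_lit 4) (nat_lit 325) (nat_lit 241) (nat_lit 214)) (XT.lf (nat_lit 0) (nat_lit 2980029527) (nat_lit 152) (nat_lit 7300074496) (nat_lit 228) (nat_lit 2595175830) (nat_lit 45) (nat_lit 5) (nat_lit 47) (nat_lit 5) (nat_lit 48) (nat_lit 4) (nat_lit 326) (nat_lit 241) (nat_lit 213)))) (XT.nd (nat_lit 78) (nat_lit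 228) (nat_lit 0) (XT.lf (nat_lit 0) (nat_lit 690867597) (nat_lit 228) (nat_lit 3342648562) (nat_lit 76) (nat_lit 9099173703) (nat_lit 44) (nat_lit 5) (nat_lit 47) (nat_lit 5) (nat_lit 45) (nat_lit 5) (nat_lit 327) (nat_lit 241) (nat_lit 212)) (XT.nd (nat_lit 78) (nat_lit 0) (nat_lit 0) (XT.lf (nat_lit 0) (nat_lit 3354562437) (nat_lit 228) (nat_lit 644021029) (nat_lit 304) (nat_lit 9399254911) (nat_lit 41) (nat_lit 5) (nat_lit 44) (nat_lit 5) (nat_lit 45) (nat_lit 5) (nat_lit 328) (nat_lit 241) (nat_lit 211)) (XT.lf (nat_lit 0) (nat_lit 7410447364) (nat_lit 304) (nat_lit 3468651699) (nat_lit 76) (nat_lit 2791738084) (nat_lit 41) (nat_lit 5) (nat_lit 45) (nat_lit 5) (nat_lit 42) (nat_lit 4) (nat_lit 329) (nat_lit 241) (nat_lit 210))))) (XT.nd (nat_lit 234) (nat_lit 228) (nat_lit 0) (XT.nd (nat_lit 78) (nat_lit 228) (nat_lit 0) (XT.lf (nat_lit 0) (nat_lit 3271121596) (nat_lit 152) (nat_lit 7636472385)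 (nat_lit 228) (nat_lit 3044986134) (nat_lit 39) (nat_lit 5) (nat_lit 41) (nat_lit 5) (nat_lit 42) (nat_lit 4) (nat_lit 330) (nat_lit 241) (nat_lit 209)) (XT.nd (nat_lit 78) (nat_lit 152) (nat_lit 0) (XT.lf (nat_lit 0) (nat_lit 242321954) (nat_lit 228) (nat_lit 4050240159) (nat_lit 76) (nat_lit 9950756416) (nat_lit 38) (nat_lit 5) (nat_lit 41) (nat_lit 5) (nat_lit 39) (nat_lit 5) (nat_lit 331) (nat_lit 241) (nat_lit 208)) (XT.lf (nat_lit 0) (nat_lit 2715577037) (nat_lit 152) (nat_lit 824445445) (nat_lit 228) (nat_lit 11002701400) (nat_lit 36) (nat_lit 5) (nat_lit 38) (nat_lit 5) (nat_lit 39) (nat_lit 5) (nat_lit 332) (nat_lit 241) (nat_lit 207)))) (XT.nd (nat_lit 156) (nat_lit 76) (nat_lit 0) (XT.nd (nat_lit 78) (nat_lit 152) (nat_lit 0) (XT.lf (nat_lit 0) (nat_lit 6951633434) (nat_lit 228) (nat_lit 5196916394) (nat_lit 76) (nat_lit 2702149535) (nat_lit 36) (nat_lit 5) (nat_lit 39) (nat_lit 5)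 (nat_lit 37) (nat_lit 4) (nat_lit 333) (nat_lit 241) (nat_lit 206)) (XT.lf (nat_lit 0) (nat_lit 1569629975) (nat_lit 152) (nat_lit 8868012121) (nat_lit 228) (nat_lit 4731146791) (nat_lit 34) (nat_lit 5) (nat_lit 36) (nat_lit 5) (nat_lit 37) (nat_lit 4) (nat_lit 334) (nat_lit 241) (nat_lit 205))) (XT.nd (nat_lit 78) (nat_lit 76) (nat_lit 0) (XT.lf (nat_lit 0) (nat_lit 8561481017) (nat_lit 152) (nat_lit 5468708685) (nat_lit 228) (nat_lit 1466207841) (nat_lit 34) (nat_lit 5) (nat_lit 36) (nat_lit 5) (nat_lit 37) (nat_lit 4) (nat_lit 335) (nat_lit 241) (nat_lit 204)) (XT.lf (nat_lit 0) (nat_lit 1810100565) (nat_lit 228) (nat_lit 171768888) (nat_lit 76) (nat_lit 13852938258) (nat_lit 33) (nat_lit 5) (nat_lit 36) (nat_lit 5) (nat_lit 34) (nat_lit 5) (nat_lit 336) (nat_lit 241) (nat_lit 203))))))) (XT.nd (nat_lit 1014) (nat_lit 608) (nat_lit 0) (XT.nd (nat_lit 468) (nat_lit 304) (nat_lit 0) (XT.nd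 (nat_lit 234) (nat_lit 228) (nat_lit 0) (XT.nd (nat_lit 78) (nat_lit 152) (nat_lit 0) (XT.lf (nat_lit 0) (nat_lit 5188741320) (nat_lit 228) (nat_lit 9365688005) (nat_lit 76) (nat_lit 1627532197) (nat_lit 31) (nat_lit 5) (nat_lit 34) (nat_lit 5) (nat_lit 32) (nat_lit 4) (nat_lit 337) (nat_lit 241) (nat_lit 202)) (XT.nd (nat_lit 78) (nat_lit 152) (nat_lit 0) (XT.lf (nat_lit 0) (nat_lit 8642319519) (nat_lit 228) (nat_lit 2622377164) (nat_lit 76) (nat_lit 5275657198) (nat_lit 31) (nat_lit 5) (nat_lit 34) (nat_lit 5) (nat_lit 32) (nat_lit 4) (nat_lit 338) (nat_lit 241) (nat_lit 201)) (XT.lf (nat_lit 0) (nat_lit 4329327465) (nat_lit 152) (nat_lit 7865389907) (nat_lit 228) (nat_lit 4714954637) (nat_lit 29) (nat_lit 5) (nat_lit 31) (nat_lit 5) (nat_lit 32) (nat_lit 4) (nat_lit 339) (nat_lit 241) (nat_lit 200)))) (XT.nd (nat_lit 78) (nat_lit 228) (nat_lit 0) (XT.lf (nat_lit 0) (nat_lit 11465721579) (nat_lit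 152) (nat_lit 4368648071) (nat_lit 228) (nat_lit 1456309039) (nat_lit 29) (nat_lit 5) (nat_lit 31) (nat_lit 5) (nat_lit 32) (nat_lit 4) (nat_lit 340) (nat_lit 241) (nat_lit 199)) (XT.nd (nat_lit 78) (nat_lit 0) (nat_lit 0) (XT.lf (nat_lit 0) (nat_lit 1059217056) (nat_lit 152) (nat_lit 769050244) (nat_lit 228) (nat_lit 15855370643) (nat_lit 26) (nat_lit 5) (nat_lit 28) (nat_lit 5) (nat_lit 29) (nat_lit 5) (nat_lit 341) (nat_lit 241) (nat_lit 198)) (XT.lf (nat_lit 0) (nat_lit 5225110772) (nat_lit 228) (nat_lit 9937136342) (nat_lit 76) (nat_lit 2924443269) (nat_lit 26) (nat_lit 5) (nat_lit 29) (nat_lit 5) (nat_lit 27) (nat_lit 4) (nat_lit 342) (nat_lit 241) (nat_lit 197))))) (XT.nd (nat_lit 234) (nat_lit 228) (nat_lit 0) (XT.nd (nat_lit 78) (nat_lit 76) (nat_lit 0) (XT.lf (nat_lit 0) (nat_lit 8688124569) (nat_lit 228) (nat_lit 3131205930) (nat_lit 76) (nat_lit 6683602143) (nat_lit 26) (nat_lit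 5) (nat_lit 29) (nat_lit 5) (nat_lit 27) (nat_lit 4) (nat_lit 343) (nat_lit 241) (nat_lit 196)) (XT.nd (nat_lit 78) (nat_lit 0) (nat_lit 0) (XT.lf (nat_lit 0) (nat_lit 3882470849) (nat_lit 76) (nat_lit 8367791879) (nat_lit 152) (nat_lit 6681567854) (nat_lit 25) (nat_lit 5) (nat_lit 26) (nat_lit 5) (nat_lit 27) (nat_lit 4) (nat_lit 344) (nat_lit 241) (nat_lit 195)) (XT.lf (nat_lit 0) (nat_lit 11099259819) (nat_lit 76) (nat_lit 4810076191) (nat_lit 152) (nat_lit 3464582014) (nat_lit 25) (nat_lit 5) (nat_lit 26) (nat_lit 5) (nat_lit 27) (nat_lit 4) (nat_lit 345) (nat_lit 241) (nat_lit 194)))) (XT.nd (nat_lit 156) (nat_lit 0) (nat_lit 0) (XT.nd (nat_lit 78) (nat_lit 228) (nat_lit 0) (XT.lf (nat_lit 0) (nat_lit 18463149773) (nat_lit 76) (nat_lit 1174693790) (nat_lit 152) (nat_lit 192658636) (nat_lit 25) (nat_lit 5) (nat_lit 26) (nat_lit 5) (nat_lit 27) (nat_lit 4) (nat_lit 346) (nat_lit 241) (nat_lit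 193)) (XT.lf (nat_lit 0) (nat_lit 3156500330) (nat_lit 228) (nat_lit 14563840968) (nat_lit 76) (nat_lit 2578316474) (nat_lit 22) (nat_lit 5) (nat_lit 25) (nat_lit 5) (nat_lit 23) (nat_lit 4) (nat_lit 347) (nat_lit 241) (nat_lit 192))) (XT.nd (nat_lit 78) (nat_lit 0) (nat_lit 0) (XT.lf (nat_lit 0) (nat_lit 6588493181) (nat_lit 228) (nat_lit 7784481565) (nat_lit 76) (nat_lit 6408261038) (nat_lit 22) (nat_lit 5) (nat_lit 25) (nat_lit 5) (nat_lit 23) (nat_lit 4) (nat_lit 348) (nat_lit 241) (nat_lit 191)) (XT.lf (nat_lit 0) (nat_lit 10085248190) (nat_lit 228) (nat_lit 868191310) (nat_lit 76) (nat_lit 10326018866) (nat_lit 22) (nat_lit 5) (nat_lit 25) (nat_lit 5) (nat_lit 23) (nat_lit 4) (nat_lit 349) (nat_lit 241) (nat_lit 190)))))) (XT.nd (nat_lit 546) (nat_lit 228) (nat_lit 0) (XT.nd (nat_lit 234) (nat_lit 304) (nat_lit 0) (XT.nd (nat_lit 78) (nat_lit 0) (nat_lit 0) (XT.lf (nat_lit 0) (nat_lit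 6314287654) (nat_lit 76) (nat_lit 7396229916) (nat_lit 152) (nat_lit 8081422384) (nat_lit 21) (nat_lit 5) (nat_lit 22) (nat_lit 5) (nat_lit 23) (nat_lit 4) (nat_lit 350) (nat_lit 241) (nat_lit 189)) (XT.nd (nat_lit 78) (nat_lit 0) (nat_lit 0) (XT.lf (nat_lit 0) (nat_lit 13666156058) (nat_lit 76) (nat_lit 3750537002) (nat_lit 152) (nat_lit 4903958564) (nat_lit 21) (nat_lit 5) (nat_lit 22) (nat_lit 5) (nat_lit 23) (nat_lit 4) (nat_lit 351) (nat_lit 241) (nat_lit 188)) (XT.lf (nat_lit 0) (nat_lit 21176559156) (nat_lit 76) (nat_lit 21942231) (nat_lit 152) (nat_lit 1667809322) (nat_lit 21) (nat_lit 5) (nat_lit 22) (nat_lit 5) (nat_lit 23) (nat_lit 4) (nat_lit 352) (nat_lit 241) (nat_lit 187)))) (XT.nd (nat_lit 156) (nat_lit 76) (nat_lit 0) (XT.nd (nat_lit 78) (nat_lit 0) (nat_lit 0) (XT.lf (nat_lit 0) (nat_lit 1688197330) (nat_lit 228) (nat_lit 17949864337) (nat_lit 76) (nat_lit 3788157860) (nat_lit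 18) (nat_lit 5) (nat_lit 21) (nat_lit 5) (nat_lit 19) (nat_lit 4) (nat_lit 353) (nat_lit 241) (nat_lit 186)) (XT.lf (nat_lit 0) (nat_lit 5094122062) (nat_lit 228) (nat_lit 11188361784) (nat_lit 76) (nat_lit 7720481438) (nat_lit 18) (nat_lit 5) (nat_lit 21) (nat_lit 5) (nat_lit 19) (nat_lit 4) (nat_lit 354) (nat_lit 241) (nat_lit 185))) (XT.nd (nat_lit 78) (nat_lit 76) (nat_lit 0) (XT.lf (nat_lit 0) (nat_lit 8568544757) (nat_lit 228) (nat_lit 4283365902) (nat_lit 76) (nat_lit 11746130467) (nat_lit 18) (nat_lit 5) (nat_lit 21) (nat_lit 5) (nat_lit 19) (nat_lit 4) (nat_lit 355) (nat_lit 241) (nat_lit 184)) (XT.lf (nat_lit 0) (nat_lit 2826308252) (nat_lit 76) (nat_lit 9315361267) (nat_lit 152) (nat_lit 13069482455) (nat_lit 17) (nat_lit 5) (nat_lit 18) (nat_lit 5) (nat_lit 19) (nat_lit 4) (nat_lit 356) (nat_lit 241) (nat_lit 183))))) (XT.nd (nat_lit 234) (nat_lit 228) (nat_lit 0) (XT.nd (nat_lit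 78) (nat_lit 0) (nat_lit 0) (XT.lf (nat_lit 0) (nat_lit 10180019308) (nat_lit 76) (nat_lit 5652927414) (nat_lit 152) (nat_lit 10009396991) (nat_lit 17) (nat_lit 5) (nat_lit 18) (nat_lit 5) (nat_lit 19) (nat_lit 4) (nat_lit 357) (nat_lit 241) (nat_lit 182)) (XT.nd (nat_lit 78) (nat_lit 0) (nat_lit 0) (XT.lf (nat_lit 0) (nat_lit 17698945457) (nat_lit 76) (nat_lit 1904662510) (nat_lit 152) (nat_lit 6889819713) (nat_lit 17) (nat_lit 5) (nat_lit 18) (nat_lit 5) (nat_lit 19) (nat_lit 4) (nat_lit 358) (nat_lit 241) (nat_lit 181)) (XT.lf (nat_lit 0) (nat_lit 23475526387) (nat_lit 152) (nat_lit 1793894527) (nat_lit 0) (nat_lit 1894994520) (nat_lit 17) (nat_lit 5) (nat_lit 19) (nat_lit 4) (nat_lit 17) (nat_lit 4) (nat_lit 359) (nat_lit 241) (nat_lit 180)))) (XT.nd (nat_lit 156) (nat_lit 0) (nat_lit 0) (XT.nd (nat_lit 78) (nat_lit 76) (nat_lit 0) (XT.lf (nat_lit 0) (nat_lit 5451327795) (nat_lit 152) (nat_lit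 22053761856) (nat_lit 152) (nat_lit 349213489) (nat_lit 15) (nat_lit 4) (nat_lit 17) (nat_lit 5) (nat_lit 17) (nat_lit 4) (nat_lit 360) (nat_lit 241) (nat_lit 179)) (XT.lf (nat_lit 0) (nat_lit 3018922736) (nat_lit 228) (nat_lit 15696539583) (nat_lit 76) (nat_lit 9848890560) (nat_lit 14) (nat_lit 5) (nat_lit 17) (nat_lit 5) (nat_lit 15) (nat_lit 4) (nat_lit 361) (nat_lit 241) (nat_lit 178))) (XT.nd (nat_lit 78) (nat_lit 0) (nat_lit 0) (XT.lf (nat_lit 0) (nat_lit 6452235646) (nat_lit 228) (nat_lit 8843811822) (nat_lit 76) (nat_lit 14000432042) (nat_lit 14) (nat_lit 5) (nat_lit 17) (nat_lit 5) (nat_lit 15) (nat_lit 4) (nat_lit 362) (nat_lit 241) (nat_lit 177)) (XT.lf (nat_lit 0) (nat_lit 9960539636) (nat_lit 228) (nat_lit 1835447388) (nat_lit 76) (nat_lit 18255436438) (nat_lit 14) (nat_lit 5) (nat_lit 17) (nat_lit 5) (nat_lit 15) (nat_lit 4) (nat_lit 363) (nat_lit 241) (nat_lit 176))))))))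
noncomputable def xc60 : XT := (XT.nd (nat_lit 2028) (nat_lit 228) (nat_lit 0) (XT.nd (nat_lit 1014) (nat_lit 228) (nat_lit 0) (XT.nd (nat_lit 468) (nat_lit 152) (nat_lit 0) (XT.nd (nat_lit 234) (nat_lit 76) (nat_lit 0) (XT.nd (nat_lit 78) (nat_lit 0) (nat_lit 0) (XT.lf (nat_lit 0) (nat_lit 5440848074) (nat_lit 76) (nat_lit 8158352900) (nat_lit 152) (nat_lit 17229074399) (nat_lit 13) (nat_lit 5) (nat_lit 14) (nat_lit 5) (nat_lit 15) (nat_lit 4) (nat_lit 364) (nat_lit 241) (nat_lit 175)) (XT.nd (nat_lit 78) (nat_lit 0) (nat_lit 0) (XT.lf (nat_lit 0) (nat_lit 12925042222) (nat_lit 76) (nat_lit 4413652284) (nat_lit 152) (nat_lit 14290000675) (nat_lit 13) (nat_lit 5) (nat_lit 14) (nat_lit 5) (nat_lit 15) (nat_lit 4) (nat_lit 365) (nat_lit 241) (nat_lit 174)) (XT.lf (nat_lit 0) (nat_lit 20587145642) (nat_lit 76) (nat_lit 577147528) (nat_lit 152) (nat_lit 11289628952) (nat_lit 13) (nat_lit 5) (nat_lit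 14) (nat_lit 5) (nat_lit 15) (nat_lit 4) (nat_lit 366) (nat_lit 241) (nat_lit 173)))) (XT.nd (nat_lit 78) (nat_lit 76) (nat_lit 0) (XT.lf (nat_lit 0) (nat_lit 25111585358) (nat_lit 152) (nat_lit 4903069531) (nat_lit 0) (nat_lit 3289055009) (nat_lit 13) (nat_lit 5) (nat_lit 15) (nat_lit 4) (nat_lit 13) (nat_lit 4) (nat_lit 367) (nat_lit 241) (nat_lit 172)) (XT.nd (nat_lit 78) (nat_lit 0) (nat_lit 0) (XT.lf (nat_lit 0) (nat_lit 2263499911) (nat_lit 76) (nat_lit 26916500200) (nat_lit 76) (nat_lit 4998921530) (nat_lit 12) (nat_lit 4) (nat_lit 13) (nat_lit 5) (nat_lit 13) (nat_lit 4) (nat_lit 368) (nat_lit 241) (nat_lit 171)) (XT.lf (nat_lit 0) (nat_lit 9701507445) (nat_lit 76) (nat_lit 23694000393) (nat_lit 76) (nat_lit 1684141800) (nat_lit 12) (nat_lit 4) (nat_lit 13) (nat_lit 5) (nat_lit 13) (nat_lit 4) (nat_lit 369) (nat_lit 241) (nat_lit 170))))) (XT.nd (nat_lit 234) (nat_lit 76) (nat_lit 0)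 (XT.nd (nat_lit 78) (nat_lit 0) (nat_lit 0) (XT.lf (nat_lit 0) (nat_lit 1672317278) (nat_lit 152) (nat_lit 18704646677) (nat_lit 76) (nat_lit 15630667197) (nat_lit 11) (nat_lit 5) (nat_lit 13) (nat_lit 5) (nat_lit 12) (nat_lit 4) (nat_lit 370) (nat_lit 241) (nat_lit 169)) (XT.nd (nat_lit 78) (nat_lit 0) (nat_lit 0) (XT.lf (nat_lit 0) (nat_lit 5072315763) (nat_lit 152) (nat_lit 11889632430) (nat_lit 76) (nat_lit 20001712995) (nat_lit 11) (nat_lit 5) (nat_lit 13) (nat_lit 5) (nat_lit 12) (nat_lit 4) (nat_lit 371) (nat_lit 241) (nat_lit 168)) (XT.lf (nat_lit 0) (nat_lit 8551688202) (nat_lit 152) (nat_lit 4910955583) (nat_lit 76) (nat_lit 24486416997) (nat_lit 11) (nat_lit 5) (nat_lit 13) (nat_lit 5) (nat_lit 12) (nat_lit 4) (nat_lit 372) (nat_lit 241) (nat_lit 167)))) (XT.nd (nat_lit 156) (nat_lit 0) (nat_lit 0) (XT.nd (nat_lit 78) (nat_lit 0) (nat_lit 0) (XT.lf (nat_lit 0) (nat_lit 2282012010)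 (nat_lit 76) (nat_lit 9853398906) (nat_lit 152) (nat_lit 26828621963) (nat_lit 10) (nat_lit 5) (nat_lit 11) (nat_lit 5) (nat_lit 12) (nat_lit 4) (nat_lit 373) (nat_lit 241) (nat_lit 166)) (XT.lf (nat_lit 0) (nat_lit 9752226806) (nat_lit 76) (nat_lit 6102305424) (nat_lit 152) (nat_lit 24154094611) (nat_lit 10) (nat_lit 5) (nat_lit 11) (nat_lit 5) (nat_lit 12) (nat_lit 4) (nat_lit 374) (nat_lit 241) (nat_lit 165))) (XT.nd (nat_lit 78) (nat_lit 0) (nat_lit 0) (XT.lf (nat_lit 0) (nat_lit 17408478533) (nat_lit 76) (nat_lit 2255676708) (nat_lit 152) (nat_lit 21421044579) (nat_lit 10) (nat_lit 5) (nat_lit 11) (nat_lit 5) (nat_lit 12) (nat_lit 4) (nat_lit 375) (nat_lit 241) (nat_lit 164)) (XT.lf (nat_lit 0) (nat_lit 23583852598) (nat_lit 152) (nat_lit 16953479247) (nat_lit 0) (nat_lit 1656873347) (nat_lit 10) (nat_lit 5) (nat_lit 12) (nat_lit 4) (nat_lit 10) (nat_lit 4) (nat_lit 376) (nat_lit 241) (nat_lit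 163)))))) (XT.nd (nat_lit 468) (nat_lit 76) (nat_lit 0) (XT.nd (nat_lit 234) (nat_lit 76) (nat_lit 0) (XT.nd (nat_lit 78) (nat_lit 76) (nat_lit 0) (XT.lf (nat_lit 0) (nat_lit 27623457969) (nat_lit 152) (nat_lit 10087207924) (nat_lit 0) (nat_lit 5625753840) (nat_lit 10) (nat_lit 5) (nat_lit 12) (nat_lit 4) (nat_lit 10) (nat_lit 4) (nat_lit 377) (nat_lit 241) (nat_lit 162)) (XT.nd (nat_lit 78) (nat_lit 76) (nat_lit 0) (XT.lf (nat_lit 0) (nat_lit 31764818160) (nat_lit 152) (nat_lit 3050224719) (nat_lit 0) (nat_lit 9698449102) (nat_lit 10) (nat_lit 5) (nat_lit 12) (nat_lit 4) (nat_lit 10) (nat_lit 4) (nat_lit 378) (nat_lit 241) (nat_lit 161)) (XT.lf (nat_lit 0) (nat_lit 4246483372) (nat_lit 76) (nat_lit 31805888260) (nat_lit 76) (nat_lit 9672854222) (nat_lit 9) (nat_lit 4) (nat_lit 10) (nat_lit 5) (nat_lit 10) (nat_lit 4) (nat_lit 379) (nat_lit 241) (nat_lit 160)))) (XT.nd (nat_lit 78) (nat_lit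 76) (nat_lit 0) (XT.lf (nat_lit 0) (nat_lit 11790706301) (nat_lit 76) (nat_lit 28690002917) (nat_lit 76) (nat_lit 6492245596) (nat_lit 9) (nat_lit 4) (nat_lit 10) (nat_lit 5) (nat_lit 10) (nat_lit 4) (nat_lit 380) (nat_lit 241) (nat_lit 159)) (XT.nd (nat_lit 78) (nat_lit 76) (nat_lit 0) (XT.lf (nat_lit 0) (nat_lit 19528330654) (nat_lit 76) (nat_lit 25495465519) (nat_lit 76) (nat_lit 3234870061) (nat_lit 9) (nat_lit 4) (nat_lit 10) (nat_lit 5) (nat_lit 10) (nat_lit 4) (nat_lit 381) (nat_lit 241) (nat_lit 158)) (XT.lf (nat_lit 0) (nat_lit 100125930) (nat_lit 152) (nat_lit 22118347719) (nat_lit 76) (nat_lit 27364980456) (nat_lit 8) (nat_lit 5) (nat_lit 10) (nat_lit 5) (nat_lit 9) (nat_lit 4) (nat_lit 382) (nat_lit 241) (nat_lit 157))))) (XT.nd (nat_lit 234) (nat_lit 76) (nat_lit 0) (XT.nd (nat_lit 78) (nat_lit 0) (nat_lit 0) (XT.lf (nat_lit 0) (nat_lit 3452916494) (nat_lit 152) (nat_lit 15371413846)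 (nat_lit 76) (nat_lit 32123218475) (nat_lit 8) (nat_lit 5) (nat_lit 10) (nat_lit 5) (nat_lit 9) (nat_lit 4) (nat_lit 383) (nat_lit 241) (nat_lit 156)) (XT.nd (nat_lit 78) (nat_lit 0) (nat_lit 0) (XT.lf (nat_lit 0) (nat_lit 6889555218) (nat_lit 152) (nat_lit 8452543033) (nat_lit 76) (nat_lit 37010976907) (nat_lit 8) (nat_lit 5) (nat_lit 10) (nat_lit 5) (nat_lit 9) (nat_lit 4) (nat_lit 384) (nat_lit 241) (nat_lit 155)) (XT.lf (nat_lit 0) (nat_lit 10413044991) (nat_lit 152) (nat_lit 1355689666) (nat_lit 76) (nat_lit 42032526609) (nat_lit 8) (nat_lit 5) (nat_lit 10) (nat_lit 5) (nat_lit 9) (nat_lit 4) (nat_lit 385) (nat_lit 241) (nat_lit 154)))) (XT.nd (nat_lit 156) (nat_lit 0) (nat_lit 0) (XT.nd (nat_lit 78) (nat_lit 0) (nat_lit 0) (XT.lf (nat_lit 0) (nat_lit 6043273421) (nat_lit 76) (nat_lit 8041282810) (nat_lit 152) (nat_lit 41207073561) (nat_lit 7) (nat_lit 5) (nat_lit 8) (nat_lit 5) (nat_lit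 9) (nat_lit 4) (nat_lit 386) (nat_lit 241) (nat_lit 153)) (XT.lf (nat_lit 0) (nat_lit 13663555386) (nat_lit 76) (nat_lit 4200758439) (nat_lit 152) (nat_lit 38962458674) (nat_lit 7) (nat_lit 5) (nat_lit 8) (nat_lit 5) (nat_lit 9) (nat_lit 4) (nat_lit 387) (nat_lit 241) (nat_lit 152))) (XT.nd (nat_lit 78) (nat_lit 0) (nat_lit 0) (XT.lf (nat_lit 0) (nat_lit 21484833844) (nat_lit 76) (nat_lit 257495554) (nat_lit 152) (nat_lit 36666100106) (nat_lit 7) (nat_lit 5) (nat_lit 8) (nat_lit 5) (nat_lit 9) (nat_lit 4) (nat_lit 388) (nat_lit 241) (nat_lit 151)) (XT.lf (nat_lit 0) (nat_lit 25758442066) (nat_lit 152) (nat_lit 30560490474) (nat_lit 0) (nat_lit 3717956782) (nat_lit 7) (nat_lit 5) (nat_lit 9) (nat_lit 4) (nat_lit 7) (nat_lit 4) (nat_lit 389) (nat_lit 241) (nat_lit 150))))))) (XT.nd (nat_lit 1014) (nat_lit 76) (nat_lit 0) (XT.nd (nat_lit 468) (nat_lit 76) (nat_lit 0) (XT.nd (nat_lit 234) (nat_lit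 76) (nat_lit 0) (XT.nd (nat_lit 78) (nat_lit 0) (nat_lit 0) (XT.lf (nat_lit 0) (nat_lit 29883208569) (nat_lit 152) (nat_lit 24035389076) (nat_lit 0) (nat_lit 7795965809) (nat_lit 7) (nat_lit 5) (nat_lit 9) (nat_lit 4) (nat_lit 7) (nat_lit 4) (nat_lit 390) (nat_lit 241) (nat_lit 149)) (XT.nd (nat_lit 78) (nat_lit 0) (nat_lit 0) (XT.lf (nat_lit 0) (nat_lit 34117757867) (nat_lit 152) (nat_lit 17340114717) (nat_lit 0) (nat_lit 11985119499) (nat_lit 7) (nat_lit 5) (nat_lit 9) (nat_lit 4) (nat_lit 7) (nat_lit 4) (nat_lit 391) (nat_lit 241) (nat_lit 148)) (XT.lf (nat_lit 0) (nat_lit 38465790052) (nat_lit 152) (nat_lit 10468817158) (nat_lit 0) (nat_lit 16289078280) (nat_lit 7) (nat_lit 5) (nat_lit 9) (nat_lit 4) (nat_lit 7) (nat_lit 4) (nat_lit 392) (nat_lit 241) (nat_lit 147)))) (XT.nd (nat_lit 78) (nat_lit 76) (nat_lit 0) (XT.lf (nat_lit 0) (nat_lit 42931104376) (nat_lit 152) (nat_lit 3415492351)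 (nat_lit 0) (nat_lit 20711602890) (nat_lit 7) (nat_lit 5) (nat_lit 9) (nat_lit 4) (nat_lit 7) (nat_lit 4) (nat_lit 393) (nat_lit 241) (nat_lit 146)) (XT.nd (nat_lit 78) (nat_lit 0) (nat_lit 0) (XT.lf (nat_lit 0) (nat_lit 3902168158) (nat_lit 76) (nat_lit 43652944439) (nat_lit 76) (nat_lit 21391899541) (nat_lit 6) (nat_lit 4) (nat_lit 7) (nat_lit 5) (nat_lit 7) (nat_lit 4) (nat_lit 394) (nat_lit 241) (nat_lit 145)) (XT.lf (nat_lit 0) (nat_lit 11486192833) (nat_lit 76) (nat_lit 40853511732) (nat_lit 76) (nat_lit 18552133424) (nat_lit 6) (nat_lit 4) (nat_lit 7) (nat_lit 5) (nat_lit 7) (nat_lit 4) (nat_lit 395) (nat_lit 241) (nat_lit 144))))) (XT.nd (nat_lit 234) (nat_lit 76) (nat_lit 0) (XT.nd (nat_lit 78) (nat_lit 0) (nat_lit 0) (XT.lf (nat_lit 0) (nat_lit 19275233498) (nat_lit 76) (nat_lit 37980342274) (nat_lit 76) (nat_lit 15639805316) (nat_lit 6) (nat_lit 4) (nat_lit 7) (nat_lit 5) (nat_lit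 7) (nat_lit 4) (nat_lit 396) (nat_lit 241) (nat_lit 143)) (XT.nd (nat_lit 78) (nat_lit 0) (nat_lit 0) (XT.lf (nat_lit 0) (nat_lit 27276096109) (nat_lit 76) (nat_lit 35030925529) (nat_lit 76) (nat_lit 12652370465) (nat_lit 6) (nat_lit 4) (nat_lit 7) (nat_lit 5) (nat_lit 7) (nat_lit 4) (nat_lit 397) (nat_lit 241) (nat_lit 142)) (XT.lf (nat_lit 0) (nat_lit 35495771713) (nat_lit 76) (nat_lit 32002684338) (nat_lit 76) (nat_lit 9587218490) (nat_lit 6) (nat_lit 4) (nat_lit 7) (nat_lit 5) (nat_lit 7) (nat_lit 4) (nat_lit 398) (nat_lit 241) (nat_lit 141)))) (XT.nd (nat_lit 156) (nat_lit 76) (nat_lit 0) (XT.nd (nat_lit 78) (nat_lit 0) (nat_lit 0) (XT.lf (nat_lit 0) (nat_lit 43941442549) (nat_lit 76) (nat_lit 28892972664) (nat_lit 76) (nat_lit 6441671104) (nat_lit 6) (nat_lit 4) (nat_lit 7) (nat_lit 5) (nat_lit 7) (nat_lit 4) (nat_lit 399) (nat_lit 241) (nat_lit 140)) (XT.lf (nat_lit 0) (nat_lit 52620488331)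 (nat_lit 76) (nat_lit 25699073283) (nat_lit 76) (nat_lit 3212979770) (nat_lit 6) (nat_lit 4) (nat_lit 7) (nat_lit 5) (nat_lit 7) (nat_lit 4) (nat_lit 400) (nat_lit 241) (nat_lit 139))) (XT.nd (nat_lit 78) (nat_lit 0) (nat_lit 0) (XT.lf (nat_lit 0) (nat_lit 99692619) (nat_lit 152) (nat_lit 22317496091) (nat_lit 76) (nat_lit 61439793370) (nat_lit 5) (nat_lit 5) (nat_lit 7) (nat_lit 5) (nat_lit 6) (nat_lit 4) (nat_lit 401) (nat_lit 241) (nat_lit 138)) (XT.lf (nat_lit 0) (nat_lit 3436795631) (nat_lit 152) (nat_lit 15575971729) (nat_lit 76) (nat_lit 67237749276) (nat_lit 5) (nat_lit 5) (nat_lit 7) (nat_lit 5) (nat_lit 6) (nat_lit 4) (nat_lit 402) (nat_lit 241) (nat_lit 137)))))) (XT.nd (nat_lit 32292) (nat_lit 0) (nat_lit 7676) (XT.nd (nat_lit 234) (nat_lit 0) (nat_lit 0) (XT.nd (nat_lit 78) (nat_lit 76) (nat_lit 0) (XT.lf (nat_lit 0) (nat_lit 6863941987) (nat_lit 152) (nat_lit 8650704191) (nat_lit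 76) (nat_lit 73201516867) (nat_lit 5) (nat_lit 5) (nat_lit 7) (nat_lit 5) (nat_lit 6) (nat_lit 4) (nat_lit 403) (nat_lit 241) (nat_lit 136)) (XT.nd (nat_lit 78) (nat_lit 76) (nat_lit 0) (XT.lf (nat_lit 0) (nat_lit 10384126283) (nat_lit 152) (nat_lit 1535642271) (nat_lit 76) (nat_lit 79336307202) (nat_lit 5) (nat_lit 5) (nat_lit 7) (nat_lit 5) (nat_lit 6) (nat_lit 4) (nat_lit 404) (nat_lit 241) (nat_lit 135)) (XT.lf (nat_lit 0) (nat_lit 5890373478) (nat_lit 76) (nat_lit 8166672802) (nat_lit 152) (nat_lit 79813729172) (nat_lit 4) (nat_lit 5) (nat_lit 5) (nat_lit 5) (nat_lit 6) (nat_lit 4) (nat_lit 405) (nat_lit 241) (nat_lit 134)))) (XT.nd (nat_lit 78) (nat_lit 0) (nat_lit 0) (XT.lf (nat_lit 0) (nat_lit 13553379414) (nat_lit 76) (nat_lit 4292900190) (nat_lit 152) (nat_lit 78717456171) (nat_lit 4) (nat_lit 5) (nat_lit 5) (nat_lit 5) (nat_lit 6) (nat_lit 4) (nat_lit 406) (nat_lit 241) (nat_lit 133))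 (XT.nd (nat_lit 78) (nat_lit 0) (nat_lit 0) (XT.lf (nat_lit 0) (nat_lit 21429509075) (nat_lit 76) (nat_lit 310572846) (nat_lit 152) (nat_lit 77597679535) (nat_lit 4) (nat_lit 5) (nat_lit 5) (nat_lit 5) (nat_lit 6) (nat_lit 4) (nat_lit 407) (nat_lit 241) (nat_lit 132)) (XT.lf (nat_lit 0) (nat_lit 25778227676) (nat_lit 152) (nat_lit 72706003981) (nat_lit 0) (nat_lit 3709953583) (nat_lit 4) (nat_lit 5) (nat_lit 6) (nat_lit 4) (nat_lit 4) (nat_lit 4) (nat_lit 408) (nat_lit 241) (nat_lit 131))))) (XT.nd (nat_lit 234) (nat_lit 1368) (nat_lit 0) (XT.nd (nat_lit 78) (nat_lit 532) (nat_lit 0) (XT.lf (nat_lit 0) (nat_lit 2242349971) (nat_lit 456) (nat_lit 879157693) (nat_lit 456) (nat_lit 879157693) (nat_lit 130) (nat_lit 4) (nat_lit 136) (nat_lit 5) (nat_lit 136) (nat_lit 4) (nat_lit 296) (nat_lit 242) (nat_lit 242)) (XT.nd (nat_lit 78) (nat_lit 0) (nat_lit 0) (XT.lf (nat_lit 0) (nat_lit 1615475483)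 (nat_lit 532) (nat_lit 6072242518) (nat_lit 0) (nat_lit 407812441) (nat_lit 123) (nat_lit 5) (nat_lit 130) (nat_lit 4) (nat_lit 123) (nat_lit 4) (nat_lit 297) (nat_lit 242) (nat_lit 241)) (XT.lf (nat_lit 0) (nat_lit 5017821465) (nat_lit 532) (nat_lit 537803179) (nat_lit 0) (nat_lit 2637670033) (nat_lit 123) (nat_lit 5) (nat_lit 130) (nat_lit 4) (nat_lit 123) (nat_lit 4) (nat_lit 298) (nat_lit 242) (nat_lit 240)))) (XT.nd (nat_lit 156) (nat_lit 456) (nat_lit 0) (XT.nd (nat_lit 78) (nat_lit 380) (nat_lit 0) (XT.lf (nat_lit 0) (nat_lit 184868250) (nat_lit 532) (nat_lit 3143207127) (nat_lit 76) (nat_lit 4967151488) (nat_lit 116) (nat_lit 5) (nat_lit 123) (nat_lit 5) (nat_lit 117) (nat_lit 4) (nat_lit 299) (nat_lit 242) (nat_lit 239)) (XT.lf (nat_lit 0) (nat_lit 2531256915) (nat_lit 380) (nat_lit 993338823) (nat_lit 456) (nat_lit 4876535334) (nat_lit 111) (nat_lit 5) (nat_lit 116) (nat_lit 5) (nat_lit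 117) (nat_lit 4) (nat_lit 300) (nat_lit 242) (nat_lit 238))) (XT.nd (nat_lit 78) (nat_lit 456) (nat_lit 0) (XT.lf (nat_lit 0) (nat_lit 6923995418) (nat_lit 456) (nat_lit 194305762) (nat_lit 0) (nat_lit 1393252305) (nat_lit 111) (nat_lit 5) (nat_lit 117) (nat_lit 4) (nat_lit 111) (nat_lit 4) (nat_lit 301) (nat_lit 242) (nat_lit 237)) (XT.lf (nat_lit 0) (nat_lit 1745100517) (nat_lit 456) (nat_lit 2999587848) (nat_lit 76) (nat_lit 3880795239) (nat_lit 105) (nat_lit 5) (nat_lit 111) (nat_lit 5) (nat_lit 106) (nat_lit 4) (nat_lit 302) (nat_lit 242) (nat_lit 236))))))))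
noncomputable def xc61 : XT := (XT.nd (nat_lit 2028) (nat_lit 1748) (nat_lit 0) (XT.nd (nat_lit 1014) (nat_lit 1976) (nat_lit 0) (XT.nd (nat_lit 468) (nat_lit 1292) (nat_lit 0) (XT.nd (nat_lit 234) (nat_lit 760) (nat_lit 0) (XT.nd (nat_lit 78) (nat_lit 456) (nat_lit 0) (XT.lf (nat_lit 0) (nat_lit 2812038596) (nat_lit 380) (nat_lit 2279646655) (nat_lit 456) (nat_lit 3652414021) (nat_lit 100) (nat_lit 5) (nat_lit 105) (nat_lit 5) (nat_lit 106) (nat_lit 4) (nat_lit 303) (nat_lit 242) (nat_lit 235)) (XT.nd (nat_lit 78) (nat_lit 456) (nat_lit 0) (XT.lf (nat_lit 0) (nat_lit 8489725479) (nat_lit 456) (nat_lit 118909806) (nat_lit 0) (nat_lit 259217884) (nat_lit 100) (nat_lit 5) (nat_lit 106) (nat_lit 4) (nat_lit 100) (nat_lit 4) (nat_lit 304) (nat_lit 242) (nat_lit 234)) (XT.lf (nat_lit 0) (nat_lit 2935041739) (nat_lit 456) (nat_lit 3170987584) (nat_lit 76) (nat_lit 2888559365) (nat_lit 94) (nat_lit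 5) (nat_lit 100) (nat_lit 5) (nat_lit 95) (nat_lit 4) (nat_lit 305) (nat_lit 242) (nat_lit 233)))) (XT.nd (nat_lit 78) (nat_lit 456) (nat_lit 0) (XT.lf (nat_lit 0) (nat_lit 2764246869) (nat_lit 304) (nat_lit 3524329811) (nat_lit 380) (nat_lit 2838082199) (nat_lit 90) (nat_lit 5) (nat_lit 94) (nat_lit 5) (nat_lit 95) (nat_lit 4) (nat_lit 306) (nat_lit 242) (nat_lit 232)) (XT.nd (nat_lit 78) (nat_lit 380) (nat_lit 0) (XT.lf (nat_lit 0) (nat_lit 424196989) (nat_lit 380) (nat_lit 432402692) (nat_lit 76) (nat_lit 8407443116) (nat_lit 89) (nat_lit 5) (nat_lit 94) (nat_lit 5) (nat_lit 90) (nat_lit 5) (nat_lit 307) (nat_lit 242) (nat_lit 231)) (XT.lf (nat_lit 0) (nat_lit 3723852958) (nat_lit 456) (nat_lit 3771601909) (nat_lit 76) (nat_lit 1909447216) (nat_lit 84) (nat_lit 5) (nat_lit 90) (nat_lit 5) (nat_lit 85) (nat_lit 4) (nat_lit 308) (nat_lit 242) (nat_lit 230))))) (XT.nd (nat_lit 234) (nat_lit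 608) (nat_lit 0) (XT.nd (nat_lit 78) (nat_lit 380) (nat_lit 0) (XT.lf (nat_lit 0) (nat_lit 2269576242) (nat_lit 304) (nat_lit 4812075290) (nat_lit 380) (nat_lit 2469651686) (nat_lit 80) (nat_lit 5) (nat_lit 84) (nat_lit 5) (nat_lit 85) (nat_lit 4) (nat_lit 309) (nat_lit 242) (nat_lit 229)) (XT.nd (nat_lit 78) (nat_lit 304) (nat_lit 0) (XT.lf (nat_lit 0) (nat_lit 785009453) (nat_lit 380) (nat_lit 1246792934) (nat_lit 76) (nat_lit 7671239488) (nat_lit 79) (nat_lit 5) (nat_lit 84) (nat_lit 5) (nat_lit 80) (nat_lit 5) (nat_lit 310) (nat_lit 242) (nat_lit 228)) (XT.lf (nat_lit 0) (nat_lit 4070552273) (nat_lit 380) (nat_lit 4930378935) (nat_lit 76) (nat_lit 858264506) (nat_lit 75) (nat_lit 5) (nat_lit 80) (nat_lit 5) (nat_lit 76) (nat_lit 4) (nat_lit 311) (nat_lit 242) (nat_lit 227)))) (XT.nd (nat_lit 156) (nat_lit 304) (nat_lit 0) (XT.nd (nat_lit 78) (nat_lit 76) (nat_lit 0) (XT.lf (nat_lit 0) (nat_lit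 1194129792) (nat_lit 228) (nat_lit 6232689517) (nat_lit 304) (nat_lit 2594130666) (nat_lit 72) (nat_lit 5) (nat_lit 75) (nat_lit 5) (nat_lit 76) (nat_lit 4) (nat_lit 312) (nat_lit 242) (nat_lit 226)) (XT.lf (nat_lit 0) (nat_lit 661085937) (nat_lit 304) (nat_lit 2694814399) (nat_lit 76) (nat_lit 6832178054) (nat_lit 71) (nat_lit 5) (nat_lit 75) (nat_lit 5) (nat_lit 72) (nat_lit 5) (nat_lit 313) (nat_lit 242) (nat_lit 225))) (XT.nd (nat_lit 78) (nat_lit 0) (nat_lit 0) (XT.lf (nat_lit 0) (nat_lit 3563045974) (nat_lit 304) (nat_lit 363289859) (nat_lit 380) (nat_lit 6434252515) (nat_lit 67) (nat_lit 5) (nat_lit 71) (nat_lit 5) (nat_lit 72) (nat_lit 5) (nat_lit 314) (nat_lit 242) (nat_lit 224)) (XT.lf (nat_lit 0) (nat_lit 7274179151) (nat_lit 380) (nat_lit 602752081) (nat_lit 76) (nat_lit 2661874861) (nat_lit 67) (nat_lit 5) (nat_lit 72) (nat_lit 5) (nat_lit 68) (nat_lit 4) (nat_lit 315) (nat_lit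 242) (nat_lit 223)))))) (XT.nd (nat_lit 468) (nat_lit 912) (nat_lit 0) (XT.nd (nat_lit 234) (nat_lit 532) (nat_lit 0) (XT.nd (nat_lit 78) (nat_lit 304) (nat_lit 0) (XT.lf (nat_lit 0) (nat_lit 5787441159) (nat_lit 228) (nat_lit 4927271703) (nat_lit 304) (nat_lit 7959335) (nat_lit 64) (nat_lit 5) (nat_lit 67) (nat_lit 5) (nat_lit 68) (nat_lit 4) (nat_lit 316) (nat_lit 242) (nat_lit 222)) (XT.nd (nat_lit 78) (nat_lit 0) (nat_lit 0) (XT.lf (nat_lit 0) (nat_lit 1364021063) (nat_lit 228) (nat_lit 1869652822) (nat_lit 304) (nat_lit 7678903877) (nat_lit 60) (nat_lit 5) (nat_lit 63) (nat_lit 5) (nat_lit 64) (nat_lit 5) (nat_lit 317) (nat_lit 242) (nat_lit 221)) (XT.lf (nat_lit 0) (nat_lit 6569001060) (nat_lit 304) (nat_lit 3267063313) (nat_lit 76) (nat_lit 1272279194) (nat_lit 60) (nat_lit 5) (nat_lit 64) (nat_lit 5) (nat_lit 61) (nat_lit 4) (nat_lit 318) (nat_lit 242) (nat_lit 220)))) (XT.nd (nat_lit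 78) (nat_lit 304) (nat_lit 0) (XT.lf (nat_lit 0) (nat_lit 3147805385) (nat_lit 228) (nat_lit 6841249931) (nat_lit 304) (nat_lit 1321448746) (nat_lit 57) (nat_lit 5) (nat_lit 60) (nat_lit 5) (nat_lit 61) (nat_lit 4) (nat_lit 319) (nat_lit 242) (nat_lit 219)) (XT.nd (nat_lit 78) (nat_lit 228) (nat_lit 0) (XT.lf (nat_lit 0) (nat_lit 1923556610) (nat_lit 304) (nat_lit 1813483764) (nat_lit 76) (nat_lit 7782088501) (nat_lit 56) (nat_lit 5) (nat_lit 60) (nat_lit 5) (nat_lit 57) (nat_lit 5) (nat_lit 320) (nat_lit 242) (nat_lit 218)) (XT.lf (nat_lit 0) (nat_lit 4709537126) (nat_lit 228) (nat_lit 513093384) (nat_lit 304) (nat_lit 6511547562) (nat_lit 53) (nat_lit 5) (nat_lit 56) (nat_lit 5) (nat_lit 57) (nat_lit 5) (nat_lit 321) (nat_lit 242) (nat_lit 217))))) (XT.nd (nat_lit 234) (nat_lit 456) (nat_lit 0) (XT.nd (nat_lit 78) (nat_lit 456) (nat_lit 0) (XT.lf (nat_lit 0) (nat_lit 8604741062) (nat_lit 304)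 (nat_lit 612992345) (nat_lit 76) (nat_lit 2738478254) (nat_lit 53) (nat_lit 5) (nat_lit 57) (nat_lit 5) (nat_lit 54) (nat_lit 4) (nat_lit 322) (nat_lit 242) (nat_lit 216)) (XT.nd (nat_lit 78) (nat_lit 304) (nat_lit 0) (XT.lf (nat_lit 0) (nat_lit 6009882711) (nat_lit 152) (nat_lit 6081654272) (nat_lit 228) (nat_lit 93325864) (nat_lit 51) (nat_lit 5) (nat_lit 53) (nat_lit 5) (nat_lit 54) (nat_lit 4) (nat_lit 323) (nat_lit 242) (nat_lit 215)) (XT.lf (nat_lit 0) (nat_lit 304709757) (nat_lit 228) (nat_lit 2843956571) (nat_lit 304) (nat_lit 9272323557) (nat_lit 47) (nat_lit 5) (nat_lit 50) (nat_lit 5) (nat_lit 51) (nat_lit 5) (nat_lit 324) (nat_lit 242) (nat_lit 214)))) (XT.nd (nat_lit 156) (nat_lit 304) (nat_lit 0) (XT.nd (nat_lit 78) (nat_lit 152) (nat_lit 0) (XT.lf (nat_lit 0) (nat_lit 6494831784) (nat_lit 304) (nat_lit 5657413475) (nat_lit 76) (nat_lit 511712810) (nat_lit 47) (nat_lit 5) (nat_lit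 51) (nat_lit 5) (nat_lit 48) (nat_lit 4) (nat_lit 325) (nat_lit 242) (nat_lit 213)) (XT.lf (nat_lit 0) (nat_lit 893036259) (nat_lit 152) (nat_lit 9027902050) (nat_lit 228) (nat_lit 2993937618) (nat_lit 45) (nat_lit 5) (nat_lit 47) (nat_lit 5) (nat_lit 48) (nat_lit 4) (nat_lit 326) (nat_lit 242) (nat_lit 212))) (XT.nd (nat_lit 78) (nat_lit 228) (nat_lit 0) (XT.lf (nat_lit 0) (nat_lit 271810977) (nat_lit 228) (nat_lit 5510593730) (nat_lit 76) (nat_lit 7390860477) (nat_lit 44) (nat_lit 5) (nat_lit 47) (nat_lit 5) (nat_lit 45) (nat_lit 5) (nat_lit 327) (nat_lit 242) (nat_lit 211)) (XT.lf (nat_lit 0) (nat_lit 1098724970) (nat_lit 228) (nat_lit 2431859026) (nat_lit 304) (nat_lit 9909319316) (nat_lit 41) (nat_lit 5) (nat_lit 44) (nat_lit 5) (nat_lit 45) (nat_lit 5) (nat_lit 328) (nat_lit 242) (nat_lit 210))))))) (XT.nd (nat_lit 1014) (nat_lit 760) (nat_lit 0) (XT.nd (nat_lit 468) (nat_lit 608) (nat_lit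 0) (XT.nd (nat_lit 234) (nat_lit 228) (nat_lit 0) (XT.nd (nat_lit 78) (nat_lit 152) (nat_lit 0) (XT.lf (nat_lit 0) (nat_lit 6898220888) (nat_lit 304) (nat_lit 5793478945) (nat_lit 76) (nat_lit 1022549769) (nat_lit 41) (nat_lit 5) (nat_lit 45) (nat_lit 5) (nat_lit 42) (nat_lit 4) (nat_lit 329) (nat_lit 242) (nat_lit 209)) (XT.nd (nat_lit 78) (nat_lit 0) (nat_lit 0) (XT.lf (nat_lit 0) (nat_lit 856347551) (nat_lit 152) (nat_lit 9489554062) (nat_lit 228) (nat_lit 3651595038) (nat_lit 39) (nat_lit 5) (nat_lit 41) (nat_lit 5) (nat_lit 42) (nat_lit 4) (nat_lit 330) (nat_lit 242) (nat_lit 208)) (XT.lf (nat_lit 0) (nat_lit 7738345303) (nat_lit 152) (nat_lit 6164600195) (nat_lit 228) (nat_lit 386157254) (nat_lit 39) (nat_lit 5) (nat_lit 41) (nat_lit 5) (nat_lit 42) (nat_lit 4) (nat_lit 331) (nat_lit 242) (nat_lit 207)))) (XT.nd (nat_lit 78) (nat_lit 0) (nat_lit 0) (XT.lf (nat_lit 0) (nat_lit 126555616)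 (nat_lit 152) (nat_lit 2742225902) (nat_lit 228) (nat_lit 11721365258) (nat_lit 36) (nat_lit 5) (nat_lit 38) (nat_lit 5) (nat_lit 39) (nat_lit 5) (nat_lit 332) (nat_lit 242) (nat_lit 206)) (XT.nd (nat_lit 78) (nat_lit 0) (nat_lit 0) (XT.lf (nat_lit 0) (nat_lit 6236735085) (nat_lit 228) (nat_lit 7856825979) (nat_lit 76) (nat_lit 805888777) (nat_lit 36) (nat_lit 5) (nat_lit 39) (nat_lit 5) (nat_lit 37) (nat_lit 4) (nat_lit 333) (nat_lit 242) (nat_lit 205)) (XT.lf (nat_lit 0) (nat_lit 9683167634) (nat_lit 228) (nat_lit 1161588501) (nat_lit 76) (nat_lit 4373987855) (nat_lit 36) (nat_lit 5) (nat_lit 39) (nat_lit 5) (nat_lit 37) (nat_lit 4) (nat_lit 334) (nat_lit 242) (nat_lit 204))))) (XT.nd (nat_lit 234) (nat_lit 228) (nat_lit 0) (XT.nd (nat_lit 78) (nat_lit 228) (nat_lit 0) (XT.lf (nat_lit 0) (nat_lit 5766863715) (nat_lit 152) (nat_lit 7473301567) (nat_lit 228) (nat_lit 2307270701) (nat_lit 34)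 (nat_lit 5) (nat_lit 36) (nat_lit 5) (nat_lit 37) (nat_lit 4) (nat_lit 335) (nat_lit 242) (nat_lit 203)) (XT.nd (nat_lit 78) (nat_lit 152) (nat_lit 0) (XT.lf (nat_lit 0) (nat_lit 961743492) (nat_lit 228) (nat_lit 3048935198) (nat_lit 76) (nat_lit 11876137068) (nat_lit 33) (nat_lit 5) (nat_lit 36) (nat_lit 5) (nat_lit 34) (nat_lit 5) (nat_lit 336) (nat_lit 242) (nat_lit 202)) (XT.lf (nat_lit 0) (nat_lit 3859073651) (nat_lit 152) (nat_lit 413754098) (nat_lit 228) (nat_lit 11963183922) (nat_lit 31) (nat_lit 5) (nat_lit 33) (nat_lit 5) (nat_lit 34) (nat_lit 5) (nat_lit 337) (nat_lit 242) (nat_lit 201)))) (XT.nd (nat_lit 156) (nat_lit 76) (nat_lit 0) (XT.nd (nat_lit 78) (nat_lit 152) (nat_lit 0) (XT.lf (nat_lit 0) (nat_lit 7699569659) (nat_lit 228) (nat_lit 5668263868) (nat_lit 76) (nat_lit 3227390552) (nat_lit 31) (nat_lit 5) (nat_lit 34) (nat_lit 5) (nat_lit 32) (nat_lit 4) (nat_lit 338) (nat_lit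 242) (nat_lit 200)) (XT.lf (nat_lit 0) (nat_lit 1184586267) (nat_lit 152) (nat_lit 10014958834) (nat_lit 228) (nat_lit 5766584302) (nat_lit 29) (nat_lit 5) (nat_lit 31) (nat_lit 5) (nat_lit 32) (nat_lit 4) (nat_lit 339) (nat_lit 242) (nat_lit 199))) (XT.nd (nat_lit 78) (nat_lit 76) (nat_lit 0) (XT.lf (nat_lit 0) (nat_lit 8283858655) (nat_lit 152) (nat_lit 6533435057) (nat_lit 228) (nat_lit 2530513583) (nat_lit 29) (nat_lit 5) (nat_lit 31) (nat_lit 5) (nat_lit 32) (nat_lit 4) (nat_lit 340) (nat_lit 242) (nat_lit 198)) (XT.lf (nat_lit 0) (nat_lit 743352843) (nat_lit 228) (nat_lit 2226599189) (nat_lit 76) (nat_lit 14772087731) (nat_lit 28) (nat_lit 5) (nat_lit 31) (nat_lit 5) (nat_lit 29) (nat_lit 5) (nat_lit 341) (nat_lit 242) (nat_lit 197)))))) (XT.nd (nat_lit 546) (nat_lit 304) (nat_lit 0) (XT.nd (nat_lit 234) (nat_lit 228) (nat_lit 0) (XT.nd (nat_lit 78) (nat_lit 76) (nat_lit 0) (XT.lf (nat_lit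 0) (nat_lit 4075640010) (nat_lit 228) (nat_lit 13341580143) (nat_lit 76) (nat_lit 729821643) (nat_lit 26) (nat_lit 5) (nat_lit 29) (nat_lit 5) (nat_lit 27) (nat_lit 4) (nat_lit 342) (nat_lit 242) (nat_lit 196)) (XT.nd (nat_lit 78) (nat_lit 76) (nat_lit 0) (XT.lf (nat_lit 0) (nat_lit 7517921425) (nat_lit 228) (nat_lit 6571212556) (nat_lit 76) (nat_lit 4474784574) (nat_lit 26) (nat_lit 5) (nat_lit 29) (nat_lit 5) (nat_lit 27) (nat_lit 4) (nat_lit 343) (nat_lit 242) (nat_lit 195)) (XT.lf (nat_lit 0) (nat_lit 338787175) (nat_lit 76) (nat_lit 10687079827) (nat_lit 152) (nat_lit 7968587434) (nat_lit 25) (nat_lit 5) (nat_lit 26) (nat_lit 5) (nat_lit 27) (nat_lit 4) (nat_lit 344) (nat_lit 242) (nat_lit 194)))) (XT.nd (nat_lit 156) (nat_lit 228) (nat_lit 0) (XT.nd (nat_lit 78) (nat_lit 0) (nat_lit 0) (XT.lf (nat_lit 0) (nat_lit 7521387630) (nat_lit 76) (nat_lit 7143681754) (nat_lit 152) (nat_lit 4772080430)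 (nat_lit 25) (nat_lit 5) (nat_lit 26) (nat_lit 5) (nat_lit 27) (nat_lit 4) (nat_lit 345) (nat_lit 242) (nat_lit 193)) (XT.lf (nat_lit 0) (nat_lit 14852084852) (nat_lit 76) (nat_lit 3522199951) (nat_lit 152) (nat_lit 1520039417) (nat_lit 25) (nat_lit 5) (nat_lit 26) (nat_lit 5) (nat_lit 27) (nat_lit 4) (nat_lit 346) (nat_lit 242) (nat_lit 192))) (XT.nd (nat_lit 78) (nat_lit 0) (nat_lit 0) (XT.lf (nat_lit 0) (nat_lit 1776689783) (nat_lit 228) (nat_lit 18374802231) (nat_lit 76) (nat_lit 213731326) (nat_lit 22) (nat_lit 5) (nat_lit 25) (nat_lit 5) (nat_lit 23) (nat_lit 4) (nat_lit 347) (nat_lit 242) (nat_lit 191)) (XT.lf (nat_lit 0) (nat_lit 5189866068) (nat_lit 228) (nat_lit 11628176784) (nat_lit 76) (nat_lit 4030333490) (nat_lit 22) (nat_lit 5) (nat_lit 25) (nat_lit 5) (nat_lit 23) (nat_lit 4) (nat_lit 348) (nat_lit 242) (nat_lit 190))))) (XT.nd (nat_lit 234) (nat_lit 228) (nat_lit 0) (XT.nd (nat_lit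 78) (nat_lit 76) (nat_lit 0) (XT.lf (nat_lit 0) (nat_lit 8668352567) (nat_lit 228) (nat_lit 4743667068) (nat_lit 76) (nat_lit 7935137531) (nat_lit 22) (nat_lit 5) (nat_lit 25) (nat_lit 5) (nat_lit 23) (nat_lit 4) (nat_lit 349) (nat_lit 242) (nat_lit 189)) (XT.nd (nat_lit 78) (nat_lit 0) (nat_lit 0) (XT.lf (nat_lit 0) (nat_lit 2330213364) (nat_lit 76) (nat_lit 9907374805) (nat_lit 152) (nat_lit 9623741487) (nat_lit 21) (nat_lit 5) (nat_lit 22) (nat_lit 5) (nat_lit 23) (nat_lit 4) (nat_lit 350) (nat_lit 242) (nat_lit 188)) (XT.lf (nat_lit 0) (nat_lit 9651529375) (nat_lit 76) (nat_lit 6274720774) (nat_lit 152) (nat_lit 6464326186) (nat_lit 21) (nat_lit 5) (nat_lit 22) (nat_lit 5) (nat_lit 23) (nat_lit 4) (nat_lit 351) (nat_lit 242) (nat_lit 187)))) (XT.nd (nat_lit 156) (nat_lit 0) (nat_lit 0) (XT.nd (nat_lit 78) (nat_lit 228) (nat_lit 0) (XT.lf (nat_lit 0) (nat_lit 17132269955) (nat_lit 76) (nat_lit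 2558785112) (nat_lit 152) (nat_lit 3245699778) (nat_lit 21) (nat_lit 5) (nat_lit 22) (nat_lit 5) (nat_lit 23) (nat_lit 4) (nat_lit 352) (nat_lit 242) (nat_lit 186)) (XT.lf (nat_lit 0) (nat_lit 58882825) (nat_lit 228) (nat_lit 22208304975) (nat_lit 76) (nat_lit 1232406110) (nat_lit 18) (nat_lit 5) (nat_lit 21) (nat_lit 5) (nat_lit 19) (nat_lit 4) (nat_lit 353) (nat_lit 242) (nat_lit 185))) (XT.nd (nat_lit 78) (nat_lit 0) (nat_lit 0) (XT.lf (nat_lit 0) (nat_lit 3448216533) (nat_lit 228) (nat_lit 15476039736) (nat_lit 76) (nat_lit 5152589660) (nat_lit 18) (nat_lit 5) (nat_lit 21) (nat_lit 5) (nat_lit 19) (nat_lit 4) (nat_lit 354) (nat_lit 242) (nat_lit 184)) (XT.lf (nat_lit 0) (nat_lit 6906531436) (nat_lit 228) (nat_lit 8599429597) (nat_lit 76) (nat_lit 9166452254) (nat_lit 18) (nat_lit 5) (nat_lit 21) (nat_lit 5) (nat_lit 19) (nat_lit 4) (nat_lit 355) (nat_lit 242) (nat_lit 183))))))))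
noncomputable def xc62 : XT := (XT.nd (nat_lit 2028) (nat_lit 380) (nat_lit 0) (XT.nd (nat_lit 1014) (nat_lit 304) (nat_lit 0) (XT.nd (nat_lit 468) (nat_lit 76) (nat_lit 0) (XT.nd (nat_lit 234) (nat_lit 228) (nat_lit 0) (XT.nd (nat_lit 78) (nat_lit 76) (nat_lit 0) (XT.lf (nat_lit 0) (nat_lit 10436849363) (nat_lit 228) (nat_lit 1572465870) (nat_lit 76) (nat_lit 13277501150) (nat_lit 18) (nat_lit 5) (nat_lit 21) (nat_lit 5) (nat_lit 19) (nat_lit 4) (nat_lit 356) (nat_lit 242) (nat_lit 182)) (XT.nd (nat_lit 78) (nat_lit 0) (nat_lit 0) (XT.lf (nat_lit 0) (nat_lit 5722661244) (nat_lit 76) (nat_lit 8374603534) (nat_lit 152) (nat_lit 11821677004) (nat_lit 17) (nat_lit 5) (nat_lit 18) (nat_lit 5) (nat_lit 19) (nat_lit 4) (nat_lit 357) (nat_lit 242) (nat_lit 181)) (XT.lf (nat_lit 0) (nat_lit 13215093426) (nat_lit 76) (nat_lit 4637837011) (nat_lit 152) (nat_lit 8717552760) (nat_lit 17) (nat_lit 5) (nat_lit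 18) (nat_lit 5) (nat_lit 19) (nat_lit 4) (nat_lit 358) (nat_lit 242) (nat_lit 180)))) (XT.nd (nat_lit 78) (nat_lit 228) (nat_lit 0) (XT.lf (nat_lit 0) (nat_lit 20880082305) (nat_lit 76) (nat_lit 811629351) (nat_lit 152) (nat_lit 5550760770) (nat_lit 17) (nat_lit 5) (nat_lit 18) (nat_lit 5) (nat_lit 19) (nat_lit 4) (nat_lit 359) (nat_lit 242) (nat_lit 179)) (XT.nd (nat_lit 78) (nat_lit 76) (nat_lit 0) (XT.lf (nat_lit 0) (nat_lit 774063700) (nat_lit 152) (nat_lit 24880209657) (nat_lit 152) (nat_lit 2280103968) (nat_lit 15) (nat_lit 4) (nat_lit 17) (nat_lit 5) (nat_lit 17) (nat_lit 4) (nat_lit 360) (nat_lit 242) (nat_lit 178)) (XT.lf (nat_lit 0) (nat_lit 1111499773) (nat_lit 228) (nat_lit 20460658595) (nat_lit 76) (nat_lit 7073258589) (nat_lit 14) (nat_lit 5) (nat_lit 17) (nat_lit 5) (nat_lit 15) (nat_lit 4) (nat_lit 361) (nat_lit 242) (nat_lit 177))))) (XT.nd (nat_lit 234) (nat_lit 0) (nat_lit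 0) (XT.nd (nat_lit 78) (nat_lit 76) (nat_lit 0) (XT.lf (nat_lit 0) (nat_lit 4531015487) (nat_lit 228) (nat_lit 13632534361) (nat_lit 76) (nat_lit 11214414194) (nat_lit 14) (nat_lit 5) (nat_lit 17) (nat_lit 5) (nat_lit 15) (nat_lit 4) (nat_lit 362) (nat_lit 242) (nat_lit 176)) (XT.nd (nat_lit 78) (nat_lit 76) (nat_lit 0) (XT.lf (nat_lit 0) (nat_lit 8025924142) (nat_lit 228) (nat_lit 6648056847) (nat_lit 76) (nat_lit 15459335215) (nat_lit 14) (nat_lit 5) (nat_lit 17) (nat_lit 5) (nat_lit 15) (nat_lit 4) (nat_lit 363) (nat_lit 242) (nat_lit 175)) (XT.lf (nat_lit 0) (nat_lit 508805516) (nat_lit 76) (nat_lit 11095364974) (nat_lit 152) (nat_lit 19307816238) (nat_lit 13) (nat_lit 5) (nat_lit 14) (nat_lit 5) (nat_lit 15) (nat_lit 4) (nat_lit 364) (nat_lit 242) (nat_lit 174)))) (XT.nd (nat_lit 156) (nat_lit 0) (nat_lit 0) (XT.nd (nat_lit 78) (nat_lit 0) (nat_lit 0) (XT.lf (nat_lit 0) (nat_lit 7970035844)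 (nat_lit 76) (nat_lit 7360781047) (nat_lit 152) (nat_lit 16381981043) (nat_lit 13) (nat_lit 5) (nat_lit 14) (nat_lit 5) (nat_lit 15) (nat_lit 4) (nat_lit 365) (nat_lit 242) (nat_lit 173)) (XT.lf (nat_lit 0) (nat_lit 15609844293) (nat_lit 76) (nat_lit 3534098319) (nat_lit 152) (nat_lit 13394462261) (nat_lit 13) (nat_lit 5) (nat_lit 14) (nat_lit 5) (nat_lit 15) (nat_lit 4) (nat_lit 366) (nat_lit 242) (nat_lit 172))) (XT.nd (nat_lit 78) (nat_lit 0) (nat_lit 0) (XT.lf (nat_lit 0) (nat_lit 23050609461) (nat_lit 152) (nat_lit 9958352477) (nat_lit 0) (nat_lit 380455110) (nat_lit 13) (nat_lit 5) (nat_lit 15) (nat_lit 4) (nat_lit 13) (nat_lit 4) (nat_lit 367) (nat_lit 242) (nat_lit 171)) (XT.lf (nat_lit 0) (nat_lit 27085420130) (nat_lit 152) (nat_lit 2857236406) (nat_lit 0) (nat_lit 4322985855) (nat_lit 13) (nat_lit 5) (nat_lit 15) (nat_lit 4) (nat_lit 13) (nat_lit 4) (nat_lit 368) (nat_lit 242) (nat_lit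 170)))))) (XT.nd (nat_lit 468) (nat_lit 76) (nat_lit 0) (XT.nd (nat_lit 234) (nat_lit 76) (nat_lit 0) (XT.nd (nat_lit 78) (nat_lit 76) (nat_lit 0) (XT.lf (nat_lit 0) (nat_lit 4502830853) (nat_lit 76) (nat_lit 26758381377) (nat_lit 76) (nat_lit 3906354943) (nat_lit 12) (nat_lit 4) (nat_lit 13) (nat_lit 5) (nat_lit 13) (nat_lit 4) (nat_lit 369) (nat_lit 242) (nat_lit 169)) (XT.nd (nat_lit 78) (nat_lit 76) (nat_lit 0) (XT.lf (nat_lit 0) (nat_lit 12100733196) (nat_lit 76) (nat_lit 23467331251) (nat_lit 76) (nat_lit 528322138) (nat_lit 12) (nat_lit 4) (nat_lit 13) (nat_lit 5) (nat_lit 13) (nat_lit 4) (nat_lit 370) (nat_lit 242) (nat_lit 168)) (XT.lf (nat_lit 0) (nat_lit 2870840001) (nat_lit 152) (nat_lit 17195653112) (nat_lit 76) (nat_lit 16986415105) (nat_lit 11) (nat_lit 5) (nat_lit 13) (nat_lit 5) (nat_lit 12) (nat_lit 4) (nat_lit 371) (nat_lit 242) (nat_lit 167)))) (XT.nd (nat_lit 78) (nat_lit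 76) (nat_lit 0) (XT.lf (nat_lit 0) (nat_lit 6339391260) (nat_lit 152) (nat_lit 10236483572) (nat_lit 76) (nat_lit 21462762338) (nat_lit 11) (nat_lit 5) (nat_lit 13) (nat_lit 5) (nat_lit 12) (nat_lit 4) (nat_lit 372) (nat_lit 242) (nat_lit 166)) (XT.nd (nat_lit 78) (nat_lit 76) (nat_lit 0) (XT.lf (nat_lit 0) (nat_lit 9890671880) (nat_lit 152) (nat_lit 3106985386) (nat_lit 76) (nat_lit 26056929850) (nat_lit 11) (nat_lit 5) (nat_lit 13) (nat_lit 5) (nat_lit 12) (nat_lit 4) (nat_lit 373) (nat_lit 242) (nat_lit 165)) (XT.lf (nat_lit 0) (nat_lit 4282640853) (nat_lit 76) (nat_lit 9286311432) (nat_lit 152) (nat_lit 26531458473) (nat_lit 10) (nat_lit 5) (nat_lit 11) (nat_lit 5) (nat_lit 12) (nat_lit 4) (nat_lit 374) (nat_lit 242) (nat_lit 164))))) (XT.nd (nat_lit 234) (nat_lit 76) (nat_lit 0) (XT.nd (nat_lit 78) (nat_lit 0) (nat_lit 0) (XT.lf (nat_lit 0) (nat_lit 11920685342) (nat_lit 76) (nat_lit 5447812023)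 (nat_lit 152) (nat_lit 23808793032) (nat_lit 10) (nat_lit 5) (nat_lit 11) (nat_lit 5) (nat_lit 12) (nat_lit 4) (nat_lit 375) (nat_lit 242) (nat_lit 163)) (XT.nd (nat_lit 78) (nat_lit 0) (nat_lit 0) (XT.lf (nat_lit 0) (nat_lit 19751986997) (nat_lit 76) (nat_lit 1510179471) (nat_lit 152) (nat_lit 21024914346) (nat_lit 10) (nat_lit 5) (nat_lit 11) (nat_lit 5) (nat_lit 12) (nat_lit 4) (nat_lit 376) (nat_lit 242) (nat_lit 162)) (XT.lf (nat_lit 0) (nat_lit 25277681996) (nat_lit 152) (nat_lit 15671683193) (nat_lit 0) (nat_lit 2480656936) (nat_lit 10) (nat_lit 5) (nat_lit 12) (nat_lit 4) (nat_lit 10) (nat_lit 4) (nat_lit 377) (nat_lit 242) (nat_lit 161)))) (XT.nd (nat_lit 156) (nat_lit 76) (nat_lit 0) (XT.nd (nat_lit 78) (nat_lit 0) (nat_lit 0) (XT.lf (nat_lit 0) (nat_lit 29409747941) (nat_lit 152) (nat_lit 8651571316) (nat_lit 0) (nat_lit 6546057900) (nat_lit 10) (nat_lit 5) (nat_lit 12) (nat_lit 4)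 (nat_lit 10) (nat_lit 4) (nat_lit 378) (nat_lit 242) (nat_lit 160)) (XT.lf (nat_lit 0) (nat_lit 33647458077) (nat_lit 152) (nat_lit 1454107339) (nat_lit 0) (nat_lit 10719044755) (nat_lit 10) (nat_lit 5) (nat_lit 12) (nat_lit 4) (nat_lit 10) (nat_lit 4) (nat_lit 379) (nat_lit 242) (nat_lit 159))) (XT.nd (nat_lit 78) (nat_lit 0) (nat_lit 0) (XT.lf (nat_lit 0) (nat_lit 6044956661) (nat_lit 76) (nat_lit 32007666418) (nat_lit 76) (nat_lit 9016414958) (nat_lit 9) (nat_lit 4) (nat_lit 10) (nat_lit 5) (nat_lit 10) (nat_lit 4) (nat_lit 380) (nat_lit 242) (nat_lit 158)) (XT.lf (nat_lit 0) (nat_lit 13766834080) (nat_lit 76) (nat_lit 28820219033) (nat_lit 76) (nat_lit 5767959672) (nat_lit 9) (nat_lit 4) (nat_lit 10) (nat_lit 5) (nat_lit 10) (nat_lit 4) (nat_lit 381) (nat_lit 242) (nat_lit 157))))))) (XT.nd (nat_lit 1014) (nat_lit 228) (nat_lit 0) (XT.nd (nat_lit 468) (nat_lit 0) (nat_lit 0) (XT.nd (nat_lit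 234) (nat_lit 76) (nat_lit 0) (XT.nd (nat_lit 78) (nat_lit 76) (nat_lit 0) (XT.lf (nat_lit 0) (nat_lit 21689332603) (nat_lit 76) (nat_lit 25551121746) (nat_lit 76) (nat_lit 2439631414) (nat_lit 9) (nat_lit 4) (nat_lit 10) (nat_lit 5) (nat_lit 10) (nat_lit 4) (nat_lit 382) (nat_lit 242) (nat_lit 156)) (XT.nd (nat_lit 78) (nat_lit 0) (nat_lit 0) (XT.lf (nat_lit 0) (nat_lit 952521028) (nat_lit 152) (nat_lit 21235378440) (nat_lit 76) (nat_lit 28857235178) (nat_lit 8) (nat_lit 5) (nat_lit 10) (nat_lit 5) (nat_lit 9) (nat_lit 4) (nat_lit 383) (nat_lit 242) (nat_lit 155)) (XT.lf (nat_lit 0) (nat_lit 4381155756) (nat_lit 152) (nat_lit 14331080815) (nat_lit 76) (nat_lit 33738667756) (nat_lit 8) (nat_lit 5) (nat_lit 10) (nat_lit 5) (nat_lit 9) (nat_lit 4) (nat_lit 384) (nat_lit 242) (nat_lit 154)))) (XT.nd (nat_lit 78) (nat_lit 76) (nat_lit 0) (XT.lf (nat_lit 0) (nat_lit 7896874658) (nat_lit 152) (nat_lit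 7248376172) (nat_lit 76) (nat_lit 38754075851) (nat_lit 8) (nat_lit 5) (nat_lit 10) (nat_lit 5) (nat_lit 9) (nat_lit 4) (nat_lit 385) (nat_lit 242) (nat_lit 153)) (XT.nd (nat_lit 78) (nat_lit 0) (nat_lit 0) (XT.lf (nat_lit 0) (nat_lit 19300886) (nat_lit 76) (nat_lit 11483634368) (nat_lit 152) (nat_lit 43888726505) (nat_lit 7) (nat_lit 5) (nat_lit 8) (nat_lit 5) (nat_lit 9) (nat_lit 4) (nat_lit 386) (nat_lit 242) (nat_lit 152)) (XT.lf (nat_lit 0) (nat_lit 7625980898) (nat_lit 76) (nat_lit 7649256410) (nat_lit 152) (nat_lit 41651793768) (nat_lit 7) (nat_lit 5) (nat_lit 8) (nat_lit 5) (nat_lit 9) (nat_lit 4) (nat_lit 387) (nat_lit 242) (nat_lit 151))))) (XT.nd (nat_lit 234) (nat_lit 0) (nat_lit 0) (XT.nd (nat_lit 78) (nat_lit 0) (nat_lit 0) (XT.lf (nat_lit 0) (nat_lit 15434053576) (nat_lit 76) (nat_lit 3711960916) (nat_lit 152) (nat_lit 39362893599) (nat_lit 7) (nat_lit 5) (nat_lit 8) (nat_lit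 5) (nat_lit 9) (nat_lit 4) (nat_lit 388) (nat_lit 242) (nat_lit 150)) (XT.nd (nat_lit 78) (nat_lit 0) (nat_lit 0) (XT.lf (nat_lit 0) (nat_lit 23121837471) (nat_lit 152) (nat_lit 36691521951) (nat_lit 0) (nat_lit 325219953) (nat_lit 7) (nat_lit 5) (nat_lit 9) (nat_lit 4) (nat_lit 7) (nat_lit 4) (nat_lit 389) (nat_lit 242) (nat_lit 149)) (XT.lf (nat_lit 0) (nat_lit 27239727028) (nat_lit 152) (nat_lit 30179021578) (nat_lit 0) (nat_lit 4397713902) (nat_lit 7) (nat_lit 5) (nat_lit 9) (nat_lit 4) (nat_lit 7) (nat_lit 4) (nat_lit 390) (nat_lit 242) (nat_lit 148)))) (XT.nd (nat_lit 156) (nat_lit 0) (nat_lit 0) (XT.nd (nat_lit 78) (nat_lit 0) (nat_lit 0) (XT.lf (nat_lit 0) (nat_lit 31467599680) (nat_lit 152) (nat_lit 23495981224) (nat_lit 0) (nat_lit 8581513149) (nat_lit 7) (nat_lit 5) (nat_lit 9) (nat_lit 4) (nat_lit 7) (nat_lit 4) (nat_lit 391) (nat_lit 242) (nat_lit 147)) (XT.lf (nat_lit 0) (nat_lit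 35809149685) (nat_lit 152) (nat_lit 16636561339) (nat_lit 0) (nat_lit 12880273439) (nat_lit 7) (nat_lit 5) (nat_lit 9) (nat_lit 4) (nat_lit 7) (nat_lit 4) (nat_lit 392) (nat_lit 242) (nat_lit 146))) (XT.nd (nat_lit 78) (nat_lit 0) (nat_lit 0) (XT.lf (nat_lit 0) (nat_lit 40268170630) (nat_lit 152) (nat_lit 9594768255) (nat_lit 0) (nat_lit 17297750973) (nat_lit 7) (nat_lit 5) (nat_lit 9) (nat_lit 4) (nat_lit 7) (nat_lit 4) (nat_lit 393) (nat_lit 242) (nat_lit 145)) (XT.lf (nat_lit 0) (nat_lit 44848558746) (nat_lit 152) (nat_lit 2364448949) (nat_lit 0) (nat_lit 21837805680) (nat_lit 7) (nat_lit 5) (nat_lit 9) (nat_lit 4) (nat_lit 7) (nat_lit 4) (nat_lit 394) (nat_lit 242) (nat_lit 144)))))) (XT.nd (nat_lit 546) (nat_lit 152) (nat_lit 0) (XT.nd (nat_lit 234) (nat_lit 0) (nat_lit 0) (XT.nd (nat_lit 78) (nat_lit 0) (nat_lit 0) (XT.lf (nat_lit 0) (nat_lit 5161432471) (nat_lit 76) (nat_lit 44442498690)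 (nat_lit 76) (nat_lit 21392586974) (nat_lit 6) (nat_lit 4) (nat_lit 7) (nat_lit 5) (nat_lit 7) (nat_lit 4) (nat_lit 395) (nat_lit 242) (nat_lit 143)) (XT.nd (nat_lit 78) (nat_lit 0) (nat_lit 0) (XT.lf (nat_lit 0) (nat_lit 12939709947) (nat_lit 76) (nat_lit 41574229625) (nat_lit 76) (nat_lit 18486299802) (nat_lit 6) (nat_lit 4) (nat_lit 7) (nat_lit 5) (nat_lit 7) (nat_lit 4) (nat_lit 396) (nat_lit 242) (nat_lit 142)) (XT.lf (nat_lit 0) (nat_lit 20930122861) (nat_lit 76) (nat_lit 38629570544) (nat_lit 76) (nat_lit 15504729937) (nat_lit 6) (nat_lit 4) (nat_lit 7) (nat_lit 5) (nat_lit 7) (nat_lit 4) (nat_lit 397) (nat_lit 242) (nat_lit 141)))) (XT.nd (nat_lit 156) (nat_lit 0) (nat_lit 0) (XT.nd (nat_lit 78) (nat_lit 0) (nat_lit 0) (XT.lf (nat_lit 0) (nat_lit 29139653127) (nat_lit 76) (nat_lit 35605948442) (nat_lit 76) (nat_lit 12445272124) (nat_lit 6) (nat_lit 4) (nat_lit 7) (nat_lit 5) (nat_lit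 7) (nat_lit 4) (nat_lit 398) (nat_lit 242) (nat_lit 140)) (XT.lf (nat_lit 0) (nat_lit 37575474121) (nat_lit 76) (nat_lit 32500721322) (nat_lit 76) (nat_lit 9305253050) (nat_lit 6) (nat_lit 4) (nat_lit 7) (nat_lit 5) (nat_lit 7) (nat_lit 4) (nat_lit 399) (nat_lit 242) (nat_lit 139))) (XT.nd (nat_lit 78) (nat_lit 0) (nat_lit 0) (XT.lf (nat_lit 0) (nat_lit 46244956948) (nat_lit 76) (nat_lit 29311175876) (nat_lit 76) (nat_lit 6081929010) (nat_lit 6) (nat_lit 4) (nat_lit 7) (nat_lit 5) (nat_lit 7) (nat_lit 4) (nat_lit 400) (nat_lit 242) (nat_lit 138)) (XT.lf (nat_lit 0) (nat_lit 55155676886) (nat_lit 76) (nat_lit 26034525125) (nat_lit 76) (nat_lit 2772483505) (nat_lit 6) (nat_lit 4) (nat_lit 7) (nat_lit 5) (nat_lit 7) (nat_lit 4) (nat_lit 401) (nat_lit 242) (nat_lit 137))))) (XT.nd (nat_lit 234) (nat_lit 76) (nat_lit 0) (XT.nd (nat_lit 78) (nat_lit 0) (nat_lit 0) (XT.lf (nat_lit 0) (nat_lit 613760179)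 (nat_lit 152) (nat_lit 22047948020) (nat_lit 76) (nat_lit 63695462046) (nat_lit 5) (nat_lit 5) (nat_lit 7) (nat_lit 5) (nat_lit 6) (nat_lit 4) (nat_lit 402) (nat_lit 242) (nat_lit 136)) (XT.nd (nat_lit 78) (nat_lit 0) (nat_lit 0) (XT.lf (nat_lit 0) (nat_lit 4036090550) (nat_lit 152) (nat_lit 15131529568) (nat_lit 76) (nat_lit 69655342797) (nat_lit 5) (nat_lit 5) (nat_lit 7) (nat_lit 5) (nat_lit 6) (nat_lit 4) (nat_lit 403) (nat_lit 242) (nat_lit 135)) (XT.lf (nat_lit 0) (nat_lit 7551599131) (nat_lit 152) (nat_lit 8025058993) (nat_lit 76) (nat_lit 75786359502) (nat_lit 5) (nat_lit 5) (nat_lit 7) (nat_lit 5) (nat_lit 6) (nat_lit 4) (nat_lit 404) (nat_lit 242) (nat_lit 134)))) (XT.nd (nat_lit 156) (nat_lit 0) (nat_lit 0) (XT.nd (nat_lit 78) (nat_lit 76) (nat_lit 0) (XT.lf (nat_lit 0) (nat_lit 11163357726) (nat_lit 152) (nat_lit 722326758) (nat_lit 76) (nat_lit 82093869359) (nat_lit 5) (nat_lit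 5) (nat_lit 7) (nat_lit 5) (nat_lit 6) (nat_lit 4) (nat_lit 405) (nat_lit 242) (nat_lit 133)) (XT.lf (nat_lit 0) (nat_lit 6918044122) (nat_lit 76) (nat_lit 8022978590) (nat_lit 152) (nat_lit 81731840134) (nat_lit 4) (nat_lit 5) (nat_lit 5) (nat_lit 5) (nat_lit 6) (nat_lit 4) (nat_lit 406) (nat_lit 242) (nat_lit 132))) (XT.nd (nat_lit 78) (nat_lit 0) (nat_lit 0) (XT.lf (nat_lit 0) (nat_lit 14786155009) (nat_lit 76) (nat_lit 4044313996) (nat_lit 152) (nat_lit 80616551785) (nat_lit 4) (nat_lit 5) (nat_lit 5) (nat_lit 5) (nat_lit 6) (nat_lit 4) (nat_lit 407) (nat_lit 242) (nat_lit 131)) (XT.lf (nat_lit 0) (nat_lit 22828460425) (nat_lit 152) (nat_lit 79430605821) (nat_lit 0) (nat_lit 45584494) (nat_lit 4) (nat_lit 5) (nat_lit 6) (nat_lit 4) (nat_lit 4) (nat_lit 4) (nat_lit 408) (nat_lit 242) (nat_lit 130))))))))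
noncomputable def xc63 : XT := (XT.nd (nat_lit 2028) (nat_lit 2432) (nat_lit 0) (XT.nd (nat_lit 1014) (nat_lit 2508) (nat_lit 0) (XT.nd (nat_lit 468) (nat_lit 1976) (nat_lit 0) (XT.nd (nat_lit 234) (nat_lit 1064) (nat_lit 0) (XT.nd (nat_lit 78) (nat_lit 456) (nat_lit 0) (XT.lf (nat_lit 0) (nat_lit 357101620) (nat_lit 532) (nat_lit 3197739098) (nat_lit 0) (nat_lit 357101620) (nat_lit 136) (nat_lit 5) (nat_lit 143) (nat_lit 4) (nat_lit 136) (nat_lit 4) (nat_lit 294) (nat_lit 243) (nat_lit 243)) (XT.nd (nat_lit 78) (nat_lit 456) (nat_lit 0) (XT.lf (nat_lit 0) (nat_lit 4070134800) (nat_lit 532) (nat_lit 1052161957) (nat_lit 0) (nat_lit 2788925079) (nat_lit 136) (nat_lit 5) (nat_lit 143) (nat_lit 4) (nat_lit 136) (nat_lit 4) (nat_lit 295) (nat_lit 243) (nat_lit 242)) (XT.lf (nat_lit 0) (nat_lit 4430965490) (nat_lit 456) (nat_lit 3048443093) (nat_lit 456) (nat_lit 523340439) (nat_lit 130) (nat_lit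 4) (nat_lit 136) (nat_lit 5) (nat_lit 136) (nat_lit 4) (nat_lit 296) (nat_lit 243) (nat_lit 241)))) (XT.nd (nat_lit 78) (nat_lit 532) (nat_lit 0) (XT.lf (nat_lit 0) (nat_lit 1904876060) (nat_lit 456) (nat_lit 872287366) (nat_lit 532) (nat_lit 5320974406) (nat_lit 123) (nat_lit 5) (nat_lit 129) (nat_lit 5) (nat_lit 130) (nat_lit 4) (nat_lit 297) (nat_lit 243) (nat_lit 240)) (XT.nd (nat_lit 78) (nat_lit 532) (nat_lit 0) (XT.lf (nat_lit 0) (nat_lit 6127798632) (nat_lit 532) (nat_lit 704306284) (nat_lit 0) (nat_lit 1365416023) (nat_lit 123) (nat_lit 5) (nat_lit 130) (nat_lit 4) (nat_lit 123) (nat_lit 4) (nat_lit 298) (nat_lit 243) (nat_lit 239)) (XT.lf (nat_lit 0) (nat_lit 1224330929) (nat_lit 532) (nat_lit 3382173581) (nat_lit 76) (nat_lit 3694034745) (nat_lit 116) (nat_lit 5) (nat_lit 123) (nat_lit 5) (nat_lit 117) (nat_lit 4) (nat_lit 299) (nat_lit 243) (nat_lit 238))))) (XT.nd (nat_lit 234)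 (nat_lit 1140) (nat_lit 0) (XT.nd (nat_lit 78) (nat_lit 456) (nat_lit 0) (XT.lf (nat_lit 0) (nat_lit 2233805149) (nat_lit 380) (nat_lit 2285585731) (nat_lit 456) (nat_lit 3888454427) (nat_lit 111) (nat_lit 5) (nat_lit 116) (nat_lit 5) (nat_lit 117) (nat_lit 4) (nat_lit 300) (nat_lit 243) (nat_lit 237)) (XT.nd (nat_lit 78) (nat_lit 456) (nat_lit 0) (XT.lf (nat_lit 0) (nat_lit 7865170287) (nat_lit 456) (nat_lit 539400711) (nat_lit 0) (nat_lit 115365347) (nat_lit 111) (nat_lit 5) (nat_lit 117) (nat_lit 4) (nat_lit 111) (nat_lit 4) (nat_lit 301) (nat_lit 243) (nat_lit 236)) (XT.lf (nat_lit 0) (nat_lit 2615309163) (nat_lit 456) (nat_lit 3422667906) (nat_lit 76) (nat_lit 2597008407) (nat_lit 105) (nat_lit 5) (nat_lit 111) (nat_lit 5) (nat_lit 106) (nat_lit 4) (nat_lit 302) (nat_lit 243) (nat_lit 235)))) (XT.nd (nat_lit 156) (nat_lit 684) (nat_lit 0) (XT.nd (nat_lit 78) (nat_lit 76) (nat_lit 0) (XT.lf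 (nat_lit 0) (nat_lit 2327365269) (nat_lit 380) (nat_lit 3590098343) (nat_lit 456) (nat_lit 2837525365) (nat_lit 100) (nat_lit 5) (nat_lit 105) (nat_lit 5) (nat_lit 106) (nat_lit 4) (nat_lit 303) (nat_lit 243) (nat_lit 234)) (XT.lf (nat_lit 0) (nat_lit 386123001) (nat_lit 456) (nat_lit 668568020) (nat_lit 76) (nat_lit 7825241127) (nat_lit 99) (nat_lit 5) (nat_lit 105) (nat_lit 5) (nat_lit 100) (nat_lit 5) (nat_lit 304) (nat_lit 243) (nat_lit 233))) (XT.nd (nat_lit 78) (nat_lit 304) (nat_lit 0) (XT.lf (nat_lit 0) (nat_lit 3637311698) (nat_lit 456) (nat_lit 3790309435) (nat_lit 76) (nat_lit 1580625817) (nat_lit 94) (nat_lit 5) (nat_lit 100) (nat_lit 5) (nat_lit 95) (nat_lit 4) (nat_lit 305) (nat_lit 243) (nat_lit 232)) (XT.lf (nat_lit 0) (nat_lit 2080078693) (nat_lit 304) (nat_lit 4866306250) (nat_lit 380) (nat_lit 2195314848) (nat_lit 90) (nat_lit 5) (nat_lit 94) (nat_lit 5) (nat_lit 95) (nat_lit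 4) (nat_lit 306) (nat_lit 243) (nat_lit 231)))))) (XT.nd (nat_lit 468) (nat_lit 1140) (nat_lit 0) (XT.nd (nat_lit 234) (nat_lit 608) (nat_lit 0) (XT.nd (nat_lit 78) (nat_lit 684) (nat_lit 0) (XT.lf (nat_lit 0) (nat_lit 1016734393) (nat_lit 380) (nat_lit 1189577381) (nat_lit 76) (nat_lit 7073763190) (nat_lit 89) (nat_lit 5) (nat_lit 94) (nat_lit 5) (nat_lit 90) (nat_lit 5) (nat_lit 307) (nat_lit 243) (nat_lit 230)) (XT.nd (nat_lit 78) (nat_lit 304) (nat_lit 0) (XT.lf (nat_lit 0) (nat_lit 4258700376) (nat_lit 456) (nat_lit 4599352846) (nat_lit 76) (nat_lit 564656387) (nat_lit 84) (nat_lit 5) (nat_lit 90) (nat_lit 5) (nat_lit 85) (nat_lit 4) (nat_lit 308) (nat_lit 243) (nat_lit 229)) (XT.lf (nat_lit 0) (nat_lit 1373564304) (nat_lit 304) (nat_lit 6198186728) (nat_lit 380) (nat_lit 1998745505) (nat_lit 80) (nat_lit 5) (nat_lit 84) (nat_lit 5) (nat_lit 85) (nat_lit 4) (nat_lit 309) (nat_lit 243) (nat_lit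 228)))) (XT.nd (nat_lit 78) (nat_lit 532) (nat_lit 0) (XT.lf (nat_lit 0) (nat_lit 1210767410) (nat_lit 380) (nat_lit 2217560127) (nat_lit 76) (nat_lit 6294891502) (nat_lit 79) (nat_lit 5) (nat_lit 84) (nat_lit 5) (nat_lit 80) (nat_lit 5) (nat_lit 310) (nat_lit 243) (nat_lit 227)) (XT.nd (nat_lit 78) (nat_lit 228) (nat_lit 0) (XT.lf (nat_lit 0) (nat_lit 3896861253) (nat_lit 304) (nat_lit 546119725) (nat_lit 380) (nat_lit 5438031455) (nat_lit 75) (nat_lit 5) (nat_lit 79) (nat_lit 5) (nat_lit 80) (nat_lit 5) (nat_lit 311) (nat_lit 243) (nat_lit 226)) (XT.lf (nat_lit 0) (nat_lit 73753295) (nat_lit 228) (nat_lit 7674967496) (nat_lit 304) (nat_lit 2295600243) (nat_lit 72) (nat_lit 5) (nat_lit 75) (nat_lit 5) (nat_lit 76) (nat_lit 4) (nat_lit 312) (nat_lit 243) (nat_lit 225))))) (XT.nd (nat_lit 234) (nat_lit 760) (nat_lit 0) (XT.nd (nat_lit 78) (nat_lit 304) (nat_lit 0) (XT.lf (nat_lit 0) (nat_lit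 919439269) (nat_lit 304) (nat_lit 3891652786) (nat_lit 76) (nat_lit 5401338167) (nat_lit 71) (nat_lit 5) (nat_lit 75) (nat_lit 5) (nat_lit 72) (nat_lit 5) (nat_lit 313) (nat_lit 243) (nat_lit 224)) (XT.nd (nat_lit 78) (nat_lit 0) (nat_lit 0) (XT.lf (nat_lit 0) (nat_lit 2292659347) (nat_lit 304) (nat_lit 1846466931) (nat_lit 380) (nat_lit 6247216043) (nat_lit 67) (nat_lit 5) (nat_lit 71) (nat_lit 5) (nat_lit 72) (nat_lit 5) (nat_lit 314) (nat_lit 243) (nat_lit 223)) (XT.lf (nat_lit 0) (nat_lit 7439720144) (nat_lit 380) (nat_lit 1933787029) (nat_lit 76) (nat_lit 1192504602) (nat_lit 67) (nat_lit 5) (nat_lit 72) (nat_lit 5) (nat_lit 68) (nat_lit 4) (nat_lit 315) (nat_lit 243) (nat_lit 222)))) (XT.nd (nat_lit 156) (nat_lit 456) (nat_lit 0) (XT.nd (nat_lit 78) (nat_lit 0) (nat_lit 0) (XT.lf (nat_lit 0) (nat_lit 81799800) (nat_lit 304) (nat_lit 6370833195) (nat_lit 76) (nat_lit 4298620510) (nat_lit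 63) (nat_lit 5) (nat_lit 67) (nat_lit 5) (nat_lit 64) (nat_lit 5) (nat_lit 316) (nat_lit 243) (nat_lit 221)) (XT.lf (nat_lit 0) (nat_lit 3278269295) (nat_lit 304) (nat_lit 146192807) (nat_lit 76) (nat_lit 7518076248) (nat_lit 63) (nat_lit 5) (nat_lit 67) (nat_lit 5) (nat_lit 64) (nat_lit 5) (nat_lit 317) (nat_lit 243) (nat_lit 220))) (XT.nd (nat_lit 78) (nat_lit 228) (nat_lit 0) (XT.lf (nat_lit 0) (nat_lit 6293555931) (nat_lit 228) (nat_lit 274710267) (nat_lit 304) (nat_lit 4571428277) (nat_lit 60) (nat_lit 5) (nat_lit 63) (nat_lit 5) (nat_lit 64) (nat_lit 5) (nat_lit 318) (nat_lit 243) (nat_lit 219)) (XT.lf (nat_lit 0) (nat_lit 1492202375) (nat_lit 228) (nat_lit 8446904743) (nat_lit 304) (nat_lit 1404253775) (nat_lit 57) (nat_lit 5) (nat_lit 60) (nat_lit 5) (nat_lit 61) (nat_lit 4) (nat_lit 319) (nat_lit 243) (nat_lit 218))))))) (XT.nd (nat_lit 1014) (nat_lit 988) (nat_lit 0) (XT.nd (nat_lit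 468) (nat_lit 684) (nat_lit 0) (XT.nd (nat_lit 234) (nat_lit 456) (nat_lit 0) (XT.nd (nat_lit 78) (nat_lit 228) (nat_lit 0) (XT.lf (nat_lit 0) (nat_lit 1811829101) (nat_lit 304) (nat_lit 3548185490) (nat_lit 76) (nat_lit 6192938973) (nat_lit 56) (nat_lit 5) (nat_lit 60) (nat_lit 5) (nat_lit 57) (nat_lit 5) (nat_lit 320) (nat_lit 243) (nat_lit 217)) (XT.nd (nat_lit 78) (nat_lit 0) (nat_lit 0) (XT.lf (nat_lit 0) (nat_lit 2893734731) (nat_lit 228) (nat_lit 2170064827) (nat_lit 304) (nat_lit 6705643326) (nat_lit 53) (nat_lit 5) (nat_lit 56) (nat_lit 5) (nat_lit 57) (nat_lit 5) (nat_lit 321) (nat_lit 243) (nat_lit 216)) (XT.lf (nat_lit 0) (nat_lit 8400608519) (nat_lit 304) (nat_lit 2494100855) (nat_lit 76) (nat_lit 1098152377) (nat_lit 53) (nat_lit 5) (nat_lit 57) (nat_lit 5) (nat_lit 54) (nat_lit 4) (nat_lit 322) (nat_lit 243) (nat_lit 215)))) (XT.nd (nat_lit 78) (nat_lit 304) (nat_lit 0) (XT.lf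 (nat_lit 0) (nat_lit 4045818003) (nat_lit 152) (nat_lit 7794188425) (nat_lit 228) (nat_lit 382953918) (nat_lit 51) (nat_lit 5) (nat_lit 53) (nat_lit 5) (nat_lit 54) (nat_lit 4) (nat_lit 323) (nat_lit 243) (nat_lit 214)) (XT.nd (nat_lit 78) (nat_lit 228) (nat_lit 0) (XT.lf (nat_lit 0) (nat_lit 2833345921) (nat_lit 228) (nat_lit 1745396541) (nat_lit 76) (nat_lit 7881392773) (nat_lit 50) (nat_lit 5) (nat_lit 53) (nat_lit 5) (nat_lit 51) (nat_lit 5) (nat_lit 324) (nat_lit 243) (nat_lit 213)) (XT.lf (nat_lit 0) (nat_lit 4882525629) (nat_lit 228) (nat_lit 1246843607) (nat_lit 304) (nat_lit 6575261753) (nat_lit 47) (nat_lit 5) (nat_lit 50) (nat_lit 5) (nat_lit 51) (nat_lit 5) (nat_lit 325) (nat_lit 243) (nat_lit 212))))) (XT.nd (nat_lit 234) (nat_lit 456) (nat_lit 0) (XT.nd (nat_lit 78) (nat_lit 228) (nat_lit 0) (XT.lf (nat_lit 0) (nat_lit 9507555845) (nat_lit 304) (nat_lit 1320834317) (nat_lit 76)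 (nat_lit 2128618912) (nat_lit 47) (nat_lit 5) (nat_lit 51) (nat_lit 5) (nat_lit 48) (nat_lit 4) (nat_lit 326) (nat_lit 243) (nat_lit 211)) (XT.nd (nat_lit 78) (nat_lit 76) (nat_lit 0) (XT.lf (nat_lit 0) (nat_lit 5381949482) (nat_lit 152) (nat_lit 7615314583) (nat_lit 228) (nat_lit 219433753) (nat_lit 45) (nat_lit 5) (nat_lit 47) (nat_lit 5) (nat_lit 48) (nat_lit 4) (nat_lit 327) (nat_lit 243) (nat_lit 210)) (XT.lf (nat_lit 0) (nat_lit 3006595166) (nat_lit 228) (nat_lit 1287355320) (nat_lit 76) (nat_lit 9190580229) (nat_lit 44) (nat_lit 5) (nat_lit 47) (nat_lit 5) (nat_lit 45) (nat_lit 5) (nat_lit 328) (nat_lit 243) (nat_lit 209)))) (XT.nd (nat_lit 156) (nat_lit 228) (nat_lit 0) (XT.nd (nat_lit 78) (nat_lit 0) (nat_lit 0) (XT.lf (nat_lit 0) (nat_lit 5477217880) (nat_lit 228) (nat_lit 848268996) (nat_lit 304) (nat_lit 7434872589) (nat_lit 41) (nat_lit 5) (nat_lit 44) (nat_lit 5) (nat_lit 45) (nat_lit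 5) (nat_lit 329) (nat_lit 243) (nat_lit 208)) (XT.lf (nat_lit 0) (nat_lit 9731292846) (nat_lit 304) (nat_lit 1683449938) (nat_lit 76) (nat_lit 2630139491) (nat_lit 41) (nat_lit 5) (nat_lit 45) (nat_lit 5) (nat_lit 42) (nat_lit 4) (nat_lit 330) (nat_lit 243) (nat_lit 207))) (XT.nd (nat_lit 78) (nat_lit 76) (nat_lit 0) (XT.lf (nat_lit 0) (nat_lit 5123872986) (nat_lit 152) (nat_lit 8122817033) (nat_lit 228) (nat_lit 1091066710) (nat_lit 39) (nat_lit 5) (nat_lit 41) (nat_lit 5) (nat_lit 42) (nat_lit 4) (nat_lit 331) (nat_lit 243) (nat_lit 206)) (XT.lf (nat_lit 0) (nat_lit 2151741129) (nat_lit 228) (nat_lit 2572744772) (nat_lit 76) (nat_lit 9915312582) (nat_lit 38) (nat_lit 5) (nat_lit 41) (nat_lit 5) (nat_lit 39) (nat_lit 5) (nat_lit 332) (nat_lit 243) (nat_lit 205)))))) (XT.nd (nat_lit 546) (nat_lit 456) (nat_lit 0) (XT.nd (nat_lit 234) (nat_lit 228) (nat_lit 0) (XT.nd (nat_lit 78) (nat_lit 152)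 (nat_lit 0) (XT.lf (nat_lit 0) (nat_lit 4260175013) (nat_lit 152) (nat_lit 1202059326) (nat_lit 228) (nat_lit 9488608362) (nat_lit 36) (nat_lit 5) (nat_lit 38) (nat_lit 5) (nat_lit 39) (nat_lit 5) (nat_lit 333) (nat_lit 243) (nat_lit 204)) (XT.nd (nat_lit 78) (nat_lit 152) (nat_lit 0) (XT.lf (nat_lit 0) (nat_lit 8873337329) (nat_lit 228) (nat_lit 4023370191) (nat_lit 76) (nat_lit 2374506056) (nat_lit 36) (nat_lit 5) (nat_lit 39) (nat_lit 5) (nat_lit 37) (nat_lit 4) (nat_lit 334) (nat_lit 243) (nat_lit 203)) (XT.lf (nat_lit 0) (nat_lit 2809019254) (nat_lit 152) (nat_lit 9569800947) (nat_lit 228) (nat_lit 3222647157) (nat_lit 34) (nat_lit 5) (nat_lit 36) (nat_lit 5) (nat_lit 37) (nat_lit 4) (nat_lit 335) (nat_lit 243) (nat_lit 202)))) (XT.nd (nat_lit 156) (nat_lit 0) (nat_lit 0) (XT.nd (nat_lit 78) (nat_lit 152) (nat_lit 0) (XT.lf (nat_lit 0) (nat_lit 41213425) (nat_lit 228) (nat_lit 6090453992)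 (nat_lit 76) (nat_lit 9810149576) (nat_lit 33) (nat_lit 5) (nat_lit 36) (nat_lit 5) (nat_lit 34) (nat_lit 5) (nat_lit 336) (nat_lit 243) (nat_lit 201)) (XT.lf (nat_lit 0) (nat_lit 718957437) (nat_lit 152) (nat_lit 2580809992) (nat_lit 228) (nat_lit 12992836346) (nat_lit 31) (nat_lit 5) (nat_lit 33) (nat_lit 5) (nat_lit 34) (nat_lit 5) (nat_lit 337) (nat_lit 243) (nat_lit 200))) (XT.nd (nat_lit 78) (nat_lit 0) (nat_lit 0) (XT.lf (nat_lit 0) (nat_lit 6683485036) (nat_lit 228) (nat_lit 8881630385) (nat_lit 76) (nat_lit 1088006013) (nat_lit 31) (nat_lit 5) (nat_lit 34) (nat_lit 5) (nat_lit 32) (nat_lit 4) (nat_lit 338) (nat_lit 243) (nat_lit 199)) (XT.lf (nat_lit 0) (nat_lit 10150526680) (nat_lit 228) (nat_lit 2088293141) (nat_lit 76) (nat_lit 4786209053) (nat_lit 31) (nat_lit 5) (nat_lit 34) (nat_lit 5) (nat_lit 32) (nat_lit 4) (nat_lit 339) (nat_lit 243) (nat_lit 198))))) (XT.nd (nat_lit 234)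 (nat_lit 76) (nat_lit 0) (XT.nd (nat_lit 78) (nat_lit 228) (nat_lit 0) (XT.lf (nat_lit 0) (nat_lit 4933377608) (nat_lit 152) (nat_lit 8793158525) (nat_lit 228) (nat_lit 3681436498) (nat_lit 29) (nat_lit 5) (nat_lit 31) (nat_lit 5) (nat_lit 32) (nat_lit 4) (nat_lit 340) (nat_lit 243) (nat_lit 197)) (XT.nd (nat_lit 78) (nat_lit 228) (nat_lit 0) (XT.lf (nat_lit 0) (nat_lit 12137475147) (nat_lit 152) (nat_lit 5251526386) (nat_lit 228) (nat_lit 414054880) (nat_lit 29) (nat_lit 5) (nat_lit 31) (nat_lit 5) (nat_lit 32) (nat_lit 4) (nat_lit 341) (nat_lit 243) (nat_lit 196)) (XT.lf (nat_lit 0) (nat_lit 1274394543) (nat_lit 152) (nat_lit 1590492635) (nat_lit 228) (nat_lit 15345145946) (nat_lit 26) (nat_lit 5) (nat_lit 28) (nat_lit 5) (nat_lit 29) (nat_lit 5) (nat_lit 342) (nat_lit 243) (nat_lit 195)))) (XT.nd (nat_lit 156) (nat_lit 76) (nat_lit 0) (XT.nd (nat_lit 78) (nat_lit 0) (nat_lit 0) (XT.lf (nat_lit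 0) (nat_lit 6271751278) (nat_lit 228) (nat_lit 10184509222) (nat_lit 76) (nat_lit 2171724066) (nat_lit 26) (nat_lit 5) (nat_lit 29) (nat_lit 5) (nat_lit 27) (nat_lit 4) (nat_lit 343) (nat_lit 243) (nat_lit 194)) (XT.lf (nat_lit 0) (nat_lit 9756897968) (nat_lit 228) (nat_lit 3314641820) (nat_lit 76) (nat_lit 5987676434) (nat_lit 26) (nat_lit 5) (nat_lit 29) (nat_lit 5) (nat_lit 27) (nat_lit 4) (nat_lit 344) (nat_lit 243) (nat_lit 193))) (XT.nd (nat_lit 78) (nat_lit 0) (nat_lit 0) (XT.lf (nat_lit 0) (nat_lit 3768798030) (nat_lit 76) (nat_lit 9575513696) (nat_lit 152) (nat_lit 6159165000) (nat_lit 25) (nat_lit 5) (nat_lit 26) (nat_lit 5) (nat_lit 27) (nat_lit 4) (nat_lit 345) (nat_lit 243) (nat_lit 192)) (XT.lf (nat_lit 0) (nat_lit 11067269297) (nat_lit 76) (nat_lit 5967527618) (nat_lit 152) (nat_lit 2926427254) (nat_lit 25) (nat_lit 5) (nat_lit 26) (nat_lit 5) (nat_lit 27) (nat_lit 4) (nat_lit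 346) (nat_lit 243) (nat_lit 191))))))))
noncomputable def xc64 : XT := (XT.nd (nat_lit 2028) (nat_lit 380) (nat_lit 0) (XT.nd (nat_lit 1014) (nat_lit 456) (nat_lit 0) (XT.nd (nat_lit 468) (nat_lit 304) (nat_lit 0) (XT.nd (nat_lit 234) (nat_lit 76) (nat_lit 0) (XT.nd (nat_lit 78) (nat_lit 152) (nat_lit 0) (XT.lf (nat_lit 0) (nat_lit 358121011) (nat_lit 152) (nat_lit 1916162998) (nat_lit 76) (nat_lit 18159444084) (nat_lit 24) (nat_lit 5) (nat_lit 26) (nat_lit 5) (nat_lit 25) (nat_lit 5) (nat_lit 347) (nat_lit 243) (nat_lit 190)) (XT.nd (nat_lit 78) (nat_lit 0) (nat_lit 0) (XT.lf (nat_lit 0) (nat_lit 3712195066) (nat_lit 228) (nat_lit 15651697354) (nat_lit 76) (nat_lit 1554771928) (nat_lit 22) (nat_lit 5) (nat_lit 25) (nat_lit 5) (nat_lit 23) (nat_lit 4) (nat_lit 348) (nat_lit 243) (nat_lit 189)) (XT.lf (nat_lit 0) (nat_lit 7172945148) (nat_lit 228) (nat_lit 8798042530) (nat_lit 76) (nat_lit 5446999477)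 (nat_lit 22) (nat_lit 5) (nat_lit 25) (nat_lit 5) (nat_lit 23) (nat_lit 4) (nat_lit 349) (nat_lit 243) (nat_lit 188)))) (XT.nd (nat_lit 78) (nat_lit 76) (nat_lit 0) (XT.lf (nat_lit 0) (nat_lit 10702561491) (nat_lit 228) (nat_lit 1799589159) (nat_lit 76) (nat_lit 9431207174) (nat_lit 22) (nat_lit 5) (nat_lit 25) (nat_lit 5) (nat_lit 23) (nat_lit 4) (nat_lit 350) (nat_lit 243) (nat_lit 187)) (XT.nd (nat_lit 78) (nat_lit 0) (nat_lit 0) (XT.lf (nat_lit 0) (nat_lit 5456248980) (nat_lit 76) (nat_lit 8900328050) (nat_lit 152) (nat_lit 8107076189) (nat_lit 21) (nat_lit 5) (nat_lit 22) (nat_lit 5) (nat_lit 23) (nat_lit 4) (nat_lit 351) (nat_lit 243) (nat_lit 186)) (XT.lf (nat_lit 0) (nat_lit 12908190999) (nat_lit 76) (nat_lit 5196682786) (nat_lit 152) (nat_lit 4905462240) (nat_lit 21) (nat_lit 5) (nat_lit 22) (nat_lit 5) (nat_lit 23) (nat_lit 4) (nat_lit 352) (nat_lit 243) (nat_lit 185))))) (XT.nd (nat_lit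 234) (nat_lit 76) (nat_lit 0) (XT.nd (nat_lit 78) (nat_lit 228) (nat_lit 0) (XT.lf (nat_lit 0) (nat_lit 20526932949) (nat_lit 76) (nat_lit 1406150985) (nat_lit 152) (nat_lit 1641329284) (nat_lit 21) (nat_lit 5) (nat_lit 22) (nat_lit 5) (nat_lit 23) (nat_lit 4) (nat_lit 353) (nat_lit 243) (nat_lit 184)) (XT.nd (nat_lit 78) (nat_lit 0) (nat_lit 0) (XT.lf (nat_lit 0) (nat_lit 1720235022) (nat_lit 228) (nat_lit 19949971085) (nat_lit 76) (nat_lit 2483734667) (nat_lit 18) (nat_lit 5) (nat_lit 21) (nat_lit 5) (nat_lit 19) (nat_lit 4) (nat_lit 354) (nat_lit 243) (nat_lit 183)) (XT.lf (nat_lit 0) (nat_lit 5162911293) (nat_lit 228) (nat_lit 13100919919) (nat_lit 76) (nat_lit 6486154120) (nat_lit 18) (nat_lit 5) (nat_lit 21) (nat_lit 5) (nat_lit 19) (nat_lit 4) (nat_lit 355) (nat_lit 243) (nat_lit 182)))) (XT.nd (nat_lit 156) (nat_lit 0) (nat_lit 0) (XT.nd (nat_lit 78) (nat_lit 76) (nat_lit 0) (XT.lf (nat_lit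 0) (nat_lit 8678046082) (nat_lit 228) (nat_lit 6100712476) (nat_lit 76) (nat_lit 10586093171) (nat_lit 18) (nat_lit 5) (nat_lit 21) (nat_lit 5) (nat_lit 19) (nat_lit 4) (nat_lit 356) (nat_lit 243) (nat_lit 181)) (XT.lf (nat_lit 0) (nat_lit 1077799683) (nat_lit 76) (nat_lit 11201271652) (nat_lit 152) (nat_lit 13719695077) (nat_lit 17) (nat_lit 5) (nat_lit 18) (nat_lit 5) (nat_lit 19) (nat_lit 4) (nat_lit 357) (nat_lit 243) (nat_lit 180))) (XT.nd (nat_lit 78) (nat_lit 0) (nat_lit 0) (XT.lf (nat_lit 0) (nat_lit 8544509566) (nat_lit 76) (nat_lit 7475668607) (nat_lit 152) (nat_lit 10630573779) (nat_lit 17) (nat_lit 5) (nat_lit 18) (nat_lit 5) (nat_lit 19) (nat_lit 4) (nat_lit 358) (nat_lit 243) (nat_lit 179)) (XT.lf (nat_lit 0) (nat_lit 16184525339) (nat_lit 76) (nat_lit 3660299274) (nat_lit 152) (nat_lit 7478347756) (nat_lit 17) (nat_lit 5) (nat_lit 18) (nat_lit 5) (nat_lit 19) (nat_lit 4) (nat_lit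 359) (nat_lit 243) (nat_lit 178)))))) (XT.nd (nat_lit 468) (nat_lit 152) (nat_lit 0) (XT.nd (nat_lit 234) (nat_lit 76) (nat_lit 0) (XT.nd (nat_lit 78) (nat_lit 228) (nat_lit 0) (XT.lf (nat_lit 0) (nat_lit 23758738146) (nat_lit 152) (nat_lit 4014478034) (nat_lit 0) (nat_lit 243327470) (nat_lit 17) (nat_lit 5) (nat_lit 19) (nat_lit 4) (nat_lit 17) (nat_lit 4) (nat_lit 360) (nat_lit 243) (nat_lit 177)) (XT.nd (nat_lit 78) (nat_lit 76) (nat_lit 0) (XT.lf (nat_lit 0) (nat_lit 3303222214) (nat_lit 152) (nat_lit 24527594224) (nat_lit 152) (nat_lit 898690881) (nat_lit 15) (nat_lit 4) (nat_lit 17) (nat_lit 5) (nat_lit 17) (nat_lit 4) (nat_lit 361) (nat_lit 243) (nat_lit 176)) (XT.lf (nat_lit 0) (nat_lit 2524966193) (nat_lit 228) (nat_lit 18613409024) (nat_lit 76) (nat_lit 8324346559) (nat_lit 14) (nat_lit 5) (nat_lit 17) (nat_lit 5) (nat_lit 15) (nat_lit 4) (nat_lit 362) (nat_lit 243) (nat_lit 175))))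 (XT.nd (nat_lit 78) (nat_lit 76) (nat_lit 0) (XT.lf (nat_lit 0) (nat_lit 6006869667) (nat_lit 228) (nat_lit 11652122694) (nat_lit 76) (nat_lit 12559477894) (nat_lit 14) (nat_lit 5) (nat_lit 17) (nat_lit 5) (nat_lit 15) (nat_lit 4) (nat_lit 363) (nat_lit 243) (nat_lit 174)) (XT.nd (nat_lit 78) (nat_lit 76) (nat_lit 0) (XT.lf (nat_lit 0) (nat_lit 9567598677) (nat_lit 228) (nat_lit 4527704671) (nat_lit 76) (nat_lit 16902368935) (nat_lit 14) (nat_lit 5) (nat_lit 17) (nat_lit 5) (nat_lit 15) (nat_lit 4) (nat_lit 364) (nat_lit 243) (nat_lit 173)) (XT.lf (nat_lit 0) (nat_lit 2821120485) (nat_lit 76) (nat_lit 10416262389) (nat_lit 152) (nat_lit 18562812291) (nat_lit 13) (nat_lit 5) (nat_lit 14) (nat_lit 5) (nat_lit 15) (nat_lit 4) (nat_lit 365) (nat_lit 243) (nat_lit 172))))) (XT.nd (nat_lit 234) (nat_lit 152) (nat_lit 0) (XT.nd (nat_lit 78) (nat_lit 0) (nat_lit 0) (XT.lf (nat_lit 0) (nat_lit 10439283332)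 (nat_lit 76) (nat_lit 6599115610) (nat_lit 152) (nat_lit 15587772091) (nat_lit 13) (nat_lit 5) (nat_lit 14) (nat_lit 5) (nat_lit 15) (nat_lit 4) (nat_lit 366) (nat_lit 243) (nat_lit 171)) (XT.nd (nat_lit 78) (nat_lit 0) (nat_lit 0) (XT.lf (nat_lit 0) (nat_lit 18243330313) (nat_lit 76) (nat_lit 2686248581) (nat_lit 152) (nat_lit 12548074397) (nat_lit 13) (nat_lit 5) (nat_lit 14) (nat_lit 5) (nat_lit 15) (nat_lit 4) (nat_lit 367) (nat_lit 243) (nat_lit 170)) (XT.lf (nat_lit 0) (nat_lit 24927066786) (nat_lit 152) (nat_lit 8128049448) (nat_lit 0) (nat_lit 1299887400) (nat_lit 13) (nat_lit 5) (nat_lit 15) (nat_lit 4) (nat_lit 13) (nat_lit 4) (nat_lit 368) (nat_lit 243) (nat_lit 169)))) (XT.nd (nat_lit 156) (nat_lit 76) (nat_lit 0) (XT.nd (nat_lit 78) (nat_lit 76) (nat_lit 0) (XT.lf (nat_lit 0) (nat_lit 29048408986) (nat_lit 152) (nat_lit 875911166) (nat_lit 0) (nat_lit 5334246922) (nat_lit 13) (nat_lit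 5) (nat_lit 15) (nat_lit 4) (nat_lit 13) (nat_lit 4) (nat_lit 369) (nat_lit 243) (nat_lit 168)) (XT.lf (nat_lit 0) (nat_lit 6684692990) (nat_lit 76) (nat_lit 26650949173) (nat_lit 76) (nat_lit 2852337906) (nat_lit 12) (nat_lit 4) (nat_lit 13) (nat_lit 5) (nat_lit 13) (nat_lit 4) (nat_lit 370) (nat_lit 243) (nat_lit 167))) (XT.nd (nat_lit 78) (nat_lit 0) (nat_lit 0) (XT.lf (nat_lit 0) (nat_lit 581352972) (nat_lit 152) (nat_lit 22700454248) (nat_lit 76) (nat_lit 13863694036) (nat_lit 11) (nat_lit 5) (nat_lit 13) (nat_lit 5) (nat_lit 12) (nat_lit 4) (nat_lit 371) (nat_lit 243) (nat_lit 166)) (XT.lf (nat_lit 0) (nat_lit 4039398233) (nat_lit 152) (nat_lit 15760223841) (nat_lit 76) (nat_lit 18331927901) (nat_lit 11) (nat_lit 5) (nat_lit 13) (nat_lit 5) (nat_lit 12) (nat_lit 4) (nat_lit 372) (nat_lit 243) (nat_lit 165))))))) (XT.nd (nat_lit 1014) (nat_lit 152) (nat_lit 0) (XT.nd (nat_lit 468) (nat_lit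 152) (nat_lit 0) (XT.nd (nat_lit 234) (nat_lit 0) (nat_lit 0) (XT.nd (nat_lit 78) (nat_lit 76) (nat_lit 0) (XT.lf (nat_lit 0) (nat_lit 7580478855) (nat_lit 152) (nat_lit 8649113162) (nat_lit 76) (nat_lit 22918218356) (nat_lit 11) (nat_lit 5) (nat_lit 13) (nat_lit 5) (nat_lit 12) (nat_lit 4) (nat_lit 373) (nat_lit 243) (nat_lit 164)) (XT.nd (nat_lit 78) (nat_lit 76) (nat_lit 0) (XT.lf (nat_lit 0) (nat_lit 11207688986) (nat_lit 152) (nat_lit 1360908620) (nat_lit 76) (nat_lit 27626572841) (nat_lit 11) (nat_lit 5) (nat_lit 13) (nat_lit 5) (nat_lit 12) (nat_lit 4) (nat_lit 374) (nat_lit 243) (nat_lit 163)) (XT.lf (nat_lit 0) (nat_lit 6232374187) (nat_lit 76) (nat_lit 8751733237) (nat_lit 152) (nat_lit 26288640657) (nat_lit 10) (nat_lit 5) (nat_lit 11) (nat_lit 5) (nat_lit 12) (nat_lit 4) (nat_lit 375) (nat_lit 243) (nat_lit 162)))) (XT.nd (nat_lit 78) (nat_lit 0) (nat_lit 0) (XT.lf (nat_lit 0) (nat_lit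 14046513774) (nat_lit 76) (nat_lit 4821763337) (nat_lit 152) (nat_lit 23514550444) (nat_lit 10) (nat_lit 5) (nat_lit 11) (nat_lit 5) (nat_lit 12) (nat_lit 4) (nat_lit 376) (nat_lit 243) (nat_lit 161)) (XT.nd (nat_lit 78) (nat_lit 0) (nat_lit 0) (XT.lf (nat_lit 0) (nat_lit 22061253279) (nat_lit 76) (nat_lit 788996460) (nat_lit 152) (nat_lit 20676529370) (nat_lit 10) (nat_lit 5) (nat_lit 11) (nat_lit 5) (nat_lit 12) (nat_lit 4) (nat_lit 377) (nat_lit 243) (nat_lit 160)) (XT.lf (nat_lit 0) (nat_lit 26965707827) (nat_lit 152) (nat_lit 14454209566) (nat_lit 0) (nat_lit 3284718824) (nat_lit 10) (nat_lit 5) (nat_lit 12) (nat_lit 4) (nat_lit 10) (nat_lit 4) (nat_lit 378) (nat_lit 243) (nat_lit 159))))) (XT.nd (nat_lit 234) (nat_lit 76) (nat_lit 0) (XT.nd (nat_lit 78) (nat_lit 76) (nat_lit 0) (XT.lf (nat_lit 0) (nat_lit 31194657244) (nat_lit 152) (nat_lit 7272648434) (nat_lit 0) (nat_lit 7450830103)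 (nat_lit 10) (nat_lit 5) (nat_lit 12) (nat_lit 4) (nat_lit 10) (nat_lit 4) (nat_lit 379) (nat_lit 243) (nat_lit 158)) (XT.nd (nat_lit 78) (nat_lit 0) (nat_lit 0) (XT.lf (nat_lit 0) (nat_lit 94868255) (nat_lit 76) (nat_lit 35439252549) (nat_lit 76) (nat_lit 11634417507) (nat_lit 9) (nat_lit 4) (nat_lit 10) (nat_lit 5) (nat_lit 10) (nat_lit 4) (nat_lit 380) (nat_lit 243) (nat_lit 157)) (XT.lf (nat_lit 0) (nat_lit 7801457389) (nat_lit 76) (nat_lit 32258688671) (nat_lit 76) (nat_lit 8394622658) (nat_lit 9) (nat_lit 4) (nat_lit 10) (nat_lit 5) (nat_lit 10) (nat_lit 4) (nat_lit 381) (nat_lit 243) (nat_lit 156)))) (XT.nd (nat_lit 156) (nat_lit 76) (nat_lit 0) (XT.nd (nat_lit 78) (nat_lit 0) (nat_lit 0) (XT.lf (nat_lit 0) (nat_lit 15709112917) (nat_lit 76) (nat_lit 28996274401) (nat_lit 76) (nat_lit 5074702590) (nat_lit 9) (nat_lit 4) (nat_lit 10) (nat_lit 5) (nat_lit 10) (nat_lit 4) (nat_lit 382) (nat_lit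 243) (nat_lit 155)) (XT.lf (nat_lit 0) (nat_lit 23824744440) (nat_lit 76) (nat_lit 25649159084) (nat_lit 76) (nat_lit 1671756402) (nat_lit 9) (nat_lit 4) (nat_lit 10) (nat_lit 5) (nat_lit 10) (nat_lit 4) (nat_lit 383) (nat_lit 243) (nat_lit 154))) (XT.nd (nat_lit 78) (nat_lit 0) (nat_lit 0) (XT.lf (nat_lit 0) (nat_lit 1781729443) (nat_lit 152) (nat_lit 20414696641) (nat_lit 76) (nat_lit 30355721870) (nat_lit 8) (nat_lit 5) (nat_lit 10) (nat_lit 5) (nat_lit 9) (nat_lit 4) (nat_lit 384) (nat_lit 243) (nat_lit 153)) (XT.lf (nat_lit 0) (nat_lit 5289903811) (nat_lit 152) (nat_lit 13345728626) (nat_lit 76) (nat_lit 35365167242) (nat_lit 8) (nat_lit 5) (nat_lit 10) (nat_lit 5) (nat_lit 9) (nat_lit 4) (nat_lit 385) (nat_lit 243) (nat_lit 152)))))) (XT.nd (nat_lit 468) (nat_lit 76) (nat_lit 0) (XT.nd (nat_lit 234) (nat_lit 0) (nat_lit 0) (XT.nd (nat_lit 78) (nat_lit 76) (nat_lit 0) (XT.lf (nat_lit 0)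 (nat_lit 8888454085) (nat_lit 152) (nat_lit 6091764726) (nat_lit 76) (nat_lit 40513144198) (nat_lit 8) (nat_lit 5) (nat_lit 10) (nat_lit 5) (nat_lit 9) (nat_lit 4) (nat_lit 386) (nat_lit 243) (nat_lit 151)) (XT.nd (nat_lit 78) (nat_lit 0) (nat_lit 0) (XT.lf (nat_lit 0) (nat_lit 1380471441) (nat_lit 76) (nat_lit 11213323123) (nat_lit 152) (nat_lit 44436949466) (nat_lit 7) (nat_lit 5) (nat_lit 8) (nat_lit 5) (nat_lit 9) (nat_lit 4) (nat_lit 387) (nat_lit 243) (nat_lit 150)) (XT.lf (nat_lit 0) (nat_lit 9175722974) (nat_lit 76) (nat_lit 7281821212) (nat_lit 152) (nat_lit 42155290460) (nat_lit 7) (nat_lit 5) (nat_lit 8) (nat_lit 5) (nat_lit 9) (nat_lit 4) (nat_lit 388) (nat_lit 243) (nat_lit 149)))) (XT.nd (nat_lit 78) (nat_lit 0) (nat_lit 0) (XT.lf (nat_lit 0) (nat_lit 17179563192) (nat_lit 76) (nat_lit 3243792666) (nat_lit 152) (nat_lit 39819453105) (nat_lit 7) (nat_lit 5) (nat_lit 8) (nat_lit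 5) (nat_lit 9) (nat_lit 4) (nat_lit 389) (nat_lit 243) (nat_lit 148)) (XT.nd (nat_lit 78) (nat_lit 0) (nat_lit 0) (XT.lf (nat_lit 0) (nat_lit 24503387450) (nat_lit 152) (nat_lit 36531798084) (nat_lit 0) (nat_lit 886644917) (nat_lit 7) (nat_lit 5) (nat_lit 9) (nat_lit 4) (nat_lit 7) (nat_lit 4) (nat_lit 390) (nat_lit 243) (nat_lit 147)) (XT.lf (nat_lit 0) (nat_lit 28724777921) (nat_lit 152) (nat_lit 29860635405) (nat_lit 0) (nat_lit 5065245674) (nat_lit 7) (nat_lit 5) (nat_lit 9) (nat_lit 4) (nat_lit 7) (nat_lit 4) (nat_lit 391) (nat_lit 243) (nat_lit 146))))) (XT.nd (nat_lit 234) (nat_lit 76) (nat_lit 0) (XT.nd (nat_lit 78) (nat_lit 0) (nat_lit 0) (XT.lf (nat_lit 0) (nat_lit 33060034546) (nat_lit 152) (nat_lit 23012747243) (nat_lit 0) (nat_lit 9358958888) (nat_lit 7) (nat_lit 5) (nat_lit 9) (nat_lit 4) (nat_lit 7) (nat_lit 4) (nat_lit 392) (nat_lit 243) (nat_lit 145)) (XT.nd (nat_lit 78) (nat_lit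 0) (nat_lit 0) (XT.lf (nat_lit 0) (nat_lit 37512945414) (nat_lit 152) (nat_lit 15982150006) (nat_lit 0) (nat_lit 13771536346) (nat_lit 7) (nat_lit 5) (nat_lit 9) (nat_lit 4) (nat_lit 7) (nat_lit 4) (nat_lit 393) (nat_lit 243) (nat_lit 144)) (XT.lf (nat_lit 0) (nat_lit 42087401417) (nat_lit 152) (nat_lit 8762700455) (nat_lit 0) (nat_lit 18306833699) (nat_lit 7) (nat_lit 5) (nat_lit 9) (nat_lit 4) (nat_lit 7) (nat_lit 4) (nat_lit 394) (nat_lit 243) (nat_lit 143)))) (XT.nd (nat_lit 156) (nat_lit 0) (nat_lit 0) (XT.nd (nat_lit 78) (nat_lit 76) (nat_lit 0) (XT.lf (nat_lit 0) (nat_lit 46787399653) (nat_lit 152) (nat_lit 1348090333) (nat_lit 0) (nat_lit 22968813829) (nat_lit 7) (nat_lit 5) (nat_lit 9) (nat_lit 4) (nat_lit 7) (nat_lit 4) (nat_lit 395) (nat_lit 243) (nat_lit 142)) (XT.lf (nat_lit 0) (nat_lit 6392907804) (nat_lit 76) (nat_lit 45285591653) (nat_lit 76) (nat_lit 21430095045) (nat_lit 6)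 (nat_lit 4) (nat_lit 7) (nat_lit 5) (nat_lit 7) (nat_lit 4) (nat_lit 396) (nat_lit 243) (nat_lit 141))) (XT.nd (nat_lit 78) (nat_lit 0) (nat_lit 0) (XT.lf (nat_lit 0) (nat_lit 14373175380) (nat_lit 76) (nat_lit 42345551661) (nat_lit 76) (nat_lit 18454219342) (nat_lit 6) (nat_lit 4) (nat_lit 7) (nat_lit 5) (nat_lit 7) (nat_lit 4) (nat_lit 397) (nat_lit 243) (nat_lit 140)) (XT.lf (nat_lit 0) (nat_lit 22572855803) (nat_lit 76) (nat_lit 39326414113) (nat_lit 76) (nat_lit 15400289841) (nat_lit 6) (nat_lit 4) (nat_lit 7) (nat_lit 5) (nat_lit 7) (nat_lit 4) (nat_lit 398) (nat_lit 243) (nat_lit 139))))))))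
noncomputable def xc65 : XT := (XT.nd (nat_lit 33540) (nat_lit 0) (nat_lit 2432) (XT.nd (nat_lit 32526) (nat_lit 0) (nat_lit 6460) (XT.nd (nat_lit 468) (nat_lit 76) (nat_lit 0) (XT.nd (nat_lit 234) (nat_lit 76) (nat_lit 0) (XT.nd (nat_lit 78) (nat_lit 0) (nat_lit 0) (XT.lf (nat_lit 0) (nat_lit 30999113844) (nat_lit 76) (nat_lit 36225540928) (nat_lit 76) (nat_lit 12265638060) (nat_lit 6) (nat_lit 4) (nat_lit 7) (nat_lit 5) (nat_lit 7) (nat_lit 4) (nat_lit 399) (nat_lit 243) (nat_lit 138)) (XT.nd (nat_lit 78) (nat_lit 0) (nat_lit 0) (XT.lf (nat_lit 0) (nat_lit 39659312250) (nat_lit 76) (nat_lit 33040222605) (nat_lit 76) (nat_lit 9047524984) (nat_lit 6) (nat_lit 4) (nat_lit 7) (nat_lit 5) (nat_lit 7) (nat_lit 4) (nat_lit 400) (nat_lit 243) (nat_lit 137)) (XT.lf (nat_lit 0) (nat_lit 48561018187) (nat_lit 76) (nat_lit 29767675855) (nat_lit 76) (nat_lit 5743138668) (nat_lit 6) (nat_lit 4) (nat_lit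 7) (nat_lit 5) (nat_lit 7) (nat_lit 4) (nat_lit 401) (nat_lit 243) (nat_lit 136)))) (XT.nd (nat_lit 78) (nat_lit 76) (nat_lit 0) (XT.lf (nat_lit 0) (nat_lit 57712009843) (nat_lit 76) (nat_lit 26405041172) (nat_lit 76) (nat_lit 2349591785) (nat_lit 6) (nat_lit 4) (nat_lit 7) (nat_lit 5) (nat_lit 7) (nat_lit 4) (nat_lit 402) (nat_lit 243) (nat_lit 135)) (XT.nd (nat_lit 78) (nat_lit 0) (nat_lit 0) (XT.lf (nat_lit 0) (nat_lit 1113911868) (nat_lit 152) (nat_lit 21824220137) (nat_lit 76) (nat_lit 65995123037) (nat_lit 5) (nat_lit 5) (nat_lit 7) (nat_lit 5) (nat_lit 6) (nat_lit 4) (nat_lit 403) (nat_lit 243) (nat_lit 134)) (XT.lf (nat_lit 0) (nat_lit 4624880920) (nat_lit 152) (nat_lit 14726090674) (nat_lit 76) (nat_lit 72122476023) (nat_lit 5) (nat_lit 5) (nat_lit 7) (nat_lit 5) (nat_lit 6) (nat_lit 4) (nat_lit 404) (nat_lit 243) (nat_lit 133))))) (XT.nd (nat_lit 234) (nat_lit 0) (nat_lit 0) (XT.nd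 (nat_lit 78) (nat_lit 76) (nat_lit 0) (XT.lf (nat_lit 0) (nat_lit 8232232206) (nat_lit 152) (nat_lit 7431456607) (nat_lit 76) (nat_lit 78426428871) (nat_lit 5) (nat_lit 5) (nat_lit 7) (nat_lit 5) (nat_lit 6) (nat_lit 4) (nat_lit 405) (nat_lit 243) (nat_lit 132)) (XT.nd (nat_lit 78) (nat_lit 0) (nat_lit 0) (XT.lf (nat_lit 0) (nat_lit 67370661) (nat_lit 76) (nat_lit 11872394726) (nat_lit 152) (nat_lit 84845766837) (nat_lit 4) (nat_lit 5) (nat_lit 5) (nat_lit 5) (nat_lit 6) (nat_lit 4) (nat_lit 406) (nat_lit 243) (nat_lit 131)) (XT.lf (nat_lit 0) (nat_lit 7927696332) (nat_lit 76) (nat_lit 7897286201) (nat_lit 152) (nat_lit 83734836046) (nat_lit 4) (nat_lit 5) (nat_lit 5) (nat_lit 5) (nat_lit 6) (nat_lit 4) (nat_lit 407) (nat_lit 243) (nat_lit 130)))) (XT.nd (nat_lit 31668) (nat_lit 0) (nat_lit 10032) (XT.nd (nat_lit 31590) (nat_lit 0) (nat_lit 11096) (XT.lf (nat_lit 0) (nat_lit 16008488093) (nat_lit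 76) (nat_lit 3809932982) (nat_lit 152) (nat_lit 82599165531) (nat_lit 4) (nat_lit 5) (nat_lit 5) (nat_lit 5) (nat_lit 6) (nat_lit 4) (nat_lit 408) (nat_lit 243) (nat_lit 129)) (XT.lf (nat_lit 0) (nat_lit 1553670040) (nat_lit 608) (nat_lit 721687621) (nat_lit 0) (nat_lit 1553670040) (nat_lit 150) (nat_lit 5) (nat_lit 158) (nat_lit 4) (nat_lit 150) (nat_lit 4) (nat_lit 292) (nat_lit 244) (nat_lit 244))) (XT.nd (nat_lit 78) (nat_lit 532) (nat_lit 0) (XT.lf (nat_lit 0) (nat_lit 3830180803) (nat_lit 532) (nat_lit 2634352492) (nat_lit 532) (nat_lit 1275117099) (nat_lit 143) (nat_lit 4) (nat_lit 150) (nat_lit 5) (nat_lit 150) (nat_lit 4) (nat_lit 293) (nat_lit 244) (nat_lit 243)) (XT.lf (nat_lit 0) (nat_lit 1369398485) (nat_lit 456) (nat_lit 624828061) (nat_lit 532) (nat_lit 5830922841) (nat_lit 136) (nat_lit 5) (nat_lit 142) (nat_lit 5) (nat_lit 143) (nat_lit 4) (nat_lit 294) (nat_lit 244) (nat_lit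 242)))))) (XT.nd (nat_lit 468) (nat_lit 1672) (nat_lit 0) (XT.nd (nat_lit 234) (nat_lit 912) (nat_lit 0) (XT.nd (nat_lit 78) (nat_lit 988) (nat_lit 0) (XT.lf (nat_lit 0) (nat_lit 5299851939) (nat_lit 532) (nat_lit 1159114333) (nat_lit 0) (nat_lit 1455103272) (nat_lit 136) (nat_lit 5) (nat_lit 143) (nat_lit 4) (nat_lit 136) (nat_lit 4) (nat_lit 295) (nat_lit 244) (nat_lit 241)) (XT.nd (nat_lit 78) (nat_lit 456) (nat_lit 0) (XT.lf (nat_lit 0) (nat_lit 644729472) (nat_lit 532) (nat_lit 3743610880) (nat_lit 76) (nat_lit 3618475205) (nat_lit 129) (nat_lit 5) (nat_lit 136) (nat_lit 5) (nat_lit 130) (nat_lit 4) (nat_lit 296) (nat_lit 244) (nat_lit 240)) (XT.lf (nat_lit 0) (nat_lit 1671904080) (nat_lit 456) (nat_lit 2218147239) (nat_lit 532) (nat_lit 4213418770) (nat_lit 123) (nat_lit 5) (nat_lit 129) (nat_lit 5) (nat_lit 130) (nat_lit 4) (nat_lit 297) (nat_lit 244) (nat_lit 239)))) (XT.nd (nat_lit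 78) (nat_lit 912) (nat_lit 0) (XT.lf (nat_lit 0) (nat_lit 7185685397) (nat_lit 532) (nat_lit 981973109) (nat_lit 0) (nat_lit 36910308) (nat_lit 123) (nat_lit 5) (nat_lit 130) (nat_lit 4) (nat_lit 123) (nat_lit 4) (nat_lit 298) (nat_lit 244) (nat_lit 238)) (XT.nd (nat_lit 78) (nat_lit 380) (nat_lit 0) (XT.lf (nat_lit 0) (nat_lit 2210106743) (nat_lit 532) (nat_lit 3735251370) (nat_lit 76) (nat_lit 2363324517) (nat_lit 116) (nat_lit 5) (nat_lit 123) (nat_lit 5) (nat_lit 117) (nat_lit 4) (nat_lit 299) (nat_lit 244) (nat_lit 237)) (XT.lf (nat_lit 0) (nat_lit 1821535944) (nat_lit 380) (nat_lit 3639077234) (nat_lit 456) (nat_lit 2956772127) (nat_lit 111) (nat_lit 5) (nat_lit 116) (nat_lit 5) (nat_lit 117) (nat_lit 4) (nat_lit 300) (nat_lit 244) (nat_lit 236))))) (XT.nd (nat_lit 234) (nat_lit 836) (nat_lit 0) (XT.nd (nat_lit 78) (nat_lit 760) (nat_lit 0) (XT.lf (nat_lit 0) (nat_lit 230023126) (nat_lit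 456) (nat_lit 1014234255) (nat_lit 76) (nat_lit 7286440361) (nat_lit 110) (nat_lit 5) (nat_lit 116) (nat_lit 5) (nat_lit 111) (nat_lit 5) (nat_lit 301) (nat_lit 244) (nat_lit 235)) (XT.nd (nat_lit 78) (nat_lit 380) (nat_lit 0) (XT.lf (nat_lit 0) (nat_lit 3430888310) (nat_lit 456) (nat_lit 3964275527) (nat_lit 76) (nat_lit 1252142135) (nat_lit 105) (nat_lit 5) (nat_lit 111) (nat_lit 5) (nat_lit 106) (nat_lit 4) (nat_lit 302) (nat_lit 244) (nat_lit 234)) (XT.lf (nat_lit 0) (nat_lit 1723354179) (nat_lit 380) (nat_lit 4965269534) (nat_lit 456) (nat_lit 2080071656) (nat_lit 100) (nat_lit 5) (nat_lit 105) (nat_lit 5) (nat_lit 106) (nat_lit 4) (nat_lit 303) (nat_lit 244) (nat_lit 233)))) (XT.nd (nat_lit 156) (nat_lit 380) (nat_lit 0) (XT.nd (nat_lit 78) (nat_lit 380) (nat_lit 0) (XT.lf (nat_lit 0) (nat_lit 1090399292) (nat_lit 456) (nat_lit 1344501836) (nat_lit 76) (nat_lit 6459721145) (nat_lit 99)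 (nat_lit 5) (nat_lit 105) (nat_lit 5) (nat_lit 100) (nat_lit 5) (nat_lit 304) (nat_lit 244) (nat_lit 232)) (XT.lf (nat_lit 0) (nat_lit 4283743098) (nat_lit 456) (nat_lit 4532747293) (nat_lit 76) (nat_lit 208230829) (nat_lit 94) (nat_lit 5) (nat_lit 100) (nat_lit 5) (nat_lit 95) (nat_lit 4) (nat_lit 305) (nat_lit 244) (nat_lit 231))) (XT.nd (nat_lit 78) (nat_lit 76) (nat_lit 0) (XT.lf (nat_lit 0) (nat_lit 1271873986) (nat_lit 304) (nat_lit 6276391795) (nat_lit 380) (nat_lit 1611292176) (nat_lit 90) (nat_lit 5) (nat_lit 94) (nat_lit 5) (nat_lit 95) (nat_lit 4) (nat_lit 306) (nat_lit 244) (nat_lit 230)) (XT.lf (nat_lit 0) (nat_lit 1552771125) (nat_lit 380) (nat_lit 2071532809) (nat_lit 76) (nat_lit 5674603123) (nat_lit 89) (nat_lit 5) (nat_lit 94) (nat_lit 5) (nat_lit 90) (nat_lit 5) (nat_lit 307) (nat_lit 244) (nat_lit 229))))))) (XT.nd (nat_lit 1014) (nat_lit 1520) (nat_lit 0) (XT.nd (nat_lit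 468) (nat_lit 1140) (nat_lit 0) (XT.nd (nat_lit 234) (nat_lit 608) (nat_lit 0) (XT.nd (nat_lit 78) (nat_lit 380) (nat_lit 0) (XT.lf (nat_lit 0) (nat_lit 3879764972) (nat_lit 380) (nat_lit 864787257) (nat_lit 456) (nat_lit 4698538375) (nat_lit 84) (nat_lit 5) (nat_lit 89) (nat_lit 5) (nat_lit 90) (nat_lit 5) (nat_lit 308) (nat_lit 244) (nat_lit 228)) (XT.nd (nat_lit 78) (nat_lit 76) (nat_lit 0) (XT.lf (nat_lit 0) (nat_lit 348606104) (nat_lit 304) (nat_lit 7655748963) (nat_lit 380) (nat_lit 1588161996) (nat_lit 80) (nat_lit 5) (nat_lit 84) (nat_lit 5) (nat_lit 85) (nat_lit 4) (nat_lit 309) (nat_lit 244) (nat_lit 227)) (XT.lf (nat_lit 0) (nat_lit 1578427161) (nat_lit 380) (nat_lit 3318034464) (nat_lit 76) (nat_lit 4849746567) (nat_lit 79) (nat_lit 5) (nat_lit 84) (nat_lit 5) (nat_lit 80) (nat_lit 5) (nat_lit 310) (nat_lit 244) (nat_lit 226)))) (XT.nd (nat_lit 78) (nat_lit 304) (nat_lit 0) (XT.lf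 (nat_lit 0) (nat_lit 2725422259) (nat_lit 304) (nat_lit 2040062936) (nat_lit 380) (nat_lit 5139909581) (nat_lit 75) (nat_lit 5) (nat_lit 79) (nat_lit 5) (nat_lit 80) (nat_lit 5) (nat_lit 311) (nat_lit 244) (nat_lit 225)) (XT.nd (nat_lit 78) (nat_lit 304) (nat_lit 0) (XT.lf (nat_lit 0) (nat_lit 8022652591) (nat_lit 380) (nat_lit 1157681788) (nat_lit 76) (nat_lit 889863572) (nat_lit 75) (nat_lit 5) (nat_lit 80) (nat_lit 5) (nat_lit 76) (nat_lit 4) (nat_lit 312) (nat_lit 244) (nat_lit 224)) (XT.lf (nat_lit 0) (nat_lit 1117840359) (nat_lit 304) (nat_lit 5223375920) (nat_lit 76) (nat_lit 3898398980) (nat_lit 71) (nat_lit 5) (nat_lit 75) (nat_lit 5) (nat_lit 72) (nat_lit 5) (nat_lit 313) (nat_lit 244) (nat_lit 223))))) (XT.nd (nat_lit 234) (nat_lit 532) (nat_lit 0) (XT.nd (nat_lit 78) (nat_lit 304) (nat_lit 0) (XT.lf (nat_lit 0) (nat_lit 886151914) (nat_lit 304) (nat_lit 3405475484) (nat_lit 380)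 (nat_lit 6123311185) (nat_lit 67) (nat_lit 5) (nat_lit 71) (nat_lit 5) (nat_lit 72) (nat_lit 5) (nat_lit 314) (nat_lit 244) (nat_lit 222)) (XT.nd (nat_lit 78) (nat_lit 304) (nat_lit 0) (XT.lf (nat_lit 0) (nat_lit 7190885100) (nat_lit 304) (nat_lit 357757698) (nat_lit 380) (nat_lit 3047305824) (nat_lit 67) (nat_lit 5) (nat_lit 71) (nat_lit 5) (nat_lit 72) (nat_lit 5) (nat_lit 315) (nat_lit 244) (nat_lit 221)) (XT.lf (nat_lit 0) (nat_lit 109341623) (nat_lit 304) (nat_lit 7946856251) (nat_lit 76) (nat_lit 2726498103) (nat_lit 63) (nat_lit 5) (nat_lit 67) (nat_lit 5) (nat_lit 64) (nat_lit 5) (nat_lit 316) (nat_lit 244) (nat_lit 220)))) (XT.nd (nat_lit 156) (nat_lit 304) (nat_lit 0) (XT.nd (nat_lit 78) (nat_lit 228) (nat_lit 0) (XT.lf (nat_lit 0) (nat_lit 3274843538) (nat_lit 304) (nat_lit 1768738427) (nat_lit 76) (nat_lit 5931358294) (nat_lit 63) (nat_lit 5) (nat_lit 67) (nat_lit 5) (nat_lit 64)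 (nat_lit 5) (nat_lit 317) (nat_lit 244) (nat_lit 219)) (XT.lf (nat_lit 0) (nat_lit 4592652011) (nat_lit 228) (nat_lit 1925772689) (nat_lit 304) (nat_lit 4655093680) (nat_lit 60) (nat_lit 5) (nat_lit 63) (nat_lit 5) (nat_lit 64) (nat_lit 5) (nat_lit 318) (nat_lit 244) (nat_lit 218))) (XT.nd (nat_lit 78) (nat_lit 304) (nat_lit 0) (XT.lf (nat_lit 0) (nat_lit 9829285604) (nat_lit 304) (nat_lit 301269452) (nat_lit 76) (nat_lit 1248457808) (nat_lit 60) (nat_lit 5) (nat_lit 64) (nat_lit 5) (nat_lit 61) (nat_lit 4) (nat_lit 319) (nat_lit 244) (nat_lit 217)) (XT.lf (nat_lit 0) (nat_lit 1636562623) (nat_lit 304) (nat_lit 5427633950) (nat_lit 76) (nat_lit 4525456885) (nat_lit 56) (nat_lit 5) (nat_lit 60) (nat_lit 5) (nat_lit 57) (nat_lit 5) (nat_lit 320) (nat_lit 244) (nat_lit 216)))))) (XT.nd (nat_lit 546) (nat_lit 684) (nat_lit 0) (XT.nd (nat_lit 234) (nat_lit 456) (nat_lit 0) (XT.nd (nat_lit 78) (nat_lit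 152) (nat_lit 0) (XT.lf (nat_lit 0) (nat_lit 931661463) (nat_lit 228) (nat_lit 3909225687) (nat_lit 304) (nat_lit 6966711236) (nat_lit 53) (nat_lit 5) (nat_lit 56) (nat_lit 5) (nat_lit 57) (nat_lit 5) (nat_lit 321) (nat_lit 244) (nat_lit 215)) (XT.nd (nat_lit 78) (nat_lit 152) (nat_lit 0) (XT.lf (nat_lit 0) (nat_lit 7503873805) (nat_lit 228) (nat_lit 634687209) (nat_lit 304) (nat_lit 3893655761) (nat_lit 53) (nat_lit 5) (nat_lit 56) (nat_lit 5) (nat_lit 57) (nat_lit 5) (nat_lit 322) (nat_lit 244) (nat_lit 214)) (XT.lf (nat_lit 0) (nat_lit 1933120236) (nat_lit 152) (nat_lit 9590741550) (nat_lit 228) (nat_lit 740101224) (nat_lit 51) (nat_lit 5) (nat_lit 53) (nat_lit 5) (nat_lit 54) (nat_lit 4) (nat_lit 323) (nat_lit 244) (nat_lit 213)))) (XT.nd (nat_lit 156) (nat_lit 152) (nat_lit 0) (XT.nd (nat_lit 78) (nat_lit 228) (nat_lit 0) (XT.lf (nat_lit 0) (nat_lit 2455580481) (nat_lit 228) (nat_lit 3939141708)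 (nat_lit 76) (nat_lit 6107369630) (nat_lit 50) (nat_lit 5) (nat_lit 53) (nat_lit 5) (nat_lit 51) (nat_lit 5) (nat_lit 324) (nat_lit 244) (nat_lit 212)) (XT.lf (nat_lit 0) (nat_lit 2602069031) (nat_lit 228) (nat_lit 3100829774) (nat_lit 304) (nat_lit 7045172547) (nat_lit 47) (nat_lit 5) (nat_lit 50) (nat_lit 5) (nat_lit 51) (nat_lit 5) (nat_lit 325) (nat_lit 244) (nat_lit 211))) (XT.nd (nat_lit 78) (nat_lit 152) (nat_lit 0) (XT.lf (nat_lit 0) (nat_lit 9036710286) (nat_lit 304) (nat_lit 3669373475) (nat_lit 76) (nat_lit 295718899) (nat_lit 47) (nat_lit 5) (nat_lit 51) (nat_lit 5) (nat_lit 48) (nat_lit 4) (nat_lit 326) (nat_lit 244) (nat_lit 210)) (XT.lf (nat_lit 0) (nat_lit 2944622257) (nat_lit 152) (nat_lit 9532587092) (nat_lit 228) (nat_lit 785779658) (nat_lit 45) (nat_lit 5) (nat_lit 47) (nat_lit 5) (nat_lit 48) (nat_lit 4) (nat_lit 327) (nat_lit 244) (nat_lit 209))))) (XT.nd (nat_lit 234)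 (nat_lit 380) (nat_lit 0) (XT.nd (nat_lit 78) (nat_lit 228) (nat_lit 0) (XT.lf (nat_lit 0) (nat_lit 2425607091) (nat_lit 228) (nat_lit 3806883979) (nat_lit 76) (nat_lit 7299285071) (nat_lit 44) (nat_lit 5) (nat_lit 47) (nat_lit 5) (nat_lit 45) (nat_lit 5) (nat_lit 328) (nat_lit 244) (nat_lit 208)) (XT.nd (nat_lit 78) (nat_lit 0) (nat_lit 0) (XT.lf (nat_lit 0) (nat_lit 2866596789) (nat_lit 228) (nat_lit 2827861865) (nat_lit 304) (nat_lit 8114666959) (nat_lit 41) (nat_lit 5) (nat_lit 44) (nat_lit 5) (nat_lit 45) (nat_lit 5) (nat_lit 329) (nat_lit 244) (nat_lit 207)) (XT.lf (nat_lit 0) (nat_lit 9056489024) (nat_lit 304) (nat_lit 4364175600) (nat_lit 76) (nat_lit 674316017) (nat_lit 41) (nat_lit 5) (nat_lit 45) (nat_lit 5) (nat_lit 42) (nat_lit 4) (nat_lit 330) (nat_lit 244) (nat_lit 206)))) (XT.nd (nat_lit 156) (nat_lit 152) (nat_lit 0) (XT.nd (nat_lit 78) (nat_lit 76) (nat_lit 0) (XT.lf (nat_lit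 0) (nat_lit 2349823906) (nat_lit 152) (nat_lit 10171370665) (nat_lit 228) (nat_lit 1868199673) (nat_lit 39) (nat_lit 5) (nat_lit 41) (nat_lit 5) (nat_lit 42) (nat_lit 4) (nat_lit 331) (nat_lit 244) (nat_lit 205)) (XT.lf (nat_lit 0) (nat_lit 1365821641) (nat_lit 228) (nat_lit 5430262603) (nat_lit 76) (nat_lit 7896311739) (nat_lit 38) (nat_lit 5) (nat_lit 41) (nat_lit 5) (nat_lit 39) (nat_lit 5) (nat_lit 332) (nat_lit 244) (nat_lit 204))) (XT.nd (nat_lit 78) (nat_lit 0) (nat_lit 0) (XT.lf (nat_lit 0) (nat_lit 1306870769) (nat_lit 152) (nat_lit 3317801534) (nat_lit 228) (nat_lit 10380334013) (nat_lit 36) (nat_lit 5) (nat_lit 38) (nat_lit 5) (nat_lit 39) (nat_lit 5) (nat_lit 333) (nat_lit 244) (nat_lit 203)) (XT.lf (nat_lit 0) (nat_lit 7992355319) (nat_lit 228) (nat_lit 7048844814) (nat_lit 76) (nat_lit 285496004) (nat_lit 36) (nat_lit 5) (nat_lit 39) (nat_lit 5) (nat_lit 37) (nat_lit 4) (nat_lit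 334) (nat_lit 244) (nat_lit 202))))))))
noncomputable def xc66 : XT := (XT.nd (nat_lit 2028) (nat_lit 684) (nat_lit 0) (XT.nd (nat_lit 1014) (nat_lit 608) (nat_lit 0) (XT.nd (nat_lit 468) (nat_lit 304) (nat_lit 0) (XT.nd (nat_lit 234) (nat_lit 304) (nat_lit 0) (XT.nd (nat_lit 78) (nat_lit 228) (nat_lit 0) (XT.lf (nat_lit 0) (nat_lit 11448426310) (nat_lit 228) (nat_lit 308497192) (nat_lit 76) (nat_lit 3901524644) (nat_lit 36) (nat_lit 5) (nat_lit 39) (nat_lit 5) (nat_lit 37) (nat_lit 4) (nat_lit 335) (nat_lit 244) (nat_lit 201)) (XT.nd (nat_lit 78) (nat_lit 76) (nat_lit 0) (XT.lf (nat_lit 0) (nat_lit 6691260268) (nat_lit 152) (nat_lit 8337072625) (nat_lit 228) (nat_lit 971246498) (nat_lit 34) (nat_lit 5) (nat_lit 36) (nat_lit 5) (nat_lit 37) (nat_lit 4) (nat_lit 336) (nat_lit 244) (nat_lit 200)) (XT.lf (nat_lit 0) (nat_lit 2277654269) (nat_lit 228) (nat_lit 2539836308) (nat_lit 76) (nat_lit 11534028379)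 (nat_lit 33) (nat_lit 5) (nat_lit 36) (nat_lit 5) (nat_lit 34) (nat_lit 5) (nat_lit 337) (nat_lit 244) (nat_lit 199)))) (XT.nd (nat_lit 78) (nat_lit 152) (nat_lit 0) (XT.lf (nat_lit 0) (nat_lit 4437256177) (nat_lit 152) (nat_lit 1167140904) (nat_lit 228) (nat_lit 11109362879) (nat_lit 31) (nat_lit 5) (nat_lit 33) (nat_lit 5) (nat_lit 34) (nat_lit 5) (nat_lit 338) (nat_lit 244) (nat_lit 198)) (XT.nd (nat_lit 78) (nat_lit 152) (nat_lit 0) (XT.lf (nat_lit 0) (nat_lit 9039300200) (nat_lit 228) (nat_lit 5507284498) (nat_lit 76) (nat_lit 2540060548) (nat_lit 31) (nat_lit 5) (nat_lit 34) (nat_lit 5) (nat_lit 32) (nat_lit 4) (nat_lit 339) (nat_lit 244) (nat_lit 197)) (XT.lf (nat_lit 0) (nat_lit 1411350833) (nat_lit 152) (nat_lit 11149792990) (nat_lit 228) (nat_lit 4910083447) (nat_lit 29) (nat_lit 5) (nat_lit 31) (nat_lit 5) (nat_lit 32) (nat_lit 4) (nat_lit 340) (nat_lit 244) (nat_lit 196))))) (XT.nd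 (nat_lit 234) (nat_lit 76) (nat_lit 0) (XT.nd (nat_lit 78) (nat_lit 228) (nat_lit 0) (XT.lf (nat_lit 0) (nat_lit 8581476734) (nat_lit 152) (nat_lit 7622087531) (nat_lit 228) (nat_lit 1663361040) (nat_lit 29) (nat_lit 5) (nat_lit 31) (nat_lit 5) (nat_lit 32) (nat_lit 4) (nat_lit 341) (nat_lit 244) (nat_lit 195)) (XT.nd (nat_lit 78) (nat_lit 152) (nat_lit 0) (XT.lf (nat_lit 0) (nat_lit 1608043128) (nat_lit 228) (nat_lit 2391717423) (nat_lit 76) (nat_lit 14275471391) (nat_lit 28) (nat_lit 5) (nat_lit 31) (nat_lit 5) (nat_lit 29) (nat_lit 5) (nat_lit 342) (nat_lit 244) (nat_lit 194)) (XT.lf (nat_lit 0) (nat_lit 4718635248) (nat_lit 152) (nat_lit 232121286) (nat_lit 228) (nat_lit 13744363180) (nat_lit 26) (nat_lit 5) (nat_lit 28) (nat_lit 5) (nat_lit 29) (nat_lit 5) (nat_lit 343) (nat_lit 244) (nat_lit 193)))) (XT.nd (nat_lit 156) (nat_lit 76) (nat_lit 0) (XT.nd (nat_lit 78) (nat_lit 0) (nat_lit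 0) (XT.lf (nat_lit 0) (nat_lit 8414698866) (nat_lit 228) (nat_lit 7136930797) (nat_lit 76) (nat_lit 3575369305) (nat_lit 26) (nat_lit 5) (nat_lit 29) (nat_lit 5) (nat_lit 27) (nat_lit 4) (nat_lit 344) (nat_lit 244) (nat_lit 192)) (XT.lf (nat_lit 0) (nat_lit 11947464179) (nat_lit 228) (nat_lit 158630879) (nat_lit 76) (nat_lit 7466814997) (nat_lit 26) (nat_lit 5) (nat_lit 29) (nat_lit 5) (nat_lit 27) (nat_lit 4) (nat_lit 345) (nat_lit 244) (nat_lit 191))) (XT.nd (nat_lit 78) (nat_lit 0) (nat_lit 0) (XT.lf (nat_lit 0) (nat_lit 7105395988) (nat_lit 76) (nat_lit 8512813487) (nat_lit 152) (nat_lit 4413051028) (nat_lit 25) (nat_lit 5) (nat_lit 26) (nat_lit 5) (nat_lit 27) (nat_lit 4) (nat_lit 346) (nat_lit 244) (nat_lit 190)) (XT.lf (nat_lit 0) (nat_lit 14528932053) (nat_lit 76) (nat_lit 4835907214) (nat_lit 152) (nat_lit 1139570632) (nat_lit 25) (nat_lit 5) (nat_lit 26) (nat_lit 5) (nat_lit 27) (nat_lit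 4) (nat_lit 347) (nat_lit 244) (nat_lit 189)))))) (XT.nd (nat_lit 468) (nat_lit 304) (nat_lit 0) (XT.nd (nat_lit 234) (nat_lit 76) (nat_lit 0) (XT.nd (nat_lit 78) (nat_lit 0) (nat_lit 0) (XT.lf (nat_lit 0) (nat_lit 1123296323) (nat_lit 152) (nat_lit 1040898436) (nat_lit 228) (nat_lit 18827666288) (nat_lit 22) (nat_lit 5) (nat_lit 24) (nat_lit 5) (nat_lit 25) (nat_lit 5) (nat_lit 348) (nat_lit 244) (nat_lit 188)) (XT.nd (nat_lit 78) (nat_lit 0) (nat_lit 0) (XT.lf (nat_lit 0) (nat_lit 5597719265) (nat_lit 228) (nat_lit 13034860354) (nat_lit 76) (nat_lit 2859430603) (nat_lit 22) (nat_lit 5) (nat_lit 25) (nat_lit 5) (nat_lit 23) (nat_lit 4) (nat_lit 349) (nat_lit 244) (nat_lit 187)) (XT.lf (nat_lit 0) (nat_lit 9110617334) (nat_lit 228) (nat_lit 6065490679) (nat_lit 76) (nat_lit 6831783750) (nat_lit 22) (nat_lit 5) (nat_lit 25) (nat_lit 5) (nat_lit 23) (nat_lit 4) (nat_lit 350) (nat_lit 244) (nat_lit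 186)))) (XT.nd (nat_lit 78) (nat_lit 0) (nat_lit 0) (XT.lf (nat_lit 0) (nat_lit 1076649094) (nat_lit 76) (nat_lit 11629653051) (nat_lit 152) (nat_lit 9833643985) (nat_lit 21) (nat_lit 5) (nat_lit 22) (nat_lit 5) (nat_lit 23) (nat_lit 4) (nat_lit 351) (nat_lit 244) (nat_lit 185)) (XT.nd (nat_lit 78) (nat_lit 0) (nat_lit 0) (XT.lf (nat_lit 0) (nat_lit 8500631345) (nat_lit 76) (nat_lit 7937940211) (nat_lit 152) (nat_lit 6648546988) (nat_lit 21) (nat_lit 5) (nat_lit 22) (nat_lit 5) (nat_lit 23) (nat_lit 4) (nat_lit 352) (nat_lit 244) (nat_lit 184)) (XT.lf (nat_lit 0) (nat_lit 16092227890) (nat_lit 76) (nat_lit 4158993288) (nat_lit 152) (nat_lit 3400449907) (nat_lit 21) (nat_lit 5) (nat_lit 22) (nat_lit 5) (nat_lit 23) (nat_lit 4) (nat_lit 353) (nat_lit 244) (nat_lit 183))))) (XT.nd (nat_lit 234) (nat_lit 76) (nat_lit 0) (XT.nd (nat_lit 78) (nat_lit 228) (nat_lit 0) (XT.lf (nat_lit 0) (nat_lit 23858072162)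 (nat_lit 76) (nat_lit 289510290) (nat_lit 152) (nat_lit 86514599) (nat_lit 21) (nat_lit 5) (nat_lit 22) (nat_lit 5) (nat_lit 23) (nat_lit 4) (nat_lit 354) (nat_lit 244) (nat_lit 182)) (XT.nd (nat_lit 78) (nat_lit 0) (nat_lit 0) (XT.lf (nat_lit 0) (nat_lit 3336160776) (nat_lit 228) (nat_lit 17791770208) (nat_lit 76) (nat_lit 3702894056) (nat_lit 18) (nat_lit 5) (nat_lit 21) (nat_lit 5) (nat_lit 19) (nat_lit 4) (nat_lit 355) (nat_lit 244) (nat_lit 181)) (XT.lf (nat_lit 0) (nat_lit 6836554654) (nat_lit 228) (nat_lit 10817539740) (nat_lit 76) (nat_lit 7792046850) (nat_lit 18) (nat_lit 5) (nat_lit 21) (nat_lit 5) (nat_lit 19) (nat_lit 4) (nat_lit 356) (nat_lit 244) (nat_lit 180)))) (XT.nd (nat_lit 156) (nat_lit 0) (nat_lit 0) (XT.nd (nat_lit 78) (nat_lit 76) (nat_lit 0) (XT.lf (nat_lit 0) (nat_lit 10412907875) (nat_lit 228) (nat_lit 3685279698) (nat_lit 76) (nat_lit 11982615875) (nat_lit 18) (nat_lit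 5) (nat_lit 21) (nat_lit 5) (nat_lit 19) (nat_lit 4) (nat_lit 357) (nat_lit 244) (nat_lit 179)) (XT.lf (nat_lit 0) (nat_lit 3683112785) (nat_lit 76) (nat_lit 10420636954) (nat_lit 152) (nat_lit 12630554342) (nat_lit 17) (nat_lit 5) (nat_lit 18) (nat_lit 5) (nat_lit 19) (nat_lit 4) (nat_lit 358) (nat_lit 244) (nat_lit 178))) (XT.nd (nat_lit 78) (nat_lit 0) (nat_lit 0) (XT.lf (nat_lit 0) (nat_lit 11298882825) (nat_lit 76) (nat_lit 6615790269) (nat_lit 152) (nat_lit 9492470034) (nat_lit 17) (nat_lit 5) (nat_lit 18) (nat_lit 5) (nat_lit 19) (nat_lit 4) (nat_lit 359) (nat_lit 244) (nat_lit 177)) (XT.lf (nat_lit 0) (nat_lit 19095340684) (nat_lit 76) (nat_lit 2717536993) (nat_lit 152) (nat_lit 6288114734) (nat_lit 17) (nat_lit 5) (nat_lit 18) (nat_lit 5) (nat_lit 19) (nat_lit 4) (nat_lit 360) (nat_lit 244) (nat_lit 176))))))) (XT.nd (nat_lit 1014) (nat_lit 228) (nat_lit 0) (XT.nd (nat_lit 468) (nat_lit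 152) (nat_lit 0) (XT.nd (nat_lit 234) (nat_lit 76) (nat_lit 0) (XT.nd (nat_lit 78) (nat_lit 228) (nat_lit 0) (XT.lf (nat_lit 0) (nat_lit 25814050081) (nat_lit 152) (nat_lit 1749439798) (nat_lit 0) (nat_lit 1252599917) (nat_lit 17) (nat_lit 5) (nat_lit 19) (nat_lit 4) (nat_lit 17) (nat_lit 4) (nat_lit 361) (nat_lit 244) (nat_lit 175)) (XT.nd (nat_lit 78) (nat_lit 0) (nat_lit 0) (XT.lf (nat_lit 0) (nat_lit 432334904) (nat_lit 228) (nat_lit 23790788031) (nat_lit 76) (nat_lit 5327703833) (nat_lit 14) (nat_lit 5) (nat_lit 17) (nat_lit 5) (nat_lit 15) (nat_lit 4) (nat_lit 362) (nat_lit 244) (nat_lit 174)) (XT.lf (nat_lit 0) (nat_lit 3901611990) (nat_lit 228) (nat_lit 16852017414) (nat_lit 76) (nat_lit 9553330619) (nat_lit 14) (nat_lit 5) (nat_lit 17) (nat_lit 5) (nat_lit 15) (nat_lit 4) (nat_lit 363) (nat_lit 244) (nat_lit 173)))) (XT.nd (nat_lit 78) (nat_lit 76) (nat_lit 0) (XT.lf (nat_lit 0) (nat_lit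 7450082370) (nat_lit 228) (nat_lit 9749459306) (nat_lit 76) (nat_lit 13886993943) (nat_lit 14) (nat_lit 5) (nat_lit 17) (nat_lit 5) (nat_lit 15) (nat_lit 4) (nat_lit 364) (nat_lit 244) (nat_lit 172)) (XT.nd (nat_lit 78) (nat_lit 76) (nat_lit 0) (XT.lf (nat_lit 0) (nat_lit 11080846650) (nat_lit 228) (nat_lit 2476907589) (nat_lit 76) (nat_lit 18332480500) (nat_lit 14) (nat_lit 5) (nat_lit 17) (nat_lit 5) (nat_lit 15) (nat_lit 4) (nat_lit 365) (nat_lit 244) (nat_lit 171)) (XT.lf (nat_lit 0) (nat_lit 5070944791) (nat_lit 76) (nat_lit 9774877573) (nat_lit 152) (nat_lit 17871474928) (nat_lit 13) (nat_lit 5) (nat_lit 14) (nat_lit 5) (nat_lit 15) (nat_lit 4) (nat_lit 366) (nat_lit 244) (nat_lit 170))))) (XT.nd (nat_lit 234) (nat_lit 152) (nat_lit 0) (XT.nd (nat_lit 78) (nat_lit 0) (nat_lit 0) (XT.lf (nat_lit 0) (nat_lit 12854588716) (nat_lit 76) (nat_lit 5870999091) (nat_lit 152) (nat_lit 14843539496)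 (nat_lit 13) (nat_lit 5) (nat_lit 14) (nat_lit 5) (nat_lit 15) (nat_lit 4) (nat_lit 367) (nat_lit 244) (nat_lit 169)) (XT.nd (nat_lit 78) (nat_lit 0) (nat_lit 0) (XT.lf (nat_lit 0) (nat_lit 20831530111) (nat_lit 76) (nat_lit 1867719545) (nat_lit 152) (nat_lit 11747947932) (nat_lit 13) (nat_lit 5) (nat_lit 14) (nat_lit 5) (nat_lit 15) (nat_lit 4) (nat_lit 368) (nat_lit 244) (nat_lit 168)) (XT.lf (nat_lit 0) (nat_lit 26791797481) (nat_lit 152) (nat_lit 6365053716) (nat_lit 0) (nat_lit 2194778674) (nat_lit 13) (nat_lit 5) (nat_lit 15) (nat_lit 4) (nat_lit 13) (nat_lit 4) (nat_lit 369) (nat_lit 244) (nat_lit 167)))) (XT.nd (nat_lit 156) (nat_lit 76) (nat_lit 0) (XT.nd (nat_lit 78) (nat_lit 0) (nat_lit 0) (XT.lf (nat_lit 0) (nat_lit 1067018520) (nat_lit 76) (nat_lit 29947486650) (nat_lit 76) (nat_lit 5268478326) (nat_lit 12) (nat_lit 4) (nat_lit 13) (nat_lit 5) (nat_lit 13) (nat_lit 4) (nat_lit 370)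 (nat_lit 244) (nat_lit 166)) (XT.lf (nat_lit 0) (nat_lit 8814517606) (nat_lit 76) (nat_lit 26592542268) (nat_lit 76) (nat_lit 1833932471) (nat_lit 12) (nat_lit 4) (nat_lit 13) (nat_lit 5) (nat_lit 13) (nat_lit 4) (nat_lit 371) (nat_lit 244) (nat_lit 165))) (XT.nd (nat_lit 78) (nat_lit 0) (nat_lit 0) (XT.lf (nat_lit 0) (nat_lit 1649699419) (nat_lit 152) (nat_lit 21487002959) (nat_lit 76) (nat_lit 15091178005) (nat_lit 11) (nat_lit 5) (nat_lit 13) (nat_lit 5) (nat_lit 12) (nat_lit 4) (nat_lit 372) (nat_lit 244) (nat_lit 164)) (XT.lf (nat_lit 0) (nat_lit 5180877129) (nat_lit 152) (nat_lit 14393744229) (nat_lit 76) (nat_lit 19669820833) (nat_lit 11) (nat_lit 5) (nat_lit 13) (nat_lit 5) (nat_lit 12) (nat_lit 4) (nat_lit 373) (nat_lit 244) (nat_lit 163)))))) (XT.nd (nat_lit 468) (nat_lit 152) (nat_lit 0) (XT.nd (nat_lit 234) (nat_lit 0) (nat_lit 0) (XT.nd (nat_lit 78) (nat_lit 76) (nat_lit 0) (XT.lf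 (nat_lit 0) (nat_lit 8798472783) (nat_lit 152) (nat_lit 7122871676) (nat_lit 76) (nat_lit 24370750436) (nat_lit 11) (nat_lit 5) (nat_lit 13) (nat_lit 5) (nat_lit 12) (nat_lit 4) (nat_lit 374) (nat_lit 244) (nat_lit 162)) (XT.nd (nat_lit 78) (nat_lit 0) (nat_lit 0) (XT.lf (nat_lit 0) (nat_lit 338574700) (nat_lit 76) (nat_lit 12170327272) (nat_lit 152) (nat_lit 28862754310) (nat_lit 10) (nat_lit 5) (nat_lit 11) (nat_lit 5) (nat_lit 12) (nat_lit 4) (nat_lit 375) (nat_lit 244) (nat_lit 161)) (XT.lf (nat_lit 0) (nat_lit 8136052085) (nat_lit 76) (nat_lit 8247796840) (nat_lit 152) (nat_lit 26098167470) (nat_lit 10) (nat_lit 5) (nat_lit 11) (nat_lit 5) (nat_lit 12) (nat_lit 4) (nat_lit 376) (nat_lit 244) (nat_lit 160)))) (XT.nd (nat_lit 78) (nat_lit 0) (nat_lit 0) (XT.lf (nat_lit 0) (nat_lit 16134614694) (nat_lit 76) (nat_lit 4222252747) (nat_lit 152) (nat_lit 23269372970) (nat_lit 10) (nat_lit 5) (nat_lit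 11) (nat_lit 5) (nat_lit 12) (nat_lit 4) (nat_lit 377) (nat_lit 244) (nat_lit 159)) (XT.nd (nat_lit 78) (nat_lit 0) (nat_lit 0) (XT.lf (nat_lit 0) (nat_lit 24341251563) (nat_lit 76) (nat_lit 90177529) (nat_lit 152) (nat_lit 20373899050) (nat_lit 10) (nat_lit 5) (nat_lit 11) (nat_lit 5) (nat_lit 12) (nat_lit 4) (nat_lit 378) (nat_lit 244) (nat_lit 158)) (XT.lf (nat_lit 0) (nat_lit 28651006116) (nat_lit 152) (nat_lit 13297088260) (nat_lit 0) (nat_lit 4071018122) (nat_lit 10) (nat_lit 5) (nat_lit 12) (nat_lit 4) (nat_lit 10) (nat_lit 4) (nat_lit 379) (nat_lit 244) (nat_lit 157))))) (XT.nd (nat_lit 234) (nat_lit 76) (nat_lit 0) (XT.nd (nat_lit 78) (nat_lit 76) (nat_lit 0) (XT.lf (nat_lit 0) (nat_lit 32981299927) (nat_lit 152) (nat_lit 5946412747) (nat_lit 0) (nat_lit 8342080962) (nat_lit 10) (nat_lit 5) (nat_lit 12) (nat_lit 4) (nat_lit 10) (nat_lit 4) (nat_lit 380) (nat_lit 244) (nat_lit 156))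 (XT.nd (nat_lit 78) (nat_lit 0) (nat_lit 0) (XT.lf (nat_lit 0) (nat_lit 1626988117) (nat_lit 76) (nat_lit 35813878922) (nat_lit 76) (nat_lit 11117154160) (nat_lit 9) (nat_lit 4) (nat_lit 10) (nat_lit 5) (nat_lit 10) (nat_lit 4) (nat_lit 381) (nat_lit 244) (nat_lit 155)) (XT.lf (nat_lit 0) (nat_lit 9520232970) (nat_lit 76) (nat_lit 32557953017) (nat_lit 76) (nat_lit 7805397383) (nat_lit 9) (nat_lit 4) (nat_lit 10) (nat_lit 5) (nat_lit 10) (nat_lit 4) (nat_lit 382) (nat_lit 244) (nat_lit 154)))) (XT.nd (nat_lit 156) (nat_lit 76) (nat_lit 0) (XT.nd (nat_lit 78) (nat_lit 0) (nat_lit 0) (XT.lf (nat_lit 0) (nat_lit 17621873546) (nat_lit 76) (nat_lit 29217137085) (nat_lit 76) (nat_lit 4410376722) (nat_lit 9) (nat_lit 4) (nat_lit 10) (nat_lit 5) (nat_lit 10) (nat_lit 4) (nat_lit 383) (nat_lit 244) (nat_lit 153)) (XT.lf (nat_lit 0) (nat_lit 25938988950) (nat_lit 76) (nat_lit 25788511966) (nat_lit 76)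 (nat_lit 929125652) (nat_lit 9) (nat_lit 4) (nat_lit 10) (nat_lit 5) (nat_lit 10) (nat_lit 4) (nat_lit 384) (nat_lit 244) (nat_lit 152))) (XT.nd (nat_lit 78) (nat_lit 0) (nat_lit 0) (XT.lf (nat_lit 0) (nat_lit 2589854512) (nat_lit 152) (nat_lit 19653074809) (nat_lit 76) (nat_lit 31862839597) (nat_lit 8) (nat_lit 5) (nat_lit 10) (nat_lit 5) (nat_lit 9) (nat_lit 4) (nat_lit 385) (nat_lit 244) (nat_lit 151)) (XT.lf (nat_lit 0) (nat_lit 6181293339) (nat_lit 152) (nat_lit 12412058997) (nat_lit 76) (nat_lit 37005196114) (nat_lit 8) (nat_lit 5) (nat_lit 10) (nat_lit 5) (nat_lit 9) (nat_lit 4) (nat_lit 386) (nat_lit 244) (nat_lit 150))))))))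
noncomputable def xc67 : XT := (XT.nd (nat_lit 33384) (nat_lit 0) (nat_lit 3952) (XT.nd (nat_lit 1014) (nat_lit 152) (nat_lit 0) (XT.nd (nat_lit 468) (nat_lit 76) (nat_lit 0) (XT.nd (nat_lit 234) (nat_lit 0) (nat_lit 0) (XT.nd (nat_lit 78) (nat_lit 76) (nat_lit 0) (XT.lf (nat_lit 0) (nat_lit 9866459565) (nat_lit 152) (nat_lit 4979331758) (nat_lit 76) (nat_lit 42290746151) (nat_lit 8) (nat_lit 5) (nat_lit 10) (nat_lit 5) (nat_lit 9) (nat_lit 4) (nat_lit 387) (nat_lit 244) (nat_lit 149)) (XT.nd (nat_lit 78) (nat_lit 0) (nat_lit 0) (XT.lf (nat_lit 0) (nat_lit 2704373593) (nat_lit 76) (nat_lit 10970195739) (nat_lit 152) (nat_lit 45045730647) (nat_lit 7) (nat_lit 5) (nat_lit 8) (nat_lit 5) (nat_lit 9) (nat_lit 4) (nat_lit 388) (nat_lit 244) (nat_lit 148)) (XT.lf (nat_lit 0) (nat_lit 10696128652) (nat_lit 76) (nat_lit 6937628201) (nat_lit 152) (nat_lit 42716718784) (nat_lit 7) (nat_lit 5) (nat_lit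 8) (nat_lit 5) (nat_lit 9) (nat_lit 4) (nat_lit 389) (nat_lit 244) (nat_lit 147)))) (XT.nd (nat_lit 78) (nat_lit 0) (nat_lit 0) (XT.lf (nat_lit 0) (nat_lit 18903818038) (nat_lit 76) (nat_lit 2794846594) (nat_lit 152) (nat_lit 40331288746) (nat_lit 7) (nat_lit 5) (nat_lit 8) (nat_lit 5) (nat_lit 9) (nat_lit 4) (nat_lit 390) (nat_lit 244) (nat_lit 146)) (XT.nd (nat_lit 78) (nat_lit 0) (nat_lit 0) (XT.lf (nat_lit 0) (nat_lit 25886895949) (nat_lit 152) (nat_lit 36439638609) (nat_lit 0) (nat_lit 1433244609) (nat_lit 7) (nat_lit 5) (nat_lit 9) (nat_lit 4) (nat_lit 7) (nat_lit 4) (nat_lit 391) (nat_lit 244) (nat_lit 145)) (XT.lf (nat_lit 0) (nat_lit 30216042497) (nat_lit 152) (nat_lit 29602946295) (nat_lit 0) (nat_lit 5722057748) (nat_lit 7) (nat_lit 5) (nat_lit 9) (nat_lit 4) (nat_lit 7) (nat_lit 4) (nat_lit 392) (nat_lit 244) (nat_lit 144))))) (XT.nd (nat_lit 234) (nat_lit 76) (nat_lit 0) (XT.nd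 (nat_lit 78) (nat_lit 0) (nat_lit 0) (XT.lf (nat_lit 0) (nat_lit 34663021251) (nat_lit 152) (nat_lit 22583218813) (nat_lit 0) (nat_lit 10129877852) (nat_lit 7) (nat_lit 5) (nat_lit 9) (nat_lit 4) (nat_lit 7) (nat_lit 4) (nat_lit 393) (nat_lit 244) (nat_lit 143)) (XT.nd (nat_lit 78) (nat_lit 0) (nat_lit 0) (XT.lf (nat_lit 0) (nat_lit 39231717921) (nat_lit 152) (nat_lit 15374322422) (nat_lit 0) (nat_lit 14660556415) (nat_lit 7) (nat_lit 5) (nat_lit 9) (nat_lit 4) (nat_lit 7) (nat_lit 4) (nat_lit 394) (nat_lit 244) (nat_lit 142)) (XT.lf (nat_lit 0) (nat_lit 43926124571) (nat_lit 152) (nat_lit 7969958086) (nat_lit 0) (nat_lit 19318052281) (nat_lit 7) (nat_lit 5) (nat_lit 9) (nat_lit 4) (nat_lit 7) (nat_lit 4) (nat_lit 395) (nat_lit 244) (nat_lit 141)))) (XT.nd (nat_lit 156) (nat_lit 0) (nat_lit 0) (XT.nd (nat_lit 78) (nat_lit 76) (nat_lit 0) (XT.lf (nat_lit 0) (nat_lit 48750343110) (nat_lit 152)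 (nat_lit 363655972) (nat_lit 0) (nat_lit 24106435109) (nat_lit 7) (nat_lit 5) (nat_lit 9) (nat_lit 4) (nat_lit 7) (nat_lit 4) (nat_lit 396) (nat_lit 244) (nat_lit 140)) (XT.lf (nat_lit 0) (nat_lit 7599524294) (nat_lit 76) (nat_lit 46182115856) (nat_lit 76) (nat_lit 21503415902) (nat_lit 6) (nat_lit 4) (nat_lit 7) (nat_lit 5) (nat_lit 7) (nat_lit 4) (nat_lit 397) (nat_lit 244) (nat_lit 139))) (XT.nd (nat_lit 78) (nat_lit 0) (nat_lit 0) (XT.lf (nat_lit 0) (nat_lit 15789641764) (nat_lit 76) (nat_lit 43167332244) (nat_lit 76) (nat_lit 18454853694) (nat_lit 6) (nat_lit 4) (nat_lit 7) (nat_lit 5) (nat_lit 7) (nat_lit 4) (nat_lit 398) (nat_lit 244) (nat_lit 138)) (XT.lf (nat_lit 0) (nat_lit 24206615383) (nat_lit 76) (nat_lit 40070686180) (nat_lit 76) (nat_lit 15325412878) (nat_lit 6) (nat_lit 4) (nat_lit 7) (nat_lit 5) (nat_lit 7) (nat_lit 4) (nat_lit 399) (nat_lit 244) (nat_lit 137)))))) (XT.nd (nat_lit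 468) (nat_lit 76) (nat_lit 0) (XT.nd (nat_lit 234) (nat_lit 76) (nat_lit 0) (XT.nd (nat_lit 78) (nat_lit 0) (nat_lit 0) (XT.lf (nat_lit 0) (nat_lit 32857799789) (nat_lit 76) (nat_lit 36889471858) (nat_lit 76) (nat_lit 12112358990) (nat_lit 6) (nat_lit 4) (nat_lit 7) (nat_lit 5) (nat_lit 7) (nat_lit 4) (nat_lit 400) (nat_lit 244) (nat_lit 136)) (XT.nd (nat_lit 78) (nat_lit 0) (nat_lit 0) (XT.lf (nat_lit 0) (nat_lit 41750754268) (nat_lit 76) (nat_lit 33620909576) (nat_lit 76) (nat_lit 8812884508) (nat_lit 6) (nat_lit 4) (nat_lit 7) (nat_lit 5) (nat_lit 7) (nat_lit 4) (nat_lit 401) (nat_lit 244) (nat_lit 135)) (XT.lf (nat_lit 0) (nat_lit 50893249364) (nat_lit 76) (nat_lit 30262143309) (nat_lit 76) (nat_lit 5424106396) (nat_lit 6) (nat_lit 4) (nat_lit 7) (nat_lit 5) (nat_lit 7) (nat_lit 4) (nat_lit 402) (nat_lit 244) (nat_lit 134)))) (XT.nd (nat_lit 78) (nat_lit 76) (nat_lit 0) (XT.lf (nat_lit 0)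 (nat_lit 60293273664) (nat_lit 76) (nat_lit 26810238211) (nat_lit 76) (nat_lit 1943063585) (nat_lit 6) (nat_lit 4) (nat_lit 7) (nat_lit 5) (nat_lit 7) (nat_lit 4) (nat_lit 403) (nat_lit 244) (nat_lit 133)) (XT.nd (nat_lit 78) (nat_lit 0) (nat_lit 0) (XT.lf (nat_lit 0) (nat_lit 1601414325) (nat_lit 152) (nat_lit 21644592586) (nat_lit 76) (nat_lit 68341455311) (nat_lit 5) (nat_lit 5) (nat_lit 7) (nat_lit 5) (nat_lit 6) (nat_lit 4) (nat_lit 404) (nat_lit 244) (nat_lit 132)) (XT.lf (nat_lit 0) (nat_lit 5204486669) (nat_lit 152) (nat_lit 14357820816) (nat_lit 76) (nat_lit 74641954753) (nat_lit 5) (nat_lit 5) (nat_lit 7) (nat_lit 5) (nat_lit 6) (nat_lit 4) (nat_lit 405) (nat_lit 244) (nat_lit 131))))) (XT.nd (nat_lit 31590) (nat_lit 0) (nat_lit 10488) (XT.nd (nat_lit 78) (nat_lit 76) (nat_lit 0) (XT.lf (nat_lit 0) (nat_lit 8907217931) (nat_lit 152) (nat_lit 6867941491) (nat_lit 76) (nat_lit 81124662951)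 (nat_lit 5) (nat_lit 5) (nat_lit 7) (nat_lit 5) (nat_lit 6) (nat_lit 4) (nat_lit 406) (nat_lit 244) (nat_lit 130)) (XT.nd (nat_lit 78) (nat_lit 0) (nat_lit 0) (XT.lf (nat_lit 0) (nat_lit 848140214) (nat_lit 76) (nat_lit 11872856133) (nat_lit 152) (nat_lit 86955257034) (nat_lit 4) (nat_lit 5) (nat_lit 5) (nat_lit 5) (nat_lit 6) (nat_lit 4) (nat_lit 407) (nat_lit 244) (nat_lit 129)) (XT.lf (nat_lit 0) (nat_lit 8921593662) (nat_lit 76) (nat_lit 7788854851) (nat_lit 152) (nat_lit 85823693936) (nat_lit 4) (nat_lit 5) (nat_lit 5) (nat_lit 5) (nat_lit 6) (nat_lit 4) (nat_lit 408) (nat_lit 244) (nat_lit 128)))) (XT.nd (nat_lit 156) (nat_lit 608) (nat_lit 0) (XT.nd (nat_lit 78) (nat_lit 608) (nat_lit 0) (XT.lf (nat_lit 0) (nat_lit 1704839425) (nat_lit 608) (nat_lit 1023694402) (nat_lit 608) (nat_lit 1023694402) (nat_lit 158) (nat_lit 4) (nat_lit 166) (nat_lit 5) (nat_lit 166) (nat_lit 4) (nat_lit 290)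 (nat_lit 245) (nat_lit 245)) (XT.lf (nat_lit 0) (nat_lit 986469727) (nat_lit 532) (nat_lit 209827098) (nat_lit 608) (nat_lit 6384248455) (nat_lit 150) (nat_lit 5) (nat_lit 157) (nat_lit 5) (nat_lit 158) (nat_lit 4) (nat_lit 291) (nat_lit 245) (nat_lit 244))) (XT.nd (nat_lit 78) (nat_lit 608) (nat_lit 0) (XT.lf (nat_lit 0) (nat_lit 4461988150) (nat_lit 608) (nat_lit 1494768543) (nat_lit 0) (nat_lit 1702740301) (nat_lit 150) (nat_lit 5) (nat_lit 158) (nat_lit 4) (nat_lit 150) (nat_lit 4) (nat_lit 292) (nat_lit 245) (nat_lit 243)) (XT.lf (nat_lit 0) (nat_lit 31006761) (nat_lit 608) (nat_lit 4015950135) (nat_lit 76) (nat_lit 3695555361) (nat_lit 142) (nat_lit 5) (nat_lit 150) (nat_lit 5) (nat_lit 143) (nat_lit 4) (nat_lit 293) (nat_lit 245) (nat_lit 242))))))) (XT.nd (nat_lit 1014) (nat_lit 2584) (nat_lit 0) (XT.nd (nat_lit 468) (nat_lit 1976) (nat_lit 0) (XT.nd (nat_lit 234) (nat_lit 988) (nat_lit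 0) (XT.nd (nat_lit 78) (nat_lit 532) (nat_lit 0) (XT.lf (nat_lit 0) (nat_lit 1196944019) (nat_lit 456) (nat_lit 2033128690) (nat_lit 532) (nat_lit 4599006506) (nat_lit 136) (nat_lit 5) (nat_lit 142) (nat_lit 5) (nat_lit 143) (nat_lit 4) (nat_lit 294) (nat_lit 245) (nat_lit 241)) (XT.nd (nat_lit 78) (nat_lit 532) (nat_lit 0) (XT.lf (nat_lit 0) (nat_lit 6479151006) (nat_lit 532) (nat_lit 1373112538) (nat_lit 0) (nat_lit 67503904) (nat_lit 136) (nat_lit 5) (nat_lit 143) (nat_lit 4) (nat_lit 136) (nat_lit 4) (nat_lit 295) (nat_lit 245) (nat_lit 240)) (XT.lf (nat_lit 0) (nat_lit 1750580363) (nat_lit 532) (nat_lit 4030457353) (nat_lit 76) (nat_lit 2232550325) (nat_lit 129) (nat_lit 5) (nat_lit 136) (nat_lit 5) (nat_lit 130) (nat_lit 4) (nat_lit 296) (nat_lit 245) (nat_lit 239)))) (XT.nd (nat_lit 78) (nat_lit 532) (nat_lit 0) (XT.lf (nat_lit 0) (nat_lit 1328286526) (nat_lit 456) (nat_lit 3622826903)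 (nat_lit 532) (nat_lit 3160538391) (nat_lit 123) (nat_lit 5) (nat_lit 129) (nat_lit 5) (nat_lit 130) (nat_lit 4) (nat_lit 297) (nat_lit 245) (nat_lit 238)) (XT.nd (nat_lit 78) (nat_lit 532) (nat_lit 0) (XT.lf (nat_lit 0) (nat_lit 6829775849) (nat_lit 456) (nat_lit 1375855847) (nat_lit 532) (nat_lit 8415994) (nat_lit 123) (nat_lit 5) (nat_lit 129) (nat_lit 5) (nat_lit 130) (nat_lit 4) (nat_lit 298) (nat_lit 245) (nat_lit 237)) (XT.lf (nat_lit 0) (nat_lit 3143057051) (nat_lit 532) (nat_lit 4202749008) (nat_lit 76) (nat_lit 973858046) (nat_lit 116) (nat_lit 5) (nat_lit 123) (nat_lit 5) (nat_lit 117) (nat_lit 4) (nat_lit 299) (nat_lit 245) (nat_lit 236))))) (XT.nd (nat_lit 234) (nat_lit 1140) (nat_lit 0) (XT.nd (nat_lit 78) (nat_lit 456) (nat_lit 0) (XT.lf (nat_lit 0) (nat_lit 1294089064) (nat_lit 380) (nat_lit 5054995995) (nat_lit 456) (nat_lit 2080674342) (nat_lit 111) (nat_lit 5) (nat_lit 116)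 (nat_lit 5) (nat_lit 117) (nat_lit 4) (nat_lit 300) (nat_lit 245) (nat_lit 235)) (XT.nd (nat_lit 78) (nat_lit 380) (nat_lit 0) (XT.lf (nat_lit 0) (nat_lit 1049853001) (nat_lit 456) (nat_lit 1612481366) (nat_lit 76) (nat_lit 5881714911) (nat_lit 110) (nat_lit 5) (nat_lit 116) (nat_lit 5) (nat_lit 111) (nat_lit 5) (nat_lit 301) (nat_lit 245) (nat_lit 234)) (XT.lf (nat_lit 0) (nat_lit 4036006918) (nat_lit 380) (nat_lit 158063081) (nat_lit 456) (nat_lit 4468340278) (nat_lit 105) (nat_lit 5) (nat_lit 110) (nat_lit 5) (nat_lit 111) (nat_lit 5) (nat_lit 302) (nat_lit 245) (nat_lit 233)))) (XT.nd (nat_lit 156) (nat_lit 684) (nat_lit 0) (XT.nd (nat_lit 78) (nat_lit 76) (nat_lit 0) (XT.lf (nat_lit 0) (nat_lit 999477550) (nat_lit 380) (nat_lit 6406361834) (nat_lit 456) (nat_lit 1379391042) (nat_lit 100) (nat_lit 5) (nat_lit 105) (nat_lit 5) (nat_lit 106) (nat_lit 4) (nat_lit 303) (nat_lit 245) (nat_lit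 232)) (XT.lf (nat_lit 0) (nat_lit 1740128689) (nat_lit 456) (nat_lit 2141100568) (nat_lit 76) (nat_lit 5030893165) (nat_lit 99) (nat_lit 5) (nat_lit 105) (nat_lit 5) (nat_lit 100) (nat_lit 5) (nat_lit 304) (nat_lit 245) (nat_lit 231))) (XT.nd (nat_lit 78) (nat_lit 304) (nat_lit 0) (XT.lf (nat_lit 0) (nat_lit 3632657189) (nat_lit 380) (nat_lit 1254300701) (nat_lit 456) (nat_lit 4156706296) (nat_lit 94) (nat_lit 5) (nat_lit 99) (nat_lit 5) (nat_lit 100) (nat_lit 5) (nat_lit 305) (nat_lit 245) (nat_lit 230)) (XT.lf (nat_lit 0) (nat_lit 338926549) (nat_lit 304) (nat_lit 7755818560) (nat_lit 380) (nat_lit 1085503873) (nat_lit 90) (nat_lit 5) (nat_lit 94) (nat_lit 5) (nat_lit 95) (nat_lit 4) (nat_lit 306) (nat_lit 245) (nat_lit 229)))))) (XT.nd (nat_lit 546) (nat_lit 1140) (nat_lit 0) (XT.nd (nat_lit 234) (nat_lit 988) (nat_lit 0) (XT.nd (nat_lit 78) (nat_lit 380) (nat_lit 0) (XT.lf (nat_lit 0) (nat_lit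 2032775565) (nat_lit 380) (nat_lit 3079039616) (nat_lit 76) (nat_lit 4208740348) (nat_lit 89) (nat_lit 5) (nat_lit 94) (nat_lit 5) (nat_lit 90) (nat_lit 5) (nat_lit 307) (nat_lit 245) (nat_lit 228)) (XT.nd (nat_lit 78) (nat_lit 0) (nat_lit 0) (XT.lf (nat_lit 0) (nat_lit 2803871228) (nat_lit 380) (nat_lit 2375854129) (nat_lit 456) (nat_lit 4286400755) (nat_lit 84) (nat_lit 5) (nat_lit 89) (nat_lit 5) (nat_lit 90) (nat_lit 5) (nat_lit 308) (nat_lit 245) (nat_lit 227)) (XT.lf (nat_lit 0) (nat_lit 8387591270) (nat_lit 456) (nat_lit 790462205) (nat_lit 76) (nat_lit 439098071) (nat_lit 84) (nat_lit 5) (nat_lit 90) (nat_lit 5) (nat_lit 85) (nat_lit 4) (nat_lit 309) (nat_lit 245) (nat_lit 226)))) (XT.nd (nat_lit 156) (nat_lit 304) (nat_lit 0) (XT.nd (nat_lit 78) (nat_lit 304) (nat_lit 0) (XT.lf (nat_lit 0) (nat_lit 1888309964) (nat_lit 380) (nat_lit 4549177527) (nat_lit 76) (nat_lit 3334541934) (nat_lit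 79) (nat_lit 5) (nat_lit 84) (nat_lit 5) (nat_lit 80) (nat_lit 5) (nat_lit 310) (nat_lit 245) (nat_lit 225)) (XT.lf (nat_lit 0) (nat_lit 1422142998) (nat_lit 304) (nat_lit 3607789367) (nat_lit 380) (nat_lit 4902684113) (nat_lit 75) (nat_lit 5) (nat_lit 79) (nat_lit 5) (nat_lit 80) (nat_lit 5) (nat_lit 311) (nat_lit 245) (nat_lit 224))) (XT.nd (nat_lit 78) (nat_lit 304) (nat_lit 0) (XT.lf (nat_lit 0) (nat_lit 7571976140) (nat_lit 304) (nat_lit 674005679) (nat_lit 380) (nat_lit 1852707682) (nat_lit 75) (nat_lit 5) (nat_lit 79) (nat_lit 5) (nat_lit 80) (nat_lit 5) (nat_lit 312) (nat_lit 245) (nat_lit 223)) (XT.lf (nat_lit 0) (nat_lit 1256462568) (nat_lit 304) (nat_lit 6691147442) (nat_lit 76) (nat_lit 2322047244) (nat_lit 71) (nat_lit 5) (nat_lit 75) (nat_lit 5) (nat_lit 72) (nat_lit 5) (nat_lit 313) (nat_lit 245) (nat_lit 222))))) (XT.nd (nat_lit 234) (nat_lit 532) (nat_lit 0) (XT.nd (nat_lit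 78) (nat_lit 608) (nat_lit 0) (XT.lf (nat_lit 0) (nat_lit 4390294712) (nat_lit 304) (nat_lit 644871111) (nat_lit 76) (nat_lit 5411046632) (nat_lit 71) (nat_lit 5) (nat_lit 75) (nat_lit 5) (nat_lit 72) (nat_lit 5) (nat_lit 314) (nat_lit 245) (nat_lit 221)) (XT.nd (nat_lit 78) (nat_lit 304) (nat_lit 0) (XT.lf (nat_lit 0) (nat_lit 5601518969) (nat_lit 304) (nat_lit 2008510388) (nat_lit 380) (nat_lit 3018343822) (nat_lit 67) (nat_lit 5) (nat_lit 71) (nat_lit 5) (nat_lit 72) (nat_lit 5) (nat_lit 315) (nat_lit 245) (nat_lit 220)) (XT.lf (nat_lit 0) (nat_lit 74845514) (nat_lit 304) (nat_lit 9664600803) (nat_lit 76) (nat_lit 1077583064) (nat_lit 63) (nat_lit 5) (nat_lit 67) (nat_lit 5) (nat_lit 64) (nat_lit 5) (nat_lit 316) (nat_lit 245) (nat_lit 219)))) (XT.nd (nat_lit 156) (nat_lit 304) (nat_lit 0) (XT.nd (nat_lit 78) (nat_lit 228) (nat_lit 0) (XT.lf (nat_lit 0) (nat_lit 3210281818) (nat_lit 304)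 (nat_lit 3531650517) (nat_lit 76) (nat_lit 4268272822) (nat_lit 63) (nat_lit 5) (nat_lit 67) (nat_lit 5) (nat_lit 64) (nat_lit 5) (nat_lit 317) (nat_lit 245) (nat_lit 218)) (XT.lf (nat_lit 0) (nat_lit 2749929795) (nat_lit 228) (nat_lit 3657029897) (nat_lit 304) (nat_lit 4803259348) (nat_lit 60) (nat_lit 5) (nat_lit 63) (nat_lit 5) (nat_lit 64) (nat_lit 5) (nat_lit 318) (nat_lit 245) (nat_lit 217))) (XT.nd (nat_lit 78) (nat_lit 304) (nat_lit 0) (XT.lf (nat_lit 0) (nat_lit 9204206115) (nat_lit 228) (nat_lit 472617577) (nat_lit 304) (nat_lit 1740147569) (nat_lit 60) (nat_lit 5) (nat_lit 63) (nat_lit 5) (nat_lit 64) (nat_lit 5) (nat_lit 319) (nat_lit 245) (nat_lit 216)) (XT.lf (nat_lit 0) (nat_lit 1397604030) (nat_lit 304) (nat_lit 7453471378) (nat_lit 76) (nat_lit 2778185213) (nat_lit 56) (nat_lit 5) (nat_lit 60) (nat_lit 5) (nat_lit 57) (nat_lit 5) (nat_lit 320) (nat_lit 245) (nat_lit 215))))))))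
noncomputable def xc68 : XT := (XT.nd (nat_lit 2028) (nat_lit 988) (nat_lit 0) (XT.nd (nat_lit 1014) (nat_lit 988) (nat_lit 0) (XT.nd (nat_lit 468) (nat_lit 684) (nat_lit 0) (XT.nd (nat_lit 234) (nat_lit 456) (nat_lit 0) (XT.nd (nat_lit 78) (nat_lit 228) (nat_lit 0) (XT.lf (nat_lit 0) (nat_lit 4565025984) (nat_lit 304) (nat_lit 1155402339) (nat_lit 76) (nat_lit 6127909773) (nat_lit 56) (nat_lit 5) (nat_lit 60) (nat_lit 5) (nat_lit 57) (nat_lit 5) (nat_lit 321) (nat_lit 245) (nat_lit 214)) (XT.nd (nat_lit 78) (nat_lit 0) (nat_lit 0) (XT.lf (nat_lit 0) (nat_lit 5351190950) (nat_lit 228) (nat_lit 2472638805) (nat_lit 304) (nat_lit 4250317559) (nat_lit 53) (nat_lit 5) (nat_lit 56) (nat_lit 5) (nat_lit 57) (nat_lit 5) (nat_lit 322) (nat_lit 245) (nat_lit 213)) (XT.lf (nat_lit 0) (nat_lit 11145999520) (nat_lit 304) (nat_lit 323616044) (nat_lit 76) (nat_lit 838195921) (nat_lit 53) (nat_lit 5) (nat_lit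 57) (nat_lit 5) (nat_lit 54) (nat_lit 4) (nat_lit 323) (nat_lit 245) (nat_lit 212)))) (XT.nd (nat_lit 78) (nat_lit 228) (nat_lit 0) (XT.lf (nat_lit 0) (nat_lit 2012110868) (nat_lit 228) (nat_lit 6284388593) (nat_lit 76) (nat_lit 4250484712) (nat_lit 50) (nat_lit 5) (nat_lit 53) (nat_lit 5) (nat_lit 51) (nat_lit 5) (nat_lit 324) (nat_lit 245) (nat_lit 211)) (XT.nd (nat_lit 78) (nat_lit 0) (nat_lit 0) (XT.lf (nat_lit 0) (nat_lit 168349465) (nat_lit 228) (nat_lit 5041681590) (nat_lit 304) (nat_lit 7584436564) (nat_lit 47) (nat_lit 5) (nat_lit 50) (nat_lit 5) (nat_lit 51) (nat_lit 5) (nat_lit 325) (nat_lit 245) (nat_lit 210)) (XT.lf (nat_lit 0) (nat_lit 6861115538) (nat_lit 228) (nat_lit 1654191365) (nat_lit 304) (nat_lit 4533769422) (nat_lit 47) (nat_lit 5) (nat_lit 50) (nat_lit 5) (nat_lit 51) (nat_lit 5) (nat_lit 326) (nat_lit 245) (nat_lit 209))))) (XT.nd (nat_lit 234) (nat_lit 228) (nat_lit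 0) (XT.nd (nat_lit 78) (nat_lit 304) (nat_lit 0) (XT.lf (nat_lit 0) (nat_lit 351304832) (nat_lit 152) (nat_lit 11538642281) (nat_lit 228) (nat_lit 1422312033) (nat_lit 45) (nat_lit 5) (nat_lit 47) (nat_lit 5) (nat_lit 48) (nat_lit 4) (nat_lit 327) (nat_lit 245) (nat_lit 208)) (XT.nd (nat_lit 78) (nat_lit 228) (nat_lit 0) (XT.lf (nat_lit 0) (nat_lit 1776550495) (nat_lit 228) (nat_lit 6483502615) (nat_lit 76) (nat_lit 5321944607) (nat_lit 44) (nat_lit 5) (nat_lit 47) (nat_lit 5) (nat_lit 45) (nat_lit 5) (nat_lit 328) (nat_lit 245) (nat_lit 207)) (XT.lf (nat_lit 0) (nat_lit 96952007) (nat_lit 228) (nat_lit 4897607833) (nat_lit 304) (nat_lit 8866331568) (nat_lit 41) (nat_lit 5) (nat_lit 44) (nat_lit 5) (nat_lit 45) (nat_lit 5) (nat_lit 329) (nat_lit 245) (nat_lit 206)))) (XT.nd (nat_lit 156) (nat_lit 228) (nat_lit 0) (XT.nd (nat_lit 78) (nat_lit 0) (nat_lit 0) (XT.lf (nat_lit 0) (nat_lit 6929371290)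 (nat_lit 228) (nat_lit 1396723648) (nat_lit 304) (nat_lit 5821584756) (nat_lit 41) (nat_lit 5) (nat_lit 44) (nat_lit 5) (nat_lit 45) (nat_lit 5) (nat_lit 330) (nat_lit 245) (nat_lit 205)) (XT.lf (nat_lit 0) (nat_lit 11731460388) (nat_lit 304) (nat_lit 574786485) (nat_lit 76) (nat_lit 2137644487) (nat_lit 41) (nat_lit 5) (nat_lit 45) (nat_lit 5) (nat_lit 42) (nat_lit 4) (nat_lit 331) (nat_lit 245) (nat_lit 204))) (XT.nd (nat_lit 78) (nat_lit 0) (nat_lit 0) (XT.lf (nat_lit 0) (nat_lit 509119798) (nat_lit 228) (nat_lit 8450964293) (nat_lit 76) (nat_lit 5787937641) (nat_lit 38) (nat_lit 5) (nat_lit 41) (nat_lit 5) (nat_lit 39) (nat_lit 5) (nat_lit 332) (nat_lit 245) (nat_lit 203)) (XT.lf (nat_lit 0) (nat_lit 3732831726) (nat_lit 228) (nat_lit 1776378123) (nat_lit 76) (nat_lit 9552492724) (nat_lit 38) (nat_lit 5) (nat_lit 41) (nat_lit 5) (nat_lit 39) (nat_lit 5) (nat_lit 333) (nat_lit 245) (nat_lit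 202)))))) (XT.nd (nat_lit 468) (nat_lit 456) (nat_lit 0) (XT.nd (nat_lit 234) (nat_lit 228) (nat_lit 0) (XT.nd (nat_lit 78) (nat_lit 152) (nat_lit 0) (XT.lf (nat_lit 0) (nat_lit 5125449716) (nat_lit 152) (nat_lit 1932579230) (nat_lit 228) (nat_lit 8326653893) (nat_lit 36) (nat_lit 5) (nat_lit 38) (nat_lit 5) (nat_lit 39) (nat_lit 5) (nat_lit 334) (nat_lit 245) (nat_lit 201)) (XT.nd (nat_lit 78) (nat_lit 152) (nat_lit 0) (XT.lf (nat_lit 0) (nat_lit 10473765649) (nat_lit 228) (nat_lit 3536451805) (nat_lit 76) (nat_lit 1707442832) (nat_lit 36) (nat_lit 5) (nat_lit 39) (nat_lit 5) (nat_lit 37) (nat_lit 4) (nat_lit 335) (nat_lit 245) (nat_lit 200)) (XT.lf (nat_lit 0) (nat_lit 3363273939) (nat_lit 152) (nat_lit 10637284200) (nat_lit 228) (nat_lit 2059841773) (nat_lit 34) (nat_lit 5) (nat_lit 36) (nat_lit 5) (nat_lit 37) (nat_lit 4) (nat_lit 336) (nat_lit 245) (nat_lit 199)))) (XT.nd (nat_lit 78) (nat_lit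 152) (nat_lit 0) (XT.lf (nat_lit 0) (nat_lit 1189238598) (nat_lit 228) (nat_lit 5953358896) (nat_lit 76) (nat_lit 9270701896) (nat_lit 33) (nat_lit 5) (nat_lit 36) (nat_lit 5) (nat_lit 34) (nat_lit 5) (nat_lit 337) (nat_lit 245) (nat_lit 198)) (XT.nd (nat_lit 78) (nat_lit 0) (nat_lit 0) (XT.lf (nat_lit 0) (nat_lit 920962716) (nat_lit 152) (nat_lit 3540768600) (nat_lit 228) (nat_lit 12315450273) (nat_lit 31) (nat_lit 5) (nat_lit 33) (nat_lit 5) (nat_lit 34) (nat_lit 5) (nat_lit 338) (nat_lit 245) (nat_lit 197)) (XT.lf (nat_lit 0) (nat_lit 7853507719) (nat_lit 228) (nat_lit 9098490816) (nat_lit 76) (nat_lit 199375432) (nat_lit 31) (nat_lit 5) (nat_lit 34) (nat_lit 5) (nat_lit 32) (nat_lit 4) (nat_lit 339) (nat_lit 245) (nat_lit 196))))) (XT.nd (nat_lit 234) (nat_lit 228) (nat_lit 0) (XT.nd (nat_lit 78) (nat_lit 228) (nat_lit 0) (XT.lf (nat_lit 0) (nat_lit 11342066173) (nat_lit 228) (nat_lit 2240704750)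 (nat_lit 76) (nat_lit 3954196527) (nat_lit 31) (nat_lit 5) (nat_lit 34) (nat_lit 5) (nat_lit 32) (nat_lit 4) (nat_lit 340) (nat_lit 245) (nat_lit 195)) (XT.nd (nat_lit 78) (nat_lit 76) (nat_lit 0) (XT.lf (nat_lit 0) (nat_lit 4851844560) (nat_lit 152) (nat_lit 10091213236) (nat_lit 228) (nat_lit 2990863083) (nat_lit 29) (nat_lit 5) (nat_lit 31) (nat_lit 5) (nat_lit 32) (nat_lit 4) (nat_lit 341) (nat_lit 245) (nat_lit 194)) (XT.lf (nat_lit 0) (nat_lit 287352138) (nat_lit 228) (nat_lit 6207997739) (nat_lit 76) (nat_lit 11847845070) (nat_lit 28) (nat_lit 5) (nat_lit 31) (nat_lit 5) (nat_lit 29) (nat_lit 5) (nat_lit 342) (nat_lit 245) (nat_lit 193)))) (XT.nd (nat_lit 156) (nat_lit 76) (nat_lit 0) (XT.nd (nat_lit 78) (nat_lit 0) (nat_lit 0) (XT.lf (nat_lit 0) (nat_lit 794307918) (nat_lit 152) (nat_lit 2779497411) (nat_lit 228) (nat_lit 15190976661) (nat_lit 26) (nat_lit 5) (nat_lit 28) (nat_lit 5)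 (nat_lit 29) (nat_lit 5) (nat_lit 343) (nat_lit 245) (nat_lit 192)) (XT.lf (nat_lit 0) (nat_lit 6994840271) (nat_lit 228) (nat_lit 11138030575) (nat_lit 76) (nat_lit 1065088752) (nat_lit 26) (nat_lit 5) (nat_lit 29) (nat_lit 5) (nat_lit 27) (nat_lit 4) (nat_lit 344) (nat_lit 245) (nat_lit 191))) (XT.nd (nat_lit 78) (nat_lit 76) (nat_lit 0) (XT.lf (nat_lit 0) (nat_lit 10509721649) (nat_lit 228) (nat_lit 4190407463) (nat_lit 76) (nat_lit 4944288899) (nat_lit 26) (nat_lit 5) (nat_lit 29) (nat_lit 5) (nat_lit 27) (nat_lit 4) (nat_lit 345) (nat_lit 245) (nat_lit 190)) (XT.lf (nat_lit 0) (nat_lit 2963003093) (nat_lit 76) (nat_lit 11160281594) (nat_lit 152) (nat_lit 5981209731) (nat_lit 25) (nat_lit 5) (nat_lit 26) (nat_lit 5) (nat_lit 27) (nat_lit 4) (nat_lit 346) (nat_lit 245) (nat_lit 189))))))) (XT.nd (nat_lit 1014) (nat_lit 380) (nat_lit 0) (XT.nd (nat_lit 468) (nat_lit 304) (nat_lit 0) (XT.nd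 (nat_lit 234) (nat_lit 76) (nat_lit 0) (XT.nd (nat_lit 78) (nat_lit 228) (nat_lit 0) (XT.lf (nat_lit 0) (nat_lit 10357047845) (nat_lit 76) (nat_lit 7495725822) (nat_lit 152) (nat_lit 2725394560) (nat_lit 25) (nat_lit 5) (nat_lit 26) (nat_lit 5) (nat_lit 27) (nat_lit 4) (nat_lit 347) (nat_lit 245) (nat_lit 188)) (XT.nd (nat_lit 78) (nat_lit 152) (nat_lit 0) (XT.lf (nat_lit 0) (nat_lit 581702127) (nat_lit 152) (nat_lit 3157998475) (nat_lit 76) (nat_lit 17327214106) (nat_lit 24) (nat_lit 5) (nat_lit 26) (nat_lit 5) (nat_lit 25) (nat_lit 5) (nat_lit 348) (nat_lit 245) (nat_lit 187)) (XT.lf (nat_lit 0) (nat_lit 3941298509) (nat_lit 228) (nat_lit 17457822615) (nat_lit 76) (nat_lit 170169926) (nat_lit 22) (nat_lit 5) (nat_lit 25) (nat_lit 5) (nat_lit 23) (nat_lit 4) (nat_lit 349) (nat_lit 245) (nat_lit 186)))) (XT.nd (nat_lit 78) (nat_lit 76) (nat_lit 0) (XT.lf (nat_lit 0) (nat_lit 7437965243) (nat_lit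 228) (nat_lit 10516689537) (nat_lit 76) (nat_lit 4131013801) (nat_lit 22) (nat_lit 5) (nat_lit 25) (nat_lit 5) (nat_lit 23) (nat_lit 4) (nat_lit 350) (nat_lit 245) (nat_lit 185)) (XT.nd (nat_lit 78) (nat_lit 76) (nat_lit 0) (XT.lf (nat_lit 0) (nat_lit 11007542068) (nat_lit 228) (nat_lit 3422973237) (nat_lit 76) (nat_lit 8187999671) (nat_lit 22) (nat_lit 5) (nat_lit 25) (nat_lit 5) (nat_lit 23) (nat_lit 4) (nat_lit 351) (nat_lit 245) (nat_lit 184)) (XT.lf (nat_lit 0) (nat_lit 3905739728) (nat_lit 76) (nat_lit 10784952661) (nat_lit 152) (nat_lit 8476477104) (nat_lit 21) (nat_lit 5) (nat_lit 22) (nat_lit 5) (nat_lit 23) (nat_lit 4) (nat_lit 352) (nat_lit 245) (nat_lit 183))))) (XT.nd (nat_lit 234) (nat_lit 76) (nat_lit 0) (XT.nd (nat_lit 78) (nat_lit 228) (nat_lit 0) (XT.lf (nat_lit 0) (nat_lit 11470981510) (nat_lit 76) (nat_lit 7017253192) (nat_lit 152) (nat_lit 5243948834) (nat_lit 21) (nat_lit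 5) (nat_lit 22) (nat_lit 5) (nat_lit 23) (nat_lit 4) (nat_lit 353) (nat_lit 245) (nat_lit 182)) (XT.nd (nat_lit 78) (nat_lit 228) (nat_lit 0) (XT.lf (nat_lit 0) (nat_lit 19211238634) (nat_lit 76) (nat_lit 3158690053) (nat_lit 152) (nat_lit 1945128876) (nat_lit 21) (nat_lit 5) (nat_lit 22) (nat_lit 5) (nat_lit 23) (nat_lit 4) (nat_lit 354) (nat_lit 245) (nat_lit 181)) (XT.lf (nat_lit 0) (nat_lit 1424683694) (nat_lit 228) (nat_lit 22676079266) (nat_lit 76) (nat_lit 814240087) (nat_lit 18) (nat_lit 5) (nat_lit 21) (nat_lit 5) (nat_lit 19) (nat_lit 4) (nat_lit 355) (nat_lit 245) (nat_lit 180)))) (XT.nd (nat_lit 156) (nat_lit 76) (nat_lit 0) (XT.nd (nat_lit 78) (nat_lit 0) (nat_lit 0) (XT.lf (nat_lit 0) (nat_lit 4910766009) (nat_lit 228) (nat_lit 15727069163) (nat_lit 76) (nat_lit 4892920786) (nat_lit 18) (nat_lit 5) (nat_lit 21) (nat_lit 5) (nat_lit 19) (nat_lit 4) (nat_lit 356) (nat_lit 245) (nat_lit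 179)) (XT.lf (nat_lit 0) (nat_lit 8473224507) (nat_lit 228) (nat_lit 8619294912) (nat_lit 76) (nat_lit 9073322730) (nat_lit 18) (nat_lit 5) (nat_lit 21) (nat_lit 5) (nat_lit 19) (nat_lit 4) (nat_lit 357) (nat_lit 245) (nat_lit 178))) (XT.nd (nat_lit 78) (nat_lit 76) (nat_lit 0) (XT.lf (nat_lit 0) (nat_lit 12115172017) (nat_lit 228) (nat_lit 1346545836) (nat_lit 76) (nat_lit 13359098695) (nat_lit 18) (nat_lit 5) (nat_lit 21) (nat_lit 5) (nat_lit 19) (nat_lit 4) (nat_lit 358) (nat_lit 245) (nat_lit 177)) (XT.lf (nat_lit 0) (nat_lit 6218885753) (nat_lit 76) (nat_lit 9680684804) (nat_lit 152) (nat_lit 11594887518) (nat_lit 17) (nat_lit 5) (nat_lit 18) (nat_lit 5) (nat_lit 19) (nat_lit 4) (nat_lit 359) (nat_lit 245) (nat_lit 176)))))) (XT.nd (nat_lit 468) (nat_lit 152) (nat_lit 0) (XT.nd (nat_lit 234) (nat_lit 76) (nat_lit 0) (XT.nd (nat_lit 78) (nat_lit 152) (nat_lit 0) (XT.lf (nat_lit 0) (nat_lit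 13992489682) (nat_lit 76) (nat_lit 5792350133) (nat_lit 152) (nat_lit 8403862141) (nat_lit 17) (nat_lit 5) (nat_lit 18) (nat_lit 5) (nat_lit 19) (nat_lit 4) (nat_lit 360) (nat_lit 245) (nat_lit 175)) (XT.nd (nat_lit 78) (nat_lit 152) (nat_lit 0) (XT.lf (nat_lit 0) (nat_lit 21954259519) (nat_lit 76) (nat_lit 1806913741) (nat_lit 152) (nat_lit 5143377598) (nat_lit 17) (nat_lit 5) (nat_lit 18) (nat_lit 5) (nat_lit 19) (nat_lit 4) (nat_lit 361) (nat_lit 245) (nat_lit 174)) (XT.lf (nat_lit 0) (nat_lit 455502188) (nat_lit 152) (nat_lit 27402829901) (nat_lit 152) (nat_lit 1783509588) (nat_lit 15) (nat_lit 4) (nat_lit 17) (nat_lit 5) (nat_lit 17) (nat_lit 4) (nat_lit 362) (nat_lit 245) (nat_lit 173)))) (XT.nd (nat_lit 78) (nat_lit 0) (nat_lit 0) (XT.lf (nat_lit 0) (nat_lit 1708311564) (nat_lit 228) (nat_lit 22252284602) (nat_lit 76) (nat_lit 6438266660) (nat_lit 14) (nat_lit 5) (nat_lit 17) (nat_lit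 5) (nat_lit 15) (nat_lit 4) (nat_lit 363) (nat_lit 245) (nat_lit 172)) (XT.nd (nat_lit 78) (nat_lit 0) (nat_lit 0) (XT.lf (nat_lit 0) (nat_lit 5244880362) (nat_lit 228) (nat_lit 15170949713) (nat_lit 76) (nat_lit 10762971035) (nat_lit 14) (nat_lit 5) (nat_lit 17) (nat_lit 5) (nat_lit 15) (nat_lit 4) (nat_lit 364) (nat_lit 245) (nat_lit 171)) (XT.lf (nat_lit 0) (nat_lit 8864089707) (nat_lit 228) (nat_lit 7919003063) (nat_lit 76) (nat_lit 15199759583) (nat_lit 14) (nat_lit 5) (nat_lit 17) (nat_lit 5) (nat_lit 15) (nat_lit 4) (nat_lit 365) (nat_lit 245) (nat_lit 170))))) (XT.nd (nat_lit 234) (nat_lit 76) (nat_lit 0) (XT.nd (nat_lit 78) (nat_lit 76) (nat_lit 0) (XT.lf (nat_lit 0) (nat_lit 12569102016) (nat_lit 228) (nat_lit 490107999) (nat_lit 76) (nat_lit 19752509112) (nat_lit 14) (nat_lit 5) (nat_lit 17) (nat_lit 5) (nat_lit 15) (nat_lit 4) (nat_lit 366) (nat_lit 245) (nat_lit 169)) (XT.nd (nat_lit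 78) (nat_lit 0) (nat_lit 0) (XT.lf (nat_lit 0) (nat_lit 7263973023) (nat_lit 76) (nat_lit 9169007408) (nat_lit 152) (nat_lit 17231050479) (nat_lit 13) (nat_lit 5) (nat_lit 14) (nat_lit 5) (nat_lit 15) (nat_lit 4) (nat_lit 367) (nat_lit 245) (nat_lit 168)) (XT.lf (nat_lit 0) (nat_lit 15221682580) (nat_lit 76) (nat_lit 5174200430) (nat_lit 152) (nat_lit 14146545974) (nat_lit 13) (nat_lit 5) (nat_lit 14) (nat_lit 5) (nat_lit 15) (nat_lit 4) (nat_lit 368) (nat_lit 245) (nat_lit 167)))) (XT.nd (nat_lit 156) (nat_lit 76) (nat_lit 0) (XT.nd (nat_lit 78) (nat_lit 0) (nat_lit 0) (XT.lf (nat_lit 0) (nat_lit 23380219899) (nat_lit 76) (nat_lit 1076247604) (nat_lit 152) (nat_lit 10991357529) (nat_lit 13) (nat_lit 5) (nat_lit 14) (nat_lit 5) (nat_lit 15) (nat_lit 4) (nat_lit 369) (nat_lit 245) (nat_lit 166)) (XT.lf (nat_lit 0) (nat_lit 28648354396) (nat_lit 152) (nat_lit 4664368777) (nat_lit 0) (nat_lit 3067384832)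 (nat_lit 13) (nat_lit 5) (nat_lit 15) (nat_lit 4) (nat_lit 13) (nat_lit 4) (nat_lit 370) (nat_lit 245) (nat_lit 165))) (XT.nd (nat_lit 78) (nat_lit 0) (nat_lit 0) (XT.lf (nat_lit 0) (nat_lit 2972120169) (nat_lit 76) (nat_lit 30012964278) (nat_lit 76) (nat_lit 4354711732) (nat_lit 12) (nat_lit 4) (nat_lit 13) (nat_lit 5) (nat_lit 13) (nat_lit 4) (nat_lit 371) (nat_lit 245) (nat_lit 164)) (XT.lf (nat_lit 0) (nat_lit 10897488177) (nat_lit 76) (nat_lit 26581632156) (nat_lit 76) (nat_lit 848347587) (nat_lit 12) (nat_lit 4) (nat_lit 13) (nat_lit 5) (nat_lit 13) (nat_lit 4) (nat_lit 372) (nat_lit 245) (nat_lit 163))))))))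
noncomputable def xc69 : XT := (XT.nd (nat_lit 2028) (nat_lit 152) (nat_lit 0) (XT.nd (nat_lit 1014) (nat_lit 228) (nat_lit 0) (XT.nd (nat_lit 468) (nat_lit 76) (nat_lit 0) (XT.nd (nat_lit 234) (nat_lit 76) (nat_lit 0) (XT.nd (nat_lit 78) (nat_lit 0) (nat_lit 0) (XT.lf (nat_lit 0) (nat_lit 2689769963) (nat_lit 152) (nat_lit 20345898167) (nat_lit 76) (nat_lit 16308898875) (nat_lit 11) (nat_lit 5) (nat_lit 13) (nat_lit 5) (nat_lit 12) (nat_lit 4) (nat_lit 373) (nat_lit 245) (nat_lit 162)) (XT.nd (nat_lit 78) (nat_lit 0) (nat_lit 0) (XT.lf (nat_lit 0) (nat_lit 6298031173) (nat_lit 152) (nat_lit 13091852788) (nat_lit 76) (nat_lit 21002619856) (nat_lit 11) (nat_lit 5) (nat_lit 13) (nat_lit 5) (nat_lit 12) (nat_lit 4) (nat_lit 374) (nat_lit 245) (nat_lit 161)) (XT.lf (nat_lit 0) (nat_lit 9996143209) (nat_lit 152) (nat_lit 5653350285) (nat_lit 76) (nat_lit 25822945180) (nat_lit 11) (nat_lit 5) (nat_lit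 13) (nat_lit 5) (nat_lit 12) (nat_lit 4) (nat_lit 375) (nat_lit 245) (nat_lit 160)))) (XT.nd (nat_lit 78) (nat_lit 0) (nat_lit 0) (XT.lf (nat_lit 0) (nat_lit 2015437448) (nat_lit 76) (nat_lit 11791273600) (nat_lit 152) (nat_lit 28778022953) (nat_lit 10) (nat_lit 5) (nat_lit 11) (nat_lit 5) (nat_lit 12) (nat_lit 4) (nat_lit 376) (nat_lit 245) (nat_lit 159)) (XT.nd (nat_lit 78) (nat_lit 0) (nat_lit 0) (XT.lf (nat_lit 0) (nat_lit 9998294334) (nat_lit 76) (nat_lit 7772741920) (nat_lit 152) (nat_lit 25958186293) (nat_lit 10) (nat_lit 5) (nat_lit 11) (nat_lit 5) (nat_lit 12) (nat_lit 4) (nat_lit 377) (nat_lit 245) (nat_lit 158)) (XT.lf (nat_lit 0) (nat_lit 18189682927) (nat_lit 76) (nat_lit 3647474869) (nat_lit 152) (nat_lit 23071409304) (nat_lit 10) (nat_lit 5) (nat_lit 11) (nat_lit 5) (nat_lit 12) (nat_lit 4) (nat_lit 378) (nat_lit 245) (nat_lit 157))))) (XT.nd (nat_lit 234) (nat_lit 76) (nat_lit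 0) (XT.nd (nat_lit 78) (nat_lit 0) (nat_lit 0) (XT.lf (nat_lit 0) (nat_lit 26014282084) (nat_lit 152) (nat_lit 19532690891) (nat_lit 0) (nat_lit 576655578) (nat_lit 10) (nat_lit 5) (nat_lit 12) (nat_lit 4) (nat_lit 10) (nat_lit 4) (nat_lit 379) (nat_lit 245) (nat_lit 156)) (XT.nd (nat_lit 78) (nat_lit 0) (nat_lit 0) (XT.lf (nat_lit 0) (nat_lit 30336558596) (nat_lit 152) (nat_lit 12196568733) (nat_lit 0) (nat_lit 4841426293) (nat_lit 10) (nat_lit 5) (nat_lit 12) (nat_lit 4) (nat_lit 10) (nat_lit 4) (nat_lit 380) (nat_lit 245) (nat_lit 155)) (XT.lf (nat_lit 0) (nat_lit 34772702319) (nat_lit 152) (nat_lit 4669045737) (nat_lit 0) (nat_lit 9221739144) (nat_lit 10) (nat_lit 5) (nat_lit 12) (nat_lit 4) (nat_lit 10) (nat_lit 4) (nat_lit 381) (nat_lit 245) (nat_lit 154)))) (XT.nd (nat_lit 156) (nat_lit 0) (nat_lit 0) (XT.nd (nat_lit 78) (nat_lit 0) (nat_lit 0) (XT.lf (nat_lit 0) (nat_lit 3117285003)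 (nat_lit 76) (nat_lit 36239269743) (nat_lit 76) (nat_lit 10634101839) (nat_lit 9) (nat_lit 4) (nat_lit 10) (nat_lit 5) (nat_lit 10) (nat_lit 4) (nat_lit 382) (nat_lit 245) (nat_lit 153)) (XT.lf (nat_lit 0) (nat_lit 11205342135) (nat_lit 76) (nat_lit 32904569718) (nat_lit 76) (nat_lit 7246775862) (nat_lit 9) (nat_lit 4) (nat_lit 10) (nat_lit 5) (nat_lit 10) (nat_lit 4) (nat_lit 383) (nat_lit 245) (nat_lit 152))) (XT.nd (nat_lit 78) (nat_lit 0) (nat_lit 0) (XT.lf (nat_lit 0) (nat_lit 19509269730) (nat_lit 76) (nat_lit 29481882372) (nat_lit 76) (nat_lit 3772995361) (nat_lit 9) (nat_lit 4) (nat_lit 10) (nat_lit 5) (nat_lit 10) (nat_lit 4) (nat_lit 384) (nat_lit 245) (nat_lit 151)) (XT.lf (nat_lit 0) (nat_lit 28036323644) (nat_lit 76) (nat_lit 25968217009) (nat_lit 76) (nat_lit 209724992) (nat_lit 9) (nat_lit 4) (nat_lit 10) (nat_lit 5) (nat_lit 10) (nat_lit 4) (nat_lit 385) (nat_lit 245) (nat_lit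 150)))))) (XT.nd (nat_lit 468) (nat_lit 76) (nat_lit 0) (XT.nd (nat_lit 234) (nat_lit 76) (nat_lit 0) (XT.nd (nat_lit 78) (nat_lit 0) (nat_lit 0) (XT.lf (nat_lit 0) (nat_lit 3378902006) (nat_lit 152) (nat_lit 18947481144) (nat_lit 76) (nat_lit 33380932412) (nat_lit 8) (nat_lit 5) (nat_lit 10) (nat_lit 5) (nat_lit 9) (nat_lit 4) (nat_lit 386) (nat_lit 245) (nat_lit 149)) (XT.nd (nat_lit 78) (nat_lit 0) (nat_lit 0) (XT.lf (nat_lit 0) (nat_lit 7057365011) (nat_lit 152) (nat_lit 11526958719) (nat_lit 76) (nat_lit 38661184645) (nat_lit 8) (nat_lit 5) (nat_lit 10) (nat_lit 5) (nat_lit 9) (nat_lit 4) (nat_lit 387) (nat_lit 245) (nat_lit 148)) (XT.lf (nat_lit 0) (nat_lit 10832970704) (nat_lit 152) (nat_lit 3907874771) (nat_lit 76) (nat_lit 44089403144) (nat_lit 8) (nat_lit 5) (nat_lit 10) (nat_lit 5) (nat_lit 9) (nat_lit 4) (nat_lit 388) (nat_lit 245) (nat_lit 147)))) (XT.nd (nat_lit 78) (nat_lit 0)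 (nat_lit 0) (XT.lf (nat_lit 0) (nat_lit 3994372752) (nat_lit 76) (nat_lit 10753041759) (nat_lit 152) (nat_lit 45714354615) (nat_lit 7) (nat_lit 5) (nat_lit 8) (nat_lit 5) (nat_lit 9) (nat_lit 4) (nat_lit 389) (nat_lit 245) (nat_lit 146)) (XT.nd (nat_lit 78) (nat_lit 0) (nat_lit 0) (XT.lf (nat_lit 0) (nat_lit 12190670716) (nat_lit 76) (nat_lit 6615407676) (nat_lit 152) (nat_lit 43335358258) (nat_lit 7) (nat_lit 5) (nat_lit 8) (nat_lit 5) (nat_lit 9) (nat_lit 4) (nat_lit 390) (nat_lit 245) (nat_lit 145)) (XT.lf (nat_lit 0) (nat_lit 20610406564) (nat_lit 76) (nat_lit 2363789690) (nat_lit 152) (nat_lit 40897671982) (nat_lit 7) (nat_lit 5) (nat_lit 8) (nat_lit 5) (nat_lit 9) (nat_lit 4) (nat_lit 391) (nat_lit 245) (nat_lit 144))))) (XT.nd (nat_lit 234) (nat_lit 76) (nat_lit 0) (XT.nd (nat_lit 78) (nat_lit 0) (nat_lit 0) (XT.lf (nat_lit 0) (nat_lit 27274688496) (nat_lit 152) (nat_lit 36412916920)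 (nat_lit 0) (nat_lit 1966392145) (nat_lit 7) (nat_lit 5) (nat_lit 9) (nat_lit 4) (nat_lit 7) (nat_lit 4) (nat_lit 392) (nat_lit 245) (nat_lit 143)) (XT.nd (nat_lit 78) (nat_lit 0) (nat_lit 0) (XT.lf (nat_lit 0) (nat_lit 31715907917) (nat_lit 152) (nat_lit 29403742599) (nat_lit 0) (nat_lit 6369593459) (nat_lit 7) (nat_lit 5) (nat_lit 9) (nat_lit 4) (nat_lit 7) (nat_lit 4) (nat_lit 393) (nat_lit 245) (nat_lit 142)) (XT.lf (nat_lit 0) (nat_lit 36279013000) (nat_lit 152) (nat_lit 22205091994) (nat_lit 0) (nat_lit 10895787759) (nat_lit 7) (nat_lit 5) (nat_lit 9) (nat_lit 4) (nat_lit 7) (nat_lit 4) (nat_lit 394) (nat_lit 245) (nat_lit 141)))) (XT.nd (nat_lit 156) (nat_lit 76) (nat_lit 0) (XT.nd (nat_lit 78) (nat_lit 0) (nat_lit 0) (XT.lf (nat_lit 0) (nat_lit 40967990925) (nat_lit 152) (nat_lit 14810675024) (nat_lit 0) (nat_lit 15548929973) (nat_lit 7) (nat_lit 5) (nat_lit 9) (nat_lit 4) (nat_lit 7)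 (nat_lit 4) (nat_lit 395) (nat_lit 245) (nat_lit 140)) (XT.lf (nat_lit 0) (nat_lit 45786938858) (nat_lit 152) (nat_lit 7214030546) (nat_lit 0) (nat_lit 20333085952) (nat_lit 7) (nat_lit 5) (nat_lit 9) (nat_lit 4) (nat_lit 7) (nat_lit 4) (nat_lit 396) (nat_lit 245) (nat_lit 139))) (XT.nd (nat_lit 78) (nat_lit 0) (nat_lit 0) (XT.lf (nat_lit 0) (nat_lit 603250880) (nat_lit 76) (nat_lit 50142615465) (nat_lit 76) (nat_lit 24654983964) (nat_lit 6) (nat_lit 4) (nat_lit 7) (nat_lit 5) (nat_lit 7) (nat_lit 4) (nat_lit 397) (nat_lit 245) (nat_lit 138)) (XT.lf (nat_lit 0) (nat_lit 8784083929) (nat_lit 76) (nat_lit 47132058975) (nat_lit 76) (nat_lit 21611632720) (nat_lit 6) (nat_lit 4) (nat_lit 7) (nat_lit 5) (nat_lit 7) (nat_lit 4) (nat_lit 398) (nat_lit 245) (nat_lit 137))))))) (XT.nd (nat_lit 32214) (nat_lit 0) (nat_lit 7220) (XT.nd (nat_lit 468) (nat_lit 152) (nat_lit 0) (XT.nd (nat_lit 234) (nat_lit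 0) (nat_lit 0) (XT.nd (nat_lit 78) (nat_lit 0) (nat_lit 0) (XT.lf (nat_lit 0) (nat_lit 17192043547) (nat_lit 76) (nat_lit 44039516913) (nat_lit 76) (nat_lit 18487251093) (nat_lit 6) (nat_lit 4) (nat_lit 7) (nat_lit 5) (nat_lit 7) (nat_lit 4) (nat_lit 399) (nat_lit 245) (nat_lit 136)) (XT.nd (nat_lit 78) (nat_lit 0) (nat_lit 0) (XT.lf (nat_lit 0) (nat_lit 25834476495) (nat_lit 76) (nat_lit 40862287059) (nat_lit 76) (nat_lit 15279109039) (nat_lit 6) (nat_lit 4) (nat_lit 7) (nat_lit 5) (nat_lit 7) (nat_lit 4) (nat_lit 400) (nat_lit 245) (nat_lit 135)) (XT.lf (nat_lit 0) (nat_lit 34718934414) (nat_lit 76) (nat_lit 37597593192) (nat_lit 76) (nat_lit 11984403328) (nat_lit 6) (nat_lit 4) (nat_lit 7) (nat_lit 5) (nat_lit 7) (nat_lit 4) (nat_lit 401) (nat_lit 245) (nat_lit 134)))) (XT.nd (nat_lit 78) (nat_lit 0) (nat_lit 0) (XT.lf (nat_lit 0) (nat_lit 43853180422) (nat_lit 76) (nat_lit 34242582667) (nat_lit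 76) (nat_lit 8600255090) (nat_lit 6) (nat_lit 4) (nat_lit 7) (nat_lit 5) (nat_lit 7) (nat_lit 4) (nat_lit 402) (nat_lit 245) (nat_lit 133)) (XT.nd (nat_lit 78) (nat_lit 0) (nat_lit 0) (XT.lf (nat_lit 0) (nat_lit 53245195899) (nat_lit 76) (nat_lit 30794323922) (nat_lit 76) (nat_lit 5123707303) (nat_lit 6) (nat_lit 4) (nat_lit 7) (nat_lit 5) (nat_lit 7) (nat_lit 4) (nat_lit 403) (nat_lit 245) (nat_lit 132)) (XT.lf (nat_lit 0) (nat_lit 62903187460) (nat_lit 76) (nat_lit 27249803915) (nat_lit 76) (nat_lit 1551722207) (nat_lit 6) (nat_lit 4) (nat_lit 7) (nat_lit 5) (nat_lit 7) (nat_lit 4) (nat_lit 404) (nat_lit 245) (nat_lit 131))))) (XT.nd (nat_lit 234) (nat_lit 76) (nat_lit 0) (XT.nd (nat_lit 78) (nat_lit 0) (nat_lit 0) (XT.lf (nat_lit 0) (nat_lit 2077475514) (nat_lit 152) (nat_lit 21507471549) (nat_lit 76) (nat_lit 70737140184) (nat_lit 5) (nat_lit 5) (nat_lit 7) (nat_lit 5) (nat_lit 6) (nat_lit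 4) (nat_lit 405) (nat_lit 245) (nat_lit 130)) (XT.nd (nat_lit 78) (nat_lit 0) (nat_lit 0) (XT.lf (nat_lit 0) (nat_lit 5776173462) (nat_lit 152) (nat_lit 14025003194) (nat_lit 76) (nat_lit 77216593215) (nat_lit 5) (nat_lit 5) (nat_lit 7) (nat_lit 5) (nat_lit 6) (nat_lit 4) (nat_lit 406) (nat_lit 245) (nat_lit 129)) (XT.lf (nat_lit 0) (nat_lit 9577883200) (nat_lit 152) (nat_lit 6332666875) (nat_lit 76) (nat_lit 83884014314) (nat_lit 5) (nat_lit 5) (nat_lit 7) (nat_lit 5) (nat_lit 6) (nat_lit 4) (nat_lit 407) (nat_lit 245) (nat_lit 128)))) (XT.nd (nat_lit 31356) (nat_lit 0) (nat_lit 11704) (XT.nd (nat_lit 31278) (nat_lit 0) (nat_lit 12312) (XT.lf (nat_lit 0) (nat_lit 1607629508) (nat_lit 76) (nat_lit 11893750617) (nat_lit 152) (nat_lit 89153053394) (nat_lit 4) (nat_lit 5) (nat_lit 5) (nat_lit 5) (nat_lit 6) (nat_lit 4) (nat_lit 408) (nat_lit 245) (nat_lit 127)) (XT.lf (nat_lit 0) (nat_lit 201554420)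 (nat_lit 608) (nat_lit 3278305619) (nat_lit 0) (nat_lit 201554420) (nat_lit 166) (nat_lit 5) (nat_lit 174) (nat_lit 4) (nat_lit 166) (nat_lit 4) (nat_lit 288) (nat_lit 246) (nat_lit 246))) (XT.nd (nat_lit 78) (nat_lit 608) (nat_lit 0) (XT.lf (nat_lit 0) (nat_lit 3631179604) (nat_lit 608) (nat_lit 1655263545) (nat_lit 0) (nat_lit 2145906390) (nat_lit 166) (nat_lit 5) (nat_lit 174) (nat_lit 4) (nat_lit 166) (nat_lit 4) (nat_lit 289) (nat_lit 246) (nat_lit 245)) (XT.lf (nat_lit 0) (nat_lit 3360188015) (nat_lit 608) (nat_lit 3536504750) (nat_lit 608) (nat_lit 609218708) (nat_lit 158) (nat_lit 4) (nat_lit 166) (nat_lit 5) (nat_lit 166) (nat_lit 4) (nat_lit 290) (nat_lit 246) (nat_lit 244)))))) (XT.nd (nat_lit 546) (nat_lit 1824) (nat_lit 0) (XT.nd (nat_lit 234) (nat_lit 1444) (nat_lit 0) (XT.nd (nat_lit 78) (nat_lit 608) (nat_lit 0) (XT.lf (nat_lit 0) (nat_lit 870412215) (nat_lit 532) (nat_lit 1690036411)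 (nat_lit 608) (nat_lit 5022596220) (nat_lit 150) (nat_lit 5) (nat_lit 157) (nat_lit 5) (nat_lit 158) (nat_lit 4) (nat_lit 291) (nat_lit 246) (nat_lit 243)) (XT.nd (nat_lit 78) (nat_lit 608) (nat_lit 0) (XT.lf (nat_lit 0) (nat_lit 5767868180) (nat_lit 608) (nat_lit 1648993352) (nat_lit 0) (nat_lit 246961490) (nat_lit 150) (nat_lit 5) (nat_lit 158) (nat_lit 4) (nat_lit 150) (nat_lit 4) (nat_lit 292) (nat_lit 246) (nat_lit 242)) (XT.lf (nat_lit 0) (nat_lit 1261897945) (nat_lit 608) (nat_lit 4240463582) (nat_lit 76) (nat_lit 2245533177) (nat_lit 142) (nat_lit 5) (nat_lit 150) (nat_lit 5) (nat_lit 143) (nat_lit 4) (nat_lit 293) (nat_lit 246) (nat_lit 241)))) (XT.nd (nat_lit 156) (nat_lit 988) (nat_lit 0) (XT.nd (nat_lit 78) (nat_lit 0) (nat_lit 0) (XT.lf (nat_lit 0) (nat_lit 918104446) (nat_lit 456) (nat_lit 3497715154) (nat_lit 532) (nat_lit 3420068053) (nat_lit 136) (nat_lit 5) (nat_lit 142) (nat_lit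 5) (nat_lit 143) (nat_lit 4) (nat_lit 294) (nat_lit 246) (nat_lit 240)) (XT.lf (nat_lit 0) (nat_lit 6220091298) (nat_lit 456) (nat_lit 1402452388) (nat_lit 532) (nat_lit 305372402) (nat_lit 136) (nat_lit 5) (nat_lit 142) (nat_lit 5) (nat_lit 143) (nat_lit 4) (nat_lit 295) (nat_lit 246) (nat_lit 239))) (XT.nd (nat_lit 78) (nat_lit 456) (nat_lit 0) (XT.lf (nat_lit 0) (nat_lit 2805390769) (nat_lit 532) (nat_lit 4427542927) (nat_lit 76) (nat_lit 790289616) (nat_lit 129) (nat_lit 5) (nat_lit 136) (nat_lit 5) (nat_lit 130) (nat_lit 4) (nat_lit 296) (nat_lit 246) (nat_lit 238)) (XT.lf (nat_lit 0) (nat_lit 873723147) (nat_lit 456) (nat_lit 5087553748) (nat_lit 532) (nat_lit 2161413277) (nat_lit 123) (nat_lit 5) (nat_lit 129) (nat_lit 5) (nat_lit 130) (nat_lit 4) (nat_lit 297) (nat_lit 246) (nat_lit 237))))) (XT.nd (nat_lit 234) (nat_lit 912) (nat_lit 0) (XT.nd (nat_lit 78) (nat_lit 836) (nat_lit 0)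 (XT.lf (nat_lit 0) (nat_lit 931357518) (nat_lit 532) (nat_lit 1908384444) (nat_lit 76) (nat_lit 5386318977) (nat_lit 122) (nat_lit 5) (nat_lit 129) (nat_lit 5) (nat_lit 123) (nat_lit 5) (nat_lit 298) (nat_lit 246) (nat_lit 236)) (XT.nd (nat_lit 78) (nat_lit 380) (nat_lit 0) (XT.lf (nat_lit 0) (nat_lit 3543615874) (nat_lit 456) (nat_lit 485043712) (nat_lit 532) (nat_lit 4304693812) (nat_lit 116) (nat_lit 5) (nat_lit 122) (nat_lit 5) (nat_lit 123) (nat_lit 5) (nat_lit 299) (nat_lit 246) (nat_lit 235)) (XT.lf (nat_lit 0) (nat_lit 651003633) (nat_lit 380) (nat_lit 6534579224) (nat_lit 456) (nat_lit 1259395551) (nat_lit 111) (nat_lit 5) (nat_lit 116) (nat_lit 5) (nat_lit 117) (nat_lit 4) (nat_lit 300) (nat_lit 246) (nat_lit 234)))) (XT.nd (nat_lit 156) (nat_lit 456) (nat_lit 0) (XT.nd (nat_lit 78) (nat_lit 380) (nat_lit 0) (XT.lf (nat_lit 0) (nat_lit 1817074533) (nat_lit 456) (nat_lit 2327228542)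 (nat_lit 76) (nat_lit 4415922630) (nat_lit 110) (nat_lit 5) (nat_lit 116) (nat_lit 5) (nat_lit 111) (nat_lit 5) (nat_lit 301) (nat_lit 246) (nat_lit 233)) (XT.lf (nat_lit 0) (nat_lit 3258962729) (nat_lit 380) (nat_lit 1657935929) (nat_lit 456) (nat_lit 3763071604) (nat_lit 105) (nat_lit 5) (nat_lit 110) (nat_lit 5) (nat_lit 111) (nat_lit 5) (nat_lit 302) (nat_lit 246) (nat_lit 232))) (XT.nd (nat_lit 78) (nat_lit 76) (nat_lit 0) (XT.lf (nat_lit 0) (nat_lit 155102870) (nat_lit 380) (nat_lit 7914634450) (nat_lit 456) (nat_lit 734871276) (nat_lit 100) (nat_lit 5) (nat_lit 105) (nat_lit 5) (nat_lit 106) (nat_lit 4) (nat_lit 303) (nat_lit 246) (nat_lit 231)) (XT.lf (nat_lit 0) (nat_lit 2335878916) (nat_lit 456) (nat_lit 3059060271) (nat_lit 76) (nat_lit 3537508695) (nat_lit 99) (nat_lit 5) (nat_lit 105) (nat_lit 5) (nat_lit 100) (nat_lit 5) (nat_lit 304) (nat_lit 246) (nat_lit 230))))))))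
noncomputable def xc70 : XT := (XT.nd (nat_lit 2028) (nat_lit 1748) (nat_lit 0) (XT.nd (nat_lit 1014) (nat_lit 1672) (nat_lit 0) (XT.nd (nat_lit 468) (nat_lit 1216) (nat_lit 0) (XT.nd (nat_lit 234) (nat_lit 760) (nat_lit 0) (XT.nd (nat_lit 78) (nat_lit 380) (nat_lit 0) (XT.lf (nat_lit 0) (nat_lit 2648887651) (nat_lit 380) (nat_lit 2789225389) (nat_lit 456) (nat_lit 3627260456) (nat_lit 94) (nat_lit 5) (nat_lit 99) (nat_lit 5) (nat_lit 100) (nat_lit 5) (nat_lit 305) (nat_lit 246) (nat_lit 229)) (XT.nd (nat_lit 78) (nat_lit 380) (nat_lit 0) (XT.lf (nat_lit 0) (nat_lit 8497085156) (nat_lit 380) (nat_lit 97065362) (nat_lit 456) (nat_lit 609404927) (nat_lit 94) (nat_lit 5) (nat_lit 99) (nat_lit 5) (nat_lit 100) (nat_lit 5) (nat_lit 306) (nat_lit 246) (nat_lit 228)) (XT.lf (nat_lit 0) (nat_lit 2457167135) (nat_lit 380) (nat_lit 4212978149) (nat_lit 76) (nat_lit 2674894014) (nat_lit 89) (nat_lit 5)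 (nat_lit 94) (nat_lit 5) (nat_lit 90) (nat_lit 5) (nat_lit 307) (nat_lit 246) (nat_lit 227)))) (XT.nd (nat_lit 78) (nat_lit 380) (nat_lit 0) (XT.lf (nat_lit 0) (nat_lit 1600437351) (nat_lit 380) (nat_lit 3958626808) (nat_lit 456) (nat_lit 3932938174) (nat_lit 84) (nat_lit 5) (nat_lit 89) (nat_lit 5) (nat_lit 90) (nat_lit 5) (nat_lit 308) (nat_lit 246) (nat_lit 226)) (XT.nd (nat_lit 78) (nat_lit 380) (nat_lit 0) (XT.lf (nat_lit 0) (nat_lit 7582128578) (nat_lit 380) (nat_lit 1147549307) (nat_lit 456) (nat_lit 914507127) (nat_lit 84) (nat_lit 5) (nat_lit 89) (nat_lit 5) (nat_lit 90) (nat_lit 5) (nat_lit 309) (nat_lit 246) (nat_lit 225)) (XT.lf (nat_lit 0) (nat_lit 2140686590) (nat_lit 380) (nat_lit 5912065069) (nat_lit 76) (nat_lit 1747953638) (nat_lit 79) (nat_lit 5) (nat_lit 84) (nat_lit 5) (nat_lit 80) (nat_lit 5) (nat_lit 310) (nat_lit 246) (nat_lit 224))))) (XT.nd (nat_lit 234) (nat_lit 608)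 (nat_lit 0) (XT.nd (nat_lit 78) (nat_lit 608) (nat_lit 0) (XT.lf (nat_lit 0) (nat_lit 5236689244) (nat_lit 380) (nat_lit 13839877) (nat_lit 76) (nat_lit 4712168132) (nat_lit 79) (nat_lit 5) (nat_lit 84) (nat_lit 5) (nat_lit 80) (nat_lit 5) (nat_lit 311) (nat_lit 246) (nat_lit 223)) (XT.nd (nat_lit 78) (nat_lit 304) (nat_lit 0) (XT.lf (nat_lit 0) (nat_lit 6090818175) (nat_lit 304) (nat_lit 2330334558) (nat_lit 380) (nat_lit 1708600378) (nat_lit 75) (nat_lit 5) (nat_lit 79) (nat_lit 5) (nat_lit 80) (nat_lit 5) (nat_lit 312) (nat_lit 246) (nat_lit 222)) (XT.lf (nat_lit 0) (nat_lit 1335427022) (nat_lit 304) (nat_lit 8296249871) (nat_lit 76) (nat_lit 670905566) (nat_lit 71) (nat_lit 5) (nat_lit 75) (nat_lit 5) (nat_lit 72) (nat_lit 5) (nat_lit 313) (nat_lit 246) (nat_lit 221)))) (XT.nd (nat_lit 156) (nat_lit 304) (nat_lit 0) (XT.nd (nat_lit 78) (nat_lit 304) (nat_lit 0) (XT.lf (nat_lit 0) (nat_lit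 4438738137) (nat_lit 304) (nat_lit 2294594403) (nat_lit 76) (nat_lit 3746753014) (nat_lit 71) (nat_lit 5) (nat_lit 75) (nat_lit 5) (nat_lit 72) (nat_lit 5) (nat_lit 314) (nat_lit 246) (nat_lit 220)) (XT.lf (nat_lit 0) (nat_lit 3874779546) (nat_lit 304) (nat_lit 3737462692) (nat_lit 380) (nat_lit 3051422277) (nat_lit 67) (nat_lit 5) (nat_lit 71) (nat_lit 5) (nat_lit 72) (nat_lit 5) (nat_lit 315) (nat_lit 246) (nat_lit 219))) (XT.nd (nat_lit 78) (nat_lit 304) (nat_lit 0) (XT.lf (nat_lit 0) (nat_lit 10189191739) (nat_lit 304) (nat_lit 655692498) (nat_lit 380) (nat_lit 9010359) (nat_lit 67) (nat_lit 5) (nat_lit 71) (nat_lit 5) (nat_lit 72) (nat_lit 5) (nat_lit 316) (nat_lit 246) (nat_lit 218)) (XT.lf (nat_lit 0) (nat_lit 3084527720) (nat_lit 304) (nat_lit 5436469486) (nat_lit 76) (nat_lit 2527366649) (nat_lit 63) (nat_lit 5) (nat_lit 67) (nat_lit 5) (nat_lit 64) (nat_lit 5) (nat_lit 317) (nat_lit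 246) (nat_lit 217)))))) (XT.nd (nat_lit 468) (nat_lit 912) (nat_lit 0) (XT.nd (nat_lit 234) (nat_lit 228) (nat_lit 0) (XT.nd (nat_lit 78) (nat_lit 304) (nat_lit 0) (XT.lf (nat_lit 0) (nat_lit 763779136) (nat_lit 228) (nat_lit 5469994641) (nat_lit 304) (nat_lit 5016054746) (nat_lit 60) (nat_lit 5) (nat_lit 63) (nat_lit 5) (nat_lit 64) (nat_lit 5) (nat_lit 318) (nat_lit 246) (nat_lit 216)) (XT.nd (nat_lit 78) (nat_lit 304) (nat_lit 0) (XT.lf (nat_lit 0) (nat_lit 7175898119) (nat_lit 228) (nat_lit 2299820122) (nat_lit 304) (nat_lit 1981727107) (nat_lit 60) (nat_lit 5) (nat_lit 63) (nat_lit 5) (nat_lit 64) (nat_lit 5) (nat_lit 319) (nat_lit 246) (nat_lit 215)) (XT.lf (nat_lit 0) (nat_lit 1094744524) (nat_lit 304) (nat_lit 9627467926) (nat_lit 76) (nat_lit 949597215) (nat_lit 56) (nat_lit 5) (nat_lit 60) (nat_lit 5) (nat_lit 57) (nat_lit 5) (nat_lit 320) (nat_lit 246) (nat_lit 214)))) (XT.nd (nat_lit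 78) (nat_lit 228) (nat_lit 0) (XT.lf (nat_lit 0) (nat_lit 4235033590) (nat_lit 304) (nat_lit 3371191413) (nat_lit 76) (nat_lit 4285500849) (nat_lit 56) (nat_lit 5) (nat_lit 60) (nat_lit 5) (nat_lit 57) (nat_lit 5) (nat_lit 321) (nat_lit 246) (nat_lit 213)) (XT.nd (nat_lit 78) (nat_lit 0) (nat_lit 0) (XT.lf (nat_lit 0) (nat_lit 3049920531) (nat_lit 228) (nat_lit 4395453001) (nat_lit 304) (nat_lit 4673639459) (nat_lit 53) (nat_lit 5) (nat_lit 56) (nat_lit 5) (nat_lit 57) (nat_lit 5) (nat_lit 322) (nat_lit 246) (nat_lit 212)) (XT.lf (nat_lit 0) (nat_lit 9651211684) (nat_lit 228) (nat_lit 1082152446) (nat_lit 304) (nat_lit 1620361714) (nat_lit 53) (nat_lit 5) (nat_lit 56) (nat_lit 5) (nat_lit 57) (nat_lit 5) (nat_lit 323) (nat_lit 246) (nat_lit 211))))) (XT.nd (nat_lit 234) (nat_lit 456) (nat_lit 0) (XT.nd (nat_lit 78) (nat_lit 228) (nat_lit 0) (XT.lf (nat_lit 0) (nat_lit 1502549584) (nat_lit 228)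 (nat_lit 8783186440) (nat_lit 76) (nat_lit 2309115499) (nat_lit 50) (nat_lit 5) (nat_lit 53) (nat_lit 5) (nat_lit 51) (nat_lit 5) (nat_lit 324) (nat_lit 246) (nat_lit 210)) (XT.nd (nat_lit 78) (nat_lit 228) (nat_lit 0) (XT.lf (nat_lit 0) (nat_lit 4673605148) (nat_lit 228) (nat_lit 2373521881) (nat_lit 76) (nat_lit 5796035207) (nat_lit 50) (nat_lit 5) (nat_lit 53) (nat_lit 5) (nat_lit 51) (nat_lit 5) (nat_lit 325) (nat_lit 246) (nat_lit 209)) (XT.lf (nat_lit 0) (nat_lit 4232608138) (nat_lit 228) (nat_lit 3698113298) (nat_lit 304) (nat_lit 5168514999) (nat_lit 47) (nat_lit 5) (nat_lit 50) (nat_lit 5) (nat_lit 51) (nat_lit 5) (nat_lit 326) (nat_lit 246) (nat_lit 208)))) (XT.nd (nat_lit 156) (nat_lit 228) (nat_lit 0) (XT.nd (nat_lit 78) (nat_lit 228) (nat_lit 0) (XT.lf (nat_lit 0) (nat_lit 11007927829) (nat_lit 228) (nat_lit 252536776) (nat_lit 304) (nat_lit 2103321668) (nat_lit 47) (nat_lit 5)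 (nat_lit 50) (nat_lit 5) (nat_lit 51) (nat_lit 5) (nat_lit 327) (nat_lit 246) (nat_lit 207)) (XT.lf (nat_lit 0) (nat_lit 1058858243) (nat_lit 228) (nat_lit 9319550024) (nat_lit 76) (nat_lit 3256831065) (nat_lit 44) (nat_lit 5) (nat_lit 47) (nat_lit 5) (nat_lit 45) (nat_lit 5) (nat_lit 328) (nat_lit 246) (nat_lit 206))) (XT.nd (nat_lit 78) (nat_lit 228) (nat_lit 0) (XT.lf (nat_lit 0) (nat_lit 4252422325) (nat_lit 228) (nat_lit 2778832332) (nat_lit 76) (nat_lit 6883630121) (nat_lit 44) (nat_lit 5) (nat_lit 47) (nat_lit 5) (nat_lit 45) (nat_lit 5) (nat_lit 329) (nat_lit 246) (nat_lit 205)) (XT.lf (nat_lit 0) (nat_lit 3960808719) (nat_lit 228) (nat_lit 3572716579) (nat_lit 304) (nat_lit 6669678591) (nat_lit 41) (nat_lit 5) (nat_lit 44) (nat_lit 5) (nat_lit 45) (nat_lit 5) (nat_lit 330) (nat_lit 246) (nat_lit 204))))))) (XT.nd (nat_lit 1014) (nat_lit 760) (nat_lit 0) (XT.nd (nat_lit 468) (nat_lit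 608) (nat_lit 0) (XT.nd (nat_lit 234) (nat_lit 152) (nat_lit 0) (XT.nd (nat_lit 78) (nat_lit 228) (nat_lit 0) (XT.lf (nat_lit 0) (nat_lit 10885745780) (nat_lit 228) (nat_lit 9674398) (nat_lit 304) (nat_lit 3605316838) (nat_lit 41) (nat_lit 5) (nat_lit 44) (nat_lit 5) (nat_lit 45) (nat_lit 5) (nat_lit 331) (nat_lit 246) (nat_lit 203)) (XT.nd (nat_lit 78) (nat_lit 76) (nat_lit 0) (XT.lf (nat_lit 0) (nat_lit 3165002825) (nat_lit 152) (nat_lit 11214144098) (nat_lit 228) (nat_lit 427454143) (nat_lit 39) (nat_lit 5) (nat_lit 41) (nat_lit 5) (nat_lit 42) (nat_lit 4) (nat_lit 332) (nat_lit 246) (nat_lit 202)) (XT.lf (nat_lit 0) (nat_lit 2782680223) (nat_lit 228) (nat_lit 4998869574) (nat_lit 76) (nat_lit 7339528811) (nat_lit 38) (nat_lit 5) (nat_lit 41) (nat_lit 5) (nat_lit 39) (nat_lit 5) (nat_lit 333) (nat_lit 246) (nat_lit 201)))) (XT.nd (nat_lit 78) (nat_lit 0) (nat_lit 0) (XT.lf (nat_lit 0) (nat_lit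 1803210527) (nat_lit 152) (nat_lit 4251451200) (nat_lit 228) (nat_lit 9391009027) (nat_lit 36) (nat_lit 5) (nat_lit 38) (nat_lit 5) (nat_lit 39) (nat_lit 5) (nat_lit 334) (nat_lit 246) (nat_lit 200)) (XT.nd (nat_lit 78) (nat_lit 0) (nat_lit 0) (XT.lf (nat_lit 0) (nat_lit 8841634572) (nat_lit 152) (nat_lit 591031345) (nat_lit 228) (nat_lit 6347129219) (nat_lit 36) (nat_lit 5) (nat_lit 38) (nat_lit 5) (nat_lit 39) (nat_lit 5) (nat_lit 335) (nat_lit 246) (nat_lit 199)) (XT.lf (nat_lit 0) (nat_lit 12900939001) (nat_lit 228) (nat_lit 132451709) (nat_lit 76) (nat_lit 3090914159) (nat_lit 36) (nat_lit 5) (nat_lit 39) (nat_lit 5) (nat_lit 37) (nat_lit 4) (nat_lit 336) (nat_lit 246) (nat_lit 198))))) (XT.nd (nat_lit 234) (nat_lit 228) (nat_lit 0) (XT.nd (nat_lit 78) (nat_lit 152) (nat_lit 0) (XT.lf (nat_lit 0) (nat_lit 26658315) (nat_lit 228) (nat_lit 9538622466) (nat_lit 76) (nat_lit 6912925613) (nat_lit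 33) (nat_lit 5) (nat_lit 36) (nat_lit 5) (nat_lit 34) (nat_lit 5) (nat_lit 337) (nat_lit 246) (nat_lit 197)) (XT.nd (nat_lit 78) (nat_lit 152) (nat_lit 0) (XT.lf (nat_lit 0) (nat_lit 3270444457) (nat_lit 228) (nat_lit 2715432659) (nat_lit 76) (nat_lit 10857085965) (nat_lit 33) (nat_lit 5) (nat_lit 36) (nat_lit 5) (nat_lit 34) (nat_lit 5) (nat_lit 338) (nat_lit 246) (nat_lit 196)) (XT.lf (nat_lit 0) (nat_lit 4331623238) (nat_lit 152) (nat_lit 2282429981) (nat_lit 228) (nat_lit 10604560173) (nat_lit 31) (nat_lit 5) (nat_lit 33) (nat_lit 5) (nat_lit 34) (nat_lit 5) (nat_lit 339) (nat_lit 246) (nat_lit 195)))) (XT.nd (nat_lit 156) (nat_lit 76) (nat_lit 0) (XT.nd (nat_lit 78) (nat_lit 152) (nat_lit 0) (XT.lf (nat_lit 0) (nat_lit 10061527481) (nat_lit 228) (nat_lit 6039602547) (nat_lit 76) (nat_lit 1504321902) (nat_lit 31) (nat_lit 5) (nat_lit 34) (nat_lit 5) (nat_lit 32) (nat_lit 4) (nat_lit 340)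 (nat_lit 246) (nat_lit 194)) (XT.lf (nat_lit 0) (nat_lit 945319721) (nat_lit 152) (nat_lit 12661060991) (nat_lit 228) (nat_lit 4397720962) (nat_lit 29) (nat_lit 5) (nat_lit 31) (nat_lit 5) (nat_lit 32) (nat_lit 4) (nat_lit 341) (nat_lit 246) (nat_lit 193))) (XT.nd (nat_lit 78) (nat_lit 76) (nat_lit 0) (XT.lf (nat_lit 0) (nat_lit 8200485203) (nat_lit 152) (nat_lit 9080844210) (nat_lit 228) (nat_lit 1132692974) (nat_lit 29) (nat_lit 5) (nat_lit 31) (nat_lit 5) (nat_lit 32) (nat_lit 4) (nat_lit 342) (nat_lit 246) (nat_lit 192)) (XT.lf (nat_lit 0) (nat_lit 2150230502) (nat_lit 228) (nat_lit 3246395869) (nat_lit 76) (nat_lit 13440089814) (nat_lit 28) (nat_lit 5) (nat_lit 31) (nat_lit 5) (nat_lit 29) (nat_lit 5) (nat_lit 343) (nat_lit 246) (nat_lit 191)))))) (XT.nd (nat_lit 546) (nat_lit 304) (nat_lit 0) (XT.nd (nat_lit 234) (nat_lit 304) (nat_lit 0) (XT.nd (nat_lit 78) (nat_lit 0) (nat_lit 0) (XT.lf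 (nat_lit 0) (nat_lit 3935117764) (nat_lit 152) (nat_lit 1576114341) (nat_lit 228) (nat_lit 13760473495) (nat_lit 26) (nat_lit 5) (nat_lit 28) (nat_lit 5) (nat_lit 29) (nat_lit 5) (nat_lit 344) (nat_lit 246) (nat_lit 190)) (XT.nd (nat_lit 78) (nat_lit 0) (nat_lit 0) (XT.lf (nat_lit 0) (nat_lit 8993599864) (nat_lit 228) (nat_lit 8403597455) (nat_lit 76) (nat_lit 2321952594) (nat_lit 26) (nat_lit 5) (nat_lit 29) (nat_lit 5) (nat_lit 27) (nat_lit 4) (nat_lit 345) (nat_lit 246) (nat_lit 189)) (XT.lf (nat_lit 0) (nat_lit 12561823381) (nat_lit 228) (nat_lit 1336921593) (nat_lit 76) (nat_lit 6281851720) (nat_lit 26) (nat_lit 5) (nat_lit 29) (nat_lit 5) (nat_lit 27) (nat_lit 4) (nat_lit 346) (nat_lit 246) (nat_lit 188)))) (XT.nd (nat_lit 156) (nat_lit 228) (nat_lit 0) (XT.nd (nat_lit 78) (nat_lit 0) (nat_lit 0) (XT.lf (nat_lit 0) (nat_lit 6001883455) (nat_lit 76) (nat_lit 10259680265) (nat_lit 152) (nat_lit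 4393609131) (nat_lit 25) (nat_lit 5) (nat_lit 26) (nat_lit 5) (nat_lit 27) (nat_lit 4) (nat_lit 347) (nat_lit 246) (nat_lit 187)) (XT.lf (nat_lit 0) (nat_lit 13531827503) (nat_lit 76) (nat_lit 6521170628) (nat_lit 152) (nat_lit 1091586598) (nat_lit 25) (nat_lit 5) (nat_lit 26) (nat_lit 5) (nat_lit 27) (nat_lit 4) (nat_lit 348) (nat_lit 246) (nat_lit 186))) (XT.nd (nat_lit 78) (nat_lit 152) (nat_lit 0) (XT.lf (nat_lit 0) (nat_lit 2232253047) (nat_lit 152) (nat_lit 438655265) (nat_lit 76) (nat_lit 18978088327) (nat_lit 24) (nat_lit 5) (nat_lit 26) (nat_lit 5) (nat_lit 25) (nat_lit 5) (nat_lit 349) (nat_lit 246) (nat_lit 185)) (XT.lf (nat_lit 0) (nat_lit 5683143678) (nat_lit 228) (nat_lit 15157075131) (nat_lit 76) (nat_lit 1326537432) (nat_lit 22) (nat_lit 5) (nat_lit 25) (nat_lit 5) (nat_lit 23) (nat_lit 4) (nat_lit 350) (nat_lit 246) (nat_lit 184))))) (XT.nd (nat_lit 234) (nat_lit 228) (nat_lit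 0) (XT.nd (nat_lit 78) (nat_lit 76) (nat_lit 0) (XT.lf (nat_lit 0) (nat_lit 9237420913) (nat_lit 228) (nat_lit 8089974531) (nat_lit 76) (nat_lit 5372674708) (nat_lit 22) (nat_lit 5) (nat_lit 25) (nat_lit 5) (nat_lit 23) (nat_lit 4) (nat_lit 351) (nat_lit 246) (nat_lit 183)) (XT.nd (nat_lit 78) (nat_lit 76) (nat_lit 0) (XT.lf (nat_lit 0) (nat_lit 12868172905) (nat_lit 228) (nat_lit 863317102) (nat_lit 76) (nat_lit 9518814897) (nat_lit 22) (nat_lit 5) (nat_lit 25) (nat_lit 5) (nat_lit 23) (nat_lit 4) (nat_lit 352) (nat_lit 246) (nat_lit 182)) (XT.lf (nat_lit 0) (nat_lit 6659155827) (nat_lit 76) (nat_lit 9983428207) (nat_lit 152) (nat_lit 7173436889) (nat_lit 21) (nat_lit 5) (nat_lit 22) (nat_lit 5) (nat_lit 23) (nat_lit 4) (nat_lit 353) (nat_lit 246) (nat_lit 181)))) (XT.nd (nat_lit 156) (nat_lit 228) (nat_lit 0) (XT.nd (nat_lit 78) (nat_lit 0) (nat_lit 0) (XT.lf (nat_lit 0) (nat_lit 14374571060)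 (nat_lit 76) (nat_lit 6135466872) (nat_lit 152) (nat_lit 3889292029) (nat_lit 21) (nat_lit 5) (nat_lit 22) (nat_lit 5) (nat_lit 23) (nat_lit 4) (nat_lit 354) (nat_lit 246) (nat_lit 180)) (XT.lf (nat_lit 0) (nat_lit 22272488515) (nat_lit 76) (nat_lit 2192961516) (nat_lit 152) (nat_lit 535545587) (nat_lit 21) (nat_lit 5) (nat_lit 22) (nat_lit 5) (nat_lit 23) (nat_lit 4) (nat_lit 355) (nat_lit 246) (nat_lit 179))) (XT.nd (nat_lit 78) (nat_lit 0) (nat_lit 0) (XT.lf (nat_lit 0) (nat_lit 2898997418) (nat_lit 228) (nat_lit 20833590623) (nat_lit 76) (nat_lit 1886181765) (nat_lit 18) (nat_lit 5) (nat_lit 21) (nat_lit 5) (nat_lit 19) (nat_lit 4) (nat_lit 356) (nat_lit 246) (nat_lit 178)) (XT.lf (nat_lit 0) (nat_lit 6447965895) (nat_lit 228) (nat_lit 13749588984) (nat_lit 76) (nat_lit 6056712754) (nat_lit 18) (nat_lit 5) (nat_lit 21) (nat_lit 5) (nat_lit 19) (nat_lit 4) (nat_lit 357) (nat_lit 246) (nat_lit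 177))))))))
noncomputable def xc71 : XT := (XT.nd (nat_lit 2028) (nat_lit 304) (nat_lit 0) (XT.nd (nat_lit 1014) (nat_lit 304) (nat_lit 0) (XT.nd (nat_lit 468) (nat_lit 152) (nat_lit 0) (XT.nd (nat_lit 234) (nat_lit 152) (nat_lit 0) (XT.nd (nat_lit 78) (nat_lit 76) (nat_lit 0) (XT.lf (nat_lit 0) (nat_lit 10076816297) (nat_lit 228) (nat_lit 6499920115) (nat_lit 76) (nat_lit 10332905270) (nat_lit 18) (nat_lit 5) (nat_lit 21) (nat_lit 5) (nat_lit 19) (nat_lit 4) (nat_lit 358) (nat_lit 246) (nat_lit 176)) (XT.nd (nat_lit 78) (nat_lit 0) (nat_lit 0) (XT.lf (nat_lit 0) (nat_lit 940095291) (nat_lit 76) (nat_lit 12857660943) (nat_lit 152) (nat_lit 13787437270) (nat_lit 17) (nat_lit 5) (nat_lit 18) (nat_lit 5) (nat_lit 19) (nat_lit 4) (nat_lit 359) (nat_lit 246) (nat_lit 175)) (XT.lf (nat_lit 0) (nat_lit 8691510940) (nat_lit 76) (nat_lit 8978955986) (nat_lit 152) (nat_lit 10609353566) (nat_lit 17) (nat_lit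 5) (nat_lit 18) (nat_lit 5) (nat_lit 19) (nat_lit 4) (nat_lit 360) (nat_lit 246) (nat_lit 174)))) (XT.nd (nat_lit 78) (nat_lit 152) (nat_lit 0) (XT.lf (nat_lit 0) (nat_lit 16631738756) (nat_lit 76) (nat_lit 5002868829) (nat_lit 152) (nat_lit 7361433755) (nat_lit 17) (nat_lit 5) (nat_lit 18) (nat_lit 5) (nat_lit 19) (nat_lit 4) (nat_lit 361) (nat_lit 246) (nat_lit 173)) (XT.nd (nat_lit 78) (nat_lit 152) (nat_lit 0) (XT.lf (nat_lit 0) (nat_lit 24767716803) (nat_lit 76) (nat_lit 925925223) (nat_lit 152) (nat_lit 4040839849) (nat_lit 17) (nat_lit 5) (nat_lit 18) (nat_lit 5) (nat_lit 19) (nat_lit 4) (nat_lit 362) (nat_lit 246) (nat_lit 172)) (XT.lf (nat_lit 0) (nat_lit 2630810181) (nat_lit 152) (nat_lit 27276889006) (nat_lit 152) (nat_lit 586390680) (nat_lit 15) (nat_lit 4) (nat_lit 17) (nat_lit 5) (nat_lit 17) (nat_lit 4) (nat_lit 363) (nat_lit 246) (nat_lit 171))))) (XT.nd (nat_lit 234) (nat_lit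 76) (nat_lit 0) (XT.nd (nat_lit 78) (nat_lit 0) (nat_lit 0) (XT.lf (nat_lit 0) (nat_lit 2950065777) (nat_lit 228) (nat_lit 20796913118) (nat_lit 76) (nat_lit 7527570482) (nat_lit 14) (nat_lit 5) (nat_lit 17) (nat_lit 5) (nat_lit 15) (nat_lit 4) (nat_lit 364) (nat_lit 246) (nat_lit 170)) (XT.nd (nat_lit 78) (nat_lit 0) (nat_lit 0) (XT.lf (nat_lit 0) (nat_lit 6558056740) (nat_lit 228) (nat_lit 13564971387) (nat_lit 76) (nat_lit 11955914362) (nat_lit 14) (nat_lit 5) (nat_lit 17) (nat_lit 5) (nat_lit 15) (nat_lit 4) (nat_lit 365) (nat_lit 246) (nat_lit 169)) (XT.lf (nat_lit 0) (nat_lit 10252177415) (nat_lit 228) (nat_lit 6155498575) (nat_lit 76) (nat_lit 16500465183) (nat_lit 14) (nat_lit 5) (nat_lit 17) (nat_lit 5) (nat_lit 15) (nat_lit 4) (nat_lit 366) (nat_lit 246) (nat_lit 168)))) (XT.nd (nat_lit 156) (nat_lit 0) (nat_lit 0) (XT.nd (nat_lit 78) (nat_lit 0) (nat_lit 0) (XT.lf (nat_lit 0) (nat_lit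 1466598229) (nat_lit 76) (nat_lit 12583155286) (nat_lit 152) (nat_lit 19712693522) (nat_lit 13) (nat_lit 5) (nat_lit 14) (nat_lit 5) (nat_lit 15) (nat_lit 4) (nat_lit 367) (nat_lit 246) (nat_lit 167)) (XT.lf (nat_lit 0) (nat_lit 9405636099) (nat_lit 76) (nat_lit 8596574102) (nat_lit 152) (nat_lit 16638953152) (nat_lit 13) (nat_lit 5) (nat_lit 14) (nat_lit 5) (nat_lit 15) (nat_lit 4) (nat_lit 368) (nat_lit 246) (nat_lit 166))) (XT.nd (nat_lit 78) (nat_lit 0) (nat_lit 0) (XT.lf (nat_lit 0) (nat_lit 17546045567) (nat_lit 76) (nat_lit 4506607483) (nat_lit 152) (nat_lit 13494215323) (nat_lit 13) (nat_lit 5) (nat_lit 14) (nat_lit 5) (nat_lit 15) (nat_lit 4) (nat_lit 369) (nat_lit 246) (nat_lit 165)) (XT.lf (nat_lit 0) (nat_lit 25894939613) (nat_lit 76) (nat_lit 309681673) (nat_lit 152) (nat_lit 10275732206) (nat_lit 13) (nat_lit 5) (nat_lit 14) (nat_lit 5) (nat_lit 15) (nat_lit 4) (nat_lit 370) (nat_lit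 246) (nat_lit 164)))))) (XT.nd (nat_lit 468) (nat_lit 152) (nat_lit 0) (XT.nd (nat_lit 234) (nat_lit 0) (nat_lit 0) (XT.nd (nat_lit 78) (nat_lit 152) (nat_lit 0) (XT.lf (nat_lit 0) (nat_lit 30500172819) (nat_lit 152) (nat_lit 3021250966) (nat_lit 0) (nat_lit 3919857690) (nat_lit 13) (nat_lit 5) (nat_lit 15) (nat_lit 4) (nat_lit 13) (nat_lit 4) (nat_lit 371) (nat_lit 246) (nat_lit 163)) (XT.nd (nat_lit 78) (nat_lit 76) (nat_lit 0) (XT.lf (nat_lit 0) (nat_lit 4826851777) (nat_lit 76) (nat_lit 30128220799) (nat_lit 76) (nat_lit 3475059046) (nat_lit 12) (nat_lit 4) (nat_lit 13) (nat_lit 5) (nat_lit 13) (nat_lit 4) (nat_lit 372) (nat_lit 246) (nat_lit 162)) (XT.lf (nat_lit 0) (nat_lit 104980661) (nat_lit 152) (nat_lit 26510775887) (nat_lit 76) (nat_lit 12832515754) (nat_lit 11) (nat_lit 5) (nat_lit 13) (nat_lit 5) (nat_lit 12) (nat_lit 4) (nat_lit 373) (nat_lit 246) (nat_lit 161)))) (XT.nd (nat_lit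 78) (nat_lit 0) (nat_lit 0) (XT.lf (nat_lit 0) (nat_lit 3704179304) (nat_lit 152) (nat_lit 19273067571) (nat_lit 76) (nat_lit 17519238072) (nat_lit 11) (nat_lit 5) (nat_lit 13) (nat_lit 5) (nat_lit 12) (nat_lit 4) (nat_lit 374) (nat_lit 246) (nat_lit 160)) (XT.nd (nat_lit 78) (nat_lit 0) (nat_lit 0) (XT.lf (nat_lit 0) (nat_lit 7393492732) (nat_lit 152) (nat_lit 11850426293) (nat_lit 76) (nat_lit 22332768578) (nat_lit 11) (nat_lit 5) (nat_lit 13) (nat_lit 5) (nat_lit 12) (nat_lit 4) (nat_lit 375) (nat_lit 246) (nat_lit 159)) (XT.lf (nat_lit 0) (nat_lit 11176144615) (nat_lit 152) (nat_lit 4236366251) (nat_lit 76) (nat_lit 27277313270) (nat_lit 11) (nat_lit 5) (nat_lit 13) (nat_lit 5) (nat_lit 12) (nat_lit 4) (nat_lit 376) (nat_lit 246) (nat_lit 158))))) (XT.nd (nat_lit 234) (nat_lit 76) (nat_lit 0) (XT.nd (nat_lit 78) (nat_lit 0) (nat_lit 0) (XT.lf (nat_lit 0) (nat_lit 3646930364) (nat_lit 76)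 (nat_lit 11443566347) (nat_lit 152) (nat_lit 28745318786) (nat_lit 10) (nat_lit 5) (nat_lit 11) (nat_lit 5) (nat_lit 12) (nat_lit 4) (nat_lit 377) (nat_lit 246) (nat_lit 157)) (XT.nd (nat_lit 78) (nat_lit 0) (nat_lit 0) (XT.lf (nat_lit 0) (nat_lit 11823514807) (nat_lit 76) (nat_lit 7324909166) (nat_lit 152) (nat_lit 25866985420) (nat_lit 10) (nat_lit 5) (nat_lit 11) (nat_lit 5) (nat_lit 12) (nat_lit 4) (nat_lit 378) (nat_lit 246) (nat_lit 156)) (XT.lf (nat_lit 0) (nat_lit 20216219671) (nat_lit 76) (nat_lit 3095719492) (nat_lit 152) (nat_lit 22918943368) (nat_lit 10) (nat_lit 5) (nat_lit 11) (nat_lit 5) (nat_lit 12) (nat_lit 4) (nat_lit 379) (nat_lit 246) (nat_lit 155)))) (XT.nd (nat_lit 156) (nat_lit 76) (nat_lit 0) (XT.nd (nat_lit 78) (nat_lit 0) (nat_lit 0) (XT.lf (nat_lit 0) (nat_lit 27596673941) (nat_lit 152) (nat_lit 18662912225) (nat_lit 0) (nat_lit 1223350999) (nat_lit 10) (nat_lit 5)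 (nat_lit 12) (nat_lit 4) (nat_lit 10) (nat_lit 4) (nat_lit 380) (nat_lit 246) (nat_lit 154)) (XT.lf (nat_lit 0) (nat_lit 32025260591) (nat_lit 152) (nat_lit 11149107162) (nat_lit 0) (nat_lit 5597732920) (nat_lit 10) (nat_lit 5) (nat_lit 12) (nat_lit 4) (nat_lit 10) (nat_lit 4) (nat_lit 381) (nat_lit 246) (nat_lit 153))) (XT.nd (nat_lit 78) (nat_lit 76) (nat_lit 0) (XT.lf (nat_lit 0) (nat_lit 36571810803) (nat_lit 152) (nat_lit 3436924261) (nat_lit 0) (nat_lit 10091657181) (nat_lit 10) (nat_lit 5) (nat_lit 12) (nat_lit 4) (nat_lit 10) (nat_lit 4) (nat_lit 382) (nat_lit 246) (nat_lit 152)) (XT.lf (nat_lit 0) (nat_lit 4569543530) (nat_lit 76) (nat_lit 36714679009) (nat_lit 76) (nat_lit 10183432231) (nat_lit 9) (nat_lit 4) (nat_lit 10) (nat_lit 5) (nat_lit 10) (nat_lit 4) (nat_lit 383) (nat_lit 246) (nat_lit 151))))))) (XT.nd (nat_lit 1014) (nat_lit 152) (nat_lit 0) (XT.nd (nat_lit 468) (nat_lit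 76) (nat_lit 0) (XT.nd (nat_lit 234) (nat_lit 0) (nat_lit 0) (XT.nd (nat_lit 78) (nat_lit 76) (nat_lit 0) (XT.lf (nat_lit 0) (nat_lit 12860667426) (nat_lit 76) (nat_lit 33297756493) (nat_lit 76) (nat_lit 6716904709) (nat_lit 9) (nat_lit 4) (nat_lit 10) (nat_lit 5) (nat_lit 10) (nat_lit 4) (nat_lit 384) (nat_lit 246) (nat_lit 150)) (XT.nd (nat_lit 78) (nat_lit 76) (nat_lit 0) (XT.lf (nat_lit 0) (nat_lit 21375290565) (nat_lit 76) (nat_lit 29789688051) (nat_lit 76) (nat_lit 3160676067) (nat_lit 9) (nat_lit 4) (nat_lit 10) (nat_lit 5) (nat_lit 10) (nat_lit 4) (nat_lit 385) (nat_lit 246) (nat_lit 149)) (XT.lf (nat_lit 0) (nat_lit 478831394) (nat_lit 152) (nat_lit 25703741728) (nat_lit 76) (nat_lit 29637186258) (nat_lit 8) (nat_lit 5) (nat_lit 10) (nat_lit 5) (nat_lit 9) (nat_lit 4) (nat_lit 386) (nat_lit 246) (nat_lit 148)))) (XT.nd (nat_lit 78) (nat_lit 0) (nat_lit 0) (XT.lf (nat_lit 0) (nat_lit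 4150786418) (nat_lit 152) (nat_lit 18295068638) (nat_lit 76) (nat_lit 34912294993) (nat_lit 8) (nat_lit 5) (nat_lit 10) (nat_lit 5) (nat_lit 9) (nat_lit 4) (nat_lit 387) (nat_lit 246) (nat_lit 147)) (XT.nd (nat_lit 78) (nat_lit 0) (nat_lit 0) (XT.lf (nat_lit 0) (nat_lit 7920073682) (nat_lit 152) (nat_lit 10687488898) (nat_lit 76) (nat_lit 40335519805) (nat_lit 8) (nat_lit 5) (nat_lit 10) (nat_lit 5) (nat_lit 9) (nat_lit 4) (nat_lit 388) (nat_lit 246) (nat_lit 146)) (XT.lf (nat_lit 0) (nat_lit 11789986738) (nat_lit 152) (nat_lit 2874355108) (nat_lit 76) (nat_lit 45911599433) (nat_lit 8) (nat_lit 5) (nat_lit 10) (nat_lit 5) (nat_lit 9) (nat_lit 4) (nat_lit 389) (nat_lit 246) (nat_lit 145))))) (XT.nd (nat_lit 234) (nat_lit 0) (nat_lit 0) (XT.nd (nat_lit 78) (nat_lit 0) (nat_lit 0) (XT.lf (nat_lit 0) (nat_lit 5253677919) (nat_lit 76) (nat_lit 10560730710) (nat_lit 152) (nat_lit 46442229827) (nat_lit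 7) (nat_lit 5) (nat_lit 8) (nat_lit 5) (nat_lit 9) (nat_lit 4) (nat_lit 390) (nat_lit 246) (nat_lit 144)) (XT.nd (nat_lit 78) (nat_lit 0) (nat_lit 0) (XT.lf (nat_lit 0) (nat_lit 13662676259) (nat_lit 76) (nat_lit 6313964758) (nat_lit 152) (nat_lit 44010607912) (nat_lit 7) (nat_lit 5) (nat_lit 8) (nat_lit 5) (nat_lit 9) (nat_lit 4) (nat_lit 391) (nat_lit 246) (nat_lit 143)) (XT.lf (nat_lit 0) (nat_lit 22302782277) (nat_lit 76) (nat_lit 1949358577) (nat_lit 152) (nat_lit 41517989430) (nat_lit 7) (nat_lit 5) (nat_lit 8) (nat_lit 5) (nat_lit 9) (nat_lit 4) (nat_lit 392) (nat_lit 246) (nat_lit 142)))) (XT.nd (nat_lit 156) (nat_lit 0) (nat_lit 0) (XT.nd (nat_lit 78) (nat_lit 0) (nat_lit 0) (XT.lf (nat_lit 0) (nat_lit 28669030262) (nat_lit 152) (nat_lit 36449681045) (nat_lit 0) (nat_lit 2487397480) (nat_lit 7) (nat_lit 5) (nat_lit 9) (nat_lit 4) (nat_lit 7) (nat_lit 4) (nat_lit 393) (nat_lit 246) (nat_lit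 141)) (XT.lf (nat_lit 0) (nat_lit 33226706621) (nat_lit 152) (nat_lit 29260977806) (nat_lit 0) (nat_lit 7009238128) (nat_lit 7) (nat_lit 5) (nat_lit 9) (nat_lit 4) (nat_lit 7) (nat_lit 4) (nat_lit 394) (nat_lit 246) (nat_lit 140))) (XT.nd (nat_lit 78) (nat_lit 0) (nat_lit 0) (XT.lf (nat_lit 0) (nat_lit 37910413940) (nat_lit 152) (nat_lit 21876218472) (nat_lit 0) (nat_lit 11658153494) (nat_lit 7) (nat_lit 5) (nat_lit 9) (nat_lit 4) (nat_lit 7) (nat_lit 4) (nat_lit 395) (nat_lit 246) (nat_lit 139)) (XT.lf (nat_lit 0) (nat_lit 42724244780) (nat_lit 152) (nat_lit 14288950340) (nat_lit 0) (nat_lit 16438205738) (nat_lit 7) (nat_lit 5) (nat_lit 9) (nat_lit 4) (nat_lit 7) (nat_lit 4) (nat_lit 396) (nat_lit 246) (nat_lit 138)))))) (XT.nd (nat_lit 546) (nat_lit 76) (nat_lit 0) (XT.nd (nat_lit 234) (nat_lit 0) (nat_lit 0) (XT.nd (nat_lit 78) (nat_lit 76) (nat_lit 0) (XT.lf (nat_lit 0) (nat_lit 47672405399)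 (nat_lit 152) (nat_lit 6492543759) (nat_lit 0) (nat_lit 21353571605) (nat_lit 7) (nat_lit 5) (nat_lit 9) (nat_lit 4) (nat_lit 7) (nat_lit 4) (nat_lit 397) (nat_lit 246) (nat_lit 137)) (XT.nd (nat_lit 78) (nat_lit 0) (nat_lit 0) (XT.lf (nat_lit 0) (nat_lit 1550060936) (nat_lit 76) (nat_lit 51224058632) (nat_lit 76) (nat_lit 24873385271) (nat_lit 6) (nat_lit 4) (nat_lit 7) (nat_lit 5) (nat_lit 7) (nat_lit 4) (nat_lit 398) (nat_lit 246) (nat_lit 136)) (XT.lf (nat_lit 0) (nat_lit 9949269097) (nat_lit 76) (nat_lit 48135501038) (nat_lit 76) (nat_lit 21753915477) (nat_lit 6) (nat_lit 4) (nat_lit 7) (nat_lit 5) (nat_lit 7) (nat_lit 4) (nat_lit 399) (nat_lit 246) (nat_lit 135)))) (XT.nd (nat_lit 156) (nat_lit 0) (nat_lit 0) (XT.nd (nat_lit 78) (nat_lit 0) (nat_lit 0) (XT.lf (nat_lit 0) (nat_lit 18583205485) (nat_lit 76) (nat_lit 44962139599) (nat_lit 76) (nat_lit 18550542194) (nat_lit 6) (nat_lit 4)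 (nat_lit 7) (nat_lit 5) (nat_lit 7) (nat_lit 4) (nat_lit 400) (nat_lit 246) (nat_lit 134)) (XT.lf (nat_lit 0) (nat_lit 27459414315) (nat_lit 76) (nat_lit 41701201475) (nat_lit 76) (nat_lit 15260466357) (nat_lit 6) (nat_lit 4) (nat_lit 7) (nat_lit 5) (nat_lit 7) (nat_lit 4) (nat_lit 401) (nat_lit 246) (nat_lit 133))) (XT.nd (nat_lit 78) (nat_lit 0) (nat_lit 0) (XT.lf (nat_lit 0) (nat_lit 36585651500) (nat_lit 76) (nat_lit 38349837302) (nat_lit 76) (nat_lit 11880813142) (nat_lit 6) (nat_lit 4) (nat_lit 7) (nat_lit 5) (nat_lit 7) (nat_lit 4) (nat_lit 402) (nat_lit 246) (nat_lit 132)) (XT.lf (nat_lit 0) (nat_lit 45969891421) (nat_lit 76) (nat_lit 34905118705) (nat_lit 76) (nat_lit 8408629456) (nat_lit 6) (nat_lit 4) (nat_lit 7) (nat_lit 5) (nat_lit 7) (nat_lit 4) (nat_lit 403) (nat_lit 246) (nat_lit 131))))) (XT.nd (nat_lit 234) (nat_lit 0) (nat_lit 0) (XT.nd (nat_lit 78) (nat_lit 76) (nat_lit 0)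 (XT.lf (nat_lit 0) (nat_lit 55620333898) (nat_lit 76) (nat_lit 31364035735) (nat_lit 76) (nat_lit 4840881351) (nat_lit 6) (nat_lit 4) (nat_lit 7) (nat_lit 5) (nat_lit 7) (nat_lit 4) (nat_lit 404) (nat_lit 246) (nat_lit 130)) (XT.nd (nat_lit 78) (nat_lit 76) (nat_lit 0) (XT.lf (nat_lit 0) (nat_lit 65545411358) (nat_lit 76) (nat_lit 27723494241) (nat_lit 76) (nat_lit 1174451376) (nat_lit 6) (nat_lit 4) (nat_lit 7) (nat_lit 5) (nat_lit 7) (nat_lit 4) (nat_lit 405) (nat_lit 246) (nat_lit 129)) (XT.lf (nat_lit 0) (nat_lit 2543248510) (nat_lit 152) (nat_lit 21411382835) (nat_lit 76) (nat_lit 73184865865) (nat_lit 5) (nat_lit 5) (nat_lit 7) (nat_lit 5) (nat_lit 6) (nat_lit 4) (nat_lit 406) (nat_lit 246) (nat_lit 128)))) (XT.nd (nat_lit 31200) (nat_lit 0) (nat_lit 12844) (XT.nd (nat_lit 78) (nat_lit 0) (nat_lit 0) (XT.lf (nat_lit 0) (nat_lit 6341156463) (nat_lit 152) (nat_lit 13726032066) (nat_lit 76)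 (nat_lit 79849218657) (nat_lit 5) (nat_lit 5) (nat_lit 7) (nat_lit 5) (nat_lit 6) (nat_lit 4) (nat_lit 407) (nat_lit 246) (nat_lit 127)) (XT.lf (nat_lit 0) (nat_lit 10245508819) (nat_lit 152) (nat_lit 5823888412) (nat_lit 76) (nat_lit 86707454788) (nat_lit 5) (nat_lit 5) (nat_lit 7) (nat_lit 5) (nat_lit 6) (nat_lit 4) (nat_lit 408) (nat_lit 246) (nat_lit 126))) (XT.nd (nat_lit 78) (nat_lit 1140) (nat_lit 0) (XT.lf (nat_lit 0) (nat_lit 1410084712) (nat_lit 1140) (nat_lit 795530578) (nat_lit 0) (nat_lit 1410084712) (nat_lit 189) (nat_lit 5) (nat_lit 204) (nat_lit 4) (nat_lit 189) (nat_lit 4) (nat_lit 286) (nat_lit 247) (nat_lit 247)) (XT.lf (nat_lit 0) (nat_lit 3220770542) (nat_lit 1140) (nat_lit 2825414047) (nat_lit 1140) (nat_lit 1249687695) (nat_lit 174) (nat_lit 4) (nat_lit 189) (nat_lit 5) (nat_lit 189) (nat_lit 4) (nat_lit 287) (nat_lit 247) (nat_lit 246))))))))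
noncomputable def xc72 : XT := (XT.nd (nat_lit 2028) (nat_lit 3040) (nat_lit 0) (XT.nd (nat_lit 1014) (nat_lit 3420) (nat_lit 0) (XT.nd (nat_lit 468) (nat_lit 1976) (nat_lit 0) (XT.nd (nat_lit 234) (nat_lit 1140) (nat_lit 0) (XT.nd (nat_lit 78) (nat_lit 684) (nat_lit 0) (XT.lf (nat_lit 0) (nat_lit 746323228) (nat_lit 532) (nat_lit 1151155091) (nat_lit 608) (nat_lit 5466502598) (nat_lit 166) (nat_lit 5) (nat_lit 173) (nat_lit 5) (nat_lit 174) (nat_lit 4) (nat_lit 288) (nat_lit 247) (nat_lit 245)) (XT.nd (nat_lit 78) (nat_lit 684) (nat_lit 0) (XT.lf (nat_lit 0) (nat_lit 5069311108) (nat_lit 608) (nat_lit 1753769480) (nat_lit 0) (nat_lit 612193656) (nat_lit 166) (nat_lit 5) (nat_lit 174) (nat_lit 4) (nat_lit 166) (nat_lit 4) (nat_lit 289) (nat_lit 247) (nat_lit 244)) (XT.lf (nat_lit 0) (nat_lit 764055981) (nat_lit 684) (nat_lit 4306096265) (nat_lit 76) (nat_lit 2439900817) (nat_lit 157) (nat_lit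 5) (nat_lit 166) (nat_lit 5) (nat_lit 158) (nat_lit 4) (nat_lit 290) (nat_lit 247) (nat_lit 243)))) (XT.nd (nat_lit 78) (nat_lit 608) (nat_lit 0) (XT.lf (nat_lit 0) (nat_lit 652333163) (nat_lit 532) (nat_lit 3223872976) (nat_lit 608) (nat_lit 3712251792) (nat_lit 150) (nat_lit 5) (nat_lit 157) (nat_lit 5) (nat_lit 158) (nat_lit 4) (nat_lit 291) (nat_lit 247) (nat_lit 242)) (XT.nd (nat_lit 78) (nat_lit 608) (nat_lit 0) (XT.lf (nat_lit 0) (nat_lit 5752116503) (nat_lit 532) (nat_lit 1286370105) (nat_lit 608) (nat_lit 632179700) (nat_lit 150) (nat_lit 5) (nat_lit 157) (nat_lit 5) (nat_lit 158) (nat_lit 4) (nat_lit 292) (nat_lit 247) (nat_lit 241)) (XT.lf (nat_lit 0) (nat_lit 2443514115) (nat_lit 608) (nat_lit 4570948903) (nat_lit 76) (nat_lit 741707134) (nat_lit 142) (nat_lit 5) (nat_lit 150) (nat_lit 5) (nat_lit 143) (nat_lit 4) (nat_lit 293) (nat_lit 247) (nat_lit 240))))) (XT.nd (nat_lit 234)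 (nat_lit 988) (nat_lit 0) (XT.nd (nat_lit 78) (nat_lit 532) (nat_lit 0) (XT.lf (nat_lit 0) (nat_lit 532636122) (nat_lit 456) (nat_lit 5019867188) (nat_lit 532) (nat_lit 2293077342) (nat_lit 136) (nat_lit 5) (nat_lit 142) (nat_lit 5) (nat_lit 143) (nat_lit 4) (nat_lit 294) (nat_lit 247) (nat_lit 239)) (XT.nd (nat_lit 78) (nat_lit 456) (nat_lit 0) (XT.lf (nat_lit 0) (nat_lit 764640505) (nat_lit 532) (nat_lit 2158760304) (nat_lit 76) (nat_lit 5015265276) (nat_lit 135) (nat_lit 5) (nat_lit 142) (nat_lit 5) (nat_lit 136) (nat_lit 5) (nat_lit 295) (nat_lit 247) (nat_lit 238)) (XT.lf (nat_lit 0) (nat_lit 3093349984) (nat_lit 456) (nat_lit 723688925) (nat_lit 532) (nat_lit 4218482185) (nat_lit 129) (nat_lit 5) (nat_lit 135) (nat_lit 5) (nat_lit 136) (nat_lit 5) (nat_lit 296) (nat_lit 247) (nat_lit 237)))) (XT.nd (nat_lit 156) (nat_lit 456) (nat_lit 0) (XT.nd (nat_lit 78) (nat_lit 76) (nat_lit 0) (XT.lf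 (nat_lit 0) (nat_lit 307816753) (nat_lit 456) (nat_lit 6613607632) (nat_lit 532) (nat_lit 1215170405) (nat_lit 123) (nat_lit 5) (nat_lit 129) (nat_lit 5) (nat_lit 130) (nat_lit 4) (nat_lit 297) (nat_lit 247) (nat_lit 236)) (XT.lf (nat_lit 0) (nat_lit 1820282095) (nat_lit 532) (nat_lit 2544852069) (nat_lit 76) (nat_lit 3875782396) (nat_lit 122) (nat_lit 5) (nat_lit 129) (nat_lit 5) (nat_lit 123) (nat_lit 5) (nat_lit 298) (nat_lit 247) (nat_lit 235))) (XT.nd (nat_lit 78) (nat_lit 0) (nat_lit 0) (XT.lf (nat_lit 0) (nat_lit 2847386829) (nat_lit 456) (nat_lit 2025782727) (nat_lit 532) (nat_lit 3476428473) (nat_lit 116) (nat_lit 5) (nat_lit 122) (nat_lit 5) (nat_lit 123) (nat_lit 5) (nat_lit 299) (nat_lit 247) (nat_lit 234)) (XT.lf (nat_lit 0) (nat_lit 7971878369) (nat_lit 532) (nat_lit 106169289) (nat_lit 76) (nat_lit 384976739) (nat_lit 116) (nat_lit 5) (nat_lit 123) (nat_lit 5) (nat_lit 117) (nat_lit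 4) (nat_lit 300) (nat_lit 247) (nat_lit 233)))))) (XT.nd (nat_lit 468) (nat_lit 1748) (nat_lit 0) (XT.nd (nat_lit 234) (nat_lit 836) (nat_lit 0) (XT.nd (nat_lit 78) (nat_lit 380) (nat_lit 0) (XT.lf (nat_lit 0) (nat_lit 2532358109) (nat_lit 456) (nat_lit 3159100319) (nat_lit 76) (nat_lit 2887782730) (nat_lit 110) (nat_lit 5) (nat_lit 116) (nat_lit 5) (nat_lit 111) (nat_lit 5) (nat_lit 301) (nat_lit 247) (nat_lit 232)) (XT.nd (nat_lit 78) (nat_lit 0) (nat_lit 0) (XT.lf (nat_lit 0) (nat_lit 2363863090) (nat_lit 380) (nat_lit 3223866891) (nat_lit 456) (nat_lit 3112639566) (nat_lit 105) (nat_lit 5) (nat_lit 110) (nat_lit 5) (nat_lit 111) (nat_lit 5) (nat_lit 302) (nat_lit 247) (nat_lit 231)) (XT.lf (nat_lit 0) (nat_lit 8025289274) (nat_lit 380) (nat_lit 669838341) (nat_lit 456) (nat_lit 131292295) (nat_lit 105) (nat_lit 5) (nat_lit 110) (nat_lit 5) (nat_lit 111) (nat_lit 5) (nat_lit 303) (nat_lit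 247) (nat_lit 230)))) (XT.nd (nat_lit 78) (nat_lit 380) (nat_lit 0) (XT.lf (nat_lit 0) (nat_lit 2878170533) (nat_lit 456) (nat_lit 4099183047) (nat_lit 76) (nat_lit 1978262836) (nat_lit 99) (nat_lit 5) (nat_lit 105) (nat_lit 5) (nat_lit 100) (nat_lit 5) (nat_lit 304) (nat_lit 247) (nat_lit 229)) (XT.nd (nat_lit 78) (nat_lit 0) (nat_lit 0) (XT.lf (nat_lit 0) (nat_lit 1541908435) (nat_lit 380) (nat_lit 4393740230) (nat_lit 456) (nat_lit 3154280704) (nat_lit 94) (nat_lit 5) (nat_lit 99) (nat_lit 5) (nat_lit 100) (nat_lit 5) (nat_lit 305) (nat_lit 247) (nat_lit 228)) (XT.lf (nat_lit 0) (nat_lit 7345294331) (nat_lit 380) (nat_lit 1712839666) (nat_lit 456) (nat_lit 171027242) (nat_lit 94) (nat_lit 5) (nat_lit 99) (nat_lit 5) (nat_lit 100) (nat_lit 5) (nat_lit 306) (nat_lit 247) (nat_lit 227))))) (XT.nd (nat_lit 234) (nat_lit 988) (nat_lit 0) (XT.nd (nat_lit 78) (nat_lit 380) (nat_lit 0) (XT.lf (nat_lit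 0) (nat_lit 2826316664) (nat_lit 380) (nat_lit 5474339227) (nat_lit 76) (nat_lit 1071723867) (nat_lit 89) (nat_lit 5) (nat_lit 94) (nat_lit 5) (nat_lit 90) (nat_lit 5) (nat_lit 307) (nat_lit 247) (nat_lit 226)) (XT.nd (nat_lit 78) (nat_lit 0) (nat_lit 0) (XT.lf (nat_lit 0) (nat_lit 268411797) (nat_lit 380) (nat_lit 5614488300) (nat_lit 456) (nat_lit 3637841781) (nat_lit 84) (nat_lit 5) (nat_lit 89) (nat_lit 5) (nat_lit 90) (nat_lit 5) (nat_lit 308) (nat_lit 247) (nat_lit 225)) (XT.lf (nat_lit 0) (nat_lit 6205869125) (nat_lit 380) (nat_lit 2815657024) (nat_lit 456) (nat_lit 652396560) (nat_lit 84) (nat_lit 5) (nat_lit 89) (nat_lit 5) (nat_lit 90) (nat_lit 5) (nat_lit 309) (nat_lit 247) (nat_lit 224)))) (XT.nd (nat_lit 156) (nat_lit 608) (nat_lit 0) (XT.nd (nat_lit 78) (nat_lit 0) (nat_lit 0) (XT.lf (nat_lit 0) (nat_lit 2335777561) (nat_lit 380) (nat_lit 7407887966) (nat_lit 76) (nat_lit 88595339)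 (nat_lit 79) (nat_lit 5) (nat_lit 84) (nat_lit 5) (nat_lit 80) (nat_lit 5) (nat_lit 310) (nat_lit 247) (nat_lit 223)) (XT.lf (nat_lit 0) (nat_lit 5400761538) (nat_lit 380) (nat_lit 1553686269) (nat_lit 76) (nat_lit 3040770829) (nat_lit 79) (nat_lit 5) (nat_lit 84) (nat_lit 5) (nat_lit 80) (nat_lit 5) (nat_lit 311) (nat_lit 247) (nat_lit 222))) (XT.nd (nat_lit 78) (nat_lit 304) (nat_lit 0) (XT.lf (nat_lit 0) (nat_lit 4476733928) (nat_lit 304) (nat_lit 4062860313) (nat_lit 380) (nat_lit 1624083404) (nat_lit 75) (nat_lit 5) (nat_lit 79) (nat_lit 5) (nat_lit 80) (nat_lit 5) (nat_lit 312) (nat_lit 247) (nat_lit 221)) (XT.lf (nat_lit 0) (nat_lit 287665657) (nat_lit 228) (nat_lit 1077494600) (nat_lit 304) (nat_lit 8972948661) (nat_lit 71) (nat_lit 5) (nat_lit 74) (nat_lit 5) (nat_lit 75) (nat_lit 5) (nat_lit 313) (nat_lit 247) (nat_lit 220))))))) (XT.nd (nat_lit 1014) (nat_lit 1216) (nat_lit 0) (XT.nd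 (nat_lit 468) (nat_lit 988) (nat_lit 0) (XT.nd (nat_lit 234) (nat_lit 532) (nat_lit 0) (XT.nd (nat_lit 78) (nat_lit 304) (nat_lit 0) (XT.lf (nat_lit 0) (nat_lit 4428481767) (nat_lit 304) (nat_lit 4081751481) (nat_lit 76) (nat_lit 2006609774) (nat_lit 71) (nat_lit 5) (nat_lit 75) (nat_lit 5) (nat_lit 72) (nat_lit 5) (nat_lit 314) (nat_lit 247) (nat_lit 219)) (XT.nd (nat_lit 78) (nat_lit 0) (nat_lit 0) (XT.lf (nat_lit 0) (nat_lit 2009158030) (nat_lit 304) (nat_lit 5546125346) (nat_lit 380) (nat_lit 3146570094) (nat_lit 67) (nat_lit 5) (nat_lit 71) (nat_lit 5) (nat_lit 72) (nat_lit 5) (nat_lit 315) (nat_lit 247) (nat_lit 218)) (XT.lf (nat_lit 0) (nat_lit 8281923127) (nat_lit 304) (nat_lit 2477670843) (nat_lit 380) (nat_lit 133369045) (nat_lit 67) (nat_lit 5) (nat_lit 71) (nat_lit 5) (nat_lit 72) (nat_lit 5) (nat_lit 316) (nat_lit 247) (nat_lit 217)))) (XT.nd (nat_lit 78) (nat_lit 228) (nat_lit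 0) (XT.lf (nat_lit 0) (nat_lit 2897471363) (nat_lit 304) (nat_lit 7484859739) (nat_lit 76) (nat_lit 707118596) (nat_lit 63) (nat_lit 5) (nat_lit 67) (nat_lit 5) (nat_lit 64) (nat_lit 5) (nat_lit 317) (nat_lit 247) (nat_lit 216)) (XT.nd (nat_lit 78) (nat_lit 228) (nat_lit 0) (XT.lf (nat_lit 0) (nat_lit 6011861215) (nat_lit 304) (nat_lit 1340849893) (nat_lit 76) (nat_lit 3939275963) (nat_lit 63) (nat_lit 5) (nat_lit 67) (nat_lit 5) (nat_lit 64) (nat_lit 5) (nat_lit 318) (nat_lit 247) (nat_lit 215)) (XT.lf (nat_lit 0) (nat_lit 5003654093) (nat_lit 228) (nat_lit 4209899652) (nat_lit 304) (nat_lit 2287283941) (nat_lit 60) (nat_lit 5) (nat_lit 63) (nat_lit 5) (nat_lit 64) (nat_lit 5) (nat_lit 319) (nat_lit 247) (nat_lit 214))))) (XT.nd (nat_lit 234) (nat_lit 456) (nat_lit 0) (XT.nd (nat_lit 78) (nat_lit 456) (nat_lit 0) (XT.lf (nat_lit 0) (nat_lit 739494415) (nat_lit 304) (nat_lit 239139441) (nat_lit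 76) (nat_lit 10738350663) (nat_lit 59) (nat_lit 5) (nat_lit 63) (nat_lit 5) (nat_lit 60) (nat_lit 5) (nat_lit 320) (nat_lit 247) (nat_lit 213)) (XT.nd (nat_lit 78) (nat_lit 228) (nat_lit 0) (XT.lf (nat_lit 0) (nat_lit 3841665927) (nat_lit 304) (nat_lit 5735821957) (nat_lit 76) (nat_lit 2360580354) (nat_lit 56) (nat_lit 5) (nat_lit 60) (nat_lit 5) (nat_lit 57) (nat_lit 5) (nat_lit 321) (nat_lit 247) (nat_lit 212)) (XT.lf (nat_lit 0) (nat_lit 598051730) (nat_lit 228) (nat_lit 6404809927) (nat_lit 304) (nat_lit 5163991354) (nat_lit 53) (nat_lit 5) (nat_lit 56) (nat_lit 5) (nat_lit 57) (nat_lit 5) (nat_lit 322) (nat_lit 247) (nat_lit 211)))) (XT.nd (nat_lit 156) (nat_lit 228) (nat_lit 0) (XT.nd (nat_lit 78) (nat_lit 228) (nat_lit 0) (XT.lf (nat_lit 0) (nat_lit 7160335629) (nat_lit 228) (nat_lit 3105311229) (nat_lit 304) (nat_lit 2136697796) (nat_lit 53) (nat_lit 5) (nat_lit 56) (nat_lit 5) (nat_lit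 57) (nat_lit 5) (nat_lit 323) (nat_lit 247) (nat_lit 210)) (XT.lf (nat_lit 0) (nat_lit 926451379) (nat_lit 228) (nat_lit 11437718665) (nat_lit 76) (nat_lit 281565648) (nat_lit 50) (nat_lit 5) (nat_lit 53) (nat_lit 5) (nat_lit 51) (nat_lit 5) (nat_lit 324) (nat_lit 247) (nat_lit 209))) (XT.nd (nat_lit 78) (nat_lit 228) (nat_lit 0) (XT.lf (nat_lit 0) (nat_lit 4072995929) (nat_lit 228) (nat_lit 5066683616) (nat_lit 76) (nat_lit 3755122900) (nat_lit 50) (nat_lit 5) (nat_lit 53) (nat_lit 5) (nat_lit 51) (nat_lit 5) (nat_lit 325) (nat_lit 247) (nat_lit 208)) (XT.lf (nat_lit 0) (nat_lit 1447596415) (nat_lit 228) (nat_lit 5831947464) (nat_lit 304) (nat_lit 5872869920) (nat_lit 47) (nat_lit 5) (nat_lit 50) (nat_lit 5) (nat_lit 51) (nat_lit 5) (nat_lit 326) (nat_lit 247) (nat_lit 207)))))) (XT.nd (nat_lit 468) (nat_lit 760) (nat_lit 0) (XT.nd (nat_lit 234) (nat_lit 228) (nat_lit 0) (XT.nd (nat_lit 78)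 (nat_lit 228) (nat_lit 0) (XT.lf (nat_lit 0) (nat_lit 8185779416) (nat_lit 228) (nat_lit 2400046668) (nat_lit 304) (nat_lit 2831860899) (nat_lit 47) (nat_lit 5) (nat_lit 50) (nat_lit 5) (nat_lit 51) (nat_lit 5) (nat_lit 327) (nat_lit 247) (nat_lit 206)) (XT.nd (nat_lit 78) (nat_lit 0) (nat_lit 0) (XT.lf (nat_lit 0) (nat_lit 271903223) (nat_lit 228) (nat_lit 12317504303) (nat_lit 76) (nat_lit 1102139976) (nat_lit 44) (nat_lit 5) (nat_lit 47) (nat_lit 5) (nat_lit 45) (nat_lit 5) (nat_lit 328) (nat_lit 247) (nat_lit 205)) (XT.lf (nat_lit 0) (nat_lit 3442638859) (nat_lit 228) (nat_lit 5813529377) (nat_lit 76) (nat_lit 4715727429) (nat_lit 44) (nat_lit 5) (nat_lit 47) (nat_lit 5) (nat_lit 45) (nat_lit 5) (nat_lit 329) (nat_lit 247) (nat_lit 204)))) (XT.nd (nat_lit 78) (nat_lit 0) (nat_lit 0) (XT.lf (nat_lit 0) (nat_lit 829332710) (nat_lit 228) (nat_lit 5842143918) (nat_lit 304) (nat_lit 7590323447)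 (nat_lit 41) (nat_lit 5) (nat_lit 44) (nat_lit 5) (nat_lit 45) (nat_lit 5) (nat_lit 330) (nat_lit 247) (nat_lit 203)) (XT.nd (nat_lit 78) (nat_lit 0) (nat_lit 0) (XT.lf (nat_lit 0) (nat_lit 7718946915) (nat_lit 228) (nat_lit 2292567048) (nat_lit 304) (nat_lit 4548491803) (nat_lit 41) (nat_lit 5) (nat_lit 44) (nat_lit 5) (nat_lit 45) (nat_lit 5) (nat_lit 331) (nat_lit 247) (nat_lit 202)) (XT.lf (nat_lit 0) (nat_lit 13421525619) (nat_lit 304) (nat_lit 135702177) (nat_lit 76) (nat_lit 1310869818) (nat_lit 41) (nat_lit 5) (nat_lit 45) (nat_lit 5) (nat_lit 42) (nat_lit 4) (nat_lit 332) (nat_lit 247) (nat_lit 201))))) (XT.nd (nat_lit 234) (nat_lit 380) (nat_lit 0) (XT.nd (nat_lit 78) (nat_lit 152) (nat_lit 0) (XT.lf (nat_lit 0) (nat_lit 1760825123) (nat_lit 228) (nat_lit 8388921107) (nat_lit 76) (nat_lit 5033816944) (nat_lit 38) (nat_lit 5) (nat_lit 41) (nat_lit 5) (nat_lit 39) (nat_lit 5) (nat_lit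 333) (nat_lit 247) (nat_lit 200)) (XT.nd (nat_lit 78) (nat_lit 152) (nat_lit 0) (XT.lf (nat_lit 0) (nat_lit 4994812558) (nat_lit 228) (nat_lit 1655929969) (nat_lit 76) (nat_lit 8858567575) (nat_lit 38) (nat_lit 5) (nat_lit 41) (nat_lit 5) (nat_lit 39) (nat_lit 5) (nat_lit 334) (nat_lit 247) (nat_lit 199)) (XT.lf (nat_lit 0) (nat_lit 5315968361) (nat_lit 152) (nat_lit 3020232345) (nat_lit 228) (nat_lit 7508346783) (nat_lit 36) (nat_lit 5) (nat_lit 38) (nat_lit 5) (nat_lit 39) (nat_lit 5) (nat_lit 335) (nat_lit 247) (nat_lit 198)))) (XT.nd (nat_lit 156) (nat_lit 228) (nat_lit 0) (XT.nd (nat_lit 78) (nat_lit 152) (nat_lit 0) (XT.lf (nat_lit 0) (nat_lit 11761211946) (nat_lit 228) (nat_lit 3732595672) (nat_lit 76) (nat_lit 696561560) (nat_lit 36) (nat_lit 5) (nat_lit 39) (nat_lit 5) (nat_lit 37) (nat_lit 4) (nat_lit 336) (nat_lit 247) (nat_lit 197)) (XT.lf (nat_lit 0) (nat_lit 3235307150) (nat_lit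 152) (nat_lit 12075427585) (nat_lit 228) (nat_lit 1235205739) (nat_lit 34) (nat_lit 5) (nat_lit 36) (nat_lit 5) (nat_lit 37) (nat_lit 4) (nat_lit 337) (nat_lit 247) (nat_lit 196))) (XT.nd (nat_lit 78) (nat_lit 152) (nat_lit 0) (XT.lf (nat_lit 0) (nat_lit 2013408259) (nat_lit 228) (nat_lit 6507764631) (nat_lit 76) (nat_lit 8390471645) (nat_lit 33) (nat_lit 5) (nat_lit 36) (nat_lit 5) (nat_lit 34) (nat_lit 5) (nat_lit 338) (nat_lit 247) (nat_lit 195)) (XT.lf (nat_lit 0) (nat_lit 431937392) (nat_lit 152) (nat_lit 4868879430) (nat_lit 228) (nat_lit 11988176561) (nat_lit 31) (nat_lit 5) (nat_lit 33) (nat_lit 5) (nat_lit 34) (nat_lit 5) (nat_lit 339) (nat_lit 247) (nat_lit 194))))))))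
noncomputable def xc73 : XT := (XT.nd (nat_lit 2028) (nat_lit 532) (nat_lit 0) (XT.nd (nat_lit 1014) (nat_lit 608) (nat_lit 0) (XT.nd (nat_lit 468) (nat_lit 304) (nat_lit 0) (XT.nd (nat_lit 234) (nat_lit 228) (nat_lit 0) (XT.nd (nat_lit 78) (nat_lit 152) (nat_lit 0) (XT.lf (nat_lit 0) (nat_lit 7650403721) (nat_lit 152) (nat_lit 1064672627) (nat_lit 228) (nat_lit 8961764178) (nat_lit 31) (nat_lit 5) (nat_lit 33) (nat_lit 5) (nat_lit 34) (nat_lit 5) (nat_lit 340) (nat_lit 247) (nat_lit 193)) (XT.nd (nat_lit 78) (nat_lit 152) (nat_lit 0) (XT.lf (nat_lit 0) (nat_lit 12222563173) (nat_lit 228) (nat_lit 3080209049) (nat_lit 76) (nat_lit 2773850849) (nat_lit 31) (nat_lit 5) (nat_lit 34) (nat_lit 5) (nat_lit 32) (nat_lit 4) (nat_lit 341) (nat_lit 247) (nat_lit 192)) (XT.lf (nat_lit 0) (nat_lit 4083470872) (nat_lit 152) (nat_lit 11766033186) (nat_lit 228) (nat_lit 2638491425) (nat_lit 29) (nat_lit 5)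 (nat_lit 31) (nat_lit 5) (nat_lit 32) (nat_lit 4) (nat_lit 342) (nat_lit 247) (nat_lit 191)))) (XT.nd (nat_lit 78) (nat_lit 152) (nat_lit 0) (XT.lf (nat_lit 0) (nat_lit 656342534) (nat_lit 228) (nat_lit 7452571429) (nat_lit 76) (nat_lit 10802744558) (nat_lit 28) (nat_lit 5) (nat_lit 31) (nat_lit 5) (nat_lit 29) (nat_lit 5) (nat_lit 343) (nat_lit 247) (nat_lit 190)) (XT.nd (nat_lit 78) (nat_lit 152) (nat_lit 0) (XT.lf (nat_lit 0) (nat_lit 3962553233) (nat_lit 228) (nat_lit 376644940) (nat_lit 76) (nat_lit 15009103982) (nat_lit 28) (nat_lit 5) (nat_lit 31) (nat_lit 5) (nat_lit 29) (nat_lit 5) (nat_lit 344) (nat_lit 247) (nat_lit 189)) (XT.lf (nat_lit 0) (nat_lit 6991224467) (nat_lit 152) (nat_lit 410495525) (nat_lit 228) (nat_lit 12395332693) (nat_lit 26) (nat_lit 5) (nat_lit 28) (nat_lit 5) (nat_lit 29) (nat_lit 5) (nat_lit 345) (nat_lit 247) (nat_lit 188))))) (XT.nd (nat_lit 234) (nat_lit 228)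 (nat_lit 0) (XT.nd (nat_lit 78) (nat_lit 76) (nat_lit 0) (XT.lf (nat_lit 0) (nat_lit 10949631241) (nat_lit 228) (nat_lit 5763280045) (nat_lit 76) (nat_lit 3546207438) (nat_lit 26) (nat_lit 5) (nat_lit 29) (nat_lit 5) (nat_lit 27) (nat_lit 4) (nat_lit 346) (nat_lit 247) (nat_lit 187)) (XT.nd (nat_lit 78) (nat_lit 0) (nat_lit 0) (XT.lf (nat_lit 0) (nat_lit 1459633400) (nat_lit 76) (nat_lit 13130185650) (nat_lit 152) (nat_lit 6145672010) (nat_lit 25) (nat_lit 5) (nat_lit 26) (nat_lit 5) (nat_lit 27) (nat_lit 4) (nat_lit 347) (nat_lit 247) (nat_lit 186)) (XT.lf (nat_lit 0) (nat_lit 8962588719) (nat_lit 76) (nat_lit 9402978471) (nat_lit 152) (nat_lit 2859815659) (nat_lit 25) (nat_lit 5) (nat_lit 26) (nat_lit 5) (nat_lit 27) (nat_lit 4) (nat_lit 348) (nat_lit 247) (nat_lit 185)))) (XT.nd (nat_lit 156) (nat_lit 0) (nat_lit 0) (XT.nd (nat_lit 78) (nat_lit 152) (nat_lit 0) (XT.lf (nat_lit 0) (nat_lit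 483139454) (nat_lit 152) (nat_lit 5098212578) (nat_lit 76) (nat_lit 16149423103) (nat_lit 24) (nat_lit 5) (nat_lit 26) (nat_lit 5) (nat_lit 25) (nat_lit 5) (nat_lit 349) (nat_lit 247) (nat_lit 184)) (XT.lf (nat_lit 0) (nat_lit 2244527165) (nat_lit 152) (nat_lit 1615622485) (nat_lit 228) (nat_lit 18390610032) (nat_lit 22) (nat_lit 5) (nat_lit 24) (nat_lit 5) (nat_lit 25) (nat_lit 5) (nat_lit 350) (nat_lit 247) (nat_lit 183))) (XT.nd (nat_lit 78) (nat_lit 0) (nat_lit 0) (XT.lf (nat_lit 0) (nat_lit 7384042563) (nat_lit 228) (nat_lit 12949442052) (nat_lit 76) (nat_lit 2451508791) (nat_lit 22) (nat_lit 5) (nat_lit 25) (nat_lit 5) (nat_lit 23) (nat_lit 4) (nat_lit 351) (nat_lit 247) (nat_lit 182)) (XT.lf (nat_lit 0) (nat_lit 11000373225) (nat_lit 228) (nat_lit 5747872474) (nat_lit 76) (nat_lit 6587423140) (nat_lit 22) (nat_lit 5) (nat_lit 25) (nat_lit 5) (nat_lit 23) (nat_lit 4) (nat_lit 352) (nat_lit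 247) (nat_lit 181)))))) (XT.nd (nat_lit 468) (nat_lit 304) (nat_lit 0) (XT.nd (nat_lit 234) (nat_lit 228) (nat_lit 0) (XT.nd (nat_lit 78) (nat_lit 0) (nat_lit 0) (XT.lf (nat_lit 0) (nat_lit 1652546334) (nat_lit 76) (nat_lit 13060110135) (nat_lit 152) (nat_lit 9190600033) (nat_lit 21) (nat_lit 5) (nat_lit 22) (nat_lit 5) (nat_lit 23) (nat_lit 4) (nat_lit 353) (nat_lit 247) (nat_lit 180)) (XT.nd (nat_lit 78) (nat_lit 0) (nat_lit 0) (XT.lf (nat_lit 0) (nat_lit 9343843225) (nat_lit 76) (nat_lit 9222441814) (nat_lit 152) (nat_lit 5920702840) (nat_lit 21) (nat_lit 5) (nat_lit 22) (nat_lit 5) (nat_lit 23) (nat_lit 4) (nat_lit 354) (nat_lit 247) (nat_lit 179)) (XT.lf (nat_lit 0) (nat_lit 17218344815) (nat_lit 76) (nat_lit 5289929675) (nat_lit 152) (nat_lit 2580789086) (nat_lit 21) (nat_lit 5) (nat_lit 22) (nat_lit 5) (nat_lit 23) (nat_lit 4) (nat_lit 355) (nat_lit 247) (nat_lit 178)))) (XT.nd (nat_lit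 78) (nat_lit 152) (nat_lit 0) (XT.lf (nat_lit 0) (nat_lit 815823121) (nat_lit 152) (nat_lit 435076207) (nat_lit 76) (nat_lit 24458870402) (nat_lit 20) (nat_lit 5) (nat_lit 22) (nat_lit 5) (nat_lit 21) (nat_lit 5) (nat_lit 356) (nat_lit 247) (nat_lit 177)) (XT.nd (nat_lit 78) (nat_lit 0) (nat_lit 0) (XT.lf (nat_lit 0) (nat_lit 4335362396) (nat_lit 228) (nat_lit 19080644697) (nat_lit 76) (nat_lit 2930150076) (nat_lit 18) (nat_lit 5) (nat_lit 21) (nat_lit 5) (nat_lit 19) (nat_lit 4) (nat_lit 357) (nat_lit 247) (nat_lit 176)) (XT.lf (nat_lit 0) (nat_lit 7951497158) (nat_lit 228) (nat_lit 11853383795) (nat_lit 76) (nat_lit 7197038271) (nat_lit 18) (nat_lit 5) (nat_lit 21) (nat_lit 5) (nat_lit 19) (nat_lit 4) (nat_lit 358) (nat_lit 247) (nat_lit 175))))) (XT.nd (nat_lit 234) (nat_lit 228) (nat_lit 0) (XT.nd (nat_lit 78) (nat_lit 76) (nat_lit 0) (XT.lf (nat_lit 0) (nat_lit 11651055044) (nat_lit 228)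 (nat_lit 4453468341) (nat_lit 76) (nat_lit 11573595471) (nat_lit 18) (nat_lit 5) (nat_lit 21) (nat_lit 5) (nat_lit 19) (nat_lit 4) (nat_lit 359) (nat_lit 247) (nat_lit 174)) (XT.nd (nat_lit 78) (nat_lit 0) (nat_lit 0) (XT.lf (nat_lit 0) (nat_lit 3187772533) (nat_lit 76) (nat_lit 12280138963) (nat_lit 152) (nat_lit 12906516138) (nat_lit 17) (nat_lit 5) (nat_lit 18) (nat_lit 5) (nat_lit 19) (nat_lit 4) (nat_lit 360) (nat_lit 247) (nat_lit 173)) (XT.lf (nat_lit 0) (nat_lit 11107085766) (nat_lit 76) (nat_lit 8313128735) (nat_lit 152) (nat_lit 9670795095) (nat_lit 17) (nat_lit 5) (nat_lit 18) (nat_lit 5) (nat_lit 19) (nat_lit 4) (nat_lit 361) (nat_lit 247) (nat_lit 172)))) (XT.nd (nat_lit 156) (nat_lit 228) (nat_lit 0) (XT.nd (nat_lit 78) (nat_lit 0) (nat_lit 0) (XT.lf (nat_lit 0) (nat_lit 19222758392) (nat_lit 76) (nat_lit 4244997681) (nat_lit 152) (nat_lit 6362044653) (nat_lit 17) (nat_lit 5) (nat_lit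 18) (nat_lit 5) (nat_lit 19) (nat_lit 4) (nat_lit 362) (nat_lit 247) (nat_lit 171)) (XT.lf (nat_lit 0) (nat_lit 27541881777) (nat_lit 76) (nat_lit 72191122) (nat_lit 152) (nat_lit 2977373671) (nat_lit 17) (nat_lit 5) (nat_lit 18) (nat_lit 5) (nat_lit 19) (nat_lit 4) (nat_lit 363) (nat_lit 247) (nat_lit 170))) (XT.nd (nat_lit 78) (nat_lit 0) (nat_lit 0) (XT.lf (nat_lit 0) (nat_lit 563633437) (nat_lit 228) (nat_lit 26632265411) (nat_lit 76) (nat_lit 4177965236) (nat_lit 14) (nat_lit 5) (nat_lit 17) (nat_lit 5) (nat_lit 15) (nat_lit 4) (nat_lit 364) (nat_lit 247) (nat_lit 169)) (XT.lf (nat_lit 0) (nat_lit 4160732767) (nat_lit 228) (nat_lit 19419745932) (nat_lit 76) (nat_lit 8598110409) (nat_lit 14) (nat_lit 5) (nat_lit 17) (nat_lit 5) (nat_lit 15) (nat_lit 4) (nat_lit 365) (nat_lit 247) (nat_lit 168))))))) (XT.nd (nat_lit 1014) (nat_lit 228) (nat_lit 0) (XT.nd (nat_lit 468) (nat_lit 228) (nat_lit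 0) (XT.nd (nat_lit 234) (nat_lit 0) (nat_lit 0) (XT.nd (nat_lit 78) (nat_lit 76) (nat_lit 0) (XT.lf (nat_lit 0) (nat_lit 7844279041) (nat_lit 228) (nat_lit 12029129674) (nat_lit 76) (nat_lit 13134701320) (nat_lit 14) (nat_lit 5) (nat_lit 17) (nat_lit 5) (nat_lit 15) (nat_lit 4) (nat_lit 366) (nat_lit 247) (nat_lit 167)) (XT.nd (nat_lit 78) (nat_lit 76) (nat_lit 0) (XT.lf (nat_lit 0) (nat_lit 11617490892) (nat_lit 228) (nat_lit 4453958819) (nat_lit 76) (nat_lit 17791701980) (nat_lit 14) (nat_lit 5) (nat_lit 17) (nat_lit 5) (nat_lit 15) (nat_lit 4) (nat_lit 367) (nat_lit 247) (nat_lit 166)) (XT.lf (nat_lit 0) (nat_lit 3378308686) (nat_lit 76) (nat_lit 12137830985) (nat_lit 152) (nat_lit 19227347297) (nat_lit 13) (nat_lit 5) (nat_lit 14) (nat_lit 5) (nat_lit 15) (nat_lit 4) (nat_lit 368) (nat_lit 247) (nat_lit 165)))) (XT.nd (nat_lit 78) (nat_lit 0) (nat_lit 0) (XT.lf (nat_lit 0) (nat_lit 11501118298)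 (nat_lit 76) (nat_lit 8055617966) (nat_lit 152) (nat_lit 16092755698) (nat_lit 13) (nat_lit 5) (nat_lit 14) (nat_lit 5) (nat_lit 15) (nat_lit 4) (nat_lit 369) (nat_lit 247) (nat_lit 164)) (XT.nd (nat_lit 78) (nat_lit 0) (nat_lit 0) (XT.lf (nat_lit 0) (nat_lit 19832925106) (nat_lit 76) (nat_lit 3866219923) (nat_lit 152) (nat_lit 12884123289) (nat_lit 13) (nat_lit 5) (nat_lit 14) (nat_lit 5) (nat_lit 15) (nat_lit 4) (nat_lit 370) (nat_lit 247) (nat_lit 163)) (XT.lf (nat_lit 0) (nat_lit 27951157645) (nat_lit 152) (nat_lit 9168794729) (nat_lit 0) (nat_lit 425554416) (nat_lit 13) (nat_lit 5) (nat_lit 15) (nat_lit 4) (nat_lit 13) (nat_lit 4) (nat_lit 371) (nat_lit 247) (nat_lit 162))))) (XT.nd (nat_lit 234) (nat_lit 76) (nat_lit 0) (XT.nd (nat_lit 78) (nat_lit 152) (nat_lit 0) (XT.lf (nat_lit 0) (nat_lit 32350579824) (nat_lit 152) (nat_lit 1431193921) (nat_lit 0) (nat_lit 4754251717) (nat_lit 13)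 (nat_lit 5) (nat_lit 15) (nat_lit 4) (nat_lit 13) (nat_lit 4) (nat_lit 372) (nat_lit 247) (nat_lit 161)) (XT.nd (nat_lit 78) (nat_lit 76) (nat_lit 0) (XT.lf (nat_lit 0) (nat_lit 6635874507) (nat_lit 76) (nat_lit 30292004827) (nat_lit 76) (nat_lit 2627011791) (nat_lit 12) (nat_lit 4) (nat_lit 13) (nat_lit 5) (nat_lit 13) (nat_lit 4) (nat_lit 373) (nat_lit 247) (nat_lit 160)) (XT.lf (nat_lit 0) (nat_lit 1014650705) (nat_lit 152) (nat_lit 25671917084) (nat_lit 76) (nat_lit 13917561353) (nat_lit 11) (nat_lit 5) (nat_lit 13) (nat_lit 5) (nat_lit 12) (nat_lit 4) (nat_lit 374) (nat_lit 247) (nat_lit 159)))) (XT.nd (nat_lit 156) (nat_lit 76) (nat_lit 0) (XT.nd (nat_lit 78) (nat_lit 0) (nat_lit 0) (XT.lf (nat_lit 0) (nat_lit 4695421794) (nat_lit 152) (nat_lit 18264675055) (nat_lit 76) (nat_lit 18724494949) (nat_lit 11) (nat_lit 5) (nat_lit 13) (nat_lit 5) (nat_lit 12) (nat_lit 4) (nat_lit 375) (nat_lit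 247) (nat_lit 158)) (XT.lf (nat_lit 0) (nat_lit 8469780145) (nat_lit 152) (nat_lit 10665565739) (nat_lit 76) (nat_lit 23662634873) (nat_lit 11) (nat_lit 5) (nat_lit 13) (nat_lit 5) (nat_lit 12) (nat_lit 4) (nat_lit 376) (nat_lit 247) (nat_lit 157))) (XT.nd (nat_lit 78) (nat_lit 76) (nat_lit 0) (XT.lf (nat_lit 0) (nat_lit 12341023742) (nat_lit 152) (nat_lit 2867949139) (nat_lit 76) (nat_lit 28736296006) (nat_lit 11) (nat_lit 5) (nat_lit 13) (nat_lit 5) (nat_lit 12) (nat_lit 4) (nat_lit 377) (nat_lit 247) (nat_lit 156)) (XT.lf (nat_lit 0) (nat_lit 5237184530) (nat_lit 76) (nat_lit 11125693715) (nat_lit 152) (nat_lit 28763070135) (nat_lit 10) (nat_lit 5) (nat_lit 11) (nat_lit 5) (nat_lit 12) (nat_lit 4) (nat_lit 378) (nat_lit 247) (nat_lit 155)))))) (XT.nd (nat_lit 546) (nat_lit 152) (nat_lit 0) (XT.nd (nat_lit 234) (nat_lit 76) (nat_lit 0) (XT.nd (nat_lit 78) (nat_lit 0) (nat_lit 0) (XT.lf (nat_lit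 0) (nat_lit 13615935062) (nat_lit 76) (nat_lit 6902734478) (nat_lit 152) (nat_lit 25822987007) (nat_lit 10) (nat_lit 5) (nat_lit 11) (nat_lit 5) (nat_lit 12) (nat_lit 4) (nat_lit 379) (nat_lit 247) (nat_lit 154)) (XT.nd (nat_lit 78) (nat_lit 0) (nat_lit 0) (XT.lf (nat_lit 0) (nat_lit 22218545883) (nat_lit 76) (nat_lit 2565365870) (nat_lit 152) (nat_lit 22810387421) (nat_lit 10) (nat_lit 5) (nat_lit 11) (nat_lit 5) (nat_lit 12) (nat_lit 4) (nat_lit 380) (nat_lit 247) (nat_lit 153)) (XT.lf (nat_lit 0) (nat_lit 29180501574) (nat_lit 152) (nat_lit 17850606744) (nat_lit 0) (nat_lit 1853317392) (nat_lit 10) (nat_lit 5) (nat_lit 12) (nat_lit 4) (nat_lit 10) (nat_lit 4) (nat_lit 381) (nat_lit 247) (nat_lit 152)))) (XT.nd (nat_lit 156) (nat_lit 76) (nat_lit 0) (XT.nd (nat_lit 78) (nat_lit 0) (nat_lit 0) (XT.lf (nat_lit 0) (nat_lit 33719928520) (nat_lit 152) (nat_lit 10151354311) (nat_lit 0) (nat_lit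 6341651182) (nat_lit 10) (nat_lit 5) (nat_lit 12) (nat_lit 4) (nat_lit 10) (nat_lit 4) (nat_lit 382) (nat_lit 247) (nat_lit 151)) (XT.lf (nat_lit 0) (nat_lit 38381499216) (nat_lit 152) (nat_lit 2246608624) (nat_lit 0) (nat_lit 10953616872) (nat_lit 10) (nat_lit 5) (nat_lit 12) (nat_lit 4) (nat_lit 10) (nat_lit 4) (nat_lit 383) (nat_lit 247) (nat_lit 150))) (XT.nd (nat_lit 78) (nat_lit 0) (nat_lit 0) (XT.lf (nat_lit 0) (nat_lit 5987372579) (nat_lit 76) (nat_lit 37239468587) (nat_lit 76) (nat_lit 9763426043) (nat_lit 9) (nat_lit 4) (nat_lit 10) (nat_lit 5) (nat_lit 10) (nat_lit 4) (nat_lit 384) (nat_lit 247) (nat_lit 149)) (XT.lf (nat_lit 0) (nat_lit 14489927006) (nat_lit 76) (nat_lit 33736834049) (nat_lit 76) (nat_lit 6214034029) (nat_lit 9) (nat_lit 4) (nat_lit 10) (nat_lit 5) (nat_lit 10) (nat_lit 4) (nat_lit 385) (nat_lit 247) (nat_lit 148))))) (XT.nd (nat_lit 234) (nat_lit 76) (nat_lit 0)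 (XT.nd (nat_lit 78) (nat_lit 76) (nat_lit 0) (XT.lf (nat_lit 0) (nat_lit 23223772153) (nat_lit 76) (nat_lit 30139830014) (nat_lit 76) (nat_lit 2571634387) (nat_lit 9) (nat_lit 4) (nat_lit 10) (nat_lit 5) (nat_lit 10) (nat_lit 4) (nat_lit 386) (nat_lit 247) (nat_lit 147)) (XT.nd (nat_lit 78) (nat_lit 0) (nat_lit 0) (XT.lf (nat_lit 0) (nat_lit 1144184056) (nat_lit 152) (nat_lit 25289575397) (nat_lit 76) (nat_lit 31040801466) (nat_lit 8) (nat_lit 5) (nat_lit 10) (nat_lit 5) (nat_lit 9) (nat_lit 4) (nat_lit 387) (nat_lit 247) (nat_lit 146)) (XT.lf (nat_lit 0) (nat_lit 4907336923) (nat_lit 152) (nat_lit 17693164792) (nat_lit 76) (nat_lit 36459178037) (nat_lit 8) (nat_lit 5) (nat_lit 10) (nat_lit 5) (nat_lit 9) (nat_lit 4) (nat_lit 388) (nat_lit 247) (nat_lit 145)))) (XT.nd (nat_lit 156) (nat_lit 76) (nat_lit 0) (XT.nd (nat_lit 78) (nat_lit 0) (nat_lit 0) (XT.lf (nat_lit 0) (nat_lit 8771294254) (nat_lit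 152) (nat_lit 9890874822) (nat_lit 76) (nat_lit 42030550636) (nat_lit 8) (nat_lit 5) (nat_lit 10) (nat_lit 5) (nat_lit 9) (nat_lit 4) (nat_lit 389) (nat_lit 247) (nat_lit 144)) (XT.lf (nat_lit 0) (nat_lit 12739432322) (nat_lit 152) (nat_lit 1875887953) (nat_lit 76) (nat_lit 47759787452) (nat_lit 8) (nat_lit 5) (nat_lit 10) (nat_lit 5) (nat_lit 9) (nat_lit 4) (nat_lit 390) (nat_lit 247) (nat_lit 143))) (XT.nd (nat_lit 78) (nat_lit 0) (nat_lit 0) (XT.lf (nat_lit 0) (nat_lit 6485351773) (nat_lit 76) (nat_lit 10392207828) (nat_lit 152) (nat_lit 47228884010) (nat_lit 7) (nat_lit 5) (nat_lit 8) (nat_lit 5) (nat_lit 9) (nat_lit 4) (nat_lit 391) (nat_lit 247) (nat_lit 142)) (XT.lf (nat_lit 0) (nat_lit 15115336660) (nat_lit 76) (nat_lit 6032175154) (nat_lit 152) (nat_lit 44741981769) (nat_lit 7) (nat_lit 5) (nat_lit 8) (nat_lit 5) (nat_lit 9) (nat_lit 4) (nat_lit 392) (nat_lit 247) (nat_lit 141))))))))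
noncomputable def xc74 : XT := (XT.nd (nat_lit 32916) (nat_lit 0) (nat_lit 4180) (XT.nd (nat_lit 1014) (nat_lit 76) (nat_lit 0) (XT.nd (nat_lit 468) (nat_lit 76) (nat_lit 0) (XT.nd (nat_lit 234) (nat_lit 0) (nat_lit 0) (XT.nd (nat_lit 78) (nat_lit 0) (nat_lit 0) (XT.lf (nat_lit 0) (nat_lit 23984273623) (nat_lit 76) (nat_lit 1550355308) (nat_lit 152) (nat_lit 42191738452) (nat_lit 7) (nat_lit 5) (nat_lit 8) (nat_lit 5) (nat_lit 9) (nat_lit 4) (nat_lit 393) (nat_lit 247) (nat_lit 140)) (XT.nd (nat_lit 78) (nat_lit 0) (nat_lit 0) (XT.lf (nat_lit 0) (nat_lit 30072131720) (nat_lit 152) (nat_lit 36548145194) (nat_lit 0) (nat_lit 2997511507) (nat_lit 7) (nat_lit 5) (nat_lit 9) (nat_lit 4) (nat_lit 7) (nat_lit 4) (nat_lit 394) (nat_lit 247) (nat_lit 139)) (XT.lf (nat_lit 0) (nat_lit 34750721946) (nat_lit 152) (nat_lit 29172762206) (nat_lit 0) (nat_lit 7642323138) (nat_lit 7) (nat_lit 5) (nat_lit 9)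 (nat_lit 4) (nat_lit 7) (nat_lit 4) (nat_lit 395) (nat_lit 247) (nat_lit 138)))) (XT.nd (nat_lit 78) (nat_lit 0) (nat_lit 0) (XT.lf (nat_lit 0) (nat_lit 39559584734) (nat_lit 152) (nat_lit 21594597323) (nat_lit 0) (nat_lit 12418391172) (nat_lit 7) (nat_lit 5) (nat_lit 9) (nat_lit 4) (nat_lit 7) (nat_lit 4) (nat_lit 396) (nat_lit 247) (nat_lit 137)) (XT.nd (nat_lit 78) (nat_lit 0) (nat_lit 0) (XT.lf (nat_lit 0) (nat_lit 44502922002) (nat_lit 152) (nat_lit 13807028847) (nat_lit 0) (nat_lit 17329888875) (nat_lit 7) (nat_lit 5) (nat_lit 9) (nat_lit 4) (nat_lit 7) (nat_lit 4) (nat_lit 397) (nat_lit 247) (nat_lit 136)) (XT.lf (nat_lit 0) (nat_lit 49585053172) (nat_lit 152) (nat_lit 5803252107) (nat_lit 0) (nat_lit 22381107845) (nat_lit 7) (nat_lit 5) (nat_lit 9) (nat_lit 4) (nat_lit 7) (nat_lit 4) (nat_lit 398) (nat_lit 247) (nat_lit 135))))) (XT.nd (nat_lit 234) (nat_lit 0) (nat_lit 0) (XT.nd (nat_lit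 78) (nat_lit 0) (nat_lit 0) (XT.lf (nat_lit 0) (nat_lit 2471963396) (nat_lit 76) (nat_lit 52362217569) (nat_lit 76) (nat_lit 25128260397) (nat_lit 6) (nat_lit 4) (nat_lit 7) (nat_lit 5) (nat_lit 7) (nat_lit 4) (nat_lit 399) (nat_lit 247) (nat_lit 134)) (XT.nd (nat_lit 78) (nat_lit 0) (nat_lit 0) (XT.lf (nat_lit 0) (nat_lit 11097650695) (nat_lit 76) (nat_lit 49192611873) (nat_lit 76) (nat_lit 21929516988) (nat_lit 6) (nat_lit 4) (nat_lit 7) (nat_lit 5) (nat_lit 7) (nat_lit 4) (nat_lit 400) (nat_lit 247) (nat_lit 133)) (XT.lf (nat_lit 0) (nat_lit 19965850703) (nat_lit 76) (nat_lit 45935320101) (nat_lit 76) (nat_lit 18643936174) (nat_lit 6) (nat_lit 4) (nat_lit 7) (nat_lit 5) (nat_lit 7) (nat_lit 4) (nat_lit 401) (nat_lit 247) (nat_lit 132)))) (XT.nd (nat_lit 156) (nat_lit 0) (nat_lit 0) (XT.nd (nat_lit 78) (nat_lit 0) (nat_lit 0) (XT.lf (nat_lit 0) (nat_lit 29084312331) (nat_lit 76) (nat_lit 42587496077)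 (nat_lit 76) (nat_lit 15268647061) (nat_lit 6) (nat_lit 4) (nat_lit 7) (nat_lit 5) (nat_lit 7) (nat_lit 4) (nat_lit 402) (nat_lit 247) (nat_lit 131)) (XT.lf (nat_lit 0) (nat_lit 38461003168) (nat_lit 76) (nat_lit 39146214516) (nat_lit 76) (nat_lit 11800700366) (nat_lit 6) (nat_lit 4) (nat_lit 7) (nat_lit 5) (nat_lit 7) (nat_lit 4) (nat_lit 403) (nat_lit 247) (nat_lit 130))) (XT.nd (nat_lit 78) (nat_lit 0) (nat_lit 0) (XT.lf (nat_lit 0) (nat_lit 48104116438) (nat_lit 76) (nat_lit 35608468475) (nat_lit 76) (nat_lit 8237065844) (nat_lit 6) (nat_lit 4) (nat_lit 7) (nat_lit 5) (nat_lit 7) (nat_lit 4) (nat_lit 404) (nat_lit 247) (nat_lit 129)) (XT.lf (nat_lit 0) (nat_lit 58022078162) (nat_lit 76) (nat_lit 31971166718) (nat_lit 76) (nat_lit 4574629639) (nat_lit 6) (nat_lit 4) (nat_lit 7) (nat_lit 5) (nat_lit 7) (nat_lit 4) (nat_lit 405) (nat_lit 247) (nat_lit 128)))))) (XT.nd (nat_lit 31356) (nat_lit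 0) (nat_lit 10412) (XT.nd (nat_lit 31122) (nat_lit 0) (nat_lit 13984) (XT.nd (nat_lit 78) (nat_lit 76) (nat_lit 0) (XT.lf (nat_lit 0) (nat_lit 68223554521) (nat_lit 76) (nat_lit 28231131021) (nat_lit 76) (nat_lit 810191567) (nat_lit 6) (nat_lit 4) (nat_lit 7) (nat_lit 5) (nat_lit 7) (nat_lit 4) (nat_lit 406) (nat_lit 247) (nat_lit 127)) (XT.nd (nat_lit 78) (nat_lit 0) (nat_lit 0) (XT.lf (nat_lit 0) (nat_lit 2999835089) (nat_lit 152) (nat_lit 21354965850) (nat_lit 76) (nat_lit 75687331885) (nat_lit 5) (nat_lit 5) (nat_lit 7) (nat_lit 5) (nat_lit 6) (nat_lit 4) (nat_lit 407) (nat_lit 247) (nat_lit 126)) (XT.lf (nat_lit 0) (nat_lit 6900603898) (nat_lit 152) (nat_lit 13459406746) (nat_lit 76) (nat_lit 82542675842) (nat_lit 5) (nat_lit 5) (nat_lit 7) (nat_lit 5) (nat_lit 6) (nat_lit 4) (nat_lit 408) (nat_lit 247) (nat_lit 125)))) (XT.nd (nat_lit 78) (nat_lit 1140) (nat_lit 0) (XT.lf (nat_lit 0) (nat_lit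 1677118300) (nat_lit 988) (nat_lit 939269410) (nat_lit 988) (nat_lit 939269410) (nat_lit 204) (nat_lit 4) (nat_lit 217) (nat_lit 5) (nat_lit 217) (nat_lit 4) (nat_lit 284) (nat_lit 248) (nat_lit 248)) (XT.nd (nat_lit 78) (nat_lit 0) (nat_lit 0) (XT.lf (nat_lit 0) (nat_lit 872654805) (nat_lit 1064) (nat_lit 380716077) (nat_lit 1140) (nat_lit 5917351255) (nat_lit 189) (nat_lit 5) (nat_lit 203) (nat_lit 5) (nat_lit 204) (nat_lit 4) (nat_lit 285) (nat_lit 248) (nat_lit 247)) (XT.lf (nat_lit 0) (nat_lit 4396761211) (nat_lit 1140) (nat_lit 1638087772) (nat_lit 0) (nat_lit 1198036716) (nat_lit 189) (nat_lit 5) (nat_lit 204) (nat_lit 4) (nat_lit 189) (nat_lit 4) (nat_lit 286) (nat_lit 248) (nat_lit 246))))) (XT.nd (nat_lit 234) (nat_lit 1824) (nat_lit 0) (XT.nd (nat_lit 78) (nat_lit 532) (nat_lit 0) (XT.lf (nat_lit 0) (nat_lit 272560843) (nat_lit 1216) (nat_lit 4175257391) (nat_lit 76) (nat_lit 2850929262)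 (nat_lit 173) (nat_lit 5) (nat_lit 189) (nat_lit 5) (nat_lit 174) (nat_lit 4) (nat_lit 287) (nat_lit 248) (nat_lit 245)) (XT.nd (nat_lit 78) (nat_lit 0) (nat_lit 0) (XT.lf (nat_lit 0) (nat_lit 584818788) (nat_lit 532) (nat_lit 2764268850) (nat_lit 608) (nat_lit 4018881279) (nat_lit 166) (nat_lit 5) (nat_lit 173) (nat_lit 5) (nat_lit 174) (nat_lit 4) (nat_lit 288) (nat_lit 248) (nat_lit 244)) (XT.lf (nat_lit 0) (nat_lit 5480450574) (nat_lit 532) (nat_lit 990629485) (nat_lit 608) (nat_lit 969760472) (nat_lit 166) (nat_lit 5) (nat_lit 173) (nat_lit 5) (nat_lit 174) (nat_lit 4) (nat_lit 289) (nat_lit 248) (nat_lit 243)))) (XT.nd (nat_lit 156) (nat_lit 608) (nat_lit 0) (XT.nd (nat_lit 78) (nat_lit 532) (nat_lit 0) (XT.lf (nat_lit 0) (nat_lit 2077912601) (nat_lit 684) (nat_lit 4573929071) (nat_lit 76) (nat_lit 865106385) (nat_lit 157) (nat_lit 5) (nat_lit 166) (nat_lit 5) (nat_lit 158) (nat_lit 4)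 (nat_lit 290) (nat_lit 248) (nat_lit 242)) (XT.lf (nat_lit 0) (nat_lit 332042016) (nat_lit 532) (nat_lit 4812677038) (nat_lit 608) (nat_lit 2452070211) (nat_lit 150) (nat_lit 5) (nat_lit 157) (nat_lit 5) (nat_lit 158) (nat_lit 4) (nat_lit 291) (nat_lit 248) (nat_lit 241))) (XT.nd (nat_lit 78) (nat_lit 532) (nat_lit 0) (XT.lf (nat_lit 0) (nat_lit 573790615) (nat_lit 608) (nat_lit 2299870993) (nat_lit 76) (nat_lit 4806485296) (nat_lit 149) (nat_lit 5) (nat_lit 157) (nat_lit 5) (nat_lit 150) (nat_lit 5) (nat_lit 292) (nat_lit 248) (nat_lit 240)) (XT.lf (nat_lit 0) (nat_lit 2751398472) (nat_lit 532) (nat_lit 833501404) (nat_lit 608) (nat_lit 4182205595) (nat_lit 142) (nat_lit 5) (nat_lit 149) (nat_lit 5) (nat_lit 150) (nat_lit 5) (nat_lit 293) (nat_lit 248) (nat_lit 239))))))) (XT.nd (nat_lit 1014) (nat_lit 2508) (nat_lit 0) (XT.nd (nat_lit 468) (nat_lit 1748) (nat_lit 0) (XT.nd (nat_lit 234) (nat_lit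 988) (nat_lit 0) (XT.nd (nat_lit 78) (nat_lit 532) (nat_lit 0) (XT.lf (nat_lit 0) (nat_lit 40202228) (nat_lit 456) (nat_lit 6600914829) (nat_lit 532) (nat_lit 1217049623) (nat_lit 136) (nat_lit 5) (nat_lit 142) (nat_lit 5) (nat_lit 143) (nat_lit 4) (nat_lit 294) (nat_lit 248) (nat_lit 238)) (XT.nd (nat_lit 78) (nat_lit 456) (nat_lit 0) (XT.lf (nat_lit 0) (nat_lit 1779918551) (nat_lit 532) (nat_lit 2720605499) (nat_lit 76) (nat_lit 3451674007) (nat_lit 135) (nat_lit 5) (nat_lit 142) (nat_lit 5) (nat_lit 136) (nat_lit 5) (nat_lit 295) (nat_lit 248) (nat_lit 237)) (XT.lf (nat_lit 0) (nat_lit 2474296835) (nat_lit 456) (nat_lit 2313474746) (nat_lit 532) (nat_lit 3262679664) (nat_lit 129) (nat_lit 5) (nat_lit 135) (nat_lit 5) (nat_lit 136) (nat_lit 5) (nat_lit 296) (nat_lit 248) (nat_lit 236)))) (XT.nd (nat_lit 78) (nat_lit 988) (nat_lit 0) (XT.lf (nat_lit 0) (nat_lit 7790104289) (nat_lit 456) (nat_lit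 46291524) (nat_lit 532) (nat_lit 316861983) (nat_lit 129) (nat_lit 5) (nat_lit 135) (nat_lit 5) (nat_lit 136) (nat_lit 5) (nat_lit 297) (nat_lit 248) (nat_lit 235)) (XT.nd (nat_lit 78) (nat_lit 456) (nat_lit 0) (XT.lf (nat_lit 0) (nat_lit 2659298694) (nat_lit 532) (nat_lit 3294149954) (nat_lit 76) (nat_lit 2305181316) (nat_lit 122) (nat_lit 5) (nat_lit 129) (nat_lit 5) (nat_lit 123) (nat_lit 5) (nat_lit 298) (nat_lit 248) (nat_lit 234)) (XT.lf (nat_lit 0) (nat_lit 2037453665) (nat_lit 456) (nat_lit 3630323590) (nat_lit 532) (nat_lit 2700921369) (nat_lit 116) (nat_lit 5) (nat_lit 122) (nat_lit 5) (nat_lit 123) (nat_lit 5) (nat_lit 299) (nat_lit 248) (nat_lit 233))))) (XT.nd (nat_lit 234) (nat_lit 912) (nat_lit 0) (XT.nd (nat_lit 78) (nat_lit 760) (nat_lit 0) (XT.lf (nat_lit 0) (nat_lit 238608617) (nat_lit 532) (nat_lit 979291941) (nat_lit 76) (nat_lit 7265400307) (nat_lit 115) (nat_lit 5) (nat_lit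 122) (nat_lit 5) (nat_lit 116) (nat_lit 5) (nat_lit 300) (nat_lit 248) (nat_lit 232)) (XT.nd (nat_lit 78) (nat_lit 380) (nat_lit 0) (XT.lf (nat_lit 0) (nat_lit 3196328736) (nat_lit 456) (nat_lit 4108823576) (nat_lit 76) (nat_lit 1295959942) (nat_lit 110) (nat_lit 5) (nat_lit 116) (nat_lit 5) (nat_lit 111) (nat_lit 5) (nat_lit 301) (nat_lit 248) (nat_lit 231)) (XT.lf (nat_lit 0) (nat_lit 1349925874) (nat_lit 380) (nat_lit 4857224257) (nat_lit 456) (nat_lit 2516475824) (nat_lit 105) (nat_lit 5) (nat_lit 110) (nat_lit 5) (nat_lit 111) (nat_lit 5) (nat_lit 302) (nat_lit 248) (nat_lit 230)))) (XT.nd (nat_lit 156) (nat_lit 456) (nat_lit 0) (XT.nd (nat_lit 78) (nat_lit 380) (nat_lit 0) (XT.lf (nat_lit 0) (nat_lit 421201860) (nat_lit 456) (nat_lit 1887520283) (nat_lit 76) (nat_lit 6541904065) (nat_lit 104) (nat_lit 5) (nat_lit 110) (nat_lit 5) (nat_lit 105) (nat_lit 5) (nat_lit 303) (nat_lit 248) (nat_lit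 229)) (XT.lf (nat_lit 0) (nat_lit 3367477386) (nat_lit 456) (nat_lit 5262377742) (nat_lit 76) (nat_lit 351793142) (nat_lit 99) (nat_lit 5) (nat_lit 105) (nat_lit 5) (nat_lit 100) (nat_lit 5) (nat_lit 304) (nat_lit 248) (nat_lit 228))) (XT.nd (nat_lit 78) (nat_lit 76) (nat_lit 0) (XT.lf (nat_lit 0) (nat_lit 310752277) (nat_lit 380) (nat_lit 6069247226) (nat_lit 456) (nat_lit 2737353756) (nat_lit 94) (nat_lit 5) (nat_lit 99) (nat_lit 5) (nat_lit 100) (nat_lit 5) (nat_lit 305) (nat_lit 248) (nat_lit 227)) (XT.lf (nat_lit 0) (nat_lit 208162619) (nat_lit 456) (nat_lit 3189013525) (nat_lit 76) (nat_lit 5860367103) (nat_lit 93) (nat_lit 5) (nat_lit 99) (nat_lit 5) (nat_lit 94) (nat_lit 5) (nat_lit 306) (nat_lit 248) (nat_lit 226)))))) (XT.nd (nat_lit 468) (nat_lit 1140) (nat_lit 0) (XT.nd (nat_lit 234) (nat_lit 684) (nat_lit 0) (XT.nd (nat_lit 78) (nat_lit 380) (nat_lit 0) (XT.lf (nat_lit 0) (nat_lit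 2532295041) (nat_lit 304) (nat_lit 614155302) (nat_lit 380) (nat_lit 6255973345) (nat_lit 89) (nat_lit 5) (nat_lit 93) (nat_lit 5) (nat_lit 94) (nat_lit 5) (nat_lit 307) (nat_lit 248) (nat_lit 225)) (XT.nd (nat_lit 78) (nat_lit 380) (nat_lit 0) (XT.lf (nat_lit 0) (nat_lit 6162987533) (nat_lit 380) (nat_lit 1170082403) (nat_lit 76) (nat_lit 2218955783) (nat_lit 89) (nat_lit 5) (nat_lit 94) (nat_lit 5) (nat_lit 90) (nat_lit 5) (nat_lit 308) (nat_lit 248) (nat_lit 224)) (XT.lf (nat_lit 0) (nat_lit 4701142456) (nat_lit 380) (nat_lit 4557943737) (nat_lit 456) (nat_lit 447433579) (nat_lit 84) (nat_lit 5) (nat_lit 89) (nat_lit 5) (nat_lit 90) (nat_lit 5) (nat_lit 309) (nat_lit 248) (nat_lit 223)))) (XT.nd (nat_lit 78) (nat_lit 304) (nat_lit 0) (XT.lf (nat_lit 0) (nat_lit 812159359) (nat_lit 304) (nat_lit 1677721270) (nat_lit 380) (nat_lit 7376359258) (nat_lit 79) (nat_lit 5) (nat_lit 83) (nat_lit 5)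 (nat_lit 84) (nat_lit 5) (nat_lit 310) (nat_lit 248) (nat_lit 222)) (XT.nd (nat_lit 78) (nat_lit 304) (nat_lit 0) (XT.lf (nat_lit 0) (nat_lit 5508622102) (nat_lit 380) (nat_lit 3226492806) (nat_lit 76) (nat_lit 1295504250) (nat_lit 79) (nat_lit 5) (nat_lit 84) (nat_lit 5) (nat_lit 80) (nat_lit 5) (nat_lit 311) (nat_lit 248) (nat_lit 221)) (XT.lf (nat_lit 0) (nat_lit 2728313035) (nat_lit 304) (nat_lit 5873096800) (nat_lit 380) (nat_lit 1599082911) (nat_lit 75) (nat_lit 5) (nat_lit 79) (nat_lit 5) (nat_lit 80) (nat_lit 5) (nat_lit 312) (nat_lit 248) (nat_lit 220))))) (XT.nd (nat_lit 234) (nat_lit 532) (nat_lit 0) (XT.nd (nat_lit 78) (nat_lit 532) (nat_lit 0) (XT.lf (nat_lit 0) (nat_lit 1357809623) (nat_lit 380) (nat_lit 1545124020) (nat_lit 76) (nat_lit 7472970387) (nat_lit 74) (nat_lit 5) (nat_lit 79) (nat_lit 5) (nat_lit 75) (nat_lit 5) (nat_lit 313) (nat_lit 248) (nat_lit 219)) (XT.nd (nat_lit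 78) (nat_lit 304) (nat_lit 0) (XT.lf (nat_lit 0) (nat_lit 4359516640) (nat_lit 304) (nat_lit 6007903940) (nat_lit 76) (nat_lit 189096399) (nat_lit 71) (nat_lit 5) (nat_lit 75) (nat_lit 5) (nat_lit 72) (nat_lit 5) (nat_lit 314) (nat_lit 248) (nat_lit 218)) (XT.lf (nat_lit 0) (nat_lit 3024265) (nat_lit 304) (nat_lit 7436078733) (nat_lit 380) (nat_lit 3303870410) (nat_lit 67) (nat_lit 5) (nat_lit 71) (nat_lit 5) (nat_lit 72) (nat_lit 5) (nat_lit 315) (nat_lit 248) (nat_lit 217)))) (XT.nd (nat_lit 156) (nat_lit 228) (nat_lit 0) (XT.nd (nat_lit 78) (nat_lit 304) (nat_lit 0) (XT.lf (nat_lit 0) (nat_lit 6235355290) (nat_lit 304) (nat_lit 4380552087) (nat_lit 380) (nat_lit 319029430) (nat_lit 67) (nat_lit 5) (nat_lit 71) (nat_lit 5) (nat_lit 72) (nat_lit 5) (nat_lit 316) (nat_lit 248) (nat_lit 216)) (XT.lf (nat_lit 0) (nat_lit 1442829771) (nat_lit 228) (nat_lit 1217826017) (nat_lit 304) (nat_lit 8472491603)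 (nat_lit 63) (nat_lit 5) (nat_lit 66) (nat_lit 5) (nat_lit 67) (nat_lit 5) (nat_lit 317) (nat_lit 248) (nat_lit 215))) (XT.nd (nat_lit 78) (nat_lit 228) (nat_lit 0) (XT.lf (nat_lit 0) (nat_lit 5736626245) (nat_lit 304) (nat_lit 3574732058) (nat_lit 76) (nat_lit 2025505274) (nat_lit 63) (nat_lit 5) (nat_lit 67) (nat_lit 5) (nat_lit 64) (nat_lit 5) (nat_lit 318) (nat_lit 248) (nat_lit 214)) (XT.lf (nat_lit 0) (nat_lit 2685575960) (nat_lit 228) (nat_lit 6204525170) (nat_lit 304) (nat_lit 2657085060) (nat_lit 60) (nat_lit 5) (nat_lit 63) (nat_lit 5) (nat_lit 64) (nat_lit 5) (nat_lit 319) (nat_lit 248) (nat_lit 213))))))))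
noncomputable def xc75 : XT := (XT.nd (nat_lit 2028) (nat_lit 988) (nat_lit 0) (XT.nd (nat_lit 1014) (nat_lit 1140) (nat_lit 0) (XT.nd (nat_lit 468) (nat_lit 684) (nat_lit 0) (XT.nd (nat_lit 234) (nat_lit 456) (nat_lit 0) (XT.nd (nat_lit 78) (nat_lit 228) (nat_lit 0) (XT.lf (nat_lit 0) (nat_lit 351081900) (nat_lit 304) (nat_lit 2639129284) (nat_lit 76) (nat_lit 8774027314) (nat_lit 59) (nat_lit 5) (nat_lit 63) (nat_lit 5) (nat_lit 60) (nat_lit 5) (nat_lit 320) (nat_lit 248) (nat_lit 212)) (XT.nd (nat_lit 78) (nat_lit 0) (nat_lit 0) (XT.lf (nat_lit 0) (nat_lit 3384579276) (nat_lit 304) (nat_lit 8251360152) (nat_lit 76) (nat_lit 351466321) (nat_lit 56) (nat_lit 5) (nat_lit 60) (nat_lit 5) (nat_lit 57) (nat_lit 5) (nat_lit 321) (nat_lit 248) (nat_lit 211)) (XT.lf (nat_lit 0) (nat_lit 6515195731) (nat_lit 304) (nat_lit 1967402690) (nat_lit 76) (nat_lit 3734532106) (nat_lit 56) (nat_lit 5) (nat_lit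 60) (nat_lit 5) (nat_lit 57) (nat_lit 5) (nat_lit 322) (nat_lit 248) (nat_lit 210)))) (XT.nd (nat_lit 78) (nat_lit 228) (nat_lit 0) (XT.lf (nat_lit 0) (nat_lit 4517854915) (nat_lit 228) (nat_lit 5216366494) (nat_lit 304) (nat_lit 2719735515) (nat_lit 53) (nat_lit 5) (nat_lit 56) (nat_lit 5) (nat_lit 57) (nat_lit 5) (nat_lit 323) (nat_lit 248) (nat_lit 209)) (XT.nd (nat_lit 78) (nat_lit 152) (nat_lit 0) (XT.lf (nat_lit 0) (nat_lit 316376199) (nat_lit 304) (nat_lit 1538523150) (nat_lit 76) (nat_lit 10843789896) (nat_lit 52) (nat_lit 5) (nat_lit 56) (nat_lit 5) (nat_lit 53) (nat_lit 5) (nat_lit 324) (nat_lit 248) (nat_lit 208)) (XT.lf (nat_lit 0) (nat_lit 3406060316) (nat_lit 228) (nat_lit 7916774091) (nat_lit 76) (nat_lit 1626647507) (nat_lit 50) (nat_lit 5) (nat_lit 53) (nat_lit 5) (nat_lit 51) (nat_lit 5) (nat_lit 325) (nat_lit 248) (nat_lit 207))))) (XT.nd (nat_lit 234) (nat_lit 456) (nat_lit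 0) (XT.nd (nat_lit 78) (nat_lit 228) (nat_lit 0) (XT.lf (nat_lit 0) (nat_lit 6575589103) (nat_lit 228) (nat_lit 1467153898) (nat_lit 76) (nat_lit 5165480363) (nat_lit 50) (nat_lit 5) (nat_lit 53) (nat_lit 5) (nat_lit 51) (nat_lit 5) (nat_lit 326) (nat_lit 248) (nat_lit 206)) (XT.nd (nat_lit 78) (nat_lit 0) (nat_lit 0) (XT.lf (nat_lit 0) (nat_lit 5205774826) (nat_lit 228) (nat_lit 4638934986) (nat_lit 304) (nat_lit 3629920532) (nat_lit 47) (nat_lit 5) (nat_lit 50) (nat_lit 5) (nat_lit 51) (nat_lit 5) (nat_lit 327) (nat_lit 248) (nat_lit 205)) (XT.lf (nat_lit 0) (nat_lit 12037906700) (nat_lit 228) (nat_lit 1143920979) (nat_lit 304) (nat_lit 568141498) (nat_lit 47) (nat_lit 5) (nat_lit 50) (nat_lit 5) (nat_lit 51) (nat_lit 5) (nat_lit 328) (nat_lit 248) (nat_lit 204)))) (XT.nd (nat_lit 156) (nat_lit 228) (nat_lit 0) (XT.nd (nat_lit 78) (nat_lit 0) (nat_lit 0) (XT.lf (nat_lit 0) (nat_lit 2563569901)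 (nat_lit 228) (nat_lit 9011682687) (nat_lit 76) (nat_lit 2456749256) (nat_lit 44) (nat_lit 5) (nat_lit 47) (nat_lit 5) (nat_lit 45) (nat_lit 5) (nat_lit 329) (nat_lit 248) (nat_lit 203)) (XT.lf (nat_lit 0) (nat_lit 5762917618) (nat_lit 228) (nat_lit 2419637447) (nat_lit 76) (nat_lit 6140252728) (nat_lit 44) (nat_lit 5) (nat_lit 47) (nat_lit 5) (nat_lit 45) (nat_lit 5) (nat_lit 330) (nat_lit 248) (nat_lit 202))) (XT.nd (nat_lit 78) (nat_lit 0) (nat_lit 0) (XT.lf (nat_lit 0) (nat_lit 4387527191) (nat_lit 228) (nat_lit 4670484907) (nat_lit 304) (nat_lit 5564366018) (nat_lit 41) (nat_lit 5) (nat_lit 44) (nat_lit 5) (nat_lit 45) (nat_lit 5) (nat_lit 331) (nat_lit 248) (nat_lit 201)) (XT.lf (nat_lit 0) (nat_lit 11380917748) (nat_lit 228) (nat_lit 1053651507) (nat_lit 304) (nat_lit 2496920215) (nat_lit 41) (nat_lit 5) (nat_lit 44) (nat_lit 5) (nat_lit 45) (nat_lit 5) (nat_lit 332) (nat_lit 248) (nat_lit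 200)))))) (XT.nd (nat_lit 468) (nat_lit 532) (nat_lit 0) (XT.nd (nat_lit 234) (nat_lit 228) (nat_lit 0) (XT.nd (nat_lit 78) (nat_lit 152) (nat_lit 0) (XT.lf (nat_lit 0) (nat_lit 666373543) (nat_lit 228) (nat_lit 11949494904) (nat_lit 76) (nat_lit 2633342424) (nat_lit 38) (nat_lit 5) (nat_lit 41) (nat_lit 5) (nat_lit 39) (nat_lit 5) (nat_lit 333) (nat_lit 248) (nat_lit 199)) (XT.nd (nat_lit 78) (nat_lit 152) (nat_lit 0) (XT.lf (nat_lit 0) (nat_lit 3880302234) (nat_lit 228) (nat_lit 5249418166) (nat_lit 76) (nat_lit 6445853685) (nat_lit 38) (nat_lit 5) (nat_lit 41) (nat_lit 5) (nat_lit 39) (nat_lit 5) (nat_lit 334) (nat_lit 248) (nat_lit 198)) (XT.lf (nat_lit 0) (nat_lit 1618370994) (nat_lit 152) (nat_lit 5548301312) (nat_lit 228) (nat_lit 8745803809) (nat_lit 36) (nat_lit 5) (nat_lit 38) (nat_lit 5) (nat_lit 39) (nat_lit 5) (nat_lit 335) (nat_lit 248) (nat_lit 197)))) (XT.nd (nat_lit 78) (nat_lit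 228) (nat_lit 0) (XT.lf (nat_lit 0) (nat_lit 8735567609) (nat_lit 152) (nat_lit 1830075445) (nat_lit 228) (nat_lit 5693449655) (nat_lit 36) (nat_lit 5) (nat_lit 38) (nat_lit 5) (nat_lit 39) (nat_lit 5) (nat_lit 336) (nat_lit 248) (nat_lit 196)) (XT.nd (nat_lit 78) (nat_lit 228) (nat_lit 0) (XT.lf (nat_lit 0) (nat_lit 14047706376) (nat_lit 228) (nat_lit 632340615) (nat_lit 76) (nat_lit 1936654091) (nat_lit 36) (nat_lit 5) (nat_lit 39) (nat_lit 5) (nat_lit 37) (nat_lit 4) (nat_lit 337) (nat_lit 248) (nat_lit 195)) (XT.lf (nat_lit 0) (nat_lit 680671486) (nat_lit 228) (nat_lit 10477318187) (nat_lit 76) (nat_lit 5825561879) (nat_lit 33) (nat_lit 5) (nat_lit 36) (nat_lit 5) (nat_lit 34) (nat_lit 5) (nat_lit 338) (nat_lit 248) (nat_lit 194))))) (XT.nd (nat_lit 234) (nat_lit 380) (nat_lit 0) (XT.nd (nat_lit 78) (nat_lit 152) (nat_lit 0) (XT.lf (nat_lit 0) (nat_lit 3945759037) (nat_lit 228) (nat_lit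 3576391379) (nat_lit 76) (nat_lit 9839431777) (nat_lit 33) (nat_lit 5) (nat_lit 36) (nat_lit 5) (nat_lit 34) (nat_lit 5) (nat_lit 339) (nat_lit 248) (nat_lit 193)) (XT.nd (nat_lit 78) (nat_lit 0) (nat_lit 0) (XT.lf (nat_lit 0) (nat_lit 3540848703) (nat_lit 152) (nat_lit 3766178576) (nat_lit 228) (nat_lit 10444003605) (nat_lit 31) (nat_lit 5) (nat_lit 33) (nat_lit 5) (nat_lit 34) (nat_lit 5) (nat_lit 340) (nat_lit 248) (nat_lit 192)) (XT.lf (nat_lit 0) (nat_lit 10771026032) (nat_lit 228) (nat_lit 7267580271) (nat_lit 76) (nat_lit 113523234) (nat_lit 31) (nat_lit 5) (nat_lit 34) (nat_lit 5) (nat_lit 32) (nat_lit 4) (nat_lit 341) (nat_lit 248) (nat_lit 191)))) (XT.nd (nat_lit 156) (nat_lit 228) (nat_lit 0) (XT.nd (nat_lit 78) (nat_lit 152) (nat_lit 0) (XT.lf (nat_lit 0) (nat_lit 14341704831) (nat_lit 228) (nat_lit 212315975) (nat_lit 76) (nat_lit 4011180137) (nat_lit 31) (nat_lit 5) (nat_lit 34)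 (nat_lit 5) (nat_lit 32) (nat_lit 4) (nat_lit 342) (nat_lit 248) (nat_lit 190)) (XT.lf (nat_lit 0) (nat_lit 7137251801) (nat_lit 152) (nat_lit 10917336706) (nat_lit 228) (nat_lit 935045389) (nat_lit 29) (nat_lit 5) (nat_lit 31) (nat_lit 5) (nat_lit 32) (nat_lit 4) (nat_lit 343) (nat_lit 248) (nat_lit 189))) (XT.nd (nat_lit 78) (nat_lit 152) (nat_lit 0) (XT.lf (nat_lit 0) (nat_lit 2372941370) (nat_lit 228) (nat_lit 4795427401) (nat_lit 76) (nat_lit 12258682694) (nat_lit 28) (nat_lit 5) (nat_lit 31) (nat_lit 5) (nat_lit 29) (nat_lit 5) (nat_lit 344) (nat_lit 248) (nat_lit 188)) (XT.lf (nat_lit 0) (nat_lit 2456813665) (nat_lit 152) (nat_lit 3295716599) (nat_lit 228) (nat_lit 14125068957) (nat_lit 26) (nat_lit 5) (nat_lit 28) (nat_lit 5) (nat_lit 29) (nat_lit 5) (nat_lit 345) (nat_lit 248) (nat_lit 187))))))) (XT.nd (nat_lit 1014) (nat_lit 380) (nat_lit 0) (XT.nd (nat_lit 468) (nat_lit 304) (nat_lit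 0) (XT.nd (nat_lit 234) (nat_lit 228) (nat_lit 0) (XT.nd (nat_lit 78) (nat_lit 76) (nat_lit 0) (XT.lf (nat_lit 0) (nat_lit 9256817359) (nat_lit 228) (nat_lit 10377758817) (nat_lit 76) (nat_lit 706407411) (nat_lit 26) (nat_lit 5) (nat_lit 29) (nat_lit 5) (nat_lit 27) (nat_lit 4) (nat_lit 346) (nat_lit 248) (nat_lit 186)) (XT.nd (nat_lit 78) (nat_lit 76) (nat_lit 0) (XT.lf (nat_lit 0) (nat_lit 12867547439) (nat_lit 228) (nat_lit 3209790159) (nat_lit 76) (nat_lit 4740911379) (nat_lit 26) (nat_lit 5) (nat_lit 29) (nat_lit 5) (nat_lit 27) (nat_lit 4) (nat_lit 347) (nat_lit 248) (nat_lit 185)) (XT.lf (nat_lit 0) (nat_lit 4203081392) (nat_lit 76) (nat_lit 12393516266) (nat_lit 152) (nat_lit 4712953097) (nat_lit 25) (nat_lit 5) (nat_lit 26) (nat_lit 5) (nat_lit 27) (nat_lit 4) (nat_lit 348) (nat_lit 248) (nat_lit 184)))) (XT.nd (nat_lit 78) (nat_lit 228) (nat_lit 0) (XT.lf (nat_lit 0) (nat_lit 11852494526)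 (nat_lit 76) (nat_lit 8587422239) (nat_lit 152) (nat_lit 1375620737) (nat_lit 25) (nat_lit 5) (nat_lit 26) (nat_lit 5) (nat_lit 27) (nat_lit 4) (nat_lit 349) (nat_lit 248) (nat_lit 183)) (XT.nd (nat_lit 78) (nat_lit 152) (nat_lit 0) (XT.lf (nat_lit 0) (nat_lit 1992151350) (nat_lit 152) (nat_lit 2675874218) (nat_lit 76) (nat_lit 17668983906) (nat_lit 24) (nat_lit 5) (nat_lit 26) (nat_lit 5) (nat_lit 25) (nat_lit 5) (nat_lit 350) (nat_lit 248) (nat_lit 182)) (XT.lf (nat_lit 0) (nat_lit 4861899828) (nat_lit 152) (nat_lit 589554896) (nat_lit 228) (nat_lit 17421734202) (nat_lit 22) (nat_lit 5) (nat_lit 24) (nat_lit 5) (nat_lit 25) (nat_lit 5) (nat_lit 351) (nat_lit 248) (nat_lit 181))))) (XT.nd (nat_lit 234) (nat_lit 228) (nat_lit 0) (XT.nd (nat_lit 78) (nat_lit 76) (nat_lit 0) (XT.lf (nat_lit 0) (nat_lit 9048116932) (nat_lit 228) (nat_lit 10828409495) (nat_lit 76) (nat_lit 3547935792) (nat_lit 22)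 (nat_lit 5) (nat_lit 25) (nat_lit 5) (nat_lit 23) (nat_lit 4) (nat_lit 352) (nat_lit 248) (nat_lit 180)) (XT.nd (nat_lit 78) (nat_lit 76) (nat_lit 0) (XT.lf (nat_lit 0) (nat_lit 12730921404) (nat_lit 228) (nat_lit 3483885523) (nat_lit 76) (nat_lit 7778134900) (nat_lit 22) (nat_lit 5) (nat_lit 25) (nat_lit 5) (nat_lit 23) (nat_lit 4) (nat_lit 353) (nat_lit 248) (nat_lit 179)) (XT.lf (nat_lit 0) (nat_lit 4114659348) (nat_lit 76) (nat_lit 12422312237) (nat_lit 152) (nat_lit 8041136330) (nat_lit 21) (nat_lit 5) (nat_lit 22) (nat_lit 5) (nat_lit 23) (nat_lit 4) (nat_lit 354) (nat_lit 248) (nat_lit 178)))) (XT.nd (nat_lit 156) (nat_lit 228) (nat_lit 0) (XT.nd (nat_lit 78) (nat_lit 0) (nat_lit 0) (XT.lf (nat_lit 0) (nat_lit 11966427088) (nat_lit 76) (nat_lit 8499502251) (nat_lit 152) (nat_lit 4714652368) (nat_lit 21) (nat_lit 5) (nat_lit 22) (nat_lit 5) (nat_lit 23) (nat_lit 4) (nat_lit 355) (nat_lit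 248) (nat_lit 177)) (XT.lf (nat_lit 0) (nat_lit 20008942312) (nat_lit 76) (nat_lit 4478129684) (nat_lit 152) (nat_lit 1314842314) (nat_lit 21) (nat_lit 5) (nat_lit 22) (nat_lit 5) (nat_lit 23) (nat_lit 4) (nat_lit 356) (nat_lit 248) (nat_lit 176))) (XT.nd (nat_lit 78) (nat_lit 0) (nat_lit 0) (XT.lf (nat_lit 0) (nat_lit 1821349515) (nat_lit 152) (nat_lit 315248893) (nat_lit 228) (nat_lit 24304901727) (nat_lit 18) (nat_lit 5) (nat_lit 20) (nat_lit 5) (nat_lit 21) (nat_lit 5) (nat_lit 357) (nat_lit 248) (nat_lit 175)) (XT.lf (nat_lit 0) (nat_lit 5737357526) (nat_lit 228) (nat_lit 17411614661) (nat_lit 76) (nat_lit 3948757621) (nat_lit 18) (nat_lit 5) (nat_lit 21) (nat_lit 5) (nat_lit 19) (nat_lit 4) (nat_lit 358) (nat_lit 248) (nat_lit 174)))))) (XT.nd (nat_lit 546) (nat_lit 76) (nat_lit 0) (XT.nd (nat_lit 234) (nat_lit 228) (nat_lit 0) (XT.nd (nat_lit 78) (nat_lit 76) (nat_lit 0) (XT.lf (nat_lit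 0) (nat_lit 9424929703) (nat_lit 228) (nat_lit 10032820866) (nat_lit 76) (nat_lit 8316544607) (nat_lit 18) (nat_lit 5) (nat_lit 21) (nat_lit 5) (nat_lit 19) (nat_lit 4) (nat_lit 359) (nat_lit 248) (nat_lit 173)) (XT.nd (nat_lit 78) (nat_lit 76) (nat_lit 0) (XT.lf (nat_lit 0) (nat_lit 13199506724) (nat_lit 228) (nat_lit 2474291378) (nat_lit 76) (nat_lit 12798080217) (nat_lit 18) (nat_lit 5) (nat_lit 21) (nat_lit 5) (nat_lit 19) (nat_lit 4) (nat_lit 360) (nat_lit 248) (nat_lit 172)) (XT.lf (nat_lit 0) (nat_lit 5375473183) (nat_lit 76) (nat_lit 11740585918) (nat_lit 152) (nat_lit 12073479508) (nat_lit 17) (nat_lit 5) (nat_lit 18) (nat_lit 5) (nat_lit 19) (nat_lit 4) (nat_lit 361) (nat_lit 248) (nat_lit 171)))) (XT.nd (nat_lit 156) (nat_lit 228) (nat_lit 0) (XT.nd (nat_lit 78) (nat_lit 0) (nat_lit 0) (XT.lf (nat_lit 0) (nat_lit 13471431809) (nat_lit 76) (nat_lit 7681010739) (nat_lit 152) (nat_lit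 8776227575) (nat_lit 17) (nat_lit 5) (nat_lit 18) (nat_lit 5) (nat_lit 19) (nat_lit 4) (nat_lit 362) (nat_lit 248) (nat_lit 170)) (XT.lf (nat_lit 0) (nat_lit 21771415387) (nat_lit 76) (nat_lit 3516510856) (nat_lit 152) (nat_lit 5402720194) (nat_lit 17) (nat_lit 5) (nat_lit 18) (nat_lit 5) (nat_lit 19) (nat_lit 4) (nat_lit 363) (nat_lit 248) (nat_lit 169))) (XT.nd (nat_lit 78) (nat_lit 228) (nat_lit 0) (XT.lf (nat_lit 0) (nat_lit 29533396161) (nat_lit 152) (nat_lit 1200729470) (nat_lit 0) (nat_lit 741789548) (nat_lit 17) (nat_lit 5) (nat_lit 19) (nat_lit 4) (nat_lit 17) (nat_lit 4) (nat_lit 364) (nat_lit 248) (nat_lit 168)) (XT.lf (nat_lit 0) (nat_lit 1670023039) (nat_lit 228) (nat_lit 25488442519) (nat_lit 76) (nat_lit 5123413720) (nat_lit 14) (nat_lit 5) (nat_lit 17) (nat_lit 5) (nat_lit 15) (nat_lit 4) (nat_lit 365) (nat_lit 248) (nat_lit 167))))) (XT.nd (nat_lit 234) (nat_lit 76) (nat_lit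 0) (XT.nd (nat_lit 78) (nat_lit 0) (nat_lit 0) (XT.lf (nat_lit 0) (nat_lit 5343302904) (nat_lit 228) (nat_lit 18116133596) (nat_lit 76) (nat_lit 9652276563) (nat_lit 14) (nat_lit 5) (nat_lit 17) (nat_lit 5) (nat_lit 15) (nat_lit 4) (nat_lit 366) (nat_lit 248) (nat_lit 166)) (XT.nd (nat_lit 78) (nat_lit 0) (nat_lit 0) (XT.lf (nat_lit 0) (nat_lit 9106547367) (nat_lit 228) (nat_lit 10558736853) (nat_lit 76) (nat_lit 14301774244) (nat_lit 14) (nat_lit 5) (nat_lit 17) (nat_lit 5) (nat_lit 15) (nat_lit 4) (nat_lit 367) (nat_lit 248) (nat_lit 165)) (XT.lf (nat_lit 0) (nat_lit 12963044702) (nat_lit 228) (nat_lit 2809648737) (nat_lit 76) (nat_lit 19075969432) (nat_lit 14) (nat_lit 5) (nat_lit 17) (nat_lit 5) (nat_lit 15) (nat_lit 4) (nat_lit 368) (nat_lit 248) (nat_lit 164)))) (XT.nd (nat_lit 156) (nat_lit 0) (nat_lit 0) (XT.nd (nat_lit 78) (nat_lit 0) (nat_lit 0) (XT.lf (nat_lit 0) (nat_lit 5240156118)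 (nat_lit 76) (nat_lit 11726380130) (nat_lit 152) (nat_lit 18789249222) (nat_lit 13) (nat_lit 5) (nat_lit 14) (nat_lit 5) (nat_lit 15) (nat_lit 4) (nat_lit 369) (nat_lit 248) (nat_lit 163)) (XT.lf (nat_lit 0) (nat_lit 13555373373) (nat_lit 76) (nat_lit 7544290597) (nat_lit 152) (nat_lit 15590180608) (nat_lit 13) (nat_lit 5) (nat_lit 14) (nat_lit 5) (nat_lit 15) (nat_lit 4) (nat_lit 370) (nat_lit 248) (nat_lit 162))) (XT.nd (nat_lit 78) (nat_lit 0) (nat_lit 0) (XT.lf (nat_lit 0) (nat_lit 22087351233) (nat_lit 76) (nat_lit 3251142532) (nat_lit 152) (nat_lit 12313988967) (nat_lit 13) (nat_lit 5) (nat_lit 14) (nat_lit 5) (nat_lit 15) (nat_lit 4) (nat_lit 371) (nat_lit 248) (nat_lit 161)) (XT.lf (nat_lit 0) (nat_lit 29697849482) (nat_lit 152) (nat_lit 7812116266) (nat_lit 0) (nat_lit 1134241725) (nat_lit 13) (nat_lit 5) (nat_lit 15) (nat_lit 4) (nat_lit 13) (nat_lit 4) (nat_lit 372) (nat_lit 248)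 (nat_lit 160))))))))
noncomputable def xc76 : XT := (XT.nd (nat_lit 2028) (nat_lit 152) (nat_lit 0) (XT.nd (nat_lit 1014) (nat_lit 152) (nat_lit 0) (XT.nd (nat_lit 468) (nat_lit 152) (nat_lit 0) (XT.nd (nat_lit 234) (nat_lit 0) (nat_lit 0) (XT.nd (nat_lit 78) (nat_lit 76) (nat_lit 0) (XT.lf (nat_lit 0) (nat_lit 112277020) (nat_lit 76) (nat_lit 34091605403) (nat_lit 76) (nat_lit 5461332666) (nat_lit 12) (nat_lit 4) (nat_lit 13) (nat_lit 5) (nat_lit 13) (nat_lit 4) (nat_lit 373) (nat_lit 248) (nat_lit 159)) (XT.nd (nat_lit 78) (nat_lit 76) (nat_lit 0) (XT.lf (nat_lit 0) (nat_lit 8403635044) (nat_lit 76) (nat_lit 30503184997) (nat_lit 76) (nat_lit 1808188978) (nat_lit 12) (nat_lit 4) (nat_lit 13) (nat_lit 5) (nat_lit 13) (nat_lit 4) (nat_lit 374) (nat_lit 248) (nat_lit 158)) (XT.lf (nat_lit 0) (nat_lit 1899572858) (nat_lit 152) (nat_lit 24901701254) (nat_lit 76) (nat_lit 14994971432) (nat_lit 11)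 (nat_lit 5) (nat_lit 13) (nat_lit 5) (nat_lit 12) (nat_lit 4) (nat_lit 375) (nat_lit 248) (nat_lit 157)))) (XT.nd (nat_lit 78) (nat_lit 0) (nat_lit 0) (XT.lf (nat_lit 0) (nat_lit 5665879236) (nat_lit 152) (nat_lit 17317107207) (nat_lit 76) (nat_lit 19926893135) (nat_lit 11) (nat_lit 5) (nat_lit 13) (nat_lit 5) (nat_lit 12) (nat_lit 4) (nat_lit 376) (nat_lit 248) (nat_lit 156)) (XT.nd (nat_lit 78) (nat_lit 0) (nat_lit 0) (XT.lf (nat_lit 0) (nat_lit 9529305383) (nat_lit 152) (nat_lit 9533583100) (nat_lit 76) (nat_lit 24994517160) (nat_lit 11) (nat_lit 5) (nat_lit 13) (nat_lit 5) (nat_lit 12) (nat_lit 4) (nat_lit 377) (nat_lit 248) (nat_lit 155)) (XT.lf (nat_lit 0) (nat_lit 13493227108) (nat_lit 152) (nat_lit 1544327797) (nat_lit 76) (nat_lit 30202271527) (nat_lit 11) (nat_lit 5) (nat_lit 13) (nat_lit 5) (nat_lit 12) (nat_lit 4) (nat_lit 378) (nat_lit 248) (nat_lit 154))))) (XT.nd (nat_lit 234)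 (nat_lit 76) (nat_lit 0) (XT.nd (nat_lit 78) (nat_lit 0) (nat_lit 0) (XT.lf (nat_lit 0) (nat_lit 6790139688) (nat_lit 76) (nat_lit 10836239319) (nat_lit 152) (nat_lit 28829837991) (nat_lit 10) (nat_lit 5) (nat_lit 11) (nat_lit 5) (nat_lit 12) (nat_lit 4) (nat_lit 379) (nat_lit 248) (nat_lit 153)) (XT.nd (nat_lit 78) (nat_lit 0) (nat_lit 0) (XT.lf (nat_lit 0) (nat_lit 15379597213) (nat_lit 76) (nat_lit 6504743496) (nat_lit 152) (nat_lit 25824740454) (nat_lit 10) (nat_lit 5) (nat_lit 11) (nat_lit 5) (nat_lit 12) (nat_lit 4) (nat_lit 380) (nat_lit 248) (nat_lit 152)) (XT.lf (nat_lit 0) (nat_lit 24200814978) (nat_lit 76) (nat_lit 2054877315) (nat_lit 152) (nat_lit 22744275584) (nat_lit 10) (nat_lit 5) (nat_lit 11) (nat_lit 5) (nat_lit 12) (nat_lit 4) (nat_lit 381) (nat_lit 248) (nat_lit 151)))) (XT.nd (nat_lit 156) (nat_lit 76) (nat_lit 0) (XT.nd (nat_lit 78) (nat_lit 0) (nat_lit 0) (XT.lf (nat_lit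 0) (nat_lit 30768450709) (nat_lit 152) (nat_lit 17092701581) (nat_lit 0) (nat_lit 2468126889) (nat_lit 10) (nat_lit 5) (nat_lit 12) (nat_lit 4) (nat_lit 10) (nat_lit 4) (nat_lit 382) (nat_lit 248) (nat_lit 150)) (XT.lf (nat_lit 0) (nat_lit 35423307044) (nat_lit 152) (nat_lit 9200144100) (nat_lit 0) (nat_lit 7074823024) (nat_lit 10) (nat_lit 5) (nat_lit 12) (nat_lit 4) (nat_lit 10) (nat_lit 4) (nat_lit 383) (nat_lit 248) (nat_lit 149))) (XT.nd (nat_lit 78) (nat_lit 76) (nat_lit 0) (XT.lf (nat_lit 0) (nat_lit 40204575910) (nat_lit 152) (nat_lit 1094831310) (nat_lit 0) (nat_lit 11809334413) (nat_lit 10) (nat_lit 5) (nat_lit 12) (nat_lit 4) (nat_lit 10) (nat_lit 4) (nat_lit 384) (nat_lit 248) (nat_lit 148)) (XT.lf (nat_lit 0) (nat_lit 7374216628) (nat_lit 76) (nat_lit 37813103967) (nat_lit 76) (nat_lit 9372466863) (nat_lit 9) (nat_lit 4) (nat_lit 10) (nat_lit 5) (nat_lit 10) (nat_lit 4) (nat_lit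 385) (nat_lit 248) (nat_lit 147)))))) (XT.nd (nat_lit 468) (nat_lit 76) (nat_lit 0) (XT.nd (nat_lit 234) (nat_lit 0) (nat_lit 0) (XT.nd (nat_lit 78) (nat_lit 76) (nat_lit 0) (XT.lf (nat_lit 0) (nat_lit 16096685856) (nat_lit 76) (nat_lit 34221221908) (nat_lit 76) (nat_lit 5736511398) (nat_lit 9) (nat_lit 4) (nat_lit 10) (nat_lit 5) (nat_lit 10) (nat_lit 4) (nat_lit 386) (nat_lit 248) (nat_lit 146)) (XT.nd (nat_lit 78) (nat_lit 76) (nat_lit 0) (XT.lf (nat_lit 0) (nat_lit 25058408658) (nat_lit 76) (nat_lit 30531678155) (nat_lit 76) (nat_lit 2004177931) (nat_lit 9) (nat_lit 4) (nat_lit 10) (nat_lit 5) (nat_lit 10) (nat_lit 4) (nat_lit 387) (nat_lit 248) (nat_lit 145)) (XT.lf (nat_lit 0) (nat_lit 1792127940) (nat_lit 152) (nat_lit 24931023916) (nat_lit 76) (nat_lit 32456990747) (nat_lit 8) (nat_lit 5) (nat_lit 10) (nat_lit 5) (nat_lit 9) (nat_lit 4) (nat_lit 388) (nat_lit 248) (nat_lit 144)))) (XT.nd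 (nat_lit 78) (nat_lit 0) (nat_lit 0) (XT.lf (nat_lit 0) (nat_lit 5650303013) (nat_lit 152) (nat_lit 17139261927) (nat_lit 76) (nat_lit 38023793415) (nat_lit 8) (nat_lit 5) (nat_lit 10) (nat_lit 5) (nat_lit 9) (nat_lit 4) (nat_lit 389) (nat_lit 248) (nat_lit 143)) (XT.nd (nat_lit 78) (nat_lit 0) (nat_lit 0) (XT.lf (nat_lit 0) (nat_lit 9612827239) (nat_lit 152) (nat_lit 9134496398) (nat_lit 76) (nat_lit 43748593404) (nat_lit 8) (nat_lit 5) (nat_lit 10) (nat_lit 5) (nat_lit 9) (nat_lit 4) (nat_lit 390) (nat_lit 248) (nat_lit 142)) (XT.lf (nat_lit 0) (nat_lit 13683163017) (nat_lit 152) (nat_lit 909732874) (nat_lit 76) (nat_lit 49636392968) (nat_lit 8) (nat_lit 5) (nat_lit 10) (nat_lit 5) (nat_lit 9) (nat_lit 4) (nat_lit 391) (nat_lit 248) (nat_lit 141))))) (XT.nd (nat_lit 234) (nat_lit 0) (nat_lit 0) (XT.nd (nat_lit 78) (nat_lit 0) (nat_lit 0) (XT.lf (nat_lit 0) (nat_lit 7692320203) (nat_lit 76)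 (nat_lit 10246490036) (nat_lit 152) (nat_lit 48073959869) (nat_lit 7) (nat_lit 5) (nat_lit 8) (nat_lit 5) (nat_lit 9) (nat_lit 4) (nat_lit 392) (nat_lit 248) (nat_lit 140)) (XT.nd (nat_lit 78) (nat_lit 0) (nat_lit 0) (XT.lf (nat_lit 0) (nat_lit 16551717029) (nat_lit 76) (nat_lit 5768981160) (nat_lit 152) (nat_lit 45529104658) (nat_lit 7) (nat_lit 5) (nat_lit 8) (nat_lit 5) (nat_lit 9) (nat_lit 4) (nat_lit 393) (nat_lit 248) (nat_lit 139)) (XT.lf (nat_lit 0) (nat_lit 25658093354) (nat_lit 76) (nat_lit 1165643395) (nat_lit 152) (nat_lit 42918523067) (nat_lit 7) (nat_lit 5) (nat_lit 8) (nat_lit 5) (nat_lit 9) (nat_lit 4) (nat_lit 394) (nat_lit 248) (nat_lit 138)))) (XT.nd (nat_lit 156) (nat_lit 0) (nat_lit 0) (XT.nd (nat_lit 78) (nat_lit 0) (nat_lit 0) (XT.lf (nat_lit 0) (nat_lit 31486154047) (nat_lit 152) (nat_lit 36706681846) (nat_lit 0) (nat_lit 3497929926) (nat_lit 7) (nat_lit 5) (nat_lit 9)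 (nat_lit 4) (nat_lit 7) (nat_lit 4) (nat_lit 395) (nat_lit 248) (nat_lit 137)) (XT.lf (nat_lit 0) (nat_lit 36290193484) (nat_lit 152) (nat_lit 29137355069) (nat_lit 0) (nat_lit 8270129797) (nat_lit 7) (nat_lit 5) (nat_lit 9) (nat_lit 4) (nat_lit 7) (nat_lit 4) (nat_lit 396) (nat_lit 248) (nat_lit 136))) (XT.nd (nat_lit 78) (nat_lit 0) (nat_lit 0) (XT.lf (nat_lit 0) (nat_lit 41228847887) (nat_lit 152) (nat_lit 21358367278) (nat_lit 0) (nat_lit 13177872000) (nat_lit 7) (nat_lit 5) (nat_lit 9) (nat_lit 4) (nat_lit 7) (nat_lit 4) (nat_lit 397) (nat_lit 248) (nat_lit 135)) (XT.lf (nat_lit 0) (nat_lit 46306432585) (nat_lit 152) (nat_lit 13362921300) (nat_lit 0) (nat_lit 18225444854) (nat_lit 7) (nat_lit 5) (nat_lit 9) (nat_lit 4) (nat_lit 7) (nat_lit 4) (nat_lit 398) (nat_lit 248) (nat_lit 134))))))) (XT.nd (nat_lit 31746) (nat_lit 0) (nat_lit 9348) (XT.nd (nat_lit 468) (nat_lit 76) (nat_lit 0) (XT.nd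 (nat_lit 234) (nat_lit 0) (nat_lit 0) (XT.nd (nat_lit 78) (nat_lit 76) (nat_lit 0) (XT.lf (nat_lit 0) (nat_lit 51527384304) (nat_lit 152) (nat_lit 5144030824) (nat_lit 0) (nat_lit 23417258860) (nat_lit 7) (nat_lit 5) (nat_lit 9) (nat_lit 4) (nat_lit 7) (nat_lit 4) (nat_lit 399) (nat_lit 248) (nat_lit 133)) (XT.nd (nat_lit 78) (nat_lit 0) (nat_lit 0) (XT.lf (nat_lit 0) (nat_lit 3371271352) (nat_lit 76) (nat_lit 53557400410) (nat_lit 76) (nat_lit 25418985924) (nat_lit 6) (nat_lit 4) (nat_lit 7) (nat_lit 5) (nat_lit 7) (nat_lit 4) (nat_lit 400) (nat_lit 248) (nat_lit 132)) (XT.lf (nat_lit 0) (nat_lit 12231695803) (nat_lit 76) (nat_lit 50303648787) (nat_lit 76) (nat_lit 22137769211) (nat_lit 6) (nat_lit 4) (nat_lit 7) (nat_lit 5) (nat_lit 7) (nat_lit 4) (nat_lit 401) (nat_lit 248) (nat_lit 131)))) (XT.nd (nat_lit 78) (nat_lit 0) (nat_lit 0) (XT.lf (nat_lit 0) (nat_lit 21342608347) (nat_lit 76) (nat_lit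 46959261799) (nat_lit 76) (nat_lit 18766717088) (nat_lit 6) (nat_lit 4) (nat_lit 7) (nat_lit 5) (nat_lit 7) (nat_lit 4) (nat_lit 402) (nat_lit 248) (nat_lit 130)) (XT.nd (nat_lit 78) (nat_lit 0) (nat_lit 0) (XT.lf (nat_lit 0) (nat_lit 30711969976) (nat_lit 76) (nat_lit 43521317168) (nat_lit 76) (nat_lit 15302883976) (nat_lit 6) (nat_lit 4) (nat_lit 7) (nat_lit 5) (nat_lit 7) (nat_lit 4) (nat_lit 403) (nat_lit 248) (nat_lit 129)) (XT.lf (nat_lit 0) (nat_lit 40347967510) (nat_lit 76) (nat_lit 39986810863) (nat_lit 76) (nat_lit 11743243225) (nat_lit 6) (nat_lit 4) (nat_lit 7) (nat_lit 5) (nat_lit 7) (nat_lit 4) (nat_lit 404) (nat_lit 248) (nat_lit 128))))) (XT.nd (nat_lit 234) (nat_lit 76) (nat_lit 0) (XT.nd (nat_lit 78) (nat_lit 0) (nat_lit 0) (XT.lf (nat_lit 0) (nat_lit 50259020753) (nat_lit 76) (nat_lit 36352654482) (nat_lit 76) (nat_lit 8084684468) (nat_lit 6) (nat_lit 4) (nat_lit 7) (nat_lit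 5) (nat_lit 7) (nat_lit 4) (nat_lit 405) (nat_lit 248) (nat_lit 127)) (XT.nd (nat_lit 78) (nat_lit 0) (nat_lit 0) (XT.lf (nat_lit 0) (nat_lit 60453789849) (nat_lit 76) (nat_lit 32615672548) (nat_lit 76) (nat_lit 4324010906) (nat_lit 6) (nat_lit 4) (nat_lit 7) (nat_lit 5) (nat_lit 7) (nat_lit 4) (nat_lit 406) (nat_lit 248) (nat_lit 126)) (XT.lf (nat_lit 0) (nat_lit 70941182848) (nat_lit 76) (nat_lit 28772599736) (nat_lit 76) (nat_lit 457936515) (nat_lit 6) (nat_lit 4) (nat_lit 7) (nat_lit 5) (nat_lit 7) (nat_lit 4) (nat_lit 407) (nat_lit 248) (nat_lit 125)))) (XT.nd (nat_lit 30888) (nat_lit 0) (nat_lit 15124) (XT.nd (nat_lit 30810) (nat_lit 0) (nat_lit 16112) (XT.lf (nat_lit 0) (nat_lit 3448289114) (nat_lit 152) (nat_lit 21336967950) (nat_lit 76) (nat_lit 78247253420) (nat_lit 5) (nat_lit 5) (nat_lit 7) (nat_lit 5) (nat_lit 6) (nat_lit 4) (nat_lit 408) (nat_lit 248) (nat_lit 124)) (XT.lf (nat_lit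 0) (nat_lit 321527266) (nat_lit 988) (nat_lit 2858004068) (nat_lit 0) (nat_lit 321527266) (nat_lit 217) (nat_lit 5) (nat_lit 230) (nat_lit 4) (nat_lit 217) (nat_lit 4) (nat_lit 282) (nat_lit 249) (nat_lit 249))) (XT.nd (nat_lit 78) (nat_lit 988) (nat_lit 0) (XT.lf (nat_lit 0) (nat_lit 3759838478) (nat_lit 988) (nat_lit 1257791048) (nat_lit 0) (nat_lit 2037999749) (nat_lit 217) (nat_lit 5) (nat_lit 230) (nat_lit 4) (nat_lit 217) (nat_lit 4) (nat_lit 283) (nat_lit 249) (nat_lit 248)) (XT.lf (nat_lit 0) (nat_lit 3309292403) (nat_lit 988) (nat_lit 3598525865) (nat_lit 988) (nat_lit 204999049) (nat_lit 204) (nat_lit 4) (nat_lit 217) (nat_lit 5) (nat_lit 217) (nat_lit 4) (nat_lit 284) (nat_lit 249) (nat_lit 247)))))) (XT.nd (nat_lit 468) (nat_lit 2204) (nat_lit 0) (XT.nd (nat_lit 234) (nat_lit 1216) (nat_lit 0) (XT.nd (nat_lit 78) (nat_lit 1216) (nat_lit 0) (XT.lf (nat_lit 0) (nat_lit 763343707) (nat_lit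 1064) (nat_lit 2083882236) (nat_lit 1140) (nat_lit 4326020999) (nat_lit 189) (nat_lit 5) (nat_lit 203) (nat_lit 5) (nat_lit 204) (nat_lit 4) (nat_lit 285) (nat_lit 249) (nat_lit 246)) (XT.nd (nat_lit 78) (nat_lit 1216) (nat_lit 0) (XT.lf (nat_lit 0) (nat_lit 5453378652) (nat_lit 1064) (nat_lit 480429211) (nat_lit 1140) (nat_lit 1303397675) (nat_lit 189) (nat_lit 5) (nat_lit 203) (nat_lit 5) (nat_lit 204) (nat_lit 4) (nat_lit 286) (nat_lit 249) (nat_lit 245)) (XT.lf (nat_lit 0) (nat_lit 1724616662) (nat_lit 1216) (nat_lit 4384545380) (nat_lit 76) (nat_lit 1195071718) (nat_lit 173) (nat_lit 5) (nat_lit 189) (nat_lit 5) (nat_lit 174) (nat_lit 4) (nat_lit 287) (nat_lit 249) (nat_lit 244)))) (XT.nd (nat_lit 78) (nat_lit 684) (nat_lit 0) (XT.lf (nat_lit 0) (nat_lit 325633852) (nat_lit 532) (nat_lit 4429619293) (nat_lit 608) (nat_lit 2619661821) (nat_lit 166) (nat_lit 5) (nat_lit 173) (nat_lit 5) (nat_lit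 174) (nat_lit 4) (nat_lit 288) (nat_lit 249) (nat_lit 243)) (XT.nd (nat_lit 78) (nat_lit 608) (nat_lit 0) (XT.lf (nat_lit 0) (nat_lit 378016587) (nat_lit 608) (nat_lit 2275984209) (nat_lit 76) (nat_lit 4795032111) (nat_lit 165) (nat_lit 5) (nat_lit 173) (nat_lit 5) (nat_lit 166) (nat_lit 5) (nat_lit 289) (nat_lit 249) (nat_lit 242)) (XT.lf (nat_lit 0) (nat_lit 2575481631) (nat_lit 608) (nat_lit 777378236) (nat_lit 684) (nat_lit 4173694123) (nat_lit 157) (nat_lit 5) (nat_lit 165) (nat_lit 5) (nat_lit 166) (nat_lit 5) (nat_lit 290) (nat_lit 249) (nat_lit 241))))) (XT.nd (nat_lit 234) (nat_lit 1064) (nat_lit 0) (XT.nd (nat_lit 78) (nat_lit 1140) (nat_lit 0) (XT.lf (nat_lit 0) (nat_lit 6367968040) (nat_lit 684) (nat_lit 88970406) (nat_lit 76) (nat_lit 1151081514) (nat_lit 157) (nat_lit 5) (nat_lit 166) (nat_lit 5) (nat_lit 158) (nat_lit 4) (nat_lit 291) (nat_lit 249) (nat_lit 240)) (XT.nd (nat_lit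 78) (nat_lit 532) (nat_lit 0) (XT.lf (nat_lit 0) (nat_lit 1720542522) (nat_lit 608) (nat_lit 2790855870) (nat_lit 76) (nat_lit 3180947729) (nat_lit 149) (nat_lit 5) (nat_lit 157) (nat_lit 5) (nat_lit 150) (nat_lit 5) (nat_lit 292) (nat_lit 249) (nat_lit 239)) (XT.lf (nat_lit 0) (nat_lit 2205783298) (nat_lit 532) (nat_lit 2481075497) (nat_lit 608) (nat_lit 3093857232) (nat_lit 142) (nat_lit 5) (nat_lit 149) (nat_lit 5) (nat_lit 150) (nat_lit 5) (nat_lit 293) (nat_lit 249) (nat_lit 238)))) (XT.nd (nat_lit 156) (nat_lit 532) (nat_lit 0) (XT.nd (nat_lit 78) (nat_lit 532) (nat_lit 0) (XT.lf (nat_lit 0) (nat_lit 7321120545) (nat_lit 532) (nat_lit 370431812) (nat_lit 608) (nat_lit 181836172) (nat_lit 142) (nat_lit 5) (nat_lit 149) (nat_lit 5) (nat_lit 150) (nat_lit 5) (nat_lit 294) (nat_lit 249) (nat_lit 237)) (XT.lf (nat_lit 0) (nat_lit 2747307786) (nat_lit 532) (nat_lit 3390915884) (nat_lit 76) (nat_lit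 1830388223) (nat_lit 135) (nat_lit 5) (nat_lit 142) (nat_lit 5) (nat_lit 136) (nat_lit 5) (nat_lit 295) (nat_lit 249) (nat_lit 236))) (XT.nd (nat_lit 78) (nat_lit 76) (nat_lit 0) (XT.lf (nat_lit 0) (nat_lit 1745960394) (nat_lit 456) (nat_lit 3964728668) (nat_lit 532) (nat_lit 2357570190) (nat_lit 129) (nat_lit 5) (nat_lit 135) (nat_lit 5) (nat_lit 136) (nat_lit 5) (nat_lit 296) (nat_lit 249) (nat_lit 235)) (XT.lf (nat_lit 0) (nat_lit 539551013) (nat_lit 532) (nat_lit 1159133870) (nat_lit 76) (nat_lit 6473384382) (nat_lit 128) (nat_lit 5) (nat_lit 135) (nat_lit 5) (nat_lit 129) (nat_lit 5) (nat_lit 297) (nat_lit 249) (nat_lit 234))))))))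
noncomputable def xc77 : XT := (XT.nd (nat_lit 2028) (nat_lit 2204) (nat_lit 0) (XT.nd (nat_lit 1014) (nat_lit 2280) (nat_lit 0) (XT.nd (nat_lit 468) (nat_lit 1596) (nat_lit 0) (XT.nd (nat_lit 234) (nat_lit 836) (nat_lit 0) (XT.nd (nat_lit 78) (nat_lit 532) (nat_lit 0) (XT.lf (nat_lit 0) (nat_lit 3449140436) (nat_lit 532) (nat_lit 4156932824) (nat_lit 76) (nat_lit 673143365) (nat_lit 122) (nat_lit 5) (nat_lit 129) (nat_lit 5) (nat_lit 123) (nat_lit 5) (nat_lit 298) (nat_lit 249) (nat_lit 233)) (XT.nd (nat_lit 78) (nat_lit 76) (nat_lit 0) (XT.lf (nat_lit 0) (nat_lit 1113108672) (nat_lit 456) (nat_lit 5300068326) (nat_lit 532) (nat_lit 1977494872) (nat_lit 116) (nat_lit 5) (nat_lit 122) (nat_lit 5) (nat_lit 123) (nat_lit 5) (nat_lit 299) (nat_lit 249) (nat_lit 232)) (XT.lf (nat_lit 0) (nat_lit 912586519) (nat_lit 532) (nat_lit 1976415744) (nat_lit 76) (nat_lit 5617173450) (nat_lit 115) (nat_lit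 5) (nat_lit 122) (nat_lit 5) (nat_lit 116) (nat_lit 5) (nat_lit 300) (nat_lit 249) (nat_lit 231)))) (XT.nd (nat_lit 78) (nat_lit 456) (nat_lit 0) (XT.lf (nat_lit 0) (nat_lit 3444985183) (nat_lit 380) (nat_lit 368119992) (nat_lit 456) (nat_lit 4812646768) (nat_lit 110) (nat_lit 5) (nat_lit 115) (nat_lit 5) (nat_lit 116) (nat_lit 5) (nat_lit 301) (nat_lit 249) (nat_lit 230)) (XT.nd (nat_lit 78) (nat_lit 76) (nat_lit 0) (XT.lf (nat_lit 0) (nat_lit 216265116) (nat_lit 380) (nat_lit 6559435233) (nat_lit 456) (nat_lit 1974059461) (nat_lit 105) (nat_lit 5) (nat_lit 110) (nat_lit 5) (nat_lit 111) (nat_lit 5) (nat_lit 302) (nat_lit 249) (nat_lit 229)) (XT.lf (nat_lit 0) (nat_lit 919443174) (nat_lit 456) (nat_lit 3095953585) (nat_lit 76) (nat_lit 4862259257) (nat_lit 104) (nat_lit 5) (nat_lit 110) (nat_lit 5) (nat_lit 105) (nat_lit 5) (nat_lit 303) (nat_lit 249) (nat_lit 228))))) (XT.nd (nat_lit 234)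 (nat_lit 760) (nat_lit 0) (XT.nd (nat_lit 78) (nat_lit 456) (nat_lit 0) (XT.lf (nat_lit 0) (nat_lit 2447340534) (nat_lit 380) (nat_lit 1370056309) (nat_lit 456) (nat_lit 5192774248) (nat_lit 99) (nat_lit 5) (nat_lit 104) (nat_lit 5) (nat_lit 105) (nat_lit 5) (nat_lit 304) (nat_lit 249) (nat_lit 227)) (XT.nd (nat_lit 78) (nat_lit 456) (nat_lit 0) (XT.lf (nat_lit 0) (nat_lit 6781605313) (nat_lit 456) (nat_lit 1025252064) (nat_lit 76) (nat_lit 1340510209) (nat_lit 99) (nat_lit 5) (nat_lit 105) (nat_lit 5) (nat_lit 100) (nat_lit 5) (nat_lit 305) (nat_lit 249) (nat_lit 226)) (XT.lf (nat_lit 0) (nat_lit 530372687) (nat_lit 456) (nat_lit 4622126078) (nat_lit 76) (nat_lit 4136255238) (nat_lit 93) (nat_lit 5) (nat_lit 99) (nat_lit 5) (nat_lit 94) (nat_lit 5) (nat_lit 306) (nat_lit 249) (nat_lit 225)))) (XT.nd (nat_lit 156) (nat_lit 456) (nat_lit 0) (XT.nd (nat_lit 78) (nat_lit 0) (nat_lit 0) (XT.lf (nat_lit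 0) (nat_lit 1028166109) (nat_lit 304) (nat_lit 2394987815) (nat_lit 380) (nat_lit 6011884237) (nat_lit 89) (nat_lit 5) (nat_lit 93) (nat_lit 5) (nat_lit 94) (nat_lit 5) (nat_lit 307) (nat_lit 249) (nat_lit 224)) (XT.lf (nat_lit 0) (nat_lit 6391929486) (nat_lit 380) (nat_lit 2731814868) (nat_lit 76) (nat_lit 462366087) (nat_lit 89) (nat_lit 5) (nat_lit 94) (nat_lit 5) (nat_lit 90) (nat_lit 5) (nat_lit 308) (nat_lit 249) (nat_lit 223))) (XT.nd (nat_lit 78) (nat_lit 76) (nat_lit 0) (XT.lf (nat_lit 0) (nat_lit 3066633761) (nat_lit 380) (nat_lit 6375931833) (nat_lit 456) (nat_lit 299439089) (nat_lit 84) (nat_lit 5) (nat_lit 89) (nat_lit 5) (nat_lit 90) (nat_lit 5) (nat_lit 309) (nat_lit 249) (nat_lit 222)) (XT.lf (nat_lit 0) (nat_lit 2597582588) (nat_lit 456) (nat_lit 916208576) (nat_lit 76) (nat_lit 6389047319) (nat_lit 83) (nat_lit 5) (nat_lit 89) (nat_lit 5) (nat_lit 84) (nat_lit 5) (nat_lit 310)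 (nat_lit 249) (nat_lit 221)))))) (XT.nd (nat_lit 468) (nat_lit 1064) (nat_lit 0) (XT.nd (nat_lit 234) (nat_lit 532) (nat_lit 0) (XT.nd (nat_lit 78) (nat_lit 380) (nat_lit 0) (XT.lf (nat_lit 0) (nat_lit 5029905537) (nat_lit 304) (nat_lit 535608240) (nat_lit 380) (nat_lit 4503261517) (nat_lit 79) (nat_lit 5) (nat_lit 83) (nat_lit 5) (nat_lit 84) (nat_lit 5) (nat_lit 311) (nat_lit 249) (nat_lit 220)) (XT.nd (nat_lit 78) (nat_lit 76) (nat_lit 0) (XT.lf (nat_lit 0) (nat_lit 844027749) (nat_lit 304) (nat_lit 7762625780) (nat_lit 380) (nat_lit 1633577054) (nat_lit 75) (nat_lit 5) (nat_lit 79) (nat_lit 5) (nat_lit 80) (nat_lit 5) (nat_lit 312) (nat_lit 249) (nat_lit 219)) (XT.lf (nat_lit 0) (nat_lit 1295738042) (nat_lit 380) (nat_lit 3509300973) (nat_lit 76) (nat_lit 5611490727) (nat_lit 74) (nat_lit 5) (nat_lit 79) (nat_lit 5) (nat_lit 75) (nat_lit 5) (nat_lit 313) (nat_lit 249) (nat_lit 218)))) (XT.nd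 (nat_lit 78) (nat_lit 304) (nat_lit 0) (XT.lf (nat_lit 0) (nat_lit 2507166125) (nat_lit 228) (nat_lit 1741355344) (nat_lit 304) (nat_lit 6350118454) (nat_lit 71) (nat_lit 5) (nat_lit 74) (nat_lit 5) (nat_lit 75) (nat_lit 5) (nat_lit 314) (nat_lit 249) (nat_lit 217)) (XT.nd (nat_lit 78) (nat_lit 304) (nat_lit 0) (XT.lf (nat_lit 0) (nat_lit 7284222244) (nat_lit 304) (nat_lit 2103510692) (nat_lit 76) (nat_lit 1398708648) (nat_lit 71) (nat_lit 5) (nat_lit 75) (nat_lit 5) (nat_lit 72) (nat_lit 5) (nat_lit 315) (nat_lit 249) (nat_lit 216)) (XT.lf (nat_lit 0) (nat_lit 4047699963) (nat_lit 304) (nat_lit 6365998940) (nat_lit 380) (nat_lit 566153739) (nat_lit 67) (nat_lit 5) (nat_lit 71) (nat_lit 5) (nat_lit 72) (nat_lit 5) (nat_lit 316) (nat_lit 249) (nat_lit 215))))) (XT.nd (nat_lit 234) (nat_lit 532) (nat_lit 0) (XT.nd (nat_lit 78) (nat_lit 456) (nat_lit 0) (XT.lf (nat_lit 0) (nat_lit 2378273958) (nat_lit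 380) (nat_lit 854181550) (nat_lit 76) (nat_lit 7946907612) (nat_lit 66) (nat_lit 5) (nat_lit 71) (nat_lit 5) (nat_lit 67) (nat_lit 5) (nat_lit 317) (nat_lit 249) (nat_lit 214)) (XT.nd (nat_lit 78) (nat_lit 228) (nat_lit 0) (XT.lf (nat_lit 0) (nat_lit 5400486459) (nat_lit 304) (nat_lit 5954723375) (nat_lit 76) (nat_lit 29507678) (nat_lit 63) (nat_lit 5) (nat_lit 67) (nat_lit 5) (nat_lit 64) (nat_lit 5) (nat_lit 318) (nat_lit 249) (nat_lit 213)) (XT.lf (nat_lit 0) (nat_lit 219638214) (nat_lit 228) (nat_lit 8285439552) (nat_lit 304) (nat_lit 3091453592) (nat_lit 60) (nat_lit 5) (nat_lit 63) (nat_lit 5) (nat_lit 64) (nat_lit 5) (nat_lit 319) (nat_lit 249) (nat_lit 212)))) (XT.nd (nat_lit 156) (nat_lit 228) (nat_lit 0) (XT.nd (nat_lit 78) (nat_lit 304) (nat_lit 0) (XT.lf (nat_lit 0) (nat_lit 6625260459) (nat_lit 228) (nat_lit 5087320908) (nat_lit 304) (nat_lit 101873749) (nat_lit 60) (nat_lit 5)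 (nat_lit 63) (nat_lit 5) (nat_lit 64) (nat_lit 5) (nat_lit 320) (nat_lit 249) (nat_lit 211)) (XT.lf (nat_lit 0) (nat_lit 1102170543) (nat_lit 228) (nat_lit 1778297782) (nat_lit 304) (nat_lit 9158800345) (nat_lit 56) (nat_lit 5) (nat_lit 59) (nat_lit 5) (nat_lit 60) (nat_lit 5) (nat_lit 321) (nat_lit 249) (nat_lit 210))) (XT.nd (nat_lit 78) (nat_lit 228) (nat_lit 0) (XT.lf (nat_lit 0) (nat_lit 5969883475) (nat_lit 304) (nat_lit 4673178698) (nat_lit 76) (nat_lit 1627189283) (nat_lit 56) (nat_lit 5) (nat_lit 60) (nat_lit 5) (nat_lit 57) (nat_lit 5) (nat_lit 322) (nat_lit 249) (nat_lit 209)) (XT.lf (nat_lit 0) (nat_lit 1721460579) (nat_lit 228) (nat_lit 7417162854) (nat_lit 304) (nat_lit 3369984321) (nat_lit 53) (nat_lit 5) (nat_lit 56) (nat_lit 5) (nat_lit 57) (nat_lit 5) (nat_lit 323) (nat_lit 249) (nat_lit 208))))))) (XT.nd (nat_lit 1014) (nat_lit 912) (nat_lit 0) (XT.nd (nat_lit 468) (nat_lit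 608) (nat_lit 0) (XT.nd (nat_lit 234) (nat_lit 456) (nat_lit 0) (XT.nd (nat_lit 78) (nat_lit 228) (nat_lit 0) (XT.lf (nat_lit 0) (nat_lit 8331269375) (nat_lit 228) (nat_lit 4071521143) (nat_lit 304) (nat_lit 351355312) (nat_lit 53) (nat_lit 5) (nat_lit 56) (nat_lit 5) (nat_lit 57) (nat_lit 5) (nat_lit 324) (nat_lit 249) (nat_lit 207)) (XT.nd (nat_lit 78) (nat_lit 0) (nat_lit 0) (XT.lf (nat_lit 0) (nat_lit 2074994274) (nat_lit 152) (nat_lit 603017853) (nat_lit 228) (nat_lit 10329062401) (nat_lit 50) (nat_lit 5) (nat_lit 52) (nat_lit 5) (nat_lit 53) (nat_lit 5) (nat_lit 325) (nat_lit 249) (nat_lit 206)) (XT.lf (nat_lit 0) (nat_lit 5819313288) (nat_lit 228) (nat_lit 4512014958) (nat_lit 76) (nat_lit 2935353511) (nat_lit 50) (nat_lit 5) (nat_lit 53) (nat_lit 5) (nat_lit 51) (nat_lit 5) (nat_lit 326) (nat_lit 249) (nat_lit 205)))) (XT.nd (nat_lit 78) (nat_lit 228) (nat_lit 0) (XT.lf (nat_lit 0) (nat_lit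 2065310169) (nat_lit 228) (nat_lit 6971158041) (nat_lit 304) (nat_lit 4498197899) (nat_lit 47) (nat_lit 5) (nat_lit 50) (nat_lit 5) (nat_lit 51) (nat_lit 5) (nat_lit 327) (nat_lit 249) (nat_lit 204)) (XT.nd (nat_lit 78) (nat_lit 228) (nat_lit 0) (XT.lf (nat_lit 0) (nat_lit 8863456713) (nat_lit 228) (nat_lit 3488659260) (nat_lit 304) (nat_lit 1458550936) (nat_lit 47) (nat_lit 5) (nat_lit 50) (nat_lit 5) (nat_lit 51) (nat_lit 5) (nat_lit 328) (nat_lit 249) (nat_lit 203)) (XT.lf (nat_lit 0) (nat_lit 1614447334) (nat_lit 228) (nat_lit 12376086764) (nat_lit 76) (nat_lit 104721735) (nat_lit 44) (nat_lit 5) (nat_lit 47) (nat_lit 5) (nat_lit 45) (nat_lit 5) (nat_lit 329) (nat_lit 249) (nat_lit 202))))) (XT.nd (nat_lit 234) (nat_lit 380) (nat_lit 0) (XT.nd (nat_lit 78) (nat_lit 228) (nat_lit 0) (XT.lf (nat_lit 0) (nat_lit 4792903788) (nat_lit 228) (nat_lit 5817666361) (nat_lit 76) (nat_lit 3776134720)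 (nat_lit 44) (nat_lit 5) (nat_lit 47) (nat_lit 5) (nat_lit 45) (nat_lit 5) (nat_lit 330) (nat_lit 249) (nat_lit 201)) (XT.nd (nat_lit 78) (nat_lit 0) (nat_lit 0) (XT.lf (nat_lit 0) (nat_lit 888575659) (nat_lit 228) (nat_lit 7145505767) (nat_lit 304) (nat_lit 6653827141) (nat_lit 41) (nat_lit 5) (nat_lit 44) (nat_lit 5) (nat_lit 45) (nat_lit 5) (nat_lit 331) (nat_lit 249) (nat_lit 200)) (XT.lf (nat_lit 0) (nat_lit 7849640799) (nat_lit 228) (nat_lit 3540995035) (nat_lit 304) (nat_lit 3606999579) (nat_lit 41) (nat_lit 5) (nat_lit 44) (nat_lit 5) (nat_lit 45) (nat_lit 5) (nat_lit 332) (nat_lit 249) (nat_lit 199)))) (XT.nd (nat_lit 156) (nat_lit 152) (nat_lit 0) (XT.nd (nat_lit 78) (nat_lit 228) (nat_lit 0) (XT.lf (nat_lit 0) (nat_lit 14809880536) (nat_lit 304) (nat_lit 363455104) (nat_lit 76) (nat_lit 144488983) (nat_lit 41) (nat_lit 5) (nat_lit 45) (nat_lit 5) (nat_lit 42) (nat_lit 4) (nat_lit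 333) (nat_lit 249) (nat_lit 198)) (XT.lf (nat_lit 0) (nat_lit 2692823348) (nat_lit 228) (nat_lit 9015581136) (nat_lit 76) (nat_lit 3936636126) (nat_lit 38) (nat_lit 5) (nat_lit 41) (nat_lit 5) (nat_lit 39) (nat_lit 5) (nat_lit 334) (nat_lit 249) (nat_lit 197))) (XT.nd (nat_lit 78) (nat_lit 152) (nat_lit 0) (XT.lf (nat_lit 0) (nat_lit 5944729359) (nat_lit 228) (nat_lit 2210397201) (nat_lit 76) (nat_lit 7827863693) (nat_lit 38) (nat_lit 5) (nat_lit 41) (nat_lit 5) (nat_lit 39) (nat_lit 5) (nat_lit 335) (nat_lit 249) (nat_lit 196)) (XT.lf (nat_lit 0) (nat_lit 4832087364) (nat_lit 152) (nat_lit 4471290283) (nat_lit 228) (nat_lit 7027452165) (nat_lit 36) (nat_lit 5) (nat_lit 38) (nat_lit 5) (nat_lit 39) (nat_lit 5) (nat_lit 336) (nat_lit 249) (nat_lit 195)))))) (XT.nd (nat_lit 546) (nat_lit 380) (nat_lit 0) (XT.nd (nat_lit 234) (nat_lit 304) (nat_lit 0) (XT.nd (nat_lit 78) (nat_lit 228) (nat_lit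 0) (XT.lf (nat_lit 0) (nat_lit 12070610600) (nat_lit 152) (nat_lit 677734923) (nat_lit 228) (nat_lit 3941218429) (nat_lit 36) (nat_lit 5) (nat_lit 38) (nat_lit 5) (nat_lit 39) (nat_lit 5) (nat_lit 337) (nat_lit 249) (nat_lit 194)) (XT.nd (nat_lit 78) (nat_lit 76) (nat_lit 0) (XT.lf (nat_lit 0) (nat_lit 2423824325) (nat_lit 152) (nat_lit 13891270711) (nat_lit 228) (nat_lit 743437534) (nat_lit 34) (nat_lit 5) (nat_lit 36) (nat_lit 5) (nat_lit 37) (nat_lit 4) (nat_lit 338) (nat_lit 249) (nat_lit 193)) (XT.lf (nat_lit 0) (nat_lit 2518517388) (nat_lit 228) (nat_lit 7756097741) (nat_lit 76) (nat_lit 7162703476) (nat_lit 33) (nat_lit 5) (nat_lit 36) (nat_lit 5) (nat_lit 34) (nat_lit 5) (nat_lit 339) (nat_lit 249) (nat_lit 192)))) (XT.nd (nat_lit 156) (nat_lit 152) (nat_lit 0) (XT.nd (nat_lit 78) (nat_lit 152) (nat_lit 0) (XT.lf (nat_lit 0) (nat_lit 5828622834) (nat_lit 228) (nat_lit 736556914) (nat_lit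 76) (nat_lit 11263133897) (nat_lit 33) (nat_lit 5) (nat_lit 36) (nat_lit 5) (nat_lit 34) (nat_lit 5) (nat_lit 340) (nat_lit 249) (nat_lit 191)) (XT.lf (nat_lit 0) (nat_lit 6565306976) (nat_lit 152) (nat_lit 2702081045) (nat_lit 228) (nat_lit 8962792416) (nat_lit 31) (nat_lit 5) (nat_lit 33) (nat_lit 5) (nat_lit 34) (nat_lit 5) (nat_lit 341) (nat_lit 249) (nat_lit 190))) (XT.nd (nat_lit 78) (nat_lit 152) (nat_lit 0) (XT.lf (nat_lit 0) (nat_lit 12795578913) (nat_lit 228) (nat_lit 4611530645) (nat_lit 76) (nat_lit 1237427729) (nat_lit 31) (nat_lit 5) (nat_lit 34) (nat_lit 5) (nat_lit 32) (nat_lit 4) (nat_lit 342) (nat_lit 249) (nat_lit 189)) (XT.lf (nat_lit 0) (nat_lit 2622862083) (nat_lit 152) (nat_lit 13826172564) (nat_lit 228) (nat_lit 2621728923) (nat_lit 29) (nat_lit 5) (nat_lit 31) (nat_lit 5) (nat_lit 32) (nat_lit 4) (nat_lit 343) (nat_lit 249) (nat_lit 188))))) (XT.nd (nat_lit 234) (nat_lit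 152) (nat_lit 0) (XT.nd (nat_lit 78) (nat_lit 152) (nat_lit 0) (XT.lf (nat_lit 0) (nat_lit 703180773) (nat_lit 228) (nat_lit 9401879013) (nat_lit 76) (nat_lit 9404097357) (nat_lit 28) (nat_lit 5) (nat_lit 31) (nat_lit 5) (nat_lit 29) (nat_lit 5) (nat_lit 344) (nat_lit 249) (nat_lit 187)) (XT.nd (nat_lit 78) (nat_lit 152) (nat_lit 0) (XT.lf (nat_lit 0) (nat_lit 4043628677) (nat_lit 228) (nat_lit 2223934233) (nat_lit 76) (nat_lit 13693325821) (nat_lit 28) (nat_lit 5) (nat_lit 31) (nat_lit 5) (nat_lit 29) (nat_lit 5) (nat_lit 345) (nat_lit 249) (nat_lit 186)) (XT.lf (nat_lit 0) (nat_lit 5219252928) (nat_lit 152) (nat_lit 2284610723) (nat_lit 228) (nat_lit 12921740331) (nat_lit 26) (nat_lit 5) (nat_lit 28) (nat_lit 5) (nat_lit 29) (nat_lit 5) (nat_lit 346) (nat_lit 249) (nat_lit 185)))) (XT.nd (nat_lit 156) (nat_lit 152) (nat_lit 0) (XT.nd (nat_lit 78) (nat_lit 0) (nat_lit 0) (XT.lf (nat_lit 0)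 (nat_lit 11077655143) (nat_lit 228) (nat_lit 8042112662) (nat_lit 76) (nat_lit 1784218776) (nat_lit 26) (nat_lit 5) (nat_lit 29) (nat_lit 5) (nat_lit 27) (nat_lit 4) (nat_lit 347) (nat_lit 249) (nat_lit 184)) (XT.lf (nat_lit 0) (nat_lit 14751761497) (nat_lit 228) (nat_lit 736201417) (nat_lit 76) (nat_lit 5908982548) (nat_lit 26) (nat_lit 5) (nat_lit 29) (nat_lit 5) (nat_lit 27) (nat_lit 4) (nat_lit 348) (nat_lit 249) (nat_lit 183))) (XT.nd (nat_lit 78) (nat_lit 76) (nat_lit 0) (XT.lf (nat_lit 0) (nat_lit 6873861354) (nat_lit 76) (nat_lit 11699646428) (nat_lit 152) (nat_lit 3330080144) (nat_lit 25) (nat_lit 5) (nat_lit 26) (nat_lit 5) (nat_lit 27) (nat_lit 4) (nat_lit 349) (nat_lit 249) (nat_lit 182)) (XT.lf (nat_lit 0) (nat_lit 61747325) (nat_lit 152) (nat_lit 7748037815) (nat_lit 76) (nat_lit 14616268918) (nat_lit 24) (nat_lit 5) (nat_lit 26) (nat_lit 5) (nat_lit 25) (nat_lit 5) (nat_lit 350)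 (nat_lit 249) (nat_lit 181))))))))
noncomputable def xc78 : XT := (XT.nd (nat_lit 2028) (nat_lit 380) (nat_lit 0) (XT.nd (nat_lit 1014) (nat_lit 456) (nat_lit 0) (XT.nd (nat_lit 468) (nat_lit 304) (nat_lit 0) (XT.nd (nat_lit 234) (nat_lit 76) (nat_lit 0) (XT.nd (nat_lit 78) (nat_lit 152) (nat_lit 0) (XT.lf (nat_lit 0) (nat_lit 3460642172) (nat_lit 152) (nat_lit 328697587) (nat_lit 76) (nat_lit 19174713815) (nat_lit 24) (nat_lit 5) (nat_lit 26) (nat_lit 5) (nat_lit 25) (nat_lit 5) (nat_lit 351) (nat_lit 249) (nat_lit 180)) (XT.nd (nat_lit 78) (nat_lit 0) (nat_lit 0) (XT.lf (nat_lit 0) (nat_lit 7009698171) (nat_lit 228) (nat_lit 16109367470) (nat_lit 76) (nat_lit 397696992) (nat_lit 22) (nat_lit 5) (nat_lit 25) (nat_lit 5) (nat_lit 23) (nat_lit 4) (nat_lit 352) (nat_lit 249) (nat_lit 179)) (XT.lf (nat_lit 0) (nat_lit 10679305083) (nat_lit 228) (nat_lit 8787802436) (nat_lit 76) (nat_lit 4618538008)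 (nat_lit 22) (nat_lit 5) (nat_lit 25) (nat_lit 5) (nat_lit 23) (nat_lit 4) (nat_lit 353) (nat_lit 249) (nat_lit 178)))) (XT.nd (nat_lit 78) (nat_lit 76) (nat_lit 0) (XT.lf (nat_lit 0) (nat_lit 14432989476) (nat_lit 228) (nat_lit 1291839619) (nat_lit 76) (nat_lit 8947560638) (nat_lit 22) (nat_lit 5) (nat_lit 25) (nat_lit 5) (nat_lit 23) (nat_lit 4) (nat_lit 354) (nat_lit 249) (nat_lit 177)) (XT.nd (nat_lit 78) (nat_lit 0) (nat_lit 0) (XT.lf (nat_lit 0) (nat_lit 6512146280) (nat_lit 76) (nat_lit 11824483722) (nat_lit 152) (nat_lit 6938999976) (nat_lit 21) (nat_lit 5) (nat_lit 22) (nat_lit 5) (nat_lit 23) (nat_lit 4) (nat_lit 355) (nat_lit 249) (nat_lit 176)) (XT.lf (nat_lit 0) (nat_lit 14533232670) (nat_lit 76) (nat_lit 7812256365) (nat_lit 152) (nat_lit 3551848790) (nat_lit 21) (nat_lit 5) (nat_lit 22) (nat_lit 5) (nat_lit 23) (nat_lit 4) (nat_lit 356) (nat_lit 249) (nat_lit 175))))) (XT.nd (nat_lit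 234) (nat_lit 76) (nat_lit 0) (XT.nd (nat_lit 78) (nat_lit 228) (nat_lit 0) (XT.lf (nat_lit 0) (nat_lit 22752718124) (nat_lit 76) (nat_lit 3697686241) (nat_lit 152) (nat_lit 88032099) (nat_lit 21) (nat_lit 5) (nat_lit 22) (nat_lit 5) (nat_lit 23) (nat_lit 4) (nat_lit 357) (nat_lit 249) (nat_lit 174)) (XT.nd (nat_lit 78) (nat_lit 0) (nat_lit 0) (XT.lf (nat_lit 0) (nat_lit 3432462714) (nat_lit 228) (nat_lit 23179469420) (nat_lit 76) (nat_lit 585225017) (nat_lit 18) (nat_lit 5) (nat_lit 21) (nat_lit 5) (nat_lit 19) (nat_lit 4) (nat_lit 358) (nat_lit 249) (nat_lit 173)) (XT.lf (nat_lit 0) (nat_lit 7108398280) (nat_lit 228) (nat_lit 15821182088) (nat_lit 76) (nat_lit 4944497231) (nat_lit 18) (nat_lit 5) (nat_lit 21) (nat_lit 5) (nat_lit 19) (nat_lit 4) (nat_lit 359) (nat_lit 249) (nat_lit 172)))) (XT.nd (nat_lit 156) (nat_lit 76) (nat_lit 0) (XT.nd (nat_lit 78) (nat_lit 0) (nat_lit 0) (XT.lf (nat_lit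 0) (nat_lit 10871677621) (nat_lit 228) (nat_lit 8282561789) (nat_lit 76) (nat_lit 9417766073) (nat_lit 18) (nat_lit 5) (nat_lit 21) (nat_lit 5) (nat_lit 19) (nat_lit 4) (nat_lit 360) (nat_lit 249) (nat_lit 171)) (XT.lf (nat_lit 0) (nat_lit 14725589041) (nat_lit 228) (nat_lit 557021380) (nat_lit 76) (nat_lit 14008940222) (nat_lit 18) (nat_lit 5) (nat_lit 21) (nat_lit 5) (nat_lit 19) (nat_lit 4) (nat_lit 361) (nat_lit 249) (nat_lit 170))) (XT.nd (nat_lit 78) (nat_lit 0) (nat_lit 0) (XT.lf (nat_lit 0) (nat_lit 7508711621) (nat_lit 76) (nat_lit 11236966741) (nat_lit 152) (nat_lit 11285498094) (nat_lit 17) (nat_lit 5) (nat_lit 18) (nat_lit 5) (nat_lit 19) (nat_lit 4) (nat_lit 362) (nat_lit 249) (nat_lit 169)) (XT.lf (nat_lit 0) (nat_lit 15790112863) (nat_lit 76) (nat_lit 7080531590) (nat_lit 152) (nat_lit 7922829160) (nat_lit 17) (nat_lit 5) (nat_lit 18) (nat_lit 5) (nat_lit 19) (nat_lit 4) (nat_lit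 363) (nat_lit 249) (nat_lit 168)))))) (XT.nd (nat_lit 468) (nat_lit 228) (nat_lit 0) (XT.nd (nat_lit 234) (nat_lit 0) (nat_lit 0) (XT.nd (nat_lit 78) (nat_lit 228) (nat_lit 0) (XT.lf (nat_lit 0) (nat_lit 24283332702) (nat_lit 76) (nat_lit 2815297957) (nat_lit 152) (nat_lit 4480641371) (nat_lit 17) (nat_lit 5) (nat_lit 18) (nat_lit 5) (nat_lit 19) (nat_lit 4) (nat_lit 364) (nat_lit 249) (nat_lit 167)) (XT.nd (nat_lit 78) (nat_lit 76) (nat_lit 0) (XT.lf (nat_lit 0) (nat_lit 603287045) (nat_lit 152) (nat_lit 30850862787) (nat_lit 152) (nat_lit 934483937) (nat_lit 15) (nat_lit 4) (nat_lit 17) (nat_lit 5) (nat_lit 17) (nat_lit 4) (nat_lit 365) (nat_lit 249) (nat_lit 166)) (XT.lf (nat_lit 0) (nat_lit 2747063686) (nat_lit 228) (nat_lit 24421829083) (nat_lit 76) (nat_lit 6050148016) (nat_lit 14) (nat_lit 5) (nat_lit 17) (nat_lit 5) (nat_lit 15) (nat_lit 4) (nat_lit 366) (nat_lit 249) (nat_lit 165))))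 (XT.nd (nat_lit 78) (nat_lit 0) (nat_lit 0) (XT.lf (nat_lit 0) (nat_lit 6500631074) (nat_lit 228) (nat_lit 16881688758) (nat_lit 76) (nat_lit 10692361252) (nat_lit 14) (nat_lit 5) (nat_lit 17) (nat_lit 5) (nat_lit 15) (nat_lit 4) (nat_lit 367) (nat_lit 249) (nat_lit 164)) (XT.nd (nat_lit 78) (nat_lit 0) (nat_lit 0) (XT.lf (nat_lit 0) (nat_lit 10347733189) (nat_lit 228) (nat_lit 9149354447) (nat_lit 76) (nat_lit 15459484164) (nat_lit 14) (nat_lit 5) (nat_lit 17) (nat_lit 5) (nat_lit 15) (nat_lit 4) (nat_lit 368) (nat_lit 249) (nat_lit 163)) (XT.lf (nat_lit 0) (nat_lit 14291731578) (nat_lit 228) (nat_lit 1218069742) (nat_lit 76) (nat_lit 20355682197) (nat_lit 14) (nat_lit 5) (nat_lit 17) (nat_lit 5) (nat_lit 15) (nat_lit 4) (nat_lit 369) (nat_lit 249) (nat_lit 162))))) (XT.nd (nat_lit 234) (nat_lit 152) (nat_lit 0) (XT.nd (nat_lit 78) (nat_lit 0) (nat_lit 0) (XT.lf (nat_lit 0) (nat_lit 7056799176)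 (nat_lit 76) (nat_lit 11347107545) (nat_lit 152) (nat_lit 18396268679) (nat_lit 13) (nat_lit 5) (nat_lit 14) (nat_lit 5) (nat_lit 15) (nat_lit 4) (nat_lit 370) (nat_lit 249) (nat_lit 161)) (XT.nd (nat_lit 78) (nat_lit 0) (nat_lit 0) (XT.lf (nat_lit 0) (nat_lit 15573139792) (nat_lit 76) (nat_lit 7060848453) (nat_lit 152) (nat_lit 15129091832) (nat_lit 13) (nat_lit 5) (nat_lit 14) (nat_lit 5) (nat_lit 15) (nat_lit 4) (nat_lit 371) (nat_lit 249) (nat_lit 160)) (XT.lf (nat_lit 0) (nat_lit 24314151594) (nat_lit 76) (nat_lit 2659578884) (nat_lit 152) (nat_lit 11781666700) (nat_lit 13) (nat_lit 5) (nat_lit 14) (nat_lit 5) (nat_lit 15) (nat_lit 4) (nat_lit 372) (nat_lit 249) (nat_lit 159)))) (XT.nd (nat_lit 156) (nat_lit 76) (nat_lit 0) (XT.nd (nat_lit 78) (nat_lit 76) (nat_lit 0) (XT.lf (nat_lit 0) (nat_lit 31444810141) (nat_lit 152) (nat_lit 6508406133) (nat_lit 0) (nat_lit 1824240959) (nat_lit 13)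 (nat_lit 5) (nat_lit 15) (nat_lit 4) (nat_lit 13) (nat_lit 4) (nat_lit 373) (nat_lit 249) (nat_lit 158)) (XT.lf (nat_lit 0) (nat_lit 1638639799) (nat_lit 76) (nat_lit 34437091454) (nat_lit 76) (nat_lit 4753684134) (nat_lit 12) (nat_lit 4) (nat_lit 13) (nat_lit 5) (nat_lit 13) (nat_lit 4) (nat_lit 374) (nat_lit 249) (nat_lit 157))) (XT.nd (nat_lit 78) (nat_lit 76) (nat_lit 0) (XT.lf (nat_lit 0) (nat_lit 10134379502) (nat_lit 76) (nat_lit 30760744516) (nat_lit 76) (nat_lit 1016329296) (nat_lit 12) (nat_lit 4) (nat_lit 13) (nat_lit 5) (nat_lit 13) (nat_lit 4) (nat_lit 375) (nat_lit 249) (nat_lit 156)) (XT.lf (nat_lit 0) (nat_lit 2761991876) (nat_lit 152) (nat_lit 24196802681) (nat_lit 76) (nat_lit 16066823815) (nat_lit 11) (nat_lit 5) (nat_lit 13) (nat_lit 5) (nat_lit 12) (nat_lit 4) (nat_lit 376) (nat_lit 249) (nat_lit 155))))))) (XT.nd (nat_lit 1014) (nat_lit 152) (nat_lit 0) (XT.nd (nat_lit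 468) (nat_lit 152) (nat_lit 0) (XT.nd (nat_lit 234) (nat_lit 76) (nat_lit 0) (XT.nd (nat_lit 78) (nat_lit 0) (nat_lit 0) (XT.lf (nat_lit 0) (nat_lit 6617828266) (nat_lit 152) (nat_lit 16426960607) (nat_lit 76) (nat_lit 21128586570) (nat_lit 11) (nat_lit 5) (nat_lit 13) (nat_lit 5) (nat_lit 12) (nat_lit 4) (nat_lit 377) (nat_lit 249) (nat_lit 154)) (XT.nd (nat_lit 78) (nat_lit 0) (nat_lit 0) (XT.lf (nat_lit 0) (nat_lit 10574381295) (nat_lit 152) (nat_lit 8450988830) (nat_lit 76) (nat_lit 26330650384) (nat_lit 11) (nat_lit 5) (nat_lit 13) (nat_lit 5) (nat_lit 12) (nat_lit 4) (nat_lit 378) (nat_lit 249) (nat_lit 153)) (XT.lf (nat_lit 0) (nat_lit 14635108145) (nat_lit 152) (nat_lit 261918054) (nat_lit 76) (nat_lit 31677560751) (nat_lit 11) (nat_lit 5) (nat_lit 13) (nat_lit 5) (nat_lit 12) (nat_lit 4) (nat_lit 379) (nat_lit 249) (nat_lit 152)))) (XT.nd (nat_lit 78) (nat_lit 0) (nat_lit 0) (XT.lf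 (nat_lit 0) (nat_lit 8309556597) (nat_lit 76) (nat_lit 10573876968) (nat_lit 152) (nat_lit 28944309671) (nat_lit 10) (nat_lit 5) (nat_lit 11) (nat_lit 5) (nat_lit 12) (nat_lit 4) (nat_lit 380) (nat_lit 249) (nat_lit 151)) (XT.nd (nat_lit 78) (nat_lit 0) (nat_lit 0) (XT.lf (nat_lit 0) (nat_lit 17118376118) (nat_lit 76) (nat_lit 6129546450) (nat_lit 152) (nat_lit 25870916202) (nat_lit 10) (nat_lit 5) (nat_lit 11) (nat_lit 5) (nat_lit 12) (nat_lit 4) (nat_lit 381) (nat_lit 249) (nat_lit 150)) (XT.lf (nat_lit 0) (nat_lit 26167024852) (nat_lit 76) (nat_lit 1562796110) (nat_lit 152) (nat_lit 22719257769) (nat_lit 10) (nat_lit 5) (nat_lit 11) (nat_lit 5) (nat_lit 12) (nat_lit 4) (nat_lit 382) (nat_lit 249) (nat_lit 149))))) (XT.nd (nat_lit 234) (nat_lit 76) (nat_lit 0) (XT.nd (nat_lit 78) (nat_lit 76) (nat_lit 0) (XT.lf (nat_lit 0) (nat_lit 32363135948) (nat_lit 152) (nat_lit 16386307056) (nat_lit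 0) (nat_lit 3069279731) (nat_lit 10) (nat_lit 5) (nat_lit 12) (nat_lit 4) (nat_lit 10) (nat_lit 4) (nat_lit 383) (nat_lit 249) (nat_lit 148)) (XT.nd (nat_lit 78) (nat_lit 76) (nat_lit 0) (XT.lf (nat_lit 0) (nat_lit 37138075884) (nat_lit 152) (nat_lit 8292482818) (nat_lit 0) (nat_lit 7798824059) (nat_lit 10) (nat_lit 5) (nat_lit 12) (nat_lit 4) (nat_lit 10) (nat_lit 4) (nat_lit 384) (nat_lit 249) (nat_lit 147)) (XT.lf (nat_lit 0) (nat_lit 21941821) (nat_lit 76) (nat_lit 42022059592) (nat_lit 76) (nat_lit 12638734362) (nat_lit 9) (nat_lit 4) (nat_lit 10) (nat_lit 5) (nat_lit 10) (nat_lit 4) (nat_lit 385) (nat_lit 249) (nat_lit 146)))) (XT.nd (nat_lit 156) (nat_lit 76) (nat_lit 0) (XT.nd (nat_lit 78) (nat_lit 0) (nat_lit 0) (XT.lf (nat_lit 0) (nat_lit 8733366466) (nat_lit 76) (nat_lit 38435150325) (nat_lit 76) (nat_lit 9009035381) (nat_lit 9) (nat_lit 4) (nat_lit 10) (nat_lit 5) (nat_lit 10) (nat_lit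 4) (nat_lit 386) (nat_lit 249) (nat_lit 145)) (XT.lf (nat_lit 0) (nat_lit 17684366373) (nat_lit 76) (nat_lit 34750434526) (nat_lit 76) (nat_lit 5282776170) (nat_lit 9) (nat_lit 4) (nat_lit 10) (nat_lit 5) (nat_lit 10) (nat_lit 4) (nat_lit 387) (nat_lit 249) (nat_lit 144))) (XT.nd (nat_lit 78) (nat_lit 76) (nat_lit 0) (XT.lf (nat_lit 0) (nat_lit 26882762802) (nat_lit 76) (nat_lit 30964692539) (nat_lit 76) (nat_lit 1456700774) (nat_lit 9) (nat_lit 4) (nat_lit 10) (nat_lit 5) (nat_lit 10) (nat_lit 4) (nat_lit 388) (nat_lit 249) (nat_lit 143)) (XT.lf (nat_lit 0) (nat_lit 2424285935) (nat_lit 152) (nat_lit 24625849965) (nat_lit 76) (nat_lit 33887826719) (nat_lit 8) (nat_lit 5) (nat_lit 10) (nat_lit 5) (nat_lit 9) (nat_lit 4) (nat_lit 389) (nat_lit 249) (nat_lit 142)))))) (XT.nd (nat_lit 546) (nat_lit 76) (nat_lit 0) (XT.nd (nat_lit 234) (nat_lit 0) (nat_lit 0) (XT.nd (nat_lit 78) (nat_lit 76) (nat_lit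 0) (XT.lf (nat_lit 0) (nat_lit 6381359829) (nat_lit 152) (nat_lit 16631008067) (nat_lit 76) (nat_lit 39608319109) (nat_lit 8) (nat_lit 5) (nat_lit 10) (nat_lit 5) (nat_lit 9) (nat_lit 4) (nat_lit 390) (nat_lit 249) (nat_lit 141)) (XT.nd (nat_lit 78) (nat_lit 76) (nat_lit 0) (XT.lf (nat_lit 0) (nat_lit 10446404023) (nat_lit 152) (nat_lit 8415879137) (nat_lit 76) (nat_lit 45491936539) (nat_lit 8) (nat_lit 5) (nat_lit 10) (nat_lit 5) (nat_lit 9) (nat_lit 4) (nat_lit 391) (nat_lit 249) (nat_lit 140)) (XT.lf (nat_lit 0) (nat_lit 27246775) (nat_lit 76) (nat_lit 14595985634) (nat_lit 152) (nat_lit 51516835168) (nat_lit 7) (nat_lit 5) (nat_lit 8) (nat_lit 5) (nat_lit 9) (nat_lit 4) (nat_lit 392) (nat_lit 249) (nat_lit 139)))) (XT.nd (nat_lit 156) (nat_lit 0) (nat_lit 0) (XT.nd (nat_lit 78) (nat_lit 0) (nat_lit 0) (XT.lf (nat_lit 0) (nat_lit 8877381333) (nat_lit 76) (nat_lit 10122662165) (nat_lit 152)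 (nat_lit 48977211127) (nat_lit 7) (nat_lit 5) (nat_lit 8) (nat_lit 5) (nat_lit 9) (nat_lit 4) (nat_lit 393) (nat_lit 249) (nat_lit 138)) (XT.lf (nat_lit 0) (nat_lit 17974765164) (nat_lit 76) (nat_lit 5523387904) (nat_lit 152) (nat_lit 46371708343) (nat_lit 7) (nat_lit 5) (nat_lit 8) (nat_lit 5) (nat_lit 9) (nat_lit 4) (nat_lit 394) (nat_lit 249) (nat_lit 137))) (XT.nd (nat_lit 78) (nat_lit 0) (nat_lit 0) (XT.lf (nat_lit 0) (nat_lit 27327347441) (nat_lit 76) (nat_lit 794144065) (nat_lit 152) (nat_lit 43698050163) (nat_lit 7) (nat_lit 5) (nat_lit 8) (nat_lit 5) (nat_lit 9) (nat_lit 4) (nat_lit 395) (nat_lit 249) (nat_lit 136)) (XT.lf (nat_lit 0) (nat_lit 32913214279) (nat_lit 152) (nat_lit 36923814337) (nat_lit 0) (nat_lit 3989796916) (nat_lit 7) (nat_lit 5) (nat_lit 9) (nat_lit 4) (nat_lit 7) (nat_lit 4) (nat_lit 396) (nat_lit 249) (nat_lit 135))))) (XT.nd (nat_lit 234) (nat_lit 76) (nat_lit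 0) (XT.nd (nat_lit 78) (nat_lit 0) (nat_lit 0) (XT.lf (nat_lit 0) (nat_lit 37847322211) (nat_lit 152) (nat_lit 29153157309) (nat_lit 0) (nat_lit 8893893003) (nat_lit 7) (nat_lit 5) (nat_lit 9) (nat_lit 4) (nat_lit 7) (nat_lit 4) (nat_lit 397) (nat_lit 249) (nat_lit 134)) (XT.nd (nat_lit 78) (nat_lit 0) (nat_lit 0) (XT.lf (nat_lit 0) (nat_lit 42920492860) (nat_lit 152) (nat_lit 21165799450) (nat_lit 0) (nat_lit 13937925939) (nat_lit 7) (nat_lit 5) (nat_lit 9) (nat_lit 4) (nat_lit 7) (nat_lit 4) (nat_lit 398) (nat_lit 249) (nat_lit 133)) (XT.lf (nat_lit 0) (nat_lit 48137159094) (nat_lit 152) (nat_lit 12954761516) (nat_lit 0) (nat_lit 19126303131) (nat_lit 7) (nat_lit 5) (nat_lit 9) (nat_lit 4) (nat_lit 7) (nat_lit 4) (nat_lit 399) (nat_lit 249) (nat_lit 132)))) (XT.nd (nat_lit 156) (nat_lit 0) (nat_lit 0) (XT.nd (nat_lit 78) (nat_lit 76) (nat_lit 0) (XT.lf (nat_lit 0) (nat_lit 53501879164) (nat_lit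 152) (nat_lit 4512868813) (nat_lit 0) (nat_lit 24463558112) (nat_lit 7) (nat_lit 5) (nat_lit 9) (nat_lit 4) (nat_lit 7) (nat_lit 4) (nat_lit 400) (nat_lit 249) (nat_lit 131)) (XT.lf (nat_lit 0) (nat_lit 4250191615) (nat_lit 76) (nat_lit 54810004517) (nat_lit 76) (nat_lit 25745018330) (nat_lit 6) (nat_lit 4) (nat_lit 7) (nat_lit 5) (nat_lit 7) (nat_lit 4) (nat_lit 401) (nat_lit 249) (nat_lit 130))) (XT.nd (nat_lit 78) (nat_lit 0) (nat_lit 0) (XT.lf (nat_lit 0) (nat_lit 13353774951) (nat_lit 76) (nat_lit 51468954459) (nat_lit 76) (nat_lit 22378079791) (nat_lit 6) (nat_lit 4) (nat_lit 7) (nat_lit 5) (nat_lit 7) (nat_lit 4) (nat_lit 402) (nat_lit 249) (nat_lit 129)) (XT.lf (nat_lit 0) (nat_lit 22716020844) (nat_lit 76) (nat_lit 48034249564) (nat_lit 76) (nat_lit 18918240449) (nat_lit 6) (nat_lit 4) (nat_lit 7) (nat_lit 5) (nat_lit 7) (nat_lit 4) (nat_lit 403) (nat_lit 249) (nat_lit 128))))))))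
noncomputable def xc79 : XT := (XT.nd (nat_lit 32604) (nat_lit 0) (nat_lit 3344) (XT.nd (nat_lit 31590) (nat_lit 0) (nat_lit 8284) (XT.nd (nat_lit 31044) (nat_lit 0) (nat_lit 12692) (XT.nd (nat_lit 234) (nat_lit 0) (nat_lit 0) (XT.nd (nat_lit 78) (nat_lit 0) (nat_lit 0) (XT.lf (nat_lit 0) (nat_lit 32345109897) (nat_lit 76) (nat_lit 44502888635) (nat_lit 76) (nat_lit 15362477144) (nat_lit 6) (nat_lit 4) (nat_lit 7) (nat_lit 5) (nat_lit 7) (nat_lit 4) (nat_lit 404) (nat_lit 249) (nat_lit 127)) (XT.nd (nat_lit 78) (nat_lit 0) (nat_lit 0) (XT.lf (nat_lit 0) (nat_lit 42249455877) (nat_lit 76) (nat_lit 40871786017) (nat_lit 76) (nat_lit 11707682899) (nat_lit 6) (nat_lit 4) (nat_lit 7) (nat_lit 5) (nat_lit 7) (nat_lit 4) (nat_lit 405) (nat_lit 249) (nat_lit 126)) (XT.lf (nat_lit 0) (nat_lit 52437713067) (nat_lit 76) (nat_lit 37137768901) (nat_lit 76) (nat_lit 7950664203) (nat_lit 6) (nat_lit 4) (nat_lit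 7) (nat_lit 5) (nat_lit 7) (nat_lit 4) (nat_lit 406) (nat_lit 249) (nat_lit 125)))) (XT.nd (nat_lit 78) (nat_lit 0) (nat_lit 0) (XT.lf (nat_lit 0) (nat_lit 62918783827) (nat_lit 76) (nat_lit 33297574554) (nat_lit 76) (nat_lit 4088138225) (nat_lit 6) (nat_lit 4) (nat_lit 7) (nat_lit 5) (nat_lit 7) (nat_lit 4) (nat_lit 407) (nat_lit 249) (nat_lit 124)) (XT.nd (nat_lit 30654) (nat_lit 0) (nat_lit 17860) (XT.lf (nat_lit 0) (nat_lit 73701826376) (nat_lit 76) (nat_lit 29347847466) (nat_lit 76) (nat_lit 116729942) (nat_lit 6) (nat_lit 4) (nat_lit 7) (nat_lit 5) (nat_lit 7) (nat_lit 4) (nat_lit 408) (nat_lit 249) (nat_lit 123)) (XT.lf (nat_lit 0) (nat_lit 1582471578) (nat_lit 836) (nat_lit 286391151) (nat_lit 0) (nat_lit 1582471578) (nat_lit 241) (nat_lit 5) (nat_lit 252) (nat_lit 4) (nat_lit 241) (nat_lit 4) (nat_lit 280) (nat_lit 250) (nat_lit 250))))) (XT.nd (nat_lit 234) (nat_lit 3344) (nat_lit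 0) (XT.nd (nat_lit 78) (nat_lit 988) (nat_lit 0) (XT.lf (nat_lit 0) (nat_lit 3801885764) (nat_lit 836) (nat_lit 2488078943) (nat_lit 836) (nat_lit 661380235) (nat_lit 230) (nat_lit 4) (nat_lit 241) (nat_lit 5) (nat_lit 241) (nat_lit 4) (nat_lit 281) (nat_lit 250) (nat_lit 249)) (XT.nd (nat_lit 78) (nat_lit 0) (nat_lit 0) (XT.lf (nat_lit 0) (nat_lit 1230878858) (nat_lit 912) (nat_lit 1148959298) (nat_lit 988) (nat_lit 4623482527) (nat_lit 217) (nat_lit 5) (nat_lit 229) (nat_lit 5) (nat_lit 230) (nat_lit 4) (nat_lit 282) (nat_lit 250) (nat_lit 248)) (XT.lf (nat_lit 0) (nat_lit 5439213752) (nat_lit 988) (nat_lit 1347247411) (nat_lit 0) (nat_lit 272193044) (nat_lit 217) (nat_lit 5) (nat_lit 230) (nat_lit 4) (nat_lit 217) (nat_lit 4) (nat_lit 283) (nat_lit 250) (nat_lit 247)))) (XT.nd (nat_lit 156) (nat_lit 1216) (nat_lit 0) (XT.nd (nat_lit 78) (nat_lit 1064) (nat_lit 0) (XT.lf (nat_lit 0) (nat_lit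 1395777065) (nat_lit 1064) (nat_lit 3956591407) (nat_lit 76) (nat_lit 1764548862) (nat_lit 203) (nat_lit 5) (nat_lit 217) (nat_lit 5) (nat_lit 204) (nat_lit 4) (nat_lit 284) (nat_lit 250) (nat_lit 246)) (XT.lf (nat_lit 0) (nat_lit 561015096) (nat_lit 1064) (nat_lit 3836403770) (nat_lit 1140) (nat_lit 2781357245) (nat_lit 189) (nat_lit 5) (nat_lit 203) (nat_lit 5) (nat_lit 204) (nat_lit 4) (nat_lit 285) (nat_lit 250) (nat_lit 245))) (XT.nd (nat_lit 78) (nat_lit 1140) (nat_lit 0) (XT.lf (nat_lit 0) (nat_lit 192288079) (nat_lit 1140) (nat_lit 2037888941) (nat_lit 76) (nat_lit 5013901781) (nat_lit 188) (nat_lit 5) (nat_lit 203) (nat_lit 5) (nat_lit 189) (nat_lit 5) (nat_lit 286) (nat_lit 250) (nat_lit 244)) (XT.lf (nat_lit 0) (nat_lit 2616404634) (nat_lit 1140) (nat_lit 520735448) (nat_lit 1216) (nat_lit 4175405998) (nat_lit 173) (nat_lit 5) (nat_lit 188) (nat_lit 5) (nat_lit 189) (nat_lit 5) (nat_lit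 287) (nat_lit 250) (nat_lit 243)))))) (XT.nd (nat_lit 468) (nat_lit 2052) (nat_lit 0) (XT.nd (nat_lit 234) (nat_lit 1140) (nat_lit 0) (XT.nd (nat_lit 78) (nat_lit 1216) (nat_lit 0) (XT.lf (nat_lit 0) (nat_lit 6117505924) (nat_lit 1216) (nat_lit 30844191) (nat_lit 76) (nat_lit 1236465948) (nat_lit 173) (nat_lit 5) (nat_lit 189) (nat_lit 5) (nat_lit 174) (nat_lit 4) (nat_lit 288) (nat_lit 250) (nat_lit 242)) (XT.nd (nat_lit 78) (nat_lit 608) (nat_lit 0) (XT.lf (nat_lit 0) (nat_lit 1661865758) (nat_lit 608) (nat_lit 2699997525) (nat_lit 76) (nat_lit 3098020158) (nat_lit 165) (nat_lit 5) (nat_lit 173) (nat_lit 5) (nat_lit 166) (nat_lit 5) (nat_lit 289) (nat_lit 250) (nat_lit 241)) (XT.lf (nat_lit 0) (nat_lit 2099446529) (nat_lit 608) (nat_lit 2492096404) (nat_lit 684) (nat_lit 2947290388) (nat_lit 157) (nat_lit 5) (nat_lit 165) (nat_lit 5) (nat_lit 166) (nat_lit 5) (nat_lit 290) (nat_lit 250) (nat_lit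 240)))) (XT.nd (nat_lit 78) (nat_lit 1140) (nat_lit 0) (XT.lf (nat_lit 0) (nat_lit 7012324439) (nat_lit 608) (nat_lit 543226881) (nat_lit 684) (nat_lit 66352627) (nat_lit 157) (nat_lit 5) (nat_lit 165) (nat_lit 5) (nat_lit 166) (nat_lit 5) (nat_lit 291) (nat_lit 250) (nat_lit 239)) (XT.nd (nat_lit 78) (nat_lit 532) (nat_lit 0) (XT.lf (nat_lit 0) (nat_lit 2821414139) (nat_lit 608) (nat_lit 3385856555) (nat_lit 76) (nat_lit 1500186233) (nat_lit 149) (nat_lit 5) (nat_lit 157) (nat_lit 5) (nat_lit 150) (nat_lit 5) (nat_lit 292) (nat_lit 250) (nat_lit 238)) (XT.lf (nat_lit 0) (nat_lit 1555388763) (nat_lit 532) (nat_lit 4187693348) (nat_lit 608) (nat_lit 2054149754) (nat_lit 142) (nat_lit 5) (nat_lit 149) (nat_lit 5) (nat_lit 150) (nat_lit 5) (nat_lit 293) (nat_lit 250) (nat_lit 237))))) (XT.nd (nat_lit 234) (nat_lit 1064) (nat_lit 0) (XT.nd (nat_lit 78) (nat_lit 912) (nat_lit 0) (XT.lf (nat_lit 0)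 (nat_lit 803011175) (nat_lit 608) (nat_lit 1270528880) (nat_lit 76) (nat_lit 5817322335) (nat_lit 141) (nat_lit 5) (nat_lit 149) (nat_lit 5) (nat_lit 142) (nat_lit 5) (nat_lit 294) (nat_lit 250) (nat_lit 236)) (XT.nd (nat_lit 78) (nat_lit 456) (nat_lit 0) (XT.lf (nat_lit 0) (nat_lit 3667653503) (nat_lit 532) (nat_lit 4170277167) (nat_lit 76) (nat_lit 149991265) (nat_lit 135) (nat_lit 5) (nat_lit 142) (nat_lit 5) (nat_lit 136) (nat_lit 5) (nat_lit 295) (nat_lit 250) (nat_lit 235)) (XT.lf (nat_lit 0) (nat_lit 907704250) (nat_lit 456) (nat_lit 5678893534) (nat_lit 532) (nat_lit 1502362889) (nat_lit 129) (nat_lit 5) (nat_lit 135) (nat_lit 5) (nat_lit 136) (nat_lit 5) (nat_lit 296) (nat_lit 250) (nat_lit 234)))) (XT.nd (nat_lit 156) (nat_lit 532) (nat_lit 0) (XT.nd (nat_lit 78) (nat_lit 456) (nat_lit 0) (XT.lf (nat_lit 0) (nat_lit 1341936498) (nat_lit 532) (nat_lit 2069206696) (nat_lit 76) (nat_lit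 4782519801) (nat_lit 128) (nat_lit 5) (nat_lit 135) (nat_lit 5) (nat_lit 129) (nat_lit 5) (nat_lit 297) (nat_lit 250) (nat_lit 233)) (XT.lf (nat_lit 0) (nat_lit 3158422218) (nat_lit 456) (nat_lit 1042092486) (nat_lit 532) (nat_lit 4101879313) (nat_lit 122) (nat_lit 5) (nat_lit 128) (nat_lit 5) (nat_lit 129) (nat_lit 5) (nat_lit 298) (nat_lit 250) (nat_lit 232))) (XT.nd (nat_lit 78) (nat_lit 76) (nat_lit 0) (XT.lf (nat_lit 0) (nat_lit 73544172) (nat_lit 456) (nat_lit 7036475935) (nat_lit 532) (nat_lit 1305516860) (nat_lit 116) (nat_lit 5) (nat_lit 122) (nat_lit 5) (nat_lit 123) (nat_lit 5) (nat_lit 299) (nat_lit 250) (nat_lit 231)) (XT.lf (nat_lit 0) (nat_lit 1537148965) (nat_lit 532) (nat_lit 3089879122) (nat_lit 76) (nat_lit 3904896824) (nat_lit 115) (nat_lit 5) (nat_lit 122) (nat_lit 5) (nat_lit 116) (nat_lit 5) (nat_lit 300) (nat_lit 250) (nat_lit 230))))))) (XT.nd (nat_lit 1014) (nat_lit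 1824) (nat_lit 0) (XT.nd (nat_lit 468) (nat_lit 1444) (nat_lit 0) (XT.nd (nat_lit 234) (nat_lit 836) (nat_lit 0) (XT.nd (nat_lit 78) (nat_lit 456) (nat_lit 0) (XT.lf (nat_lit 0) (nat_lit 2267204779) (nat_lit 380) (nat_lit 2125837556) (nat_lit 456) (nat_lit 4259844944) (nat_lit 110) (nat_lit 5) (nat_lit 115) (nat_lit 5) (nat_lit 116) (nat_lit 5) (nat_lit 301) (nat_lit 250) (nat_lit 229)) (XT.nd (nat_lit 78) (nat_lit 456) (nat_lit 0) (XT.lf (nat_lit 0) (nat_lit 7303856374) (nat_lit 456) (nat_lit 1017852498) (nat_lit 76) (nat_lit 456785705) (nat_lit 110) (nat_lit 5) (nat_lit 116) (nat_lit 5) (nat_lit 111) (nat_lit 5) (nat_lit 302) (nat_lit 250) (nat_lit 228)) (XT.lf (nat_lit 0) (nat_lit 1366428989) (nat_lit 456) (nat_lit 4426224394) (nat_lit 76) (nat_lit 3114917433) (nat_lit 104) (nat_lit 5) (nat_lit 110) (nat_lit 5) (nat_lit 105) (nat_lit 5) (nat_lit 303) (nat_lit 250) (nat_lit 227)))) (XT.nd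 (nat_lit 78) (nat_lit 456) (nat_lit 0) (XT.lf (nat_lit 0) (nat_lit 1048848203) (nat_lit 380) (nat_lit 3170428974) (nat_lit 456) (nat_lit 4822203974) (nat_lit 99) (nat_lit 5) (nat_lit 104) (nat_lit 5) (nat_lit 105) (nat_lit 5) (nat_lit 304) (nat_lit 250) (nat_lit 226)) (XT.nd (nat_lit 78) (nat_lit 456) (nat_lit 0) (XT.lf (nat_lit 0) (nat_lit 6696629109) (nat_lit 380) (nat_lit 442584561) (nat_lit 456) (nat_lit 2040833003) (nat_lit 99) (nat_lit 5) (nat_lit 104) (nat_lit 5) (nat_lit 105) (nat_lit 5) (nat_lit 305) (nat_lit 250) (nat_lit 225)) (XT.lf (nat_lit 0) (nat_lit 799221861) (nat_lit 456) (nat_lit 6182812782) (nat_lit 76) (nat_lit 2340835455) (nat_lit 93) (nat_lit 5) (nat_lit 99) (nat_lit 5) (nat_lit 94) (nat_lit 5) (nat_lit 306) (nat_lit 250) (nat_lit 224))))) (XT.nd (nat_lit 234) (nat_lit 760) (nat_lit 0) (XT.nd (nat_lit 78) (nat_lit 684) (nat_lit 0) (XT.lf (nat_lit 0) (nat_lit 3651976164)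 (nat_lit 456) (nat_lit 593035669) (nat_lit 76) (nat_lit 5225380632) (nat_lit 93) (nat_lit 5) (nat_lit 99) (nat_lit 5) (nat_lit 94) (nat_lit 5) (nat_lit 307) (nat_lit 250) (nat_lit 223)) (XT.nd (nat_lit 78) (nat_lit 380) (nat_lit 0) (XT.lf (nat_lit 0) (nat_lit 5185904949) (nat_lit 304) (nat_lit 1394849060) (nat_lit 380) (nat_lit 3041946978) (nat_lit 89) (nat_lit 5) (nat_lit 93) (nat_lit 5) (nat_lit 94) (nat_lit 5) (nat_lit 308) (nat_lit 250) (nat_lit 222)) (XT.lf (nat_lit 0) (nat_lit 1300914828) (nat_lit 380) (nat_lit 8271209844) (nat_lit 456) (nat_lit 208283774) (nat_lit 84) (nat_lit 5) (nat_lit 89) (nat_lit 5) (nat_lit 90) (nat_lit 5) (nat_lit 309) (nat_lit 250) (nat_lit 221)))) (XT.nd (nat_lit 156) (nat_lit 380) (nat_lit 0) (XT.nd (nat_lit 78) (nat_lit 304) (nat_lit 0) (XT.lf (nat_lit 0) (nat_lit 2658223549) (nat_lit 456) (nat_lit 2761113884) (nat_lit 76) (nat_lit 4522773824) (nat_lit 83)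 (nat_lit 5) (nat_lit 89) (nat_lit 5) (nat_lit 84) (nat_lit 5) (nat_lit 310) (nat_lit 250) (nat_lit 220)) (XT.lf (nat_lit 0) (nat_lit 3108767863) (nat_lit 304) (nat_lit 2471021097) (nat_lit 380) (nat_lit 4529682343) (nat_lit 79) (nat_lit 5) (nat_lit 83) (nat_lit 5) (nat_lit 84) (nat_lit 5) (nat_lit 311) (nat_lit 250) (nat_lit 219))) (XT.nd (nat_lit 78) (nat_lit 380) (nat_lit 0) (XT.lf (nat_lit 0) (nat_lit 8566651336) (nat_lit 380) (nat_lit 1154785887) (nat_lit 76) (nat_lit 561149012) (nat_lit 79) (nat_lit 5) (nat_lit 84) (nat_lit 5) (nat_lit 80) (nat_lit 5) (nat_lit 312) (nat_lit 250) (nat_lit 218)) (XT.lf (nat_lit 0) (nat_lit 1176126058) (nat_lit 380) (nat_lit 5612194864) (nat_lit 76) (nat_lit 3671783584) (nat_lit 74) (nat_lit 5) (nat_lit 79) (nat_lit 5) (nat_lit 75) (nat_lit 5) (nat_lit 313) (nat_lit 250) (nat_lit 217)))))) (XT.nd (nat_lit 546) (nat_lit 760) (nat_lit 0) (XT.nd (nat_lit 234)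 (nat_lit 532) (nat_lit 0) (XT.nd (nat_lit 78) (nat_lit 304) (nat_lit 0) (XT.lf (nat_lit 0) (nat_lit 323499655) (nat_lit 228) (nat_lit 3757790246) (nat_lit 304) (nat_lit 6562382039) (nat_lit 71) (nat_lit 5) (nat_lit 74) (nat_lit 5) (nat_lit 75) (nat_lit 5) (nat_lit 314) (nat_lit 250) (nat_lit 216)) (XT.nd (nat_lit 78) (nat_lit 304) (nat_lit 0) (XT.lf (nat_lit 0) (nat_lit 6475601388) (nat_lit 228) (nat_lit 601459975) (nat_lit 304) (nat_lit 3755637947) (nat_lit 71) (nat_lit 5) (nat_lit 74) (nat_lit 5) (nat_lit 75) (nat_lit 5) (nat_lit 315) (nat_lit 250) (nat_lit 215)) (XT.lf (nat_lit 0) (nat_lit 1717045604) (nat_lit 304) (nat_lit 8435746261) (nat_lit 380) (nat_lit 874957908) (nat_lit 67) (nat_lit 5) (nat_lit 71) (nat_lit 5) (nat_lit 72) (nat_lit 5) (nat_lit 316) (nat_lit 250) (nat_lit 214)))) (XT.nd (nat_lit 156) (nat_lit 228) (nat_lit 0) (XT.nd (nat_lit 78) (nat_lit 228) (nat_lit 0) (XT.lf (nat_lit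 0) (nat_lit 2050048637) (nat_lit 380) (nat_lit 3267299443) (nat_lit 76) (nat_lit 5910790100) (nat_lit 66) (nat_lit 5) (nat_lit 71) (nat_lit 5) (nat_lit 67) (nat_lit 5) (nat_lit 317) (nat_lit 250) (nat_lit 213)) (XT.lf (nat_lit 0) (nat_lit 2931981607) (nat_lit 228) (nat_lit 2091269094) (nat_lit 304) (nat_lit 6411736912) (nat_lit 63) (nat_lit 5) (nat_lit 66) (nat_lit 5) (nat_lit 67) (nat_lit 5) (nat_lit 318) (nat_lit 250) (nat_lit 212))) (XT.nd (nat_lit 78) (nat_lit 228) (nat_lit 0) (XT.lf (nat_lit 0) (nat_lit 8081182060) (nat_lit 304) (nat_lit 2349553133) (nat_lit 76) (nat_lit 1217490070) (nat_lit 63) (nat_lit 5) (nat_lit 67) (nat_lit 5) (nat_lit 64) (nat_lit 5) (nat_lit 319) (nat_lit 250) (nat_lit 211)) (XT.lf (nat_lit 0) (nat_lit 3972943108) (nat_lit 228) (nat_lit 7268624081) (nat_lit 304) (nat_lit 626018693) (nat_lit 60) (nat_lit 5) (nat_lit 63) (nat_lit 5) (nat_lit 64) (nat_lit 5) (nat_lit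 320) (nat_lit 250) (nat_lit 210))))) (XT.nd (nat_lit 234) (nat_lit 456) (nat_lit 0) (XT.nd (nat_lit 78) (nat_lit 228) (nat_lit 0) (XT.lf (nat_lit 0) (nat_lit 2332320736) (nat_lit 304) (nat_lit 1655544963) (nat_lit 76) (nat_lit 8105733776) (nat_lit 59) (nat_lit 5) (nat_lit 63) (nat_lit 5) (nat_lit 60) (nat_lit 5) (nat_lit 321) (nat_lit 250) (nat_lit 209)) (XT.nd (nat_lit 78) (nat_lit 0) (nat_lit 0) (XT.lf (nat_lit 0) (nat_lit 4787392572) (nat_lit 228) (nat_lit 578871459) (nat_lit 304) (nat_lit 6960003715) (nat_lit 56) (nat_lit 5) (nat_lit 59) (nat_lit 5) (nat_lit 60) (nat_lit 5) (nat_lit 322) (nat_lit 250) (nat_lit 208)) (XT.lf (nat_lit 0) (nat_lit 8490168425) (nat_lit 304) (nat_lit 1207263909) (nat_lit 76) (nat_lit 2868557485) (nat_lit 56) (nat_lit 5) (nat_lit 60) (nat_lit 5) (nat_lit 57) (nat_lit 5) (nat_lit 323) (nat_lit 250) (nat_lit 207)))) (XT.nd (nat_lit 156) (nat_lit 152) (nat_lit 0)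 (XT.nd (nat_lit 78) (nat_lit 76) (nat_lit 0) (XT.lf (nat_lit 0) (nat_lit 5343860526) (nat_lit 228) (nat_lit 6376244393) (nat_lit 304) (nat_lit 1092469998) (nat_lit 53) (nat_lit 5) (nat_lit 56) (nat_lit 5) (nat_lit 57) (nat_lit 5) (nat_lit 324) (nat_lit 250) (nat_lit 206)) (XT.lf (nat_lit 0) (nat_lit 1909436338) (nat_lit 304) (nat_lit 1038314558) (nat_lit 76) (nat_lit 10119243078) (nat_lit 52) (nat_lit 5) (nat_lit 56) (nat_lit 5) (nat_lit 53) (nat_lit 5) (nat_lit 325) (nat_lit 250) (nat_lit 205))) (XT.nd (nat_lit 78) (nat_lit 0) (nat_lit 0) (XT.lf (nat_lit 0) (nat_lit 4996140428) (nat_lit 228) (nat_lit 7717895144) (nat_lit 76) (nat_lit 614221942) (nat_lit 50) (nat_lit 5) (nat_lit 53) (nat_lit 5) (nat_lit 51) (nat_lit 5) (nat_lit 326) (nat_lit 250) (nat_lit 204)) (XT.lf (nat_lit 0) (nat_lit 8172298909) (nat_lit 228) (nat_lit 1214193811) (nat_lit 76) (nat_lit 4210996903) (nat_lit 50) (nat_lit 5)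 (nat_lit 53) (nat_lit 5) (nat_lit 51) (nat_lit 5) (nat_lit 327) (nat_lit 250) (nat_lit 203))))))))
noncomputable def xc80 : XT := (XT.nd (nat_lit 2028) (nat_lit 836) (nat_lit 0) (XT.nd (nat_lit 1014) (nat_lit 836) (nat_lit 0) (XT.nd (nat_lit 468) (nat_lit 608) (nat_lit 0) (XT.nd (nat_lit 234) (nat_lit 228) (nat_lit 0) (XT.nd (nat_lit 78) (nat_lit 228) (nat_lit 0) (XT.lf (nat_lit 0) (nat_lit 5526792427) (nat_lit 228) (nat_lit 5928405621) (nat_lit 304) (nat_lit 2419292174) (nat_lit 47) (nat_lit 5) (nat_lit 50) (nat_lit 5) (nat_lit 51) (nat_lit 5) (nat_lit 328) (nat_lit 250) (nat_lit 202)) (XT.nd (nat_lit 78) (nat_lit 152) (nat_lit 0) (XT.lf (nat_lit 0) (nat_lit 634436550) (nat_lit 304) (nat_lit 1737051494) (nat_lit 76) (nat_lit 11789025020) (nat_lit 46) (nat_lit 5) (nat_lit 50) (nat_lit 5) (nat_lit 47) (nat_lit 5) (nat_lit 329) (nat_lit 250) (nat_lit 201)) (XT.lf (nat_lit 0) (nat_lit 3752615501)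 (nat_lit 228) (nat_lit 9383906448) (nat_lit 76) (nat_lit 1317264345) (nat_lit 44) (nat_lit 5) (nat_lit 47) (nat_lit 5) (nat_lit 45) (nat_lit 5) (nat_lit 330) (nat_lit 250) (nat_lit 200)))) (XT.nd (nat_lit 78) (nat_lit 228) (nat_lit 0) (XT.lf (nat_lit 0) (nat_lit 6965559588) (nat_lit 228) (nat_lit 2726698372) (nat_lit 76) (nat_lit 5063594448) (nat_lit 44) (nat_lit 5) (nat_lit 47) (nat_lit 5) (nat_lit 45) (nat_lit 5) (nat_lit 331) (nat_lit 250) (nat_lit 199)) (XT.nd (nat_lit 78) (nat_lit 0) (nat_lit 0) (XT.lf (nat_lit 0) (nat_lit 4148716222) (nat_lit 228) (nat_lit 6127245290) (nat_lit 304) (nat_lit 4791017276) (nat_lit 41) (nat_lit 5) (nat_lit 44) (nat_lit 5) (nat_lit 45) (nat_lit 5) (nat_lit 332) (nat_lit 250) (nat_lit 198)) (XT.lf (nat_lit 0) (nat_lit 11224434191) (nat_lit 228) (nat_lit 2450500953) (nat_lit 304) (nat_lit 1712855509) (nat_lit 41) (nat_lit 5) (nat_lit 44) (nat_lit 5) (nat_lit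 45) (nat_lit 5) (nat_lit 333) (nat_lit 250) (nat_lit 197))))) (XT.nd (nat_lit 234) (nat_lit 228) (nat_lit 0) (XT.nd (nat_lit 78) (nat_lit 152) (nat_lit 0) (XT.lf (nat_lit 0) (nat_lit 1431338298) (nat_lit 228) (nat_lit 12957709700) (nat_lit 76) (nat_lit 1328722378) (nat_lit 38) (nat_lit 5) (nat_lit 41) (nat_lit 5) (nat_lit 39) (nat_lit 5) (nat_lit 334) (nat_lit 250) (nat_lit 196)) (XT.nd (nat_lit 78) (nat_lit 152) (nat_lit 0) (XT.lf (nat_lit 0) (nat_lit 4664887716) (nat_lit 228) (nat_lit 6182647103) (nat_lit 76) (nat_lit 5208749188) (nat_lit 38) (nat_lit 5) (nat_lit 41) (nat_lit 5) (nat_lit 39) (nat_lit 5) (nat_lit 335) (nat_lit 250) (nat_lit 195)) (XT.lf (nat_lit 0) (nat_lit 750955869) (nat_lit 152) (nat_lit 7215527870) (nat_lit 228) (nat_lit 8439364302) (nat_lit 36) (nat_lit 5) (nat_lit 38) (nat_lit 5) (nat_lit 39) (nat_lit 5) (nat_lit 336) (nat_lit 250) (nat_lit 194)))) (XT.nd (nat_lit 156)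 (nat_lit 228) (nat_lit 0) (XT.nd (nat_lit 78) (nat_lit 0) (nat_lit 0) (XT.lf (nat_lit 0) (nat_lit 7960521793) (nat_lit 152) (nat_lit 3433348618) (nat_lit 228) (nat_lit 5371251734) (nat_lit 36) (nat_lit 5) (nat_lit 38) (nat_lit 5) (nat_lit 39) (nat_lit 5) (nat_lit 337) (nat_lit 250) (nat_lit 193)) (XT.lf (nat_lit 0) (nat_lit 14893656698) (nat_lit 228) (nat_lit 1811163534) (nat_lit 76) (nat_lit 431291590) (nat_lit 36) (nat_lit 5) (nat_lit 39) (nat_lit 5) (nat_lit 37) (nat_lit 4) (nat_lit 338) (nat_lit 250) (nat_lit 192))) (XT.nd (nat_lit 78) (nat_lit 0) (nat_lit 0) (XT.lf (nat_lit 0) (nat_lit 1013692724) (nat_lit 228) (nat_lit 12119262519) (nat_lit 76) (nat_lit 4383438114) (nat_lit 33) (nat_lit 5) (nat_lit 36) (nat_lit 5) (nat_lit 34) (nat_lit 5) (nat_lit 339) (nat_lit 250) (nat_lit 191)) (XT.lf (nat_lit 0) (nat_lit 4307170993) (nat_lit 228) (nat_lit 5127493095) (nat_lit 76) (nat_lit 8473234256)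 (nat_lit 33) (nat_lit 5) (nat_lit 36) (nat_lit 5) (nat_lit 34) (nat_lit 5) (nat_lit 340) (nat_lit 250) (nat_lit 190)))))) (XT.nd (nat_lit 468) (nat_lit 304) (nat_lit 0) (XT.nd (nat_lit 234) (nat_lit 380) (nat_lit 0) (XT.nd (nat_lit 78) (nat_lit 0) (nat_lit 0) (XT.lf (nat_lit 0) (nat_lit 2059483422) (nat_lit 152) (nat_lit 5626997134) (nat_lit 228) (nat_lit 10625079055) (nat_lit 31) (nat_lit 5) (nat_lit 33) (nat_lit 5) (nat_lit 34) (nat_lit 5) (nat_lit 341) (nat_lit 250) (nat_lit 189)) (XT.nd (nat_lit 78) (nat_lit 0) (nat_lit 0) (XT.lf (nat_lit 0) (nat_lit 9512980495) (nat_lit 152) (nat_lit 1673629960) (nat_lit 228) (nat_lit 7540158329) (nat_lit 31) (nat_lit 5) (nat_lit 33) (nat_lit 5) (nat_lit 34) (nat_lit 5) (nat_lit 342) (nat_lit 250) (nat_lit 188)) (XT.lf (nat_lit 0) (nat_lit 14783199792) (nat_lit 228) (nat_lit 2040783310) (nat_lit 76) (nat_lit 2330728145) (nat_lit 31) (nat_lit 5) (nat_lit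 34) (nat_lit 5) (nat_lit 32) (nat_lit 4) (nat_lit 343) (nat_lit 250) (nat_lit 187)))) (XT.nd (nat_lit 78) (nat_lit 228) (nat_lit 0) (XT.lf (nat_lit 0) (nat_lit 5384081463) (nat_lit 152) (nat_lit 13141252622) (nat_lit 228) (nat_lit 1069048556) (nat_lit 29) (nat_lit 5) (nat_lit 31) (nat_lit 5) (nat_lit 32) (nat_lit 4) (nat_lit 344) (nat_lit 250) (nat_lit 186)) (XT.nd (nat_lit 78) (nat_lit 152) (nat_lit 0) (XT.lf (nat_lit 0) (nat_lit 2277187912) (nat_lit 228) (nat_lit 7047667431) (nat_lit 76) (nat_lit 10722028672) (nat_lit 28) (nat_lit 5) (nat_lit 31) (nat_lit 5) (nat_lit 29) (nat_lit 5) (nat_lit 345) (nat_lit 250) (nat_lit 185)) (XT.lf (nat_lit 0) (nat_lit 274181456) (nat_lit 152) (nat_lit 5401072958) (nat_lit 228) (nat_lit 14838218957) (nat_lit 26) (nat_lit 5) (nat_lit 28) (nat_lit 5) (nat_lit 29) (nat_lit 5) (nat_lit 346) (nat_lit 250) (nat_lit 184))))) (XT.nd (nat_lit 234) (nat_lit 228) (nat_lit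 0) (XT.nd (nat_lit 78) (nat_lit 76) (nat_lit 0) (XT.lf (nat_lit 0) (nat_lit 7910220990) (nat_lit 152) (nat_lit 1306888913) (nat_lit 228) (nat_lit 11775712934) (nat_lit 26) (nat_lit 5) (nat_lit 28) (nat_lit 5) (nat_lit 29) (nat_lit 5) (nat_lit 347) (nat_lit 250) (nat_lit 183)) (XT.nd (nat_lit 78) (nat_lit 76) (nat_lit 0) (XT.lf (nat_lit 0) (nat_lit 12864535898) (nat_lit 228) (nat_lit 5788344541) (nat_lit 76) (nat_lit 2833710221) (nat_lit 26) (nat_lit 5) (nat_lit 29) (nat_lit 5) (nat_lit 27) (nat_lit 4) (nat_lit 348) (nat_lit 250) (nat_lit 182)) (XT.lf (nat_lit 0) (nat_lit 1697191540) (nat_lit 76) (nat_lit 14925622779) (nat_lit 152) (nat_lit 5372331124) (nat_lit 25) (nat_lit 5) (nat_lit 26) (nat_lit 5) (nat_lit 27) (nat_lit 4) (nat_lit 349) (nat_lit 250) (nat_lit 181)))) (XT.nd (nat_lit 156) (nat_lit 152) (nat_lit 0) (XT.nd (nat_lit 78) (nat_lit 76) (nat_lit 0) (XT.lf (nat_lit 0) (nat_lit 9478689241)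 (nat_lit 76) (nat_lit 11046134618) (nat_lit 152) (nat_lit 1993219851) (nat_lit 25) (nat_lit 5) (nat_lit 26) (nat_lit 5) (nat_lit 27) (nat_lit 4) (nat_lit 350) (nat_lit 250) (nat_lit 180)) (XT.lf (nat_lit 0) (nat_lit 1431295164) (nat_lit 152) (nat_lit 5623728602) (nat_lit 76) (nat_lit 16002000084) (nat_lit 24) (nat_lit 5) (nat_lit 26) (nat_lit 5) (nat_lit 25) (nat_lit 5) (nat_lit 351) (nat_lit 250) (nat_lit 179))) (XT.nd (nat_lit 78) (nat_lit 0) (nat_lit 0) (XT.lf (nat_lit 0) (nat_lit 1988348459) (nat_lit 152) (nat_lit 2923085831) (nat_lit 228) (nat_lit 18700373485) (nat_lit 22) (nat_lit 5) (nat_lit 24) (nat_lit 5) (nat_lit 25) (nat_lit 5) (nat_lit 352) (nat_lit 250) (nat_lit 178)) (XT.lf (nat_lit 0) (nat_lit 8540129546) (nat_lit 228) (nat_lit 14296086024) (nat_lit 76) (nat_lit 1345709592) (nat_lit 22) (nat_lit 5) (nat_lit 25) (nat_lit 5) (nat_lit 23) (nat_lit 4) (nat_lit 353) (nat_lit 250) (nat_lit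 177))))))) (XT.nd (nat_lit 1014) (nat_lit 228) (nat_lit 0) (XT.nd (nat_lit 468) (nat_lit 304) (nat_lit 0) (XT.nd (nat_lit 234) (nat_lit 228) (nat_lit 0) (XT.nd (nat_lit 78) (nat_lit 76) (nat_lit 0) (XT.lf (nat_lit 0) (nat_lit 12281373973) (nat_lit 228) (nat_lit 6821764207) (nat_lit 76) (nat_lit 5665911324) (nat_lit 22) (nat_lit 5) (nat_lit 25) (nat_lit 5) (nat_lit 23) (nat_lit 4) (nat_lit 354) (nat_lit 250) (nat_lit 176)) (XT.nd (nat_lit 78) (nat_lit 0) (nat_lit 0) (XT.lf (nat_lit 0) (nat_lit 850736515) (nat_lit 76) (nat_lit 15267779413) (nat_lit 152) (nat_lit 9255775514) (nat_lit 21) (nat_lit 5) (nat_lit 22) (nat_lit 5) (nat_lit 23) (nat_lit 4) (nat_lit 355) (nat_lit 250) (nat_lit 175)) (XT.lf (nat_lit 0) (nat_lit 8851018212) (nat_lit 76) (nat_lit 11264430900) (nat_lit 152) (nat_lit 5880914491) (nat_lit 21) (nat_lit 5) (nat_lit 22) (nat_lit 5) (nat_lit 23) (nat_lit 4) (nat_lit 356) (nat_lit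 250) (nat_lit 174)))) (XT.nd (nat_lit 78) (nat_lit 228) (nat_lit 0) (XT.lf (nat_lit 0) (nat_lit 17050304934) (nat_lit 76) (nat_lit 7158481014) (nat_lit 152) (nat_lit 2429029997) (nat_lit 21) (nat_lit 5) (nat_lit 22) (nat_lit 5) (nat_lit 23) (nat_lit 4) (nat_lit 357) (nat_lit 250) (nat_lit 173)) (XT.nd (nat_lit 78) (nat_lit 152) (nat_lit 0) (XT.lf (nat_lit 0) (nat_lit 1081372739) (nat_lit 152) (nat_lit 1854049546) (nat_lit 76) (nat_lit 24363468624) (nat_lit 20) (nat_lit 5) (nat_lit 22) (nat_lit 5) (nat_lit 21) (nat_lit 5) (nat_lit 358) (nat_lit 250) (nat_lit 172)) (XT.lf (nat_lit 0) (nat_lit 4699436624) (nat_lit 228) (nat_lit 21823609800) (nat_lit 76) (nat_lit 1454506895) (nat_lit 18) (nat_lit 5) (nat_lit 21) (nat_lit 5) (nat_lit 19) (nat_lit 4) (nat_lit 359) (nat_lit 250) (nat_lit 171))))) (XT.nd (nat_lit 234) (nat_lit 228) (nat_lit 0) (XT.nd (nat_lit 78) (nat_lit 76) (nat_lit 0) (XT.lf (nat_lit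 0) (nat_lit 8451747343) (nat_lit 228) (nat_lit 14304318811) (nat_lit 76) (nat_lit 5919749748) (nat_lit 18) (nat_lit 5) (nat_lit 21) (nat_lit 5) (nat_lit 19) (nat_lit 4) (nat_lit 360) (nat_lit 250) (nat_lit 170)) (XT.nd (nat_lit 78) (nat_lit 76) (nat_lit 0) (XT.lf (nat_lit 0) (nat_lit 12295009615) (nat_lit 228) (nat_lit 6597544721) (nat_lit 76) (nat_lit 10503131676) (nat_lit 18) (nat_lit 5) (nat_lit 21) (nat_lit 5) (nat_lit 19) (nat_lit 4) (nat_lit 361) (nat_lit 250) (nat_lit 169)) (XT.lf (nat_lit 0) (nat_lit 1329387685) (nat_lit 76) (nat_lit 14915972831) (nat_lit 152) (nat_lit 13892048777) (nat_lit 17) (nat_lit 5) (nat_lit 18) (nat_lit 5) (nat_lit 19) (nat_lit 4) (nat_lit 362) (nat_lit 250) (nat_lit 168)))) (XT.nd (nat_lit 156) (nat_lit 228) (nat_lit 0) (XT.nd (nat_lit 78) (nat_lit 0) (nat_lit 0) (XT.lf (nat_lit 0) (nat_lit 9592747824) (nat_lit 76) (nat_lit 10767367518) (nat_lit 152) (nat_lit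 10539902608) (nat_lit 17) (nat_lit 5) (nat_lit 18) (nat_lit 5) (nat_lit 19) (nat_lit 4) (nat_lit 363) (nat_lit 250) (nat_lit 167)) (XT.lf (nat_lit 0) (nat_lit 18068452029) (nat_lit 76) (nat_lit 6509735669) (nat_lit 152) (nat_lit 7107931094) (nat_lit 17) (nat_lit 5) (nat_lit 18) (nat_lit 5) (nat_lit 19) (nat_lit 4) (nat_lit 364) (nat_lit 250) (nat_lit 166))) (XT.nd (nat_lit 78) (nat_lit 228) (nat_lit 0) (XT.lf (nat_lit 0) (nat_lit 26763906257) (nat_lit 76) (nat_lit 2139357023) (nat_lit 152) (nat_lit 3593135427) (nat_lit 17) (nat_lit 5) (nat_lit 18) (nat_lit 5) (nat_lit 19) (nat_lit 4) (nat_lit 365) (nat_lit 250) (nat_lit 165)) (XT.lf (nat_lit 0) (nat_lit 53292829) (nat_lit 228) (nat_lit 30951725964) (nat_lit 76) (nat_lit 2325168189) (nat_lit 14) (nat_lit 5) (nat_lit 17) (nat_lit 5) (nat_lit 15) (nat_lit 4) (nat_lit 366) (nat_lit 250) (nat_lit 164)))))) (XT.nd (nat_lit 468) (nat_lit 152) (nat_lit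 0) (XT.nd (nat_lit 234) (nat_lit 76) (nat_lit 0) (XT.nd (nat_lit 78) (nat_lit 0) (nat_lit 0) (XT.lf (nat_lit 0) (nat_lit 3797464998) (nat_lit 228) (nat_lit 23428339444) (nat_lit 76) (nat_lit 6960309149) (nat_lit 14) (nat_lit 5) (nat_lit 17) (nat_lit 5) (nat_lit 15) (nat_lit 4) (nat_lit 367) (nat_lit 250) (nat_lit 163)) (XT.nd (nat_lit 78) (nat_lit 0) (nat_lit 0) (XT.lf (nat_lit 0) (nat_lit 7635445541) (nat_lit 228) (nat_lit 15712270963) (nat_lit 76) (nat_lit 11720565772) (nat_lit 14) (nat_lit 5) (nat_lit 17) (nat_lit 5) (nat_lit 15) (nat_lit 4) (nat_lit 368) (nat_lit 250) (nat_lit 162)) (XT.lf (nat_lit 0) (nat_lit 11570588035) (nat_lit 228) (nat_lit 7796778326) (nat_lit 76) (nat_lit 16610097506) (nat_lit 14) (nat_lit 5) (nat_lit 17) (nat_lit 5) (nat_lit 15) (nat_lit 4) (nat_lit 369) (nat_lit 250) (nat_lit 161)))) (XT.nd (nat_lit 78) (nat_lit 0) (nat_lit 0) (XT.lf (nat_lit 0) (nat_lit 331524147)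 (nat_lit 76) (nat_lit 15277993617) (nat_lit 152) (nat_lit 21304839422) (nat_lit 13) (nat_lit 5) (nat_lit 14) (nat_lit 5) (nat_lit 15) (nat_lit 4) (nat_lit 370) (nat_lit 250) (nat_lit 160)) (XT.nd (nat_lit 78) (nat_lit 0) (nat_lit 0) (XT.lf (nat_lit 0) (nat_lit 8832682974) (nat_lit 76) (nat_lit 10998422847) (nat_lit 152) (nat_lit 18046414802) (nat_lit 13) (nat_lit 5) (nat_lit 14) (nat_lit 5) (nat_lit 15) (nat_lit 4) (nat_lit 371) (nat_lit 250) (nat_lit 159)) (XT.lf (nat_lit 0) (nat_lit 17558955173) (nat_lit 76) (nat_lit 6603646795) (nat_lit 152) (nat_lit 14707486978) (nat_lit 13) (nat_lit 5) (nat_lit 14) (nat_lit 5) (nat_lit 15) (nat_lit 4) (nat_lit 372) (nat_lit 250) (nat_lit 158))))) (XT.nd (nat_lit 234) (nat_lit 76) (nat_lit 0) (XT.nd (nat_lit 78) (nat_lit 76) (nat_lit 0) (XT.lf (nat_lit 0) (nat_lit 26517965644) (nat_lit 76) (nat_lit 2089825366) (nat_lit 152) (nat_lit 11285138441) (nat_lit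 13) (nat_lit 5) (nat_lit 14) (nat_lit 5) (nat_lit 15) (nat_lit 4) (nat_lit 373) (nat_lit 250) (nat_lit 157)) (XT.nd (nat_lit 78) (nat_lit 76) (nat_lit 0) (XT.lf (nat_lit 0) (nat_lit 33195040272) (nat_lit 152) (nat_lit 5253876413) (nat_lit 0) (nat_lit 2497284695) (nat_lit 13) (nat_lit 5) (nat_lit 15) (nat_lit 4) (nat_lit 13) (nat_lit 4) (nat_lit 374) (nat_lit 250) (nat_lit 156)) (XT.lf (nat_lit 0) (nat_lit 3123367348) (nat_lit 76) (nat_lit 34831819701) (nat_lit 76) (nat_lit 4074833153) (nat_lit 12) (nat_lit 4) (nat_lit 13) (nat_lit 5) (nat_lit 13) (nat_lit 4) (nat_lit 375) (nat_lit 250) (nat_lit 155)))) (XT.nd (nat_lit 156) (nat_lit 0) (nat_lit 0) (XT.nd (nat_lit 78) (nat_lit 76) (nat_lit 0) (XT.lf (nat_lit 0) (nat_lit 11832166572) (nat_lit 76) (nat_lit 31063776079) (nat_lit 76) (nat_lit 249283733) (nat_lit 12) (nat_lit 4) (nat_lit 13) (nat_lit 5) (nat_lit 13) (nat_lit 4) (nat_lit 376) (nat_lit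 250) (nat_lit 154)) (XT.lf (nat_lit 0) (nat_lit 3604048384) (nat_lit 152) (nat_lit 23554104997) (nat_lit 76) (nat_lit 17135126239) (nat_lit 11) (nat_lit 5) (nat_lit 13) (nat_lit 5) (nat_lit 12) (nat_lit 4) (nat_lit 377) (nat_lit 250) (nat_lit 153))) (XT.nd (nat_lit 78) (nat_lit 0) (nat_lit 0) (XT.lf (nat_lit 0) (nat_lit 7553447339) (nat_lit 152) (nat_lit 15591029848) (nat_lit 76) (nat_lit 22331665245) (nat_lit 11) (nat_lit 5) (nat_lit 13) (nat_lit 5) (nat_lit 12) (nat_lit 4) (nat_lit 378) (nat_lit 250) (nat_lit 152)) (XT.lf (nat_lit 0) (nat_lit 11607228486) (nat_lit 152) (nat_lit 7414480071) (nat_lit 76) (nat_lit 27673211719) (nat_lit 11) (nat_lit 5) (nat_lit 13) (nat_lit 5) (nat_lit 12) (nat_lit 4) (nat_lit 379) (nat_lit 250) (nat_lit 151))))))))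
noncomputable def xc81 : XT := (XT.nd (nat_lit 2028) (nat_lit 0) (nat_lit 0) (XT.nd (nat_lit 1014) (nat_lit 152) (nat_lit 0) (XT.nd (nat_lit 468) (nat_lit 152) (nat_lit 0) (XT.nd (nat_lit 234) (nat_lit 0) (nat_lit 0) (XT.nd (nat_lit 78) (nat_lit 0) (nat_lit 0) (XT.lf (nat_lit 0) (nat_lit 1002246328) (nat_lit 76) (nat_lit 14776321840) (nat_lit 152) (nat_lit 32171820908) (nat_lit 10) (nat_lit 5) (nat_lit 11) (nat_lit 5) (nat_lit 12) (nat_lit 4) (nat_lit 380) (nat_lit 250) (nat_lit 150)) (XT.nd (nat_lit 78) (nat_lit 0) (nat_lit 0) (XT.lf (nat_lit 0) (nat_lit 9799028720) (nat_lit 76) (nat_lit 10337365752) (nat_lit 152) (nat_lit 29105292878) (nat_lit 10) (nat_lit 5) (nat_lit 11) (nat_lit 5) (nat_lit 12) (nat_lit 4) (nat_lit 381) (nat_lit 250) (nat_lit 149)) (XT.lf (nat_lit 0) (nat_lit 18835990921) (nat_lit 76) (nat_lit 5775833305) (nat_lit 152) (nat_lit 25960299918) (nat_lit 10) (nat_lit 5) (nat_lit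 11) (nat_lit 5) (nat_lit 12) (nat_lit 4) (nat_lit 382) (nat_lit 250) (nat_lit 148)))) (XT.nd (nat_lit 78) (nat_lit 0) (nat_lit 0) (XT.lf (nat_lit 0) (nat_lit 28121029307) (nat_lit 76) (nat_lit 1087738694) (nat_lit 152) (nat_lit 22734093978) (nat_lit 10) (nat_lit 5) (nat_lit 11) (nat_lit 5) (nat_lit 12) (nat_lit 4) (nat_lit 383) (nat_lit 250) (nat_lit 147)) (XT.nd (nat_lit 78) (nat_lit 0) (nat_lit 0) (XT.lf (nat_lit 0) (nat_lit 33967107335) (nat_lit 152) (nat_lit 15728706360) (nat_lit 0) (nat_lit 3658208943) (nat_lit 10) (nat_lit 5) (nat_lit 12) (nat_lit 4) (nat_lit 10) (nat_lit 4) (nat_lit 384) (nat_lit 250) (nat_lit 146)) (XT.lf (nat_lit 0) (nat_lit 38866856324) (nat_lit 152) (nat_lit 7425538946) (nat_lit 0) (nat_lit 8515168218) (nat_lit 10) (nat_lit 5) (nat_lit 12) (nat_lit 4) (nat_lit 10) (nat_lit 4) (nat_lit 385) (nat_lit 250) (nat_lit 145))))) (XT.nd (nat_lit 234) (nat_lit 76) (nat_lit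 0) (XT.nd (nat_lit 78) (nat_lit 0) (nat_lit 0) (XT.lf (nat_lit 0) (nat_lit 1127380017) (nat_lit 76) (nat_lit 42785297341) (nat_lit 76) (nat_lit 12392065823) (nat_lit 9) (nat_lit 4) (nat_lit 10) (nat_lit 5) (nat_lit 10) (nat_lit 4) (nat_lit 386) (nat_lit 250) (nat_lit 144)) (XT.nd (nat_lit 78) (nat_lit 0) (nat_lit 0) (XT.lf (nat_lit 0) (nat_lit 10067969345) (nat_lit 76) (nat_lit 39105268875) (nat_lit 76) (nat_lit 8671703947) (nat_lit 9) (nat_lit 4) (nat_lit 10) (nat_lit 5) (nat_lit 10) (nat_lit 4) (nat_lit 387) (nat_lit 250) (nat_lit 143)) (XT.lf (nat_lit 0) (nat_lit 19256258417) (nat_lit 76) (nat_lit 35324077697) (nat_lit 76) (nat_lit 4851354120) (nat_lit 9) (nat_lit 4) (nat_lit 10) (nat_lit 5) (nat_lit 10) (nat_lit 4) (nat_lit 388) (nat_lit 250) (nat_lit 142)))) (XT.nd (nat_lit 156) (nat_lit 0) (nat_lit 0) (XT.nd (nat_lit 78) (nat_lit 76) (nat_lit 0) (XT.lf (nat_lit 0) (nat_lit 28700275835)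 (nat_lit 76) (nat_lit 31438419855) (nat_lit 76) (nat_lit 927678170) (nat_lit 9) (nat_lit 4) (nat_lit 10) (nat_lit 5) (nat_lit 10) (nat_lit 4) (nat_lit 389) (nat_lit 250) (nat_lit 141)) (XT.lf (nat_lit 0) (nat_lit 3042206480) (nat_lit 152) (nat_lit 24371973311) (nat_lit 76) (nat_lit 35335346852) (nat_lit 8) (nat_lit 5) (nat_lit 10) (nat_lit 5) (nat_lit 9) (nat_lit 4) (nat_lit 390) (nat_lit 250) (nat_lit 140))) (XT.nd (nat_lit 78) (nat_lit 0) (nat_lit 0) (XT.lf (nat_lit 0) (nat_lit 7102113213) (nat_lit 152) (nat_lit 16166198355) (nat_lit 76) (nat_lit 41214903957) (nat_lit 8) (nat_lit 5) (nat_lit 10) (nat_lit 5) (nat_lit 9) (nat_lit 4) (nat_lit 391) (nat_lit 250) (nat_lit 139)) (XT.lf (nat_lit 0) (nat_lit 11273691861) (nat_lit 152) (nat_lit 7732685653) (nat_lit 76) (nat_lit 47262845386) (nat_lit 8) (nat_lit 5) (nat_lit 10) (nat_lit 5) (nat_lit 9) (nat_lit 4) (nat_lit 392) (nat_lit 250) (nat_lit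 138)))))) (XT.nd (nat_lit 468) (nat_lit 76) (nat_lit 0) (XT.nd (nat_lit 234) (nat_lit 0) (nat_lit 0) (XT.nd (nat_lit 78) (nat_lit 0) (nat_lit 0) (XT.lf (nat_lit 0) (nat_lit 954560803) (nat_lit 76) (nat_lit 14615202512) (nat_lit 152) (nat_lit 52539070768) (nat_lit 7) (nat_lit 5) (nat_lit 8) (nat_lit 5) (nat_lit 9) (nat_lit 4) (nat_lit 393) (nat_lit 250) (nat_lit 137)) (XT.nd (nat_lit 78) (nat_lit 0) (nat_lit 0) (XT.lf (nat_lit 0) (nat_lit 10043214059) (nat_lit 76) (nat_lit 10019873398) (nat_lit 152) (nat_lit 49938498865) (nat_lit 7) (nat_lit 5) (nat_lit 8) (nat_lit 5) (nat_lit 9) (nat_lit 4) (nat_lit 394) (nat_lit 250) (nat_lit 136)) (XT.lf (nat_lit 0) (nat_lit 19387320047) (nat_lit 76) (nat_lit 5294459801) (nat_lit 152) (nat_lit 47269627947) (nat_lit 7) (nat_lit 5) (nat_lit 8) (nat_lit 5) (nat_lit 9) (nat_lit 4) (nat_lit 395) (nat_lit 250) (nat_lit 135)))) (XT.nd (nat_lit 78) (nat_lit 0) (nat_lit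 0) (XT.lf (nat_lit 0) (nat_lit 28995043522) (nat_lit 76) (nat_lit 434832718) (nat_lit 152) (nat_lit 44530125991) (nat_lit 7) (nat_lit 5) (nat_lit 8) (nat_lit 5) (nat_lit 9) (nat_lit 4) (nat_lit 396) (nat_lit 250) (nat_lit 134)) (XT.nd (nat_lit 78) (nat_lit 0) (nat_lit 0) (XT.lf (nat_lit 0) (nat_lit 34355390245) (nat_lit 152) (nat_lit 37198209921) (nat_lit 0) (nat_lit 4474208603) (nat_lit 7) (nat_lit 5) (nat_lit 9) (nat_lit 4) (nat_lit 7) (nat_lit 4) (nat_lit 397) (nat_lit 250) (nat_lit 133)) (XT.lf (nat_lit 0) (nat_lit 39424275408) (nat_lit 152) (nat_lit 29218704604) (nat_lit 0) (nat_lit 9514804725) (nat_lit 7) (nat_lit 5) (nat_lit 9) (nat_lit 4) (nat_lit 7) (nat_lit 4) (nat_lit 398) (nat_lit 250) (nat_lit 132))))) (XT.nd (nat_lit 234) (nat_lit 76) (nat_lit 0) (XT.nd (nat_lit 78) (nat_lit 0) (nat_lit 0) (XT.lf (nat_lit 0) (nat_lit 44636780977) (nat_lit 152) (nat_lit 21015290497) (nat_lit 0)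 (nat_lit 14699845204) (nat_lit 7) (nat_lit 5) (nat_lit 9) (nat_lit 4) (nat_lit 7) (nat_lit 4) (nat_lit 399) (nat_lit 250) (nat_lit 131)) (XT.nd (nat_lit 78) (nat_lit 0) (nat_lit 0) (XT.lf (nat_lit 0) (nat_lit 49997461567) (nat_lit 152) (nat_lit 12580799569) (nat_lit 0) (nat_lit 20033860659) (nat_lit 7) (nat_lit 5) (nat_lit 9) (nat_lit 4) (nat_lit 7) (nat_lit 4) (nat_lit 400) (nat_lit 250) (nat_lit 130)) (XT.lf (nat_lit 0) (nat_lit 55511001267) (nat_lit 152) (nat_lit 3907861876) (nat_lit 0) (nat_lit 25521511879) (nat_lit 7) (nat_lit 5) (nat_lit 9) (nat_lit 4) (nat_lit 7) (nat_lit 4) (nat_lit 401) (nat_lit 250) (nat_lit 129)))) (XT.nd (nat_lit 156) (nat_lit 0) (nat_lit 0) (XT.nd (nat_lit 78) (nat_lit 0) (nat_lit 0) (XT.lf (nat_lit 0) (nat_lit 5110831610) (nat_lit 76) (nat_lit 56120514564) (nat_lit 76) (nat_lit 26105890729) (nat_lit 6) (nat_lit 4) (nat_lit 7) (nat_lit 5) (nat_lit 7) (nat_lit 4)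 (nat_lit 402) (nat_lit 250) (nat_lit 128)) (XT.lf (nat_lit 0) (nat_lit 14466169022) (nat_lit 76) (nat_lit 52688955045) (nat_lit 76) (nat_lit 22649928834) (nat_lit 6) (nat_lit 4) (nat_lit 7) (nat_lit 5) (nat_lit 7) (nat_lit 4) (nat_lit 403) (nat_lit 250) (nat_lit 127))) (XT.nd (nat_lit 78) (nat_lit 0) (nat_lit 0) (XT.lf (nat_lit 0) (nat_lit 24088550812) (nat_lit 76) (nat_lit 49160647879) (nat_lit 76) (nat_lit 19097930040) (nat_lit 6) (nat_lit 4) (nat_lit 7) (nat_lit 5) (nat_lit 7) (nat_lit 4) (nat_lit 404) (nat_lit 250) (nat_lit 126)) (XT.lf (nat_lit 0) (nat_lit 33986384886) (nat_lit 76) (nat_lit 45532510079) (nat_lit 76) (nat_lit 15446790660) (nat_lit 6) (nat_lit 4) (nat_lit 7) (nat_lit 5) (nat_lit 7) (nat_lit 4) (nat_lit 405) (nat_lit 250) (nat_lit 125))))))) (XT.nd (nat_lit 31434) (nat_lit 0) (nat_lit 7904) (XT.nd (nat_lit 30888) (nat_lit 0) (nat_lit 12692) (XT.nd (nat_lit 30654) (nat_lit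 0) (nat_lit 17860) (XT.nd (nat_lit 78) (nat_lit 0) (nat_lit 0) (XT.lf (nat_lit 0) (nat_lit 44168319836) (nat_lit 76) (nat_lit 41801371427) (nat_lit 76) (nat_lit 11693320377) (nat_lit 6) (nat_lit 4) (nat_lit 7) (nat_lit 5) (nat_lit 7) (nat_lit 4) (nat_lit 406) (nat_lit 250) (nat_lit 124)) (XT.nd (nat_lit 78) (nat_lit 0) (nat_lit 0) (XT.lf (nat_lit 0) (nat_lit 54643252501) (nat_lit 76) (nat_lit 37963971705) (nat_lit 76) (nat_lit 7834239461) (nat_lit 6) (nat_lit 4) (nat_lit 7) (nat_lit 5) (nat_lit 7) (nat_lit 4) (nat_lit 407) (nat_lit 250) (nat_lit 123)) (XT.lf (nat_lit 0) (nat_lit 65420335732) (nat_lit 76) (nat_lit 34016957846) (nat_lit 76) (nat_lit 3866175898) (nat_lit 6) (nat_lit 4) (nat_lit 7) (nat_lit 5) (nat_lit 7) (nat_lit 4) (nat_lit 408) (nat_lit 250) (nat_lit 122)))) (XT.nd (nat_lit 78) (nat_lit 836) (nat_lit 0) (XT.lf (nat_lit 0) (nat_lit 2320892084) (nat_lit 684) (nat_lit 542976802)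 (nat_lit 684) (nat_lit 542976802) (nat_lit 252) (nat_lit 4) (nat_lit 261) (nat_lit 5) (nat_lit 261) (nat_lit 4) (nat_lit 278) (nat_lit 251) (nat_lit 251)) (XT.nd (nat_lit 78) (nat_lit 0) (nat_lit 0) (XT.lf (nat_lit 0) (nat_lit 1953726231) (nat_lit 836) (nat_lit 4831432346) (nat_lit 0) (nat_lit 72226562) (nat_lit 241) (nat_lit 5) (nat_lit 252) (nat_lit 4) (nat_lit 241) (nat_lit 4) (nat_lit 279) (nat_lit 251) (nat_lit 250)) (XT.lf (nat_lit 0) (nat_lit 4998648445) (nat_lit 836) (nat_lit 615112333) (nat_lit 0) (nat_lit 1290450067) (nat_lit 241) (nat_lit 5) (nat_lit 252) (nat_lit 4) (nat_lit 241) (nat_lit 4) (nat_lit 280) (nat_lit 251) (nat_lit 249))))) (XT.nd (nat_lit 234) (nat_lit 3268) (nat_lit 0) (XT.nd (nat_lit 78) (nat_lit 988) (nat_lit 0) (XT.lf (nat_lit 0) (nat_lit 1100145695) (nat_lit 912) (nat_lit 3248396507) (nat_lit 76) (nat_lit 2605543244) (nat_lit 229) (nat_lit 5) (nat_lit 241) (nat_lit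 5) (nat_lit 230) (nat_lit 4) (nat_lit 281) (nat_lit 251) (nat_lit 248)) (XT.nd (nat_lit 78) (nat_lit 76) (nat_lit 0) (XT.lf (nat_lit 0) (nat_lit 1080949542) (nat_lit 912) (nat_lit 3000075354) (nat_lit 988) (nat_lit 2926367759) (nat_lit 217) (nat_lit 5) (nat_lit 229) (nat_lit 5) (nat_lit 230) (nat_lit 4) (nat_lit 282) (nat_lit 251) (nat_lit 247)) (XT.lf (nat_lit 0) (nat_lit 27873667) (nat_lit 988) (nat_lit 1541601033) (nat_lit 76) (nat_lit 5494771134) (nat_lit 216) (nat_lit 5) (nat_lit 229) (nat_lit 5) (nat_lit 217) (nat_lit 5) (nat_lit 283) (nat_lit 251) (nat_lit 246)))) (XT.nd (nat_lit 156) (nat_lit 1216) (nat_lit 0) (XT.nd (nat_lit 78) (nat_lit 1064) (nat_lit 0) (XT.lf (nat_lit 0) (nat_lit 2919411341) (nat_lit 988) (nat_lit 30725020) (nat_lit 1064) (nat_lit 4173836982) (nat_lit 203) (nat_lit 5) (nat_lit 216) (nat_lit 5) (nat_lit 217) (nat_lit 5) (nat_lit 284) (nat_lit 251) (nat_lit 245)) (XT.lf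 (nat_lit 0) (nat_lit 265492180) (nat_lit 1064) (nat_lit 5639812007) (nat_lit 1140) (nat_lit 1282010288) (nat_lit 189) (nat_lit 5) (nat_lit 203) (nat_lit 5) (nat_lit 204) (nat_lit 4) (nat_lit 285) (nat_lit 251) (nat_lit 244))) (XT.nd (nat_lit 78) (nat_lit 1140) (nat_lit 0) (XT.lf (nat_lit 0) (nat_lit 1619396767) (nat_lit 1140) (nat_lit 2398969733) (nat_lit 76) (nat_lit 3235190783) (nat_lit 188) (nat_lit 5) (nat_lit 203) (nat_lit 5) (nat_lit 189) (nat_lit 5) (nat_lit 286) (nat_lit 251) (nat_lit 243)) (XT.lf (nat_lit 0) (nat_lit 2205948470) (nat_lit 1140) (nat_lit 2312625997) (nat_lit 1216) (nat_lit 2804900981) (nat_lit 173) (nat_lit 5) (nat_lit 188) (nat_lit 5) (nat_lit 189) (nat_lit 5) (nat_lit 287) (nat_lit 251) (nat_lit 242)))))) (XT.nd (nat_lit 546) (nat_lit 2356) (nat_lit 0) (XT.nd (nat_lit 234) (nat_lit 1216) (nat_lit 0) (XT.nd (nat_lit 78) (nat_lit 1140) (nat_lit 0) (XT.lf (nat_lit 0) (nat_lit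 47550052) (nat_lit 1216) (nat_lit 482839552) (nat_lit 76) (nat_lit 6867011030) (nat_lit 172) (nat_lit 5) (nat_lit 188) (nat_lit 5) (nat_lit 173) (nat_lit 5) (nat_lit 288) (nat_lit 251) (nat_lit 241)) (XT.nd (nat_lit 78) (nat_lit 608) (nat_lit 0) (XT.lf (nat_lit 0) (nat_lit 2901832369) (nat_lit 608) (nat_lit 3223478473) (nat_lit 76) (nat_lit 1348370431) (nat_lit 165) (nat_lit 5) (nat_lit 173) (nat_lit 5) (nat_lit 166) (nat_lit 5) (nat_lit 289) (nat_lit 251) (nat_lit 240)) (XT.lf (nat_lit 0) (nat_lit 1523233605) (nat_lit 608) (nat_lit 4263329101) (nat_lit 684) (nat_lit 1767488516) (nat_lit 157) (nat_lit 5) (nat_lit 165) (nat_lit 5) (nat_lit 166) (nat_lit 5) (nat_lit 290) (nat_lit 251) (nat_lit 239)))) (XT.nd (nat_lit 156) (nat_lit 608) (nat_lit 0) (XT.nd (nat_lit 78) (nat_lit 532) (nat_lit 0) (XT.lf (nat_lit 0) (nat_lit 1052615876) (nat_lit 684) (nat_lit 1253640566) (nat_lit 76) (nat_lit 5331785041)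 (nat_lit 156) (nat_lit 5) (nat_lit 165) (nat_lit 5) (nat_lit 157) (nat_lit 5) (nat_lit 291) (nat_lit 251) (nat_lit 238)) (XT.lf (nat_lit 0) (nat_lit 3637703634) (nat_lit 532) (nat_lit 241989913) (nat_lit 608) (nat_lit 3845729193) (nat_lit 149) (nat_lit 5) (nat_lit 156) (nat_lit 5) (nat_lit 157) (nat_lit 5) (nat_lit 292) (nat_lit 251) (nat_lit 237))) (XT.nd (nat_lit 78) (nat_lit 76) (nat_lit 0) (XT.lf (nat_lit 0) (nat_lit 799646560) (nat_lit 532) (nat_lit 5954846175) (nat_lit 608) (nat_lit 1062174677) (nat_lit 142) (nat_lit 5) (nat_lit 149) (nat_lit 5) (nat_lit 150) (nat_lit 5) (nat_lit 293) (nat_lit 251) (nat_lit 236)) (XT.lf (nat_lit 0) (nat_lit 1738619564) (nat_lit 608) (nat_lit 2097090782) (nat_lit 76) (nat_lit 4075471836) (nat_lit 141) (nat_lit 5) (nat_lit 149) (nat_lit 5) (nat_lit 142) (nat_lit 5) (nat_lit 294) (nat_lit 251) (nat_lit 235))))) (XT.nd (nat_lit 234) (nat_lit 1368) (nat_lit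 0) (XT.nd (nat_lit 78) (nat_lit 532) (nat_lit 0) (XT.lf (nat_lit 0) (nat_lit 2934708884) (nat_lit 456) (nat_lit 1622648897) (nat_lit 532) (nat_lit 3452319338) (nat_lit 135) (nat_lit 5) (nat_lit 141) (nat_lit 5) (nat_lit 142) (nat_lit 5) (nat_lit 295) (nat_lit 251) (nat_lit 234)) (XT.nd (nat_lit 78) (nat_lit 532) (nat_lit 0) (XT.lf (nat_lit 0) (nat_lit 7416659181) (nat_lit 532) (nat_lit 40400014) (nat_lit 76) (nat_lit 655502519) (nat_lit 135) (nat_lit 5) (nat_lit 142) (nat_lit 5) (nat_lit 136) (nat_lit 5) (nat_lit 296) (nat_lit 251) (nat_lit 233)) (XT.lf (nat_lit 0) (nat_lit 2097178704) (nat_lit 532) (nat_lit 3091121325) (nat_lit 76) (nat_lit 3029849204) (nat_lit 128) (nat_lit 5) (nat_lit 135) (nat_lit 5) (nat_lit 129) (nat_lit 5) (nat_lit 297) (nat_lit 251) (nat_lit 232)))) (XT.nd (nat_lit 156) (nat_lit 912) (nat_lit 0) (XT.nd (nat_lit 78) (nat_lit 0) (nat_lit 0) (XT.lf (nat_lit 0) (nat_lit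 2074932639) (nat_lit 456) (nat_lit 2836349684) (nat_lit 532) (nat_lit 3416983939) (nat_lit 122) (nat_lit 5) (nat_lit 128) (nat_lit 5) (nat_lit 129) (nat_lit 5) (nat_lit 298) (nat_lit 251) (nat_lit 231)) (XT.lf (nat_lit 0) (nat_lit 7378060559) (nat_lit 456) (nat_lit 395054692) (nat_lit 532) (nat_lit 669774399) (nat_lit 122) (nat_lit 5) (nat_lit 128) (nat_lit 5) (nat_lit 129) (nat_lit 5) (nat_lit 299) (nat_lit 251) (nat_lit 230))) (XT.nd (nat_lit 78) (nat_lit 380) (nat_lit 0) (XT.lf (nat_lit 0) (nat_lit 2112841690) (nat_lit 532) (nat_lit 4320655006) (nat_lit 76) (nat_lit 2127074265) (nat_lit 115) (nat_lit 5) (nat_lit 122) (nat_lit 5) (nat_lit 116) (nat_lit 5) (nat_lit 300) (nat_lit 251) (nat_lit 229)) (XT.lf (nat_lit 0) (nat_lit 971004992) (nat_lit 380) (nat_lit 3952936473) (nat_lit 456) (nat_lit 3758981670) (nat_lit 110) (nat_lit 5) (nat_lit 115) (nat_lit 5) (nat_lit 116) (nat_lit 5) (nat_lit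 301) (nat_lit 251) (nat_lit 228))))))))
noncomputable def xc82 : XT := (XT.nd (nat_lit 2028) (nat_lit 2128) (nat_lit 0) (XT.nd (nat_lit 1014) (nat_lit 1824) (nat_lit 0) (XT.nd (nat_lit 468) (nat_lit 1444) (nat_lit 0) (XT.nd (nat_lit 234) (nat_lit 836) (nat_lit 0) (XT.nd (nat_lit 78) (nat_lit 456) (nat_lit 0) (XT.lf (nat_lit 0) (nat_lit 6429317992) (nat_lit 380) (nat_lit 1369185275) (nat_lit 456) (nat_lit 1011159393) (nat_lit 110) (nat_lit 5) (nat_lit 115) (nat_lit 5) (nat_lit 116) (nat_lit 5) (nat_lit 302) (nat_lit 251) (nat_lit 227)) (XT.nd (nat_lit 78) (nat_lit 0) (nat_lit 0) (XT.lf (nat_lit 0) (nat_lit 1762549874) (nat_lit 456) (nat_lit 5879495084) (nat_lit 76) (nat_lit 1298351791) (nat_lit 104) (nat_lit 5) (nat_lit 110) (nat_lit 5) (nat_lit 105) (nat_lit 5) (nat_lit 303) (nat_lit 251) (nat_lit 226)) (XT.lf (nat_lit 0) (nat_lit 4574575779) (nat_lit 456) (nat_lit 464629000) (nat_lit 76) (nat_lit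 4036367842) (nat_lit 104) (nat_lit 5) (nat_lit 110) (nat_lit 5) (nat_lit 105) (nat_lit 5) (nat_lit 304) (nat_lit 251) (nat_lit 225)))) (XT.nd (nat_lit 78) (nat_lit 456) (nat_lit 0) (XT.lf (nat_lit 0) (nat_lit 5134554774) (nat_lit 380) (nat_lit 2325179283) (nat_lit 456) (nat_lit 1755487111) (nat_lit 99) (nat_lit 5) (nat_lit 104) (nat_lit 5) (nat_lit 105) (nat_lit 5) (nat_lit 305) (nat_lit 251) (nat_lit 224)) (XT.nd (nat_lit 78) (nat_lit 0) (nat_lit 0) (XT.lf (nat_lit 0) (nat_lit 1014945058) (nat_lit 456) (nat_lit 7872437344) (nat_lit 76) (nat_lit 472538941) (nat_lit 93) (nat_lit 5) (nat_lit 99) (nat_lit 5) (nat_lit 94) (nat_lit 5) (nat_lit 306) (nat_lit 251) (nat_lit 223)) (XT.lf (nat_lit 0) (nat_lit 3838433756) (nat_lit 456) (nat_lit 2321933873) (nat_lit 76) (nat_lit 3347990360) (nat_lit 93) (nat_lit 5) (nat_lit 99) (nat_lit 5) (nat_lit 94) (nat_lit 5) (nat_lit 307) (nat_lit 251) (nat_lit 222)))))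 (XT.nd (nat_lit 234) (nat_lit 684) (nat_lit 0) (XT.nd (nat_lit 78) (nat_lit 456) (nat_lit 0) (XT.lf (nat_lit 0) (nat_lit 3383709675) (nat_lit 304) (nat_lit 3337764915) (nat_lit 380) (nat_lit 2940599286) (nat_lit 89) (nat_lit 5) (nat_lit 93) (nat_lit 5) (nat_lit 94) (nat_lit 5) (nat_lit 308) (nat_lit 251) (nat_lit 221)) (XT.nd (nat_lit 78) (nat_lit 456) (nat_lit 0) (XT.lf (nat_lit 0) (nat_lit 9231475364) (nat_lit 304) (nat_lit 426242662) (nat_lit 380) (nat_lit 163751352) (nat_lit 89) (nat_lit 5) (nat_lit 93) (nat_lit 5) (nat_lit 94) (nat_lit 5) (nat_lit 309) (nat_lit 251) (nat_lit 220)) (XT.lf (nat_lit 0) (nat_lit 2664049526) (nat_lit 456) (nat_lit 4740016772) (nat_lit 76) (nat_lit 2580260434) (nat_lit 83) (nat_lit 5) (nat_lit 89) (nat_lit 5) (nat_lit 84) (nat_lit 5) (nat_lit 310) (nat_lit 251) (nat_lit 219)))) (XT.nd (nat_lit 156) (nat_lit 380) (nat_lit 0) (XT.nd (nat_lit 78) (nat_lit 0) (nat_lit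 0) (XT.lf (nat_lit 0) (nat_lit 1052116721) (nat_lit 304) (nat_lit 4486642382) (nat_lit 380) (nat_lit 4614364673) (nat_lit 79) (nat_lit 5) (nat_lit 83) (nat_lit 5) (nat_lit 84) (nat_lit 5) (nat_lit 311) (nat_lit 251) (nat_lit 218)) (XT.lf (nat_lit 0) (nat_lit 7039568910) (nat_lit 304) (nat_lit 1453895938) (nat_lit 380) (nat_lit 1833768970) (nat_lit 79) (nat_lit 5) (nat_lit 83) (nat_lit 5) (nat_lit 84) (nat_lit 5) (nat_lit 312) (nat_lit 251) (nat_lit 217))) (XT.nd (nat_lit 78) (nat_lit 0) (nat_lit 0) (XT.lf (nat_lit 0) (nat_lit 998869157) (nat_lit 380) (nat_lit 7855643174) (nat_lit 76) (nat_lit 1652154068) (nat_lit 74) (nat_lit 5) (nat_lit 79) (nat_lit 5) (nat_lit 75) (nat_lit 5) (nat_lit 313) (nat_lit 251) (nat_lit 216)) (XT.lf (nat_lit 0) (nat_lit 3875070075) (nat_lit 380) (nat_lit 1963311181) (nat_lit 76) (nat_lit 4852749295) (nat_lit 74) (nat_lit 5) (nat_lit 79) (nat_lit 5) (nat_lit 75) (nat_lit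 5) (nat_lit 314) (nat_lit 251) (nat_lit 215)))))) (XT.nd (nat_lit 468) (nat_lit 760) (nat_lit 0) (XT.nd (nat_lit 234) (nat_lit 456) (nat_lit 0) (XT.nd (nat_lit 78) (nat_lit 380) (nat_lit 0) (XT.lf (nat_lit 0) (nat_lit 4113030159) (nat_lit 228) (nat_lit 2713110332) (nat_lit 304) (nat_lit 4055385479) (nat_lit 71) (nat_lit 5) (nat_lit 74) (nat_lit 5) (nat_lit 75) (nat_lit 5) (nat_lit 315) (nat_lit 251) (nat_lit 214)) (XT.nd (nat_lit 78) (nat_lit 380) (nat_lit 0) (XT.lf (nat_lit 0) (nat_lit 9840250835) (nat_lit 304) (nat_lit 743840399) (nat_lit 76) (nat_lit 494360036) (nat_lit 71) (nat_lit 5) (nat_lit 75) (nat_lit 5) (nat_lit 72) (nat_lit 5) (nat_lit 316) (nat_lit 251) (nat_lit 213)) (XT.lf (nat_lit 0) (nat_lit 1661823665) (nat_lit 380) (nat_lit 5826787262) (nat_lit 76) (nat_lit 3791320347) (nat_lit 66) (nat_lit 5) (nat_lit 71) (nat_lit 5) (nat_lit 67) (nat_lit 5) (nat_lit 317) (nat_lit 251) (nat_lit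 212)))) (XT.nd (nat_lit 78) (nat_lit 228) (nat_lit 0) (XT.lf (nat_lit 0) (nat_lit 285470661) (nat_lit 228) (nat_lit 4300128916) (nat_lit 304) (nat_lit 6902687920) (nat_lit 63) (nat_lit 5) (nat_lit 66) (nat_lit 5) (nat_lit 67) (nat_lit 5) (nat_lit 318) (nat_lit 251) (nat_lit 211)) (XT.nd (nat_lit 78) (nat_lit 228) (nat_lit 0) (XT.lf (nat_lit 0) (nat_lit 6629422146) (nat_lit 228) (nat_lit 978548212) (nat_lit 304) (nat_lit 4094644915) (nat_lit 63) (nat_lit 5) (nat_lit 66) (nat_lit 5) (nat_lit 67) (nat_lit 5) (nat_lit 319) (nat_lit 251) (nat_lit 210)) (XT.lf (nat_lit 0) (nat_lit 1169384842) (nat_lit 228) (nat_lit 9539571936) (nat_lit 304) (nat_lit 1214823702) (nat_lit 60) (nat_lit 5) (nat_lit 63) (nat_lit 5) (nat_lit 64) (nat_lit 5) (nat_lit 320) (nat_lit 251) (nat_lit 209))))) (XT.nd (nat_lit 234) (nat_lit 456) (nat_lit 0) (XT.nd (nat_lit 78) (nat_lit 228) (nat_lit 0) (XT.lf (nat_lit 0) (nat_lit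 1732057991) (nat_lit 304) (nat_lit 4544393675) (nat_lit 76) (nat_lit 5874221957) (nat_lit 59) (nat_lit 5) (nat_lit 63) (nat_lit 5) (nat_lit 60) (nat_lit 5) (nat_lit 321) (nat_lit 251) (nat_lit 208)) (XT.nd (nat_lit 78) (nat_lit 0) (nat_lit 0) (XT.lf (nat_lit 0) (nat_lit 1806635049) (nat_lit 228) (nat_lit 2908434304) (nat_lit 304) (nat_lit 7669821208) (nat_lit 56) (nat_lit 5) (nat_lit 59) (nat_lit 5) (nat_lit 60) (nat_lit 5) (nat_lit 322) (nat_lit 251) (nat_lit 207)) (XT.lf (nat_lit 0) (nat_lit 7794519042) (nat_lit 304) (nat_lit 4258232214) (nat_lit 76) (nat_lit 573215123) (nat_lit 56) (nat_lit 5) (nat_lit 60) (nat_lit 5) (nat_lit 57) (nat_lit 5) (nat_lit 323) (nat_lit 251) (nat_lit 206)))) (XT.nd (nat_lit 156) (nat_lit 152) (nat_lit 0) (XT.nd (nat_lit 78) (nat_lit 76) (nat_lit 0) (XT.lf (nat_lit 0) (nat_lit 2198523969) (nat_lit 228) (nat_lit 8774277716) (nat_lit 304) (nat_lit 1901318927) (nat_lit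 53) (nat_lit 5) (nat_lit 56) (nat_lit 5) (nat_lit 57) (nat_lit 5) (nat_lit 324) (nat_lit 251) (nat_lit 205)) (XT.lf (nat_lit 0) (nat_lit 1095034259) (nat_lit 304) (nat_lit 4270532662) (nat_lit 76) (nat_lit 7763864503) (nat_lit 52) (nat_lit 5) (nat_lit 56) (nat_lit 5) (nat_lit 53) (nat_lit 5) (nat_lit 325) (nat_lit 251) (nat_lit 204))) (XT.nd (nat_lit 78) (nat_lit 0) (nat_lit 0) (XT.lf (nat_lit 0) (nat_lit 2287232840) (nat_lit 152) (nat_lit 1835764900) (nat_lit 228) (nat_lit 9269477303) (nat_lit 50) (nat_lit 5) (nat_lit 52) (nat_lit 5) (nat_lit 53) (nat_lit 5) (nat_lit 326) (nat_lit 251) (nat_lit 203)) (XT.lf (nat_lit 0) (nat_lit 7260982138) (nat_lit 228) (nat_lit 4616245982) (nat_lit 76) (nat_lit 1785641597) (nat_lit 50) (nat_lit 5) (nat_lit 53) (nat_lit 5) (nat_lit 51) (nat_lit 5) (nat_lit 327) (nat_lit 251) (nat_lit 202))))))) (XT.nd (nat_lit 1014) (nat_lit 836) (nat_lit 0) (XT.nd (nat_lit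 468) (nat_lit 608) (nat_lit 0) (XT.nd (nat_lit 234) (nat_lit 228) (nat_lit 0) (XT.nd (nat_lit 78) (nat_lit 228) (nat_lit 0) (XT.lf (nat_lit 0) (nat_lit 2024998313) (nat_lit 228) (nat_lit 8465291879) (nat_lit 304) (nat_lit 3451204695) (nat_lit 47) (nat_lit 5) (nat_lit 50) (nat_lit 5) (nat_lit 51) (nat_lit 5) (nat_lit 328) (nat_lit 251) (nat_lit 201)) (XT.nd (nat_lit 78) (nat_lit 228) (nat_lit 0) (XT.lf (nat_lit 0) (nat_lit 8896972629) (nat_lit 228) (nat_lit 4926234073) (nat_lit 304) (nat_lit 405103419) (nat_lit 47) (nat_lit 5) (nat_lit 50) (nat_lit 5) (nat_lit 51) (nat_lit 5) (nat_lit 329) (nat_lit 251) (nat_lit 200)) (XT.lf (nat_lit 0) (nat_lit 1390130353) (nat_lit 152) (nat_lit 1263155639) (nat_lit 228) (nat_lit 11870460428) (nat_lit 44) (nat_lit 5) (nat_lit 46) (nat_lit 5) (nat_lit 47) (nat_lit 5) (nat_lit 330) (nat_lit 251) (nat_lit 199)))) (XT.nd (nat_lit 78) (nat_lit 228) (nat_lit 0) (XT.lf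 (nat_lit 0) (nat_lit 5834969390) (nat_lit 228) (nat_lit 6495037254) (nat_lit 76) (nat_lit 2496758671) (nat_lit 44) (nat_lit 5) (nat_lit 47) (nat_lit 5) (nat_lit 45) (nat_lit 5) (nat_lit 331) (nat_lit 251) (nat_lit 198)) (XT.nd (nat_lit 78) (nat_lit 0) (nat_lit 0) (XT.lf (nat_lit 0) (nat_lit 274910201) (nat_lit 228) (nat_lit 8814662103) (nat_lit 304) (nat_lit 6050007884) (nat_lit 41) (nat_lit 5) (nat_lit 44) (nat_lit 5) (nat_lit 45) (nat_lit 5) (nat_lit 332) (nat_lit 251) (nat_lit 197)) (XT.lf (nat_lit 0) (nat_lit 7321045834) (nat_lit 228) (nat_lit 5149194753) (nat_lit 304) (nat_lit 2990714729) (nat_lit 41) (nat_lit 5) (nat_lit 44) (nat_lit 5) (nat_lit 45) (nat_lit 5) (nat_lit 333) (nat_lit 251) (nat_lit 196))))) (XT.nd (nat_lit 234) (nat_lit 380) (nat_lit 0) (XT.nd (nat_lit 78) (nat_lit 152) (nat_lit 0) (XT.lf (nat_lit 0) (nat_lit 120766085) (nat_lit 304) (nat_lit 1274003313) (nat_lit 76) (nat_lit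 14398276897) (nat_lit 40) (nat_lit 5) (nat_lit 44) (nat_lit 5) (nat_lit 41) (nat_lit 5) (nat_lit 334) (nat_lit 251) (nat_lit 195)) (XT.nd (nat_lit 78) (nat_lit 0) (nat_lit 0) (XT.lf (nat_lit 0) (nat_lit 3310472299) (nat_lit 228) (nat_lit 10333429859) (nat_lit 76) (nat_lit 2488985970) (nat_lit 38) (nat_lit 5) (nat_lit 41) (nat_lit 5) (nat_lit 39) (nat_lit 5) (nat_lit 335) (nat_lit 251) (nat_lit 194)) (XT.lf (nat_lit 0) (nat_lit 6587546826) (nat_lit 228) (nat_lit 3442872990) (nat_lit 76) (nat_lit 6452780519) (nat_lit 38) (nat_lit 5) (nat_lit 41) (nat_lit 5) (nat_lit 39) (nat_lit 5) (nat_lit 336) (nat_lit 251) (nat_lit 193)))) (XT.nd (nat_lit 156) (nat_lit 228) (nat_lit 0) (XT.nd (nat_lit 78) (nat_lit 0) (nat_lit 0) (XT.lf (nat_lit 0) (nat_lit 3670059116) (nat_lit 152) (nat_lit 6294051595) (nat_lit 228) (nat_lit 6879900574) (nat_lit 36) (nat_lit 5) (nat_lit 38) (nat_lit 5) (nat_lit 39) (nat_lit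 5) (nat_lit 337) (nat_lit 251) (nat_lit 192)) (XT.lf (nat_lit 0) (nat_lit 11011545768) (nat_lit 152) (nat_lit 2431550911) (nat_lit 228) (nat_lit 3772540104) (nat_lit 36) (nat_lit 5) (nat_lit 38) (nat_lit 5) (nat_lit 39) (nat_lit 5) (nat_lit 338) (nat_lit 251) (nat_lit 191))) (XT.nd (nat_lit 78) (nat_lit 76) (nat_lit 0) (XT.lf (nat_lit 0) (nat_lit 923421173) (nat_lit 152) (nat_lit 16093912154) (nat_lit 228) (nat_lit 581374561) (nat_lit 34) (nat_lit 5) (nat_lit 36) (nat_lit 5) (nat_lit 37) (nat_lit 4) (nat_lit 339) (nat_lit 251) (nat_lit 190)) (XT.lf (nat_lit 0) (nat_lit 2707305528) (nat_lit 228) (nat_lit 9704891289) (nat_lit 76) (nat_lit 5578678806) (nat_lit 33) (nat_lit 5) (nat_lit 36) (nat_lit 5) (nat_lit 34) (nat_lit 5) (nat_lit 340) (nat_lit 251) (nat_lit 189)))))) (XT.nd (nat_lit 468) (nat_lit 456) (nat_lit 0) (XT.nd (nat_lit 234) (nat_lit 228) (nat_lit 0) (XT.nd (nat_lit 78) (nat_lit 152)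 (nat_lit 0) (XT.lf (nat_lit 0) (nat_lit 6051145368) (nat_lit 228) (nat_lit 2584279921) (nat_lit 76) (nat_lit 9760186186) (nat_lit 33) (nat_lit 5) (nat_lit 36) (nat_lit 5) (nat_lit 34) (nat_lit 5) (nat_lit 341) (nat_lit 251) (nat_lit 188)) (XT.nd (nat_lit 78) (nat_lit 0) (nat_lit 0) (XT.lf (nat_lit 0) (nat_lit 4791864342) (nat_lit 152) (nat_lit 4718609460) (nat_lit 228) (nat_lit 9301581078) (nat_lit 31) (nat_lit 5) (nat_lit 33) (nat_lit 5) (nat_lit 34) (nat_lit 5) (nat_lit 342) (nat_lit 251) (nat_lit 187)) (XT.lf (nat_lit 0) (nat_lit 12391181966) (nat_lit 152) (nat_lit 678015958) (nat_lit 228) (nat_lit 6171945265) (nat_lit 31) (nat_lit 5) (nat_lit 33) (nat_lit 5) (nat_lit 34) (nat_lit 5) (nat_lit 343) (nat_lit 251) (nat_lit 186)))) (XT.nd (nat_lit 78) (nat_lit 76) (nat_lit 0) (XT.lf (nat_lit 0) (nat_lit 460560606) (nat_lit 152) (nat_lit 16282253869) (nat_lit 228) (nat_lit 2940065242) (nat_lit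 29) (nat_lit 5) (nat_lit 31) (nat_lit 5) (nat_lit 32) (nat_lit 4) (nat_lit 344) (nat_lit 251) (nat_lit 185)) (XT.nd (nat_lit 78) (nat_lit 0) (nat_lit 0) (XT.lf (nat_lit 0) (nat_lit 428048080) (nat_lit 228) (nat_lit 12066542126) (nat_lit 76) (nat_lit 7641778499) (nat_lit 28) (nat_lit 5) (nat_lit 31) (nat_lit 5) (nat_lit 29) (nat_lit 5) (nat_lit 345) (nat_lit 251) (nat_lit 184)) (XT.lf (nat_lit 0) (nat_lit 3809271779) (nat_lit 228) (nat_lit 4774162067) (nat_lit 76) (nat_lit 12020038287) (nat_lit 28) (nat_lit 5) (nat_lit 31) (nat_lit 5) (nat_lit 29) (nat_lit 5) (nat_lit 346) (nat_lit 251) (nat_lit 183))))) (XT.nd (nat_lit 234) (nat_lit 304) (nat_lit 0) (XT.nd (nat_lit 78) (nat_lit 0) (nat_lit 0) (XT.lf (nat_lit 0) (nat_lit 2742980175) (nat_lit 152) (nat_lit 4547318611) (nat_lit 228) (nat_lit 13794356199) (nat_lit 26) (nat_lit 5) (nat_lit 28) (nat_lit 5) (nat_lit 29) (nat_lit 5) (nat_lit 347) (nat_lit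 251) (nat_lit 182)) (XT.nd (nat_lit 78) (nat_lit 0) (nat_lit 0) (XT.lf (nat_lit 0) (nat_lit 10536433712) (nat_lit 152) (nat_lit 359895060) (nat_lit 228) (nat_lit 10683344199) (nat_lit 26) (nat_lit 5) (nat_lit 28) (nat_lit 5) (nat_lit 29) (nat_lit 5) (nat_lit 348) (nat_lit 251) (nat_lit 181)) (XT.lf (nat_lit 0) (nat_lit 14621525893) (nat_lit 228) (nat_lit 3610188391) (nat_lit 76) (nat_lit 3857513951) (nat_lit 26) (nat_lit 5) (nat_lit 29) (nat_lit 5) (nat_lit 27) (nat_lit 4) (nat_lit 349) (nat_lit 251) (nat_lit 180)))) (XT.nd (nat_lit 156) (nat_lit 228) (nat_lit 0) (XT.nd (nat_lit 78) (nat_lit 0) (nat_lit 0) (XT.lf (nat_lit 0) (nat_lit 4076856846) (nat_lit 76) (nat_lit 14398147576) (nat_lit 152) (nat_lit 4138585817) (nat_lit 25) (nat_lit 5) (nat_lit 26) (nat_lit 5) (nat_lit 27) (nat_lit 4) (nat_lit 350) (nat_lit 251) (nat_lit 179)) (XT.lf (nat_lit 0) (nat_lit 12023971821) (nat_lit 76) (nat_lit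 10430679932) (nat_lit 152) (nat_lit 698729806) (nat_lit 25) (nat_lit 5) (nat_lit 26) (nat_lit 5) (nat_lit 27) (nat_lit 4) (nat_lit 351) (nat_lit 251) (nat_lit 178))) (XT.nd (nat_lit 78) (nat_lit 152) (nat_lit 0) (XT.lf (nat_lit 0) (nat_lit 2763418126) (nat_lit 152) (nat_lit 3570977223) (nat_lit 76) (nat_lit 17374927556) (nat_lit 24) (nat_lit 5) (nat_lit 26) (nat_lit 5) (nat_lit 25) (nat_lit 5) (nat_lit 352) (nat_lit 251) (nat_lit 177)) (XT.lf (nat_lit 0) (nat_lit 4247683098) (nat_lit 152) (nat_lit 2083873986) (nat_lit 228) (nat_lit 17949706836) (nat_lit 22) (nat_lit 5) (nat_lit 24) (nat_lit 5) (nat_lit 25) (nat_lit 5) (nat_lit 353) (nat_lit 251) (nat_lit 176))))))))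
noncomputable def xc83 : XT := (XT.nd (nat_lit 2028) (nat_lit 380) (nat_lit 0) (XT.nd (nat_lit 1014) (nat_lit 456) (nat_lit 0) (XT.nd (nat_lit 468) (nat_lit 76) (nat_lit 0) (XT.nd (nat_lit 234) (nat_lit 228) (nat_lit 0) (XT.nd (nat_lit 78) (nat_lit 76) (nat_lit 0) (XT.lf (nat_lit 0) (nat_lit 10040692402) (nat_lit 228) (nat_lit 12560238215) (nat_lit 76) (nat_lit 2268427653) (nat_lit 22) (nat_lit 5) (nat_lit 25) (nat_lit 5) (nat_lit 23) (nat_lit 4) (nat_lit 354) (nat_lit 251) (nat_lit 175)) (XT.nd (nat_lit 78) (nat_lit 76) (nat_lit 0) (XT.lf (nat_lit 0) (nat_lit 13857930696) (nat_lit 228) (nat_lit 4924737143) (nat_lit 76) (nat_lit 6692536016) (nat_lit 22) (nat_lit 5) (nat_lit 25) (nat_lit 5) (nat_lit 23) (nat_lit 4) (nat_lit 355) (nat_lit 251) (nat_lit 174)) (XT.lf (nat_lit 0) (nat_lit 2957333895) (nat_lit 76) (nat_lit 14837669753) (nat_lit 152) (nat_lit 8304074522) (nat_lit 21) (nat_lit 5) (nat_lit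 22) (nat_lit 5) (nat_lit 23) (nat_lit 4) (nat_lit 356) (nat_lit 251) (nat_lit 173)))) (XT.nd (nat_lit 78) (nat_lit 228) (nat_lit 0) (XT.lf (nat_lit 0) (nat_lit 11137010199) (nat_lit 76) (nat_lit 10740089029) (nat_lit 152) (nat_lit 4863774685) (nat_lit 21) (nat_lit 5) (nat_lit 22) (nat_lit 5) (nat_lit 23) (nat_lit 4) (nat_lit 357) (nat_lit 251) (nat_lit 172)) (XT.nd (nat_lit 78) (nat_lit 228) (nat_lit 0) (XT.lf (nat_lit 0) (nat_lit 19523427132) (nat_lit 76) (nat_lit 6536075446) (nat_lit 152) (nat_lit 1343097751) (nat_lit 21) (nat_lit 5) (nat_lit 22) (nat_lit 5) (nat_lit 23) (nat_lit 4) (nat_lit 358) (nat_lit 251) (nat_lit 171)) (XT.lf (nat_lit 0) (nat_lit 17687728) (nat_lit 152) (nat_lit 2199394007) (nat_lit 228) (nat_lit 25867096755) (nat_lit 18) (nat_lit 5) (nat_lit 20) (nat_lit 5) (nat_lit 21) (nat_lit 5) (nat_lit 359) (nat_lit 251) (nat_lit 170))))) (XT.nd (nat_lit 234) (nat_lit 76) (nat_lit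 0) (XT.nd (nat_lit 78) (nat_lit 0) (nat_lit 0) (XT.lf (nat_lit 0) (nat_lit 5937601387) (nat_lit 228) (nat_lit 20544824172) (nat_lit 76) (nat_lit 2300974722) (nat_lit 18) (nat_lit 5) (nat_lit 21) (nat_lit 5) (nat_lit 19) (nat_lit 4) (nat_lit 360) (nat_lit 251) (nat_lit 169)) (XT.nd (nat_lit 78) (nat_lit 0) (nat_lit 0) (XT.lf (nat_lit 0) (nat_lit 9770524680) (nat_lit 228) (nat_lit 12856269810) (nat_lit 76) (nat_lit 6876791386) (nat_lit 18) (nat_lit 5) (nat_lit 21) (nat_lit 5) (nat_lit 19) (nat_lit 4) (nat_lit 361) (nat_lit 251) (nat_lit 168)) (XT.lf (nat_lit 0) (nat_lit 13698058851) (nat_lit 228) (nat_lit 4972967601) (nat_lit 76) (nat_lit 11574972370) (nat_lit 18) (nat_lit 5) (nat_lit 21) (nat_lit 5) (nat_lit 19) (nat_lit 4) (nat_lit 362) (nat_lit 251) (nat_lit 167)))) (XT.nd (nat_lit 156) (nat_lit 0) (nat_lit 0) (XT.nd (nat_lit 78) (nat_lit 0) (nat_lit 0) (XT.lf (nat_lit 0) (nat_lit 3173905096)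 (nat_lit 76) (nat_lit 14580240147) (nat_lit 152) (nat_lit 13256227300) (nat_lit 17) (nat_lit 5) (nat_lit 18) (nat_lit 5) (nat_lit 19) (nat_lit 4) (nat_lit 363) (nat_lit 251) (nat_lit 166)) (XT.lf (nat_lit 0) (nat_lit 11632603832) (nat_lit 76) (nat_lit 10329988672) (nat_lit 152) (nat_lit 9834174501) (nat_lit 17) (nat_lit 5) (nat_lit 18) (nat_lit 5) (nat_lit 19) (nat_lit 4) (nat_lit 364) (nat_lit 251) (nat_lit 165))) (XT.nd (nat_lit 78) (nat_lit 0) (nat_lit 0) (XT.lf (nat_lit 0) (nat_lit 20311547894) (nat_lit 76) (nat_lit 5966775436) (nat_lit 152) (nat_lit 6329008653) (nat_lit 17) (nat_lit 5) (nat_lit 18) (nat_lit 5) (nat_lit 19) (nat_lit 4) (nat_lit 365) (nat_lit 251) (nat_lit 164)) (XT.lf (nat_lit 0) (nat_lit 29218320827) (nat_lit 76) (nat_lit 1486787925) (nat_lit 152) (nat_lit 2737666990) (nat_lit 17) (nat_lit 5) (nat_lit 18) (nat_lit 5) (nat_lit 19) (nat_lit 4) (nat_lit 366) (nat_lit 251)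 (nat_lit 163)))))) (XT.nd (nat_lit 468) (nat_lit 152) (nat_lit 0) (XT.nd (nat_lit 234) (nat_lit 76) (nat_lit 0) (XT.nd (nat_lit 78) (nat_lit 0) (nat_lit 0) (XT.lf (nat_lit 0) (nat_lit 994687148) (nat_lit 228) (nat_lit 30204409286) (nat_lit 76) (nat_lit 3102356917) (nat_lit 14) (nat_lit 5) (nat_lit 17) (nat_lit 5) (nat_lit 15) (nat_lit 4) (nat_lit 367) (nat_lit 251) (nat_lit 162)) (XT.nd (nat_lit 78) (nat_lit 0) (nat_lit 0) (XT.lf (nat_lit 0) (nat_lit 4823811797) (nat_lit 228) (nat_lit 22504132873) (nat_lit 76) (nat_lit 7855947240) (nat_lit 14) (nat_lit 5) (nat_lit 17) (nat_lit 5) (nat_lit 15) (nat_lit 4) (nat_lit 368) (nat_lit 251) (nat_lit 161)) (XT.lf (nat_lit 0) (nat_lit 8750356334) (nat_lit 228) (nat_lit 14603972340) (nat_lit 76) (nat_lit 12739006839) (nat_lit 14) (nat_lit 5) (nat_lit 17) (nat_lit 5) (nat_lit 15) (nat_lit 4) (nat_lit 369) (nat_lit 251) (nat_lit 160)))) (XT.nd (nat_lit 78)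 (nat_lit 76) (nat_lit 0) (XT.lf (nat_lit 0) (nat_lit 12777751721) (nat_lit 228) (nat_lit 6497024635) (nat_lit 76) (nat_lit 17755802464) (nat_lit 14) (nat_lit 5) (nat_lit 17) (nat_lit 5) (nat_lit 15) (nat_lit 4) (nat_lit 370) (nat_lit 251) (nat_lit 159)) (XT.nd (nat_lit 78) (nat_lit 0) (nat_lit 0) (XT.lf (nat_lit 0) (nat_lit 1860091059) (nat_lit 76) (nat_lit 15067306314) (nat_lit 152) (nat_lit 21068506997) (nat_lit 13) (nat_lit 5) (nat_lit 14) (nat_lit 5) (nat_lit 15) (nat_lit 4) (nat_lit 371) (nat_lit 251) (nat_lit 158)) (XT.lf (nat_lit 0) (nat_lit 10572052966) (nat_lit 76) (nat_lit 10678834648) (nat_lit 152) (nat_lit 17737828986) (nat_lit 13) (nat_lit 5) (nat_lit 14) (nat_lit 5) (nat_lit 15) (nat_lit 4) (nat_lit 372) (nat_lit 251) (nat_lit 157))))) (XT.nd (nat_lit 234) (nat_lit 152) (nat_lit 0) (XT.nd (nat_lit 78) (nat_lit 0) (nat_lit 0) (XT.lf (nat_lit 0) (nat_lit 19517169948) (nat_lit 76)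 (nat_lit 6171133981) (nat_lit 152) (nat_lit 14323489976) (nat_lit 13) (nat_lit 5) (nat_lit 14) (nat_lit 5) (nat_lit 15) (nat_lit 4) (nat_lit 373) (nat_lit 251) (nat_lit 156)) (XT.nd (nat_lit 78) (nat_lit 0) (nat_lit 0) (XT.lf (nat_lit 0) (nat_lit 28703258127) (nat_lit 76) (nat_lit 1540265546) (nat_lit 152) (nat_lit 10822506563) (nat_lit 13) (nat_lit 5) (nat_lit 14) (nat_lit 5) (nat_lit 15) (nat_lit 4) (nat_lit 374) (nat_lit 251) (nat_lit 155)) (XT.lf (nat_lit 0) (nat_lit 34951458760) (nat_lit 152) (nat_lit 4044934214) (nat_lit 0) (nat_lit 3155025846) (nat_lit 13) (nat_lit 5) (nat_lit 15) (nat_lit 4) (nat_lit 13) (nat_lit 4) (nat_lit 375) (nat_lit 251) (nat_lit 154)))) (XT.nd (nat_lit 156) (nat_lit 0) (nat_lit 0) (XT.nd (nat_lit 78) (nat_lit 76) (nat_lit 0) (XT.lf (nat_lit 0) (nat_lit 4570229228) (nat_lit 76) (nat_lit 35275035678) (nat_lit 76) (nat_lit 3422771893) (nat_lit 12) (nat_lit 4) (nat_lit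 13) (nat_lit 5) (nat_lit 13) (nat_lit 4) (nat_lit 376) (nat_lit 251) (nat_lit 153)) (XT.lf (nat_lit 0) (nat_lit 485332335) (nat_lit 152) (nat_lit 30921243874) (nat_lit 76) (nat_lit 13010646736) (nat_lit 11) (nat_lit 5) (nat_lit 13) (nat_lit 5) (nat_lit 12) (nat_lit 4) (nat_lit 377) (nat_lit 251) (nat_lit 152))) (XT.nd (nat_lit 78) (nat_lit 0) (nat_lit 0) (XT.lf (nat_lit 0) (nat_lit 4427785587) (nat_lit 152) (nat_lit 22970689723) (nat_lit 76) (nat_lit 18201821849) (nat_lit 11) (nat_lit 5) (nat_lit 13) (nat_lit 5) (nat_lit 12) (nat_lit 4) (nat_lit 378) (nat_lit 251) (nat_lit 151)) (XT.lf (nat_lit 0) (nat_lit 8474823333) (nat_lit 152) (nat_lit 14806296255) (nat_lit 76) (nat_lit 23538160661) (nat_lit 11) (nat_lit 5) (nat_lit 13) (nat_lit 5) (nat_lit 12) (nat_lit 4) (nat_lit 379) (nat_lit 251) (nat_lit 150))))))) (XT.nd (nat_lit 1014) (nat_lit 152) (nat_lit 0) (XT.nd (nat_lit 468) (nat_lit 152) (nat_lit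 0) (XT.nd (nat_lit 234) (nat_lit 0) (nat_lit 0) (XT.nd (nat_lit 78) (nat_lit 76) (nat_lit 0) (XT.lf (nat_lit 0) (nat_lit 12629981820) (nat_lit 152) (nat_lit 6420929532) (nat_lit 76) (nat_lit 29024325992) (nat_lit 11) (nat_lit 5) (nat_lit 13) (nat_lit 5) (nat_lit 12) (nat_lit 4) (nat_lit 380) (nat_lit 251) (nat_lit 149)) (XT.nd (nat_lit 78) (nat_lit 0) (nat_lit 0) (XT.lf (nat_lit 0) (nat_lit 2236377238) (nat_lit 76) (nat_lit 14682011957) (nat_lit 152) (nat_lit 32450231766) (nat_lit 10) (nat_lit 5) (nat_lit 11) (nat_lit 5) (nat_lit 12) (nat_lit 4) (nat_lit 381) (nat_lit 251) (nat_lit 148)) (XT.lf (nat_lit 0) (nat_lit 11261993290) (nat_lit 76) (nat_lit 10125545425) (nat_lit 152) (nat_lit 29311710140) (nat_lit 10) (nat_lit 5) (nat_lit 11) (nat_lit 5) (nat_lit 12) (nat_lit 4) (nat_lit 382) (nat_lit 251) (nat_lit 147)))) (XT.nd (nat_lit 78) (nat_lit 0) (nat_lit 0) (XT.lf (nat_lit 0) (nat_lit 20536015997)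 (nat_lit 76) (nat_lit 5442369179) (nat_lit 152) (nat_lit 26091787048) (nat_lit 10) (nat_lit 5) (nat_lit 11) (nat_lit 5) (nat_lit 12) (nat_lit 4) (nat_lit 383) (nat_lit 251) (nat_lit 146)) (XT.nd (nat_lit 78) (nat_lit 0) (nat_lit 0) (XT.lf (nat_lit 0) (nat_lit 30066548873) (nat_lit 76) (nat_lit 628391121) (nat_lit 152) (nat_lit 22787648964) (nat_lit 10) (nat_lit 5) (nat_lit 11) (nat_lit 5) (nat_lit 12) (nat_lit 4) (nat_lit 384) (nat_lit 251) (nat_lit 145)) (XT.lf (nat_lit 0) (nat_lit 35582856637) (nat_lit 152) (nat_lit 15117345845) (nat_lit 0) (nat_lit 4236284762) (nat_lit 10) (nat_lit 5) (nat_lit 12) (nat_lit 4) (nat_lit 10) (nat_lit 4) (nat_lit 385) (nat_lit 251) (nat_lit 144))))) (XT.nd (nat_lit 234) (nat_lit 76) (nat_lit 0) (XT.nd (nat_lit 78) (nat_lit 76) (nat_lit 0) (XT.lf (nat_lit 0) (nat_lit 40612217433) (nat_lit 152) (nat_lit 6596633556) (nat_lit 0) (nat_lit 9225312148) (nat_lit 10)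 (nat_lit 5) (nat_lit 12) (nat_lit 4) (nat_lit 10) (nat_lit 4) (nat_lit 386) (nat_lit 251) (nat_lit 143)) (XT.nd (nat_lit 78) (nat_lit 0) (nat_lit 0) (XT.lf (nat_lit 0) (nat_lit 2202562471) (nat_lit 76) (nat_lit 43599986397) (nat_lit 76) (nat_lit 12173922462) (nat_lit 9) (nat_lit 4) (nat_lit 10) (nat_lit 5) (nat_lit 10) (nat_lit 4) (nat_lit 387) (nat_lit 251) (nat_lit 142)) (XT.lf (nat_lit 0) (nat_lit 11381038574) (nat_lit 76) (nat_lit 39823213481) (nat_lit 76) (nat_lit 8359131439) (nat_lit 9) (nat_lit 4) (nat_lit 10) (nat_lit 5) (nat_lit 10) (nat_lit 4) (nat_lit 388) (nat_lit 251) (nat_lit 141)))) (XT.nd (nat_lit 156) (nat_lit 76) (nat_lit 0) (XT.nd (nat_lit 78) (nat_lit 0) (nat_lit 0) (XT.lf (nat_lit 0) (nat_lit 20815528839) (nat_lit 76) (nat_lit 35941845212) (nat_lit 76) (nat_lit 4440852387) (nat_lit 9) (nat_lit 4) (nat_lit 10) (nat_lit 5) (nat_lit 10) (nat_lit 4) (nat_lit 389) (nat_lit 251)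 (nat_lit 140)) (XT.lf (nat_lit 0) (nat_lit 30514276993) (nat_lit 76) (nat_lit 31952490105) (nat_lit 76) (nat_lit 415661568) (nat_lit 9) (nat_lit 4) (nat_lit 10) (nat_lit 5) (nat_lit 10) (nat_lit 4) (nat_lit 390) (nat_lit 251) (nat_lit 139))) (XT.nd (nat_lit 78) (nat_lit 0) (nat_lit 0) (XT.lf (nat_lit 0) (nat_lit 3647368392) (nat_lit 152) (nat_lit 24167462652) (nat_lit 76) (nat_lit 36801558009) (nat_lit 8) (nat_lit 5) (nat_lit 10) (nat_lit 5) (nat_lit 9) (nat_lit 4) (nat_lit 391) (nat_lit 251) (nat_lit 138)) (XT.lf (nat_lit 0) (nat_lit 7814104491) (nat_lit 152) (nat_lit 15742766967) (nat_lit 76) (nat_lit 42845672193) (nat_lit 8) (nat_lit 5) (nat_lit 10) (nat_lit 5) (nat_lit 9) (nat_lit 4) (nat_lit 392) (nat_lit 251) (nat_lit 137)))))) (XT.nd (nat_lit 546) (nat_lit 76) (nat_lit 0) (XT.nd (nat_lit 234) (nat_lit 0) (nat_lit 0) (XT.nd (nat_lit 78) (nat_lit 76) (nat_lit 0) (XT.lf (nat_lit 0) (nat_lit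 12096298618) (nat_lit 152) (nat_lit 7082707641) (nat_lit 76) (nat_lit 49063566784) (nat_lit 8) (nat_lit 5) (nat_lit 10) (nat_lit 5) (nat_lit 9) (nat_lit 4) (nat_lit 393) (nat_lit 251) (nat_lit 136)) (XT.nd (nat_lit 78) (nat_lit 0) (nat_lit 0) (XT.lf (nat_lit 0) (nat_lit 1856509555) (nat_lit 76) (nat_lit 14659028847) (nat_lit 152) (nat_lit 53622011245) (nat_lit 7) (nat_lit 5) (nat_lit 8) (nat_lit 5) (nat_lit 9) (nat_lit 4) (nat_lit 394) (nat_lit 251) (nat_lit 135)) (XT.lf (nat_lit 0) (nat_lit 11192386139) (nat_lit 76) (nat_lit 9937333931) (nat_lit 152) (nat_lit 50957788154) (nat_lit 7) (nat_lit 5) (nat_lit 8) (nat_lit 5) (nat_lit 9) (nat_lit 4) (nat_lit 395) (nat_lit 251) (nat_lit 134)))) (XT.nd (nat_lit 156) (nat_lit 0) (nat_lit 0) (XT.nd (nat_lit 78) (nat_lit 0) (nat_lit 0) (XT.lf (nat_lit 0) (nat_lit 20792119899) (nat_lit 76) (nat_lit 5081317217) (nat_lit 152) (nat_lit 48222798652) (nat_lit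 7) (nat_lit 5) (nat_lit 8) (nat_lit 5) (nat_lit 9) (nat_lit 4) (nat_lit 396) (nat_lit 251) (nat_lit 133)) (XT.lf (nat_lit 0) (nat_lit 30664098955) (nat_lit 76) (nat_lit 86735584) (nat_lit 152) (nat_lit 45414652943) (nat_lit 7) (nat_lit 5) (nat_lit 8) (nat_lit 5) (nat_lit 9) (nat_lit 4) (nat_lit 397) (nat_lit 251) (nat_lit 132))) (XT.nd (nat_lit 78) (nat_lit 0) (nat_lit 0) (XT.lf (nat_lit 0) (nat_lit 35814725283) (nat_lit 152) (nat_lit 37528673283) (nat_lit 0) (nat_lit 4952216348) (nat_lit 7) (nat_lit 5) (nat_lit 9) (nat_lit 4) (nat_lit 7) (nat_lit 4) (nat_lit 398) (nat_lit 251) (nat_lit 131)) (XT.lf (nat_lit 0) (nat_lit 41023191371) (nat_lit 152) (nat_lit 29332660950) (nat_lit 0) (nat_lit 10134017301) (nat_lit 7) (nat_lit 5) (nat_lit 9) (nat_lit 4) (nat_lit 7) (nat_lit 4) (nat_lit 399) (nat_lit 251) (nat_lit 130))))) (XT.nd (nat_lit 234) (nat_lit 76) (nat_lit 0) (XT.nd (nat_lit 78) (nat_lit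 0) (nat_lit 0) (XT.lf (nat_lit 0) (nat_lit 46379950134) (nat_lit 152) (nat_lit 20905356210) (nat_lit 0) (nat_lit 15464887584) (nat_lit 7) (nat_lit 5) (nat_lit 9) (nat_lit 4) (nat_lit 7) (nat_lit 4) (nat_lit 400) (nat_lit 251) (nat_lit 129)) (XT.nd (nat_lit 78) (nat_lit 0) (nat_lit 0) (XT.lf (nat_lit 0) (nat_lit 51889682237) (nat_lit 152) (nat_lit 12239395399) (nat_lit 0) (nat_lit 20949485239) (nat_lit 7) (nat_lit 5) (nat_lit 9) (nat_lit 4) (nat_lit 7) (nat_lit 4) (nat_lit 401) (nat_lit 251) (nat_lit 128)) (XT.lf (nat_lit 0) (nat_lit 57557202008) (nat_lit 152) (nat_lit 3327206317) (nat_lit 0) (nat_lit 26592602634) (nat_lit 7) (nat_lit 5) (nat_lit 9) (nat_lit 4) (nat_lit 7) (nat_lit 4) (nat_lit 402) (nat_lit 251) (nat_lit 127)))) (XT.nd (nat_lit 156) (nat_lit 0) (nat_lit 0) (XT.nd (nat_lit 78) (nat_lit 0) (nat_lit 0) (XT.lf (nat_lit 0) (nat_lit 5955205901) (nat_lit 76) (nat_lit 57489500829) (nat_lit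 76) (nat_lit 26501209828) (nat_lit 6) (nat_lit 4) (nat_lit 7) (nat_lit 5) (nat_lit 7) (nat_lit 4) (nat_lit 403) (nat_lit 251) (nat_lit 126)) (XT.lf (nat_lit 0) (nat_lit 15571075784) (nat_lit 76) (nat_lit 53964158481) (nat_lit 76) (nat_lit 22952865900) (nat_lit 6) (nat_lit 4) (nat_lit 7) (nat_lit 5) (nat_lit 7) (nat_lit 4) (nat_lit 404) (nat_lit 251) (nat_lit 125))) (XT.nd (nat_lit 78) (nat_lit 0) (nat_lit 0) (XT.lf (nat_lit 0) (nat_lit 25462587619) (nat_lit 76) (nat_lit 50338899145) (nat_lit 76) (nat_lit 19305274933) (nat_lit 6) (nat_lit 4) (nat_lit 7) (nat_lit 5) (nat_lit 7) (nat_lit 4) (nat_lit 405) (nat_lit 251) (nat_lit 124)) (XT.lf (nat_lit 0) (nat_lit 35638384474) (nat_lit 76) (nat_lit 46610555119) (nat_lit 76) (nat_lit 15555249712) (nat_lit 6) (nat_lit 4) (nat_lit 7) (nat_lit 5) (nat_lit 7) (nat_lit 4) (nat_lit 406) (nat_lit 251) (nat_lit 123))))))))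
noncomputable def xc84 : XT := (XT.nd (nat_lit 32292) (nat_lit 0) (nat_lit 3496) (XT.nd (nat_lit 31278) (nat_lit 0) (nat_lit 8816) (XT.nd (nat_lit 30732) (nat_lit 0) (nat_lit 13832) (XT.nd (nat_lit 30498) (nat_lit 0) (nat_lit 17860) (XT.nd (nat_lit 78) (nat_lit 0) (nat_lit 0) (XT.lf (nat_lit 0) (nat_lit 46107357821) (nat_lit 76) (nat_lit 42775868626) (nat_lit 76) (nat_lit 11699513515) (nat_lit 6) (nat_lit 4) (nat_lit 7) (nat_lit 5) (nat_lit 7) (nat_lit 4) (nat_lit 407) (nat_lit 251) (nat_lit 122)) (XT.nd (nat_lit 30342) (nat_lit 0) (nat_lit 19380) (XT.lf (nat_lit 0) (nat_lit 56878655309) (nat_lit 76) (nat_lit 38831488969) (nat_lit 76) (nat_lit 7734697252) (nat_lit 6) (nat_lit 4) (nat_lit 7) (nat_lit 5) (nat_lit 7) (nat_lit 4) (nat_lit 408) (nat_lit 251) (nat_lit 121)) (XT.lf (nat_lit 0) (nat_lit 792813774) (nat_lit 684) (nat_lit 1781587129) (nat_lit 0) (nat_lit 792813774) (nat_lit 261) (nat_lit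 5) (nat_lit 270) (nat_lit 4) (nat_lit 261) (nat_lit 4) (nat_lit 276) (nat_lit 252) (nat_lit 252)))) (XT.nd (nat_lit 78) (nat_lit 836) (nat_lit 0) (XT.lf (nat_lit 0) (nat_lit 463009644) (nat_lit 684) (nat_lit 4153143076) (nat_lit 684) (nat_lit 2157060076) (nat_lit 252) (nat_lit 4) (nat_lit 261) (nat_lit 5) (nat_lit 261) (nat_lit 4) (nat_lit 277) (nat_lit 252) (nat_lit 251)) (XT.nd (nat_lit 78) (nat_lit 760) (nat_lit 0) (XT.lf (nat_lit 0) (nat_lit 843473666) (nat_lit 760) (nat_lit 2221776116) (nat_lit 76) (nat_lit 3749757656) (nat_lit 251) (nat_lit 5) (nat_lit 261) (nat_lit 5) (nat_lit 252) (nat_lit 4) (nat_lit 278) (nat_lit 252) (nat_lit 250)) (XT.lf (nat_lit 0) (nat_lit 1924457091) (nat_lit 760) (nat_lit 1888343115) (nat_lit 836) (nat_lit 3047171101) (nat_lit 241) (nat_lit 5) (nat_lit 251) (nat_lit 5) (nat_lit 252) (nat_lit 4) (nat_lit 279) (nat_lit 252) (nat_lit 249))))) (XT.nd (nat_lit 234)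 (nat_lit 2204) (nat_lit 0) (XT.nd (nat_lit 78) (nat_lit 1824) (nat_lit 0) (XT.lf (nat_lit 0) (nat_lit 6160373365) (nat_lit 760) (nat_lit 638936685) (nat_lit 836) (nat_lit 109344575) (nat_lit 241) (nat_lit 5) (nat_lit 251) (nat_lit 5) (nat_lit 252) (nat_lit 4) (nat_lit 280) (nat_lit 252) (nat_lit 248)) (XT.nd (nat_lit 78) (nat_lit 912) (nat_lit 0) (XT.lf (nat_lit 0) (nat_lit 2807860419) (nat_lit 912) (nat_lit 3441519006) (nat_lit 76) (nat_lit 710334581) (nat_lit 229) (nat_lit 5) (nat_lit 241) (nat_lit 5) (nat_lit 230) (nat_lit 4) (nat_lit 281) (nat_lit 252) (nat_lit 247)) (XT.lf (nat_lit 0) (nat_lit 842683701) (nat_lit 912) (nat_lit 4899113070) (nat_lit 988) (nat_lit 1272729040) (nat_lit 217) (nat_lit 5) (nat_lit 229) (nat_lit 5) (nat_lit 230) (nat_lit 4) (nat_lit 282) (nat_lit 252) (nat_lit 246)))) (XT.nd (nat_lit 156) (nat_lit 1140) (nat_lit 0) (XT.nd (nat_lit 78) (nat_lit 988) (nat_lit 0)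 (XT.lf (nat_lit 0) (nat_lit 1604981845) (nat_lit 988) (nat_lit 1843964418) (nat_lit 76) (nat_lit 3623374497) (nat_lit 216) (nat_lit 5) (nat_lit 229) (nat_lit 5) (nat_lit 217) (nat_lit 5) (nat_lit 283) (nat_lit 252) (nat_lit 245)) (XT.lf (nat_lit 0) (nat_lit 2570364362) (nat_lit 988) (nat_lit 1910552016) (nat_lit 1064) (nat_lit 2652609872) (nat_lit 203) (nat_lit 5) (nat_lit 216) (nat_lit 5) (nat_lit 217) (nat_lit 5) (nat_lit 284) (nat_lit 252) (nat_lit 244))) (XT.nd (nat_lit 78) (nat_lit 1064) (nat_lit 0) (XT.lf (nat_lit 0) (nat_lit 174073430) (nat_lit 1064) (nat_lit 125678560) (nat_lit 76) (nat_lit 6898943748) (nat_lit 202) (nat_lit 5) (nat_lit 216) (nat_lit 5) (nat_lit 203) (nat_lit 5) (nat_lit 285) (nat_lit 252) (nat_lit 243)) (XT.lf (nat_lit 0) (nat_lit 3004609359) (nat_lit 1140) (nat_lit 2854855713) (nat_lit 76) (nat_lit 1406560061) (nat_lit 188) (nat_lit 5) (nat_lit 203) (nat_lit 5) (nat_lit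 189) (nat_lit 5) (nat_lit 286) (nat_lit 252) (nat_lit 242)))))) (XT.nd (nat_lit 468) (nat_lit 2052) (nat_lit 0) (XT.nd (nat_lit 234) (nat_lit 1216) (nat_lit 0) (XT.nd (nat_lit 78) (nat_lit 608) (nat_lit 0) (XT.lf (nat_lit 0) (nat_lit 1700029118) (nat_lit 1140) (nat_lit 4158381388) (nat_lit 1216) (nat_lit 1478972398) (nat_lit 173) (nat_lit 5) (nat_lit 188) (nat_lit 5) (nat_lit 189) (nat_lit 5) (nat_lit 287) (nat_lit 252) (nat_lit 241)) (XT.nd (nat_lit 78) (nat_lit 532) (nat_lit 0) (XT.lf (nat_lit 0) (nat_lit 1307421609) (nat_lit 1216) (nat_lit 1056052865) (nat_lit 76) (nat_lit 5048730562) (nat_lit 172) (nat_lit 5) (nat_lit 188) (nat_lit 5) (nat_lit 173) (nat_lit 5) (nat_lit 288) (nat_lit 252) (nat_lit 240)) (XT.lf (nat_lit 0) (nat_lit 3638954888) (nat_lit 532) (nat_lit 464510154) (nat_lit 608) (nat_lit 3386839463) (nat_lit 165) (nat_lit 5) (nat_lit 172) (nat_lit 5) (nat_lit 173) (nat_lit 5) (nat_lit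 289) (nat_lit 252) (nat_lit 239)))) (XT.nd (nat_lit 78) (nat_lit 608) (nat_lit 0) (XT.lf (nat_lit 0) (nat_lit 846339372) (nat_lit 608) (nat_lit 6092624007) (nat_lit 684) (nat_lit 633257612) (nat_lit 157) (nat_lit 5) (nat_lit 165) (nat_lit 5) (nat_lit 166) (nat_lit 5) (nat_lit 290) (nat_lit 252) (nat_lit 238)) (XT.nd (nat_lit 78) (nat_lit 532) (nat_lit 0) (XT.lf (nat_lit 0) (nat_lit 2126746896) (nat_lit 684) (nat_lit 2000313388) (nat_lit 76) (nat_lit 3530028470) (nat_lit 156) (nat_lit 5) (nat_lit 165) (nat_lit 5) (nat_lit 157) (nat_lit 5) (nat_lit 291) (nat_lit 252) (nat_lit 237)) (XT.lf (nat_lit 0) (nat_lit 2835863735) (nat_lit 532) (nat_lit 2073391935) (nat_lit 608) (nat_lit 2836615080) (nat_lit 149) (nat_lit 5) (nat_lit 156) (nat_lit 5) (nat_lit 157) (nat_lit 5) (nat_lit 292) (nat_lit 252) (nat_lit 236))))) (XT.nd (nat_lit 234) (nat_lit 988) (nat_lit 0) (XT.nd (nat_lit 78) (nat_lit 1064) (nat_lit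 0) (XT.lf (nat_lit 0) (nat_lit 7722571404) (nat_lit 608) (nat_lit 60891800) (nat_lit 76) (nat_lit 55558540) (nat_lit 149) (nat_lit 5) (nat_lit 157) (nat_lit 5) (nat_lit 150) (nat_lit 5) (nat_lit 293) (nat_lit 252) (nat_lit 235)) (XT.nd (nat_lit 78) (nat_lit 456) (nat_lit 0) (XT.lf (nat_lit 0) (nat_lit 2629354794) (nat_lit 608) (nat_lit 3030928007) (nat_lit 76) (nat_lit 2274135294) (nat_lit 141) (nat_lit 5) (nat_lit 149) (nat_lit 5) (nat_lit 142) (nat_lit 5) (nat_lit 294) (nat_lit 252) (nat_lit 234)) (XT.lf (nat_lit 0) (nat_lit 1942055011) (nat_lit 456) (nat_lit 3461610829) (nat_lit 532) (nat_lit 2630636578) (nat_lit 135) (nat_lit 5) (nat_lit 141) (nat_lit 5) (nat_lit 142) (nat_lit 5) (nat_lit 295) (nat_lit 252) (nat_lit 233)))) (XT.nd (nat_lit 156) (nat_lit 456) (nat_lit 0) (XT.nd (nat_lit 78) (nat_lit 456) (nat_lit 0) (XT.lf (nat_lit 0) (nat_lit 82198203) (nat_lit 532) (nat_lit 1092200482)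 (nat_lit 76) (nat_lit 6964039210) (nat_lit 134) (nat_lit 5) (nat_lit 141) (nat_lit 5) (nat_lit 135) (nat_lit 5) (nat_lit 296) (nat_lit 252) (nat_lit 232)) (XT.lf (nat_lit 0) (nat_lit 2805937549) (nat_lit 532) (nat_lit 4225770690) (nat_lit 76) (nat_lit 1213841132) (nat_lit 128) (nat_lit 5) (nat_lit 135) (nat_lit 5) (nat_lit 129) (nat_lit 5) (nat_lit 297) (nat_lit 252) (nat_lit 231))) (XT.nd (nat_lit 78) (nat_lit 0) (nat_lit 0) (XT.lf (nat_lit 0) (nat_lit 877665753) (nat_lit 456) (nat_lit 4697799154) (nat_lit 532) (nat_lit 2781589045) (nat_lit 122) (nat_lit 5) (nat_lit 128) (nat_lit 5) (nat_lit 129) (nat_lit 5) (nat_lit 298) (nat_lit 252) (nat_lit 230)) (XT.lf (nat_lit 0) (nat_lit 6141923992) (nat_lit 456) (nat_lit 2262895933) (nat_lit 532) (nat_lit 67880552) (nat_lit 122) (nat_lit 5) (nat_lit 128) (nat_lit 5) (nat_lit 129) (nat_lit 5) (nat_lit 299) (nat_lit 252) (nat_lit 229))))))) (XT.nd (nat_lit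 1014) (nat_lit 2052) (nat_lit 0) (XT.nd (nat_lit 468) (nat_lit 1520) (nat_lit 0) (XT.nd (nat_lit 234) (nat_lit 836) (nat_lit 0) (XT.nd (nat_lit 78) (nat_lit 380) (nat_lit 0) (XT.lf (nat_lit 0) (nat_lit 2640167726) (nat_lit 532) (nat_lit 5669818831) (nat_lit 76) (nat_lit 282152336) (nat_lit 115) (nat_lit 5) (nat_lit 122) (nat_lit 5) (nat_lit 116) (nat_lit 5) (nat_lit 300) (nat_lit 252) (nat_lit 228)) (XT.nd (nat_lit 78) (nat_lit 380) (nat_lit 0) (XT.lf (nat_lit 0) (nat_lit 5410541637) (nat_lit 532) (nat_lit 436068167) (nat_lit 76) (nat_lit 2869147697) (nat_lit 115) (nat_lit 5) (nat_lit 122) (nat_lit 5) (nat_lit 116) (nat_lit 5) (nat_lit 301) (nat_lit 252) (nat_lit 227)) (XT.lf (nat_lit 0) (nat_lit 4974986666) (nat_lit 380) (nat_lit 3274993104) (nat_lit 456) (nat_lit 593614324) (nat_lit 110) (nat_lit 5) (nat_lit 115) (nat_lit 5) (nat_lit 116) (nat_lit 5) (nat_lit 302) (nat_lit 252) (nat_lit 226))))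 (XT.nd (nat_lit 78) (nat_lit 380) (nat_lit 0) (XT.lf (nat_lit 0) (nat_lit 1513178998) (nat_lit 380) (nat_lit 600747712) (nat_lit 456) (nat_lit 6862062544) (nat_lit 104) (nat_lit 5) (nat_lit 109) (nat_lit 5) (nat_lit 110) (nat_lit 5) (nat_lit 303) (nat_lit 252) (nat_lit 225)) (XT.nd (nat_lit 78) (nat_lit 380) (nat_lit 0) (XT.lf (nat_lit 0) (nat_lit 4890333089) (nat_lit 456) (nat_lit 2080751659) (nat_lit 76) (nat_lit 2141188641) (nat_lit 104) (nat_lit 5) (nat_lit 110) (nat_lit 5) (nat_lit 105) (nat_lit 5) (nat_lit 304) (nat_lit 252) (nat_lit 224)) (XT.lf (nat_lit 0) (nat_lit 3448064122) (nat_lit 380) (nat_lit 4282240160) (nat_lit 456) (nat_lit 1523011789) (nat_lit 99) (nat_lit 5) (nat_lit 104) (nat_lit 5) (nat_lit 105) (nat_lit 5) (nat_lit 305) (nat_lit 252) (nat_lit 223))))) (XT.nd (nat_lit 234) (nat_lit 760) (nat_lit 0) (XT.nd (nat_lit 78) (nat_lit 684) (nat_lit 0) (XT.lf (nat_lit 0) (nat_lit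 1195099905) (nat_lit 456) (nat_lit 301384688) (nat_lit 76) (nat_lit 7902934445) (nat_lit 98) (nat_lit 5) (nat_lit 104) (nat_lit 5) (nat_lit 99) (nat_lit 5) (nat_lit 306) (nat_lit 252) (nat_lit 222)) (XT.nd (nat_lit 78) (nat_lit 304) (nat_lit 0) (XT.lf (nat_lit 0) (nat_lit 3972806263) (nat_lit 456) (nat_lit 4180102413) (nat_lit 76) (nat_lit 1396355732) (nat_lit 93) (nat_lit 5) (nat_lit 99) (nat_lit 5) (nat_lit 94) (nat_lit 5) (nat_lit 307) (nat_lit 252) (nat_lit 221)) (XT.lf (nat_lit 0) (nat_lit 1450804009) (nat_lit 304) (nat_lit 5358877177) (nat_lit 380) (nat_lit 2894718313) (nat_lit 89) (nat_lit 5) (nat_lit 93) (nat_lit 5) (nat_lit 94) (nat_lit 5) (nat_lit 308) (nat_lit 252) (nat_lit 220)))) (XT.nd (nat_lit 156) (nat_lit 304) (nat_lit 0) (XT.nd (nat_lit 78) (nat_lit 456) (nat_lit 0) (XT.lf (nat_lit 0) (nat_lit 7261913457) (nat_lit 304) (nat_lit 2456876629) (nat_lit 380) (nat_lit 145852182)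 (nat_lit 89) (nat_lit 5) (nat_lit 93) (nat_lit 5) (nat_lit 94) (nat_lit 5) (nat_lit 309) (nat_lit 252) (nat_lit 219)) (XT.lf (nat_lit 0) (nat_lit 2615065611) (nat_lit 456) (nat_lit 6854646379) (nat_lit 76) (nat_lit 559809808) (nat_lit 83) (nat_lit 5) (nat_lit 89) (nat_lit 5) (nat_lit 84) (nat_lit 5) (nat_lit 310) (nat_lit 252) (nat_lit 218))) (XT.nd (nat_lit 78) (nat_lit 304) (nat_lit 0) (XT.lf (nat_lit 0) (nat_lit 5453364467) (nat_lit 456) (nat_lit 1119563454) (nat_lit 76) (nat_lit 3626513652) (nat_lit 83) (nat_lit 5) (nat_lit 89) (nat_lit 5) (nat_lit 84) (nat_lit 5) (nat_lit 311) (nat_lit 252) (nat_lit 217)) (XT.lf (nat_lit 0) (nat_lit 4809445282) (nat_lit 304) (nat_lit 3561770010) (nat_lit 380) (nat_lit 2003471494) (nat_lit 79) (nat_lit 5) (nat_lit 83) (nat_lit 5) (nat_lit 84) (nat_lit 5) (nat_lit 312) (nat_lit 252) (nat_lit 216)))))) (XT.nd (nat_lit 468) (nat_lit 1064) (nat_lit 0) (XT.nd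 (nat_lit 234) (nat_lit 380) (nat_lit 0) (XT.nd (nat_lit 78) (nat_lit 228) (nat_lit 0) (XT.lf (nat_lit 0) (nat_lit 310114248) (nat_lit 304) (nat_lit 458101759) (nat_lit 380) (nat_lit 9787907992) (nat_lit 74) (nat_lit 5) (nat_lit 78) (nat_lit 5) (nat_lit 79) (nat_lit 5) (nat_lit 313) (nat_lit 252) (nat_lit 215)) (XT.nd (nat_lit 78) (nat_lit 228) (nat_lit 0) (XT.lf (nat_lit 0) (nat_lit 3614913130) (nat_lit 380) (nat_lit 4385244965) (nat_lit 76) (nat_lit 2741342189) (nat_lit 74) (nat_lit 5) (nat_lit 79) (nat_lit 5) (nat_lit 75) (nat_lit 5) (nat_lit 314) (nat_lit 252) (nat_lit 214)) (XT.lf (nat_lit 0) (nat_lit 1607277037) (nat_lit 228) (nat_lit 4910250510) (nat_lit 304) (nat_lit 4415848068) (nat_lit 71) (nat_lit 5) (nat_lit 74) (nat_lit 5) (nat_lit 75) (nat_lit 5) (nat_lit 315) (nat_lit 252) (nat_lit 213)))) (XT.nd (nat_lit 78) (nat_lit 380) (nat_lit 0) (XT.lf (nat_lit 0) (nat_lit 7799269131) (nat_lit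 228) (nat_lit 1703530298) (nat_lit 304) (nat_lit 1628392109) (nat_lit 71) (nat_lit 5) (nat_lit 74) (nat_lit 5) (nat_lit 75) (nat_lit 5) (nat_lit 316) (nat_lit 252) (nat_lit 212)) (XT.nd (nat_lit 78) (nat_lit 0) (nat_lit 0) (XT.lf (nat_lit 0) (nat_lit 1213259817) (nat_lit 380) (nat_lit 8534881453) (nat_lit 76) (nat_lit 1586646386) (nat_lit 66) (nat_lit 5) (nat_lit 71) (nat_lit 5) (nat_lit 67) (nat_lit 5) (nat_lit 317) (nat_lit 252) (nat_lit 211)) (XT.lf (nat_lit 0) (nat_lit 4111003971) (nat_lit 380) (nat_lit 2462543766) (nat_lit 76) (nat_lit 4970400403) (nat_lit 66) (nat_lit 5) (nat_lit 71) (nat_lit 5) (nat_lit 67) (nat_lit 5) (nat_lit 318) (nat_lit 252) (nat_lit 210))))) (XT.nd (nat_lit 234) (nat_lit 532) (nat_lit 0) (XT.nd (nat_lit 78) (nat_lit 304) (nat_lit 0) (XT.lf (nat_lit 0) (nat_lit 3798385354) (nat_lit 228) (nat_lit 3287910498) (nat_lit 304) (nat_lit 4673415058) (nat_lit 63) (nat_lit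 5) (nat_lit 66) (nat_lit 5) (nat_lit 67) (nat_lit 5) (nat_lit 319) (nat_lit 252) (nat_lit 209)) (XT.nd (nat_lit 78) (nat_lit 304) (nat_lit 0) (XT.lf (nat_lit 0) (nat_lit 10131470788) (nat_lit 304) (nat_lit 1752976384) (nat_lit 76) (nat_lit 98125258) (nat_lit 63) (nat_lit 5) (nat_lit 67) (nat_lit 5) (nat_lit 64) (nat_lit 5) (nat_lit 320) (nat_lit 252) (nat_lit 208)) (XT.lf (nat_lit 0) (nat_lit 1068560854) (nat_lit 304) (nat_lit 7588407145) (nat_lit 76) (nat_lit 3553890830) (nat_lit 59) (nat_lit 5) (nat_lit 63) (nat_lit 5) (nat_lit 60) (nat_lit 5) (nat_lit 321) (nat_lit 252) (nat_lit 207)))) (XT.nd (nat_lit 156) (nat_lit 304) (nat_lit 0) (XT.nd (nat_lit 78) (nat_lit 228) (nat_lit 0) (XT.lf (nat_lit 0) (nat_lit 4012575570) (nat_lit 304) (nat_lit 1305393054) (nat_lit 76) (nat_lit 7128297147) (nat_lit 59) (nat_lit 5) (nat_lit 63) (nat_lit 5) (nat_lit 60) (nat_lit 5) (nat_lit 322) (nat_lit 252) (nat_lit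 206)) (XT.lf (nat_lit 0) (nat_lit 5203075038) (nat_lit 228) (nat_lit 1849220506) (nat_lit 304) (nat_lit 5636257456) (nat_lit 56) (nat_lit 5) (nat_lit 59) (nat_lit 5) (nat_lit 60) (nat_lit 5) (nat_lit 323) (nat_lit 252) (nat_lit 205))) (XT.nd (nat_lit 78) (nat_lit 304) (nat_lit 0) (XT.lf (nat_lit 0) (nat_lit 10170873692) (nat_lit 304) (nat_lit 1085877553) (nat_lit 76) (nat_lit 1681766072) (nat_lit 56) (nat_lit 5) (nat_lit 60) (nat_lit 5) (nat_lit 57) (nat_lit 5) (nat_lit 324) (nat_lit 252) (nat_lit 204)) (XT.lf (nat_lit 0) (nat_lit 214148164) (nat_lit 304) (nat_lit 7664974917) (nat_lit 76) (nat_lit 5315916736) (nat_lit 52) (nat_lit 5) (nat_lit 56) (nat_lit 5) (nat_lit 53) (nat_lit 5) (nat_lit 325) (nat_lit 252) (nat_lit 203))))))))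
noncomputable def xc85 : XT := (XT.nd (nat_lit 2028) (nat_lit 1064) (nat_lit 0) (XT.nd (nat_lit 1014) (nat_lit 836) (nat_lit 0) (XT.nd (nat_lit 468) (nat_lit 608) (nat_lit 0) (XT.nd (nat_lit 234) (nat_lit 456) (nat_lit 0) (XT.nd (nat_lit 78) (nat_lit 152) (nat_lit 0) (XT.lf (nat_lit 0) (nat_lit 3200013473) (nat_lit 304) (nat_lit 1183051860) (nat_lit 76) (nat_lit 9076298392) (nat_lit 52) (nat_lit 5) (nat_lit 56) (nat_lit 5) (nat_lit 53) (nat_lit 5) (nat_lit 326) (nat_lit 252) (nat_lit 202)) (XT.nd (nat_lit 78) (nat_lit 0) (nat_lit 0) (XT.lf (nat_lit 0) (nat_lit 5539921149) (nat_lit 152) (nat_lit 749148703) (nat_lit 228) (nat_lit 7442173224) (nat_lit 50) (nat_lit 5) (nat_lit 52) (nat_lit 5) (nat_lit 53) (nat_lit 5) (nat_lit 327) (nat_lit 252) (nat_lit 201)) (XT.lf (nat_lit 0) (nat_lit 9472361888) (nat_lit 228) (nat_lit 1612885859) (nat_lit 76) (nat_lit 2926017327) (nat_lit 50) (nat_lit 5) (nat_lit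 53) (nat_lit 5) (nat_lit 51) (nat_lit 5) (nat_lit 328) (nat_lit 252) (nat_lit 200)))) (XT.nd (nat_lit 78) (nat_lit 228) (nat_lit 0) (XT.lf (nat_lit 0) (nat_lit 5196793339) (nat_lit 228) (nat_lit 7573596542) (nat_lit 304) (nat_lit 1528752953) (nat_lit 47) (nat_lit 5) (nat_lit 50) (nat_lit 5) (nat_lit 51) (nat_lit 5) (nat_lit 329) (nat_lit 252) (nat_lit 199)) (XT.nd (nat_lit 78) (nat_lit 152) (nat_lit 0) (XT.lf (nat_lit 0) (nat_lit 1519481347) (nat_lit 304) (nat_lit 2426910437) (nat_lit 76) (nat_lit 10649488791) (nat_lit 46) (nat_lit 5) (nat_lit 50) (nat_lit 5) (nat_lit 47) (nat_lit 5) (nat_lit 330) (nat_lit 252) (nat_lit 198)) (XT.lf (nat_lit 0) (nat_lit 4462187027) (nat_lit 152) (nat_lit 172250152) (nat_lit 228) (nat_lit 10266478642) (nat_lit 44) (nat_lit 5) (nat_lit 46) (nat_lit 5) (nat_lit 47) (nat_lit 5) (nat_lit 331) (nat_lit 252) (nat_lit 197))))) (XT.nd (nat_lit 234) (nat_lit 380) (nat_lit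 0) (XT.nd (nat_lit 78) (nat_lit 228) (nat_lit 0) (XT.lf (nat_lit 0) (nat_lit 7866720728) (nat_lit 228) (nat_lit 3701495132) (nat_lit 76) (nat_lit 3646198517) (nat_lit 44) (nat_lit 5) (nat_lit 47) (nat_lit 5) (nat_lit 45) (nat_lit 5) (nat_lit 332) (nat_lit 252) (nat_lit 196)) (XT.nd (nat_lit 78) (nat_lit 0) (nat_lit 0) (XT.lf (nat_lit 0) (nat_lit 3242252774) (nat_lit 228) (nat_lit 7951074884) (nat_lit 304) (nat_lit 4344097378) (nat_lit 41) (nat_lit 5) (nat_lit 44) (nat_lit 5) (nat_lit 45) (nat_lit 5) (nat_lit 333) (nat_lit 252) (nat_lit 195)) (XT.lf (nat_lit 0) (nat_lit 10413585235) (nat_lit 228) (nat_lit 4208498671) (nat_lit 304) (nat_lit 1247998556) (nat_lit 41) (nat_lit 5) (nat_lit 44) (nat_lit 5) (nat_lit 45) (nat_lit 5) (nat_lit 334) (nat_lit 252) (nat_lit 194)))) (XT.nd (nat_lit 156) (nat_lit 152) (nat_lit 0) (XT.nd (nat_lit 78) (nat_lit 0) (nat_lit 0) (XT.lf (nat_lit 0) (nat_lit 1543126433)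 (nat_lit 152) (nat_lit 340445776) (nat_lit 228) (nat_lit 14329199161) (nat_lit 38) (nat_lit 5) (nat_lit 40) (nat_lit 5) (nat_lit 41) (nat_lit 5) (nat_lit 335) (nat_lit 252) (nat_lit 193)) (XT.lf (nat_lit 0) (nat_lit 5140575281) (nat_lit 228) (nat_lit 7803380787) (nat_lit 76) (nat_lit 3619741816) (nat_lit 38) (nat_lit 5) (nat_lit 41) (nat_lit 5) (nat_lit 39) (nat_lit 5) (nat_lit 336) (nat_lit 252) (nat_lit 192))) (XT.nd (nat_lit 78) (nat_lit 152) (nat_lit 0) (XT.lf (nat_lit 0) (nat_lit 8465550719) (nat_lit 228) (nat_lit 788827172) (nat_lit 76) (nat_lit 7671690407) (nat_lit 38) (nat_lit 5) (nat_lit 41) (nat_lit 5) (nat_lit 39) (nat_lit 5) (nat_lit 337) (nat_lit 252) (nat_lit 191)) (XT.lf (nat_lit 0) (nat_lit 6510460230) (nat_lit 152) (nat_lit 5410253565) (nat_lit 228) (nat_lit 5377706153) (nat_lit 36) (nat_lit 5) (nat_lit 38) (nat_lit 5) (nat_lit 39) (nat_lit 5) (nat_lit 338) (nat_lit 252) (nat_lit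 190)))))) (XT.nd (nat_lit 468) (nat_lit 456) (nat_lit 0) (XT.nd (nat_lit 234) (nat_lit 152) (nat_lit 0) (XT.nd (nat_lit 78) (nat_lit 228) (nat_lit 0) (XT.lf (nat_lit 0) (nat_lit 13992668200) (nat_lit 152) (nat_lit 1463119207) (nat_lit 228) (nat_lit 2226889668) (nat_lit 36) (nat_lit 5) (nat_lit 38) (nat_lit 5) (nat_lit 39) (nat_lit 5) (nat_lit 339) (nat_lit 252) (nat_lit 189)) (XT.nd (nat_lit 78) (nat_lit 0) (nat_lit 0) (XT.lf (nat_lit 0) (nat_lit 1027628500) (nat_lit 228) (nat_lit 14472751166) (nat_lit 76) (nat_lit 2576938324) (nat_lit 33) (nat_lit 5) (nat_lit 36) (nat_lit 5) (nat_lit 34) (nat_lit 5) (nat_lit 340) (nat_lit 252) (nat_lit 188)) (XT.lf (nat_lit 0) (nat_lit 4356252117) (nat_lit 228) (nat_lit 7377554566) (nat_lit 76) (nat_lit 6748713833) (nat_lit 33) (nat_lit 5) (nat_lit 36) (nat_lit 5) (nat_lit 34) (nat_lit 5) (nat_lit 341) (nat_lit 252) (nat_lit 187)))) (XT.nd (nat_lit 78) (nat_lit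 152) (nat_lit 0) (XT.lf (nat_lit 0) (nat_lit 7754745188) (nat_lit 228) (nat_lit 119591365) (nat_lit 76) (nat_lit 11026462317) (nat_lit 33) (nat_lit 5) (nat_lit 36) (nat_lit 5) (nat_lit 34) (nat_lit 5) (nat_lit 342) (nat_lit 252) (nat_lit 186)) (XT.nd (nat_lit 78) (nat_lit 0) (nat_lit 0) (XT.lf (nat_lit 0) (nat_lit 7452913531) (nat_lit 152) (nat_lit 3844805704) (nat_lit 228) (nat_lit 8032650049) (nat_lit 31) (nat_lit 5) (nat_lit 33) (nat_lit 5) (nat_lit 34) (nat_lit 5) (nat_lit 343) (nat_lit 252) (nat_lit 185)) (XT.lf (nat_lit 0) (nat_lit 14922222482) (nat_lit 228) (nat_lit 4569542934) (nat_lit 76) (nat_lit 281823118) (nat_lit 31) (nat_lit 5) (nat_lit 34) (nat_lit 5) (nat_lit 32) (nat_lit 4) (nat_lit 344) (nat_lit 252) (nat_lit 184))))) (XT.nd (nat_lit 234) (nat_lit 228) (nat_lit 0) (XT.nd (nat_lit 78) (nat_lit 76) (nat_lit 0) (XT.lf (nat_lit 0) (nat_lit 2929275598) (nat_lit 152) (nat_lit 15764335517)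 (nat_lit 228) (nat_lit 1535367112) (nat_lit 29) (nat_lit 5) (nat_lit 31) (nat_lit 5) (nat_lit 32) (nat_lit 4) (nat_lit 345) (nat_lit 252) (nat_lit 183)) (XT.nd (nat_lit 78) (nat_lit 0) (nat_lit 0) (XT.lf (nat_lit 0) (nat_lit 1862023727) (nat_lit 228) (nat_lit 10015979762) (nat_lit 76) (nat_lit 8818943266) (nat_lit 28) (nat_lit 5) (nat_lit 31) (nat_lit 5) (nat_lit 29) (nat_lit 5) (nat_lit 346) (nat_lit 252) (nat_lit 182)) (XT.lf (nat_lit 0) (nat_lit 5303291878) (nat_lit 228) (nat_lit 2575096999) (nat_lit 76) (nat_lit 13300941778) (nat_lit 28) (nat_lit 5) (nat_lit 31) (nat_lit 5) (nat_lit 29) (nat_lit 5) (nat_lit 347) (nat_lit 252) (nat_lit 181)))) (XT.nd (nat_lit 156) (nat_lit 76) (nat_lit 0) (XT.nd (nat_lit 78) (nat_lit 0) (nat_lit 0) (XT.lf (nat_lit 0) (nat_lit 5144595883) (nat_lit 152) (nat_lit 3726261936) (nat_lit 228) (nat_lit 12804652785) (nat_lit 26) (nat_lit 5) (nat_lit 28) (nat_lit 5)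 (nat_lit 29) (nat_lit 5) (nat_lit 348) (nat_lit 252) (nat_lit 180)) (XT.lf (nat_lit 0) (nat_lit 12550775627) (nat_lit 228) (nat_lit 9087665852) (nat_lit 76) (nat_lit 547990576) (nat_lit 26) (nat_lit 5) (nat_lit 29) (nat_lit 5) (nat_lit 27) (nat_lit 4) (nat_lit 349) (nat_lit 252) (nat_lit 179))) (XT.nd (nat_lit 78) (nat_lit 76) (nat_lit 0) (XT.lf (nat_lit 0) (nat_lit 16352521483) (nat_lit 228) (nat_lit 1501690869) (nat_lit 76) (nat_lit 4858141267) (nat_lit 26) (nat_lit 5) (nat_lit 29) (nat_lit 5) (nat_lit 27) (nat_lit 4) (nat_lit 350) (nat_lit 252) (nat_lit 178)) (XT.lf (nat_lit 0) (nat_lit 6394232360) (nat_lit 76) (nat_lit 13910831106) (nat_lit 152) (nat_lit 2947901993) (nat_lit 25) (nat_lit 5) (nat_lit 26) (nat_lit 5) (nat_lit 27) (nat_lit 4) (nat_lit 351) (nat_lit 252) (nat_lit 177))))))) (XT.nd (nat_lit 1014) (nat_lit 456) (nat_lit 0) (XT.nd (nat_lit 468) (nat_lit 304) (nat_lit 0) (XT.nd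 (nat_lit 234) (nat_lit 76) (nat_lit 0) (XT.nd (nat_lit 78) (nat_lit 152) (nat_lit 0) (XT.lf (nat_lit 0) (nat_lit 545987131) (nat_lit 152) (nat_lit 9299613490) (nat_lit 76) (nat_lit 13964326181) (nat_lit 24) (nat_lit 5) (nat_lit 26) (nat_lit 5) (nat_lit 25) (nat_lit 5) (nat_lit 352) (nat_lit 252) (nat_lit 176)) (XT.nd (nat_lit 78) (nat_lit 152) (nat_lit 0) (XT.lf (nat_lit 0) (nat_lit 4061500335) (nat_lit 152) (nat_lit 1584164381) (nat_lit 76) (nat_lit 18737788607) (nat_lit 24) (nat_lit 5) (nat_lit 26) (nat_lit 5) (nat_lit 25) (nat_lit 5) (nat_lit 353) (nat_lit 252) (nat_lit 175)) (XT.lf (nat_lit 0) (nat_lit 6448526905) (nat_lit 152) (nat_lit 1272693891) (nat_lit 228) (nat_lit 17251815862) (nat_lit 22) (nat_lit 5) (nat_lit 24) (nat_lit 5) (nat_lit 25) (nat_lit 5) (nat_lit 354) (nat_lit 252) (nat_lit 174)))) (XT.nd (nat_lit 78) (nat_lit 76) (nat_lit 0) (XT.lf (nat_lit 0) (nat_lit 11514840847) (nat_lit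 228) (nat_lit 10896579351) (nat_lit 76) (nat_lit 3168176941) (nat_lit 22) (nat_lit 5) (nat_lit 25) (nat_lit 5) (nat_lit 23) (nat_lit 4) (nat_lit 355) (nat_lit 252) (nat_lit 173)) (XT.nd (nat_lit 78) (nat_lit 76) (nat_lit 0) (XT.lf (nat_lit 0) (nat_lit 15412433349) (nat_lit 228) (nat_lit 3091444297) (nat_lit 76) (nat_lit 7700784386) (nat_lit 22) (nat_lit 5) (nat_lit 25) (nat_lit 5) (nat_lit 23) (nat_lit 4) (nat_lit 356) (nat_lit 252) (nat_lit 172)) (XT.lf (nat_lit 0) (nat_lit 5007666961) (nat_lit 76) (nat_lit 14445639848) (nat_lit 152) (nat_lit 7394393612) (nat_lit 21) (nat_lit 5) (nat_lit 22) (nat_lit 5) (nat_lit 23) (nat_lit 4) (nat_lit 357) (nat_lit 252) (nat_lit 171))))) (XT.nd (nat_lit 234) (nat_lit 76) (nat_lit 0) (XT.nd (nat_lit 78) (nat_lit 228) (nat_lit 0) (XT.lf (nat_lit 0) (nat_lit 13375599194) (nat_lit 76) (nat_lit 10249515003) (nat_lit 152) (nat_lit 3884636328) (nat_lit 21) (nat_lit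 5) (nat_lit 22) (nat_lit 5) (nat_lit 23) (nat_lit 4) (nat_lit 358) (nat_lit 252) (nat_lit 170)) (XT.nd (nat_lit 78) (nat_lit 228) (nat_lit 0) (XT.lf (nat_lit 0) (nat_lit 21958138382) (nat_lit 76) (nat_lit 5943054120) (nat_lit 152) (nat_lit 291107579) (nat_lit 21) (nat_lit 5) (nat_lit 22) (nat_lit 5) (nat_lit 23) (nat_lit 4) (nat_lit 359) (nat_lit 252) (nat_lit 169)) (XT.lf (nat_lit 0) (nat_lit 1870763332) (nat_lit 152) (nat_lit 1470414114) (nat_lit 228) (nat_lit 25553251146) (nat_lit 18) (nat_lit 5) (nat_lit 20) (nat_lit 5) (nat_lit 21) (nat_lit 5) (nat_lit 360) (nat_lit 252) (nat_lit 168)))) (XT.nd (nat_lit 156) (nat_lit 76) (nat_lit 0) (XT.nd (nat_lit 78) (nat_lit 0) (nat_lit 0) (XT.lf (nat_lit 0) (nat_lit 7149928377) (nat_lit 228) (nat_lit 19338665435) (nat_lit 76) (nat_lit 3126750708) (nat_lit 18) (nat_lit 5) (nat_lit 21) (nat_lit 5) (nat_lit 19) (nat_lit 4) (nat_lit 361) (nat_lit 252) (nat_lit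 167)) (XT.lf (nat_lit 0) (nat_lit 11067717070) (nat_lit 228) (nat_lit 11472537067) (nat_lit 76) (nat_lit 7817800705) (nat_lit 18) (nat_lit 5) (nat_lit 21) (nat_lit 5) (nat_lit 19) (nat_lit 4) (nat_lit 362) (nat_lit 252) (nat_lit 166))) (XT.nd (nat_lit 78) (nat_lit 76) (nat_lit 0) (XT.lf (nat_lit 0) (nat_lit 15083832315) (nat_lit 228) (nat_lit 3404272322) (nat_lit 76) (nat_lit 12635527926) (nat_lit 18) (nat_lit 5) (nat_lit 21) (nat_lit 5) (nat_lit 19) (nat_lit 4) (nat_lit 363) (nat_lit 252) (nat_lit 165)) (XT.lf (nat_lit 0) (nat_lit 4970164554) (nat_lit 76) (nat_lit 14279395048) (nat_lit 152) (nat_lit 12661753745) (nat_lit 17) (nat_lit 5) (nat_lit 18) (nat_lit 5) (nat_lit 19) (nat_lit 4) (nat_lit 364) (nat_lit 252) (nat_lit 164)))))) (XT.nd (nat_lit 546) (nat_lit 228) (nat_lit 0) (XT.nd (nat_lit 234) (nat_lit 228) (nat_lit 0) (XT.nd (nat_lit 78) (nat_lit 0) (nat_lit 0) (XT.lf (nat_lit 0) (nat_lit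 13633079330) (nat_lit 76) (nat_lit 9923138523) (nat_lit 152) (nat_lit 9165937237) (nat_lit 17) (nat_lit 5) (nat_lit 18) (nat_lit 5) (nat_lit 19) (nat_lit 4) (nat_lit 365) (nat_lit 252) (nat_lit 163)) (XT.nd (nat_lit 78) (nat_lit 0) (nat_lit 0) (XT.lf (nat_lit 0) (nat_lit 22524289848) (nat_lit 76) (nat_lit 5449905099) (nat_lit 152) (nat_lit 5583672603) (nat_lit 17) (nat_lit 5) (nat_lit 18) (nat_lit 5) (nat_lit 19) (nat_lit 4) (nat_lit 366) (nat_lit 252) (nat_lit 162)) (XT.lf (nat_lit 0) (nat_lit 31651565129) (nat_lit 76) (nat_lit 855786125) (nat_lit 152) (nat_lit 1911829709) (nat_lit 17) (nat_lit 5) (nat_lit 18) (nat_lit 5) (nat_lit 19) (nat_lit 4) (nat_lit 367) (nat_lit 252) (nat_lit 161)))) (XT.nd (nat_lit 156) (nat_lit 0) (nat_lit 0) (XT.nd (nat_lit 78) (nat_lit 0) (nat_lit 0) (XT.lf (nat_lit 0) (nat_lit 1910375189) (nat_lit 228) (nat_lit 29530874812) (nat_lit 76) (nat_lit 3862251718) (nat_lit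 14) (nat_lit 5) (nat_lit 17) (nat_lit 5) (nat_lit 15) (nat_lit 4) (nat_lit 368) (nat_lit 252) (nat_lit 160)) (XT.lf (nat_lit 0) (nat_lit 5828572196) (nat_lit 228) (nat_lit 21645599818) (nat_lit 76) (nat_lit 8739027691) (nat_lit 14) (nat_lit 5) (nat_lit 17) (nat_lit 5) (nat_lit 15) (nat_lit 4) (nat_lit 369) (nat_lit 252) (nat_lit 159))) (XT.nd (nat_lit 78) (nat_lit 0) (nat_lit 0) (XT.lf (nat_lit 0) (nat_lit 9847863185) (nat_lit 228) (nat_lit 13553104092) (nat_lit 76) (nat_lit 13749722708) (nat_lit 14) (nat_lit 5) (nat_lit 17) (nat_lit 5) (nat_lit 15) (nat_lit 4) (nat_lit 370) (nat_lit 252) (nat_lit 158)) (XT.lf (nat_lit 0) (nat_lit 13971760157) (nat_lit 228) (nat_lit 5246316521) (nat_lit 76) (nat_lit 18898715046) (nat_lit 14) (nat_lit 5) (nat_lit 17) (nat_lit 5) (nat_lit 15) (nat_lit 4) (nat_lit 371) (nat_lit 252) (nat_lit 157))))) (XT.nd (nat_lit 234) (nat_lit 152) (nat_lit 0) (XT.nd (nat_lit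 78) (nat_lit 0) (nat_lit 0) (XT.lf (nat_lit 0) (nat_lit 3347339910) (nat_lit 76) (nat_lit 14888703285) (nat_lit 152) (nat_lit 20875340595) (nat_lit 13) (nat_lit 5) (nat_lit 14) (nat_lit 5) (nat_lit 15) (nat_lit 4) (nat_lit 372) (nat_lit 252) (nat_lit 156)) (XT.nd (nat_lit 78) (nat_lit 0) (nat_lit 0) (XT.lf (nat_lit 0) (nat_lit 12278968068) (nat_lit 76) (nat_lit 10386945107) (nat_lit 152) (nat_lit 17468777825) (nat_lit 13) (nat_lit 5) (nat_lit 14) (nat_lit 5) (nat_lit 15) (nat_lit 4) (nat_lit 373) (nat_lit 252) (nat_lit 155)) (XT.lf (nat_lit 0) (nat_lit 21451960302) (nat_lit 76) (nat_lit 5761846078) (nat_lit 152) (nat_lit 13975344159) (nat_lit 13) (nat_lit 5) (nat_lit 14) (nat_lit 5) (nat_lit 15) (nat_lit 4) (nat_lit 374) (nat_lit 252) (nat_lit 154)))) (XT.nd (nat_lit 156) (nat_lit 152) (nat_lit 0) (XT.nd (nat_lit 78) (nat_lit 0) (nat_lit 0) (XT.lf (nat_lit 0) (nat_lit 30874331847) (nat_lit 76)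 (nat_lit 1009364849) (nat_lit 152) (nat_lit 10391987084) (nat_lit 13) (nat_lit 5) (nat_lit 14) (nat_lit 5) (nat_lit 15) (nat_lit 4) (nat_lit 375) (nat_lit 252) (nat_lit 153)) (XT.lf (nat_lit 0) (nat_lit 36716910130) (nat_lit 152) (nat_lit 2878169797) (nat_lit 0) (nat_lit 3799042830) (nat_lit 13) (nat_lit 5) (nat_lit 15) (nat_lit 4) (nat_lit 13) (nat_lit 4) (nat_lit 376) (nat_lit 252) (nat_lit 152))) (XT.nd (nat_lit 78) (nat_lit 76) (nat_lit 0) (XT.lf (nat_lit 0) (nat_lit 5982819995) (nat_lit 76) (nat_lit 35766090392) (nat_lit 76) (nat_lit 2795597141) (nat_lit 12) (nat_lit 4) (nat_lit 13) (nat_lit 5) (nat_lit 13) (nat_lit 4) (nat_lit 377) (nat_lit 252) (nat_lit 151)) (XT.lf (nat_lit 0) (nat_lit 1194664879) (nat_lit 152) (nat_lit 30596416702) (nat_lit 76) (nat_lit 13937511598) (nat_lit 11) (nat_lit 5) (nat_lit 13) (nat_lit 5) (nat_lit 12) (nat_lit 4) (nat_lit 378) (nat_lit 252) (nat_lit 150))))))))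
noncomputable def xc86 : XT := (XT.nd (nat_lit 2028) (nat_lit 0) (nat_lit 0) (XT.nd (nat_lit 1014) (nat_lit 152) (nat_lit 0) (XT.nd (nat_lit 468) (nat_lit 152) (nat_lit 0) (XT.nd (nat_lit 234) (nat_lit 76) (nat_lit 0) (XT.nd (nat_lit 78) (nat_lit 0) (nat_lit 0) (XT.lf (nat_lit 0) (nat_lit 5235155634) (nat_lit 152) (nat_lit 22443825474) (nat_lit 76) (nat_lit 19268794426) (nat_lit 11) (nat_lit 5) (nat_lit 13) (nat_lit 5) (nat_lit 12) (nat_lit 4) (nat_lit 379) (nat_lit 252) (nat_lit 149)) (XT.nd (nat_lit 78) (nat_lit 0) (nat_lit 0) (XT.lf (nat_lit 0) (nat_lit 9383957820) (nat_lit 152) (nat_lit 14069917238) (nat_lit 76) (nat_lit 24750051036) (nat_lit 11) (nat_lit 5) (nat_lit 13) (nat_lit 5) (nat_lit 12) (nat_lit 4) (nat_lit 380) (nat_lit 252) (nat_lit 148)) (XT.lf (nat_lit 0) (nat_lit 13644696601) (nat_lit 152) (nat_lit 5467374987) (nat_lit 76) (nat_lit 30386070873) (nat_lit 11) (nat_lit 5) (nat_lit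 13) (nat_lit 5) (nat_lit 12) (nat_lit 4) (nat_lit 381) (nat_lit 252) (nat_lit 147)))) (XT.nd (nat_lit 78) (nat_lit 0) (nat_lit 0) (XT.lf (nat_lit 0) (nat_lit 3438413903) (nat_lit 76) (nat_lit 14615733190) (nat_lit 152) (nat_lit 32776416850) (nat_lit 10) (nat_lit 5) (nat_lit 11) (nat_lit 5) (nat_lit 12) (nat_lit 4) (nat_lit 382) (nat_lit 252) (nat_lit 146)) (XT.nd (nat_lit 78) (nat_lit 0) (nat_lit 0) (XT.lf (nat_lit 0) (nat_lit 12701741777) (nat_lit 76) (nat_lit 9937332055) (nat_lit 152) (nat_lit 29562593611) (nat_lit 10) (nat_lit 5) (nat_lit 11) (nat_lit 5) (nat_lit 12) (nat_lit 4) (nat_lit 383) (nat_lit 252) (nat_lit 145)) (XT.lf (nat_lit 0) (nat_lit 22221891320) (nat_lit 76) (nat_lit 5127990028) (nat_lit 152) (nat_lit 26264377714) (nat_lit 10) (nat_lit 5) (nat_lit 11) (nat_lit 5) (nat_lit 12) (nat_lit 4) (nat_lit 384) (nat_lit 252) (nat_lit 144))))) (XT.nd (nat_lit 234) (nat_lit 152) (nat_lit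 0) (XT.nd (nat_lit 78) (nat_lit 0) (nat_lit 0) (XT.lf (nat_lit 0) (nat_lit 32007181109) (nat_lit 76) (nat_lit 183504771) (nat_lit 152) (nat_lit 22878887224) (nat_lit 10) (nat_lit 5) (nat_lit 11) (nat_lit 5) (nat_lit 12) (nat_lit 4) (nat_lit 385) (nat_lit 252) (nat_lit 143)) (XT.nd (nat_lit 78) (nat_lit 0) (nat_lit 0) (XT.lf (nat_lit 0) (nat_lit 37212823326) (nat_lit 152) (nat_lit 14549825872) (nat_lit 0) (nat_lit 4804818823) (nat_lit 10) (nat_lit 5) (nat_lit 12) (nat_lit 4) (nat_lit 10) (nat_lit 4) (nat_lit 386) (nat_lit 252) (nat_lit 142)) (XT.lf (nat_lit 0) (nat_lit 42376682004) (nat_lit 152) (nat_lit 5803231254) (nat_lit 0) (nat_lit 9930659395) (nat_lit 10) (nat_lit 5) (nat_lit 12) (nat_lit 4) (nat_lit 10) (nat_lit 4) (nat_lit 387) (nat_lit 252) (nat_lit 141)))) (XT.nd (nat_lit 156) (nat_lit 76) (nat_lit 0) (XT.nd (nat_lit 78) (nat_lit 0) (nat_lit 0) (XT.lf (nat_lit 0) (nat_lit 3250222014)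 (nat_lit 76) (nat_lit 44466031173) (nat_lit 76) (nat_lit 11983097780) (nat_lit 9) (nat_lit 4) (nat_lit 10) (nat_lit 5) (nat_lit 10) (nat_lit 4) (nat_lit 388) (nat_lit 252) (nat_lit 140)) (XT.lf (nat_lit 0) (nat_lit 12675462614) (nat_lit 76) (nat_lit 40588827539) (nat_lit 76) (nat_lit 8070058435) (nat_lit 9) (nat_lit 4) (nat_lit 10) (nat_lit 5) (nat_lit 10) (nat_lit 4) (nat_lit 389) (nat_lit 252) (nat_lit 139))) (XT.nd (nat_lit 78) (nat_lit 76) (nat_lit 0) (XT.lf (nat_lit 0) (nat_lit 22365230512) (nat_lit 76) (nat_lit 36603515767) (nat_lit 76) (nat_lit 4049954709) (nat_lit 9) (nat_lit 4) (nat_lit 10) (nat_lit 5) (nat_lit 10) (nat_lit 4) (nat_lit 390) (nat_lit 252) (nat_lit 138)) (XT.lf (nat_lit 0) (nat_lit 79150851) (nat_lit 152) (nat_lit 32426663424) (nat_lit 76) (nat_lit 32248042375) (nat_lit 8) (nat_lit 5) (nat_lit 10) (nat_lit 5) (nat_lit 9) (nat_lit 4) (nat_lit 391) (nat_lit 252) (nat_lit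 137)))))) (XT.nd (nat_lit 468) (nat_lit 76) (nat_lit 0) (XT.nd (nat_lit 234) (nat_lit 76) (nat_lit 0) (XT.nd (nat_lit 78) (nat_lit 0) (nat_lit 0) (XT.lf (nat_lit 0) (nat_lit 4241185445) (nat_lit 152) (nat_lit 24010527951) (nat_lit 76) (nat_lit 38288440786) (nat_lit 8) (nat_lit 5) (nat_lit 10) (nat_lit 5) (nat_lit 9) (nat_lit 4) (nat_lit 392) (nat_lit 252) (nat_lit 136)) (XT.nd (nat_lit 78) (nat_lit 0) (nat_lit 0) (XT.lf (nat_lit 0) (nat_lit 8518815005) (nat_lit 152) (nat_lit 15358779510) (nat_lit 76) (nat_lit 44502727831) (nat_lit 8) (nat_lit 5) (nat_lit 10) (nat_lit 5) (nat_lit 9) (nat_lit 4) (nat_lit 393) (nat_lit 252) (nat_lit 135)) (XT.lf (nat_lit 0) (nat_lit 12915777266) (nat_lit 152) (nat_lit 6463858320) (nat_lit 76) (nat_lit 50896333470) (nat_lit 8) (nat_lit 5) (nat_lit 10) (nat_lit 5) (nat_lit 9) (nat_lit 4) (nat_lit 394) (nat_lit 252) (nat_lit 134)))) (XT.nd (nat_lit 78) (nat_lit 0)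 (nat_lit 0) (XT.lf (nat_lit 0) (nat_lit 2735385093) (nat_lit 76) (nat_lit 14726823334) (nat_lit 152) (nat_lit 54765753449) (nat_lit 7) (nat_lit 5) (nat_lit 8) (nat_lit 5) (nat_lit 9) (nat_lit 4) (nat_lit 395) (nat_lit 252) (nat_lit 133)) (XT.nd (nat_lit 78) (nat_lit 0) (nat_lit 0) (XT.lf (nat_lit 0) (nat_lit 12327361850) (nat_lit 76) (nat_lit 9874311834) (nat_lit 152) (nat_lit 52035144971) (nat_lit 7) (nat_lit 5) (nat_lit 8) (nat_lit 5) (nat_lit 9) (nat_lit 4) (nat_lit 396) (nat_lit 252) (nat_lit 132)) (XT.lf (nat_lit 0) (nat_lit 22191809833) (nat_lit 76) (nat_lit 4883133321) (nat_lit 152) (nat_lit 49231252682) (nat_lit 7) (nat_lit 5) (nat_lit 8) (nat_lit 5) (nat_lit 9) (nat_lit 4) (nat_lit 397) (nat_lit 252) (nat_lit 131))))) (XT.nd (nat_lit 234) (nat_lit 76) (nat_lit 0) (XT.nd (nat_lit 78) (nat_lit 0) (nat_lit 0) (XT.lf (nat_lit 0) (nat_lit 32088688508) (nat_lit 152) (nat_lit 46102966623)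 (nat_lit 0) (nat_lit 246174080) (nat_lit 7) (nat_lit 5) (nat_lit 9) (nat_lit 4) (nat_lit 7) (nat_lit 4) (nat_lit 398) (nat_lit 252) (nat_lit 130)) (XT.nd (nat_lit 78) (nat_lit 0) (nat_lit 0) (XT.lf (nat_lit 0) (nat_lit 37293232770) (nat_lit 152) (nat_lit 37914140479) (nat_lit 0) (nat_lit 5424829862) (nat_lit 7) (nat_lit 5) (nat_lit 9) (nat_lit 4) (nat_lit 7) (nat_lit 4) (nat_lit 399) (nat_lit 252) (nat_lit 129)) (XT.lf (nat_lit 0) (nat_lit 42646183935) (nat_lit 152) (nat_lit 29493812622) (nat_lit 0) (nat_lit 10752646580) (nat_lit 7) (nat_lit 5) (nat_lit 9) (nat_lit 4) (nat_lit 7) (nat_lit 4) (nat_lit 400) (nat_lit 252) (nat_lit 128)))) (XT.nd (nat_lit 156) (nat_lit 76) (nat_lit 0) (XT.nd (nat_lit 78) (nat_lit 0) (nat_lit 0) (XT.lf (nat_lit 0) (nat_lit 48152219341) (nat_lit 152) (nat_lit 20834625482) (nat_lit 0) (nat_lit 16234279610) (nat_lit 7) (nat_lit 5) (nat_lit 9) (nat_lit 4) (nat_lit 7)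 (nat_lit 4) (nat_lit 401) (nat_lit 252) (nat_lit 127)) (XT.lf (nat_lit 0) (nat_lit 53816150085) (nat_lit 152) (nat_lit 11929012781) (nat_lit 0) (nat_lit 21874518727) (nat_lit 7) (nat_lit 5) (nat_lit 9) (nat_lit 4) (nat_lit 7) (nat_lit 4) (nat_lit 402) (nat_lit 252) (nat_lit 126))) (XT.nd (nat_lit 78) (nat_lit 76) (nat_lit 0) (XT.lf (nat_lit 0) (nat_lit 59642925234) (nat_lit 152) (nat_lit 2769192914) (nat_lit 0) (nat_lit 27678292296) (nat_lit 7) (nat_lit 5) (nat_lit 9) (nat_lit 4) (nat_lit 7) (nat_lit 4) (nat_lit 403) (nat_lit 252) (nat_lit 125)) (XT.lf (nat_lit 0) (nat_lit 6785242361) (nat_lit 76) (nat_lit 58917617683) (nat_lit 76) (nat_lit 26930653114) (nat_lit 6) (nat_lit 4) (nat_lit 7) (nat_lit 5) (nat_lit 7) (nat_lit 4) (nat_lit 404) (nat_lit 252) (nat_lit 124))))))) (XT.nd (nat_lit 31122) (nat_lit 0) (nat_lit 9728) (XT.nd (nat_lit 30576) (nat_lit 0) (nat_lit 15960) (XT.nd (nat_lit 234)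 (nat_lit 0) (nat_lit 0) (XT.nd (nat_lit 78) (nat_lit 0) (nat_lit 0) (XT.lf (nat_lit 0) (nat_lit 16670616099) (nat_lit 76) (nat_lit 55295152973) (nat_lit 76) (nat_lit 23286507209) (nat_lit 6) (nat_lit 4) (nat_lit 7) (nat_lit 5) (nat_lit 7) (nat_lit 4) (nat_lit 405) (nat_lit 252) (nat_lit 123)) (XT.nd (nat_lit 78) (nat_lit 0) (nat_lit 0) (XT.lf (nat_lit 0) (nat_lit 26840453637) (nat_lit 76) (nat_lit 51569522175) (nat_lit 76) (nat_lit 19539826707) (nat_lit 6) (nat_lit 4) (nat_lit 7) (nat_lit 5) (nat_lit 7) (nat_lit 4) (nat_lit 406) (nat_lit 252) (nat_lit 122)) (XT.lf (nat_lit 0) (nat_lit 37303641241) (nat_lit 76) (nat_lit 47737469885) (nat_lit 76) (nat_lit 15687337811) (nat_lit 6) (nat_lit 4) (nat_lit 7) (nat_lit 5) (nat_lit 7) (nat_lit 4) (nat_lit 407) (nat_lit 252) (nat_lit 121)))) (XT.nd (nat_lit 30186) (nat_lit 0) (nat_lit 19988) (XT.lf (nat_lit 0) (nat_lit 48069321501) (nat_lit 76) (nat_lit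 43795647706) (nat_lit 76) (nat_lit 11725674267) (nat_lit 6) (nat_lit 4) (nat_lit 7) (nat_lit 5) (nat_lit 7) (nat_lit 4) (nat_lit 408) (nat_lit 252) (nat_lit 120)) (XT.nd (nat_lit 78) (nat_lit 76) (nat_lit 0) (XT.lf (nat_lit 0) (nat_lit 966142961) (nat_lit 532) (nat_lit 1183179340) (nat_lit 532) (nat_lit 1183179340) (nat_lit 270) (nat_lit 4) (nat_lit 277) (nat_lit 5) (nat_lit 277) (nat_lit 4) (nat_lit 274) (nat_lit 253) (nat_lit 253)) (XT.lf (nat_lit 0) (nat_lit 628836931) (nat_lit 608) (nat_lit 841105484) (nat_lit 76) (nat_lit 5229181525) (nat_lit 269) (nat_lit 5) (nat_lit 277) (nat_lit 5) (nat_lit 270) (nat_lit 4) (nat_lit 275) (nat_lit 253) (nat_lit 252))))) (XT.nd (nat_lit 234) (nat_lit 2660) (nat_lit 0) (XT.nd (nat_lit 78) (nat_lit 760) (nat_lit 0) (XT.lf (nat_lit 0) (nat_lit 3127779258) (nat_lit 608) (nat_lit 468964190) (nat_lit 684) (nat_lit 3139149845) (nat_lit 261) (nat_lit 5) (nat_lit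 269) (nat_lit 5) (nat_lit 270) (nat_lit 4) (nat_lit 276) (nat_lit 253) (nat_lit 251)) (XT.nd (nat_lit 78) (nat_lit 76) (nat_lit 0) (XT.lf (nat_lit 0) (nat_lit 381737752) (nat_lit 684) (nat_lit 6192321702) (nat_lit 684) (nat_lit 202328553) (nat_lit 252) (nat_lit 4) (nat_lit 261) (nat_lit 5) (nat_lit 261) (nat_lit 4) (nat_lit 277) (nat_lit 253) (nat_lit 250)) (XT.lf (nat_lit 0) (nat_lit 2712589660) (nat_lit 760) (nat_lit 2364935806) (nat_lit 76) (nat_lit 1741626027) (nat_lit 251) (nat_lit 5) (nat_lit 261) (nat_lit 5) (nat_lit 252) (nat_lit 4) (nat_lit 278) (nat_lit 253) (nat_lit 249)))) (XT.nd (nat_lit 156) (nat_lit 1824) (nat_lit 0) (XT.nd (nat_lit 78) (nat_lit 76) (nat_lit 0) (XT.lf (nat_lit 0) (nat_lit 1738917128) (nat_lit 760) (nat_lit 3895126543) (nat_lit 836) (nat_lit 1231613108) (nat_lit 241) (nat_lit 5) (nat_lit 251) (nat_lit 5) (nat_lit 252) (nat_lit 4) (nat_lit 279) (nat_lit 253) (nat_lit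 248)) (XT.lf (nat_lit 0) (nat_lit 1627256641) (nat_lit 836) (nat_lit 995295557) (nat_lit 76) (nat_lit 4292764935) (nat_lit 240) (nat_lit 5) (nat_lit 251) (nat_lit 5) (nat_lit 241) (nat_lit 5) (nat_lit 280) (nat_lit 253) (nat_lit 247))) (XT.nd (nat_lit 78) (nat_lit 988) (nat_lit 0) (XT.lf (nat_lit 0) (nat_lit 3233364076) (nat_lit 836) (nat_lit 1254860435) (nat_lit 912) (nat_lit 2479839883) (nat_lit 229) (nat_lit 5) (nat_lit 240) (nat_lit 5) (nat_lit 241) (nat_lit 5) (nat_lit 281) (nat_lit 253) (nat_lit 246)) (XT.lf (nat_lit 0) (nat_lit 332265815) (nat_lit 988) (nat_lit 6512110750) (nat_lit 76) (nat_lit 180252092) (nat_lit 216) (nat_lit 5) (nat_lit 229) (nat_lit 5) (nat_lit 217) (nat_lit 5) (nat_lit 282) (nat_lit 253) (nat_lit 245)))))) (XT.nd (nat_lit 546) (nat_lit 2356) (nat_lit 0) (XT.nd (nat_lit 234) (nat_lit 2812) (nat_lit 0) (XT.nd (nat_lit 78) (nat_lit 1064) (nat_lit 0) (XT.lf (nat_lit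 0) (nat_lit 3142168267) (nat_lit 988) (nat_lit 2236339737) (nat_lit 76) (nat_lit 1704925898) (nat_lit 216) (nat_lit 5) (nat_lit 229) (nat_lit 5) (nat_lit 217) (nat_lit 5) (nat_lit 283) (nat_lit 253) (nat_lit 244)) (XT.nd (nat_lit 78) (nat_lit 76) (nat_lit 0) (XT.lf (nat_lit 0) (nat_lit 2130698483) (nat_lit 988) (nat_lit 3841456711) (nat_lit 1064) (nat_lit 1173948196) (nat_lit 203) (nat_lit 5) (nat_lit 216) (nat_lit 5) (nat_lit 217) (nat_lit 5) (nat_lit 284) (nat_lit 253) (nat_lit 243)) (XT.lf (nat_lit 0) (nat_lit 1582520383) (nat_lit 1064) (nat_lit 631370773) (nat_lit 76) (nat_lit 4998276788) (nat_lit 202) (nat_lit 5) (nat_lit 216) (nat_lit 5) (nat_lit 203) (nat_lit 5) (nat_lit 285) (nat_lit 253) (nat_lit 242)))) (XT.nd (nat_lit 156) (nat_lit 608) (nat_lit 0) (XT.nd (nat_lit 78) (nat_lit 1140) (nat_lit 0) (XT.lf (nat_lit 0) (nat_lit 3870765709) (nat_lit 1064) (nat_lit 483013548) (nat_lit 1140)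 (nat_lit 2927574703) (nat_lit 188) (nat_lit 5) (nat_lit 202) (nat_lit 5) (nat_lit 203) (nat_lit 5) (nat_lit 286) (nat_lit 253) (nat_lit 241)) (XT.lf (nat_lit 0) (nat_lit 1098204513) (nat_lit 1140) (nat_lit 6059614416) (nat_lit 1216) (nat_lit 196461673) (nat_lit 173) (nat_lit 5) (nat_lit 188) (nat_lit 5) (nat_lit 189) (nat_lit 5) (nat_lit 287) (nat_lit 253) (nat_lit 240))) (XT.nd (nat_lit 78) (nat_lit 532) (nat_lit 0) (XT.lf (nat_lit 0) (nat_lit 2525892938) (nat_lit 1216) (nat_lit 1726560599) (nat_lit 76) (nat_lit 3177521402) (nat_lit 172) (nat_lit 5) (nat_lit 188) (nat_lit 5) (nat_lit 173) (nat_lit 5) (nat_lit 288) (nat_lit 253) (nat_lit 239)) (XT.lf (nat_lit 0) (nat_lit 2916032417) (nat_lit 532) (nat_lit 2361078089) (nat_lit 608) (nat_lit 2232378254) (nat_lit 165) (nat_lit 5) (nat_lit 172) (nat_lit 5) (nat_lit 173) (nat_lit 5) (nat_lit 289) (nat_lit 253) (nat_lit 238))))) (XT.nd (nat_lit 234)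 (nat_lit 1140) (nat_lit 0) (XT.nd (nat_lit 78) (nat_lit 532) (nat_lit 0) (XT.lf (nat_lit 0) (nat_lit 59777654) (nat_lit 608) (nat_lit 391472944) (nat_lit 684) (nat_lit 7141863400) (nat_lit 156) (nat_lit 5) (nat_lit 164) (nat_lit 5) (nat_lit 165) (nat_lit 5) (nat_lit 290) (nat_lit 253) (nat_lit 237)) (XT.nd (nat_lit 78) (nat_lit 532) (nat_lit 0) (XT.lf (nat_lit 0) (nat_lit 3158273771) (nat_lit 684) (nat_lit 2849612587) (nat_lit 76) (nat_lit 1671195183) (nat_lit 156) (nat_lit 5) (nat_lit 165) (nat_lit 5) (nat_lit 157) (nat_lit 5) (nat_lit 291) (nat_lit 253) (nat_lit 236)) (XT.lf (nat_lit 0) (nat_lit 1930528980) (nat_lit 532) (nat_lit 3965763438) (nat_lit 608) (nat_lit 1872967640) (nat_lit 149) (nat_lit 5) (nat_lit 156) (nat_lit 5) (nat_lit 157) (nat_lit 5) (nat_lit 292) (nat_lit 253) (nat_lit 235)))) (XT.nd (nat_lit 156) (nat_lit 532) (nat_lit 0) (XT.nd (nat_lit 78) (nat_lit 532) (nat_lit 0) (XT.lf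 (nat_lit 0) (nat_lit 794598320) (nat_lit 608) (nat_lit 1035967725) (nat_lit 76) (nat_lit 6032740971) (nat_lit 148) (nat_lit 5) (nat_lit 156) (nat_lit 5) (nat_lit 149) (nat_lit 5) (nat_lit 293) (nat_lit 253) (nat_lit 234)) (XT.lf (nat_lit 0) (nat_lit 3475995178) (nat_lit 608) (nat_lit 4072856530) (nat_lit 76) (nat_lit 411738726) (nat_lit 141) (nat_lit 5) (nat_lit 149) (nat_lit 5) (nat_lit 142) (nat_lit 5) (nat_lit 294) (nat_lit 253) (nat_lit 233))) (XT.nd (nat_lit 78) (nat_lit 76) (nat_lit 0) (XT.lf (nat_lit 0) (nat_lit 840330403) (nat_lit 456) (nat_lit 5365516270) (nat_lit 532) (nat_lit 1856016796) (nat_lit 135) (nat_lit 5) (nat_lit 141) (nat_lit 5) (nat_lit 142) (nat_lit 5) (nat_lit 295) (nat_lit 253) (nat_lit 232)) (XT.lf (nat_lit 0) (nat_lit 808073748) (nat_lit 532) (nat_lit 2267575311) (nat_lit 76) (nat_lit 5091187131) (nat_lit 134) (nat_lit 5) (nat_lit 141) (nat_lit 5) (nat_lit 135) (nat_lit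 5) (nat_lit 296) (nat_lit 253) (nat_lit 231))))))))
noncomputable def xc87 : XT := (XT.nd (nat_lit 2028) (nat_lit 2508) (nat_lit 0) (XT.nd (nat_lit 1014) (nat_lit 2280) (nat_lit 0) (XT.nd (nat_lit 468) (nat_lit 1596) (nat_lit 0) (XT.nd (nat_lit 234) (nat_lit 836) (nat_lit 0) (XT.nd (nat_lit 78) (nat_lit 532) (nat_lit 0) (XT.lf (nat_lit 0) (nat_lit 2795004806) (nat_lit 456) (nat_lit 680367643) (nat_lit 532) (nat_lit 4800318700) (nat_lit 128) (nat_lit 5) (nat_lit 134) (nat_lit 5) (nat_lit 135) (nat_lit 5) (nat_lit 297) (nat_lit 253) (nat_lit 230)) (XT.nd (nat_lit 78) (nat_lit 532) (nat_lit 0) (XT.lf (nat_lit 0) (nat_lit 6197818765) (nat_lit 532) (nat_lit 425947404) (nat_lit 76) (nat_lit 1764890790) (nat_lit 128) (nat_lit 5) (nat_lit 135) (nat_lit 5) (nat_lit 129) (nat_lit 5) (nat_lit 298) (nat_lit 253) (nat_lit 229)) (XT.lf (nat_lit 0) (nat_lit 476559310) (nat_lit 532) (nat_lit 3717998163) (nat_lit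 76) (nat_lit 4310724464) (nat_lit 121) (nat_lit 5) (nat_lit 128) (nat_lit 5) (nat_lit 122) (nat_lit 5) (nat_lit 299) (nat_lit 253) (nat_lit 228)))) (XT.nd (nat_lit 78) (nat_lit 380) (nat_lit 0) (XT.lf (nat_lit 0) (nat_lit 1471632055) (nat_lit 456) (nat_lit 1663950701) (nat_lit 532) (nat_lit 5490593688) (nat_lit 115) (nat_lit 5) (nat_lit 121) (nat_lit 5) (nat_lit 122) (nat_lit 5) (nat_lit 300) (nat_lit 253) (nat_lit 227)) (XT.nd (nat_lit 78) (nat_lit 380) (nat_lit 0) (XT.lf (nat_lit 0) (nat_lit 5859484114) (nat_lit 532) (nat_lit 1942625542) (nat_lit 76) (nat_lit 949122930) (nat_lit 115) (nat_lit 5) (nat_lit 122) (nat_lit 5) (nat_lit 116) (nat_lit 5) (nat_lit 301) (nat_lit 253) (nat_lit 226)) (XT.lf (nat_lit 0) (nat_lit 3400989966) (nat_lit 380) (nat_lit 5253212117) (nat_lit 456) (nat_lit 226250793) (nat_lit 110) (nat_lit 5) (nat_lit 115) (nat_lit 5) (nat_lit 116) (nat_lit 5) (nat_lit 302) (nat_lit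 253) (nat_lit 225))))) (XT.nd (nat_lit 234) (nat_lit 760) (nat_lit 0) (XT.nd (nat_lit 78) (nat_lit 760) (nat_lit 0) (XT.lf (nat_lit 0) (nat_lit 2430170423) (nat_lit 456) (nat_lit 167725218) (nat_lit 76) (nat_lit 6416204672) (nat_lit 109) (nat_lit 5) (nat_lit 115) (nat_lit 5) (nat_lit 110) (nat_lit 5) (nat_lit 303) (nat_lit 253) (nat_lit 224)) (XT.nd (nat_lit 78) (nat_lit 380) (nat_lit 0) (XT.lf (nat_lit 0) (nat_lit 5156742843) (nat_lit 456) (nat_lit 3821398724) (nat_lit 76) (nat_lit 173776423) (nat_lit 104) (nat_lit 5) (nat_lit 110) (nat_lit 5) (nat_lit 105) (nat_lit 5) (nat_lit 304) (nat_lit 253) (nat_lit 223)) (XT.lf (nat_lit 0) (nat_lit 1635683521) (nat_lit 380) (nat_lit 6315477246) (nat_lit 456) (nat_lit 1343203905) (nat_lit 99) (nat_lit 5) (nat_lit 104) (nat_lit 5) (nat_lit 105) (nat_lit 5) (nat_lit 305) (nat_lit 253) (nat_lit 222)))) (XT.nd (nat_lit 156) (nat_lit 304) (nat_lit 0) (XT.nd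 (nat_lit 78) (nat_lit 380) (nat_lit 0) (XT.lf (nat_lit 0) (nat_lit 1343431291) (nat_lit 456) (nat_lit 2193145098) (nat_lit 76) (nat_lit 5904713683) (nat_lit 98) (nat_lit 5) (nat_lit 104) (nat_lit 5) (nat_lit 99) (nat_lit 5) (nat_lit 306) (nat_lit 253) (nat_lit 221)) (XT.lf (nat_lit 0) (nat_lit 3417608363) (nat_lit 380) (nat_lit 643791250) (nat_lit 456) (nat_lit 5531562198) (nat_lit 93) (nat_lit 5) (nat_lit 98) (nat_lit 5) (nat_lit 99) (nat_lit 5) (nat_lit 307) (nat_lit 253) (nat_lit 220))) (XT.nd (nat_lit 78) (nat_lit 304) (nat_lit 0) (XT.lf (nat_lit 0) (nat_lit 6851357831) (nat_lit 456) (nat_lit 602509867) (nat_lit 76) (nat_lit 2295669934) (nat_lit 93) (nat_lit 5) (nat_lit 99) (nat_lit 5) (nat_lit 94) (nat_lit 5) (nat_lit 308) (nat_lit 253) (nat_lit 219)) (XT.lf (nat_lit 0) (nat_lit 5161019868) (nat_lit 304) (nat_lit 4567195693) (nat_lit 380) (nat_lit 182564637) (nat_lit 89) (nat_lit 5) (nat_lit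 93) (nat_lit 5) (nat_lit 94) (nat_lit 5) (nat_lit 309) (nat_lit 253) (nat_lit 218)))))) (XT.nd (nat_lit 468) (nat_lit 1140) (nat_lit 0) (XT.nd (nat_lit 234) (nat_lit 380) (nat_lit 0) (XT.nd (nat_lit 78) (nat_lit 304) (nat_lit 0) (XT.lf (nat_lit 0) (nat_lit 955331054) (nat_lit 380) (nat_lit 1570999353) (nat_lit 456) (nat_lit 7550952493) (nat_lit 83) (nat_lit 5) (nat_lit 88) (nat_lit 5) (nat_lit 89) (nat_lit 5) (nat_lit 310) (nat_lit 253) (nat_lit 217)) (XT.nd (nat_lit 78) (nat_lit 304) (nat_lit 0) (XT.lf (nat_lit 0) (nat_lit 5323996662) (nat_lit 456) (nat_lit 3407223808) (nat_lit 76) (nat_lit 1517230708) (nat_lit 83) (nat_lit 5) (nat_lit 89) (nat_lit 5) (nat_lit 84) (nat_lit 5) (nat_lit 311) (nat_lit 253) (nat_lit 216)) (XT.lf (nat_lit 0) (nat_lit 2441147318) (nat_lit 304) (nat_lit 5753147071) (nat_lit 380) (nat_lit 2230857259) (nat_lit 79) (nat_lit 5) (nat_lit 83) (nat_lit 5) (nat_lit 84) (nat_lit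 5) (nat_lit 312) (nat_lit 253) (nat_lit 215)))) (XT.nd (nat_lit 78) (nat_lit 304) (nat_lit 0) (XT.lf (nat_lit 0) (nat_lit 517624290) (nat_lit 380) (nat_lit 2147118194) (nat_lit 76) (nat_lit 7942768262) (nat_lit 78) (nat_lit 5) (nat_lit 83) (nat_lit 5) (nat_lit 79) (nat_lit 5) (nat_lit 313) (nat_lit 253) (nat_lit 214)) (XT.nd (nat_lit 78) (nat_lit 0) (nat_lit 0) (XT.lf (nat_lit 0) (nat_lit 3297482068) (nat_lit 380) (nat_lit 6950730593) (nat_lit 76) (nat_lit 546705781) (nat_lit 74) (nat_lit 5) (nat_lit 79) (nat_lit 5) (nat_lit 75) (nat_lit 5) (nat_lit 314) (nat_lit 253) (nat_lit 213)) (XT.lf (nat_lit 0) (nat_lit 6160986971) (nat_lit 380) (nat_lit 1023478246) (nat_lit 76) (nat_lit 3803527311) (nat_lit 74) (nat_lit 5) (nat_lit 79) (nat_lit 5) (nat_lit 75) (nat_lit 5) (nat_lit 315) (nat_lit 253) (nat_lit 212))))) (XT.nd (nat_lit 234) (nat_lit 532) (nat_lit 0) (XT.nd (nat_lit 78) (nat_lit 380) (nat_lit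 0) (XT.lf (nat_lit 0) (nat_lit 5114571141) (nat_lit 228) (nat_lit 3998360604) (nat_lit 304) (nat_lit 2073901244) (nat_lit 71) (nat_lit 5) (nat_lit 74) (nat_lit 5) (nat_lit 75) (nat_lit 5) (nat_lit 316) (nat_lit 253) (nat_lit 211)) (XT.nd (nat_lit 78) (nat_lit 304) (nat_lit 0) (XT.lf (nat_lit 0) (nat_lit 710958376) (nat_lit 304) (nat_lit 8151533) (nat_lit 76) (nat_lit 10673435555) (nat_lit 70) (nat_lit 5) (nat_lit 74) (nat_lit 5) (nat_lit 71) (nat_lit 5) (nat_lit 317) (nat_lit 253) (nat_lit 210)) (XT.lf (nat_lit 0) (nat_lit 3579099937) (nat_lit 380) (nat_lit 5354959825) (nat_lit 76) (nat_lit 2668556890) (nat_lit 66) (nat_lit 5) (nat_lit 71) (nat_lit 5) (nat_lit 67) (nat_lit 5) (nat_lit 318) (nat_lit 253) (nat_lit 209)))) (XT.nd (nat_lit 156) (nat_lit 304) (nat_lit 0) (XT.nd (nat_lit 78) (nat_lit 0) (nat_lit 0) (XT.lf (nat_lit 0) (nat_lit 815382297) (nat_lit 228) (nat_lit 5688384237) (nat_lit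 304) (nat_lit 5316153617) (nat_lit 63) (nat_lit 5) (nat_lit 66) (nat_lit 5) (nat_lit 67) (nat_lit 5) (nat_lit 319) (nat_lit 253) (nat_lit 208)) (XT.lf (nat_lit 0) (nat_lit 7215523429) (nat_lit 228) (nat_lit 2310836354) (nat_lit 304) (nat_lit 2517120668) (nat_lit 63) (nat_lit 5) (nat_lit 66) (nat_lit 5) (nat_lit 67) (nat_lit 5) (nat_lit 320) (nat_lit 253) (nat_lit 207))) (XT.nd (nat_lit 78) (nat_lit 0) (nat_lit 0) (XT.lf (nat_lit 0) (nat_lit 341249569) (nat_lit 304) (nat_lit 10790245192) (nat_lit 76) (nat_lit 1142712920) (nat_lit 59) (nat_lit 5) (nat_lit 63) (nat_lit 5) (nat_lit 60) (nat_lit 5) (nat_lit 321) (nat_lit 253) (nat_lit 206)) (XT.lf (nat_lit 0) (nat_lit 3264264125) (nat_lit 304) (nat_lit 4539037581) (nat_lit 76) (nat_lit 4706962439) (nat_lit 59) (nat_lit 5) (nat_lit 63) (nat_lit 5) (nat_lit 60) (nat_lit 5) (nat_lit 322) (nat_lit 253) (nat_lit 205))))))) (XT.nd (nat_lit 1014) (nat_lit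 1064) (nat_lit 0) (XT.nd (nat_lit 468) (nat_lit 760) (nat_lit 0) (XT.nd (nat_lit 234) (nat_lit 228) (nat_lit 0) (XT.nd (nat_lit 78) (nat_lit 228) (nat_lit 0) (XT.lf (nat_lit 0) (nat_lit 1873579990) (nat_lit 228) (nat_lit 4378010461) (nat_lit 304) (nat_lit 6502551683) (nat_lit 56) (nat_lit 5) (nat_lit 59) (nat_lit 5) (nat_lit 60) (nat_lit 5) (nat_lit 323) (nat_lit 253) (nat_lit 204)) (XT.nd (nat_lit 78) (nat_lit 228) (nat_lit 0) (XT.lf (nat_lit 0) (nat_lit 8509549924) (nat_lit 228) (nat_lit 824042180) (nat_lit 304) (nat_lit 3671630042) (nat_lit 56) (nat_lit 5) (nat_lit 59) (nat_lit 5) (nat_lit 60) (nat_lit 5) (nat_lit 324) (nat_lit 253) (nat_lit 203)) (XT.lf (nat_lit 0) (nat_lit 2031857266) (nat_lit 228) (nat_lit 10483203810) (nat_lit 304) (nat_lit 748599526) (nat_lit 53) (nat_lit 5) (nat_lit 56) (nat_lit 5) (nat_lit 57) (nat_lit 5) (nat_lit 325) (nat_lit 253) (nat_lit 202)))) (XT.nd (nat_lit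 78) (nat_lit 152) (nat_lit 0) (XT.lf (nat_lit 0) (nat_lit 2232347547) (nat_lit 304) (nat_lit 4772985541) (nat_lit 76) (nat_lit 6523469922) (nat_lit 52) (nat_lit 5) (nat_lit 56) (nat_lit 5) (nat_lit 53) (nat_lit 5) (nat_lit 326) (nat_lit 253) (nat_lit 201)) (XT.nd (nat_lit 78) (nat_lit 0) (nat_lit 0) (XT.lf (nat_lit 0) (nat_lit 1848536562) (nat_lit 152) (nat_lit 3418426131) (nat_lit 228) (nat_lit 8535369252) (nat_lit 50) (nat_lit 5) (nat_lit 52) (nat_lit 5) (nat_lit 53) (nat_lit 5) (nat_lit 327) (nat_lit 253) (nat_lit 200)) (XT.lf (nat_lit 0) (nat_lit 8405810349) (nat_lit 228) (nat_lit 5379306890) (nat_lit 76) (nat_lit 298585906) (nat_lit 50) (nat_lit 5) (nat_lit 53) (nat_lit 5) (nat_lit 51) (nat_lit 5) (nat_lit 328) (nat_lit 253) (nat_lit 199))))) (XT.nd (nat_lit 234) (nat_lit 304) (nat_lit 0) (XT.nd (nat_lit 78) (nat_lit 228) (nat_lit 0) (XT.lf (nat_lit 0) (nat_lit 1326097099) (nat_lit 228)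 (nat_lit 10322295246) (nat_lit 304) (nat_lit 2724867348) (nat_lit 47) (nat_lit 5) (nat_lit 50) (nat_lit 5) (nat_lit 51) (nat_lit 5) (nat_lit 329) (nat_lit 253) (nat_lit 198)) (XT.nd (nat_lit 78) (nat_lit 152) (nat_lit 0) (XT.lf (nat_lit 0) (nat_lit 328533881) (nat_lit 304) (nat_lit 6389064147) (nat_lit 76) (nat_lit 7953304072) (nat_lit 46) (nat_lit 5) (nat_lit 50) (nat_lit 5) (nat_lit 47) (nat_lit 5) (nat_lit 330) (nat_lit 253) (nat_lit 197)) (XT.lf (nat_lit 0) (nat_lit 392623025) (nat_lit 152) (nat_lit 2994103304) (nat_lit 228) (nat_lit 11590928018) (nat_lit 44) (nat_lit 5) (nat_lit 46) (nat_lit 5) (nat_lit 47) (nat_lit 5) (nat_lit 331) (nat_lit 253) (nat_lit 196)))) (XT.nd (nat_lit 156) (nat_lit 304) (nat_lit 0) (XT.nd (nat_lit 78) (nat_lit 0) (nat_lit 0) (XT.lf (nat_lit 0) (nat_lit 6574388397) (nat_lit 228) (nat_lit 7848832551) (nat_lit 76) (nat_lit 869284290) (nat_lit 44) (nat_lit 5) (nat_lit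 47) (nat_lit 5) (nat_lit 45) (nat_lit 5) (nat_lit 332) (nat_lit 253) (nat_lit 195)) (XT.lf (nat_lit 0) (nat_lit 9852842302) (nat_lit 228) (nat_lit 995692743) (nat_lit 76) (nat_lit 4768438735) (nat_lit 44) (nat_lit 5) (nat_lit 47) (nat_lit 5) (nat_lit 45) (nat_lit 5) (nat_lit 333) (nat_lit 253) (nat_lit 194))) (XT.nd (nat_lit 78) (nat_lit 76) (nat_lit 0) (XT.lf (nat_lit 0) (nat_lit 6128751451) (nat_lit 228) (nat_lit 7126333416) (nat_lit 304) (nat_lit 2695354654) (nat_lit 41) (nat_lit 5) (nat_lit 44) (nat_lit 5) (nat_lit 45) (nat_lit 5) (nat_lit 334) (nat_lit 253) (nat_lit 193)) (XT.lf (nat_lit 0) (nat_lit 433188387) (nat_lit 304) (nat_lit 2864886314) (nat_lit 76) (nat_lit 12996421404) (nat_lit 40) (nat_lit 5) (nat_lit 44) (nat_lit 5) (nat_lit 41) (nat_lit 5) (nat_lit 335) (nat_lit 253) (nat_lit 192)))))) (XT.nd (nat_lit 546) (nat_lit 532) (nat_lit 0) (XT.nd (nat_lit 234) (nat_lit 228) (nat_lit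 0) (XT.nd (nat_lit 78) (nat_lit 152) (nat_lit 0) (XT.lf (nat_lit 0) (nat_lit 3617086115) (nat_lit 228) (nat_lit 12349031528) (nat_lit 76) (nat_lit 681509946) (nat_lit 38) (nat_lit 5) (nat_lit 41) (nat_lit 5) (nat_lit 39) (nat_lit 5) (nat_lit 336) (nat_lit 253) (nat_lit 191)) (XT.nd (nat_lit 78) (nat_lit 152) (nat_lit 0) (XT.lf (nat_lit 0) (nat_lit 6926226995) (nat_lit 228) (nat_lit 5360460844) (nat_lit 76) (nat_lit 4723796665) (nat_lit 38) (nat_lit 5) (nat_lit 41) (nat_lit 5) (nat_lit 39) (nat_lit 5) (nat_lit 337) (nat_lit 253) (nat_lit 190)) (XT.lf (nat_lit 0) (nat_lit 1822113887) (nat_lit 152) (nat_lit 8498835573) (nat_lit 228) (nat_lit 7063711043) (nat_lit 36) (nat_lit 5) (nat_lit 38) (nat_lit 5) (nat_lit 39) (nat_lit 5) (nat_lit 338) (nat_lit 253) (nat_lit 189)))) (XT.nd (nat_lit 156) (nat_lit 228) (nat_lit 0) (XT.nd (nat_lit 78) (nat_lit 0) (nat_lit 0) (XT.lf (nat_lit 0) (nat_lit 9279343026)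 (nat_lit 152) (nat_lit 4561514345) (nat_lit 228) (nat_lit 3928526038) (nat_lit 36) (nat_lit 5) (nat_lit 38) (nat_lit 5) (nat_lit 39) (nat_lit 5) (nat_lit 339) (nat_lit 253) (nat_lit 188)) (XT.lf (nat_lit 0) (nat_lit 16911058915) (nat_lit 152) (nat_lit 525413922) (nat_lit 228) (nat_lit 730093154) (nat_lit 36) (nat_lit 5) (nat_lit 38) (nat_lit 5) (nat_lit 39) (nat_lit 5) (nat_lit 340) (nat_lit 253) (nat_lit 187))) (XT.nd (nat_lit 78) (nat_lit 0) (nat_lit 0) (XT.lf (nat_lit 0) (nat_lit 2580522814) (nat_lit 228) (nat_lit 12364716748) (nat_lit 76) (nat_lit 3627717020) (nat_lit 33) (nat_lit 5) (nat_lit 36) (nat_lit 5) (nat_lit 34) (nat_lit 5) (nat_lit 341) (nat_lit 253) (nat_lit 186)) (XT.lf (nat_lit 0) (nat_lit 5964673136) (nat_lit 228) (nat_lit 5130709403) (nat_lit 76) (nat_lit 7896292283) (nat_lit 33) (nat_lit 5) (nat_lit 36) (nat_lit 5) (nat_lit 34) (nat_lit 5) (nat_lit 342) (nat_lit 253) (nat_lit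 185))))) (XT.nd (nat_lit 234) (nat_lit 380) (nat_lit 0) (XT.nd (nat_lit 78) (nat_lit 0) (nat_lit 0) (XT.lf (nat_lit 0) (nat_lit 2318343424) (nat_lit 152) (nat_lit 7126022130) (nat_lit 228) (nat_lit 9978787452) (nat_lit 31) (nat_lit 5) (nat_lit 33) (nat_lit 5) (nat_lit 34) (nat_lit 5) (nat_lit 343) (nat_lit 253) (nat_lit 184)) (XT.nd (nat_lit 78) (nat_lit 0) (nat_lit 0) (XT.lf (nat_lit 0) (nat_lit 10049291264) (nat_lit 152) (nat_lit 3003073770) (nat_lit 228) (nat_lit 6814511387) (nat_lit 31) (nat_lit 5) (nat_lit 33) (nat_lit 5) (nat_lit 34) (nat_lit 5) (nat_lit 344) (nat_lit 253) (nat_lit 183)) (XT.lf (nat_lit 0) (nat_lit 16753301024) (nat_lit 228) (nat_lit 2369741583) (nat_lit 76) (nat_lit 1201345873) (nat_lit 31) (nat_lit 5) (nat_lit 34) (nat_lit 5) (nat_lit 32) (nat_lit 4) (nat_lit 345) (nat_lit 253) (nat_lit 182)))) (XT.nd (nat_lit 156) (nat_lit 152) (nat_lit 0) (XT.nd (nat_lit 78) (nat_lit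 76) (nat_lit 0) (XT.lf (nat_lit 0) (nat_lit 5331130842) (nat_lit 152) (nat_lit 15288650287) (nat_lit 228) (nat_lit 174226609) (nat_lit 29) (nat_lit 5) (nat_lit 31) (nat_lit 5) (nat_lit 32) (nat_lit 4) (nat_lit 346) (nat_lit 253) (nat_lit 181)) (XT.lf (nat_lit 0) (nat_lit 3257439725) (nat_lit 228) (nat_lit 8042391261) (nat_lit 76) (nat_lit 9977008984) (nat_lit 28) (nat_lit 5) (nat_lit 31) (nat_lit 5) (nat_lit 29) (nat_lit 5) (nat_lit 347) (nat_lit 253) (nat_lit 180))) (XT.nd (nat_lit 78) (nat_lit 152) (nat_lit 0) (XT.lf (nat_lit 0) (nat_lit 6762929748) (nat_lit 228) (nat_lit 444517003) (nat_lit 76) (nat_lit 14567443254) (nat_lit 28) (nat_lit 5) (nat_lit 31) (nat_lit 5) (nat_lit 29) (nat_lit 5) (nat_lit 348) (nat_lit 253) (nat_lit 179)) (XT.lf (nat_lit 0) (nat_lit 7485121245) (nat_lit 152) (nat_lit 2935536614) (nat_lit 228) (nat_lit 11865826867) (nat_lit 26) (nat_lit 5) (nat_lit 28) (nat_lit 5)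 (nat_lit 29) (nat_lit 5) (nat_lit 349) (nat_lit 253) (nat_lit 178))))))))
noncomputable def xc88 : XT := (XT.nd (nat_lit 2028) (nat_lit 456) (nat_lit 0) (XT.nd (nat_lit 1014) (nat_lit 380) (nat_lit 0) (XT.nd (nat_lit 468) (nat_lit 304) (nat_lit 0) (XT.nd (nat_lit 234) (nat_lit 228) (nat_lit 0) (XT.nd (nat_lit 78) (nat_lit 76) (nat_lit 0) (XT.lf (nat_lit 0) (nat_lit 14182007453) (nat_lit 228) (nat_lit 7208059737) (nat_lit 76) (nat_lit 1423558349) (nat_lit 26) (nat_lit 5) (nat_lit 29) (nat_lit 5) (nat_lit 27) (nat_lit 4) (nat_lit 350) (nat_lit 253) (nat_lit 177)) (XT.nd (nat_lit 78) (nat_lit 0) (nat_lit 0) (XT.lf (nat_lit 0) (nat_lit 553610949) (nat_lit 76) (nat_lit 17512971473) (nat_lit 152) (nat_lit 5289701111) (nat_lit 25) (nat_lit 5) (nat_lit 26) (nat_lit 5) (nat_lit 27) (nat_lit 4) (nat_lit 351) (nat_lit 253) (nat_lit 176)) (XT.lf (nat_lit 0) (nat_lit 8655123153) (nat_lit 76) (nat_lit 13461664478)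 (nat_lit 152) (nat_lit 1796974929) (nat_lit 25) (nat_lit 5) (nat_lit 26) (nat_lit 5) (nat_lit 27) (nat_lit 4) (nat_lit 352) (nat_lit 253) (nat_lit 175)))) (XT.nd (nat_lit 78) (nat_lit 152) (nat_lit 0) (XT.lf (nat_lit 0) (nat_lit 1742152828) (nat_lit 152) (nat_lit 7545648342) (nat_lit 76) (nat_lit 15200356184) (nat_lit 24) (nat_lit 5) (nat_lit 26) (nat_lit 5) (nat_lit 25) (nat_lit 5) (nat_lit 353) (nat_lit 253) (nat_lit 174)) (XT.nd (nat_lit 78) (nat_lit 0) (nat_lit 0) (XT.lf (nat_lit 0) (nat_lit 348859505) (nat_lit 152) (nat_lit 4983262672) (nat_lit 228) (nat_lit 19747717393) (nat_lit 22) (nat_lit 5) (nat_lit 24) (nat_lit 5) (nat_lit 25) (nat_lit 5) (nat_lit 354) (nat_lit 253) (nat_lit 173)) (XT.lf (nat_lit 0) (nat_lit 8596373620) (nat_lit 152) (nat_lit 487332137) (nat_lit 228) (nat_lit 16603961553) (nat_lit 22) (nat_lit 5) (nat_lit 24) (nat_lit 5) (nat_lit 25) (nat_lit 5) (nat_lit 355) (nat_lit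 253) (nat_lit 172))))) (XT.nd (nat_lit 234) (nat_lit 228) (nat_lit 0) (XT.nd (nat_lit 78) (nat_lit 76) (nat_lit 0) (XT.lf (nat_lit 0) (nat_lit 12965882899) (nat_lit 228) (nat_lit 9300141818) (nat_lit 76) (nat_lit 4047175928) (nat_lit 22) (nat_lit 5) (nat_lit 25) (nat_lit 5) (nat_lit 23) (nat_lit 4) (nat_lit 356) (nat_lit 253) (nat_lit 171)) (XT.nd (nat_lit 78) (nat_lit 76) (nat_lit 0) (XT.lf (nat_lit 0) (nat_lit 16948201326) (nat_lit 228) (nat_lit 1316872176) (nat_lit 76) (nat_lit 8692927995) (nat_lit 22) (nat_lit 5) (nat_lit 25) (nat_lit 5) (nat_lit 23) (nat_lit 4) (nat_lit 357) (nat_lit 253) (nat_lit 170)) (XT.lf (nat_lit 0) (nat_lit 7006905406) (nat_lit 76) (nat_lit 14089905454) (nat_lit 152) (nat_lit 6523942316) (nat_lit 21) (nat_lit 5) (nat_lit 22) (nat_lit 5) (nat_lit 23) (nat_lit 4) (nat_lit 358) (nat_lit 253) (nat_lit 169)))) (XT.nd (nat_lit 156) (nat_lit 152) (nat_lit 0) (XT.nd (nat_lit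 78) (nat_lit 76) (nat_lit 0) (XT.lf (nat_lit 0) (nat_lit 15572020991) (nat_lit 76) (nat_lit 9790880463) (nat_lit 152) (nat_lit 2940706385) (nat_lit 21) (nat_lit 5) (nat_lit 22) (nat_lit 5) (nat_lit 23) (nat_lit 4) (nat_lit 359) (nat_lit 253) (nat_lit 168)) (XT.lf (nat_lit 0) (nat_lit 715500908) (nat_lit 152) (nat_lit 4654813864) (nat_lit 76) (nat_lit 23637024256) (nat_lit 20) (nat_lit 5) (nat_lit 22) (nat_lit 5) (nat_lit 21) (nat_lit 5) (nat_lit 360) (nat_lit 253) (nat_lit 167))) (XT.nd (nat_lit 78) (nat_lit 0) (nat_lit 0) (XT.lf (nat_lit 0) (nat_lit 3673087543) (nat_lit 152) (nat_lit 765198879) (nat_lit 228) (nat_lit 25292552507) (nat_lit 18) (nat_lit 5) (nat_lit 20) (nat_lit 5) (nat_lit 21) (nat_lit 5) (nat_lit 361) (nat_lit 253) (nat_lit 166)) (XT.lf (nat_lit 0) (nat_lit 8339257926) (nat_lit 228) (nat_lit 18200941091) (nat_lit 76) (nat_lit 3933859614) (nat_lit 18) (nat_lit 5) (nat_lit 21)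 (nat_lit 5) (nat_lit 19) (nat_lit 4) (nat_lit 362) (nat_lit 253) (nat_lit 165)))))) (XT.nd (nat_lit 468) (nat_lit 304) (nat_lit 0) (XT.nd (nat_lit 234) (nat_lit 0) (nat_lit 0) (XT.nd (nat_lit 78) (nat_lit 76) (nat_lit 0) (XT.lf (nat_lit 0) (nat_lit 12346187124) (nat_lit 228) (nat_lit 10148864338) (nat_lit 76) (nat_lit 8744865197) (nat_lit 18) (nat_lit 5) (nat_lit 21) (nat_lit 5) (nat_lit 19) (nat_lit 4) (nat_lit 363) (nat_lit 253) (nat_lit 164)) (XT.nd (nat_lit 78) (nat_lit 76) (nat_lit 0) (XT.lf (nat_lit 0) (nat_lit 16455219655) (nat_lit 228) (nat_lit 1887129771) (nat_lit 76) (nat_lit 13686953444) (nat_lit 18) (nat_lit 5) (nat_lit 21) (nat_lit 5) (nat_lit 19) (nat_lit 4) (nat_lit 364) (nat_lit 253) (nat_lit 163)) (XT.lf (nat_lit 0) (nat_lit 6722665007) (nat_lit 76) (nat_lit 14011903299) (nat_lit 152) (nat_lit 12106400048) (nat_lit 17) (nat_lit 5) (nat_lit 18) (nat_lit 5) (nat_lit 19) (nat_lit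 4) (nat_lit 365) (nat_lit 253) (nat_lit 162)))) (XT.nd (nat_lit 78) (nat_lit 0) (nat_lit 0) (XT.lf (nat_lit 0) (nat_lit 15598766386) (nat_lit 76) (nat_lit 9545227241) (nat_lit 152) (nat_lit 8532948063) (nat_lit 17) (nat_lit 5) (nat_lit 18) (nat_lit 5) (nat_lit 19) (nat_lit 4) (nat_lit 366) (nat_lit 253) (nat_lit 161)) (XT.nd (nat_lit 78) (nat_lit 0) (nat_lit 0) (XT.lf (nat_lit 0) (nat_lit 24711372599) (nat_lit 76) (nat_lit 4957474642) (nat_lit 152) (nat_lit 4869661140) (nat_lit 17) (nat_lit 5) (nat_lit 18) (nat_lit 5) (nat_lit 19) (nat_lit 4) (nat_lit 367) (nat_lit 253) (nat_lit 160)) (XT.lf (nat_lit 0) (nat_lit 34068446117) (nat_lit 76) (nat_lit 244636787) (nat_lit 152) (nat_lit 1113338346) (nat_lit 17) (nat_lit 5) (nat_lit 18) (nat_lit 5) (nat_lit 19) (nat_lit 4) (nat_lit 368) (nat_lit 253) (nat_lit 159))))) (XT.nd (nat_lit 234) (nat_lit 76) (nat_lit 0) (XT.nd (nat_lit 78) (nat_lit 0) (nat_lit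 0) (XT.lf (nat_lit 0) (nat_lit 2802682606) (nat_lit 228) (nat_lit 28927813639) (nat_lit 76) (nat_lit 4606664933) (nat_lit 14) (nat_lit 5) (nat_lit 17) (nat_lit 5) (nat_lit 15) (nat_lit 4) (nat_lit 369) (nat_lit 253) (nat_lit 158)) (XT.nd (nat_lit 78) (nat_lit 0) (nat_lit 0) (XT.lf (nat_lit 0) (nat_lit 6814105246) (nat_lit 228) (nat_lit 20849348960) (nat_lit 76) (nat_lit 9611437030) (nat_lit 14) (nat_lit 5) (nat_lit 17) (nat_lit 5) (nat_lit 15) (nat_lit 4) (nat_lit 370) (nat_lit 253) (nat_lit 157)) (XT.lf (nat_lit 0) (nat_lit 10930363045) (nat_lit 228) (nat_lit 12556183766) (nat_lit 76) (nat_lit 14754678960) (nat_lit 14) (nat_lit 5) (nat_lit 17) (nat_lit 5) (nat_lit 15) (nat_lit 4) (nat_lit 371) (nat_lit 253) (nat_lit 156)))) (XT.nd (nat_lit 156) (nat_lit 0) (nat_lit 0) (XT.nd (nat_lit 78) (nat_lit 76) (nat_lit 0) (XT.lf (nat_lit 0) (nat_lit 15155052733) (nat_lit 228) (nat_lit 4041071600) (nat_lit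 76) (nat_lit 20040884819) (nat_lit 14) (nat_lit 5) (nat_lit 17) (nat_lit 5) (nat_lit 15) (nat_lit 4) (nat_lit 372) (nat_lit 253) (nat_lit 155)) (XT.lf (nat_lit 0) (nat_lit 4797035363) (nat_lit 76) (nat_lit 14740942461) (nat_lit 152) (nat_lit 20723750297) (nat_lit 13) (nat_lit 5) (nat_lit 14) (nat_lit 5) (nat_lit 15) (nat_lit 4) (nat_lit 373) (nat_lit 253) (nat_lit 154))) (XT.nd (nat_lit 78) (nat_lit 0) (nat_lit 0) (XT.lf (nat_lit 0) (nat_lit 13957313087) (nat_lit 76) (nat_lit 10121444797) (nat_lit 152) (nat_lit 17237646484) (nat_lit 13) (nat_lit 5) (nat_lit 14) (nat_lit 5) (nat_lit 15) (nat_lit 4) (nat_lit 374) (nat_lit 253) (nat_lit 153)) (XT.lf (nat_lit 0) (nat_lit 23367340447) (nat_lit 76) (nat_lit 5374401787) (nat_lit 152) (nat_lit 13661405770) (nat_lit 13) (nat_lit 5) (nat_lit 14) (nat_lit 5) (nat_lit 15) (nat_lit 4) (nat_lit 375) (nat_lit 253) (nat_lit 152))))))) (XT.nd (nat_lit 1014)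 (nat_lit 228) (nat_lit 0) (XT.nd (nat_lit 468) (nat_lit 76) (nat_lit 0) (XT.nd (nat_lit 234) (nat_lit 76) (nat_lit 0) (XT.nd (nat_lit 78) (nat_lit 76) (nat_lit 0) (XT.lf (nat_lit 0) (nat_lit 33035339799) (nat_lit 76) (nat_lit 495665530) (nat_lit 152) (nat_lit 9991903285) (nat_lit 13) (nat_lit 5) (nat_lit 14) (nat_lit 5) (nat_lit 15) (nat_lit 4) (nat_lit 376) (nat_lit 253) (nat_lit 151)) (XT.nd (nat_lit 78) (nat_lit 76) (nat_lit 0) (XT.lf (nat_lit 0) (nat_lit 38494171611) (nat_lit 152) (nat_lit 1750345371) (nat_lit 0) (nat_lit 4430844455) (nat_lit 13) (nat_lit 5) (nat_lit 15) (nat_lit 4) (nat_lit 13) (nat_lit 4) (nat_lit 377) (nat_lit 253) (nat_lit 150)) (XT.lf (nat_lit 0) (nat_lit 7364570492) (nat_lit 76) (nat_lit 36304436139) (nat_lit 76) (nat_lit 2191503977) (nat_lit 12) (nat_lit 4) (nat_lit 13) (nat_lit 5) (nat_lit 13) (nat_lit 4) (nat_lit 378) (nat_lit 253) (nat_lit 149)))) (XT.nd (nat_lit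 78) (nat_lit 0) (nat_lit 0) (XT.lf (nat_lit 0) (nat_lit 1885394612) (nat_lit 152) (nat_lit 30333741299) (nat_lit 76) (nat_lit 14861382500) (nat_lit 11) (nat_lit 5) (nat_lit 13) (nat_lit 5) (nat_lit 12) (nat_lit 4) (nat_lit 379) (nat_lit 253) (nat_lit 148)) (XT.nd (nat_lit 78) (nat_lit 0) (nat_lit 0) (XT.lf (nat_lit 0) (nat_lit 6028025630) (nat_lit 152) (nat_lit 21970957808) (nat_lit 76) (nat_lit 20337873361) (nat_lit 11) (nat_lit 5) (nat_lit 13) (nat_lit 5) (nat_lit 12) (nat_lit 4) (nat_lit 380) (nat_lit 253) (nat_lit 147)) (XT.lf (nat_lit 0) (nat_lit 10282772988) (nat_lit 152) (nat_lit 13379216279) (nat_lit 76) (nat_lit 25969266258) (nat_lit 11) (nat_lit 5) (nat_lit 13) (nat_lit 5) (nat_lit 12) (nat_lit 4) (nat_lit 381) (nat_lit 253) (nat_lit 146))))) (XT.nd (nat_lit 234) (nat_lit 0) (nat_lit 0) (XT.nd (nat_lit 78) (nat_lit 76) (nat_lit 0) (XT.lf (nat_lit 0) (nat_lit 14653354425) (nat_lit 152)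 (nat_lit 4551009366) (nat_lit 76) (nat_lit 31760481826) (nat_lit 11) (nat_lit 5) (nat_lit 13) (nat_lit 5) (nat_lit 12) (nat_lit 4) (nat_lit 382) (nat_lit 253) (nat_lit 145)) (XT.nd (nat_lit 78) (nat_lit 0) (nat_lit 0) (XT.lf (nat_lit 0) (nat_lit 4611361163) (nat_lit 76) (nat_lit 14576554959) (nat_lit 152) (nat_lit 33149546411) (nat_lit 10) (nat_lit 5) (nat_lit 11) (nat_lit 5) (nat_lit 12) (nat_lit 4) (nat_lit 383) (nat_lit 253) (nat_lit 144)) (XT.lf (nat_lit 0) (nat_lit 14121429799) (nat_lit 76) (nat_lit 9771713932) (nat_lit 152) (nat_lit 29857080211) (nat_lit 10) (nat_lit 5) (nat_lit 11) (nat_lit 5) (nat_lit 12) (nat_lit 4) (nat_lit 384) (nat_lit 253) (nat_lit 143)))) (XT.nd (nat_lit 156) (nat_lit 0) (nat_lit 0) (XT.nd (nat_lit 78) (nat_lit 0) (nat_lit 0) (XT.lf (nat_lit 0) (nat_lit 23896932301) (nat_lit 76) (nat_lit 4831598579) (nat_lit 152) (nat_lit 26477171950) (nat_lit 10) (nat_lit 5) (nat_lit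 11) (nat_lit 5) (nat_lit 12) (nat_lit 4) (nat_lit 385) (nat_lit 253) (nat_lit 142)) (XT.lf (nat_lit 0) (nat_lit 33700687626) (nat_lit 152) (nat_lit 22761145567) (nat_lit 0) (nat_lit 243266231) (nat_lit 10) (nat_lit 5) (nat_lit 12) (nat_lit 4) (nat_lit 10) (nat_lit 4) (nat_lit 386) (nat_lit 253) (nat_lit 141))) (XT.nd (nat_lit 78) (nat_lit 0) (nat_lit 0) (XT.lf (nat_lit 0) (nat_lit 38859400305) (nat_lit 152) (nat_lit 14023892193) (nat_lit 0) (nat_lit 5365068128) (nat_lit 10) (nat_lit 5) (nat_lit 12) (nat_lit 4) (nat_lit 10) (nat_lit 4) (nat_lit 387) (nat_lit 253) (nat_lit 140)) (XT.lf (nat_lit 0) (nat_lit 44162732250) (nat_lit 152) (nat_lit 5042931633) (nat_lit 0) (nat_lit 10632564361) (nat_lit 10) (nat_lit 5) (nat_lit 12) (nat_lit 4) (nat_lit 10) (nat_lit 4) (nat_lit 388) (nat_lit 253) (nat_lit 139)))))) (XT.nd (nat_lit 468) (nat_lit 76) (nat_lit 0) (XT.nd (nat_lit 234) (nat_lit 76) (nat_lit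 0) (XT.nd (nat_lit 78) (nat_lit 0) (nat_lit 0) (XT.lf (nat_lit 0) (nat_lit 4272964482) (nat_lit 76) (nat_lit 45383427306) (nat_lit 76) (nat_lit 11818467464) (nat_lit 9) (nat_lit 4) (nat_lit 10) (nat_lit 5) (nat_lit 10) (nat_lit 4) (nat_lit 389) (nat_lit 253) (nat_lit 138)) (XT.nd (nat_lit 78) (nat_lit 0) (nat_lit 0) (XT.lf (nat_lit 0) (nat_lit 13954013685) (nat_lit 76) (nat_lit 41402041102) (nat_lit 76) (nat_lit 7803302664) (nat_lit 9) (nat_lit 4) (nat_lit 10) (nat_lit 5) (nat_lit 10) (nat_lit 4) (nat_lit 390) (nat_lit 253) (nat_lit 137)) (XT.lf (nat_lit 0) (nat_lit 23908310915) (nat_lit 76) (nat_lit 37308950110) (nat_lit 76) (nat_lit 3677416919) (nat_lit 9) (nat_lit 4) (nat_lit 10) (nat_lit 5) (nat_lit 10) (nat_lit 4) (nat_lit 391) (nat_lit 253) (nat_lit 136)))) (XT.nd (nat_lit 78) (nat_lit 0) (nat_lit 0) (XT.lf (nat_lit 0) (nat_lit 551812756) (nat_lit 152) (nat_lit 32543192860) (nat_lit 76)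 (nat_lit 33587169119) (nat_lit 8) (nat_lit 5) (nat_lit 10) (nat_lit 5) (nat_lit 9) (nat_lit 4) (nat_lit 392) (nat_lit 253) (nat_lit 135)) (XT.nd (nat_lit 78) (nat_lit 0) (nat_lit 0) (XT.lf (nat_lit 0) (nat_lit 4825010697) (nat_lit 152) (nat_lit 23899513239) (nat_lit 76) (nat_lit 39797953692) (nat_lit 8) (nat_lit 5) (nat_lit 10) (nat_lit 5) (nat_lit 9) (nat_lit 4) (nat_lit 393) (nat_lit 253) (nat_lit 134)) (XT.lf (nat_lit 0) (nat_lit 9217670416) (nat_lit 152) (nat_lit 15012425856) (nat_lit 76) (nat_lit 46188158872) (nat_lit 8) (nat_lit 5) (nat_lit 10) (nat_lit 5) (nat_lit 9) (nat_lit 4) (nat_lit 394) (nat_lit 253) (nat_lit 133))))) (XT.nd (nat_lit 234) (nat_lit 0) (nat_lit 0) (XT.nd (nat_lit 78) (nat_lit 76) (nat_lit 0) (XT.lf (nat_lit 0) (nat_lit 13733630157) (nat_lit 152) (nat_lit 5874165294) (nat_lit 76) (nat_lit 52763368334) (nat_lit 8) (nat_lit 5) (nat_lit 10) (nat_lit 5) (nat_lit 9) (nat_lit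 4) (nat_lit 395) (nat_lit 253) (nat_lit 132)) (XT.nd (nat_lit 78) (nat_lit 0) (nat_lit 0) (XT.lf (nat_lit 0) (nat_lit 3593372982) (nat_lit 76) (nat_lit 14818004622) (nat_lit 152) (nat_lit 55970496123) (nat_lit 7) (nat_lit 5) (nat_lit 8) (nat_lit 5) (nat_lit 9) (nat_lit 4) (nat_lit 396) (nat_lit 253) (nat_lit 131)) (XT.lf (nat_lit 0) (nat_lit 13450509246) (nat_lit 76) (nat_lit 9830130109) (nat_lit 152) (nat_lit 53170733369) (nat_lit 7) (nat_lit 5) (nat_lit 8) (nat_lit 5) (nat_lit 9) (nat_lit 4) (nat_lit 397) (nat_lit 253) (nat_lit 130)))) (XT.nd (nat_lit 156) (nat_lit 0) (nat_lit 0) (XT.nd (nat_lit 78) (nat_lit 0) (nat_lit 0) (XT.lf (nat_lit 0) (nat_lit 23588949119) (nat_lit 76) (nat_lit 4699131126) (nat_lit 152) (nat_lit 50295116523) (nat_lit 7) (nat_lit 5) (nat_lit 8) (nat_lit 5) (nat_lit 9) (nat_lit 4) (nat_lit 398) (nat_lit 253) (nat_lit 129)) (XT.lf (nat_lit 0) (nat_lit 33443645987) (nat_lit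 152) (nat_lit 46767227465) (nat_lit 0) (nat_lit 568168063) (nat_lit 7) (nat_lit 5) (nat_lit 9) (nat_lit 4) (nat_lit 7) (nat_lit 4) (nat_lit 399) (nat_lit 253) (nat_lit 128))) (XT.nd (nat_lit 78) (nat_lit 0) (nat_lit 0) (XT.lf (nat_lit 0) (nat_lit 38792900455) (nat_lit 152) (nat_lit 38353673279) (nat_lit 0) (nat_lit 5893020156) (nat_lit 7) (nat_lit 5) (nat_lit 9) (nat_lit 4) (nat_lit 7) (nat_lit 4) (nat_lit 400) (nat_lit 253) (nat_lit 127)) (XT.lf (nat_lit 0) (nat_lit 44295346834) (nat_lit 152) (nat_lit 29701062520) (nat_lit 0) (nat_lit 11371774908) (nat_lit 7) (nat_lit 5) (nat_lit 9) (nat_lit 4) (nat_lit 7) (nat_lit 4) (nat_lit 401) (nat_lit 253) (nat_lit 126))))))))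
noncomputable def xc89 : XT := (XT.nd (nat_lit 31980) (nat_lit 0) (nat_lit 4864) (XT.nd (nat_lit 30966) (nat_lit 0) (nat_lit 12008) (XT.nd (nat_lit 468) (nat_lit 0) (nat_lit 0) (XT.nd (nat_lit 234) (nat_lit 76) (nat_lit 0) (XT.nd (nat_lit 78) (nat_lit 0) (nat_lit 0) (XT.lf (nat_lit 0) (nat_lit 49955793087) (nat_lit 152) (nat_lit 20801834654) (nat_lit 0) (nat_lit 17009219581) (nat_lit 7) (nat_lit 5) (nat_lit 9) (nat_lit 4) (nat_lit 7) (nat_lit 4) (nat_lit 402) (nat_lit 253) (nat_lit 125)) (XT.nd (nat_lit 78) (nat_lit 0) (nat_lit 0) (XT.lf (nat_lit 0) (nat_lit 55779185234) (nat_lit 152) (nat_lit 11648213657) (nat_lit 0) (nat_lit 22810280097) (nat_lit 7) (nat_lit 5) (nat_lit 9) (nat_lit 4) (nat_lit 7) (nat_lit 4) (nat_lit 403) (nat_lit 253) (nat_lit 124)) (XT.lf (nat_lit 0) (nat_lit 61770611677) (nat_lit 152) (nat_lit 2232201219) (nat_lit 0) (nat_lit 28780025345) (nat_lit 7) (nat_lit 5) (nat_lit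 9) (nat_lit 4) (nat_lit 7) (nat_lit 4) (nat_lit 404) (nat_lit 253) (nat_lit 123)))) (XT.nd (nat_lit 78) (nat_lit 0) (nat_lit 0) (XT.lf (nat_lit 0) (nat_lit 7602788021) (nat_lit 76) (nat_lit 60405602270) (nat_lit 76) (nat_lit 27393966234) (nat_lit 6) (nat_lit 4) (nat_lit 7) (nat_lit 5) (nat_lit 7) (nat_lit 4) (nat_lit 405) (nat_lit 253) (nat_lit 122)) (XT.nd (nat_lit 78) (nat_lit 0) (nat_lit 0) (XT.lf (nat_lit 0) (nat_lit 17766839815) (nat_lit 76) (nat_lit 56682605674) (nat_lit 76) (nat_lit 23650533033) (nat_lit 6) (nat_lit 4) (nat_lit 7) (nat_lit 5) (nat_lit 7) (nat_lit 4) (nat_lit 406) (nat_lit 253) (nat_lit 121)) (XT.lf (nat_lit 0) (nat_lit 28224410191) (nat_lit 76) (nat_lit 52853110862) (nat_lit 76) (nat_lit 19801196856) (nat_lit 6) (nat_lit 4) (nat_lit 7) (nat_lit 5) (nat_lit 7) (nat_lit 4) (nat_lit 407) (nat_lit 253) (nat_lit 120))))) (XT.nd (nat_lit 30186) (nat_lit 0) (nat_lit 18620) (XT.nd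 (nat_lit 30030) (nat_lit 0) (nat_lit 20596) (XT.lf (nat_lit 0) (nat_lit 38984636832) (nat_lit 76) (nat_lit 48913771672) (nat_lit 76) (nat_lit 15842594205) (nat_lit 6) (nat_lit 4) (nat_lit 7) (nat_lit 5) (nat_lit 7) (nat_lit 4) (nat_lit 408) (nat_lit 253) (nat_lit 119)) (XT.nd (nat_lit 78) (nat_lit 0) (nat_lit 0) (XT.lf (nat_lit 0) (nat_lit 235302478) (nat_lit 532) (nat_lit 2832208313) (nat_lit 0) (nat_lit 235302478) (nat_lit 277) (nat_lit 5) (nat_lit 284) (nat_lit 4) (nat_lit 277) (nat_lit 4) (nat_lit 272) (nat_lit 254) (nat_lit 254)) (XT.lf (nat_lit 0) (nat_lit 3446814221) (nat_lit 532) (nat_lit 1921877584) (nat_lit 0) (nat_lit 1265640433) (nat_lit 277) (nat_lit 5) (nat_lit 284) (nat_lit 4) (nat_lit 277) (nat_lit 4) (nat_lit 273) (nat_lit 254) (nat_lit 253)))) (XT.nd (nat_lit 156) (nat_lit 1368) (nat_lit 0) (XT.nd (nat_lit 78) (nat_lit 76) (nat_lit 0) (XT.lf (nat_lit 0) (nat_lit 1894304413)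 (nat_lit 532) (nat_lit 4535570539) (nat_lit 532) (nat_lit 236752297) (nat_lit 270) (nat_lit 4) (nat_lit 277) (nat_lit 5) (nat_lit 277) (nat_lit 4) (nat_lit 274) (nat_lit 254) (nat_lit 252)) (XT.lf (nat_lit 0) (nat_lit 2667798539) (nat_lit 608) (nat_lit 939152696) (nat_lit 76) (nat_lit 3094773641) (nat_lit 269) (nat_lit 5) (nat_lit 277) (nat_lit 5) (nat_lit 270) (nat_lit 4) (nat_lit 275) (nat_lit 254) (nat_lit 251))) (XT.nd (nat_lit 78) (nat_lit 760) (nat_lit 0) (XT.lf (nat_lit 0) (nat_lit 2990182318) (nat_lit 608) (nat_lit 2596541351) (nat_lit 684) (nat_lit 1153355002) (nat_lit 261) (nat_lit 5) (nat_lit 269) (nat_lit 5) (nat_lit 270) (nat_lit 4) (nat_lit 276) (nat_lit 254) (nat_lit 250)) (XT.lf (nat_lit 0) (nat_lit 187248392) (nat_lit 684) (nat_lit 1506571094) (nat_lit 760) (nat_lit 5087993332) (nat_lit 251) (nat_lit 5) (nat_lit 260) (nat_lit 5) (nat_lit 261) (nat_lit 5) (nat_lit 277) (nat_lit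 254) (nat_lit 249)))))) (XT.nd (nat_lit 468) (nat_lit 3952) (nat_lit 0) (XT.nd (nat_lit 234) (nat_lit 1824) (nat_lit 0) (XT.nd (nat_lit 78) (nat_lit 836) (nat_lit 0) (XT.lf (nat_lit 0) (nat_lit 4232249025) (nat_lit 684) (nat_lit 314997375) (nat_lit 760) (nat_lit 2279103091) (nat_lit 251) (nat_lit 5) (nat_lit 260) (nat_lit 5) (nat_lit 261) (nat_lit 5) (nat_lit 278) (nat_lit 254) (nat_lit 248)) (XT.nd (nat_lit 78) (nat_lit 0) (nat_lit 0) (XT.lf (nat_lit 0) (nat_lit 533259228) (nat_lit 836) (nat_lit 5409795672) (nat_lit 76) (nat_lit 931256026) (nat_lit 240) (nat_lit 5) (nat_lit 251) (nat_lit 5) (nat_lit 241) (nat_lit 5) (nat_lit 279) (nat_lit 254) (nat_lit 247)) (XT.lf (nat_lit 0) (nat_lit 3323763336) (nat_lit 836) (nat_lit 1328431075) (nat_lit 76) (nat_lit 2272847981) (nat_lit 240) (nat_lit 5) (nat_lit 251) (nat_lit 5) (nat_lit 241) (nat_lit 5) (nat_lit 280) (nat_lit 254) (nat_lit 246)))) (XT.nd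 (nat_lit 78) (nat_lit 988) (nat_lit 0) (XT.lf (nat_lit 0) (nat_lit 2855732936) (nat_lit 836) (nat_lit 3282327052) (nat_lit 912) (nat_lit 841223307) (nat_lit 229) (nat_lit 5) (nat_lit 240) (nat_lit 5) (nat_lit 241) (nat_lit 5) (nat_lit 281) (nat_lit 254) (nat_lit 245)) (XT.nd (nat_lit 78) (nat_lit 0) (nat_lit 0) (XT.lf (nat_lit 0) (nat_lit 63234425) (nat_lit 912) (nat_lit 1826921990) (nat_lit 988) (nat_lit 5146769258) (nat_lit 216) (nat_lit 5) (nat_lit 228) (nat_lit 5) (nat_lit 229) (nat_lit 5) (nat_lit 282) (nat_lit 254) (nat_lit 244)) (XT.lf (nat_lit 0) (nat_lit 4375876911) (nat_lit 912) (nat_lit 267470282) (nat_lit 988) (nat_lit 2454170644) (nat_lit 216) (nat_lit 5) (nat_lit 228) (nat_lit 5) (nat_lit 229) (nat_lit 5) (nat_lit 283) (nat_lit 254) (nat_lit 243))))) (XT.nd (nat_lit 234) (nat_lit 1824) (nat_lit 0) (XT.nd (nat_lit 78) (nat_lit 1064) (nat_lit 0) (XT.lf (nat_lit 0) (nat_lit 258299414)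 (nat_lit 1064) (nat_lit 5564218571) (nat_lit 76) (nat_lit 1339121797) (nat_lit 202) (nat_lit 5) (nat_lit 216) (nat_lit 5) (nat_lit 203) (nat_lit 5) (nat_lit 284) (nat_lit 254) (nat_lit 242)) (XT.nd (nat_lit 78) (nat_lit 1064) (nat_lit 0) (XT.lf (nat_lit 0) (nat_lit 2951704009) (nat_lit 1064) (nat_lit 1229561759) (nat_lit 76) (nat_lit 3047383015) (nat_lit 202) (nat_lit 5) (nat_lit 216) (nat_lit 5) (nat_lit 203) (nat_lit 5) (nat_lit 285) (nat_lit 254) (nat_lit 241)) (XT.lf (nat_lit 0) (nat_lit 3222950392) (nat_lit 1064) (nat_lit 2454798860) (nat_lit 1140) (nat_lit 1621517985) (nat_lit 188) (nat_lit 5) (nat_lit 202) (nat_lit 5) (nat_lit 203) (nat_lit 5) (nat_lit 286) (nat_lit 254) (nat_lit 240)))) (XT.nd (nat_lit 156) (nat_lit 608) (nat_lit 0) (XT.nd (nat_lit 78) (nat_lit 0) (nat_lit 0) (XT.lf (nat_lit 0) (nat_lit 383214780) (nat_lit 1140) (nat_lit 646383127) (nat_lit 1216) (nat_lit 6344098001)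 (nat_lit 172) (nat_lit 5) (nat_lit 187) (nat_lit 5) (nat_lit 188) (nat_lit 5) (nat_lit 287) (nat_lit 254) (nat_lit 239)) (XT.lf (nat_lit 0) (nat_lit 3704028723) (nat_lit 1216) (nat_lit 2494948634) (nat_lit 76) (nat_lit 1251748513) (nat_lit 172) (nat_lit 5) (nat_lit 188) (nat_lit 5) (nat_lit 173) (nat_lit 5) (nat_lit 288) (nat_lit 254) (nat_lit 238))) (XT.nd (nat_lit 78) (nat_lit 76) (nat_lit 0) (XT.lf (nat_lit 0) (nat_lit 2094419606) (nat_lit 532) (nat_lit 4316155353) (nat_lit 608) (nat_lit 1121072422) (nat_lit 165) (nat_lit 5) (nat_lit 172) (nat_lit 5) (nat_lit 173) (nat_lit 5) (nat_lit 289) (nat_lit 254) (nat_lit 237)) (XT.lf (nat_lit 0) (nat_lit 1503818511) (nat_lit 608) (nat_lit 833459978) (nat_lit 76) (nat_lit 5278848894) (nat_lit 164) (nat_lit 5) (nat_lit 172) (nat_lit 5) (nat_lit 165) (nat_lit 5) (nat_lit 290) (nat_lit 254) (nat_lit 236))))))) (XT.nd (nat_lit 1014) (nat_lit 2964) (nat_lit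 0) (XT.nd (nat_lit 468) (nat_lit 1900) (nat_lit 0) (XT.nd (nat_lit 234) (nat_lit 1064) (nat_lit 0) (XT.nd (nat_lit 78) (nat_lit 608) (nat_lit 0) (XT.lf (nat_lit 0) (nat_lit 3899271252) (nat_lit 608) (nat_lit 251241673) (nat_lit 684) (nat_lit 3553453683) (nat_lit 156) (nat_lit 5) (nat_lit 164) (nat_lit 5) (nat_lit 165) (nat_lit 5) (nat_lit 291) (nat_lit 254) (nat_lit 235)) (XT.nd (nat_lit 78) (nat_lit 76) (nat_lit 0) (XT.lf (nat_lit 0) (nat_lit 920908299) (nat_lit 532) (nat_lit 5920757951) (nat_lit 608) (nat_lit 953944851) (nat_lit 149) (nat_lit 5) (nat_lit 156) (nat_lit 5) (nat_lit 157) (nat_lit 5) (nat_lit 292) (nat_lit 254) (nat_lit 234)) (XT.lf (nat_lit 0) (nat_lit 1661205308) (nat_lit 608) (nat_lit 2118402949) (nat_lit 76) (nat_lit 4110875818) (nat_lit 148) (nat_lit 5) (nat_lit 156) (nat_lit 5) (nat_lit 149) (nat_lit 5) (nat_lit 293) (nat_lit 254) (nat_lit 233)))) (XT.nd (nat_lit 78) (nat_lit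 532) (nat_lit 0) (XT.lf (nat_lit 0) (nat_lit 2750653475) (nat_lit 532) (nat_lit 1543463741) (nat_lit 608) (nat_lit 3695159749) (nat_lit 141) (nat_lit 5) (nat_lit 148) (nat_lit 5) (nat_lit 149) (nat_lit 5) (nat_lit 294) (nat_lit 254) (nat_lit 232)) (XT.nd (nat_lit 78) (nat_lit 532) (nat_lit 0) (XT.lf (nat_lit 0) (nat_lit 6968171602) (nat_lit 608) (nat_lit 364179723) (nat_lit 76) (nat_lit 759925913) (nat_lit 141) (nat_lit 5) (nat_lit 149) (nat_lit 5) (nat_lit 142) (nat_lit 5) (nat_lit 295) (nat_lit 254) (nat_lit 231)) (XT.lf (nat_lit 0) (nat_lit 1489447804) (nat_lit 532) (nat_lit 3554371962) (nat_lit 76) (nat_lit 3154357036) (nat_lit 134) (nat_lit 5) (nat_lit 141) (nat_lit 5) (nat_lit 135) (nat_lit 5) (nat_lit 296) (nat_lit 254) (nat_lit 230))))) (XT.nd (nat_lit 234) (nat_lit 912) (nat_lit 0) (XT.nd (nat_lit 78) (nat_lit 532) (nat_lit 0) (XT.lf (nat_lit 0) (nat_lit 1445448671) (nat_lit 456) (nat_lit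 2666626879) (nat_lit 532) (nat_lit 4196345139) (nat_lit 128) (nat_lit 5) (nat_lit 134) (nat_lit 5) (nat_lit 135) (nat_lit 5) (nat_lit 297) (nat_lit 254) (nat_lit 229)) (XT.nd (nat_lit 78) (nat_lit 532) (nat_lit 0) (XT.lf (nat_lit 0) (nat_lit 6594907681) (nat_lit 456) (nat_lit 191189683) (nat_lit 532) (nat_lit 1636789249) (nat_lit 128) (nat_lit 5) (nat_lit 134) (nat_lit 5) (nat_lit 135) (nat_lit 5) (nat_lit 298) (nat_lit 254) (nat_lit 228)) (XT.lf (nat_lit 0) (nat_lit 973115682) (nat_lit 532) (nat_lit 5223226075) (nat_lit 76) (nat_lit 2344455147) (nat_lit 121) (nat_lit 5) (nat_lit 128) (nat_lit 5) (nat_lit 122) (nat_lit 5) (nat_lit 299) (nat_lit 254) (nat_lit 227)))) (XT.nd (nat_lit 156) (nat_lit 456) (nat_lit 0) (XT.nd (nat_lit 78) (nat_lit 456) (nat_lit 0) (XT.lf (nat_lit 0) (nat_lit 3587932949) (nat_lit 532) (nat_lit 98525574) (nat_lit 76) (nat_lit 4976602431) (nat_lit 121) (nat_lit 5) (nat_lit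 128) (nat_lit 5) (nat_lit 122) (nat_lit 5) (nat_lit 300) (nat_lit 254) (nat_lit 226)) (XT.lf (nat_lit 0) (nat_lit 5210214995) (nat_lit 456) (nat_lit 1061819140) (nat_lit 532) (nat_lit 2517319061) (nat_lit 115) (nat_lit 5) (nat_lit 121) (nat_lit 5) (nat_lit 122) (nat_lit 5) (nat_lit 301) (nat_lit 254) (nat_lit 225))) (XT.nd (nat_lit 78) (nat_lit 0) (nat_lit 0) (XT.lf (nat_lit 0) (nat_lit 89471537) (nat_lit 456) (nat_lit 7215195832) (nat_lit 76) (nat_lit 1615577532) (nat_lit 109) (nat_lit 5) (nat_lit 115) (nat_lit 5) (nat_lit 110) (nat_lit 5) (nat_lit 302) (nat_lit 254) (nat_lit 224)) (XT.lf (nat_lit 0) (nat_lit 2712928630) (nat_lit 456) (nat_lit 1941545465) (nat_lit 76) (nat_lit 4400247994) (nat_lit 109) (nat_lit 5) (nat_lit 115) (nat_lit 5) (nat_lit 110) (nat_lit 5) (nat_lit 303) (nat_lit 254) (nat_lit 223)))))) (XT.nd (nat_lit 546) (nat_lit 1368) (nat_lit 0) (XT.nd (nat_lit 234) (nat_lit 760)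 (nat_lit 0) (XT.nd (nat_lit 78) (nat_lit 456) (nat_lit 0) (XT.lf (nat_lit 0) (nat_lit 3487590938) (nat_lit 380) (nat_lit 1904756572) (nat_lit 456) (nat_lit 3801644263) (nat_lit 104) (nat_lit 5) (nat_lit 109) (nat_lit 5) (nat_lit 110) (nat_lit 5) (nat_lit 304) (nat_lit 254) (nat_lit 222)) (XT.nd (nat_lit 78) (nat_lit 456) (nat_lit 0) (XT.lf (nat_lit 0) (nat_lit 8125420365) (nat_lit 456) (nat_lit 298235198) (nat_lit 76) (nat_lit 914659555) (nat_lit 104) (nat_lit 5) (nat_lit 110) (nat_lit 5) (nat_lit 105) (nat_lit 5) (nat_lit 305) (nat_lit 254) (nat_lit 221)) (XT.lf (nat_lit 0) (nat_lit 1441091614) (nat_lit 456) (nat_lit 4213797794) (nat_lit 76) (nat_lit 3831250941) (nat_lit 98) (nat_lit 5) (nat_lit 104) (nat_lit 5) (nat_lit 99) (nat_lit 5) (nat_lit 306) (nat_lit 254) (nat_lit 220)))) (XT.nd (nat_lit 156) (nat_lit 380) (nat_lit 0) (XT.nd (nat_lit 78) (nat_lit 0) (nat_lit 0) (XT.lf (nat_lit 0) (nat_lit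 1321552430) (nat_lit 380) (nat_lit 2790996601) (nat_lit 456) (nat_lit 5526691613) (nat_lit 93) (nat_lit 5) (nat_lit 98) (nat_lit 5) (nat_lit 99) (nat_lit 5) (nat_lit 307) (nat_lit 254) (nat_lit 219)) (XT.lf (nat_lit 0) (nat_lit 6855864887) (nat_lit 456) (nat_lit 2759098504) (nat_lit 76) (nat_lit 182284607) (nat_lit 93) (nat_lit 5) (nat_lit 99) (nat_lit 5) (nat_lit 94) (nat_lit 5) (nat_lit 308) (nat_lit 254) (nat_lit 218))) (XT.nd (nat_lit 78) (nat_lit 76) (nat_lit 0) (XT.lf (nat_lit 0) (nat_lit 2926958867) (nat_lit 304) (nat_lit 6759043822) (nat_lit 380) (nat_lit 273920796) (nat_lit 89) (nat_lit 5) (nat_lit 93) (nat_lit 5) (nat_lit 94) (nat_lit 5) (nat_lit 309) (nat_lit 254) (nat_lit 217)) (XT.lf (nat_lit 0) (nat_lit 2402466087) (nat_lit 380) (nat_lit 1379711880) (nat_lit 76) (nat_lit 6345332814) (nat_lit 88) (nat_lit 5) (nat_lit 93) (nat_lit 5) (nat_lit 89) (nat_lit 5) (nat_lit 310) (nat_lit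 254) (nat_lit 216))))) (XT.nd (nat_lit 234) (nat_lit 608) (nat_lit 0) (XT.nd (nat_lit 78) (nat_lit 380) (nat_lit 0) (XT.lf (nat_lit 0) (nat_lit 4460305717) (nat_lit 380) (nat_lit 686724557) (nat_lit 456) (nat_lit 5153270512) (nat_lit 83) (nat_lit 5) (nat_lit 88) (nat_lit 5) (nat_lit 89) (nat_lit 5) (nat_lit 311) (nat_lit 254) (nat_lit 215)) (XT.nd (nat_lit 78) (nat_lit 380) (nat_lit 0) (XT.lf (nat_lit 0) (nat_lit 7963195384) (nat_lit 456) (nat_lit 66079260) (nat_lit 76) (nat_lit 2449378421) (nat_lit 83) (nat_lit 5) (nat_lit 89) (nat_lit 5) (nat_lit 84) (nat_lit 5) (nat_lit 312) (nat_lit 254) (nat_lit 214)) (XT.lf (nat_lit 0) (nat_lit 213979448) (nat_lit 380) (nat_lit 4740034624) (nat_lit 76) (nat_lit 5707844334) (nat_lit 78) (nat_lit 5) (nat_lit 83) (nat_lit 5) (nat_lit 79) (nat_lit 5) (nat_lit 313) (nat_lit 254) (nat_lit 213)))) (XT.nd (nat_lit 156) (nat_lit 304) (nat_lit 0) (XT.nd (nat_lit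 78) (nat_lit 0) (nat_lit 0) (XT.lf (nat_lit 0) (nat_lit 1171921267) (nat_lit 304) (nat_lit 1767569212) (nat_lit 380) (nat_lit 7911431495) (nat_lit 74) (nat_lit 5) (nat_lit 78) (nat_lit 5) (nat_lit 79) (nat_lit 5) (nat_lit 314) (nat_lit 254) (nat_lit 212)) (XT.lf (nat_lit 0) (nat_lit 5763034149) (nat_lit 380) (nat_lit 3767675746) (nat_lit 76) (nat_lit 1514509728) (nat_lit 74) (nat_lit 5) (nat_lit 79) (nat_lit 5) (nat_lit 75) (nat_lit 5) (nat_lit 315) (nat_lit 254) (nat_lit 211))) (XT.nd (nat_lit 78) (nat_lit 76) (nat_lit 0) (XT.lf (nat_lit 0) (nat_lit 2283163117) (nat_lit 228) (nat_lit 6382297340) (nat_lit 304) (nat_lit 2580109186) (nat_lit 71) (nat_lit 5) (nat_lit 74) (nat_lit 5) (nat_lit 75) (nat_lit 5) (nat_lit 316) (nat_lit 254) (nat_lit 210)) (XT.lf (nat_lit 0) (nat_lit 192432245) (nat_lit 304) (nat_lit 2925540832) (nat_lit 76) (nat_lit 8334143533) (nat_lit 70) (nat_lit 5) (nat_lit 74) (nat_lit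 5) (nat_lit 71) (nat_lit 5) (nat_lit 317) (nat_lit 254) (nat_lit 209))))))))
noncomputable def xc90 : XT := (XT.nd (nat_lit 2028) (nat_lit 1368) (nat_lit 0) (XT.nd (nat_lit 1014) (nat_lit 1064) (nat_lit 0) (XT.nd (nat_lit 468) (nat_lit 912) (nat_lit 0) (XT.nd (nat_lit 234) (nat_lit 304) (nat_lit 0) (XT.nd (nat_lit 78) (nat_lit 228) (nat_lit 0) (XT.lf (nat_lit 0) (nat_lit 2986678589) (nat_lit 380) (nat_lit 8399875430) (nat_lit 76) (nat_lit 277872605) (nat_lit 66) (nat_lit 5) (nat_lit 71) (nat_lit 5) (nat_lit 67) (nat_lit 5) (nat_lit 318) (nat_lit 254) (nat_lit 208)) (XT.nd (nat_lit 78) (nat_lit 228) (nat_lit 0) (XT.lf (nat_lit 0) (nat_lit 5882195742) (nat_lit 380) (nat_lit 2276879172) (nat_lit 76) (nat_lit 3723551020) (nat_lit 66) (nat_lit 5) (nat_lit 71) (nat_lit 5) (nat_lit 67) (nat_lit 5) (nat_lit 319) (nat_lit 254) (nat_lit 207)) (XT.lf (nat_lit 0) (nat_lit 4046820964) (nat_lit 228) (nat_lit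 4814655707) (nat_lit 304) (nat_lit 3246029641) (nat_lit 63) (nat_lit 5) (nat_lit 66) (nat_lit 5) (nat_lit 67) (nat_lit 5) (nat_lit 320) (nat_lit 254) (nat_lit 206)))) (XT.nd (nat_lit 78) (nat_lit 304) (nat_lit 0) (XT.lf (nat_lit 0) (nat_lit 10545559227) (nat_lit 228) (nat_lit 1366200225) (nat_lit 304) (nat_lit 427965759) (nat_lit 63) (nat_lit 5) (nat_lit 66) (nat_lit 5) (nat_lit 67) (nat_lit 5) (nat_lit 321) (nat_lit 254) (nat_lit 205)) (XT.nd (nat_lit 78) (nat_lit 0) (nat_lit 0) (XT.lf (nat_lit 0) (nat_lit 2452114673) (nat_lit 304) (nat_lit 7932378005) (nat_lit 76) (nat_lit 2192969923) (nat_lit 59) (nat_lit 5) (nat_lit 63) (nat_lit 5) (nat_lit 60) (nat_lit 5) (nat_lit 322) (nat_lit 254) (nat_lit 204)) (XT.lf (nat_lit 0) (nat_lit 5401636338) (nat_lit 304) (nat_lit 1586301386) (nat_lit 76) (nat_lit 5834555405) (nat_lit 59) (nat_lit 5) (nat_lit 63) (nat_lit 5) (nat_lit 60) (nat_lit 5) (nat_lit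 323) (nat_lit 254) (nat_lit 203))))) (XT.nd (nat_lit 234) (nat_lit 380) (nat_lit 0) (XT.nd (nat_lit 78) (nat_lit 304) (nat_lit 0) (XT.lf (nat_lit 0) (nat_lit 4988411307) (nat_lit 228) (nat_lit 3460171220) (nat_lit 304) (nat_lit 4626060140) (nat_lit 56) (nat_lit 5) (nat_lit 59) (nat_lit 5) (nat_lit 60) (nat_lit 5) (nat_lit 324) (nat_lit 254) (nat_lit 202)) (XT.nd (nat_lit 78) (nat_lit 304) (nat_lit 0) (XT.lf (nat_lit 0) (nat_lit 11566149499) (nat_lit 304) (nat_lit 1602323078) (nat_lit 76) (nat_lit 166542949) (nat_lit 56) (nat_lit 5) (nat_lit 60) (nat_lit 5) (nat_lit 57) (nat_lit 5) (nat_lit 325) (nat_lit 254) (nat_lit 201)) (XT.lf (nat_lit 0) (nat_lit 1197168148) (nat_lit 304) (nat_lit 8530337188) (nat_lit 76) (nat_lit 3874007826) (nat_lit 52) (nat_lit 5) (nat_lit 56) (nat_lit 5) (nat_lit 53) (nat_lit 5) (nat_lit 326) (nat_lit 254) (nat_lit 200)))) (XT.nd (nat_lit 156) (nat_lit 228) (nat_lit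 0) (XT.nd (nat_lit 78) (nat_lit 152) (nat_lit 0) (XT.lf (nat_lit 0) (nat_lit 4195608801) (nat_lit 304) (nat_lit 1973448532) (nat_lit 76) (nat_lit 7707085871) (nat_lit 52) (nat_lit 5) (nat_lit 56) (nat_lit 5) (nat_lit 53) (nat_lit 5) (nat_lit 327) (nat_lit 254) (nat_lit 199)) (XT.lf (nat_lit 0) (nat_lit 4817868973) (nat_lit 152) (nat_lit 2476171617) (nat_lit 228) (nat_lit 6864701697) (nat_lit 50) (nat_lit 5) (nat_lit 52) (nat_lit 5) (nat_lit 53) (nat_lit 5) (nat_lit 328) (nat_lit 254) (nat_lit 198))) (XT.nd (nat_lit 78) (nat_lit 228) (nat_lit 0) (XT.lf (nat_lit 0) (nat_lit 10482365576) (nat_lit 228) (nat_lit 2665450559) (nat_lit 76) (nat_lit 1302125371) (nat_lit 50) (nat_lit 5) (nat_lit 53) (nat_lit 5) (nat_lit 51) (nat_lit 5) (nat_lit 329) (nat_lit 254) (nat_lit 197)) (XT.lf (nat_lit 0) (nat_lit 4212926966) (nat_lit 228) (nat_lit 9583528314) (nat_lit 304) (nat_lit 952547455) (nat_lit 47) (nat_lit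 5) (nat_lit 50) (nat_lit 5) (nat_lit 51) (nat_lit 5) (nat_lit 330) (nat_lit 254) (nat_lit 196)))))) (XT.nd (nat_lit 468) (nat_lit 532) (nat_lit 0) (XT.nd (nat_lit 234) (nat_lit 304) (nat_lit 0) (XT.nd (nat_lit 78) (nat_lit 152) (nat_lit 0) (XT.lf (nat_lit 0) (nat_lit 2103328159) (nat_lit 304) (nat_lit 3780076569) (nat_lit 76) (nat_lit 9173265773) (nat_lit 46) (nat_lit 5) (nat_lit 50) (nat_lit 5) (nat_lit 47) (nat_lit 5) (nat_lit 331) (nat_lit 254) (nat_lit 195)) (XT.nd (nat_lit 78) (nat_lit 0) (nat_lit 0) (XT.lf (nat_lit 0) (nat_lit 3177603771) (nat_lit 152) (nat_lit 2050914356) (nat_lit 228) (nat_lit 10144890720) (nat_lit 44) (nat_lit 5) (nat_lit 46) (nat_lit 5) (nat_lit 47) (nat_lit 5) (nat_lit 332) (nat_lit 254) (nat_lit 194)) (XT.lf (nat_lit 0) (nat_lit 8470765633) (nat_lit 228) (nat_lit 5349494380) (nat_lit 76) (nat_lit 1878716471) (nat_lit 44) (nat_lit 5) (nat_lit 47) (nat_lit 5) (nat_lit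 45) (nat_lit 5) (nat_lit 333) (nat_lit 254) (nat_lit 193)))) (XT.nd (nat_lit 78) (nat_lit 76) (nat_lit 0) (XT.lf (nat_lit 0) (nat_lit 1662017101) (nat_lit 228) (nat_lit 10152042701) (nat_lit 304) (nat_lit 4220163404) (nat_lit 41) (nat_lit 5) (nat_lit 44) (nat_lit 5) (nat_lit 45) (nat_lit 5) (nat_lit 334) (nat_lit 254) (nat_lit 192)) (XT.nd (nat_lit 78) (nat_lit 76) (nat_lit 0) (XT.lf (nat_lit 0) (nat_lit 8941731812) (nat_lit 228) (nat_lit 6337885966) (nat_lit 304) (nat_lit 1099275294) (nat_lit 41) (nat_lit 5) (nat_lit 44) (nat_lit 5) (nat_lit 45) (nat_lit 5) (nat_lit 335) (nat_lit 254) (nat_lit 191)) (XT.lf (nat_lit 0) (nat_lit 2042511087) (nat_lit 304) (nat_lit 365340011) (nat_lit 76) (nat_lit 14326408796) (nat_lit 40) (nat_lit 5) (nat_lit 44) (nat_lit 5) (nat_lit 41) (nat_lit 5) (nat_lit 336) (nat_lit 254) (nat_lit 190))))) (XT.nd (nat_lit 234) (nat_lit 228) (nat_lit 0) (XT.nd (nat_lit 78)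 (nat_lit 152) (nat_lit 0) (XT.lf (nat_lit 0) (nat_lit 5309515645) (nat_lit 228) (nat_lit 10120452603) (nat_lit 76) (nat_lit 1668423783) (nat_lit 38) (nat_lit 5) (nat_lit 41) (nat_lit 5) (nat_lit 39) (nat_lit 5) (nat_lit 337) (nat_lit 254) (nat_lit 189)) (XT.nd (nat_lit 78) (nat_lit 152) (nat_lit 0) (XT.lf (nat_lit 0) (nat_lit 8671797248) (nat_lit 228) (nat_lit 2997925280) (nat_lit 76) (nat_lit 5803829535) (nat_lit 38) (nat_lit 5) (nat_lit 41) (nat_lit 5) (nat_lit 39) (nat_lit 5) (nat_lit 338) (nat_lit 254) (nat_lit 188)) (XT.lf (nat_lit 0) (nat_lit 4375387973) (nat_lit 152) (nat_lit 7772201780) (nat_lit 228) (nat_lit 5712019170) (nat_lit 36) (nat_lit 5) (nat_lit 38) (nat_lit 5) (nat_lit 39) (nat_lit 5) (nat_lit 339) (nat_lit 254) (nat_lit 187)))) (XT.nd (nat_lit 156) (nat_lit 0) (nat_lit 0) (XT.nd (nat_lit 78) (nat_lit 228) (nat_lit 0) (XT.lf (nat_lit 0) (nat_lit 11983558918) (nat_lit 152) (nat_lit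 3745351173) (nat_lit 228) (nat_lit 2528320456) (nat_lit 36) (nat_lit 5) (nat_lit 38) (nat_lit 5) (nat_lit 39) (nat_lit 5) (nat_lit 340) (nat_lit 254) (nat_lit 186)) (XT.lf (nat_lit 0) (nat_lit 722405851) (nat_lit 228) (nat_lit 17550124182) (nat_lit 76) (nat_lit 394468662) (nat_lit 33) (nat_lit 5) (nat_lit 36) (nat_lit 5) (nat_lit 34) (nat_lit 5) (nat_lit 341) (nat_lit 254) (nat_lit 185))) (XT.nd (nat_lit 78) (nat_lit 0) (nat_lit 0) (XT.lf (nat_lit 0) (nat_lit 4092631174) (nat_lit 228) (nat_lit 10339374949) (nat_lit 76) (nat_lit 4654137885) (nat_lit 33) (nat_lit 5) (nat_lit 36) (nat_lit 5) (nat_lit 34) (nat_lit 5) (nat_lit 342) (nat_lit 254) (nat_lit 184)) (XT.lf (nat_lit 0) (nat_lit 7536518840) (nat_lit 228) (nat_lit 2958142043) (nat_lit 76) (nat_lit 9024044502) (nat_lit 33) (nat_lit 5) (nat_lit 36) (nat_lit 5) (nat_lit 34) (nat_lit 5) (nat_lit 343) (nat_lit 254) (nat_lit 183))))))) (XT.nd (nat_lit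 1014) (nat_lit 532) (nat_lit 0) (XT.nd (nat_lit 468) (nat_lit 304) (nat_lit 0) (XT.nd (nat_lit 234) (nat_lit 380) (nat_lit 0) (XT.nd (nat_lit 78) (nat_lit 0) (nat_lit 0) (XT.lf (nat_lit 0) (nat_lit 4691573656) (nat_lit 152) (nat_lit 6410602692) (nat_lit 228) (nat_lit 8861531498) (nat_lit 31) (nat_lit 5) (nat_lit 33) (nat_lit 5) (nat_lit 34) (nat_lit 5) (nat_lit 344) (nat_lit 254) (nat_lit 182)) (XT.nd (nat_lit 78) (nat_lit 0) (nat_lit 0) (XT.lf (nat_lit 0) (nat_lit 12587352457) (nat_lit 152) (nat_lit 2191029962) (nat_lit 228) (nat_lit 5643587916) (nat_lit 31) (nat_lit 5) (nat_lit 33) (nat_lit 5) (nat_lit 34) (nat_lit 5) (nat_lit 345) (nat_lit 254) (nat_lit 181)) (XT.lf (nat_lit 0) (nat_lit 18559898421) (nat_lit 228) (nat_lit 238093101) (nat_lit 76) (nat_lit 2096155276) (nat_lit 31) (nat_lit 5) (nat_lit 34) (nat_lit 5) (nat_lit 32) (nat_lit 4) (nat_lit 346) (nat_lit 254) (nat_lit 180)))) (XT.nd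 (nat_lit 78) (nat_lit 152) (nat_lit 0) (XT.lf (nat_lit 0) (nat_lit 1124587487) (nat_lit 228) (nat_lit 13717205281) (nat_lit 76) (nat_lit 6536266383) (nat_lit 28) (nat_lit 5) (nat_lit 31) (nat_lit 5) (nat_lit 29) (nat_lit 5) (nat_lit 347) (nat_lit 254) (nat_lit 179)) (XT.nd (nat_lit 78) (nat_lit 152) (nat_lit 0) (XT.lf (nat_lit 0) (nat_lit 4617822251) (nat_lit 228) (nat_lit 6140135906) (nat_lit 76) (nat_lit 11118526266) (nat_lit 28) (nat_lit 5) (nat_lit 31) (nat_lit 5) (nat_lit 29) (nat_lit 5) (nat_lit 348) (nat_lit 254) (nat_lit 178)) (XT.lf (nat_lit 0) (nat_lit 1655547445) (nat_lit 152) (nat_lit 6552067178) (nat_lit 228) (nat_lit 14182509953) (nat_lit 26) (nat_lit 5) (nat_lit 28) (nat_lit 5) (nat_lit 29) (nat_lit 5) (nat_lit 349) (nat_lit 254) (nat_lit 177))))) (XT.nd (nat_lit 234) (nat_lit 228) (nat_lit 0) (XT.nd (nat_lit 78) (nat_lit 76) (nat_lit 0) (XT.lf (nat_lit 0) (nat_lit 9770366263)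 (nat_lit 152) (nat_lit 2172897481) (nat_lit 228) (nat_lit 10974779804) (nat_lit 26) (nat_lit 5) (nat_lit 28) (nat_lit 5) (nat_lit 29) (nat_lit 5) (nat_lit 350) (nat_lit 254) (nat_lit 176)) (XT.nd (nat_lit 78) (nat_lit 76) (nat_lit 0) (XT.lf (nat_lit 0) (nat_lit 15790150829) (nat_lit 228) (nat_lit 5395612595) (nat_lit 76) (nat_lit 2276075690) (nat_lit 26) (nat_lit 5) (nat_lit 29) (nat_lit 5) (nat_lit 27) (nat_lit 4) (nat_lit 351) (nat_lit 254) (nat_lit 175)) (XT.lf (nat_lit 0) (nat_lit 2579019105) (nat_lit 76) (nat_lit 17197106674) (nat_lit 152) (nat_lit 4245126005) (nat_lit 25) (nat_lit 5) (nat_lit 26) (nat_lit 5) (nat_lit 27) (nat_lit 4) (nat_lit 352) (nat_lit 254) (nat_lit 174)))) (XT.nd (nat_lit 156) (nat_lit 152) (nat_lit 0) (XT.nd (nat_lit 78) (nat_lit 76) (nat_lit 0) (XT.lf (nat_lit 0) (nat_lit 10865067941) (nat_lit 76) (nat_lit 13048763011) (nat_lit 152) (nat_lit 682664624) (nat_lit 25)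 (nat_lit 5) (nat_lit 26) (nat_lit 5) (nat_lit 27) (nat_lit 4) (nat_lit 353) (nat_lit 254) (nat_lit 173)) (XT.lf (nat_lit 0) (nat_lit 2906478949) (nat_lit 152) (nat_lit 5855764090) (nat_lit 76) (nat_lit 16426562193) (nat_lit 24) (nat_lit 5) (nat_lit 26) (nat_lit 5) (nat_lit 25) (nat_lit 5) (nat_lit 354) (nat_lit 254) (nat_lit 172))) (XT.nd (nat_lit 78) (nat_lit 0) (nat_lit 0) (XT.lf (nat_lit 0) (nat_lit 2256792191) (nat_lit 152) (nat_lit 4333204658) (nat_lit 228) (nat_lit 19208684076) (nat_lit 22) (nat_lit 5) (nat_lit 24) (nat_lit 5) (nat_lit 25) (nat_lit 5) (nat_lit 355) (nat_lit 254) (nat_lit 171)) (XT.lf (nat_lit 0) (nat_lit 10424786837) (nat_lit 228) (nat_lit 15731891980) (nat_lit 76) (nat_lit 268962869) (nat_lit 22) (nat_lit 5) (nat_lit 25) (nat_lit 5) (nat_lit 23) (nat_lit 4) (nat_lit 356) (nat_lit 254) (nat_lit 170)))))) (XT.nd (nat_lit 468) (nat_lit 228) (nat_lit 0) (XT.nd (nat_lit 234)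 (nat_lit 228) (nat_lit 0) (XT.nd (nat_lit 78) (nat_lit 76) (nat_lit 0) (XT.lf (nat_lit 0) (nat_lit 14396990433) (nat_lit 228) (nat_lit 7766218452) (nat_lit 76) (nat_lit 4907542737) (nat_lit 22) (nat_lit 5) (nat_lit 25) (nat_lit 5) (nat_lit 23) (nat_lit 4) (nat_lit 357) (nat_lit 254) (nat_lit 169)) (XT.nd (nat_lit 78) (nat_lit 0) (nat_lit 0) (XT.lf (nat_lit 0) (nat_lit 411780891) (nat_lit 76) (nat_lit 18060602480) (nat_lit 152) (nat_lit 9263321904) (nat_lit 21) (nat_lit 5) (nat_lit 22) (nat_lit 5) (nat_lit 23) (nat_lit 4) (nat_lit 358) (nat_lit 254) (nat_lit 168)) (XT.lf (nat_lit 0) (nat_lit 8959980356) (nat_lit 76) (nat_lit 13768796802) (nat_lit 152) (nat_lit 5690079000) (nat_lit 21) (nat_lit 5) (nat_lit 22) (nat_lit 5) (nat_lit 23) (nat_lit 4) (nat_lit 359) (nat_lit 254) (nat_lit 167)))) (XT.nd (nat_lit 78) (nat_lit 228) (nat_lit 0) (XT.lf (nat_lit 0) (nat_lit 17731286269) (nat_lit 76) (nat_lit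 9362465309) (nat_lit 152) (nat_lit 2029333803) (nat_lit 21) (nat_lit 5) (nat_lit 22) (nat_lit 5) (nat_lit 23) (nat_lit 4) (nat_lit 360) (nat_lit 254) (nat_lit 166)) (XT.nd (nat_lit 78) (nat_lit 152) (nat_lit 0) (XT.lf (nat_lit 0) (nat_lit 1688507778) (nat_lit 152) (nat_lit 3132199411) (nat_lit 76) (nat_lit 25027804481) (nat_lit 20) (nat_lit 5) (nat_lit 22) (nat_lit 5) (nat_lit 21) (nat_lit 5) (nat_lit 361) (nat_lit 254) (nat_lit 165)) (XT.lf (nat_lit 0) (nat_lit 5429242382) (nat_lit 152) (nat_lit 81841660) (nat_lit 228) (nat_lit 25083003911) (nat_lit 18) (nat_lit 5) (nat_lit 20) (nat_lit 5) (nat_lit 21) (nat_lit 5) (nat_lit 362) (nat_lit 254) (nat_lit 164))))) (XT.nd (nat_lit 234) (nat_lit 228) (nat_lit 0) (XT.nd (nat_lit 78) (nat_lit 0) (nat_lit 0) (XT.lf (nat_lit 0) (nat_lit 9508308035) (nat_lit 228) (nat_lit 17127698604) (nat_lit 76) (nat_lit 4724235083) (nat_lit 18) (nat_lit 5) (nat_lit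 21) (nat_lit 5) (nat_lit 19) (nat_lit 4) (nat_lit 363) (nat_lit 254) (nat_lit 163)) (XT.nd (nat_lit 78) (nat_lit 0) (nat_lit 0) (XT.lf (nat_lit 0) (nat_lit 13608681835) (nat_lit 228) (nat_lit 8881222772) (nat_lit 76) (nat_lit 9659987542) (nat_lit 18) (nat_lit 5) (nat_lit 21) (nat_lit 5) (nat_lit 19) (nat_lit 4) (nat_lit 364) (nat_lit 254) (nat_lit 162)) (XT.lf (nat_lit 0) (nat_lit 17815001582) (nat_lit 228) (nat_lit 417425707) (nat_lit 76) (nat_lit 14731325532) (nat_lit 18) (nat_lit 5) (nat_lit 21) (nat_lit 5) (nat_lit 19) (nat_lit 4) (nat_lit 365) (nat_lit 254) (nat_lit 161)))) (XT.nd (nat_lit 156) (nat_lit 152) (nat_lit 0) (XT.nd (nat_lit 78) (nat_lit 0) (nat_lit 0) (XT.lf (nat_lit 0) (nat_lit 8435699013) (nat_lit 76) (nat_lit 13776332788) (nat_lit 152) (nat_lit 11588070407) (nat_lit 17) (nat_lit 5) (nat_lit 18) (nat_lit 5) (nat_lit 19) (nat_lit 4) (nat_lit 366) (nat_lit 254) (nat_lit 160))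 (XT.lf (nat_lit 0) (nat_lit 17534063412) (nat_lit 76) (nat_lit 9194761136) (nat_lit 152) (nat_lit 7933090251) (nat_lit 17) (nat_lit 5) (nat_lit 18) (nat_lit 5) (nat_lit 19) (nat_lit 4) (nat_lit 367) (nat_lit 254) (nat_lit 159))) (XT.nd (nat_lit 78) (nat_lit 152) (nat_lit 0) (XT.lf (nat_lit 0) (nat_lit 26877309927) (nat_lit 76) (nat_lit 4487924200) (nat_lit 152) (nat_lit 4184832281) (nat_lit 17) (nat_lit 5) (nat_lit 18) (nat_lit 5) (nat_lit 19) (nat_lit 4) (nat_lit 368) (nat_lit 254) (nat_lit 158)) (XT.lf (nat_lit 0) (nat_lit 5019433) (nat_lit 152) (nat_lit 36123688569) (nat_lit 152) (nat_lit 336523198) (nat_lit 15) (nat_lit 4) (nat_lit 17) (nat_lit 5) (nat_lit 17) (nat_lit 4) (nat_lit 369) (nat_lit 254) (nat_lit 157))))))))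
noncomputable def xc91 : XT := (XT.nd (nat_lit 2028) (nat_lit 152) (nat_lit 0) (XT.nd (nat_lit 1014) (nat_lit 228) (nat_lit 0) (XT.nd (nat_lit 468) (nat_lit 152) (nat_lit 0) (XT.nd (nat_lit 234) (nat_lit 76) (nat_lit 0) (XT.nd (nat_lit 78) (nat_lit 0) (nat_lit 0) (XT.lf (nat_lit 0) (nat_lit 3673827049) (nat_lit 228) (nat_lit 28392134598) (nat_lit 76) (nat_lit 5337329453) (nat_lit 14) (nat_lit 5) (nat_lit 17) (nat_lit 5) (nat_lit 15) (nat_lit 4) (nat_lit 370) (nat_lit 254) (nat_lit 156)) (XT.nd (nat_lit 78) (nat_lit 0) (nat_lit 0) (XT.lf (nat_lit 0) (nat_lit 7782668175) (nat_lit 228) (nat_lit 20112195012) (nat_lit 76) (nat_lit 10474988462) (nat_lit 14) (nat_lit 5) (nat_lit 17) (nat_lit 5) (nat_lit 15) (nat_lit 4) (nat_lit 371) (nat_lit 254) (nat_lit 155)) (XT.lf (nat_lit 0) (nat_lit 12000157210) (nat_lit 228) (nat_lit 11609923243) (nat_lit 76) (nat_lit 15755774010) (nat_lit 14) (nat_lit 5) (nat_lit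 17) (nat_lit 5) (nat_lit 15) (nat_lit 4) (nat_lit 372) (nat_lit 254) (nat_lit 154)))) (XT.nd (nat_lit 78) (nat_lit 76) (nat_lit 0) (XT.lf (nat_lit 0) (nat_lit 16329979338) (nat_lit 228) (nat_lit 2877890121) (nat_lit 76) (nat_lit 21184300375) (nat_lit 14) (nat_lit 5) (nat_lit 17) (nat_lit 5) (nat_lit 15) (nat_lit 4) (nat_lit 373) (nat_lit 254) (nat_lit 153)) (XT.nd (nat_lit 78) (nat_lit 0) (nat_lit 0) (XT.lf (nat_lit 0) (nat_lit 6212767761) (nat_lit 76) (nat_lit 14622871062) (nat_lit 152) (nat_lit 20612264092) (nat_lit 13) (nat_lit 5) (nat_lit 14) (nat_lit 5) (nat_lit 15) (nat_lit 4) (nat_lit 374) (nat_lit 254) (nat_lit 152)) (XT.lf (nat_lit 0) (nat_lit 15610810476) (nat_lit 76) (nat_lit 9881107876) (nat_lit 152) (nat_lit 17042932467) (nat_lit 13) (nat_lit 5) (nat_lit 14) (nat_lit 5) (nat_lit 15) (nat_lit 4) (nat_lit 375) (nat_lit 254) (nat_lit 151))))) (XT.nd (nat_lit 234) (nat_lit 152) (nat_lit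 0) (XT.nd (nat_lit 78) (nat_lit 0) (nat_lit 0) (XT.lf (nat_lit 0) (nat_lit 25267174250) (nat_lit 76) (nat_lit 5007497661) (nat_lit 152) (nat_lit 13380137835) (nat_lit 13) (nat_lit 5) (nat_lit 14) (nat_lit 5) (nat_lit 15) (nat_lit 4) (nat_lit 376) (nat_lit 254) (nat_lit 150)) (XT.nd (nat_lit 78) (nat_lit 0) (nat_lit 0) (XT.lf (nat_lit 0) (nat_lit 35188099926) (nat_lit 152) (nat_lit 9618482941) (nat_lit 0) (nat_lit 2174793) (nat_lit 13) (nat_lit 5) (nat_lit 15) (nat_lit 4) (nat_lit 13) (nat_lit 4) (nat_lit 377) (nat_lit 254) (nat_lit 149)) (XT.lf (nat_lit 0) (nat_lit 40285959883) (nat_lit 152) (nat_lit 658384509) (nat_lit 0) (nat_lit 5051874550) (nat_lit 13) (nat_lit 5) (nat_lit 15) (nat_lit 4) (nat_lit 13) (nat_lit 4) (nat_lit 378) (nat_lit 254) (nat_lit 148)))) (XT.nd (nat_lit 156) (nat_lit 0) (nat_lit 0) (XT.nd (nat_lit 78) (nat_lit 76) (nat_lit 0) (XT.lf (nat_lit 0) (nat_lit 8718758524) (nat_lit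 76) (nat_lit 36889622607) (nat_lit 76) (nat_lit 1608779798) (nat_lit 12) (nat_lit 4) (nat_lit 13) (nat_lit 5) (nat_lit 13) (nat_lit 4) (nat_lit 379) (nat_lit 254) (nat_lit 147)) (XT.lf (nat_lit 0) (nat_lit 2559252884) (nat_lit 152) (nat_lit 30130955061) (nat_lit 76) (nat_lit 15783937666) (nat_lit 11) (nat_lit 5) (nat_lit 13) (nat_lit 5) (nat_lit 12) (nat_lit 4) (nat_lit 380) (nat_lit 254) (nat_lit 146))) (XT.nd (nat_lit 78) (nat_lit 0) (nat_lit 0) (XT.lf (nat_lit 0) (nat_lit 6808183325) (nat_lit 152) (nat_lit 21549699671) (nat_lit 76) (nat_lit 21410838388) (nat_lit 11) (nat_lit 5) (nat_lit 13) (nat_lit 5) (nat_lit 12) (nat_lit 4) (nat_lit 381) (nat_lit 254) (nat_lit 145)) (XT.lf (nat_lit 0) (nat_lit 11173117270) (nat_lit 152) (nat_lit 12731673476) (nat_lit 76) (nat_lit 27197692620) (nat_lit 11) (nat_lit 5) (nat_lit 13) (nat_lit 5) (nat_lit 12) (nat_lit 4) (nat_lit 382) (nat_lit 254) (nat_lit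 144)))))) (XT.nd (nat_lit 468) (nat_lit 152) (nat_lit 0) (XT.nd (nat_lit 234) (nat_lit 0) (nat_lit 0) (XT.nd (nat_lit 78) (nat_lit 76) (nat_lit 0) (XT.lf (nat_lit 0) (nat_lit 15657868741) (nat_lit 152) (nat_lit 3669171403) (nat_lit 76) (nat_lit 33149556839) (nat_lit 11) (nat_lit 5) (nat_lit 13) (nat_lit 5) (nat_lit 12) (nat_lit 4) (nat_lit 383) (nat_lit 254) (nat_lit 143)) (XT.nd (nat_lit 78) (nat_lit 0) (nat_lit 0) (XT.lf (nat_lit 0) (nat_lit 5758086240) (nat_lit 76) (nat_lit 14563620458) (nat_lit 152) (nat_lit 33568895708) (nat_lit 10) (nat_lit 5) (nat_lit 11) (nat_lit 5) (nat_lit 12) (nat_lit 4) (nat_lit 384) (nat_lit 254) (nat_lit 142)) (XT.lf (nat_lit 0) (nat_lit 15524086520) (nat_lit 76) (nat_lit 9627747729) (nat_lit 152) (nat_lit 30194407087) (nat_lit 10) (nat_lit 5) (nat_lit 11) (nat_lit 5) (nat_lit 12) (nat_lit 4) (nat_lit 385) (nat_lit 254) (nat_lit 141)))) (XT.nd (nat_lit 78) (nat_lit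 0) (nat_lit 0) (XT.lf (nat_lit 0) (nat_lit 25564339131) (nat_lit 76) (nat_lit 4552160496) (nat_lit 152) (nat_lit 26729365235) (nat_lit 10) (nat_lit 5) (nat_lit 11) (nat_lit 5) (nat_lit 12) (nat_lit 4) (nat_lit 386) (nat_lit 254) (nat_lit 140)) (XT.nd (nat_lit 78) (nat_lit 0) (nat_lit 0) (XT.lf (nat_lit 0) (nat_lit 35226458040) (nat_lit 152) (nat_lit 22509583376) (nat_lit 0) (nat_lit 654549402) (nat_lit 10) (nat_lit 5) (nat_lit 12) (nat_lit 4) (nat_lit 10) (nat_lit 4) (nat_lit 387) (nat_lit 254) (nat_lit 139)) (XT.lf (nat_lit 0) (nat_lit 40524939388) (nat_lit 152) (nat_lit 13537427834) (nat_lit 0) (nat_lit 5918238797) (nat_lit 10) (nat_lit 5) (nat_lit 12) (nat_lit 4) (nat_lit 10) (nat_lit 4) (nat_lit 388) (nat_lit 254) (nat_lit 138))))) (XT.nd (nat_lit 234) (nat_lit 76) (nat_lit 0) (XT.nd (nat_lit 78) (nat_lit 76) (nat_lit 0) (XT.lf (nat_lit 0) (nat_lit 45972815260) (nat_lit 152) (nat_lit 4313461208)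 (nat_lit 0) (nat_lit 11332336074) (nat_lit 10) (nat_lit 5) (nat_lit 12) (nat_lit 4) (nat_lit 10) (nat_lit 4) (nat_lit 389) (nat_lit 254) (nat_lit 137)) (XT.nd (nat_lit 78) (nat_lit 0) (nat_lit 0) (XT.lf (nat_lit 0) (nat_lit 5273276905) (nat_lit 76) (nat_lit 46352258996) (nat_lit 76) (nat_lit 11678985056) (nat_lit 9) (nat_lit 4) (nat_lit 10) (nat_lit 5) (nat_lit 10) (nat_lit 4) (nat_lit 390) (nat_lit 254) (nat_lit 136)) (XT.lf (nat_lit 0) (nat_lit 15219355928) (nat_lit 76) (nat_lit 42262868228) (nat_lit 76) (nat_lit 7557754723) (nat_lit 9) (nat_lit 4) (nat_lit 10) (nat_lit 5) (nat_lit 10) (nat_lit 4) (nat_lit 391) (nat_lit 254) (nat_lit 135)))) (XT.nd (nat_lit 156) (nat_lit 0) (nat_lit 0) (XT.nd (nat_lit 78) (nat_lit 76) (nat_lit 0) (XT.lf (nat_lit 0) (nat_lit 25447620274) (nat_lit 76) (nat_lit 38058088413) (nat_lit 76) (nat_lit 3322062708) (nat_lit 9) (nat_lit 4) (nat_lit 10) (nat_lit 5) (nat_lit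 10) (nat_lit 4) (nat_lit 392) (nat_lit 254) (nat_lit 134)) (XT.lf (nat_lit 0) (nat_lit 1011658099) (nat_lit 152) (nat_lit 32712371607) (nat_lit 76) (nat_lit 34945133398) (nat_lit 8) (nat_lit 5) (nat_lit 10) (nat_lit 5) (nat_lit 9) (nat_lit 4) (nat_lit 393) (nat_lit 254) (nat_lit 133))) (XT.nd (nat_lit 78) (nat_lit 0) (nat_lit 0) (XT.lf (nat_lit 0) (nat_lit 5400140591) (nat_lit 152) (nat_lit 23832889861) (nat_lit 76) (nat_lit 41332037163) (nat_lit 8) (nat_lit 5) (nat_lit 10) (nat_lit 5) (nat_lit 9) (nat_lit 4) (nat_lit 394) (nat_lit 254) (nat_lit 132)) (XT.lf (nat_lit 0) (nat_lit 9912044774) (nat_lit 152) (nat_lit 14702013412) (nat_lit 76) (nat_lit 47904041367) (nat_lit 8) (nat_lit 5) (nat_lit 10) (nat_lit 5) (nat_lit 9) (nat_lit 4) (nat_lit 395) (nat_lit 254) (nat_lit 131))))))) (XT.nd (nat_lit 30810) (nat_lit 0) (nat_lit 15960) (XT.nd (nat_lit 468) (nat_lit 76) (nat_lit 0) (XT.nd (nat_lit 234)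 (nat_lit 0) (nat_lit 0) (XT.nd (nat_lit 78) (nat_lit 76) (nat_lit 0) (XT.lf (nat_lit 0) (nat_lit 14551313086) (nat_lit 152) (nat_lit 5311763827) (nat_lit 76) (nat_lit 54666888538) (nat_lit 8) (nat_lit 5) (nat_lit 10) (nat_lit 5) (nat_lit 9) (nat_lit 4) (nat_lit 396) (nat_lit 254) (nat_lit 130)) (XT.nd (nat_lit 78) (nat_lit 0) (nat_lit 0) (XT.lf (nat_lit 0) (nat_lit 4432559163) (nat_lit 76) (nat_lit 14932048566) (nat_lit 152) (nat_lit 57236537267) (nat_lit 7) (nat_lit 5) (nat_lit 8) (nat_lit 5) (nat_lit 9) (nat_lit 4) (nat_lit 397) (nat_lit 254) (nat_lit 129)) (XT.lf (nat_lit 0) (nat_lit 14564107039) (nat_lit 76) (nat_lit 9804163920) (nat_lit 152) (nat_lit 54364812904) (nat_lit 7) (nat_lit 5) (nat_lit 8) (nat_lit 5) (nat_lit 9) (nat_lit 4) (nat_lit 398) (nat_lit 254) (nat_lit 128)))) (XT.nd (nat_lit 78) (nat_lit 0) (nat_lit 0) (XT.lf (nat_lit 0) (nat_lit 24986018093) (nat_lit 76) (nat_lit 4528580699)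 (nat_lit 152) (nat_lit 51414608402) (nat_lit 7) (nat_lit 5) (nat_lit 8) (nat_lit 5) (nat_lit 9) (nat_lit 4) (nat_lit 399) (nat_lit 254) (nat_lit 127)) (XT.nd (nat_lit 78) (nat_lit 0) (nat_lit 0) (XT.lf (nat_lit 0) (nat_lit 34816732747) (nat_lit 152) (nat_lit 47492679808) (nat_lit 0) (nat_lit 881762036) (nat_lit 7) (nat_lit 5) (nat_lit 9) (nat_lit 4) (nat_lit 7) (nat_lit 4) (nat_lit 400) (nat_lit 254) (nat_lit 126)) (XT.lf (nat_lit 0) (nat_lit 40315694635) (nat_lit 152) (nat_lit 38846453885) (nat_lit 0) (nat_lit 6357722344) (nat_lit 7) (nat_lit 5) (nat_lit 9) (nat_lit 4) (nat_lit 7) (nat_lit 4) (nat_lit 401) (nat_lit 254) (nat_lit 125))))) (XT.nd (nat_lit 234) (nat_lit 76) (nat_lit 0) (XT.nd (nat_lit 78) (nat_lit 0) (nat_lit 0) (XT.lf (nat_lit 0) (nat_lit 45972757886) (nat_lit 152) (nat_lit 29953424888) (nat_lit 0) (nat_lit 11992453964) (nat_lit 7) (nat_lit 5) (nat_lit 9) (nat_lit 4) (nat_lit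 7) (nat_lit 4) (nat_lit 402) (nat_lit 254) (nat_lit 124)) (XT.nd (nat_lit 78) (nat_lit 0) (nat_lit 0) (XT.lf (nat_lit 0) (nat_lit 51792865566) (nat_lit 152) (nat_lit 20805822211) (nat_lit 0) (nat_lit 17790880449) (nat_lit 7) (nat_lit 5) (nat_lit 9) (nat_lit 4) (nat_lit 7) (nat_lit 4) (nat_lit 403) (nat_lit 254) (nat_lit 123)) (XT.lf (nat_lit 0) (nat_lit 57781103205) (nat_lit 152) (nat_lit 11395652801) (nat_lit 0) (nat_lit 23758068384) (nat_lit 7) (nat_lit 5) (nat_lit 9) (nat_lit 4) (nat_lit 7) (nat_lit 4) (nat_lit 404) (nat_lit 254) (nat_lit 122)))) (XT.nd (nat_lit 156) (nat_lit 0) (nat_lit 0) (XT.nd (nat_lit 78) (nat_lit 76) (nat_lit 0) (XT.lf (nat_lit 0) (nat_lit 63942703244) (nat_lit 152) (nat_lit 1714694182) (nat_lit 0) (nat_lit 29899231818) (nat_lit 7) (nat_lit 5) (nat_lit 9) (nat_lit 4) (nat_lit 7) (nat_lit 4) (nat_lit 405) (nat_lit 254) (nat_lit 121)) (XT.lf (nat_lit 0) (nat_lit 8409614607)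 (nat_lit 76) (nat_lit 61954273359) (nat_lit 76) (nat_lit 27890960568) (nat_lit 6) (nat_lit 4) (nat_lit 7) (nat_lit 5) (nat_lit 7) (nat_lit 4) (nat_lit 406) (nat_lit 254) (nat_lit 120))) (XT.nd (nat_lit 78) (nat_lit 0) (nat_lit 0) (XT.lf (nat_lit 0) (nat_lit 18861731364) (nat_lit 76) (nat_lit 58127261536) (nat_lit 76) (nat_lit 24044685283) (nat_lit 6) (nat_lit 4) (nat_lit 7) (nat_lit 5) (nat_lit 7) (nat_lit 4) (nat_lit 407) (nat_lit 254) (nat_lit 119)) (XT.lf (nat_lit 0) (nat_lit 29616663229) (nat_lit 76) (nat_lit 54190333014) (nat_lit 76) (nat_lit 20089054372) (nat_lit 6) (nat_lit 4) (nat_lit 7) (nat_lit 5) (nat_lit 7) (nat_lit 4) (nat_lit 408) (nat_lit 254) (nat_lit 118)))))) (XT.nd (nat_lit 546) (nat_lit 3344) (nat_lit 0) (XT.nd (nat_lit 234) (nat_lit 1292) (nat_lit 0) (XT.nd (nat_lit 78) (nat_lit 532) (nat_lit 0) (XT.lf (nat_lit 0) (nat_lit 82079862) (nat_lit 380) (nat_lit 1597728225) (nat_lit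 380) (nat_lit 1597728225) (nat_lit 284) (nat_lit 4) (nat_lit 289) (nat_lit 5) (nat_lit 289) (nat_lit 4) (nat_lit 270) (nat_lit 255) (nat_lit 255)) (XT.nd (nat_lit 78) (nat_lit 532) (nat_lit 0) (XT.lf (nat_lit 0) (nat_lit 3814273973) (nat_lit 380) (nat_lit 2539572954) (nat_lit 380) (nat_lit 225565683) (nat_lit 284) (nat_lit 4) (nat_lit 289) (nat_lit 5) (nat_lit 289) (nat_lit 4) (nat_lit 271) (nat_lit 255) (nat_lit 254)) (XT.lf (nat_lit 0) (nat_lit 886724699) (nat_lit 456) (nat_lit 1796694498) (nat_lit 532) (nat_lit 3923350618) (nat_lit 277) (nat_lit 5) (nat_lit 283) (nat_lit 5) (nat_lit 284) (nat_lit 4) (nat_lit 272) (nat_lit 255) (nat_lit 253)))) (XT.nd (nat_lit 156) (nat_lit 684) (nat_lit 0) (XT.nd (nat_lit 78) (nat_lit 608) (nat_lit 0) (XT.lf (nat_lit 0) (nat_lit 4630511276) (nat_lit 456) (nat_lit 971607608) (nat_lit 532) (nat_lit 1035207580) (nat_lit 277) (nat_lit 5) (nat_lit 283) (nat_lit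 5) (nat_lit 284) (nat_lit 4) (nat_lit 273) (nat_lit 255) (nat_lit 252)) (XT.lf (nat_lit 0) (nat_lit 1761384190) (nat_lit 532) (nat_lit 58083711) (nat_lit 608) (nat_lit 4851480940) (nat_lit 269) (nat_lit 5) (nat_lit 276) (nat_lit 5) (nat_lit 277) (nat_lit 5) (nat_lit 274) (nat_lit 255) (nat_lit 251))) (XT.nd (nat_lit 78) (nat_lit 684) (nat_lit 0) (XT.lf (nat_lit 0) (nat_lit 4671181789) (nat_lit 608) (nat_lit 1114976699) (nat_lit 76) (nat_lit 921381217) (nat_lit 269) (nat_lit 5) (nat_lit 277) (nat_lit 5) (nat_lit 270) (nat_lit 4) (nat_lit 275) (nat_lit 255) (nat_lit 250)) (XT.lf (nat_lit 0) (nat_lit 778806376) (nat_lit 684) (nat_lit 3980735089) (nat_lit 76) (nat_lit 1987684980) (nat_lit 260) (nat_lit 5) (nat_lit 269) (nat_lit 5) (nat_lit 261) (nat_lit 5) (nat_lit 276) (nat_lit 255) (nat_lit 249))))) (XT.nd (nat_lit 234) (nat_lit 1824) (nat_lit 0) (XT.nd (nat_lit 78) (nat_lit 1520) (nat_lit 0)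 (XT.lf (nat_lit 0) (nat_lit 3555856783) (nat_lit 684) (nat_lit 94788192) (nat_lit 76) (nat_lit 3139516795) (nat_lit 260) (nat_lit 5) (nat_lit 269) (nat_lit 5) (nat_lit 261) (nat_lit 5) (nat_lit 277) (nat_lit 255) (nat_lit 248)) (XT.nd (nat_lit 78) (nat_lit 836) (nat_lit 0) (XT.lf (nat_lit 0) (nat_lit 3912226189) (nat_lit 684) (nat_lit 2451297679) (nat_lit 760) (nat_lit 472649544) (nat_lit 251) (nat_lit 5) (nat_lit 260) (nat_lit 5) (nat_lit 261) (nat_lit 5) (nat_lit 278) (nat_lit 255) (nat_lit 247)) (XT.lf (nat_lit 0) (nat_lit 1083059154) (nat_lit 760) (nat_lit 1164463068) (nat_lit 836) (nat_lit 4637896198) (nat_lit 240) (nat_lit 5) (nat_lit 250) (nat_lit 5) (nat_lit 251) (nat_lit 5) (nat_lit 279) (nat_lit 255) (nat_lit 246)))) (XT.nd (nat_lit 156) (nat_lit 912) (nat_lit 0) (XT.nd (nat_lit 78) (nat_lit 912) (nat_lit 0) (XT.lf (nat_lit 0) (nat_lit 4983791601) (nat_lit 836) (nat_lit 1746927817)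 (nat_lit 76) (nat_lit 207151015) (nat_lit 240) (nat_lit 5) (nat_lit 251) (nat_lit 5) (nat_lit 241) (nat_lit 5) (nat_lit 280) (nat_lit 255) (nat_lit 245)) (XT.lf (nat_lit 0) (nat_lit 743458669) (nat_lit 912) (nat_lit 4608733647) (nat_lit 76) (nat_lit 1641178452) (nat_lit 228) (nat_lit 5) (nat_lit 240) (nat_lit 5) (nat_lit 229) (nat_lit 5) (nat_lit 281) (nat_lit 255) (nat_lit 244))) (XT.nd (nat_lit 78) (nat_lit 912) (nat_lit 0) (XT.lf (nat_lit 0) (nat_lit 3416410196) (nat_lit 912) (nat_lit 467870692) (nat_lit 76) (nat_lit 3167835625) (nat_lit 228) (nat_lit 5) (nat_lit 240) (nat_lit 5) (nat_lit 229) (nat_lit 5) (nat_lit 282) (nat_lit 255) (nat_lit 243)) (XT.lf (nat_lit 0) (nat_lit 3799217543) (nat_lit 912) (nat_lit 2325248998) (nat_lit 988) (nat_lit 989679247) (nat_lit 216) (nat_lit 5) (nat_lit 228) (nat_lit 5) (nat_lit 229) (nat_lit 5) (nat_lit 283) (nat_lit 255) (nat_lit 242))))))))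
noncomputable def xc92 : XT := (XT.nd (nat_lit 2028) (nat_lit 3648) (nat_lit 0) (XT.nd (nat_lit 1014) (nat_lit 3420) (nat_lit 0) (XT.nd (nat_lit 468) (nat_lit 2356) (nat_lit 0) (XT.nd (nat_lit 234) (nat_lit 1748) (nat_lit 0) (XT.nd (nat_lit 78) (nat_lit 1064) (nat_lit 0) (XT.lf (nat_lit 0) (nat_lit 954715225) (nat_lit 988) (nat_lit 680226046) (nat_lit 1064) (nat_lit 5544760603) (nat_lit 202) (nat_lit 5) (nat_lit 215) (nat_lit 5) (nat_lit 216) (nat_lit 5) (nat_lit 284) (nat_lit 255) (nat_lit 241)) (XT.nd (nat_lit 78) (nat_lit 1064) (nat_lit 0) (XT.lf (nat_lit 0) (nat_lit 4282820684) (nat_lit 1064) (nat_lit 1920774210) (nat_lit 76) (nat_lit 1044557766) (nat_lit 202) (nat_lit 5) (nat_lit 216) (nat_lit 5) (nat_lit 203) (nat_lit 5) (nat_lit 285) (nat_lit 255) (nat_lit 240)) (XT.lf (nat_lit 0) (nat_lit 2481360917) (nat_lit 1064) (nat_lit 4482525491) (nat_lit 1140) (nat_lit 356307903) (nat_lit 188)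 (nat_lit 5) (nat_lit 202) (nat_lit 5) (nat_lit 203) (nat_lit 5) (nat_lit 286) (nat_lit 255) (nat_lit 239)))) (XT.nd (nat_lit 78) (nat_lit 1672) (nat_lit 0) (XT.lf (nat_lit 0) (nat_lit 2228907774) (nat_lit 1140) (nat_lit 435312017) (nat_lit 76) (nat_lit 4731344251) (nat_lit 187) (nat_lit 5) (nat_lit 202) (nat_lit 5) (nat_lit 188) (nat_lit 5) (nat_lit 287) (nat_lit 255) (nat_lit 238)) (XT.nd (nat_lit 78) (nat_lit 532) (nat_lit 0) (XT.lf (nat_lit 0) (nat_lit 4105213279) (nat_lit 1140) (nat_lit 744804640) (nat_lit 1216) (nat_lit 2624243254) (nat_lit 172) (nat_lit 5) (nat_lit 187) (nat_lit 5) (nat_lit 188) (nat_lit 5) (nat_lit 288) (nat_lit 255) (nat_lit 237)) (XT.lf (nat_lit 0) (nat_lit 1173398539) (nat_lit 532) (nat_lit 6331450266) (nat_lit 608) (nat_lit 51950922) (nat_lit 165) (nat_lit 5) (nat_lit 172) (nat_lit 5) (nat_lit 173) (nat_lit 5) (nat_lit 289) (nat_lit 255) (nat_lit 236))))) (XT.nd (nat_lit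 234) (nat_lit 1672) (nat_lit 0) (XT.nd (nat_lit 78) (nat_lit 608) (nat_lit 0) (XT.lf (nat_lit 0) (nat_lit 2516662337) (nat_lit 608) (nat_lit 1826431968) (nat_lit 76) (nat_lit 3299001388) (nat_lit 164) (nat_lit 5) (nat_lit 172) (nat_lit 5) (nat_lit 165) (nat_lit 5) (nat_lit 290) (nat_lit 255) (nat_lit 235)) (XT.nd (nat_lit 78) (nat_lit 0) (nat_lit 0) (XT.lf (nat_lit 0) (nat_lit 2850373700) (nat_lit 608) (nat_lit 2268516656) (nat_lit 684) (nat_lit 2612438571) (nat_lit 156) (nat_lit 5) (nat_lit 164) (nat_lit 5) (nat_lit 165) (nat_lit 5) (nat_lit 291) (nat_lit 255) (nat_lit 234)) (XT.lf (nat_lit 0) (nat_lit 7633649963) (nat_lit 608) (nat_lit 115527477) (nat_lit 684) (nat_lit 75680237) (nat_lit 156) (nat_lit 5) (nat_lit 164) (nat_lit 5) (nat_lit 165) (nat_lit 5) (nat_lit 292) (nat_lit 255) (nat_lit 233)))) (XT.nd (nat_lit 156) (nat_lit 532) (nat_lit 0) (XT.nd (nat_lit 78) (nat_lit 532) (nat_lit 0)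 (XT.lf (nat_lit 0) (nat_lit 2485850133) (nat_lit 608) (nat_lit 3307473812) (nat_lit 76) (nat_lit 2127302807) (nat_lit 148) (nat_lit 5) (nat_lit 156) (nat_lit 5) (nat_lit 149) (nat_lit 5) (nat_lit 293) (nat_lit 255) (nat_lit 232)) (XT.lf (nat_lit 0) (nat_lit 1501742647) (nat_lit 532) (nat_lit 3572511171) (nat_lit 608) (nat_lit 2946554395) (nat_lit 141) (nat_lit 5) (nat_lit 148) (nat_lit 5) (nat_lit 149) (nat_lit 5) (nat_lit 294) (nat_lit 255) (nat_lit 231))) (XT.nd (nat_lit 78) (nat_lit 532) (nat_lit 0) (XT.lf (nat_lit 0) (nat_lit 6451738972) (nat_lit 532) (nat_lit 1257225128) (nat_lit 608) (nat_lit 416076481) (nat_lit 141) (nat_lit 5) (nat_lit 148) (nat_lit 5) (nat_lit 149) (nat_lit 5) (nat_lit 295) (nat_lit 255) (nat_lit 230)) (XT.lf (nat_lit 0) (nat_lit 2126915745) (nat_lit 532) (nat_lit 4953714821) (nat_lit 76) (nat_lit 1151856548) (nat_lit 134) (nat_lit 5) (nat_lit 141) (nat_lit 5) (nat_lit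 135) (nat_lit 5) (nat_lit 296) (nat_lit 255) (nat_lit 229)))))) (XT.nd (nat_lit 468) (nat_lit 1900) (nat_lit 0) (XT.nd (nat_lit 234) (nat_lit 532) (nat_lit 0) (XT.nd (nat_lit 78) (nat_lit 988) (nat_lit 0) (XT.lf (nat_lit 0) (nat_lit 4704874008) (nat_lit 532) (nat_lit 17463963) (nat_lit 76) (nat_lit 3621780493) (nat_lit 134) (nat_lit 5) (nat_lit 141) (nat_lit 5) (nat_lit 135) (nat_lit 5) (nat_lit 297) (nat_lit 255) (nat_lit 228)) (XT.nd (nat_lit 78) (nat_lit 532) (nat_lit 0) (XT.lf (nat_lit 0) (nat_lit 5096630317) (nat_lit 456) (nat_lit 2251879093) (nat_lit 532) (nat_lit 1111032568) (nat_lit 128) (nat_lit 5) (nat_lit 134) (nat_lit 5) (nat_lit 135) (nat_lit 5) (nat_lit 298) (nat_lit 255) (nat_lit 227)) (XT.lf (nat_lit 0) (nat_lit 1423547043) (nat_lit 532) (nat_lit 6847122962) (nat_lit 76) (nat_lit 308625983) (nat_lit 121) (nat_lit 5) (nat_lit 128) (nat_lit 5) (nat_lit 122) (nat_lit 5) (nat_lit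 299) (nat_lit 255) (nat_lit 226)))) (XT.nd (nat_lit 78) (nat_lit 532) (nat_lit 0) (XT.lf (nat_lit 0) (nat_lit 4009179891) (nat_lit 532) (nat_lit 1757580592) (nat_lit 76) (nat_lit 2935717183) (nat_lit 121) (nat_lit 5) (nat_lit 128) (nat_lit 5) (nat_lit 122) (nat_lit 5) (nat_lit 300) (nat_lit 255) (nat_lit 225)) (XT.nd (nat_lit 78) (nat_lit 76) (nat_lit 0) (XT.lf (nat_lit 0) (nat_lit 3483328086) (nat_lit 456) (nat_lit 3165018710) (nat_lit 532) (nat_lit 2181812009) (nat_lit 115) (nat_lit 5) (nat_lit 121) (nat_lit 5) (nat_lit 122) (nat_lit 5) (nat_lit 301) (nat_lit 255) (nat_lit 224)) (XT.lf (nat_lit 0) (nat_lit 357897343) (nat_lit 532) (nat_lit 117542570) (nat_lit 76) (nat_lit 8487368396) (nat_lit 114) (nat_lit 5) (nat_lit 121) (nat_lit 5) (nat_lit 115) (nat_lit 5) (nat_lit 302) (nat_lit 255) (nat_lit 223))))) (XT.nd (nat_lit 234) (nat_lit 1140) (nat_lit 0) (XT.nd (nat_lit 78) (nat_lit 380) (nat_lit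 0) (XT.lf (nat_lit 0) (nat_lit 2947902801) (nat_lit 456) (nat_lit 3839359254) (nat_lit 76) (nat_lit 2311064391) (nat_lit 109) (nat_lit 5) (nat_lit 115) (nat_lit 5) (nat_lit 110) (nat_lit 5) (nat_lit 303) (nat_lit 255) (nat_lit 222)) (XT.nd (nat_lit 78) (nat_lit 0) (nat_lit 0) (XT.lf (nat_lit 0) (nat_lit 1517482291) (nat_lit 380) (nat_lit 4063991183) (nat_lit 456) (nat_lit 3657534414) (nat_lit 104) (nat_lit 5) (nat_lit 109) (nat_lit 5) (nat_lit 110) (nat_lit 5) (nat_lit 304) (nat_lit 255) (nat_lit 221)) (XT.lf (nat_lit 0) (nat_lit 7045688471) (nat_lit 380) (nat_lit 1233441879) (nat_lit 456) (nat_lit 1105298615) (nat_lit 104) (nat_lit 5) (nat_lit 109) (nat_lit 5) (nat_lit 110) (nat_lit 5) (nat_lit 305) (nat_lit 255) (nat_lit 220)))) (XT.nd (nat_lit 156) (nat_lit 684) (nat_lit 0) (XT.nd (nat_lit 78) (nat_lit 0) (nat_lit 0) (XT.lf (nat_lit 0) (nat_lit 1488166210) (nat_lit 456) (nat_lit 6365108392)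 (nat_lit 76) (nat_lit 1680734454) (nat_lit 98) (nat_lit 5) (nat_lit 104) (nat_lit 5) (nat_lit 99) (nat_lit 5) (nat_lit 306) (nat_lit 255) (nat_lit 219)) (XT.lf (nat_lit 0) (nat_lit 4121325558) (nat_lit 456) (nat_lit 889043151) (nat_lit 76) (nat_lit 4677921847) (nat_lit 98) (nat_lit 5) (nat_lit 104) (nat_lit 5) (nat_lit 99) (nat_lit 5) (nat_lit 307) (nat_lit 255) (nat_lit 218))) (XT.nd (nat_lit 78) (nat_lit 304) (nat_lit 0) (XT.lf (nat_lit 0) (nat_lit 4778532593) (nat_lit 380) (nat_lit 2050437744) (nat_lit 456) (nat_lit 3018429027) (nat_lit 93) (nat_lit 5) (nat_lit 98) (nat_lit 5) (nat_lit 99) (nat_lit 5) (nat_lit 308) (nat_lit 255) (nat_lit 217)) (XT.lf (nat_lit 0) (nat_lit 557778359) (nat_lit 304) (nat_lit 9034336224) (nat_lit 380) (nat_lit 420000485) (nat_lit 89) (nat_lit 5) (nat_lit 93) (nat_lit 5) (nat_lit 94) (nat_lit 5) (nat_lit 309) (nat_lit 255) (nat_lit 216))))))) (XT.nd (nat_lit 1014)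 (nat_lit 1368) (nat_lit 0) (XT.nd (nat_lit 468) (nat_lit 1140) (nat_lit 0) (XT.nd (nat_lit 234) (nat_lit 684) (nat_lit 0) (XT.nd (nat_lit 78) (nat_lit 380) (nat_lit 0) (XT.lf (nat_lit 0) (nat_lit 2234860607) (nat_lit 380) (nat_lit 3832762160) (nat_lit 76) (nat_lit 4112881678) (nat_lit 88) (nat_lit 5) (nat_lit 93) (nat_lit 5) (nat_lit 89) (nat_lit 5) (nat_lit 310) (nat_lit 255) (nat_lit 215)) (XT.nd (nat_lit 78) (nat_lit 0) (nat_lit 0) (XT.lf (nat_lit 0) (nat_lit 1925676868) (nat_lit 380) (nat_lit 3005717181) (nat_lit 456) (nat_lit 5423369153) (nat_lit 83) (nat_lit 5) (nat_lit 88) (nat_lit 5) (nat_lit 89) (nat_lit 5) (nat_lit 311) (nat_lit 255) (nat_lit 214)) (XT.lf (nat_lit 0) (nat_lit 7701902922) (nat_lit 456) (nat_lit 2665326482) (nat_lit 76) (nat_lit 167282783) (nat_lit 83) (nat_lit 5) (nat_lit 89) (nat_lit 5) (nat_lit 84) (nat_lit 5) (nat_lit 312) (nat_lit 255) (nat_lit 213)))) (XT.nd (nat_lit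 78) (nat_lit 380) (nat_lit 0) (XT.lf (nat_lit 0) (nat_lit 3240877799) (nat_lit 304) (nat_lit 7329513341) (nat_lit 380) (nat_lit 148869830) (nat_lit 79) (nat_lit 5) (nat_lit 83) (nat_lit 5) (nat_lit 84) (nat_lit 5) (nat_lit 313) (nat_lit 255) (nat_lit 212)) (XT.nd (nat_lit 78) (nat_lit 304) (nat_lit 0) (XT.lf (nat_lit 0) (nat_lit 2545711683) (nat_lit 380) (nat_lit 1619532165) (nat_lit 76) (nat_lit 6744163380) (nat_lit 78) (nat_lit 5) (nat_lit 83) (nat_lit 5) (nat_lit 79) (nat_lit 5) (nat_lit 314) (nat_lit 255) (nat_lit 211)) (XT.lf (nat_lit 0) (nat_lit 4437795113) (nat_lit 304) (nat_lit 878520993) (nat_lit 380) (nat_lit 5789000955) (nat_lit 74) (nat_lit 5) (nat_lit 78) (nat_lit 5) (nat_lit 79) (nat_lit 5) (nat_lit 315) (nat_lit 255) (nat_lit 210))))) (XT.nd (nat_lit 234) (nat_lit 532) (nat_lit 0) (XT.nd (nat_lit 78) (nat_lit 608) (nat_lit 0) (XT.lf (nat_lit 0) (nat_lit 8166698685) (nat_lit 380)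 (nat_lit 683819634) (nat_lit 76) (nat_lit 2456733382) (nat_lit 74) (nat_lit 5) (nat_lit 79) (nat_lit 5) (nat_lit 75) (nat_lit 5) (nat_lit 316) (nat_lit 255) (nat_lit 209)) (XT.nd (nat_lit 78) (nat_lit 380) (nat_lit 0) (XT.lf (nat_lit 0) (nat_lit 5517202372) (nat_lit 228) (nat_lit 5604450574) (nat_lit 304) (nat_lit 393065562) (nat_lit 71) (nat_lit 5) (nat_lit 74) (nat_lit 5) (nat_lit 75) (nat_lit 5) (nat_lit 317) (nat_lit 255) (nat_lit 208)) (XT.lf (nat_lit 0) (nat_lit 107227409) (nat_lit 304) (nat_lit 2247600173) (nat_lit 380) (nat_lit 9373956321) (nat_lit 66) (nat_lit 5) (nat_lit 70) (nat_lit 5) (nat_lit 71) (nat_lit 5) (nat_lit 318) (nat_lit 255) (nat_lit 207)))) (XT.nd (nat_lit 156) (nat_lit 304) (nat_lit 0) (XT.nd (nat_lit 78) (nat_lit 228) (nat_lit 0) (XT.lf (nat_lit 0) (nat_lit 5208048661) (nat_lit 380) (nat_lit 5507474171) (nat_lit 76) (nat_lit 1232749971) (nat_lit 66) (nat_lit 5) (nat_lit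 71) (nat_lit 5) (nat_lit 67) (nat_lit 5) (nat_lit 319) (nat_lit 255) (nat_lit 206)) (XT.lf (nat_lit 0) (nat_lit 721710756) (nat_lit 228) (nat_lit 7413567717) (nat_lit 304) (nat_lit 4039456345) (nat_lit 63) (nat_lit 5) (nat_lit 66) (nat_lit 5) (nat_lit 67) (nat_lit 5) (nat_lit 320) (nat_lit 255) (nat_lit 205))) (XT.nd (nat_lit 78) (nat_lit 304) (nat_lit 0) (XT.lf (nat_lit 0) (nat_lit 7191109181) (nat_lit 228) (nat_lit 3974667009) (nat_lit 304) (nat_lit 1241790600) (nat_lit 63) (nat_lit 5) (nat_lit 66) (nat_lit 5) (nat_lit 67) (nat_lit 5) (nat_lit 321) (nat_lit 255) (nat_lit 204)) (XT.lf (nat_lit 0) (nat_lit 1155340933) (nat_lit 228) (nat_lit 424153861) (nat_lit 304) (nat_lit 11068302745) (nat_lit 59) (nat_lit 5) (nat_lit 62) (nat_lit 5) (nat_lit 63) (nat_lit 5) (nat_lit 322) (nat_lit 255) (nat_lit 203)))))) (XT.nd (nat_lit 468) (nat_lit 684) (nat_lit 0) (XT.nd (nat_lit 234) (nat_lit 456) (nat_lit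 0) (XT.nd (nat_lit 78) (nat_lit 228) (nat_lit 0) (XT.lf (nat_lit 0) (nat_lit 4505721112) (nat_lit 304) (nat_lit 5171410197) (nat_lit 76) (nat_lit 3216413480) (nat_lit 59) (nat_lit 5) (nat_lit 63) (nat_lit 5) (nat_lit 60) (nat_lit 5) (nat_lit 323) (nat_lit 255) (nat_lit 202)) (XT.nd (nat_lit 78) (nat_lit 0) (nat_lit 0) (XT.lf (nat_lit 0) (nat_lit 1303129732) (nat_lit 228) (nat_lit 6195454019) (nat_lit 304) (nat_lit 5648750426) (nat_lit 56) (nat_lit 5) (nat_lit 59) (nat_lit 5) (nat_lit 60) (nat_lit 5) (nat_lit 324) (nat_lit 255) (nat_lit 201)) (XT.lf (nat_lit 0) (nat_lit 8021110039) (nat_lit 228) (nat_lit 2575024001) (nat_lit 304) (nat_lit 2812190333) (nat_lit 56) (nat_lit 5) (nat_lit 59) (nat_lit 5) (nat_lit 60) (nat_lit 5) (nat_lit 325) (nat_lit 255) (nat_lit 200)))) (XT.nd (nat_lit 78) (nat_lit 152) (nat_lit 0) (XT.lf (nat_lit 0) (nat_lit 93570751) (nat_lit 304) (nat_lit 12458389923) (nat_lit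 76) (nat_lit 1125597042) (nat_lit 52) (nat_lit 5) (nat_lit 56) (nat_lit 5) (nat_lit 53) (nat_lit 5) (nat_lit 326) (nat_lit 255) (nat_lit 199)) (XT.nd (nat_lit 78) (nat_lit 152) (nat_lit 0) (XT.lf (nat_lit 0) (nat_lit 3074142248) (nat_lit 304) (nat_lit 5929231211) (nat_lit 76) (nat_lit 4949365781) (nat_lit 52) (nat_lit 5) (nat_lit 56) (nat_lit 5) (nat_lit 53) (nat_lit 5) (nat_lit 327) (nat_lit 255) (nat_lit 198)) (XT.lf (nat_lit 0) (nat_lit 755900381) (nat_lit 152) (nat_lit 5360278836) (nat_lit 228) (nat_lit 8120865912) (nat_lit 50) (nat_lit 5) (nat_lit 52) (nat_lit 5) (nat_lit 53) (nat_lit 5) (nat_lit 328) (nat_lit 255) (nat_lit 197))))) (XT.nd (nat_lit 234) (nat_lit 380) (nat_lit 0) (XT.nd (nat_lit 78) (nat_lit 304) (nat_lit 0) (XT.lf (nat_lit 0) (nat_lit 7709012936) (nat_lit 152) (nat_lit 1565625681) (nat_lit 228) (nat_lit 5254516221) (nat_lit 50) (nat_lit 5) (nat_lit 52) (nat_lit 5) (nat_lit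 53) (nat_lit 5) (nat_lit 329) (nat_lit 255) (nat_lit 196)) (XT.nd (nat_lit 78) (nat_lit 304) (nat_lit 0) (XT.lf (nat_lit 0) (nat_lit 12516490531) (nat_lit 228) (nat_lit 35228821) (nat_lit 76) (nat_lit 2278677950) (nat_lit 50) (nat_lit 5) (nat_lit 53) (nat_lit 5) (nat_lit 51) (nat_lit 5) (nat_lit 330) (nat_lit 255) (nat_lit 195)) (XT.lf (nat_lit 0) (nat_lit 751553674) (nat_lit 304) (nat_lit 8123639985) (nat_lit 76) (nat_lit 6263786693) (nat_lit 46) (nat_lit 5) (nat_lit 50) (nat_lit 5) (nat_lit 47) (nat_lit 5) (nat_lit 331) (nat_lit 255) (nat_lit 194)))) (XT.nd (nat_lit 156) (nat_lit 228) (nat_lit 0) (XT.nd (nat_lit 78) (nat_lit 152) (nat_lit 0) (XT.lf (nat_lit 0) (nat_lit 3830051589) (nat_lit 304) (nat_lit 1253588677) (nat_lit 76) (nat_lit 10373492098) (nat_lit 46) (nat_lit 5) (nat_lit 50) (nat_lit 5) (nat_lit 47) (nat_lit 5) (nat_lit 332) (nat_lit 255) (nat_lit 193)) (XT.lf (nat_lit 0) (nat_lit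 5886940797) (nat_lit 152) (nat_lit 1138728856) (nat_lit 228) (nat_lit 8758441760) (nat_lit 44) (nat_lit 5) (nat_lit 46) (nat_lit 5) (nat_lit 47) (nat_lit 5) (nat_lit 333) (nat_lit 255) (nat_lit 192))) (XT.nd (nat_lit 78) (nat_lit 228) (nat_lit 0) (XT.lf (nat_lit 0) (nat_lit 10326496279) (nat_lit 228) (nat_lit 2932164951) (nat_lit 76) (nat_lit 2861983095) (nat_lit 44) (nat_lit 5) (nat_lit 47) (nat_lit 5) (nat_lit 45) (nat_lit 5) (nat_lit 334) (nat_lit 255) (nat_lit 191)) (XT.lf (nat_lit 0) (nat_lit 4264419185) (nat_lit 228) (nat_lit 9483557911) (nat_lit 304) (nat_lit 2718671219) (nat_lit 41) (nat_lit 5) (nat_lit 44) (nat_lit 5) (nat_lit 45) (nat_lit 5) (nat_lit 335) (nat_lit 255) (nat_lit 190))))))))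
noncomputable def xc93 : XT := (XT.nd (nat_lit 2028) (nat_lit 836) (nat_lit 0) (XT.nd (nat_lit 1014) (nat_lit 532) (nat_lit 0) (XT.nd (nat_lit 468) (nat_lit 608) (nat_lit 0) (XT.nd (nat_lit 234) (nat_lit 152) (nat_lit 0) (XT.nd (nat_lit 78) (nat_lit 152) (nat_lit 0) (XT.lf (nat_lit 0) (nat_lit 439672877) (nat_lit 304) (nat_lit 5139204911) (nat_lit 76) (nat_lit 11244066755) (nat_lit 40) (nat_lit 5) (nat_lit 44) (nat_lit 5) (nat_lit 41) (nat_lit 5) (nat_lit 336) (nat_lit 255) (nat_lit 189)) (XT.nd (nat_lit 78) (nat_lit 0) (nat_lit 0) (XT.lf (nat_lit 0) (nat_lit 2101788270) (nat_lit 152) (nat_lit 1526893169) (nat_lit 228) (nat_lit 13560745928) (nat_lit 38) (nat_lit 5) (nat_lit 40) (nat_lit 5) (nat_lit 41) (nat_lit 5) (nat_lit 337) (nat_lit 255) (nat_lit 188)) (XT.lf (nat_lit 0) (nat_lit 6961794748) (nat_lit 228) (nat_lit 7974212406) (nat_lit 76) (nat_lit 2629465787) (nat_lit 38) (nat_lit 5) (nat_lit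 41) (nat_lit 5) (nat_lit 39) (nat_lit 5) (nat_lit 338) (nat_lit 255) (nat_lit 187)))) (XT.nd (nat_lit 78) (nat_lit 152) (nat_lit 0) (XT.lf (nat_lit 0) (nat_lit 10381459549) (nat_lit 228) (nat_lit 709364228) (nat_lit 76) (nat_lit 6862400043) (nat_lit 38) (nat_lit 5) (nat_lit 41) (nat_lit 5) (nat_lit 39) (nat_lit 5) (nat_lit 339) (nat_lit 255) (nat_lit 186)) (XT.nd (nat_lit 78) (nat_lit 0) (nat_lit 0) (XT.lf (nat_lit 0) (nat_lit 6861829808) (nat_lit 152) (nat_lit 7080116763) (nat_lit 228) (nat_lit 4409533762) (nat_lit 36) (nat_lit 5) (nat_lit 38) (nat_lit 5) (nat_lit 39) (nat_lit 5) (nat_lit 340) (nat_lit 255) (nat_lit 185)) (XT.lf (nat_lit 0) (nat_lit 14629648400) (nat_lit 152) (nat_lit 2959409698) (nat_lit 228) (nat_lit 1173251638) (nat_lit 36) (nat_lit 5) (nat_lit 38) (nat_lit 5) (nat_lit 39) (nat_lit 5) (nat_lit 341) (nat_lit 255) (nat_lit 184))))) (XT.nd (nat_lit 234) (nat_lit 380) (nat_lit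 0) (XT.nd (nat_lit 78) (nat_lit 0) (nat_lit 0) (XT.lf (nat_lit 0) (nat_lit 2136983536) (nat_lit 228) (nat_lit 15750139266) (nat_lit 76) (nat_lit 1297166173) (nat_lit 33) (nat_lit 5) (nat_lit 36) (nat_lit 5) (nat_lit 34) (nat_lit 5) (nat_lit 342) (nat_lit 255) (nat_lit 183)) (XT.nd (nat_lit 78) (nat_lit 0) (nat_lit 0) (XT.lf (nat_lit 0) (nat_lit 5567745555) (nat_lit 228) (nat_lit 8390829362) (nat_lit 76) (nat_lit 5658677993) (nat_lit 33) (nat_lit 5) (nat_lit 36) (nat_lit 5) (nat_lit 34) (nat_lit 5) (nat_lit 343) (nat_lit 255) (nat_lit 182)) (XT.lf (nat_lit 0) (nat_lit 9075561441) (nat_lit 228) (nat_lit 853947629) (nat_lit 76) (nat_lit 10134490081) (nat_lit 33) (nat_lit 5) (nat_lit 36) (nat_lit 5) (nat_lit 34) (nat_lit 5) (nat_lit 344) (nat_lit 255) (nat_lit 181)))) (XT.nd (nat_lit 156) (nat_lit 228) (nat_lit 0) (XT.nd (nat_lit 78) (nat_lit 0) (nat_lit 0) (XT.lf (nat_lit 0) (nat_lit 7003760143)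 (nat_lit 152) (nat_lit 5727060558) (nat_lit 228) (nat_lit 7792077625) (nat_lit 31) (nat_lit 5) (nat_lit 33) (nat_lit 5) (nat_lit 34) (nat_lit 5) (nat_lit 345) (nat_lit 255) (nat_lit 180)) (XT.lf (nat_lit 0) (nat_lit 15073166504) (nat_lit 152) (nat_lit 1406411137) (nat_lit 228) (nat_lit 4516487963) (nat_lit 31) (nat_lit 5) (nat_lit 33) (nat_lit 5) (nat_lit 34) (nat_lit 5) (nat_lit 346) (nat_lit 255) (nat_lit 179))) (XT.nd (nat_lit 78) (nat_lit 76) (nat_lit 0) (XT.lf (nat_lit 0) (nat_lit 1867500159) (nat_lit 152) (nat_lit 18496290294) (nat_lit 228) (nat_lit 1118963501) (nat_lit 29) (nat_lit 5) (nat_lit 31) (nat_lit 5) (nat_lit 32) (nat_lit 4) (nat_lit 347) (nat_lit 255) (nat_lit 178)) (XT.lf (nat_lit 0) (nat_lit 2384207960) (nat_lit 228) (nat_lit 12047627174) (nat_lit 76) (nat_lit 7550031086) (nat_lit 28) (nat_lit 5) (nat_lit 31) (nat_lit 5) (nat_lit 29) (nat_lit 5) (nat_lit 348) (nat_lit 255)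 (nat_lit 177)))))) (XT.nd (nat_lit 468) (nat_lit 228) (nat_lit 0) (XT.nd (nat_lit 234) (nat_lit 152) (nat_lit 0) (XT.nd (nat_lit 78) (nat_lit 152) (nat_lit 0) (XT.lf (nat_lit 0) (nat_lit 5946534441) (nat_lit 228) (nat_lit 4303860114) (nat_lit 76) (nat_lit 12245942939) (nat_lit 28) (nat_lit 5) (nat_lit 31) (nat_lit 5) (nat_lit 29) (nat_lit 5) (nat_lit 349) (nat_lit 255) (nat_lit 176)) (XT.nd (nat_lit 78) (nat_lit 0) (nat_lit 0) (XT.lf (nat_lit 0) (nat_lit 3705885111) (nat_lit 152) (nat_lit 5922701784) (nat_lit 228) (nat_lit 13397284407) (nat_lit 26) (nat_lit 5) (nat_lit 28) (nat_lit 5) (nat_lit 29) (nat_lit 5) (nat_lit 350) (nat_lit 255) (nat_lit 175)) (XT.lf (nat_lit 0) (nat_lit 12005876516) (nat_lit 152) (nat_lit 1436213134) (nat_lit 228) (nat_lit 10128585485) (nat_lit 26) (nat_lit 5) (nat_lit 28) (nat_lit 5) (nat_lit 29) (nat_lit 5) (nat_lit 351) (nat_lit 255) (nat_lit 174)))) (XT.nd (nat_lit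 78) (nat_lit 152) (nat_lit 0) (XT.lf (nat_lit 0) (nat_lit 17378647656) (nat_lit 228) (nat_lit 3645247083) (nat_lit 76) (nat_lit 3107682111) (nat_lit 26) (nat_lit 5) (nat_lit 29) (nat_lit 5) (nat_lit 27) (nat_lit 4) (nat_lit 352) (nat_lit 255) (nat_lit 173)) (XT.nd (nat_lit 78) (nat_lit 76) (nat_lit 0) (XT.lf (nat_lit 0) (nat_lit 4549876177) (nat_lit 76) (nat_lit 16920057348) (nat_lit 152) (nat_lit 3238286045) (nat_lit 25) (nat_lit 5) (nat_lit 26) (nat_lit 5) (nat_lit 27) (nat_lit 4) (nat_lit 353) (nat_lit 255) (nat_lit 172)) (XT.lf (nat_lit 0) (nat_lit 390247713) (nat_lit 152) (nat_lit 12276170922) (nat_lit 76) (nat_lit 12635167937) (nat_lit 24) (nat_lit 5) (nat_lit 26) (nat_lit 5) (nat_lit 25) (nat_lit 5) (nat_lit 354) (nat_lit 255) (nat_lit 171))))) (XT.nd (nat_lit 234) (nat_lit 76) (nat_lit 0) (XT.nd (nat_lit 78) (nat_lit 152) (nat_lit 0) (XT.lf (nat_lit 0) (nat_lit 4041897971) (nat_lit 152)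 (nat_lit 4225184113) (nat_lit 76) (nat_lit 17645342019) (nat_lit 24) (nat_lit 5) (nat_lit 26) (nat_lit 5) (nat_lit 25) (nat_lit 5) (nat_lit 355) (nat_lit 255) (nat_lit 170)) (XT.nd (nat_lit 78) (nat_lit 0) (nat_lit 0) (XT.lf (nat_lit 0) (nat_lit 4113040496) (nat_lit 152) (nat_lit 3709542682) (nat_lit 228) (nat_lit 18718430469) (nat_lit 22) (nat_lit 5) (nat_lit 24) (nat_lit 5) (nat_lit 25) (nat_lit 5) (nat_lit 356) (nat_lit 255) (nat_lit 169)) (XT.lf (nat_lit 0) (nat_lit 11749308156) (nat_lit 228) (nat_lit 14443724835) (nat_lit 76) (nat_lit 994460426) (nat_lit 22) (nat_lit 5) (nat_lit 25) (nat_lit 5) (nat_lit 23) (nat_lit 4) (nat_lit 357) (nat_lit 255) (nat_lit 168)))) (XT.nd (nat_lit 156) (nat_lit 0) (nat_lit 0) (XT.nd (nat_lit 78) (nat_lit 76) (nat_lit 0) (XT.lf (nat_lit 0) (nat_lit 15811208606) (nat_lit 228) (nat_lit 6290346846) (nat_lit 76) (nat_lit 5751301710) (nat_lit 22) (nat_lit 5) (nat_lit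 25) (nat_lit 5) (nat_lit 23) (nat_lit 4) (nat_lit 358) (nat_lit 255) (nat_lit 167)) (XT.lf (nat_lit 0) (nat_lit 2116238965) (nat_lit 76) (nat_lit 17880278986) (nat_lit 152) (nat_lit 8541627789) (nat_lit 21) (nat_lit 5) (nat_lit 22) (nat_lit 5) (nat_lit 23) (nat_lit 4) (nat_lit 359) (nat_lit 255) (nat_lit 166))) (XT.nd (nat_lit 78) (nat_lit 0) (nat_lit 0) (XT.lf (nat_lit 0) (nat_lit 10871599813) (nat_lit 76) (nat_lit 13480752387) (nat_lit 152) (nat_lit 4890301979) (nat_lit 21) (nat_lit 5) (nat_lit 22) (nat_lit 5) (nat_lit 23) (nat_lit 4) (nat_lit 360) (nat_lit 255) (nat_lit 165)) (XT.lf (nat_lit 0) (nat_lit 19858195776) (nat_lit 76) (nat_lit 8962651580) (nat_lit 152) (nat_lit 1148000816) (nat_lit 21) (nat_lit 5) (nat_lit 22) (nat_lit 5) (nat_lit 23) (nat_lit 4) (nat_lit 361) (nat_lit 255) (nat_lit 164))))))) (XT.nd (nat_lit 1014) (nat_lit 304) (nat_lit 0) (XT.nd (nat_lit 468) (nat_lit 228) (nat_lit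 0) (XT.nd (nat_lit 234) (nat_lit 76) (nat_lit 0) (XT.nd (nat_lit 78) (nat_lit 152) (nat_lit 0) (XT.lf (nat_lit 0) (nat_lit 2636082459) (nat_lit 152) (nat_lit 1659326985) (nat_lit 76) (nat_lit 26421177495) (nat_lit 20) (nat_lit 5) (nat_lit 22) (nat_lit 5) (nat_lit 21) (nat_lit 5) (nat_lit 362) (nat_lit 255) (nat_lit 163)) (XT.nd (nat_lit 78) (nat_lit 0) (nat_lit 0) (XT.lf (nat_lit 0) (nat_lit 6567715348) (nat_lit 228) (nat_lit 24346873130) (nat_lit 76) (nat_lit 570124414) (nat_lit 18) (nat_lit 5) (nat_lit 21) (nat_lit 5) (nat_lit 19) (nat_lit 4) (nat_lit 363) (nat_lit 255) (nat_lit 162)) (XT.lf (nat_lit 0) (nat_lit 10659682613) (nat_lit 228) (nat_lit 16115211605) (nat_lit 76) (nat_lit 5499725620) (nat_lit 18) (nat_lit 5) (nat_lit 21) (nat_lit 5) (nat_lit 19) (nat_lit 4) (nat_lit 364) (nat_lit 255) (nat_lit 161)))) (XT.nd (nat_lit 78) (nat_lit 76) (nat_lit 0) (XT.lf (nat_lit 0) (nat_lit 14857840676)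 (nat_lit 228) (nat_lit 7665797361) (nat_lit 76) (nat_lit 10565091522) (nat_lit 18) (nat_lit 5) (nat_lit 21) (nat_lit 5) (nat_lit 19) (nat_lit 4) (nat_lit 365) (nat_lit 255) (nat_lit 160)) (XT.nd (nat_lit 78) (nat_lit 0) (nat_lit 0) (XT.lf (nat_lit 0) (nat_lit 1028828737) (nat_lit 76) (nat_lit 18146918824) (nat_lit 152) (nat_lit 14751709160) (nat_lit 17) (nat_lit 5) (nat_lit 18) (nat_lit 5) (nat_lit 19) (nat_lit 4) (nat_lit 366) (nat_lit 255) (nat_lit 159)) (XT.lf (nat_lit 0) (nat_lit 10113366133) (nat_lit 76) (nat_lit 13571348091) (nat_lit 152) (nat_lit 11104793826) (nat_lit 17) (nat_lit 5) (nat_lit 18) (nat_lit 5) (nat_lit 19) (nat_lit 4) (nat_lit 367) (nat_lit 255) (nat_lit 158))))) (XT.nd (nat_lit 234) (nat_lit 0) (nat_lit 0) (XT.nd (nat_lit 78) (nat_lit 228) (nat_lit 0) (XT.lf (nat_lit 0) (nat_lit 19443188373) (nat_lit 76) (nat_lit 8870337289) (nat_lit 152) (nat_lit 7364365781) (nat_lit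 17) (nat_lit 5) (nat_lit 18) (nat_lit 5) (nat_lit 19) (nat_lit 4) (nat_lit 368) (nat_lit 255) (nat_lit 157)) (XT.nd (nat_lit 78) (nat_lit 228) (nat_lit 0) (XT.lf (nat_lit 0) (nat_lit 29026447728) (nat_lit 76) (nat_lit 4039778741) (nat_lit 152) (nat_lit 3527156688) (nat_lit 17) (nat_lit 5) (nat_lit 18) (nat_lit 5) (nat_lit 19) (nat_lit 4) (nat_lit 369) (nat_lit 255) (nat_lit 156)) (XT.lf (nat_lit 0) (nat_lit 424284660) (nat_lit 228) (nat_lit 36188051791) (nat_lit 76) (nat_lit 923665319) (nat_lit 14) (nat_lit 5) (nat_lit 17) (nat_lit 5) (nat_lit 15) (nat_lit 4) (nat_lit 370) (nat_lit 255) (nat_lit 155)))) (XT.nd (nat_lit 156) (nat_lit 0) (nat_lit 0) (XT.nd (nat_lit 78) (nat_lit 0) (nat_lit 0) (XT.lf (nat_lit 0) (nat_lit 4525925134) (nat_lit 228) (nat_lit 27920952601) (nat_lit 76) (nat_lit 6055904017) (nat_lit 14) (nat_lit 5) (nat_lit 17) (nat_lit 5) (nat_lit 15) (nat_lit 4) (nat_lit 371) (nat_lit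 255) (nat_lit 154)) (XT.lf (nat_lit 0) (nat_lit 8736423244) (nat_lit 228) (nat_lit 19431147236) (nat_lit 76) (nat_lit 11331427127) (nat_lit 14) (nat_lit 5) (nat_lit 17) (nat_lit 5) (nat_lit 15) (nat_lit 4) (nat_lit 372) (nat_lit 255) (nat_lit 153))) (XT.nd (nat_lit 78) (nat_lit 0) (nat_lit 0) (XT.lf (nat_lit 0) (nat_lit 13059458065) (nat_lit 228) (nat_lit 10711217419) (nat_lit 76) (nat_lit 16754844328) (nat_lit 14) (nat_lit 5) (nat_lit 17) (nat_lit 5) (nat_lit 15) (nat_lit 4) (nat_lit 373) (nat_lit 255) (nat_lit 152)) (XT.lf (nat_lit 0) (nat_lit 17498807008) (nat_lit 228) (nat_lit 1753543794) (nat_lit 76) (nat_lit 22330894529) (nat_lit 14) (nat_lit 5) (nat_lit 17) (nat_lit 5) (nat_lit 15) (nat_lit 4) (nat_lit 374) (nat_lit 255) (nat_lit 151)))))) (XT.nd (nat_lit 546) (nat_lit 76) (nat_lit 0) (XT.nd (nat_lit 234) (nat_lit 152) (nat_lit 0) (XT.nd (nat_lit 78) (nat_lit 0) (nat_lit 0) (XT.lf (nat_lit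 0) (nat_lit 7597964382) (nat_lit 76) (nat_lit 14533421014) (nat_lit 152) (nat_lit 20539521906) (nat_lit 13) (nat_lit 5) (nat_lit 14) (nat_lit 5) (nat_lit 15) (nat_lit 4) (nat_lit 375) (nat_lit 255) (nat_lit 150)) (XT.nd (nat_lit 78) (nat_lit 0) (nat_lit 0) (XT.lf (nat_lit 0) (nat_lit 17243031479) (nat_lit 76) (nat_lit 9664787540) (nat_lit 152) (nat_lit 16883239753) (nat_lit 13) (nat_lit 5) (nat_lit 14) (nat_lit 5) (nat_lit 15) (nat_lit 4) (nat_lit 376) (nat_lit 255) (nat_lit 149)) (XT.lf (nat_lit 0) (nat_lit 27155186262) (nat_lit 76) (nat_lit 4659903589) (nat_lit 152) (nat_lit 13130104409) (nat_lit 13) (nat_lit 5) (nat_lit 14) (nat_lit 5) (nat_lit 15) (nat_lit 4) (nat_lit 377) (nat_lit 255) (nat_lit 148)))) (XT.nd (nat_lit 156) (nat_lit 76) (nat_lit 0) (XT.nd (nat_lit 78) (nat_lit 76) (nat_lit 0) (XT.lf (nat_lit 0) (nat_lit 36862153723) (nat_lit 152) (nat_lit 8795900320) (nat_lit 0) (nat_lit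 476128154) (nat_lit 13) (nat_lit 5) (nat_lit 15) (nat_lit 4) (nat_lit 13) (nat_lit 4) (nat_lit 378) (nat_lit 255) (nat_lit 147)) (XT.lf (nat_lit 0) (nat_lit 408611326) (nat_lit 76) (nat_lit 41690254009) (nat_lit 76) (nat_lit 5258832832) (nat_lit 12) (nat_lit 4) (nat_lit 13) (nat_lit 5) (nat_lit 13) (nat_lit 4) (nat_lit 379) (nat_lit 255) (nat_lit 146))) (XT.nd (nat_lit 78) (nat_lit 76) (nat_lit 0) (XT.lf (nat_lit 0) (nat_lit 10048518957) (nat_lit 76) (nat_lit 37521293266) (nat_lit 76) (nat_lit 1045798684) (nat_lit 12) (nat_lit 4) (nat_lit 13) (nat_lit 5) (nat_lit 13) (nat_lit 4) (nat_lit 380) (nat_lit 255) (nat_lit 145)) (XT.lf (nat_lit 0) (nat_lit 3217891563) (nat_lit 152) (nat_lit 29985964421) (nat_lit 76) (nat_lit 16706804171) (nat_lit 11) (nat_lit 5) (nat_lit 13) (nat_lit 5) (nat_lit 12) (nat_lit 4) (nat_lit 381) (nat_lit 255) (nat_lit 144))))) (XT.nd (nat_lit 234) (nat_lit 76) (nat_lit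 0) (XT.nd (nat_lit 78) (nat_lit 0) (nat_lit 0) (XT.lf (nat_lit 0) (nat_lit 7577342507) (nat_lit 152) (nat_lit 21177822417) (nat_lit 76) (nat_lit 22489424098) (nat_lit 11) (nat_lit 5) (nat_lit 13) (nat_lit 5) (nat_lit 12) (nat_lit 4) (nat_lit 382) (nat_lit 255) (nat_lit 143)) (XT.nd (nat_lit 78) (nat_lit 0) (nat_lit 0) (XT.lf (nat_lit 0) (nat_lit 12056770674) (nat_lit 152) (nat_lit 12124916647) (nat_lit 76) (nat_lit 28437177339) (nat_lit 11) (nat_lit 5) (nat_lit 13) (nat_lit 5) (nat_lit 12) (nat_lit 4) (nat_lit 383) (nat_lit 255) (nat_lit 142)) (XT.lf (nat_lit 0) (nat_lit 16660090129) (nat_lit 152) (nat_lit 2819336804) (nat_lit 76) (nat_lit 34555260961) (nat_lit 11) (nat_lit 5) (nat_lit 13) (nat_lit 5) (nat_lit 12) (nat_lit 4) (nat_lit 384) (nat_lit 255) (nat_lit 141)))) (XT.nd (nat_lit 156) (nat_lit 0) (nat_lit 0) (XT.nd (nat_lit 78) (nat_lit 0) (nat_lit 0) (XT.lf (nat_lit 0) (nat_lit 6881327688)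 (nat_lit 76) (nat_lit 14576143031) (nat_lit 152) (nat_lit 34033840705) (nat_lit 10) (nat_lit 5) (nat_lit 11) (nat_lit 5) (nat_lit 12) (nat_lit 4) (nat_lit 385) (nat_lit 255) (nat_lit 140)) (XT.lf (nat_lit 0) (nat_lit 16912623545) (nat_lit 76) (nat_lit 9504554879) (nat_lit 152) (nat_lit 30573907384) (nat_lit 10) (nat_lit 5) (nat_lit 11) (nat_lit 5) (nat_lit 12) (nat_lit 4) (nat_lit 386) (nat_lit 255) (nat_lit 139))) (XT.nd (nat_lit 78) (nat_lit 0) (nat_lit 0) (XT.lf (nat_lit 0) (nat_lit 27227205644) (nat_lit 76) (nat_lit 4288700766) (nat_lit 152) (nat_lit 27020244332) (nat_lit 10) (nat_lit 5) (nat_lit 11) (nat_lit 5) (nat_lit 12) (nat_lit 4) (nat_lit 387) (nat_lit 255) (nat_lit 138)) (XT.lf (nat_lit 0) (nat_lit 36768452824) (nat_lit 152) (nat_lit 22304112503) (nat_lit 0) (nat_lit 1054980667) (nat_lit 10) (nat_lit 5) (nat_lit 12) (nat_lit 4) (nat_lit 10) (nat_lit 4) (nat_lit 388) (nat_lit 255)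 (nat_lit 137))))))))
noncomputable def xc94 : XT := (XT.nd (nat_lit 31668) (nat_lit 0) (nat_lit 8740) (XT.nd (nat_lit 1014) (nat_lit 76) (nat_lit 0) (XT.nd (nat_lit 468) (nat_lit 76) (nat_lit 0) (XT.nd (nat_lit 234) (nat_lit 76) (nat_lit 0) (XT.nd (nat_lit 78) (nat_lit 76) (nat_lit 0) (XT.lf (nat_lit 0) (nat_lit 42211756543) (nat_lit 152) (nat_lit 13088445452) (nat_lit 0) (nat_lit 6465489633) (nat_lit 10) (nat_lit 5) (nat_lit 12) (nat_lit 4) (nat_lit 10) (nat_lit 4) (nat_lit 389) (nat_lit 255) (nat_lit 136)) (XT.nd (nat_lit 78) (nat_lit 76) (nat_lit 0) (XT.lf (nat_lit 0) (nat_lit 47809348236) (nat_lit 152) (nat_lit 3612665804) (nat_lit 0) (nat_lit 12031241760) (nat_lit 10) (nat_lit 5) (nat_lit 12) (nat_lit 4) (nat_lit 10) (nat_lit 4) (nat_lit 390) (nat_lit 255) (nat_lit 135)) (XT.lf (nat_lit 0) (nat_lit 6253535243) (nat_lit 76) (nat_lit 47372696565) (nat_lit 76) (nat_lit 11563677889) (nat_lit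 9) (nat_lit 4) (nat_lit 10) (nat_lit 5) (nat_lit 10) (nat_lit 4) (nat_lit 391) (nat_lit 255) (nat_lit 134)))) (XT.nd (nat_lit 78) (nat_lit 76) (nat_lit 0) (XT.lf (nat_lit 0) (nat_lit 16474053141) (nat_lit 76) (nat_lit 43171404566) (nat_lit 76) (nat_lit 7332374045) (nat_lit 9) (nat_lit 4) (nat_lit 10) (nat_lit 5) (nat_lit 10) (nat_lit 4) (nat_lit 392) (nat_lit 255) (nat_lit 133)) (XT.nd (nat_lit 78) (nat_lit 76) (nat_lit 0) (XT.lf (nat_lit 0) (nat_lit 26985919305) (nat_lit 76) (nat_lit 38850947852) (nat_lit 76) (nat_lit 2982779618) (nat_lit 9) (nat_lit 4) (nat_lit 10) (nat_lit 5) (nat_lit 10) (nat_lit 4) (nat_lit 393) (nat_lit 255) (nat_lit 132)) (XT.lf (nat_lit 0) (nat_lit 1459852088) (nat_lit 152) (nat_lit 32932957536) (nat_lit 76) (nat_lit 36323725128) (nat_lit 8) (nat_lit 5) (nat_lit 10) (nat_lit 5) (nat_lit 9) (nat_lit 4) (nat_lit 394) (nat_lit 255) (nat_lit 131))))) (XT.nd (nat_lit 234)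 (nat_lit 76) (nat_lit 0) (XT.nd (nat_lit 78) (nat_lit 0) (nat_lit 0) (XT.lf (nat_lit 0) (nat_lit 5967818834) (nat_lit 152) (nat_lit 23809250130) (nat_lit 76) (nat_lit 42892617431) (nat_lit 8) (nat_lit 5) (nat_lit 10) (nat_lit 5) (nat_lit 9) (nat_lit 4) (nat_lit 395) (nat_lit 255) (nat_lit 130)) (XT.nd (nat_lit 78) (nat_lit 0) (nat_lit 0) (XT.lf (nat_lit 0) (nat_lit 10603264394) (nat_lit 152) (nat_lit 14425960779) (nat_lit 76) (nat_lit 49652443339) (nat_lit 8) (nat_lit 5) (nat_lit 10) (nat_lit 5) (nat_lit 9) (nat_lit 4) (nat_lit 396) (nat_lit 255) (nat_lit 129)) (XT.lf (nat_lit 0) (nat_lit 15370239155) (nat_lit 152) (nat_lit 4774890494) (nat_lit 76) (nat_lit 56609109497) (nat_lit 8) (nat_lit 5) (nat_lit 10) (nat_lit 5) (nat_lit 9) (nat_lit 4) (nat_lit 397) (nat_lit 255) (nat_lit 128)))) (XT.nd (nat_lit 156) (nat_lit 0) (nat_lit 0) (XT.nd (nat_lit 78) (nat_lit 0) (nat_lit 0) (XT.lf (nat_lit 0)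 (nat_lit 5254936438) (nat_lit 76) (nat_lit 15068485663) (nat_lit 152) (nat_lit 58564271769) (nat_lit 7) (nat_lit 5) (nat_lit 8) (nat_lit 5) (nat_lit 9) (nat_lit 4) (nat_lit 398) (nat_lit 255) (nat_lit 127)) (XT.lf (nat_lit 0) (nat_lit 15670351124) (nat_lit 76) (nat_lit 9795838002) (nat_lit 152) (nat_lit 55617736304) (nat_lit 7) (nat_lit 5) (nat_lit 8) (nat_lit 5) (nat_lit 9) (nat_lit 4) (nat_lit 399) (nat_lit 255) (nat_lit 126))) (XT.nd (nat_lit 78) (nat_lit 0) (nat_lit 0) (XT.lf (nat_lit 0) (nat_lit 26385424727) (nat_lit 76) (nat_lit 4370796532) (nat_lit 152) (nat_lit 52590035987) (nat_lit 7) (nat_lit 5) (nat_lit 8) (nat_lit 5) (nat_lit 9) (nat_lit 4) (nat_lit 400) (nat_lit 255) (nat_lit 125)) (XT.lf (nat_lit 0) (nat_lit 36209785376) (nat_lit 152) (nat_lit 48278790695) (nat_lit 0) (nat_lit 1187740705) (nat_lit 7) (nat_lit 5) (nat_lit 9) (nat_lit 4) (nat_lit 7) (nat_lit 4) (nat_lit 401) (nat_lit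 255) (nat_lit 124)))))) (XT.nd (nat_lit 468) (nat_lit 0) (nat_lit 0) (XT.nd (nat_lit 234) (nat_lit 76) (nat_lit 0) (XT.nd (nat_lit 78) (nat_lit 0) (nat_lit 0) (XT.lf (nat_lit 0) (nat_lit 41863564160) (nat_lit 152) (nat_lit 39391780018) (nat_lit 0) (nat_lit 6819838294) (nat_lit 7) (nat_lit 5) (nat_lit 9) (nat_lit 4) (nat_lit 7) (nat_lit 4) (nat_lit 402) (nat_lit 255) (nat_lit 123)) (XT.nd (nat_lit 78) (nat_lit 0) (nat_lit 0) (XT.lf (nat_lit 0) (nat_lit 47680483036) (nat_lit 152) (nat_lit 30250020370) (nat_lit 0) (nat_lit 12615707467) (nat_lit 7) (nat_lit 5) (nat_lit 9) (nat_lit 4) (nat_lit 7) (nat_lit 4) (nat_lit 403) (nat_lit 255) (nat_lit 122)) (XT.lf (nat_lit 0) (nat_lit 53665624750) (nat_lit 152) (nat_lit 20845523804) (nat_lit 0) (nat_lit 18580412575) (nat_lit 7) (nat_lit 5) (nat_lit 9) (nat_lit 4) (nat_lit 7) (nat_lit 4) (nat_lit 404) (nat_lit 255) (nat_lit 121)))) (XT.nd (nat_lit 78) (nat_lit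 76) (nat_lit 0) (XT.lf (nat_lit 0) (nat_lit 59824219036) (nat_lit 152) (nat_lit 11170072800) (nat_lit 0) (nat_lit 24719165496) (nat_lit 7) (nat_lit 5) (nat_lit 9) (nat_lit 4) (nat_lit 7) (nat_lit 4) (nat_lit 405) (nat_lit 255) (nat_lit 120)) (XT.nd (nat_lit 78) (nat_lit 76) (nat_lit 0) (XT.lf (nat_lit 0) (nat_lit 66161647191) (nat_lit 152) (nat_lit 1215213081) (nat_lit 0) (nat_lit 31037330190) (nat_lit 7) (nat_lit 5) (nat_lit 9) (nat_lit 4) (nat_lit 7) (nat_lit 4) (nat_lit 406) (nat_lit 255) (nat_lit 119)) (XT.lf (nat_lit 0) (nat_lit 9207423777) (nat_lit 76) (nat_lit 63564530386) (nat_lit 76) (nat_lit 28421510996) (nat_lit 6) (nat_lit 4) (nat_lit 7) (nat_lit 5) (nat_lit 7) (nat_lit 4) (nat_lit 407) (nat_lit 255) (nat_lit 118))))) (XT.nd (nat_lit 29874) (nat_lit 0) (nat_lit 20520) (XT.nd (nat_lit 29718) (nat_lit 0) (nat_lit 21508) (XT.lf (nat_lit 0) (nat_lit 19957215083) (nat_lit 76) (nat_lit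 59629942320) (nat_lit 76) (nat_lit 24468765270) (nat_lit 6) (nat_lit 4) (nat_lit 7) (nat_lit 5) (nat_lit 7) (nat_lit 4) (nat_lit 408) (nat_lit 255) (nat_lit 117)) (XT.nd (nat_lit 78) (nat_lit 380) (nat_lit 0) (XT.lf (nat_lit 0) (nat_lit 3087176184) (nat_lit 228) (nat_lit 85045360) (nat_lit 228) (nat_lit 85045360) (nat_lit 294) (nat_lit 4) (nat_lit 297) (nat_lit 5) (nat_lit 297) (nat_lit 4) (nat_lit 268) (nat_lit 256) (nat_lit 256)) (XT.lf (nat_lit 0) (nat_lit 2767226519) (nat_lit 380) (nat_lit 3382750562) (nat_lit 0) (nat_lit 383799030) (nat_lit 289) (nat_lit 5) (nat_lit 294) (nat_lit 4) (nat_lit 289) (nat_lit 4) (nat_lit 269) (nat_lit 256) (nat_lit 255)))) (XT.nd (nat_lit 156) (nat_lit 532) (nat_lit 0) (XT.nd (nat_lit 78) (nat_lit 76) (nat_lit 0) (XT.lf (nat_lit 0) (nat_lit 128422573) (nat_lit 380) (nat_lit 5562887074) (nat_lit 380) (nat_lit 865452313) (nat_lit 284) (nat_lit 4) (nat_lit 289)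 (nat_lit 5) (nat_lit 289) (nat_lit 4) (nat_lit 270) (nat_lit 256) (nat_lit 254)) (XT.lf (nat_lit 0) (nat_lit 2012518065) (nat_lit 456) (nat_lit 2858632089) (nat_lit 76) (nat_lit 1711000006) (nat_lit 283) (nat_lit 5) (nat_lit 289) (nat_lit 5) (nat_lit 284) (nat_lit 4) (nat_lit 271) (nat_lit 256) (nat_lit 253))) (XT.nd (nat_lit 78) (nat_lit 76) (nat_lit 0) (XT.lf (nat_lit 0) (nat_lit 753672653) (nat_lit 456) (nat_lit 4112775722) (nat_lit 532) (nat_lit 1744639192) (nat_lit 277) (nat_lit 5) (nat_lit 283) (nat_lit 5) (nat_lit 284) (nat_lit 4) (nat_lit 272) (nat_lit 256) (nat_lit 252)) (XT.lf (nat_lit 0) (nat_lit 1072325354) (nat_lit 532) (nat_lit 2190720873) (nat_lit 76) (nat_lit 3379852616) (nat_lit 276) (nat_lit 5) (nat_lit 283) (nat_lit 5) (nat_lit 277) (nat_lit 5) (nat_lit 273) (nat_lit 256) (nat_lit 251))))))) (XT.nd (nat_lit 1014) (nat_lit 5016) (nat_lit 0) (XT.nd (nat_lit 468) (nat_lit 4028)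 (nat_lit 0) (XT.nd (nat_lit 234) (nat_lit 1520) (nat_lit 0) (XT.nd (nat_lit 78) (nat_lit 684) (nat_lit 0) (XT.lf (nat_lit 0) (nat_lit 1528473969) (nat_lit 532) (nat_lit 2328645990) (nat_lit 608) (nat_lit 2820708134) (nat_lit 269) (nat_lit 5) (nat_lit 276) (nat_lit 5) (nat_lit 277) (nat_lit 5) (nat_lit 274) (nat_lit 256) (nat_lit 250)) (XT.nd (nat_lit 78) (nat_lit 684) (nat_lit 0) (XT.lf (nat_lit 0) (nat_lit 5334786678) (nat_lit 532) (nat_lit 1318625971) (nat_lit 608) (nat_lit 62780595) (nat_lit 269) (nat_lit 5) (nat_lit 276) (nat_lit 5) (nat_lit 277) (nat_lit 5) (nat_lit 275) (nat_lit 256) (nat_lit 249)) (XT.lf (nat_lit 0) (nat_lit 2451309840) (nat_lit 608) (nat_lit 203385941) (nat_lit 684) (nat_lit 4102495596) (nat_lit 260) (nat_lit 5) (nat_lit 268) (nat_lit 5) (nat_lit 269) (nat_lit 5) (nat_lit 276) (nat_lit 256) (nat_lit 248)))) (XT.nd (nat_lit 78) (nat_lit 1520) (nat_lit 0) (XT.lf (nat_lit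 0) (nat_lit 5385307599) (nat_lit 684) (nat_lit 453374913) (nat_lit 76) (nat_lit 962939521) (nat_lit 260) (nat_lit 5) (nat_lit 269) (nat_lit 5) (nat_lit 261) (nat_lit 5) (nat_lit 277) (nat_lit 256) (nat_lit 247)) (XT.nd (nat_lit 78) (nat_lit 760) (nat_lit 0) (XT.lf (nat_lit 0) (nat_lit 1271485203) (nat_lit 760) (nat_lit 3350155069) (nat_lit 76) (nat_lit 2227129848) (nat_lit 250) (nat_lit 5) (nat_lit 260) (nat_lit 5) (nat_lit 251) (nat_lit 5) (nat_lit 278) (nat_lit 256) (nat_lit 246)) (XT.lf (nat_lit 0) (nat_lit 608066888) (nat_lit 760) (nat_lit 3327031177) (nat_lit 836) (nat_lit 2964294339) (nat_lit 240) (nat_lit 5) (nat_lit 250) (nat_lit 5) (nat_lit 251) (nat_lit 5) (nat_lit 279) (nat_lit 256) (nat_lit 245))))) (XT.nd (nat_lit 234) (nat_lit 3116) (nat_lit 0) (XT.nd (nat_lit 78) (nat_lit 912) (nat_lit 0) (XT.lf (nat_lit 0) (nat_lit 4683412820) (nat_lit 760) (nat_lit 1944066684) (nat_lit 836)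 (nat_lit 325772332) (nat_lit 240) (nat_lit 5) (nat_lit 250) (nat_lit 5) (nat_lit 251) (nat_lit 5) (nat_lit 280) (nat_lit 256) (nat_lit 244)) (XT.nd (nat_lit 78) (nat_lit 0) (nat_lit 0) (XT.lf (nat_lit 0) (nat_lit 1814624129) (nat_lit 836) (nat_lit 464562626) (nat_lit 912) (nat_lit 4731005547) (nat_lit 228) (nat_lit 5) (nat_lit 239) (nat_lit 5) (nat_lit 240) (nat_lit 5) (nat_lit 281) (nat_lit 256) (nat_lit 243)) (XT.lf (nat_lit 0) (nat_lit 4907473543) (nat_lit 912) (nat_lit 1085775039) (nat_lit 76) (nat_lit 1077112483) (nat_lit 228) (nat_lit 5) (nat_lit 240) (nat_lit 5) (nat_lit 229) (nat_lit 5) (nat_lit 282) (nat_lit 256) (nat_lit 242)))) (XT.nd (nat_lit 156) (nat_lit 1140) (nat_lit 0) (XT.nd (nat_lit 78) (nat_lit 988) (nat_lit 0) (XT.lf (nat_lit 0) (nat_lit 427758565) (nat_lit 988) (nat_lit 4004198850) (nat_lit 76) (nat_lit 2701750505) (nat_lit 215) (nat_lit 5) (nat_lit 228) (nat_lit 5) (nat_lit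 216) (nat_lit 5) (nat_lit 283) (nat_lit 256) (nat_lit 241)) (XT.lf (nat_lit 0) (nat_lit 206319355) (nat_lit 988) (nat_lit 2780878412) (nat_lit 1064) (nat_lit 4213232937) (nat_lit 202) (nat_lit 5) (nat_lit 215) (nat_lit 5) (nat_lit 216) (nat_lit 5) (nat_lit 284) (nat_lit 256) (nat_lit 240))) (XT.nd (nat_lit 78) (nat_lit 1140) (nat_lit 0) (XT.lf (nat_lit 0) (nat_lit 4554865816) (nat_lit 988) (nat_lit 1032088770) (nat_lit 1064) (nat_lit 1683444395) (nat_lit 202) (nat_lit 5) (nat_lit 215) (nat_lit 5) (nat_lit 216) (nat_lit 5) (nat_lit 285) (nat_lit 256) (nat_lit 239)) (XT.lf (nat_lit 0) (nat_lit 852200600) (nat_lit 1140) (nat_lit 5707159084) (nat_lit 76) (nat_lit 784543138) (nat_lit 187) (nat_lit 5) (nat_lit 202) (nat_lit 5) (nat_lit 188) (nat_lit 5) (nat_lit 286) (nat_lit 256) (nat_lit 238)))))) (XT.nd (nat_lit 546) (nat_lit 2052) (nat_lit 0) (XT.nd (nat_lit 234) (nat_lit 1216) (nat_lit 0) (XT.nd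 (nat_lit 78) (nat_lit 1748) (nat_lit 0) (XT.lf (nat_lit 0) (nat_lit 3394028754) (nat_lit 1140) (nat_lit 1342373799) (nat_lit 76) (nat_lit 2683927838) (nat_lit 187) (nat_lit 5) (nat_lit 202) (nat_lit 5) (nat_lit 188) (nat_lit 5) (nat_lit 287) (nat_lit 256) (nat_lit 237)) (XT.nd (nat_lit 78) (nat_lit 608) (nat_lit 0) (XT.lf (nat_lit 0) (nat_lit 3145134332) (nat_lit 1140) (nat_lit 2825402231) (nat_lit 1216) (nat_lit 1529894612) (nat_lit 172) (nat_lit 5) (nat_lit 187) (nat_lit 5) (nat_lit 188) (nat_lit 5) (nat_lit 288) (nat_lit 256) (nat_lit 236)) (XT.lf (nat_lit 0) (nat_lit 134278275) (nat_lit 532) (nat_lit 830582497) (nat_lit 608) (nat_lit 6619586050) (nat_lit 164) (nat_lit 5) (nat_lit 171) (nat_lit 5) (nat_lit 172) (nat_lit 5) (nat_lit 289) (nat_lit 256) (nat_lit 235)))) (XT.nd (nat_lit 156) (nat_lit 608) (nat_lit 0) (XT.nd (nat_lit 78) (nat_lit 608) (nat_lit 0) (XT.lf (nat_lit 0) (nat_lit 3490092465)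 (nat_lit 608) (nat_lit 2921172437) (nat_lit 76) (nat_lit 1259793955) (nat_lit 164) (nat_lit 5) (nat_lit 172) (nat_lit 5) (nat_lit 165) (nat_lit 5) (nat_lit 290) (nat_lit 256) (nat_lit 234)) (XT.lf (nat_lit 0) (nat_lit 1698735581) (nat_lit 608) (nat_lit 4349132372) (nat_lit 684) (nat_lit 1713815984) (nat_lit 156) (nat_lit 5) (nat_lit 164) (nat_lit 5) (nat_lit 165) (nat_lit 5) (nat_lit 291) (nat_lit 256) (nat_lit 233))) (XT.nd (nat_lit 78) (nat_lit 532) (nat_lit 0) (XT.lf (nat_lit 0) (nat_lit 773766524) (nat_lit 684) (nat_lit 1415913032) (nat_lit 76) (nat_lit 5666344253) (nat_lit 155) (nat_lit 5) (nat_lit 164) (nat_lit 5) (nat_lit 156) (nat_lit 5) (nat_lit 292) (nat_lit 256) (nat_lit 232)) (XT.lf (nat_lit 0) (nat_lit 3269253360) (nat_lit 608) (nat_lit 4604219309) (nat_lit 76) (nat_lit 80288719) (nat_lit 148) (nat_lit 5) (nat_lit 156) (nat_lit 5) (nat_lit 149) (nat_lit 5) (nat_lit 293) (nat_lit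 256) (nat_lit 231))))) (XT.nd (nat_lit 234) (nat_lit 988) (nat_lit 0) (XT.nd (nat_lit 78) (nat_lit 532) (nat_lit 0) (XT.lf (nat_lit 0) (nat_lit 144067894) (nat_lit 532) (nat_lit 5668982109) (nat_lit 608) (nat_lit 2242282828) (nat_lit 141) (nat_lit 5) (nat_lit 148) (nat_lit 5) (nat_lit 149) (nat_lit 5) (nat_lit 294) (nat_lit 256) (nat_lit 230)) (XT.nd (nat_lit 78) (nat_lit 456) (nat_lit 0) (XT.lf (nat_lit 0) (nat_lit 251250593) (nat_lit 608) (nat_lit 3103041954) (nat_lit 76) (nat_lit 4806177965) (nat_lit 140) (nat_lit 5) (nat_lit 148) (nat_lit 5) (nat_lit 141) (nat_lit 5) (nat_lit 295) (nat_lit 256) (nat_lit 229)) (XT.lf (nat_lit 0) (nat_lit 1793699847) (nat_lit 456) (nat_lit 936335363) (nat_lit 532) (nat_lit 5539491879) (nat_lit 134) (nat_lit 5) (nat_lit 140) (nat_lit 5) (nat_lit 141) (nat_lit 5) (nat_lit 296) (nat_lit 256) (nat_lit 228)))) (XT.nd (nat_lit 156) (nat_lit 532) (nat_lit 0) (XT.nd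 (nat_lit 78) (nat_lit 456) (nat_lit 0) (XT.lf (nat_lit 0) (nat_lit 5269114256) (nat_lit 532) (nat_lit 1564909608) (nat_lit 76) (nat_lit 1548346950) (nat_lit 134) (nat_lit 5) (nat_lit 141) (nat_lit 5) (nat_lit 135) (nat_lit 5) (nat_lit 297) (nat_lit 256) (nat_lit 227)) (XT.lf (nat_lit 0) (nat_lit 3484390225) (nat_lit 456) (nat_lit 4383853256) (nat_lit 532) (nat_lit 630930691) (nat_lit 128) (nat_lit 5) (nat_lit 134) (nat_lit 5) (nat_lit 135) (nat_lit 5) (nat_lit 298) (nat_lit 256) (nat_lit 226))) (XT.nd (nat_lit 78) (nat_lit 0) (nat_lit 0) (XT.lf (nat_lit 0) (nat_lit 11543320) (nat_lit 456) (nat_lit 1834336417) (nat_lit 532) (nat_lit 6774404108) (nat_lit 121) (nat_lit 5) (nat_lit 127) (nat_lit 5) (nat_lit 128) (nat_lit 5) (nat_lit 299) (nat_lit 256) (nat_lit 225)) (XT.lf (nat_lit 0) (nat_lit 4385545433) (nat_lit 532) (nat_lit 3535699500) (nat_lit 76) (nat_lit 823640472) (nat_lit 121) (nat_lit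 5) (nat_lit 128) (nat_lit 5) (nat_lit 122) (nat_lit 5) (nat_lit 300) (nat_lit 256) (nat_lit 224))))))))
noncomputable def xc95 : XT := (XT.nd (nat_lit 2028) (nat_lit 2280) (nat_lit 0) (XT.nd (nat_lit 1014) (nat_lit 1748) (nat_lit 0) (XT.nd (nat_lit 468) (nat_lit 1444) (nat_lit 0) (XT.nd (nat_lit 234) (nat_lit 836) (nat_lit 0) (XT.nd (nat_lit 78) (nat_lit 456) (nat_lit 0) (XT.lf (nat_lit 0) (nat_lit 1636021665) (nat_lit 456) (nat_lit 5343424120) (nat_lit 532) (nat_lit 1894518435) (nat_lit 115) (nat_lit 5) (nat_lit 121) (nat_lit 5) (nat_lit 122) (nat_lit 5) (nat_lit 301) (nat_lit 256) (nat_lit 223)) (XT.nd (nat_lit 78) (nat_lit 380) (nat_lit 0) (XT.lf (nat_lit 0) (nat_lit 612256139) (nat_lit 532) (nat_lit 2044812352) (nat_lit 76) (nat_lit 6350319644) (nat_lit 114) (nat_lit 5) (nat_lit 121) (nat_lit 5) (nat_lit 115) (nat_lit 5) (nat_lit 302) (nat_lit 256) (nat_lit 222)) (XT.lf (nat_lit 0) (nat_lit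 3135298253) (nat_lit 456) (nat_lit 5862824870) (nat_lit 76) (nat_lit 146828361) (nat_lit 109) (nat_lit 5) (nat_lit 115) (nat_lit 5) (nat_lit 110) (nat_lit 5) (nat_lit 303) (nat_lit 256) (nat_lit 221)))) (XT.nd (nat_lit 78) (nat_lit 836) (nat_lit 0) (XT.lf (nat_lit 0) (nat_lit 5728155436) (nat_lit 456) (nat_lit 568459861) (nat_lit 76) (nat_lit 2990274286) (nat_lit 109) (nat_lit 5) (nat_lit 115) (nat_lit 5) (nat_lit 110) (nat_lit 5) (nat_lit 304) (nat_lit 256) (nat_lit 220)) (XT.nd (nat_lit 78) (nat_lit 456) (nat_lit 0) (XT.lf (nat_lit 0) (nat_lit 4915890066) (nat_lit 380) (nat_lit 3478670734) (nat_lit 456) (nat_lit 1038721634) (nat_lit 104) (nat_lit 5) (nat_lit 109) (nat_lit 5) (nat_lit 110) (nat_lit 5) (nat_lit 305) (nat_lit 256) (nat_lit 219)) (XT.lf (nat_lit 0) (nat_lit 930440397) (nat_lit 380) (nat_lit 559635371) (nat_lit 456) (nat_lit 8094700866) (nat_lit 98) (nat_lit 5) (nat_lit 103) (nat_lit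 5) (nat_lit 104) (nat_lit 5) (nat_lit 306) (nat_lit 256) (nat_lit 218))))) (XT.nd (nat_lit 234) (nat_lit 1064) (nat_lit 0) (XT.nd (nat_lit 78) (nat_lit 380) (nat_lit 0) (XT.lf (nat_lit 0) (nat_lit 4093006532) (nat_lit 456) (nat_lit 3205412540) (nat_lit 76) (nat_lit 2441577242) (nat_lit 98) (nat_lit 5) (nat_lit 104) (nat_lit 5) (nat_lit 99) (nat_lit 5) (nat_lit 307) (nat_lit 256) (nat_lit 217)) (XT.nd (nat_lit 78) (nat_lit 0) (nat_lit 0) (XT.lf (nat_lit 0) (nat_lit 2383860644) (nat_lit 380) (nat_lit 4369646347) (nat_lit 456) (nat_lit 3147042874) (nat_lit 93) (nat_lit 5) (nat_lit 98) (nat_lit 5) (nat_lit 99) (nat_lit 5) (nat_lit 308) (nat_lit 256) (nat_lit 216)) (XT.lf (nat_lit 0) (nat_lit 8143053234) (nat_lit 380) (nat_lit 1334979669) (nat_lit 456) (nat_lit 588420738) (nat_lit 93) (nat_lit 5) (nat_lit 98) (nat_lit 5) (nat_lit 99) (nat_lit 5) (nat_lit 309) (nat_lit 256) (nat_lit 215)))) (XT.nd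 (nat_lit 156) (nat_lit 684) (nat_lit 0) (XT.nd (nat_lit 78) (nat_lit 0) (nat_lit 0) (XT.lf (nat_lit 0) (nat_lit 2014184288) (nat_lit 380) (nat_lit 6424605177) (nat_lit 76) (nat_lit 1797796228) (nat_lit 88) (nat_lit 5) (nat_lit 93) (nat_lit 5) (nat_lit 89) (nat_lit 5) (nat_lit 310) (nat_lit 256) (nat_lit 214)) (XT.lf (nat_lit 0) (nat_lit 4669229915) (nat_lit 380) (nat_lit 734926371) (nat_lit 76) (nat_lit 5007959817) (nat_lit 88) (nat_lit 5) (nat_lit 93) (nat_lit 5) (nat_lit 89) (nat_lit 5) (nat_lit 311) (nat_lit 256) (nat_lit 213))) (XT.nd (nat_lit 78) (nat_lit 304) (nat_lit 0) (XT.lf (nat_lit 0) (nat_lit 5164767605) (nat_lit 380) (nat_lit 2243521384) (nat_lit 456) (nat_lit 3184545825) (nat_lit 83) (nat_lit 5) (nat_lit 88) (nat_lit 5) (nat_lit 89) (nat_lit 5) (nat_lit 312) (nat_lit 256) (nat_lit 212)) (XT.lf (nat_lit 0) (nat_lit 413954811) (nat_lit 304) (nat_lit 9792058749) (nat_lit 380) (nat_lit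 573718415) (nat_lit 79) (nat_lit 5) (nat_lit 83) (nat_lit 5) (nat_lit 84) (nat_lit 5) (nat_lit 313) (nat_lit 256) (nat_lit 211)))))) (XT.nd (nat_lit 468) (nat_lit 760) (nat_lit 0) (XT.nd (nat_lit 234) (nat_lit 608) (nat_lit 0) (XT.nd (nat_lit 78) (nat_lit 304) (nat_lit 0) (XT.lf (nat_lit 0) (nat_lit 2107241503) (nat_lit 380) (nat_lit 4533587409) (nat_lit 76) (nat_lit 4329853203) (nat_lit 78) (nat_lit 5) (nat_lit 83) (nat_lit 5) (nat_lit 79) (nat_lit 5) (nat_lit 314) (nat_lit 256) (nat_lit 210)) (XT.nd (nat_lit 78) (nat_lit 0) (nat_lit 0) (XT.lf (nat_lit 0) (nat_lit 1435300725) (nat_lit 304) (nat_lit 3392409678) (nat_lit 380) (nat_lit 6340408917) (nat_lit 74) (nat_lit 5) (nat_lit 78) (nat_lit 5) (nat_lit 79) (nat_lit 5) (nat_lit 315) (nat_lit 256) (nat_lit 209)) (XT.lf (nat_lit 0) (nat_lit 7616188848) (nat_lit 304) (nat_lit 16880303) (nat_lit 380) (nat_lit 3738358151) (nat_lit 74) (nat_lit 5)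 (nat_lit 78) (nat_lit 5) (nat_lit 79) (nat_lit 5) (nat_lit 316) (nat_lit 256) (nat_lit 208)))) (XT.nd (nat_lit 78) (nat_lit 380) (nat_lit 0) (XT.lf (nat_lit 0) (nat_lit 2354992184) (nat_lit 228) (nat_lit 8182063074) (nat_lit 304) (nat_lit 1043389866) (nat_lit 71) (nat_lit 5) (nat_lit 74) (nat_lit 5) (nat_lit 75) (nat_lit 5) (nat_lit 317) (nat_lit 256) (nat_lit 207)) (XT.nd (nat_lit 78) (nat_lit 304) (nat_lit 0) (XT.lf (nat_lit 0) (nat_lit 1695850111) (nat_lit 304) (nat_lit 3145936219) (nat_lit 76) (nat_lit 6953572736) (nat_lit 70) (nat_lit 5) (nat_lit 74) (nat_lit 5) (nat_lit 71) (nat_lit 5) (nat_lit 318) (nat_lit 256) (nat_lit 206)) (XT.lf (nat_lit 0) (nat_lit 3108375409) (nat_lit 304) (nat_lit 1377766807) (nat_lit 380) (nat_lit 7530613724) (nat_lit 66) (nat_lit 5) (nat_lit 70) (nat_lit 5) (nat_lit 71) (nat_lit 5) (nat_lit 319) (nat_lit 256) (nat_lit 205))))) (XT.nd (nat_lit 234) (nat_lit 456)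 (nat_lit 0) (XT.nd (nat_lit 78) (nat_lit 304) (nat_lit 0) (XT.lf (nat_lit 0) (nat_lit 7373687534) (nat_lit 380) (nat_lit 2708802155) (nat_lit 76) (nat_lit 2161938321) (nat_lit 66) (nat_lit 5) (nat_lit 71) (nat_lit 5) (nat_lit 67) (nat_lit 5) (nat_lit 320) (nat_lit 256) (nat_lit 204)) (XT.nd (nat_lit 78) (nat_lit 76) (nat_lit 0) (XT.lf (nat_lit 0) (nat_lit 3678200514) (nat_lit 228) (nat_lit 6680219051) (nat_lit 304) (nat_lit 2120232336) (nat_lit 63) (nat_lit 5) (nat_lit 66) (nat_lit 5) (nat_lit 67) (nat_lit 5) (nat_lit 321) (nat_lit 256) (nat_lit 203)) (XT.lf (nat_lit 0) (nat_lit 688236769) (nat_lit 304) (nat_lit 2470802255) (nat_lit 76) (nat_lit 9561013549) (nat_lit 62) (nat_lit 5) (nat_lit 66) (nat_lit 5) (nat_lit 63) (nat_lit 5) (nat_lit 322) (nat_lit 256) (nat_lit 202)))) (XT.nd (nat_lit 156) (nat_lit 228) (nat_lit 0) (XT.nd (nat_lit 78) (nat_lit 0) (nat_lit 0) (XT.lf (nat_lit 0) (nat_lit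 3545051939) (nat_lit 304) (nat_lit 8921439355) (nat_lit 76) (nat_lit 501408206) (nat_lit 59) (nat_lit 5) (nat_lit 63) (nat_lit 5) (nat_lit 60) (nat_lit 5) (nat_lit 323) (nat_lit 256) (nat_lit 201)) (XT.lf (nat_lit 0) (nat_lit 6507273176) (nat_lit 304) (nat_lit 2499764730) (nat_lit 76) (nat_lit 4215587060) (nat_lit 59) (nat_lit 5) (nat_lit 63) (nat_lit 5) (nat_lit 60) (nat_lit 5) (nat_lit 324) (nat_lit 256) (nat_lit 200))) (XT.nd (nat_lit 78) (nat_lit 0) (nat_lit 0) (XT.lf (nat_lit 0) (nat_lit 4141297791) (nat_lit 228) (nat_lit 5421169721) (nat_lit 304) (nat_lit 3922434676) (nat_lit 56) (nat_lit 5) (nat_lit 59) (nat_lit 5) (nat_lit 60) (nat_lit 5) (nat_lit 325) (nat_lit 256) (nat_lit 199)) (XT.lf (nat_lit 0) (nat_lit 10979291075) (nat_lit 228) (nat_lit 1720092276) (nat_lit 304) (nat_lit 1055994623) (nat_lit 56) (nat_lit 5) (nat_lit 59) (nat_lit 5) (nat_lit 60) (nat_lit 5) (nat_lit 326) (nat_lit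 256) (nat_lit 198))))))) (XT.nd (nat_lit 1014) (nat_lit 912) (nat_lit 0) (XT.nd (nat_lit 468) (nat_lit 608) (nat_lit 0) (XT.nd (nat_lit 234) (nat_lit 304) (nat_lit 0) (XT.nd (nat_lit 78) (nat_lit 152) (nat_lit 0) (XT.lf (nat_lit 0) (nat_lit 1883813849) (nat_lit 304) (nat_lit 10058339590) (nat_lit 76) (nat_lit 2090566623) (nat_lit 52) (nat_lit 5) (nat_lit 56) (nat_lit 5) (nat_lit 53) (nat_lit 5) (nat_lit 327) (nat_lit 256) (nat_lit 197)) (XT.nd (nat_lit 78) (nat_lit 152) (nat_lit 0) (XT.lf (nat_lit 0) (nat_lit 4901741249) (nat_lit 304) (nat_lit 3414096467) (nat_lit 76) (nat_lit 6001926046) (nat_lit 52) (nat_lit 5) (nat_lit 56) (nat_lit 5) (nat_lit 53) (nat_lit 5) (nat_lit 328) (nat_lit 256) (nat_lit 196)) (XT.lf (nat_lit 0) (nat_lit 3445186998) (nat_lit 152) (nat_lit 4564940517) (nat_lit 228) (nat_lit 6601262251) (nat_lit 50) (nat_lit 5) (nat_lit 52) (nat_lit 5) (nat_lit 53) (nat_lit 5) (nat_lit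 329) (nat_lit 256) (nat_lit 195)))) (XT.nd (nat_lit 78) (nat_lit 304) (nat_lit 0) (XT.lf (nat_lit 0) (nat_lit 10529224689) (nat_lit 152) (nat_lit 684296700) (nat_lit 228) (nat_lit 3700278272) (nat_lit 50) (nat_lit 5) (nat_lit 52) (nat_lit 5) (nat_lit 53) (nat_lit 5) (nat_lit 330) (nat_lit 256) (nat_lit 194)) (XT.nd (nat_lit 78) (nat_lit 76) (nat_lit 0) (XT.lf (nat_lit 0) (nat_lit 2568443431) (nat_lit 228) (nat_lit 11969170080) (nat_lit 304) (nat_lit 686957432) (nat_lit 47) (nat_lit 5) (nat_lit 50) (nat_lit 5) (nat_lit 51) (nat_lit 5) (nat_lit 331) (nat_lit 256) (nat_lit 193)) (XT.lf (nat_lit 0) (nat_lit 2389268814) (nat_lit 304) (nat_lit 5804349001) (nat_lit 76) (nat_lit 7349786072) (nat_lit 46) (nat_lit 5) (nat_lit 50) (nat_lit 5) (nat_lit 47) (nat_lit 5) (nat_lit 332) (nat_lit 256) (nat_lit 192))))) (XT.nd (nat_lit 234) (nat_lit 456) (nat_lit 0) (XT.nd (nat_lit 78) (nat_lit 0) (nat_lit 0)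 (XT.lf (nat_lit 0) (nat_lit 1220979053) (nat_lit 152) (nat_lit 4303835667) (nat_lit 228) (nat_lit 10347382545) (nat_lit 44) (nat_lit 5) (nat_lit 46) (nat_lit 5) (nat_lit 47) (nat_lit 5) (nat_lit 333) (nat_lit 256) (nat_lit 191)) (XT.nd (nat_lit 78) (nat_lit 0) (nat_lit 0) (XT.lf (nat_lit 0) (nat_lit 8527503129) (nat_lit 152) (nat_lit 255072897) (nat_lit 228) (nat_lit 7427457920) (nat_lit 44) (nat_lit 5) (nat_lit 46) (nat_lit 5) (nat_lit 47) (nat_lit 5) (nat_lit 334) (nat_lit 256) (nat_lit 190)) (XT.lf (nat_lit 0) (nat_lit 12145960011) (nat_lit 228) (nat_lit 590292724) (nat_lit 76) (nat_lit 3821539572) (nat_lit 44) (nat_lit 5) (nat_lit 47) (nat_lit 5) (nat_lit 45) (nat_lit 5) (nat_lit 335) (nat_lit 256) (nat_lit 189)))) (XT.nd (nat_lit 156) (nat_lit 152) (nat_lit 0) (XT.nd (nat_lit 78) (nat_lit 76) (nat_lit 0) (XT.lf (nat_lit 0) (nat_lit 6798367004) (nat_lit 228) (nat_lit 8850875403) (nat_lit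 304) (nat_lit 1265593702) (nat_lit 41) (nat_lit 5) (nat_lit 44) (nat_lit 5) (nat_lit 45) (nat_lit 5) (nat_lit 336) (nat_lit 256) (nat_lit 188)) (XT.lf (nat_lit 0) (nat_lit 1913728447) (nat_lit 304) (nat_lit 2927288803) (nat_lit 76) (nat_lit 12441708627) (nat_lit 40) (nat_lit 5) (nat_lit 44) (nat_lit 5) (nat_lit 41) (nat_lit 5) (nat_lit 337) (nat_lit 256) (nat_lit 187))) (XT.nd (nat_lit 78) (nat_lit 0) (nat_lit 0) (XT.lf (nat_lit 0) (nat_lit 4507737191) (nat_lit 152) (nat_lit 670641940) (nat_lit 228) (nat_lit 12482456385) (nat_lit 38) (nat_lit 5) (nat_lit 40) (nat_lit 5) (nat_lit 41) (nat_lit 5) (nat_lit 338) (nat_lit 256) (nat_lit 186)) (XT.lf (nat_lit 0) (nat_lit 8577938283) (nat_lit 228) (nat_lit 5904216631) (nat_lit 76) (nat_lit 3567044540) (nat_lit 38) (nat_lit 5) (nat_lit 41) (nat_lit 5) (nat_lit 39) (nat_lit 5) (nat_lit 339) (nat_lit 256) (nat_lit 185)))))) (XT.nd (nat_lit 546) (nat_lit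 380) (nat_lit 0) (XT.nd (nat_lit 234) (nat_lit 304) (nat_lit 0) (XT.nd (nat_lit 78) (nat_lit 76) (nat_lit 0) (XT.lf (nat_lit 0) (nat_lit 1541396287) (nat_lit 152) (nat_lit 10532624563) (nat_lit 228) (nat_lit 6375376852) (nat_lit 36) (nat_lit 5) (nat_lit 38) (nat_lit 5) (nat_lit 39) (nat_lit 5) (nat_lit 340) (nat_lit 256) (nat_lit 184)) (XT.nd (nat_lit 78) (nat_lit 76) (nat_lit 0) (XT.lf (nat_lit 0) (nat_lit 9287667920) (nat_lit 152) (nat_lit 6420382392) (nat_lit 228) (nat_lit 3152578580) (nat_lit 36) (nat_lit 5) (nat_lit 38) (nat_lit 5) (nat_lit 39) (nat_lit 5) (nat_lit 341) (nat_lit 256) (nat_lit 183)) (XT.lf (nat_lit 0) (nat_lit 137590353) (nat_lit 228) (nat_lit 2062476443) (nat_lit 76) (nat_lit 17084881618) (nat_lit 35) (nat_lit 5) (nat_lit 38) (nat_lit 5) (nat_lit 36) (nat_lit 5) (nat_lit 342) (nat_lit 256) (nat_lit 182)))) (XT.nd (nat_lit 156) (nat_lit 152) (nat_lit 0) (XT.nd (nat_lit 78)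 (nat_lit 0) (nat_lit 0) (XT.lf (nat_lit 0) (nat_lit 3514040078) (nat_lit 228) (nat_lit 14029704768) (nat_lit 76) (nat_lit 2175805402) (nat_lit 33) (nat_lit 5) (nat_lit 36) (nat_lit 5) (nat_lit 34) (nat_lit 5) (nat_lit 343) (nat_lit 256) (nat_lit 181)) (XT.lf (nat_lit 0) (nat_lit 7009483782) (nat_lit 228) (nat_lit 6513487567) (nat_lit 76) (nat_lit 6643704589) (nat_lit 33) (nat_lit 5) (nat_lit 36) (nat_lit 5) (nat_lit 34) (nat_lit 5) (nat_lit 344) (nat_lit 256) (nat_lit 180))) (XT.nd (nat_lit 78) (nat_lit 0) (nat_lit 0) (XT.lf (nat_lit 0) (nat_lit 1211122325) (nat_lit 152) (nat_lit 9385926511) (nat_lit 228) (nat_lit 10030565144) (nat_lit 31) (nat_lit 5) (nat_lit 33) (nat_lit 5) (nat_lit 34) (nat_lit 5) (nat_lit 345) (nat_lit 256) (nat_lit 179)) (XT.lf (nat_lit 0) (nat_lit 9260662727) (nat_lit 152) (nat_lit 5073290119) (nat_lit 228) (nat_lit 6767191808) (nat_lit 31) (nat_lit 5) (nat_lit 33) (nat_lit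 5) (nat_lit 34) (nat_lit 5) (nat_lit 346) (nat_lit 256) (nat_lit 178))))) (XT.nd (nat_lit 234) (nat_lit 152) (nat_lit 0) (XT.nd (nat_lit 78) (nat_lit 228) (nat_lit 0) (XT.lf (nat_lit 0) (nat_lit 17512536043) (nat_lit 152) (nat_lit 647067301) (nat_lit 228) (nat_lit 3429994110) (nat_lit 31) (nat_lit 5) (nat_lit 33) (nat_lit 5) (nat_lit 34) (nat_lit 5) (nat_lit 347) (nat_lit 256) (nat_lit 177)) (XT.nd (nat_lit 78) (nat_lit 0) (nat_lit 0) (XT.lf (nat_lit 0) (nat_lit 60135174) (nat_lit 228) (nat_lit 18172152694) (nat_lit 76) (nat_lit 3858839609) (nat_lit 28) (nat_lit 5) (nat_lit 31) (nat_lit 5) (nat_lit 29) (nat_lit 5) (nat_lit 348) (nat_lit 256) (nat_lit 176)) (XT.lf (nat_lit 0) (nat_lit 3611246356) (nat_lit 228) (nat_lit 10447425049) (nat_lit 76) (nat_lit 8547270741) (nat_lit 28) (nat_lit 5) (nat_lit 31) (nat_lit 5) (nat_lit 29) (nat_lit 5) (nat_lit 349) (nat_lit 256) (nat_lit 175)))) (XT.nd (nat_lit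 156) (nat_lit 0) (nat_lit 0) (XT.nd (nat_lit 78) (nat_lit 152) (nat_lit 0) (XT.lf (nat_lit 0) (nat_lit 7246786938) (nat_lit 228) (nat_lit 2528479858) (nat_lit 76) (nat_lit 13361611250) (nat_lit 28) (nat_lit 5) (nat_lit 31) (nat_lit 5) (nat_lit 29) (nat_lit 5) (nat_lit 350) (nat_lit 256) (nat_lit 174)) (XT.lf (nat_lit 0) (nat_lit 5702886194) (nat_lit 152) (nat_lit 5321867040) (nat_lit 228) (nat_lit 12658001277) (nat_lit 26) (nat_lit 5) (nat_lit 28) (nat_lit 5) (nat_lit 29) (nat_lit 5) (nat_lit 351) (nat_lit 256) (nat_lit 173))) (XT.nd (nat_lit 78) (nat_lit 0) (nat_lit 0) (XT.lf (nat_lit 0) (nat_lit 14196950413) (nat_lit 152) (nat_lit 723458947) (nat_lit 228) (nat_lit 9324480270) (nat_lit 26) (nat_lit 5) (nat_lit 28) (nat_lit 5) (nat_lit 29) (nat_lit 5) (nat_lit 352) (nat_lit 256) (nat_lit 172)) (XT.lf (nat_lit 0) (nat_lit 18950805749) (nat_lit 228) (nat_lit 1952140653) (nat_lit 76) (nat_lit 3920418796)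 (nat_lit 26) (nat_lit 5) (nat_lit 29) (nat_lit 5) (nat_lit 27) (nat_lit 4) (nat_lit 353) (nat_lit 256) (nat_lit 171))))))))
noncomputable def xc96 : XT := (XT.nd (nat_lit 2028) (nat_lit 456) (nat_lit 0) (XT.nd (nat_lit 1014) (nat_lit 380) (nat_lit 0) (XT.nd (nat_lit 468) (nat_lit 304) (nat_lit 0) (XT.nd (nat_lit 234) (nat_lit 152) (nat_lit 0) (XT.nd (nat_lit 78) (nat_lit 76) (nat_lit 0) (XT.lf (nat_lit 0) (nat_lit 6471165091) (nat_lit 76) (nat_lit 16680215836) (nat_lit 152) (nat_lit 2266348246) (nat_lit 25) (nat_lit 5) (nat_lit 26) (nat_lit 5) (nat_lit 27) (nat_lit 4) (nat_lit 354) (nat_lit 256) (nat_lit 170)) (XT.nd (nat_lit 78) (nat_lit 0) (nat_lit 0) (XT.lf (nat_lit 0) (nat_lit 1419648983) (nat_lit 152) (nat_lit 10890812457) (nat_lit 76) (nat_lit 13719060800) (nat_lit 24) (nat_lit 5) (nat_lit 26) (nat_lit 5) (nat_lit 25) (nat_lit 5) (nat_lit 355) (nat_lit 256) (nat_lit 169)) (XT.lf (nat_lit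 0) (nat_lit 5151207181) (nat_lit 152) (nat_lit 2649373041) (nat_lit 76) (nat_lit 18859010848) (nat_lit 24) (nat_lit 5) (nat_lit 26) (nat_lit 5) (nat_lit 25) (nat_lit 5) (nat_lit 356) (nat_lit 256) (nat_lit 168)))) (XT.nd (nat_lit 78) (nat_lit 0) (nat_lit 0) (XT.lf (nat_lit 0) (nat_lit 5922306476) (nat_lit 152) (nat_lit 3110433906) (nat_lit 228) (nat_lit 18274691528) (nat_lit 22) (nat_lit 5) (nat_lit 24) (nat_lit 5) (nat_lit 25) (nat_lit 5) (nat_lit 357) (nat_lit 256) (nat_lit 167)) (XT.nd (nat_lit 78) (nat_lit 0) (nat_lit 0) (XT.lf (nat_lit 0) (nat_lit 13055484936) (nat_lit 228) (nat_lit 13217950989) (nat_lit 76) (nat_lit 1700539569) (nat_lit 22) (nat_lit 5) (nat_lit 25) (nat_lit 5) (nat_lit 23) (nat_lit 4) (nat_lit 358) (nat_lit 256) (nat_lit 166)) (XT.lf (nat_lit 0) (nat_lit 17211464801) (nat_lit 228) (nat_lit 4868294541) (nat_lit 76) (nat_lit 6580389625) (nat_lit 22) (nat_lit 5) (nat_lit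 25) (nat_lit 5) (nat_lit 23) (nat_lit 4) (nat_lit 359) (nat_lit 256) (nat_lit 165))))) (XT.nd (nat_lit 234) (nat_lit 228) (nat_lit 0) (XT.nd (nat_lit 78) (nat_lit 0) (nat_lit 0) (XT.lf (nat_lit 0) (nat_lit 3774697053) (nat_lit 76) (nat_lit 17735999667) (nat_lit 152) (nat_lit 7855663621) (nat_lit 21) (nat_lit 5) (nat_lit 22) (nat_lit 5) (nat_lit 23) (nat_lit 4) (nat_lit 360) (nat_lit 256) (nat_lit 164)) (XT.nd (nat_lit 78) (nat_lit 0) (nat_lit 0) (XT.lf (nat_lit 0) (nat_lit 12746263263) (nat_lit 76) (nat_lit 13224313126) (nat_lit 152) (nat_lit 4122241134) (nat_lit 21) (nat_lit 5) (nat_lit 22) (nat_lit 5) (nat_lit 23) (nat_lit 4) (nat_lit 361) (nat_lit 256) (nat_lit 163)) (XT.lf (nat_lit 0) (nat_lit 21957354713) (nat_lit 76) (nat_lit 8589917697) (nat_lit 152) (nat_lit 294314721) (nat_lit 21) (nat_lit 5) (nat_lit 22) (nat_lit 5) (nat_lit 23) (nat_lit 4) (nat_lit 362) (nat_lit 256) (nat_lit 162))))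 (XT.nd (nat_lit 156) (nat_lit 0) (nat_lit 0) (XT.nd (nat_lit 78) (nat_lit 152) (nat_lit 0) (XT.lf (nat_lit 0) (nat_lit 3560597536) (nat_lit 152) (nat_lit 232211319) (nat_lit 76) (nat_lit 27819467339) (nat_lit 20) (nat_lit 5) (nat_lit 22) (nat_lit 5) (nat_lit 21) (nat_lit 5) (nat_lit 363) (nat_lit 256) (nat_lit 161)) (XT.lf (nat_lit 0) (nat_lit 7605645195) (nat_lit 228) (nat_lit 23595417230) (nat_lit 76) (nat_lit 1202532500) (nat_lit 18) (nat_lit 5) (nat_lit 21) (nat_lit 5) (nat_lit 19) (nat_lit 4) (nat_lit 364) (nat_lit 256) (nat_lit 160))) (XT.nd (nat_lit 78) (nat_lit 0) (nat_lit 0) (XT.lf (nat_lit 0) (nat_lit 11795879292) (nat_lit 228) (nat_lit 15159966891) (nat_lit 76) (nat_lit 6262100257) (nat_lit 18) (nat_lit 5) (nat_lit 21) (nat_lit 5) (nat_lit 19) (nat_lit 4) (nat_lit 365) (nat_lit 256) (nat_lit 159)) (XT.lf (nat_lit 0) (nat_lit 16096203275) (nat_lit 228) (nat_lit 6498974135) (nat_lit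 76) (nat_lit 11462027634) (nat_lit 18) (nat_lit 5) (nat_lit 21) (nat_lit 5) (nat_lit 19) (nat_lit 4) (nat_lit 366) (nat_lit 256) (nat_lit 158)))))) (XT.nd (nat_lit 468) (nat_lit 76) (nat_lit 0) (XT.nd (nat_lit 234) (nat_lit 228) (nat_lit 0) (XT.nd (nat_lit 78) (nat_lit 0) (nat_lit 0) (XT.lf (nat_lit 0) (nat_lit 2442796657) (nat_lit 76) (nat_lit 18091059708) (nat_lit 152) (nat_lit 14387543256) (nat_lit 17) (nat_lit 5) (nat_lit 18) (nat_lit 5) (nat_lit 19) (nat_lit 4) (nat_lit 367) (nat_lit 256) (nat_lit 157)) (XT.nd (nat_lit 78) (nat_lit 0) (nat_lit 0) (XT.lf (nat_lit 0) (nat_lit 11759585620) (nat_lit 76) (nat_lit 13395705348) (nat_lit 152) (nat_lit 10654717080) (nat_lit 17) (nat_lit 5) (nat_lit 18) (nat_lit 5) (nat_lit 19) (nat_lit 4) (nat_lit 368) (nat_lit 256) (nat_lit 156)) (XT.lf (nat_lit 0) (nat_lit 21330191308) (nat_lit 76) (nat_lit 8570638490) (nat_lit 152) (nat_lit 6824888442) (nat_lit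 17) (nat_lit 5) (nat_lit 18) (nat_lit 5) (nat_lit 19) (nat_lit 4) (nat_lit 369) (nat_lit 256) (nat_lit 155)))) (XT.nd (nat_lit 78) (nat_lit 228) (nat_lit 0) (XT.lf (nat_lit 0) (nat_lit 31162976387) (nat_lit 76) (nat_lit 3611643056) (nat_lit 152) (nat_lit 2894710892) (nat_lit 17) (nat_lit 5) (nat_lit 18) (nat_lit 5) (nat_lit 19) (nat_lit 4) (nat_lit 370) (nat_lit 256) (nat_lit 154)) (XT.nd (nat_lit 78) (nat_lit 0) (nat_lit 0) (XT.lf (nat_lit 0) (nat_lit 1157288223) (nat_lit 228) (nat_lit 35989279717) (nat_lit 76) (nat_lit 1493564289) (nat_lit 14) (nat_lit 5) (nat_lit 17) (nat_lit 5) (nat_lit 15) (nat_lit 4) (nat_lit 371) (nat_lit 256) (nat_lit 153)) (XT.lf (nat_lit 0) (nat_lit 5360999027) (nat_lit 228) (nat_lit 27511577657) (nat_lit 76) (nat_lit 6763978235) (nat_lit 14) (nat_lit 5) (nat_lit 17) (nat_lit 5) (nat_lit 15) (nat_lit 4) (nat_lit 372) (nat_lit 256) (nat_lit 152))))) (XT.nd (nat_lit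 234) (nat_lit 76) (nat_lit 0) (XT.nd (nat_lit 78) (nat_lit 0) (nat_lit 0) (XT.lf (nat_lit 0) (nat_lit 9677444231) (nat_lit 228) (nat_lit 18803398622) (nat_lit 76) (nat_lit 12182435084) (nat_lit 14) (nat_lit 5) (nat_lit 17) (nat_lit 5) (nat_lit 15) (nat_lit 4) (nat_lit 373) (nat_lit 256) (nat_lit 151)) (XT.nd (nat_lit 78) (nat_lit 0) (nat_lit 0) (XT.lf (nat_lit 0) (nat_lit 14110395487) (nat_lit 228) (nat_lit 9857133524) (nat_lit 76) (nat_lit 17753669409) (nat_lit 14) (nat_lit 5) (nat_lit 17) (nat_lit 5) (nat_lit 15) (nat_lit 4) (nat_lit 374) (nat_lit 256) (nat_lit 150)) (XT.lf (nat_lit 0) (nat_lit 18663726247) (nat_lit 228) (nat_lit 664965236) (nat_lit 76) (nat_lit 23482549279) (nat_lit 14) (nat_lit 5) (nat_lit 17) (nat_lit 5) (nat_lit 15) (nat_lit 4) (nat_lit 375) (nat_lit 256) (nat_lit 149)))) (XT.nd (nat_lit 156) (nat_lit 0) (nat_lit 0) (XT.nd (nat_lit 78) (nat_lit 0) (nat_lit 0) (XT.lf (nat_lit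 0) (nat_lit 8955900099) (nat_lit 76) (nat_lit 14471604642) (nat_lit 152) (nat_lit 20504270002) (nat_lit 13) (nat_lit 5) (nat_lit 14) (nat_lit 5) (nat_lit 15) (nat_lit 4) (nat_lit 376) (nat_lit 256) (nat_lit 148)) (XT.lf (nat_lit 0) (nat_lit 18857406680) (nat_lit 76) (nat_lit 9471411746) (nat_lit 152) (nat_lit 16757273294) (nat_lit 13) (nat_lit 5) (nat_lit 14) (nat_lit 5) (nat_lit 15) (nat_lit 4) (nat_lit 377) (nat_lit 256) (nat_lit 147))) (XT.nd (nat_lit 78) (nat_lit 0) (nat_lit 0) (XT.lf (nat_lit 0) (nat_lit 29034972196) (nat_lit 76) (nat_lit 4330458541) (nat_lit 152) (nat_lit 12909965161) (nat_lit 13) (nat_lit 5) (nat_lit 14) (nat_lit 5) (nat_lit 15) (nat_lit 4) (nat_lit 378) (nat_lit 256) (nat_lit 146)) (XT.lf (nat_lit 0) (nat_lit 38550929824) (nat_lit 152) (nat_lit 8012424036) (nat_lit 0) (nat_lit 937096999) (nat_lit 13) (nat_lit 5) (nat_lit 15) (nat_lit 4) (nat_lit 13) (nat_lit 4) (nat_lit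 379) (nat_lit 256) (nat_lit 145))))))) (XT.nd (nat_lit 1014) (nat_lit 152) (nat_lit 0) (XT.nd (nat_lit 468) (nat_lit 152) (nat_lit 0) (XT.nd (nat_lit 234) (nat_lit 0) (nat_lit 0) (XT.nd (nat_lit 78) (nat_lit 76) (nat_lit 0) (XT.lf (nat_lit 0) (nat_lit 1457954790) (nat_lit 76) (nat_lit 42479779087) (nat_lit 76) (nat_lit 4823156548) (nat_lit 12) (nat_lit 4) (nat_lit 13) (nat_lit 5) (nat_lit 13) (nat_lit 4) (nat_lit 380) (nat_lit 256) (nat_lit 144)) (XT.nd (nat_lit 78) (nat_lit 76) (nat_lit 0) (XT.lf (nat_lit 0) (nat_lit 11356853287) (nat_lit 76) (nat_lit 38199182023) (nat_lit 76) (nat_lit 501016072) (nat_lit 12) (nat_lit 4) (nat_lit 13) (nat_lit 5) (nat_lit 13) (nat_lit 4) (nat_lit 381) (nat_lit 256) (nat_lit 143)) (XT.lf (nat_lit 0) (nat_lit 3862888196) (nat_lit 152) (nat_lit 29896836321) (nat_lit 76) (nat_lit 17631562236) (nat_lit 11) (nat_lit 5) (nat_lit 13) (nat_lit 5) (nat_lit 12) (nat_lit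 4) (nat_lit 382) (nat_lit 256) (nat_lit 142)))) (XT.nd (nat_lit 78) (nat_lit 0) (nat_lit 0) (XT.lf (nat_lit 0) (nat_lit 8337148108) (nat_lit 152) (nat_lit 20853247349) (nat_lit 76) (nat_lit 23575324238) (nat_lit 11) (nat_lit 5) (nat_lit 13) (nat_lit 5) (nat_lit 12) (nat_lit 4) (nat_lit 383) (nat_lit 256) (nat_lit 141)) (XT.nd (nat_lit 78) (nat_lit 0) (nat_lit 0) (XT.lf (nat_lit 0) (nat_lit 12935449839) (nat_lit 152) (nat_lit 11556712941) (nat_lit 76) (nat_lit 29689532870) (nat_lit 11) (nat_lit 5) (nat_lit 13) (nat_lit 5) (nat_lit 12) (nat_lit 4) (nat_lit 384) (nat_lit 256) (nat_lit 140)) (XT.lf (nat_lit 0) (nat_lit 17661811323) (nat_lit 152) (nat_lit 1999109913) (nat_lit 76) (nat_lit 35979530646) (nat_lit 11) (nat_lit 5) (nat_lit 13) (nat_lit 5) (nat_lit 12) (nat_lit 4) (nat_lit 385) (nat_lit 256) (nat_lit 139))))) (XT.nd (nat_lit 234) (nat_lit 76) (nat_lit 0) (XT.nd (nat_lit 78) (nat_lit 0)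 (nat_lit 0) (XT.lf (nat_lit 0) (nat_lit 7983703857) (nat_lit 76) (nat_lit 14613402777) (nat_lit 152) (nat_lit 34543854066) (nat_lit 10) (nat_lit 5) (nat_lit 11) (nat_lit 5) (nat_lit 12) (nat_lit 4) (nat_lit 386) (nat_lit 256) (nat_lit 138)) (XT.nd (nat_lit 78) (nat_lit 0) (nat_lit 0) (XT.lf (nat_lit 0) (nat_lit 18289843356) (nat_lit 76) (nat_lit 9401318181) (nat_lit 152) (nat_lit 30995006294) (nat_lit 10) (nat_lit 5) (nat_lit 11) (nat_lit 5) (nat_lit 12) (nat_lit 4) (nat_lit 387) (nat_lit 256) (nat_lit 137)) (XT.lf (nat_lit 0) (nat_lit 28888527740) (nat_lit 76) (nat_lit 4040300289) (nat_lit 152) (nat_lit 27349183398) (nat_lit 10) (nat_lit 5) (nat_lit 11) (nat_lit 5) (nat_lit 12) (nat_lit 4) (nat_lit 388) (nat_lit 256) (nat_lit 136)))) (XT.nd (nat_lit 156) (nat_lit 76) (nat_lit 0) (XT.nd (nat_lit 78) (nat_lit 0) (nat_lit 0) (XT.lf (nat_lit 0) (nat_lit 38328854927) (nat_lit 152) (nat_lit 22143036638)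 (nat_lit 0) (nat_lit 1445565690) (nat_lit 10) (nat_lit 5) (nat_lit 12) (nat_lit 4) (nat_lit 10) (nat_lit 4) (nat_lit 389) (nat_lit 256) (nat_lit 135)) (XT.lf (nat_lit 0) (nat_lit 43922136926) (nat_lit 152) (nat_lit 12675080136) (nat_lit 0) (nat_lit 7007935490) (nat_lit 10) (nat_lit 5) (nat_lit 12) (nat_lit 4) (nat_lit 10) (nat_lit 4) (nat_lit 390) (nat_lit 256) (nat_lit 134))) (XT.nd (nat_lit 78) (nat_lit 76) (nat_lit 0) (XT.lf (nat_lit 0) (nat_lit 49674723525) (nat_lit 152) (nat_lit 2938503371) (nat_lit 0) (nat_lit 12730510244) (nat_lit 10) (nat_lit 5) (nat_lit 12) (nat_lit 4) (nat_lit 10) (nat_lit 4) (nat_lit 391) (nat_lit 256) (nat_lit 133)) (XT.lf (nat_lit 0) (nat_lit 7216011724) (nat_lit 76) (nat_lit 48444994249) (nat_lit 76) (nat_lit 11471643255) (nat_lit 9) (nat_lit 4) (nat_lit 10) (nat_lit 5) (nat_lit 10) (nat_lit 4) (nat_lit 392) (nat_lit 256) (nat_lit 132)))))) (XT.nd (nat_lit 468)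 (nat_lit 76) (nat_lit 0) (XT.nd (nat_lit 234) (nat_lit 0) (nat_lit 0) (XT.nd (nat_lit 78) (nat_lit 76) (nat_lit 0) (XT.lf (nat_lit 0) (nat_lit 17720576117) (nat_lit 76) (nat_lit 44127825137) (nat_lit 76) (nat_lit 7126185101) (nat_lit 9) (nat_lit 4) (nat_lit 10) (nat_lit 5) (nat_lit 10) (nat_lit 4) (nat_lit 393) (nat_lit 256) (nat_lit 131)) (XT.nd (nat_lit 78) (nat_lit 76) (nat_lit 0) (XT.lf (nat_lit 0) (nat_lit 28525886575) (nat_lit 76) (nat_lit 39687620398) (nat_lit 76) (nat_lit 2658515273) (nat_lit 9) (nat_lit 4) (nat_lit 10) (nat_lit 5) (nat_lit 10) (nat_lit 4) (nat_lit 394) (nat_lit 256) (nat_lit 130)) (XT.lf (nat_lit 0) (nat_lit 1897505927) (nat_lit 152) (nat_lit 33203833226) (nat_lit 76) (nat_lit 37724717614) (nat_lit 8) (nat_lit 5) (nat_lit 10) (nat_lit 5) (nat_lit 9) (nat_lit 4) (nat_lit 395) (nat_lit 256) (nat_lit 129)))) (XT.nd (nat_lit 78) (nat_lit 0) (nat_lit 0) (XT.lf (nat_lit 0)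 (nat_lit 6529240075) (nat_lit 152) (nat_lit 23827301386) (nat_lit 76) (nat_lit 44481610257) (nat_lit 8) (nat_lit 5) (nat_lit 10) (nat_lit 5) (nat_lit 9) (nat_lit 4) (nat_lit 396) (nat_lit 256) (nat_lit 128)) (XT.nd (nat_lit 78) (nat_lit 0) (nat_lit 0) (XT.lf (nat_lit 0) (nat_lit 11292611526) (nat_lit 152) (nat_lit 14182791789) (nat_lit 76) (nat_lit 51435428584) (nat_lit 8) (nat_lit 5) (nat_lit 10) (nat_lit 5) (nat_lit 9) (nat_lit 4) (nat_lit 397) (nat_lit 256) (nat_lit 127)) (XT.lf (nat_lit 0) (nat_lit 16191782447) (nat_lit 152) (nat_lit 4261877195) (nat_lit 76) (nat_lit 58592248747) (nat_lit 8) (nat_lit 5) (nat_lit 10) (nat_lit 5) (nat_lit 9) (nat_lit 4) (nat_lit 398) (nat_lit 256) (nat_lit 126))))) (XT.nd (nat_lit 234) (nat_lit 0) (nat_lit 0) (XT.nd (nat_lit 78) (nat_lit 0) (nat_lit 0) (XT.lf (nat_lit 0) (nat_lit 6062410623) (nat_lit 76) (nat_lit 15226898644) (nat_lit 152) (nat_lit 59954189254)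 (nat_lit 7) (nat_lit 5) (nat_lit 8) (nat_lit 5) (nat_lit 9) (nat_lit 4) (nat_lit 399) (nat_lit 256) (nat_lit 125)) (XT.nd (nat_lit 78) (nat_lit 0) (nat_lit 0) (XT.lf (nat_lit 0) (nat_lit 16771360776) (nat_lit 76) (nat_lit 9804624222) (nat_lit 152) (nat_lit 56929947358) (nat_lit 7) (nat_lit 5) (nat_lit 8) (nat_lit 5) (nat_lit 9) (nat_lit 4) (nat_lit 400) (nat_lit 256) (nat_lit 124)) (XT.lf (nat_lit 0) (nat_lit 27789510885) (nat_lit 76) (nat_lit 4225135068) (nat_lit 152) (nat_lit 53821794313) (nat_lit 7) (nat_lit 5) (nat_lit 8) (nat_lit 5) (nat_lit 9) (nat_lit 4) (nat_lit 401) (nat_lit 256) (nat_lit 123)))) (XT.nd (nat_lit 156) (nat_lit 0) (nat_lit 0) (XT.nd (nat_lit 78) (nat_lit 0) (nat_lit 0) (XT.lf (nat_lit 0) (nat_lit 37624621351) (nat_lit 152) (nat_lit 49125147151) (nat_lit 0) (nat_lit 1486852810) (nat_lit 7) (nat_lit 5) (nat_lit 9) (nat_lit 4) (nat_lit 7) (nat_lit 4) (nat_lit 402) (nat_lit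 256) (nat_lit 122)) (XT.lf (nat_lit 0) (nat_lit 43438444302) (nat_lit 152) (nat_lit 39989060346) (nat_lit 0) (nat_lit 7280239155) (nat_lit 7) (nat_lit 5) (nat_lit 9) (nat_lit 4) (nat_lit 7) (nat_lit 4) (nat_lit 403) (nat_lit 256) (nat_lit 121))) (XT.nd (nat_lit 78) (nat_lit 0) (nat_lit 0) (XT.lf (nat_lit 0) (nat_lit 49420580262) (nat_lit 152) (nat_lit 30590071396) (nat_lit 0) (nat_lit 13242533751) (nat_lit 7) (nat_lit 5) (nat_lit 9) (nat_lit 4) (nat_lit 7) (nat_lit 4) (nat_lit 404) (nat_lit 256) (nat_lit 120)) (XT.lf (nat_lit 0) (nat_lit 55576256342) (nat_lit 152) (nat_lit 20919967591) (nat_lit 0) (nat_lit 19378946370) (nat_lit 7) (nat_lit 5) (nat_lit 9) (nat_lit 4) (nat_lit 7) (nat_lit 4) (nat_lit 405) (nat_lit 256) (nat_lit 119))))))))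
noncomputable def xc97 : XT := (XT.nd (nat_lit 31512) (nat_lit 0) (nat_lit 5472) (XT.nd (nat_lit 30498) (nat_lit 0) (nat_lit 12616) (XT.nd (nat_lit 29952) (nat_lit 0) (nat_lit 19912) (XT.nd (nat_lit 29718) (nat_lit 0) (nat_lit 21812) (XT.nd (nat_lit 78) (nat_lit 76) (nat_lit 0) (XT.lf (nat_lit 0) (nat_lit 61910851287) (nat_lit 152) (nat_lit 10970299327) (nat_lit 0) (nat_lit 25694838925) (nat_lit 7) (nat_lit 5) (nat_lit 9) (nat_lit 4) (nat_lit 7) (nat_lit 4) (nat_lit 406) (nat_lit 256) (nat_lit 118)) (XT.nd (nat_lit 78) (nat_lit 76) (nat_lit 0) (XT.lf (nat_lit 0) (nat_lit 68429900179) (nat_lit 152) (nat_lit 732372718) (nat_lit 0) (nat_lit 32195730158) (nat_lit 7) (nat_lit 5) (nat_lit 9) (nat_lit 4) (nat_lit 7) (nat_lit 4) (nat_lit 407) (nat_lit 256) (nat_lit 117)) (XT.lf (nat_lit 0) (nat_lit 9997852100) (nat_lit 76) (nat_lit 65237352646) (nat_lit 76) (nat_lit 28985553829) (nat_lit 6) (nat_lit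 4) (nat_lit 7) (nat_lit 5) (nat_lit 7) (nat_lit 4) (nat_lit 408) (nat_lit 256) (nat_lit 116)))) (XT.nd (nat_lit 78) (nat_lit 304) (nat_lit 0) (XT.lf (nat_lit 0) (nat_lit 1462490330) (nat_lit 228) (nat_lit 316210782) (nat_lit 0) (nat_lit 1462490330) (nat_lit 297) (nat_lit 5) (nat_lit 300) (nat_lit 4) (nat_lit 297) (nat_lit 4) (nat_lit 266) (nat_lit 257) (nat_lit 257)) (XT.nd (nat_lit 78) (nat_lit 76) (nat_lit 0) (XT.lf (nat_lit 0) (nat_lit 2730679219) (nat_lit 228) (nat_lit 3147673394) (nat_lit 228) (nat_lit 619095170) (nat_lit 294) (nat_lit 4) (nat_lit 297) (nat_lit 5) (nat_lit 297) (nat_lit 4) (nat_lit 267) (nat_lit 257) (nat_lit 256)) (XT.lf (nat_lit 0) (nat_lit 2259679149) (nat_lit 304) (nat_lit 396359864) (nat_lit 76) (nat_lit 3859539666) (nat_lit 293) (nat_lit 5) (nat_lit 297) (nat_lit 5) (nat_lit 294) (nat_lit 4) (nat_lit 268) (nat_lit 257) (nat_lit 255))))) (XT.nd (nat_lit 234) (nat_lit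 1140) (nat_lit 0) (XT.nd (nat_lit 78) (nat_lit 456) (nat_lit 0) (XT.lf (nat_lit 0) (nat_lit 3062758430) (nat_lit 304) (nat_lit 2075022090) (nat_lit 380) (nat_lit 1398805629) (nat_lit 289) (nat_lit 5) (nat_lit 293) (nat_lit 5) (nat_lit 294) (nat_lit 4) (nat_lit 269) (nat_lit 257) (nat_lit 254)) (XT.nd (nat_lit 78) (nat_lit 380) (nat_lit 0) (XT.lf (nat_lit 0) (nat_lit 1415009994) (nat_lit 380) (nat_lit 6911786) (nat_lit 76) (nat_lit 5139085419) (nat_lit 288) (nat_lit 5) (nat_lit 293) (nat_lit 5) (nat_lit 289) (nat_lit 5) (nat_lit 270) (nat_lit 257) (nat_lit 253)) (XT.lf (nat_lit 0) (nat_lit 3553779228) (nat_lit 380) (nat_lit 665600401) (nat_lit 456) (nat_lit 2368593233) (nat_lit 283) (nat_lit 5) (nat_lit 288) (nat_lit 5) (nat_lit 289) (nat_lit 5) (nat_lit 271) (nat_lit 257) (nat_lit 252)))) (XT.nd (nat_lit 156) (nat_lit 608) (nat_lit 0) (XT.nd (nat_lit 78) (nat_lit 0) (nat_lit 0) (XT.lf (nat_lit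 0) (nat_lit 390492663) (nat_lit 532) (nat_lit 6075860638) (nat_lit 76) (nat_lit 152253832) (nat_lit 276) (nat_lit 5) (nat_lit 283) (nat_lit 5) (nat_lit 277) (nat_lit 5) (nat_lit 272) (nat_lit 257) (nat_lit 251)) (XT.lf (nat_lit 0) (nat_lit 3125971645) (nat_lit 532) (nat_lit 2460445705) (nat_lit 76) (nat_lit 1065036182) (nat_lit 276) (nat_lit 5) (nat_lit 283) (nat_lit 5) (nat_lit 277) (nat_lit 5) (nat_lit 273) (nat_lit 257) (nat_lit 250))) (XT.nd (nat_lit 78) (nat_lit 76) (nat_lit 0) (XT.lf (nat_lit 0) (nat_lit 1219210833) (nat_lit 532) (nat_lit 4642523007) (nat_lit 608) (nat_lit 826231565) (nat_lit 269) (nat_lit 5) (nat_lit 276) (nat_lit 5) (nat_lit 277) (nat_lit 5) (nat_lit 274) (nat_lit 257) (nat_lit 249)) (XT.lf (nat_lit 0) (nat_lit 1848412494) (nat_lit 608) (nat_lit 1753563211) (nat_lit 76) (nat_lit 3125270704) (nat_lit 268) (nat_lit 5) (nat_lit 276) (nat_lit 5) (nat_lit 269) (nat_lit 5)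 (nat_lit 275) (nat_lit 257) (nat_lit 248)))))) (XT.nd (nat_lit 468) (nat_lit 4256) (nat_lit 0) (XT.nd (nat_lit 234) (nat_lit 1672) (nat_lit 0) (XT.nd (nat_lit 78) (nat_lit 760) (nat_lit 0) (XT.lf (nat_lit 0) (nat_lit 2037278669) (nat_lit 608) (nat_lit 2479143910) (nat_lit 684) (nat_lit 2253353271) (nat_lit 260) (nat_lit 5) (nat_lit 268) (nat_lit 5) (nat_lit 269) (nat_lit 5) (nat_lit 276) (nat_lit 257) (nat_lit 247)) (XT.nd (nat_lit 78) (nat_lit 684) (nat_lit 0) (XT.lf (nat_lit 0) (nat_lit 371033883) (nat_lit 684) (nat_lit 908451792) (nat_lit 76) (nat_lit 5536292762) (nat_lit 259) (nat_lit 5) (nat_lit 268) (nat_lit 5) (nat_lit 260) (nat_lit 5) (nat_lit 277) (nat_lit 257) (nat_lit 246)) (XT.lf (nat_lit 0) (nat_lit 2971621321) (nat_lit 760) (nat_lit 3864822443) (nat_lit 76) (nat_lit 27955074) (nat_lit 250) (nat_lit 5) (nat_lit 260) (nat_lit 5) (nat_lit 251) (nat_lit 5) (nat_lit 278) (nat_lit 257)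 (nat_lit 245)))) (XT.nd (nat_lit 78) (nat_lit 912) (nat_lit 0) (XT.lf (nat_lit 0) (nat_lit 48527274) (nat_lit 760) (nat_lit 5539804102) (nat_lit 836) (nat_lit 1328187611) (nat_lit 240) (nat_lit 5) (nat_lit 250) (nat_lit 5) (nat_lit 251) (nat_lit 5) (nat_lit 279) (nat_lit 257) (nat_lit 244)) (XT.nd (nat_lit 78) (nat_lit 836) (nat_lit 0) (XT.lf (nat_lit 0) (nat_lit 1243638368) (nat_lit 836) (nat_lit 2893625750) (nat_lit 76) (nat_lit 2834055801) (nat_lit 239) (nat_lit 5) (nat_lit 250) (nat_lit 5) (nat_lit 240) (nat_lit 5) (nat_lit 280) (nat_lit 257) (nat_lit 243)) (XT.lf (nat_lit 0) (nat_lit 1141042649) (nat_lit 836) (nat_lit 2654794119) (nat_lit 912) (nat_lit 3233804858) (nat_lit 228) (nat_lit 5) (nat_lit 239) (nat_lit 5) (nat_lit 240) (nat_lit 5) (nat_lit 281) (nat_lit 257) (nat_lit 242))))) (XT.nd (nat_lit 234) (nat_lit 3268) (nat_lit 0) (XT.nd (nat_lit 78) (nat_lit 988) (nat_lit 0) (XT.lf (nat_lit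 0) (nat_lit 5288690669) (nat_lit 836) (nat_lit 1085788070) (nat_lit 912) (nat_lit 716901655) (nat_lit 228) (nat_lit 5) (nat_lit 239) (nat_lit 5) (nat_lit 240) (nat_lit 5) (nat_lit 282) (nat_lit 257) (nat_lit 241)) (XT.nd (nat_lit 78) (nat_lit 0) (nat_lit 0) (XT.lf (nat_lit 0) (nat_lit 1789317545) (nat_lit 988) (nat_lit 4795012545) (nat_lit 76) (nat_lit 571742509) (nat_lit 215) (nat_lit 5) (nat_lit 228) (nat_lit 5) (nat_lit 216) (nat_lit 5) (nat_lit 283) (nat_lit 257) (nat_lit 240)) (XT.lf (nat_lit 0) (nat_lit 4309224868) (nat_lit 988) (nat_lit 622508688) (nat_lit 76) (nat_lit 2292321597) (nat_lit 215) (nat_lit 5) (nat_lit 228) (nat_lit 5) (nat_lit 216) (nat_lit 5) (nat_lit 284) (nat_lit 257) (nat_lit 239)))) (XT.nd (nat_lit 156) (nat_lit 1140) (nat_lit 0) (XT.nd (nat_lit 78) (nat_lit 1140) (nat_lit 0) (XT.lf (nat_lit 0) (nat_lit 3679993532) (nat_lit 988) (nat_lit 3186106651) (nat_lit 1064) (nat_lit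 429281355) (nat_lit 202) (nat_lit 5) (nat_lit 215) (nat_lit 5) (nat_lit 216) (nat_lit 5) (nat_lit 285) (nat_lit 257) (nat_lit 238)) (XT.lf (nat_lit 0) (nat_lit 680479266) (nat_lit 1064) (nat_lit 1348322167) (nat_lit 1140) (nat_lit 5341382492) (nat_lit 187) (nat_lit 5) (nat_lit 201) (nat_lit 5) (nat_lit 202) (nat_lit 5) (nat_lit 286) (nat_lit 257) (nat_lit 237))) (XT.nd (nat_lit 78) (nat_lit 1140) (nat_lit 0) (XT.lf (nat_lit 0) (nat_lit 4522295220) (nat_lit 1140) (nat_lit 2346241045) (nat_lit 76) (nat_lit 579590843) (nat_lit 187) (nat_lit 5) (nat_lit 202) (nat_lit 5) (nat_lit 188) (nat_lit 5) (nat_lit 287) (nat_lit 257) (nat_lit 236)) (XT.lf (nat_lit 0) (nat_lit 2087341697) (nat_lit 1140) (nat_lit 4966950007) (nat_lit 1216) (nat_lit 475335199) (nat_lit 172) (nat_lit 5) (nat_lit 187) (nat_lit 5) (nat_lit 188) (nat_lit 5) (nat_lit 288) (nat_lit 257) (nat_lit 235))))))) (XT.nd (nat_lit 1014) (nat_lit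 3268) (nat_lit 0) (XT.nd (nat_lit 468) (nat_lit 2052) (nat_lit 0) (XT.nd (nat_lit 234) (nat_lit 608) (nat_lit 0) (XT.nd (nat_lit 78) (nat_lit 1140) (nat_lit 0) (XT.lf (nat_lit 0) (nat_lit 1963497594) (nat_lit 1216) (nat_lit 999162891) (nat_lit 76) (nat_lit 4651798300) (nat_lit 171) (nat_lit 5) (nat_lit 187) (nat_lit 5) (nat_lit 172) (nat_lit 5) (nat_lit 289) (nat_lit 257) (nat_lit 234)) (XT.nd (nat_lit 78) (nat_lit 608) (nat_lit 0) (XT.lf (nat_lit 0) (nat_lit 3575916270) (nat_lit 532) (nat_lit 857283933) (nat_lit 608) (nat_lit 3269594760) (nat_lit 164) (nat_lit 5) (nat_lit 171) (nat_lit 5) (nat_lit 172) (nat_lit 5) (nat_lit 290) (nat_lit 257) (nat_lit 233)) (XT.lf (nat_lit 0) (nat_lit 443350609) (nat_lit 608) (nat_lit 6494906834) (nat_lit 684) (nat_lit 856800718) (nat_lit 156) (nat_lit 5) (nat_lit 164) (nat_lit 5) (nat_lit 165) (nat_lit 5) (nat_lit 291) (nat_lit 257) (nat_lit 232)))) (XT.nd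 (nat_lit 78) (nat_lit 532) (nat_lit 0) (XT.lf (nat_lit 0) (nat_lit 1581905661) (nat_lit 684) (nat_lit 2746698309) (nat_lit 76) (nat_lit 3561564824) (nat_lit 155) (nat_lit 5) (nat_lit 164) (nat_lit 5) (nat_lit 156) (nat_lit 5) (nat_lit 292) (nat_lit 257) (nat_lit 231)) (XT.nd (nat_lit 78) (nat_lit 0) (nat_lit 0) (XT.lf (nat_lit 0) (nat_lit 1959625652) (nat_lit 532) (nat_lit 2072394989) (nat_lit 608) (nat_lit 3957298657) (nat_lit 148) (nat_lit 5) (nat_lit 155) (nat_lit 5) (nat_lit 156) (nat_lit 5) (nat_lit 293) (nat_lit 257) (nat_lit 230)) (XT.lf (nat_lit 0) (nat_lit 6523874162) (nat_lit 608) (nat_lit 1297729735) (nat_lit 76) (nat_lit 270895403) (nat_lit 148) (nat_lit 5) (nat_lit 156) (nat_lit 5) (nat_lit 149) (nat_lit 5) (nat_lit 294) (nat_lit 257) (nat_lit 229))))) (XT.nd (nat_lit 234) (nat_lit 988) (nat_lit 0) (XT.nd (nat_lit 78) (nat_lit 456) (nat_lit 0) (XT.lf (nat_lit 0) (nat_lit 868505472)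 (nat_lit 608) (nat_lit 4648322674) (nat_lit 76) (nat_lit 2681959663) (nat_lit 140) (nat_lit 5) (nat_lit 148) (nat_lit 5) (nat_lit 141) (nat_lit 5) (nat_lit 295) (nat_lit 257) (nat_lit 228)) (XT.nd (nat_lit 78) (nat_lit 0) (nat_lit 0) (XT.lf (nat_lit 0) (nat_lit 184238043) (nat_lit 456) (nat_lit 3118058087) (nat_lit 532) (nat_lit 5006944074) (nat_lit 134) (nat_lit 5) (nat_lit 140) (nat_lit 5) (nat_lit 141) (nat_lit 5) (nat_lit 296) (nat_lit 257) (nat_lit 227)) (XT.lf (nat_lit 0) (nat_lit 5191181303) (nat_lit 456) (nat_lit 606039098) (nat_lit 532) (nat_lit 2626232828) (nat_lit 134) (nat_lit 5) (nat_lit 140) (nat_lit 5) (nat_lit 141) (nat_lit 5) (nat_lit 297) (nat_lit 257) (nat_lit 226)))) (XT.nd (nat_lit 156) (nat_lit 456) (nat_lit 0) (XT.nd (nat_lit 78) (nat_lit 76) (nat_lit 0) (XT.lf (nat_lit 0) (nat_lit 1756778653) (nat_lit 456) (nat_lit 6588975061) (nat_lit 532) (nat_lit 196064109) (nat_lit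 128) (nat_lit 5) (nat_lit 134) (nat_lit 5) (nat_lit 135) (nat_lit 5) (nat_lit 298) (nat_lit 257) (nat_lit 225)) (XT.lf (nat_lit 0) (nat_lit 2244183312) (nat_lit 532) (nat_lit 1795760473) (nat_lit 76) (nat_lit 4623741489) (nat_lit 127) (nat_lit 5) (nat_lit 134) (nat_lit 5) (nat_lit 128) (nat_lit 5) (nat_lit 299) (nat_lit 257) (nat_lit 224))) (XT.nd (nat_lit 78) (nat_lit 0) (nat_lit 0) (XT.lf (nat_lit 0) (nat_lit 3342137027) (nat_lit 456) (nat_lit 1388569189) (nat_lit 532) (nat_lit 4059214581) (nat_lit 121) (nat_lit 5) (nat_lit 127) (nat_lit 5) (nat_lit 128) (nat_lit 5) (nat_lit 300) (nat_lit 257) (nat_lit 223)) (XT.lf (nat_lit 0) (nat_lit 7268824473) (nat_lit 532) (nat_lit 326814174) (nat_lit 76) (nat_lit 1325072950) (nat_lit 121) (nat_lit 5) (nat_lit 128) (nat_lit 5) (nat_lit 122) (nat_lit 5) (nat_lit 301) (nat_lit 257) (nat_lit 222)))))) (XT.nd (nat_lit 546) (nat_lit 1520) (nat_lit 0) (XT.nd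 (nat_lit 234) (nat_lit 836) (nat_lit 0) (XT.nd (nat_lit 78) (nat_lit 380) (nat_lit 0) (XT.lf (nat_lit 0) (nat_lit 820384390) (nat_lit 532) (nat_lit 4095720127) (nat_lit 76) (nat_lit 4138890390) (nat_lit 114) (nat_lit 5) (nat_lit 121) (nat_lit 5) (nat_lit 115) (nat_lit 5) (nat_lit 302) (nat_lit 257) (nat_lit 221)) (XT.nd (nat_lit 78) (nat_lit 0) (nat_lit 0) (XT.lf (nat_lit 0) (nat_lit 1159778715) (nat_lit 380) (nat_lit 2136032868) (nat_lit 456) (nat_lit 5898210374) (nat_lit 109) (nat_lit 5) (nat_lit 114) (nat_lit 5) (nat_lit 115) (nat_lit 5) (nat_lit 303) (nat_lit 257) (nat_lit 220)) (XT.lf (nat_lit 0) (nat_lit 5842770356) (nat_lit 456) (nat_lit 2751253140) (nat_lit 76) (nat_lit 743347740) (nat_lit 109) (nat_lit 5) (nat_lit 115) (nat_lit 5) (nat_lit 110) (nat_lit 5) (nat_lit 304) (nat_lit 257) (nat_lit 219)))) (XT.nd (nat_lit 156) (nat_lit 380) (nat_lit 0) (XT.nd (nat_lit 78) (nat_lit 76) (nat_lit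 0) (XT.lf (nat_lit 0) (nat_lit 2658059983) (nat_lit 380) (nat_lit 5804785341) (nat_lit 456) (nat_lit 1022341905) (nat_lit 104) (nat_lit 5) (nat_lit 109) (nat_lit 5) (nat_lit 110) (nat_lit 5) (nat_lit 305) (nat_lit 257) (nat_lit 218)) (XT.lf (nat_lit 0) (nat_lit 1472716296) (nat_lit 456) (nat_lit 1428801307) (nat_lit 76) (nat_lit 6736193012) (nat_lit 103) (nat_lit 5) (nat_lit 109) (nat_lit 5) (nat_lit 104) (nat_lit 5) (nat_lit 306) (nat_lit 257) (nat_lit 217))) (XT.nd (nat_lit 78) (nat_lit 0) (nat_lit 0) (XT.lf (nat_lit 0) (nat_lit 4014863637) (nat_lit 456) (nat_lit 5655367999) (nat_lit 76) (nat_lit 124552572) (nat_lit 98) (nat_lit 5) (nat_lit 104) (nat_lit 5) (nat_lit 99) (nat_lit 5) (nat_lit 307) (nat_lit 257) (nat_lit 216)) (XT.lf (nat_lit 0) (nat_lit 6629026377) (nat_lit 456) (nat_lit 143266779) (nat_lit 76) (nat_lit 3184464257) (nat_lit 98) (nat_lit 5) (nat_lit 104) (nat_lit 5) (nat_lit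 99) (nat_lit 5) (nat_lit 308) (nat_lit 257) (nat_lit 215))))) (XT.nd (nat_lit 234) (nat_lit 760) (nat_lit 0) (XT.nd (nat_lit 78) (nat_lit 380) (nat_lit 0) (XT.lf (nat_lit 0) (nat_lit 5582720796) (nat_lit 380) (nat_lit 3746394759) (nat_lit 456) (nat_lit 794307403) (nat_lit 93) (nat_lit 5) (nat_lit 98) (nat_lit 5) (nat_lit 99) (nat_lit 5) (nat_lit 309) (nat_lit 257) (nat_lit 214)) (XT.nd (nat_lit 78) (nat_lit 0) (nat_lit 0) (XT.lf (nat_lit 0) (nat_lit 1132219404) (nat_lit 304) (nat_lit 613926339) (nat_lit 380) (nat_lit 8549480743) (nat_lit 88) (nat_lit 5) (nat_lit 92) (nat_lit 5) (nat_lit 93) (nat_lit 5) (nat_lit 310) (nat_lit 257) (nat_lit 213)) (XT.lf (nat_lit 0) (nat_lit 4372982138) (nat_lit 380) (nat_lit 3498101921) (nat_lit 76) (nat_lit 2600945347) (nat_lit 88) (nat_lit 5) (nat_lit 93) (nat_lit 5) (nat_lit 89) (nat_lit 5) (nat_lit 311) (nat_lit 257) (nat_lit 212)))) (XT.nd (nat_lit 156) (nat_lit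 380) (nat_lit 0) (XT.nd (nat_lit 78) (nat_lit 0) (nat_lit 0) (XT.lf (nat_lit 0) (nat_lit 2316621180) (nat_lit 380) (nat_lit 4746383850) (nat_lit 456) (nat_lit 3591239639) (nat_lit 83) (nat_lit 5) (nat_lit 88) (nat_lit 5) (nat_lit 89) (nat_lit 5) (nat_lit 312) (nat_lit 257) (nat_lit 211)) (XT.lf (nat_lit 0) (nat_lit 8318410258) (nat_lit 380) (nat_lit 1507389083) (nat_lit 456) (nat_lit 1016415123) (nat_lit 83) (nat_lit 5) (nat_lit 88) (nat_lit 5) (nat_lit 89) (nat_lit 5) (nat_lit 313) (nat_lit 257) (nat_lit 210))) (XT.nd (nat_lit 78) (nat_lit 0) (nat_lit 0) (XT.lf (nat_lit 0) (nat_lit 1612431585) (nat_lit 380) (nat_lit 7595659129) (nat_lit 76) (nat_lit 1827047415) (nat_lit 78) (nat_lit 5) (nat_lit 83) (nat_lit 5) (nat_lit 79) (nat_lit 5) (nat_lit 314) (nat_lit 257) (nat_lit 209)) (XT.lf (nat_lit 0) (nat_lit 4298449409) (nat_lit 380) (nat_lit 1683759138) (nat_lit 76) (nat_lit 5251422947) (nat_lit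 78) (nat_lit 5) (nat_lit 83) (nat_lit 5) (nat_lit 79) (nat_lit 5) (nat_lit 315) (nat_lit 257) (nat_lit 208))))))))
noncomputable def xc98 : XT := (XT.nd (nat_lit 2028) (nat_lit 1368) (nat_lit 0) (XT.nd (nat_lit 1014) (nat_lit 1216) (nat_lit 0) (XT.nd (nat_lit 468) (nat_lit 836) (nat_lit 0) (XT.nd (nat_lit 234) (nat_lit 532) (nat_lit 0) (XT.nd (nat_lit 78) (nat_lit 304) (nat_lit 0) (XT.lf (nat_lit 0) (nat_lit 4434922739) (nat_lit 304) (nat_lit 2632049619) (nat_lit 380) (nat_lit 4371094162) (nat_lit 74) (nat_lit 5) (nat_lit 78) (nat_lit 5) (nat_lit 79) (nat_lit 5) (nat_lit 316) (nat_lit 257) (nat_lit 207)) (XT.nd (nat_lit 78) (nat_lit 304) (nat_lit 0) (XT.lf (nat_lit 0) (nat_lit 9903367869) (nat_lit 380) (nat_lit 942124566) (nat_lit 76) (nat_lit 803640954) (nat_lit 74) (nat_lit 5) (nat_lit 79) (nat_lit 5) (nat_lit 75) (nat_lit 5) (nat_lit 317) (nat_lit 257) (nat_lit 206)) (XT.lf (nat_lit 0) (nat_lit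 978131397) (nat_lit 304) (nat_lit 6552455194) (nat_lit 76) (nat_lit 4334554862) (nat_lit 70) (nat_lit 5) (nat_lit 74) (nat_lit 5) (nat_lit 71) (nat_lit 5) (nat_lit 318) (nat_lit 257) (nat_lit 205)))) (XT.nd (nat_lit 78) (nat_lit 532) (nat_lit 0) (XT.lf (nat_lit 0) (nat_lit 3719397320) (nat_lit 304) (nat_lit 386498051) (nat_lit 76) (nat_lit 7982133260) (nat_lit 70) (nat_lit 5) (nat_lit 74) (nat_lit 5) (nat_lit 71) (nat_lit 5) (nat_lit 319) (nat_lit 257) (nat_lit 204)) (XT.nd (nat_lit 78) (nat_lit 228) (nat_lit 0) (XT.lf (nat_lit 0) (nat_lit 6027464335) (nat_lit 304) (nat_lit 535641076) (nat_lit 380) (nat_lit 5753929359) (nat_lit 66) (nat_lit 5) (nat_lit 70) (nat_lit 5) (nat_lit 71) (nat_lit 5) (nat_lit 320) (nat_lit 257) (nat_lit 203)) (XT.lf (nat_lit 0) (nat_lit 3763695) (nat_lit 228) (nat_lit 9485220424) (nat_lit 304) (nat_lit 3064058540) (nat_lit 63) (nat_lit 5) (nat_lit 66) (nat_lit 5) (nat_lit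 67) (nat_lit 5) (nat_lit 321) (nat_lit 257) (nat_lit 202))))) (XT.nd (nat_lit 234) (nat_lit 532) (nat_lit 0) (XT.nd (nat_lit 78) (nat_lit 304) (nat_lit 0) (XT.lf (nat_lit 0) (nat_lit 6554913232) (nat_lit 228) (nat_lit 5979734211) (nat_lit 304) (nat_lit 260559356) (nat_lit 63) (nat_lit 5) (nat_lit 66) (nat_lit 5) (nat_lit 67) (nat_lit 5) (nat_lit 322) (nat_lit 257) (nat_lit 201)) (XT.nd (nat_lit 78) (nat_lit 0) (nat_lit 0) (XT.lf (nat_lit 0) (nat_lit 182601569) (nat_lit 228) (nat_lit 2358862660) (nat_lit 304) (nat_lit 10503477756) (nat_lit 59) (nat_lit 5) (nat_lit 62) (nat_lit 5) (nat_lit 63) (nat_lit 5) (nat_lit 323) (nat_lit 257) (nat_lit 200)) (XT.lf (nat_lit 0) (nat_lit 5463423332) (nat_lit 304) (nat_lit 6444628388) (nat_lit 76) (nat_lit 1392839943) (nat_lit 59) (nat_lit 5) (nat_lit 63) (nat_lit 5) (nat_lit 60) (nat_lit 5) (nat_lit 324) (nat_lit 257) (nat_lit 199)))) (XT.nd (nat_lit 156)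 (nat_lit 304) (nat_lit 0) (XT.nd (nat_lit 78) (nat_lit 0) (nat_lit 0) (XT.lf (nat_lit 0) (nat_lit 91547336) (nat_lit 228) (nat_lit 8371066603) (nat_lit 304) (nat_lit 5102250928) (nat_lit 56) (nat_lit 5) (nat_lit 59) (nat_lit 5) (nat_lit 60) (nat_lit 5) (nat_lit 325) (nat_lit 257) (nat_lit 198)) (XT.lf (nat_lit 0) (nat_lit 6903932585) (nat_lit 228) (nat_lit 4678773312) (nat_lit 304) (nat_lit 2253154881) (nat_lit 56) (nat_lit 5) (nat_lit 59) (nat_lit 5) (nat_lit 60) (nat_lit 5) (nat_lit 326) (nat_lit 257) (nat_lit 197))) (XT.nd (nat_lit 78) (nat_lit 228) (nat_lit 0) (XT.lf (nat_lit 0) (nat_lit 634601391) (nat_lit 304) (nat_lit 252014063) (nat_lit 76) (nat_lit 13229209564) (nat_lit 55) (nat_lit 5) (nat_lit 59) (nat_lit 5) (nat_lit 56) (nat_lit 5) (nat_lit 327) (nat_lit 257) (nat_lit 196)) (XT.lf (nat_lit 0) (nat_lit 3625158104) (nat_lit 304) (nat_lit 7745515330) (nat_lit 76) (nat_lit 3031030506)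 (nat_lit 52) (nat_lit 5) (nat_lit 56) (nat_lit 5) (nat_lit 53) (nat_lit 5) (nat_lit 328) (nat_lit 257) (nat_lit 195)))))) (XT.nd (nat_lit 468) (nat_lit 608) (nat_lit 0) (XT.nd (nat_lit 234) (nat_lit 456) (nat_lit 0) (XT.nd (nat_lit 78) (nat_lit 152) (nat_lit 0) (XT.lf (nat_lit 0) (nat_lit 6684550612) (nat_lit 304) (nat_lit 978097567) (nat_lit 76) (nat_lit 7034165269) (nat_lit 52) (nat_lit 5) (nat_lit 56) (nat_lit 5) (nat_lit 53) (nat_lit 5) (nat_lit 329) (nat_lit 257) (nat_lit 194)) (XT.nd (nat_lit 78) (nat_lit 0) (nat_lit 0) (XT.lf (nat_lit 0) (nat_lit 6062077914) (nat_lit 152) (nat_lit 3800628779) (nat_lit 228) (nat_lit 5137287075) (nat_lit 50) (nat_lit 5) (nat_lit 52) (nat_lit 5) (nat_lit 53) (nat_lit 5) (nat_lit 330) (nat_lit 257) (nat_lit 193)) (XT.lf (nat_lit 0) (nat_lit 13116878821) (nat_lit 228) (nat_lit 2029133576) (nat_lit 76) (nat_lit 166863157) (nat_lit 50) (nat_lit 5) (nat_lit 53)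 (nat_lit 5) (nat_lit 51) (nat_lit 5) (nat_lit 331) (nat_lit 257) (nat_lit 192)))) (XT.nd (nat_lit 78) (nat_lit 152) (nat_lit 0) (XT.lf (nat_lit 0) (nat_lit 874365794) (nat_lit 304) (nat_lit 10540660087) (nat_lit 76) (nat_lit 4218189271) (nat_lit 46) (nat_lit 5) (nat_lit 50) (nat_lit 5) (nat_lit 47) (nat_lit 5) (nat_lit 332) (nat_lit 257) (nat_lit 191)) (XT.nd (nat_lit 78) (nat_lit 152) (nat_lit 0) (XT.lf (nat_lit 0) (nat_lit 3983398127) (nat_lit 304) (nat_lit 3562605983) (nat_lit 76) (nat_lit 8416811635) (nat_lit 46) (nat_lit 5) (nat_lit 50) (nat_lit 5) (nat_lit 47) (nat_lit 5) (nat_lit 333) (nat_lit 257) (nat_lit 190)) (XT.lf (nat_lit 0) (nat_lit 3649796879) (nat_lit 152) (nat_lit 3541865470) (nat_lit 228) (nat_lit 9110486455) (nat_lit 44) (nat_lit 5) (nat_lit 46) (nat_lit 5) (nat_lit 47) (nat_lit 5) (nat_lit 334) (nat_lit 257) (nat_lit 189))))) (XT.nd (nat_lit 234) (nat_lit 304) (nat_lit 0)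 (XT.nd (nat_lit 78) (nat_lit 304) (nat_lit 0) (XT.lf (nat_lit 0) (nat_lit 10509225740) (nat_lit 228) (nat_lit 5551416049) (nat_lit 76) (nat_lit 590651126) (nat_lit 44) (nat_lit 5) (nat_lit 47) (nat_lit 5) (nat_lit 45) (nat_lit 5) (nat_lit 335) (nat_lit 257) (nat_lit 188)) (XT.nd (nat_lit 78) (nat_lit 76) (nat_lit 0) (XT.lf (nat_lit 0) (nat_lit 1715835200) (nat_lit 228) (nat_lit 12234004945) (nat_lit 304) (nat_lit 3060387419) (nat_lit 41) (nat_lit 5) (nat_lit 44) (nat_lit 5) (nat_lit 45) (nat_lit 5) (nat_lit 336) (nat_lit 257) (nat_lit 187)) (XT.lf (nat_lit 0) (nat_lit 140191573) (nat_lit 304) (nat_lit 8110255601) (nat_lit 76) (nat_lit 9128610906) (nat_lit 40) (nat_lit 5) (nat_lit 44) (nat_lit 5) (nat_lit 41) (nat_lit 5) (nat_lit 337) (nat_lit 257) (nat_lit 186)))) (XT.nd (nat_lit 156) (nat_lit 152) (nat_lit 0) (XT.nd (nat_lit 78) (nat_lit 152) (nat_lit 0) (XT.lf (nat_lit 0) (nat_lit 3348146035)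 (nat_lit 304) (nat_lit 784838586) (nat_lit 76) (nat_lit 13625893875) (nat_lit 40) (nat_lit 5) (nat_lit 44) (nat_lit 5) (nat_lit 41) (nat_lit 5) (nat_lit 338) (nat_lit 257) (nat_lit 185)) (XT.lf (nat_lit 0) (nat_lit 6693391159) (nat_lit 228) (nat_lit 11299088007) (nat_lit 76) (nat_lit 156402291) (nat_lit 38) (nat_lit 5) (nat_lit 41) (nat_lit 5) (nat_lit 39) (nat_lit 5) (nat_lit 339) (nat_lit 257) (nat_lit 184))) (XT.nd (nat_lit 78) (nat_lit 152) (nat_lit 0) (XT.lf (nat_lit 0) (nat_lit 10161781938) (nat_lit 228) (nat_lit 3904679782) (nat_lit 76) (nat_lit 4483458062) (nat_lit 38) (nat_lit 5) (nat_lit 41) (nat_lit 5) (nat_lit 39) (nat_lit 5) (nat_lit 340) (nat_lit 257) (nat_lit 183)) (XT.lf (nat_lit 0) (nat_lit 3742961688) (nat_lit 152) (nat_lit 10001867500) (nat_lit 228) (nat_lit 5217860299) (nat_lit 36) (nat_lit 5) (nat_lit 38) (nat_lit 5) (nat_lit 39) (nat_lit 5) (nat_lit 341) (nat_lit 257) (nat_lit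 182))))))) (XT.nd (nat_lit 1014) (nat_lit 608) (nat_lit 0) (XT.nd (nat_lit 468) (nat_lit 380) (nat_lit 0) (XT.nd (nat_lit 234) (nat_lit 152) (nat_lit 0) (XT.nd (nat_lit 78) (nat_lit 228) (nat_lit 0) (XT.lf (nat_lit 0) (nat_lit 11658845056) (nat_lit 152) (nat_lit 5790920271) (nat_lit 228) (nat_lit 1937662870) (nat_lit 36) (nat_lit 5) (nat_lit 38) (nat_lit 5) (nat_lit 39) (nat_lit 5) (nat_lit 342) (nat_lit 257) (nat_lit 181)) (XT.nd (nat_lit 78) (nat_lit 152) (nat_lit 0) (XT.lf (nat_lit 0) (nat_lit 1388261889) (nat_lit 228) (nat_lit 67089561) (nat_lit 76) (nat_lit 18369895717) (nat_lit 35) (nat_lit 5) (nat_lit 38) (nat_lit 5) (nat_lit 36) (nat_lit 5) (nat_lit 343) (nat_lit 257) (nat_lit 180)) (XT.lf (nat_lit 0) (nat_lit 4857039785) (nat_lit 228) (nat_lit 12383540886) (nat_lit 76) (nat_lit 3032600202) (nat_lit 33) (nat_lit 5) (nat_lit 36) (nat_lit 5) (nat_lit 34) (nat_lit 5) (nat_lit 344) (nat_lit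 257) (nat_lit 179)))) (XT.nd (nat_lit 78) (nat_lit 152) (nat_lit 0) (XT.lf (nat_lit 0) (nat_lit 8421300824) (nat_lit 228) (nat_lit 4702042655) (nat_lit 76) (nat_lit 7611482365) (nat_lit 33) (nat_lit 5) (nat_lit 36) (nat_lit 5) (nat_lit 34) (nat_lit 5) (nat_lit 345) (nat_lit 257) (nat_lit 178)) (XT.nd (nat_lit 78) (nat_lit 0) (nat_lit 0) (XT.lf (nat_lit 0) (nat_lit 3234630539) (nat_lit 152) (nat_lit 8865968136) (nat_lit 228) (nat_lit 9109493607) (nat_lit 31) (nat_lit 5) (nat_lit 33) (nat_lit 5) (nat_lit 34) (nat_lit 5) (nat_lit 346) (nat_lit 257) (nat_lit 177)) (XT.lf (nat_lit 0) (nat_lit 11467778282) (nat_lit 152) (nat_lit 4447298365) (nat_lit 228) (nat_lit 5783810969) (nat_lit 31) (nat_lit 5) (nat_lit 33) (nat_lit 5) (nat_lit 34) (nat_lit 5) (nat_lit 347) (nat_lit 257) (nat_lit 176))))) (XT.nd (nat_lit 234) (nat_lit 152) (nat_lit 0) (XT.nd (nat_lit 78) (nat_lit 228) (nat_lit 0) (XT.lf (nat_lit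 0) (nat_lit 19822825283) (nat_lit 228) (nat_lit 2292863144) (nat_lit 76) (nat_lit 87307798) (nat_lit 31) (nat_lit 5) (nat_lit 34) (nat_lit 5) (nat_lit 32) (nat_lit 4) (nat_lit 348) (nat_lit 257) (nat_lit 175)) (XT.nd (nat_lit 78) (nat_lit 0) (nat_lit 0) (XT.lf (nat_lit 0) (nat_lit 1183795693) (nat_lit 228) (nat_lit 16812821215) (nat_lit 76) (nat_lit 4722894820) (nat_lit 28) (nat_lit 5) (nat_lit 31) (nat_lit 5) (nat_lit 29) (nat_lit 5) (nat_lit 349) (nat_lit 257) (nat_lit 174)) (XT.lf (nat_lit 0) (nat_lit 4808764780) (nat_lit 228) (nat_lit 8911822500) (nat_lit 76) (nat_lit 9530184031) (nat_lit 28) (nat_lit 5) (nat_lit 31) (nat_lit 5) (nat_lit 29) (nat_lit 5) (nat_lit 350) (nat_lit 257) (nat_lit 173)))) (XT.nd (nat_lit 156) (nat_lit 0) (nat_lit 0) (XT.nd (nat_lit 78) (nat_lit 152) (nat_lit 0) (XT.lf (nat_lit 0) (nat_lit 8521647859) (nat_lit 228) (nat_lit 809164059) (nat_lit 76) (nat_lit 14467794702)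 (nat_lit 28) (nat_lit 5) (nat_lit 31) (nat_lit 5) (nat_lit 29) (nat_lit 5) (nat_lit 351) (nat_lit 257) (nat_lit 172)) (XT.lf (nat_lit 0) (nat_lit 7651543266) (nat_lit 152) (nat_lit 4747697245) (nat_lit 228) (nat_lit 11962049296) (nat_lit 26) (nat_lit 5) (nat_lit 28) (nat_lit 5) (nat_lit 29) (nat_lit 5) (nat_lit 352) (nat_lit 257) (nat_lit 171))) (XT.nd (nat_lit 78) (nat_lit 0) (nat_lit 0) (XT.lf (nat_lit 0) (nat_lit 16348655514) (nat_lit 152) (nat_lit 32710477) (nat_lit 228) (nat_lit 8559853495) (nat_lit 26) (nat_lit 5) (nat_lit 28) (nat_lit 5) (nat_lit 29) (nat_lit 5) (nat_lit 353) (nat_lit 257) (nat_lit 170)) (XT.lf (nat_lit 0) (nat_lit 20509808443) (nat_lit 228) (nat_lit 311709828) (nat_lit 76) (nat_lit 4716234981) (nat_lit 26) (nat_lit 5) (nat_lit 29) (nat_lit 5) (nat_lit 27) (nat_lit 4) (nat_lit 354) (nat_lit 257) (nat_lit 169)))))) (XT.nd (nat_lit 468) (nat_lit 304) (nat_lit 0) (XT.nd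 (nat_lit 234) (nat_lit 152) (nat_lit 0) (XT.nd (nat_lit 78) (nat_lit 76) (nat_lit 0) (XT.lf (nat_lit 0) (nat_lit 8347638273) (nat_lit 76) (nat_lit 16476085378) (nat_lit 152) (nat_lit 1326622245) (nat_lit 25) (nat_lit 5) (nat_lit 26) (nat_lit 5) (nat_lit 27) (nat_lit 4) (nat_lit 355) (nat_lit 257) (nat_lit 168)) (XT.nd (nat_lit 78) (nat_lit 0) (nat_lit 0) (XT.lf (nat_lit 0) (nat_lit 2421512502) (nat_lit 152) (nat_lit 9564559554) (nat_lit 76) (nat_lit 14795009875) (nat_lit 24) (nat_lit 5) (nat_lit 26) (nat_lit 5) (nat_lit 25) (nat_lit 5) (nat_lit 356) (nat_lit 257) (nat_lit 167)) (XT.lf (nat_lit 0) (nat_lit 6237077425) (nat_lit 152) (nat_lit 1124021925) (nat_lit 76) (nat_lit 20069807631) (nat_lit 24) (nat_lit 5) (nat_lit 26) (nat_lit 5) (nat_lit 25) (nat_lit 5) (nat_lit 357) (nat_lit 257) (nat_lit 166)))) (XT.nd (nat_lit 78) (nat_lit 0) (nat_lit 0) (XT.lf (nat_lit 0) (nat_lit 7689074328) (nat_lit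 152) (nat_lit 2534131449) (nat_lit 228) (nat_lit 17875348284) (nat_lit 22) (nat_lit 5) (nat_lit 24) (nat_lit 5) (nat_lit 25) (nat_lit 5) (nat_lit 358) (nat_lit 257) (nat_lit 165)) (XT.nd (nat_lit 78) (nat_lit 0) (nat_lit 0) (XT.lf (nat_lit 0) (nat_lit 14346100879) (nat_lit 228) (nat_lit 12050642227) (nat_lit 76) (nat_lit 2388981838) (nat_lit 22) (nat_lit 5) (nat_lit 25) (nat_lit 5) (nat_lit 23) (nat_lit 4) (nat_lit 359) (nat_lit 257) (nat_lit 164)) (XT.lf (nat_lit 0) (nat_lit 18600577090) (nat_lit 228) (nat_lit 3496045035) (nat_lit 76) (nat_lit 7396661588) (nat_lit 22) (nat_lit 5) (nat_lit 25) (nat_lit 5) (nat_lit 23) (nat_lit 4) (nat_lit 360) (nat_lit 257) (nat_lit 163))))) (XT.nd (nat_lit 234) (nat_lit 152) (nat_lit 0) (XT.nd (nat_lit 78) (nat_lit 76) (nat_lit 0) (XT.lf (nat_lit 0) (nat_lit 5391351029) (nat_lit 76) (nat_lit 17626466227) (nat_lit 152) (nat_lit 7203207410) (nat_lit 21) (nat_lit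 5) (nat_lit 22) (nat_lit 5) (nat_lit 23) (nat_lit 4) (nat_lit 361) (nat_lit 257) (nat_lit 162)) (XT.nd (nat_lit 78) (nat_lit 76) (nat_lit 0) (XT.lf (nat_lit 0) (nat_lit 14588275495) (nat_lit 76) (nat_lit 12998116859) (nat_lit 152) (nat_lit 3383649999) (nat_lit 21) (nat_lit 5) (nat_lit 22) (nat_lit 5) (nat_lit 23) (nat_lit 4) (nat_lit 362) (nat_lit 257) (nat_lit 161)) (XT.lf (nat_lit 0) (nat_lit 523579623) (nat_lit 152) (nat_lit 7713966282) (nat_lit 76) (nat_lit 23504319606) (nat_lit 20) (nat_lit 5) (nat_lit 22) (nat_lit 5) (nat_lit 21) (nat_lit 5) (nat_lit 363) (nat_lit 257) (nat_lit 160)))) (XT.nd (nat_lit 156) (nat_lit 0) (nat_lit 0) (XT.nd (nat_lit 78) (nat_lit 0) (nat_lit 0) (XT.lf (nat_lit 0) (nat_lit 1175883699) (nat_lit 152) (nat_lit 3299736389) (nat_lit 228) (nat_lit 28060358445) (nat_lit 18) (nat_lit 5) (nat_lit 20) (nat_lit 5) (nat_lit 21) (nat_lit 5) (nat_lit 364) (nat_lit 257) (nat_lit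 159)) (XT.lf (nat_lit 0) (nat_lit 8626441929) (nat_lit 228) (nat_lit 22906482599) (nat_lit 76) (nat_lit 1818591842) (nat_lit 18) (nat_lit 5) (nat_lit 21) (nat_lit 5) (nat_lit 19) (nat_lit 4) (nat_lit 365) (nat_lit 257) (nat_lit 158))) (XT.nd (nat_lit 78) (nat_lit 0) (nat_lit 0) (XT.lf (nat_lit 0) (nat_lit 12919296815) (nat_lit 228) (nat_lit 14258652162) (nat_lit 76) (nat_lit 7013053912) (nat_lit 18) (nat_lit 5) (nat_lit 21) (nat_lit 5) (nat_lit 19) (nat_lit 4) (nat_lit 366) (nat_lit 257) (nat_lit 157)) (XT.lf (nat_lit 0) (nat_lit 17326216698) (nat_lit 228) (nat_lit 5377328081) (nat_lit 76) (nat_lit 12352578412) (nat_lit 18) (nat_lit 5) (nat_lit 21) (nat_lit 5) (nat_lit 19) (nat_lit 4) (nat_lit 367) (nat_lit 257) (nat_lit 156))))))))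
noncomputable def xc99 : XT := (XT.nd (nat_lit 2028) (nat_lit 152) (nat_lit 0) (XT.nd (nat_lit 1014) (nat_lit 304) (nat_lit 0) (XT.nd (nat_lit 468) (nat_lit 76) (nat_lit 0) (XT.nd (nat_lit 234) (nat_lit 228) (nat_lit 0) (XT.nd (nat_lit 78) (nat_lit 0) (nat_lit 0) (XT.lf (nat_lit 0) (nat_lit 3819787841) (nat_lit 76) (nat_lit 18067982581) (nat_lit 152) (nat_lit 14058761242) (nat_lit 17) (nat_lit 5) (nat_lit 18) (nat_lit 5) (nat_lit 19) (nat_lit 4) (nat_lit 368) (nat_lit 257) (nat_lit 155)) (XT.nd (nat_lit 78) (nat_lit 0) (nat_lit 0) (XT.lf (nat_lit 0) (nat_lit 13378108416) (nat_lit 76) (nat_lit 13248247462) (nat_lit 152) (nat_lit 10236098095) (nat_lit 17) (nat_lit 5) (nat_lit 18) (nat_lit 5) (nat_lit 19) (nat_lit 4) (nat_lit 369) (nat_lit 257) (nat_lit 154)) (XT.lf (nat_lit 0) (nat_lit 23198966200) (nat_lit 76) (nat_lit 8294428474) (nat_lit 152) (nat_lit 6312877332) (nat_lit 17) (nat_lit 5) (nat_lit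 18) (nat_lit 5) (nat_lit 19) (nat_lit 4) (nat_lit 370) (nat_lit 257) (nat_lit 153)))) (XT.nd (nat_lit 78) (nat_lit 228) (nat_lit 0) (XT.lf (nat_lit 0) (nat_lit 33290942526) (nat_lit 76) (nat_lit 3202197036) (nat_lit 152) (nat_lit 2285670894) (nat_lit 17) (nat_lit 5) (nat_lit 18) (nat_lit 5) (nat_lit 19) (nat_lit 4) (nat_lit 371) (nat_lit 257) (nat_lit 152)) (XT.nd (nat_lit 78) (nat_lit 0) (nat_lit 0) (XT.lf (nat_lit 0) (nat_lit 1870935160) (nat_lit 228) (nat_lit 35858275079) (nat_lit 76) (nat_lit 2049436361) (nat_lit 14) (nat_lit 5) (nat_lit 17) (nat_lit 5) (nat_lit 15) (nat_lit 4) (nat_lit 372) (nat_lit 257) (nat_lit 151)) (XT.lf (nat_lit 0) (nat_lit 6180982677) (nat_lit 228) (nat_lit 27161504569) (nat_lit 76) (nat_lit 7463077333) (nat_lit 14) (nat_lit 5) (nat_lit 17) (nat_lit 5) (nat_lit 15) (nat_lit 4) (nat_lit 373) (nat_lit 257) (nat_lit 150))))) (XT.nd (nat_lit 234) (nat_lit 0) (nat_lit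 0) (XT.nd (nat_lit 78) (nat_lit 76) (nat_lit 0) (XT.lf (nat_lit 0) (nat_lit 10607722587) (nat_lit 228) (nat_lit 18226315709) (nat_lit 76) (nat_lit 13029636050) (nat_lit 14) (nat_lit 5) (nat_lit 17) (nat_lit 5) (nat_lit 15) (nat_lit 4) (nat_lit 374) (nat_lit 257) (nat_lit 149)) (XT.nd (nat_lit 78) (nat_lit 76) (nat_lit 0) (XT.lf (nat_lit 0) (nat_lit 15155022914) (nat_lit 228) (nat_lit 9044901052) (nat_lit 76) (nat_lit 18753976494) (nat_lit 14) (nat_lit 5) (nat_lit 17) (nat_lit 5) (nat_lit 15) (nat_lit 4) (nat_lit 375) (nat_lit 257) (nat_lit 148)) (XT.lf (nat_lit 0) (nat_lit 398538927) (nat_lit 76) (nat_lit 19432149099) (nat_lit 152) (nat_lit 24246392590) (nat_lit 13) (nat_lit 5) (nat_lit 14) (nat_lit 5) (nat_lit 15) (nat_lit 4) (nat_lit 376) (nat_lit 257) (nat_lit 147)))) (XT.nd (nat_lit 156) (nat_lit 0) (nat_lit 0) (XT.nd (nat_lit 78) (nat_lit 0) (nat_lit 0) (XT.lf (nat_lit 0) (nat_lit 10289707448)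 (nat_lit 76) (nat_lit 14436510626) (nat_lit 152) (nat_lit 20505355723) (nat_lit 13) (nat_lit 5) (nat_lit 14) (nat_lit 5) (nat_lit 15) (nat_lit 4) (nat_lit 377) (nat_lit 257) (nat_lit 146)) (XT.lf (nat_lit 0) (nat_lit 20457236013) (nat_lit 76) (nat_lit 9299979191) (nat_lit 152) (nat_lit 16663833843) (nat_lit 13) (nat_lit 5) (nat_lit 14) (nat_lit 5) (nat_lit 15) (nat_lit 4) (nat_lit 378) (nat_lit 257) (nat_lit 145))) (XT.nd (nat_lit 78) (nat_lit 0) (nat_lit 0) (XT.lf (nat_lit 0) (nat_lit 30910008870) (nat_lit 76) (nat_lit 4018066562) (nat_lit 152) (nat_lit 12718470281) (nat_lit 13) (nat_lit 5) (nat_lit 14) (nat_lit 5) (nat_lit 15) (nat_lit 4) (nat_lit 379) (nat_lit 257) (nat_lit 144)) (XT.lf (nat_lit 0) (nat_lit 40256907704) (nat_lit 152) (nat_lit 7265565827) (nat_lit 0) (nat_lit 1386253363) (nat_lit 13) (nat_lit 5) (nat_lit 15) (nat_lit 4) (nat_lit 13) (nat_lit 4) (nat_lit 380) (nat_lit 257)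 (nat_lit 143)))))) (XT.nd (nat_lit 468) (nat_lit 152) (nat_lit 0) (XT.nd (nat_lit 234) (nat_lit 0) (nat_lit 0) (XT.nd (nat_lit 78) (nat_lit 76) (nat_lit 0) (XT.lf (nat_lit 0) (nat_lit 2479245629) (nat_lit 76) (nat_lit 43319463681) (nat_lit 76) (nat_lit 4408475931) (nat_lit 12) (nat_lit 4) (nat_lit 13) (nat_lit 5) (nat_lit 13) (nat_lit 4) (nat_lit 381) (nat_lit 257) (nat_lit 142)) (XT.nd (nat_lit 78) (nat_lit 0) (nat_lit 0) (XT.lf (nat_lit 0) (nat_lit 26508698) (nat_lit 152) (nat_lit 38896333742) (nat_lit 76) (nat_lit 12619862303) (nat_lit 11) (nat_lit 5) (nat_lit 13) (nat_lit 5) (nat_lit 12) (nat_lit 4) (nat_lit 382) (nat_lit 257) (nat_lit 141)) (XT.lf (nat_lit 0) (nat_lit 4495750887) (nat_lit 152) (nat_lit 29861790205) (nat_lit 76) (nat_lit 18559749315) (nat_lit 11) (nat_lit 5) (nat_lit 13) (nat_lit 5) (nat_lit 12) (nat_lit 4) (nat_lit 383) (nat_lit 257) (nat_lit 140)))) (XT.nd (nat_lit 78)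 (nat_lit 0) (nat_lit 0) (XT.lf (nat_lit 0) (nat_lit 9089181042) (nat_lit 152) (nat_lit 20574037774) (nat_lit 76) (nat_lit 24670195821) (nat_lit 11) (nat_lit 5) (nat_lit 13) (nat_lit 5) (nat_lit 12) (nat_lit 4) (nat_lit 384) (nat_lit 257) (nat_lit 139)) (XT.nd (nat_lit 78) (nat_lit 0) (nat_lit 0) (XT.lf (nat_lit 0) (nat_lit 13810812840) (nat_lit 152) (nat_lit 11024960936) (nat_lit 76) (nat_lit 30956541046) (nat_lit 11) (nat_lit 5) (nat_lit 13) (nat_lit 5) (nat_lit 12) (nat_lit 4) (nat_lit 385) (nat_lit 257) (nat_lit 138)) (XT.lf (nat_lit 0) (nat_lit 18664771978) (nat_lit 152) (nat_lit 1206215838) (nat_lit 76) (nat_lit 37424277914) (nat_lit 11) (nat_lit 5) (nat_lit 13) (nat_lit 5) (nat_lit 12) (nat_lit 4) (nat_lit 386) (nat_lit 257) (nat_lit 137))))) (XT.nd (nat_lit 234) (nat_lit 76) (nat_lit 0) (XT.nd (nat_lit 78) (nat_lit 0) (nat_lit 0) (XT.lf (nat_lit 0) (nat_lit 9067720900) (nat_lit 76) (nat_lit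 14674743361) (nat_lit 152) (nat_lit 35098501425) (nat_lit 10) (nat_lit 5) (nat_lit 11) (nat_lit 5) (nat_lit 12) (nat_lit 4) (nat_lit 387) (nat_lit 257) (nat_lit 136)) (XT.nd (nat_lit 78) (nat_lit 0) (nat_lit 0) (XT.lf (nat_lit 0) (nat_lit 19658447324) (nat_lit 76) (nat_lit 9317278600) (nat_lit 152) (nat_lit 31457217393) (nat_lit 10) (nat_lit 5) (nat_lit 11) (nat_lit 5) (nat_lit 12) (nat_lit 4) (nat_lit 388) (nat_lit 257) (nat_lit 135)) (XT.lf (nat_lit 0) (nat_lit 30551211405) (nat_lit 76) (nat_lit 3806092670) (nat_lit 152) (nat_lit 27715640366) (nat_lit 10) (nat_lit 5) (nat_lit 11) (nat_lit 5) (nat_lit 12) (nat_lit 4) (nat_lit 389) (nat_lit 257) (nat_lit 134)))) (XT.nd (nat_lit 156) (nat_lit 76) (nat_lit 0) (XT.nd (nat_lit 78) (nat_lit 0) (nat_lit 0) (XT.lf (nat_lit 0) (nat_lit 39909815416) (nat_lit 152) (nat_lit 22024785330) (nat_lit 0) (nat_lit 1827263893) (nat_lit 10) (nat_lit 5) (nat_lit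 12) (nat_lit 4) (nat_lit 10) (nat_lit 4) (nat_lit 390) (nat_lit 257) (nat_lit 133)) (XT.lf (nat_lit 0) (nat_lit 45658339716) (nat_lit 152) (nat_lit 12295582630) (nat_lit 0) (nat_lit 7546650479) (nat_lit 10) (nat_lit 5) (nat_lit 12) (nat_lit 4) (nat_lit 10) (nat_lit 4) (nat_lit 391) (nat_lit 257) (nat_lit 132))) (XT.nd (nat_lit 78) (nat_lit 76) (nat_lit 0) (XT.lf (nat_lit 0) (nat_lit 51571313465) (nat_lit 152) (nat_lit 2289037200) (nat_lit 0) (nat_lit 13431335187) (nat_lit 10) (nat_lit 5) (nat_lit 12) (nat_lit 4) (nat_lit 10) (nat_lit 4) (nat_lit 392) (nat_lit 257) (nat_lit 131)) (XT.lf (nat_lit 0) (nat_lit 8162881766) (nat_lit 76) (nat_lit 49569488187) (nat_lit 76) (nat_lit 11402044819) (nat_lit 9) (nat_lit 4) (nat_lit 10) (nat_lit 5) (nat_lit 10) (nat_lit 4) (nat_lit 393) (nat_lit 257) (nat_lit 130))))))) (XT.nd (nat_lit 1014) (nat_lit 0) (nat_lit 0) (XT.nd (nat_lit 468) (nat_lit 76) (nat_lit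 0) (XT.nd (nat_lit 234) (nat_lit 0) (nat_lit 0) (XT.nd (nat_lit 78) (nat_lit 76) (nat_lit 0) (XT.lf (nat_lit 0) (nat_lit 18961309605) (nat_lit 76) (nat_lit 45132382328) (nat_lit 76) (nat_lit 6938273825) (nat_lit 9) (nat_lit 4) (nat_lit 10) (nat_lit 5) (nat_lit 10) (nat_lit 4) (nat_lit 394) (nat_lit 257) (nat_lit 129)) (XT.nd (nat_lit 78) (nat_lit 76) (nat_lit 0) (XT.lf (nat_lit 0) (nat_lit 30070125507) (nat_lit 76) (nat_lit 40568270794) (nat_lit 76) (nat_lit 2348273811) (nat_lit 9) (nat_lit 4) (nat_lit 10) (nat_lit 5) (nat_lit 10) (nat_lit 4) (nat_lit 395) (nat_lit 257) (nat_lit 128)) (XT.lf (nat_lit 0) (nat_lit 2325680305) (nat_lit 152) (nat_lit 33524000410) (nat_lit 76) (nat_lit 39149871087) (nat_lit 8) (nat_lit 5) (nat_lit 10) (nat_lit 5) (nat_lit 9) (nat_lit 4) (nat_lit 396) (nat_lit 257) (nat_lit 127)))) (XT.nd (nat_lit 78) (nat_lit 0) (nat_lit 0) (XT.lf (nat_lit 0) (nat_lit 7085553395)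 (nat_lit 152) (nat_lit 23885860414) (nat_lit 76) (nat_lit 46100924530) (nat_lit 8) (nat_lit 5) (nat_lit 10) (nat_lit 5) (nat_lit 9) (nat_lit 4) (nat_lit 397) (nat_lit 257) (nat_lit 126)) (XT.nd (nat_lit 78) (nat_lit 0) (nat_lit 0) (XT.lf (nat_lit 0) (nat_lit 11981327849) (nat_lit 152) (nat_lit 13971129899) (nat_lit 76) (nat_lit 53255060340) (nat_lit 8) (nat_lit 5) (nat_lit 10) (nat_lit 5) (nat_lit 9) (nat_lit 4) (nat_lit 398) (nat_lit 257) (nat_lit 125)) (XT.lf (nat_lit 0) (nat_lit 17017281529) (nat_lit 152) (nat_lit 3771145507) (nat_lit 76) (nat_lit 60618529703) (nat_lit 8) (nat_lit 5) (nat_lit 10) (nat_lit 5) (nat_lit 9) (nat_lit 4) (nat_lit 399) (nat_lit 257) (nat_lit 124))))) (XT.nd (nat_lit 234) (nat_lit 0) (nat_lit 0) (XT.nd (nat_lit 78) (nat_lit 0) (nat_lit 0) (XT.lf (nat_lit 0) (nat_lit 6856806357) (nat_lit 76) (nat_lit 15406920244) (nat_lit 152) (nat_lit 61406872179) (nat_lit 7) (nat_lit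 5) (nat_lit 8) (nat_lit 5) (nat_lit 9) (nat_lit 4) (nat_lit 400) (nat_lit 257) (nat_lit 123)) (XT.nd (nat_lit 78) (nat_lit 0) (nat_lit 0) (XT.lf (nat_lit 0) (nat_lit 17869184526) (nat_lit 76) (nat_lit 9830039298) (nat_lit 152) (nat_lit 58301979027) (nat_lit 7) (nat_lit 5) (nat_lit 8) (nat_lit 5) (nat_lit 9) (nat_lit 4) (nat_lit 401) (nat_lit 257) (nat_lit 122)) (XT.lf (nat_lit 0) (nat_lit 29200558277) (nat_lit 76) (nat_lit 4090992373) (nat_lit 152) (nat_lit 55110363919) (nat_lit 7) (nat_lit 5) (nat_lit 8) (nat_lit 5) (nat_lit 9) (nat_lit 4) (nat_lit 402) (nat_lit 257) (nat_lit 121)))) (XT.nd (nat_lit 156) (nat_lit 0) (nat_lit 0) (XT.nd (nat_lit 78) (nat_lit 0) (nat_lit 0) (XT.lf (nat_lit 0) (nat_lit 39063042727) (nat_lit 152) (nat_lit 50031451981) (nat_lit 0) (nat_lit 1779813455) (nat_lit 7) (nat_lit 5) (nat_lit 9) (nat_lit 4) (nat_lit 7) (nat_lit 4) (nat_lit 403) (nat_lit 257) (nat_lit 120))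 (XT.lf (nat_lit 0) (nat_lit 45042260480) (nat_lit 152) (nat_lit 40637810229) (nat_lit 0) (nat_lit 7739767748) (nat_lit 7) (nat_lit 5) (nat_lit 9) (nat_lit 4) (nat_lit 7) (nat_lit 4) (nat_lit 404) (nat_lit 257) (nat_lit 119))) (XT.nd (nat_lit 78) (nat_lit 0) (nat_lit 0) (XT.lf (nat_lit 0) (nat_lit 51195103349) (nat_lit 152) (nat_lit 30972897880) (nat_lit 0) (nat_lit 13873908228) (nat_lit 7) (nat_lit 5) (nat_lit 9) (nat_lit 4) (nat_lit 7) (nat_lit 4) (nat_lit 405) (nat_lit 257) (nat_lit 118)) (XT.lf (nat_lit 0) (nat_lit 57526947604) (nat_lit 152) (nat_lit 21028269864) (nat_lit 0) (nat_lit 20187594823) (nat_lit 7) (nat_lit 5) (nat_lit 9) (nat_lit 4) (nat_lit 7) (nat_lit 4) (nat_lit 406) (nat_lit 257) (nat_lit 117)))))) (XT.nd (nat_lit 29874) (nat_lit 0) (nat_lit 19836) (XT.nd (nat_lit 29562) (nat_lit 0) (nat_lit 21736) (XT.nd (nat_lit 78) (nat_lit 0) (nat_lit 0) (XT.lf (nat_lit 0) (nat_lit 64043325924)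 (nat_lit 152) (nat_lit 10795236700) (nat_lit 0) (nat_lit 26686344348) (nat_lit 7) (nat_lit 5) (nat_lit 9) (nat_lit 4) (nat_lit 7) (nat_lit 4) (nat_lit 407) (nat_lit 257) (nat_lit 116)) (XT.nd (nat_lit 29406) (nat_lit 0) (nat_lit 22268) (XT.lf (nat_lit 0) (nat_lit 70749932232) (nat_lit 152) (nat_lit 264856903) (nat_lit 0) (nat_lit 33375835320) (nat_lit 7) (nat_lit 5) (nat_lit 9) (nat_lit 4) (nat_lit 7) (nat_lit 4) (nat_lit 408) (nat_lit 257) (nat_lit 115)) (XT.lf (nat_lit 0) (nat_lit 2901140480) (nat_lit 76) (nat_lit 164484261) (nat_lit 76) (nat_lit 164484261) (nat_lit 300) (nat_lit 4) (nat_lit 301) (nat_lit 5) (nat_lit 301) (nat_lit 4) (nat_lit 264) (nat_lit 258) (nat_lit 258)))) (XT.nd (nat_lit 156) (nat_lit 304) (nat_lit 0) (XT.nd (nat_lit 78) (nat_lit 0) (nat_lit 0) (XT.lf (nat_lit 0) (nat_lit 2560066286) (nat_lit 152) (nat_lit 22512494) (nat_lit 228) (nat_lit 3887858296) (nat_lit 297) (nat_lit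 5) (nat_lit 299) (nat_lit 5) (nat_lit 300) (nat_lit 4) (nat_lit 265) (nat_lit 258) (nat_lit 257)) (XT.lf (nat_lit 0) (nat_lit 5476045552) (nat_lit 228) (nat_lit 665056741) (nat_lit 0) (nat_lit 343031758) (nat_lit 297) (nat_lit 5) (nat_lit 300) (nat_lit 4) (nat_lit 297) (nat_lit 4) (nat_lit 266) (nat_lit 258) (nat_lit 256))) (XT.nd (nat_lit 78) (nat_lit 0) (nat_lit 0) (XT.lf (nat_lit 0) (nat_lit 1839444149) (nat_lit 304) (nat_lit 3853872484) (nat_lit 76) (nat_lit 807060385) (nat_lit 293) (nat_lit 5) (nat_lit 297) (nat_lit 5) (nat_lit 294) (nat_lit 4) (nat_lit 267) (nat_lit 258) (nat_lit 255)) (XT.lf (nat_lit 0) (nat_lit 4654889375) (nat_lit 304) (nat_lit 521946166) (nat_lit 76) (nat_lit 1343168604) (nat_lit 293) (nat_lit 5) (nat_lit 297) (nat_lit 5) (nat_lit 294) (nat_lit 4) (nat_lit 268) (nat_lit 258) (nat_lit 254))))) (XT.nd (nat_lit 234) (nat_lit 1140) (nat_lit 0) (XT.nd (nat_lit 78) (nat_lit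 380) (nat_lit 0) (XT.lf (nat_lit 0) (nat_lit 920686912) (nat_lit 380) (nat_lit 3649249782) (nat_lit 76) (nat_lit 1972476343) (nat_lit 288) (nat_lit 5) (nat_lit 293) (nat_lit 5) (nat_lit 289) (nat_lit 5) (nat_lit 269) (nat_lit 258) (nat_lit 253)) (XT.nd (nat_lit 78) (nat_lit 380) (nat_lit 0) (XT.lf (nat_lit 0) (nat_lit 3657991554) (nat_lit 380) (nat_lit 228159269) (nat_lit 76) (nat_lit 2681881997) (nat_lit 288) (nat_lit 5) (nat_lit 293) (nat_lit 5) (nat_lit 289) (nat_lit 5) (nat_lit 270) (nat_lit 258) (nat_lit 252)) (XT.lf (nat_lit 0) (nat_lit 3296066684) (nat_lit 380) (nat_lit 3116035424) (nat_lit 456) (nat_lit 184526151) (nat_lit 283) (nat_lit 5) (nat_lit 288) (nat_lit 5) (nat_lit 289) (nat_lit 5) (nat_lit 271) (nat_lit 258) (nat_lit 251)))) (XT.nd (nat_lit 156) (nat_lit 608) (nat_lit 0) (XT.nd (nat_lit 78) (nat_lit 0) (nat_lit 0) (XT.lf (nat_lit 0) (nat_lit 218378152) (nat_lit 456) (nat_lit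 2261669369) (nat_lit 532) (nat_lit 4148256966) (nat_lit 276) (nat_lit 5) (nat_lit 282) (nat_lit 5) (nat_lit 283) (nat_lit 5) (nat_lit 272) (nat_lit 258) (nat_lit 250)) (XT.lf (nat_lit 0) (nat_lit 3843988639) (nat_lit 456) (nat_lit 1316391692) (nat_lit 532) (nat_lit 1502536589) (nat_lit 276) (nat_lit 5) (nat_lit 282) (nat_lit 5) (nat_lit 283) (nat_lit 5) (nat_lit 273) (nat_lit 258) (nat_lit 249))) (XT.nd (nat_lit 78) (nat_lit 0) (nat_lit 0) (XT.lf (nat_lit 0) (nat_lit 819176810) (nat_lit 532) (nat_lit 295230232) (nat_lit 608) (nat_lit 5586550520) (nat_lit 268) (nat_lit 5) (nat_lit 275) (nat_lit 5) (nat_lit 276) (nat_lit 5) (nat_lit 274) (nat_lit 258) (nat_lit 248)) (XT.lf (nat_lit 0) (nat_lit 3725829120) (nat_lit 608) (nat_lit 2204885501) (nat_lit 76) (nat_lit 810800830) (nat_lit 268) (nat_lit 5) (nat_lit 276) (nat_lit 5) (nat_lit 269) (nat_lit 5) (nat_lit 275) (nat_lit 258) (nat_lit 247))))))))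
noncomputable def xc100 : XT := (XT.nd (nat_lit 2028) (nat_lit 4940) (nat_lit 0) (XT.nd (nat_lit 1014) (nat_lit 3800) (nat_lit 0) (XT.nd (nat_lit 468) (nat_lit 4332) (nat_lit 0) (XT.nd (nat_lit 234) (nat_lit 1672) (nat_lit 0) (XT.nd (nat_lit 78) (nat_lit 760) (nat_lit 0) (XT.lf (nat_lit 0) (nat_lit 1544107790) (nat_lit 608) (nat_lit 4802018625) (nat_lit 684) (nat_lit 439449060) (nat_lit 260) (nat_lit 5) (nat_lit 268) (nat_lit 5) (nat_lit 269) (nat_lit 5) (nat_lit 276) (nat_lit 258) (nat_lit 246)) (XT.nd (nat_lit 78) (nat_lit 684) (nat_lit 0) (XT.lf (nat_lit 0) (nat_lit 2107004502) (nat_lit 684) (nat_lit 1467707860) (nat_lit 76) (nat_lit 3257712248) (nat_lit 259) (nat_lit 5) (nat_lit 268) (nat_lit 5) (nat_lit 260) (nat_lit 5) (nat_lit 277) (nat_lit 258) (nat_lit 245)) (XT.lf (nat_lit 0) (nat_lit 2396945171) (nat_lit 684) (nat_lit 2263278303) (nat_lit 760) (nat_lit 2222333372) (nat_lit 250) (nat_lit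 5) (nat_lit 259) (nat_lit 5) (nat_lit 260) (nat_lit 5) (nat_lit 278) (nat_lit 258) (nat_lit 244)))) (XT.nd (nat_lit 78) (nat_lit 1596) (nat_lit 0) (XT.lf (nat_lit 0) (nat_lit 280871425) (nat_lit 760) (nat_lit 595623863) (nat_lit 76) (nat_lit 6059809771) (nat_lit 249) (nat_lit 5) (nat_lit 259) (nat_lit 5) (nat_lit 250) (nat_lit 5) (nat_lit 279) (nat_lit 258) (nat_lit 243)) (XT.nd (nat_lit 78) (nat_lit 836) (nat_lit 0) (XT.lf (nat_lit 0) (nat_lit 2772528187) (nat_lit 836) (nat_lit 3607395576) (nat_lit 76) (nat_lit 612509829) (nat_lit 239) (nat_lit 5) (nat_lit 250) (nat_lit 5) (nat_lit 240) (nat_lit 5) (nat_lit 280) (nat_lit 258) (nat_lit 242)) (XT.lf (nat_lit 0) (nat_lit 379876802) (nat_lit 836) (nat_lit 4898767151) (nat_lit 912) (nat_lit 1773574484) (nat_lit 228) (nat_lit 5) (nat_lit 239) (nat_lit 5) (nat_lit 240) (nat_lit 5) (nat_lit 281) (nat_lit 258) (nat_lit 241))))) (XT.nd (nat_lit 234)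 (nat_lit 3344) (nat_lit 0) (XT.nd (nat_lit 78) (nat_lit 912) (nat_lit 0) (XT.lf (nat_lit 0) (nat_lit 690424712) (nat_lit 912) (nat_lit 2626641843) (nat_lit 76) (nat_lit 3797904286) (nat_lit 227) (nat_lit 5) (nat_lit 239) (nat_lit 5) (nat_lit 228) (nat_lit 5) (nat_lit 282) (nat_lit 258) (nat_lit 240)) (XT.nd (nat_lit 78) (nat_lit 0) (nat_lit 0) (XT.lf (nat_lit 0) (nat_lit 1486714734) (nat_lit 912) (nat_lit 1644593719) (nat_lit 988) (nat_lit 4049762052) (nat_lit 215) (nat_lit 5) (nat_lit 227) (nat_lit 5) (nat_lit 228) (nat_lit 5) (nat_lit 283) (nat_lit 258) (nat_lit 239)) (XT.lf (nat_lit 0) (nat_lit 5598951971) (nat_lit 988) (nat_lit 1539041438) (nat_lit 76) (nat_lit 112699228) (nat_lit 215) (nat_lit 5) (nat_lit 228) (nat_lit 5) (nat_lit 216) (nat_lit 5) (nat_lit 284) (nat_lit 258) (nat_lit 238)))) (XT.nd (nat_lit 156) (nat_lit 2280) (nat_lit 0) (XT.nd (nat_lit 78) (nat_lit 0) (nat_lit 0) (XT.lf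 (nat_lit 0) (nat_lit 772334064) (nat_lit 1064) (nat_lit 4618456156) (nat_lit 76) (nat_lit 1932412008) (nat_lit 201) (nat_lit 5) (nat_lit 215) (nat_lit 5) (nat_lit 202) (nat_lit 5) (nat_lit 285) (nat_lit 258) (nat_lit 237)) (XT.lf (nat_lit 0) (nat_lit 3180422131) (nat_lit 1064) (nat_lit 372480833) (nat_lit 76) (nat_lit 3846291974) (nat_lit 201) (nat_lit 5) (nat_lit 215) (nat_lit 5) (nat_lit 202) (nat_lit 5) (nat_lit 286) (nat_lit 258) (nat_lit 236))) (XT.nd (nat_lit 78) (nat_lit 1216) (nat_lit 0) (XT.lf (nat_lit 0) (nat_lit 4015197260) (nat_lit 1064) (nat_lit 1615020337) (nat_lit 1140) (nat_lit 1848295144) (nat_lit 187) (nat_lit 5) (nat_lit 201) (nat_lit 5) (nat_lit 202) (nat_lit 5) (nat_lit 287) (nat_lit 258) (nat_lit 235)) (XT.lf (nat_lit 0) (nat_lit 529812143) (nat_lit 1216) (nat_lit 6636157015) (nat_lit 76) (nat_lit 395748882) (nat_lit 171) (nat_lit 5) (nat_lit 187) (nat_lit 5) (nat_lit 172)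 (nat_lit 5) (nat_lit 288) (nat_lit 258) (nat_lit 234)))))) (XT.nd (nat_lit 468) (nat_lit 2052) (nat_lit 0) (XT.nd (nat_lit 234) (nat_lit 1216) (nat_lit 0) (XT.nd (nat_lit 78) (nat_lit 532) (nat_lit 0) (XT.lf (nat_lit 0) (nat_lit 2926307713) (nat_lit 1216) (nat_lit 2230317972) (nat_lit 76) (nat_lit 2490837282) (nat_lit 171) (nat_lit 5) (nat_lit 187) (nat_lit 5) (nat_lit 172) (nat_lit 5) (nat_lit 289) (nat_lit 258) (nat_lit 233)) (XT.nd (nat_lit 78) (nat_lit 0) (nat_lit 0) (XT.lf (nat_lit 0) (nat_lit 2287865456) (nat_lit 532) (nat_lit 3063664575) (nat_lit 608) (nat_lit 2385660095) (nat_lit 164) (nat_lit 5) (nat_lit 171) (nat_lit 5) (nat_lit 172) (nat_lit 5) (nat_lit 290) (nat_lit 258) (nat_lit 232)) (XT.lf (nat_lit 0) (nat_lit 6923470549) (nat_lit 532) (nat_lit 884684006) (nat_lit 608) (nat_lit 22806674) (nat_lit 164) (nat_lit 5) (nat_lit 171) (nat_lit 5) (nat_lit 172) (nat_lit 5) (nat_lit 291)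 (nat_lit 258) (nat_lit 231)))) (XT.nd (nat_lit 78) (nat_lit 532) (nat_lit 0) (XT.lf (nat_lit 0) (nat_lit 2350920107) (nat_lit 684) (nat_lit 4183998882) (nat_lit 76) (nat_lit 1392425300) (nat_lit 155) (nat_lit 5) (nat_lit 164) (nat_lit 5) (nat_lit 156) (nat_lit 5) (nat_lit 292) (nat_lit 258) (nat_lit 230)) (XT.nd (nat_lit 78) (nat_lit 0) (nat_lit 0) (XT.lf (nat_lit 0) (nat_lit 461237774) (nat_lit 532) (nat_lit 4295086912) (nat_lit 608) (nat_lit 3271561682) (nat_lit 148) (nat_lit 5) (nat_lit 155) (nat_lit 5) (nat_lit 156) (nat_lit 5) (nat_lit 293) (nat_lit 258) (nat_lit 229)) (XT.lf (nat_lit 0) (nat_lit 5267581078) (nat_lit 532) (nat_lit 1948213895) (nat_lit 608) (nat_lit 916291694) (nat_lit 148) (nat_lit 5) (nat_lit 155) (nat_lit 5) (nat_lit 156) (nat_lit 5) (nat_lit 294) (nat_lit 258) (nat_lit 228))))) (XT.nd (nat_lit 234) (nat_lit 988) (nat_lit 0) (XT.nd (nat_lit 78) (nat_lit 456) (nat_lit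 0) (XT.lf (nat_lit 0) (nat_lit 1444346657) (nat_lit 608) (nat_lit 6306494431) (nat_lit 76) (nat_lit 489304854) (nat_lit 140) (nat_lit 5) (nat_lit 148) (nat_lit 5) (nat_lit 141) (nat_lit 5) (nat_lit 295) (nat_lit 258) (nat_lit 227)) (XT.nd (nat_lit 78) (nat_lit 456) (nat_lit 0) (XT.lf (nat_lit 0) (nat_lit 3847703366) (nat_lit 608) (nat_lit 1509348947) (nat_lit 76) (nat_lit 2994503700) (nat_lit 140) (nat_lit 5) (nat_lit 148) (nat_lit 5) (nat_lit 141) (nat_lit 5) (nat_lit 296) (nat_lit 258) (nat_lit 226)) (XT.lf (nat_lit 0) (nat_lit 3436047185) (nat_lit 456) (nat_lit 2863651940) (nat_lit 532) (nat_lit 2167401127) (nat_lit 134) (nat_lit 5) (nat_lit 140) (nat_lit 5) (nat_lit 141) (nat_lit 5) (nat_lit 297) (nat_lit 258) (nat_lit 225)))) (XT.nd (nat_lit 156) (nat_lit 456) (nat_lit 0) (XT.nd (nat_lit 78) (nat_lit 456) (nat_lit 0) (XT.lf (nat_lit 0) (nat_lit 193794432) (nat_lit 532) (nat_lit 90655410)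 (nat_lit 76) (nat_lit 8302895464) (nat_lit 133) (nat_lit 5) (nat_lit 140) (nat_lit 5) (nat_lit 134) (nat_lit 5) (nat_lit 298) (nat_lit 258) (nat_lit 224)) (XT.lf (nat_lit 0) (nat_lit 2599432372) (nat_lit 532) (nat_lit 3721386831) (nat_lit 76) (nat_lit 2389300199) (nat_lit 127) (nat_lit 5) (nat_lit 134) (nat_lit 5) (nat_lit 128) (nat_lit 5) (nat_lit 299) (nat_lit 258) (nat_lit 223))) (XT.nd (nat_lit 78) (nat_lit 0) (nat_lit 0) (XT.lf (nat_lit 0) (nat_lit 1346805293) (nat_lit 456) (nat_lit 3693608778) (nat_lit 532) (nat_lit 3797345613) (nat_lit 121) (nat_lit 5) (nat_lit 127) (nat_lit 5) (nat_lit 128) (nat_lit 5) (nat_lit 300) (nat_lit 258) (nat_lit 222)) (XT.lf (nat_lit 0) (nat_lit 6581478720) (nat_lit 456) (nat_lit 958176759) (nat_lit 532) (nat_lit 1430098710) (nat_lit 121) (nat_lit 5) (nat_lit 127) (nat_lit 5) (nat_lit 128) (nat_lit 5) (nat_lit 301) (nat_lit 258) (nat_lit 221))))))) (XT.nd (nat_lit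 1014) (nat_lit 1672) (nat_lit 0) (XT.nd (nat_lit 468) (nat_lit 1520) (nat_lit 0) (XT.nd (nat_lit 234) (nat_lit 836) (nat_lit 0) (XT.nd (nat_lit 78) (nat_lit 380) (nat_lit 0) (XT.lf (nat_lit 0) (nat_lit 982463956) (nat_lit 532) (nat_lit 6272057950) (nat_lit 76) (nat_lit 1851148317) (nat_lit 114) (nat_lit 5) (nat_lit 121) (nat_lit 5) (nat_lit 115) (nat_lit 5) (nat_lit 302) (nat_lit 258) (nat_lit 220)) (XT.nd (nat_lit 78) (nat_lit 380) (nat_lit 0) (XT.lf (nat_lit 0) (nat_lit 3421733065) (nat_lit 532) (nat_lit 1069752917) (nat_lit 76) (nat_lit 4754330261) (nat_lit 114) (nat_lit 5) (nat_lit 121) (nat_lit 5) (nat_lit 115) (nat_lit 5) (nat_lit 303) (nat_lit 258) (nat_lit 219)) (XT.lf (nat_lit 0) (nat_lit 4312539921) (nat_lit 380) (nat_lit 1613804370) (nat_lit 456) (nat_lit 3464124888) (nat_lit 109) (nat_lit 5) (nat_lit 114) (nat_lit 5) (nat_lit 115) (nat_lit 5) (nat_lit 304) (nat_lit 258) (nat_lit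 218)))) (XT.nd (nat_lit 78) (nat_lit 456) (nat_lit 0) (XT.lf (nat_lit 0) (nat_lit 270225361) (nat_lit 380) (nat_lit 8213818226) (nat_lit 456) (nat_lit 1056145115) (nat_lit 104) (nat_lit 5) (nat_lit 109) (nat_lit 5) (nat_lit 110) (nat_lit 5) (nat_lit 305) (nat_lit 258) (nat_lit 217)) (XT.nd (nat_lit 78) (nat_lit 380) (nat_lit 0) (XT.lf (nat_lit 0) (nat_lit 1415809979) (nat_lit 456) (nat_lit 3901597061) (nat_lit 76) (nat_lit 4376058091) (nat_lit 103) (nat_lit 5) (nat_lit 109) (nat_lit 5) (nat_lit 104) (nat_lit 5) (nat_lit 306) (nat_lit 258) (nat_lit 216)) (XT.lf (nat_lit 0) (nat_lit 1588677022) (nat_lit 380) (nat_lit 2320457226) (nat_lit 456) (nat_lit 5942898691) (nat_lit 98) (nat_lit 5) (nat_lit 103) (nat_lit 5) (nat_lit 104) (nat_lit 5) (nat_lit 307) (nat_lit 258) (nat_lit 215))))) (XT.nd (nat_lit 234) (nat_lit 1064) (nat_lit 0) (XT.nd (nat_lit 78) (nat_lit 456) (nat_lit 0) (XT.lf (nat_lit 0)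 (nat_lit 6478250954) (nat_lit 456) (nat_lit 2758710458) (nat_lit 76) (nat_lit 778424778) (nat_lit 98) (nat_lit 5) (nat_lit 104) (nat_lit 5) (nat_lit 99) (nat_lit 5) (nat_lit 308) (nat_lit 258) (nat_lit 214)) (XT.nd (nat_lit 78) (nat_lit 76) (nat_lit 0) (XT.lf (nat_lit 0) (nat_lit 2885755022) (nat_lit 380) (nat_lit 6244582184) (nat_lit 456) (nat_lit 1053182445) (nat_lit 93) (nat_lit 5) (nat_lit 98) (nat_lit 5) (nat_lit 99) (nat_lit 5) (nat_lit 309) (nat_lit 258) (nat_lit 213)) (XT.lf (nat_lit 0) (nat_lit 1459487239) (nat_lit 456) (nat_lit 1673522682) (nat_lit 76) (nat_lit 7223799196) (nat_lit 92) (nat_lit 5) (nat_lit 98) (nat_lit 5) (nat_lit 93) (nat_lit 5) (nat_lit 310) (nat_lit 258) (nat_lit 212)))) (XT.nd (nat_lit 156) (nat_lit 760) (nat_lit 0) (XT.nd (nat_lit 78) (nat_lit 0) (nat_lit 0) (XT.lf (nat_lit 0) (nat_lit 4023881074) (nat_lit 380) (nat_lit 6403841096) (nat_lit 76) (nat_lit 107388610)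 (nat_lit 88) (nat_lit 5) (nat_lit 93) (nat_lit 5) (nat_lit 89) (nat_lit 5) (nat_lit 311) (nat_lit 258) (nat_lit 211)) (XT.lf (nat_lit 0) (nat_lit 6670607949) (nat_lit 380) (nat_lit 662860784) (nat_lit 76) (nat_lit 3385180919) (nat_lit 88) (nat_lit 5) (nat_lit 93) (nat_lit 5) (nat_lit 89) (nat_lit 5) (nat_lit 312) (nat_lit 258) (nat_lit 210))) (XT.nd (nat_lit 78) (nat_lit 380) (nat_lit 0) (XT.lf (nat_lit 0) (nat_lit 5297478674) (nat_lit 380) (nat_lit 4108738528) (nat_lit 456) (nat_lit 1501241802) (nat_lit 83) (nat_lit 5) (nat_lit 88) (nat_lit 5) (nat_lit 89) (nat_lit 5) (nat_lit 313) (nat_lit 258) (nat_lit 209)) (XT.lf (nat_lit 0) (nat_lit 286669120) (nat_lit 304) (nat_lit 781694578) (nat_lit 380) (nat_lit 10034242472) (nat_lit 78) (nat_lit 5) (nat_lit 82) (nat_lit 5) (nat_lit 83) (nat_lit 5) (nat_lit 314) (nat_lit 258) (nat_lit 208)))))) (XT.nd (nat_lit 468) (nat_lit 760) (nat_lit 0) (XT.nd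 (nat_lit 234) (nat_lit 608) (nat_lit 0) (XT.nd (nat_lit 78) (nat_lit 304) (nat_lit 0) (XT.lf (nat_lit 0) (nat_lit 3726814883) (nat_lit 380) (nat_lit 4924659104) (nat_lit 76) (nat_lit 2650474515) (nat_lit 78) (nat_lit 5) (nat_lit 83) (nat_lit 5) (nat_lit 79) (nat_lit 5) (nat_lit 315) (nat_lit 258) (nat_lit 207)) (XT.nd (nat_lit 78) (nat_lit 0) (nat_lit 0) (XT.lf (nat_lit 0) (nat_lit 1101662181) (nat_lit 304) (nat_lit 5342165852) (nat_lit 380) (nat_lit 5064122117) (nat_lit 74) (nat_lit 5) (nat_lit 78) (nat_lit 5) (nat_lit 79) (nat_lit 5) (nat_lit 316) (nat_lit 258) (nat_lit 206)) (XT.lf (nat_lit 0) (nat_lit 7354814602) (nat_lit 304) (nat_lit 1898368683) (nat_lit 380) (nat_lit 2466665650) (nat_lit 74) (nat_lit 5) (nat_lit 78) (nat_lit 5) (nat_lit 79) (nat_lit 5) (nat_lit 317) (nat_lit 258) (nat_lit 205)))) (XT.nd (nat_lit 78) (nat_lit 304) (nat_lit 0) (XT.lf (nat_lit 0) (nat_lit 200013572) (nat_lit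 304) (nat_lit 10117398477) (nat_lit 76) (nat_lit 1620810913) (nat_lit 70) (nat_lit 5) (nat_lit 74) (nat_lit 5) (nat_lit 71) (nat_lit 5) (nat_lit 318) (nat_lit 258) (nat_lit 204)) (XT.nd (nat_lit 78) (nat_lit 304) (nat_lit 0) (XT.lf (nat_lit 0) (nat_lit 2922690587) (nat_lit 304) (nat_lit 3978333457) (nat_lit 76) (nat_lit 5260662714) (nat_lit 70) (nat_lit 5) (nat_lit 74) (nat_lit 5) (nat_lit 71) (nat_lit 5) (nat_lit 319) (nat_lit 258) (nat_lit 203)) (XT.lf (nat_lit 0) (nat_lit 2337515887) (nat_lit 304) (nat_lit 3375365265) (nat_lit 380) (nat_lit 6679435669) (nat_lit 66) (nat_lit 5) (nat_lit 70) (nat_lit 5) (nat_lit 71) (nat_lit 5) (nat_lit 320) (nat_lit 258) (nat_lit 202))))) (XT.nd (nat_lit 234) (nat_lit 456) (nat_lit 0) (XT.nd (nat_lit 78) (nat_lit 304) (nat_lit 0) (XT.lf (nat_lit 0) (nat_lit 8593578479) (nat_lit 380) (nat_lit 3760569247) (nat_lit 76) (nat_lit 275550289) (nat_lit 66) (nat_lit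 5) (nat_lit 71) (nat_lit 5) (nat_lit 67) (nat_lit 5) (nat_lit 321) (nat_lit 258) (nat_lit 201)) (XT.nd (nat_lit 78) (nat_lit 76) (nat_lit 0) (XT.lf (nat_lit 0) (nat_lit 2689669521) (nat_lit 228) (nat_lit 8895125182) (nat_lit 304) (nat_lit 1288718208) (nat_lit 63) (nat_lit 5) (nat_lit 66) (nat_lit 5) (nat_lit 67) (nat_lit 5) (nat_lit 322) (nat_lit 258) (nat_lit 200)) (XT.lf (nat_lit 0) (nat_lit 1514360924) (nat_lit 304) (nat_lit 3780296678) (nat_lit 76) (nat_lit 7829473566) (nat_lit 62) (nat_lit 5) (nat_lit 66) (nat_lit 5) (nat_lit 63) (nat_lit 5) (nat_lit 323) (nat_lit 258) (nat_lit 199)))) (XT.nd (nat_lit 156) (nat_lit 228) (nat_lit 0) (XT.nd (nat_lit 78) (nat_lit 0) (nat_lit 0) (XT.lf (nat_lit 0) (nat_lit 2806777812) (nat_lit 228) (nat_lit 1561831102) (nat_lit 304) (nat_lit 9013519136) (nat_lit 59) (nat_lit 5) (nat_lit 62) (nat_lit 5) (nat_lit 63) (nat_lit 5) (nat_lit 324) (nat_lit 258) (nat_lit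 198)) (XT.lf (nat_lit 0) (nat_lit 7335328516) (nat_lit 304) (nat_lit 4051055986) (nat_lit 76) (nat_lit 2260706290) (nat_lit 59) (nat_lit 5) (nat_lit 63) (nat_lit 5) (nat_lit 60) (nat_lit 5) (nat_lit 325) (nat_lit 258) (nat_lit 197))) (XT.nd (nat_lit 78) (nat_lit 0) (nat_lit 0) (XT.lf (nat_lit 0) (nat_lit 2655843134) (nat_lit 228) (nat_lit 7743527241) (nat_lit 304) (nat_lit 3520412791) (nat_lit 56) (nat_lit 5) (nat_lit 59) (nat_lit 5) (nat_lit 60) (nat_lit 5) (nat_lit 326) (nat_lit 258) (nat_lit 196)) (XT.lf (nat_lit 0) (nat_lit 9597991706) (nat_lit 228) (nat_lit 3966057522) (nat_lit 304) (nat_lit 636375095) (nat_lit 56) (nat_lit 5) (nat_lit 59) (nat_lit 5) (nat_lit 60) (nat_lit 5) (nat_lit 327) (nat_lit 258) (nat_lit 195))))))))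
noncomputable def xc101 : XT := (XT.nd (nat_lit 2028) (nat_lit 988) (nat_lit 0) (XT.nd (nat_lit 1014) (nat_lit 912) (nat_lit 0) (XT.nd (nat_lit 468) (nat_lit 608) (nat_lit 0) (XT.nd (nat_lit 234) (nat_lit 304) (nat_lit 0) (XT.nd (nat_lit 78) (nat_lit 152) (nat_lit 0) (XT.lf (nat_lit 0) (nat_lit 2231803401) (nat_lit 228) (nat_lit 46693589) (nat_lit 304) (nat_lit 12210646540) (nat_lit 52) (nat_lit 5) (nat_lit 55) (nat_lit 5) (nat_lit 56) (nat_lit 5) (nat_lit 328) (nat_lit 258) (nat_lit 194)) (XT.nd (nat_lit 78) (nat_lit 152) (nat_lit 0) (XT.lf (nat_lit 0) (nat_lit 5322026560) (nat_lit 304) (nat_lit 5513393611) (nat_lit 76) (nat_lit 3949322044) (nat_lit 52) (nat_lit 5) (nat_lit 56) (nat_lit 5) (nat_lit 53) (nat_lit 5) (nat_lit 329) (nat_lit 258) (nat_lit 193)) (XT.lf (nat_lit 0) (nat_lit 1412835003) (nat_lit 152) (nat_lit 7027691135) (nat_lit 228) (nat_lit 6649198998) (nat_lit 50) (nat_lit 5) (nat_lit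 52) (nat_lit 5) (nat_lit 53) (nat_lit 5) (nat_lit 330) (nat_lit 258) (nat_lit 192)))) (XT.nd (nat_lit 78) (nat_lit 304) (nat_lit 0) (XT.lf (nat_lit 0) (nat_lit 8613188347) (nat_lit 152) (nat_lit 3065123698) (nat_lit 228) (nat_lit 3724798992) (nat_lit 50) (nat_lit 5) (nat_lit 52) (nat_lit 5) (nat_lit 53) (nat_lit 5) (nat_lit 331) (nat_lit 258) (nat_lit 191)) (XT.nd (nat_lit 78) (nat_lit 76) (nat_lit 0) (XT.lf (nat_lit 0) (nat_lit 252754169) (nat_lit 228) (nat_lit 14743449281) (nat_lit 304) (nat_lit 730230600) (nat_lit 47) (nat_lit 5) (nat_lit 50) (nat_lit 5) (nat_lit 51) (nat_lit 5) (nat_lit 332) (nat_lit 258) (nat_lit 190)) (XT.lf (nat_lit 0) (nat_lit 2378704776) (nat_lit 304) (nat_lit 8511371648) (nat_lit 76) (nat_lit 5166610658) (nat_lit 46) (nat_lit 5) (nat_lit 50) (nat_lit 5) (nat_lit 47) (nat_lit 5) (nat_lit 333) (nat_lit 258) (nat_lit 189))))) (XT.nd (nat_lit 234) (nat_lit 456) (nat_lit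 0) (XT.nd (nat_lit 78) (nat_lit 152) (nat_lit 0) (XT.lf (nat_lit 0) (nat_lit 5537956390) (nat_lit 304) (nat_lit 1392291696) (nat_lit 76) (nat_lit 9467253566) (nat_lit 46) (nat_lit 5) (nat_lit 50) (nat_lit 5) (nat_lit 47) (nat_lit 5) (nat_lit 334) (nat_lit 258) (nat_lit 188)) (XT.nd (nat_lit 78) (nat_lit 0) (nat_lit 0) (XT.lf (nat_lit 0) (nat_lit 6014157836) (nat_lit 152) (nat_lit 2808188107) (nat_lit 228) (nat_lit 7925305842) (nat_lit 44) (nat_lit 5) (nat_lit 46) (nat_lit 5) (nat_lit 47) (nat_lit 5) (nat_lit 335) (nat_lit 258) (nat_lit 187)) (XT.lf (nat_lit 0) (nat_lit 12206063363) (nat_lit 228) (nat_lit 3494313305) (nat_lit 76) (nat_lit 1407927168) (nat_lit 44) (nat_lit 5) (nat_lit 47) (nat_lit 5) (nat_lit 45) (nat_lit 5) (nat_lit 336) (nat_lit 258) (nat_lit 186)))) (XT.nd (nat_lit 156) (nat_lit 152) (nat_lit 0) (XT.nd (nat_lit 78) (nat_lit 76) (nat_lit 0) (XT.lf (nat_lit 0) (nat_lit 3969155037)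 (nat_lit 228) (nat_lit 11761667005) (nat_lit 304) (nat_lit 1747788193) (nat_lit 41) (nat_lit 5) (nat_lit 44) (nat_lit 5) (nat_lit 45) (nat_lit 5) (nat_lit 337) (nat_lit 258) (nat_lit 185)) (XT.lf (nat_lit 0) (nat_lit 1481296091) (nat_lit 304) (nat_lit 6188253676) (nat_lit 76) (nat_lit 10189783786) (nat_lit 40) (nat_lit 5) (nat_lit 44) (nat_lit 5) (nat_lit 41) (nat_lit 5) (nat_lit 338) (nat_lit 258) (nat_lit 184))) (XT.nd (nat_lit 78) (nat_lit 0) (nat_lit 0) (XT.lf (nat_lit 0) (nat_lit 1319608901) (nat_lit 152) (nat_lit 3439626375) (nat_lit 228) (nat_lit 13492129738) (nat_lit 38) (nat_lit 5) (nat_lit 40) (nat_lit 5) (nat_lit 41) (nat_lit 5) (nat_lit 339) (nat_lit 258) (nat_lit 183)) (XT.lf (nat_lit 0) (nat_lit 8182062317) (nat_lit 228) (nat_lit 9524795260) (nat_lit 76) (nat_lit 946921724) (nat_lit 38) (nat_lit 5) (nat_lit 41) (nat_lit 5) (nat_lit 39) (nat_lit 5) (nat_lit 340) (nat_lit 258) (nat_lit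 182)))))) (XT.nd (nat_lit 468) (nat_lit 532) (nat_lit 0) (XT.nd (nat_lit 234) (nat_lit 228) (nat_lit 0) (XT.nd (nat_lit 78) (nat_lit 152) (nat_lit 0) (XT.lf (nat_lit 0) (nat_lit 11716994061) (nat_lit 228) (nat_lit 1970106207) (nat_lit 76) (nat_lit 5380900993) (nat_lit 38) (nat_lit 5) (nat_lit 41) (nat_lit 5) (nat_lit 39) (nat_lit 5) (nat_lit 341) (nat_lit 258) (nat_lit 181)) (XT.nd (nat_lit 78) (nat_lit 0) (nat_lit 0) (XT.lf (nat_lit 0) (nat_lit 5886849664) (nat_lit 152) (nat_lit 9503793824) (nat_lit 228) (nat_lit 4103043615) (nat_lit 36) (nat_lit 5) (nat_lit 38) (nat_lit 5) (nat_lit 39) (nat_lit 5) (nat_lit 342) (nat_lit 258) (nat_lit 180)) (XT.lf (nat_lit 0) (nat_lit 13981036743) (nat_lit 152) (nat_lit 5189764674) (nat_lit 228) (nat_lit 761469948) (nat_lit 36) (nat_lit 5) (nat_lit 38) (nat_lit 5) (nat_lit 39) (nat_lit 5) (nat_lit 343) (nat_lit 258) (nat_lit 179)))) (XT.nd (nat_lit 78) (nat_lit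 0) (nat_lit 0) (XT.lf (nat_lit 0) (nat_lit 1907281654) (nat_lit 152) (nat_lit 715949160) (nat_lit 228) (nat_lit 17760169740) (nat_lit 33) (nat_lit 5) (nat_lit 35) (nat_lit 5) (nat_lit 36) (nat_lit 5) (nat_lit 344) (nat_lit 258) (nat_lit 178)) (XT.nd (nat_lit 78) (nat_lit 0) (nat_lit 0) (XT.lf (nat_lit 0) (nat_lit 6169287414) (nat_lit 228) (nat_lit 10806649502) (nat_lit 76) (nat_lit 3869662323) (nat_lit 33) (nat_lit 5) (nat_lit 36) (nat_lit 5) (nat_lit 34) (nat_lit 5) (nat_lit 345) (nat_lit 258) (nat_lit 177)) (XT.lf (nat_lit 0) (nat_lit 9806499495) (nat_lit 228) (nat_lit 2951455769) (nat_lit 76) (nat_lit 8564180345) (nat_lit 33) (nat_lit 5) (nat_lit 36) (nat_lit 5) (nat_lit 34) (nat_lit 5) (nat_lit 346) (nat_lit 258) (nat_lit 176))))) (XT.nd (nat_lit 234) (nat_lit 380) (nat_lit 0) (XT.nd (nat_lit 78) (nat_lit 0) (nat_lit 0) (XT.lf (nat_lit 0) (nat_lit 5204772050) (nat_lit 152) (nat_lit 8376422465)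 (nat_lit 228) (nat_lit 8230937062) (nat_lit 31) (nat_lit 5) (nat_lit 33) (nat_lit 5) (nat_lit 34) (nat_lit 5) (nat_lit 347) (nat_lit 258) (nat_lit 175)) (XT.nd (nat_lit 78) (nat_lit 0) (nat_lit 0) (XT.lf (nat_lit 0) (nat_lit 13630357840) (nat_lit 152) (nat_lit 3847198175) (nat_lit 228) (nat_lit 4839032722) (nat_lit 31) (nat_lit 5) (nat_lit 33) (nat_lit 5) (nat_lit 34) (nat_lit 5) (nat_lit 348) (nat_lit 258) (nat_lit 174)) (XT.lf (nat_lit 0) (nat_lit 21477780044) (nat_lit 228) (nat_lit 570619250) (nat_lit 76) (nat_lit 788184839) (nat_lit 31) (nat_lit 5) (nat_lit 34) (nat_lit 5) (nat_lit 32) (nat_lit 4) (nat_lit 349) (nat_lit 258) (nat_lit 173)))) (XT.nd (nat_lit 156) (nat_lit 152) (nat_lit 0) (XT.nd (nat_lit 78) (nat_lit 0) (nat_lit 0) (XT.lf (nat_lit 0) (nat_lit 2276766877) (nat_lit 228) (nat_lit 15522035657) (nat_lit 76) (nat_lit 5569916778) (nat_lit 28) (nat_lit 5) (nat_lit 31) (nat_lit 5)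 (nat_lit 29) (nat_lit 5) (nat_lit 350) (nat_lit 258) (nat_lit 172)) (XT.lf (nat_lit 0) (nat_lit 5979685309) (nat_lit 228) (nat_lit 7436293491) (nat_lit 76) (nat_lit 10500880925) (nat_lit 28) (nat_lit 5) (nat_lit 31) (nat_lit 5) (nat_lit 29) (nat_lit 5) (nat_lit 351) (nat_lit 258) (nat_lit 171))) (XT.nd (nat_lit 78) (nat_lit 0) (nat_lit 0) (XT.lf (nat_lit 0) (nat_lit 875770537) (nat_lit 152) (nat_lit 8906700137) (nat_lit 228) (nat_lit 14699322440) (nat_lit 26) (nat_lit 5) (nat_lit 28) (nat_lit 5) (nat_lit 29) (nat_lit 5) (nat_lit 352) (nat_lit 258) (nat_lit 170)) (XT.lf (nat_lit 0) (nat_lit 9556620233) (nat_lit 152) (nat_lit 4198426960) (nat_lit 228) (nat_lit 11306967878) (nat_lit 26) (nat_lit 5) (nat_lit 28) (nat_lit 5) (nat_lit 29) (nat_lit 5) (nat_lit 353) (nat_lit 258) (nat_lit 169))))))) (XT.nd (nat_lit 1014) (nat_lit 380) (nat_lit 0) (XT.nd (nat_lit 468) (nat_lit 304) (nat_lit 0) (XT.nd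 (nat_lit 234) (nat_lit 228) (nat_lit 0) (XT.nd (nat_lit 78) (nat_lit 76) (nat_lit 0) (XT.lf (nat_lit 0) (nat_lit 17834112738) (nat_lit 228) (nat_lit 7200507274) (nat_lit 76) (nat_lit 625415773) (nat_lit 26) (nat_lit 5) (nat_lit 29) (nat_lit 5) (nat_lit 27) (nat_lit 4) (nat_lit 354) (nat_lit 258) (nat_lit 168)) (XT.nd (nat_lit 78) (nat_lit 0) (nat_lit 0) (XT.lf (nat_lit 0) (nat_lit 1305887217) (nat_lit 76) (nat_lit 20765389468) (nat_lit 152) (nat_lit 4203659758) (nat_lit 25) (nat_lit 5) (nat_lit 26) (nat_lit 5) (nat_lit 27) (nat_lit 4) (nat_lit 355) (nat_lit 258) (nat_lit 167)) (XT.lf (nat_lit 0) (nat_lit 10183832555) (nat_lit 76) (nat_lit 16306274308) (nat_lit 152) (nat_lit 416551511) (nat_lit 25) (nat_lit 5) (nat_lit 26) (nat_lit 5) (nat_lit 27) (nat_lit 4) (nat_lit 356) (nat_lit 258) (nat_lit 166)))) (XT.nd (nat_lit 78) (nat_lit 152) (nat_lit 0) (XT.lf (nat_lit 0) (nat_lit 3398365672) (nat_lit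 152) (nat_lit 8293406722) (nat_lit 76) (nat_lit 15865099451) (nat_lit 24) (nat_lit 5) (nat_lit 26) (nat_lit 5) (nat_lit 25) (nat_lit 5) (nat_lit 357) (nat_lit 258) (nat_lit 165)) (XT.nd (nat_lit 78) (nat_lit 0) (nat_lit 0) (XT.lf (nat_lit 0) (nat_lit 362030299) (nat_lit 152) (nat_lit 6943511151) (nat_lit 228) (nat_lit 20921350917) (nat_lit 22) (nat_lit 5) (nat_lit 24) (nat_lit 5) (nat_lit 25) (nat_lit 5) (nat_lit 358) (nat_lit 258) (nat_lit 164)) (XT.lf (nat_lit 0) (nat_lit 9417624451) (nat_lit 152) (nat_lit 1978978586) (nat_lit 228) (nat_lit 17518419941) (nat_lit 22) (nat_lit 5) (nat_lit 24) (nat_lit 5) (nat_lit 25) (nat_lit 5) (nat_lit 359) (nat_lit 258) (nat_lit 163))))) (XT.nd (nat_lit 234) (nat_lit 228) (nat_lit 0) (XT.nd (nat_lit 78) (nat_lit 76) (nat_lit 0) (XT.lf (nat_lit 0) (nat_lit 15623831812) (nat_lit 228) (nat_lit 10938085434) (nat_lit 76) (nat_lit 3061486510) (nat_lit 22) (nat_lit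 5) (nat_lit 25) (nat_lit 5) (nat_lit 23) (nat_lit 4) (nat_lit 360) (nat_lit 258) (nat_lit 162)) (XT.nd (nat_lit 78) (nat_lit 76) (nat_lit 0) (XT.lf (nat_lit 0) (nat_lit 19981262274) (nat_lit 228) (nat_lit 2169784581) (nat_lit 76) (nat_lit 8201896598) (nat_lit 22) (nat_lit 5) (nat_lit 25) (nat_lit 5) (nat_lit 23) (nat_lit 4) (nat_lit 361) (nat_lit 258) (nat_lit 161)) (XT.lf (nat_lit 0) (nat_lit 6970202563) (nat_lit 76) (nat_lit 17550478019) (nat_lit 152) (nat_lit 6582159584) (nat_lit 21) (nat_lit 5) (nat_lit 22) (nat_lit 5) (nat_lit 23) (nat_lit 4) (nat_lit 362) (nat_lit 258) (nat_lit 160)))) (XT.nd (nat_lit 156) (nat_lit 152) (nat_lit 0) (XT.nd (nat_lit 78) (nat_lit 76) (nat_lit 0) (XT.lf (nat_lit 0) (nat_lit 16401759685) (nat_lit 76) (nat_lit 12800893186) (nat_lit 152) (nat_lit 2672398287) (nat_lit 21) (nat_lit 5) (nat_lit 22) (nat_lit 5) (nat_lit 23) (nat_lit 4) (nat_lit 363) (nat_lit 258)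 (nat_lit 159)) (XT.lf (nat_lit 0) (nat_lit 1312977607) (nat_lit 152) (nat_lit 6593816695) (nat_lit 76) (nat_lit 24763708876) (nat_lit 20) (nat_lit 5) (nat_lit 22) (nat_lit 5) (nat_lit 21) (nat_lit 5) (nat_lit 364) (nat_lit 258) (nat_lit 158))) (XT.nd (nat_lit 78) (nat_lit 0) (nat_lit 0) (XT.lf (nat_lit 0) (nat_lit 2549478113) (nat_lit 152) (nat_lit 2824431225) (nat_lit 228) (nat_lit 28114832222) (nat_lit 18) (nat_lit 5) (nat_lit 20) (nat_lit 5) (nat_lit 21) (nat_lit 5) (nat_lit 365) (nat_lit 258) (nat_lit 157)) (XT.lf (nat_lit 0) (nat_lit 9632362512) (nat_lit 228) (nat_lit 22277061800) (nat_lit 76) (nat_lit 2419839546) (nat_lit 18) (nat_lit 5) (nat_lit 21) (nat_lit 5) (nat_lit 19) (nat_lit 4) (nat_lit 366) (nat_lit 258) (nat_lit 156)))))) (XT.nd (nat_lit 546) (nat_lit 76) (nat_lit 0) (XT.nd (nat_lit 234) (nat_lit 228) (nat_lit 0) (XT.nd (nat_lit 78) (nat_lit 76) (nat_lit 0) (XT.lf (nat_lit 0)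 (nat_lit 14032242054) (nat_lit 228) (nat_lit 13408144467) (nat_lit 76) (nat_lit 7754212470) (nat_lit 18) (nat_lit 5) (nat_lit 21) (nat_lit 5) (nat_lit 19) (nat_lit 4) (nat_lit 367) (nat_lit 258) (nat_lit 155)) (XT.nd (nat_lit 78) (nat_lit 76) (nat_lit 0) (XT.lf (nat_lit 0) (nat_lit 18550242359) (nat_lit 228) (nat_lit 4297611750) (nat_lit 76) (nat_lit 13238463474) (nat_lit 18) (nat_lit 5) (nat_lit 21) (nat_lit 5) (nat_lit 19) (nat_lit 4) (nat_lit 368) (nat_lit 258) (nat_lit 154)) (XT.lf (nat_lit 0) (nat_lit 5163250629) (nat_lit 76) (nat_lit 18076692887) (nat_lit 152) (nat_lit 13763766316) (nat_lit 17) (nat_lit 5) (nat_lit 18) (nat_lit 5) (nat_lit 19) (nat_lit 4) (nat_lit 369) (nat_lit 258) (nat_lit 153)))) (XT.nd (nat_lit 156) (nat_lit 228) (nat_lit 0) (XT.nd (nat_lit 78) (nat_lit 0) (nat_lit 0) (XT.lf (nat_lit 0) (nat_lit 14972528516) (nat_lit 76) (nat_lit 13127899574) (nat_lit 152) (nat_lit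 9847299714) (nat_lit 17) (nat_lit 5) (nat_lit 18) (nat_lit 5) (nat_lit 19) (nat_lit 4) (nat_lit 370) (nat_lit 258) (nat_lit 152)) (XT.lf (nat_lit 0) (nat_lit 25053262223) (nat_lit 76) (nat_lit 8040547433) (nat_lit 152) (nat_lit 5826650716) (nat_lit 17) (nat_lit 5) (nat_lit 18) (nat_lit 5) (nat_lit 19) (nat_lit 4) (nat_lit 371) (nat_lit 258) (nat_lit 151))) (XT.nd (nat_lit 78) (nat_lit 228) (nat_lit 0) (XT.lf (nat_lit 0) (nat_lit 35414260158) (nat_lit 76) (nat_lit 2810191204) (nat_lit 152) (nat_lit 1698306132) (nat_lit 17) (nat_lit 5) (nat_lit 18) (nat_lit 5) (nat_lit 19) (nat_lit 4) (nat_lit 372) (nat_lit 258) (nat_lit 150)) (XT.lf (nat_lit 0) (nat_lit 2567018244) (nat_lit 228) (nat_lit 35792838459) (nat_lit 76) (nat_lit 2592647366) (nat_lit 14) (nat_lit 5) (nat_lit 17) (nat_lit 5) (nat_lit 15) (nat_lit 4) (nat_lit 373) (nat_lit 258) (nat_lit 149))))) (XT.nd (nat_lit 234) (nat_lit 76) (nat_lit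 0) (XT.nd (nat_lit 78) (nat_lit 0) (nat_lit 0) (XT.lf (nat_lit 0) (nat_lit 6987727720) (nat_lit 228) (nat_lit 26868403229) (nat_lit 76) (nat_lit 8154666657) (nat_lit 14) (nat_lit 5) (nat_lit 17) (nat_lit 5) (nat_lit 15) (nat_lit 4) (nat_lit 374) (nat_lit 258) (nat_lit 148)) (XT.nd (nat_lit 78) (nat_lit 0) (nat_lit 0) (XT.lf (nat_lit 0) (nat_lit 11529173257) (nat_lit 228) (nat_lit 17697428989) (nat_lit 76) (nat_lit 13874599892) (nat_lit 14) (nat_lit 5) (nat_lit 17) (nat_lit 5) (nat_lit 15) (nat_lit 4) (nat_lit 375) (nat_lit 258) (nat_lit 147)) (XT.lf (nat_lit 0) (nat_lit 16195323108) (nat_lit 228) (nat_lit 8271902266) (nat_lit 76) (nat_lit 19757445071) (nat_lit 14) (nat_lit 5) (nat_lit 17) (nat_lit 5) (nat_lit 15) (nat_lit 4) (nat_lit 376) (nat_lit 258) (nat_lit 146)))) (XT.nd (nat_lit 156) (nat_lit 0) (nat_lit 0) (XT.nd (nat_lit 78) (nat_lit 0) (nat_lit 0) (XT.lf (nat_lit 0) (nat_lit 1444602227)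 (nat_lit 76) (nat_lit 19559538665) (nat_lit 152) (nat_lit 24377626717) (nat_lit 13) (nat_lit 5) (nat_lit 14) (nat_lit 5) (nat_lit 15) (nat_lit 4) (nat_lit 377) (nat_lit 258) (nat_lit 145)) (XT.lf (nat_lit 0) (nat_lit 11602386179) (nat_lit 76) (nat_lit 14427300209) (nat_lit 152) (nat_lit 20541722559) (nat_lit 13) (nat_lit 5) (nat_lit 14) (nat_lit 5) (nat_lit 15) (nat_lit 4) (nat_lit 378) (nat_lit 258) (nat_lit 144))) (XT.nd (nat_lit 78) (nat_lit 0) (nat_lit 0) (XT.lf (nat_lit 0) (nat_lit 22045698246) (nat_lit 76) (nat_lit 9149555522) (nat_lit 152) (nat_lit 16601813095) (nat_lit 13) (nat_lit 5) (nat_lit 14) (nat_lit 5) (nat_lit 15) (nat_lit 4) (nat_lit 379) (nat_lit 258) (nat_lit 143)) (XT.lf (nat_lit 0) (nat_lit 32783663653) (nat_lit 76) (nat_lit 3721692981) (nat_lit 152) (nat_lit 12554455688) (nat_lit 13) (nat_lit 5) (nat_lit 14) (nat_lit 5) (nat_lit 15) (nat_lit 4) (nat_lit 380) (nat_lit 258)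 (nat_lit 142))))))))
noncomputable def xc102 : XT := (XT.nd (nat_lit 2028) (nat_lit 0) (nat_lit 0) (XT.nd (nat_lit 1014) (nat_lit 228) (nat_lit 0) (XT.nd (nat_lit 468) (nat_lit 76) (nat_lit 0) (XT.nd (nat_lit 234) (nat_lit 0) (nat_lit 0) (XT.nd (nat_lit 78) (nat_lit 152) (nat_lit 0) (XT.lf (nat_lit 0) (nat_lit 41982524244) (nat_lit 152) (nat_lit 6552972966) (nat_lit 0) (nat_lit 1824714802) (nat_lit 13) (nat_lit 5) (nat_lit 15) (nat_lit 4) (nat_lit 13) (nat_lit 4) (nat_lit 381) (nat_lit 258) (nat_lit 141)) (XT.nd (nat_lit 78) (nat_lit 76) (nat_lit 0) (XT.lf (nat_lit 0) (nat_lit 3475059698) (nat_lit 76) (nat_lit 44209292876) (nat_lit 76) (nat_lit 4013465327) (nat_lit 12) (nat_lit 4) (nat_lit 13) (nat_lit 5) (nat_lit 13) (nat_lit 4) (nat_lit 382) (nat_lit 258) (nat_lit 140)) (XT.lf (nat_lit 0) (nat_lit 529222449) (nat_lit 152) (nat_lit 39158416759) (nat_lit 76) (nat_lit 13386070027) (nat_lit 11)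 (nat_lit 5) (nat_lit 13) (nat_lit 5) (nat_lit 12) (nat_lit 4) (nat_lit 383) (nat_lit 258) (nat_lit 139)))) (XT.nd (nat_lit 78) (nat_lit 0) (nat_lit 0) (XT.lf (nat_lit 0) (nat_lit 5117922918) (nat_lit 152) (nat_lit 29879190518) (nat_lit 76) (nat_lit 19492863984) (nat_lit 11) (nat_lit 5) (nat_lit 13) (nat_lit 5) (nat_lit 12) (nat_lit 4) (nat_lit 384) (nat_lit 258) (nat_lit 138)) (XT.nd (nat_lit 78) (nat_lit 0) (nat_lit 0) (XT.lf (nat_lit 0) (nat_lit 9834962789) (nat_lit 152) (nat_lit 20338391535) (nat_lit 76) (nat_lit 25775663045) (nat_lit 11) (nat_lit 5) (nat_lit 13) (nat_lit 5) (nat_lit 12) (nat_lit 4) (nat_lit 385) (nat_lit 258) (nat_lit 137)) (XT.lf (nat_lit 0) (nat_lit 14684463745) (nat_lit 152) (nat_lit 10527683189) (nat_lit 76) (nat_lit 32239957034) (nat_lit 11) (nat_lit 5) (nat_lit 13) (nat_lit 5) (nat_lit 12) (nat_lit 4) (nat_lit 386) (nat_lit 258) (nat_lit 136))))) (XT.nd (nat_lit 234)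 (nat_lit 0) (nat_lit 0) (XT.nd (nat_lit 78) (nat_lit 76) (nat_lit 0) (XT.lf (nat_lit 0) (nat_lit 19670663215) (nat_lit 152) (nat_lit 438493017) (nat_lit 76) (nat_lit 38891394365) (nat_lit 11) (nat_lit 5) (nat_lit 13) (nat_lit 5) (nat_lit 12) (nat_lit 4) (nat_lit 387) (nat_lit 258) (nat_lit 135)) (XT.nd (nat_lit 78) (nat_lit 0) (nat_lit 0) (XT.lf (nat_lit 0) (nat_lit 10135780360) (nat_lit 76) (nat_lit 14759569034) (nat_lit 152) (nat_lit 35697437933) (nat_lit 10) (nat_lit 5) (nat_lit 11) (nat_lit 5) (nat_lit 12) (nat_lit 4) (nat_lit 388) (nat_lit 258) (nat_lit 134)) (XT.lf (nat_lit 0) (nat_lit 21021043299) (nat_lit 76) (nat_lit 9251732272) (nat_lit 152) (nat_lit 31960139221) (nat_lit 10) (nat_lit 5) (nat_lit 11) (nat_lit 5) (nat_lit 12) (nat_lit 4) (nat_lit 389) (nat_lit 258) (nat_lit 133)))) (XT.nd (nat_lit 156) (nat_lit 0) (nat_lit 0) (XT.nd (nat_lit 78) (nat_lit 0) (nat_lit 0) (XT.lf (nat_lit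 0) (nat_lit 32218080325) (nat_lit 76) (nat_lit 3585261192) (nat_lit 152) (nat_lit 28119153564) (nat_lit 10) (nat_lit 5) (nat_lit 11) (nat_lit 5) (nat_lit 12) (nat_lit 4) (nat_lit 390) (nat_lit 258) (nat_lit 132)) (XT.lf (nat_lit 0) (nat_lit 41513458113) (nat_lit 152) (nat_lit 21947907618) (nat_lit 0) (nat_lit 2200991445) (nat_lit 10) (nat_lit 5) (nat_lit 12) (nat_lit 4) (nat_lit 10) (nat_lit 4) (nat_lit 391) (nat_lit 258) (nat_lit 131))) (XT.nd (nat_lit 78) (nat_lit 0) (nat_lit 0) (XT.lf (nat_lit 0) (nat_lit 47422602756) (nat_lit 152) (nat_lit 11948312952) (nat_lit 0) (nat_lit 8082670998) (nat_lit 10) (nat_lit 5) (nat_lit 12) (nat_lit 4) (nat_lit 10) (nat_lit 4) (nat_lit 392) (nat_lit 258) (nat_lit 130)) (XT.lf (nat_lit 0) (nat_lit 53501475052) (nat_lit 152) (nat_lit 1662429523) (nat_lit 0) (nat_lit 14134878159) (nat_lit 10) (nat_lit 5) (nat_lit 12) (nat_lit 4) (nat_lit 10) (nat_lit 4) (nat_lit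 393) (nat_lit 258) (nat_lit 129)))))) (XT.nd (nat_lit 468) (nat_lit 76) (nat_lit 0) (XT.nd (nat_lit 234) (nat_lit 76) (nat_lit 0) (XT.nd (nat_lit 78) (nat_lit 0) (nat_lit 0) (XT.lf (nat_lit 0) (nat_lit 9096230554) (nat_lit 76) (nat_lit 50746594617) (nat_lit 76) (nat_lit 11354109243) (nat_lit 9) (nat_lit 4) (nat_lit 10) (nat_lit 5) (nat_lit 10) (nat_lit 4) (nat_lit 394) (nat_lit 258) (nat_lit 128)) (XT.nd (nat_lit 78) (nat_lit 0) (nat_lit 0) (XT.lf (nat_lit 0) (nat_lit 20198558927) (nat_lit 76) (nat_lit 46185404074) (nat_lit 76) (nat_lit 6767784253) (nat_lit 9) (nat_lit 4) (nat_lit 10) (nat_lit 5) (nat_lit 10) (nat_lit 4) (nat_lit 395) (nat_lit 258) (nat_lit 127)) (XT.lf (nat_lit 0) (nat_lit 31621171052) (nat_lit 76) (nat_lit 41493134720) (nat_lit 76) (nat_lit 2051112523) (nat_lit 9) (nat_lit 4) (nat_lit 10) (nat_lit 5) (nat_lit 10) (nat_lit 4) (nat_lit 396) (nat_lit 258) (nat_lit 126)))) (XT.nd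 (nat_lit 78) (nat_lit 0) (nat_lit 0) (XT.lf (nat_lit 0) (nat_lit 2745388692) (nat_lit 152) (nat_lit 33892574778) (nat_lit 76) (nat_lit 40600936118) (nat_lit 8) (nat_lit 5) (nat_lit 10) (nat_lit 5) (nat_lit 9) (nat_lit 4) (nat_lit 397) (nat_lit 258) (nat_lit 125)) (XT.nd (nat_lit 78) (nat_lit 0) (nat_lit 0) (XT.lf (nat_lit 0) (nat_lit 7637865606) (nat_lit 152) (nat_lit 23983848223) (nat_lit 76) (nat_lit 47752465759) (nat_lit 8) (nat_lit 5) (nat_lit 10) (nat_lit 5) (nat_lit 9) (nat_lit 4) (nat_lit 398) (nat_lit 258) (nat_lit 124)) (XT.lf (nat_lit 0) (nat_lit 12670617790) (nat_lit 152) (nat_lit 13789692919) (nat_lit 76) (nat_lit 55113404862) (nat_lit 8) (nat_lit 5) (nat_lit 10) (nat_lit 5) (nat_lit 9) (nat_lit 4) (nat_lit 399) (nat_lit 258) (nat_lit 123))))) (XT.nd (nat_lit 234) (nat_lit 0) (nat_lit 0) (XT.nd (nat_lit 78) (nat_lit 76) (nat_lit 0) (XT.lf (nat_lit 0) (nat_lit 17848042797) (nat_lit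 152) (nat_lit 3301201351) (nat_lit 76) (nat_lit 62690185315) (nat_lit 8) (nat_lit 5) (nat_lit 10) (nat_lit 5) (nat_lit 9) (nat_lit 4) (nat_lit 400) (nat_lit 258) (nat_lit 122)) (XT.nd (nat_lit 78) (nat_lit 0) (nat_lit 0) (XT.lf (nat_lit 0) (nat_lit 7639872613) (nat_lit 76) (nat_lit 15608231104) (nat_lit 152) (nat_lit 62922994120) (nat_lit 7) (nat_lit 5) (nat_lit 8) (nat_lit 5) (nat_lit 9) (nat_lit 4) (nat_lit 401) (nat_lit 258) (nat_lit 121)) (XT.lf (nat_lit 0) (nat_lit 18965805757) (nat_lit 76) (nat_lit 9871642664) (nat_lit 152) (nat_lit 59734451773) (nat_lit 7) (nat_lit 5) (nat_lit 8) (nat_lit 5) (nat_lit 9) (nat_lit 4) (nat_lit 402) (nat_lit 258) (nat_lit 120)))) (XT.nd (nat_lit 156) (nat_lit 0) (nat_lit 0) (XT.nd (nat_lit 78) (nat_lit 0) (nat_lit 0) (XT.lf (nat_lit 0) (nat_lit 30620794146) (nat_lit 76) (nat_lit 3967801937) (nat_lit 152) (nat_lit 56456309180) (nat_lit 7) (nat_lit 5) (nat_lit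 8) (nat_lit 5) (nat_lit 9) (nat_lit 4) (nat_lit 403) (nat_lit 258) (nat_lit 119)) (XT.lf (nat_lit 0) (nat_lit 40526839688) (nat_lit 152) (nat_lit 50997519882) (nat_lit 0) (nat_lit 2067306323) (nat_lit 7) (nat_lit 5) (nat_lit 9) (nat_lit 4) (nat_lit 7) (nat_lit 4) (nat_lit 404) (nat_lit 258) (nat_lit 118))) (XT.nd (nat_lit 78) (nat_lit 0) (nat_lit 0) (XT.lf (nat_lit 0) (nat_lit 46676931867) (nat_lit 152) (nat_lit 41337647781) (nat_lit 0) (nat_lit 8199240843) (nat_lit 7) (nat_lit 5) (nat_lit 9) (nat_lit 4) (nat_lit 7) (nat_lit 4) (nat_lit 405) (nat_lit 258) (nat_lit 117)) (XT.lf (nat_lit 0) (nat_lit 53006105549) (nat_lit 152) (nat_lit 31397913210) (nat_lit 0) (nat_lit 14510785729) (nat_lit 7) (nat_lit 5) (nat_lit 9) (nat_lit 4) (nat_lit 7) (nat_lit 4) (nat_lit 406) (nat_lit 258) (nat_lit 116))))))) (XT.nd (nat_lit 30186) (nat_lit 0) (nat_lit 14744) (XT.nd (nat_lit 29640) (nat_lit 0) (nat_lit 20900)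 (XT.nd (nat_lit 29406) (nat_lit 0) (nat_lit 22040) (XT.nd (nat_lit 78) (nat_lit 0) (nat_lit 0) (XT.lf (nat_lit 0) (nat_lit 59519891080) (nat_lit 152) (nat_lit 21169630963) (nat_lit 0) (nat_lit 21007455925) (nat_lit 7) (nat_lit 5) (nat_lit 9) (nat_lit 4) (nat_lit 7) (nat_lit 4) (nat_lit 407) (nat_lit 258) (nat_lit 115)) (XT.nd (nat_lit 29250) (nat_lit 0) (nat_lit 22344) (XT.lf (nat_lit 0) (nat_lit 66223980117) (nat_lit 152) (nat_lit 10643863707) (nat_lit 0) (nat_lit 27694928131) (nat_lit 7) (nat_lit 5) (nat_lit 9) (nat_lit 4) (nat_lit 7) (nat_lit 4) (nat_lit 408) (nat_lit 258) (nat_lit 114)) (XT.lf (nat_lit 0) (nat_lit 1495115856) (nat_lit 76) (nat_lit 232965628) (nat_lit 0) (nat_lit 1495115856) (nat_lit 301) (nat_lit 5) (nat_lit 302) (nat_lit 0) (nat_lit 301) (nat_lit 4) (nat_lit 262) (nat_lit 259) (nat_lit 259)))) (XT.nd (nat_lit 78) (nat_lit 228) (nat_lit 0) (XT.lf (nat_lit 0) (nat_lit 2632229277)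 (nat_lit 76) (nat_lit 3291592163) (nat_lit 76) (nat_lit 528546467) (nat_lit 300) (nat_lit 4) (nat_lit 301) (nat_lit 5) (nat_lit 301) (nat_lit 4) (nat_lit 263) (nat_lit 259) (nat_lit 258)) (XT.nd (nat_lit 78) (nat_lit 152) (nat_lit 0) (XT.lf (nat_lit 0) (nat_lit 2331684226) (nat_lit 152) (nat_lit 712295355) (nat_lit 76) (nat_lit 3417337897) (nat_lit 299) (nat_lit 5) (nat_lit 301) (nat_lit 5) (nat_lit 300) (nat_lit 4) (nat_lit 264) (nat_lit 259) (nat_lit 257)) (XT.lf (nat_lit 0) (nat_lit 2470744018) (nat_lit 152) (nat_lit 2711913086) (nat_lit 228) (nat_lit 1290559277) (nat_lit 297) (nat_lit 5) (nat_lit 299) (nat_lit 5) (nat_lit 300) (nat_lit 4) (nat_lit 265) (nat_lit 259) (nat_lit 256))))) (XT.nd (nat_lit 234) (nat_lit 760) (nat_lit 0) (XT.nd (nat_lit 78) (nat_lit 304) (nat_lit 0) (XT.lf (nat_lit 0) (nat_lit 1502114729) (nat_lit 228) (nat_lit 799992474) (nat_lit 76) (nat_lit 4186171832) (nat_lit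 296) (nat_lit 5) (nat_lit 299) (nat_lit 5) (nat_lit 297) (nat_lit 5) (nat_lit 266) (nat_lit 259) (nat_lit 255)) (XT.nd (nat_lit 78) (nat_lit 76) (nat_lit 0) (XT.lf (nat_lit 0) (nat_lit 2473035296) (nat_lit 228) (nat_lit 1799525204) (nat_lit 304) (nat_lit 2233530568) (nat_lit 293) (nat_lit 5) (nat_lit 296) (nat_lit 5) (nat_lit 297) (nat_lit 5) (nat_lit 267) (nat_lit 259) (nat_lit 254)) (XT.lf (nat_lit 0) (nat_lit 495432262) (nat_lit 304) (nat_lit 732120322) (nat_lit 76) (nat_lit 5299809382) (nat_lit 292) (nat_lit 5) (nat_lit 296) (nat_lit 5) (nat_lit 293) (nat_lit 5) (nat_lit 268) (nat_lit 259) (nat_lit 253)))) (XT.nd (nat_lit 156) (nat_lit 456) (nat_lit 0) (XT.nd (nat_lit 78) (nat_lit 0) (nat_lit 0) (XT.lf (nat_lit 0) (nat_lit 2636284619) (nat_lit 304) (nat_lit 550752221) (nat_lit 380) (nat_lit 3364055881) (nat_lit 288) (nat_lit 5) (nat_lit 292) (nat_lit 5) (nat_lit 293) (nat_lit 5) (nat_lit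 269) (nat_lit 259) (nat_lit 252)) (XT.lf (nat_lit 0) (nat_lit 5871265524) (nat_lit 380) (nat_lit 519859584) (nat_lit 76) (nat_lit 187301677) (nat_lit 288) (nat_lit 5) (nat_lit 293) (nat_lit 5) (nat_lit 289) (nat_lit 5) (nat_lit 270) (nat_lit 259) (nat_lit 251))) (XT.nd (nat_lit 78) (nat_lit 0) (nat_lit 0) (XT.lf (nat_lit 0) (nat_lit 1928812659) (nat_lit 456) (nat_lit 3660104078) (nat_lit 76) (nat_lit 1019143111) (nat_lit 282) (nat_lit 5) (nat_lit 288) (nat_lit 5) (nat_lit 283) (nat_lit 5) (nat_lit 271) (nat_lit 259) (nat_lit 250)) (XT.lf (nat_lit 0) (nat_lit 4541795389) (nat_lit 456) (nat_lit 178445767) (nat_lit 76) (nat_lit 1920993063) (nat_lit 282) (nat_lit 5) (nat_lit 288) (nat_lit 5) (nat_lit 283) (nat_lit 5) (nat_lit 272) (nat_lit 259) (nat_lit 249)))))) (XT.nd (nat_lit 546) (nat_lit 3648) (nat_lit 0) (XT.nd (nat_lit 234) (nat_lit 1444) (nat_lit 0) (XT.nd (nat_lit 78) (nat_lit 532) (nat_lit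 0) (XT.lf (nat_lit 0) (nat_lit 488452705) (nat_lit 532) (nat_lit 3269468498) (nat_lit 76) (nat_lit 2919288220) (nat_lit 275) (nat_lit 5) (nat_lit 282) (nat_lit 5) (nat_lit 276) (nat_lit 5) (nat_lit 273) (nat_lit 259) (nat_lit 248)) (XT.nd (nat_lit 78) (nat_lit 0) (nat_lit 0) (XT.lf (nat_lit 0) (nat_lit 313303642) (nat_lit 532) (nat_lit 2713830293) (nat_lit 608) (nat_lit 3689253281) (nat_lit 268) (nat_lit 5) (nat_lit 275) (nat_lit 5) (nat_lit 276) (nat_lit 5) (nat_lit 274) (nat_lit 259) (nat_lit 247)) (XT.lf (nat_lit 0) (nat_lit 4008230140) (nat_lit 532) (nat_lit 1579285740) (nat_lit 608) (nat_lit 1171059629) (nat_lit 268) (nat_lit 5) (nat_lit 275) (nat_lit 5) (nat_lit 276) (nat_lit 5) (nat_lit 275) (nat_lit 259) (nat_lit 246)))) (XT.nd (nat_lit 156) (nat_lit 760) (nat_lit 0) (XT.nd (nat_lit 78) (nat_lit 0) (nat_lit 0) (XT.lf (nat_lit 0) (nat_lit 954490583) (nat_lit 608) (nat_lit 363643100) (nat_lit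 684) (nat_lit 5485978848) (nat_lit 259) (nat_lit 5) (nat_lit 267) (nat_lit 5) (nat_lit 268) (nat_lit 5) (nat_lit 276) (nat_lit 259) (nat_lit 245)) (XT.lf (nat_lit 0) (nat_lit 3811217630) (nat_lit 684) (nat_lit 2108483251) (nat_lit 76) (nat_lit 932568670) (nat_lit 259) (nat_lit 5) (nat_lit 268) (nat_lit 5) (nat_lit 260) (nat_lit 5) (nat_lit 277) (nat_lit 259) (nat_lit 244))) (XT.nd (nat_lit 78) (nat_lit 76) (nat_lit 0) (XT.lf (nat_lit 0) (nat_lit 1711837330) (nat_lit 684) (nat_lit 4605917652) (nat_lit 760) (nat_lit 586135390) (nat_lit 250) (nat_lit 5) (nat_lit 259) (nat_lit 5) (nat_lit 260) (nat_lit 5) (nat_lit 278) (nat_lit 259) (nat_lit 243)) (XT.lf (nat_lit 0) (nat_lit 1845446222) (nat_lit 760) (nat_lit 1349326419) (nat_lit 76) (nat_lit 3763668031) (nat_lit 249) (nat_lit 5) (nat_lit 259) (nat_lit 5) (nat_lit 250) (nat_lit 5) (nat_lit 279) (nat_lit 259) (nat_lit 242))))) (XT.nd (nat_lit 234)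 (nat_lit 1976) (nat_lit 0) (XT.nd (nat_lit 78) (nat_lit 912) (nat_lit 0) (XT.lf (nat_lit 0) (nat_lit 2591296547) (nat_lit 760) (nat_lit 1693573153) (nat_lit 836) (nat_lit 2731347161) (nat_lit 239) (nat_lit 5) (nat_lit 249) (nat_lit 5) (nat_lit 250) (nat_lit 5) (nat_lit 280) (nat_lit 259) (nat_lit 241)) (XT.nd (nat_lit 78) (nat_lit 912) (nat_lit 0) (XT.lf (nat_lit 0) (nat_lit 6616259697) (nat_lit 760) (nat_lit 118294881) (nat_lit 836) (nat_lit 343218363) (nat_lit 239) (nat_lit 5) (nat_lit 249) (nat_lit 5) (nat_lit 250) (nat_lit 5) (nat_lit 281) (nat_lit 259) (nat_lit 240)) (XT.lf (nat_lit 0) (nat_lit 2049882305) (nat_lit 912) (nat_lit 3547575785) (nat_lit 76) (nat_lit 1544018199) (nat_lit 227) (nat_lit 5) (nat_lit 239) (nat_lit 5) (nat_lit 228) (nat_lit 5) (nat_lit 282) (nat_lit 259) (nat_lit 239)))) (XT.nd (nat_lit 156) (nat_lit 1064) (nat_lit 0) (XT.nd (nat_lit 78) (nat_lit 0) (nat_lit 0) (XT.lf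 (nat_lit 0) (nat_lit 515666020) (nat_lit 912) (nat_lit 3929570984) (nat_lit 988) (nat_lit 2763776483) (nat_lit 215) (nat_lit 5) (nat_lit 227) (nat_lit 5) (nat_lit 228) (nat_lit 5) (nat_lit 283) (nat_lit 259) (nat_lit 238)) (XT.lf (nat_lit 0) (nat_lit 4710879964) (nat_lit 912) (nat_lit 2165458503) (nat_lit 988) (nat_lit 403462991) (nat_lit 215) (nat_lit 5) (nat_lit 227) (nat_lit 5) (nat_lit 228) (nat_lit 5) (nat_lit 284) (nat_lit 259) (nat_lit 237))) (XT.nd (nat_lit 78) (nat_lit 0) (nat_lit 0) (XT.lf (nat_lit 0) (nat_lit 1629175389) (nat_lit 988) (nat_lit 303910068) (nat_lit 1064) (nat_lit 5420826234) (nat_lit 201) (nat_lit 5) (nat_lit 214) (nat_lit 5) (nat_lit 215) (nat_lit 5) (nat_lit 285) (nat_lit 259) (nat_lit 236)) (XT.lf (nat_lit 0) (nat_lit 4304197094) (nat_lit 1064) (nat_lit 1507380225) (nat_lit 76) (nat_lit 1619500048) (nat_lit 201) (nat_lit 5) (nat_lit 215) (nat_lit 5) (nat_lit 202)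 (nat_lit 5) (nat_lit 286) (nat_lit 259) (nat_lit 235))))))))
noncomputable def xc103 : XT := (XT.nd (nat_lit 2028) (nat_lit 3648) (nat_lit 0) (XT.nd (nat_lit 1014) (nat_lit 2964) (nat_lit 0) (XT.nd (nat_lit 468) (nat_lit 2128) (nat_lit 0) (XT.nd (nat_lit 234) (nat_lit 1216) (nat_lit 0) (XT.nd (nat_lit 78) (nat_lit 1216) (nat_lit 0) (XT.lf (nat_lit 0) (nat_lit 2826479751) (nat_lit 1064) (nat_lit 3883022962) (nat_lit 1140) (nat_lit 802288970) (nat_lit 187) (nat_lit 5) (nat_lit 201) (nat_lit 5) (nat_lit 202) (nat_lit 5) (nat_lit 287) (nat_lit 259) (nat_lit 234)) (XT.nd (nat_lit 78) (nat_lit 1140) (nat_lit 0) (XT.lf (nat_lit 0) (nat_lit 1509820417) (nat_lit 1140) (nat_lit 351665220) (nat_lit 76) (nat_lit 5734635566) (nat_lit 186) (nat_lit 5) (nat_lit 201) (nat_lit 5) (nat_lit 187) (nat_lit 5) (nat_lit 288) (nat_lit 259) (nat_lit 233)) (XT.lf (nat_lit 0) (nat_lit 3852841655) (nat_lit 1216) (nat_lit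 3562882986) (nat_lit 76) (nat_lit 267802289) (nat_lit 171) (nat_lit 5) (nat_lit 187) (nat_lit 5) (nat_lit 172) (nat_lit 5) (nat_lit 289) (nat_lit 259) (nat_lit 232)))) (XT.nd (nat_lit 78) (nat_lit 684) (nat_lit 0) (XT.lf (nat_lit 0) (nat_lit 897329947) (nat_lit 532) (nat_lit 5336203504) (nat_lit 608) (nat_lit 1541111478) (nat_lit 164) (nat_lit 5) (nat_lit 171) (nat_lit 5) (nat_lit 172) (nat_lit 5) (nat_lit 290) (nat_lit 259) (nat_lit 231)) (XT.nd (nat_lit 78) (nat_lit 608) (nat_lit 0) (XT.lf (nat_lit 0) (nat_lit 774802372) (nat_lit 608) (nat_lit 2374580732) (nat_lit 76) (nat_lit 4719774859) (nat_lit 163) (nat_lit 5) (nat_lit 171) (nat_lit 5) (nat_lit 164) (nat_lit 5) (nat_lit 291) (nat_lit 259) (nat_lit 230)) (XT.lf (nat_lit 0) (nat_lit 2229999794) (nat_lit 608) (nat_lit 859746432) (nat_lit 684) (nat_lit 4877588621) (nat_lit 155) (nat_lit 5) (nat_lit 163) (nat_lit 5) (nat_lit 164) (nat_lit 5)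 (nat_lit 292) (nat_lit 259) (nat_lit 229))))) (XT.nd (nat_lit 234) (nat_lit 988) (nat_lit 0) (XT.nd (nat_lit 78) (nat_lit 1140) (nat_lit 0) (XT.lf (nat_lit 0) (nat_lit 5453028445) (nat_lit 684) (nat_lit 1123755137) (nat_lit 76) (nat_lit 1492405815) (nat_lit 155) (nat_lit 5) (nat_lit 164) (nat_lit 5) (nat_lit 156) (nat_lit 5) (nat_lit 293) (nat_lit 259) (nat_lit 228)) (XT.nd (nat_lit 78) (nat_lit 608) (nat_lit 0) (XT.lf (nat_lit 0) (nat_lit 3629605641) (nat_lit 532) (nat_lit 4243014332) (nat_lit 608) (nat_lit 302013462) (nat_lit 148) (nat_lit 5) (nat_lit 155) (nat_lit 5) (nat_lit 156) (nat_lit 5) (nat_lit 294) (nat_lit 259) (nat_lit 227)) (XT.lf (nat_lit 0) (nat_lit 187664018) (nat_lit 532) (nat_lit 1809002529) (nat_lit 608) (nat_lit 6287392824) (nat_lit 140) (nat_lit 5) (nat_lit 147) (nat_lit 5) (nat_lit 148) (nat_lit 5) (nat_lit 295) (nat_lit 259) (nat_lit 226)))) (XT.nd (nat_lit 156) (nat_lit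 532) (nat_lit 0) (XT.nd (nat_lit 78) (nat_lit 456) (nat_lit 0) (XT.lf (nat_lit 0) (nat_lit 4354805920) (nat_lit 608) (nat_lit 3312753918) (nat_lit 76) (nat_lit 729309483) (nat_lit 140) (nat_lit 5) (nat_lit 148) (nat_lit 5) (nat_lit 141) (nat_lit 5) (nat_lit 296) (nat_lit 259) (nat_lit 225)) (XT.lf (nat_lit 0) (nat_lit 1566160508) (nat_lit 456) (nat_lit 5195649107) (nat_lit 532) (nat_lit 1751995801) (nat_lit 134) (nat_lit 5) (nat_lit 140) (nat_lit 5) (nat_lit 141) (nat_lit 5) (nat_lit 297) (nat_lit 259) (nat_lit 224))) (XT.nd (nat_lit 78) (nat_lit 456) (nat_lit 0) (XT.lf (nat_lit 0) (nat_lit 574274957) (nat_lit 532) (nat_lit 2041513233) (nat_lit 76) (nat_lit 6018986726) (nat_lit 133) (nat_lit 5) (nat_lit 140) (nat_lit 5) (nat_lit 134) (nat_lit 5) (nat_lit 298) (nat_lit 259) (nat_lit 223)) (XT.lf (nat_lit 0) (nat_lit 2911826367) (nat_lit 532) (nat_lit 5767243592) (nat_lit 76) (nat_lit 80560172)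 (nat_lit 127) (nat_lit 5) (nat_lit 134) (nat_lit 5) (nat_lit 128) (nat_lit 5) (nat_lit 299) (nat_lit 259) (nat_lit 222)))))) (XT.nd (nat_lit 468) (nat_lit 1596) (nat_lit 0) (XT.nd (nat_lit 234) (nat_lit 380) (nat_lit 0) (XT.nd (nat_lit 78) (nat_lit 988) (nat_lit 0) (XT.lf (nat_lit 0) (nat_lit 5314268686) (nat_lit 532) (nat_lit 755205564) (nat_lit 76) (nat_lit 2818989745) (nat_lit 127) (nat_lit 5) (nat_lit 134) (nat_lit 5) (nat_lit 128) (nat_lit 5) (nat_lit 300) (nat_lit 259) (nat_lit 221)) (XT.nd (nat_lit 78) (nat_lit 532) (nat_lit 0) (XT.lf (nat_lit 0) (nat_lit 4434857590) (nat_lit 456) (nat_lit 3346116550) (nat_lit 532) (nat_lit 1240496750) (nat_lit 121) (nat_lit 5) (nat_lit 127) (nat_lit 5) (nat_lit 128) (nat_lit 5) (nat_lit 301) (nat_lit 259) (nat_lit 220)) (XT.lf (nat_lit 0) (nat_lit 578531350) (nat_lit 456) (nat_lit 525153202) (nat_lit 532) (nat_lit 8055622368) (nat_lit 114) (nat_lit 5)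 (nat_lit 120) (nat_lit 5) (nat_lit 121) (nat_lit 5) (nat_lit 302) (nat_lit 259) (nat_lit 219)))) (XT.nd (nat_lit 78) (nat_lit 380) (nat_lit 0) (XT.lf (nat_lit 0) (nat_lit 3513624421) (nat_lit 532) (nat_lit 3403094627) (nat_lit 76) (nat_lit 2383646999) (nat_lit 114) (nat_lit 5) (nat_lit 121) (nat_lit 5) (nat_lit 115) (nat_lit 5) (nat_lit 303) (nat_lit 259) (nat_lit 218)) (XT.nd (nat_lit 78) (nat_lit 0) (nat_lit 0) (XT.lf (nat_lit 0) (nat_lit 1903378856) (nat_lit 380) (nat_lit 4068124532) (nat_lit 456) (nat_lit 3474949824) (nat_lit 109) (nat_lit 5) (nat_lit 114) (nat_lit 5) (nat_lit 115) (nat_lit 5) (nat_lit 304) (nat_lit 259) (nat_lit 217)) (XT.lf (nat_lit 0) (nat_lit 7380899854) (nat_lit 380) (nat_lit 1109565580) (nat_lit 456) (nat_lit 1106900743) (nat_lit 109) (nat_lit 5) (nat_lit 114) (nat_lit 5) (nat_lit 115) (nat_lit 5) (nat_lit 305) (nat_lit 259) (nat_lit 216))))) (XT.nd (nat_lit 234) (nat_lit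 760) (nat_lit 0) (XT.nd (nat_lit 78) (nat_lit 380) (nat_lit 0) (XT.lf (nat_lit 0) (nat_lit 1310363130) (nat_lit 456) (nat_lit 6508263801) (nat_lit 76) (nat_lit 1933730284) (nat_lit 103) (nat_lit 5) (nat_lit 109) (nat_lit 5) (nat_lit 104) (nat_lit 5) (nat_lit 306) (nat_lit 259) (nat_lit 215)) (XT.nd (nat_lit 78) (nat_lit 380) (nat_lit 0) (XT.lf (nat_lit 0) (nat_lit 3766017412) (nat_lit 456) (nat_lit 1077536663) (nat_lit 76) (nat_lit 5068529713) (nat_lit 103) (nat_lit 5) (nat_lit 109) (nat_lit 5) (nat_lit 104) (nat_lit 5) (nat_lit 307) (nat_lit 259) (nat_lit 214)) (XT.lf (nat_lit 0) (nat_lit 4548611247) (nat_lit 380) (nat_lit 1746309193) (nat_lit 456) (nat_lit 3781750839) (nat_lit 98) (nat_lit 5) (nat_lit 103) (nat_lit 5) (nat_lit 104) (nat_lit 5) (nat_lit 308) (nat_lit 259) (nat_lit 213)))) (XT.nd (nat_lit 156) (nat_lit 304) (nat_lit 0) (XT.nd (nat_lit 78) (nat_lit 76) (nat_lit 0) (XT.lf (nat_lit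 0) (nat_lit 49799342) (nat_lit 380) (nat_lit 8831724828) (nat_lit 456) (nat_lit 1365272065) (nat_lit 93) (nat_lit 5) (nat_lit 98) (nat_lit 5) (nat_lit 99) (nat_lit 5) (nat_lit 309) (nat_lit 259) (nat_lit 212)) (XT.lf (nat_lit 0) (nat_lit 1132175512) (nat_lit 456) (nat_lit 4597982529) (nat_lit 76) (nat_lit 4690682490) (nat_lit 92) (nat_lit 5) (nat_lit 98) (nat_lit 5) (nat_lit 93) (nat_lit 5) (nat_lit 310) (nat_lit 259) (nat_lit 211))) (XT.nd (nat_lit 78) (nat_lit 0) (nat_lit 0) (XT.lf (nat_lit 0) (nat_lit 1121740929) (nat_lit 304) (nat_lit 2524144375) (nat_lit 380) (nat_lit 6954802138) (nat_lit 88) (nat_lit 5) (nat_lit 92) (nat_lit 5) (nat_lit 93) (nat_lit 5) (nat_lit 311) (nat_lit 259) (nat_lit 210)) (XT.lf (nat_lit 0) (nat_lit 6247933766) (nat_lit 380) (nat_lit 3741408568) (nat_lit 76) (nat_lit 796248339) (nat_lit 88) (nat_lit 5) (nat_lit 93) (nat_lit 5) (nat_lit 89) (nat_lit 5) (nat_lit 312)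 (nat_lit 259) (nat_lit 209))))))) (XT.nd (nat_lit 1014) (nat_lit 1444) (nat_lit 0) (XT.nd (nat_lit 468) (nat_lit 1140) (nat_lit 0) (XT.nd (nat_lit 234) (nat_lit 304) (nat_lit 0) (XT.nd (nat_lit 78) (nat_lit 380) (nat_lit 0) (XT.lf (nat_lit 0) (nat_lit 2130227394) (nat_lit 380) (nat_lit 6803049880) (nat_lit 456) (nat_lit 2042654030) (nat_lit 83) (nat_lit 5) (nat_lit 88) (nat_lit 5) (nat_lit 89) (nat_lit 5) (nat_lit 313) (nat_lit 259) (nat_lit 208)) (XT.nd (nat_lit 78) (nat_lit 304) (nat_lit 0) (XT.lf (nat_lit 0) (nat_lit 515046552) (nat_lit 456) (nat_lit 2976493640) (nat_lit 76) (nat_lit 7680390472) (nat_lit 82) (nat_lit 5) (nat_lit 88) (nat_lit 5) (nat_lit 83) (nat_lit 5) (nat_lit 314) (nat_lit 259) (nat_lit 207)) (XT.lf (nat_lit 0) (nat_lit 3054868746) (nat_lit 304) (nat_lit 44065185) (nat_lit 380) (nat_lit 8274597309) (nat_lit 78) (nat_lit 5) (nat_lit 82) (nat_lit 5) (nat_lit 83) (nat_lit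 5) (nat_lit 315) (nat_lit 259) (nat_lit 206)))) (XT.nd (nat_lit 78) (nat_lit 304) (nat_lit 0) (XT.lf (nat_lit 0) (nat_lit 5786032235) (nat_lit 380) (nat_lit 2339936064) (nat_lit 76) (nat_lit 3454482744) (nat_lit 78) (nat_lit 5) (nat_lit 83) (nat_lit 5) (nat_lit 79) (nat_lit 5) (nat_lit 316) (nat_lit 259) (nat_lit 205)) (XT.nd (nat_lit 78) (nat_lit 0) (nat_lit 0) (XT.lf (nat_lit 0) (nat_lit 3840386009) (nat_lit 304) (nat_lit 4713457600) (nat_lit 380) (nat_lit 3239772638) (nat_lit 74) (nat_lit 5) (nat_lit 78) (nat_lit 5) (nat_lit 79) (nat_lit 5) (nat_lit 317) (nat_lit 259) (nat_lit 204)) (XT.lf (nat_lit 0) (nat_lit 10202326965) (nat_lit 304) (nat_lit 1189326317) (nat_lit 380) (nat_lit 621953831) (nat_lit 74) (nat_lit 5) (nat_lit 78) (nat_lit 5) (nat_lit 79) (nat_lit 5) (nat_lit 318) (nat_lit 259) (nat_lit 203))))) (XT.nd (nat_lit 234) (nat_lit 532) (nat_lit 0) (XT.nd (nat_lit 78) (nat_lit 304)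 (nat_lit 0) (XT.lf (nat_lit 0) (nat_lit 2065446259) (nat_lit 304) (nat_lit 7730924905) (nat_lit 76) (nat_lit 2442319906) (nat_lit 70) (nat_lit 5) (nat_lit 74) (nat_lit 5) (nat_lit 71) (nat_lit 5) (nat_lit 319) (nat_lit 259) (nat_lit 202)) (XT.nd (nat_lit 78) (nat_lit 304) (nat_lit 0) (XT.lf (nat_lit 0) (nat_lit 4815645363) (nat_lit 304) (nat_lit 1486037319) (nat_lit 76) (nat_lit 6168856058) (nat_lit 70) (nat_lit 5) (nat_lit 74) (nat_lit 5) (nat_lit 71) (nat_lit 5) (nat_lit 320) (nat_lit 259) (nat_lit 201)) (XT.lf (nat_lit 0) (nat_lit 4993683132) (nat_lit 304) (nat_lit 2668136330) (nat_lit 380) (nat_lit 5047153511) (nat_lit 66) (nat_lit 5) (nat_lit 70) (nat_lit 5) (nat_lit 71) (nat_lit 5) (nat_lit 321) (nat_lit 259) (nat_lit 200)))) (XT.nd (nat_lit 156) (nat_lit 228) (nat_lit 0) (XT.nd (nat_lit 78) (nat_lit 304) (nat_lit 0) (XT.lf (nat_lit 0) (nat_lit 10584709692) (nat_lit 380) (nat_lit 1316703391)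 (nat_lit 76) (nat_lit 1053441403) (nat_lit 66) (nat_lit 5) (nat_lit 71) (nat_lit 5) (nat_lit 67) (nat_lit 5) (nat_lit 322) (nat_lit 259) (nat_lit 199)) (XT.lf (nat_lit 0) (nat_lit 424250435) (nat_lit 304) (nat_lit 7909001144) (nat_lit 76) (nat_lit 4873442489) (nat_lit 62) (nat_lit 5) (nat_lit 66) (nat_lit 5) (nat_lit 63) (nat_lit 5) (nat_lit 323) (nat_lit 259) (nat_lit 198))) (XT.nd (nat_lit 78) (nat_lit 228) (nat_lit 0) (XT.lf (nat_lit 0) (nat_lit 3235256053) (nat_lit 304) (nat_lit 1400892023) (nat_lit 76) (nat_lit 8829855553) (nat_lit 62) (nat_lit 5) (nat_lit 66) (nat_lit 5) (nat_lit 63) (nat_lit 5) (nat_lit 324) (nat_lit 259) (nat_lit 197)) (XT.lf (nat_lit 0) (nat_lit 5359355353) (nat_lit 228) (nat_lit 790703721) (nat_lit 304) (nat_lit 7582479754) (nat_lit 59) (nat_lit 5) (nat_lit 62) (nat_lit 5) (nat_lit 63) (nat_lit 5) (nat_lit 325) (nat_lit 259) (nat_lit 196)))))) (XT.nd (nat_lit 546)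 (nat_lit 760) (nat_lit 0) (XT.nd (nat_lit 234) (nat_lit 380) (nat_lit 0) (XT.nd (nat_lit 78) (nat_lit 304) (nat_lit 0) (XT.lf (nat_lit 0) (nat_lit 9165344526) (nat_lit 304) (nat_lit 1734175702) (nat_lit 76) (nat_lit 3107188190) (nat_lit 59) (nat_lit 5) (nat_lit 63) (nat_lit 5) (nat_lit 60) (nat_lit 5) (nat_lit 326) (nat_lit 259) (nat_lit 195)) (XT.nd (nat_lit 78) (nat_lit 76) (nat_lit 0) (XT.lf (nat_lit 0) (nat_lit 5150024393) (nat_lit 228) (nat_lit 7147601030) (nat_lit 304) (nat_lit 1990710192) (nat_lit 56) (nat_lit 5) (nat_lit 59) (nat_lit 5) (nat_lit 60) (nat_lit 5) (nat_lit 327) (nat_lit 259) (nat_lit 194)) (XT.lf (nat_lit 0) (nat_lit 914027168) (nat_lit 304) (nat_lit 2357673431) (nat_lit 76) (nat_lit 11306854954) (nat_lit 55) (nat_lit 5) (nat_lit 59) (nat_lit 5) (nat_lit 56) (nat_lit 5) (nat_lit 328) (nat_lit 259) (nat_lit 193)))) (XT.nd (nat_lit 156) (nat_lit 152) (nat_lit 0) (XT.nd (nat_lit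 78) (nat_lit 0) (nat_lit 0) (XT.lf (nat_lit 0) (nat_lit 3888247561) (nat_lit 304) (nat_lit 10231892021) (nat_lit 76) (nat_lit 756106838) (nat_lit 52) (nat_lit 5) (nat_lit 56) (nat_lit 5) (nat_lit 53) (nat_lit 5) (nat_lit 329) (nat_lit 259) (nat_lit 192)) (XT.lf (nat_lit 0) (nat_lit 6978636847) (nat_lit 304) (nat_lit 3355779887) (nat_lit 76) (nat_lit 4847668444) (nat_lit 52) (nat_lit 5) (nat_lit 56) (nat_lit 5) (nat_lit 53) (nat_lit 5) (nat_lit 330) (nat_lit 259) (nat_lit 191))) (XT.nd (nat_lit 78) (nat_lit 0) (nat_lit 0) (XT.lf (nat_lit 0) (nat_lit 3755460923) (nat_lit 152) (nat_lit 6413741341) (nat_lit 228) (nat_lit 5327697593) (nat_lit 50) (nat_lit 5) (nat_lit 52) (nat_lit 5) (nat_lit 53) (nat_lit 5) (nat_lit 331) (nat_lit 259) (nat_lit 190)) (XT.lf (nat_lit 0) (nat_lit 11104827561) (nat_lit 152) (nat_lit 2356319614) (nat_lit 228) (nat_lit 2359865898) (nat_lit 50) (nat_lit 5) (nat_lit 52)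 (nat_lit 5) (nat_lit 53) (nat_lit 5) (nat_lit 332) (nat_lit 259) (nat_lit 189))))) (XT.nd (nat_lit 234) (nat_lit 304) (nat_lit 0) (XT.nd (nat_lit 78) (nat_lit 152) (nat_lit 0) (XT.lf (nat_lit 0) (nat_lit 697595712) (nat_lit 304) (nat_lit 13653467805) (nat_lit 76) (nat_lit 1803181888) (nat_lit 46) (nat_lit 5) (nat_lit 50) (nat_lit 5) (nat_lit 47) (nat_lit 5) (nat_lit 333) (nat_lit 259) (nat_lit 188)) (XT.nd (nat_lit 78) (nat_lit 152) (nat_lit 0) (XT.lf (nat_lit 0) (nat_lit 3843324482) (nat_lit 304) (nat_lit 6555846325) (nat_lit 76) (nat_lit 6096305659) (nat_lit 46) (nat_lit 5) (nat_lit 50) (nat_lit 5) (nat_lit 47) (nat_lit 5) (nat_lit 334) (nat_lit 259) (nat_lit 187)) (XT.lf (nat_lit 0) (nat_lit 726590249) (nat_lit 152) (nat_lit 6337167477) (nat_lit 228) (nat_lit 9783798054) (nat_lit 44) (nat_lit 5) (nat_lit 46) (nat_lit 5) (nat_lit 47) (nat_lit 5) (nat_lit 335) (nat_lit 259) (nat_lit 186))))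 (XT.nd (nat_lit 156) (nat_lit 304) (nat_lit 0) (XT.nd (nat_lit 78) (nat_lit 0) (nat_lit 0) (XT.lf (nat_lit 0) (nat_lit 8320011029) (nat_lit 152) (nat_lit 2100716032) (nat_lit 228) (nat_lit 6788293401) (nat_lit 44) (nat_lit 5) (nat_lit 46) (nat_lit 5) (nat_lit 47) (nat_lit 5) (nat_lit 336) (nat_lit 259) (nat_lit 185)) (XT.lf (nat_lit 0) (nat_lit 13874498870) (nat_lit 228) (nat_lit 1503143812) (nat_lit 76) (nat_lit 2203823676) (nat_lit 44) (nat_lit 5) (nat_lit 47) (nat_lit 5) (nat_lit 45) (nat_lit 5) (nat_lit 337) (nat_lit 259) (nat_lit 184))) (XT.nd (nat_lit 78) (nat_lit 76) (nat_lit 0) (XT.lf (nat_lit 0) (nat_lit 6163679572) (nat_lit 228) (nat_lit 11323341515) (nat_lit 304) (nat_lit 476429918) (nat_lit 41) (nat_lit 5) (nat_lit 44) (nat_lit 5) (nat_lit 45) (nat_lit 5) (nat_lit 338) (nat_lit 259) (nat_lit 183)) (XT.lf (nat_lit 0) (nat_lit 2785890287) (nat_lit 304) (nat_lit 4332889322) (nat_lit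 76) (nat_lit 11237596776) (nat_lit 40) (nat_lit 5) (nat_lit 44) (nat_lit 5) (nat_lit 41) (nat_lit 5) (nat_lit 339) (nat_lit 259) (nat_lit 182))))))))
noncomputable def xc104 : XT := (XT.nd (nat_lit 2028) (nat_lit 760) (nat_lit 0) (XT.nd (nat_lit 1014) (nat_lit 608) (nat_lit 0) (XT.nd (nat_lit 468) (nat_lit 380) (nat_lit 0) (XT.nd (nat_lit 234) (nat_lit 380) (nat_lit 0) (XT.nd (nat_lit 78) (nat_lit 0) (nat_lit 0) (XT.lf (nat_lit 0) (nat_lit 3380199211) (nat_lit 152) (nat_lit 2764691991) (nat_lit 228) (nat_lit 12615823041) (nat_lit 38) (nat_lit 5) (nat_lit 40) (nat_lit 5) (nat_lit 41) (nat_lit 5) (nat_lit 340) (nat_lit 259) (nat_lit 181)) (XT.nd (nat_lit 78) (nat_lit 0) (nat_lit 0) (XT.lf (nat_lit 0) (nat_lit 9641464638) (nat_lit 228) (nat_lit 7818583809) (nat_lit 76) (nat_lit 1716047035) (nat_lit 38) (nat_lit 5) (nat_lit 41) (nat_lit 5) (nat_lit 39) (nat_lit 5) (nat_lit 341) (nat_lit 259) (nat_lit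 180)) (XT.lf (nat_lit 0) (nat_lit 13247086844) (nat_lit 228) (nat_lit 95272200) (nat_lit 76) (nat_lit 6261471381) (nat_lit 38) (nat_lit 5) (nat_lit 41) (nat_lit 5) (nat_lit 39) (nat_lit 5) (nat_lit 342) (nat_lit 259) (nat_lit 179)))) (XT.nd (nat_lit 78) (nat_lit 228) (nat_lit 0) (XT.lf (nat_lit 0) (nat_lit 7978432178) (nat_lit 152) (nat_lit 9036593848) (nat_lit 228) (nat_lit 3027763265) (nat_lit 36) (nat_lit 5) (nat_lit 38) (nat_lit 5) (nat_lit 39) (nat_lit 5) (nat_lit 343) (nat_lit 259) (nat_lit 178)) (XT.nd (nat_lit 78) (nat_lit 152) (nat_lit 0) (XT.lf (nat_lit 0) (nat_lit 371754930) (nat_lit 228) (nat_lit 4239546949) (nat_lit 76) (nat_lit 15884159914) (nat_lit 35) (nat_lit 5) (nat_lit 38) (nat_lit 5) (nat_lit 36) (nat_lit 5) (nat_lit 344) (nat_lit 259) (nat_lit 177)) (XT.lf (nat_lit 0) (nat_lit 3827398780) (nat_lit 228) (nat_lit 17131665697) (nat_lit 76) (nat_lit 1315743) (nat_lit 33) (nat_lit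 5) (nat_lit 36) (nat_lit 5) (nat_lit 34) (nat_lit 5) (nat_lit 345) (nat_lit 259) (nat_lit 176))))) (XT.nd (nat_lit 234) (nat_lit 228) (nat_lit 0) (XT.nd (nat_lit 78) (nat_lit 152) (nat_lit 0) (XT.lf (nat_lit 0) (nat_lit 7453938508) (nat_lit 228) (nat_lit 9294297370) (nat_lit 76) (nat_lit 4689008027) (nat_lit 33) (nat_lit 5) (nat_lit 36) (nat_lit 5) (nat_lit 34) (nat_lit 5) (nat_lit 346) (nat_lit 259) (nat_lit 175)) (XT.nd (nat_lit 78) (nat_lit 152) (nat_lit 0) (XT.lf (nat_lit 0) (nat_lit 11168240569) (nat_lit 228) (nat_lit 1256939619) (nat_lit 76) (nat_lit 9503878411) (nat_lit 33) (nat_lit 5) (nat_lit 36) (nat_lit 5) (nat_lit 34) (nat_lit 5) (nat_lit 347) (nat_lit 259) (nat_lit 174)) (XT.lf (nat_lit 0) (nat_lit 7126494055) (nat_lit 152) (nat_lit 7915560633) (nat_lit 228) (nat_lit 7392144227) (nat_lit 31) (nat_lit 5) (nat_lit 33) (nat_lit 5) (nat_lit 34) (nat_lit 5) (nat_lit 348) (nat_lit 259)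 (nat_lit 173)))) (XT.nd (nat_lit 156) (nat_lit 76) (nat_lit 0) (XT.nd (nat_lit 78) (nat_lit 152) (nat_lit 0) (XT.lf (nat_lit 0) (nat_lit 15753422792) (nat_lit 152) (nat_lit 3271201979) (nat_lit 228) (nat_lit 3930105697) (nat_lit 31) (nat_lit 5) (nat_lit 33) (nat_lit 5) (nat_lit 34) (nat_lit 5) (nat_lit 349) (nat_lit 259) (nat_lit 172)) (XT.lf (nat_lit 0) (nat_lit 1122381223) (nat_lit 152) (nat_lit 22009927404) (nat_lit 228) (nat_lit 358413127) (nat_lit 29) (nat_lit 5) (nat_lit 31) (nat_lit 5) (nat_lit 32) (nat_lit 4) (nat_lit 350) (nat_lit 259) (nat_lit 171))) (XT.nd (nat_lit 78) (nat_lit 0) (nat_lit 0) (XT.lf (nat_lit 0) (nat_lit 3341824821) (nat_lit 228) (nat_lit 14295576646) (nat_lit 76) (nat_lit 6401860275) (nat_lit 28) (nat_lit 5) (nat_lit 31) (nat_lit 5) (nat_lit 29) (nat_lit 5) (nat_lit 351) (nat_lit 259) (nat_lit 170)) (XT.lf (nat_lit 0) (nat_lit 7126799109) (nat_lit 228) (nat_lit 6016547265)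 (nat_lit 76) (nat_lit 11461388899) (nat_lit 28) (nat_lit 5) (nat_lit 31) (nat_lit 5) (nat_lit 29) (nat_lit 5) (nat_lit 352) (nat_lit 259) (nat_lit 169)))))) (XT.nd (nat_lit 468) (nat_lit 304) (nat_lit 0) (XT.nd (nat_lit 234) (nat_lit 152) (nat_lit 0) (XT.nd (nat_lit 78) (nat_lit 0) (nat_lit 0) (XT.lf (nat_lit 0) (nat_lit 2528772458) (nat_lit 152) (nat_lit 8502346576) (nat_lit 228) (nat_lit 14155891534) (nat_lit 26) (nat_lit 5) (nat_lit 28) (nat_lit 5) (nat_lit 29) (nat_lit 5) (nat_lit 353) (nat_lit 259) (nat_lit 168)) (XT.nd (nat_lit 78) (nat_lit 0) (nat_lit 0) (XT.lf (nat_lit 0) (nat_lit 11422667195) (nat_lit 152) (nat_lit 3672385044) (nat_lit 228) (nat_lit 10690438488) (nat_lit 26) (nat_lit 5) (nat_lit 28) (nat_lit 5) (nat_lit 29) (nat_lit 5) (nat_lit 354) (nat_lit 259) (nat_lit 167)) (XT.lf (nat_lit 0) (nat_lit 19275564278) (nat_lit 228) (nat_lit 5861701348) (nat_lit 76) (nat_lit 1264830633)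 (nat_lit 26) (nat_lit 5) (nat_lit 29) (nat_lit 5) (nat_lit 27) (nat_lit 4) (nat_lit 355) (nat_lit 259) (nat_lit 166)))) (XT.nd (nat_lit 78) (nat_lit 76) (nat_lit 0) (XT.lf (nat_lit 0) (nat_lit 2884641633) (nat_lit 76) (nat_lit 20743600054) (nat_lit 152) (nat_lit 3407566248) (nat_lit 25) (nat_lit 5) (nat_lit 26) (nat_lit 5) (nat_lit 27) (nat_lit 4) (nat_lit 356) (nat_lit 259) (nat_lit 165)) (XT.nd (nat_lit 78) (nat_lit 0) (nat_lit 0) (XT.lf (nat_lit 0) (nat_lit 457195861) (nat_lit 152) (nat_lit 15707677954) (nat_lit 76) (nat_lit 11522270616) (nat_lit 24) (nat_lit 5) (nat_lit 26) (nat_lit 5) (nat_lit 25) (nat_lit 5) (nat_lit 357) (nat_lit 259) (nat_lit 164)) (XT.lf (nat_lit 0) (nat_lit 4352619210) (nat_lit 152) (nat_lit 7073560023) (nat_lit 76) (nat_lit 16931343017) (nat_lit 24) (nat_lit 5) (nat_lit 26) (nat_lit 5) (nat_lit 25) (nat_lit 5) (nat_lit 358) (nat_lit 259) (nat_lit 163))))) (XT.nd (nat_lit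 234) (nat_lit 152) (nat_lit 0) (XT.nd (nat_lit 78) (nat_lit 0) (nat_lit 0) (XT.lf (nat_lit 0) (nat_lit 1827141590) (nat_lit 152) (nat_lit 6539023469) (nat_lit 228) (nat_lit 20681817860) (nat_lit 22) (nat_lit 5) (nat_lit 24) (nat_lit 5) (nat_lit 25) (nat_lit 5) (nat_lit 359) (nat_lit 259) (nat_lit 162)) (XT.nd (nat_lit 78) (nat_lit 0) (nat_lit 0) (XT.lf (nat_lit 0) (nat_lit 11112046759) (nat_lit 152) (nat_lit 1443403268) (nat_lit 228) (nat_lit 17202056437) (nat_lit 22) (nat_lit 5) (nat_lit 24) (nat_lit 5) (nat_lit 25) (nat_lit 5) (nat_lit 360) (nat_lit 259) (nat_lit 161)) (XT.lf (nat_lit 0) (nat_lit 16891253438) (nat_lit 228) (nat_lit 9876769933) (nat_lit 76) (nat_lit 3719675923) (nat_lit 22) (nat_lit 5) (nat_lit 25) (nat_lit 5) (nat_lit 23) (nat_lit 4) (nat_lit 361) (nat_lit 259) (nat_lit 160)))) (XT.nd (nat_lit 156) (nat_lit 76) (nat_lit 0) (XT.nd (nat_lit 78) (nat_lit 76) (nat_lit 0) (XT.lf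 (nat_lit 0) (nat_lit 21356143512) (nat_lit 228) (nat_lit 885889707) (nat_lit 76) (nat_lit 8997802833) (nat_lit 22) (nat_lit 5) (nat_lit 25) (nat_lit 5) (nat_lit 23) (nat_lit 4) (nat_lit 362) (nat_lit 259) (nat_lit 159)) (XT.lf (nat_lit 0) (nat_lit 8515071675) (nat_lit 76) (nat_lit 17506927137) (nat_lit 152) (nat_lit 5990535817) (nat_lit 21) (nat_lit 5) (nat_lit 22) (nat_lit 5) (nat_lit 23) (nat_lit 4) (nat_lit 363) (nat_lit 259) (nat_lit 158))) (XT.nd (nat_lit 78) (nat_lit 76) (nat_lit 0) (XT.lf (nat_lit 0) (nat_lit 18190669791) (nat_lit 76) (nat_lit 12631458600) (nat_lit 152) (nat_lit 1986464843) (nat_lit 21) (nat_lit 5) (nat_lit 22) (nat_lit 5) (nat_lit 23) (nat_lit 4) (nat_lit 364) (nat_lit 259) (nat_lit 157)) (XT.lf (nat_lit 0) (nat_lit 2081644525) (nat_lit 152) (nat_lit 5517648186) (nat_lit 76) (nat_lit 26029063051) (nat_lit 20) (nat_lit 5) (nat_lit 22) (nat_lit 5) (nat_lit 21) (nat_lit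 5) (nat_lit 365) (nat_lit 259) (nat_lit 156))))))) (XT.nd (nat_lit 1014) (nat_lit 228) (nat_lit 0) (XT.nd (nat_lit 468) (nat_lit 304) (nat_lit 0) (XT.nd (nat_lit 234) (nat_lit 76) (nat_lit 0) (XT.nd (nat_lit 78) (nat_lit 0) (nat_lit 0) (XT.lf (nat_lit 0) (nat_lit 3887455437) (nat_lit 152) (nat_lit 2367833918) (nat_lit 228) (nat_lit 28216136575) (nat_lit 18) (nat_lit 5) (nat_lit 20) (nat_lit 5) (nat_lit 21) (nat_lit 5) (nat_lit 366) (nat_lit 259) (nat_lit 155)) (XT.nd (nat_lit 78) (nat_lit 0) (nat_lit 0) (XT.lf (nat_lit 0) (nat_lit 10625572547) (nat_lit 228) (nat_lit 21704337480) (nat_lit 76) (nat_lit 3007742442) (nat_lit 18) (nat_lit 5) (nat_lit 21) (nat_lit 5) (nat_lit 19) (nat_lit 4) (nat_lit 367) (nat_lit 259) (nat_lit 154)) (XT.lf (nat_lit 0) (nat_lit 15136936655) (nat_lit 228) (nat_lit 12605499312) (nat_lit 76) (nat_lit 8487137591) (nat_lit 18) (nat_lit 5) (nat_lit 21) (nat_lit 5) (nat_lit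 19) (nat_lit 4) (nat_lit 368) (nat_lit 259) (nat_lit 153)))) (XT.nd (nat_lit 78) (nat_lit 76) (nat_lit 0) (XT.lf (nat_lit 0) (nat_lit 19770562580) (nat_lit 228) (nat_lit 3256744481) (nat_lit 76) (nat_lit 14121344317) (nat_lit 18) (nat_lit 5) (nat_lit 21) (nat_lit 5) (nat_lit 19) (nat_lit 4) (nat_lit 369) (nat_lit 259) (nat_lit 152)) (XT.nd (nat_lit 78) (nat_lit 0) (nat_lit 0) (XT.lf (nat_lit 0) (nat_lit 6476475185) (nat_lit 76) (nat_lit 18116279779) (nat_lit 152) (nat_lit 13501066369) (nat_lit 17) (nat_lit 5) (nat_lit 18) (nat_lit 5) (nat_lit 19) (nat_lit 4) (nat_lit 370) (nat_lit 259) (nat_lit 151)) (XT.lf (nat_lit 0) (nat_lit 16546293727) (nat_lit 76) (nat_lit 13033664818) (nat_lit 152) (nat_lit 9486783816) (nat_lit 17) (nat_lit 5) (nat_lit 18) (nat_lit 5) (nat_lit 19) (nat_lit 4) (nat_lit 371) (nat_lit 259) (nat_lit 150))))) (XT.nd (nat_lit 234) (nat_lit 76) (nat_lit 0) (XT.nd (nat_lit 78)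 (nat_lit 228) (nat_lit 0) (XT.lf (nat_lit 0) (nat_lit 26896694416) (nat_lit 76) (nat_lit 7807907795) (nat_lit 152) (nat_lit 5364620247) (nat_lit 17) (nat_lit 5) (nat_lit 18) (nat_lit 5) (nat_lit 19) (nat_lit 4) (nat_lit 372) (nat_lit 259) (nat_lit 149)) (XT.nd (nat_lit 78) (nat_lit 228) (nat_lit 0) (XT.lf (nat_lit 0) (nat_lit 37536721289) (nat_lit 76) (nat_lit 2434442512) (nat_lit 152) (nat_lit 1130973772) (nat_lit 17) (nat_lit 5) (nat_lit 18) (nat_lit 5) (nat_lit 19) (nat_lit 4) (nat_lit 373) (nat_lit 259) (nat_lit 148)) (XT.lf (nat_lit 0) (nat_lit 3247247783) (nat_lit 228) (nat_lit 35790947421) (nat_lit 76) (nat_lit 3124501547) (nat_lit 14) (nat_lit 5) (nat_lit 17) (nat_lit 5) (nat_lit 15) (nat_lit 4) (nat_lit 374) (nat_lit 259) (nat_lit 147)))) (XT.nd (nat_lit 156) (nat_lit 76) (nat_lit 0) (XT.nd (nat_lit 78) (nat_lit 0) (nat_lit 0) (XT.lf (nat_lit 0) (nat_lit 7783009058) (nat_lit 228) (nat_lit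 26630109509) (nat_lit 76) (nat_lit 8840155939) (nat_lit 14) (nat_lit 5) (nat_lit 17) (nat_lit 5) (nat_lit 15) (nat_lit 4) (nat_lit 375) (nat_lit 259) (nat_lit 146)) (XT.lf (nat_lit 0) (nat_lit 12443640209) (nat_lit 228) (nat_lit 17214423881) (nat_lit 76) (nat_lit 14718846901) (nat_lit 14) (nat_lit 5) (nat_lit 17) (nat_lit 5) (nat_lit 15) (nat_lit 4) (nat_lit 376) (nat_lit 259) (nat_lit 145))) (XT.nd (nat_lit 78) (nat_lit 76) (nat_lit 0) (XT.lf (nat_lit 0) (nat_lit 17233213631) (nat_lit 228) (nat_lit 7535663240) (nat_lit 76) (nat_lit 20765711153) (nat_lit 14) (nat_lit 5) (nat_lit 17) (nat_lit 5) (nat_lit 15) (nat_lit 4) (nat_lit 377) (nat_lit 259) (nat_lit 144)) (XT.lf (nat_lit 0) (nat_lit 2462685447) (nat_lit 76) (nat_lit 19716901780) (nat_lit 152) (nat_lit 24547019756) (nat_lit 13) (nat_lit 5) (nat_lit 14) (nat_lit 5) (nat_lit 15) (nat_lit 4) (nat_lit 378) (nat_lit 259) (nat_lit 143)))))) (XT.nd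 (nat_lit 468) (nat_lit 76) (nat_lit 0) (XT.nd (nat_lit 234) (nat_lit 152) (nat_lit 0) (XT.nd (nat_lit 78) (nat_lit 0) (nat_lit 0) (XT.lf (nat_lit 0) (nat_lit 12896812282) (nat_lit 76) (nat_lit 14443203638) (nat_lit 152) (nat_lit 20612405534) (nat_lit 13) (nat_lit 5) (nat_lit 14) (nat_lit 5) (nat_lit 15) (nat_lit 4) (nat_lit 379) (nat_lit 259) (nat_lit 142)) (XT.nd (nat_lit 78) (nat_lit 0) (nat_lit 0) (XT.lf (nat_lit 0) (nat_lit 23625859987) (nat_lit 76) (nat_lit 9019269783) (nat_lit 152) (nat_lit 16570189137) (nat_lit 13) (nat_lit 5) (nat_lit 14) (nat_lit 5) (nat_lit 15) (nat_lit 4) (nat_lit 380) (nat_lit 259) (nat_lit 141)) (XT.lf (nat_lit 0) (nat_lit 34659203459) (nat_lit 76) (nat_lit 3440360853) (nat_lit 152) (nat_lit 12416838532) (nat_lit 13) (nat_lit 5) (nat_lit 14) (nat_lit 5) (nat_lit 15) (nat_lit 4) (nat_lit 381) (nat_lit 259) (nat_lit 140)))) (XT.nd (nat_lit 78) (nat_lit 152) (nat_lit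 0) (XT.lf (nat_lit 0) (nat_lit 43730179167) (nat_lit 152) (nat_lit 5872420260) (nat_lit 0) (nat_lit 2253547902) (nat_lit 13) (nat_lit 5) (nat_lit 15) (nat_lit 4) (nat_lit 13) (nat_lit 4) (nat_lit 382) (nat_lit 259) (nat_lit 139)) (XT.nd (nat_lit 78) (nat_lit 76) (nat_lit 0) (XT.lf (nat_lit 0) (nat_lit 4447853953) (nat_lit 76) (nat_lit 45149338544) (nat_lit 76) (nat_lit 3636871566) (nat_lit 12) (nat_lit 4) (nat_lit 13) (nat_lit 5) (nat_lit 13) (nat_lit 4) (nat_lit 383) (nat_lit 259) (nat_lit 138)) (XT.lf (nat_lit 0) (nat_lit 1018205438) (nat_lit 152) (nat_lit 39480301890) (nat_lit 76) (nat_lit 14153013477) (nat_lit 11) (nat_lit 5) (nat_lit 13) (nat_lit 5) (nat_lit 12) (nat_lit 4) (nat_lit 384) (nat_lit 259) (nat_lit 137))))) (XT.nd (nat_lit 234) (nat_lit 76) (nat_lit 0) (XT.nd (nat_lit 78) (nat_lit 0) (nat_lit 0) (XT.lf (nat_lit 0) (nat_lit 5730787126) (nat_lit 152) (nat_lit 29947539659) (nat_lit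 76) (nat_lit 20432369660) (nat_lit 11) (nat_lit 5) (nat_lit 13) (nat_lit 5) (nat_lit 12) (nat_lit 4) (nat_lit 385) (nat_lit 259) (nat_lit 136)) (XT.nd (nat_lit 78) (nat_lit 0) (nat_lit 0) (XT.lf (nat_lit 0) (nat_lit 10575959750) (nat_lit 152) (nat_lit 20144633985) (nat_lit 76) (nat_lit 26893321049) (nat_lit 11) (nat_lit 5) (nat_lit 13) (nat_lit 5) (nat_lit 12) (nat_lit 4) (nat_lit 386) (nat_lit 259) (nat_lit 135)) (XT.lf (nat_lit 0) (nat_lit 15557956956) (nat_lit 152) (nat_lit 10063019223) (nat_lit 76) (nat_lit 33541513137) (nat_lit 11) (nat_lit 5) (nat_lit 13) (nat_lit 5) (nat_lit 12) (nat_lit 4) (nat_lit 387) (nat_lit 259) (nat_lit 134)))) (XT.nd (nat_lit 156) (nat_lit 0) (nat_lit 0) (XT.nd (nat_lit 78) (nat_lit 0) (nat_lit 0) (XT.lf (nat_lit 0) (nat_lit 312206070) (nat_lit 76) (nat_lit 20371926991) (nat_lit 152) (nat_lit 40073550068) (nat_lit 10) (nat_lit 5) (nat_lit 11) (nat_lit 5) (nat_lit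 12) (nat_lit 4) (nat_lit 388) (nat_lit 259) (nat_lit 133)) (XT.lf (nat_lit 0) (nat_lit 11190186349) (nat_lit 76) (nat_lit 14867341846) (nat_lit 152) (nat_lit 36340405058) (nat_lit 10) (nat_lit 5) (nat_lit 11) (nat_lit 5) (nat_lit 12) (nat_lit 4) (nat_lit 389) (nat_lit 259) (nat_lit 132))) (XT.nd (nat_lit 78) (nat_lit 0) (nat_lit 0) (XT.lf (nat_lit 0) (nat_lit 22380152830) (nat_lit 76) (nat_lit 9204027678) (nat_lit 152) (nat_lit 32503452122) (nat_lit 10) (nat_lit 5) (nat_lit 11) (nat_lit 5) (nat_lit 12) (nat_lit 4) (nat_lit 390) (nat_lit 259) (nat_lit 131)) (XT.lf (nat_lit 0) (nat_lit 33891883154) (nat_lit 76) (nat_lit 3377035957) (nat_lit 152) (nat_lit 28559338583) (nat_lit 10) (nat_lit 5) (nat_lit 11) (nat_lit 5) (nat_lit 12) (nat_lit 4) (nat_lit 391) (nat_lit 259) (nat_lit 130))))))))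
noncomputable def xc105 : XT := (XT.nd (nat_lit 31044) (nat_lit 0) (nat_lit 10640) (XT.nd (nat_lit 1014) (nat_lit 0) (nat_lit 0) (XT.nd (nat_lit 468) (nat_lit 152) (nat_lit 0) (XT.nd (nat_lit 234) (nat_lit 76) (nat_lit 0) (XT.nd (nat_lit 78) (nat_lit 0) (nat_lit 0) (XT.lf (nat_lit 0) (nat_lit 43141884040) (nat_lit 152) (nat_lit 21911066053) (nat_lit 0) (nat_lit 2567624105) (nat_lit 10) (nat_lit 5) (nat_lit 12) (nat_lit 4) (nat_lit 10) (nat_lit 4) (nat_lit 392) (nat_lit 259) (nat_lit 129)) (XT.nd (nat_lit 78) (nat_lit 0) (nat_lit 0) (XT.lf (nat_lit 0) (nat_lit 49217147036) (nat_lit 152) (nat_lit 11631734386) (nat_lit 0) (nat_lit 8616998621) (nat_lit 10) (nat_lit 5) (nat_lit 12) (nat_lit 4) (nat_lit 10) (nat_lit 4) (nat_lit 393) (nat_lit 259) (nat_lit 128)) (XT.lf (nat_lit 0) (nat_lit 55467554447) (nat_lit 152) (nat_lit 1056935462) (nat_lit 0) (nat_lit 14842271584) (nat_lit 10) (nat_lit 5) (nat_lit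 12) (nat_lit 4) (nat_lit 10) (nat_lit 4) (nat_lit 394) (nat_lit 259) (nat_lit 127)))) (XT.nd (nat_lit 78) (nat_lit 0) (nat_lit 0) (XT.lf (nat_lit 0) (nat_lit 10018059251) (nat_lit 76) (nat_lit 51976808257) (nat_lit 76) (nat_lit 11327123018) (nat_lit 9) (nat_lit 4) (nat_lit 10) (nat_lit 5) (nat_lit 10) (nat_lit 4) (nat_lit 395) (nat_lit 259) (nat_lit 126)) (XT.nd (nat_lit 78) (nat_lit 0) (nat_lit 0) (XT.lf (nat_lit 0) (nat_lit 21434556258) (nat_lit 76) (nat_lit 47287292217) (nat_lit 76) (nat_lit 6613915351) (nat_lit 9) (nat_lit 4) (nat_lit 10) (nat_lit 5) (nat_lit 10) (nat_lit 4) (nat_lit 396) (nat_lit 259) (nat_lit 125)) (XT.lf (nat_lit 0) (nat_lit 33181496051) (nat_lit 76) (nat_lit 42462517131) (nat_lit 76) (nat_lit 1766138685) (nat_lit 9) (nat_lit 4) (nat_lit 10) (nat_lit 5) (nat_lit 10) (nat_lit 4) (nat_lit 397) (nat_lit 259) (nat_lit 124))))) (XT.nd (nat_lit 234) (nat_lit 76) (nat_lit 0)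 (XT.nd (nat_lit 78) (nat_lit 0) (nat_lit 0) (XT.lf (nat_lit 0) (nat_lit 3157600459) (nat_lit 152) (nat_lit 34308781144) (nat_lit 76) (nat_lit 42079656913) (nat_lit 8) (nat_lit 5) (nat_lit 10) (nat_lit 5) (nat_lit 9) (nat_lit 4) (nat_lit 398) (nat_lit 259) (nat_lit 123)) (XT.nd (nat_lit 78) (nat_lit 0) (nat_lit 0) (XT.lf (nat_lit 0) (nat_lit 8187244395) (nat_lit 152) (nat_lit 24120285148) (nat_lit 76) (nat_lit 49438139453) (nat_lit 8) (nat_lit 5) (nat_lit 10) (nat_lit 5) (nat_lit 9) (nat_lit 4) (nat_lit 399) (nat_lit 259) (nat_lit 122)) (XT.lf (nat_lit 0) (nat_lit 13361651685) (nat_lit 152) (nat_lit 13637288054) (nat_lit 76) (nat_lit 57012534892) (nat_lit 8) (nat_lit 5) (nat_lit 10) (nat_lit 5) (nat_lit 9) (nat_lit 4) (nat_lit 400) (nat_lit 259) (nat_lit 121)))) (XT.nd (nat_lit 156) (nat_lit 0) (nat_lit 0) (XT.nd (nat_lit 78) (nat_lit 76) (nat_lit 0) (XT.lf (nat_lit 0) (nat_lit 18685343654) (nat_lit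 152) (nat_lit 2850629962) (nat_lit 76) (nat_lit 64809461635) (nat_lit 8) (nat_lit 5) (nat_lit 10) (nat_lit 5) (nat_lit 9) (nat_lit 4) (nat_lit 401) (nat_lit 259) (nat_lit 120)) (XT.lf (nat_lit 0) (nat_lit 8413287913) (nat_lit 76) (nat_lit 15830557830) (nat_lit 152) (nat_lit 64503318288) (nat_lit 7) (nat_lit 5) (nat_lit 8) (nat_lit 5) (nat_lit 9) (nat_lit 4) (nat_lit 402) (nat_lit 259) (nat_lit 119))) (XT.nd (nat_lit 78) (nat_lit 0) (nat_lit 0) (XT.lf (nat_lit 0) (nat_lit 20063148009) (nat_lit 76) (nat_lit 9929034461) (nat_lit 152) (nat_lit 61228072068) (nat_lit 7) (nat_lit 5) (nat_lit 8) (nat_lit 5) (nat_lit 9) (nat_lit 4) (nat_lit 403) (nat_lit 259) (nat_lit 118)) (XT.lf (nat_lit 0) (nat_lit 32052396688) (nat_lit 76) (nat_lit 3855032614) (nat_lit 152) (nat_lit 57860276846) (nat_lit 7) (nat_lit 5) (nat_lit 8) (nat_lit 5) (nat_lit 9) (nat_lit 4) (nat_lit 404) (nat_lit 259) (nat_lit 117))))))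 (XT.nd (nat_lit 29484) (nat_lit 0) (nat_lit 21660) (XT.nd (nat_lit 234) (nat_lit 0) (nat_lit 0) (XT.nd (nat_lit 78) (nat_lit 0) (nat_lit 0) (XT.lf (nat_lit 0) (nat_lit 42017793977) (nat_lit 152) (nat_lit 52023273872) (nat_lit 0) (nat_lit 2349985768) (nat_lit 7) (nat_lit 5) (nat_lit 9) (nat_lit 4) (nat_lit 7) (nat_lit 4) (nat_lit 405) (nat_lit 259) (nat_lit 116)) (XT.nd (nat_lit 78) (nat_lit 0) (nat_lit 0) (XT.lf (nat_lit 0) (nat_lit 48344374870) (nat_lit 152) (nat_lit 42088290218) (nat_lit 0) (nat_lit 8659451325) (nat_lit 7) (nat_lit 5) (nat_lit 9) (nat_lit 4) (nat_lit 7) (nat_lit 4) (nat_lit 406) (nat_lit 259) (nat_lit 115)) (XT.lf (nat_lit 0) (nat_lit 54855643131) (nat_lit 152) (nat_lit 31864620512) (nat_lit 0) (nat_lit 15154102755) (nat_lit 7) (nat_lit 5) (nat_lit 9) (nat_lit 4) (nat_lit 7) (nat_lit 4) (nat_lit 407) (nat_lit 259) (nat_lit 114)))) (XT.nd (nat_lit 29094) (nat_lit 0) (nat_lit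 22344) (XT.lf (nat_lit 0) (nat_lit 61557288215) (nat_lit 152) (nat_lit 21343331451) (nat_lit 0) (nat_lit 21839614994) (nat_lit 7) (nat_lit 5) (nat_lit 9) (nat_lit 4) (nat_lit 7) (nat_lit 4) (nat_lit 408) (nat_lit 259) (nat_lit 113)) (XT.nd (nat_lit 78) (nat_lit 76) (nat_lit 0) (XT.lf (nat_lit 0) (nat_lit 1073741823) (nat_lit 0) (nat_lit 0) (nat_lit 0) (nat_lit 0) (nat_lit 302) (nat_lit 0) (nat_lit 1) (nat_lit 0) (nat_lit 1) (nat_lit 0) (nat_lit 260) (nat_lit 260) (nat_lit 260)) (XT.lf (nat_lit 0) (nat_lit 2903137584) (nat_lit 76) (nat_lit 3483127049) (nat_lit 0) (nat_lit 57200517) (nat_lit 301) (nat_lit 5) (nat_lit 302) (nat_lit 0) (nat_lit 301) (nat_lit 4) (nat_lit 261) (nat_lit 260) (nat_lit 259))))) (XT.nd (nat_lit 234) (nat_lit 532) (nat_lit 0) (XT.nd (nat_lit 78) (nat_lit 152) (nat_lit 0) (XT.lf (nat_lit 0) (nat_lit 5780634296) (nat_lit 76) (nat_lit 495938846) (nat_lit 0) (nat_lit 171651532)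 (nat_lit 301) (nat_lit 5) (nat_lit 302) (nat_lit 0) (nat_lit 301) (nat_lit 4) (nat_lit 262) (nat_lit 260) (nat_lit 258)) (XT.nd (nat_lit 78) (nat_lit 0) (nat_lit 0) (XT.lf (nat_lit 0) (nat_lit 2160732431) (nat_lit 152) (nat_lit 3905264565) (nat_lit 76) (nat_lit 389359486) (nat_lit 299) (nat_lit 5) (nat_lit 301) (nat_lit 5) (nat_lit 300) (nat_lit 4) (nat_lit 263) (nat_lit 260) (nat_lit 257)) (XT.lf (nat_lit 0) (nat_lit 4957352837) (nat_lit 152) (nat_lit 832560711) (nat_lit 76) (nat_lit 675989023) (nat_lit 299) (nat_lit 5) (nat_lit 301) (nat_lit 5) (nat_lit 300) (nat_lit 4) (nat_lit 264) (nat_lit 260) (nat_lit 256)))) (XT.nd (nat_lit 156) (nat_lit 304) (nat_lit 0) (XT.nd (nat_lit 78) (nat_lit 0) (nat_lit 0) (XT.lf (nat_lit 0) (nat_lit 1250681959) (nat_lit 228) (nat_lit 4173483891) (nat_lit 76) (nat_lit 1055009733) (nat_lit 296) (nat_lit 5) (nat_lit 299) (nat_lit 5) (nat_lit 297) (nat_lit 5) (nat_lit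 265) (nat_lit 260) (nat_lit 255)) (XT.lf (nat_lit 0) (nat_lit 3967018900) (nat_lit 228) (nat_lit 1013462124) (nat_lit 76) (nat_lit 1515056967) (nat_lit 296) (nat_lit 5) (nat_lit 299) (nat_lit 5) (nat_lit 297) (nat_lit 5) (nat_lit 266) (nat_lit 260) (nat_lit 254))) (XT.nd (nat_lit 78) (nat_lit 0) (nat_lit 0) (XT.lf (nat_lit 0) (nat_lit 167052790) (nat_lit 304) (nat_lit 4291123053) (nat_lit 76) (nat_lit 2056819642) (nat_lit 292) (nat_lit 5) (nat_lit 296) (nat_lit 5) (nat_lit 293) (nat_lit 5) (nat_lit 267) (nat_lit 260) (nat_lit 253)) (XT.lf (nat_lit 0) (nat_lit 2803329442) (nat_lit 304) (nat_lit 1041651662) (nat_lit 76) (nat_lit 2692239897) (nat_lit 292) (nat_lit 5) (nat_lit 296) (nat_lit 5) (nat_lit 293) (nat_lit 5) (nat_lit 268) (nat_lit 260) (nat_lit 252))))))) (XT.nd (nat_lit 1014) (nat_lit 6916) (nat_lit 0) (XT.nd (nat_lit 468) (nat_lit 2812) (nat_lit 0) (XT.nd (nat_lit 234) (nat_lit 532)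 (nat_lit 0) (XT.nd (nat_lit 78) (nat_lit 456) (nat_lit 0) (XT.lf (nat_lit 0) (nat_lit 2290893059) (nat_lit 304) (nat_lit 3153049048) (nat_lit 380) (nat_lit 1118661410) (nat_lit 288) (nat_lit 5) (nat_lit 292) (nat_lit 5) (nat_lit 293) (nat_lit 5) (nat_lit 269) (nat_lit 260) (nat_lit 251)) (XT.nd (nat_lit 78) (nat_lit 380) (nat_lit 0) (XT.lf (nat_lit 0) (nat_lit 1459224655) (nat_lit 380) (nat_lit 919581928) (nat_lit 76) (nat_lit 4212272166) (nat_lit 287) (nat_lit 5) (nat_lit 292) (nat_lit 5) (nat_lit 288) (nat_lit 5) (nat_lit 270) (nat_lit 260) (nat_lit 250)) (XT.lf (nat_lit 0) (nat_lit 2512150180) (nat_lit 380) (nat_lit 1511059179) (nat_lit 456) (nat_lit 2599155871) (nat_lit 282) (nat_lit 5) (nat_lit 287) (nat_lit 5) (nat_lit 288) (nat_lit 5) (nat_lit 271) (nat_lit 260) (nat_lit 249)))) (XT.nd (nat_lit 78) (nat_lit 532) (nat_lit 0) (XT.lf (nat_lit 0) (nat_lit 6007356766) (nat_lit 380) (nat_lit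 575285739) (nat_lit 456) (nat_lit 74611980) (nat_lit 282) (nat_lit 5) (nat_lit 287) (nat_lit 5) (nat_lit 288) (nat_lit 5) (nat_lit 272) (nat_lit 260) (nat_lit 248)) (XT.nd (nat_lit 78) (nat_lit 0) (nat_lit 0) (XT.lf (nat_lit 0) (nat_lit 2419490312) (nat_lit 532) (nat_lit 3811368553) (nat_lit 76) (nat_lit 463517411) (nat_lit 275) (nat_lit 5) (nat_lit 282) (nat_lit 5) (nat_lit 276) (nat_lit 5) (nat_lit 273) (nat_lit 260) (nat_lit 247)) (XT.lf (nat_lit 0) (nat_lit 4912364014) (nat_lit 532) (nat_lit 264824892) (nat_lit 76) (nat_lit 1557838588) (nat_lit 275) (nat_lit 5) (nat_lit 282) (nat_lit 5) (nat_lit 276) (nat_lit 5) (nat_lit 274) (nat_lit 260) (nat_lit 246))))) (XT.nd (nat_lit 234) (nat_lit 1596) (nat_lit 0) (XT.nd (nat_lit 78) (nat_lit 608) (nat_lit 0) (XT.lf (nat_lit 0) (nat_lit 636991169) (nat_lit 608) (nat_lit 3389878564) (nat_lit 76) (nat_lit 2751587983) (nat_lit 267) (nat_lit 5) (nat_lit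 275) (nat_lit 5) (nat_lit 268) (nat_lit 5) (nat_lit 275) (nat_lit 260) (nat_lit 245)) (XT.nd (nat_lit 78) (nat_lit 0) (nat_lit 0) (XT.lf (nat_lit 0) (nat_lit 260294172) (nat_lit 608) (nat_lit 2795254345) (nat_lit 684) (nat_lit 3769632826) (nat_lit 259) (nat_lit 5) (nat_lit 267) (nat_lit 5) (nat_lit 268) (nat_lit 5) (nat_lit 276) (nat_lit 260) (nat_lit 244)) (XT.lf (nat_lit 0) (nat_lit 4029439749) (nat_lit 608) (nat_lit 1469851750) (nat_lit 684) (nat_lit 1375615229) (nat_lit 259) (nat_lit 5) (nat_lit 267) (nat_lit 5) (nat_lit 268) (nat_lit 5) (nat_lit 277) (nat_lit 260) (nat_lit 243)))) (XT.nd (nat_lit 156) (nat_lit 836) (nat_lit 0) (XT.nd (nat_lit 78) (nat_lit 0) (nat_lit 0) (XT.lf (nat_lit 0) (nat_lit 933228861) (nat_lit 684) (nat_lit 64510446) (nat_lit 760) (nat_lit 5930375102) (nat_lit 249) (nat_lit 5) (nat_lit 258) (nat_lit 5) (nat_lit 259) (nat_lit 5) (nat_lit 278) (nat_lit 260) (nat_lit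 242)) (XT.lf (nat_lit 0) (nat_lit 3378724293) (nat_lit 760) (nat_lit 2187787716) (nat_lit 76) (nat_lit 1417239099) (nat_lit 249) (nat_lit 5) (nat_lit 259) (nat_lit 5) (nat_lit 250) (nat_lit 5) (nat_lit 279) (nat_lit 260) (nat_lit 241))) (XT.nd (nat_lit 78) (nat_lit 76) (nat_lit 0) (XT.lf (nat_lit 0) (nat_lit 1705833756) (nat_lit 760) (nat_lit 4066385995) (nat_lit 836) (nat_lit 1270763694) (nat_lit 239) (nat_lit 5) (nat_lit 249) (nat_lit 5) (nat_lit 250) (nat_lit 5) (nat_lit 280) (nat_lit 260) (nat_lit 240)) (XT.lf (nat_lit 0) (nat_lit 1058514746) (nat_lit 836) (nat_lit 1414726054) (nat_lit 76) (nat_lit 4632161713) (nat_lit 238) (nat_lit 5) (nat_lit 249) (nat_lit 5) (nat_lit 239) (nat_lit 5) (nat_lit 281) (nat_lit 260) (nat_lit 239)))))) (XT.nd (nat_lit 546) (nat_lit 2964) (nat_lit 0) (XT.nd (nat_lit 234) (nat_lit 2128) (nat_lit 0) (XT.nd (nat_lit 78) (nat_lit 988) (nat_lit 0) (XT.lf (nat_lit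 0) (nat_lit 2603997422) (nat_lit 836) (nat_lit 780150189) (nat_lit 912) (nat_lit 3786754047) (nat_lit 227) (nat_lit 5) (nat_lit 238) (nat_lit 5) (nat_lit 239) (nat_lit 5) (nat_lit 282) (nat_lit 260) (nat_lit 238)) (XT.nd (nat_lit 78) (nat_lit 988) (nat_lit 0) (XT.lf (nat_lit 0) (nat_lit 5731905622) (nat_lit 912) (nat_lit 536484013) (nat_lit 76) (nat_lit 971546698) (nat_lit 227) (nat_lit 5) (nat_lit 239) (nat_lit 5) (nat_lit 228) (nat_lit 5) (nat_lit 283) (nat_lit 260) (nat_lit 237)) (XT.lf (nat_lit 0) (nat_lit 795528063) (nat_lit 988) (nat_lit 3701689953) (nat_lit 76) (nat_lit 2814529797) (nat_lit 214) (nat_lit 5) (nat_lit 227) (nat_lit 5) (nat_lit 215) (nat_lit 5) (nat_lit 284) (nat_lit 260) (nat_lit 236)))) (XT.nd (nat_lit 156) (nat_lit 1140) (nat_lit 0) (XT.nd (nat_lit 78) (nat_lit 0) (nat_lit 0) (XT.lf (nat_lit 0) (nat_lit 439488156) (nat_lit 988) (nat_lit 2639481390) (nat_lit 1064) (nat_lit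 4308192841) (nat_lit 201) (nat_lit 5) (nat_lit 214) (nat_lit 5) (nat_lit 215) (nat_lit 5) (nat_lit 285) (nat_lit 260) (nat_lit 235)) (XT.lf (nat_lit 0) (nat_lit 4720830732) (nat_lit 988) (nat_lit 680275569) (nat_lit 1064) (nat_lit 2064752827) (nat_lit 201) (nat_lit 5) (nat_lit 214) (nat_lit 5) (nat_lit 215) (nat_lit 5) (nat_lit 286) (nat_lit 260) (nat_lit 234))) (XT.nd (nat_lit 78) (nat_lit 0) (nat_lit 0) (XT.lf (nat_lit 0) (nat_lit 203203736) (nat_lit 1140) (nat_lit 6009608091) (nat_lit 76) (nat_lit 1335291886) (nat_lit 186) (nat_lit 5) (nat_lit 201) (nat_lit 5) (nat_lit 187) (nat_lit 5) (nat_lit 287) (nat_lit 260) (nat_lit 233)) (XT.lf (nat_lit 0) (nat_lit 2467840889) (nat_lit 1140) (nat_lit 1713801840) (nat_lit 76) (nat_lit 3451570212) (nat_lit 186) (nat_lit 5) (nat_lit 201) (nat_lit 5) (nat_lit 187) (nat_lit 5) (nat_lit 288) (nat_lit 260) (nat_lit 232))))) (XT.nd (nat_lit 234) (nat_lit 1216)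 (nat_lit 0) (XT.nd (nat_lit 78) (nat_lit 608) (nat_lit 0) (XT.lf (nat_lit 0) (nat_lit 2704269418) (nat_lit 1140) (nat_lit 2059436154) (nat_lit 1216) (nat_lit 2958382718) (nat_lit 171) (nat_lit 5) (nat_lit 186) (nat_lit 5) (nat_lit 187) (nat_lit 5) (nat_lit 289) (nat_lit 260) (nat_lit 231)) (XT.nd (nat_lit 78) (nat_lit 608) (nat_lit 0) (XT.lf (nat_lit 0) (nat_lit 7085718966) (nat_lit 1216) (nat_lit 585257515) (nat_lit 76) (nat_lit 144043483) (nat_lit 171) (nat_lit 5) (nat_lit 187) (nat_lit 5) (nat_lit 172) (nat_lit 5) (nat_lit 290) (nat_lit 260) (nat_lit 230)) (XT.lf (nat_lit 0) (nat_lit 1534972579) (nat_lit 608) (nat_lit 3947401843) (nat_lit 76) (nat_lit 2428048699) (nat_lit 163) (nat_lit 5) (nat_lit 171) (nat_lit 5) (nat_lit 164) (nat_lit 5) (nat_lit 291) (nat_lit 260) (nat_lit 229)))) (XT.nd (nat_lit 156) (nat_lit 608) (nat_lit 0) (XT.nd (nat_lit 78) (nat_lit 0) (nat_lit 0) (XT.lf (nat_lit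 0) (nat_lit 595881542) (nat_lit 608) (nat_lit 3209196362) (nat_lit 684) (nat_lit 4204916056) (nat_lit 155) (nat_lit 5) (nat_lit 163) (nat_lit 5) (nat_lit 164) (nat_lit 5) (nat_lit 292) (nat_lit 260) (nat_lit 228)) (XT.lf (nat_lit 0) (nat_lit 5297265102) (nat_lit 608) (nat_lit 827901733) (nat_lit 684) (nat_lit 1988024851) (nat_lit 155) (nat_lit 5) (nat_lit 163) (nat_lit 5) (nat_lit 164) (nat_lit 5) (nat_lit 293) (nat_lit 260) (nat_lit 227))) (XT.nd (nat_lit 78) (nat_lit 0) (nat_lit 0) (XT.lf (nat_lit 0) (nat_lit 266702882) (nat_lit 608) (nat_lit 6340723664) (nat_lit 76) (nat_lit 1612751469) (nat_lit 147) (nat_lit 5) (nat_lit 155) (nat_lit 5) (nat_lit 148) (nat_lit 5) (nat_lit 294) (nat_lit 260) (nat_lit 226)) (XT.lf (nat_lit 0) (nat_lit 2530167660) (nat_lit 608) (nat_lit 1644048027) (nat_lit 76) (nat_lit 4156224183) (nat_lit 147) (nat_lit 5) (nat_lit 155) (nat_lit 5) (nat_lit 148) (nat_lit 5)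 (nat_lit 295) (nat_lit 260) (nat_lit 225))))))))
noncomputable def xc106 : XT := (XT.nd (nat_lit 2028) (nat_lit 2508) (nat_lit 0) (XT.nd (nat_lit 1014) (nat_lit 2432) (nat_lit 0) (XT.nd (nat_lit 468) (nat_lit 1748) (nat_lit 0) (XT.nd (nat_lit 234) (nat_lit 912) (nat_lit 0) (XT.nd (nat_lit 78) (nat_lit 532) (nat_lit 0) (XT.lf (nat_lit 0) (nat_lit 3197885872) (nat_lit 532) (nat_lit 1640156195) (nat_lit 608) (nat_lit 3606757795) (nat_lit 140) (nat_lit 5) (nat_lit 147) (nat_lit 5) (nat_lit 148) (nat_lit 5) (nat_lit 296) (nat_lit 260) (nat_lit 224)) (XT.nd (nat_lit 78) (nat_lit 532) (nat_lit 0) (XT.lf (nat_lit 0) (nat_lit 7187994035) (nat_lit 608) (nat_lit 411914699) (nat_lit 76) (nat_lit 963579645) (nat_lit 140) (nat_lit 5) (nat_lit 148) (nat_lit 5) (nat_lit 141) (nat_lit 5) (nat_lit 297) (nat_lit 260) (nat_lit 223)) (XT.lf (nat_lit 0) (nat_lit 913313532) (nat_lit 532) (nat_lit 4110560763) (nat_lit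 76) (nat_lit 3661417012) (nat_lit 133) (nat_lit 5) (nat_lit 140) (nat_lit 5) (nat_lit 134) (nat_lit 5) (nat_lit 298) (nat_lit 260) (nat_lit 222)))) (XT.nd (nat_lit 78) (nat_lit 456) (nat_lit 0) (XT.lf (nat_lit 0) (nat_lit 853871436) (nat_lit 456) (nat_lit 2350359924) (nat_lit 532) (nat_lit 5607351570) (nat_lit 127) (nat_lit 5) (nat_lit 133) (nat_lit 5) (nat_lit 134) (nat_lit 5) (nat_lit 299) (nat_lit 260) (nat_lit 221)) (XT.nd (nat_lit 78) (nat_lit 456) (nat_lit 0) (XT.lf (nat_lit 0) (nat_lit 5559232947) (nat_lit 532) (nat_lit 2952083353) (nat_lit 76) (nat_lit 430560026) (nat_lit 127) (nat_lit 5) (nat_lit 134) (nat_lit 5) (nat_lit 128) (nat_lit 5) (nat_lit 300) (nat_lit 260) (nat_lit 220)) (XT.lf (nat_lit 0) (nat_lit 2165538983) (nat_lit 456) (nat_lit 5814461423) (nat_lit 532) (nat_lit 1096296210) (nat_lit 121) (nat_lit 5) (nat_lit 127) (nat_lit 5) (nat_lit 128) (nat_lit 5) (nat_lit 301) (nat_lit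 260) (nat_lit 219))))) (XT.nd (nat_lit 234) (nat_lit 1216) (nat_lit 0) (XT.nd (nat_lit 78) (nat_lit 456) (nat_lit 0) (XT.lf (nat_lit 0) (nat_lit 1215552618) (nat_lit 532) (nat_lit 1786680562) (nat_lit 76) (nat_lit 6212776669) (nat_lit 120) (nat_lit 5) (nat_lit 127) (nat_lit 5) (nat_lit 121) (nat_lit 5) (nat_lit 302) (nat_lit 260) (nat_lit 218)) (XT.nd (nat_lit 78) (nat_lit 0) (nat_lit 0) (XT.lf (nat_lit 0) (nat_lit 3492457370) (nat_lit 456) (nat_lit 68619686) (nat_lit 532) (nat_lit 5796956645) (nat_lit 114) (nat_lit 5) (nat_lit 120) (nat_lit 5) (nat_lit 121) (nat_lit 5) (nat_lit 303) (nat_lit 260) (nat_lit 217)) (XT.lf (nat_lit 0) (nat_lit 5977112658) (nat_lit 532) (nat_lit 623553889) (nat_lit 76) (nat_lit 2904740943) (nat_lit 114) (nat_lit 5) (nat_lit 121) (nat_lit 5) (nat_lit 115) (nat_lit 5) (nat_lit 304) (nat_lit 260) (nat_lit 216)))) (XT.nd (nat_lit 156) (nat_lit 380) (nat_lit 0) (XT.nd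 (nat_lit 78) (nat_lit 456) (nat_lit 0) (XT.lf (nat_lit 0) (nat_lit 4813862489) (nat_lit 380) (nat_lit 3653612034) (nat_lit 456) (nat_lit 1189734347) (nat_lit 109) (nat_lit 5) (nat_lit 114) (nat_lit 5) (nat_lit 115) (nat_lit 5) (nat_lit 305) (nat_lit 260) (nat_lit 215)) (XT.lf (nat_lit 0) (nat_lit 557371757) (nat_lit 380) (nat_lit 604724839) (nat_lit 456) (nat_lit 8652167343) (nat_lit 103) (nat_lit 5) (nat_lit 108) (nat_lit 5) (nat_lit 109) (nat_lit 5) (nat_lit 306) (nat_lit 260) (nat_lit 214))) (XT.nd (nat_lit 78) (nat_lit 380) (nat_lit 0) (XT.lf (nat_lit 0) (nat_lit 3590191629) (nat_lit 456) (nat_lit 3848066754) (nat_lit 76) (nat_lit 2536586736) (nat_lit 103) (nat_lit 5) (nat_lit 109) (nat_lit 5) (nat_lit 104) (nat_lit 5) (nat_lit 307) (nat_lit 260) (nat_lit 213)) (XT.lf (nat_lit 0) (nat_lit 1695499193) (nat_lit 380) (nat_lit 4375056728) (nat_lit 456) (nat_lit 4070359871) (nat_lit 98) (nat_lit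 5) (nat_lit 103) (nat_lit 5) (nat_lit 104) (nat_lit 5) (nat_lit 308) (nat_lit 260) (nat_lit 212)))))) (XT.nd (nat_lit 468) (nat_lit 1292) (nat_lit 0) (XT.nd (nat_lit 234) (nat_lit 684) (nat_lit 0) (XT.nd (nat_lit 78) (nat_lit 456) (nat_lit 0) (XT.lf (nat_lit 0) (nat_lit 7430167062) (nat_lit 380) (nat_lit 1191891276) (nat_lit 456) (nat_lit 1690061681) (nat_lit 98) (nat_lit 5) (nat_lit 103) (nat_lit 5) (nat_lit 104) (nat_lit 5) (nat_lit 309) (nat_lit 260) (nat_lit 211)) (XT.nd (nat_lit 78) (nat_lit 0) (nat_lit 0) (XT.lf (nat_lit 0) (nat_lit 753040978) (nat_lit 456) (nat_lit 7665809167) (nat_lit 76) (nat_lit 2069253040) (nat_lit 92) (nat_lit 5) (nat_lit 98) (nat_lit 5) (nat_lit 93) (nat_lit 5) (nat_lit 310) (nat_lit 260) (nat_lit 210)) (XT.lf (nat_lit 0) (nat_lit 3235879214) (nat_lit 456) (nat_lit 1994582114) (nat_lit 76) (nat_lit 5438438922) (nat_lit 92) (nat_lit 5) (nat_lit 98) (nat_lit 5) (nat_lit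 93) (nat_lit 5) (nat_lit 311) (nat_lit 260) (nat_lit 209)))) (XT.nd (nat_lit 78) (nat_lit 380) (nat_lit 0) (XT.lf (nat_lit 0) (nat_lit 3869857166) (nat_lit 304) (nat_lit 1920952579) (nat_lit 380) (nat_lit 5064430580) (nat_lit 88) (nat_lit 5) (nat_lit 92) (nat_lit 5) (nat_lit 93) (nat_lit 5) (nat_lit 312) (nat_lit 260) (nat_lit 208)) (XT.nd (nat_lit 78) (nat_lit 380) (nat_lit 0) (XT.lf (nat_lit 0) (nat_lit 8417967932) (nat_lit 380) (nat_lit 1162965783) (nat_lit 76) (nat_lit 1466415429) (nat_lit 88) (nat_lit 5) (nat_lit 93) (nat_lit 5) (nat_lit 89) (nat_lit 5) (nat_lit 313) (nat_lit 260) (nat_lit 207)) (XT.lf (nat_lit 0) (nat_lit 4858439993) (nat_lit 380) (nat_lit 6293297171) (nat_lit 456) (nat_lit 92694772) (nat_lit 83) (nat_lit 5) (nat_lit 88) (nat_lit 5) (nat_lit 89) (nat_lit 5) (nat_lit 314) (nat_lit 260) (nat_lit 206))))) (XT.nd (nat_lit 234) (nat_lit 608) (nat_lit 0) (XT.nd (nat_lit 78)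 (nat_lit 608) (nat_lit 0) (XT.lf (nat_lit 0) (nat_lit 2445053642) (nat_lit 456) (nat_lit 438846871) (nat_lit 76) (nat_lit 8563617872) (nat_lit 82) (nat_lit 5) (nat_lit 88) (nat_lit 5) (nat_lit 83) (nat_lit 5) (nat_lit 315) (nat_lit 260) (nat_lit 205)) (XT.nd (nat_lit 78) (nat_lit 304) (nat_lit 0) (XT.lf (nat_lit 0) (nat_lit 5082157802) (nat_lit 380) (nat_lit 5914909563) (nat_lit 76) (nat_lit 658890751) (nat_lit 78) (nat_lit 5) (nat_lit 83) (nat_lit 5) (nat_lit 79) (nat_lit 5) (nat_lit 316) (nat_lit 260) (nat_lit 204)) (XT.lf (nat_lit 0) (nat_lit 168767382) (nat_lit 304) (nat_lit 7628091552) (nat_lit 380) (nat_lit 4073877213) (nat_lit 74) (nat_lit 5) (nat_lit 78) (nat_lit 5) (nat_lit 79) (nat_lit 5) (nat_lit 317) (nat_lit 260) (nat_lit 203)))) (XT.nd (nat_lit 156) (nat_lit 304) (nat_lit 0) (XT.nd (nat_lit 78) (nat_lit 304) (nat_lit 0) (XT.lf (nat_lit 0) (nat_lit 6505954798) (nat_lit 304) (nat_lit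 4111178390) (nat_lit 380) (nat_lit 1474138838) (nat_lit 74) (nat_lit 5) (nat_lit 78) (nat_lit 5) (nat_lit 79) (nat_lit 5) (nat_lit 318) (nat_lit 260) (nat_lit 202)) (XT.lf (nat_lit 0) (nat_lit 666757314) (nat_lit 228) (nat_lit 484818345) (nat_lit 304) (nat_lit 11167393383) (nat_lit 70) (nat_lit 5) (nat_lit 73) (nat_lit 5) (nat_lit 74) (nat_lit 5) (nat_lit 319) (nat_lit 260) (nat_lit 201))) (XT.nd (nat_lit 78) (nat_lit 304) (nat_lit 0) (XT.lf (nat_lit 0) (nat_lit 3880102907) (nat_lit 304) (nat_lit 5427273873) (nat_lit 76) (nat_lit 3244107428) (nat_lit 70) (nat_lit 5) (nat_lit 74) (nat_lit 5) (nat_lit 71) (nat_lit 5) (nat_lit 320) (nat_lit 260) (nat_lit 200)) (XT.lf (nat_lit 0) (nat_lit 949639416) (nat_lit 304) (nat_lit 5721247764) (nat_lit 380) (nat_lit 6120709794) (nat_lit 66) (nat_lit 5) (nat_lit 70) (nat_lit 5) (nat_lit 71) (nat_lit 5) (nat_lit 321) (nat_lit 260) (nat_lit 199))))))) (XT.nd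 (nat_lit 1014) (nat_lit 988) (nat_lit 0) (XT.nd (nat_lit 468) (nat_lit 760) (nat_lit 0) (XT.nd (nat_lit 234) (nat_lit 456) (nat_lit 0) (XT.nd (nat_lit 78) (nat_lit 304) (nat_lit 0) (XT.lf (nat_lit 0) (nat_lit 7581086018) (nat_lit 304) (nat_lit 1986101154) (nat_lit 380) (nat_lit 3471105369) (nat_lit 66) (nat_lit 5) (nat_lit 70) (nat_lit 5) (nat_lit 71) (nat_lit 5) (nat_lit 322) (nat_lit 260) (nat_lit 198)) (XT.nd (nat_lit 78) (nat_lit 76) (nat_lit 0) (XT.lf (nat_lit 0) (nat_lit 1074685363) (nat_lit 228) (nat_lit 11471720132) (nat_lit 304) (nat_lit 746134818) (nat_lit 63) (nat_lit 5) (nat_lit 66) (nat_lit 5) (nat_lit 67) (nat_lit 5) (nat_lit 323) (nat_lit 260) (nat_lit 197)) (XT.lf (nat_lit 0) (nat_lit 2063642317) (nat_lit 304) (nat_lit 5726063843) (nat_lit 76) (nat_lit 5762847492) (nat_lit 62) (nat_lit 5) (nat_lit 66) (nat_lit 5) (nat_lit 63) (nat_lit 5) (nat_lit 324) (nat_lit 260) (nat_lit 196))))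 (XT.nd (nat_lit 78) (nat_lit 228) (nat_lit 0) (XT.lf (nat_lit 0) (nat_lit 924844114) (nat_lit 228) (nat_lit 3995645583) (nat_lit 304) (nat_lit 8900352348) (nat_lit 59) (nat_lit 5) (nat_lit 62) (nat_lit 5) (nat_lit 63) (nat_lit 5) (nat_lit 325) (nat_lit 260) (nat_lit 195)) (XT.nd (nat_lit 78) (nat_lit 228) (nat_lit 0) (XT.lf (nat_lit 0) (nat_lit 7846815443) (nat_lit 228) (nat_lit 43398050) (nat_lit 304) (nat_lit 6206179092) (nat_lit 59) (nat_lit 5) (nat_lit 62) (nat_lit 5) (nat_lit 63) (nat_lit 5) (nat_lit 326) (nat_lit 260) (nat_lit 194)) (XT.lf (nat_lit 0) (nat_lit 522430673) (nat_lit 228) (nat_lit 10440434197) (nat_lit 304) (nat_lit 3416957487) (nat_lit 56) (nat_lit 5) (nat_lit 59) (nat_lit 5) (nat_lit 60) (nat_lit 5) (nat_lit 327) (nat_lit 260) (nat_lit 193))))) (XT.nd (nat_lit 234) (nat_lit 456) (nat_lit 0) (XT.nd (nat_lit 78) (nat_lit 304) (nat_lit 0) (XT.lf (nat_lit 0) (nat_lit 7580428570)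 (nat_lit 228) (nat_lit 6581340938) (nat_lit 304) (nat_lit 508990285) (nat_lit 56) (nat_lit 5) (nat_lit 59) (nat_lit 5) (nat_lit 60) (nat_lit 5) (nat_lit 328) (nat_lit 260) (nat_lit 192)) (XT.nd (nat_lit 78) (nat_lit 228) (nat_lit 0) (XT.lf (nat_lit 0) (nat_lit 2408789870) (nat_lit 304) (nat_lit 188294838) (nat_lit 76) (nat_lit 12373516436) (nat_lit 55) (nat_lit 5) (nat_lit 59) (nat_lit 5) (nat_lit 56) (nat_lit 5) (nat_lit 329) (nat_lit 260) (nat_lit 191)) (XT.lf (nat_lit 0) (nat_lit 5458244007) (nat_lit 304) (nat_lit 8283493896) (nat_lit 76) (nat_lit 1535942217) (nat_lit 52) (nat_lit 5) (nat_lit 56) (nat_lit 5) (nat_lit 53) (nat_lit 5) (nat_lit 330) (nat_lit 260) (nat_lit 190)))) (XT.nd (nat_lit 156) (nat_lit 304) (nat_lit 0) (XT.nd (nat_lit 78) (nat_lit 152) (nat_lit 0) (XT.lf (nat_lit 0) (nat_lit 8599014417) (nat_lit 304) (nat_lit 1266788346) (nat_lit 76) (nat_lit 5728197695) (nat_lit 52)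 (nat_lit 5) (nat_lit 56) (nat_lit 5) (nat_lit 53) (nat_lit 5) (nat_lit 331) (nat_lit 260) (nat_lit 189)) (XT.lf (nat_lit 0) (nat_lit 6036322386) (nat_lit 152) (nat_lit 5828718828) (nat_lit 228) (nat_lit 4053861470) (nat_lit 50) (nat_lit 5) (nat_lit 52) (nat_lit 5) (nat_lit 53) (nat_lit 5) (nat_lit 332) (nat_lit 260) (nat_lit 188))) (XT.nd (nat_lit 78) (nat_lit 304) (nat_lit 0) (XT.lf (nat_lit 0) (nat_lit 13543018635) (nat_lit 152) (nat_lit 1672218181) (nat_lit 228) (nat_lit 1038752117) (nat_lit 50) (nat_lit 5) (nat_lit 52) (nat_lit 5) (nat_lit 53) (nat_lit 5) (nat_lit 333) (nat_lit 260) (nat_lit 187)) (XT.lf (nat_lit 0) (nat_lit 2071201799) (nat_lit 304) (nat_lit 11916599535) (nat_lit 76) (nat_lit 2609410045) (nat_lit 46) (nat_lit 5) (nat_lit 50) (nat_lit 5) (nat_lit 47) (nat_lit 5) (nat_lit 334) (nat_lit 260) (nat_lit 186)))))) (XT.nd (nat_lit 468) (nat_lit 532) (nat_lit 0) (XT.nd (nat_lit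 234) (nat_lit 304) (nat_lit 0) (XT.nd (nat_lit 78) (nat_lit 152) (nat_lit 0) (XT.lf (nat_lit 0) (nat_lit 5271904037) (nat_lit 304) (nat_lit 4668568022) (nat_lit 76) (nat_lit 7009420752) (nat_lit 46) (nat_lit 5) (nat_lit 50) (nat_lit 5) (nat_lit 47) (nat_lit 5) (nat_lit 335) (nat_lit 260) (nat_lit 185)) (XT.nd (nat_lit 78) (nat_lit 0) (nat_lit 0) (XT.lf (nat_lit 0) (nat_lit 2811910731) (nat_lit 152) (nat_lit 5758624523) (nat_lit 228) (nat_lit 8742582272) (nat_lit 44) (nat_lit 5) (nat_lit 46) (nat_lit 5) (nat_lit 47) (nat_lit 5) (nat_lit 336) (nat_lit 260) (nat_lit 184)) (XT.lf (nat_lit 0) (nat_lit 10573031529) (nat_lit 152) (nat_lit 1417467631) (nat_lit 228) (nat_lit 5696088101) (nat_lit 44) (nat_lit 5) (nat_lit 46) (nat_lit 5) (nat_lit 47) (nat_lit 5) (nat_lit 337) (nat_lit 260) (nat_lit 183)))) (XT.nd (nat_lit 78) (nat_lit 76) (nat_lit 0) (XT.lf (nat_lit 0) (nat_lit 435948786) (nat_lit 228)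 (nat_lit 15086474578) (nat_lit 304) (nat_lit 2548575807) (nat_lit 41) (nat_lit 5) (nat_lit 44) (nat_lit 5) (nat_lit 45) (nat_lit 5) (nat_lit 338) (nat_lit 260) (nat_lit 182)) (XT.nd (nat_lit 78) (nat_lit 0) (nat_lit 0) (XT.lf (nat_lit 0) (nat_lit 742304713) (nat_lit 304) (nat_lit 10167482435) (nat_lit 76) (nat_lit 7555099993) (nat_lit 40) (nat_lit 5) (nat_lit 44) (nat_lit 5) (nat_lit 41) (nat_lit 5) (nat_lit 339) (nat_lit 260) (nat_lit 181)) (XT.lf (nat_lit 0) (nat_lit 4057284238) (nat_lit 304) (nat_lit 2539026474) (nat_lit 76) (nat_lit 12274243461) (nat_lit 40) (nat_lit 5) (nat_lit 44) (nat_lit 5) (nat_lit 41) (nat_lit 5) (nat_lit 340) (nat_lit 260) (nat_lit 180))))) (XT.nd (nat_lit 234) (nat_lit 228) (nat_lit 0) (XT.nd (nat_lit 78) (nat_lit 152) (nat_lit 0) (XT.lf (nat_lit 0) (nat_lit 5386593446) (nat_lit 152) (nat_lit 2114177029) (nat_lit 228) (nat_lit 11786765836) (nat_lit 38) (nat_lit 5)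 (nat_lit 40) (nat_lit 5) (nat_lit 41) (nat_lit 5) (nat_lit 341) (nat_lit 260) (nat_lit 179)) (XT.nd (nat_lit 78) (nat_lit 152) (nat_lit 0) (XT.lf (nat_lit 0) (nat_lit 11074963879) (nat_lit 228) (nat_lit 6175532398) (nat_lit 76) (nat_lit 2465725882) (nat_lit 38) (nat_lit 5) (nat_lit 41) (nat_lit 5) (nat_lit 39) (nat_lit 5) (nat_lit 342) (nat_lit 260) (nat_lit 178)) (XT.lf (nat_lit 0) (nat_lit 1759117641) (nat_lit 152) (nat_lit 13013219001) (nat_lit 228) (nat_lit 5384969184) (nat_lit 36) (nat_lit 5) (nat_lit 38) (nat_lit 5) (nat_lit 39) (nat_lit 5) (nat_lit 343) (nat_lit 260) (nat_lit 177)))) (XT.nd (nat_lit 156) (nat_lit 152) (nat_lit 0) (XT.nd (nat_lit 78) (nat_lit 76) (nat_lit 0) (XT.lf (nat_lit 0) (nat_lit 10022834653) (nat_lit 152) (nat_lit 8598563761) (nat_lit 228) (nat_lit 1989015941) (nat_lit 36) (nat_lit 5) (nat_lit 38) (nat_lit 5) (nat_lit 39) (nat_lit 5) (nat_lit 344) (nat_lit 260)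 (nat_lit 176)) (XT.lf (nat_lit 0) (nat_lit 1458187232) (nat_lit 228) (nat_lit 2592121796) (nat_lit 76) (nat_lit 17027022093) (nat_lit 35) (nat_lit 5) (nat_lit 38) (nat_lit 5) (nat_lit 36) (nat_lit 5) (nat_lit 345) (nat_lit 260) (nat_lit 175))) (XT.nd (nat_lit 78) (nat_lit 0) (nat_lit 0) (XT.lf (nat_lit 0) (nat_lit 5009766833) (nat_lit 228) (nat_lit 15862555845) (nat_lit 76) (nat_lit 684127870) (nat_lit 33) (nat_lit 5) (nat_lit 36) (nat_lit 5) (nat_lit 34) (nat_lit 5) (nat_lit 346) (nat_lit 260) (nat_lit 174)) (XT.lf (nat_lit 0) (nat_lit 8714009178) (nat_lit 228) (nat_lit 7842000250) (nat_lit 76) (nat_lit 5492564340) (nat_lit 33) (nat_lit 5) (nat_lit 36) (nat_lit 5) (nat_lit 34) (nat_lit 5) (nat_lit 347) (nat_lit 260) (nat_lit 173))))))))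
noncomputable def xc107 : XT := (XT.nd (nat_lit 2028) (nat_lit 684) (nat_lit 0) (XT.nd (nat_lit 1014) (nat_lit 380) (nat_lit 0) (XT.nd (nat_lit 468) (nat_lit 456) (nat_lit 0) (XT.nd (nat_lit 234) (nat_lit 228) (nat_lit 0) (XT.nd (nat_lit 78) (nat_lit 0) (nat_lit 0) (XT.lf (nat_lit 0) (nat_lit 393740378) (nat_lit 152) (nat_lit 12119596857) (nat_lit 228) (nat_lit 10042617969) (nat_lit 31) (nat_lit 5) (nat_lit 33) (nat_lit 5) (nat_lit 34) (nat_lit 5) (nat_lit 348) (nat_lit 260) (nat_lit 172)) (XT.nd (nat_lit 78) (nat_lit 0) (nat_lit 0) (XT.lf (nat_lit 0) (nat_lit 9004516273) (nat_lit 152) (nat_lit 7481753528) (nat_lit 228) (nat_lit 6590512430) (nat_lit 31) (nat_lit 5) (nat_lit 33) (nat_lit 5) (nat_lit 34) (nat_lit 5) (nat_lit 349) (nat_lit 260) (nat_lit 171)) (XT.lf (nat_lit 0) (nat_lit 17841780229) (nat_lit 152) (nat_lit 2717615782) (nat_lit 228) (nat_lit 3054420399) (nat_lit 31) (nat_lit 5) (nat_lit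 33) (nat_lit 5) (nat_lit 34) (nat_lit 5) (nat_lit 350) (nat_lit 260) (nat_lit 170)))) (XT.nd (nat_lit 78) (nat_lit 0) (nat_lit 0) (XT.lf (nat_lit 0) (nat_lit 605761468) (nat_lit 228) (nat_lit 21393007072) (nat_lit 76) (nat_lit 2167151083) (nat_lit 28) (nat_lit 5) (nat_lit 31) (nat_lit 5) (nat_lit 29) (nat_lit 5) (nat_lit 351) (nat_lit 260) (nat_lit 169)) (XT.nd (nat_lit 78) (nat_lit 0) (nat_lit 0) (XT.lf (nat_lit 0) (nat_lit 4381616692) (nat_lit 228) (nat_lit 13129458479) (nat_lit 76) (nat_lit 7220597196) (nat_lit 28) (nat_lit 5) (nat_lit 31) (nat_lit 5) (nat_lit 29) (nat_lit 5) (nat_lit 352) (nat_lit 260) (nat_lit 168)) (XT.lf (nat_lit 0) (nat_lit 8252775049) (nat_lit 228) (nat_lit 4648514104) (nat_lit 76) (nat_lit 12413658831) (nat_lit 28) (nat_lit 5) (nat_lit 31) (nat_lit 5) (nat_lit 29) (nat_lit 5) (nat_lit 353) (nat_lit 260) (nat_lit 167))))) (XT.nd (nat_lit 234) (nat_lit 304) (nat_lit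 0) (XT.nd (nat_lit 78) (nat_lit 0) (nat_lit 0) (XT.lf (nat_lit 0) (nat_lit 4137983548) (nat_lit 152) (nat_lit 8124412386) (nat_lit 228) (nat_lit 13652666896) (nat_lit 26) (nat_lit 5) (nat_lit 28) (nat_lit 5) (nat_lit 29) (nat_lit 5) (nat_lit 354) (nat_lit 260) (nat_lit 166)) (XT.nd (nat_lit 78) (nat_lit 0) (nat_lit 0) (XT.lf (nat_lit 0) (nat_lit 13254034508) (nat_lit 152) (nat_lit 3167989036) (nat_lit 228) (nat_lit 10110276512) (nat_lit 26) (nat_lit 5) (nat_lit 28) (nat_lit 5) (nat_lit 29) (nat_lit 5) (nat_lit 355) (nat_lit 260) (nat_lit 165)) (XT.lf (nat_lit 0) (nat_lit 20708226679) (nat_lit 228) (nat_lit 4571984339) (nat_lit 76) (nat_lit 1887799953) (nat_lit 26) (nat_lit 5) (nat_lit 29) (nat_lit 5) (nat_lit 27) (nat_lit 4) (nat_lit 356) (nat_lit 260) (nat_lit 164)))) (XT.nd (nat_lit 156) (nat_lit 152) (nat_lit 0) (XT.nd (nat_lit 78) (nat_lit 76) (nat_lit 0) (XT.lf (nat_lit 0) (nat_lit 4422380618)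 (nat_lit 76) (nat_lit 20758168308) (nat_lit 152) (nat_lit 2640528175) (nat_lit 25) (nat_lit 5) (nat_lit 26) (nat_lit 5) (nat_lit 27) (nat_lit 4) (nat_lit 357) (nat_lit 260) (nat_lit 163)) (XT.lf (nat_lit 0) (nat_lit 1298389959) (nat_lit 152) (nat_lit 14753035573) (nat_lit 76) (nat_lit 12441036387) (nat_lit 24) (nat_lit 5) (nat_lit 26) (nat_lit 5) (nat_lit 25) (nat_lit 5) (nat_lit 358) (nat_lit 260) (nat_lit 162))) (XT.nd (nat_lit 78) (nat_lit 152) (nat_lit 0) (XT.lf (nat_lit 0) (nat_lit 5286574701) (nat_lit 152) (nat_lit 5901424378) (nat_lit 76) (nat_lit 17995688795) (nat_lit 24) (nat_lit 5) (nat_lit 26) (nat_lit 5) (nat_lit 25) (nat_lit 5) (nat_lit 359) (nat_lit 260) (nat_lit 161)) (XT.lf (nat_lit 0) (nat_lit 3252726298) (nat_lit 152) (nat_lit 6157577983) (nat_lit 228) (nat_lit 20484878122) (nat_lit 22) (nat_lit 5) (nat_lit 24) (nat_lit 5) (nat_lit 25) (nat_lit 5) (nat_lit 360) (nat_lit 260)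 (nat_lit 160)))))) (XT.nd (nat_lit 468) (nat_lit 228) (nat_lit 0) (XT.nd (nat_lit 234) (nat_lit 76) (nat_lit 0) (XT.nd (nat_lit 78) (nat_lit 76) (nat_lit 0) (XT.lf (nat_lit 0) (nat_lit 12776253270) (nat_lit 152) (nat_lit 925912948) (nat_lit 228) (nat_lit 16924531457) (nat_lit 22) (nat_lit 5) (nat_lit 24) (nat_lit 5) (nat_lit 25) (nat_lit 5) (nat_lit 361) (nat_lit 260) (nat_lit 159)) (XT.nd (nat_lit 78) (nat_lit 76) (nat_lit 0) (XT.lf (nat_lit 0) (nat_lit 18150848682) (nat_lit 228) (nat_lit 8863375545) (nat_lit 76) (nat_lit 4365100509) (nat_lit 22) (nat_lit 5) (nat_lit 25) (nat_lit 5) (nat_lit 23) (nat_lit 4) (nat_lit 362) (nat_lit 260) (nat_lit 158)) (XT.lf (nat_lit 0) (nat_lit 366231045) (nat_lit 76) (nat_lit 22365046957) (nat_lit 152) (nat_lit 9423312046) (nat_lit 21) (nat_lit 5) (nat_lit 22) (nat_lit 5) (nat_lit 23) (nat_lit 4) (nat_lit 363) (nat_lit 260) (nat_lit 157)))) (XT.nd (nat_lit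 78) (nat_lit 76) (nat_lit 0) (XT.lf (nat_lit 0) (nat_lit 10029608597) (nat_lit 76) (nat_lit 17494793805) (nat_lit 152) (nat_lit 5426460248) (nat_lit 21) (nat_lit 5) (nat_lit 22) (nat_lit 5) (nat_lit 23) (nat_lit 4) (nat_lit 364) (nat_lit 260) (nat_lit 156)) (XT.nd (nat_lit 78) (nat_lit 76) (nat_lit 0) (XT.lf (nat_lit 0) (nat_lit 19958802285) (nat_lit 76) (nat_lit 12488711925) (nat_lit 152) (nat_lit 1323930979) (nat_lit 21) (nat_lit 5) (nat_lit 22) (nat_lit 5) (nat_lit 23) (nat_lit 4) (nat_lit 365) (nat_lit 260) (nat_lit 155)) (XT.lf (nat_lit 0) (nat_lit 2831507933) (nat_lit 152) (nat_lit 4482326458) (nat_lit 76) (nat_lit 27302387491) (nat_lit 20) (nat_lit 5) (nat_lit 22) (nat_lit 5) (nat_lit 21) (nat_lit 5) (nat_lit 366) (nat_lit 260) (nat_lit 154))))) (XT.nd (nat_lit 234) (nat_lit 76) (nat_lit 0) (XT.nd (nat_lit 78) (nat_lit 0) (nat_lit 0) (XT.lf (nat_lit 0) (nat_lit 5193157223) (nat_lit 152)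 (nat_lit 1928613263) (nat_lit 228) (nat_lit 28363081966) (nat_lit 18) (nat_lit 5) (nat_lit 20) (nat_lit 5) (nat_lit 21) (nat_lit 5) (nat_lit 367) (nat_lit 260) (nat_lit 153)) (XT.nd (nat_lit 78) (nat_lit 0) (nat_lit 0) (XT.lf (nat_lit 0) (nat_lit 11608152675) (nat_lit 228) (nat_lit 21185671983) (nat_lit 76) (nat_lit 3583701654) (nat_lit 18) (nat_lit 5) (nat_lit 21) (nat_lit 5) (nat_lit 19) (nat_lit 4) (nat_lit 368) (nat_lit 260) (nat_lit 152)) (XT.lf (nat_lit 0) (nat_lit 16235523348) (nat_lit 228) (nat_lit 11847940387) (nat_lit 76) (nat_lit 9213331271) (nat_lit 18) (nat_lit 5) (nat_lit 21) (nat_lit 5) (nat_lit 19) (nat_lit 4) (nat_lit 369) (nat_lit 260) (nat_lit 151)))) (XT.nd (nat_lit 156) (nat_lit 0) (nat_lit 0) (XT.nd (nat_lit 78) (nat_lit 76) (nat_lit 0) (XT.lf (nat_lit 0) (nat_lit 20989386830) (nat_lit 228) (nat_lit 2251802249) (nat_lit 76) (nat_lit 15002828872) (nat_lit 18) (nat_lit 5)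 (nat_lit 21) (nat_lit 5) (nat_lit 19) (nat_lit 4) (nat_lit 370) (nat_lit 260) (nat_lit 150)) (XT.lf (nat_lit 0) (nat_lit 7762603766) (nat_lit 76) (nat_lit 18185912111) (nat_lit 152) (nat_lit 13269268370) (nat_lit 17) (nat_lit 5) (nat_lit 18) (nat_lit 5) (nat_lit 19) (nat_lit 4) (nat_lit 371) (nat_lit 260) (nat_lit 149))) (XT.nd (nat_lit 78) (nat_lit 0) (nat_lit 0) (XT.lf (nat_lit 0) (nat_lit 18102715865) (nat_lit 76) (nat_lit 12964620335) (nat_lit 152) (nat_lit 9153105787) (nat_lit 17) (nat_lit 5) (nat_lit 18) (nat_lit 5) (nat_lit 19) (nat_lit 4) (nat_lit 372) (nat_lit 260) (nat_lit 148)) (XT.lf (nat_lit 0) (nat_lit 28732753817) (nat_lit 76) (nat_lit 7595490244) (nat_lit 152) (nat_lit 4925285511) (nat_lit 17) (nat_lit 5) (nat_lit 18) (nat_lit 5) (nat_lit 19) (nat_lit 4) (nat_lit 373) (nat_lit 260) (nat_lit 147))))))) (XT.nd (nat_lit 1014) (nat_lit 228) (nat_lit 0) (XT.nd (nat_lit 468) (nat_lit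 152) (nat_lit 0) (XT.nd (nat_lit 234) (nat_lit 76) (nat_lit 0) (XT.nd (nat_lit 78) (nat_lit 228) (nat_lit 0) (XT.lf (nat_lit 0) (nat_lit 39662006004) (nat_lit 76) (nat_lit 2073830366) (nat_lit 152) (nat_lit 582113332) (nat_lit 17) (nat_lit 5) (nat_lit 18) (nat_lit 5) (nat_lit 19) (nat_lit 4) (nat_lit 374) (nat_lit 260) (nat_lit 146)) (XT.nd (nat_lit 78) (nat_lit 0) (nat_lit 0) (XT.lf (nat_lit 0) (nat_lit 3913256971) (nat_lit 228) (nat_lit 35850747866) (nat_lit 76) (nat_lit 3646245606) (nat_lit 14) (nat_lit 5) (nat_lit 17) (nat_lit 5) (nat_lit 15) (nat_lit 4) (nat_lit 375) (nat_lit 260) (nat_lit 145)) (XT.lf (nat_lit 0) (nat_lit 8568530159) (nat_lit 228) (nat_lit 26444616699) (nat_lit 76) (nat_lit 9520903347) (nat_lit 14) (nat_lit 5) (nat_lit 17) (nat_lit 5) (nat_lit 15) (nat_lit 4) (nat_lit 376) (nat_lit 260) (nat_lit 144)))) (XT.nd (nat_lit 78) (nat_lit 76) (nat_lit 0) (XT.lf (nat_lit 0) (nat_lit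 13352901677) (nat_lit 228) (nat_lit 16775132233) (nat_lit 76) (nat_lit 15563851851) (nat_lit 14) (nat_lit 5) (nat_lit 17) (nat_lit 5) (nat_lit 15) (nat_lit 4) (nat_lit 377) (nat_lit 260) (nat_lit 143)) (XT.nd (nat_lit 78) (nat_lit 76) (nat_lit 0) (XT.lf (nat_lit 0) (nat_lit 18270552041) (nat_lit 228) (nat_lit 6833845405) (nat_lit 76) (nat_lit 21780371365) (nat_lit 14) (nat_lit 5) (nat_lit 17) (nat_lit 5) (nat_lit 15) (nat_lit 4) (nat_lit 378) (nat_lit 260) (nat_lit 142)) (XT.lf (nat_lit 0) (nat_lit 3455356804) (nat_lit 76) (nat_lit 19903636428) (nat_lit 152) (nat_lit 24753751998) (nat_lit 13) (nat_lit 5) (nat_lit 14) (nat_lit 5) (nat_lit 15) (nat_lit 4) (nat_lit 379) (nat_lit 260) (nat_lit 141))))) (XT.nd (nat_lit 234) (nat_lit 152) (nat_lit 0) (XT.nd (nat_lit 78) (nat_lit 0) (nat_lit 0) (XT.lf (nat_lit 0) (nat_lit 14175746547) (nat_lit 76) (nat_lit 14483516830) (nat_lit 152) (nat_lit 20716526874)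 (nat_lit 13) (nat_lit 5) (nat_lit 14) (nat_lit 5) (nat_lit 15) (nat_lit 4) (nat_lit 380) (nat_lit 260) (nat_lit 140)) (XT.nd (nat_lit 78) (nat_lit 0) (nat_lit 0) (XT.lf (nat_lit 0) (nat_lit 25200684230) (nat_lit 76) (nat_lit 8908311063) (nat_lit 152) (nat_lit 16568022165) (nat_lit 13) (nat_lit 5) (nat_lit 14) (nat_lit 5) (nat_lit 15) (nat_lit 4) (nat_lit 381) (nat_lit 260) (nat_lit 139)) (XT.lf (nat_lit 0) (nat_lit 36539803294) (nat_lit 76) (nat_lit 3173147588) (nat_lit 152) (nat_lit 12304612963) (nat_lit 13) (nat_lit 5) (nat_lit 14) (nat_lit 5) (nat_lit 15) (nat_lit 4) (nat_lit 382) (nat_lit 260) (nat_lit 138)))) (XT.nd (nat_lit 156) (nat_lit 76) (nat_lit 0) (XT.nd (nat_lit 78) (nat_lit 76) (nat_lit 0) (XT.lf (nat_lit 0) (nat_lit 45502240254) (nat_lit 152) (nat_lit 5221802507) (nat_lit 0) (nat_lit 2673771603) (nat_lit 13) (nat_lit 5) (nat_lit 15) (nat_lit 4) (nat_lit 13) (nat_lit 4) (nat_lit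 383) (nat_lit 260) (nat_lit 137)) (XT.lf (nat_lit 0) (nat_lit 5399974145) (nat_lit 76) (nat_lit 46139756942) (nat_lit 76) (nat_lit 3277509695) (nat_lit 12) (nat_lit 4) (nat_lit 13) (nat_lit 5) (nat_lit 13) (nat_lit 4) (nat_lit 384) (nat_lit 260) (nat_lit 136))) (XT.nd (nat_lit 78) (nat_lit 0) (nat_lit 0) (XT.lf (nat_lit 0) (nat_lit 1494699679) (nat_lit 152) (nat_lit 39860801651) (nat_lit 76) (nat_lit 14921991995) (nat_lit 11) (nat_lit 5) (nat_lit 13) (nat_lit 5) (nat_lit 12) (nat_lit 4) (nat_lit 385) (nat_lit 260) (nat_lit 135)) (XT.lf (nat_lit 0) (nat_lit 6335670038) (nat_lit 152) (nat_lit 30065471387) (nat_lit 76) (nat_lit 21379698141) (nat_lit 11) (nat_lit 5) (nat_lit 13) (nat_lit 5) (nat_lit 12) (nat_lit 4) (nat_lit 386) (nat_lit 260) (nat_lit 134)))))) (XT.nd (nat_lit 546) (nat_lit 152) (nat_lit 0) (XT.nd (nat_lit 234) (nat_lit 0) (nat_lit 0) (XT.nd (nat_lit 78) (nat_lit 76) (nat_lit 0)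 (XT.lf (nat_lit 0) (nat_lit 11313587376) (nat_lit 152) (nat_lit 19991211391) (nat_lit 76) (nat_lit 28024739507) (nat_lit 11) (nat_lit 5) (nat_lit 13) (nat_lit 5) (nat_lit 12) (nat_lit 4) (nat_lit 387) (nat_lit 260) (nat_lit 133)) (XT.nd (nat_lit 78) (nat_lit 76) (nat_lit 0) (XT.lf (nat_lit 0) (nat_lit 16432801328) (nat_lit 152) (nat_lit 9629218912) (nat_lit 76) (nat_lit 34862922440) (nat_lit 11) (nat_lit 5) (nat_lit 13) (nat_lit 5) (nat_lit 12) (nat_lit 4) (nat_lit 388) (nat_lit 260) (nat_lit 132)) (XT.lf (nat_lit 0) (nat_lit 1050050483) (nat_lit 76) (nat_lit 20657828238) (nat_lit 152) (nat_lit 40860265295) (nat_lit 10) (nat_lit 5) (nat_lit 11) (nat_lit 5) (nat_lit 12) (nat_lit 4) (nat_lit 389) (nat_lit 260) (nat_lit 131)))) (XT.nd (nat_lit 156) (nat_lit 0) (nat_lit 0) (XT.nd (nat_lit 78) (nat_lit 0) (nat_lit 0) (XT.lf (nat_lit 0) (nat_lit 12233152358) (nat_lit 76) (nat_lit 14997579032) (nat_lit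 152) (nat_lit 37027227623) (nat_lit 10) (nat_lit 5) (nat_lit 11) (nat_lit 5) (nat_lit 12) (nat_lit 4) (nat_lit 390) (nat_lit 260) (nat_lit 130)) (XT.lf (nat_lit 0) (nat_lit 23738218015) (nat_lit 76) (nat_lit 9173563003) (nat_lit 152) (nat_lit 33086915310) (nat_lit 10) (nat_lit 5) (nat_lit 11) (nat_lit 5) (nat_lit 12) (nat_lit 4) (nat_lit 391) (nat_lit 260) (nat_lit 129))) (XT.nd (nat_lit 78) (nat_lit 0) (nat_lit 0) (XT.lf (nat_lit 0) (nat_lit 35575300426) (nat_lit 76) (nat_lit 3180691206) (nat_lit 152) (nat_lit 29035885366) (nat_lit 10) (nat_lit 5) (nat_lit 11) (nat_lit 5) (nat_lit 12) (nat_lit 4) (nat_lit 392) (nat_lit 260) (nat_lit 128)) (XT.lf (nat_lit 0) (nat_lit 44797175705) (nat_lit 152) (nat_lit 21913031089) (nat_lit 0) (nat_lit 2927999908) (nat_lit 10) (nat_lit 5) (nat_lit 12) (nat_lit 4) (nat_lit 10) (nat_lit 4) (nat_lit 393) (nat_lit 260) (nat_lit 127))))) (XT.nd (nat_lit 234) (nat_lit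 76) (nat_lit 0) (XT.nd (nat_lit 78) (nat_lit 76) (nat_lit 0) (XT.lf (nat_lit 0) (nat_lit 51044181004) (nat_lit 152) (nat_lit 11344407829) (nat_lit 0) (nat_lit 9150602832) (nat_lit 10) (nat_lit 5) (nat_lit 12) (nat_lit 4) (nat_lit 10) (nat_lit 4) (nat_lit 394) (nat_lit 260) (nat_lit 126)) (XT.nd (nat_lit 78) (nat_lit 76) (nat_lit 0) (XT.lf (nat_lit 0) (nat_lit 57471891330) (nat_lit 152) (nat_lit 470897324) (nat_lit 0) (nat_lit 15554621530) (nat_lit 10) (nat_lit 5) (nat_lit 12) (nat_lit 4) (nat_lit 10) (nat_lit 4) (nat_lit 395) (nat_lit 260) (nat_lit 125)) (XT.lf (nat_lit 0) (nat_lit 10930290895) (nat_lit 76) (nat_lit 53260700875) (nat_lit 76) (nat_lit 11320429496) (nat_lit 9) (nat_lit 4) (nat_lit 10) (nat_lit 5) (nat_lit 10) (nat_lit 4) (nat_lit 396) (nat_lit 260) (nat_lit 124)))) (XT.nd (nat_lit 156) (nat_lit 76) (nat_lit 0) (XT.nd (nat_lit 78) (nat_lit 0) (nat_lit 0) (XT.lf (nat_lit 0) (nat_lit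 22671466604) (nat_lit 76) (nat_lit 48438521052) (nat_lit 76) (nat_lit 6475918042) (nat_lit 9) (nat_lit 4) (nat_lit 10) (nat_lit 5) (nat_lit 10) (nat_lit 4) (nat_lit 397) (nat_lit 260) (nat_lit 123)) (XT.lf (nat_lit 0) (nat_lit 34753517299) (nat_lit 76) (nat_lit 43476790770) (nat_lit 76) (nat_lit 1492506565) (nat_lit 9) (nat_lit 4) (nat_lit 10) (nat_lit 5) (nat_lit 10) (nat_lit 4) (nat_lit 398) (nat_lit 260) (nat_lit 122))) (XT.nd (nat_lit 78) (nat_lit 0) (nat_lit 0) (XT.lf (nat_lit 0) (nat_lit 3563243833) (nat_lit 152) (nat_lit 34771948926) (nat_lit 76) (nat_lit 43587774505) (nat_lit 8) (nat_lit 5) (nat_lit 10) (nat_lit 5) (nat_lit 9) (nat_lit 4) (nat_lit 399) (nat_lit 260) (nat_lit 121)) (XT.lf (nat_lit 0) (nat_lit 8734721300) (nat_lit 152) (nat_lit 24294286273) (nat_lit 76) (nat_lit 51159854398) (nat_lit 8) (nat_lit 5) (nat_lit 10) (nat_lit 5) (nat_lit 9) (nat_lit 4) (nat_lit 400) (nat_lit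 260) (nat_lit 120))))))))
noncomputable def xc108 : XT := (XT.nd (nat_lit 31122) (nat_lit 0) (nat_lit 8132) (XT.nd (nat_lit 30108) (nat_lit 0) (nat_lit 18392) (XT.nd (nat_lit 468) (nat_lit 0) (nat_lit 0) (XT.nd (nat_lit 234) (nat_lit 0) (nat_lit 0) (XT.nd (nat_lit 78) (nat_lit 76) (nat_lit 0) (XT.lf (nat_lit 0) (nat_lit 14055568782) (nat_lit 152) (nat_lit 13512807250) (nat_lit 76) (nat_lit 58954533037) (nat_lit 8) (nat_lit 5) (nat_lit 10) (nat_lit 5) (nat_lit 9) (nat_lit 4) (nat_lit 401) (nat_lit 260) (nat_lit 119)) (XT.nd (nat_lit 78) (nat_lit 76) (nat_lit 0) (XT.lf (nat_lit 0) (nat_lit 19530435563) (nat_lit 152) (nat_lit 2418091147) (nat_lit 76) (nat_lit 66978621308) (nat_lit 8) (nat_lit 5) (nat_lit 10) (nat_lit 5) (nat_lit 9) (nat_lit 4) (nat_lit 402) (nat_lit 260) (nat_lit 118)) (XT.lf (nat_lit 0) (nat_lit 9178665267) (nat_lit 76) (nat_lit 16073671184) (nat_lit 152) (nat_lit 66148696227)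 (nat_lit 7) (nat_lit 5) (nat_lit 8) (nat_lit 5) (nat_lit 9) (nat_lit 4) (nat_lit 403) (nat_lit 260) (nat_lit 117)))) (XT.nd (nat_lit 78) (nat_lit 0) (nat_lit 0) (XT.lf (nat_lit 0) (nat_lit 21163080038) (nat_lit 76) (nat_lit 10001853669) (nat_lit 152) (nat_lit 62783631114) (nat_lit 7) (nat_lit 5) (nat_lit 8) (nat_lit 5) (nat_lit 9) (nat_lit 4) (nat_lit 404) (nat_lit 260) (nat_lit 116)) (XT.nd (nat_lit 78) (nat_lit 0) (nat_lit 0) (XT.lf (nat_lit 0) (nat_lit 33497500229) (nat_lit 76) (nat_lit 3752186674) (nat_lit 152) (nat_lit 59322994747) (nat_lit 7) (nat_lit 5) (nat_lit 8) (nat_lit 5) (nat_lit 9) (nat_lit 4) (nat_lit 405) (nat_lit 260) (nat_lit 115)) (XT.lf (nat_lit 0) (nat_lit 43537682212) (nat_lit 152) (nat_lit 53108741994) (nat_lit 0) (nat_lit 2628478794) (nat_lit 7) (nat_lit 5) (nat_lit 9) (nat_lit 4) (nat_lit 7) (nat_lit 4) (nat_lit 406) (nat_lit 260) (nat_lit 114))))) (XT.nd (nat_lit 29328)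 (nat_lit 0) (nat_lit 21888) (XT.nd (nat_lit 78) (nat_lit 0) (nat_lit 0) (XT.lf (nat_lit 0) (nat_lit 50046506520) (nat_lit 152) (nat_lit 42889550483) (nat_lit 0) (nat_lit 9121170257) (nat_lit 7) (nat_lit 5) (nat_lit 9) (nat_lit 4) (nat_lit 7) (nat_lit 4) (nat_lit 407) (nat_lit 260) (nat_lit 113)) (XT.nd (nat_lit 29172) (nat_lit 0) (nat_lit 22344) (XT.lf (nat_lit 0) (nat_lit 56745778835) (nat_lit 152) (nat_lit 32372609185) (nat_lit 0) (nat_lit 15804779616) (nat_lit 7) (nat_lit 5) (nat_lit 9) (nat_lit 4) (nat_lit 7) (nat_lit 4) (nat_lit 408) (nat_lit 260) (nat_lit 112)) (XT.lf (nat_lit 0) (nat_lit 1437337725) (nat_lit 0) (nat_lit 1437337725) (nat_lit 76) (nat_lit 348500072) (nat_lit 301) (nat_lit 5) (nat_lit 301) (nat_lit 3) (nat_lit 302) (nat_lit 0) (nat_lit 261) (nat_lit 261) (nat_lit 258)))) (XT.nd (nat_lit 156) (nat_lit 228) (nat_lit 0) (XT.nd (nat_lit 78) (nat_lit 0) (nat_lit 0) (XT.lf (nat_lit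 0) (nat_lit 2077277542) (nat_lit 228) (nat_lit 632603980) (nat_lit 228) (nat_lit 3742436254) (nat_lit 298) (nat_lit 3) (nat_lit 301) (nat_lit 3) (nat_lit 301) (nat_lit 5) (nat_lit 262) (nat_lit 261) (nat_lit 257)) (XT.lf (nat_lit 76) (nat_lit 2378302846) (nat_lit 0) (nat_lit 2457191844) (nat_lit 228) (nat_lit 1625624780) (nat_lit 299) (nat_lit 5) (nat_lit 298) (nat_lit 3) (nat_lit 301) (nat_lit 5) (nat_lit 263) (nat_lit 261) (nat_lit 256))) (XT.nd (nat_lit 78) (nat_lit 0) (nat_lit 0) (XT.lf (nat_lit 0) (nat_lit 1082327611) (nat_lit 228) (nat_lit 1046859113) (nat_lit 304) (nat_lit 4343949941) (nat_lit 295) (nat_lit 5) (nat_lit 298) (nat_lit 3) (nat_lit 299) (nat_lit 5) (nat_lit 264) (nat_lit 261) (nat_lit 255)) (XT.lf (nat_lit 76) (nat_lit 2048015405) (nat_lit 0) (nat_lit 1706770769) (nat_lit 304) (nat_lit 2733045861) (nat_lit 296) (nat_lit 5) (nat_lit 295) (nat_lit 5) (nat_lit 299) (nat_lit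 5) (nat_lit 265) (nat_lit 261) (nat_lit 254)))))) (XT.nd (nat_lit 468) (nat_lit 2508) (nat_lit 0) (XT.nd (nat_lit 234) (nat_lit 684) (nat_lit 0) (XT.nd (nat_lit 78) (nat_lit 304) (nat_lit 0) (XT.lf (nat_lit 76) (nat_lit 5201714486) (nat_lit 0) (nat_lit 1215017905) (nat_lit 304) (nat_lit 89227089) (nat_lit 296) (nat_lit 5) (nat_lit 295) (nat_lit 5) (nat_lit 299) (nat_lit 5) (nat_lit 266) (nat_lit 261) (nat_lit 253)) (XT.nd (nat_lit 78) (nat_lit 0) (nat_lit 76) (XT.lf (nat_lit 76) (nat_lit 1880672344) (nat_lit 0) (nat_lit 620376022) (nat_lit 380) (nat_lit 4025521742) (nat_lit 292) (nat_lit 5) (nat_lit 291) (nat_lit 5) (nat_lit 296) (nat_lit 5) (nat_lit 267) (nat_lit 261) (nat_lit 252)) (XT.lf (nat_lit 0) (nat_lit 5083689786) (nat_lit 304) (nat_lit 1419583327) (nat_lit 76) (nat_lit 47253571) (nat_lit 292) (nat_lit 5) (nat_lit 296) (nat_lit 5) (nat_lit 293) (nat_lit 5) (nat_lit 268) (nat_lit 261)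 (nat_lit 251)))) (XT.nd (nat_lit 78) (nat_lit 380) (nat_lit 0) (XT.lf (nat_lit 0) (nat_lit 1075104453) (nat_lit 380) (nat_lit 4711470939) (nat_lit 76) (nat_lit 790644020) (nat_lit 287) (nat_lit 5) (nat_lit 292) (nat_lit 5) (nat_lit 288) (nat_lit 5) (nat_lit 269) (nat_lit 261) (nat_lit 250)) (XT.nd (nat_lit 78) (nat_lit 380) (nat_lit 0) (XT.lf (nat_lit 0) (nat_lit 3585396735) (nat_lit 380) (nat_lit 1399113165) (nat_lit 76) (nat_lit 1622346737) (nat_lit 287) (nat_lit 5) (nat_lit 292) (nat_lit 5) (nat_lit 288) (nat_lit 5) (nat_lit 270) (nat_lit 261) (nat_lit 249)) (XT.lf (nat_lit 0) (nat_lit 1994342319) (nat_lit 380) (nat_lit 4105629915) (nat_lit 456) (nat_lit 539761557) (nat_lit 282) (nat_lit 5) (nat_lit 287) (nat_lit 5) (nat_lit 288) (nat_lit 5) (nat_lit 271) (nat_lit 261) (nat_lit 248))))) (XT.nd (nat_lit 234) (nat_lit 1900) (nat_lit 0) (XT.nd (nat_lit 78) (nat_lit 532) (nat_lit 0) (XT.lf (nat_lit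 0) (nat_lit 1902113388) (nat_lit 456) (nat_lit 1233025853) (nat_lit 76) (nat_lit 3540331773) (nat_lit 281) (nat_lit 5) (nat_lit 287) (nat_lit 5) (nat_lit 282) (nat_lit 5) (nat_lit 272) (nat_lit 261) (nat_lit 247)) (XT.nd (nat_lit 78) (nat_lit 76) (nat_lit 0) (XT.lf (nat_lit 0) (nat_lit 2263633621) (nat_lit 456) (nat_lit 2077924103) (nat_lit 532) (nat_lit 2372708824) (nat_lit 275) (nat_lit 5) (nat_lit 281) (nat_lit 5) (nat_lit 282) (nat_lit 5) (nat_lit 273) (nat_lit 261) (nat_lit 246)) (XT.lf (nat_lit 0) (nat_lit 24936813) (nat_lit 532) (nat_lit 922708907) (nat_lit 76) (nat_lit 5808933378) (nat_lit 274) (nat_lit 5) (nat_lit 281) (nat_lit 5) (nat_lit 275) (nat_lit 5) (nat_lit 274) (nat_lit 261) (nat_lit 245)))) (XT.nd (nat_lit 156) (nat_lit 1368) (nat_lit 0) (XT.nd (nat_lit 78) (nat_lit 0) (nat_lit 0) (XT.lf (nat_lit 0) (nat_lit 2392290347) (nat_lit 608) (nat_lit 4120808208) (nat_lit 76) (nat_lit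 288177962) (nat_lit 267) (nat_lit 5) (nat_lit 275) (nat_lit 5) (nat_lit 268) (nat_lit 5) (nat_lit 275) (nat_lit 261) (nat_lit 244)) (XT.lf (nat_lit 0) (nat_lit 4768431672) (nat_lit 608) (nat_lit 504705040) (nat_lit 76) (nat_lit 1576224048) (nat_lit 267) (nat_lit 5) (nat_lit 275) (nat_lit 5) (nat_lit 268) (nat_lit 5) (nat_lit 276) (nat_lit 261) (nat_lit 243))) (XT.nd (nat_lit 78) (nat_lit 684) (nat_lit 0) (XT.lf (nat_lit 0) (nat_lit 262484318) (nat_lit 684) (nat_lit 3677374513) (nat_lit 76) (nat_lit 2960554945) (nat_lit 258) (nat_lit 5) (nat_lit 267) (nat_lit 5) (nat_lit 259) (nat_lit 5) (nat_lit 277) (nat_lit 261) (nat_lit 242)) (XT.lf (nat_lit 0) (nat_lit 41993034) (nat_lit 684) (nat_lit 2520088302) (nat_lit 760) (nat_lit 4392631512) (nat_lit 249) (nat_lit 5) (nat_lit 258) (nat_lit 5) (nat_lit 259) (nat_lit 5) (nat_lit 278) (nat_lit 261) (nat_lit 241))))))) (XT.nd (nat_lit 1014) (nat_lit 3724)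 (nat_lit 0) (XT.nd (nat_lit 468) (nat_lit 3876) (nat_lit 0) (XT.nd (nat_lit 234) (nat_lit 1824) (nat_lit 0) (XT.nd (nat_lit 78) (nat_lit 836) (nat_lit 0) (XT.lf (nat_lit 0) (nat_lit 3890606592) (nat_lit 684) (nat_lit 1001061620) (nat_lit 760) (nat_lit 2120301586) (nat_lit 249) (nat_lit 5) (nat_lit 258) (nat_lit 5) (nat_lit 259) (nat_lit 5) (nat_lit 279) (nat_lit 261) (nat_lit 240)) (XT.nd (nat_lit 78) (nat_lit 0) (nat_lit 0) (XT.lf (nat_lit 0) (nat_lit 153873696) (nat_lit 836) (nat_lit 6340384363) (nat_lit 76) (nat_lit 578633569) (nat_lit 238) (nat_lit 5) (nat_lit 249) (nat_lit 5) (nat_lit 239) (nat_lit 5) (nat_lit 280) (nat_lit 261) (nat_lit 239)) (XT.lf (nat_lit 0) (nat_lit 2422387447) (nat_lit 836) (nat_lit 2459537868) (nat_lit 76) (nat_lit 2254169608) (nat_lit 238) (nat_lit 5) (nat_lit 249) (nat_lit 5) (nat_lit 239) (nat_lit 5) (nat_lit 281) (nat_lit 261) (nat_lit 238)))) (XT.nd (nat_lit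 78) (nat_lit 988) (nat_lit 0) (XT.lf (nat_lit 0) (nat_lit 1509317882) (nat_lit 836) (nat_lit 3193259784) (nat_lit 912) (nat_lit 2500449258) (nat_lit 227) (nat_lit 5) (nat_lit 238) (nat_lit 5) (nat_lit 239) (nat_lit 5) (nat_lit 282) (nat_lit 261) (nat_lit 237)) (XT.nd (nat_lit 78) (nat_lit 988) (nat_lit 0) (XT.lf (nat_lit 0) (nat_lit 5590356388) (nat_lit 836) (nat_lit 1416280153) (nat_lit 912) (nat_lit 266803582) (nat_lit 227) (nat_lit 5) (nat_lit 238) (nat_lit 5) (nat_lit 239) (nat_lit 5) (nat_lit 283) (nat_lit 261) (nat_lit 236)) (XT.lf (nat_lit 0) (nat_lit 1953769809) (nat_lit 988) (nat_lit 4932981626) (nat_lit 76) (nat_lit 459968835) (nat_lit 214) (nat_lit 5) (nat_lit 227) (nat_lit 5) (nat_lit 215) (nat_lit 5) (nat_lit 284) (nat_lit 261) (nat_lit 235))))) (XT.nd (nat_lit 234) (nat_lit 1748) (nat_lit 0) (XT.nd (nat_lit 78) (nat_lit 2128) (nat_lit 0) (XT.lf (nat_lit 0) (nat_lit 4200173122)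 (nat_lit 988) (nat_lit 829336170) (nat_lit 76) (nat_lit 2393798514) (nat_lit 214) (nat_lit 5) (nat_lit 227) (nat_lit 5) (nat_lit 215) (nat_lit 5) (nat_lit 285) (nat_lit 261) (nat_lit 234)) (XT.nd (nat_lit 78) (nat_lit 1140) (nat_lit 0) (XT.lf (nat_lit 0) (nat_lit 3406828219) (nat_lit 988) (nat_lit 3075217482) (nat_lit 1064) (nat_lit 1021226787) (nat_lit 201) (nat_lit 5) (nat_lit 214) (nat_lit 5) (nat_lit 215) (nat_lit 5) (nat_lit 286) (nat_lit 261) (nat_lit 233)) (XT.lf (nat_lit 0) (nat_lit 134347066) (nat_lit 1064) (nat_lit 1033737990) (nat_lit 1140) (nat_lit 6418936112) (nat_lit 186) (nat_lit 5) (nat_lit 200) (nat_lit 5) (nat_lit 201) (nat_lit 5) (nat_lit 287) (nat_lit 261) (nat_lit 232)))) (XT.nd (nat_lit 156) (nat_lit 608) (nat_lit 0) (XT.nd (nat_lit 78) (nat_lit 1140) (nat_lit 0) (XT.lf (nat_lit 0) (nat_lit 3391895299) (nat_lit 1140) (nat_lit 3176181775) (nat_lit 76) (nat_lit 1105333054)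 (nat_lit 186) (nat_lit 5) (nat_lit 201) (nat_lit 5) (nat_lit 187) (nat_lit 5) (nat_lit 288) (nat_lit 261) (nat_lit 231)) (XT.lf (nat_lit 0) (nat_lit 1183821183) (nat_lit 1140) (nat_lit 4459333041) (nat_lit 1216) (nat_lit 2120522749) (nat_lit 171) (nat_lit 5) (nat_lit 186) (nat_lit 5) (nat_lit 187) (nat_lit 5) (nat_lit 289) (nat_lit 261) (nat_lit 230))) (XT.nd (nat_lit 78) (nat_lit 532) (nat_lit 0) (XT.lf (nat_lit 0) (nat_lit 75285609) (nat_lit 1216) (nat_lit 2175674180) (nat_lit 76) (nat_lit 5606602467) (nat_lit 170) (nat_lit 5) (nat_lit 186) (nat_lit 5) (nat_lit 171) (nat_lit 5) (nat_lit 290) (nat_lit 261) (nat_lit 229)) (XT.lf (nat_lit 0) (nat_lit 2258813213) (nat_lit 608) (nat_lit 5627109091) (nat_lit 76) (nat_lit 68877034) (nat_lit 163) (nat_lit 5) (nat_lit 171) (nat_lit 5) (nat_lit 164) (nat_lit 5) (nat_lit 291) (nat_lit 261) (nat_lit 228)))))) (XT.nd (nat_lit 468) (nat_lit 1976) (nat_lit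 0) (XT.nd (nat_lit 234) (nat_lit 532) (nat_lit 0) (XT.nd (nat_lit 78) (nat_lit 1216) (nat_lit 0) (XT.lf (nat_lit 0) (nat_lit 4494908633) (nat_lit 608) (nat_lit 1124006518) (nat_lit 76) (nat_lit 2436522700) (nat_lit 163) (nat_lit 5) (nat_lit 171) (nat_lit 5) (nat_lit 164) (nat_lit 5) (nat_lit 292) (nat_lit 261) (nat_lit 227)) (XT.nd (nat_lit 78) (nat_lit 608) (nat_lit 0) (XT.lf (nat_lit 0) (nat_lit 3526734022) (nat_lit 608) (nat_lit 3249513911) (nat_lit 684) (nat_lit 1383596131) (nat_lit 155) (nat_lit 5) (nat_lit 163) (nat_lit 5) (nat_lit 164) (nat_lit 5) (nat_lit 293) (nat_lit 261) (nat_lit 226)) (XT.lf (nat_lit 0) (nat_lit 7872346) (nat_lit 532) (nat_lit 790273411) (nat_lit 608) (nat_lit 7470389427) (nat_lit 147) (nat_lit 5) (nat_lit 154) (nat_lit 5) (nat_lit 155) (nat_lit 5) (nat_lit 294) (nat_lit 261) (nat_lit 225)))) (XT.nd (nat_lit 78) (nat_lit 532) (nat_lit 0) (XT.lf (nat_lit 0) (nat_lit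 3027297517) (nat_lit 608) (nat_lit 3584983851) (nat_lit 76) (nat_lit 1767587158) (nat_lit 147) (nat_lit 5) (nat_lit 155) (nat_lit 5) (nat_lit 148) (nat_lit 5) (nat_lit 295) (nat_lit 261) (nat_lit 224)) (XT.nd (nat_lit 78) (nat_lit 0) (nat_lit 0) (XT.lf (nat_lit 0) (nat_lit 1190008705) (nat_lit 532) (nat_lit 4099923996) (nat_lit 608) (nat_lit 3205693862) (nat_lit 140) (nat_lit 5) (nat_lit 147) (nat_lit 5) (nat_lit 148) (nat_lit 5) (nat_lit 296) (nat_lit 261) (nat_lit 223)) (XT.lf (nat_lit 0) (nat_lit 6125938513) (nat_lit 532) (nat_lit 1479052266) (nat_lit 608) (nat_lit 1010410795) (nat_lit 140) (nat_lit 5) (nat_lit 147) (nat_lit 5) (nat_lit 148) (nat_lit 5) (nat_lit 297) (nat_lit 261) (nat_lit 222))))) (XT.nd (nat_lit 234) (nat_lit 988) (nat_lit 0) (XT.nd (nat_lit 78) (nat_lit 456) (nat_lit 0) (XT.lf (nat_lit 0) (nat_lit 1211206404) (nat_lit 532) (nat_lit 6299605905) (nat_lit 76) (nat_lit 1228126309)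 (nat_lit 133) (nat_lit 5) (nat_lit 140) (nat_lit 5) (nat_lit 134) (nat_lit 5) (nat_lit 298) (nat_lit 261) (nat_lit 221)) (XT.nd (nat_lit 78) (nat_lit 456) (nat_lit 0) (XT.lf (nat_lit 0) (nat_lit 3469373346) (nat_lit 532) (nat_lit 1379539761) (nat_lit 76) (nat_lit 4017335973) (nat_lit 133) (nat_lit 5) (nat_lit 140) (nat_lit 5) (nat_lit 134) (nat_lit 5) (nat_lit 299) (nat_lit 261) (nat_lit 220)) (XT.lf (nat_lit 0) (nat_lit 3705841701) (nat_lit 456) (nat_lit 2076695349) (nat_lit 532) (nat_lit 3215295816) (nat_lit 127) (nat_lit 5) (nat_lit 133) (nat_lit 5) (nat_lit 134) (nat_lit 5) (nat_lit 300) (nat_lit 261) (nat_lit 219)))) (XT.nd (nat_lit 156) (nat_lit 456) (nat_lit 0) (XT.nd (nat_lit 78) (nat_lit 532) (nat_lit 0) (XT.lf (nat_lit 0) (nat_lit 8139104279) (nat_lit 532) (nat_lit 224001923) (nat_lit 76) (nat_lit 771107187) (nat_lit 127) (nat_lit 5) (nat_lit 134) (nat_lit 5) (nat_lit 128) (nat_lit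 5) (nat_lit 301) (nat_lit 261) (nat_lit 218)) (XT.lf (nat_lit 0) (nat_lit 1289287735) (nat_lit 532) (nat_lit 4267178380) (nat_lit 76) (nat_lit 3717227913) (nat_lit 120) (nat_lit 5) (nat_lit 127) (nat_lit 5) (nat_lit 121) (nat_lit 5) (nat_lit 302) (nat_lit 261) (nat_lit 217))) (XT.nd (nat_lit 78) (nat_lit 0) (nat_lit 0) (XT.lf (nat_lit 0) (nat_lit 935297781) (nat_lit 456) (nat_lit 2652351257) (nat_lit 532) (nat_lit 5830515058) (nat_lit 114) (nat_lit 5) (nat_lit 120) (nat_lit 5) (nat_lit 121) (nat_lit 5) (nat_lit 303) (nat_lit 261) (nat_lit 216)) (XT.lf (nat_lit 0) (nat_lit 5956627543) (nat_lit 532) (nat_lit 3243161717) (nat_lit 76) (nat_lit 367190749) (nat_lit 114) (nat_lit 5) (nat_lit 121) (nat_lit 5) (nat_lit 115) (nat_lit 5) (nat_lit 304) (nat_lit 261) (nat_lit 215))))))))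
noncomputable def xc109 : XT := (XT.nd (nat_lit 2028) (nat_lit 1976) (nat_lit 0) (XT.nd (nat_lit 1014) (nat_lit 1976) (nat_lit 0) (XT.nd (nat_lit 468) (nat_lit 1444) (nat_lit 0) (XT.nd (nat_lit 234) (nat_lit 456) (nat_lit 0) (XT.nd (nat_lit 78) (nat_lit 456) (nat_lit 0) (XT.lf (nat_lit 0) (nat_lit 2115231296) (nat_lit 380) (nat_lit 6284243734) (nat_lit 456) (nat_lit 1320761315) (nat_lit 109) (nat_lit 5) (nat_lit 114) (nat_lit 5) (nat_lit 115) (nat_lit 5) (nat_lit 305) (nat_lit 261) (nat_lit 214)) (XT.nd (nat_lit 78) (nat_lit 380) (nat_lit 0) (XT.lf (nat_lit 0) (nat_lit 1006834605) (nat_lit 456) (nat_lit 2240463024) (nat_lit 76) (nat_lit 6630863155) (nat_lit 108) (nat_lit 5) (nat_lit 114) (nat_lit 5) (nat_lit 109) (nat_lit 5) (nat_lit 306) (nat_lit 261) (nat_lit 213)) (XT.lf (nat_lit 0) (nat_lit 3283669619) (nat_lit 380) (nat_lit 83363654) (nat_lit 456) (nat_lit 6673772601) (nat_lit 103) (nat_lit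 5) (nat_lit 108) (nat_lit 5) (nat_lit 109) (nat_lit 5) (nat_lit 307) (nat_lit 261) (nat_lit 212)))) (XT.nd (nat_lit 78) (nat_lit 456) (nat_lit 0) (XT.lf (nat_lit 0) (nat_lit 5809800107) (nat_lit 456) (nat_lit 1271978019) (nat_lit 76) (nat_lit 3126252575) (nat_lit 103) (nat_lit 5) (nat_lit 109) (nat_lit 5) (nat_lit 104) (nat_lit 5) (nat_lit 308) (nat_lit 261) (nat_lit 211)) (XT.nd (nat_lit 78) (nat_lit 76) (nat_lit 0) (XT.lf (nat_lit 0) (nat_lit 4411507351) (nat_lit 380) (nat_lit 3917175233) (nat_lit 456) (nat_lit 2051556411) (nat_lit 98) (nat_lit 5) (nat_lit 103) (nat_lit 5) (nat_lit 104) (nat_lit 5) (nat_lit 309) (nat_lit 261) (nat_lit 210)) (XT.lf (nat_lit 0) (nat_lit 331202421) (nat_lit 456) (nat_lit 321127122) (nat_lit 76) (nat_lit 9906042810) (nat_lit 97) (nat_lit 5) (nat_lit 103) (nat_lit 5) (nat_lit 98) (nat_lit 5) (nat_lit 310) (nat_lit 261) (nat_lit 209))))) (XT.nd (nat_lit 234) (nat_lit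 760) (nat_lit 0) (XT.nd (nat_lit 78) (nat_lit 304) (nat_lit 0) (XT.lf (nat_lit 0) (nat_lit 2785087000) (nat_lit 456) (nat_lit 5234288403) (nat_lit 76) (nat_lit 2720685930) (nat_lit 92) (nat_lit 5) (nat_lit 98) (nat_lit 5) (nat_lit 93) (nat_lit 5) (nat_lit 311) (nat_lit 261) (nat_lit 208)) (XT.nd (nat_lit 78) (nat_lit 0) (nat_lit 0) (XT.lf (nat_lit 0) (nat_lit 540095394) (nat_lit 304) (nat_lit 4748978906) (nat_lit 380) (nat_lit 5638878032) (nat_lit 88) (nat_lit 5) (nat_lit 92) (nat_lit 5) (nat_lit 93) (nat_lit 5) (nat_lit 312) (nat_lit 261) (nat_lit 207)) (XT.lf (nat_lit 0) (nat_lit 6544595552) (nat_lit 304) (nat_lit 1338637591) (nat_lit 380) (nat_lit 3237839958) (nat_lit 88) (nat_lit 5) (nat_lit 92) (nat_lit 5) (nat_lit 93) (nat_lit 5) (nat_lit 313) (nat_lit 261) (nat_lit 206)))) (XT.nd (nat_lit 156) (nat_lit 304) (nat_lit 0) (XT.nd (nat_lit 78) (nat_lit 76) (nat_lit 0) (XT.lf (nat_lit 0) (nat_lit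 1365010222) (nat_lit 380) (nat_lit 9187405085) (nat_lit 456) (nat_lit 767699527) (nat_lit 83) (nat_lit 5) (nat_lit 88) (nat_lit 5) (nat_lit 89) (nat_lit 5) (nat_lit 314) (nat_lit 261) (nat_lit 205)) (XT.lf (nat_lit 0) (nat_lit 1765179392) (nat_lit 456) (nat_lit 4026225215) (nat_lit 76) (nat_lit 5732552676) (nat_lit 82) (nat_lit 5) (nat_lit 88) (nat_lit 5) (nat_lit 83) (nat_lit 5) (nat_lit 315) (nat_lit 261) (nat_lit 204))) (XT.nd (nat_lit 78) (nat_lit 0) (nat_lit 0) (XT.lf (nat_lit 0) (nat_lit 2064416305) (nat_lit 304) (nat_lit 2278485742) (nat_lit 380) (nat_lit 7391295930) (nat_lit 78) (nat_lit 5) (nat_lit 82) (nat_lit 5) (nat_lit 83) (nat_lit 5) (nat_lit 316) (nat_lit 261) (nat_lit 203)) (XT.lf (nat_lit 0) (nat_lit 7016781213) (nat_lit 380) (nat_lit 3591766296) (nat_lit 76) (nat_lit 1341672109) (nat_lit 78) (nat_lit 5) (nat_lit 83) (nat_lit 5) (nat_lit 79) (nat_lit 5) (nat_lit 317) (nat_lit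 261) (nat_lit 202)))))) (XT.nd (nat_lit 468) (nat_lit 1064) (nat_lit 0) (XT.nd (nat_lit 234) (nat_lit 304) (nat_lit 0) (XT.nd (nat_lit 78) (nat_lit 304) (nat_lit 0) (XT.lf (nat_lit 0) (nat_lit 2649905363) (nat_lit 304) (nat_lit 7134912029) (nat_lit 380) (nat_lit 2387523646) (nat_lit 74) (nat_lit 5) (nat_lit 78) (nat_lit 5) (nat_lit 79) (nat_lit 5) (nat_lit 318) (nat_lit 261) (nat_lit 201)) (XT.nd (nat_lit 78) (nat_lit 228) (nat_lit 0) (XT.lf (nat_lit 0) (nat_lit 232895019) (nat_lit 380) (nat_lit 3298274445) (nat_lit 76) (nat_lit 8869842911) (nat_lit 73) (nat_lit 5) (nat_lit 78) (nat_lit 5) (nat_lit 74) (nat_lit 5) (nat_lit 319) (nat_lit 261) (nat_lit 200)) (XT.lf (nat_lit 0) (nat_lit 2882966689) (nat_lit 304) (nat_lit 9535250928) (nat_lit 76) (nat_lit 217680428) (nat_lit 70) (nat_lit 5) (nat_lit 74) (nat_lit 5) (nat_lit 71) (nat_lit 5) (nat_lit 320) (nat_lit 261) (nat_lit 199)))) (XT.nd (nat_lit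 78) (nat_lit 304) (nat_lit 0) (XT.lf (nat_lit 0) (nat_lit 5648587492) (nat_lit 304) (nat_lit 3200065905) (nat_lit 76) (nat_lit 4028128666) (nat_lit 70) (nat_lit 5) (nat_lit 74) (nat_lit 5) (nat_lit 71) (nat_lit 5) (nat_lit 321) (nat_lit 261) (nat_lit 198)) (XT.nd (nat_lit 78) (nat_lit 0) (nat_lit 0) (XT.lf (nat_lit 0) (nat_lit 3344723154) (nat_lit 304) (nat_lit 5153002415) (nat_lit 380) (nat_lit 4627182790) (nat_lit 66) (nat_lit 5) (nat_lit 70) (nat_lit 5) (nat_lit 71) (nat_lit 5) (nat_lit 322) (nat_lit 261) (nat_lit 197)) (XT.lf (nat_lit 0) (nat_lit 10106183215) (nat_lit 304) (nat_lit 1327351391) (nat_lit 380) (nat_lit 1946939212) (nat_lit 66) (nat_lit 5) (nat_lit 70) (nat_lit 5) (nat_lit 71) (nat_lit 5) (nat_lit 323) (nat_lit 261) (nat_lit 196))))) (XT.nd (nat_lit 234) (nat_lit 532) (nat_lit 0) (XT.nd (nat_lit 78) (nat_lit 228) (nat_lit 0) (XT.lf (nat_lit 0) (nat_lit 825763503) (nat_lit 304)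 (nat_lit 10227287266) (nat_lit 76) (nat_lit 2589612390) (nat_lit 62) (nat_lit 5) (nat_lit 66) (nat_lit 5) (nat_lit 63) (nat_lit 5) (nat_lit 324) (nat_lit 261) (nat_lit 195)) (XT.nd (nat_lit 78) (nat_lit 228) (nat_lit 0) (XT.lf (nat_lit 0) (nat_lit 3658838767) (nat_lit 304) (nat_lit 3616568224) (nat_lit 76) (nat_lit 6636271825) (nat_lit 62) (nat_lit 5) (nat_lit 66) (nat_lit 5) (nat_lit 63) (nat_lit 5) (nat_lit 325) (nat_lit 261) (nat_lit 194)) (XT.lf (nat_lit 0) (nat_lit 3211501505) (nat_lit 228) (nat_lit 3366945258) (nat_lit 304) (nat_lit 7610299759) (nat_lit 59) (nat_lit 5) (nat_lit 62) (nat_lit 5) (nat_lit 63) (nat_lit 5) (nat_lit 326) (nat_lit 261) (nat_lit 193)))) (XT.nd (nat_lit 156) (nat_lit 304) (nat_lit 0) (XT.nd (nat_lit 78) (nat_lit 228) (nat_lit 0) (XT.lf (nat_lit 0) (nat_lit 9599828161) (nat_lit 304) (nat_lit 4205142402) (nat_lit 76) (nat_lit 668757121) (nat_lit 59) (nat_lit 5) (nat_lit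 63) (nat_lit 5) (nat_lit 60) (nat_lit 5) (nat_lit 327) (nat_lit 261) (nat_lit 192)) (XT.lf (nat_lit 0) (nat_lit 2747718588) (nat_lit 228) (nat_lit 9995697589) (nat_lit 304) (nat_lit 2022921345) (nat_lit 56) (nat_lit 5) (nat_lit 59) (nat_lit 5) (nat_lit 60) (nat_lit 5) (nat_lit 328) (nat_lit 261) (nat_lit 191))) (XT.nd (nat_lit 78) (nat_lit 228) (nat_lit 0) (XT.lf (nat_lit 0) (nat_lit 910573980) (nat_lit 304) (nat_lit 5123138744) (nat_lit 76) (nat_lit 9033329711) (nat_lit 55) (nat_lit 5) (nat_lit 59) (nat_lit 5) (nat_lit 56) (nat_lit 5) (nat_lit 329) (nat_lit 261) (nat_lit 190)) (XT.lf (nat_lit 0) (nat_lit 1955737179) (nat_lit 228) (nat_lit 1927226588) (nat_lit 304) (nat_lit 11493481384) (nat_lit 52) (nat_lit 5) (nat_lit 55) (nat_lit 5) (nat_lit 56) (nat_lit 5) (nat_lit 330) (nat_lit 261) (nat_lit 189))))))) (XT.nd (nat_lit 1014) (nat_lit 912) (nat_lit 0) (XT.nd (nat_lit 468) (nat_lit 608) (nat_lit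 0) (XT.nd (nat_lit 234) (nat_lit 304) (nat_lit 0) (XT.nd (nat_lit 78) (nat_lit 152) (nat_lit 0) (XT.lf (nat_lit 0) (nat_lit 6991912167) (nat_lit 304) (nat_lit 6406110424) (nat_lit 76) (nat_lit 2295709024) (nat_lit 52) (nat_lit 5) (nat_lit 56) (nat_lit 5) (nat_lit 53) (nat_lit 5) (nat_lit 331) (nat_lit 261) (nat_lit 188)) (XT.nd (nat_lit 78) (nat_lit 0) (nat_lit 0) (XT.lf (nat_lit 0) (nat_lit 774286330) (nat_lit 152) (nat_lit 9420161666) (nat_lit 228) (nat_lit 5826101705) (nat_lit 50) (nat_lit 5) (nat_lit 52) (nat_lit 5) (nat_lit 53) (nat_lit 5) (nat_lit 332) (nat_lit 261) (nat_lit 187)) (XT.lf (nat_lit 0) (nat_lit 8261146277) (nat_lit 152) (nat_lit 5270773576) (nat_lit 228) (nat_lit 2824108616) (nat_lit 50) (nat_lit 5) (nat_lit 52) (nat_lit 5) (nat_lit 53) (nat_lit 5) (nat_lit 333) (nat_lit 261) (nat_lit 186)))) (XT.nd (nat_lit 78) (nat_lit 228) (nat_lit 0) (XT.lf (nat_lit 0) (nat_lit 237369642)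 (nat_lit 228) (nat_lit 771155187) (nat_lit 76) (nat_lit 15693750565) (nat_lit 49) (nat_lit 5) (nat_lit 52) (nat_lit 5) (nat_lit 50) (nat_lit 5) (nat_lit 334) (nat_lit 261) (nat_lit 185)) (XT.nd (nat_lit 78) (nat_lit 0) (nat_lit 0) (XT.lf (nat_lit 0) (nat_lit 3408366805) (nat_lit 304) (nat_lit 10250841509) (nat_lit 76) (nat_lit 3396649554) (nat_lit 46) (nat_lit 5) (nat_lit 50) (nat_lit 5) (nat_lit 47) (nat_lit 5) (nat_lit 335) (nat_lit 261) (nat_lit 184)) (XT.lf (nat_lit 0) (nat_lit 6667953345) (nat_lit 304) (nat_lit 2844298837) (nat_lit 76) (nat_lit 7908011342) (nat_lit 46) (nat_lit 5) (nat_lit 50) (nat_lit 5) (nat_lit 47) (nat_lit 5) (nat_lit 336) (nat_lit 261) (nat_lit 183))))) (XT.nd (nat_lit 234) (nat_lit 228) (nat_lit 0) (XT.nd (nat_lit 78) (nat_lit 228) (nat_lit 0) (XT.lf (nat_lit 0) (nat_lit 4841336178) (nat_lit 152) (nat_lit 5206849392) (nat_lit 228) (nat_lit 7746748962) (nat_lit 44)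 (nat_lit 5) (nat_lit 46) (nat_lit 5) (nat_lit 47) (nat_lit 5) (nat_lit 337) (nat_lit 261) (nat_lit 182)) (XT.nd (nat_lit 78) (nat_lit 228) (nat_lit 0) (XT.lf (nat_lit 0) (nat_lit 12778638130) (nat_lit 152) (nat_lit 756560721) (nat_lit 228) (nat_lit 4645503970) (nat_lit 44) (nat_lit 5) (nat_lit 46) (nat_lit 5) (nat_lit 47) (nat_lit 5) (nat_lit 338) (nat_lit 261) (nat_lit 181)) (XT.lf (nat_lit 0) (nat_lit 2348357900) (nat_lit 228) (nat_lit 14815031156) (nat_lit 304) (nat_lit 1413575947) (nat_lit 41) (nat_lit 5) (nat_lit 44) (nat_lit 5) (nat_lit 45) (nat_lit 5) (nat_lit 339) (nat_lit 261) (nat_lit 180)))) (XT.nd (nat_lit 156) (nat_lit 152) (nat_lit 0) (XT.nd (nat_lit 78) (nat_lit 0) (nat_lit 0) (XT.lf (nat_lit 0) (nat_lit 1917794479) (nat_lit 304) (nat_lit 8604691832) (nat_lit 76) (nat_lit 8460897442) (nat_lit 40) (nat_lit 5) (nat_lit 44) (nat_lit 5) (nat_lit 41) (nat_lit 5) (nat_lit 340) (nat_lit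 261) (nat_lit 179)) (XT.lf (nat_lit 0) (nat_lit 5298634440) (nat_lit 304) (nat_lit 801784573) (nat_lit 76) (nat_lit 13301834308) (nat_lit 40) (nat_lit 5) (nat_lit 44) (nat_lit 5) (nat_lit 41) (nat_lit 5) (nat_lit 341) (nat_lit 261) (nat_lit 178))) (XT.nd (nat_lit 78) (nat_lit 0) (nat_lit 0) (XT.lf (nat_lit 0) (nat_lit 7343825388) (nat_lit 152) (nat_lit 1486249977) (nat_lit 228) (nat_lit 11002154185) (nat_lit 38) (nat_lit 5) (nat_lit 40) (nat_lit 5) (nat_lit 41) (nat_lit 5) (nat_lit 342) (nat_lit 261) (nat_lit 177)) (XT.lf (nat_lit 0) (nat_lit 12485783163) (nat_lit 228) (nat_lit 4590971878) (nat_lit 76) (nat_lit 3197815705) (nat_lit 38) (nat_lit 5) (nat_lit 41) (nat_lit 5) (nat_lit 39) (nat_lit 5) (nat_lit 343) (nat_lit 261) (nat_lit 176)))))) (XT.nd (nat_lit 546) (nat_lit 380) (nat_lit 0) (XT.nd (nat_lit 234) (nat_lit 304) (nat_lit 0) (XT.nd (nat_lit 78) (nat_lit 76) (nat_lit 0) (XT.lf (nat_lit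 0) (nat_lit 3564366422) (nat_lit 152) (nat_lit 12715141880) (nat_lit 228) (nat_lit 4449838431) (nat_lit 36) (nat_lit 5) (nat_lit 38) (nat_lit 5) (nat_lit 39) (nat_lit 5) (nat_lit 344) (nat_lit 261) (nat_lit 175)) (XT.nd (nat_lit 78) (nat_lit 76) (nat_lit 0) (XT.lf (nat_lit 0) (nat_lit 12024951976) (nat_lit 152) (nat_lit 8188099615) (nat_lit 228) (nat_lit 983948722) (nat_lit 36) (nat_lit 5) (nat_lit 38) (nat_lit 5) (nat_lit 39) (nat_lit 5) (nat_lit 345) (nat_lit 261) (nat_lit 174)) (XT.lf (nat_lit 0) (nat_lit 2515487052) (nat_lit 228) (nat_lit 997143852) (nat_lit 76) (nat_lit 18165919645) (nat_lit 35) (nat_lit 5) (nat_lit 38) (nat_lit 5) (nat_lit 36) (nat_lit 5) (nat_lit 346) (nat_lit 261) (nat_lit 173)))) (XT.nd (nat_lit 156) (nat_lit 152) (nat_lit 0) (XT.nd (nat_lit 78) (nat_lit 0) (nat_lit 0) (XT.lf (nat_lit 0) (nat_lit 6166324414) (nat_lit 228) (nat_lit 14657727626) (nat_lit 76) (nat_lit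 1348230417) (nat_lit 33) (nat_lit 5) (nat_lit 36) (nat_lit 5) (nat_lit 34) (nat_lit 5) (nat_lit 347) (nat_lit 261) (nat_lit 172)) (XT.lf (nat_lit 0) (nat_lit 9952385353) (nat_lit 228) (nat_lit 6445507933) (nat_lit 76) (nat_lit 6282174971) (nat_lit 33) (nat_lit 5) (nat_lit 36) (nat_lit 5) (nat_lit 34) (nat_lit 5) (nat_lit 348) (nat_lit 261) (nat_lit 171))) (XT.nd (nat_lit 78) (nat_lit 0) (nat_lit 0) (XT.lf (nat_lit 0) (nat_lit 2021307343) (nat_lit 152) (nat_lit 11831462507) (nat_lit 228) (nat_lit 9350308039) (nat_lit 31) (nat_lit 5) (nat_lit 33) (nat_lit 5) (nat_lit 34) (nat_lit 5) (nat_lit 349) (nat_lit 261) (nat_lit 170)) (XT.lf (nat_lit 0) (nat_lit 10843345696) (nat_lit 152) (nat_lit 7073466079) (nat_lit 228) (nat_lit 5823578804) (nat_lit 31) (nat_lit 5) (nat_lit 33) (nat_lit 5) (nat_lit 34) (nat_lit 5) (nat_lit 350) (nat_lit 261) (nat_lit 169))))) (XT.nd (nat_lit 234) (nat_lit 152) (nat_lit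 0) (XT.nd (nat_lit 78) (nat_lit 228) (nat_lit 0) (XT.lf (nat_lit 0) (nat_lit 19900037456) (nat_lit 152) (nat_lit 2184833523) (nat_lit 228) (nat_lit 2209500584) (nat_lit 31) (nat_lit 5) (nat_lit 33) (nat_lit 5) (nat_lit 34) (nat_lit 5) (nat_lit 351) (nat_lit 261) (nat_lit 168)) (XT.nd (nat_lit 78) (nat_lit 0) (nat_lit 0) (XT.lf (nat_lit 0) (nat_lit 1536106279) (nat_lit 228) (nat_lit 20486267705) (nat_lit 76) (nat_lit 2840593881) (nat_lit 28) (nat_lit 5) (nat_lit 31) (nat_lit 5) (nat_lit 29) (nat_lit 5) (nat_lit 352) (nat_lit 261) (nat_lit 167)) (XT.lf (nat_lit 0) (nat_lit 5398669045) (nat_lit 228) (nat_lit 12019915457) (nat_lit 76) (nat_lit 8027922166) (nat_lit 28) (nat_lit 5) (nat_lit 31) (nat_lit 5) (nat_lit 29) (nat_lit 5) (nat_lit 353) (nat_lit 261) (nat_lit 166)))) (XT.nd (nat_lit 156) (nat_lit 0) (nat_lit 0) (XT.nd (nat_lit 78) (nat_lit 152) (nat_lit 0) (XT.lf (nat_lit 0) (nat_lit 9360167866)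 (nat_lit 228) (nat_lit 3328331880) (nat_lit 76) (nat_lit 13359570590) (nat_lit 28) (nat_lit 5) (nat_lit 31) (nat_lit 5) (nat_lit 29) (nat_lit 5) (nat_lit 354) (nat_lit 261) (nat_lit 165)) (XT.lf (nat_lit 0) (nat_lit 5707450528) (nat_lit 152) (nat_lit 7771477224) (nat_lit 228) (nat_lit 13187610853) (nat_lit 26) (nat_lit 5) (nat_lit 28) (nat_lit 5) (nat_lit 29) (nat_lit 5) (nat_lit 355) (nat_lit 261) (nat_lit 164))) (XT.nd (nat_lit 78) (nat_lit 0) (nat_lit 0) (XT.lf (nat_lit 0) (nat_lit 15054886100) (nat_lit 152) (nat_lit 2683739840) (nat_lit 228) (nat_lit 9564423595) (nat_lit 26) (nat_lit 5) (nat_lit 28) (nat_lit 5) (nat_lit 29) (nat_lit 5) (nat_lit 356) (nat_lit 261) (nat_lit 163)) (XT.lf (nat_lit 0) (nat_lit 22134823157) (nat_lit 228) (nat_lit 3327705421) (nat_lit 76) (nat_lit 2495875559) (nat_lit 26) (nat_lit 5) (nat_lit 29) (nat_lit 5) (nat_lit 27) (nat_lit 4) (nat_lit 357) (nat_lit 261)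 (nat_lit 162))))))))
noncomputable def xc110 : XT := (XT.nd (nat_lit 2028) (nat_lit 456) (nat_lit 0) (XT.nd (nat_lit 1014) (nat_lit 380) (nat_lit 0) (XT.nd (nat_lit 468) (nat_lit 304) (nat_lit 0) (XT.nd (nat_lit 234) (nat_lit 152) (nat_lit 0) (XT.nd (nat_lit 78) (nat_lit 76) (nat_lit 0) (XT.lf (nat_lit 0) (nat_lit 5922946970) (nat_lit 76) (nat_lit 20808060357) (nat_lit 152) (nat_lit 1900378330) (nat_lit 25) (nat_lit 5) (nat_lit 26) (nat_lit 5) (nat_lit 27) (nat_lit 4) (nat_lit 358) (nat_lit 261) (nat_lit 161)) (XT.nd (nat_lit 78) (nat_lit 0) (nat_lit 0) (XT.lf (nat_lit 0) (nat_lit 2117319244) (nat_lit 152) (nat_lit 13851604849) (nat_lit 76) (nat_lit 13354466982) (nat_lit 24) (nat_lit 5) (nat_lit 26) (nat_lit 5) (nat_lit 25) (nat_lit 5) (nat_lit 359) (nat_lit 261) (nat_lit 160)) (XT.lf (nat_lit 0) (nat_lit 6202431735) (nat_lit 152) (nat_lit 4773591583) (nat_lit 76) (nat_lit 19060024996) (nat_lit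 24) (nat_lit 5) (nat_lit 26) (nat_lit 5) (nat_lit 25) (nat_lit 5) (nat_lit 360) (nat_lit 261) (nat_lit 159)))) (XT.nd (nat_lit 78) (nat_lit 0) (nat_lit 0) (XT.lf (nat_lit 0) (nat_lit 4642390716) (nat_lit 152) (nat_lit 5797846665) (nat_lit 228) (nat_lit 20328951967) (nat_lit 22) (nat_lit 5) (nat_lit 24) (nat_lit 5) (nat_lit 25) (nat_lit 5) (nat_lit 361) (nat_lit 261) (nat_lit 158)) (XT.nd (nat_lit 78) (nat_lit 0) (nat_lit 0) (XT.lf (nat_lit 0) (nat_lit 14413990022) (nat_lit 152) (nat_lit 425089698) (nat_lit 228) (nat_lit 16684235849) (nat_lit 22) (nat_lit 5) (nat_lit 24) (nat_lit 5) (nat_lit 25) (nat_lit 5) (nat_lit 362) (nat_lit 261) (nat_lit 157)) (XT.lf (nat_lit 0) (nat_lit 19405014674) (nat_lit 228) (nat_lit 7894761318) (nat_lit 76) (nat_lit 4999243560) (nat_lit 22) (nat_lit 5) (nat_lit 25) (nat_lit 5) (nat_lit 23) (nat_lit 4) (nat_lit 363) (nat_lit 261) (nat_lit 156))))) (XT.nd (nat_lit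 234) (nat_lit 228) (nat_lit 0) (XT.nd (nat_lit 78) (nat_lit 0) (nat_lit 0) (XT.lf (nat_lit 0) (nat_lit 1599630377) (nat_lit 76) (nat_lit 22514307932) (nat_lit 152) (nat_lit 8983883598) (nat_lit 21) (nat_lit 5) (nat_lit 22) (nat_lit 5) (nat_lit 23) (nat_lit 4) (nat_lit 364) (nat_lit 261) (nat_lit 155)) (XT.nd (nat_lit 78) (nat_lit 0) (nat_lit 0) (XT.lf (nat_lit 0) (nat_lit 11517305010) (nat_lit 76) (nat_lit 17513142052) (nat_lit 152) (nat_lit 4888159094) (nat_lit 21) (nat_lit 5) (nat_lit 22) (nat_lit 5) (nat_lit 23) (nat_lit 4) (nat_lit 365) (nat_lit 261) (nat_lit 154)) (XT.lf (nat_lit 0) (nat_lit 21709807281) (nat_lit 76) (nat_lit 12371630014) (nat_lit 152) (nat_lit 682974189) (nat_lit 21) (nat_lit 5) (nat_lit 22) (nat_lit 5) (nat_lit 23) (nat_lit 4) (nat_lit 366) (nat_lit 261) (nat_lit 153)))) (XT.nd (nat_lit 156) (nat_lit 0) (nat_lit 0) (XT.nd (nat_lit 78) (nat_lit 152) (nat_lit 0) (XT.lf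 (nat_lit 0) (nat_lit 3564406864) (nat_lit 152) (nat_lit 3484878848) (nat_lit 76) (nat_lit 28585642873) (nat_lit 20) (nat_lit 5) (nat_lit 22) (nat_lit 5) (nat_lit 21) (nat_lit 5) (nat_lit 367) (nat_lit 261) (nat_lit 152)) (XT.lf (nat_lit 0) (nat_lit 6469772114) (nat_lit 152) (nat_lit 1505506751) (nat_lit 228) (nat_lit 28554592102) (nat_lit 18) (nat_lit 5) (nat_lit 20) (nat_lit 5) (nat_lit 21) (nat_lit 5) (nat_lit 368) (nat_lit 261) (nat_lit 151))) (XT.nd (nat_lit 78) (nat_lit 0) (nat_lit 0) (XT.lf (nat_lit 0) (nat_lit 12582104627) (nat_lit 228) (nat_lit 20718597576) (nat_lit 76) (nat_lit 4149056929) (nat_lit 18) (nat_lit 5) (nat_lit 21) (nat_lit 5) (nat_lit 19) (nat_lit 4) (nat_lit 369) (nat_lit 261) (nat_lit 150)) (XT.lf (nat_lit 0) (nat_lit 17330071934) (nat_lit 228) (nat_lit 11132849893) (nat_lit 76) (nat_lit 9934240166) (nat_lit 18) (nat_lit 5) (nat_lit 21) (nat_lit 5) (nat_lit 19) (nat_lit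 4) (nat_lit 370) (nat_lit 261) (nat_lit 149)))))) (XT.nd (nat_lit 468) (nat_lit 76) (nat_lit 0) (XT.nd (nat_lit 234) (nat_lit 228) (nat_lit 0) (XT.nd (nat_lit 78) (nat_lit 76) (nat_lit 0) (XT.lf (nat_lit 0) (nat_lit 22208857644) (nat_lit 228) (nat_lit 1280008058) (nat_lit 76) (nat_lit 15884475832) (nat_lit 18) (nat_lit 5) (nat_lit 21) (nat_lit 5) (nat_lit 19) (nat_lit 4) (nat_lit 371) (nat_lit 261) (nat_lit 148)) (XT.nd (nat_lit 78) (nat_lit 0) (nat_lit 0) (XT.lf (nat_lit 0) (nat_lit 9024640448) (nat_lit 76) (nat_lit 18284834690) (nat_lit 152) (nat_lit 13067073078) (nat_lit 17) (nat_lit 5) (nat_lit 18) (nat_lit 5) (nat_lit 19) (nat_lit 4) (nat_lit 372) (nat_lit 261) (nat_lit 147)) (XT.lf (nat_lit 0) (nat_lit 19644980418) (nat_lit 76) (nat_lit 12919913523) (nat_lit 152) (nat_lit 8844909307) (nat_lit 17) (nat_lit 5) (nat_lit 18) (nat_lit 5) (nat_lit 19) (nat_lit 4) (nat_lit 373) (nat_lit 261)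 (nat_lit 146)))) (XT.nd (nat_lit 78) (nat_lit 228) (nat_lit 0) (XT.lf (nat_lit 0) (nat_lit 30564817089) (nat_lit 76) (nat_lit 7402339979) (nat_lit 152) (nat_lit 4507228879) (nat_lit 17) (nat_lit 5) (nat_lit 18) (nat_lit 5) (nat_lit 19) (nat_lit 4) (nat_lit 374) (nat_lit 261) (nat_lit 145)) (XT.nd (nat_lit 78) (nat_lit 228) (nat_lit 0) (XT.lf (nat_lit 0) (nat_lit 41793692065) (nat_lit 76) (nat_lit 1727292876) (nat_lit 152) (nat_lit 50241588) (nat_lit 17) (nat_lit 5) (nat_lit 18) (nat_lit 5) (nat_lit 19) (nat_lit 4) (nat_lit 375) (nat_lit 261) (nat_lit 144)) (XT.lf (nat_lit 0) (nat_lit 4566606942) (nat_lit 228) (nat_lit 35970545938) (nat_lit 76) (nat_lit 4159072517) (nat_lit 14) (nat_lit 5) (nat_lit 17) (nat_lit 5) (nat_lit 15) (nat_lit 4) (nat_lit 376) (nat_lit 261) (nat_lit 143))))) (XT.nd (nat_lit 234) (nat_lit 76) (nat_lit 0) (XT.nd (nat_lit 78) (nat_lit 0) (nat_lit 0) (XT.lf (nat_lit 0) (nat_lit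 9345928066) (nat_lit 228) (nat_lit 26310067468) (nat_lit 76) (nat_lit 10198219324) (nat_lit 14) (nat_lit 5) (nat_lit 17) (nat_lit 5) (nat_lit 15) (nat_lit 4) (nat_lit 377) (nat_lit 261) (nat_lit 142)) (XT.nd (nat_lit 78) (nat_lit 0) (nat_lit 0) (XT.lf (nat_lit 0) (nat_lit 14258675136) (nat_lit 228) (nat_lit 16377524325) (nat_lit 76) (nat_lit 16411047870) (nat_lit 14) (nat_lit 5) (nat_lit 17) (nat_lit 5) (nat_lit 15) (nat_lit 4) (nat_lit 378) (nat_lit 261) (nat_lit 141)) (XT.lf (nat_lit 0) (nat_lit 19309140845) (nat_lit 228) (nat_lit 6164237586) (nat_lit 76) (nat_lit 22802986840) (nat_lit 14) (nat_lit 5) (nat_lit 17) (nat_lit 5) (nat_lit 15) (nat_lit 4) (nat_lit 379) (nat_lit 261) (nat_lit 140)))) (XT.nd (nat_lit 156) (nat_lit 0) (nat_lit 0) (XT.nd (nat_lit 78) (nat_lit 0) (nat_lit 0) (XT.lf (nat_lit 0) (nat_lit 4425065951) (nat_lit 76) (nat_lit 20119208708) (nat_lit 152) (nat_lit 24997091911)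 (nat_lit 13) (nat_lit 5) (nat_lit 14) (nat_lit 5) (nat_lit 15) (nat_lit 4) (nat_lit 380) (nat_lit 261) (nat_lit 139)) (XT.lf (nat_lit 0) (nat_lit 15441842674) (nat_lit 76) (nat_lit 14547598244) (nat_lit 152) (nat_lit 20853291955) (nat_lit 13) (nat_lit 5) (nat_lit 14) (nat_lit 5) (nat_lit 15) (nat_lit 4) (nat_lit 381) (nat_lit 261) (nat_lit 138))) (XT.nd (nat_lit 78) (nat_lit 0) (nat_lit 0) (XT.lf (nat_lit 0) (nat_lit 26773038477) (nat_lit 76) (nat_lit 8815925356) (nat_lit 152) (nat_lit 16594450475) (nat_lit 13) (nat_lit 5) (nat_lit 14) (nat_lit 5) (nat_lit 15) (nat_lit 4) (nat_lit 382) (nat_lit 261) (nat_lit 137)) (XT.lf (nat_lit 0) (nat_lit 38428554403) (nat_lit 76) (nat_lit 2919181784) (nat_lit 152) (nat_lit 12216846154) (nat_lit 13) (nat_lit 5) (nat_lit 14) (nat_lit 5) (nat_lit 15) (nat_lit 4) (nat_lit 383) (nat_lit 261) (nat_lit 136))))))) (XT.nd (nat_lit 1014) (nat_lit 152) (nat_lit 0)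 (XT.nd (nat_lit 468) (nat_lit 152) (nat_lit 0) (XT.nd (nat_lit 234) (nat_lit 0) (nat_lit 0) (XT.nd (nat_lit 78) (nat_lit 152) (nat_lit 0) (XT.lf (nat_lit 0) (nat_lit 47301048354) (nat_lit 152) (nat_lit 4599127369) (nat_lit 0) (nat_lit 3086360342) (nat_lit 13) (nat_lit 5) (nat_lit 15) (nat_lit 4) (nat_lit 13) (nat_lit 4) (nat_lit 384) (nat_lit 261) (nat_lit 135)) (XT.nd (nat_lit 78) (nat_lit 76) (nat_lit 0) (XT.lf (nat_lit 0) (nat_lit 6333662100) (nat_lit 76) (nat_lit 47180786527) (nat_lit 76) (nat_lit 2934258948) (nat_lit 12) (nat_lit 4) (nat_lit 13) (nat_lit 5) (nat_lit 13) (nat_lit 4) (nat_lit 385) (nat_lit 261) (nat_lit 134)) (XT.lf (nat_lit 0) (nat_lit 1959889503) (nat_lit 152) (nat_lit 40298864086) (nat_lit 76) (nat_lit 15694270582) (nat_lit 11) (nat_lit 5) (nat_lit 13) (nat_lit 5) (nat_lit 12) (nat_lit 4) (nat_lit 386) (nat_lit 261) (nat_lit 133)))) (XT.nd (nat_lit 78) (nat_lit 0) (nat_lit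 0) (XT.lf (nat_lit 0) (nat_lit 6933845803) (nat_lit 152) (nat_lit 30231744641) (nat_lit 76) (nat_lit 22336252995) (nat_lit 11) (nat_lit 5) (nat_lit 13) (nat_lit 5) (nat_lit 12) (nat_lit 4) (nat_lit 387) (nat_lit 261) (nat_lit 132)) (XT.nd (nat_lit 78) (nat_lit 0) (nat_lit 0) (XT.lf (nat_lit 0) (nat_lit 12049214088) (nat_lit 152) (nat_lit 19876684735) (nat_lit 76) (nat_lit 29171466071) (nat_lit 11) (nat_lit 5) (nat_lit 13) (nat_lit 5) (nat_lit 12) (nat_lit 4) (nat_lit 388) (nat_lit 261) (nat_lit 131)) (XT.lf (nat_lit 0) (nat_lit 17310464097) (nat_lit 152) (nat_lit 9224636259) (nat_lit 76) (nat_lit 36205882325) (nat_lit 11) (nat_lit 5) (nat_lit 13) (nat_lit 5) (nat_lit 12) (nat_lit 4) (nat_lit 389) (nat_lit 261) (nat_lit 130))))) (XT.nd (nat_lit 234) (nat_lit 76) (nat_lit 0) (XT.nd (nat_lit 78) (nat_lit 0) (nat_lit 0) (XT.lf (nat_lit 0) (nat_lit 1768212599) (nat_lit 76) (nat_lit 20970977581) (nat_lit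 152) (nat_lit 41694432878) (nat_lit 10) (nat_lit 5) (nat_lit 11) (nat_lit 5) (nat_lit 12) (nat_lit 4) (nat_lit 390) (nat_lit 261) (nat_lit 129)) (XT.nd (nat_lit 78) (nat_lit 0) (nat_lit 0) (XT.lf (nat_lit 0) (nat_lit 13266807706) (nat_lit 76) (nat_lit 15149850573) (nat_lit 152) (nat_lit 37757811077) (nat_lit 10) (nat_lit 5) (nat_lit 11) (nat_lit 5) (nat_lit 12) (nat_lit 4) (nat_lit 391) (nat_lit 261) (nat_lit 128)) (XT.lf (nat_lit 0) (nat_lit 25097608029) (nat_lit 76) (nat_lit 9159783651) (nat_lit 152) (nat_lit 33710364153) (nat_lit 10) (nat_lit 5) (nat_lit 11) (nat_lit 5) (nat_lit 12) (nat_lit 4) (nat_lit 392) (nat_lit 261) (nat_lit 127)))) (XT.nd (nat_lit 156) (nat_lit 76) (nat_lit 0) (XT.nd (nat_lit 78) (nat_lit 0) (nat_lit 0) (XT.lf (nat_lit 0) (nat_lit 37270951160) (nat_lit 76) (nat_lit 2995542775) (nat_lit 152) (nat_lit 29548555504) (nat_lit 10) (nat_lit 5) (nat_lit 11) (nat_lit 5) (nat_lit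 12) (nat_lit 4) (nat_lit 393) (nat_lit 261) (nat_lit 126)) (XT.lf (nat_lit 0) (nat_lit 46481401225) (nat_lit 152) (nat_lit 21952675819) (nat_lit 0) (nat_lit 3282921704) (nat_lit 10) (nat_lit 5) (nat_lit 12) (nat_lit 4) (nat_lit 10) (nat_lit 4) (nat_lit 394) (nat_lit 261) (nat_lit 125))) (XT.nd (nat_lit 78) (nat_lit 76) (nat_lit 0) (XT.lf (nat_lit 0) (nat_lit 52905904734) (nat_lit 152) (nat_lit 11084986469) (nat_lit 0) (nat_lit 9684423634) (nat_lit 10) (nat_lit 5) (nat_lit 12) (nat_lit 4) (nat_lit 10) (nat_lit 4) (nat_lit 395) (nat_lit 261) (nat_lit 124)) (XT.lf (nat_lit 0) (nat_lit 99196480) (nat_lit 76) (nat_lit 59418580175) (nat_lit 76) (nat_lit 16174767444) (nat_lit 9) (nat_lit 4) (nat_lit 10) (nat_lit 5) (nat_lit 10) (nat_lit 4) (nat_lit 396) (nat_lit 261) (nat_lit 123)))))) (XT.nd (nat_lit 546) (nat_lit 76) (nat_lit 0) (XT.nd (nat_lit 234) (nat_lit 76) (nat_lit 0) (XT.nd (nat_lit 78) (nat_lit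 0) (nat_lit 0) (XT.lf (nat_lit 0) (nat_lit 11834775989) (nat_lit 76) (nat_lit 54598920025) (nat_lit 76) (nat_lit 11333426099) (nat_lit 9) (nat_lit 4) (nat_lit 10) (nat_lit 5) (nat_lit 10) (nat_lit 4) (nat_lit 397) (nat_lit 261) (nat_lit 122)) (XT.nd (nat_lit 78) (nat_lit 0) (nat_lit 0) (XT.lf (nat_lit 0) (nat_lit 23911393482) (nat_lit 76) (nat_lit 49639636027) (nat_lit 76) (nat_lit 6353092397) (nat_lit 9) (nat_lit 4) (nat_lit 10) (nat_lit 5) (nat_lit 10) (nat_lit 4) (nat_lit 398) (nat_lit 261) (nat_lit 121)) (XT.lf (nat_lit 0) (nat_lit 36339601343) (nat_lit 76) (nat_lit 44536394827) (nat_lit 76) (nat_lit 1229414591) (nat_lit 9) (nat_lit 4) (nat_lit 10) (nat_lit 5) (nat_lit 10) (nat_lit 4) (nat_lit 399) (nat_lit 261) (nat_lit 120)))) (XT.nd (nat_lit 156) (nat_lit 0) (nat_lit 0) (XT.nd (nat_lit 78) (nat_lit 0) (nat_lit 0) (XT.lf (nat_lit 0) (nat_lit 3963208695) (nat_lit 152) (nat_lit 35281507948)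 (nat_lit 76) (nat_lit 45127029838) (nat_lit 8) (nat_lit 5) (nat_lit 10) (nat_lit 5) (nat_lit 9) (nat_lit 4) (nat_lit 400) (nat_lit 261) (nat_lit 119)) (XT.lf (nat_lit 0) (nat_lit 9281294538) (nat_lit 152) (nat_lit 24505057147) (nat_lit 76) (nat_lit 52919525853) (nat_lit 8) (nat_lit 5) (nat_lit 10) (nat_lit 5) (nat_lit 9) (nat_lit 4) (nat_lit 401) (nat_lit 261) (nat_lit 118))) (XT.nd (nat_lit 78) (nat_lit 0) (nat_lit 0) (XT.lf (nat_lit 0) (nat_lit 14753480117) (nat_lit 152) (nat_lit 13415222813) (nat_lit 76) (nat_lit 60941495071) (nat_lit 8) (nat_lit 5) (nat_lit 10) (nat_lit 5) (nat_lit 9) (nat_lit 4) (nat_lit 402) (nat_lit 261) (nat_lit 117)) (XT.lf (nat_lit 0) (nat_lit 20384546951) (nat_lit 152) (nat_lit 2002314799) (nat_lit 76) (nat_lit 69199946979) (nat_lit 8) (nat_lit 5) (nat_lit 10) (nat_lit 5) (nat_lit 9) (nat_lit 4) (nat_lit 403) (nat_lit 261) (nat_lit 116))))) (XT.nd (nat_lit 234) (nat_lit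 0) (nat_lit 0) (XT.nd (nat_lit 78) (nat_lit 0) (nat_lit 0) (XT.lf (nat_lit 0) (nat_lit 9937556866) (nat_lit 76) (nat_lit 16337384400) (nat_lit 152) (nat_lit 67860066709) (nat_lit 7) (nat_lit 5) (nat_lit 8) (nat_lit 5) (nat_lit 9) (nat_lit 4) (nat_lit 404) (nat_lit 261) (nat_lit 115)) (XT.nd (nat_lit 78) (nat_lit 0) (nat_lit 0) (XT.lf (nat_lit 0) (nat_lit 22267420634) (nat_lit 76) (nat_lit 10089776348) (nat_lit 152) (nat_lit 64402003732) (nat_lit 7) (nat_lit 5) (nat_lit 8) (nat_lit 5) (nat_lit 9) (nat_lit 4) (nat_lit 405) (nat_lit 261) (nat_lit 114)) (XT.lf (nat_lit 0) (nat_lit 34958200182) (nat_lit 76) (nat_lit 3658797972) (nat_lit 152) (nat_lit 60845270692) (nat_lit 7) (nat_lit 5) (nat_lit 8) (nat_lit 5) (nat_lit 9) (nat_lit 4) (nat_lit 406) (nat_lit 261) (nat_lit 113)))) (XT.nd (nat_lit 29328) (nat_lit 0) (nat_lit 21888) (XT.nd (nat_lit 78) (nat_lit 0) (nat_lit 0) (XT.lf (nat_lit 0) (nat_lit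 45088279089) (nat_lit 152) (nat_lit 54254054312) (nat_lit 0) (nat_lit 2903386936) (nat_lit 7) (nat_lit 5) (nat_lit 9) (nat_lit 4) (nat_lit 7) (nat_lit 4) (nat_lit 407) (nat_lit 261) (nat_lit 112)) (XT.lf (nat_lit 0) (nat_lit 51785247745) (nat_lit 152) (nat_lit 43741334141) (nat_lit 0) (nat_lit 9585148838) (nat_lit 7) (nat_lit 5) (nat_lit 9) (nat_lit 4) (nat_lit 7) (nat_lit 4) (nat_lit 408) (nat_lit 261) (nat_lit 111))) (XT.nd (nat_lit 78) (nat_lit 228) (nat_lit 0) (XT.lf (nat_lit 0) (nat_lit 2392341271) (nat_lit 228) (nat_lit 418787290) (nat_lit 228) (nat_lit 418787290) (nat_lit 298) (nat_lit 3) (nat_lit 301) (nat_lit 3) (nat_lit 301) (nat_lit 5) (nat_lit 262) (nat_lit 262) (nat_lit 256)) (XT.lf (nat_lit 0) (nat_lit 998634617) (nat_lit 228) (nat_lit 4338176672) (nat_lit 304) (nat_lit 1133293813) (nat_lit 295) (nat_lit 5) (nat_lit 298) (nat_lit 3) (nat_lit 299) (nat_lit 5) (nat_lit 263) (nat_lit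 262) (nat_lit 255))))))))
noncomputable def xc111 : XT := (XT.nd (nat_lit 2028) (nat_lit 7904) (nat_lit 0) (XT.nd (nat_lit 1014) (nat_lit 6156) (nat_lit 0) (XT.nd (nat_lit 468) (nat_lit 1444) (nat_lit 0) (XT.nd (nat_lit 234) (nat_lit 380) (nat_lit 0) (XT.nd (nat_lit 78) (nat_lit 304) (nat_lit 0) (XT.lf (nat_lit 0) (nat_lit 3623758944) (nat_lit 228) (nat_lit 1345446932) (nat_lit 304) (nat_lit 1514118131) (nat_lit 295) (nat_lit 5) (nat_lit 298) (nat_lit 3) (nat_lit 299) (nat_lit 5) (nat_lit 264) (nat_lit 262) (nat_lit 254)) (XT.nd (nat_lit 78) (nat_lit 304) (nat_lit 0) (XT.lf (nat_lit 76) (nat_lit 1716154434) (nat_lit 0) (nat_lit 4527255284) (nat_lit 304) (nat_lit 256327208) (nat_lit 296) (nat_lit 5) (nat_lit 295) (nat_lit 5) (nat_lit 299) (nat_lit 5) (nat_lit 265) (nat_lit 262) (nat_lit 253)) (XT.lf (nat_lit 0) (nat_lit 2291868987) (nat_lit 304) (nat_lit 1698597052) (nat_lit 380) (nat_lit 2528306513)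 (nat_lit 291) (nat_lit 5) (nat_lit 295) (nat_lit 5) (nat_lit 296) (nat_lit 5) (nat_lit 266) (nat_lit 262) (nat_lit 252)))) (XT.nd (nat_lit 78) (nat_lit 380) (nat_lit 0) (XT.lf (nat_lit 76) (nat_lit 1450231909) (nat_lit 0) (nat_lit 3378427895) (nat_lit 380) (nat_lit 1712371953) (nat_lit 292) (nat_lit 5) (nat_lit 291) (nat_lit 5) (nat_lit 296) (nat_lit 5) (nat_lit 267) (nat_lit 262) (nat_lit 251)) (XT.nd (nat_lit 78) (nat_lit 0) (nat_lit 0) (XT.lf (nat_lit 0) (nat_lit 782279484) (nat_lit 380) (nat_lit 1899772413) (nat_lit 456) (nat_lit 3884232939) (nat_lit 286) (nat_lit 5) (nat_lit 291) (nat_lit 5) (nat_lit 292) (nat_lit 5) (nat_lit 268) (nat_lit 262) (nat_lit 250)) (XT.lf (nat_lit 76) (nat_lit 1341779912) (nat_lit 0) (nat_lit 1895740126) (nat_lit 456) (nat_lit 3356888498) (nat_lit 287) (nat_lit 5) (nat_lit 286) (nat_lit 5) (nat_lit 292) (nat_lit 5) (nat_lit 269) (nat_lit 262) (nat_lit 249)))))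 (XT.nd (nat_lit 234) (nat_lit 988) (nat_lit 0) (XT.nd (nat_lit 78) (nat_lit 456) (nat_lit 0) (XT.lf (nat_lit 76) (nat_lit 4665621242) (nat_lit 0) (nat_lit 1029431874) (nat_lit 456) (nat_lit 930683818) (nat_lit 287) (nat_lit 5) (nat_lit 286) (nat_lit 5) (nat_lit 292) (nat_lit 5) (nat_lit 270) (nat_lit 262) (nat_lit 248)) (XT.nd (nat_lit 78) (nat_lit 0) (nat_lit 76) (XT.lf (nat_lit 76) (nat_lit 1388889722) (nat_lit 0) (nat_lit 73173612) (nat_lit 532) (nat_lit 5197966210) (nat_lit 281) (nat_lit 5) (nat_lit 280) (nat_lit 5) (nat_lit 287) (nat_lit 5) (nat_lit 271) (nat_lit 262) (nat_lit 247)) (XT.lf (nat_lit 0) (nat_lit 3850043274) (nat_lit 456) (nat_lit 1891291147) (nat_lit 76) (nat_lit 955676758) (nat_lit 281) (nat_lit 5) (nat_lit 287) (nat_lit 5) (nat_lit 282) (nat_lit 5) (nat_lit 272) (nat_lit 262) (nat_lit 246)))) (XT.nd (nat_lit 156) (nat_lit 532) (nat_lit 0) (XT.nd (nat_lit 78) (nat_lit 76)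 (nat_lit 0) (XT.lf (nat_lit 0) (nat_lit 1564510563) (nat_lit 456) (nat_lit 4676840216) (nat_lit 532) (nat_lit 495996349) (nat_lit 275) (nat_lit 5) (nat_lit 281) (nat_lit 5) (nat_lit 282) (nat_lit 5) (nat_lit 273) (nat_lit 262) (nat_lit 245)) (XT.lf (nat_lit 0) (nat_lit 1824066330) (nat_lit 532) (nat_lit 1690807186) (nat_lit 76) (nat_lit 3265564586) (nat_lit 274) (nat_lit 5) (nat_lit 281) (nat_lit 5) (nat_lit 275) (nat_lit 5) (nat_lit 274) (nat_lit 262) (nat_lit 244))) (XT.nd (nat_lit 78) (nat_lit 0) (nat_lit 0) (XT.lf (nat_lit 0) (nat_lit 1872411950) (nat_lit 532) (nat_lit 2268618650) (nat_lit 608) (nat_lit 2685704736) (nat_lit 267) (nat_lit 5) (nat_lit 274) (nat_lit 5) (nat_lit 275) (nat_lit 5) (nat_lit 275) (nat_lit 262) (nat_lit 243)) (XT.lf (nat_lit 0) (nat_lit 5522827996) (nat_lit 532) (nat_lit 942848441) (nat_lit 608) (nat_lit 410773578) (nat_lit 267) (nat_lit 5) (nat_lit 274) (nat_lit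 5) (nat_lit 275) (nat_lit 5) (nat_lit 276) (nat_lit 262) (nat_lit 242)))))) (XT.nd (nat_lit 468) (nat_lit 3116) (nat_lit 0) (XT.nd (nat_lit 234) (nat_lit 1672) (nat_lit 0) (XT.nd (nat_lit 78) (nat_lit 684) (nat_lit 0) (XT.lf (nat_lit 0) (nat_lit 1844233516) (nat_lit 684) (nat_lit 4606148275) (nat_lit 76) (nat_lit 478394727) (nat_lit 258) (nat_lit 5) (nat_lit 267) (nat_lit 5) (nat_lit 259) (nat_lit 5) (nat_lit 277) (nat_lit 262) (nat_lit 241)) (XT.nd (nat_lit 78) (nat_lit 684) (nat_lit 0) (XT.lf (nat_lit 0) (nat_lit 4106196572) (nat_lit 684) (nat_lit 915477656) (nat_lit 76) (nat_lit 1962608689) (nat_lit 258) (nat_lit 5) (nat_lit 267) (nat_lit 5) (nat_lit 259) (nat_lit 5) (nat_lit 278) (nat_lit 262) (nat_lit 240)) (XT.lf (nat_lit 0) (nat_lit 2887311917) (nat_lit 684) (nat_lit 3503084990) (nat_lit 760) (nat_lit 652580584) (nat_lit 249) (nat_lit 5) (nat_lit 258) (nat_lit 5) (nat_lit 259) (nat_lit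 5) (nat_lit 279) (nat_lit 262) (nat_lit 239)))) (XT.nd (nat_lit 78) (nat_lit 1596) (nat_lit 0) (XT.lf (nat_lit 0) (nat_lit 1544410693) (nat_lit 760) (nat_lit 352052342) (nat_lit 76) (nat_lit 5208540995) (nat_lit 248) (nat_lit 5) (nat_lit 258) (nat_lit 5) (nat_lit 249) (nat_lit 5) (nat_lit 280) (nat_lit 262) (nat_lit 238)) (XT.nd (nat_lit 78) (nat_lit 836) (nat_lit 0) (XT.lf (nat_lit 0) (nat_lit 3574597175) (nat_lit 760) (nat_lit 183455206) (nat_lit 836) (nat_lit 3411870682) (nat_lit 238) (nat_lit 5) (nat_lit 248) (nat_lit 5) (nat_lit 249) (nat_lit 5) (nat_lit 281) (nat_lit 262) (nat_lit 237)) (XT.lf (nat_lit 0) (nat_lit 324496924) (nat_lit 836) (nat_lit 5666690138) (nat_lit 912) (nat_lit 1247147219) (nat_lit 227) (nat_lit 5) (nat_lit 238) (nat_lit 5) (nat_lit 239) (nat_lit 5) (nat_lit 282) (nat_lit 262) (nat_lit 236))))) (XT.nd (nat_lit 234) (nat_lit 2128) (nat_lit 0) (XT.nd (nat_lit 78) (nat_lit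 912) (nat_lit 0) (XT.lf (nat_lit 0) (nat_lit 933676709) (nat_lit 912) (nat_lit 2940831650) (nat_lit 76) (nat_lit 3435025456) (nat_lit 226) (nat_lit 5) (nat_lit 238) (nat_lit 5) (nat_lit 227) (nat_lit 5) (nat_lit 283) (nat_lit 262) (nat_lit 235)) (XT.nd (nat_lit 78) (nat_lit 0) (nat_lit 0) (XT.lf (nat_lit 0) (nat_lit 1105127220) (nat_lit 912) (nat_lit 1994189466) (nat_lit 988) (nat_lit 4284973967) (nat_lit 214) (nat_lit 5) (nat_lit 226) (nat_lit 5) (nat_lit 227) (nat_lit 5) (nat_lit 284) (nat_lit 262) (nat_lit 234)) (XT.lf (nat_lit 0) (nat_lit 5277838661) (nat_lit 912) (nat_lit 17017746) (nat_lit 988) (nat_lit 2167607707) (nat_lit 214) (nat_lit 5) (nat_lit 226) (nat_lit 5) (nat_lit 227) (nat_lit 5) (nat_lit 285) (nat_lit 262) (nat_lit 233)))) (XT.nd (nat_lit 156) (nat_lit 1064) (nat_lit 0) (XT.nd (nat_lit 78) (nat_lit 76) (nat_lit 0) (XT.lf (nat_lit 0) (nat_lit 1996895222) (nat_lit 988) (nat_lit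 5535187131) (nat_lit 1064) (nat_lit 11744111) (nat_lit 201) (nat_lit 5) (nat_lit 214) (nat_lit 5) (nat_lit 215) (nat_lit 5) (nat_lit 286) (nat_lit 262) (nat_lit 232)) (XT.lf (nat_lit 0) (nat_lit 2125933468) (nat_lit 1064) (nat_lit 1356156905) (nat_lit 76) (nat_lit 4146206650) (nat_lit 200) (nat_lit 5) (nat_lit 214) (nat_lit 5) (nat_lit 201) (nat_lit 5) (nat_lit 287) (nat_lit 262) (nat_lit 231))) (XT.nd (nat_lit 78) (nat_lit 0) (nat_lit 0) (XT.lf (nat_lit 0) (nat_lit 2963475744) (nat_lit 1064) (nat_lit 1332120487) (nat_lit 1140) (nat_lit 3420767501) (nat_lit 186) (nat_lit 5) (nat_lit 200) (nat_lit 5) (nat_lit 201) (nat_lit 5) (nat_lit 288) (nat_lit 262) (nat_lit 230)) (XT.lf (nat_lit 0) (nat_lit 6493553611) (nat_lit 1140) (nat_lit 430752214) (nat_lit 76) (nat_lit 883975571) (nat_lit 186) (nat_lit 5) (nat_lit 201) (nat_lit 5) (nat_lit 187) (nat_lit 5) (nat_lit 289) (nat_lit 262) (nat_lit 229)))))))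 (XT.nd (nat_lit 1014) (nat_lit 2888) (nat_lit 0) (XT.nd (nat_lit 468) (nat_lit 2052) (nat_lit 0) (XT.nd (nat_lit 234) (nat_lit 1216) (nat_lit 0) (XT.nd (nat_lit 78) (nat_lit 532) (nat_lit 0) (XT.lf (nat_lit 0) (nat_lit 832228815) (nat_lit 1216) (nat_lit 3879180131) (nat_lit 76) (nat_lit 3191567991) (nat_lit 170) (nat_lit 5) (nat_lit 186) (nat_lit 5) (nat_lit 171) (nat_lit 5) (nat_lit 290) (nat_lit 262) (nat_lit 228)) (XT.nd (nat_lit 78) (nat_lit 0) (nat_lit 0) (XT.lf (nat_lit 0) (nat_lit 563325837) (nat_lit 532) (nat_lit 2406766226) (nat_lit 608) (nat_lit 5031539265) (nat_lit 163) (nat_lit 5) (nat_lit 170) (nat_lit 5) (nat_lit 171) (nat_lit 5) (nat_lit 291) (nat_lit 262) (nat_lit 227)) (XT.lf (nat_lit 0) (nat_lit 5155593994) (nat_lit 608) (nat_lit 2939788985) (nat_lit 76) (nat_lit 8450665) (nat_lit 163) (nat_lit 5) (nat_lit 171) (nat_lit 5) (nat_lit 164) (nat_lit 5) (nat_lit 292) (nat_lit 262)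 (nat_lit 226)))) (XT.nd (nat_lit 78) (nat_lit 608) (nat_lit 0) (XT.lf (nat_lit 0) (nat_lit 1647364326) (nat_lit 608) (nat_lit 5744844889) (nat_lit 684) (nat_lit 817417023) (nat_lit 155) (nat_lit 5) (nat_lit 163) (nat_lit 5) (nat_lit 164) (nat_lit 5) (nat_lit 293) (nat_lit 262) (nat_lit 225)) (XT.nd (nat_lit 78) (nat_lit 532) (nat_lit 0) (XT.lf (nat_lit 0) (nat_lit 1326761547) (nat_lit 684) (nat_lit 1954093987) (nat_lit 76) (nat_lit 5038136098) (nat_lit 154) (nat_lit 5) (nat_lit 163) (nat_lit 5) (nat_lit 155) (nat_lit 5) (nat_lit 294) (nat_lit 262) (nat_lit 224)) (XT.lf (nat_lit 0) (nat_lit 2784925663) (nat_lit 532) (nat_lit 708572128) (nat_lit 608) (nat_lit 4938740517) (nat_lit 147) (nat_lit 5) (nat_lit 154) (nat_lit 5) (nat_lit 155) (nat_lit 5) (nat_lit 295) (nat_lit 262) (nat_lit 223))))) (XT.nd (nat_lit 234) (nat_lit 988) (nat_lit 0) (XT.nd (nat_lit 78) (nat_lit 1064) (nat_lit 0) (XT.lf (nat_lit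 0) (nat_lit 5712699860) (nat_lit 608) (nat_lit 915682086) (nat_lit 76) (nat_lit 1920957071) (nat_lit 147) (nat_lit 5) (nat_lit 155) (nat_lit 5) (nat_lit 148) (nat_lit 5) (nat_lit 296) (nat_lit 262) (nat_lit 222)) (XT.nd (nat_lit 78) (nat_lit 532) (nat_lit 0) (XT.lf (nat_lit 0) (nat_lit 3975336214) (nat_lit 532) (nat_lit 4018738594) (nat_lit 608) (nat_lit 676088236) (nat_lit 140) (nat_lit 5) (nat_lit 147) (nat_lit 5) (nat_lit 148) (nat_lit 5) (nat_lit 297) (nat_lit 262) (nat_lit 221)) (XT.lf (nat_lit 0) (nat_lit 172246410) (nat_lit 456) (nat_lit 1308546004) (nat_lit 532) (nat_lit 7314593956) (nat_lit 133) (nat_lit 5) (nat_lit 139) (nat_lit 5) (nat_lit 140) (nat_lit 5) (nat_lit 298) (nat_lit 262) (nat_lit 220)))) (XT.nd (nat_lit 156) (nat_lit 532) (nat_lit 0) (XT.nd (nat_lit 78) (nat_lit 456) (nat_lit 0) (XT.lf (nat_lit 0) (nat_lit 3702552701) (nat_lit 532) (nat_lit 3717392310) (nat_lit 76) (nat_lit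 1503879273) (nat_lit 133) (nat_lit 5) (nat_lit 140) (nat_lit 5) (nat_lit 134) (nat_lit 5) (nat_lit 299) (nat_lit 262) (nat_lit 219)) (XT.lf (nat_lit 0) (nat_lit 1294827961) (nat_lit 456) (nat_lit 4674578219) (nat_lit 532) (nat_lit 3087425425) (nat_lit 127) (nat_lit 5) (nat_lit 133) (nat_lit 5) (nat_lit 134) (nat_lit 5) (nat_lit 300) (nat_lit 262) (nat_lit 218))) (XT.nd (nat_lit 78) (nat_lit 532) (nat_lit 0) (XT.lf (nat_lit 0) (nat_lit 6481126784) (nat_lit 456) (nat_lit 1814577912) (nat_lit 532) (nat_lit 898448723) (nat_lit 127) (nat_lit 5) (nat_lit 133) (nat_lit 5) (nat_lit 134) (nat_lit 5) (nat_lit 301) (nat_lit 262) (nat_lit 217)) (XT.lf (nat_lit 0) (nat_lit 1319393135) (nat_lit 532) (nat_lit 6876418759) (nat_lit 76) (nat_lit 1139765676) (nat_lit 120) (nat_lit 5) (nat_lit 127) (nat_lit 5) (nat_lit 121) (nat_lit 5) (nat_lit 302) (nat_lit 262) (nat_lit 216)))))) (XT.nd (nat_lit 546) (nat_lit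 1216) (nat_lit 0) (XT.nd (nat_lit 234) (nat_lit 1216) (nat_lit 0) (XT.nd (nat_lit 78) (nat_lit 456) (nat_lit 0) (XT.lf (nat_lit 0) (nat_lit 3586839365) (nat_lit 532) (nat_lit 1718176516) (nat_lit 76) (nat_lit 4175989620) (nat_lit 120) (nat_lit 5) (nat_lit 127) (nat_lit 5) (nat_lit 121) (nat_lit 5) (nat_lit 303) (nat_lit 262) (nat_lit 215)) (XT.nd (nat_lit 78) (nat_lit 0) (nat_lit 0) (XT.lf (nat_lit 0) (nat_lit 3614128664) (nat_lit 456) (nat_lit 2299711268) (nat_lit 532) (nat_lit 3717270344) (nat_lit 114) (nat_lit 5) (nat_lit 120) (nat_lit 5) (nat_lit 121) (nat_lit 5) (nat_lit 304) (nat_lit 262) (nat_lit 214)) (XT.lf (nat_lit 0) (nat_lit 8293303160) (nat_lit 532) (nat_lit 703353635) (nat_lit 76) (nat_lit 789640008) (nat_lit 114) (nat_lit 5) (nat_lit 121) (nat_lit 5) (nat_lit 115) (nat_lit 5) (nat_lit 305) (nat_lit 262) (nat_lit 213)))) (XT.nd (nat_lit 156) (nat_lit 380) (nat_lit 0) (XT.nd (nat_lit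 78) (nat_lit 380) (nat_lit 0) (XT.lf (nat_lit 0) (nat_lit 810189510) (nat_lit 456) (nat_lit 5163375248) (nat_lit 76) (nat_lit 3971566382) (nat_lit 108) (nat_lit 5) (nat_lit 114) (nat_lit 5) (nat_lit 109) (nat_lit 5) (nat_lit 306) (nat_lit 262) (nat_lit 212)) (XT.lf (nat_lit 0) (nat_lit 277052788) (nat_lit 380) (nat_lit 2844230317) (nat_lit 456) (nat_lit 6987992508) (nat_lit 103) (nat_lit 5) (nat_lit 108) (nat_lit 5) (nat_lit 109) (nat_lit 5) (nat_lit 307) (nat_lit 262) (nat_lit 211))) (XT.nd (nat_lit 78) (nat_lit 380) (nat_lit 0) (XT.lf (nat_lit 0) (nat_lit 5517609888) (nat_lit 456) (nat_lit 4345888321) (nat_lit 76) (nat_lit 414420901) (nat_lit 103) (nat_lit 5) (nat_lit 109) (nat_lit 5) (nat_lit 104) (nat_lit 5) (nat_lit 308) (nat_lit 262) (nat_lit 210)) (XT.lf (nat_lit 0) (nat_lit 1251305990) (nat_lit 380) (nat_lit 6735487312) (nat_lit 456) (nat_lit 2464849801) (nat_lit 98) (nat_lit 5) (nat_lit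 103) (nat_lit 5) (nat_lit 104) (nat_lit 5) (nat_lit 309) (nat_lit 262) (nat_lit 209))))) (XT.nd (nat_lit 234) (nat_lit 760) (nat_lit 0) (XT.nd (nat_lit 78) (nat_lit 456) (nat_lit 0) (XT.lf (nat_lit 0) (nat_lit 7056005632) (nat_lit 380) (nat_lit 3479375950) (nat_lit 456) (nat_lit 95086084) (nat_lit 98) (nat_lit 5) (nat_lit 103) (nat_lit 5) (nat_lit 104) (nat_lit 5) (nat_lit 310) (nat_lit 262) (nat_lit 208)) (XT.nd (nat_lit 78) (nat_lit 0) (nat_lit 0) (XT.lf (nat_lit 0) (nat_lit 2191550859) (nat_lit 380) (nat_lit 91662161) (nat_lit 456) (nat_lit 8531316904) (nat_lit 92) (nat_lit 5) (nat_lit 97) (nat_lit 5) (nat_lit 98) (nat_lit 5) (nat_lit 311) (nat_lit 262) (nat_lit 207)) (XT.lf (nat_lit 0) (nat_lit 4762743477) (nat_lit 456) (nat_lit 2882602719) (nat_lit 76) (nat_lit 3357830401) (nat_lit 92) (nat_lit 5) (nat_lit 98) (nat_lit 5) (nat_lit 93) (nat_lit 5) (nat_lit 312) (nat_lit 262) (nat_lit 206))))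 (XT.nd (nat_lit 156) (nat_lit 456) (nat_lit 0) (XT.nd (nat_lit 78) (nat_lit 0) (nat_lit 0) (XT.lf (nat_lit 0) (nat_lit 3040417353) (nat_lit 304) (nat_lit 4270143841) (nat_lit 380) (nat_lit 3887147733) (nat_lit 88) (nat_lit 5) (nat_lit 92) (nat_lit 5) (nat_lit 93) (nat_lit 5) (nat_lit 313) (nat_lit 262) (nat_lit 205)) (XT.lf (nat_lit 0) (nat_lit 9152699533) (nat_lit 304) (nat_lit 775588532) (nat_lit 380) (nat_lit 1470026963) (nat_lit 88) (nat_lit 5) (nat_lit 92) (nat_lit 5) (nat_lit 93) (nat_lit 5) (nat_lit 314) (nat_lit 262) (nat_lit 204))) (XT.nd (nat_lit 78) (nat_lit 0) (nat_lit 0) (XT.lf (nat_lit 0) (nat_lit 1029351851) (nat_lit 456) (nat_lit 7770012380) (nat_lit 76) (nat_lit 2804431452) (nat_lit 82) (nat_lit 5) (nat_lit 88) (nat_lit 5) (nat_lit 83) (nat_lit 5) (nat_lit 315) (nat_lit 262) (nat_lit 203)) (XT.lf (nat_lit 0) (nat_lit 3570224448) (nat_lit 456) (nat_lit 1742988296) (nat_lit 76)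 (nat_lit 6501948086) (nat_lit 82) (nat_lit 5) (nat_lit 88) (nat_lit 5) (nat_lit 83) (nat_lit 5) (nat_lit 316) (nat_lit 262) (nat_lit 202))))))))
noncomputable def xc112 : XT := (XT.nd (nat_lit 2028) (nat_lit 1368) (nat_lit 0) (XT.nd (nat_lit 1014) (nat_lit 1368) (nat_lit 0) (XT.nd (nat_lit 468) (nat_lit 1064) (nat_lit 0) (XT.nd (nat_lit 234) (nat_lit 304) (nat_lit 0) (XT.nd (nat_lit 78) (nat_lit 304) (nat_lit 0) (XT.lf (nat_lit 0) (nat_lit 4506803610) (nat_lit 304) (nat_lit 1690325823) (nat_lit 380) (nat_lit 5835480662) (nat_lit 78) (nat_lit 5) (nat_lit 82) (nat_lit 5) (nat_lit 83) (nat_lit 5) (nat_lit 317) (nat_lit 262) (nat_lit 201)) (XT.nd (nat_lit 78) (nat_lit 304) (nat_lit 0) (XT.lf (nat_lit 0) (nat_lit 8907140128) (nat_lit 380) (nat_lit 1342472859) (nat_lit 76) (nat_lit 2006877155) (nat_lit 78) (nat_lit 5) (nat_lit 83) (nat_lit 5) (nat_lit 79) (nat_lit 5) (nat_lit 318) (nat_lit 262) (nat_lit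 200)) (XT.lf (nat_lit 0) (nat_lit 5063340652) (nat_lit 304) (nat_lit 6668384152) (nat_lit 380) (nat_lit 754398782) (nat_lit 74) (nat_lit 5) (nat_lit 78) (nat_lit 5) (nat_lit 79) (nat_lit 5) (nat_lit 319) (nat_lit 262) (nat_lit 199)))) (XT.nd (nat_lit 78) (nat_lit 228) (nat_lit 0) (XT.lf (nat_lit 0) (nat_lit 1862682597) (nat_lit 380) (nat_lit 1097282187) (nat_lit 76) (nat_lit 9762709713) (nat_lit 73) (nat_lit 5) (nat_lit 78) (nat_lit 5) (nat_lit 74) (nat_lit 5) (nat_lit 320) (nat_lit 262) (nat_lit 198)) (XT.nd (nat_lit 78) (nat_lit 0) (nat_lit 0) (XT.lf (nat_lit 0) (nat_lit 4573418309) (nat_lit 304) (nat_lit 7500894685) (nat_lit 76) (nat_lit 890907944) (nat_lit 70) (nat_lit 5) (nat_lit 74) (nat_lit 5) (nat_lit 71) (nat_lit 5) (nat_lit 321) (nat_lit 262) (nat_lit 197)) (XT.lf (nat_lit 0) (nat_lit 7375290377) (nat_lit 304) (nat_lit 1043238978) (nat_lit 76) (nat_lit 4796251266) (nat_lit 70) (nat_lit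 5) (nat_lit 74) (nat_lit 5) (nat_lit 71) (nat_lit 5) (nat_lit 322) (nat_lit 262) (nat_lit 196))))) (XT.nd (nat_lit 234) (nat_lit 456) (nat_lit 0) (XT.nd (nat_lit 78) (nat_lit 304) (nat_lit 0) (XT.lf (nat_lit 0) (nat_lit 5675807195) (nat_lit 304) (nat_lit 4610182004) (nat_lit 380) (nat_lit 3185125148) (nat_lit 66) (nat_lit 5) (nat_lit 70) (nat_lit 5) (nat_lit 71) (nat_lit 5) (nat_lit 323) (nat_lit 262) (nat_lit 195)) (XT.nd (nat_lit 78) (nat_lit 304) (nat_lit 0) (XT.lf (nat_lit 0) (nat_lit 12575137980) (nat_lit 304) (nat_lit 690074376) (nat_lit 380) (nat_lit 470519111) (nat_lit 66) (nat_lit 5) (nat_lit 70) (nat_lit 5) (nat_lit 71) (nat_lit 5) (nat_lit 324) (nat_lit 262) (nat_lit 194)) (XT.lf (nat_lit 0) (nat_lit 2339164739) (nat_lit 304) (nat_lit 8319273327) (nat_lit 76) (nat_lit 3347435625) (nat_lit 62) (nat_lit 5) (nat_lit 66) (nat_lit 5) (nat_lit 63) (nat_lit 5) (nat_lit 325) (nat_lit 262)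 (nat_lit 193)))) (XT.nd (nat_lit 156) (nat_lit 228) (nat_lit 0) (XT.nd (nat_lit 78) (nat_lit 228) (nat_lit 0) (XT.lf (nat_lit 0) (nat_lit 5213874154) (nat_lit 304) (nat_lit 1574742401) (nat_lit 76) (nat_lit 7495685090) (nat_lit 62) (nat_lit 5) (nat_lit 66) (nat_lit 5) (nat_lit 63) (nat_lit 5) (nat_lit 326) (nat_lit 262) (nat_lit 192)) (XT.lf (nat_lit 0) (nat_lit 5437087824) (nat_lit 228) (nat_lit 2762354886) (nat_lit 304) (nat_lit 6370927386) (nat_lit 59) (nat_lit 5) (nat_lit 62) (nat_lit 5) (nat_lit 63) (nat_lit 5) (nat_lit 327) (nat_lit 262) (nat_lit 191))) (XT.nd (nat_lit 78) (nat_lit 228) (nat_lit 0) (XT.lf (nat_lit 0) (nat_lit 11276585327) (nat_lit 304) (nat_lit 2227901093) (nat_lit 76) (nat_lit 1360499405) (nat_lit 59) (nat_lit 5) (nat_lit 63) (nat_lit 5) (nat_lit 60) (nat_lit 5) (nat_lit 328) (nat_lit 262) (nat_lit 190)) (XT.lf (nat_lit 0) (nat_lit 4912924201) (nat_lit 228) (nat_lit 9581128293)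 (nat_lit 304) (nat_lit 672971916) (nat_lit 56) (nat_lit 5) (nat_lit 59) (nat_lit 5) (nat_lit 60) (nat_lit 5) (nat_lit 329) (nat_lit 262) (nat_lit 189)))))) (XT.nd (nat_lit 468) (nat_lit 608) (nat_lit 0) (XT.nd (nat_lit 234) (nat_lit 456) (nat_lit 0) (XT.nd (nat_lit 78) (nat_lit 228) (nat_lit 0) (XT.lf (nat_lit 0) (nat_lit 2280716888) (nat_lit 304) (nat_lit 3226816026) (nat_lit 76) (nat_lit 9970054741) (nat_lit 55) (nat_lit 5) (nat_lit 59) (nat_lit 5) (nat_lit 56) (nat_lit 5) (nat_lit 330) (nat_lit 262) (nat_lit 188)) (XT.nd (nat_lit 78) (nat_lit 0) (nat_lit 0) (XT.lf (nat_lit 0) (nat_lit 4044327970) (nat_lit 228) (nat_lit 1278351791) (nat_lit 304) (nat_lit 10474215056) (nat_lit 52) (nat_lit 5) (nat_lit 55) (nat_lit 5) (nat_lit 56) (nat_lit 5) (nat_lit 331) (nat_lit 262) (nat_lit 187)) (XT.lf (nat_lit 0) (nat_lit 8492951312) (nat_lit 304) (nat_lit 4594440132) (nat_lit 76) (nat_lit 3037300194)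 (nat_lit 52) (nat_lit 5) (nat_lit 56) (nat_lit 5) (nat_lit 53) (nat_lit 5) (nat_lit 332) (nat_lit 262) (nat_lit 186)))) (XT.nd (nat_lit 78) (nat_lit 304) (nat_lit 0) (XT.lf (nat_lit 0) (nat_lit 2781722901) (nat_lit 152) (nat_lit 8991303587) (nat_lit 228) (nat_lit 4688876312) (nat_lit 50) (nat_lit 5) (nat_lit 52) (nat_lit 5) (nat_lit 53) (nat_lit 5) (nat_lit 333) (nat_lit 262) (nat_lit 185)) (XT.nd (nat_lit 78) (nat_lit 304) (nat_lit 0) (XT.lf (nat_lit 0) (nat_lit 10435396181) (nat_lit 152) (nat_lit 4738156075) (nat_lit 228) (nat_lit 1635037269) (nat_lit 50) (nat_lit 5) (nat_lit 52) (nat_lit 5) (nat_lit 53) (nat_lit 5) (nat_lit 334) (nat_lit 262) (nat_lit 184)) (XT.lf (nat_lit 0) (nat_lit 1123052947) (nat_lit 228) (nat_lit 344794698) (nat_lit 304) (nat_lit 15697805998) (nat_lit 46) (nat_lit 5) (nat_lit 49) (nat_lit 5) (nat_lit 50) (nat_lit 5) (nat_lit 335) (nat_lit 262) (nat_lit 183))))) (XT.nd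 (nat_lit 234) (nat_lit 456) (nat_lit 0) (XT.nd (nat_lit 78) (nat_lit 152) (nat_lit 0) (XT.lf (nat_lit 0) (nat_lit 4712454884) (nat_lit 304) (nat_lit 8651253914) (nat_lit 76) (nat_lit 4166809203) (nat_lit 46) (nat_lit 5) (nat_lit 50) (nat_lit 5) (nat_lit 47) (nat_lit 5) (nat_lit 336) (nat_lit 262) (nat_lit 182)) (XT.nd (nat_lit 78) (nat_lit 152) (nat_lit 0) (XT.lf (nat_lit 0) (nat_lit 8034824056) (nat_lit 304) (nat_lit 1078061938) (nat_lit 76) (nat_lit 8794047957) (nat_lit 46) (nat_lit 5) (nat_lit 50) (nat_lit 5) (nat_lit 47) (nat_lit 5) (nat_lit 337) (nat_lit 262) (nat_lit 181)) (XT.lf (nat_lit 0) (nat_lit 6819989522) (nat_lit 152) (nat_lit 4680112216) (nat_lit 228) (nat_lit 6793261358) (nat_lit 44) (nat_lit 5) (nat_lit 46) (nat_lit 5) (nat_lit 47) (nat_lit 5) (nat_lit 338) (nat_lit 262) (nat_lit 180)))) (XT.nd (nat_lit 156) (nat_lit 228) (nat_lit 0) (XT.nd (nat_lit 78) (nat_lit 228) (nat_lit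 0) (XT.lf (nat_lit 0) (nat_lit 14942010146) (nat_lit 152) (nat_lit 116206418) (nat_lit 228) (nat_lit 3633519504) (nat_lit 44) (nat_lit 5) (nat_lit 46) (nat_lit 5) (nat_lit 47) (nat_lit 5) (nat_lit 339) (nat_lit 262) (nat_lit 179)) (XT.lf (nat_lit 0) (nat_lit 4209109938) (nat_lit 228) (nat_lit 14577007154) (nat_lit 304) (nat_lit 314068685) (nat_lit 41) (nat_lit 5) (nat_lit 44) (nat_lit 5) (nat_lit 45) (nat_lit 5) (nat_lit 340) (nat_lit 262) (nat_lit 178))) (XT.nd (nat_lit 78) (nat_lit 152) (nat_lit 0) (XT.lf (nat_lit 0) (nat_lit 3062349356) (nat_lit 304) (nat_lit 7102237737) (nat_lit 76) (nat_lit 9354883145) (nat_lit 40) (nat_lit 5) (nat_lit 44) (nat_lit 5) (nat_lit 41) (nat_lit 5) (nat_lit 341) (nat_lit 262) (nat_lit 177)) (XT.lf (nat_lit 0) (nat_lit 901060207) (nat_lit 152) (nat_lit 5620555043) (nat_lit 228) (nat_lit 13430004050) (nat_lit 38) (nat_lit 5) (nat_lit 40) (nat_lit 5) (nat_lit 41)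 (nat_lit 5) (nat_lit 342) (nat_lit 262) (nat_lit 176))))))) (XT.nd (nat_lit 1014) (nat_lit 608) (nat_lit 0) (XT.nd (nat_lit 468) (nat_lit 380) (nat_lit 0) (XT.nd (nat_lit 234) (nat_lit 228) (nat_lit 0) (XT.nd (nat_lit 78) (nat_lit 152) (nat_lit 0) (XT.lf (nat_lit 0) (nat_lit 9256697544) (nat_lit 152) (nat_lit 879171568) (nat_lit 228) (nat_lit 10259342360) (nat_lit 38) (nat_lit 5) (nat_lit 40) (nat_lit 5) (nat_lit 41) (nat_lit 5) (nat_lit 343) (nat_lit 262) (nat_lit 175)) (XT.nd (nat_lit 78) (nat_lit 152) (nat_lit 0) (XT.lf (nat_lit 0) (nat_lit 13877012674) (nat_lit 228) (nat_lit 3060469823) (nat_lit 76) (nat_lit 3914089555) (nat_lit 38) (nat_lit 5) (nat_lit 41) (nat_lit 5) (nat_lit 39) (nat_lit 5) (nat_lit 344) (nat_lit 262) (nat_lit 174)) (XT.lf (nat_lit 0) (nat_lit 5323173418) (nat_lit 152) (nat_lit 12447643652) (nat_lit 228) (nat_lit 3549607665) (nat_lit 36) (nat_lit 5) (nat_lit 38) (nat_lit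 5) (nat_lit 39) (nat_lit 5) (nat_lit 345) (nat_lit 262) (nat_lit 173)))) (XT.nd (nat_lit 78) (nat_lit 228) (nat_lit 0) (XT.lf (nat_lit 0) (nat_lit 13989463645) (nat_lit 152) (nat_lit 7803691647) (nat_lit 228) (nat_lit 9849786) (nat_lit 36) (nat_lit 5) (nat_lit 38) (nat_lit 5) (nat_lit 39) (nat_lit 5) (nat_lit 346) (nat_lit 262) (nat_lit 172)) (XT.nd (nat_lit 78) (nat_lit 0) (nat_lit 0) (XT.lf (nat_lit 0) (nat_lit 560600556) (nat_lit 152) (nat_lit 2991111989) (nat_lit 228) (nat_lit 18747717647) (nat_lit 33) (nat_lit 5) (nat_lit 35) (nat_lit 5) (nat_lit 36) (nat_lit 5) (nat_lit 347) (nat_lit 262) (nat_lit 171)) (XT.lf (nat_lit 0) (nat_lit 7299815020) (nat_lit 228) (nat_lit 13513233897) (nat_lit 76) (nat_lit 1995311990) (nat_lit 33) (nat_lit 5) (nat_lit 36) (nat_lit 5) (nat_lit 34) (nat_lit 5) (nat_lit 348) (nat_lit 262) (nat_lit 170))))) (XT.nd (nat_lit 234) (nat_lit 228) (nat_lit 0) (XT.nd (nat_lit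 78) (nat_lit 152) (nat_lit 0) (XT.lf (nat_lit 0) (nat_lit 11171831548) (nat_lit 228) (nat_lit 5100790105) (nat_lit 76) (nat_lit 7059605910) (nat_lit 33) (nat_lit 5) (nat_lit 36) (nat_lit 5) (nat_lit 34) (nat_lit 5) (nat_lit 349) (nat_lit 262) (nat_lit 169)) (XT.nd (nat_lit 78) (nat_lit 0) (nat_lit 0) (XT.lf (nat_lit 0) (nat_lit 3604950383) (nat_lit 152) (nat_lit 11572095649) (nat_lit 228) (nat_lit 8694264853) (nat_lit 31) (nat_lit 5) (nat_lit 33) (nat_lit 5) (nat_lit 34) (nat_lit 5) (nat_lit 350) (nat_lit 262) (nat_lit 168)) (XT.lf (nat_lit 0) (nat_lit 12647290552) (nat_lit 152) (nat_lit 6689251875) (nat_lit 228) (nat_lit 5089011968) (nat_lit 31) (nat_lit 5) (nat_lit 33) (nat_lit 5) (nat_lit 34) (nat_lit 5) (nat_lit 351) (nat_lit 262) (nat_lit 167)))) (XT.nd (nat_lit 156) (nat_lit 0) (nat_lit 0) (XT.nd (nat_lit 78) (nat_lit 228) (nat_lit 0) (XT.lf (nat_lit 0) (nat_lit 21932615750) (nat_lit 152)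 (nat_lit 1671331745) (nat_lit 228) (nat_lit 1392995116) (nat_lit 31) (nat_lit 5) (nat_lit 33) (nat_lit 5) (nat_lit 34) (nat_lit 5) (nat_lit 352) (nat_lit 262) (nat_lit 166)) (XT.lf (nat_lit 0) (nat_lit 2441999033) (nat_lit 228) (nat_lit 19641218090) (nat_lit 76) (nat_lit 3499313691) (nat_lit 28) (nat_lit 5) (nat_lit 31) (nat_lit 5) (nat_lit 29) (nat_lit 5) (nat_lit 353) (nat_lit 262) (nat_lit 165))) (XT.nd (nat_lit 78) (nat_lit 0) (nat_lit 0) (XT.lf (nat_lit 0) (nat_lit 6395395684) (nat_lit 228) (nat_lit 10963388992) (nat_lit 76) (nat_lit 8825557883) (nat_lit 28) (nat_lit 5) (nat_lit 31) (nat_lit 5) (nat_lit 29) (nat_lit 5) (nat_lit 354) (nat_lit 262) (nat_lit 164)) (XT.lf (nat_lit 0) (nat_lit 10451425881) (nat_lit 228) (nat_lit 2052333362) (nat_lit 76) (nat_lit 14300938341) (nat_lit 28) (nat_lit 5) (nat_lit 31) (nat_lit 5) (nat_lit 29) (nat_lit 5) (nat_lit 355) (nat_lit 262) (nat_lit 163))))))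 (XT.nd (nat_lit 468) (nat_lit 304) (nat_lit 0) (XT.nd (nat_lit 234) (nat_lit 152) (nat_lit 0) (XT.nd (nat_lit 78) (nat_lit 0) (nat_lit 0) (XT.lf (nat_lit 0) (nat_lit 7241033808) (nat_lit 152) (nat_lit 7442205165) (nat_lit 228) (nat_lit 12758810817) (nat_lit 26) (nat_lit 5) (nat_lit 28) (nat_lit 5) (nat_lit 29) (nat_lit 5) (nat_lit 356) (nat_lit 262) (nat_lit 162)) (XT.nd (nat_lit 78) (nat_lit 0) (nat_lit 0) (XT.lf (nat_lit 0) (nat_lit 16829212066) (nat_lit 152) (nat_lit 2218216718) (nat_lit 228) (nat_lit 9050940417) (nat_lit 26) (nat_lit 5) (nat_lit 28) (nat_lit 5) (nat_lit 29) (nat_lit 5) (nat_lit 357) (nat_lit 262) (nat_lit 161)) (XT.lf (nat_lit 0) (nat_lit 23557987164) (nat_lit 228) (nat_lit 2125398354) (nat_lit 76) (nat_lit 3090538429) (nat_lit 26) (nat_lit 5) (nat_lit 29) (nat_lit 5) (nat_lit 27) (nat_lit 4) (nat_lit 358) (nat_lit 262) (nat_lit 160)))) (XT.nd (nat_lit 78) (nat_lit 76) (nat_lit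 0) (XT.lf (nat_lit 0) (nat_lit 7390007548) (nat_lit 76) (nat_lit 20892333273) (nat_lit 152) (nat_lit 1185058933) (nat_lit 25) (nat_lit 5) (nat_lit 26) (nat_lit 5) (nat_lit 27) (nat_lit 4) (nat_lit 359) (nat_lit 262) (nat_lit 159)) (XT.nd (nat_lit 78) (nat_lit 0) (nat_lit 0) (XT.lf (nat_lit 0) (nat_lit 2916042504) (nat_lit 152) (nat_lit 13000283551) (nat_lit 76) (nat_lit 14264290833) (nat_lit 24) (nat_lit 5) (nat_lit 26) (nat_lit 5) (nat_lit 25) (nat_lit 5) (nat_lit 360) (nat_lit 262) (nat_lit 158)) (XT.lf (nat_lit 0) (nat_lit 7102294669) (nat_lit 152) (nat_lit 3686828998) (nat_lit 76) (nat_lit 20126184816) (nat_lit 24) (nat_lit 5) (nat_lit 26) (nat_lit 5) (nat_lit 25) (nat_lit 5) (nat_lit 361) (nat_lit 262) (nat_lit 157))))) (XT.nd (nat_lit 234) (nat_lit 152) (nat_lit 0) (XT.nd (nat_lit 78) (nat_lit 0) (nat_lit 0) (XT.lf (nat_lit 0) (nat_lit 5999574238) (nat_lit 152) (nat_lit 5458577562) (nat_lit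 228) (nat_lit 20212576301) (nat_lit 22) (nat_lit 5) (nat_lit 24) (nat_lit 5) (nat_lit 25) (nat_lit 5) (nat_lit 362) (nat_lit 262) (nat_lit 156)) (XT.nd (nat_lit 78) (nat_lit 0) (nat_lit 0) (XT.lf (nat_lit 0) (nat_lit 15969014694) (nat_lit 228) (nat_lit 16419837774) (nat_lit 76) (nat_lit 59235507) (nat_lit 22) (nat_lit 5) (nat_lit 25) (nat_lit 5) (nat_lit 23) (nat_lit 4) (nat_lit 363) (nat_lit 262) (nat_lit 155)) (XT.lf (nat_lit 0) (nat_lit 20656069377) (nat_lit 228) (nat_lit 6967954904) (nat_lit 76) (nat_lit 5623525735) (nat_lit 22) (nat_lit 5) (nat_lit 25) (nat_lit 5) (nat_lit 23) (nat_lit 4) (nat_lit 364) (nat_lit 262) (nat_lit 154)))) (XT.nd (nat_lit 156) (nat_lit 76) (nat_lit 0) (XT.nd (nat_lit 78) (nat_lit 0) (nat_lit 0) (XT.lf (nat_lit 0) (nat_lit 2799860215) (nat_lit 76) (nat_lit 22697993901) (nat_lit 152) (nat_lit 8572725387) (nat_lit 21) (nat_lit 5) (nat_lit 22) (nat_lit 5) (nat_lit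 23) (nat_lit 4) (nat_lit 365) (nat_lit 262) (nat_lit 153)) (XT.lf (nat_lit 0) (nat_lit 12981504673) (nat_lit 76) (nat_lit 17561115665) (nat_lit 152) (nat_lit 4373954625) (nat_lit 21) (nat_lit 5) (nat_lit 22) (nat_lit 5) (nat_lit 23) (nat_lit 4) (nat_lit 366) (nat_lit 262) (nat_lit 152))) (XT.nd (nat_lit 78) (nat_lit 76) (nat_lit 0) (XT.lf (nat_lit 0) (nat_lit 23447199084) (nat_lit 76) (nat_lit 12279263721) (nat_lit 152) (nat_lit 61862209) (nat_lit 21) (nat_lit 5) (nat_lit 22) (nat_lit 5) (nat_lit 23) (nat_lit 4) (nat_lit 367) (nat_lit 262) (nat_lit 151)) (XT.lf (nat_lit 0) (nat_lit 4282097570) (nat_lit 152) (nat_lit 2522484499) (nat_lit 76) (nat_lit 29880749870) (nat_lit 20) (nat_lit 5) (nat_lit 22) (nat_lit 5) (nat_lit 21) (nat_lit 5) (nat_lit 368) (nat_lit 262) (nat_lit 150))))))))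
noncomputable def xc113 : XT := (XT.nd (nat_lit 2028) (nat_lit 228) (nat_lit 0) (XT.nd (nat_lit 1014) (nat_lit 228) (nat_lit 0) (XT.nd (nat_lit 468) (nat_lit 304) (nat_lit 0) (XT.nd (nat_lit 234) (nat_lit 76) (nat_lit 0) (XT.nd (nat_lit 78) (nat_lit 0) (nat_lit 0) (XT.lf (nat_lit 0) (nat_lit 7720345789) (nat_lit 152) (nat_lit 1097316397) (nat_lit 228) (nat_lit 28789698785) (nat_lit 18) (nat_lit 5) (nat_lit 20) (nat_lit 5) (nat_lit 21) (nat_lit 5) (nat_lit 369) (nat_lit 262) (nat_lit 149)) (XT.nd (nat_lit 78) (nat_lit 0) (nat_lit 0) (XT.lf (nat_lit 0) (nat_lit 13549356975) (nat_lit 228) (nat_lit 20300807245) (nat_lit 76) (nat_lit 4705090731) (nat_lit 18) (nat_lit 5) (nat_lit 21) (nat_lit 5) (nat_lit 19) (nat_lit 4) (nat_lit 370) (nat_lit 262) (nat_lit 148)) (XT.lf (nat_lit 0) (nat_lit 18422584975) (nat_lit 228) (nat_lit 10457759412) (nat_lit 76) (nat_lit 10651259695) (nat_lit 18) (nat_lit 5)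 (nat_lit 21) (nat_lit 5) (nat_lit 19) (nat_lit 4) (nat_lit 371) (nat_lit 262) (nat_lit 147)))) (XT.nd (nat_lit 78) (nat_lit 76) (nat_lit 0) (XT.lf (nat_lit 0) (nat_lit 23431056269) (nat_lit 228) (nat_lit 338722884) (nat_lit 76) (nat_lit 16767798771) (nat_lit 18) (nat_lit 5) (nat_lit 21) (nat_lit 5) (nat_lit 19) (nat_lit 4) (nat_lit 372) (nat_lit 262) (nat_lit 146)) (XT.nd (nat_lit 78) (nat_lit 0) (nat_lit 0) (XT.lf (nat_lit 0) (nat_lit 10265460319) (nat_lit 76) (nat_lit 18412364758) (nat_lit 152) (nat_lit 12893270073) (nat_lit 17) (nat_lit 5) (nat_lit 18) (nat_lit 5) (nat_lit 19) (nat_lit 4) (nat_lit 373) (nat_lit 262) (nat_lit 145)) (XT.lf (nat_lit 0) (nat_lit 21176155711) (nat_lit 76) (nat_lit 12898758528) (nat_lit 152) (nat_lit 8560921443) (nat_lit 17) (nat_lit 5) (nat_lit 18) (nat_lit 5) (nat_lit 19) (nat_lit 4) (nat_lit 374) (nat_lit 262) (nat_lit 144))))) (XT.nd (nat_lit 234) (nat_lit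 76) (nat_lit 0) (XT.nd (nat_lit 78) (nat_lit 228) (nat_lit 0) (XT.lf (nat_lit 0) (nat_lit 32396155660) (nat_lit 76) (nat_lit 7227563187) (nat_lit 152) (nat_lit 4109110655) (nat_lit 17) (nat_lit 5) (nat_lit 18) (nat_lit 5) (nat_lit 19) (nat_lit 4) (nat_lit 375) (nat_lit 262) (nat_lit 143)) (XT.nd (nat_lit 78) (nat_lit 152) (nat_lit 0) (XT.lf (nat_lit 0) (nat_lit 456957864) (nat_lit 152) (nat_lit 932251078) (nat_lit 76) (nat_lit 43473691806) (nat_lit 16) (nat_lit 5) (nat_lit 18) (nat_lit 5) (nat_lit 17) (nat_lit 5) (nat_lit 376) (nat_lit 262) (nat_lit 142)) (XT.lf (nat_lit 0) (nat_lit 5208791559) (nat_lit 228) (nat_lit 36148800441) (nat_lit 76) (nat_lit 4664125156) (nat_lit 14) (nat_lit 5) (nat_lit 17) (nat_lit 5) (nat_lit 15) (nat_lit 4) (nat_lit 377) (nat_lit 262) (nat_lit 141)))) (XT.nd (nat_lit 156) (nat_lit 76) (nat_lit 0) (XT.nd (nat_lit 78) (nat_lit 0) (nat_lit 0) (XT.lf (nat_lit 0) (nat_lit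 10116778150) (nat_lit 228) (nat_lit 26224746312) (nat_lit 76) (nat_lit 10873370238) (nat_lit 14) (nat_lit 5) (nat_lit 17) (nat_lit 5) (nat_lit 15) (nat_lit 4) (nat_lit 378) (nat_lit 262) (nat_lit 140)) (XT.lf (nat_lit 0) (nat_lit 15162622033) (nat_lit 228) (nat_lit 16019701336) (nat_lit 76) (nat_lit 17261830115) (nat_lit 14) (nat_lit 5) (nat_lit 17) (nat_lit 5) (nat_lit 15) (nat_lit 4) (nat_lit 379) (nat_lit 262) (nat_lit 139))) (XT.nd (nat_lit 78) (nat_lit 76) (nat_lit 0) (XT.lf (nat_lit 0) (nat_lit 20350732199) (nat_lit 228) (nat_lit 5524748482) (nat_lit 76) (nat_lit 23835086939) (nat_lit 14) (nat_lit 5) (nat_lit 17) (nat_lit 5) (nat_lit 15) (nat_lit 4) (nat_lit 380) (nat_lit 262) (nat_lit 138)) (XT.lf (nat_lit 0) (nat_lit 5374151650) (nat_lit 76) (nat_lit 20363149930) (nat_lit 152) (nat_lit 25276392314) (nat_lit 13) (nat_lit 5) (nat_lit 14) (nat_lit 5) (nat_lit 15) (nat_lit 4) (nat_lit 381)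 (nat_lit 262) (nat_lit 137)))))) (XT.nd (nat_lit 468) (nat_lit 76) (nat_lit 0) (XT.nd (nat_lit 234) (nat_lit 152) (nat_lit 0) (XT.nd (nat_lit 78) (nat_lit 0) (nat_lit 0) (XT.lf (nat_lit 0) (nat_lit 16697654964) (nat_lit 76) (nat_lit 14634865960) (nat_lit 152) (nat_lit 21021985515) (nat_lit 13) (nat_lit 5) (nat_lit 14) (nat_lit 5) (nat_lit 15) (nat_lit 4) (nat_lit 382) (nat_lit 262) (nat_lit 136)) (XT.nd (nat_lit 78) (nat_lit 0) (nat_lit 0) (XT.lf (nat_lit 0) (nat_lit 28345702456) (nat_lit 76) (nat_lit 8741412600) (nat_lit 152) (nat_lit 16648686710) (nat_lit 13) (nat_lit 5) (nat_lit 14) (nat_lit 5) (nat_lit 15) (nat_lit 4) (nat_lit 383) (nat_lit 262) (nat_lit 135)) (XT.lf (nat_lit 0) (nat_lit 40328472030) (nat_lit 76) (nat_lit 2677640231) (nat_lit 152) (nat_lit 12152674567) (nat_lit 13) (nat_lit 5) (nat_lit 14) (nat_lit 5) (nat_lit 15) (nat_lit 4) (nat_lit 384) (nat_lit 262) (nat_lit 134))))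 (XT.nd (nat_lit 78) (nat_lit 152) (nat_lit 0) (XT.lf (nat_lit 0) (nat_lit 49128922196) (nat_lit 152) (nat_lit 4002508663) (nat_lit 0) (nat_lit 3492247024) (nat_lit 13) (nat_lit 5) (nat_lit 15) (nat_lit 4) (nat_lit 13) (nat_lit 4) (nat_lit 385) (nat_lit 262) (nat_lit 133)) (XT.nd (nat_lit 78) (nat_lit 76) (nat_lit 0) (XT.lf (nat_lit 0) (nat_lit 7251062603) (nat_lit 76) (nat_lit 48272745966) (nat_lit 76) (nat_lit 2606058950) (nat_lit 12) (nat_lit 4) (nat_lit 13) (nat_lit 5) (nat_lit 13) (nat_lit 4) (nat_lit 386) (nat_lit 262) (nat_lit 132)) (XT.lf (nat_lit 0) (nat_lit 2414905279) (nat_lit 152) (nat_lit 40793567012) (nat_lit 76) (nat_lit 16471083077) (nat_lit 11) (nat_lit 5) (nat_lit 13) (nat_lit 5) (nat_lit 12) (nat_lit 4) (nat_lit 387) (nat_lit 262) (nat_lit 131))))) (XT.nd (nat_lit 234) (nat_lit 76) (nat_lit 0) (XT.nd (nat_lit 78) (nat_lit 0) (nat_lit 0) (XT.lf (nat_lit 0) (nat_lit 7526539906)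 (nat_lit 152) (nat_lit 30445237760) (nat_lit 76) (nat_lit 23303412796) (nat_lit 11) (nat_lit 5) (nat_lit 13) (nat_lit 5) (nat_lit 12) (nat_lit 4) (nat_lit 388) (nat_lit 262) (nat_lit 130)) (XT.nd (nat_lit 78) (nat_lit 0) (nat_lit 0) (XT.lf (nat_lit 0) (nat_lit 12784165005) (nat_lit 152) (nat_lit 19799723898) (nat_lit 76) (nat_lit 30335029676) (nat_lit 11) (nat_lit 5) (nat_lit 13) (nat_lit 5) (nat_lit 12) (nat_lit 4) (nat_lit 389) (nat_lit 262) (nat_lit 129)) (XT.lf (nat_lit 0) (nat_lit 18192374616) (nat_lit 152) (nat_lit 8847723522) (nat_lit 76) (nat_lit 37572077846) (nat_lit 11) (nat_lit 5) (nat_lit 13) (nat_lit 5) (nat_lit 12) (nat_lit 4) (nat_lit 390) (nat_lit 262) (nat_lit 128)))) (XT.nd (nat_lit 156) (nat_lit 0) (nat_lit 0) (XT.nd (nat_lit 78) (nat_lit 0) (nat_lit 0) (XT.lf (nat_lit 0) (nat_lit 2468502450) (nat_lit 76) (nat_lit 21311120666) (nat_lit 152) (nat_lit 42576107248) (nat_lit 10)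 (nat_lit 5) (nat_lit 11) (nat_lit 5) (nat_lit 12) (nat_lit 4) (nat_lit 391) (nat_lit 262) (nat_lit 127)) (XT.lf (nat_lit 0) (nat_lit 14293203659) (nat_lit 76) (nat_lit 15323776923) (nat_lit 152) (nat_lit 38532138985) (nat_lit 10) (nat_lit 5) (nat_lit 11) (nat_lit 5) (nat_lit 12) (nat_lit 4) (nat_lit 392) (nat_lit 262) (nat_lit 126))) (XT.nd (nat_lit 78) (nat_lit 0) (nat_lit 0) (XT.lf (nat_lit 0) (nat_lit 26460625320) (nat_lit 76) (nat_lit 9162179910) (nat_lit 152) (nat_lit 34373707676) (nat_lit 10) (nat_lit 5) (nat_lit 11) (nat_lit 5) (nat_lit 12) (nat_lit 4) (nat_lit 393) (nat_lit 262) (nat_lit 125)) (XT.lf (nat_lit 0) (nat_lit 38981399161) (nat_lit 76) (nat_lit 2820945709) (nat_lit 152) (nat_lit 30097179740) (nat_lit 10) (nat_lit 5) (nat_lit 11) (nat_lit 5) (nat_lit 12) (nat_lit 4) (nat_lit 394) (nat_lit 262) (nat_lit 124))))))) (XT.nd (nat_lit 30342) (nat_lit 0) (nat_lit 19684) (XT.nd (nat_lit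 468) (nat_lit 152) (nat_lit 0) (XT.nd (nat_lit 234) (nat_lit 0) (nat_lit 0) (XT.nd (nat_lit 78) (nat_lit 76) (nat_lit 0) (XT.lf (nat_lit 0) (nat_lit 48196618310) (nat_lit 152) (nat_lit 22028971050) (nat_lit 0) (nat_lit 3633159566) (nat_lit 10) (nat_lit 5) (nat_lit 12) (nat_lit 4) (nat_lit 10) (nat_lit 4) (nat_lit 395) (nat_lit 262) (nat_lit 123)) (XT.nd (nat_lit 78) (nat_lit 76) (nat_lit 0) (XT.lf (nat_lit 0) (nat_lit 54804513962) (nat_lit 152) (nat_lit 10852210778) (nat_lit 0) (nat_lit 10219374023) (nat_lit 10) (nat_lit 5) (nat_lit 12) (nat_lit 4) (nat_lit 10) (nat_lit 4) (nat_lit 396) (nat_lit 262) (nat_lit 122)) (XT.lf (nat_lit 0) (nat_lit 661955254) (nat_lit 76) (nat_lit 60949096925) (nat_lit 76) (nat_lit 16342907282) (nat_lit 9) (nat_lit 4) (nat_lit 10) (nat_lit 5) (nat_lit 10) (nat_lit 4) (nat_lit 397) (nat_lit 262) (nat_lit 121)))) (XT.nd (nat_lit 78) (nat_lit 0) (nat_lit 0) (XT.lf (nat_lit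 0) (nat_lit 12733297793) (nat_lit 76) (nat_lit 55992187960) (nat_lit 76) (nat_lit 11365561711) (nat_lit 9) (nat_lit 4) (nat_lit 10) (nat_lit 5) (nat_lit 10) (nat_lit 4) (nat_lit 398) (nat_lit 262) (nat_lit 120)) (XT.nd (nat_lit 78) (nat_lit 0) (nat_lit 0) (XT.lf (nat_lit 0) (nat_lit 25156384339) (nat_lit 76) (nat_lit 50891252617) (nat_lit 76) (nat_lit 6244785003) (nat_lit 9) (nat_lit 4) (nat_lit 10) (nat_lit 5) (nat_lit 10) (nat_lit 4) (nat_lit 399) (nat_lit 262) (nat_lit 119)) (XT.lf (nat_lit 0) (nat_lit 37942070017) (nat_lit 76) (nat_lit 45641833767) (nat_lit 76) (nat_lit 976102693) (nat_lit 9) (nat_lit 4) (nat_lit 10) (nat_lit 5) (nat_lit 10) (nat_lit 4) (nat_lit 400) (nat_lit 262) (nat_lit 118))))) (XT.nd (nat_lit 234) (nat_lit 76) (nat_lit 0) (XT.nd (nat_lit 78) (nat_lit 0) (nat_lit 0) (XT.lf (nat_lit 0) (nat_lit 4358349227) (nat_lit 152) (nat_lit 35836984532) (nat_lit 76) (nat_lit 46699166776)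 (nat_lit 8) (nat_lit 5) (nat_lit 10) (nat_lit 5) (nat_lit 9) (nat_lit 4) (nat_lit 401) (nat_lit 262) (nat_lit 117)) (XT.nd (nat_lit 78) (nat_lit 0) (nat_lit 0) (XT.lf (nat_lit 0) (nat_lit 9827931696) (nat_lit 152) (nat_lit 24751889779) (nat_lit 76) (nat_lit 54719078660) (nat_lit 8) (nat_lit 5) (nat_lit 10) (nat_lit 5) (nat_lit 9) (nat_lit 4) (nat_lit 402) (nat_lit 262) (nat_lit 116)) (XT.lf (nat_lit 0) (nat_lit 15456471240) (nat_lit 152) (nat_lit 13343583300) (nat_lit 76) (nat_lit 62975533157) (nat_lit 8) (nat_lit 5) (nat_lit 10) (nat_lit 5) (nat_lit 9) (nat_lit 4) (nat_lit 403) (nat_lit 262) (nat_lit 115)))) (XT.nd (nat_lit 156) (nat_lit 0) (nat_lit 0) (XT.nd (nat_lit 78) (nat_lit 76) (nat_lit 0) (XT.lf (nat_lit 0) (nat_lit 21248886000) (nat_lit 152) (nat_lit 1602096673) (nat_lit 76) (nat_lit 71475744645) (nat_lit 8) (nat_lit 5) (nat_lit 10) (nat_lit 5) (nat_lit 9) (nat_lit 4) (nat_lit 404)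 (nat_lit 262) (nat_lit 114)) (XT.lf (nat_lit 0) (nat_lit 10691458518) (nat_lit 76) (nat_lit 16621551631) (nat_lit 152) (nat_lit 69638454813) (nat_lit 7) (nat_lit 5) (nat_lit 8) (nat_lit 5) (nat_lit 9) (nat_lit 4) (nat_lit 405) (nat_lit 262) (nat_lit 113))) (XT.nd (nat_lit 78) (nat_lit 0) (nat_lit 0) (XT.lf (nat_lit 0) (nat_lit 23377943201) (nat_lit 76) (nat_lit 10192514006) (nat_lit 152) (nat_lit 66084147439) (nat_lit 7) (nat_lit 5) (nat_lit 8) (nat_lit 5) (nat_lit 9) (nat_lit 4) (nat_lit 406) (nat_lit 262) (nat_lit 112)) (XT.lf (nat_lit 0) (nat_lit 36436557787) (nat_lit 76) (nat_lit 3574430229) (nat_lit 152) (nat_lit 62427991526) (nat_lit 7) (nat_lit 5) (nat_lit 8) (nat_lit 5) (nat_lit 9) (nat_lit 4) (nat_lit 407) (nat_lit 262) (nat_lit 111)))))) (XT.nd (nat_lit 546) (nat_lit 1520) (nat_lit 0) (XT.nd (nat_lit 234) (nat_lit 304) (nat_lit 0) (XT.nd (nat_lit 78) (nat_lit 380) (nat_lit 0) (XT.lf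 (nat_lit 0) (nat_lit 895605207) (nat_lit 0) (nat_lit 895605207) (nat_lit 228) (nat_lit 1449665595) (nat_lit 295) (nat_lit 5) (nat_lit 295) (nat_lit 3) (nat_lit 298) (nat_lit 3) (nat_lit 263) (nat_lit 263) (nat_lit 254)) (XT.nd (nat_lit 78) (nat_lit 380) (nat_lit 0) (XT.lf (nat_lit 0) (nat_lit 4776075954) (nat_lit 0) (nat_lit 1377878262) (nat_lit 228) (nat_lit 342757751) (nat_lit 295) (nat_lit 5) (nat_lit 295) (nat_lit 3) (nat_lit 298) (nat_lit 3) (nat_lit 264) (nat_lit 263) (nat_lit 253)) (XT.lf (nat_lit 76) (nat_lit 1290158072) (nat_lit 0) (nat_lit 868567354) (nat_lit 380) (nat_lit 4355602587) (nat_lit 291) (nat_lit 5) (nat_lit 290) (nat_lit 3) (nat_lit 295) (nat_lit 5) (nat_lit 265) (nat_lit 263) (nat_lit 252)))) (XT.nd (nat_lit 156) (nat_lit 0) (nat_lit 0) (XT.nd (nat_lit 78) (nat_lit 304) (nat_lit 0) (XT.lf (nat_lit 76) (nat_lit 4372223254) (nat_lit 0) (nat_lit 276398370) (nat_lit 380) (nat_lit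 1886389044) (nat_lit 291) (nat_lit 5) (nat_lit 290) (nat_lit 3) (nat_lit 295) (nat_lit 5) (nat_lit 266) (nat_lit 263) (nat_lit 251)) (XT.lf (nat_lit 0) (nat_lit 561581455) (nat_lit 380) (nat_lit 5611558853) (nat_lit 456) (nat_lit 385692532) (nat_lit 286) (nat_lit 5) (nat_lit 291) (nat_lit 5) (nat_lit 292) (nat_lit 5) (nat_lit 267) (nat_lit 263) (nat_lit 250))) (XT.nd (nat_lit 78) (nat_lit 0) (nat_lit 0) (XT.lf (nat_lit 0) (nat_lit 2977137829) (nat_lit 380) (nat_lit 2463806915) (nat_lit 456) (nat_lit 1144129432) (nat_lit 286) (nat_lit 5) (nat_lit 291) (nat_lit 5) (nat_lit 292) (nat_lit 5) (nat_lit 268) (nat_lit 263) (nat_lit 249)) (XT.lf (nat_lit 76) (nat_lit 739967783) (nat_lit 0) (nat_lit 4642275594) (nat_lit 456) (nat_lit 1232566945) (nat_lit 287) (nat_lit 5) (nat_lit 286) (nat_lit 5) (nat_lit 292) (nat_lit 5) (nat_lit 269) (nat_lit 263) (nat_lit 248))))) (XT.nd (nat_lit 234) (nat_lit 1064)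 (nat_lit 0) (XT.nd (nat_lit 78) (nat_lit 0) (nat_lit 0) (XT.lf (nat_lit 0) (nat_lit 1126507530) (nat_lit 456) (nat_lit 2620557091) (nat_lit 532) (nat_lit 2900147196) (nat_lit 280) (nat_lit 5) (nat_lit 286) (nat_lit 5) (nat_lit 287) (nat_lit 5) (nat_lit 270) (nat_lit 263) (nat_lit 247)) (XT.nd (nat_lit 78) (nat_lit 0) (nat_lit 0) (XT.lf (nat_lit 76) (nat_lit 679688675) (nat_lit 0) (nat_lit 2772026543) (nat_lit 532) (nat_lit 3231101373) (nat_lit 281) (nat_lit 5) (nat_lit 280) (nat_lit 5) (nat_lit 287) (nat_lit 5) (nat_lit 271) (nat_lit 263) (nat_lit 246)) (XT.lf (nat_lit 76) (nat_lit 4080449818) (nat_lit 0) (nat_lit 1708307176) (nat_lit 532) (nat_lit 932665687) (nat_lit 281) (nat_lit 5) (nat_lit 280) (nat_lit 5) (nat_lit 287) (nat_lit 5) (nat_lit 272) (nat_lit 263) (nat_lit 245)))) (XT.nd (nat_lit 156) (nat_lit 532) (nat_lit 0) (XT.nd (nat_lit 78) (nat_lit 0) (nat_lit 76) (XT.lf (nat_lit 76) (nat_lit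 770771145) (nat_lit 0) (nat_lit 560440340) (nat_lit 608) (nat_lit 5432011462) (nat_lit 274) (nat_lit 5) (nat_lit 273) (nat_lit 5) (nat_lit 281) (nat_lit 5) (nat_lit 273) (nat_lit 263) (nat_lit 244)) (XT.lf (nat_lit 0) (nat_lit 3596439710) (nat_lit 532) (nat_lit 2536846183) (nat_lit 76) (nat_lit 674327803) (nat_lit 274) (nat_lit 5) (nat_lit 281) (nat_lit 5) (nat_lit 275) (nat_lit 5) (nat_lit 274) (nat_lit 263) (nat_lit 243))) (XT.nd (nat_lit 78) (nat_lit 76) (nat_lit 0) (XT.lf (nat_lit 0) (nat_lit 982757012) (nat_lit 532) (nat_lit 4883484882) (nat_lit 608) (nat_lit 989169468) (nat_lit 267) (nat_lit 5) (nat_lit 274) (nat_lit 5) (nat_lit 275) (nat_lit 5) (nat_lit 275) (nat_lit 263) (nat_lit 242)) (XT.lf (nat_lit 0) (nat_lit 1222481251) (nat_lit 608) (nat_lit 2311151399) (nat_lit 76) (nat_lit 3372348981) (nat_lit 266) (nat_lit 5) (nat_lit 274) (nat_lit 5) (nat_lit 267) (nat_lit 5) (nat_lit 276)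 (nat_lit 263) (nat_lit 241))))))))
noncomputable def xc114 : XT := (XT.nd (nat_lit 2028) (nat_lit 5092) (nat_lit 0) (XT.nd (nat_lit 1014) (nat_lit 4560) (nat_lit 0) (XT.nd (nat_lit 468) (nat_lit 3952) (nat_lit 0) (XT.nd (nat_lit 234) (nat_lit 760) (nat_lit 0) (XT.nd (nat_lit 78) (nat_lit 760) (nat_lit 0) (XT.lf (nat_lit 0) (nat_lit 1320270048) (nat_lit 608) (nat_lit 2097752515) (nat_lit 684) (nat_lit 3541788926) (nat_lit 258) (nat_lit 5) (nat_lit 266) (nat_lit 5) (nat_lit 267) (nat_lit 5) (nat_lit 277) (nat_lit 263) (nat_lit 240)) (XT.nd (nat_lit 78) (nat_lit 760) (nat_lit 0) (XT.lf (nat_lit 0) (nat_lit 5055633007) (nat_lit 608) (nat_lit 573555174) (nat_lit 684) (nat_lit 1387729657) (nat_lit 258) (nat_lit 5) (nat_lit 266) (nat_lit 5) (nat_lit 267) (nat_lit 5) (nat_lit 278) (nat_lit 263) (nat_lit 239)) (XT.lf (nat_lit 0) (nat_lit 769787056) (nat_lit 760) (nat_lit 5285251011) (nat_lit 76) (nat_lit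 1021953643) (nat_lit 248) (nat_lit 5) (nat_lit 258) (nat_lit 5) (nat_lit 249) (nat_lit 5) (nat_lit 279) (nat_lit 263) (nat_lit 238)))) (XT.nd (nat_lit 78) (nat_lit 760) (nat_lit 0) (XT.lf (nat_lit 0) (nat_lit 2919312944) (nat_lit 760) (nat_lit 1514691168) (nat_lit 76) (nat_lit 2705937458) (nat_lit 248) (nat_lit 5) (nat_lit 258) (nat_lit 5) (nat_lit 249) (nat_lit 5) (nat_lit 280) (nat_lit 263) (nat_lit 237)) (XT.nd (nat_lit 78) (nat_lit 0) (nat_lit 0) (XT.lf (nat_lit 0) (nat_lit 2362301724) (nat_lit 760) (nat_lit 2725279979) (nat_lit 836) (nat_lit 2118707639) (nat_lit 238) (nat_lit 5) (nat_lit 248) (nat_lit 5) (nat_lit 249) (nat_lit 5) (nat_lit 281) (nat_lit 263) (nat_lit 236)) (XT.lf (nat_lit 0) (nat_lit 6334390785) (nat_lit 760) (nat_lit 934843680) (nat_lit 836) (nat_lit 7076134) (nat_lit 238) (nat_lit 5) (nat_lit 248) (nat_lit 5) (nat_lit 249) (nat_lit 5) (nat_lit 282) (nat_lit 263) (nat_lit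 235))))) (XT.nd (nat_lit 234) (nat_lit 2128) (nat_lit 0) (XT.nd (nat_lit 78) (nat_lit 912) (nat_lit 0) (XT.lf (nat_lit 0) (nat_lit 2098643518) (nat_lit 912) (nat_lit 4294407650) (nat_lit 76) (nat_lit 955690354) (nat_lit 226) (nat_lit 5) (nat_lit 238) (nat_lit 5) (nat_lit 227) (nat_lit 5) (nat_lit 283) (nat_lit 263) (nat_lit 234)) (XT.nd (nat_lit 78) (nat_lit 912) (nat_lit 0) (XT.lf (nat_lit 0) (nat_lit 4222015874) (nat_lit 912) (nat_lit 296535399) (nat_lit 76) (nat_lit 2906275132) (nat_lit 226) (nat_lit 5) (nat_lit 238) (nat_lit 5) (nat_lit 227) (nat_lit 5) (nat_lit 284) (nat_lit 263) (nat_lit 233)) (XT.lf (nat_lit 0) (nat_lit 3844012813) (nat_lit 912) (nat_lit 2539660351) (nat_lit 988) (nat_lit 1120401443) (nat_lit 214) (nat_lit 5) (nat_lit 226) (nat_lit 5) (nat_lit 227) (nat_lit 5) (nat_lit 285) (nat_lit 263) (nat_lit 232)))) (XT.nd (nat_lit 156) (nat_lit 1064) (nat_lit 0) (XT.nd (nat_lit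 78) (nat_lit 0) (nat_lit 0) (XT.lf (nat_lit 0) (nat_lit 475548798) (nat_lit 988) (nat_lit 474769876) (nat_lit 1064) (nat_lit 6636822740) (nat_lit 200) (nat_lit 5) (nat_lit 213) (nat_lit 5) (nat_lit 214) (nat_lit 5) (nat_lit 286) (nat_lit 263) (nat_lit 231)) (XT.lf (nat_lit 0) (nat_lit 3053451660) (nat_lit 1064) (nat_lit 2943252478) (nat_lit 76) (nat_lit 1675987235) (nat_lit 200) (nat_lit 5) (nat_lit 214) (nat_lit 5) (nat_lit 201) (nat_lit 5) (nat_lit 287) (nat_lit 263) (nat_lit 230))) (XT.nd (nat_lit 78) (nat_lit 0) (nat_lit 0) (XT.lf (nat_lit 0) (nat_lit 1318172350) (nat_lit 1064) (nat_lit 3860241317) (nat_lit 1140) (nat_lit 2583737208) (nat_lit 186) (nat_lit 5) (nat_lit 200) (nat_lit 5) (nat_lit 201) (nat_lit 5) (nat_lit 288) (nat_lit 263) (nat_lit 229)) (XT.lf (nat_lit 0) (nat_lit 5715306085) (nat_lit 1064) (nat_lit 1624106307) (nat_lit 1140) (nat_lit 515815171) (nat_lit 186) (nat_lit 5)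 (nat_lit 200) (nat_lit 5) (nat_lit 201) (nat_lit 5) (nat_lit 289) (nat_lit 263) (nat_lit 228)))))) (XT.nd (nat_lit 468) (nat_lit 1596) (nat_lit 0) (XT.nd (nat_lit 234) (nat_lit 1216) (nat_lit 0) (XT.nd (nat_lit 78) (nat_lit 532) (nat_lit 0) (XT.lf (nat_lit 0) (nat_lit 1554995141) (nat_lit 1216) (nat_lit 5688827210) (nat_lit 76) (nat_lit 707734440) (nat_lit 170) (nat_lit 5) (nat_lit 186) (nat_lit 5) (nat_lit 171) (nat_lit 5) (nat_lit 290) (nat_lit 263) (nat_lit 227)) (XT.nd (nat_lit 78) (nat_lit 532) (nat_lit 0) (XT.lf (nat_lit 0) (nat_lit 3660237286) (nat_lit 1216) (nat_lit 1283635412) (nat_lit 76) (nat_lit 3107363117) (nat_lit 170) (nat_lit 5) (nat_lit 186) (nat_lit 5) (nat_lit 171) (nat_lit 5) (nat_lit 291) (nat_lit 263) (nat_lit 226)) (XT.lf (nat_lit 0) (nat_lit 3265558284) (nat_lit 532) (nat_lit 2540849220) (nat_lit 608) (nat_lit 2348255236) (nat_lit 163) (nat_lit 5) (nat_lit 170) (nat_lit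 5) (nat_lit 171) (nat_lit 5) (nat_lit 292) (nat_lit 263) (nat_lit 225)))) (XT.nd (nat_lit 78) (nat_lit 1216) (nat_lit 0) (XT.lf (nat_lit 0) (nat_lit 7926172993) (nat_lit 532) (nat_lit 51200260) (nat_lit 608) (nat_lit 285094922) (nat_lit 163) (nat_lit 5) (nat_lit 170) (nat_lit 5) (nat_lit 171) (nat_lit 5) (nat_lit 293) (nat_lit 263) (nat_lit 224)) (XT.nd (nat_lit 78) (nat_lit 532) (nat_lit 0) (XT.lf (nat_lit 0) (nat_lit 1819204933) (nat_lit 684) (nat_lit 4028405090) (nat_lit 76) (nat_lit 2524995641) (nat_lit 154) (nat_lit 5) (nat_lit 163) (nat_lit 5) (nat_lit 155) (nat_lit 5) (nat_lit 294) (nat_lit 263) (nat_lit 223)) (XT.lf (nat_lit 0) (nat_lit 643165158) (nat_lit 532) (nat_lit 3297266388) (nat_lit 608) (nat_lit 4546825760) (nat_lit 147) (nat_lit 5) (nat_lit 154) (nat_lit 5) (nat_lit 155) (nat_lit 5) (nat_lit 295) (nat_lit 263) (nat_lit 222))))) (XT.nd (nat_lit 234) (nat_lit 988) (nat_lit 0)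 (XT.nd (nat_lit 78) (nat_lit 608) (nat_lit 0) (XT.lf (nat_lit 0) (nat_lit 5485889915) (nat_lit 532) (nat_lit 630470741) (nat_lit 608) (nat_lit 2489334071) (nat_lit 147) (nat_lit 5) (nat_lit 154) (nat_lit 5) (nat_lit 155) (nat_lit 5) (nat_lit 296) (nat_lit 263) (nat_lit 221)) (XT.nd (nat_lit 78) (nat_lit 76) (nat_lit 0) (XT.lf (nat_lit 0) (nat_lit 1707617882) (nat_lit 532) (nat_lit 6638521357) (nat_lit 608) (nat_lit 381964808) (nat_lit 140) (nat_lit 5) (nat_lit 147) (nat_lit 5) (nat_lit 148) (nat_lit 5) (nat_lit 297) (nat_lit 263) (nat_lit 220)) (XT.lf (nat_lit 0) (nat_lit 1743966887) (nat_lit 608) (nat_lit 2185261044) (nat_lit 76) (nat_lit 4924806162) (nat_lit 139) (nat_lit 5) (nat_lit 147) (nat_lit 5) (nat_lit 140) (nat_lit 5) (nat_lit 298) (nat_lit 263) (nat_lit 219)))) (XT.nd (nat_lit 156) (nat_lit 532) (nat_lit 0) (XT.nd (nat_lit 78) (nat_lit 0) (nat_lit 0) (XT.lf (nat_lit 0) (nat_lit 2795211660)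 (nat_lit 456) (nat_lit 1111235456) (nat_lit 532) (nat_lit 5077837520) (nat_lit 133) (nat_lit 5) (nat_lit 139) (nat_lit 5) (nat_lit 140) (nat_lit 5) (nat_lit 299) (nat_lit 263) (nat_lit 218)) (XT.lf (nat_lit 0) (nat_lit 6127711764) (nat_lit 532) (nat_lit 1216790625) (nat_lit 76) (nat_lit 1774190463) (nat_lit 133) (nat_lit 5) (nat_lit 140) (nat_lit 5) (nat_lit 134) (nat_lit 5) (nat_lit 300) (nat_lit 263) (nat_lit 217))) (XT.nd (nat_lit 78) (nat_lit 76) (nat_lit 0) (XT.lf (nat_lit 0) (nat_lit 3920187200) (nat_lit 456) (nat_lit 4499846345) (nat_lit 532) (nat_lit 837032685) (nat_lit 127) (nat_lit 5) (nat_lit 133) (nat_lit 5) (nat_lit 134) (nat_lit 5) (nat_lit 301) (nat_lit 263) (nat_lit 216)) (XT.lf (nat_lit 0) (nat_lit 1323039075) (nat_lit 532) (nat_lit 226820714) (nat_lit 76) (nat_lit 7850340441) (nat_lit 126) (nat_lit 5) (nat_lit 133) (nat_lit 5) (nat_lit 127) (nat_lit 5) (nat_lit 302) (nat_lit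 263) (nat_lit 215))))))) (XT.nd (nat_lit 1014) (nat_lit 1748) (nat_lit 0) (XT.nd (nat_lit 468) (nat_lit 1596) (nat_lit 0) (XT.nd (nat_lit 234) (nat_lit 836) (nat_lit 0) (XT.nd (nat_lit 78) (nat_lit 456) (nat_lit 0) (XT.lf (nat_lit 0) (nat_lit 3552055510) (nat_lit 532) (nat_lit 4483665481) (nat_lit 76) (nat_lit 1511089588) (nat_lit 120) (nat_lit 5) (nat_lit 127) (nat_lit 5) (nat_lit 121) (nat_lit 5) (nat_lit 303) (nat_lit 263) (nat_lit 214)) (XT.nd (nat_lit 78) (nat_lit 0) (nat_lit 0) (XT.lf (nat_lit 0) (nat_lit 768622253) (nat_lit 456) (nat_lit 5062415207) (nat_lit 532) (nat_lit 3867347116) (nat_lit 114) (nat_lit 5) (nat_lit 120) (nat_lit 5) (nat_lit 121) (nat_lit 5) (nat_lit 304) (nat_lit 263) (nat_lit 213)) (XT.lf (nat_lit 0) (nat_lit 6221159319) (nat_lit 456) (nat_lit 1961302732) (nat_lit 532) (nat_lit 1671978042) (nat_lit 114) (nat_lit 5) (nat_lit 120) (nat_lit 5) (nat_lit 121) (nat_lit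 5) (nat_lit 305) (nat_lit 263) (nat_lit 212)))) (XT.nd (nat_lit 78) (nat_lit 380) (nat_lit 0) (XT.lf (nat_lit 0) (nat_lit 566631688) (nat_lit 456) (nat_lit 8224795245) (nat_lit 76) (nat_lit 1223967325) (nat_lit 108) (nat_lit 5) (nat_lit 114) (nat_lit 5) (nat_lit 109) (nat_lit 5) (nat_lit 306) (nat_lit 263) (nat_lit 211)) (XT.nd (nat_lit 78) (nat_lit 380) (nat_lit 0) (XT.lf (nat_lit 0) (nat_lit 2855446906) (nat_lit 456) (nat_lit 2814079024) (nat_lit 76) (nat_lit 4510706622) (nat_lit 108) (nat_lit 5) (nat_lit 114) (nat_lit 5) (nat_lit 109) (nat_lit 5) (nat_lit 307) (nat_lit 263) (nat_lit 210)) (XT.lf (nat_lit 0) (nat_lit 2765010897) (nat_lit 380) (nat_lit 2435835620) (nat_lit 456) (nat_lit 5149582073) (nat_lit 103) (nat_lit 5) (nat_lit 108) (nat_lit 5) (nat_lit 109) (nat_lit 5) (nat_lit 308) (nat_lit 263) (nat_lit 209))))) (XT.nd (nat_lit 234) (nat_lit 1140) (nat_lit 0) (XT.nd (nat_lit 78) (nat_lit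 456) (nat_lit 0) (XT.lf (nat_lit 0) (nat_lit 7615828353) (nat_lit 456) (nat_lit 2013133065) (nat_lit 76) (nat_lit 896841218) (nat_lit 103) (nat_lit 5) (nat_lit 109) (nat_lit 5) (nat_lit 104) (nat_lit 5) (nat_lit 309) (nat_lit 263) (nat_lit 208)) (XT.nd (nat_lit 78) (nat_lit 76) (nat_lit 0) (XT.lf (nat_lit 0) (nat_lit 3727828724) (nat_lit 380) (nat_lit 6398411600) (nat_lit 456) (nat_lit 579555470) (nat_lit 98) (nat_lit 5) (nat_lit 103) (nat_lit 5) (nat_lit 104) (nat_lit 5) (nat_lit 310) (nat_lit 263) (nat_lit 207)) (XT.lf (nat_lit 0) (nat_lit 1769028779) (nat_lit 456) (nat_lit 1273427513) (nat_lit 76) (nat_lit 7848738498) (nat_lit 97) (nat_lit 5) (nat_lit 103) (nat_lit 5) (nat_lit 98) (nat_lit 5) (nat_lit 311) (nat_lit 263) (nat_lit 206)))) (XT.nd (nat_lit 156) (nat_lit 760) (nat_lit 0) (XT.nd (nat_lit 78) (nat_lit 0) (nat_lit 0) (XT.lf (nat_lit 0) (nat_lit 4189737657) (nat_lit 456) (nat_lit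 6445115904) (nat_lit 76) (nat_lit 446773878) (nat_lit 92) (nat_lit 5) (nat_lit 98) (nat_lit 5) (nat_lit 93) (nat_lit 5) (nat_lit 312) (nat_lit 263) (nat_lit 205)) (XT.lf (nat_lit 0) (nat_lit 6691000338) (nat_lit 456) (nat_lit 604376930) (nat_lit 76) (nat_lit 3982199862) (nat_lit 92) (nat_lit 5) (nat_lit 98) (nat_lit 5) (nat_lit 93) (nat_lit 5) (nat_lit 313) (nat_lit 263) (nat_lit 204))) (XT.nd (nat_lit 78) (nat_lit 456) (nat_lit 0) (XT.lf (nat_lit 0) (nat_lit 5473150373) (nat_lit 304) (nat_lit 3812609141) (nat_lit 380) (nat_lit 2193132851) (nat_lit 88) (nat_lit 5) (nat_lit 92) (nat_lit 5) (nat_lit 93) (nat_lit 5) (nat_lit 314) (nat_lit 263) (nat_lit 203)) (XT.lf (nat_lit 0) (nat_lit 11368775) (nat_lit 380) (nat_lit 227748544) (nat_lit 456) (nat_lit 11447920350) (nat_lit 82) (nat_lit 5) (nat_lit 87) (nat_lit 5) (nat_lit 88) (nat_lit 5) (nat_lit 315) (nat_lit 263) (nat_lit 202)))))) (XT.nd (nat_lit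 468) (nat_lit 836) (nat_lit 0) (XT.nd (nat_lit 234) (nat_lit 608) (nat_lit 0) (XT.nd (nat_lit 78) (nat_lit 304) (nat_lit 0) (XT.lf (nat_lit 0) (nat_lit 2761290342) (nat_lit 456) (nat_lit 5669109183) (nat_lit 76) (nat_lit 3468582677) (nat_lit 82) (nat_lit 5) (nat_lit 88) (nat_lit 5) (nat_lit 83) (nat_lit 5) (nat_lit 316) (nat_lit 263) (nat_lit 201)) (XT.nd (nat_lit 78) (nat_lit 0) (nat_lit 0) (XT.lf (nat_lit 0) (nat_lit 480113683) (nat_lit 304) (nat_lit 4853345204) (nat_lit 380) (nat_lit 6784632537) (nat_lit 78) (nat_lit 5) (nat_lit 82) (nat_lit 5) (nat_lit 83) (nat_lit 5) (nat_lit 317) (nat_lit 263) (nat_lit 200)) (XT.lf (nat_lit 0) (nat_lit 6885814690) (nat_lit 304) (nat_lit 1122207723) (nat_lit 380) (nat_lit 4335029816) (nat_lit 78) (nat_lit 5) (nat_lit 82) (nat_lit 5) (nat_lit 83) (nat_lit 5) (nat_lit 318) (nat_lit 263) (nat_lit 199)))) (XT.nd (nat_lit 78) (nat_lit 304) (nat_lit 0) (XT.lf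 (nat_lit 0) (nat_lit 855692924) (nat_lit 304) (nat_lit 9910311754) (nat_lit 380) (nat_lit 1808695905) (nat_lit 74) (nat_lit 5) (nat_lit 78) (nat_lit 5) (nat_lit 79) (nat_lit 5) (nat_lit 319) (nat_lit 263) (nat_lit 198)) (XT.nd (nat_lit 78) (nat_lit 228) (nat_lit 0) (XT.lf (nat_lit 0) (nat_lit 813666609) (nat_lit 380) (nat_lit 5405045195) (nat_lit 76) (nat_lit 6593318356) (nat_lit 73) (nat_lit 5) (nat_lit 78) (nat_lit 5) (nat_lit 74) (nat_lit 5) (nat_lit 320) (nat_lit 263) (nat_lit 197)) (XT.lf (nat_lit 0) (nat_lit 1058366384) (nat_lit 228) (nat_lit 2400015683) (nat_lit 304) (nat_lit 9598190550) (nat_lit 70) (nat_lit 5) (nat_lit 73) (nat_lit 5) (nat_lit 74) (nat_lit 5) (nat_lit 321) (nat_lit 263) (nat_lit 196))))) (XT.nd (nat_lit 234) (nat_lit 532) (nat_lit 0) (XT.nd (nat_lit 78) (nat_lit 304) (nat_lit 0) (XT.lf (nat_lit 0) (nat_lit 6222509461) (nat_lit 304) (nat_lit 5538708997) (nat_lit 76)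 (nat_lit 1546061143) (nat_lit 70) (nat_lit 5) (nat_lit 74) (nat_lit 5) (nat_lit 71) (nat_lit 5) (nat_lit 322) (nat_lit 263) (nat_lit 195)) (XT.nd (nat_lit 78) (nat_lit 0) (nat_lit 0) (XT.lf (nat_lit 0) (nat_lit 1069847744) (nat_lit 304) (nat_lit 8004838388) (nat_lit 380) (nat_lit 4490697384) (nat_lit 66) (nat_lit 5) (nat_lit 70) (nat_lit 5) (nat_lit 71) (nat_lit 5) (nat_lit 323) (nat_lit 263) (nat_lit 194)) (XT.lf (nat_lit 0) (nat_lit 7948770020) (nat_lit 304) (nat_lit 4091111195) (nat_lit 380) (nat_lit 1790554363) (nat_lit 66) (nat_lit 5) (nat_lit 70) (nat_lit 5) (nat_lit 71) (nat_lit 5) (nat_lit 324) (nat_lit 263) (nat_lit 193)))) (XT.nd (nat_lit 156) (nat_lit 228) (nat_lit 0) (XT.nd (nat_lit 78) (nat_lit 0) (nat_lit 0) (XT.lf (nat_lit 0) (nat_lit 897812321) (nat_lit 228) (nat_lit 54132364) (nat_lit 304) (nat_lit 13151815382) (nat_lit 62) (nat_lit 5) (nat_lit 65) (nat_lit 5) (nat_lit 66) (nat_lit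 5) (nat_lit 325) (nat_lit 263) (nat_lit 192)) (XT.lf (nat_lit 0) (nat_lit 3812514655) (nat_lit 304) (nat_lit 6481159420) (nat_lit 76) (nat_lit 4088951033) (nat_lit 62) (nat_lit 5) (nat_lit 66) (nat_lit 5) (nat_lit 63) (nat_lit 5) (nat_lit 326) (nat_lit 263) (nat_lit 191))) (XT.nd (nat_lit 78) (nat_lit 0) (nat_lit 0) (XT.lf (nat_lit 0) (nat_lit 412959189) (nat_lit 228) (nat_lit 6323606606) (nat_lit 304) (nat_lit 7933985816) (nat_lit 59) (nat_lit 5) (nat_lit 62) (nat_lit 5) (nat_lit 63) (nat_lit 5) (nat_lit 327) (nat_lit 263) (nat_lit 190)) (XT.lf (nat_lit 0) (nat_lit 7607214573) (nat_lit 228) (nat_lit 2180131056) (nat_lit 304) (nat_lit 5178624758) (nat_lit 59) (nat_lit 5) (nat_lit 62) (nat_lit 5) (nat_lit 63) (nat_lit 5) (nat_lit 328) (nat_lit 263) (nat_lit 189))))))))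
noncomputable def xc115 : XT := (XT.nd (nat_lit 2028) (nat_lit 1064) (nat_lit 0) (XT.nd (nat_lit 1014) (nat_lit 912) (nat_lit 0) (XT.nd (nat_lit 468) (nat_lit 760) (nat_lit 0) (XT.nd (nat_lit 234) (nat_lit 380) (nat_lit 0) (XT.nd (nat_lit 78) (nat_lit 304) (nat_lit 0) (XT.lf (nat_lit 0) (nat_lit 12923924570) (nat_lit 304) (nat_lit 312086057) (nat_lit 76) (nat_lit 2034436802) (nat_lit 59) (nat_lit 5) (nat_lit 63) (nat_lit 5) (nat_lit 60) (nat_lit 5) (nat_lit 329) (nat_lit 263) (nat_lit 188)) (XT.nd (nat_lit 78) (nat_lit 0) (nat_lit 0) (XT.lf (nat_lit 0) (nat_lit 624079256) (nat_lit 304) (nat_lit 8564752477) (nat_lit 76) (nat_lit 6393144998) (nat_lit 55) (nat_lit 5) (nat_lit 59) (nat_lit 5) (nat_lit 56) (nat_lit 5) (nat_lit 330) (nat_lit 263) (nat_lit 187)) (XT.lf (nat_lit 0) (nat_lit 3614880396) (nat_lit 304) (nat_lit 1391282982) (nat_lit 76) (nat_lit 10896666175) (nat_lit 55) (nat_lit 5) (nat_lit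 59) (nat_lit 5) (nat_lit 56) (nat_lit 5) (nat_lit 331) (nat_lit 263) (nat_lit 186)))) (XT.nd (nat_lit 78) (nat_lit 152) (nat_lit 0) (XT.lf (nat_lit 0) (nat_lit 6079050848) (nat_lit 228) (nat_lit 650577739) (nat_lit 304) (nat_lit 9502673980) (nat_lit 52) (nat_lit 5) (nat_lit 55) (nat_lit 5) (nat_lit 56) (nat_lit 5) (nat_lit 332) (nat_lit 263) (nat_lit 185)) (XT.nd (nat_lit 78) (nat_lit 152) (nat_lit 0) (XT.lf (nat_lit 0) (nat_lit 9964896774) (nat_lit 304) (nat_lit 2843449126) (nat_lit 76) (nat_lit 3762522225) (nat_lit 52) (nat_lit 5) (nat_lit 56) (nat_lit 5) (nat_lit 53) (nat_lit 5) (nat_lit 333) (nat_lit 263) (nat_lit 184)) (XT.lf (nat_lit 0) (nat_lit 4735480914) (nat_lit 152) (nat_lit 8590420648) (nat_lit 228) (nat_lit 3592848809) (nat_lit 50) (nat_lit 5) (nat_lit 52) (nat_lit 5) (nat_lit 53) (nat_lit 5) (nat_lit 334) (nat_lit 263) (nat_lit 183))))) (XT.nd (nat_lit 234) (nat_lit 456) (nat_lit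 0) (XT.nd (nat_lit 78) (nat_lit 304) (nat_lit 0) (XT.lf (nat_lit 0) (nat_lit 12564289451) (nat_lit 152) (nat_lit 4229211392) (nat_lit 228) (nat_lit 483414802) (nat_lit 50) (nat_lit 5) (nat_lit 52) (nat_lit 5) (nat_lit 53) (nat_lit 5) (nat_lit 335) (nat_lit 263) (nat_lit 182)) (XT.nd (nat_lit 78) (nat_lit 0) (nat_lit 0) (XT.lf (nat_lit 0) (nat_lit 2675301376) (nat_lit 304) (nat_lit 14668899043) (nat_lit 76) (nat_lit 300587767) (nat_lit 46) (nat_lit 5) (nat_lit 50) (nat_lit 5) (nat_lit 47) (nat_lit 5) (nat_lit 336) (nat_lit 263) (nat_lit 181)) (XT.lf (nat_lit 0) (nat_lit 5986675240) (nat_lit 304) (nat_lit 7113154769) (nat_lit 76) (nat_lit 4921712775) (nat_lit 46) (nat_lit 5) (nat_lit 50) (nat_lit 5) (nat_lit 47) (nat_lit 5) (nat_lit 337) (nat_lit 263) (nat_lit 180)))) (XT.nd (nat_lit 156) (nat_lit 304) (nat_lit 0) (XT.nd (nat_lit 78) (nat_lit 0) (nat_lit 0) (XT.lf (nat_lit 0) (nat_lit 647509862)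 (nat_lit 152) (nat_lit 8734434350) (nat_lit 228) (nat_lit 9028136508) (nat_lit 44) (nat_lit 5) (nat_lit 46) (nat_lit 5) (nat_lit 47) (nat_lit 5) (nat_lit 338) (nat_lit 263) (nat_lit 179)) (XT.lf (nat_lit 0) (nat_lit 8752757044) (nat_lit 152) (nat_lit 4176776626) (nat_lit 228) (nat_lit 5879244068) (nat_lit 44) (nat_lit 5) (nat_lit 46) (nat_lit 5) (nat_lit 47) (nat_lit 5) (nat_lit 339) (nat_lit 263) (nat_lit 178))) (XT.nd (nat_lit 78) (nat_lit 304) (nat_lit 0) (XT.lf (nat_lit 0) (nat_lit 16567663856) (nat_lit 228) (nat_lit 2156828235) (nat_lit 76) (nat_lit 495436508) (nat_lit 44) (nat_lit 5) (nat_lit 47) (nat_lit 5) (nat_lit 45) (nat_lit 5) (nat_lit 340) (nat_lit 263) (nat_lit 177)) (XT.lf (nat_lit 0) (nat_lit 738181958) (nat_lit 304) (nat_lit 13625383136) (nat_lit 76) (nat_lit 5277277770) (nat_lit 40) (nat_lit 5) (nat_lit 44) (nat_lit 5) (nat_lit 41) (nat_lit 5) (nat_lit 341) (nat_lit 263) (nat_lit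 176)))))) (XT.nd (nat_lit 468) (nat_lit 532) (nat_lit 0) (XT.nd (nat_lit 234) (nat_lit 228) (nat_lit 0) (XT.nd (nat_lit 78) (nat_lit 152) (nat_lit 0) (XT.lf (nat_lit 0) (nat_lit 4178841425) (nat_lit 304) (nat_lit 5655775367) (nat_lit 76) (nat_lit 10238940686) (nat_lit 40) (nat_lit 5) (nat_lit 44) (nat_lit 5) (nat_lit 41) (nat_lit 5) (nat_lit 342) (nat_lit 263) (nat_lit 175)) (XT.nd (nat_lit 78) (nat_lit 0) (nat_lit 0) (XT.lf (nat_lit 0) (nat_lit 2571351619) (nat_lit 152) (nat_lit 5156486346) (nat_lit 228) (nat_lit 12791276550) (nat_lit 38) (nat_lit 5) (nat_lit 40) (nat_lit 5) (nat_lit 41) (nat_lit 5) (nat_lit 343) (nat_lit 263) (nat_lit 174)) (XT.lf (nat_lit 0) (nat_lit 11129796146) (nat_lit 152) (nat_lit 291289095) (nat_lit 228) (nat_lit 9555833678) (nat_lit 38) (nat_lit 5) (nat_lit 40) (nat_lit 5) (nat_lit 41) (nat_lit 5) (nat_lit 344) (nat_lit 263) (nat_lit 173)))) (XT.nd (nat_lit 78) (nat_lit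 228) (nat_lit 0) (XT.lf (nat_lit 0) (nat_lit 15251618856) (nat_lit 228) (nat_lit 1579816003) (nat_lit 76) (nat_lit 4616241602) (nat_lit 38) (nat_lit 5) (nat_lit 41) (nat_lit 5) (nat_lit 39) (nat_lit 5) (nat_lit 345) (nat_lit 263) (nat_lit 172)) (XT.nd (nat_lit 78) (nat_lit 76) (nat_lit 0) (XT.lf (nat_lit 0) (nat_lit 7039920184) (nat_lit 152) (nat_lit 12209373004) (nat_lit 228) (nat_lit 2681710072) (nat_lit 36) (nat_lit 5) (nat_lit 38) (nat_lit 5) (nat_lit 39) (nat_lit 5) (nat_lit 346) (nat_lit 263) (nat_lit 171)) (XT.lf (nat_lit 0) (nat_lit 917598366) (nat_lit 228) (nat_lit 6517054632) (nat_lit 76) (nat_lit 14993983791) (nat_lit 35) (nat_lit 5) (nat_lit 38) (nat_lit 5) (nat_lit 36) (nat_lit 5) (nat_lit 347) (nat_lit 263) (nat_lit 170))))) (XT.nd (nat_lit 234) (nat_lit 380) (nat_lit 0) (XT.nd (nat_lit 78) (nat_lit 0) (nat_lit 0) (XT.lf (nat_lit 0) (nat_lit 2093206295) (nat_lit 152) (nat_lit 2480158087)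 (nat_lit 228) (nat_lit 18366979199) (nat_lit 33) (nat_lit 5) (nat_lit 35) (nat_lit 5) (nat_lit 36) (nat_lit 5) (nat_lit 348) (nat_lit 263) (nat_lit 169)) (XT.nd (nat_lit 78) (nat_lit 0) (nat_lit 0) (XT.lf (nat_lit 0) (nat_lit 8412862514) (nat_lit 228) (nat_lit 12425346384) (nat_lit 76) (nat_lit 2626982699) (nat_lit 33) (nat_lit 5) (nat_lit 36) (nat_lit 5) (nat_lit 34) (nat_lit 5) (nat_lit 349) (nat_lit 263) (nat_lit 168)) (XT.lf (nat_lit 0) (nat_lit 12374999157) (nat_lit 228) (nat_lit 3804023002) (nat_lit 76) (nat_lit 7826550737) (nat_lit 33) (nat_lit 5) (nat_lit 36) (nat_lit 5) (nat_lit 34) (nat_lit 5) (nat_lit 350) (nat_lit 263) (nat_lit 167)))) (XT.nd (nat_lit 156) (nat_lit 228) (nat_lit 0) (XT.nd (nat_lit 78) (nat_lit 0) (nat_lit 0) (XT.lf (nat_lit 0) (nat_lit 5148676065) (nat_lit 152) (nat_lit 11340211735) (nat_lit 228) (nat_lit 8072302313) (nat_lit 31) (nat_lit 5) (nat_lit 33) (nat_lit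 5) (nat_lit 34) (nat_lit 5) (nat_lit 351) (nat_lit 263) (nat_lit 166)) (XT.lf (nat_lit 0) (nat_lit 14420473512) (nat_lit 152) (nat_lit 6327748088) (nat_lit 228) (nat_lit 4384604185) (nat_lit 31) (nat_lit 5) (nat_lit 33) (nat_lit 5) (nat_lit 34) (nat_lit 5) (nat_lit 352) (nat_lit 263) (nat_lit 165))) (XT.nd (nat_lit 78) (nat_lit 228) (nat_lit 0) (XT.lf (nat_lit 0) (nat_lit 23943763391) (nat_lit 152) (nat_lit 1175664568) (nat_lit 228) (nat_lit 602670269) (nat_lit 31) (nat_lit 5) (nat_lit 33) (nat_lit 5) (nat_lit 34) (nat_lit 5) (nat_lit 353) (nat_lit 263) (nat_lit 164)) (XT.lf (nat_lit 0) (nat_lit 3325711982) (nat_lit 228) (nat_lit 18854606158) (nat_lit 76) (nat_lit 4144873735) (nat_lit 28) (nat_lit 5) (nat_lit 31) (nat_lit 5) (nat_lit 29) (nat_lit 5) (nat_lit 354) (nat_lit 263) (nat_lit 163))))))) (XT.nd (nat_lit 1014) (nat_lit 532) (nat_lit 0) (XT.nd (nat_lit 468) (nat_lit 304) (nat_lit 0) (XT.nd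 (nat_lit 234) (nat_lit 76) (nat_lit 0) (XT.nd (nat_lit 78) (nat_lit 152) (nat_lit 0) (XT.lf (nat_lit 0) (nat_lit 7374105107) (nat_lit 228) (nat_lit 9956515444) (nat_lit 76) (nat_lit 9615160186) (nat_lit 28) (nat_lit 5) (nat_lit 31) (nat_lit 5) (nat_lit 29) (nat_lit 5) (nat_lit 355) (nat_lit 263) (nat_lit 162)) (XT.nd (nat_lit 78) (nat_lit 152) (nat_lit 0) (XT.lf (nat_lit 0) (nat_lit 11528898319) (nat_lit 228) (nat_lit 817034220) (nat_lit 76) (nat_lit 15239515585) (nat_lit 28) (nat_lit 5) (nat_lit 31) (nat_lit 5) (nat_lit 29) (nat_lit 5) (nat_lit 356) (nat_lit 263) (nat_lit 161)) (XT.lf (nat_lit 0) (nat_lit 8742419563) (nat_lit 152) (nat_lit 7135339944) (nat_lit 228) (nat_lit 12364472340) (nat_lit 26) (nat_lit 5) (nat_lit 28) (nat_lit 5) (nat_lit 29) (nat_lit 5) (nat_lit 357) (nat_lit 263) (nat_lit 160)))) (XT.nd (nat_lit 78) (nat_lit 76) (nat_lit 0) (XT.lf (nat_lit 0) (nat_lit 18580840603) (nat_lit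 152) (nat_lit 1770072564) (nat_lit 228) (nat_lit 8567999890) (nat_lit 26) (nat_lit 5) (nat_lit 28) (nat_lit 5) (nat_lit 29) (nat_lit 5) (nat_lit 358) (nat_lit 263) (nat_lit 159)) (XT.nd (nat_lit 78) (nat_lit 76) (nat_lit 0) (XT.lf (nat_lit 0) (nat_lit 24980269537) (nat_lit 228) (nat_lit 961770136) (nat_lit 76) (nat_lit 3673203307) (nat_lit 26) (nat_lit 5) (nat_lit 29) (nat_lit 5) (nat_lit 27) (nat_lit 4) (nat_lit 359) (nat_lit 263) (nat_lit 158)) (XT.lf (nat_lit 0) (nat_lit 8827064706) (nat_lit 76) (nat_lit 21010130801) (nat_lit 152) (nat_lit 492614897) (nat_lit 25) (nat_lit 5) (nat_lit 26) (nat_lit 5) (nat_lit 27) (nat_lit 4) (nat_lit 360) (nat_lit 263) (nat_lit 157))))) (XT.nd (nat_lit 234) (nat_lit 76) (nat_lit 0) (XT.nd (nat_lit 78) (nat_lit 152) (nat_lit 0) (XT.lf (nat_lit 0) (nat_lit 3696523762) (nat_lit 152) (nat_lit 12196146103) (nat_lit 76) (nat_lit 15172179820) (nat_lit 24) (nat_lit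 5) (nat_lit 26) (nat_lit 5) (nat_lit 25) (nat_lit 5) (nat_lit 361) (nat_lit 263) (nat_lit 156)) (XT.nd (nat_lit 78) (nat_lit 152) (nat_lit 0) (XT.lf (nat_lit 0) (nat_lit 7988179027) (nat_lit 152) (nat_lit 2638068863) (nat_lit 76) (nat_lit 21195951197) (nat_lit 24) (nat_lit 5) (nat_lit 26) (nat_lit 5) (nat_lit 25) (nat_lit 5) (nat_lit 362) (nat_lit 263) (nat_lit 155)) (XT.lf (nat_lit 0) (nat_lit 7327560146) (nat_lit 152) (nat_lit 5138590423) (nat_lit 228) (nat_lit 20134398754) (nat_lit 22) (nat_lit 5) (nat_lit 24) (nat_lit 5) (nat_lit 25) (nat_lit 5) (nat_lit 363) (nat_lit 263) (nat_lit 154)))) (XT.nd (nat_lit 156) (nat_lit 76) (nat_lit 0) (XT.nd (nat_lit 78) (nat_lit 0) (nat_lit 0) (XT.lf (nat_lit 0) (nat_lit 17097506749) (nat_lit 228) (nat_lit 15782676350) (nat_lit 76) (nat_lit 521502736) (nat_lit 22) (nat_lit 5) (nat_lit 25) (nat_lit 5) (nat_lit 23) (nat_lit 4) (nat_lit 364) (nat_lit 263)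 (nat_lit 153)) (XT.lf (nat_lit 0) (nat_lit 21906257880) (nat_lit 228) (nat_lit 6080142525) (nat_lit 76) (nat_lit 6239309336) (nat_lit 22) (nat_lit 5) (nat_lit 25) (nat_lit 5) (nat_lit 23) (nat_lit 4) (nat_lit 365) (nat_lit 263) (nat_lit 152))) (XT.nd (nat_lit 78) (nat_lit 0) (nat_lit 0) (XT.lf (nat_lit 0) (nat_lit 3969953606) (nat_lit 76) (nat_lit 22915418525) (nat_lit 152) (nat_lit 8188305943) (nat_lit 21) (nat_lit 5) (nat_lit 22) (nat_lit 5) (nat_lit 23) (nat_lit 4) (nat_lit 366) (nat_lit 263) (nat_lit 151)) (XT.lf (nat_lit 0) (nat_lit 14425413487) (nat_lit 76) (nat_lit 17637934384) (nat_lit 152) (nat_lit 3882259472) (nat_lit 21) (nat_lit 5) (nat_lit 22) (nat_lit 5) (nat_lit 23) (nat_lit 4) (nat_lit 367) (nat_lit 263) (nat_lit 150)))))) (XT.nd (nat_lit 546) (nat_lit 228) (nat_lit 0) (XT.nd (nat_lit 234) (nat_lit 76) (nat_lit 0) (XT.nd (nat_lit 78) (nat_lit 152) (nat_lit 0) (XT.lf (nat_lit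 0) (nat_lit 530494710) (nat_lit 152) (nat_lit 11674882441) (nat_lit 76) (nat_lit 24638514529) (nat_lit 20) (nat_lit 5) (nat_lit 22) (nat_lit 5) (nat_lit 21) (nat_lit 5) (nat_lit 368) (nat_lit 263) (nat_lit 149)) (XT.nd (nat_lit 78) (nat_lit 152) (nat_lit 0) (XT.lf (nat_lit 0) (nat_lit 4986258961) (nat_lit 152) (nat_lit 1592465082) (nat_lit 76) (nat_lit 31189593623) (nat_lit 20) (nat_lit 5) (nat_lit 22) (nat_lit 5) (nat_lit 21) (nat_lit 5) (nat_lit 369) (nat_lit 263) (nat_lit 148)) (XT.lf (nat_lit 0) (nat_lit 8947790370) (nat_lit 152) (nat_lit 702904796) (nat_lit 228) (nat_lit 29067537096) (nat_lit 18) (nat_lit 5) (nat_lit 20) (nat_lit 5) (nat_lit 21) (nat_lit 5) (nat_lit 370) (nat_lit 263) (nat_lit 147)))) (XT.nd (nat_lit 156) (nat_lit 76) (nat_lit 0) (XT.nd (nat_lit 78) (nat_lit 0) (nat_lit 0) (XT.lf (nat_lit 0) (nat_lit 14511770580) (nat_lit 228) (nat_lit 19930146047) (nat_lit 76) (nat_lit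 5253032117) (nat_lit 18) (nat_lit 5) (nat_lit 21) (nat_lit 5) (nat_lit 19) (nat_lit 4) (nat_lit 371) (nat_lit 263) (nat_lit 146)) (XT.lf (nat_lit 0) (nat_lit 19515003200) (nat_lit 228) (nat_lit 9820341305) (nat_lit 76) (nat_lit 11365737936) (nat_lit 18) (nat_lit 5) (nat_lit 21) (nat_lit 5) (nat_lit 19) (nat_lit 4) (nat_lit 372) (nat_lit 263) (nat_lit 145))) (XT.nd (nat_lit 78) (nat_lit 0) (nat_lit 0) (XT.lf (nat_lit 0) (nat_lit 585997822) (nat_lit 76) (nat_lit 24077643178) (nat_lit 152) (nat_lit 17073905212) (nat_lit 17) (nat_lit 5) (nat_lit 18) (nat_lit 5) (nat_lit 19) (nat_lit 4) (nat_lit 373) (nat_lit 263) (nat_lit 144)) (XT.lf (nat_lit 0) (nat_lit 11487818187) (nat_lit 76) (nat_lit 18567888709) (nat_lit 152) (nat_lit 12746733085) (nat_lit 17) (nat_lit 5) (nat_lit 18) (nat_lit 5) (nat_lit 19) (nat_lit 4) (nat_lit 374) (nat_lit 263) (nat_lit 143))))) (XT.nd (nat_lit 234) (nat_lit 152) (nat_lit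 0) (XT.nd (nat_lit 78) (nat_lit 76) (nat_lit 0) (XT.lf (nat_lit 0) (nat_lit 22699201605) (nat_lit 76) (nat_lit 12900432943) (nat_lit 152) (nat_lit 8299948028) (nat_lit 17) (nat_lit 5) (nat_lit 18) (nat_lit 5) (nat_lit 19) (nat_lit 4) (nat_lit 375) (nat_lit 263) (nat_lit 142)) (XT.nd (nat_lit 78) (nat_lit 76) (nat_lit 0) (XT.lf (nat_lit 0) (nat_lit 34229944429) (nat_lit 76) (nat_lit 7070323732) (nat_lit 152) (nat_lit 3729664500) (nat_lit 17) (nat_lit 5) (nat_lit 18) (nat_lit 5) (nat_lit 19) (nat_lit 4) (nat_lit 376) (nat_lit 263) (nat_lit 141)) (XT.lf (nat_lit 0) (nat_lit 949219617) (nat_lit 152) (nat_lit 113661933) (nat_lit 76) (nat_lit 45131317193) (nat_lit 16) (nat_lit 5) (nat_lit 18) (nat_lit 5) (nat_lit 17) (nat_lit 5) (nat_lit 377) (nat_lit 263) (nat_lit 140)))) (XT.nd (nat_lit 156) (nat_lit 0) (nat_lit 0) (XT.nd (nat_lit 78) (nat_lit 0) (nat_lit 0) (XT.lf (nat_lit 0) (nat_lit 5841241949)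 (nat_lit 228) (nat_lit 36384115735) (nat_lit 76) (nat_lit 5162499720) (nat_lit 14) (nat_lit 5) (nat_lit 17) (nat_lit 5) (nat_lit 15) (nat_lit 4) (nat_lit 378) (nat_lit 263) (nat_lit 139)) (XT.lf (nat_lit 0) (nat_lit 10882598623) (nat_lit 228) (nat_lit 26187072469) (nat_lit 76) (nat_lit 11547581839) (nat_lit 14) (nat_lit 5) (nat_lit 17) (nat_lit 5) (nat_lit 15) (nat_lit 4) (nat_lit 379) (nat_lit 263) (nat_lit 138))) (XT.nd (nat_lit 78) (nat_lit 0) (nat_lit 0) (XT.lf (nat_lit 0) (nat_lit 16066352276) (nat_lit 228) (nat_lit 15699888267) (nat_lit 76) (nat_lit 18117559285) (nat_lit 14) (nat_lit 5) (nat_lit 17) (nat_lit 5) (nat_lit 15) (nat_lit 4) (nat_lit 380) (nat_lit 263) (nat_lit 137)) (XT.lf (nat_lit 0) (nat_lit 21397032399) (nat_lit 228) (nat_lit 4913399569) (nat_lit 76) (nat_lit 24878172816) (nat_lit 14) (nat_lit 5) (nat_lit 17) (nat_lit 5) (nat_lit 15) (nat_lit 4) (nat_lit 381) (nat_lit 263)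 (nat_lit 136))))))))
noncomputable def xc116 : XT := (XT.nd (nat_lit 31434) (nat_lit 0) (nat_lit 13528) (XT.nd (nat_lit 1014) (nat_lit 228) (nat_lit 0) (XT.nd (nat_lit 468) (nat_lit 152) (nat_lit 0) (XT.nd (nat_lit 234) (nat_lit 76) (nat_lit 0) (XT.nd (nat_lit 78) (nat_lit 0) (nat_lit 0) (XT.lf (nat_lit 0) (nat_lit 6304849024) (nat_lit 76) (nat_lit 20635053912) (nat_lit 152) (nat_lit 25591086804) (nat_lit 13) (nat_lit 5) (nat_lit 14) (nat_lit 5) (nat_lit 15) (nat_lit 4) (nat_lit 382) (nat_lit 263) (nat_lit 135)) (XT.nd (nat_lit 78) (nat_lit 0) (nat_lit 0) (XT.lf (nat_lit 0) (nat_lit 17945645608) (nat_lit 76) (nat_lit 14744794932) (nat_lit 152) (nat_lit 21221968110) (nat_lit 13) (nat_lit 5) (nat_lit 14) (nat_lit 5) (nat_lit 15) (nat_lit 4) (nat_lit 383) (nat_lit 263) (nat_lit 134)) (XT.lf (nat_lit 0) (nat_lit 29921375466) (nat_lit 76) (nat_lit 8684123903) (nat_lit 152) (nat_lit 16730014329) (nat_lit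 13) (nat_lit 5) (nat_lit 14) (nat_lit 5) (nat_lit 15) (nat_lit 4) (nat_lit 384) (nat_lit 263) (nat_lit 133)))) (XT.nd (nat_lit 78) (nat_lit 76) (nat_lit 0) (XT.lf (nat_lit 0) (nat_lit 42242502828) (nat_lit 76) (nat_lit 2447745094) (nat_lit 152) (nat_lit 12111300453) (nat_lit 13) (nat_lit 5) (nat_lit 14) (nat_lit 5) (nat_lit 15) (nat_lit 4) (nat_lit 385) (nat_lit 263) (nat_lit 132)) (XT.nd (nat_lit 78) (nat_lit 76) (nat_lit 0) (XT.lf (nat_lit 0) (nat_lit 50988163026) (nat_lit 152) (nat_lit 3430160011) (nat_lit 0) (nat_lit 3892325842) (nat_lit 13) (nat_lit 5) (nat_lit 15) (nat_lit 4) (nat_lit 13) (nat_lit 4) (nat_lit 386) (nat_lit 263) (nat_lit 131)) (XT.lf (nat_lit 0) (nat_lit 8154229923) (nat_lit 76) (nat_lit 49416032355) (nat_lit 76) (nat_lit 2291906129) (nat_lit 12) (nat_lit 4) (nat_lit 13) (nat_lit 5) (nat_lit 13) (nat_lit 4) (nat_lit 387) (nat_lit 263) (nat_lit 130))))) (XT.nd (nat_lit 234)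 (nat_lit 76) (nat_lit 0) (XT.nd (nat_lit 78) (nat_lit 0) (nat_lit 0) (XT.lf (nat_lit 0) (nat_lit 2860826931) (nat_lit 152) (nat_lit 41344112643) (nat_lit 76) (nat_lit 17253635192) (nat_lit 11) (nat_lit 5) (nat_lit 13) (nat_lit 5) (nat_lit 12) (nat_lit 4) (nat_lit 388) (nat_lit 263) (nat_lit 129)) (XT.nd (nat_lit 78) (nat_lit 0) (nat_lit 0) (XT.lf (nat_lit 0) (nat_lit 8114932700) (nat_lit 152) (nat_lit 30704943068) (nat_lit 76) (nat_lit 24282534232) (nat_lit 11) (nat_lit 5) (nat_lit 13) (nat_lit 5) (nat_lit 12) (nat_lit 4) (nat_lit 389) (nat_lit 263) (nat_lit 128)) (XT.lf (nat_lit 0) (nat_lit 13519725486) (nat_lit 152) (nat_lit 19759102193) (nat_lit 76) (nat_lit 31516943723) (nat_lit 11) (nat_lit 5) (nat_lit 13) (nat_lit 5) (nat_lit 12) (nat_lit 4) (nat_lit 390) (nat_lit 263) (nat_lit 127)))) (XT.nd (nat_lit 156) (nat_lit 0) (nat_lit 0) (XT.nd (nat_lit 78) (nat_lit 76) (nat_lit 0) (XT.lf (nat_lit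 0) (nat_lit 19079927923) (nat_lit 152) (nat_lit 8497025692) (nat_lit 76) (nat_lit 38963184994) (nat_lit 11) (nat_lit 5) (nat_lit 13) (nat_lit 5) (nat_lit 12) (nat_lit 4) (nat_lit 391) (nat_lit 263) (nat_lit 126)) (XT.lf (nat_lit 0) (nat_lit 3152646574) (nat_lit 76) (nat_lit 21678057035) (nat_lit 152) (nat_lit 43505423064) (nat_lit 10) (nat_lit 5) (nat_lit 11) (nat_lit 5) (nat_lit 12) (nat_lit 4) (nat_lit 392) (nat_lit 263) (nat_lit 125))) (XT.nd (nat_lit 78) (nat_lit 0) (nat_lit 0) (XT.lf (nat_lit 0) (nat_lit 15314319235) (nat_lit 76) (nat_lit 15519026881) (nat_lit 152) (nat_lit 39350270726) (nat_lit 10) (nat_lit 5) (nat_lit 11) (nat_lit 5) (nat_lit 12) (nat_lit 4) (nat_lit 393) (nat_lit 263) (nat_lit 124)) (XT.lf (nat_lit 0) (nat_lit 27829511523) (nat_lit 76) (nat_lit 9180284774) (nat_lit 152) (nat_lit 35076926257) (nat_lit 10) (nat_lit 5) (nat_lit 11) (nat_lit 5) (nat_lit 12) (nat_lit 4) (nat_lit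 394) (nat_lit 263) (nat_lit 123)))))) (XT.nd (nat_lit 468) (nat_lit 152) (nat_lit 0) (XT.nd (nat_lit 234) (nat_lit 76) (nat_lit 0) (XT.nd (nat_lit 78) (nat_lit 0) (nat_lit 0) (XT.lf (nat_lit 0) (nat_lit 40709159042) (nat_lit 76) (nat_lit 2656292009) (nat_lit 152) (nat_lit 30681655667) (nat_lit 10) (nat_lit 5) (nat_lit 11) (nat_lit 5) (nat_lit 12) (nat_lit 4) (nat_lit 395) (nat_lit 263) (nat_lit 122)) (XT.nd (nat_lit 78) (nat_lit 0) (nat_lit 0) (XT.lf (nat_lit 0) (nat_lit 49944878108) (nat_lit 152) (nat_lit 22140980682) (nat_lit 0) (nat_lit 3979453072) (nat_lit 10) (nat_lit 5) (nat_lit 12) (nat_lit 4) (nat_lit 10) (nat_lit 4) (nat_lit 396) (nat_lit 263) (nat_lit 121)) (XT.lf (nat_lit 0) (nat_lit 56742203991) (nat_lit 152) (nat_lit 10644903800) (nat_lit 0) (nat_lit 10756342350) (nat_lit 10) (nat_lit 5) (nat_lit 12) (nat_lit 4) (nat_lit 10) (nat_lit 4) (nat_lit 397) (nat_lit 263) (nat_lit 120))))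 (XT.nd (nat_lit 78) (nat_lit 0) (nat_lit 0) (XT.lf (nat_lit 0) (nat_lit 1209462965) (nat_lit 76) (nat_lit 62539997341) (nat_lit 76) (nat_lit 16534294334) (nat_lit 9) (nat_lit 4) (nat_lit 10) (nat_lit 5) (nat_lit 10) (nat_lit 4) (nat_lit 398) (nat_lit 263) (nat_lit 119)) (XT.nd (nat_lit 78) (nat_lit 0) (nat_lit 0) (XT.lf (nat_lit 0) (nat_lit 13627577361) (nat_lit 76) (nat_lit 57441300694) (nat_lit 76) (nat_lit 11416334227) (nat_lit 9) (nat_lit 4) (nat_lit 10) (nat_lit 5) (nat_lit 10) (nat_lit 4) (nat_lit 399) (nat_lit 263) (nat_lit 118)) (XT.lf (nat_lit 0) (nat_lit 26408435708) (nat_lit 76) (nat_lit 52194055337) (nat_lit 76) (nat_lit 6150386480) (nat_lit 9) (nat_lit 4) (nat_lit 10) (nat_lit 5) (nat_lit 10) (nat_lit 4) (nat_lit 400) (nat_lit 263) (nat_lit 117))))) (XT.nd (nat_lit 234) (nat_lit 76) (nat_lit 0) (XT.nd (nat_lit 78) (nat_lit 76) (nat_lit 0) (XT.lf (nat_lit 0) (nat_lit 39563205747)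 (nat_lit 76) (nat_lit 46793676296) (nat_lit 76) (nat_lit 731849780) (nat_lit 9) (nat_lit 4) (nat_lit 10) (nat_lit 5) (nat_lit 10) (nat_lit 4) (nat_lit 401) (nat_lit 263) (nat_lit 116)) (XT.nd (nat_lit 78) (nat_lit 0) (nat_lit 0) (XT.lf (nat_lit 0) (nat_lit 4749486423) (nat_lit 152) (nat_lit 36437997871) (nat_lit 76) (nat_lit 48305935013) (nat_lit 8) (nat_lit 5) (nat_lit 10) (nat_lit 5) (nat_lit 9) (nat_lit 4) (nat_lit 402) (nat_lit 263) (nat_lit 115)) (XT.lf (nat_lit 0) (nat_lit 10375572287) (nat_lit 152) (nat_lit 25034158903) (nat_lit 76) (nat_lit 56560450277) (nat_lit 8) (nat_lit 5) (nat_lit 10) (nat_lit 5) (nat_lit 9) (nat_lit 4) (nat_lit 403) (nat_lit 263) (nat_lit 114)))) (XT.nd (nat_lit 156) (nat_lit 76) (nat_lit 0) (XT.nd (nat_lit 78) (nat_lit 0) (nat_lit 0) (XT.lf (nat_lit 0) (nat_lit 16165604834) (nat_lit 152) (nat_lit 13297009664) (nat_lit 76) (nat_lit 65058779013) (nat_lit 8) (nat_lit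 5) (nat_lit 10) (nat_lit 5) (nat_lit 9) (nat_lit 4) (nat_lit 404) (nat_lit 263) (nat_lit 113)) (XT.lf (nat_lit 0) (nat_lit 22124643315) (nat_lit 152) (nat_lit 1216294393) (nat_lit 76) (nat_lit 73808346946) (nat_lit 8) (nat_lit 5) (nat_lit 10) (nat_lit 5) (nat_lit 9) (nat_lit 4) (nat_lit 405) (nat_lit 263) (nat_lit 112))) (XT.nd (nat_lit 78) (nat_lit 0) (nat_lit 0) (XT.lf (nat_lit 0) (nat_lit 11441813873) (nat_lit 76) (nat_lit 16926066497) (nat_lit 152) (nat_lit 71484971170) (nat_lit 7) (nat_lit 5) (nat_lit 8) (nat_lit 5) (nat_lit 9) (nat_lit 4) (nat_lit 406) (nat_lit 263) (nat_lit 111)) (XT.lf (nat_lit 0) (nat_lit 24496380138) (nat_lit 76) (nat_lit 10309812064) (nat_lit 152) (nat_lit 67831101681) (nat_lit 7) (nat_lit 5) (nat_lit 8) (nat_lit 5) (nat_lit 9) (nat_lit 4) (nat_lit 407) (nat_lit 263) (nat_lit 110))))))) (XT.nd (nat_lit 1014) (nat_lit 6080) (nat_lit 0) (XT.nd (nat_lit 468) (nat_lit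 1064) (nat_lit 0) (XT.nd (nat_lit 234) (nat_lit 456) (nat_lit 0) (XT.nd (nat_lit 78) (nat_lit 380) (nat_lit 0) (XT.lf (nat_lit 0) (nat_lit 1060802396) (nat_lit 380) (nat_lit 1097756177) (nat_lit 380) (nat_lit 1097756177) (nat_lit 290) (nat_lit 3) (nat_lit 295) (nat_lit 3) (nat_lit 295) (nat_lit 5) (nat_lit 264) (nat_lit 264) (nat_lit 252)) (XT.nd (nat_lit 78) (nat_lit 380) (nat_lit 0) (XT.lf (nat_lit 76) (nat_lit 777414776) (nat_lit 0) (nat_lit 3786472092) (nat_lit 380) (nat_lit 1967957217) (nat_lit 291) (nat_lit 5) (nat_lit 290) (nat_lit 3) (nat_lit 295) (nat_lit 5) (nat_lit 265) (nat_lit 264) (nat_lit 251)) (XT.lf (nat_lit 0) (nat_lit 444467392) (nat_lit 380) (nat_lit 2723241548) (nat_lit 456) (nat_lit 3386198476) (nat_lit 285) (nat_lit 5) (nat_lit 290) (nat_lit 3) (nat_lit 291) (nat_lit 5) (nat_lit 266) (nat_lit 264) (nat_lit 250)))) (XT.nd (nat_lit 78) (nat_lit 456) (nat_lit 0) (XT.lf (nat_lit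 76) (nat_lit 335938850) (nat_lit 0) (nat_lit 2464355067) (nat_lit 456) (nat_lit 3778663339) (nat_lit 286) (nat_lit 5) (nat_lit 285) (nat_lit 5) (nat_lit 291) (nat_lit 5) (nat_lit 267) (nat_lit 264) (nat_lit 249)) (XT.nd (nat_lit 78) (nat_lit 456) (nat_lit 0) (XT.lf (nat_lit 76) (nat_lit 3493195126) (nat_lit 0) (nat_lit 1670675816) (nat_lit 456) (nat_lit 1442995428) (nat_lit 286) (nat_lit 5) (nat_lit 285) (nat_lit 5) (nat_lit 291) (nat_lit 5) (nat_lit 268) (nat_lit 264) (nat_lit 248)) (XT.lf (nat_lit 76) (nat_lit 51244868) (nat_lit 0) (nat_lit 804334999) (nat_lit 532) (nat_lit 5782613952) (nat_lit 280) (nat_lit 5) (nat_lit 279) (nat_lit 5) (nat_lit 286) (nat_lit 5) (nat_lit 269) (nat_lit 264) (nat_lit 247))))) (XT.nd (nat_lit 234) (nat_lit 608) (nat_lit 0) (XT.nd (nat_lit 78) (nat_lit 532) (nat_lit 0) (XT.lf (nat_lit 0) (nat_lit 3140309565) (nat_lit 456) (nat_lit 3362754209) (nat_lit 532) (nat_lit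 168784081) (nat_lit 280) (nat_lit 5) (nat_lit 286) (nat_lit 5) (nat_lit 287) (nat_lit 5) (nat_lit 270) (nat_lit 264) (nat_lit 246)) (XT.nd (nat_lit 78) (nat_lit 532) (nat_lit 0) (XT.lf (nat_lit 0) (nat_lit 5417662119) (nat_lit 456) (nat_lit 100989364) (nat_lit 532) (nat_lit 1190333111) (nat_lit 280) (nat_lit 5) (nat_lit 286) (nat_lit 5) (nat_lit 287) (nat_lit 5) (nat_lit 271) (nat_lit 264) (nat_lit 245)) (XT.lf (nat_lit 0) (nat_lit 945611602) (nat_lit 532) (nat_lit 3485403957) (nat_lit 608) (nat_lit 2317630952) (nat_lit 273) (nat_lit 5) (nat_lit 280) (nat_lit 5) (nat_lit 281) (nat_lit 5) (nat_lit 272) (nat_lit 264) (nat_lit 244)))) (XT.nd (nat_lit 156) (nat_lit 608) (nat_lit 0) (XT.nd (nat_lit 78) (nat_lit 0) (nat_lit 0) (XT.lf (nat_lit 0) (nat_lit 3144220464) (nat_lit 532) (nat_lit 122786479) (nat_lit 608) (nat_lit 3524671070) (nat_lit 273) (nat_lit 5) (nat_lit 280) (nat_lit 5) (nat_lit 281)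 (nat_lit 5) (nat_lit 273) (nat_lit 264) (nat_lit 243)) (XT.lf (nat_lit 76) (nat_lit 3356701210) (nat_lit 0) (nat_lit 2006189135) (nat_lit 608) (nat_lit 1474660738) (nat_lit 274) (nat_lit 5) (nat_lit 273) (nat_lit 5) (nat_lit 281) (nat_lit 5) (nat_lit 274) (nat_lit 264) (nat_lit 242))) (XT.nd (nat_lit 78) (nat_lit 0) (nat_lit 76) (XT.lf (nat_lit 76) (nat_lit 256603) (nat_lit 0) (nat_lit 672142973) (nat_lit 684) (nat_lit 6214625139) (nat_lit 266) (nat_lit 5) (nat_lit 265) (nat_lit 5) (nat_lit 274) (nat_lit 5) (nat_lit 275) (nat_lit 264) (nat_lit 241)) (XT.lf (nat_lit 0) (nat_lit 2821208738) (nat_lit 608) (nat_lit 3354369785) (nat_lit 76) (nat_lit 763115692) (nat_lit 266) (nat_lit 5) (nat_lit 274) (nat_lit 5) (nat_lit 267) (nat_lit 5) (nat_lit 276) (nat_lit 264) (nat_lit 240)))))) (XT.nd (nat_lit 468) (nat_lit 3952) (nat_lit 0) (XT.nd (nat_lit 234) (nat_lit 836) (nat_lit 0) (XT.nd (nat_lit 78)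 (nat_lit 760) (nat_lit 0) (XT.lf (nat_lit 0) (nat_lit 230487861) (nat_lit 608) (nat_lit 4739788237) (nat_lit 684) (nat_lit 2023718222) (nat_lit 258) (nat_lit 5) (nat_lit 266) (nat_lit 5) (nat_lit 267) (nat_lit 5) (nat_lit 277) (nat_lit 264) (nat_lit 239)) (XT.nd (nat_lit 78) (nat_lit 684) (nat_lit 0) (XT.lf (nat_lit 0) (nat_lit 92186224) (nat_lit 684) (nat_lit 3112333371) (nat_lit 76) (nat_lit 3847683492) (nat_lit 257) (nat_lit 5) (nat_lit 266) (nat_lit 5) (nat_lit 258) (nat_lit 5) (nat_lit 278) (nat_lit 264) (nat_lit 238)) (XT.lf (nat_lit 0) (nat_lit 588921210) (nat_lit 684) (nat_lit 1577447361) (nat_lit 760) (nat_lit 4947265416) (nat_lit 248) (nat_lit 5) (nat_lit 257) (nat_lit 5) (nat_lit 258) (nat_lit 5) (nat_lit 279) (nat_lit 264) (nat_lit 237)))) (XT.nd (nat_lit 78) (nat_lit 836) (nat_lit 0) (XT.lf (nat_lit 0) (nat_lit 4267011467) (nat_lit 760) (nat_lit 2764989920) (nat_lit 76) (nat_lit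 146116500) (nat_lit 248) (nat_lit 5) (nat_lit 258) (nat_lit 5) (nat_lit 249) (nat_lit 5) (nat_lit 280) (nat_lit 264) (nat_lit 236)) (XT.nd (nat_lit 78) (nat_lit 76) (nat_lit 0) (XT.lf (nat_lit 0) (nat_lit 1061374106) (nat_lit 760) (nat_lit 5328663327) (nat_lit 836) (nat_lit 855851090) (nat_lit 238) (nat_lit 5) (nat_lit 248) (nat_lit 5) (nat_lit 249) (nat_lit 5) (nat_lit 281) (nat_lit 264) (nat_lit 235)) (XT.lf (nat_lit 0) (nat_lit 1198871880) (nat_lit 836) (nat_lit 2320220260) (nat_lit 76) (nat_lit 3797489431) (nat_lit 237) (nat_lit 5) (nat_lit 248) (nat_lit 5) (nat_lit 238) (nat_lit 5) (nat_lit 282) (nat_lit 264) (nat_lit 234))))) (XT.nd (nat_lit 234) (nat_lit 2204) (nat_lit 0) (XT.nd (nat_lit 78) (nat_lit 912) (nat_lit 0) (XT.lf (nat_lit 0) (nat_lit 1632733436) (nat_lit 836) (nat_lit 1617132504) (nat_lit 912) (nat_lit 4140842155) (nat_lit 226) (nat_lit 5) (nat_lit 237) (nat_lit 5) (nat_lit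 238) (nat_lit 5) (nat_lit 283) (nat_lit 264) (nat_lit 233)) (XT.nd (nat_lit 78) (nat_lit 912) (nat_lit 0) (XT.lf (nat_lit 0) (nat_lit 5326970652) (nat_lit 912) (nat_lit 1770306675) (nat_lit 76) (nat_lit 370961950) (nat_lit 226) (nat_lit 5) (nat_lit 238) (nat_lit 5) (nat_lit 227) (nat_lit 5) (nat_lit 284) (nat_lit 264) (nat_lit 232)) (XT.lf (nat_lit 0) (nat_lit 2315413908) (nat_lit 912) (nat_lit 5128692267) (nat_lit 988) (nat_lit 104773530) (nat_lit 214) (nat_lit 5) (nat_lit 226) (nat_lit 5) (nat_lit 227) (nat_lit 5) (nat_lit 285) (nat_lit 264) (nat_lit 231)))) (XT.nd (nat_lit 156) (nat_lit 1140) (nat_lit 0) (XT.nd (nat_lit 78) (nat_lit 988) (nat_lit 0) (XT.lf (nat_lit 0) (nat_lit 1912016714) (nat_lit 988) (nat_lit 1142293008) (nat_lit 76) (nat_lit 4578420568) (nat_lit 213) (nat_lit 5) (nat_lit 226) (nat_lit 5) (nat_lit 214) (nat_lit 5) (nat_lit 286) (nat_lit 264) (nat_lit 230)) (XT.lf (nat_lit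 0) (nat_lit 3080641078) (nat_lit 988) (nat_lit 877957042) (nat_lit 1064) (nat_lit 3761430448) (nat_lit 200) (nat_lit 5) (nat_lit 213) (nat_lit 5) (nat_lit 214) (nat_lit 5) (nat_lit 287) (nat_lit 264) (nat_lit 229))) (XT.nd (nat_lit 78) (nat_lit 1140) (nat_lit 0) (XT.lf (nat_lit 0) (nat_lit 6034405810) (nat_lit 1064) (nat_lit 420587263) (nat_lit 76) (nat_lit 1356019891) (nat_lit 200) (nat_lit 5) (nat_lit 214) (nat_lit 5) (nat_lit 201) (nat_lit 5) (nat_lit 288) (nat_lit 264) (nat_lit 228)) (XT.lf (nat_lit 0) (nat_lit 253678057) (nat_lit 1140) (nat_lit 3964490601) (nat_lit 76) (nat_lit 3686842928) (nat_lit 185) (nat_lit 5) (nat_lit 200) (nat_lit 5) (nat_lit 186) (nat_lit 5) (nat_lit 289) (nat_lit 264) (nat_lit 227))))))))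
noncomputable def xc117 : XT := (XT.nd (nat_lit 2028) (nat_lit 3648) (nat_lit 0) (XT.nd (nat_lit 1014) (nat_lit 2888) (nat_lit 0) (XT.nd (nat_lit 468) (nat_lit 2128) (nat_lit 0) (XT.nd (nat_lit 234) (nat_lit 684) (nat_lit 0) (XT.nd (nat_lit 78) (nat_lit 532) (nat_lit 0) (XT.lf (nat_lit 0) (nat_lit 378495837) (nat_lit 1140) (nat_lit 1883828809) (nat_lit 1216) (nat_lit 5740476366) (nat_lit 170) (nat_lit 5) (nat_lit 185) (nat_lit 5) (nat_lit 186) (nat_lit 5) (nat_lit 290) (nat_lit 264) (nat_lit 226)) (XT.nd (nat_lit 78) (nat_lit 532) (nat_lit 0) (XT.lf (nat_lit 0) (nat_lit 4323044613) (nat_lit 1216) (nat_lit 3226559867) (nat_lit 76) (nat_lit 554255877) (nat_lit 170) (nat_lit 5) (nat_lit 186) (nat_lit 5) (nat_lit 171) (nat_lit 5) (nat_lit 291) (nat_lit 264) (nat_lit 225)) (XT.lf (nat_lit 0) (nat_lit 1258661356) (nat_lit 532) (nat_lit 5165617622) (nat_lit 608) (nat_lit 1784399739) (nat_lit 163) (nat_lit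 5) (nat_lit 170) (nat_lit 5) (nat_lit 171) (nat_lit 5) (nat_lit 292) (nat_lit 264) (nat_lit 224)))) (XT.nd (nat_lit 78) (nat_lit 608) (nat_lit 0) (XT.lf (nat_lit 0) (nat_lit 247897263) (nat_lit 608) (nat_lit 2425001998) (nat_lit 76) (nat_lit 5644308083) (nat_lit 162) (nat_lit 5) (nat_lit 170) (nat_lit 5) (nat_lit 163) (nat_lit 5) (nat_lit 293) (nat_lit 264) (nat_lit 223)) (XT.nd (nat_lit 78) (nat_lit 0) (nat_lit 0) (XT.lf (nat_lit 0) (nat_lit 2211758781) (nat_lit 608) (nat_lit 64693625) (nat_lit 684) (nat_lit 6152955334) (nat_lit 154) (nat_lit 5) (nat_lit 162) (nat_lit 5) (nat_lit 163) (nat_lit 5) (nat_lit 294) (nat_lit 264) (nat_lit 222)) (XT.lf (nat_lit 0) (nat_lit 4366678805) (nat_lit 684) (nat_lit 1582915984) (nat_lit 76) (nat_lit 2595433123) (nat_lit 154) (nat_lit 5) (nat_lit 163) (nat_lit 5) (nat_lit 155) (nat_lit 5) (nat_lit 295) (nat_lit 264) (nat_lit 221))))) (XT.nd (nat_lit 234) (nat_lit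 988) (nat_lit 0) (XT.nd (nat_lit 78) (nat_lit 608) (nat_lit 0) (XT.lf (nat_lit 0) (nat_lit 3203641164) (nat_lit 532) (nat_lit 3299719767) (nat_lit 608) (nat_lit 2161319212) (nat_lit 147) (nat_lit 5) (nat_lit 154) (nat_lit 5) (nat_lit 155) (nat_lit 5) (nat_lit 296) (nat_lit 264) (nat_lit 220)) (XT.nd (nat_lit 78) (nat_lit 608) (nat_lit 0) (XT.lf (nat_lit 0) (nat_lit 8117632682) (nat_lit 532) (nat_lit 555729900) (nat_lit 608) (nat_lit 115556499) (nat_lit 147) (nat_lit 5) (nat_lit 154) (nat_lit 5) (nat_lit 155) (nat_lit 5) (nat_lit 297) (nat_lit 264) (nat_lit 219)) (XT.lf (nat_lit 0) (nat_lit 1970320417) (nat_lit 608) (nat_lit 4660603727) (nat_lit 76) (nat_lit 2284928070) (nat_lit 139) (nat_lit 5) (nat_lit 147) (nat_lit 5) (nat_lit 140) (nat_lit 5) (nat_lit 298) (nat_lit 264) (nat_lit 218)))) (XT.nd (nat_lit 156) (nat_lit 532) (nat_lit 0) (XT.nd (nat_lit 78) (nat_lit 0) (nat_lit 0) (XT.lf (nat_lit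 0) (nat_lit 245936734) (nat_lit 456) (nat_lit 3840156997) (nat_lit 532) (nat_lit 4961443464) (nat_lit 133) (nat_lit 5) (nat_lit 139) (nat_lit 5) (nat_lit 140) (nat_lit 5) (nat_lit 299) (nat_lit 264) (nat_lit 217)) (XT.lf (nat_lit 0) (nat_lit 5346593563) (nat_lit 456) (nat_lit 921585500) (nat_lit 532) (nat_lit 2914973989) (nat_lit 133) (nat_lit 5) (nat_lit 139) (nat_lit 5) (nat_lit 140) (nat_lit 5) (nat_lit 300) (nat_lit 264) (nat_lit 216))) (XT.nd (nat_lit 78) (nat_lit 76) (nat_lit 0) (XT.lf (nat_lit 0) (nat_lit 1232941670) (nat_lit 456) (nat_lit 7271697917) (nat_lit 532) (nat_lit 818594004) (nat_lit 127) (nat_lit 5) (nat_lit 133) (nat_lit 5) (nat_lit 134) (nat_lit 5) (nat_lit 301) (nat_lit 264) (nat_lit 215)) (XT.lf (nat_lit 0) (nat_lit 1320100571) (nat_lit 532) (nat_lit 3004522037) (nat_lit 76) (nat_lit 5142399710) (nat_lit 126) (nat_lit 5) (nat_lit 133) (nat_lit 5) (nat_lit 127) (nat_lit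 5) (nat_lit 302) (nat_lit 264) (nat_lit 214)))))) (XT.nd (nat_lit 468) (nat_lit 1520) (nat_lit 0) (XT.nd (nat_lit 234) (nat_lit 456) (nat_lit 0) (XT.nd (nat_lit 78) (nat_lit 456) (nat_lit 0) (XT.lf (nat_lit 0) (nat_lit 2221546308) (nat_lit 456) (nat_lit 1264889005) (nat_lit 532) (nat_lit 6129106470) (nat_lit 120) (nat_lit 5) (nat_lit 126) (nat_lit 5) (nat_lit 127) (nat_lit 5) (nat_lit 303) (nat_lit 264) (nat_lit 213)) (XT.nd (nat_lit 78) (nat_lit 456) (nat_lit 0) (XT.lf (nat_lit 0) (nat_lit 5725805959) (nat_lit 532) (nat_lit 2168325468) (nat_lit 76) (nat_lit 1874200522) (nat_lit 120) (nat_lit 5) (nat_lit 127) (nat_lit 5) (nat_lit 121) (nat_lit 5) (nat_lit 304) (nat_lit 264) (nat_lit 212)) (XT.lf (nat_lit 0) (nat_lit 3217512761) (nat_lit 456) (nat_lit 4818753805) (nat_lit 532) (nat_lit 1889376838) (nat_lit 114) (nat_lit 5) (nat_lit 120) (nat_lit 5) (nat_lit 121) (nat_lit 5) (nat_lit 305) (nat_lit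 264) (nat_lit 211)))) (XT.nd (nat_lit 78) (nat_lit 380) (nat_lit 0) (XT.lf (nat_lit 0) (nat_lit 304797225) (nat_lit 532) (nat_lit 1328253279) (nat_lit 76) (nat_lit 8455095563) (nat_lit 113) (nat_lit 5) (nat_lit 120) (nat_lit 5) (nat_lit 114) (nat_lit 5) (nat_lit 306) (nat_lit 264) (nat_lit 210)) (XT.nd (nat_lit 78) (nat_lit 0) (nat_lit 0) (XT.lf (nat_lit 0) (nat_lit 2545719678) (nat_lit 456) (nat_lit 6040279412) (nat_lit 76) (nat_lit 1668446780) (nat_lit 108) (nat_lit 5) (nat_lit 114) (nat_lit 5) (nat_lit 109) (nat_lit 5) (nat_lit 307) (nat_lit 264) (nat_lit 209)) (XT.lf (nat_lit 0) (nat_lit 4846051128) (nat_lit 456) (nat_lit 538055093) (nat_lit 76) (nat_lit 5041911738) (nat_lit 108) (nat_lit 5) (nat_lit 114) (nat_lit 5) (nat_lit 109) (nat_lit 5) (nat_lit 308) (nat_lit 264) (nat_lit 208))))) (XT.nd (nat_lit 234) (nat_lit 684) (nat_lit 0) (XT.nd (nat_lit 78) (nat_lit 456) (nat_lit 0) (XT.lf (nat_lit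 0) (nat_lit 5185265895) (nat_lit 380) (nat_lit 2043530722) (nat_lit 456) (nat_lit 3373585784) (nat_lit 103) (nat_lit 5) (nat_lit 108) (nat_lit 5) (nat_lit 109) (nat_lit 5) (nat_lit 309) (nat_lit 264) (nat_lit 207)) (XT.nd (nat_lit 78) (nat_lit 76) (nat_lit 0) (XT.lf (nat_lit 0) (nat_lit 253150886) (nat_lit 380) (nat_lit 9415331604) (nat_lit 456) (nat_lit 1116037481) (nat_lit 98) (nat_lit 5) (nat_lit 103) (nat_lit 5) (nat_lit 104) (nat_lit 5) (nat_lit 310) (nat_lit 264) (nat_lit 206)) (XT.lf (nat_lit 0) (nat_lit 1225440638) (nat_lit 456) (nat_lit 4844357292) (nat_lit 76) (nat_lit 4900824320) (nat_lit 97) (nat_lit 5) (nat_lit 103) (nat_lit 5) (nat_lit 98) (nat_lit 5) (nat_lit 311) (nat_lit 264) (nat_lit 205)))) (XT.nd (nat_lit 156) (nat_lit 304) (nat_lit 0) (XT.nd (nat_lit 78) (nat_lit 0) (nat_lit 0) (XT.lf (nat_lit 0) (nat_lit 976562433) (nat_lit 380) (nat_lit 2612918972) (nat_lit 456) (nat_lit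 7573294247) (nat_lit 92) (nat_lit 5) (nat_lit 97) (nat_lit 5) (nat_lit 98) (nat_lit 5) (nat_lit 312) (nat_lit 264) (nat_lit 204)) (XT.lf (nat_lit 0) (nat_lit 6048803143) (nat_lit 456) (nat_lit 4342640381) (nat_lit 76) (nat_lit 968560152) (nat_lit 92) (nat_lit 5) (nat_lit 98) (nat_lit 5) (nat_lit 93) (nat_lit 5) (nat_lit 313) (nat_lit 264) (nat_lit 203))) (XT.nd (nat_lit 78) (nat_lit 0) (nat_lit 0) (XT.lf (nat_lit 0) (nat_lit 1638423500) (nat_lit 304) (nat_lit 6951943130) (nat_lit 380) (nat_lit 2972567671) (nat_lit 88) (nat_lit 5) (nat_lit 92) (nat_lit 5) (nat_lit 93) (nat_lit 5) (nat_lit 314) (nat_lit 264) (nat_lit 202)) (XT.lf (nat_lit 0) (nat_lit 7844452528) (nat_lit 304) (nat_lit 3374966474) (nat_lit 380) (nat_lit 552235052) (nat_lit 88) (nat_lit 5) (nat_lit 92) (nat_lit 5) (nat_lit 93) (nat_lit 5) (nat_lit 315) (nat_lit 264) (nat_lit 201))))))) (XT.nd (nat_lit 1014) (nat_lit 1444) (nat_lit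 0) (XT.nd (nat_lit 468) (nat_lit 1064) (nat_lit 0) (XT.nd (nat_lit 234) (nat_lit 380) (nat_lit 0) (XT.nd (nat_lit 78) (nat_lit 304) (nat_lit 0) (XT.lf (nat_lit 0) (nat_lit 1895548463) (nat_lit 456) (nat_lit 9757661144) (nat_lit 76) (nat_lit 333121064) (nat_lit 82) (nat_lit 5) (nat_lit 88) (nat_lit 5) (nat_lit 83) (nat_lit 5) (nat_lit 316) (nat_lit 264) (nat_lit 200)) (XT.nd (nat_lit 78) (nat_lit 304) (nat_lit 0) (XT.lf (nat_lit 0) (nat_lit 4447539304) (nat_lit 456) (nat_lit 3639160244) (nat_lit 76) (nat_lit 4119363017) (nat_lit 82) (nat_lit 5) (nat_lit 88) (nat_lit 5) (nat_lit 83) (nat_lit 5) (nat_lit 317) (nat_lit 264) (nat_lit 199)) (XT.lf (nat_lit 0) (nat_lit 2672970463) (nat_lit 304) (nat_lit 4398141799) (nat_lit 380) (nat_lit 5361457663) (nat_lit 78) (nat_lit 5) (nat_lit 82) (nat_lit 5) (nat_lit 83) (nat_lit 5) (nat_lit 318) (nat_lit 264) (nat_lit 198)))) (XT.nd (nat_lit 78) (nat_lit 380)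 (nat_lit 0) (XT.lf (nat_lit 0) (nat_lit 9207392402) (nat_lit 304) (nat_lit 572569332) (nat_lit 380) (nat_lit 2885746875) (nat_lit 78) (nat_lit 5) (nat_lit 82) (nat_lit 5) (nat_lit 83) (nat_lit 5) (nat_lit 319) (nat_lit 264) (nat_lit 197)) (XT.nd (nat_lit 78) (nat_lit 76) (nat_lit 0) (XT.lf (nat_lit 0) (nat_lit 3017247722) (nat_lit 304) (nat_lit 9584798354) (nat_lit 380) (nat_lit 302868514) (nat_lit 74) (nat_lit 5) (nat_lit 78) (nat_lit 5) (nat_lit 79) (nat_lit 5) (nat_lit 320) (nat_lit 264) (nat_lit 196)) (XT.lf (nat_lit 0) (nat_lit 2323169158) (nat_lit 380) (nat_lit 3462425194) (nat_lit 76) (nat_lit 7364702630) (nat_lit 73) (nat_lit 5) (nat_lit 78) (nat_lit 5) (nat_lit 74) (nat_lit 5) (nat_lit 321) (nat_lit 264) (nat_lit 195))))) (XT.nd (nat_lit 234) (nat_lit 532) (nat_lit 0) (XT.nd (nat_lit 78) (nat_lit 304) (nat_lit 0) (XT.lf (nat_lit 0) (nat_lit 3174253719) (nat_lit 228) (nat_lit 1849751231)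 (nat_lit 304) (nat_lit 8378912289) (nat_lit 70) (nat_lit 5) (nat_lit 73) (nat_lit 5) (nat_lit 74) (nat_lit 5) (nat_lit 322) (nat_lit 264) (nat_lit 194)) (XT.nd (nat_lit 78) (nat_lit 304) (nat_lit 0) (XT.lf (nat_lit 0) (nat_lit 7834284756) (nat_lit 304) (nat_lit 3643212686) (nat_lit 76) (nat_lit 2184794718) (nat_lit 70) (nat_lit 5) (nat_lit 74) (nat_lit 5) (nat_lit 71) (nat_lit 5) (nat_lit 323) (nat_lit 264) (nat_lit 193)) (XT.lf (nat_lit 0) (nat_lit 3143388428) (nat_lit 304) (nat_lit 7606754152) (nat_lit 380) (nat_lit 3178695451) (nat_lit 66) (nat_lit 5) (nat_lit 70) (nat_lit 5) (nat_lit 71) (nat_lit 5) (nat_lit 324) (nat_lit 264) (nat_lit 192)))) (XT.nd (nat_lit 156) (nat_lit 228) (nat_lit 0) (XT.nd (nat_lit 78) (nat_lit 304) (nat_lit 0) (XT.lf (nat_lit 0) (nat_lit 10169218803) (nat_lit 304) (nat_lit 3594204349) (nat_lit 380) (nat_lit 439685698) (nat_lit 66) (nat_lit 5) (nat_lit 70) (nat_lit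 5) (nat_lit 71) (nat_lit 5) (nat_lit 325) (nat_lit 264) (nat_lit 191)) (XT.lf (nat_lit 0) (nat_lit 2342272862) (nat_lit 304) (nat_lit 11574704674) (nat_lit 76) (nat_lit 567751418) (nat_lit 62) (nat_lit 5) (nat_lit 66) (nat_lit 5) (nat_lit 63) (nat_lit 5) (nat_lit 326) (nat_lit 264) (nat_lit 190))) (XT.nd (nat_lit 78) (nat_lit 228) (nat_lit 0) (XT.lf (nat_lit 0) (nat_lit 5249517086) (nat_lit 304) (nat_lit 4707744162) (nat_lit 76) (nat_lit 4815910580) (nat_lit 62) (nat_lit 5) (nat_lit 66) (nat_lit 5) (nat_lit 63) (nat_lit 5) (nat_lit 327) (nat_lit 264) (nat_lit 189)) (XT.lf (nat_lit 0) (nat_lit 2373905357) (nat_lit 228) (nat_lit 5867592012) (nat_lit 304) (nat_lit 6828869031) (nat_lit 59) (nat_lit 5) (nat_lit 62) (nat_lit 5) (nat_lit 63) (nat_lit 5) (nat_lit 328) (nat_lit 264) (nat_lit 188)))))) (XT.nd (nat_lit 546) (nat_lit 760) (nat_lit 0) (XT.nd (nat_lit 234) (nat_lit 380) (nat_lit 0) (XT.nd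 (nat_lit 78) (nat_lit 304) (nat_lit 0) (XT.lf (nat_lit 0) (nat_lit 9727234304) (nat_lit 228) (nat_lit 1618619656) (nat_lit 304) (nat_lit 4029967617) (nat_lit 59) (nat_lit 5) (nat_lit 62) (nat_lit 5) (nat_lit 63) (nat_lit 5) (nat_lit 329) (nat_lit 264) (nat_lit 187)) (XT.nd (nat_lit 78) (nat_lit 76) (nat_lit 0) (XT.lf (nat_lit 0) (nat_lit 1578187207) (nat_lit 228) (nat_lit 12982522935) (nat_lit 304) (nat_lit 1129231797) (nat_lit 56) (nat_lit 5) (nat_lit 59) (nat_lit 5) (nat_lit 60) (nat_lit 5) (nat_lit 330) (nat_lit 264) (nat_lit 186)) (XT.lf (nat_lit 0) (nat_lit 1871677363) (nat_lit 304) (nat_lit 6945639202) (nat_lit 76) (nat_lit 7194172156) (nat_lit 55) (nat_lit 5) (nat_lit 59) (nat_lit 5) (nat_lit 56) (nat_lit 5) (nat_lit 331) (nat_lit 264) (nat_lit 185)))) (XT.nd (nat_lit 156) (nat_lit 152) (nat_lit 0) (XT.nd (nat_lit 78) (nat_lit 0) (nat_lit 0) (XT.lf (nat_lit 0) (nat_lit 396121736) (nat_lit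 228) (nat_lit 4524096068) (nat_lit 304) (nat_lit 11422740351) (nat_lit 52) (nat_lit 5) (nat_lit 55) (nat_lit 5) (nat_lit 56) (nat_lit 5) (nat_lit 332) (nat_lit 264) (nat_lit 184)) (XT.lf (nat_lit 0) (nat_lit 8064978825) (nat_lit 228) (nat_lit 42208742) (nat_lit 304) (nat_lit 8575794987) (nat_lit 52) (nat_lit 5) (nat_lit 55) (nat_lit 5) (nat_lit 56) (nat_lit 5) (nat_lit 333) (nat_lit 264) (nat_lit 183))) (XT.nd (nat_lit 78) (nat_lit 152) (nat_lit 0) (XT.lf (nat_lit 0) (nat_lit 11411130813) (nat_lit 304) (nat_lit 1148354626) (nat_lit 76) (nat_lit 4473100809) (nat_lit 52) (nat_lit 5) (nat_lit 56) (nat_lit 5) (nat_lit 53) (nat_lit 5) (nat_lit 334) (nat_lit 264) (nat_lit 182)) (XT.lf (nat_lit 0) (nat_lit 6640488433) (nat_lit 152) (nat_lit 8216007669) (nat_lit 228) (nat_lit 2534931764) (nat_lit 50) (nat_lit 5) (nat_lit 52) (nat_lit 5) (nat_lit 53) (nat_lit 5) (nat_lit 335) (nat_lit 264) (nat_lit 181)))))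 (XT.nd (nat_lit 234) (nat_lit 456) (nat_lit 0) (XT.nd (nat_lit 78) (nat_lit 228) (nat_lit 0) (XT.lf (nat_lit 0) (nat_lit 621464402) (nat_lit 228) (nat_lit 3114633586) (nat_lit 76) (nat_lit 14025073394) (nat_lit 49) (nat_lit 5) (nat_lit 52) (nat_lit 5) (nat_lit 50) (nat_lit 5) (nat_lit 336) (nat_lit 264) (nat_lit 180)) (XT.nd (nat_lit 78) (nat_lit 0) (nat_lit 0) (XT.lf (nat_lit 0) (nat_lit 3855411592) (nat_lit 304) (nat_lit 13363687605) (nat_lit 76) (nat_lit 921158114) (nat_lit 46) (nat_lit 5) (nat_lit 50) (nat_lit 5) (nat_lit 47) (nat_lit 5) (nat_lit 337) (nat_lit 264) (nat_lit 179)) (XT.lf (nat_lit 0) (nat_lit 7234092171) (nat_lit 304) (nat_lit 5632104355) (nat_lit 76) (nat_lit 5663104657) (nat_lit 46) (nat_lit 5) (nat_lit 50) (nat_lit 5) (nat_lit 47) (nat_lit 5) (nat_lit 338) (nat_lit 264) (nat_lit 178)))) (XT.nd (nat_lit 156) (nat_lit 304) (nat_lit 0) (XT.nd (nat_lit 78) (nat_lit 0) (nat_lit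 0) (XT.lf (nat_lit 0) (nat_lit 2344768010) (nat_lit 152) (nat_lit 8371478103) (nat_lit 228) (nat_lit 8213723194) (nat_lit 44) (nat_lit 5) (nat_lit 46) (nat_lit 5) (nat_lit 47) (nat_lit 5) (nat_lit 339) (nat_lit 264) (nat_lit 177)) (XT.lf (nat_lit 0) (nat_lit 10644303689) (nat_lit 152) (nat_lit 3695294219) (nat_lit 228) (nat_lit 5001973420) (nat_lit 44) (nat_lit 5) (nat_lit 46) (nat_lit 5) (nat_lit 47) (nat_lit 5) (nat_lit 340) (nat_lit 264) (nat_lit 176))) (XT.nd (nat_lit 78) (nat_lit 304) (nat_lit 0) (XT.lf (nat_lit 0) (nat_lit 18062762726) (nat_lit 228) (nat_lit 615124459) (nat_lit 76) (nat_lit 1087916236) (nat_lit 44) (nat_lit 5) (nat_lit 47) (nat_lit 5) (nat_lit 45) (nat_lit 5) (nat_lit 341) (nat_lit 264) (nat_lit 175)) (XT.lf (nat_lit 0) (nat_lit 1755105658) (nat_lit 304) (nat_lit 12422950938) (nat_lit 76) (nat_lit 6021432070) (nat_lit 40) (nat_lit 5) (nat_lit 44) (nat_lit 5) (nat_lit 41)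 (nat_lit 5) (nat_lit 342) (nat_lit 264) (nat_lit 174))))))))
noncomputable def xc118 : XT := (XT.nd (nat_lit 2028) (nat_lit 836) (nat_lit 0) (XT.nd (nat_lit 1014) (nat_lit 532) (nat_lit 0) (XT.nd (nat_lit 468) (nat_lit 532) (nat_lit 0) (XT.nd (nat_lit 234) (nat_lit 228) (nat_lit 0) (XT.nd (nat_lit 78) (nat_lit 152) (nat_lit 0) (XT.lf (nat_lit 0) (nat_lit 5270010785) (nat_lit 304) (nat_lit 4261182907) (nat_lit 76) (nat_lit 11114881691) (nat_lit 40) (nat_lit 5) (nat_lit 44) (nat_lit 5) (nat_lit 41) (nat_lit 5) (nat_lit 343) (nat_lit 264) (nat_lit 173)) (XT.nd (nat_lit 78) (nat_lit 0) (nat_lit 0) (XT.lf (nat_lit 0) (nat_lit 4197421949) (nat_lit 152) (nat_lit 4714814315) (nat_lit 228) (nat_lit 12193180912) (nat_lit 38) (nat_lit 5) (nat_lit 40) (nat_lit 5) (nat_lit 41) (nat_lit 5) (nat_lit 344) (nat_lit 264) (nat_lit 172)) (XT.lf (nat_lit 0) (nat_lit 12691218022) (nat_lit 228) (nat_lit 8612984528)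 (nat_lit 76) (nat_lit 273525261) (nat_lit 38) (nat_lit 5) (nat_lit 41) (nat_lit 5) (nat_lit 39) (nat_lit 5) (nat_lit 345) (nat_lit 264) (nat_lit 171)))) (XT.nd (nat_lit 78) (nat_lit 228) (nat_lit 0) (XT.lf (nat_lit 0) (nat_lit 16612453124) (nat_lit 228) (nat_lit 145008659) (nat_lit 76) (nat_lit 5305892353) (nat_lit 38) (nat_lit 5) (nat_lit 41) (nat_lit 5) (nat_lit 39) (nat_lit 5) (nat_lit 346) (nat_lit 264) (nat_lit 170)) (XT.nd (nat_lit 78) (nat_lit 76) (nat_lit 0) (XT.lf (nat_lit 0) (nat_lit 8718788223) (nat_lit 152) (nat_lit 11999068316) (nat_lit 228) (nat_lit 1843709284) (nat_lit 36) (nat_lit 5) (nat_lit 38) (nat_lit 5) (nat_lit 39) (nat_lit 5) (nat_lit 347) (nat_lit 264) (nat_lit 169)) (XT.lf (nat_lit 0) (nat_lit 1819427076) (nat_lit 228) (nat_lit 5269644674) (nat_lit 76) (nat_lit 15985596573) (nat_lit 35) (nat_lit 5) (nat_lit 38) (nat_lit 5) (nat_lit 36) (nat_lit 5) (nat_lit 348) (nat_lit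 264) (nat_lit 168))))) (XT.nd (nat_lit 234) (nat_lit 380) (nat_lit 0) (XT.nd (nat_lit 78) (nat_lit 0) (nat_lit 0) (XT.lf (nat_lit 0) (nat_lit 3584777791) (nat_lit 152) (nat_lit 1988357474) (nat_lit 228) (nat_lit 18028960413) (nat_lit 33) (nat_lit 5) (nat_lit 35) (nat_lit 5) (nat_lit 36) (nat_lit 5) (nat_lit 349) (nat_lit 264) (nat_lit 167)) (XT.nd (nat_lit 78) (nat_lit 0) (nat_lit 0) (XT.lf (nat_lit 0) (nat_lit 9507979130) (nat_lit 228) (nat_lit 11390542886) (nat_lit 76) (nat_lit 3244779219) (nat_lit 33) (nat_lit 5) (nat_lit 36) (nat_lit 5) (nat_lit 34) (nat_lit 5) (nat_lit 350) (nat_lit 264) (nat_lit 166)) (XT.lf (nat_lit 0) (nat_lit 13564434317) (nat_lit 228) (nat_lit 2551576809) (nat_lit 76) (nat_lit 8584635646) (nat_lit 33) (nat_lit 5) (nat_lit 36) (nat_lit 5) (nat_lit 34) (nat_lit 5) (nat_lit 351) (nat_lit 264) (nat_lit 165)))) (XT.nd (nat_lit 156) (nat_lit 228) (nat_lit 0) (XT.nd (nat_lit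 78) (nat_lit 0) (nat_lit 0) (XT.lf (nat_lit 0) (nat_lit 6656305515) (nat_lit 152) (nat_lit 11134610958) (nat_lit 228) (nat_lit 7482356682) (nat_lit 31) (nat_lit 5) (nat_lit 33) (nat_lit 5) (nat_lit 34) (nat_lit 5) (nat_lit 352) (nat_lit 264) (nat_lit 164)) (XT.lf (nat_lit 0) (nat_lit 16166844191) (nat_lit 152) (nat_lit 5987670696) (nat_lit 228) (nat_lit 3708263961) (nat_lit 31) (nat_lit 5) (nat_lit 33) (nat_lit 5) (nat_lit 34) (nat_lit 5) (nat_lit 353) (nat_lit 264) (nat_lit 163))) (XT.nd (nat_lit 78) (nat_lit 152) (nat_lit 0) (XT.lf (nat_lit 0) (nat_lit 160405158) (nat_lit 228) (nat_lit 534434002) (nat_lit 76) (nat_lit 25775543079) (nat_lit 30) (nat_lit 5) (nat_lit 33) (nat_lit 5) (nat_lit 31) (nat_lit 5) (nat_lit 354) (nat_lit 264) (nat_lit 162)) (XT.lf (nat_lit 0) (nat_lit 4189413004) (nat_lit 228) (nat_lit 18123375200) (nat_lit 76) (nat_lit 4778769041) (nat_lit 28) (nat_lit 5) (nat_lit 31)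 (nat_lit 5) (nat_lit 29) (nat_lit 5) (nat_lit 355) (nat_lit 264) (nat_lit 161)))))) (XT.nd (nat_lit 468) (nat_lit 228) (nat_lit 0) (XT.nd (nat_lit 234) (nat_lit 152) (nat_lit 0) (XT.nd (nat_lit 78) (nat_lit 152) (nat_lit 0) (XT.lf (nat_lit 0) (nat_lit 8337007544) (nat_lit 228) (nat_lit 8996114651) (nat_lit 76) (nat_lit 10398322849) (nat_lit 28) (nat_lit 5) (nat_lit 31) (nat_lit 5) (nat_lit 29) (nat_lit 5) (nat_lit 356) (nat_lit 264) (nat_lit 160)) (XT.nd (nat_lit 78) (nat_lit 0) (nat_lit 0) (XT.lf (nat_lit 0) (nat_lit 388458527) (nat_lit 152) (nat_lit 12210117817) (nat_lit 228) (nat_lit 15792275517) (nat_lit 26) (nat_lit 5) (nat_lit 28) (nat_lit 5) (nat_lit 29) (nat_lit 5) (nat_lit 357) (nat_lit 264) (nat_lit 159)) (XT.lf (nat_lit 0) (nat_lit 10215131154) (nat_lit 152) (nat_lit 6849700477) (nat_lit 228) (nat_lit 12002912588) (nat_lit 26) (nat_lit 5) (nat_lit 28) (nat_lit 5) (nat_lit 29) (nat_lit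 5) (nat_lit 358) (nat_lit 264) (nat_lit 158)))) (XT.nd (nat_lit 78) (nat_lit 152) (nat_lit 0) (XT.lf (nat_lit 0) (nat_lit 20313449321) (nat_lit 152) (nat_lit 1338029434) (nat_lit 228) (nat_lit 8113880740) (nat_lit 26) (nat_lit 5) (nat_lit 28) (nat_lit 5) (nat_lit 29) (nat_lit 5) (nat_lit 359) (nat_lit 264) (nat_lit 157)) (XT.nd (nat_lit 78) (nat_lit 76) (nat_lit 0) (XT.lf (nat_lit 0) (nat_lit 169619600) (nat_lit 76) (nat_lit 26236156186) (nat_lit 152) (nat_lit 4077233957) (nat_lit 25) (nat_lit 5) (nat_lit 26) (nat_lit 5) (nat_lit 27) (nat_lit 4) (nat_lit 360) (nat_lit 264) (nat_lit 156)) (XT.lf (nat_lit 0) (nat_lit 175323244) (nat_lit 152) (nat_lit 20983585690) (nat_lit 76) (nat_lit 10060373454) (nat_lit 24) (nat_lit 5) (nat_lit 26) (nat_lit 5) (nat_lit 25) (nat_lit 5) (nat_lit 361) (nat_lit 264) (nat_lit 155))))) (XT.nd (nat_lit 234) (nat_lit 76) (nat_lit 0) (XT.nd (nat_lit 78) (nat_lit 152)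 (nat_lit 0) (XT.lf (nat_lit 0) (nat_lit 4460638424) (nat_lit 152) (nat_lit 11436433395) (nat_lit 76) (nat_lit 16079753794) (nat_lit 24) (nat_lit 5) (nat_lit 26) (nat_lit 5) (nat_lit 25) (nat_lit 5) (nat_lit 362) (nat_lit 264) (nat_lit 154)) (XT.nd (nat_lit 78) (nat_lit 152) (nat_lit 0) (XT.lf (nat_lit 0) (nat_lit 8862017553) (nat_lit 152) (nat_lit 1624398219) (nat_lit 76) (nat_lit 22271061363) (nat_lit 24) (nat_lit 5) (nat_lit 26) (nat_lit 5) (nat_lit 25) (nat_lit 5) (nat_lit 363) (nat_lit 264) (nat_lit 153)) (XT.lf (nat_lit 0) (nat_lit 8629485810) (nat_lit 152) (nat_lit 4836772581) (nat_lit 228) (nat_lit 20093172129) (nat_lit 22) (nat_lit 5) (nat_lit 24) (nat_lit 5) (nat_lit 25) (nat_lit 5) (nat_lit 364) (nat_lit 264) (nat_lit 152)))) (XT.nd (nat_lit 156) (nat_lit 76) (nat_lit 0) (XT.nd (nat_lit 78) (nat_lit 0) (nat_lit 0) (XT.lf (nat_lit 0) (nat_lit 18222574108) (nat_lit 228) (nat_lit 15191252732)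 (nat_lit 76) (nat_lit 971203963) (nat_lit 22) (nat_lit 5) (nat_lit 25) (nat_lit 5) (nat_lit 23) (nat_lit 4) (nat_lit 365) (nat_lit 264) (nat_lit 151)) (XT.lf (nat_lit 0) (nat_lit 23157758390) (nat_lit 228) (nat_lit 5228659511) (nat_lit 76) (nat_lit 6847902349) (nat_lit 22) (nat_lit 5) (nat_lit 25) (nat_lit 5) (nat_lit 23) (nat_lit 4) (nat_lit 366) (nat_lit 264) (nat_lit 150))) (XT.nd (nat_lit 78) (nat_lit 0) (nat_lit 0) (XT.lf (nat_lit 0) (nat_lit 5112803355) (nat_lit 76) (nat_lit 23165973555) (nat_lit 152) (nat_lit 7829184449) (nat_lit 21) (nat_lit 5) (nat_lit 22) (nat_lit 5) (nat_lit 23) (nat_lit 4) (nat_lit 367) (nat_lit 264) (nat_lit 149)) (XT.lf (nat_lit 0) (nat_lit 15852109038) (nat_lit 76) (nat_lit 17742890352) (nat_lit 152) (nat_lit 3411571265) (nat_lit 21) (nat_lit 5) (nat_lit 22) (nat_lit 5) (nat_lit 23) (nat_lit 4) (nat_lit 368) (nat_lit 264) (nat_lit 148))))))) (XT.nd (nat_lit 1014)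 (nat_lit 304) (nat_lit 0) (XT.nd (nat_lit 468) (nat_lit 228) (nat_lit 0) (XT.nd (nat_lit 234) (nat_lit 76) (nat_lit 0) (XT.nd (nat_lit 78) (nat_lit 152) (nat_lit 0) (XT.lf (nat_lit 0) (nat_lit 1105340099) (nat_lit 152) (nat_lit 11048727018) (nat_lit 76) (nat_lit 25778078952) (nat_lit 20) (nat_lit 5) (nat_lit 22) (nat_lit 5) (nat_lit 21) (nat_lit 5) (nat_lit 369) (nat_lit 264) (nat_lit 147)) (XT.nd (nat_lit 78) (nat_lit 152) (nat_lit 0) (XT.lf (nat_lit 0) (nat_lit 5678497747) (nat_lit 152) (nat_lit 692276029) (nat_lit 76) (nat_lit 32514028021) (nat_lit 20) (nat_lit 5) (nat_lit 22) (nat_lit 5) (nat_lit 21) (nat_lit 5) (nat_lit 370) (nat_lit 264) (nat_lit 146)) (XT.lf (nat_lit 0) (nat_lit 10154893332) (nat_lit 152) (nat_lit 321191399) (nat_lit 228) (nat_lit 29387340894) (nat_lit 18) (nat_lit 5) (nat_lit 20) (nat_lit 5) (nat_lit 21) (nat_lit 5) (nat_lit 371) (nat_lit 264) (nat_lit 145)))) (XT.nd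 (nat_lit 78) (nat_lit 76) (nat_lit 0) (XT.lf (nat_lit 0) (nat_lit 15471143771) (nat_lit 228) (nat_lit 19604602962) (nat_lit 76) (nat_lit 5794060411) (nat_lit 18) (nat_lit 5) (nat_lit 21) (nat_lit 5) (nat_lit 19) (nat_lit 4) (nat_lit 372) (nat_lit 264) (nat_lit 144)) (XT.nd (nat_lit 78) (nat_lit 76) (nat_lit 0) (XT.lf (nat_lit 0) (nat_lit 20609210649) (nat_lit 228) (nat_lit 9218400606) (nat_lit 76) (nat_lit 12078979328) (nat_lit 18) (nat_lit 5) (nat_lit 21) (nat_lit 5) (nat_lit 19) (nat_lit 4) (nat_lit 373) (nat_lit 264) (nat_lit 143)) (XT.lf (nat_lit 0) (nat_lit 1491338979) (nat_lit 76) (nat_lit 24414684132) (nat_lit 152) (nat_lit 17068321309) (nat_lit 17) (nat_lit 5) (nat_lit 18) (nat_lit 5) (nat_lit 19) (nat_lit 4) (nat_lit 374) (nat_lit 264) (nat_lit 142))))) (XT.nd (nat_lit 234) (nat_lit 228) (nat_lit 0) (XT.nd (nat_lit 78) (nat_lit 0) (nat_lit 0) (XT.lf (nat_lit 0) (nat_lit 12694356832)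 (nat_lit 76) (nat_lit 18750859020) (nat_lit 152) (nat_lit 12626415603) (nat_lit 17) (nat_lit 5) (nat_lit 18) (nat_lit 5) (nat_lit 19) (nat_lit 4) (nat_lit 375) (nat_lit 264) (nat_lit 141)) (XT.nd (nat_lit 78) (nat_lit 0) (nat_lit 0) (XT.lf (nat_lit 0) (nat_lit 24216977750) (nat_lit 76) (nat_lit 12924274717) (nat_lit 152) (nat_lit 8060869309) (nat_lit 17) (nat_lit 5) (nat_lit 18) (nat_lit 5) (nat_lit 19) (nat_lit 4) (nat_lit 376) (nat_lit 264) (nat_lit 140)) (XT.lf (nat_lit 0) (nat_lit 36069270040) (nat_lit 76) (nat_lit 6929840033) (nat_lit 152) (nat_lit 3367693115) (nat_lit 17) (nat_lit 5) (nat_lit 18) (nat_lit 5) (nat_lit 19) (nat_lit 4) (nat_lit 377) (nat_lit 264) (nat_lit 139)))) (XT.nd (nat_lit 156) (nat_lit 0) (nat_lit 0) (XT.nd (nat_lit 78) (nat_lit 0) (nat_lit 0) (XT.lf (nat_lit 0) (nat_lit 694440096) (nat_lit 152) (nat_lit 741013607) (nat_lit 228) (nat_lit 46130619182) (nat_lit 14) (nat_lit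 5) (nat_lit 16) (nat_lit 5) (nat_lit 17) (nat_lit 5) (nat_lit 378) (nat_lit 264) (nat_lit 138)) (XT.lf (nat_lit 0) (nat_lit 6465330789) (nat_lit 228) (nat_lit 36675235099) (nat_lit 76) (nat_lit 5655248978) (nat_lit 14) (nat_lit 5) (nat_lit 17) (nat_lit 5) (nat_lit 15) (nat_lit 4) (nat_lit 379) (nat_lit 264) (nat_lit 137))) (XT.nd (nat_lit 78) (nat_lit 0) (nat_lit 0) (XT.lf (nat_lit 0) (nat_lit 11644854816) (nat_lit 228) (nat_lit 26195593276) (nat_lit 76) (nat_lit 12222042562) (nat_lit 14) (nat_lit 5) (nat_lit 17) (nat_lit 5) (nat_lit 15) (nat_lit 4) (nat_lit 380) (nat_lit 264) (nat_lit 136)) (XT.lf (nat_lit 0) (nat_lit 16971428508) (nat_lit 228) (nat_lit 15416427277) (nat_lit 76) (nat_lit 18979564965) (nat_lit 14) (nat_lit 5) (nat_lit 17) (nat_lit 5) (nat_lit 15) (nat_lit 4) (nat_lit 381) (nat_lit 264) (nat_lit 135)))))) (XT.nd (nat_lit 546) (nat_lit 152) (nat_lit 0) (XT.nd (nat_lit 234) (nat_lit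 76) (nat_lit 0) (XT.nd (nat_lit 78) (nat_lit 76) (nat_lit 0) (XT.lf (nat_lit 0) (nat_lit 22449706152) (nat_lit 228) (nat_lit 4328318412) (nat_lit 76) (nat_lit 25933720817) (nat_lit 14) (nat_lit 5) (nat_lit 17) (nat_lit 5) (nat_lit 15) (nat_lit 4) (nat_lit 382) (nat_lit 264) (nat_lit 134)) (XT.nd (nat_lit 78) (nat_lit 0) (nat_lit 0) (XT.lf (nat_lit 0) (nat_lit 7219296432) (nat_lit 76) (nat_lit 20934574455) (nat_lit 152) (nat_lit 25940686426) (nat_lit 13) (nat_lit 5) (nat_lit 14) (nat_lit 5) (nat_lit 15) (nat_lit 4) (nat_lit 383) (nat_lit 264) (nat_lit 133)) (XT.lf (nat_lit 0) (nat_lit 19188191614) (nat_lit 76) (nat_lit 14876914436) (nat_lit 152) (nat_lit 21452672802) (nat_lit 13) (nat_lit 5) (nat_lit 14) (nat_lit 5) (nat_lit 15) (nat_lit 4) (nat_lit 384) (nat_lit 264) (nat_lit 132)))) (XT.nd (nat_lit 156) (nat_lit 76) (nat_lit 0) (XT.nd (nat_lit 78) (nat_lit 0) (nat_lit 0) (XT.lf (nat_lit 0)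 (nat_lit 31502683369) (nat_lit 76) (nat_lit 8643458937) (nat_lit 152) (nat_lit 16837784321) (nat_lit 13) (nat_lit 5) (nat_lit 14) (nat_lit 5) (nat_lit 15) (nat_lit 4) (nat_lit 385) (nat_lit 264) (nat_lit 131)) (XT.lf (nat_lit 0) (nat_lit 44173531931) (nat_lit 76) (nat_lit 2228761249) (nat_lit 152) (nat_lit 12091988557) (nat_lit 13) (nat_lit 5) (nat_lit 14) (nat_lit 5) (nat_lit 15) (nat_lit 4) (nat_lit 386) (nat_lit 264) (nat_lit 130))) (XT.nd (nat_lit 78) (nat_lit 76) (nat_lit 0) (XT.lf (nat_lit 0) (nat_lit 52881059086) (nat_lit 152) (nat_lit 2880388865) (nat_lit 0) (nat_lit 4287454942) (nat_lit 13) (nat_lit 5) (nat_lit 15) (nat_lit 4) (nat_lit 13) (nat_lit 4) (nat_lit 387) (nat_lit 264) (nat_lit 129)) (XT.lf (nat_lit 0) (nat_lit 9045133983) (nat_lit 76) (nat_lit 50611119612) (nat_lit 76) (nat_lit 1990850333) (nat_lit 12) (nat_lit 4) (nat_lit 13) (nat_lit 5) (nat_lit 13) (nat_lit 4) (nat_lit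 388) (nat_lit 264) (nat_lit 128))))) (XT.nd (nat_lit 234) (nat_lit 76) (nat_lit 0) (XT.nd (nat_lit 78) (nat_lit 0) (nat_lit 0) (XT.lf (nat_lit 0) (nat_lit 3298687270) (nat_lit 152) (nat_lit 41949822600) (nat_lit 76) (nat_lit 18043107405) (nat_lit 11) (nat_lit 5) (nat_lit 13) (nat_lit 5) (nat_lit 12) (nat_lit 4) (nat_lit 389) (nat_lit 264) (nat_lit 127)) (XT.nd (nat_lit 78) (nat_lit 0) (nat_lit 0) (XT.lf (nat_lit 0) (nat_lit 8700162749) (nat_lit 152) (nat_lit 31009961824) (nat_lit 76) (nat_lit 25274955071) (nat_lit 11) (nat_lit 5) (nat_lit 13) (nat_lit 5) (nat_lit 12) (nat_lit 4) (nat_lit 390) (nat_lit 264) (nat_lit 126)) (XT.lf (nat_lit 0) (nat_lit 14257144501) (nat_lit 152) (nat_lit 19753691244) (nat_lit 76) (nat_lit 32718709134) (nat_lit 11) (nat_lit 5) (nat_lit 13) (nat_lit 5) (nat_lit 12) (nat_lit 4) (nat_lit 391) (nat_lit 264) (nat_lit 125)))) (XT.nd (nat_lit 156) (nat_lit 0) (nat_lit 0)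 (XT.nd (nat_lit 78) (nat_lit 76) (nat_lit 0) (XT.lf (nat_lit 0) (nat_lit 19974488141) (nat_lit 152) (nat_lit 8171175283) (nat_lit 76) (nat_lit 40380873845) (nat_lit 11) (nat_lit 5) (nat_lit 13) (nat_lit 5) (nat_lit 12) (nat_lit 4) (nat_lit 392) (nat_lit 264) (nat_lit 124)) (XT.lf (nat_lit 0) (nat_lit 3822293414) (nat_lit 76) (nat_lit 22071638213) (nat_lit 152) (nat_lit 44482593107) (nat_lit 10) (nat_lit 5) (nat_lit 11) (nat_lit 5) (nat_lit 12) (nat_lit 4) (nat_lit 393) (nat_lit 264) (nat_lit 123))) (XT.nd (nat_lit 78) (nat_lit 0) (nat_lit 0) (XT.lf (nat_lit 0) (nat_lit 16332066718) (nat_lit 76) (nat_lit 15735315616) (nat_lit 152) (nat_lit 40212339383) (nat_lit 10) (nat_lit 5) (nat_lit 11) (nat_lit 5) (nat_lit 12) (nat_lit 4) (nat_lit 394) (nat_lit 264) (nat_lit 122)) (XT.lf (nat_lit 0) (nat_lit 29206453088) (nat_lit 76) (nat_lit 9213671889) (nat_lit 152) (nat_lit 35820069516) (nat_lit 10) (nat_lit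 5) (nat_lit 11) (nat_lit 5) (nat_lit 12) (nat_lit 4) (nat_lit 395) (nat_lit 264) (nat_lit 121))))))))
noncomputable def xc119 : XT := (XT.nd (nat_lit 31512) (nat_lit 0) (nat_lit 8132) (XT.nd (nat_lit 30498) (nat_lit 0) (nat_lit 19000) (XT.nd (nat_lit 468) (nat_lit 152) (nat_lit 0) (XT.nd (nat_lit 234) (nat_lit 76) (nat_lit 0) (XT.nd (nat_lit 78) (nat_lit 0) (nat_lit 0) (XT.lf (nat_lit 0) (nat_lit 42456701987) (nat_lit 76) (nat_lit 2501008508) (nat_lit 152) (nat_lit 31301945600) (nat_lit 10) (nat_lit 5) (nat_lit 11) (nat_lit 5) (nat_lit 12) (nat_lit 4) (nat_lit 396) (nat_lit 264) (nat_lit 120)) (XT.nd (nat_lit 78) (nat_lit 0) (nat_lit 0) (XT.lf (nat_lit 0) (nat_lit 51728228927) (nat_lit 152) (nat_lit 22287857383) (nat_lit 0) (nat_lit 4322513466) (nat_lit 10) (nat_lit 5) (nat_lit 12) (nat_lit 4) (nat_lit 10) (nat_lit 4) (nat_lit 397) (nat_lit 264) (nat_lit 119)) (XT.lf (nat_lit 0) (nat_lit 58721173486)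 (nat_lit 152) (nat_lit 10461966721) (nat_lit 0) (nat_lit 11296194563) (nat_lit 10) (nat_lit 5) (nat_lit 12) (nat_lit 4) (nat_lit 10) (nat_lit 4) (nat_lit 398) (nat_lit 264) (nat_lit 118)))) (XT.nd (nat_lit 78) (nat_lit 0) (nat_lit 0) (XT.lf (nat_lit 0) (nat_lit 1743106692) (nat_lit 76) (nat_lit 64192262403) (nat_lit 76) (nat_lit 16748581091) (nat_lit 9) (nat_lit 4) (nat_lit 10) (nat_lit 5) (nat_lit 10) (nat_lit 4) (nat_lit 399) (nat_lit 264) (nat_lit 117)) (XT.nd (nat_lit 78) (nat_lit 0) (nat_lit 0) (XT.lf (nat_lit 0) (nat_lit 14519278311) (nat_lit 76) (nat_lit 58947127231) (nat_lit 76) (nat_lit 11485288260) (nat_lit 9) (nat_lit 4) (nat_lit 10) (nat_lit 5) (nat_lit 10) (nat_lit 4) (nat_lit 400) (nat_lit 264) (nat_lit 116)) (XT.lf (nat_lit 0) (nat_lit 27669498129) (nat_lit 76) (nat_lit 53548796915) (nat_lit 76) (nat_lit 6069329148) (nat_lit 9) (nat_lit 4) (nat_lit 10) (nat_lit 5) (nat_lit 10)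 (nat_lit 4) (nat_lit 401) (nat_lit 264) (nat_lit 115))))) (XT.nd (nat_lit 234) (nat_lit 76) (nat_lit 0) (XT.nd (nat_lit 78) (nat_lit 76) (nat_lit 0) (XT.lf (nat_lit 0) (nat_lit 41205256628) (nat_lit 76) (nat_lit 47992554467) (nat_lit 76) (nat_lit 495971365) (nat_lit 9) (nat_lit 4) (nat_lit 10) (nat_lit 5) (nat_lit 10) (nat_lit 4) (nat_lit 402) (nat_lit 264) (nat_lit 114)) (XT.nd (nat_lit 78) (nat_lit 0) (nat_lit 0) (XT.lf (nat_lit 0) (nat_lit 5137410473) (nat_lit 152) (nat_lit 37084256672) (nat_lit 76) (nat_lit 49949092925) (nat_lit 8) (nat_lit 5) (nat_lit 10) (nat_lit 5) (nat_lit 9) (nat_lit 4) (nat_lit 403) (nat_lit 264) (nat_lit 113)) (XT.lf (nat_lit 0) (nat_lit 10925130191) (nat_lit 152) (nat_lit 25351318490) (nat_lit 76) (nat_lit 58445593747) (nat_lit 8) (nat_lit 5) (nat_lit 10) (nat_lit 5) (nat_lit 9) (nat_lit 4) (nat_lit 404) (nat_lit 264) (nat_lit 112)))) (XT.nd (nat_lit 156) (nat_lit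 76) (nat_lit 0) (XT.nd (nat_lit 78) (nat_lit 0) (nat_lit 0) (XT.lf (nat_lit 0) (nat_lit 16881923207) (nat_lit 152) (nat_lit 13274691624) (nat_lit 76) (nat_lit 67193387006) (nat_lit 8) (nat_lit 5) (nat_lit 10) (nat_lit 5) (nat_lit 9) (nat_lit 4) (nat_lit 405) (nat_lit 264) (nat_lit 111)) (XT.lf (nat_lit 0) (nat_lit 23012994486) (nat_lit 152) (nat_lit 843823682) (nat_lit 76) (nat_lit 76200116406) (nat_lit 8) (nat_lit 5) (nat_lit 10) (nat_lit 5) (nat_lit 9) (nat_lit 4) (nat_lit 406) (nat_lit 264) (nat_lit 110))) (XT.nd (nat_lit 29562) (nat_lit 0) (nat_lit 21128) (XT.lf (nat_lit 0) (nat_lit 12190018426) (nat_lit 76) (nat_lit 17250860762) (nat_lit 152) (nat_lit 73400811391) (nat_lit 7) (nat_lit 5) (nat_lit 8) (nat_lit 5) (nat_lit 9) (nat_lit 4) (nat_lit 407) (nat_lit 264) (nat_lit 109)) (XT.lf (nat_lit 0) (nat_lit 97042585) (nat_lit 0) (nat_lit 97042585) (nat_lit 380) (nat_lit 3082306928) (nat_lit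 285) (nat_lit 5) (nat_lit 285) (nat_lit 3) (nat_lit 290) (nat_lit 3) (nat_lit 265) (nat_lit 265) (nat_lit 250)))))) (XT.nd (nat_lit 468) (nat_lit 1140) (nat_lit 0) (XT.nd (nat_lit 234) (nat_lit 532) (nat_lit 0) (XT.nd (nat_lit 78) (nat_lit 456) (nat_lit 0) (XT.lf (nat_lit 0) (nat_lit 2714688889) (nat_lit 380) (nat_lit 3369200074) (nat_lit 456) (nat_lit 491927822) (nat_lit 285) (nat_lit 5) (nat_lit 290) (nat_lit 3) (nat_lit 291) (nat_lit 5) (nat_lit 266) (nat_lit 265) (nat_lit 249)) (XT.nd (nat_lit 78) (nat_lit 456) (nat_lit 0) (XT.lf (nat_lit 0) (nat_lit 5022976979) (nat_lit 380) (nat_lit 340494726) (nat_lit 456) (nat_lit 1238929472) (nat_lit 285) (nat_lit 5) (nat_lit 290) (nat_lit 3) (nat_lit 291) (nat_lit 5) (nat_lit 267) (nat_lit 265) (nat_lit 248)) (XT.lf (nat_lit 0) (nat_lit 694337766) (nat_lit 456) (nat_lit 3852320429) (nat_lit 532) (nat_lit 2084950652) (nat_lit 279) (nat_lit 5) (nat_lit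 285) (nat_lit 5) (nat_lit 286) (nat_lit 5) (nat_lit 268) (nat_lit 265) (nat_lit 247)))) (XT.nd (nat_lit 78) (nat_lit 532) (nat_lit 0) (XT.lf (nat_lit 0) (nat_lit 2921759832) (nat_lit 456) (nat_lit 726215635) (nat_lit 532) (nat_lit 3015933755) (nat_lit 279) (nat_lit 5) (nat_lit 285) (nat_lit 5) (nat_lit 286) (nat_lit 5) (nat_lit 269) (nat_lit 265) (nat_lit 246)) (XT.nd (nat_lit 78) (nat_lit 532) (nat_lit 0) (XT.lf (nat_lit 76) (nat_lit 2495178733) (nat_lit 0) (nat_lit 2661043761) (nat_lit 532) (nat_lit 1542945086) (nat_lit 280) (nat_lit 5) (nat_lit 279) (nat_lit 5) (nat_lit 286) (nat_lit 5) (nat_lit 270) (nat_lit 265) (nat_lit 245)) (XT.lf (nat_lit 0) (nat_lit 632775579) (nat_lit 532) (nat_lit 962729749) (nat_lit 608) (nat_lit 5142215361) (nat_lit 272) (nat_lit 5) (nat_lit 279) (nat_lit 5) (nat_lit 280) (nat_lit 5) (nat_lit 271) (nat_lit 265) (nat_lit 244))))) (XT.nd (nat_lit 234) (nat_lit 608)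 (nat_lit 0) (XT.nd (nat_lit 78) (nat_lit 532) (nat_lit 0) (XT.lf (nat_lit 76) (nat_lit 2359392305) (nat_lit 0) (nat_lit 425682340) (nat_lit 608) (nat_lit 3993806808) (nat_lit 273) (nat_lit 5) (nat_lit 272) (nat_lit 5) (nat_lit 280) (nat_lit 5) (nat_lit 272) (nat_lit 265) (nat_lit 243)) (XT.nd (nat_lit 78) (nat_lit 608) (nat_lit 0) (XT.lf (nat_lit 0) (nat_lit 4941087199) (nat_lit 532) (nat_lit 1077168738) (nat_lit 608) (nat_lit 805020476) (nat_lit 273) (nat_lit 5) (nat_lit 280) (nat_lit 5) (nat_lit 281) (nat_lit 5) (nat_lit 273) (nat_lit 265) (nat_lit 242)) (XT.lf (nat_lit 0) (nat_lit 237418537) (nat_lit 608) (nat_lit 4513794354) (nat_lit 684) (nat_lit 2119358993) (nat_lit 265) (nat_lit 5) (nat_lit 273) (nat_lit 5) (nat_lit 274) (nat_lit 5) (nat_lit 274) (nat_lit 265) (nat_lit 241)))) (XT.nd (nat_lit 156) (nat_lit 608) (nat_lit 0) (XT.nd (nat_lit 78) (nat_lit 0) (nat_lit 0) (XT.lf (nat_lit 0)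 (nat_lit 2318740317) (nat_lit 608) (nat_lit 1071128598) (nat_lit 684) (nat_lit 3530938527) (nat_lit 265) (nat_lit 5) (nat_lit 273) (nat_lit 5) (nat_lit 274) (nat_lit 5) (nat_lit 275) (nat_lit 265) (nat_lit 240)) (XT.lf (nat_lit 76) (nat_lit 2475305116) (nat_lit 0) (nat_lit 1938147040) (nat_lit 684) (nat_lit 2560723734) (nat_lit 266) (nat_lit 5) (nat_lit 265) (nat_lit 5) (nat_lit 274) (nat_lit 5) (nat_lit 276) (nat_lit 265) (nat_lit 239))) (XT.nd (nat_lit 78) (nat_lit 608) (nat_lit 0) (XT.lf (nat_lit 76) (nat_lit 6102743563) (nat_lit 0) (nat_lit 407900895) (nat_lit 684) (nat_lit 520461601) (nat_lit 266) (nat_lit 5) (nat_lit 265) (nat_lit 5) (nat_lit 274) (nat_lit 5) (nat_lit 277) (nat_lit 265) (nat_lit 238)) (XT.lf (nat_lit 0) (nat_lit 1518422019) (nat_lit 684) (nat_lit 4362562123) (nat_lit 76) (nat_lit 1209397360) (nat_lit 257) (nat_lit 5) (nat_lit 266) (nat_lit 5) (nat_lit 258) (nat_lit 5)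 (nat_lit 278) (nat_lit 265) (nat_lit 237))))))) (XT.nd (nat_lit 1014) (nat_lit 4256) (nat_lit 0) (XT.nd (nat_lit 468) (nat_lit 4256) (nat_lit 0) (XT.nd (nat_lit 234) (nat_lit 1596) (nat_lit 0) (XT.nd (nat_lit 78) (nat_lit 760) (nat_lit 0) (XT.lf (nat_lit 0) (nat_lit 3553376137) (nat_lit 684) (nat_lit 697147337) (nat_lit 76) (nat_lit 2902533325) (nat_lit 257) (nat_lit 5) (nat_lit 266) (nat_lit 5) (nat_lit 258) (nat_lit 5) (nat_lit 279) (nat_lit 265) (nat_lit 236)) (XT.nd (nat_lit 78) (nat_lit 76) (nat_lit 0) (XT.lf (nat_lit 0) (nat_lit 3090551194) (nat_lit 684) (nat_lit 2522379320) (nat_lit 760) (nat_lit 1605908424) (nat_lit 248) (nat_lit 5) (nat_lit 257) (nat_lit 5) (nat_lit 258) (nat_lit 5) (nat_lit 280) (nat_lit 265) (nat_lit 235)) (XT.lf (nat_lit 0) (nat_lit 380597027) (nat_lit 760) (nat_lit 333529047) (nat_lit 76) (nat_lit 6574215180) (nat_lit 247) (nat_lit 5) (nat_lit 257) (nat_lit 5) (nat_lit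 248) (nat_lit 5) (nat_lit 281) (nat_lit 265) (nat_lit 234)))) (XT.nd (nat_lit 78) (nat_lit 836) (nat_lit 0) (XT.lf (nat_lit 0) (nat_lit 2376992439) (nat_lit 836) (nat_lit 3790595803) (nat_lit 76) (nat_lit 1192508073) (nat_lit 237) (nat_lit 5) (nat_lit 248) (nat_lit 5) (nat_lit 238) (nat_lit 5) (nat_lit 282) (nat_lit 265) (nat_lit 233)) (XT.nd (nat_lit 78) (nat_lit 0) (nat_lit 0) (XT.lf (nat_lit 0) (nat_lit 108385476) (nat_lit 836) (nat_lit 4274404430) (nat_lit 912) (nat_lit 3052847100) (nat_lit 226) (nat_lit 5) (nat_lit 237) (nat_lit 5) (nat_lit 238) (nat_lit 5) (nat_lit 283) (nat_lit 265) (nat_lit 232)) (XT.lf (nat_lit 0) (nat_lit 4153341251) (nat_lit 836) (nat_lit 2273031877) (nat_lit 912) (nat_lit 1087857277) (nat_lit 226) (nat_lit 5) (nat_lit 237) (nat_lit 5) (nat_lit 238) (nat_lit 5) (nat_lit 284) (nat_lit 265) (nat_lit 231))))) (XT.nd (nat_lit 234) (nat_lit 2280) (nat_lit 0) (XT.nd (nat_lit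 78) (nat_lit 988) (nat_lit 0) (XT.lf (nat_lit 0) (nat_lit 680164076) (nat_lit 912) (nat_lit 184598712) (nat_lit 988) (nat_lit 6731848713) (nat_lit 213) (nat_lit 5) (nat_lit 225) (nat_lit 5) (nat_lit 226) (nat_lit 5) (nat_lit 285) (nat_lit 265) (nat_lit 230)) (XT.nd (nat_lit 78) (nat_lit 988) (nat_lit 0) (XT.lf (nat_lit 0) (nat_lit 2849054390) (nat_lit 988) (nat_lit 2849162937) (nat_lit 76) (nat_lit 1983179940) (nat_lit 213) (nat_lit 5) (nat_lit 226) (nat_lit 5) (nat_lit 214) (nat_lit 5) (nat_lit 286) (nat_lit 265) (nat_lit 229)) (XT.lf (nat_lit 0) (nat_lit 1315387184) (nat_lit 988) (nat_lit 3535435583) (nat_lit 1064) (nat_lit 2919267432) (nat_lit 200) (nat_lit 5) (nat_lit 213) (nat_lit 5) (nat_lit 214) (nat_lit 5) (nat_lit 287) (nat_lit 265) (nat_lit 228)))) (XT.nd (nat_lit 156) (nat_lit 1140) (nat_lit 0) (XT.nd (nat_lit 78) (nat_lit 1140) (nat_lit 0) (XT.lf (nat_lit 0) (nat_lit 5615162126)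 (nat_lit 988) (nat_lit 1270912842) (nat_lit 1064) (nat_lit 976265091) (nat_lit 200) (nat_lit 5) (nat_lit 213) (nat_lit 5) (nat_lit 214) (nat_lit 5) (nat_lit 288) (nat_lit 265) (nat_lit 227)) (XT.lf (nat_lit 0) (nat_lit 981122083) (nat_lit 1140) (nat_lit 5899542991) (nat_lit 76) (nat_lit 1077207217) (nat_lit 185) (nat_lit 5) (nat_lit 200) (nat_lit 5) (nat_lit 186) (nat_lit 5) (nat_lit 289) (nat_lit 265) (nat_lit 226))) (XT.nd (nat_lit 78) (nat_lit 1140) (nat_lit 0) (XT.lf (nat_lit 0) (nat_lit 2959937491) (nat_lit 1140) (nat_lit 1588161181) (nat_lit 76) (nat_lit 3508502640) (nat_lit 185) (nat_lit 5) (nat_lit 200) (nat_lit 5) (nat_lit 186) (nat_lit 5) (nat_lit 290) (nat_lit 265) (nat_lit 225)) (XT.lf (nat_lit 0) (nat_lit 2860651477) (nat_lit 1140) (nat_lit 2113341420) (nat_lit 1216) (nat_lit 3185111056) (nat_lit 170) (nat_lit 5) (nat_lit 185) (nat_lit 5) (nat_lit 186) (nat_lit 5) (nat_lit 291)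 (nat_lit 265) (nat_lit 224)))))) (XT.nd (nat_lit 546) (nat_lit 1900) (nat_lit 0) (XT.nd (nat_lit 234) (nat_lit 1748) (nat_lit 0) (XT.nd (nat_lit 78) (nat_lit 608) (nat_lit 0) (XT.lf (nat_lit 0) (nat_lit 7017916099) (nat_lit 1216) (nat_lit 841565582) (nat_lit 76) (nat_lit 406202061) (nat_lit 170) (nat_lit 5) (nat_lit 186) (nat_lit 5) (nat_lit 171) (nat_lit 5) (nat_lit 292) (nat_lit 265) (nat_lit 223)) (XT.nd (nat_lit 78) (nat_lit 0) (nat_lit 0) (XT.lf (nat_lit 0) (nat_lit 741042210) (nat_lit 608) (nat_lit 4628689840) (nat_lit 76) (nat_lit 3005355710) (nat_lit 162) (nat_lit 5) (nat_lit 170) (nat_lit 5) (nat_lit 163) (nat_lit 5) (nat_lit 293) (nat_lit 265) (nat_lit 222)) (XT.lf (nat_lit 0) (nat_lit 2724372311) (nat_lit 608) (nat_lit 58761069) (nat_lit 76) (nat_lit 5705550050) (nat_lit 162) (nat_lit 5) (nat_lit 170) (nat_lit 5) (nat_lit 163) (nat_lit 5) (nat_lit 294) (nat_lit 265) (nat_lit 221))))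 (XT.nd (nat_lit 156) (nat_lit 608) (nat_lit 0) (XT.nd (nat_lit 78) (nat_lit 532) (nat_lit 0) (XT.lf (nat_lit 0) (nat_lit 4693190857) (nat_lit 608) (nat_lit 71894739) (nat_lit 684) (nat_lit 3840740798) (nat_lit 154) (nat_lit 5) (nat_lit 162) (nat_lit 5) (nat_lit 163) (nat_lit 5) (nat_lit 295) (nat_lit 265) (nat_lit 220)) (XT.lf (nat_lit 0) (nat_lit 804314379) (nat_lit 532) (nat_lit 6050891548) (nat_lit 608) (nat_lit 1871705864) (nat_lit 147) (nat_lit 5) (nat_lit 154) (nat_lit 5) (nat_lit 155) (nat_lit 5) (nat_lit 296) (nat_lit 265) (nat_lit 219))) (XT.nd (nat_lit 78) (nat_lit 532) (nat_lit 0) (XT.lf (nat_lit 0) (nat_lit 148038254) (nat_lit 608) (nat_lit 3158251061) (nat_lit 76) (nat_lit 5545524111) (nat_lit 146) (nat_lit 5) (nat_lit 154) (nat_lit 5) (nat_lit 147) (nat_lit 5) (nat_lit 297) (nat_lit 265) (nat_lit 218)) (XT.lf (nat_lit 0) (nat_lit 1717228332) (nat_lit 532) (nat_lit 445448643) (nat_lit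 608) (nat_lit 6818138988) (nat_lit 139) (nat_lit 5) (nat_lit 146) (nat_lit 5) (nat_lit 147) (nat_lit 5) (nat_lit 298) (nat_lit 265) (nat_lit 217))))) (XT.nd (nat_lit 234) (nat_lit 1444) (nat_lit 0) (XT.nd (nat_lit 78) (nat_lit 456) (nat_lit 0) (XT.lf (nat_lit 0) (nat_lit 4250249198) (nat_lit 608) (nat_lit 2381046597) (nat_lit 76) (nat_lit 2482083443) (nat_lit 139) (nat_lit 5) (nat_lit 147) (nat_lit 5) (nat_lit 140) (nat_lit 5) (nat_lit 299) (nat_lit 265) (nat_lit 216)) (XT.nd (nat_lit 78) (nat_lit 0) (nat_lit 0) (XT.lf (nat_lit 0) (nat_lit 2648970712) (nat_lit 456) (nat_lit 3738869455) (nat_lit 532) (nat_lit 2862521081) (nat_lit 133) (nat_lit 5) (nat_lit 139) (nat_lit 5) (nat_lit 140) (nat_lit 5) (nat_lit 300) (nat_lit 265) (nat_lit 215)) (XT.lf (nat_lit 0) (nat_lit 7832870861) (nat_lit 456) (nat_lit 739046413) (nat_lit 532) (nat_lit 820126426) (nat_lit 133) (nat_lit 5) (nat_lit 139) (nat_lit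 5) (nat_lit 140) (nat_lit 5) (nat_lit 301) (nat_lit 265) (nat_lit 214)))) (XT.nd (nat_lit 156) (nat_lit 912) (nat_lit 0) (XT.nd (nat_lit 78) (nat_lit 0) (nat_lit 0) (XT.lf (nat_lit 0) (nat_lit 1275651308) (nat_lit 532) (nat_lit 5913074514) (nat_lit 76) (nat_lit 2348424116) (nat_lit 126) (nat_lit 5) (nat_lit 133) (nat_lit 5) (nat_lit 127) (nat_lit 5) (nat_lit 302) (nat_lit 265) (nat_lit 213)) (XT.lf (nat_lit 0) (nat_lit 3400820291) (nat_lit 532) (nat_lit 753083646) (nat_lit 76) (nat_lit 5533028266) (nat_lit 126) (nat_lit 5) (nat_lit 133) (nat_lit 5) (nat_lit 127) (nat_lit 5) (nat_lit 303) (nat_lit 265) (nat_lit 212))) (XT.nd (nat_lit 78) (nat_lit 456) (nat_lit 0) (XT.lf (nat_lit 0) (nat_lit 4606810141) (nat_lit 456) (nat_lit 988172902) (nat_lit 532) (nat_lit 4246122583) (nat_lit 120) (nat_lit 5) (nat_lit 126) (nat_lit 5) (nat_lit 127) (nat_lit 5) (nat_lit 304) (nat_lit 265) (nat_lit 211)) (XT.lf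 (nat_lit 0) (nat_lit 77352765) (nat_lit 456) (nat_lit 7769494626) (nat_lit 532) (nat_lit 2153353809) (nat_lit 114) (nat_lit 5) (nat_lit 120) (nat_lit 5) (nat_lit 121) (nat_lit 5) (nat_lit 305) (nat_lit 265) (nat_lit 210))))))))
noncomputable def xc120 : XT := (XT.nd (nat_lit 2028) (nat_lit 2052) (nat_lit 0) (XT.nd (nat_lit 1014) (nat_lit 2052) (nat_lit 0) (XT.nd (nat_lit 468) (nat_lit 1140) (nat_lit 0) (XT.nd (nat_lit 234) (nat_lit 836) (nat_lit 0) (XT.nd (nat_lit 78) (nat_lit 380) (nat_lit 0) (XT.lf (nat_lit 0) (nat_lit 27187824) (nat_lit 532) (nat_lit 4563025453) (nat_lit 76) (nat_lit 5573154944) (nat_lit 113) (nat_lit 5) (nat_lit 120) (nat_lit 5) (nat_lit 114) (nat_lit 5) (nat_lit 306) (nat_lit 265) (nat_lit 209)) (XT.nd (nat_lit 78) (nat_lit 0) (nat_lit 0) (XT.lf (nat_lit 0) (nat_lit 909493616) (nat_lit 380) (nat_lit 1292094372) (nat_lit 456) (nat_lit 8130099712) (nat_lit 108) (nat_lit 5)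 (nat_lit 113) (nat_lit 5) (nat_lit 114) (nat_lit 5) (nat_lit 307) (nat_lit 265) (nat_lit 208)) (XT.lf (nat_lit 0) (nat_lit 4471548371) (nat_lit 456) (nat_lit 3929792356) (nat_lit 76) (nat_lit 2102853501) (nat_lit 108) (nat_lit 5) (nat_lit 114) (nat_lit 5) (nat_lit 109) (nat_lit 5) (nat_lit 308) (nat_lit 265) (nat_lit 207)))) (XT.nd (nat_lit 78) (nat_lit 456) (nat_lit 0) (XT.lf (nat_lit 0) (nat_lit 1704001487) (nat_lit 380) (nat_lit 5099400499) (nat_lit 456) (nat_lit 3878706068) (nat_lit 103) (nat_lit 5) (nat_lit 108) (nat_lit 5) (nat_lit 109) (nat_lit 5) (nat_lit 309) (nat_lit 265) (nat_lit 206)) (XT.nd (nat_lit 78) (nat_lit 456) (nat_lit 0) (XT.lf (nat_lit 0) (nat_lit 7543957694) (nat_lit 380) (nat_lit 1666171391) (nat_lit 456) (nat_lit 1655127272) (nat_lit 103) (nat_lit 5) (nat_lit 108) (nat_lit 5) (nat_lit 109) (nat_lit 5) (nat_lit 310) (nat_lit 265) (nat_lit 205)) (XT.lf (nat_lit 0) (nat_lit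 630907089) (nat_lit 456) (nat_lit 8567123760) (nat_lit 76) (nat_lit 1855482856) (nat_lit 97) (nat_lit 5) (nat_lit 103) (nat_lit 5) (nat_lit 98) (nat_lit 5) (nat_lit 311) (nat_lit 265) (nat_lit 204))))) (XT.nd (nat_lit 234) (nat_lit 760) (nat_lit 0) (XT.nd (nat_lit 78) (nat_lit 380) (nat_lit 0) (XT.lf (nat_lit 0) (nat_lit 2968994583) (nat_lit 456) (nat_lit 2786642844) (nat_lit 76) (nat_lit 5490828382) (nat_lit 97) (nat_lit 5) (nat_lit 103) (nat_lit 5) (nat_lit 98) (nat_lit 5) (nat_lit 312) (nat_lit 265) (nat_lit 203)) (XT.nd (nat_lit 78) (nat_lit 0) (nat_lit 0) (XT.lf (nat_lit 0) (nat_lit 3187305991) (nat_lit 380) (nat_lit 2187907631) (nat_lit 456) (nat_lit 6070092811) (nat_lit 92) (nat_lit 5) (nat_lit 97) (nat_lit 5) (nat_lit 98) (nat_lit 5) (nat_lit 313) (nat_lit 265) (nat_lit 202)) (XT.lf (nat_lit 0) (nat_lit 7864137871) (nat_lit 456) (nat_lit 2308880568) (nat_lit 76) (nat_lit 1476816746)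 (nat_lit 92) (nat_lit 5) (nat_lit 98) (nat_lit 5) (nat_lit 93) (nat_lit 5) (nat_lit 314) (nat_lit 265) (nat_lit 201)))) (XT.nd (nat_lit 156) (nat_lit 380) (nat_lit 0) (XT.nd (nat_lit 78) (nat_lit 76) (nat_lit 0) (XT.lf (nat_lit 0) (nat_lit 3830399160) (nat_lit 304) (nat_lit 6624558763) (nat_lit 380) (nat_lit 1404762385) (nat_lit 88) (nat_lit 5) (nat_lit 92) (nat_lit 5) (nat_lit 93) (nat_lit 5) (nat_lit 315) (nat_lit 265) (nat_lit 200)) (XT.lf (nat_lit 0) (nat_lit 1019626033) (nat_lit 380) (nat_lit 1925960531) (nat_lit 76) (nat_lit 9130274483) (nat_lit 87) (nat_lit 5) (nat_lit 92) (nat_lit 5) (nat_lit 88) (nat_lit 5) (nat_lit 316) (nat_lit 265) (nat_lit 199))) (XT.nd (nat_lit 78) (nat_lit 0) (nat_lit 0) (XT.lf (nat_lit 0) (nat_lit 3509123899) (nat_lit 456) (nat_lit 7914447080) (nat_lit 76) (nat_lit 873913589) (nat_lit 82) (nat_lit 5) (nat_lit 88) (nat_lit 5) (nat_lit 83) (nat_lit 5) (nat_lit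 317) (nat_lit 265) (nat_lit 198)) (XT.lf (nat_lit 0) (nat_lit 6092333427) (nat_lit 456) (nat_lit 1674603111) (nat_lit 76) (nat_lit 4758282639) (nat_lit 82) (nat_lit 5) (nat_lit 88) (nat_lit 5) (nat_lit 83) (nat_lit 5) (nat_lit 318) (nat_lit 265) (nat_lit 197)))))) (XT.nd (nat_lit 468) (nat_lit 1140) (nat_lit 0) (XT.nd (nat_lit 234) (nat_lit 228) (nat_lit 0) (XT.nd (nat_lit 78) (nat_lit 380) (nat_lit 0) (XT.lf (nat_lit 0) (nat_lit 4806560812) (nat_lit 304) (nat_lit 3963770885) (nat_lit 380) (nat_lit 3988967571) (nat_lit 78) (nat_lit 5) (nat_lit 82) (nat_lit 5) (nat_lit 83) (nat_lit 5) (nat_lit 319) (nat_lit 265) (nat_lit 196)) (XT.nd (nat_lit 78) (nat_lit 380) (nat_lit 0) (XT.lf (nat_lit 0) (nat_lit 11477207606) (nat_lit 304) (nat_lit 39925861) (nat_lit 380) (nat_lit 1483645668) (nat_lit 78) (nat_lit 5) (nat_lit 82) (nat_lit 5) (nat_lit 83) (nat_lit 5) (nat_lit 320) (nat_lit 265) (nat_lit 195))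 (XT.lf (nat_lit 0) (nat_lit 1135970215) (nat_lit 380) (nat_lit 8137830840) (nat_lit 76) (nat_lit 3973599398) (nat_lit 73) (nat_lit 5) (nat_lit 78) (nat_lit 5) (nat_lit 74) (nat_lit 5) (nat_lit 321) (nat_lit 265) (nat_lit 194)))) (XT.nd (nat_lit 78) (nat_lit 228) (nat_lit 0) (XT.lf (nat_lit 0) (nat_lit 3792706395) (nat_lit 380) (nat_lit 1582349079) (nat_lit 76) (nat_lit 8126302323) (nat_lit 73) (nat_lit 5) (nat_lit 78) (nat_lit 5) (nat_lit 74) (nat_lit 5) (nat_lit 322) (nat_lit 265) (nat_lit 193)) (XT.nd (nat_lit 78) (nat_lit 0) (nat_lit 0) (XT.lf (nat_lit 0) (nat_lit 5233979722) (nat_lit 228) (nat_lit 1318699397) (nat_lit 304) (nat_lit 7209576502) (nat_lit 70) (nat_lit 5) (nat_lit 73) (nat_lit 5) (nat_lit 74) (nat_lit 5) (nat_lit 323) (nat_lit 265) (nat_lit 192)) (XT.lf (nat_lit 0) (nat_lit 9412606741) (nat_lit 304) (nat_lit 1809199064) (nat_lit 76) (nat_lit 2808686887) (nat_lit 70) (nat_lit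 5) (nat_lit 74) (nat_lit 5) (nat_lit 71) (nat_lit 5) (nat_lit 324) (nat_lit 265) (nat_lit 191))))) (XT.nd (nat_lit 234) (nat_lit 532) (nat_lit 0) (XT.nd (nat_lit 78) (nat_lit 304) (nat_lit 0) (XT.lf (nat_lit 0) (nat_lit 5161948025) (nat_lit 304) (nat_lit 7233364367) (nat_lit 380) (nat_lit 1910381270) (nat_lit 66) (nat_lit 5) (nat_lit 70) (nat_lit 5) (nat_lit 71) (nat_lit 5) (nat_lit 325) (nat_lit 265) (nat_lit 190)) (XT.nd (nat_lit 78) (nat_lit 228) (nat_lit 0) (XT.lf (nat_lit 0) (nat_lit 854082174) (nat_lit 380) (nat_lit 2255253449) (nat_lit 76) (nat_lit 11479800233) (nat_lit 65) (nat_lit 5) (nat_lit 70) (nat_lit 5) (nat_lit 66) (nat_lit 5) (nat_lit 326) (nat_lit 265) (nat_lit 189)) (XT.lf (nat_lit 0) (nat_lit 3696644922) (nat_lit 304) (nat_lit 10011411794) (nat_lit 76) (nat_lit 1171474268) (nat_lit 62) (nat_lit 5) (nat_lit 66) (nat_lit 5) (nat_lit 63) (nat_lit 5) (nat_lit 327) (nat_lit 265)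 (nat_lit 188)))) (XT.nd (nat_lit 156) (nat_lit 304) (nat_lit 0) (XT.nd (nat_lit 78) (nat_lit 228) (nat_lit 0) (XT.lf (nat_lit 0) (nat_lit 6653705389) (nat_lit 304) (nat_lit 2994089090) (nat_lit 76) (nat_lit 5529990138) (nat_lit 62) (nat_lit 5) (nat_lit 66) (nat_lit 5) (nat_lit 63) (nat_lit 5) (nat_lit 328) (nat_lit 265) (nat_lit 187)) (XT.lf (nat_lit 0) (nat_lit 4281824745) (nat_lit 228) (nat_lit 5434964110) (nat_lit 304) (nat_lit 5767700264) (nat_lit 59) (nat_lit 5) (nat_lit 62) (nat_lit 5) (nat_lit 63) (nat_lit 5) (nat_lit 329) (nat_lit 265) (nat_lit 186))) (XT.nd (nat_lit 78) (nat_lit 304) (nat_lit 0) (XT.lf (nat_lit 0) (nat_lit 11802257379) (nat_lit 228) (nat_lit 1076250418) (nat_lit 304) (nat_lit 2921706609) (nat_lit 59) (nat_lit 5) (nat_lit 62) (nat_lit 5) (nat_lit 63) (nat_lit 5) (nat_lit 330) (nat_lit 265) (nat_lit 185)) (XT.lf (nat_lit 0) (nat_lit 52670921) (nat_lit 304) (nat_lit 12702513416)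 (nat_lit 76) (nat_lit 3368949225) (nat_lit 55) (nat_lit 5) (nat_lit 59) (nat_lit 5) (nat_lit 56) (nat_lit 5) (nat_lit 331) (nat_lit 265) (nat_lit 184))))))) (XT.nd (nat_lit 1014) (nat_lit 912) (nat_lit 0) (XT.nd (nat_lit 468) (nat_lit 684) (nat_lit 0) (XT.nd (nat_lit 234) (nat_lit 228) (nat_lit 0) (XT.nd (nat_lit 78) (nat_lit 228) (nat_lit 0) (XT.lf (nat_lit 0) (nat_lit 3086160918) (nat_lit 304) (nat_lit 5385645809) (nat_lit 76) (nat_lit 7984257672) (nat_lit 55) (nat_lit 5) (nat_lit 59) (nat_lit 5) (nat_lit 56) (nat_lit 5) (nat_lit 332) (nat_lit 265) (nat_lit 183)) (XT.nd (nat_lit 78) (nat_lit 0) (nat_lit 0) (XT.lf (nat_lit 0) (nat_lit 2159031069) (nat_lit 228) (nat_lit 4050220572) (nat_lit 304) (nat_lit 10588763132) (nat_lit 52) (nat_lit 5) (nat_lit 55) (nat_lit 5) (nat_lit 56) (nat_lit 5) (nat_lit 333) (nat_lit 265) (nat_lit 182)) (XT.lf (nat_lit 0) (nat_lit 9463856293) (nat_lit 304) (nat_lit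 7147584212) (nat_lit 76) (nat_lit 537667443) (nat_lit 52) (nat_lit 5) (nat_lit 56) (nat_lit 5) (nat_lit 53) (nat_lit 5) (nat_lit 334) (nat_lit 265) (nat_lit 181)))) (XT.nd (nat_lit 78) (nat_lit 76) (nat_lit 0) (XT.lf (nat_lit 0) (nat_lit 505249824) (nat_lit 152) (nat_lit 12334499845) (nat_lit 228) (nat_lit 4670293104) (nat_lit 50) (nat_lit 5) (nat_lit 52) (nat_lit 5) (nat_lit 53) (nat_lit 5) (nat_lit 335) (nat_lit 265) (nat_lit 180)) (XT.nd (nat_lit 78) (nat_lit 76) (nat_lit 0) (XT.lf (nat_lit 0) (nat_lit 8501446032) (nat_lit 152) (nat_lit 7866648897) (nat_lit 228) (nat_lit 1512193300) (nat_lit 50) (nat_lit 5) (nat_lit 52) (nat_lit 5) (nat_lit 53) (nat_lit 5) (nat_lit 336) (nat_lit 265) (nat_lit 179)) (XT.lf (nat_lit 0) (nat_lit 1686074486) (nat_lit 228) (nat_lit 1573059767) (nat_lit 76) (nat_lit 15002639903) (nat_lit 49) (nat_lit 5) (nat_lit 52) (nat_lit 5) (nat_lit 50) (nat_lit 5) (nat_lit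 337) (nat_lit 265) (nat_lit 178))))) (XT.nd (nat_lit 234) (nat_lit 304) (nat_lit 0) (XT.nd (nat_lit 78) (nat_lit 152) (nat_lit 0) (XT.lf (nat_lit 0) (nat_lit 5007789158) (nat_lit 304) (nat_lit 12119505944) (nat_lit 76) (nat_lit 1525239944) (nat_lit 46) (nat_lit 5) (nat_lit 50) (nat_lit 5) (nat_lit 47) (nat_lit 5) (nat_lit 338) (nat_lit 265) (nat_lit 177)) (XT.nd (nat_lit 78) (nat_lit 152) (nat_lit 0) (XT.lf (nat_lit 0) (nat_lit 8457634566) (nat_lit 304) (nat_lit 4203890506) (nat_lit 76) (nat_lit 6392655163) (nat_lit 46) (nat_lit 5) (nat_lit 50) (nat_lit 5) (nat_lit 47) (nat_lit 5) (nat_lit 339) (nat_lit 265) (nat_lit 176)) (XT.lf (nat_lit 0) (nat_lit 3996629432) (nat_lit 152) (nat_lit 8033510110) (nat_lit 228) (nat_lit 7437175696) (nat_lit 44) (nat_lit 5) (nat_lit 46) (nat_lit 5) (nat_lit 47) (nat_lit 5) (nat_lit 340) (nat_lit 265) (nat_lit 175)))) (XT.nd (nat_lit 156) (nat_lit 76) (nat_lit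 0) (XT.nd (nat_lit 78) (nat_lit 228) (nat_lit 0) (XT.lf (nat_lit 0) (nat_lit 12499087539) (nat_lit 152) (nat_lit 3234199320) (nat_lit 228) (nat_lit 4158868357) (nat_lit 44) (nat_lit 5) (nat_lit 46) (nat_lit 5) (nat_lit 47) (nat_lit 5) (nat_lit 341) (nat_lit 265) (nat_lit 174)) (XT.lf (nat_lit 0) (nat_lit 898141987) (nat_lit 228) (nat_lit 18655912823) (nat_lit 304) (nat_lit 775504301) (nat_lit 41) (nat_lit 5) (nat_lit 44) (nat_lit 5) (nat_lit 45) (nat_lit 5) (nat_lit 342) (nat_lit 265) (nat_lit 173))) (XT.nd (nat_lit 78) (nat_lit 0) (nat_lit 0) (XT.lf (nat_lit 0) (nat_lit 2745432728) (nat_lit 304) (nat_lit 11276934884) (nat_lit 76) (nat_lit 6754281619) (nat_lit 40) (nat_lit 5) (nat_lit 44) (nat_lit 5) (nat_lit 41) (nat_lit 5) (nat_lit 343) (nat_lit 265) (nat_lit 172)) (XT.lf (nat_lit 0) (nat_lit 6338474118) (nat_lit 304) (nat_lit 2914547926) (nat_lit 76) (nat_lit 11984451041) (nat_lit 40) (nat_lit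 5) (nat_lit 44) (nat_lit 5) (nat_lit 41) (nat_lit 5) (nat_lit 344) (nat_lit 265) (nat_lit 171)))))) (XT.nd (nat_lit 468) (nat_lit 380) (nat_lit 0) (XT.nd (nat_lit 234) (nat_lit 228) (nat_lit 0) (XT.nd (nat_lit 78) (nat_lit 152) (nat_lit 0) (XT.lf (nat_lit 0) (nat_lit 5783359484) (nat_lit 152) (nat_lit 4294126007) (nat_lit 228) (nat_lit 11633503689) (nat_lit 38) (nat_lit 5) (nat_lit 40) (nat_lit 5) (nat_lit 41) (nat_lit 5) (nat_lit 345) (nat_lit 265) (nat_lit 170)) (XT.nd (nat_lit 78) (nat_lit 152) (nat_lit 0) (XT.lf (nat_lit 0) (nat_lit 13948930972) (nat_lit 228) (nat_lit 7432343167) (nat_lit 76) (nat_lit 816841216) (nat_lit 38) (nat_lit 5) (nat_lit 41) (nat_lit 5) (nat_lit 39) (nat_lit 5) (nat_lit 346) (nat_lit 265) (nat_lit 169)) (XT.lf (nat_lit 0) (nat_lit 1272591296) (nat_lit 152) (nat_lit 16701901755) (nat_lit 228) (nat_lit 4724235216) (nat_lit 36) (nat_lit 5) (nat_lit 38) (nat_lit 5) (nat_lit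 39) (nat_lit 5) (nat_lit 347) (nat_lit 265) (nat_lit 168)))) (XT.nd (nat_lit 78) (nat_lit 228) (nat_lit 0) (XT.lf (nat_lit 0) (nat_lit 10363772016) (nat_lit 152) (nat_lit 11815552876) (nat_lit 228) (nat_lit 1033291379) (nat_lit 36) (nat_lit 5) (nat_lit 38) (nat_lit 5) (nat_lit 39) (nat_lit 5) (nat_lit 348) (nat_lit 265) (nat_lit 167)) (XT.nd (nat_lit 78) (nat_lit 152) (nat_lit 0) (XT.lf (nat_lit 0) (nat_lit 2698122208) (nat_lit 228) (nat_lit 4067642020) (nat_lit 76) (nat_lit 16975856588) (nat_lit 35) (nat_lit 5) (nat_lit 38) (nat_lit 5) (nat_lit 36) (nat_lit 5) (nat_lit 349) (nat_lit 265) (nat_lit 166)) (XT.lf (nat_lit 0) (nat_lit 5039078884) (nat_lit 152) (nat_lit 1514305346) (nat_lit 228) (nat_lit 17731834916) (nat_lit 33) (nat_lit 5) (nat_lit 35) (nat_lit 5) (nat_lit 36) (nat_lit 5) (nat_lit 350) (nat_lit 265) (nat_lit 165))))) (XT.nd (nat_lit 234) (nat_lit 228) (nat_lit 0) (XT.nd (nat_lit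 78) (nat_lit 152) (nat_lit 0) (XT.lf (nat_lit 0) (nat_lit 10587573053) (nat_lit 228) (nat_lit 10405495209) (nat_lit 76) (nat_lit 3850169573) (nat_lit 33) (nat_lit 5) (nat_lit 36) (nat_lit 5) (nat_lit 34) (nat_lit 5) (nat_lit 351) (nat_lit 265) (nat_lit 164)) (XT.nd (nat_lit 78) (nat_lit 152) (nat_lit 0) (XT.lf (nat_lit 0) (nat_lit 14742585356) (nat_lit 228) (nat_lit 1340003760) (nat_lit 76) (nat_lit 9335424208) (nat_lit 33) (nat_lit 5) (nat_lit 36) (nat_lit 5) (nat_lit 34) (nat_lit 5) (nat_lit 352) (nat_lit 265) (nat_lit 163)) (XT.lf (nat_lit 0) (nat_lit 8131486403) (nat_lit 152) (nat_lit 10954173719) (nat_lit 228) (nat_lit 6922479470) (nat_lit 31) (nat_lit 5) (nat_lit 33) (nat_lit 5) (nat_lit 34) (nat_lit 5) (nat_lit 353) (nat_lit 265) (nat_lit 162)))) (XT.nd (nat_lit 156) (nat_lit 0) (nat_lit 0) (XT.nd (nat_lit 78) (nat_lit 228) (nat_lit 0) (XT.lf (nat_lit 0) (nat_lit 17890190995) (nat_lit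 152) (nat_lit 5667809975) (nat_lit 228) (nat_lit 3058009052) (nat_lit 31) (nat_lit 5) (nat_lit 33) (nat_lit 5) (nat_lit 34) (nat_lit 5) (nat_lit 354) (nat_lit 265) (nat_lit 161)) (XT.lf (nat_lit 0) (nat_lit 679960325) (nat_lit 152) (nat_lit 216689458) (nat_lit 228) (nat_lit 26345442213) (nat_lit 28) (nat_lit 5) (nat_lit 30) (nat_lit 5) (nat_lit 31) (nat_lit 5) (nat_lit 355) (nat_lit 265) (nat_lit 160))) (XT.nd (nat_lit 78) (nat_lit 0) (nat_lit 0) (XT.lf (nat_lit 0) (nat_lit 5035172369) (nat_lit 228) (nat_lit 17444652906) (nat_lit 76) (nat_lit 5402431003) (nat_lit 28) (nat_lit 5) (nat_lit 31) (nat_lit 5) (nat_lit 29) (nat_lit 5) (nat_lit 356) (nat_lit 265) (nat_lit 159)) (XT.lf (nat_lit 0) (nat_lit 9286221629) (nat_lit 228) (nat_lit 8079179111) (nat_lit 76) (nat_lit 11176582138) (nat_lit 28) (nat_lit 5) (nat_lit 31) (nat_lit 5) (nat_lit 29) (nat_lit 5) (nat_lit 357) (nat_lit 265) (nat_lit 158))))))))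
noncomputable def xc121 : XT := (XT.nd (nat_lit 2028) (nat_lit 456) (nat_lit 0) (XT.nd (nat_lit 1014) (nat_lit 456) (nat_lit 0) (XT.nd (nat_lit 468) (nat_lit 304) (nat_lit 0) (XT.nd (nat_lit 234) (nat_lit 152) (nat_lit 0) (XT.nd (nat_lit 78) (nat_lit 0) (nat_lit 0) (XT.lf (nat_lit 0) (nat_lit 1575295783) (nat_lit 152) (nat_lit 12091276045) (nat_lit 228) (nat_lit 15554884635) (nat_lit 26) (nat_lit 5) (nat_lit 28) (nat_lit 5) (nat_lit 29) (nat_lit 5) (nat_lit 358) (nat_lit 265) (nat_lit 157)) (XT.nd (nat_lit 78) (nat_lit 0) (nat_lit 0) (XT.lf (nat_lit 0) (nat_lit 11662539943) (nat_lit 152) (nat_lit 6584176630) (nat_lit 228) (nat_lit 11672554192) (nat_lit 26) (nat_lit 5) (nat_lit 28) (nat_lit 5) (nat_lit 29) (nat_lit 5) (nat_lit 359) (nat_lit 265) (nat_lit 156)) (XT.lf (nat_lit 0) (nat_lit 22030575960) (nat_lit 152) (nat_lit 920874336) (nat_lit 228) (nat_lit 7686961459) (nat_lit 26) (nat_lit 5)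 (nat_lit 28) (nat_lit 5) (nat_lit 29) (nat_lit 5) (nat_lit 360) (nat_lit 265) (nat_lit 155)))) (XT.nd (nat_lit 78) (nat_lit 76) (nat_lit 0) (XT.lf (nat_lit 0) (nat_lit 1286931948) (nat_lit 76) (nat_lit 26557458960) (nat_lit 152) (nat_lit 3533331689) (nat_lit 25) (nat_lit 5) (nat_lit 26) (nat_lit 5) (nat_lit 27) (nat_lit 4) (nat_lit 361) (nat_lit 265) (nat_lit 154)) (XT.nd (nat_lit 78) (nat_lit 0) (nat_lit 0) (XT.lf (nat_lit 0) (nat_lit 814776096) (nat_lit 152) (nat_lit 20520280551) (nat_lit 76) (nat_lit 10801416288) (nat_lit 24) (nat_lit 5) (nat_lit 26) (nat_lit 5) (nat_lit 25) (nat_lit 5) (nat_lit 362) (nat_lit 265) (nat_lit 153)) (XT.lf (nat_lit 0) (nat_lit 5210179087) (nat_lit 152) (nat_lit 10718543183) (nat_lit 76) (nat_lit 16988584884) (nat_lit 24) (nat_lit 5) (nat_lit 26) (nat_lit 5) (nat_lit 25) (nat_lit 5) (nat_lit 363) (nat_lit 265) (nat_lit 152))))) (XT.nd (nat_lit 234) (nat_lit 152)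 (nat_lit 0) (XT.nd (nat_lit 78) (nat_lit 152) (nat_lit 0) (XT.lf (nat_lit 0) (nat_lit 9725665953) (nat_lit 152) (nat_lit 643049376) (nat_lit 76) (nat_lit 23353211142) (nat_lit 24) (nat_lit 5) (nat_lit 26) (nat_lit 5) (nat_lit 25) (nat_lit 5) (nat_lit 364) (nat_lit 265) (nat_lit 151)) (XT.nd (nat_lit 78) (nat_lit 0) (nat_lit 0) (XT.lf (nat_lit 0) (nat_lit 9908352343) (nat_lit 152) (nat_lit 4552075066) (nat_lit 228) (nat_lit 20087749188) (nat_lit 22) (nat_lit 5) (nat_lit 24) (nat_lit 5) (nat_lit 25) (nat_lit 5) (nat_lit 365) (nat_lit 265) (nat_lit 150)) (XT.lf (nat_lit 0) (nat_lit 19346254025) (nat_lit 228) (nat_lit 14643216246) (nat_lit 76) (nat_lit 1409479628) (nat_lit 22) (nat_lit 5) (nat_lit 25) (nat_lit 5) (nat_lit 23) (nat_lit 4) (nat_lit 366) (nat_lit 265) (nat_lit 149)))) (XT.nd (nat_lit 156) (nat_lit 76) (nat_lit 0) (XT.nd (nat_lit 78) (nat_lit 76) (nat_lit 0) (XT.lf (nat_lit 0) (nat_lit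 24412687931) (nat_lit 228) (nat_lit 4410981366) (nat_lit 76) (nat_lit 7450562280) (nat_lit 22) (nat_lit 5) (nat_lit 25) (nat_lit 5) (nat_lit 23) (nat_lit 4) (nat_lit 367) (nat_lit 265) (nat_lit 148)) (XT.lf (nat_lit 0) (nat_lit 6231171092) (nat_lit 76) (nat_lit 23449125516) (nat_lit 152) (nat_lit 7494005622) (nat_lit 21) (nat_lit 5) (nat_lit 22) (nat_lit 5) (nat_lit 23) (nat_lit 4) (nat_lit 368) (nat_lit 265) (nat_lit 147))) (XT.nd (nat_lit 78) (nat_lit 76) (nat_lit 0) (XT.lf (nat_lit 0) (nat_lit 17264549626) (nat_lit 76) (nat_lit 17875344785) (nat_lit 152) (nat_lit 2960467567) (nat_lit 21) (nat_lit 5) (nat_lit 22) (nat_lit 5) (nat_lit 23) (nat_lit 4) (nat_lit 369) (nat_lit 265) (nat_lit 146)) (XT.lf (nat_lit 0) (nat_lit 1665345949) (nat_lit 152) (nat_lit 10459836396) (nat_lit 76) (nat_lit 26928845194) (nat_lit 20) (nat_lit 5) (nat_lit 22) (nat_lit 5) (nat_lit 21) (nat_lit 5) (nat_lit 370) (nat_lit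 265) (nat_lit 145)))))) (XT.nd (nat_lit 468) (nat_lit 228) (nat_lit 0) (XT.nd (nat_lit 234) (nat_lit 76) (nat_lit 0) (XT.nd (nat_lit 78) (nat_lit 0) (nat_lit 0) (XT.lf (nat_lit 0) (nat_lit 184094079) (nat_lit 152) (nat_lit 6178028853) (nat_lit 228) (nat_lit 33673555351) (nat_lit 18) (nat_lit 5) (nat_lit 20) (nat_lit 5) (nat_lit 21) (nat_lit 5) (nat_lit 371) (nat_lit 265) (nat_lit 144)) (XT.nd (nat_lit 78) (nat_lit 0) (nat_lit 0) (XT.lf (nat_lit 0) (nat_lit 11295944514) (nat_lit 228) (nat_lit 29700057212) (nat_lit 76) (nat_lit 47897740) (nat_lit 18) (nat_lit 5) (nat_lit 21) (nat_lit 5) (nat_lit 19) (nat_lit 4) (nat_lit 372) (nat_lit 265) (nat_lit 143)) (XT.lf (nat_lit 0) (nat_lit 16429217262) (nat_lit 228) (nat_lit 19322303248) (nat_lit 76) (nat_lit 6329308683) (nat_lit 18) (nat_lit 5) (nat_lit 21) (nat_lit 5) (nat_lit 19) (nat_lit 4) (nat_lit 373) (nat_lit 265) (nat_lit 142)))) (XT.nd (nat_lit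 78) (nat_lit 76) (nat_lit 0) (XT.lf (nat_lit 0) (nat_lit 21707039568) (nat_lit 228) (nat_lit 8649867379) (nat_lit 76) (nat_lit 12792248183) (nat_lit 18) (nat_lit 5) (nat_lit 21) (nat_lit 5) (nat_lit 19) (nat_lit 4) (nat_lit 374) (nat_lit 265) (nat_lit 141)) (XT.nd (nat_lit 78) (nat_lit 0) (nat_lit 0) (XT.lf (nat_lit 0) (nat_lit 2372879245) (nat_lit 76) (nat_lit 24783953442) (nat_lit 152) (nat_lit 17092293789) (nat_lit 17) (nat_lit 5) (nat_lit 18) (nat_lit 5) (nat_lit 19) (nat_lit 4) (nat_lit 375) (nat_lit 265) (nat_lit 140)) (XT.lf (nat_lit 0) (nat_lit 13887614815) (nat_lit 76) (nat_lit 18960791380) (nat_lit 152) (nat_lit 12531346750) (nat_lit 17) (nat_lit 5) (nat_lit 18) (nat_lit 5) (nat_lit 19) (nat_lit 4) (nat_lit 376) (nat_lit 265) (nat_lit 139))))) (XT.nd (nat_lit 234) (nat_lit 0) (nat_lit 0) (XT.nd (nat_lit 78) (nat_lit 228) (nat_lit 0) (XT.lf (nat_lit 0) (nat_lit 25732251430) (nat_lit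 76) (nat_lit 12969679258) (nat_lit 152) (nat_lit 7842635854) (nat_lit 17) (nat_lit 5) (nat_lit 18) (nat_lit 5) (nat_lit 19) (nat_lit 4) (nat_lit 377) (nat_lit 265) (nat_lit 138)) (XT.nd (nat_lit 78) (nat_lit 228) (nat_lit 0) (XT.lf (nat_lit 0) (nat_lit 37917138770) (nat_lit 76) (nat_lit 6805382126) (nat_lit 152) (nat_lit 3022064166) (nat_lit 17) (nat_lit 5) (nat_lit 18) (nat_lit 5) (nat_lit 19) (nat_lit 4) (nat_lit 378) (nat_lit 265) (nat_lit 137)) (XT.lf (nat_lit 0) (nat_lit 1482397295) (nat_lit 152) (nat_lit 428682242) (nat_lit 228) (nat_lit 47068792151) (nat_lit 14) (nat_lit 5) (nat_lit 16) (nat_lit 5) (nat_lit 17) (nat_lit 5) (nat_lit 379) (nat_lit 265) (nat_lit 136)))) (XT.nd (nat_lit 156) (nat_lit 0) (nat_lit 0) (XT.nd (nat_lit 78) (nat_lit 0) (nat_lit 0) (XT.lf (nat_lit 0) (nat_lit 7082376377) (nat_lit 228) (nat_lit 37021034513) (nat_lit 76) (nat_lit 6143385348) (nat_lit 14) (nat_lit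 5) (nat_lit 17) (nat_lit 5) (nat_lit 15) (nat_lit 4) (nat_lit 380) (nat_lit 265) (nat_lit 135)) (XT.lf (nat_lit 0) (nat_lit 12404963242) (nat_lit 228) (nat_lit 26248977930) (nat_lit 76) (nat_lit 12897906656) (nat_lit 14) (nat_lit 5) (nat_lit 17) (nat_lit 5) (nat_lit 15) (nat_lit 4) (nat_lit 381) (nat_lit 265) (nat_lit 134))) (XT.nd (nat_lit 78) (nat_lit 0) (nat_lit 0) (XT.lf (nat_lit 0) (nat_lit 17879370180) (nat_lit 228) (nat_lit 15167771411) (nat_lit 76) (nat_lit 19849148823) (nat_lit 14) (nat_lit 5) (nat_lit 17) (nat_lit 5) (nat_lit 15) (nat_lit 4) (nat_lit 382) (nat_lit 265) (nat_lit 133)) (XT.lf (nat_lit 0) (nat_lit 23510380654) (nat_lit 228) (nat_lit 3767732349) (nat_lit 76) (nat_lit 27003185751) (nat_lit 14) (nat_lit 5) (nat_lit 17) (nat_lit 5) (nat_lit 15) (nat_lit 4) (nat_lit 383) (nat_lit 265) (nat_lit 132))))))) (XT.nd (nat_lit 1014) (nat_lit 152) (nat_lit 0) (XT.nd (nat_lit 468)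 (nat_lit 152) (nat_lit 0) (XT.nd (nat_lit 234) (nat_lit 76) (nat_lit 0) (XT.nd (nat_lit 78) (nat_lit 0) (nat_lit 0) (XT.lf (nat_lit 0) (nat_lit 8119541963) (nat_lit 76) (nat_lit 21261423005) (nat_lit 152) (nat_lit 26324776581) (nat_lit 13) (nat_lit 5) (nat_lit 14) (nat_lit 5) (nat_lit 15) (nat_lit 4) (nat_lit 384) (nat_lit 265) (nat_lit 131)) (XT.nd (nat_lit 78) (nat_lit 0) (nat_lit 0) (XT.lf (nat_lit 0) (nat_lit 20427591380) (nat_lit 76) (nat_lit 15030805671) (nat_lit 152) (nat_lit 21713602076) (nat_lit 13) (nat_lit 5) (nat_lit 14) (nat_lit 5) (nat_lit 15) (nat_lit 4) (nat_lit 385) (nat_lit 265) (nat_lit 130)) (XT.lf (nat_lit 0) (nat_lit 33092185246) (nat_lit 76) (nat_lit 8618863484) (nat_lit 152) (nat_lit 16971412113) (nat_lit 13) (nat_lit 5) (nat_lit 14) (nat_lit 5) (nat_lit 15) (nat_lit 4) (nat_lit 386) (nat_lit 265) (nat_lit 129)))) (XT.nd (nat_lit 78) (nat_lit 76) (nat_lit 0) (XT.lf (nat_lit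 0) (nat_lit 46124389711) (nat_lit 76) (nat_lit 2019993775) (nat_lit 152) (nat_lit 12094063030) (nat_lit 13) (nat_lit 5) (nat_lit 14) (nat_lit 5) (nat_lit 15) (nat_lit 4) (nat_lit 387) (nat_lit 265) (nat_lit 128)) (XT.nd (nat_lit 78) (nat_lit 76) (nat_lit 0) (XT.lf (nat_lit 0) (nat_lit 54809889924) (nat_lit 152) (nat_lit 2351590854) (nat_lit 0) (nat_lit 4678458951) (nat_lit 13) (nat_lit 5) (nat_lit 15) (nat_lit 4) (nat_lit 13) (nat_lit 4) (nat_lit 388) (nat_lit 265) (nat_lit 127)) (XT.lf (nat_lit 0) (nat_lit 9925666212) (nat_lit 76) (nat_lit 51858557062) (nat_lit 76) (nat_lit 1701991641) (nat_lit 12) (nat_lit 4) (nat_lit 13) (nat_lit 5) (nat_lit 13) (nat_lit 4) (nat_lit 389) (nat_lit 265) (nat_lit 126))))) (XT.nd (nat_lit 234) (nat_lit 76) (nat_lit 0) (XT.nd (nat_lit 78) (nat_lit 0) (nat_lit 0) (XT.lf (nat_lit 0) (nat_lit 3729475139) (nat_lit 152) (nat_lit 42610133263) (nat_lit 76) (nat_lit 18840657727)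 (nat_lit 11) (nat_lit 5) (nat_lit 13) (nat_lit 5) (nat_lit 12) (nat_lit 4) (nat_lit 390) (nat_lit 265) (nat_lit 125)) (XT.nd (nat_lit 78) (nat_lit 0) (nat_lit 0) (XT.lf (nat_lit 0) (nat_lit 9283330011) (nat_lit 152) (nat_lit 31359499499) (nat_lit 76) (nat_lit 26281997024) (nat_lit 11) (nat_lit 5) (nat_lit 13) (nat_lit 5) (nat_lit 12) (nat_lit 4) (nat_lit 391) (nat_lit 265) (nat_lit 124)) (XT.lf (nat_lit 0) (nat_lit 14997637845) (nat_lit 152) (nat_lit 19782456176) (nat_lit 76) (nat_lit 33941817302) (nat_lit 11) (nat_lit 5) (nat_lit 13) (nat_lit 5) (nat_lit 12) (nat_lit 4) (nat_lit 392) (nat_lit 265) (nat_lit 123)))) (XT.nd (nat_lit 156) (nat_lit 0) (nat_lit 0) (XT.nd (nat_lit 78) (nat_lit 76) (nat_lit 0) (XT.lf (nat_lit 0) (nat_lit 20877391726) (nat_lit 152) (nat_lit 7868887429) (nat_lit 76) (nat_lit 41826811607) (nat_lit 11) (nat_lit 5) (nat_lit 13) (nat_lit 5) (nat_lit 12) (nat_lit 4) (nat_lit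 393) (nat_lit 265) (nat_lit 122)) (XT.lf (nat_lit 0) (nat_lit 4479018435) (nat_lit 76) (nat_lit 22491765931) (nat_lit 152) (nat_lit 45507906370) (nat_lit 10) (nat_lit 5) (nat_lit 11) (nat_lit 5) (nat_lit 12) (nat_lit 4) (nat_lit 394) (nat_lit 265) (nat_lit 121))) (XT.nd (nat_lit 78) (nat_lit 0) (nat_lit 0) (XT.lf (nat_lit 0) (nat_lit 17348296893) (nat_lit 76) (nat_lit 15972402824) (nat_lit 152) (nat_lit 41118549827) (nat_lit 10) (nat_lit 5) (nat_lit 11) (nat_lit 5) (nat_lit 12) (nat_lit 4) (nat_lit 395) (nat_lit 265) (nat_lit 120)) (XT.lf (nat_lit 0) (nat_lit 30593586655) (nat_lit 76) (nat_lit 9261953637) (nat_lit 152) (nat_lit 36603254381) (nat_lit 10) (nat_lit 5) (nat_lit 11) (nat_lit 5) (nat_lit 12) (nat_lit 4) (nat_lit 396) (nat_lit 265) (nat_lit 119)))))) (XT.nd (nat_lit 546) (nat_lit 76) (nat_lit 0) (XT.nd (nat_lit 234) (nat_lit 76) (nat_lit 0) (XT.nd (nat_lit 78) (nat_lit 0) (nat_lit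 0) (XT.lf (nat_lit 0) (nat_lit 44226461275) (nat_lit 76) (nat_lit 2354554872) (nat_lit 152) (nat_lit 31958074627) (nat_lit 10) (nat_lit 5) (nat_lit 11) (nat_lit 5) (nat_lit 12) (nat_lit 4) (nat_lit 397) (nat_lit 265) (nat_lit 118)) (XT.nd (nat_lit 78) (nat_lit 0) (nat_lit 0) (XT.lf (nat_lit 0) (nat_lit 53548719848) (nat_lit 152) (nat_lit 22468838547) (nat_lit 0) (nat_lit 4663025708) (nat_lit 10) (nat_lit 5) (nat_lit 12) (nat_lit 4) (nat_lit 10) (nat_lit 4) (nat_lit 398) (nat_lit 265) (nat_lit 117)) (XT.lf (nat_lit 0) (nat_lit 60743628159) (nat_lit 152) (nat_lit 10302374697) (nat_lit 0) (nat_lit 11839776360) (nat_lit 10) (nat_lit 5) (nat_lit 12) (nat_lit 4) (nat_lit 10) (nat_lit 4) (nat_lit 399) (nat_lit 265) (nat_lit 116)))) (XT.nd (nat_lit 156) (nat_lit 0) (nat_lit 0) (XT.nd (nat_lit 78) (nat_lit 0) (nat_lit 0) (XT.lf (nat_lit 0) (nat_lit 2264209242) (nat_lit 76) (nat_lit 65906950193) (nat_lit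 76) (nat_lit 16985469598) (nat_lit 9) (nat_lit 4) (nat_lit 10) (nat_lit 5) (nat_lit 10) (nat_lit 4) (nat_lit 400) (nat_lit 265) (nat_lit 115)) (XT.lf (nat_lit 0) (nat_lit 15410011369) (nat_lit 76) (nat_lit 60510608930) (nat_lit 76) (nat_lit 11572012999) (nat_lit 9) (nat_lit 4) (nat_lit 10) (nat_lit 5) (nat_lit 10) (nat_lit 4) (nat_lit 401) (nat_lit 265) (nat_lit 114))) (XT.nd (nat_lit 78) (nat_lit 0) (nat_lit 0) (XT.lf (nat_lit 0) (nat_lit 28941480847) (nat_lit 76) (nat_lit 54956297601) (nat_lit 76) (nat_lit 6001084840) (nat_lit 9) (nat_lit 4) (nat_lit 10) (nat_lit 5) (nat_lit 10) (nat_lit 4) (nat_lit 402) (nat_lit 265) (nat_lit 113)) (XT.lf (nat_lit 0) (nat_lit 42870441292) (nat_lit 76) (nat_lit 49239162925) (nat_lit 76) (nat_lit 267817318) (nat_lit 9) (nat_lit 4) (nat_lit 10) (nat_lit 5) (nat_lit 10) (nat_lit 4) (nat_lit 403) (nat_lit 265) (nat_lit 112))))) (XT.nd (nat_lit 234) (nat_lit 0)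 (nat_lit 0) (XT.nd (nat_lit 78) (nat_lit 0) (nat_lit 0) (XT.lf (nat_lit 0) (nat_lit 5522883015) (nat_lit 152) (nat_lit 37775556042) (nat_lit 76) (nat_lit 51630410336) (nat_lit 8) (nat_lit 5) (nat_lit 10) (nat_lit 5) (nat_lit 9) (nat_lit 4) (nat_lit 404) (nat_lit 265) (nat_lit 111)) (XT.nd (nat_lit 78) (nat_lit 0) (nat_lit 0) (XT.lf (nat_lit 0) (nat_lit 11477495968) (nat_lit 152) (nat_lit 25702898501) (nat_lit 76) (nat_lit 60376480611) (nat_lit 8) (nat_lit 5) (nat_lit 10) (nat_lit 5) (nat_lit 9) (nat_lit 4) (nat_lit 405) (nat_lit 265) (nat_lit 110)) (XT.lf (nat_lit 0) (nat_lit 17606450681) (nat_lit 152) (nat_lit 13275884272) (nat_lit 76) (nat_lit 69381537211) (nat_lit 8) (nat_lit 5) (nat_lit 10) (nat_lit 5) (nat_lit 9) (nat_lit 4) (nat_lit 406) (nat_lit 265) (nat_lit 109)))) (XT.nd (nat_lit 29718) (nat_lit 0) (nat_lit 20520) (XT.nd (nat_lit 29640) (nat_lit 0) (nat_lit 21052) (XT.lf (nat_lit 0)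 (nat_lit 23915102552) (nat_lit 152) (nat_lit 483654799) (nat_lit 76) (nat_lit 78653448630) (nat_lit 8) (nat_lit 5) (nat_lit 10) (nat_lit 5) (nat_lit 9) (nat_lit 4) (nat_lit 407) (nat_lit 265) (nat_lit 108)) (XT.lf (nat_lit 0) (nat_lit 1246759653) (nat_lit 0) (nat_lit 1246759653) (nat_lit 380) (nat_lit 806772110) (nat_lit 285) (nat_lit 5) (nat_lit 285) (nat_lit 3) (nat_lit 290) (nat_lit 3) (nat_lit 266) (nat_lit 266) (nat_lit 248))) (XT.nd (nat_lit 78) (nat_lit 0) (nat_lit 0) (XT.lf (nat_lit 0) (nat_lit 603967665) (nat_lit 532) (nat_lit 1099971111) (nat_lit 532) (nat_lit 4924672551) (nat_lit 278) (nat_lit 3) (nat_lit 285) (nat_lit 3) (nat_lit 285) (nat_lit 5) (nat_lit 267) (nat_lit 266) (nat_lit 247)) (XT.lf (nat_lit 76) (nat_lit 1975390771) (nat_lit 0) (nat_lit 812931533) (nat_lit 532) (nat_lit 3870898031) (nat_lit 279) (nat_lit 5) (nat_lit 278) (nat_lit 3) (nat_lit 285) (nat_lit 5) (nat_lit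 268) (nat_lit 266) (nat_lit 246))))))))
noncomputable def xc122 : XT := (XT.nd (nat_lit 2028) (nat_lit 6688) (nat_lit 0) (XT.nd (nat_lit 1014) (nat_lit 6460) (nat_lit 0) (XT.nd (nat_lit 468) (nat_lit 1292) (nat_lit 0) (XT.nd (nat_lit 234) (nat_lit 608) (nat_lit 0) (XT.nd (nat_lit 78) (nat_lit 532) (nat_lit 0) (XT.lf (nat_lit 0) (nat_lit 4966665320) (nat_lit 456) (nat_lit 1573153476) (nat_lit 532) (nat_lit 153270596) (nat_lit 279) (nat_lit 5) (nat_lit 285) (nat_lit 5) (nat_lit 286) (nat_lit 5) (nat_lit 269) (nat_lit 266) (nat_lit 245)) (XT.nd (nat_lit 78) (nat_lit 0) (nat_lit 0) (XT.lf (nat_lit 0) (nat_lit 414394522) (nat_lit 532) (nat_lit 5125591624) (nat_lit 608) (nat_lit 1189790847) (nat_lit 272) (nat_lit 5) (nat_lit 279) (nat_lit 5) (nat_lit 280) (nat_lit 5) (nat_lit 270) (nat_lit 266) (nat_lit 244)) (XT.lf (nat_lit 0) (nat_lit 2520419840) (nat_lit 532) (nat_lit 1922385132) (nat_lit 608)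 (nat_lit 2326355923) (nat_lit 272) (nat_lit 5) (nat_lit 279) (nat_lit 5) (nat_lit 280) (nat_lit 5) (nat_lit 271) (nat_lit 266) (nat_lit 243)))) (XT.nd (nat_lit 78) (nat_lit 608) (nat_lit 0) (XT.lf (nat_lit 76) (nat_lit 1357644679) (nat_lit 0) (nat_lit 3267010902) (nat_lit 608) (nat_lit 2187193549) (nat_lit 273) (nat_lit 5) (nat_lit 272) (nat_lit 5) (nat_lit 280) (nat_lit 5) (nat_lit 272) (nat_lit 266) (nat_lit 242)) (XT.nd (nat_lit 78) (nat_lit 608) (nat_lit 0) (XT.lf (nat_lit 76) (nat_lit 4730165664) (nat_lit 0) (nat_lit 2005081045) (nat_lit 608) (nat_lit 122443102) (nat_lit 273) (nat_lit 5) (nat_lit 272) (nat_lit 5) (nat_lit 280) (nat_lit 5) (nat_lit 273) (nat_lit 266) (nat_lit 241)) (XT.lf (nat_lit 76) (nat_lit 1258604789) (nat_lit 0) (nat_lit 643775490) (nat_lit 684) (nat_lit 5003989199) (nat_lit 265) (nat_lit 5) (nat_lit 264) (nat_lit 5) (nat_lit 273) (nat_lit 5) (nat_lit 274) (nat_lit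 266) (nat_lit 240))))) (XT.nd (nat_lit 234) (nat_lit 684) (nat_lit 0) (XT.nd (nat_lit 78) (nat_lit 684) (nat_lit 0) (XT.lf (nat_lit 0) (nat_lit 3941630080) (nat_lit 608) (nat_lit 2222464330) (nat_lit 684) (nat_lit 793848813) (nat_lit 265) (nat_lit 5) (nat_lit 273) (nat_lit 5) (nat_lit 274) (nat_lit 5) (nat_lit 275) (nat_lit 266) (nat_lit 239)) (XT.nd (nat_lit 78) (nat_lit 684) (nat_lit 0) (XT.lf (nat_lit 76) (nat_lit 1277732705) (nat_lit 0) (nat_lit 4712258953) (nat_lit 684) (nat_lit 1022784335) (nat_lit 266) (nat_lit 5) (nat_lit 265) (nat_lit 5) (nat_lit 274) (nat_lit 5) (nat_lit 276) (nat_lit 266) (nat_lit 238)) (XT.lf (nat_lit 0) (nat_lit 963174417) (nat_lit 684) (nat_lit 2197714339) (nat_lit 760) (nat_lit 3909627027) (nat_lit 256) (nat_lit 5) (nat_lit 265) (nat_lit 5) (nat_lit 266) (nat_lit 5) (nat_lit 277) (nat_lit 266) (nat_lit 237)))) (XT.nd (nat_lit 156) (nat_lit 684) (nat_lit 0) (XT.nd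 (nat_lit 78) (nat_lit 0) (nat_lit 76) (XT.lf (nat_lit 76) (nat_lit 1417145617) (nat_lit 0) (nat_lit 1516737751) (nat_lit 760) (nat_lit 4197565876) (nat_lit 257) (nat_lit 5) (nat_lit 256) (nat_lit 5) (nat_lit 266) (nat_lit 5) (nat_lit 278) (nat_lit 266) (nat_lit 236)) (XT.lf (nat_lit 0) (nat_lit 4921668200) (nat_lit 684) (nat_lit 2057947691) (nat_lit 76) (nat_lit 215989309) (nat_lit 257) (nat_lit 5) (nat_lit 266) (nat_lit 5) (nat_lit 258) (nat_lit 5) (nat_lit 279) (nat_lit 266) (nat_lit 235))) (XT.nd (nat_lit 78) (nat_lit 76) (nat_lit 0) (XT.lf (nat_lit 0) (nat_lit 1679261335) (nat_lit 684) (nat_lit 5256754795) (nat_lit 760) (nat_lit 326791075) (nat_lit 248) (nat_lit 5) (nat_lit 257) (nat_lit 5) (nat_lit 258) (nat_lit 5) (nat_lit 280) (nat_lit 266) (nat_lit 234)) (XT.lf (nat_lit 0) (nat_lit 1603450117) (nat_lit 760) (nat_lit 1824491017) (nat_lit 76) (nat_lit 3904998658) (nat_lit 247) (nat_lit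 5) (nat_lit 257) (nat_lit 5) (nat_lit 248) (nat_lit 5) (nat_lit 281) (nat_lit 266) (nat_lit 233)))))) (XT.nd (nat_lit 468) (nat_lit 3876) (nat_lit 0) (XT.nd (nat_lit 234) (nat_lit 988) (nat_lit 0) (XT.nd (nat_lit 78) (nat_lit 836) (nat_lit 0) (XT.lf (nat_lit 0) (nat_lit 2037728777) (nat_lit 760) (nat_lit 1505193110) (nat_lit 836) (nat_lit 3863538942) (nat_lit 237) (nat_lit 5) (nat_lit 247) (nat_lit 5) (nat_lit 248) (nat_lit 5) (nat_lit 282) (nat_lit 266) (nat_lit 232)) (XT.nd (nat_lit 78) (nat_lit 836) (nat_lit 0) (XT.lf (nat_lit 0) (nat_lit 5503554643) (nat_lit 836) (nat_lit 1480918187) (nat_lit 76) (nat_lit 498940204) (nat_lit 237) (nat_lit 5) (nat_lit 248) (nat_lit 5) (nat_lit 238) (nat_lit 5) (nat_lit 283) (nat_lit 266) (nat_lit 231)) (XT.lf (nat_lit 0) (nat_lit 2511273750) (nat_lit 836) (nat_lit 4992331124) (nat_lit 912) (nat_lit 59762471) (nat_lit 226) (nat_lit 5) (nat_lit 237) (nat_lit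 5) (nat_lit 238) (nat_lit 5) (nat_lit 284) (nat_lit 266) (nat_lit 230)))) (XT.nd (nat_lit 78) (nat_lit 912) (nat_lit 0) (XT.lf (nat_lit 0) (nat_lit 1837757313) (nat_lit 912) (nat_lit 1057426766) (nat_lit 76) (nat_lit 4751370808) (nat_lit 225) (nat_lit 5) (nat_lit 237) (nat_lit 5) (nat_lit 226) (nat_lit 5) (nat_lit 285) (nat_lit 266) (nat_lit 229)) (XT.nd (nat_lit 78) (nat_lit 0) (nat_lit 0) (XT.lf (nat_lit 0) (nat_lit 3070621333) (nat_lit 912) (nat_lit 693726397) (nat_lit 988) (nat_lit 3968774221) (nat_lit 213) (nat_lit 5) (nat_lit 225) (nat_lit 5) (nat_lit 226) (nat_lit 5) (nat_lit 286) (nat_lit 266) (nat_lit 228)) (XT.lf (nat_lit 0) (nat_lit 5719769950) (nat_lit 988) (nat_lit 540190211) (nat_lit 76) (nat_lit 1563293906) (nat_lit 213) (nat_lit 5) (nat_lit 226) (nat_lit 5) (nat_lit 214) (nat_lit 5) (nat_lit 287) (nat_lit 266) (nat_lit 227))))) (XT.nd (nat_lit 234) (nat_lit 1748) (nat_lit 0)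 (XT.nd (nat_lit 78) (nat_lit 1140) (nat_lit 0) (XT.lf (nat_lit 0) (nat_lit 3725821436) (nat_lit 988) (nat_lit 3997437571) (nat_lit 1064) (nat_lit 193245192) (nat_lit 200) (nat_lit 5) (nat_lit 213) (nat_lit 5) (nat_lit 214) (nat_lit 5) (nat_lit 288) (nat_lit 266) (nat_lit 226)) (XT.nd (nat_lit 78) (nat_lit 0) (nat_lit 0) (XT.lf (nat_lit 0) (nat_lit 55985880) (nat_lit 1064) (nat_lit 1636967603) (nat_lit 1140) (nat_lit 6320579071) (nat_lit 185) (nat_lit 5) (nat_lit 199) (nat_lit 5) (nat_lit 200) (nat_lit 5) (nat_lit 289) (nat_lit 266) (nat_lit 225)) (XT.lf (nat_lit 0) (nat_lit 3630603409) (nat_lit 1140) (nat_lit 3653942739) (nat_lit 76) (nat_lit 828993749) (nat_lit 185) (nat_lit 5) (nat_lit 200) (nat_lit 5) (nat_lit 186) (nat_lit 5) (nat_lit 290) (nat_lit 266) (nat_lit 224)))) (XT.nd (nat_lit 156) (nat_lit 608) (nat_lit 0) (XT.nd (nat_lit 78) (nat_lit 0) (nat_lit 0) (XT.lf (nat_lit 0) (nat_lit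 730473929) (nat_lit 1140) (nat_lit 4869019044) (nat_lit 1216) (nat_lit 2617946634) (nat_lit 170) (nat_lit 5) (nat_lit 185) (nat_lit 5) (nat_lit 186) (nat_lit 5) (nat_lit 291) (nat_lit 266) (nat_lit 223)) (XT.lf (nat_lit 0) (nat_lit 5275437714) (nat_lit 1140) (nat_lit 2339808631) (nat_lit 1216) (nat_lit 709659014) (nat_lit 170) (nat_lit 5) (nat_lit 185) (nat_lit 5) (nat_lit 186) (nat_lit 5) (nat_lit 292) (nat_lit 266) (nat_lit 222))) (XT.nd (nat_lit 78) (nat_lit 0) (nat_lit 0) (XT.lf (nat_lit 0) (nat_lit 1200334048) (nat_lit 608) (nat_lit 6946543754) (nat_lit 76) (nat_lit 289364409) (nat_lit 162) (nat_lit 5) (nat_lit 170) (nat_lit 5) (nat_lit 163) (nat_lit 5) (nat_lit 293) (nat_lit 266) (nat_lit 221)) (XT.lf (nat_lit 0) (nat_lit 3160397874) (nat_lit 608) (nat_lit 2399598118) (nat_lit 76) (nat_lit 2990577279) (nat_lit 162) (nat_lit 5) (nat_lit 170) (nat_lit 5) (nat_lit 163) (nat_lit 5) (nat_lit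 294) (nat_lit 266) (nat_lit 220))))))) (XT.nd (nat_lit 1014) (nat_lit 2964) (nat_lit 0) (XT.nd (nat_lit 468) (nat_lit 1976) (nat_lit 0) (XT.nd (nat_lit 234) (nat_lit 532) (nat_lit 0) (XT.nd (nat_lit 78) (nat_lit 608) (nat_lit 0) (XT.lf (nat_lit 0) (nat_lit 2283008750) (nat_lit 608) (nat_lit 2872345646) (nat_lit 684) (nat_lit 3513770853) (nat_lit 154) (nat_lit 5) (nat_lit 162) (nat_lit 5) (nat_lit 163) (nat_lit 5) (nat_lit 295) (nat_lit 266) (nat_lit 219)) (XT.nd (nat_lit 78) (nat_lit 608) (nat_lit 0) (XT.lf (nat_lit 0) (nat_lit 7110430463) (nat_lit 608) (nat_lit 79009923) (nat_lit 684) (nat_lit 1602486545) (nat_lit 154) (nat_lit 5) (nat_lit 162) (nat_lit 5) (nat_lit 163) (nat_lit 5) (nat_lit 296) (nat_lit 266) (nat_lit 218)) (XT.lf (nat_lit 0) (nat_lit 372632944) (nat_lit 608) (nat_lit 5767743702) (nat_lit 76) (nat_lit 2777588648) (nat_lit 146) (nat_lit 5) (nat_lit 154) (nat_lit 5) (nat_lit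 147) (nat_lit 5) (nat_lit 297) (nat_lit 266) (nat_lit 217)))) (XT.nd (nat_lit 78) (nat_lit 532) (nat_lit 0) (XT.lf (nat_lit 0) (nat_lit 2349441102) (nat_lit 608) (nat_lit 948144329) (nat_lit 76) (nat_lit 5750549579) (nat_lit 146) (nat_lit 5) (nat_lit 154) (nat_lit 5) (nat_lit 147) (nat_lit 5) (nat_lit 298) (nat_lit 266) (nat_lit 216)) (XT.nd (nat_lit 78) (nat_lit 0) (nat_lit 0) (XT.lf (nat_lit 0) (nat_lit 4051002835) (nat_lit 532) (nat_lit 331465430) (nat_lit 608) (nat_lit 4799897694) (nat_lit 139) (nat_lit 5) (nat_lit 146) (nat_lit 5) (nat_lit 147) (nat_lit 5) (nat_lit 299) (nat_lit 266) (nat_lit 215)) (XT.lf (nat_lit 0) (nat_lit 6471091737) (nat_lit 608) (nat_lit 171984790) (nat_lit 76) (nat_lit 2677770878) (nat_lit 139) (nat_lit 5) (nat_lit 147) (nat_lit 5) (nat_lit 140) (nat_lit 5) (nat_lit 300) (nat_lit 266) (nat_lit 214))))) (XT.nd (nat_lit 234) (nat_lit 988) (nat_lit 0) (XT.nd (nat_lit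 78) (nat_lit 532) (nat_lit 0) (XT.lf (nat_lit 0) (nat_lit 4986575262) (nat_lit 456) (nat_lit 3646970828) (nat_lit 532) (nat_lit 829661973) (nat_lit 133) (nat_lit 5) (nat_lit 139) (nat_lit 5) (nat_lit 140) (nat_lit 5) (nat_lit 301) (nat_lit 266) (nat_lit 213)) (XT.nd (nat_lit 78) (nat_lit 0) (nat_lit 0) (XT.lf (nat_lit 0) (nat_lit 650232134) (nat_lit 456) (nat_lit 544655877) (nat_lit 532) (nat_lit 8415599284) (nat_lit 126) (nat_lit 5) (nat_lit 132) (nat_lit 5) (nat_lit 133) (nat_lit 5) (nat_lit 302) (nat_lit 266) (nat_lit 212)) (XT.lf (nat_lit 0) (nat_lit 3295587548) (nat_lit 532) (nat_lit 3817093883) (nat_lit 76) (nat_lit 2648349232) (nat_lit 126) (nat_lit 5) (nat_lit 133) (nat_lit 5) (nat_lit 127) (nat_lit 5) (nat_lit 303) (nat_lit 266) (nat_lit 211)))) (XT.nd (nat_lit 156) (nat_lit 532) (nat_lit 0) (XT.nd (nat_lit 78) (nat_lit 0) (nat_lit 0) (XT.lf (nat_lit 0) (nat_lit 1459971264) (nat_lit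 456) (nat_lit 3980856026) (nat_lit 532) (nat_lit 4475870718) (nat_lit 120) (nat_lit 5) (nat_lit 126) (nat_lit 5) (nat_lit 127) (nat_lit 5) (nat_lit 304) (nat_lit 266) (nat_lit 210)) (XT.lf (nat_lit 0) (nat_lit 6930533763) (nat_lit 456) (nat_lit 721218246) (nat_lit 532) (nat_lit 2425295230) (nat_lit 120) (nat_lit 5) (nat_lit 126) (nat_lit 5) (nat_lit 127) (nat_lit 5) (nat_lit 305) (nat_lit 266) (nat_lit 209))) (XT.nd (nat_lit 78) (nat_lit 76) (nat_lit 0) (XT.lf (nat_lit 0) (nat_lit 2299653123) (nat_lit 456) (nat_lit 7640609953) (nat_lit 532) (nat_lit 301656307) (nat_lit 114) (nat_lit 5) (nat_lit 120) (nat_lit 5) (nat_lit 121) (nat_lit 5) (nat_lit 306) (nat_lit 266) (nat_lit 208)) (XT.lf (nat_lit 0) (nat_lit 1852182330) (nat_lit 532) (nat_lit 2505890005) (nat_lit 76) (nat_lit 6053070262) (nat_lit 113) (nat_lit 5) (nat_lit 120) (nat_lit 5) (nat_lit 114) (nat_lit 5) (nat_lit 307) (nat_lit 266) (nat_lit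 207)))))) (XT.nd (nat_lit 546) (nat_lit 1368) (nat_lit 0) (XT.nd (nat_lit 234) (nat_lit 836) (nat_lit 0) (XT.nd (nat_lit 78) (nat_lit 380) (nat_lit 0) (XT.lf (nat_lit 0) (nat_lit 3109294575) (nat_lit 380) (nat_lit 950272055) (nat_lit 456) (nat_lit 6525982407) (nat_lit 108) (nat_lit 5) (nat_lit 113) (nat_lit 5) (nat_lit 114) (nat_lit 5) (nat_lit 308) (nat_lit 266) (nat_lit 206)) (XT.nd (nat_lit 78) (nat_lit 380) (nat_lit 0) (XT.lf (nat_lit 0) (nat_lit 6348985521) (nat_lit 456) (nat_lit 1887543381) (nat_lit 76) (nat_lit 2528228972) (nat_lit 108) (nat_lit 5) (nat_lit 114) (nat_lit 5) (nat_lit 109) (nat_lit 5) (nat_lit 309) (nat_lit 266) (nat_lit 205)) (XT.lf (nat_lit 0) (nat_lit 3894086407) (nat_lit 380) (nat_lit 4826493919) (nat_lit 456) (nat_lit 2228401148) (nat_lit 103) (nat_lit 5) (nat_lit 108) (nat_lit 5) (nat_lit 109) (nat_lit 5) (nat_lit 310) (nat_lit 266) (nat_lit 204)))) (XT.nd (nat_lit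 156) (nat_lit 380) (nat_lit 0) (XT.nd (nat_lit 78) (nat_lit 380) (nat_lit 0) (XT.lf (nat_lit 0) (nat_lit 10225216) (nat_lit 456) (nat_lit 1292343989) (nat_lit 76) (nat_lit 9836612881) (nat_lit 102) (nat_lit 5) (nat_lit 108) (nat_lit 5) (nat_lit 103) (nat_lit 5) (nat_lit 311) (nat_lit 266) (nat_lit 203)) (XT.lf (nat_lit 0) (nat_lit 2306912677) (nat_lit 456) (nat_lit 6685258670) (nat_lit 76) (nat_lit 2341224363) (nat_lit 97) (nat_lit 5) (nat_lit 103) (nat_lit 5) (nat_lit 98) (nat_lit 5) (nat_lit 312) (nat_lit 266) (nat_lit 202))) (XT.nd (nat_lit 78) (nat_lit 380) (nat_lit 0) (XT.lf (nat_lit 0) (nat_lit 4666878377) (nat_lit 456) (nat_lit 793660768) (nat_lit 76) (nat_lit 6073103740) (nat_lit 97) (nat_lit 5) (nat_lit 103) (nat_lit 5) (nat_lit 98) (nat_lit 5) (nat_lit 313) (nat_lit 266) (nat_lit 201)) (XT.lf (nat_lit 0) (nat_lit 5339147892) (nat_lit 380) (nat_lit 1779043107) (nat_lit 456) (nat_lit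 4621127386) (nat_lit 92) (nat_lit 5) (nat_lit 97) (nat_lit 5) (nat_lit 98) (nat_lit 5) (nat_lit 314) (nat_lit 266) (nat_lit 200))))) (XT.nd (nat_lit 234) (nat_lit 608) (nat_lit 0) (XT.nd (nat_lit 78) (nat_lit 760) (nat_lit 0) (XT.lf (nat_lit 0) (nat_lit 9640141783) (nat_lit 456) (nat_lit 338332654) (nat_lit 76) (nat_lit 1972813011) (nat_lit 92) (nat_lit 5) (nat_lit 98) (nat_lit 5) (nat_lit 93) (nat_lit 5) (nat_lit 315) (nat_lit 266) (nat_lit 199)) (XT.nd (nat_lit 78) (nat_lit 380) (nat_lit 0) (XT.lf (nat_lit 0) (nat_lit 112716220) (nat_lit 380) (nat_lit 6204263732) (nat_lit 76) (nat_lit 5851272853) (nat_lit 87) (nat_lit 5) (nat_lit 92) (nat_lit 5) (nat_lit 88) (nat_lit 5) (nat_lit 316) (nat_lit 266) (nat_lit 198)) (XT.lf (nat_lit 0) (nat_lit 8690935) (nat_lit 380) (nat_lit 2528391057) (nat_lit 456) (nat_lit 9854764644) (nat_lit 82) (nat_lit 5) (nat_lit 87) (nat_lit 5) (nat_lit 88) (nat_lit 5)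 (nat_lit 317) (nat_lit 266) (nat_lit 197)))) (XT.nd (nat_lit 156) (nat_lit 304) (nat_lit 0) (XT.nd (nat_lit 78) (nat_lit 304) (nat_lit 0) (XT.lf (nat_lit 0) (nat_lit 5081745135) (nat_lit 456) (nat_lit 6138548512) (nat_lit 76) (nat_lit 1400459861) (nat_lit 82) (nat_lit 5) (nat_lit 88) (nat_lit 5) (nat_lit 83) (nat_lit 5) (nat_lit 318) (nat_lit 266) (nat_lit 196)) (XT.lf (nat_lit 0) (nat_lit 234424505) (nat_lit 304) (nat_lit 7467541598) (nat_lit 380) (nat_lit 5154616224) (nat_lit 78) (nat_lit 5) (nat_lit 82) (nat_lit 5) (nat_lit 83) (nat_lit 5) (nat_lit 319) (nat_lit 266) (nat_lit 195))) (XT.nd (nat_lit 78) (nat_lit 304) (nat_lit 0) (XT.lf (nat_lit 0) (nat_lit 6886285240) (nat_lit 304) (nat_lit 3548877651) (nat_lit 380) (nat_lit 2663322412) (nat_lit 78) (nat_lit 5) (nat_lit 82) (nat_lit 5) (nat_lit 83) (nat_lit 5) (nat_lit 320) (nat_lit 266) (nat_lit 194)) (XT.lf (nat_lit 0) (nat_lit 354529211)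 (nat_lit 304) (nat_lit 12877007136) (nat_lit 380) (nat_lit 116703082) (nat_lit 74) (nat_lit 5) (nat_lit 78) (nat_lit 5) (nat_lit 79) (nat_lit 5) (nat_lit 321) (nat_lit 266) (nat_lit 193))))))))
noncomputable def xc123 : XT := (XT.nd (nat_lit 2028) (nat_lit 1520) (nat_lit 0) (XT.nd (nat_lit 1014) (nat_lit 1064) (nat_lit 0) (XT.nd (nat_lit 468) (nat_lit 988) (nat_lit 0) (XT.nd (nat_lit 234) (nat_lit 380) (nat_lit 0) (XT.nd (nat_lit 78) (nat_lit 228) (nat_lit 0) (XT.lf (nat_lit 0) (nat_lit 2529119382) (nat_lit 380) (nat_lit 6455801813) (nat_lit 76) (nat_lit 4617718656) (nat_lit 73) (nat_lit 5) (nat_lit 78) (nat_lit 5) (nat_lit 74) (nat_lit 5) (nat_lit 322) (nat_lit 266) (nat_lit 192)) (XT.nd (nat_lit 78) (nat_lit 0) (nat_lit 0) (XT.lf (nat_lit 0) (nat_lit 245023834) (nat_lit 228) (nat_lit 4983304568) (nat_lit 304) (nat_lit 8637045475) (nat_lit 70) (nat_lit 5) (nat_lit 73) (nat_lit 5) (nat_lit 74)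 (nat_lit 5) (nat_lit 323) (nat_lit 266) (nat_lit 191)) (XT.lf (nat_lit 0) (nat_lit 7242727261) (nat_lit 228) (nat_lit 805386055) (nat_lit 304) (nat_lit 6086714815) (nat_lit 70) (nat_lit 5) (nat_lit 73) (nat_lit 5) (nat_lit 74) (nat_lit 5) (nat_lit 324) (nat_lit 266) (nat_lit 190)))) (XT.nd (nat_lit 78) (nat_lit 380) (nat_lit 0) (XT.lf (nat_lit 0) (nat_lit 10961167845) (nat_lit 304) (nat_lit 31718977) (nat_lit 76) (nat_lit 3419244342) (nat_lit 70) (nat_lit 5) (nat_lit 74) (nat_lit 5) (nat_lit 71) (nat_lit 5) (nat_lit 325) (nat_lit 266) (nat_lit 189)) (XT.nd (nat_lit 78) (nat_lit 76) (nat_lit 0) (XT.lf (nat_lit 0) (nat_lit 7130604131) (nat_lit 304) (nat_lit 6883306754) (nat_lit 380) (nat_lit 682298189) (nat_lit 66) (nat_lit 5) (nat_lit 70) (nat_lit 5) (nat_lit 71) (nat_lit 5) (nat_lit 326) (nat_lit 266) (nat_lit 188)) (XT.lf (nat_lit 0) (nat_lit 2103308369) (nat_lit 380) (nat_lit 536409049) (nat_lit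 76) (nat_lit 12349203119) (nat_lit 65) (nat_lit 5) (nat_lit 70) (nat_lit 5) (nat_lit 66) (nat_lit 5) (nat_lit 327) (nat_lit 266) (nat_lit 187))))) (XT.nd (nat_lit 234) (nat_lit 532) (nat_lit 0) (XT.nd (nat_lit 78) (nat_lit 228) (nat_lit 0) (XT.lf (nat_lit 0) (nat_lit 5017935329) (nat_lit 304) (nat_lit 8510892597) (nat_lit 76) (nat_lit 1759630380) (nat_lit 62) (nat_lit 5) (nat_lit 66) (nat_lit 5) (nat_lit 63) (nat_lit 5) (nat_lit 328) (nat_lit 266) (nat_lit 186)) (XT.nd (nat_lit 78) (nat_lit 228) (nat_lit 0) (XT.lf (nat_lit 0) (nat_lit 8028453501) (nat_lit 304) (nat_lit 1335502490) (nat_lit 76) (nat_lit 6232794583) (nat_lit 62) (nat_lit 5) (nat_lit 66) (nat_lit 5) (nat_lit 63) (nat_lit 5) (nat_lit 329) (nat_lit 266) (nat_lit 185)) (XT.lf (nat_lit 0) (nat_lit 6141547493) (nat_lit 228) (nat_lit 5024296696) (nat_lit 304) (nat_lit 4747372013) (nat_lit 59) (nat_lit 5) (nat_lit 62) (nat_lit 5) (nat_lit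 63) (nat_lit 5) (nat_lit 330) (nat_lit 266) (nat_lit 184)))) (XT.nd (nat_lit 156) (nat_lit 228) (nat_lit 0) (XT.nd (nat_lit 78) (nat_lit 304) (nat_lit 0) (XT.lf (nat_lit 0) (nat_lit 13837167824) (nat_lit 228) (nat_lit 551531777) (nat_lit 304) (nat_lit 1850756585) (nat_lit 59) (nat_lit 5) (nat_lit 62) (nat_lit 5) (nat_lit 63) (nat_lit 5) (nat_lit 331) (nat_lit 266) (nat_lit 183)) (XT.lf (nat_lit 0) (nat_lit 1178846422) (nat_lit 304) (nat_lit 11366731955) (nat_lit 76) (nat_lit 4027552024) (nat_lit 55) (nat_lit 5) (nat_lit 59) (nat_lit 5) (nat_lit 56) (nat_lit 5) (nat_lit 332) (nat_lit 266) (nat_lit 182))) (XT.nd (nat_lit 78) (nat_lit 228) (nat_lit 0) (XT.lf (nat_lit 0) (nat_lit 4270585915) (nat_lit 304) (nat_lit 3880363860) (nat_lit 76) (nat_lit 8765080861) (nat_lit 55) (nat_lit 5) (nat_lit 59) (nat_lit 5) (nat_lit 56) (nat_lit 5) (nat_lit 333) (nat_lit 266) (nat_lit 181)) (XT.lf (nat_lit 0) (nat_lit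 3874311645) (nat_lit 228) (nat_lit 3597122253) (nat_lit 304) (nat_lit 9797311662) (nat_lit 52) (nat_lit 5) (nat_lit 55) (nat_lit 5) (nat_lit 56) (nat_lit 5) (nat_lit 334) (nat_lit 266) (nat_lit 180)))))) (XT.nd (nat_lit 468) (nat_lit 608) (nat_lit 0) (XT.nd (nat_lit 234) (nat_lit 304) (nat_lit 0) (XT.nd (nat_lit 78) (nat_lit 152) (nat_lit 0) (XT.lf (nat_lit 0) (nat_lit 10797702235) (nat_lit 304) (nat_lit 5732695382) (nat_lit 76) (nat_lit 1100780306) (nat_lit 52) (nat_lit 5) (nat_lit 56) (nat_lit 5) (nat_lit 53) (nat_lit 5) (nat_lit 335) (nat_lit 266) (nat_lit 179)) (XT.nd (nat_lit 78) (nat_lit 0) (nat_lit 0) (XT.lf (nat_lit 0) (nat_lit 2133749985) (nat_lit 152) (nat_lit 12126050372) (nat_lit 228) (nat_lit 3743618968) (nat_lit 50) (nat_lit 5) (nat_lit 52) (nat_lit 5) (nat_lit 53) (nat_lit 5) (nat_lit 336) (nat_lit 266) (nat_lit 178)) (XT.lf (nat_lit 0) (nat_lit 10322841515) (nat_lit 152) (nat_lit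 7541012957) (nat_lit 228) (nat_lit 521847517) (nat_lit 50) (nat_lit 5) (nat_lit 52) (nat_lit 5) (nat_lit 53) (nat_lit 5) (nat_lit 337) (nat_lit 266) (nat_lit 177)))) (XT.nd (nat_lit 78) (nat_lit 228) (nat_lit 0) (XT.lf (nat_lit 0) (nat_lit 2722580136) (nat_lit 228) (nat_lit 79095157) (nat_lit 76) (nat_lit 15977569989) (nat_lit 49) (nat_lit 5) (nat_lit 52) (nat_lit 5) (nat_lit 50) (nat_lit 5) (nat_lit 338) (nat_lit 266) (nat_lit 176)) (XT.nd (nat_lit 78) (nat_lit 0) (nat_lit 0) (XT.lf (nat_lit 0) (nat_lit 6135226356) (nat_lit 304) (nat_lit 10932433861) (nat_lit 76) (nat_lit 2114353808) (nat_lit 46) (nat_lit 5) (nat_lit 50) (nat_lit 5) (nat_lit 47) (nat_lit 5) (nat_lit 339) (nat_lit 266) (nat_lit 175)) (XT.lf (nat_lit 0) (nat_lit 9660104887) (nat_lit 304) (nat_lit 2824514734) (nat_lit 76) (nat_lit 7111965561) (nat_lit 46) (nat_lit 5) (nat_lit 50) (nat_lit 5) (nat_lit 47) (nat_lit 5) (nat_lit 340)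 (nat_lit 266) (nat_lit 174))))) (XT.nd (nat_lit 234) (nat_lit 152) (nat_lit 0) (XT.nd (nat_lit 78) (nat_lit 304) (nat_lit 0) (XT.lf (nat_lit 0) (nat_lit 5607261072) (nat_lit 152) (nat_lit 7719220535) (nat_lit 228) (nat_lit 6696053816) (nat_lit 44) (nat_lit 5) (nat_lit 46) (nat_lit 5) (nat_lit 47) (nat_lit 5) (nat_lit 341) (nat_lit 266) (nat_lit 173)) (XT.nd (nat_lit 78) (nat_lit 304) (nat_lit 0) (XT.lf (nat_lit 0) (nat_lit 14321373521) (nat_lit 152) (nat_lit 2792104059) (nat_lit 228) (nat_lit 3347481833) (nat_lit 44) (nat_lit 5) (nat_lit 46) (nat_lit 5) (nat_lit 47) (nat_lit 5) (nat_lit 342) (nat_lit 266) (nat_lit 172)) (XT.lf (nat_lit 0) (nat_lit 127180447) (nat_lit 304) (nat_lit 18532210909) (nat_lit 76) (nat_lit 2252300316) (nat_lit 40) (nat_lit 5) (nat_lit 44) (nat_lit 5) (nat_lit 41) (nat_lit 5) (nat_lit 343) (nat_lit 266) (nat_lit 171)))) (XT.nd (nat_lit 156) (nat_lit 152) (nat_lit 0)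 (XT.nd (nat_lit 78) (nat_lit 0) (nat_lit 0) (XT.lf (nat_lit 0) (nat_lit 3711643292) (nat_lit 304) (nat_lit 10183718203) (nat_lit 76) (nat_lit 7477417737) (nat_lit 40) (nat_lit 5) (nat_lit 44) (nat_lit 5) (nat_lit 41) (nat_lit 5) (nat_lit 344) (nat_lit 266) (nat_lit 170)) (XT.lf (nat_lit 0) (nat_lit 7386732791) (nat_lit 304) (nat_lit 1612154531) (nat_lit 76) (nat_lit 12849331824) (nat_lit 40) (nat_lit 5) (nat_lit 44) (nat_lit 5) (nat_lit 41) (nat_lit 5) (nat_lit 345) (nat_lit 266) (nat_lit 169))) (XT.nd (nat_lit 78) (nat_lit 0) (nat_lit 0) (XT.lf (nat_lit 0) (nat_lit 7333064318) (nat_lit 152) (nat_lit 3893085769) (nat_lit 228) (nat_lit 11110162065) (nat_lit 38) (nat_lit 5) (nat_lit 40) (nat_lit 5) (nat_lit 41) (nat_lit 5) (nat_lit 346) (nat_lit 266) (nat_lit 168)) (XT.lf (nat_lit 0) (nat_lit 15194033278) (nat_lit 228) (nat_lit 6298888825) (nat_lit 76) (nat_lit 1345739135) (nat_lit 38) (nat_lit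 5) (nat_lit 41) (nat_lit 5) (nat_lit 39) (nat_lit 5) (nat_lit 347) (nat_lit 266) (nat_lit 167))))))) (XT.nd (nat_lit 1014) (nat_lit 608) (nat_lit 0) (XT.nd (nat_lit 468) (nat_lit 532) (nat_lit 0) (XT.nd (nat_lit 234) (nat_lit 152) (nat_lit 0) (XT.nd (nat_lit 78) (nat_lit 76) (nat_lit 0) (XT.lf (nat_lit 0) (nat_lit 2653895391) (nat_lit 152) (nat_lit 16675301051) (nat_lit 228) (nat_lit 4025448502) (nat_lit 36) (nat_lit 5) (nat_lit 38) (nat_lit 5) (nat_lit 39) (nat_lit 5) (nat_lit 348) (nat_lit 266) (nat_lit 166)) (XT.nd (nat_lit 78) (nat_lit 76) (nat_lit 0) (XT.lf (nat_lit 0) (nat_lit 11978691348) (nat_lit 152) (nat_lit 11657730378) (nat_lit 228) (nat_lit 248257334) (nat_lit 36) (nat_lit 5) (nat_lit 38) (nat_lit 5) (nat_lit 39) (nat_lit 5) (nat_lit 349) (nat_lit 266) (nat_lit 165)) (XT.lf (nat_lit 0) (nat_lit 3555870775) (nat_lit 228) (nat_lit 2907654130) (nat_lit 76) (nat_lit 17966508588) (nat_lit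 35) (nat_lit 5) (nat_lit 38) (nat_lit 5) (nat_lit 36) (nat_lit 5) (nat_lit 350) (nat_lit 266) (nat_lit 164)))) (XT.nd (nat_lit 78) (nat_lit 0) (nat_lit 0) (XT.lf (nat_lit 0) (nat_lit 6459699604) (nat_lit 152) (nat_lit 1056668382) (nat_lit 228) (nat_lit 17473899956) (nat_lit 33) (nat_lit 5) (nat_lit 35) (nat_lit 5) (nat_lit 36) (nat_lit 5) (nat_lit 351) (nat_lit 266) (nat_lit 163)) (XT.nd (nat_lit 78) (nat_lit 0) (nat_lit 0) (XT.lf (nat_lit 0) (nat_lit 11653955593) (nat_lit 228) (nat_lit 9467057781) (nat_lit 76) (nat_lit 4444557663) (nat_lit 33) (nat_lit 5) (nat_lit 36) (nat_lit 5) (nat_lit 34) (nat_lit 5) (nat_lit 352) (nat_lit 266) (nat_lit 162)) (XT.lf (nat_lit 0) (nat_lit 15911809856) (nat_lit 228) (nat_lit 166026898) (nat_lit 76) (nat_lit 10080421889) (nat_lit 33) (nat_lit 5) (nat_lit 36) (nat_lit 5) (nat_lit 34) (nat_lit 5) (nat_lit 353) (nat_lit 266) (nat_lit 161))))) (XT.nd (nat_lit 234)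 (nat_lit 152) (nat_lit 0) (XT.nd (nat_lit 78) (nat_lit 228) (nat_lit 0) (XT.lf (nat_lit 0) (nat_lit 9577704275) (nat_lit 152) (nat_lit 10797856366) (nat_lit 228) (nat_lit 6390830720) (nat_lit 31) (nat_lit 5) (nat_lit 33) (nat_lit 5) (nat_lit 34) (nat_lit 5) (nat_lit 354) (nat_lit 266) (nat_lit 160)) (XT.nd (nat_lit 78) (nat_lit 228) (nat_lit 0) (XT.lf (nat_lit 0) (nat_lit 19594152336) (nat_lit 152) (nat_lit 5367026250) (nat_lit 228) (nat_lit 2431959873) (nat_lit 31) (nat_lit 5) (nat_lit 33) (nat_lit 5) (nat_lit 34) (nat_lit 5) (nat_lit 355) (nat_lit 266) (nat_lit 159)) (XT.lf (nat_lit 0) (nat_lit 1620507696) (nat_lit 228) (nat_lit 26170031202) (nat_lit 76) (nat_lit 247474703) (nat_lit 28) (nat_lit 5) (nat_lit 31) (nat_lit 5) (nat_lit 29) (nat_lit 5) (nat_lit 356) (nat_lit 266) (nat_lit 158)))) (XT.nd (nat_lit 156) (nat_lit 152) (nat_lit 0) (XT.nd (nat_lit 78) (nat_lit 0) (nat_lit 0) (XT.lf (nat_lit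 0) (nat_lit 5864969150) (nat_lit 228) (nat_lit 16815741056) (nat_lit 76) (nat_lit 6017231703) (nat_lit 28) (nat_lit 5) (nat_lit 31) (nat_lit 5) (nat_lit 29) (nat_lit 5) (nat_lit 357) (nat_lit 266) (nat_lit 157)) (XT.lf (nat_lit 0) (nat_lit 10223780715) (nat_lit 228) (nat_lit 7202863769) (nat_lit 76) (nat_lit 11951421126) (nat_lit 28) (nat_lit 5) (nat_lit 31) (nat_lit 5) (nat_lit 29) (nat_lit 5) (nat_lit 358) (nat_lit 266) (nat_lit 156))) (XT.nd (nat_lit 78) (nat_lit 0) (nat_lit 0) (XT.lf (nat_lit 0) (nat_lit 2730277816) (nat_lit 152) (nat_lit 11996718345) (nat_lit 228) (nat_lit 15351195471) (nat_lit 26) (nat_lit 5) (nat_lit 28) (nat_lit 5) (nat_lit 29) (nat_lit 5) (nat_lit 359) (nat_lit 266) (nat_lit 155)) (XT.lf (nat_lit 0) (nat_lit 13087875520) (nat_lit 152) (nat_lit 6337725248) (nat_lit 228) (nat_lit 11371919455) (nat_lit 26) (nat_lit 5) (nat_lit 28) (nat_lit 5) (nat_lit 29) (nat_lit 5) (nat_lit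 360) (nat_lit 266) (nat_lit 154)))))) (XT.nd (nat_lit 546) (nat_lit 304) (nat_lit 0) (XT.nd (nat_lit 234) (nat_lit 152) (nat_lit 0) (XT.nd (nat_lit 78) (nat_lit 152) (nat_lit 0) (XT.lf (nat_lit 0) (nat_lit 23735628557) (nat_lit 152) (nat_lit 517455244) (nat_lit 228) (nat_lit 7285714611) (nat_lit 26) (nat_lit 5) (nat_lit 28) (nat_lit 5) (nat_lit 29) (nat_lit 5) (nat_lit 361) (nat_lit 266) (nat_lit 153)) (XT.nd (nat_lit 78) (nat_lit 76) (nat_lit 0) (XT.lf (nat_lit 0) (nat_lit 2373917472) (nat_lit 76) (nat_lit 26915138604) (nat_lit 152) (nat_lit 3011356064) (nat_lit 25) (nat_lit 5) (nat_lit 26) (nat_lit 5) (nat_lit 27) (nat_lit 4) (nat_lit 362) (nat_lit 266) (nat_lit 152)) (XT.lf (nat_lit 0) (nat_lit 1437007252) (nat_lit 152) (nat_lit 20105808177) (nat_lit 76) (nat_lit 11539476714) (nat_lit 24) (nat_lit 5) (nat_lit 26) (nat_lit 5) (nat_lit 25) (nat_lit 5) (nat_lit 363) (nat_lit 266) (nat_lit 151))))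 (XT.nd (nat_lit 156) (nat_lit 0) (nat_lit 0) (XT.nd (nat_lit 78) (nat_lit 152) (nat_lit 0) (XT.lf (nat_lit 0) (nat_lit 5946861035) (nat_lit 152) (nat_lit 10040021042) (nat_lit 76) (nat_lit 17900201593) (nat_lit 24) (nat_lit 5) (nat_lit 26) (nat_lit 5) (nat_lit 25) (nat_lit 5) (nat_lit 364) (nat_lit 266) (nat_lit 150)) (XT.lf (nat_lit 0) (nat_lit 314751006) (nat_lit 152) (nat_lit 10269182907) (nat_lit 228) (nat_lit 24132333663) (nat_lit 22) (nat_lit 5) (nat_lit 24) (nat_lit 5) (nat_lit 25) (nat_lit 5) (nat_lit 365) (nat_lit 266) (nat_lit 149))) (XT.nd (nat_lit 78) (nat_lit 0) (nat_lit 0) (XT.lf (nat_lit 0) (nat_lit 11167033735) (nat_lit 152) (nat_lit 4283508944) (nat_lit 228) (nat_lit 20117077766) (nat_lit 22) (nat_lit 5) (nat_lit 24) (nat_lit 5) (nat_lit 25) (nat_lit 5) (nat_lit 366) (nat_lit 266) (nat_lit 148)) (XT.lf (nat_lit 0) (nat_lit 20470522023) (nat_lit 228) (nat_lit 14136359403) (nat_lit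 76) (nat_lit 1837417279) (nat_lit 22) (nat_lit 5) (nat_lit 25) (nat_lit 5) (nat_lit 23) (nat_lit 4) (nat_lit 367) (nat_lit 266) (nat_lit 147))))) (XT.nd (nat_lit 234) (nat_lit 228) (nat_lit 0) (XT.nd (nat_lit 78) (nat_lit 76) (nat_lit 0) (XT.lf (nat_lit 0) (nat_lit 25673107771) (nat_lit 228) (nat_lit 3624715341) (nat_lit 76) (nat_lit 8048499792) (nat_lit 22) (nat_lit 5) (nat_lit 25) (nat_lit 5) (nat_lit 23) (nat_lit 4) (nat_lit 368) (nat_lit 266) (nat_lit 146)) (XT.nd (nat_lit 78) (nat_lit 0) (nat_lit 0) (XT.lf (nat_lit 0) (nat_lit 7327695853) (nat_lit 76) (nat_lit 23764412605) (nat_lit 152) (nat_lit 7181494882) (nat_lit 21) (nat_lit 5) (nat_lit 22) (nat_lit 5) (nat_lit 23) (nat_lit 4) (nat_lit 369) (nat_lit 266) (nat_lit 145)) (XT.lf (nat_lit 0) (nat_lit 18665582841) (nat_lit 76) (nat_lit 18034724860) (nat_lit 152) (nat_lit 2527601100) (nat_lit 21) (nat_lit 5) (nat_lit 22) (nat_lit 5) (nat_lit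 23) (nat_lit 4) (nat_lit 370) (nat_lit 266) (nat_lit 144)))) (XT.nd (nat_lit 156) (nat_lit 0) (nat_lit 0) (XT.nd (nat_lit 78) (nat_lit 152) (nat_lit 0) (XT.lf (nat_lit 0) (nat_lit 2211908879) (nat_lit 152) (nat_lit 9906111050) (nat_lit 76) (nat_lit 28092468748) (nat_lit 20) (nat_lit 5) (nat_lit 22) (nat_lit 5) (nat_lit 21) (nat_lit 5) (nat_lit 371) (nat_lit 266) (nat_lit 143)) (XT.lf (nat_lit 0) (nat_lit 1048632237) (nat_lit 152) (nat_lit 5994750164) (nat_lit 228) (nat_lit 34178400367) (nat_lit 18) (nat_lit 5) (nat_lit 20) (nat_lit 5) (nat_lit 21) (nat_lit 5) (nat_lit 372) (nat_lit 266) (nat_lit 142))) (XT.nd (nat_lit 78) (nat_lit 0) (nat_lit 0) (XT.lf (nat_lit 0) (nat_lit 12114375449) (nat_lit 228) (nat_lit 29745973683) (nat_lit 76) (nat_lit 400234147) (nat_lit 18) (nat_lit 5) (nat_lit 21) (nat_lit 5) (nat_lit 19) (nat_lit 4) (nat_lit 373) (nat_lit 266) (nat_lit 141)) (XT.lf (nat_lit 0) (nat_lit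 17387678828) (nat_lit 228) (nat_lit 19081501233) (nat_lit 76) (nat_lit 6859867046) (nat_lit 18) (nat_lit 5) (nat_lit 21) (nat_lit 5) (nat_lit 19) (nat_lit 4) (nat_lit 374) (nat_lit 266) (nat_lit 140))))))))
noncomputable def xc124 : XT := (XT.nd (nat_lit 2028) (nat_lit 152) (nat_lit 0) (XT.nd (nat_lit 1014) (nat_lit 228) (nat_lit 0) (XT.nd (nat_lit 468) (nat_lit 76) (nat_lit 0) (XT.nd (nat_lit 234) (nat_lit 228) (nat_lit 0) (XT.nd (nat_lit 78) (nat_lit 76) (nat_lit 0) (XT.lf (nat_lit 0) (nat_lit 22810275073) (nat_lit 228) (nat_lit 8112789505) (nat_lit 76) (nat_lit 13506772038) (nat_lit 18) (nat_lit 5) (nat_lit 21) (nat_lit 5) (nat_lit 19) (nat_lit 4) (nat_lit 375) (nat_lit 266) (nat_lit 139)) (XT.nd (nat_lit 78) (nat_lit 0) (nat_lit 0) (XT.lf (nat_lit 0) (nat_lit 3232829970) (nat_lit 76) (nat_lit 25185148345) (nat_lit 152) (nat_lit 17145003068) (nat_lit 17) (nat_lit 5) (nat_lit 18) (nat_lit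 5) (nat_lit 19) (nat_lit 4) (nat_lit 376) (nat_lit 266) (nat_lit 138)) (XT.lf (nat_lit 0) (nat_lit 15070033889) (nat_lit 76) (nat_lit 19197262014) (nat_lit 152) (nat_lit 12460627411) (nat_lit 17) (nat_lit 5) (nat_lit 18) (nat_lit 5) (nat_lit 19) (nat_lit 4) (nat_lit 377) (nat_lit 266) (nat_lit 137)))) (XT.nd (nat_lit 78) (nat_lit 228) (nat_lit 0) (XT.lf (nat_lit 0) (nat_lit 27247705020) (nat_lit 76) (nat_lit 13036096716) (nat_lit 152) (nat_lit 7644264694) (nat_lit 17) (nat_lit 5) (nat_lit 18) (nat_lit 5) (nat_lit 19) (nat_lit 4) (nat_lit 378) (nat_lit 266) (nat_lit 136)) (XT.nd (nat_lit 78) (nat_lit 228) (nat_lit 0) (XT.lf (nat_lit 0) (nat_lit 39776484047) (nat_lit 76) (nat_lit 6696268911) (nat_lit 152) (nat_lit 2691706446) (nat_lit 17) (nat_lit 5) (nat_lit 18) (nat_lit 5) (nat_lit 19) (nat_lit 4) (nat_lit 379) (nat_lit 266) (nat_lit 135)) (XT.lf (nat_lit 0) (nat_lit 2249957153) (nat_lit 152)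 (nat_lit 126186150) (nat_lit 228) (nat_lit 48060697930) (nat_lit 14) (nat_lit 5) (nat_lit 16) (nat_lit 5) (nat_lit 17) (nat_lit 5) (nat_lit 380) (nat_lit 266) (nat_lit 134))))) (XT.nd (nat_lit 234) (nat_lit 76) (nat_lit 0) (XT.nd (nat_lit 78) (nat_lit 0) (nat_lit 0) (XT.lf (nat_lit 0) (nat_lit 7693646485) (nat_lit 228) (nat_lit 37420516865) (nat_lit 76) (nat_lit 6627883818) (nat_lit 14) (nat_lit 5) (nat_lit 17) (nat_lit 5) (nat_lit 15) (nat_lit 4) (nat_lit 381) (nat_lit 266) (nat_lit 133)) (XT.nd (nat_lit 78) (nat_lit 0) (nat_lit 0) (XT.lf (nat_lit 0) (nat_lit 13164295456) (nat_lit 228) (nat_lit 26346011653) (nat_lit 76) (nat_lit 13576297166) (nat_lit 14) (nat_lit 5) (nat_lit 17) (nat_lit 5) (nat_lit 15) (nat_lit 4) (nat_lit 382) (nat_lit 266) (nat_lit 132)) (XT.lf (nat_lit 0) (nat_lit 18791657419) (nat_lit 228) (nat_lit 14952478714) (nat_lit 76) (nat_lit 20727587667) (nat_lit 14) (nat_lit 5)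 (nat_lit 17) (nat_lit 5) (nat_lit 15) (nat_lit 4) (nat_lit 383) (nat_lit 266) (nat_lit 131)))) (XT.nd (nat_lit 156) (nat_lit 0) (nat_lit 0) (XT.nd (nat_lit 78) (nat_lit 76) (nat_lit 0) (XT.lf (nat_lit 0) (nat_lit 24580649484) (nat_lit 228) (nat_lit 3229962534) (nat_lit 76) (nat_lit 28088004022) (nat_lit 14) (nat_lit 5) (nat_lit 17) (nat_lit 5) (nat_lit 15) (nat_lit 4) (nat_lit 384) (nat_lit 266) (nat_lit 130)) (XT.lf (nat_lit 0) (nat_lit 9007549599) (nat_lit 76) (nat_lit 21615366474) (nat_lit 152) (nat_lit 26743014140) (nat_lit 13) (nat_lit 5) (nat_lit 14) (nat_lit 5) (nat_lit 15) (nat_lit 4) (nat_lit 385) (nat_lit 266) (nat_lit 129))) (XT.nd (nat_lit 78) (nat_lit 0) (nat_lit 0) (XT.lf (nat_lit 0) (nat_lit 21666070944) (nat_lit 76) (nat_lit 15206099530) (nat_lit 152) (nat_lit 22004324955) (nat_lit 13) (nat_lit 5) (nat_lit 14) (nat_lit 5) (nat_lit 15) (nat_lit 4) (nat_lit 386) (nat_lit 266) (nat_lit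 128)) (XT.lf (nat_lit 0) (nat_lit 34692379757) (nat_lit 76) (nat_lit 8609827144) (nat_lit 152) (nat_lit 17130374687) (nat_lit 13) (nat_lit 5) (nat_lit 14) (nat_lit 5) (nat_lit 15) (nat_lit 4) (nat_lit 387) (nat_lit 266) (nat_lit 127)))))) (XT.nd (nat_lit 468) (nat_lit 76) (nat_lit 0) (XT.nd (nat_lit 234) (nat_lit 76) (nat_lit 0) (XT.nd (nat_lit 78) (nat_lit 76) (nat_lit 0) (XT.lf (nat_lit 0) (nat_lit 48097858250) (nat_lit 76) (nat_lit 1820785584) (nat_lit 152) (nat_lit 12116904544) (nat_lit 13) (nat_lit 5) (nat_lit 14) (nat_lit 5) (nat_lit 15) (nat_lit 4) (nat_lit 388) (nat_lit 266) (nat_lit 126)) (XT.nd (nat_lit 78) (nat_lit 76) (nat_lit 0) (XT.lf (nat_lit 0) (nat_lit 56776930580) (nat_lit 152) (nat_lit 1842244455) (nat_lit 0) (nat_lit 5066131374) (nat_lit 13) (nat_lit 5) (nat_lit 15) (nat_lit 4) (nat_lit 13) (nat_lit 4) (nat_lit 389) (nat_lit 266) (nat_lit 125)) (XT.lf (nat_lit 0) (nat_lit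 10797645087) (nat_lit 76) (nat_lit 53158968181) (nat_lit 76) (nat_lit 1424477348) (nat_lit 12) (nat_lit 4) (nat_lit 13) (nat_lit 5) (nat_lit 13) (nat_lit 4) (nat_lit 390) (nat_lit 266) (nat_lit 124)))) (XT.nd (nat_lit 78) (nat_lit 0) (nat_lit 0) (XT.lf (nat_lit 0) (nat_lit 4154138402) (nat_lit 152) (nat_lit 43324591455) (nat_lit 76) (nat_lit 19647424352) (nat_lit 11) (nat_lit 5) (nat_lit 13) (nat_lit 5) (nat_lit 12) (nat_lit 4) (nat_lit 391) (nat_lit 266) (nat_lit 123)) (XT.nd (nat_lit 78) (nat_lit 0) (nat_lit 0) (XT.lf (nat_lit 0) (nat_lit 9865498853) (nat_lit 152) (nat_lit 31752861372) (nat_lit 76) (nat_lit 27304968482) (nat_lit 11) (nat_lit 5) (nat_lit 13) (nat_lit 5) (nat_lit 12) (nat_lit 4) (nat_lit 392) (nat_lit 266) (nat_lit 122)) (XT.lf (nat_lit 0) (nat_lit 15742391195) (nat_lit 152) (nat_lit 19844451111) (nat_lit 76) (nat_lit 35187752934) (nat_lit 11) (nat_lit 5) (nat_lit 13) (nat_lit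 5) (nat_lit 12) (nat_lit 4) (nat_lit 393) (nat_lit 266) (nat_lit 121))))) (XT.nd (nat_lit 234) (nat_lit 0) (nat_lit 0) (XT.nd (nat_lit 78) (nat_lit 76) (nat_lit 0) (XT.lf (nat_lit 0) (nat_lit 21789950579) (nat_lit 152) (nat_lit 7588955266) (nat_lit 76) (nat_lit 43302665580) (nat_lit 11) (nat_lit 5) (nat_lit 13) (nat_lit 5) (nat_lit 12) (nat_lit 4) (nat_lit 394) (nat_lit 266) (nat_lit 120)) (XT.nd (nat_lit 78) (nat_lit 0) (nat_lit 0) (XT.lf (nat_lit 0) (nat_lit 5124328963) (nat_lit 76) (nat_lit 22938390500) (nat_lit 152) (nat_lit 46581726341) (nat_lit 10) (nat_lit 5) (nat_lit 11) (nat_lit 5) (nat_lit 12) (nat_lit 4) (nat_lit 395) (nat_lit 266) (nat_lit 119)) (XT.lf (nat_lit 0) (nat_lit 18364804028) (nat_lit 76) (nat_lit 16230091017) (nat_lit 152) (nat_lit 42069176981) (nat_lit 10) (nat_lit 5) (nat_lit 11) (nat_lit 5) (nat_lit 12) (nat_lit 4) (nat_lit 396) (nat_lit 266) (nat_lit 118)))) (XT.nd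 (nat_lit 156) (nat_lit 0) (nat_lit 0) (XT.nd (nat_lit 78) (nat_lit 0) (nat_lit 0) (XT.lf (nat_lit 0) (nat_lit 31993004184) (nat_lit 76) (nat_lit 9324779341) (nat_lit 152) (nat_lit 37426663332) (nat_lit 10) (nat_lit 5) (nat_lit 11) (nat_lit 5) (nat_lit 12) (nat_lit 4) (nat_lit 397) (nat_lit 266) (nat_lit 117)) (XT.lf (nat_lit 0) (nat_lit 46020837569) (nat_lit 76) (nat_lit 2216421707) (nat_lit 152) (nat_lit 32650128827) (nat_lit 10) (nat_lit 5) (nat_lit 11) (nat_lit 5) (nat_lit 12) (nat_lit 4) (nat_lit 398) (nat_lit 266) (nat_lit 116))) (XT.nd (nat_lit 78) (nat_lit 0) (nat_lit 0) (XT.lf (nat_lit 0) (nat_lit 55408404229) (nat_lit 152) (nat_lit 22683242514) (nat_lit 0) (nat_lit 5001650420) (nat_lit 10) (nat_lit 5) (nat_lit 12) (nat_lit 4) (nat_lit 10) (nat_lit 4) (nat_lit 399) (nat_lit 266) (nat_lit 115)) (XT.lf (nat_lit 0) (nat_lit 62811784369) (nat_lit 152) (nat_lit 10165172937) (nat_lit 0) (nat_lit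 12387915224) (nat_lit 10) (nat_lit 5) (nat_lit 12) (nat_lit 4) (nat_lit 10) (nat_lit 4) (nat_lit 400) (nat_lit 266) (nat_lit 114))))))) (XT.nd (nat_lit 30654) (nat_lit 0) (nat_lit 16492) (XT.nd (nat_lit 468) (nat_lit 0) (nat_lit 0) (XT.nd (nat_lit 234) (nat_lit 76) (nat_lit 0) (XT.nd (nat_lit 78) (nat_lit 0) (nat_lit 0) (XT.lf (nat_lit 0) (nat_lit 2774033294) (nat_lit 76) (nat_lit 67685195478) (nat_lit 76) (nat_lit 17244709502) (nat_lit 9) (nat_lit 4) (nat_lit 10) (nat_lit 5) (nat_lit 10) (nat_lit 4) (nat_lit 401) (nat_lit 266) (nat_lit 113)) (XT.nd (nat_lit 78) (nat_lit 0) (nat_lit 0) (XT.lf (nat_lit 0) (nat_lit 16301338676) (nat_lit 76) (nat_lit 62132759022) (nat_lit 76) (nat_lit 11676140202) (nat_lit 9) (nat_lit 4) (nat_lit 10) (nat_lit 5) (nat_lit 10) (nat_lit 4) (nat_lit 402) (nat_lit 266) (nat_lit 112)) (XT.lf (nat_lit 0) (nat_lit 30226256307) (nat_lit 76) (nat_lit 56417444611) (nat_lit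 76) (nat_lit 5945162834) (nat_lit 9) (nat_lit 4) (nat_lit 10) (nat_lit 5) (nat_lit 10) (nat_lit 4) (nat_lit 403) (nat_lit 266) (nat_lit 111)))) (XT.nd (nat_lit 78) (nat_lit 76) (nat_lit 0) (XT.lf (nat_lit 0) (nat_lit 44560953594) (nat_lit 76) (nat_lit 50534258280) (nat_lit 76) (nat_lit 46769749) (nat_lit 9) (nat_lit 4) (nat_lit 10) (nat_lit 5) (nat_lit 10) (nat_lit 4) (nat_lit 404) (nat_lit 266) (nat_lit 110)) (XT.nd (nat_lit 78) (nat_lit 0) (nat_lit 0) (XT.lf (nat_lit 0) (nat_lit 5906639283) (nat_lit 152) (nat_lit 38511774623) (nat_lit 76) (nat_lit 53351671240) (nat_lit 8) (nat_lit 5) (nat_lit 10) (nat_lit 5) (nat_lit 9) (nat_lit 4) (nat_lit 405) (nat_lit 266) (nat_lit 109)) (XT.lf (nat_lit 0) (nat_lit 12033539078) (nat_lit 152) (nat_lit 26088501863) (nat_lit 76) (nat_lit 62355103761) (nat_lit 8) (nat_lit 5) (nat_lit 10) (nat_lit 5) (nat_lit 9) (nat_lit 4) (nat_lit 406) (nat_lit 266) (nat_lit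 108))))) (XT.nd (nat_lit 29874) (nat_lit 0) (nat_lit 19988) (XT.nd (nat_lit 29718) (nat_lit 0) (nat_lit 20520) (XT.lf (nat_lit 0) (nat_lit 18340195883) (nat_lit 152) (nat_lit 13299904885) (nat_lit 76) (nat_lit 71625438406) (nat_lit 8) (nat_lit 5) (nat_lit 10) (nat_lit 5) (nat_lit 9) (nat_lit 4) (nat_lit 407) (nat_lit 266) (nat_lit 107)) (XT.nd (nat_lit 78) (nat_lit 0) (nat_lit 0) (XT.lf (nat_lit 0) (nat_lit 1373755212) (nat_lit 532) (nat_lit 977509443) (nat_lit 532) (nat_lit 977509443) (nat_lit 278) (nat_lit 3) (nat_lit 285) (nat_lit 3) (nat_lit 285) (nat_lit 5) (nat_lit 267) (nat_lit 267) (nat_lit 246)) (XT.lf (nat_lit 76) (nat_lit 1081612473) (nat_lit 0) (nat_lit 3800415351) (nat_lit 532) (nat_lit 1807720811) (nat_lit 279) (nat_lit 5) (nat_lit 278) (nat_lit 3) (nat_lit 285) (nat_lit 5) (nat_lit 268) (nat_lit 267) (nat_lit 245)))) (XT.nd (nat_lit 156) (nat_lit 0) (nat_lit 0) (XT.nd (nat_lit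 78) (nat_lit 0) (nat_lit 0) (XT.lf (nat_lit 0) (nat_lit 287927176) (nat_lit 532) (nat_lit 2521162117) (nat_lit 608) (nat_lit 3915789709) (nat_lit 271) (nat_lit 5) (nat_lit 278) (nat_lit 3) (nat_lit 279) (nat_lit 5) (nat_lit 269) (nat_lit 267) (nat_lit 244)) (XT.lf (nat_lit 76) (nat_lit 609083613) (nat_lit 0) (nat_lit 1726594651) (nat_lit 608) (nat_lit 4427259977) (nat_lit 272) (nat_lit 5) (nat_lit 271) (nat_lit 5) (nat_lit 279) (nat_lit 5) (nat_lit 270) (nat_lit 267) (nat_lit 243))) (XT.nd (nat_lit 78) (nat_lit 0) (nat_lit 76) (XT.lf (nat_lit 76) (nat_lit 3842018093) (nat_lit 0) (nat_lit 549940858) (nat_lit 608) (nat_lit 2411941100) (nat_lit 272) (nat_lit 5) (nat_lit 271) (nat_lit 5) (nat_lit 279) (nat_lit 5) (nat_lit 271) (nat_lit 267) (nat_lit 242)) (XT.lf (nat_lit 76) (nat_lit 280527892) (nat_lit 0) (nat_lit 6162712046) (nat_lit 608) (nat_lit 405020067) (nat_lit 273) (nat_lit 5) (nat_lit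 272) (nat_lit 5) (nat_lit 280) (nat_lit 5) (nat_lit 272) (nat_lit 267) (nat_lit 241)))))) (XT.nd (nat_lit 468) (nat_lit 2280) (nat_lit 0) (XT.nd (nat_lit 234) (nat_lit 684) (nat_lit 0) (XT.nd (nat_lit 78) (nat_lit 0) (nat_lit 0) (XT.lf (nat_lit 0) (nat_lit 1590467237) (nat_lit 608) (nat_lit 3279491677) (nat_lit 684) (nat_lit 2024847725) (nat_lit 264) (nat_lit 5) (nat_lit 272) (nat_lit 5) (nat_lit 273) (nat_lit 5) (nat_lit 273) (nat_lit 267) (nat_lit 240)) (XT.nd (nat_lit 78) (nat_lit 0) (nat_lit 0) (XT.lf (nat_lit 76) (nat_lit 60245346) (nat_lit 0) (nat_lit 3505334832) (nat_lit 684) (nat_lit 3379366481) (nat_lit 265) (nat_lit 5) (nat_lit 264) (nat_lit 5) (nat_lit 273) (nat_lit 5) (nat_lit 274) (nat_lit 267) (nat_lit 239)) (XT.lf (nat_lit 76) (nat_lit 3523519188) (nat_lit 0) (nat_lit 2038561166) (nat_lit 684) (nat_lit 1435796352) (nat_lit 265) (nat_lit 5) (nat_lit 264) (nat_lit 5) (nat_lit 273)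 (nat_lit 5) (nat_lit 275) (nat_lit 267) (nat_lit 238)))) (XT.nd (nat_lit 78) (nat_lit 0) (nat_lit 76) (XT.lf (nat_lit 0) (nat_lit 485294502) (nat_lit 684) (nat_lit 11277682) (nat_lit 760) (nat_lit 6557892668) (nat_lit 255) (nat_lit 5) (nat_lit 264) (nat_lit 5) (nat_lit 265) (nat_lit 5) (nat_lit 276) (nat_lit 267) (nat_lit 237)) (XT.nd (nat_lit 78) (nat_lit 0) (nat_lit 0) (XT.lf (nat_lit 0) (nat_lit 2412964671) (nat_lit 684) (nat_lit 3556415720) (nat_lit 760) (nat_lit 1143746762) (nat_lit 256) (nat_lit 5) (nat_lit 265) (nat_lit 5) (nat_lit 266) (nat_lit 5) (nat_lit 277) (nat_lit 267) (nat_lit 236)) (XT.lf (nat_lit 76) (nat_lit 8908939) (nat_lit 0) (nat_lit 4328756625) (nat_lit 760) (nat_lit 2837840873) (nat_lit 257) (nat_lit 5) (nat_lit 256) (nat_lit 5) (nat_lit 266) (nat_lit 5) (nat_lit 278) (nat_lit 267) (nat_lit 235))))) (XT.nd (nat_lit 234) (nat_lit 1596) (nat_lit 0) (XT.nd (nat_lit 78) (nat_lit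 760) (nat_lit 0) (XT.lf (nat_lit 76) (nat_lit 3709762605) (nat_lit 0) (nat_lit 2581834856) (nat_lit 760) (nat_lit 949144194) (nat_lit 257) (nat_lit 5) (nat_lit 256) (nat_lit 5) (nat_lit 266) (nat_lit 5) (nat_lit 279) (nat_lit 267) (nat_lit 234)) (XT.nd (nat_lit 78) (nat_lit 0) (nat_lit 76) (XT.lf (nat_lit 76) (nat_lit 162886337) (nat_lit 0) (nat_lit 752164331) (nat_lit 836) (nat_lit 6394569500) (nat_lit 247) (nat_lit 5) (nat_lit 246) (nat_lit 5) (nat_lit 257) (nat_lit 5) (nat_lit 280) (nat_lit 267) (nat_lit 233)) (XT.lf (nat_lit 0) (nat_lit 2801292423) (nat_lit 760) (nat_lit 3406316423) (nat_lit 76) (nat_lit 1173236616) (nat_lit 247) (nat_lit 5) (nat_lit 257) (nat_lit 5) (nat_lit 248) (nat_lit 5) (nat_lit 281) (nat_lit 267) (nat_lit 232)))) (XT.nd (nat_lit 156) (nat_lit 912) (nat_lit 0) (XT.nd (nat_lit 78) (nat_lit 0) (nat_lit 0) (XT.lf (nat_lit 0) (nat_lit 401918359) (nat_lit 760) (nat_lit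 4293614332) (nat_lit 836) (nat_lit 2760247324) (nat_lit 237) (nat_lit 5) (nat_lit 247) (nat_lit 5) (nat_lit 248) (nat_lit 5) (nat_lit 282) (nat_lit 267) (nat_lit 231)) (XT.lf (nat_lit 0) (nat_lit 4349874605) (nat_lit 760) (nat_lit 2272541592) (nat_lit 836) (nat_lit 911383425) (nat_lit 237) (nat_lit 5) (nat_lit 247) (nat_lit 5) (nat_lit 248) (nat_lit 5) (nat_lit 283) (nat_lit 267) (nat_lit 230))) (XT.nd (nat_lit 78) (nat_lit 0) (nat_lit 0) (XT.lf (nat_lit 0) (nat_lit 763146383) (nat_lit 836) (nat_lit 160215779) (nat_lit 912) (nat_lit 6692122653) (nat_lit 225) (nat_lit 5) (nat_lit 236) (nat_lit 5) (nat_lit 237) (nat_lit 5) (nat_lit 284) (nat_lit 267) (nat_lit 229)) (XT.lf (nat_lit 0) (nat_lit 2790505486) (nat_lit 912) (nat_lit 2879260620) (nat_lit 76) (nat_lit 2029815589) (nat_lit 225) (nat_lit 5) (nat_lit 237) (nat_lit 5) (nat_lit 226) (nat_lit 5) (nat_lit 285) (nat_lit 267) (nat_lit 228))))))))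
noncomputable def xc125 : XT := (XT.nd (nat_lit 2028) (nat_lit 4104) (nat_lit 0) (XT.nd (nat_lit 1014) (nat_lit 3268) (nat_lit 0) (XT.nd (nat_lit 468) (nat_lit 2964) (nat_lit 0) (XT.nd (nat_lit 234) (nat_lit 1064) (nat_lit 0) (XT.nd (nat_lit 78) (nat_lit 1064) (nat_lit 0) (XT.lf (nat_lit 0) (nat_lit 1190195902) (nat_lit 912) (nat_lit 3481959939) (nat_lit 988) (nat_lit 3115389919) (nat_lit 213) (nat_lit 5) (nat_lit 225) (nat_lit 5) (nat_lit 226) (nat_lit 5) (nat_lit 286) (nat_lit 267) (nat_lit 227)) (XT.nd (nat_lit 78) (nat_lit 1064) (nat_lit 0) (XT.lf (nat_lit 0) (nat_lit 5396741608) (nat_lit 912) (nat_lit 1189219803) (nat_lit 988) (nat_lit 1293012343) (nat_lit 213) (nat_lit 5) (nat_lit 225) (nat_lit 5) (nat_lit 226) (nat_lit 5) (nat_lit 287) (nat_lit 267) (nat_lit 226)) (XT.lf (nat_lit 0) (nat_lit 548526831) (nat_lit 1064) (nat_lit 6244883366) (nat_lit 76) (nat_lit 1180380016) (nat_lit 199)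 (nat_lit 5) (nat_lit 213) (nat_lit 5) (nat_lit 200) (nat_lit 5) (nat_lit 288) (nat_lit 267) (nat_lit 225)))) (XT.nd (nat_lit 78) (nat_lit 1064) (nat_lit 0) (XT.lf (nat_lit 0) (nat_lit 2405177795) (nat_lit 1064) (nat_lit 2023401894) (nat_lit 76) (nat_lit 3642999813) (nat_lit 199) (nat_lit 5) (nat_lit 213) (nat_lit 5) (nat_lit 200) (nat_lit 5) (nat_lit 289) (nat_lit 267) (nat_lit 224)) (XT.nd (nat_lit 78) (nat_lit 0) (nat_lit 0) (XT.lf (nat_lit 0) (nat_lit 2326291843) (nat_lit 1064) (nat_lit 1963856025) (nat_lit 1140) (nat_lit 3883061466) (nat_lit 185) (nat_lit 5) (nat_lit 199) (nat_lit 5) (nat_lit 200) (nat_lit 5) (nat_lit 290) (nat_lit 267) (nat_lit 223)) (XT.lf (nat_lit 0) (nat_lit 6209167720) (nat_lit 1140) (nat_lit 1480040857) (nat_lit 76) (nat_lit 589437428) (nat_lit 185) (nat_lit 5) (nat_lit 200) (nat_lit 5) (nat_lit 186) (nat_lit 5) (nat_lit 291) (nat_lit 267) (nat_lit 222))))) (XT.nd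 (nat_lit 234) (nat_lit 1216) (nat_lit 0) (XT.nd (nat_lit 78) (nat_lit 608) (nat_lit 0) (XT.lf (nat_lit 0) (nat_lit 3013520858) (nat_lit 1140) (nat_lit 5173407061) (nat_lit 1216) (nat_lit 200363311) (nat_lit 170) (nat_lit 5) (nat_lit 185) (nat_lit 5) (nat_lit 186) (nat_lit 5) (nat_lit 292) (nat_lit 267) (nat_lit 221)) (XT.nd (nat_lit 78) (nat_lit 532) (nat_lit 0) (XT.lf (nat_lit 0) (nat_lit 1659444169) (nat_lit 1216) (nat_lit 887507846) (nat_lit 76) (nat_lit 5952774020) (nat_lit 169) (nat_lit 5) (nat_lit 185) (nat_lit 5) (nat_lit 170) (nat_lit 5) (nat_lit 293) (nat_lit 267) (nat_lit 220)) (XT.lf (nat_lit 0) (nat_lit 3563649310) (nat_lit 608) (nat_lit 4855957138) (nat_lit 76) (nat_lit 196162718) (nat_lit 162) (nat_lit 5) (nat_lit 170) (nat_lit 5) (nat_lit 163) (nat_lit 5) (nat_lit 294) (nat_lit 267) (nat_lit 219)))) (XT.nd (nat_lit 156) (nat_lit 608) (nat_lit 0) (XT.nd (nat_lit 78) (nat_lit 608)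 (nat_lit 0) (XT.lf (nat_lit 0) (nat_lit 5514729461) (nat_lit 608) (nat_lit 239563801) (nat_lit 76) (nat_lit 2981379428) (nat_lit 162) (nat_lit 5) (nat_lit 170) (nat_lit 5) (nat_lit 163) (nat_lit 5) (nat_lit 295) (nat_lit 267) (nat_lit 218)) (XT.lf (nat_lit 0) (nat_lit 4561638702) (nat_lit 608) (nat_lit 2963329940) (nat_lit 684) (nat_lit 1334255359) (nat_lit 154) (nat_lit 5) (nat_lit 162) (nat_lit 5) (nat_lit 163) (nat_lit 5) (nat_lit 296) (nat_lit 267) (nat_lit 217))) (XT.nd (nat_lit 78) (nat_lit 0) (nat_lit 0) (XT.lf (nat_lit 0) (nat_lit 485783413) (nat_lit 532) (nat_lit 75622254) (nat_lit 608) (nat_lit 8426038338) (nat_lit 146) (nat_lit 5) (nat_lit 153) (nat_lit 5) (nat_lit 154) (nat_lit 5) (nat_lit 297) (nat_lit 267) (nat_lit 216)) (XT.lf (nat_lit 0) (nat_lit 2516784456) (nat_lit 608) (nat_lit 3703053428) (nat_lit 76) (nat_lit 2898450040) (nat_lit 146) (nat_lit 5) (nat_lit 154) (nat_lit 5)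 (nat_lit 147) (nat_lit 5) (nat_lit 298) (nat_lit 267) (nat_lit 215)))))) (XT.nd (nat_lit 468) (nat_lit 1748) (nat_lit 0) (XT.nd (nat_lit 234) (nat_lit 532) (nat_lit 0) (XT.nd (nat_lit 78) (nat_lit 456) (nat_lit 0) (XT.lf (nat_lit 0) (nat_lit 1219759440) (nat_lit 532) (nat_lit 3282737079) (nat_lit 608) (nat_lit 4751472218) (nat_lit 139) (nat_lit 5) (nat_lit 146) (nat_lit 5) (nat_lit 147) (nat_lit 5) (nat_lit 299) (nat_lit 267) (nat_lit 214)) (XT.nd (nat_lit 78) (nat_lit 456) (nat_lit 0) (XT.lf (nat_lit 0) (nat_lit 6323779647) (nat_lit 532) (nat_lit 221372941) (nat_lit 608) (nat_lit 2848706141) (nat_lit 139) (nat_lit 5) (nat_lit 146) (nat_lit 5) (nat_lit 147) (nat_lit 5) (nat_lit 300) (nat_lit 267) (nat_lit 213)) (XT.lf (nat_lit 0) (nat_lit 2011694639) (nat_lit 456) (nat_lit 6646036555) (nat_lit 532) (nat_lit 880013130) (nat_lit 133) (nat_lit 5) (nat_lit 139) (nat_lit 5) (nat_lit 140) (nat_lit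 5) (nat_lit 301) (nat_lit 267) (nat_lit 212)))) (XT.nd (nat_lit 78) (nat_lit 456) (nat_lit 0) (XT.lf (nat_lit 0) (nat_lit 1120263427) (nat_lit 532) (nat_lit 2432453500) (nat_lit 76) (nat_lit 6133105846) (nat_lit 132) (nat_lit 5) (nat_lit 139) (nat_lit 5) (nat_lit 133) (nat_lit 5) (nat_lit 302) (nat_lit 267) (nat_lit 211)) (XT.nd (nat_lit 78) (nat_lit 0) (nat_lit 0) (XT.lf (nat_lit 0) (nat_lit 2818725812) (nat_lit 456) (nat_lit 333772889) (nat_lit 532) (nat_lit 6685947600) (nat_lit 126) (nat_lit 5) (nat_lit 132) (nat_lit 5) (nat_lit 133) (nat_lit 5) (nat_lit 303) (nat_lit 267) (nat_lit 210)) (XT.lf (nat_lit 0) (nat_lit 5262366101) (nat_lit 532) (nat_lit 1788734736) (nat_lit 76) (nat_lit 2944099448) (nat_lit 126) (nat_lit 5) (nat_lit 133) (nat_lit 5) (nat_lit 127) (nat_lit 5) (nat_lit 304) (nat_lit 267) (nat_lit 209))))) (XT.nd (nat_lit 234) (nat_lit 760) (nat_lit 0) (XT.nd (nat_lit 78) (nat_lit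 532) (nat_lit 0) (XT.lf (nat_lit 0) (nat_lit 3625633817) (nat_lit 456) (nat_lit 3812320694) (nat_lit 532) (nat_lit 2718679821) (nat_lit 120) (nat_lit 5) (nat_lit 126) (nat_lit 5) (nat_lit 127) (nat_lit 5) (nat_lit 305) (nat_lit 267) (nat_lit 208)) (XT.nd (nat_lit 78) (nat_lit 532) (nat_lit 0) (XT.lf (nat_lit 0) (nat_lit 9198511344) (nat_lit 456) (nat_lit 463280995) (nat_lit 532) (nat_lit 661678341) (nat_lit 120) (nat_lit 5) (nat_lit 126) (nat_lit 5) (nat_lit 127) (nat_lit 5) (nat_lit 306) (nat_lit 267) (nat_lit 207)) (XT.lf (nat_lit 0) (nat_lit 1466404443) (nat_lit 532) (nat_lit 6047425017) (nat_lit 76) (nat_lit 2979974318) (nat_lit 113) (nat_lit 5) (nat_lit 120) (nat_lit 5) (nat_lit 114) (nat_lit 5) (nat_lit 307) (nat_lit 267) (nat_lit 206)))) (XT.nd (nat_lit 156) (nat_lit 380) (nat_lit 0) (XT.nd (nat_lit 78) (nat_lit 380) (nat_lit 0) (XT.lf (nat_lit 0) (nat_lit 3627211342) (nat_lit 532) (nat_lit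 512986574) (nat_lit 76) (nat_lit 6529431593) (nat_lit 113) (nat_lit 5) (nat_lit 120) (nat_lit 5) (nat_lit 114) (nat_lit 5) (nat_lit 308) (nat_lit 267) (nat_lit 205)) (XT.lf (nat_lit 0) (nat_lit 5250378248) (nat_lit 380) (nat_lit 620042213) (nat_lit 456) (nat_lit 4979825507) (nat_lit 108) (nat_lit 5) (nat_lit 113) (nat_lit 5) (nat_lit 114) (nat_lit 5) (nat_lit 309) (nat_lit 267) (nat_lit 204))) (XT.nd (nat_lit 78) (nat_lit 0) (nat_lit 0) (XT.lf (nat_lit 0) (nat_lit 93802455) (nat_lit 380) (nat_lit 8089772998) (nat_lit 456) (nat_lit 2852668017) (nat_lit 103) (nat_lit 5) (nat_lit 108) (nat_lit 5) (nat_lit 109) (nat_lit 5) (nat_lit 310) (nat_lit 267) (nat_lit 203)) (XT.lf (nat_lit 0) (nat_lit 6027088540) (nat_lit 380) (nat_lit 4569847889) (nat_lit 456) (nat_lit 630000941) (nat_lit 103) (nat_lit 5) (nat_lit 108) (nat_lit 5) (nat_lit 109) (nat_lit 5) (nat_lit 311) (nat_lit 267) (nat_lit 202)))))))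 (XT.nd (nat_lit 1014) (nat_lit 1596) (nat_lit 0) (XT.nd (nat_lit 468) (nat_lit 1292) (nat_lit 0) (XT.nd (nat_lit 234) (nat_lit 380) (nat_lit 0) (XT.nd (nat_lit 78) (nat_lit 380) (nat_lit 0) (XT.lf (nat_lit 0) (nat_lit 672974809) (nat_lit 380) (nat_lit 929227346) (nat_lit 456) (nat_lit 9821452807) (nat_lit 97) (nat_lit 5) (nat_lit 102) (nat_lit 5) (nat_lit 103) (nat_lit 5) (nat_lit 312) (nat_lit 267) (nat_lit 201)) (XT.nd (nat_lit 78) (nat_lit 380) (nat_lit 0) (XT.lf (nat_lit 0) (nat_lit 3938075355) (nat_lit 456) (nat_lit 4869718021) (nat_lit 76) (nat_lit 2816849935) (nat_lit 97) (nat_lit 5) (nat_lit 103) (nat_lit 5) (nat_lit 98) (nat_lit 5) (nat_lit 313) (nat_lit 267) (nat_lit 200)) (XT.lf (nat_lit 0) (nat_lit 1162592879) (nat_lit 380) (nat_lit 5171928856) (nat_lit 456) (nat_lit 5497460925) (nat_lit 92) (nat_lit 5) (nat_lit 97) (nat_lit 5) (nat_lit 98) (nat_lit 5) (nat_lit 314) (nat_lit 267)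 (nat_lit 199)))) (XT.nd (nat_lit 78) (nat_lit 380) (nat_lit 0) (XT.lf (nat_lit 0) (nat_lit 7437509454) (nat_lit 380) (nat_lit 1385150989) (nat_lit 456) (nat_lit 3222322986) (nat_lit 92) (nat_lit 5) (nat_lit 97) (nat_lit 5) (nat_lit 98) (nat_lit 5) (nat_lit 315) (nat_lit 267) (nat_lit 198)) (XT.nd (nat_lit 78) (nat_lit 76) (nat_lit 0) (XT.lf (nat_lit 0) (nat_lit 1605568433) (nat_lit 304) (nat_lit 9790884206) (nat_lit 380) (nat_lit 867625481) (nat_lit 88) (nat_lit 5) (nat_lit 92) (nat_lit 5) (nat_lit 93) (nat_lit 5) (nat_lit 316) (nat_lit 267) (nat_lit 197)) (XT.lf (nat_lit 0) (nat_lit 1559576965) (nat_lit 380) (nat_lit 4456157963) (nat_lit 76) (nat_lit 6472625912) (nat_lit 87) (nat_lit 5) (nat_lit 92) (nat_lit 5) (nat_lit 88) (nat_lit 5) (nat_lit 317) (nat_lit 267) (nat_lit 196))))) (XT.nd (nat_lit 234) (nat_lit 608) (nat_lit 0) (XT.nd (nat_lit 78) (nat_lit 304) (nat_lit 0) (XT.lf (nat_lit 0)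 (nat_lit 1924222269) (nat_lit 380) (nat_lit 2108819108) (nat_lit 456) (nat_lit 8686377705) (nat_lit 82) (nat_lit 5) (nat_lit 87) (nat_lit 5) (nat_lit 88) (nat_lit 5) (nat_lit 318) (nat_lit 267) (nat_lit 195)) (XT.nd (nat_lit 78) (nat_lit 304) (nat_lit 0) (XT.lf (nat_lit 0) (nat_lit 6617313257) (nat_lit 456) (nat_lit 4424946478) (nat_lit 76) (nat_lit 1914081599) (nat_lit 82) (nat_lit 5) (nat_lit 88) (nat_lit 5) (nat_lit 83) (nat_lit 5) (nat_lit 319) (nat_lit 267) (nat_lit 194)) (XT.lf (nat_lit 0) (nat_lit 2120610253) (nat_lit 304) (nat_lit 7173309244) (nat_lit 380) (nat_lit 3906037053) (nat_lit 78) (nat_lit 5) (nat_lit 82) (nat_lit 5) (nat_lit 83) (nat_lit 5) (nat_lit 320) (nat_lit 267) (nat_lit 193)))) (XT.nd (nat_lit 156) (nat_lit 228) (nat_lit 0) (XT.nd (nat_lit 78) (nat_lit 380) (nat_lit 0) (XT.lf (nat_lit 0) (nat_lit 8917294199) (nat_lit 304) (nat_lit 3152180289) (nat_lit 380) (nat_lit 1380874844)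 (nat_lit 78) (nat_lit 5) (nat_lit 82) (nat_lit 5) (nat_lit 83) (nat_lit 5) (nat_lit 321) (nat_lit 267) (nat_lit 192)) (XT.lf (nat_lit 0) (nat_lit 1201626937) (nat_lit 380) (nat_lit 11512303960) (nat_lit 76) (nat_lit 993836385) (nat_lit 73) (nat_lit 5) (nat_lit 78) (nat_lit 5) (nat_lit 74) (nat_lit 5) (nat_lit 322) (nat_lit 267) (nat_lit 191))) (XT.nd (nat_lit 78) (nat_lit 228) (nat_lit 0) (XT.lf (nat_lit 0) (nat_lit 3886046843) (nat_lit 380) (nat_lit 4833881605) (nat_lit 76) (nat_lit 5251029437) (nat_lit 73) (nat_lit 5) (nat_lit 78) (nat_lit 5) (nat_lit 74) (nat_lit 5) (nat_lit 323) (nat_lit 267) (nat_lit 190)) (XT.lf (nat_lit 0) (nat_lit 2050168867) (nat_lit 228) (nat_lit 4596032516) (nat_lit 304) (nat_lit 7596012196) (nat_lit 70) (nat_lit 5) (nat_lit 73) (nat_lit 5) (nat_lit 74) (nat_lit 5) (nat_lit 324) (nat_lit 267) (nat_lit 189)))))) (XT.nd (nat_lit 546) (nat_lit 760) (nat_lit 0) (XT.nd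 (nat_lit 234) (nat_lit 456) (nat_lit 0) (XT.nd (nat_lit 78) (nat_lit 380) (nat_lit 0) (XT.lf (nat_lit 0) (nat_lit 9205440456) (nat_lit 228) (nat_lit 308410561) (nat_lit 304) (nat_lit 5007039907) (nat_lit 70) (nat_lit 5) (nat_lit 73) (nat_lit 5) (nat_lit 74) (nat_lit 5) (nat_lit 325) (nat_lit 267) (nat_lit 188)) (XT.nd (nat_lit 78) (nat_lit 76) (nat_lit 0) (XT.lf (nat_lit 0) (nat_lit 1727647852) (nat_lit 304) (nat_lit 10772461061) (nat_lit 380) (nat_lit 2306866285) (nat_lit 66) (nat_lit 5) (nat_lit 70) (nat_lit 5) (nat_lit 71) (nat_lit 5) (nat_lit 326) (nat_lit 267) (nat_lit 187)) (XT.lf (nat_lit 0) (nat_lit 498911168) (nat_lit 380) (nat_lit 6051349700) (nat_lit 76) (nat_lit 8550251322) (nat_lit 65) (nat_lit 5) (nat_lit 70) (nat_lit 5) (nat_lit 66) (nat_lit 5) (nat_lit 327) (nat_lit 267) (nat_lit 186)))) (XT.nd (nat_lit 156) (nat_lit 228) (nat_lit 0) (XT.nd (nat_lit 78) (nat_lit 0) (nat_lit 0)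 (XT.lf (nat_lit 0) (nat_lit 1153966196) (nat_lit 228) (nat_lit 2176897923) (nat_lit 304) (nat_lit 12071676867) (nat_lit 62) (nat_lit 5) (nat_lit 65) (nat_lit 5) (nat_lit 66) (nat_lit 5) (nat_lit 328) (nat_lit 267) (nat_lit 185)) (XT.lf (nat_lit 0) (nat_lit 6309383050) (nat_lit 304) (nat_lit 7068734644) (nat_lit 76) (nat_lit 2333686030) (nat_lit 62) (nat_lit 5) (nat_lit 66) (nat_lit 5) (nat_lit 63) (nat_lit 5) (nat_lit 329) (nat_lit 267) (nat_lit 184))) (XT.nd (nat_lit 78) (nat_lit 0) (nat_lit 0) (XT.lf (nat_lit 0) (nat_lit 277898667) (nat_lit 228) (nat_lit 9101759054) (nat_lit 304) (nat_lit 6650635298) (nat_lit 59) (nat_lit 5) (nat_lit 62) (nat_lit 5) (nat_lit 63) (nat_lit 5) (nat_lit 330) (nat_lit 267) (nat_lit 183)) (XT.lf (nat_lit 0) (nat_lit 7957680057) (nat_lit 228) (nat_lit 4634242924) (nat_lit 304) (nat_lit 3764937618) (nat_lit 59) (nat_lit 5) (nat_lit 62) (nat_lit 5) (nat_lit 63) (nat_lit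 5) (nat_lit 331) (nat_lit 267) (nat_lit 182))))) (XT.nd (nat_lit 234) (nat_lit 456) (nat_lit 0) (XT.nd (nat_lit 78) (nat_lit 304) (nat_lit 0) (XT.lf (nat_lit 0) (nat_lit 15836638334) (nat_lit 228) (nat_lit 43046009) (nat_lit 304) (nat_lit 814186510) (nat_lit 59) (nat_lit 5) (nat_lit 62) (nat_lit 5) (nat_lit 63) (nat_lit 5) (nat_lit 332) (nat_lit 267) (nat_lit 181)) (XT.nd (nat_lit 78) (nat_lit 0) (nat_lit 0) (XT.lf (nat_lit 0) (nat_lit 2274250814) (nat_lit 304) (nat_lit 10089431658) (nat_lit 76) (nat_lit 4673908156) (nat_lit 55) (nat_lit 5) (nat_lit 59) (nat_lit 5) (nat_lit 56) (nat_lit 5) (nat_lit 333) (nat_lit 267) (nat_lit 180)) (XT.lf (nat_lit 0) (nat_lit 5427867569) (nat_lit 304) (nat_lit 2425607537) (nat_lit 76) (nat_lit 9538256172) (nat_lit 55) (nat_lit 5) (nat_lit 59) (nat_lit 5) (nat_lit 56) (nat_lit 5) (nat_lit 334) (nat_lit 267) (nat_lit 179)))) (XT.nd (nat_lit 156) (nat_lit 228)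 (nat_lit 0) (XT.nd (nat_lit 78) (nat_lit 0) (nat_lit 0) (XT.lf (nat_lit 0) (nat_lit 5546304632) (nat_lit 228) (nat_lit 3163415658) (nat_lit 304) (nat_lit 9045784350) (nat_lit 52) (nat_lit 5) (nat_lit 55) (nat_lit 5) (nat_lit 56) (nat_lit 5) (nat_lit 335) (nat_lit 267) (nat_lit 178)) (XT.lf (nat_lit 0) (nat_lit 12111293265) (nat_lit 304) (nat_lit 4368889312) (nat_lit 76) (nat_lit 1649387502) (nat_lit 52) (nat_lit 5) (nat_lit 56) (nat_lit 5) (nat_lit 53) (nat_lit 5) (nat_lit 336) (nat_lit 267) (nat_lit 177))) (XT.nd (nat_lit 78) (nat_lit 76) (nat_lit 0) (XT.lf (nat_lit 0) (nat_lit 3718492682) (nat_lit 152) (nat_lit 11944554789) (nat_lit 228) (nat_lit 2850382312) (nat_lit 50) (nat_lit 5) (nat_lit 52) (nat_lit 5) (nat_lit 53) (nat_lit 5) (nat_lit 337) (nat_lit 267) (nat_lit 176)) (XT.lf (nat_lit 0) (nat_lit 430192874) (nat_lit 228) (nat_lit 6803311131) (nat_lit 76) (nat_lit 11674426866) (nat_lit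 49) (nat_lit 5) (nat_lit 52) (nat_lit 5) (nat_lit 50) (nat_lit 5) (nat_lit 338) (nat_lit 267) (nat_lit 175))))))))
noncomputable def xc126 : XT := (XT.nd (nat_lit 2028) (nat_lit 912) (nat_lit 0) (XT.nd (nat_lit 1014) (nat_lit 836) (nat_lit 0) (XT.nd (nat_lit 468) (nat_lit 380) (nat_lit 0) (XT.nd (nat_lit 234) (nat_lit 456) (nat_lit 0) (XT.nd (nat_lit 78) (nat_lit 0) (nat_lit 0) (XT.lf (nat_lit 0) (nat_lit 1398509668) (nat_lit 228) (nat_lit 2348518580) (nat_lit 304) (nat_lit 15566553051) (nat_lit 46) (nat_lit 5) (nat_lit 49) (nat_lit 5) (nat_lit 50) (nat_lit 5) (nat_lit 339) (nat_lit 267) (nat_lit 174)) (XT.nd (nat_lit 78) (nat_lit 0) (nat_lit 0) (XT.lf (nat_lit 0) (nat_lit 7240391190) (nat_lit 304) (nat_lit 9798763685) (nat_lit 76) (nat_lit 2689950193) (nat_lit 46) (nat_lit 5) (nat_lit 50) (nat_lit 5) (nat_lit 47) (nat_lit 5) (nat_lit 340) (nat_lit 267) (nat_lit 173)) (XT.lf (nat_lit 0) (nat_lit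 10844187688) (nat_lit 304) (nat_lit 1490179116) (nat_lit 76) (nat_lit 7822572848) (nat_lit 46) (nat_lit 5) (nat_lit 50) (nat_lit 5) (nat_lit 47) (nat_lit 5) (nat_lit 341) (nat_lit 267) (nat_lit 172)))) (XT.nd (nat_lit 78) (nat_lit 304) (nat_lit 0) (XT.lf (nat_lit 0) (nat_lit 7180637502) (nat_lit 152) (nat_lit 7427378471) (nat_lit 228) (nat_lit 5988049436) (nat_lit 44) (nat_lit 5) (nat_lit 46) (nat_lit 5) (nat_lit 47) (nat_lit 5) (nat_lit 342) (nat_lit 267) (nat_lit 171)) (XT.nd (nat_lit 78) (nat_lit 304) (nat_lit 0) (XT.lf (nat_lit 0) (nat_lit 16115246376) (nat_lit 152) (nat_lit 2367693704) (nat_lit 228) (nat_lit 2565492702) (nat_lit 44) (nat_lit 5) (nat_lit 46) (nat_lit 5) (nat_lit 47) (nat_lit 5) (nat_lit 343) (nat_lit 267) (nat_lit 170)) (XT.lf (nat_lit 0) (nat_lit 989100310) (nat_lit 304) (nat_lit 17698347405) (nat_lit 76) (nat_lit 2825216577) (nat_lit 40) (nat_lit 5) (nat_lit 44) (nat_lit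 5) (nat_lit 41) (nat_lit 5) (nat_lit 344) (nat_lit 267) (nat_lit 169))))) (XT.nd (nat_lit 234) (nat_lit 228) (nat_lit 0) (XT.nd (nat_lit 78) (nat_lit 152) (nat_lit 0) (XT.lf (nat_lit 0) (nat_lit 4656103706) (nat_lit 304) (nat_lit 9139880398) (nat_lit 76) (nat_lit 8192368669) (nat_lit 40) (nat_lit 5) (nat_lit 44) (nat_lit 5) (nat_lit 41) (nat_lit 5) (nat_lit 345) (nat_lit 267) (nat_lit 168)) (XT.nd (nat_lit 78) (nat_lit 152) (nat_lit 0) (XT.lf (nat_lit 0) (nat_lit 8417180517) (nat_lit 304) (nat_lit 350471253) (nat_lit 76) (nat_lit 13711150031) (nat_lit 40) (nat_lit 5) (nat_lit 44) (nat_lit 5) (nat_lit 41) (nat_lit 5) (nat_lit 346) (nat_lit 267) (nat_lit 167)) (XT.lf (nat_lit 0) (nat_lit 8850260554) (nat_lit 152) (nat_lit 3510430685) (nat_lit 228) (nat_lit 10621196464) (nat_lit 38) (nat_lit 5) (nat_lit 40) (nat_lit 5) (nat_lit 41) (nat_lit 5) (nat_lit 347) (nat_lit 267) (nat_lit 166)))) (XT.nd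 (nat_lit 156) (nat_lit 76) (nat_lit 0) (XT.nd (nat_lit 78) (nat_lit 152) (nat_lit 0) (XT.lf (nat_lit 0) (nat_lit 16429036458) (nat_lit 228) (nat_lit 5209295176) (nat_lit 76) (nat_lit 1861549789) (nat_lit 38) (nat_lit 5) (nat_lit 41) (nat_lit 5) (nat_lit 39) (nat_lit 5) (nat_lit 348) (nat_lit 267) (nat_lit 165)) (XT.lf (nat_lit 0) (nat_lit 3999537661) (nat_lit 152) (nat_lit 16678192039) (nat_lit 228) (nat_lit 3353947116) (nat_lit 36) (nat_lit 5) (nat_lit 38) (nat_lit 5) (nat_lit 39) (nat_lit 5) (nat_lit 349) (nat_lit 267) (nat_lit 164))) (XT.nd (nat_lit 78) (nat_lit 0) (nat_lit 0) (XT.lf (nat_lit 0) (nat_lit 503464187) (nat_lit 228) (nat_lit 11016032506) (nat_lit 76) (nat_lit 13058654782) (nat_lit 35) (nat_lit 5) (nat_lit 38) (nat_lit 5) (nat_lit 36) (nat_lit 5) (nat_lit 350) (nat_lit 267) (nat_lit 163)) (XT.lf (nat_lit 0) (nat_lit 4394760019) (nat_lit 228) (nat_lit 1786459633) (nat_lit 76) (nat_lit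 18959247178) (nat_lit 35) (nat_lit 5) (nat_lit 38) (nat_lit 5) (nat_lit 36) (nat_lit 5) (nat_lit 351) (nat_lit 267) (nat_lit 162)))))) (XT.nd (nat_lit 468) (nat_lit 304) (nat_lit 0) (XT.nd (nat_lit 234) (nat_lit 228) (nat_lit 0) (XT.nd (nat_lit 78) (nat_lit 152) (nat_lit 0) (XT.lf (nat_lit 0) (nat_lit 7850067418) (nat_lit 152) (nat_lit 614180362) (nat_lit 228) (nat_lit 17253569865) (nat_lit 33) (nat_lit 5) (nat_lit 35) (nat_lit 5) (nat_lit 36) (nat_lit 5) (nat_lit 352) (nat_lit 267) (nat_lit 161)) (XT.nd (nat_lit 78) (nat_lit 152) (nat_lit 0) (XT.lf (nat_lit 0) (nat_lit 12709347989) (nat_lit 228) (nat_lit 8572256917) (nat_lit 76) (nat_lit 5029287553) (nat_lit 33) (nat_lit 5) (nat_lit 36) (nat_lit 5) (nat_lit 34) (nat_lit 5) (nat_lit 353) (nat_lit 267) (nat_lit 160)) (XT.lf (nat_lit 0) (nat_lit 992844517) (nat_lit 152) (nat_lit 16091080676) (nat_lit 228) (nat_lit 9837779643) (nat_lit 31) (nat_lit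 5) (nat_lit 33) (nat_lit 5) (nat_lit 34) (nat_lit 5) (nat_lit 354) (nat_lit 267) (nat_lit 159)))) (XT.nd (nat_lit 78) (nat_lit 228) (nat_lit 0) (XT.lf (nat_lit 0) (nat_lit 10998293278) (nat_lit 152) (nat_lit 10664687179) (nat_lit 228) (nat_lit 5885672680) (nat_lit 31) (nat_lit 5) (nat_lit 33) (nat_lit 5) (nat_lit 34) (nat_lit 5) (nat_lit 355) (nat_lit 267) (nat_lit 158)) (XT.nd (nat_lit 78) (nat_lit 228) (nat_lit 0) (XT.lf (nat_lit 0) (nat_lit 21282227270) (nat_lit 152) (nat_lit 5084245893) (nat_lit 228) (nat_lit 1828333270) (nat_lit 31) (nat_lit 5) (nat_lit 33) (nat_lit 5) (nat_lit 34) (nat_lit 5) (nat_lit 356) (nat_lit 267) (nat_lit 157)) (XT.lf (nat_lit 0) (nat_lit 2328095364) (nat_lit 228) (nat_lit 25836441423) (nat_lit 76) (nat_lit 694440468) (nat_lit 28) (nat_lit 5) (nat_lit 31) (nat_lit 5) (nat_lit 29) (nat_lit 5) (nat_lit 357) (nat_lit 267) (nat_lit 156))))) (XT.nd (nat_lit 234) (nat_lit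 152) (nat_lit 0) (XT.nd (nat_lit 78) (nat_lit 152) (nat_lit 0) (XT.lf (nat_lit 0) (nat_lit 6680697290) (nat_lit 228) (nat_lit 16234105797) (nat_lit 76) (nat_lit 6624487998) (nat_lit 28) (nat_lit 5) (nat_lit 31) (nat_lit 5) (nat_lit 29) (nat_lit 5) (nat_lit 358) (nat_lit 267) (nat_lit 155)) (XT.nd (nat_lit 78) (nat_lit 152) (nat_lit 0) (XT.lf (nat_lit 0) (nat_lit 11151638860) (nat_lit 228) (nat_lit 6364476390) (nat_lit 76) (nat_lit 12724273802) (nat_lit 28) (nat_lit 5) (nat_lit 31) (nat_lit 5) (nat_lit 29) (nat_lit 5) (nat_lit 359) (nat_lit 267) (nat_lit 154)) (XT.lf (nat_lit 0) (nat_lit 3856321469) (nat_lit 152) (nat_lit 11925574574) (nat_lit 228) (nat_lit 15179875644) (nat_lit 26) (nat_lit 5) (nat_lit 28) (nat_lit 5) (nat_lit 29) (nat_lit 5) (nat_lit 360) (nat_lit 267) (nat_lit 153)))) (XT.nd (nat_lit 156) (nat_lit 152) (nat_lit 0) (XT.nd (nat_lit 78) (nat_lit 0) (nat_lit 0) (XT.lf (nat_lit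 0) (nat_lit 14494235395) (nat_lit 152) (nat_lit 6109366402) (nat_lit 228) (nat_lit 11099624912) (nat_lit 26) (nat_lit 5) (nat_lit 28) (nat_lit 5) (nat_lit 29) (nat_lit 5) (nat_lit 361) (nat_lit 267) (nat_lit 152)) (XT.lf (nat_lit 0) (nat_lit 25431895094) (nat_lit 152) (nat_lit 126677345) (nat_lit 228) (nat_lit 6908701460) (nat_lit 26) (nat_lit 5) (nat_lit 28) (nat_lit 5) (nat_lit 29) (nat_lit 5) (nat_lit 362) (nat_lit 267) (nat_lit 151))) (XT.nd (nat_lit 78) (nat_lit 76) (nat_lit 0) (XT.lf (nat_lit 0) (nat_lit 3433331400) (nat_lit 76) (nat_lit 27308751567) (nat_lit 152) (nat_lit 2509769539) (nat_lit 25) (nat_lit 5) (nat_lit 26) (nat_lit 5) (nat_lit 27) (nat_lit 4) (nat_lit 363) (nat_lit 267) (nat_lit 150)) (XT.lf (nat_lit 0) (nat_lit 2043589874) (nat_lit 152) (nat_lit 19738032484) (nat_lit 76) (nat_lit 12275912631) (nat_lit 24) (nat_lit 5) (nat_lit 26) (nat_lit 5) (nat_lit 25) (nat_lit 5) (nat_lit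 364) (nat_lit 267) (nat_lit 149))))))) (XT.nd (nat_lit 1014) (nat_lit 380) (nat_lit 0) (XT.nd (nat_lit 468) (nat_lit 304) (nat_lit 0) (XT.nd (nat_lit 234) (nat_lit 76) (nat_lit 0) (XT.nd (nat_lit 78) (nat_lit 152) (nat_lit 0) (XT.lf (nat_lit 0) (nat_lit 6672327452) (nat_lit 152) (nat_lit 9398551830) (nat_lit 76) (nat_lit 18816092704) (nat_lit 24) (nat_lit 5) (nat_lit 26) (nat_lit 5) (nat_lit 25) (nat_lit 5) (nat_lit 365) (nat_lit 267) (nat_lit 148)) (XT.nd (nat_lit 78) (nat_lit 0) (nat_lit 0) (XT.lf (nat_lit 0) (nat_lit 1257621519) (nat_lit 152) (nat_lit 10183929876) (nat_lit 228) (nat_lit 24299697947) (nat_lit 22) (nat_lit 5) (nat_lit 24) (nat_lit 5) (nat_lit 25) (nat_lit 5) (nat_lit 366) (nat_lit 267) (nat_lit 147)) (XT.lf (nat_lit 0) (nat_lit 12408285506) (nat_lit 152) (nat_lit 4030141864) (nat_lit 228) (nat_lit 20180196190) (nat_lit 22) (nat_lit 5) (nat_lit 24) (nat_lit 5) (nat_lit 25) (nat_lit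 5) (nat_lit 367) (nat_lit 267) (nat_lit 146)))) (XT.nd (nat_lit 78) (nat_lit 76) (nat_lit 0) (XT.lf (nat_lit 0) (nat_lit 21597297103) (nat_lit 228) (nat_lit 13668609926) (nat_lit 76) (nat_lit 2256054985) (nat_lit 22) (nat_lit 5) (nat_lit 25) (nat_lit 5) (nat_lit 23) (nat_lit 4) (nat_lit 368) (nat_lit 267) (nat_lit 145)) (XT.nd (nat_lit 78) (nat_lit 76) (nat_lit 0) (XT.lf (nat_lit 0) (nat_lit 26941028596) (nat_lit 228) (nat_lit 2867592472) (nat_lit 76) (nat_lit 8642882152) (nat_lit 22) (nat_lit 5) (nat_lit 25) (nat_lit 5) (nat_lit 23) (nat_lit 4) (nat_lit 369) (nat_lit 267) (nat_lit 144)) (XT.lf (nat_lit 0) (nat_lit 8404902192) (nat_lit 76) (nat_lit 24111441809) (nat_lit 152) (nat_lit 6890453812) (nat_lit 21) (nat_lit 5) (nat_lit 22) (nat_lit 5) (nat_lit 23) (nat_lit 4) (nat_lit 370) (nat_lit 267) (nat_lit 143))))) (XT.nd (nat_lit 234) (nat_lit 76) (nat_lit 0) (XT.nd (nat_lit 78) (nat_lit 228)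 (nat_lit 0) (XT.lf (nat_lit 0) (nat_lit 20057953688) (nat_lit 76) (nat_lit 18220520806) (nat_lit 152) (nat_lit 2111695233) (nat_lit 21) (nat_lit 5) (nat_lit 22) (nat_lit 5) (nat_lit 23) (nat_lit 4) (nat_lit 371) (nat_lit 267) (nat_lit 142)) (XT.nd (nat_lit 78) (nat_lit 152) (nat_lit 0) (XT.lf (nat_lit 0) (nat_lit 2746361680) (nat_lit 152) (nat_lit 9385573166) (nat_lit 76) (nat_lit 29270579033) (nat_lit 20) (nat_lit 5) (nat_lit 22) (nat_lit 5) (nat_lit 21) (nat_lit 5) (nat_lit 372) (nat_lit 267) (nat_lit 141)) (XT.lf (nat_lit 0) (nat_lit 1889795545) (nat_lit 152) (nat_lit 5827133384) (nat_lit 228) (nat_lit 34727400558) (nat_lit 18) (nat_lit 5) (nat_lit 20) (nat_lit 5) (nat_lit 21) (nat_lit 5) (nat_lit 373) (nat_lit 267) (nat_lit 140)))) (XT.nd (nat_lit 156) (nat_lit 76) (nat_lit 0) (XT.nd (nat_lit 78) (nat_lit 0) (nat_lit 0) (XT.lf (nat_lit 0) (nat_lit 12929831031) (nat_lit 228) (nat_lit 29841778998)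 (nat_lit 76) (nat_lit 742997582) (nat_lit 18) (nat_lit 5) (nat_lit 21) (nat_lit 5) (nat_lit 19) (nat_lit 4) (nat_lit 374) (nat_lit 267) (nat_lit 139)) (XT.lf (nat_lit 0) (nat_lit 18348167754) (nat_lit 228) (nat_lit 18880573556) (nat_lit 76) (nat_lit 7386785785) (nat_lit 18) (nat_lit 5) (nat_lit 21) (nat_lit 5) (nat_lit 19) (nat_lit 4) (nat_lit 375) (nat_lit 267) (nat_lit 138))) (XT.nd (nat_lit 78) (nat_lit 76) (nat_lit 0) (XT.lf (nat_lit 0) (nat_lit 23920659599) (nat_lit 228) (nat_lit 7605325894) (nat_lit 76) (nat_lit 14223744838) (nat_lit 18) (nat_lit 5) (nat_lit 21) (nat_lit 5) (nat_lit 19) (nat_lit 4) (nat_lit 376) (nat_lit 267) (nat_lit 137)) (XT.lf (nat_lit 0) (nat_lit 4073300916) (nat_lit 76) (nat_lit 25618029876) (nat_lit 152) (nat_lit 17225702925) (nat_lit 17) (nat_lit 5) (nat_lit 18) (nat_lit 5) (nat_lit 19) (nat_lit 4) (nat_lit 377) (nat_lit 267) (nat_lit 136)))))) (XT.nd (nat_lit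 546) (nat_lit 152) (nat_lit 0) (XT.nd (nat_lit 234) (nat_lit 228) (nat_lit 0) (XT.nd (nat_lit 78) (nat_lit 0) (nat_lit 0) (XT.lf (nat_lit 0) (nat_lit 16243966019) (nat_lit 76) (nat_lit 19459905195) (nat_lit 152) (nat_lit 12413426588) (nat_lit 17) (nat_lit 5) (nat_lit 18) (nat_lit 5) (nat_lit 19) (nat_lit 4) (nat_lit 378) (nat_lit 267) (nat_lit 135)) (XT.nd (nat_lit 78) (nat_lit 0) (nat_lit 0) (XT.lf (nat_lit 0) (nat_lit 28765943077) (nat_lit 76) (nat_lit 13123029444) (nat_lit 152) (nat_lit 7464835698) (nat_lit 17) (nat_lit 5) (nat_lit 18) (nat_lit 5) (nat_lit 19) (nat_lit 4) (nat_lit 379) (nat_lit 267) (nat_lit 134)) (XT.lf (nat_lit 0) (nat_lit 41650173624) (nat_lit 76) (nat_lit 6601865547) (nat_lit 152) (nat_lit 2375606244) (nat_lit 17) (nat_lit 5) (nat_lit 18) (nat_lit 5) (nat_lit 19) (nat_lit 4) (nat_lit 380) (nat_lit 267) (nat_lit 133)))) (XT.nd (nat_lit 156) (nat_lit 0) (nat_lit 0) (XT.nd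 (nat_lit 78) (nat_lit 0) (nat_lit 0) (XT.lf (nat_lit 0) (nat_lit 2833361552) (nat_lit 228) (nat_lit 48940805621) (nat_lit 76) (nat_lit 164017791) (nat_lit 14) (nat_lit 5) (nat_lit 17) (nat_lit 5) (nat_lit 15) (nat_lit 4) (nat_lit 381) (nat_lit 267) (nat_lit 132)) (XT.lf (nat_lit 0) (nat_lit 8300362012) (nat_lit 228) (nat_lit 37872806531) (nat_lit 76) (nat_lit 7109684711) (nat_lit 14) (nat_lit 5) (nat_lit 17) (nat_lit 5) (nat_lit 15) (nat_lit 4) (nat_lit 382) (nat_lit 267) (nat_lit 131))) (XT.nd (nat_lit 78) (nat_lit 0) (nat_lit 0) (XT.lf (nat_lit 0) (nat_lit 13924181731) (nat_lit 228) (nat_lit 26485590216) (nat_lit 76) (nat_lit 14258308778) (nat_lit 14) (nat_lit 5) (nat_lit 17) (nat_lit 5) (nat_lit 15) (nat_lit 4) (nat_lit 383) (nat_lit 267) (nat_lit 130)) (XT.lf (nat_lit 0) (nat_lit 19709734724) (nat_lit 228) (nat_lit 14769206681) (nat_lit 76) (nat_lit 21616136363) (nat_lit 14) (nat_lit 5)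 (nat_lit 17) (nat_lit 5) (nat_lit 15) (nat_lit 4) (nat_lit 384) (nat_lit 267) (nat_lit 129))))) (XT.nd (nat_lit 234) (nat_lit 76) (nat_lit 0) (XT.nd (nat_lit 78) (nat_lit 76) (nat_lit 0) (XT.lf (nat_lit 0) (nat_lit 25662076331) (nat_lit 228) (nat_lit 2713418308) (nat_lit 76) (nat_lit 29189596633) (nat_lit 14) (nat_lit 5) (nat_lit 17) (nat_lit 5) (nat_lit 15) (nat_lit 4) (nat_lit 385) (nat_lit 267) (nat_lit 128)) (XT.nd (nat_lit 78) (nat_lit 0) (nat_lit 0) (XT.lf (nat_lit 0) (nat_lit 9885205040) (nat_lit 76) (nat_lit 21996225224) (nat_lit 152) (nat_lit 27195124776) (nat_lit 13) (nat_lit 5) (nat_lit 14) (nat_lit 5) (nat_lit 15) (nat_lit 4) (nat_lit 386) (nat_lit 267) (nat_lit 127)) (XT.lf (nat_lit 0) (nat_lit 22905789920) (nat_lit 76) (nat_lit 15402474512) (nat_lit 152) (nat_lit 22324474326) (nat_lit 13) (nat_lit 5) (nat_lit 14) (nat_lit 5) (nat_lit 15) (nat_lit 4) (nat_lit 387) (nat_lit 267)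 (nat_lit 126)))) (XT.nd (nat_lit 156) (nat_lit 76) (nat_lit 0) (XT.nd (nat_lit 78) (nat_lit 0) (nat_lit 0) (XT.lf (nat_lit 0) (nat_lit 36305711196) (nat_lit 76) (nat_lit 8615881178) (nat_lit 152) (nat_lit 17314207891) (nat_lit 13) (nat_lit 5) (nat_lit 14) (nat_lit 5) (nat_lit 15) (nat_lit 4) (nat_lit 388) (nat_lit 267) (nat_lit 125)) (XT.lf (nat_lit 0) (nat_lit 50096677538) (nat_lit 76) (nat_lit 1630515190) (nat_lit 152) (nat_lit 12159947567) (nat_lit 13) (nat_lit 5) (nat_lit 14) (nat_lit 5) (nat_lit 15) (nat_lit 4) (nat_lit 389) (nat_lit 267) (nat_lit 124))) (XT.nd (nat_lit 78) (nat_lit 76) (nat_lit 0) (XT.lf (nat_lit 0) (nat_lit 58784455633) (nat_lit 152) (nat_lit 1350905959) (nat_lit 0) (nat_lit 5451236867) (nat_lit 13) (nat_lit 5) (nat_lit 15) (nat_lit 4) (nat_lit 13) (nat_lit 4) (nat_lit 390) (nat_lit 267) (nat_lit 123)) (XT.lf (nat_lit 0) (nat_lit 11662821388) (nat_lit 76) (nat_lit 54513049516)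 (nat_lit 76) (nat_lit 1157499120) (nat_lit 12) (nat_lit 4) (nat_lit 13) (nat_lit 5) (nat_lit 13) (nat_lit 4) (nat_lit 391) (nat_lit 267) (nat_lit 122))))))))
noncomputable def xc127 : XT := (XT.nd (nat_lit 31746) (nat_lit 0) (nat_lit 8968) (XT.nd (nat_lit 1014) (nat_lit 76) (nat_lit 0) (XT.nd (nat_lit 468) (nat_lit 76) (nat_lit 0) (XT.nd (nat_lit 234) (nat_lit 76) (nat_lit 0) (XT.nd (nat_lit 78) (nat_lit 0) (nat_lit 0) (XT.lf (nat_lit 0) (nat_lit 4573586769) (nat_lit 152) (nat_lit 44092850449) (nat_lit 76) (nat_lit 20464528196) (nat_lit 11) (nat_lit 5) (nat_lit 13) (nat_lit 5) (nat_lit 12) (nat_lit 4) (nat_lit 392) (nat_lit 267) (nat_lit 121)) (XT.nd (nat_lit 78) (nat_lit 0) (nat_lit 0) (XT.lf (nat_lit 0) (nat_lit 10447700920) (nat_lit 152) (nat_lit 32189448427) (nat_lit 76) (nat_lit 28345167161) (nat_lit 11) (nat_lit 5) (nat_lit 13) (nat_lit 5) (nat_lit 12) (nat_lit 4) (nat_lit 393) (nat_lit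 267) (nat_lit 120)) (XT.lf (nat_lit 0) (nat_lit 16492563030) (nat_lit 152) (nat_lit 19938814949) (nat_lit 76) (nat_lit 36457996809) (nat_lit 11) (nat_lit 5) (nat_lit 13) (nat_lit 5) (nat_lit 12) (nat_lit 4) (nat_lit 394) (nat_lit 267) (nat_lit 119)))) (XT.nd (nat_lit 78) (nat_lit 76) (nat_lit 0) (XT.lf (nat_lit 0) (nat_lit 22713455017) (nat_lit 152) (nat_lit 7330245579) (nat_lit 76) (nat_lit 44810106020) (nat_lit 11) (nat_lit 5) (nat_lit 13) (nat_lit 5) (nat_lit 12) (nat_lit 4) (nat_lit 395) (nat_lit 267) (nat_lit 118)) (XT.nd (nat_lit 78) (nat_lit 0) (nat_lit 0) (XT.lf (nat_lit 0) (nat_lit 5759668762) (nat_lit 76) (nat_lit 23411509311) (nat_lit 152) (nat_lit 47704489451) (nat_lit 10) (nat_lit 5) (nat_lit 11) (nat_lit 5) (nat_lit 12) (nat_lit 4) (nat_lit 396) (nat_lit 267) (nat_lit 117)) (XT.lf (nat_lit 0) (nat_lit 19383330605) (nat_lit 76) (nat_lit 16508223937) (nat_lit 152) (nat_lit 43064564252)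 (nat_lit 10) (nat_lit 5) (nat_lit 11) (nat_lit 5) (nat_lit 12) (nat_lit 4) (nat_lit 397) (nat_lit 267) (nat_lit 116))))) (XT.nd (nat_lit 234) (nat_lit 76) (nat_lit 0) (XT.nd (nat_lit 78) (nat_lit 0) (nat_lit 0) (XT.lf (nat_lit 0) (nat_lit 33406757860) (nat_lit 76) (nat_lit 9401833586) (nat_lit 152) (nat_lit 38290542806) (nat_lit 10) (nat_lit 5) (nat_lit 11) (nat_lit 5) (nat_lit 12) (nat_lit 4) (nat_lit 398) (nat_lit 267) (nat_lit 115)) (XT.nd (nat_lit 78) (nat_lit 0) (nat_lit 0) (XT.lf (nat_lit 0) (nat_lit 47842204007) (nat_lit 76) (nat_lit 2086128790) (nat_lit 152) (nat_lit 33378253638) (nat_lit 10) (nat_lit 5) (nat_lit 11) (nat_lit 5) (nat_lit 12) (nat_lit 4) (nat_lit 399) (nat_lit 267) (nat_lit 114)) (XT.lf (nat_lit 0) (nat_lit 57309343118) (nat_lit 152) (nat_lit 22930465031) (nat_lit 0) (nat_lit 5339025733) (nat_lit 10) (nat_lit 5) (nat_lit 12) (nat_lit 4) (nat_lit 10) (nat_lit 4) (nat_lit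 400) (nat_lit 267) (nat_lit 113)))) (XT.nd (nat_lit 156) (nat_lit 0) (nat_lit 0) (XT.nd (nat_lit 78) (nat_lit 76) (nat_lit 0) (XT.lf (nat_lit 0) (nat_lit 64927872620) (nat_lit 152) (nat_lit 10049473021) (nat_lit 0) (nat_lit 12941422390) (nat_lit 10) (nat_lit 5) (nat_lit 12) (nat_lit 4) (nat_lit 10) (nat_lit 4) (nat_lit 401) (nat_lit 267) (nat_lit 112)) (XT.lf (nat_lit 0) (nat_lit 3273785328) (nat_lit 76) (nat_lit 69528209424) (nat_lit 76) (nat_lit 17526096237) (nat_lit 9) (nat_lit 4) (nat_lit 10) (nat_lit 5) (nat_lit 10) (nat_lit 4) (nat_lit 402) (nat_lit 267) (nat_lit 111))) (XT.nd (nat_lit 78) (nat_lit 0) (nat_lit 0) (XT.lf (nat_lit 0) (nat_lit 17194777899) (nat_lit 76) (nat_lit 63814662260) (nat_lit 76) (nat_lit 11797342319) (nat_lit 9) (nat_lit 4) (nat_lit 10) (nat_lit 5) (nat_lit 10) (nat_lit 4) (nat_lit 403) (nat_lit 267) (nat_lit 110)) (XT.lf (nat_lit 0) (nat_lit 31525664446) (nat_lit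 76) (nat_lit 57933191704) (nat_lit 76) (nat_lit 5901107924) (nat_lit 9) (nat_lit 4) (nat_lit 10) (nat_lit 5) (nat_lit 10) (nat_lit 4) (nat_lit 404) (nat_lit 267) (nat_lit 109)))))) (XT.nd (nat_lit 30186) (nat_lit 0) (nat_lit 18772) (XT.nd (nat_lit 29952) (nat_lit 0) (nat_lit 19988) (XT.nd (nat_lit 78) (nat_lit 0) (nat_lit 0) (XT.lf (nat_lit 0) (nat_lit 164485414) (nat_lit 152) (nat_lit 51712512211) (nat_lit 76) (nat_lit 46112820709) (nat_lit 8) (nat_lit 5) (nat_lit 10) (nat_lit 5) (nat_lit 9) (nat_lit 4) (nat_lit 405) (nat_lit 267) (nat_lit 108)) (XT.nd (nat_lit 78) (nat_lit 0) (nat_lit 0) (XT.lf (nat_lit 0) (nat_lit 6289390143) (nat_lit 152) (nat_lit 39292871946) (nat_lit 76) (nat_lit 55114676456) (nat_lit 8) (nat_lit 5) (nat_lit 10) (nat_lit 5) (nat_lit 9) (nat_lit 4) (nat_lit 406) (nat_lit 267) (nat_lit 107)) (XT.lf (nat_lit 0) (nat_lit 12594109990) (nat_lit 152) (nat_lit 26507801662) (nat_lit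 76) (nat_lit 64383480252) (nat_lit 8) (nat_lit 5) (nat_lit 10) (nat_lit 5) (nat_lit 9) (nat_lit 4) (nat_lit 407) (nat_lit 267) (nat_lit 106)))) (XT.nd (nat_lit 78) (nat_lit 0) (nat_lit 0) (XT.lf (nat_lit 0) (nat_lit 57391488) (nat_lit 0) (nat_lit 57391488) (nat_lit 532) (nat_lit 3247083696) (nat_lit 271) (nat_lit 5) (nat_lit 271) (nat_lit 3) (nat_lit 278) (nat_lit 3) (nat_lit 268) (nat_lit 268) (nat_lit 244)) (XT.nd (nat_lit 78) (nat_lit 0) (nat_lit 0) (XT.lf (nat_lit 0) (nat_lit 2249284780) (nat_lit 532) (nat_lit 3559592107) (nat_lit 608) (nat_lit 950773275) (nat_lit 271) (nat_lit 5) (nat_lit 278) (nat_lit 3) (nat_lit 279) (nat_lit 5) (nat_lit 269) (nat_lit 268) (nat_lit 243)) (XT.lf (nat_lit 0) (nat_lit 4252782290) (nat_lit 532) (nat_lit 461952403) (nat_lit 608) (nat_lit 2084387884) (nat_lit 271) (nat_lit 5) (nat_lit 278) (nat_lit 3) (nat_lit 279) (nat_lit 5) (nat_lit 270) (nat_lit 268) (nat_lit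 242))))) (XT.nd (nat_lit 234) (nat_lit 608) (nat_lit 0) (XT.nd (nat_lit 78) (nat_lit 608) (nat_lit 0) (XT.lf (nat_lit 76) (nat_lit 2741270849) (nat_lit 0) (nat_lit 3525785672) (nat_lit 608) (nat_lit 574371137) (nat_lit 272) (nat_lit 5) (nat_lit 271) (nat_lit 5) (nat_lit 279) (nat_lit 5) (nat_lit 271) (nat_lit 268) (nat_lit 241)) (XT.nd (nat_lit 78) (nat_lit 0) (nat_lit 0) (XT.lf (nat_lit 0) (nat_lit 1358286204) (nat_lit 608) (nat_lit 890935086) (nat_lit 684) (nat_lit 4637620801) (nat_lit 263) (nat_lit 5) (nat_lit 271) (nat_lit 5) (nat_lit 272) (nat_lit 5) (nat_lit 272) (nat_lit 268) (nat_lit 240)) (XT.lf (nat_lit 76) (nat_lit 2415146315) (nat_lit 0) (nat_lit 872870557) (nat_lit 684) (nat_lit 3647066678) (nat_lit 264) (nat_lit 5) (nat_lit 263) (nat_lit 5) (nat_lit 272) (nat_lit 5) (nat_lit 273) (nat_lit 268) (nat_lit 239)))) (XT.nd (nat_lit 156) (nat_lit 0) (nat_lit 0) (XT.nd (nat_lit 78) (nat_lit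 684) (nat_lit 0) (XT.lf (nat_lit 0) (nat_lit 5219401132) (nat_lit 608) (nat_lit 1194180012) (nat_lit 684) (nat_lit 573028100) (nat_lit 264) (nat_lit 5) (nat_lit 272) (nat_lit 5) (nat_lit 273) (nat_lit 5) (nat_lit 274) (nat_lit 268) (nat_lit 238)) (XT.lf (nat_lit 0) (nat_lit 126742263) (nat_lit 684) (nat_lit 4817882873) (nat_lit 760) (nat_lit 2096318221) (nat_lit 255) (nat_lit 5) (nat_lit 264) (nat_lit 5) (nat_lit 265) (nat_lit 5) (nat_lit 275) (nat_lit 268) (nat_lit 237))) (XT.nd (nat_lit 78) (nat_lit 0) (nat_lit 0) (XT.lf (nat_lit 0) (nat_lit 1986461452) (nat_lit 684) (nat_lit 1389711851) (nat_lit 760) (nat_lit 3722012320) (nat_lit 255) (nat_lit 5) (nat_lit 264) (nat_lit 5) (nat_lit 265) (nat_lit 5) (nat_lit 276) (nat_lit 268) (nat_lit 236)) (XT.lf (nat_lit 76) (nat_lit 2141493192) (nat_lit 0) (nat_lit 1715327633) (nat_lit 760) (nat_lit 3301812006) (nat_lit 256) (nat_lit 5) (nat_lit 255) (nat_lit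 5) (nat_lit 265) (nat_lit 5) (nat_lit 277) (nat_lit 268) (nat_lit 235))))))) (XT.nd (nat_lit 1014) (nat_lit 4484) (nat_lit 0) (XT.nd (nat_lit 468) (nat_lit 3876) (nat_lit 0) (XT.nd (nat_lit 234) (nat_lit 760) (nat_lit 0) (XT.nd (nat_lit 78) (nat_lit 760) (nat_lit 0) (XT.lf (nat_lit 0) (nat_lit 5733421841) (nat_lit 684) (nat_lit 1456913179) (nat_lit 760) (nat_lit 32183764) (nat_lit 256) (nat_lit 5) (nat_lit 265) (nat_lit 5) (nat_lit 266) (nat_lit 5) (nat_lit 278) (nat_lit 268) (nat_lit 234)) (XT.nd (nat_lit 78) (nat_lit 0) (nat_lit 0) (XT.lf (nat_lit 0) (nat_lit 346200489) (nat_lit 760) (nat_lit 5098820920) (nat_lit 836) (nat_lit 1844045422) (nat_lit 246) (nat_lit 5) (nat_lit 256) (nat_lit 5) (nat_lit 257) (nat_lit 5) (nat_lit 279) (nat_lit 268) (nat_lit 233)) (XT.lf (nat_lit 0) (nat_lit 2160039695) (nat_lit 760) (nat_lit 1438504091) (nat_lit 836) (nat_lit 3760141147) (nat_lit 246) (nat_lit 5)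 (nat_lit 256) (nat_lit 5) (nat_lit 257) (nat_lit 5) (nat_lit 280) (nat_lit 268) (nat_lit 232)))) (XT.nd (nat_lit 78) (nat_lit 760) (nat_lit 0) (XT.lf (nat_lit 76) (nat_lit 2335318939) (nat_lit 0) (nat_lit 1655767917) (nat_lit 836) (nat_lit 3440535779) (nat_lit 247) (nat_lit 5) (nat_lit 246) (nat_lit 5) (nat_lit 257) (nat_lit 5) (nat_lit 281) (nat_lit 268) (nat_lit 231)) (XT.nd (nat_lit 78) (nat_lit 836) (nat_lit 0) (XT.lf (nat_lit 0) (nat_lit 5836899725) (nat_lit 760) (nat_lit 1301417341) (nat_lit 76) (nat_lit 369747870) (nat_lit 247) (nat_lit 5) (nat_lit 257) (nat_lit 5) (nat_lit 248) (nat_lit 5) (nat_lit 282) (nat_lit 268) (nat_lit 230)) (XT.lf (nat_lit 0) (nat_lit 132998980) (nat_lit 836) (nat_lit 4989238703) (nat_lit 76) (nat_lit 2465084352) (nat_lit 236) (nat_lit 5) (nat_lit 247) (nat_lit 5) (nat_lit 237) (nat_lit 5) (nat_lit 283) (nat_lit 268) (nat_lit 229))))) (XT.nd (nat_lit 234) (nat_lit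 3040) (nat_lit 0) (XT.nd (nat_lit 78) (nat_lit 836) (nat_lit 0) (XT.lf (nat_lit 0) (nat_lit 1915103157) (nat_lit 836) (nat_lit 1087011769) (nat_lit 76) (nat_lit 4667725454) (nat_lit 236) (nat_lit 5) (nat_lit 247) (nat_lit 5) (nat_lit 237) (nat_lit 5) (nat_lit 284) (nat_lit 268) (nat_lit 228)) (XT.nd (nat_lit 78) (nat_lit 0) (nat_lit 0) (XT.lf (nat_lit 0) (nat_lit 2948042220) (nat_lit 836) (nat_lit 776725794) (nat_lit 912) (nat_lit 4030942398) (nat_lit 225) (nat_lit 5) (nat_lit 236) (nat_lit 5) (nat_lit 237) (nat_lit 5) (nat_lit 285) (nat_lit 268) (nat_lit 227)) (XT.lf (nat_lit 0) (nat_lit 5561429308) (nat_lit 912) (nat_lit 775230222) (nat_lit 76) (nat_lit 1508411997) (nat_lit 225) (nat_lit 5) (nat_lit 237) (nat_lit 5) (nat_lit 226) (nat_lit 5) (nat_lit 286) (nat_lit 268) (nat_lit 226)))) (XT.nd (nat_lit 156) (nat_lit 2052) (nat_lit 0) (XT.nd (nat_lit 78) (nat_lit 76) (nat_lit 0) (XT.lf (nat_lit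 0) (nat_lit 3394835405) (nat_lit 912) (nat_lit 4047274673) (nat_lit 988) (nat_lit 495429185) (nat_lit 213) (nat_lit 5) (nat_lit 225) (nat_lit 5) (nat_lit 226) (nat_lit 5) (nat_lit 287) (nat_lit 268) (nat_lit 225)) (XT.lf (nat_lit 0) (nat_lit 1277169812) (nat_lit 988) (nat_lit 382262621) (nat_lit 76) (nat_lit 6374337935) (nat_lit 212) (nat_lit 5) (nat_lit 225) (nat_lit 5) (nat_lit 213) (nat_lit 5) (nat_lit 288) (nat_lit 268) (nat_lit 224))) (XT.nd (nat_lit 78) (nat_lit 1064) (nat_lit 0) (XT.lf (nat_lit 0) (nat_lit 3089580991) (nat_lit 1064) (nat_lit 4207872553) (nat_lit 76) (nat_lit 835475401) (nat_lit 199) (nat_lit 5) (nat_lit 213) (nat_lit 5) (nat_lit 200) (nat_lit 5) (nat_lit 289) (nat_lit 268) (nat_lit 223)) (XT.lf (nat_lit 0) (nat_lit 76968182) (nat_lit 1064) (nat_lit 4852171176) (nat_lit 1140) (nat_lit 3306822639) (nat_lit 185) (nat_lit 5) (nat_lit 199) (nat_lit 5) (nat_lit 200) (nat_lit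 5) (nat_lit 290) (nat_lit 268) (nat_lit 222)))))) (XT.nd (nat_lit 546) (nat_lit 2052) (nat_lit 0) (XT.nd (nat_lit 234) (nat_lit 1216) (nat_lit 0) (XT.nd (nat_lit 78) (nat_lit 1216) (nat_lit 0) (XT.lf (nat_lit 0) (nat_lit 4534478549) (nat_lit 1064) (nat_lit 2284605427) (nat_lit 1140) (nat_lit 1523226627) (nat_lit 185) (nat_lit 5) (nat_lit 199) (nat_lit 5) (nat_lit 200) (nat_lit 5) (nat_lit 291) (nat_lit 268) (nat_lit 221)) (XT.nd (nat_lit 78) (nat_lit 0) (nat_lit 0) (XT.lf (nat_lit 0) (nat_lit 271067855) (nat_lit 1216) (nat_lit 7815179859) (nat_lit 76) (nat_lit 366687897) (nat_lit 169) (nat_lit 5) (nat_lit 185) (nat_lit 5) (nat_lit 170) (nat_lit 5) (nat_lit 292) (nat_lit 268) (nat_lit 220)) (XT.lf (nat_lit 0) (nat_lit 2104574749) (nat_lit 1216) (nat_lit 3352011821) (nat_lit 76) (nat_lit 3109434101) (nat_lit 169) (nat_lit 5) (nat_lit 185) (nat_lit 5) (nat_lit 170) (nat_lit 5) (nat_lit 293) (nat_lit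 268) (nat_lit 219)))) (XT.nd (nat_lit 156) (nat_lit 684) (nat_lit 0) (XT.nd (nat_lit 78) (nat_lit 0) (nat_lit 0) (XT.lf (nat_lit 0) (nat_lit 1227279510) (nat_lit 532) (nat_lit 2733475302) (nat_lit 608) (nat_lit 4722784995) (nat_lit 162) (nat_lit 5) (nat_lit 169) (nat_lit 5) (nat_lit 170) (nat_lit 5) (nat_lit 294) (nat_lit 268) (nat_lit 218)) (XT.lf (nat_lit 0) (nat_lit 5864267188) (nat_lit 608) (nat_lit 2834623948) (nat_lit 76) (nat_lit 106013455) (nat_lit 162) (nat_lit 5) (nat_lit 170) (nat_lit 5) (nat_lit 163) (nat_lit 5) (nat_lit 295) (nat_lit 268) (nat_lit 217))) (XT.nd (nat_lit 78) (nat_lit 76) (nat_lit 0) (XT.lf (nat_lit 0) (nat_lit 1894105150) (nat_lit 608) (nat_lit 5934087471) (nat_lit 684) (nat_lit 1101685925) (nat_lit 154) (nat_lit 5) (nat_lit 162) (nat_lit 5) (nat_lit 163) (nat_lit 5) (nat_lit 296) (nat_lit 268) (nat_lit 216)) (XT.lf (nat_lit 0) (nat_lit 764270859) (nat_lit 684) (nat_lit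 2284778926) (nat_lit 76) (nat_lit 6009767997) (nat_lit 153) (nat_lit 5) (nat_lit 162) (nat_lit 5) (nat_lit 154) (nat_lit 5) (nat_lit 297) (nat_lit 268) (nat_lit 215))))) (XT.nd (nat_lit 234) (nat_lit 988) (nat_lit 0) (XT.nd (nat_lit 78) (nat_lit 532) (nat_lit 0) (XT.lf (nat_lit 0) (nat_lit 2608012521) (nat_lit 532) (nat_lit 40725166) (nat_lit 608) (nat_lit 6543081784) (nat_lit 146) (nat_lit 5) (nat_lit 153) (nat_lit 5) (nat_lit 154) (nat_lit 5) (nat_lit 298) (nat_lit 268) (nat_lit 214)) (XT.nd (nat_lit 78) (nat_lit 532) (nat_lit 0) (XT.lf (nat_lit 0) (nat_lit 4602819165) (nat_lit 608) (nat_lit 1704876875) (nat_lit 76) (nat_lit 3020782685) (nat_lit 146) (nat_lit 5) (nat_lit 154) (nat_lit 5) (nat_lit 147) (nat_lit 5) (nat_lit 299) (nat_lit 268) (nat_lit 213)) (XT.lf (nat_lit 0) (nat_lit 3344941279) (nat_lit 532) (nat_lit 3264678946) (nat_lit 608) (nat_lit 2859852807) (nat_lit 139) (nat_lit 5)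 (nat_lit 146) (nat_lit 5) (nat_lit 147) (nat_lit 5) (nat_lit 300) (nat_lit 268) (nat_lit 212)))) (XT.nd (nat_lit 156) (nat_lit 456) (nat_lit 0) (XT.nd (nat_lit 78) (nat_lit 532) (nat_lit 0) (XT.lf (nat_lit 0) (nat_lit 8541249401) (nat_lit 532) (nat_lit 114868260) (nat_lit 608) (nat_lit 959251231) (nat_lit 139) (nat_lit 5) (nat_lit 146) (nat_lit 5) (nat_lit 147) (nat_lit 5) (nat_lit 301) (nat_lit 268) (nat_lit 211)) (XT.lf (nat_lit 0) (nat_lit 1012380544) (nat_lit 532) (nat_lit 5636065931) (nat_lit 76) (nat_lit 3115955679) (nat_lit 132) (nat_lit 5) (nat_lit 139) (nat_lit 5) (nat_lit 133) (nat_lit 5) (nat_lit 302) (nat_lit 268) (nat_lit 210))) (XT.nd (nat_lit 78) (nat_lit 456) (nat_lit 0) (XT.lf (nat_lit 0) (nat_lit 2999605966) (nat_lit 532) (nat_lit 459745316) (nat_lit 76) (nat_lit 6459050164) (nat_lit 132) (nat_lit 5) (nat_lit 139) (nat_lit 5) (nat_lit 133) (nat_lit 5) (nat_lit 303) (nat_lit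 268) (nat_lit 209)) (XT.lf (nat_lit 0) (nat_lit 4928913673) (nat_lit 456) (nat_lit 129606922) (nat_lit 532) (nat_lit 5018188144) (nat_lit 126) (nat_lit 5) (nat_lit 132) (nat_lit 5) (nat_lit 133) (nat_lit 5) (nat_lit 304) (nat_lit 268) (nat_lit 208))))))))
noncomputable def xc128 : XT := (XT.nd (nat_lit 2028) (nat_lit 2356) (nat_lit 0) (XT.nd (nat_lit 1014) (nat_lit 1900) (nat_lit 0) (XT.nd (nat_lit 468) (nat_lit 1596) (nat_lit 0) (XT.nd (nat_lit 234) (nat_lit 380) (nat_lit 0) (XT.nd (nat_lit 78) (nat_lit 532) (nat_lit 0) (XT.lf (nat_lit 0) (nat_lit 180997481) (nat_lit 456) (nat_lit 7001664659) (nat_lit 532) (nat_lit 3057048058) (nat_lit 120) (nat_lit 5) (nat_lit 126) (nat_lit 5) (nat_lit 127) (nat_lit 5) (nat_lit 305) (nat_lit 268) (nat_lit 207)) (XT.nd (nat_lit 78) (nat_lit 532) (nat_lit 0) (XT.lf (nat_lit 0) (nat_lit 5734462606) (nat_lit 456) (nat_lit 3655259443) (nat_lit 532) (nat_lit 1017351141)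 (nat_lit 120) (nat_lit 5) (nat_lit 126) (nat_lit 5) (nat_lit 127) (nat_lit 5) (nat_lit 306) (nat_lit 268) (nat_lit 206)) (XT.lf (nat_lit 0) (nat_lit 842122329) (nat_lit 456) (nat_lit 194926050) (nat_lit 532) (nat_lit 9542901159) (nat_lit 113) (nat_lit 5) (nat_lit 119) (nat_lit 5) (nat_lit 120) (nat_lit 5) (nat_lit 307) (nat_lit 268) (nat_lit 205)))) (XT.nd (nat_lit 78) (nat_lit 380) (nat_lit 0) (XT.lf (nat_lit 0) (nat_lit 3179778656) (nat_lit 532) (nat_lit 4221002980) (nat_lit 76) (nat_lit 3355557260) (nat_lit 113) (nat_lit 5) (nat_lit 120) (nat_lit 5) (nat_lit 114) (nat_lit 5) (nat_lit 308) (nat_lit 268) (nat_lit 204)) (XT.nd (nat_lit 78) (nat_lit 0) (nat_lit 0) (XT.lf (nat_lit 0) (nat_lit 1449268141) (nat_lit 380) (nat_lit 3921450093) (nat_lit 456) (nat_lit 5567825915) (nat_lit 108) (nat_lit 5) (nat_lit 113) (nat_lit 5) (nat_lit 114) (nat_lit 5) (nat_lit 309) (nat_lit 268) (nat_lit 203)) (XT.lf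 (nat_lit 0) (nat_lit 7338142057) (nat_lit 380) (nat_lit 300498504) (nat_lit 456) (nat_lit 3487278175) (nat_lit 108) (nat_lit 5) (nat_lit 113) (nat_lit 5) (nat_lit 114) (nat_lit 5) (nat_lit 310) (nat_lit 268) (nat_lit 202))))) (XT.nd (nat_lit 234) (nat_lit 760) (nat_lit 0) (XT.nd (nat_lit 78) (nat_lit 456) (nat_lit 0) (XT.lf (nat_lit 0) (nat_lit 2054072394) (nat_lit 380) (nat_lit 7942717793) (nat_lit 456) (nat_lit 1321498309) (nat_lit 103) (nat_lit 5) (nat_lit 108) (nat_lit 5) (nat_lit 109) (nat_lit 5) (nat_lit 311) (nat_lit 268) (nat_lit 201)) (XT.nd (nat_lit 78) (nat_lit 380) (nat_lit 0) (XT.lf (nat_lit 0) (nat_lit 902791656) (nat_lit 456) (nat_lit 3416638743) (nat_lit 76) (nat_lit 7196435702) (nat_lit 102) (nat_lit 5) (nat_lit 108) (nat_lit 5) (nat_lit 103) (nat_lit 5) (nat_lit 312) (nat_lit 268) (nat_lit 200)) (XT.lf (nat_lit 0) (nat_lit 2607181306) (nat_lit 380) (nat_lit 555689726) (nat_lit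 456) (nat_lit 8556275094) (nat_lit 97) (nat_lit 5) (nat_lit 102) (nat_lit 5) (nat_lit 103) (nat_lit 5) (nat_lit 313) (nat_lit 268) (nat_lit 199)))) (XT.nd (nat_lit 156) (nat_lit 380) (nat_lit 0) (XT.nd (nat_lit 78) (nat_lit 380) (nat_lit 0) (XT.lf (nat_lit 0) (nat_lit 5528510289) (nat_lit 456) (nat_lit 3115443449) (nat_lit 76) (nat_lit 3283473296) (nat_lit 97) (nat_lit 5) (nat_lit 103) (nat_lit 5) (nat_lit 98) (nat_lit 5) (nat_lit 314) (nat_lit 268) (nat_lit 198)) (XT.lf (nat_lit 0) (nat_lit 3079205739) (nat_lit 380) (nat_lit 4892850400) (nat_lit 456) (nat_lit 4169726286) (nat_lit 92) (nat_lit 5) (nat_lit 97) (nat_lit 5) (nat_lit 98) (nat_lit 5) (nat_lit 315) (nat_lit 268) (nat_lit 197))) (XT.nd (nat_lit 78) (nat_lit 380) (nat_lit 0) (XT.lf (nat_lit 0) (nat_lit 9487561993) (nat_lit 380) (nat_lit 1005116857) (nat_lit 456) (nat_lit 1869809697) (nat_lit 92) (nat_lit 5) (nat_lit 97) (nat_lit 5)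 (nat_lit 98) (nat_lit 5) (nat_lit 316) (nat_lit 268) (nat_lit 196)) (XT.lf (nat_lit 0) (nat_lit 525220340) (nat_lit 380) (nat_lit 9091777849) (nat_lit 76) (nat_lit 2971629354) (nat_lit 87) (nat_lit 5) (nat_lit 92) (nat_lit 5) (nat_lit 88) (nat_lit 5) (nat_lit 317) (nat_lit 268) (nat_lit 195)))))) (XT.nd (nat_lit 468) (nat_lit 836) (nat_lit 0) (XT.nd (nat_lit 234) (nat_lit 684) (nat_lit 0) (XT.nd (nat_lit 78) (nat_lit 380) (nat_lit 0) (XT.lf (nat_lit 0) (nat_lit 2966981918) (nat_lit 380) (nat_lit 2766641947) (nat_lit 76) (nat_lit 7087027965) (nat_lit 87) (nat_lit 5) (nat_lit 92) (nat_lit 5) (nat_lit 88) (nat_lit 5) (nat_lit 318) (nat_lit 268) (nat_lit 194)) (XT.nd (nat_lit 78) (nat_lit 0) (nat_lit 0) (XT.lf (nat_lit 0) (nat_lit 3787275175) (nat_lit 380) (nat_lit 1705099348) (nat_lit 456) (nat_lit 7566980461) (nat_lit 82) (nat_lit 5) (nat_lit 87) (nat_lit 5) (nat_lit 88) (nat_lit 5) (nat_lit 319)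 (nat_lit 268) (nat_lit 193)) (XT.lf (nat_lit 0) (nat_lit 8119551919) (nat_lit 456) (nat_lit 2768875485) (nat_lit 76) (nat_lit 2416039763) (nat_lit 82) (nat_lit 5) (nat_lit 88) (nat_lit 5) (nat_lit 83) (nat_lit 5) (nat_lit 320) (nat_lit 268) (nat_lit 192)))) (XT.nd (nat_lit 78) (nat_lit 380) (nat_lit 0) (XT.lf (nat_lit 0) (nat_lit 3955510504) (nat_lit 304) (nat_lit 6900000083) (nat_lit 380) (nat_lit 2700550942) (nat_lit 78) (nat_lit 5) (nat_lit 82) (nat_lit 5) (nat_lit 83) (nat_lit 5) (nat_lit 321) (nat_lit 268) (nat_lit 191)) (XT.nd (nat_lit 78) (nat_lit 380) (nat_lit 0) (XT.lf (nat_lit 0) (nat_lit 10904504232) (nat_lit 304) (nat_lit 2772465661) (nat_lit 380) (nat_lit 138158154) (nat_lit 78) (nat_lit 5) (nat_lit 82) (nat_lit 5) (nat_lit 83) (nat_lit 5) (nat_lit 322) (nat_lit 268) (nat_lit 190)) (XT.lf (nat_lit 0) (nat_lit 2481417376) (nat_lit 380) (nat_lit 10094960203) (nat_lit 76) (nat_lit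 1504019652) (nat_lit 73) (nat_lit 5) (nat_lit 78) (nat_lit 5) (nat_lit 74) (nat_lit 5) (nat_lit 323) (nat_lit 268) (nat_lit 189))))) (XT.nd (nat_lit 234) (nat_lit 608) (nat_lit 0) (XT.nd (nat_lit 78) (nat_lit 228) (nat_lit 0) (XT.lf (nat_lit 0) (nat_lit 5210144395) (nat_lit 380) (nat_lit 3267526330) (nat_lit 76) (nat_lit 5874937190) (nat_lit 73) (nat_lit 5) (nat_lit 78) (nat_lit 5) (nat_lit 74) (nat_lit 5) (nat_lit 324) (nat_lit 268) (nat_lit 188)) (XT.nd (nat_lit 78) (nat_lit 0) (nat_lit 0) (XT.lf (nat_lit 0) (nat_lit 3806267503) (nat_lit 228) (nat_lit 4227955166) (nat_lit 304) (nat_lit 6598381540) (nat_lit 70) (nat_lit 5) (nat_lit 73) (nat_lit 5) (nat_lit 74) (nat_lit 5) (nat_lit 325) (nat_lit 268) (nat_lit 187)) (XT.lf (nat_lit 0) (nat_lit 10954949700) (nat_lit 304) (nat_lit 3795544134) (nat_lit 76) (nat_lit 170172040) (nat_lit 70) (nat_lit 5) (nat_lit 74) (nat_lit 5) (nat_lit 71) (nat_lit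 5) (nat_lit 326) (nat_lit 268) (nat_lit 186)))) (XT.nd (nat_lit 156) (nat_lit 228) (nat_lit 0) (XT.nd (nat_lit 78) (nat_lit 76) (nat_lit 0) (XT.lf (nat_lit 0) (nat_lit 3439359093) (nat_lit 304) (nat_lit 10576695995) (nat_lit 380) (nat_lit 1199754201) (nat_lit 66) (nat_lit 5) (nat_lit 70) (nat_lit 5) (nat_lit 71) (nat_lit 5) (nat_lit 327) (nat_lit 268) (nat_lit 185)) (XT.lf (nat_lit 0) (nat_lit 1633649251) (nat_lit 380) (nat_lit 4597987783) (nat_lit 76) (nat_lit 9287216359) (nat_lit 65) (nat_lit 5) (nat_lit 70) (nat_lit 5) (nat_lit 66) (nat_lit 5) (nat_lit 328) (nat_lit 268) (nat_lit 184))) (XT.nd (nat_lit 78) (nat_lit 0) (nat_lit 0) (XT.lf (nat_lit 0) (nat_lit 2807459135) (nat_lit 228) (nat_lit 1726048580) (nat_lit 304) (nat_lit 11296978416) (nat_lit 62) (nat_lit 5) (nat_lit 65) (nat_lit 5) (nat_lit 66) (nat_lit 5) (nat_lit 329) (nat_lit 268) (nat_lit 183)) (XT.lf (nat_lit 0) (nat_lit 7574081320)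 (nat_lit 304) (nat_lit 5680754521) (nat_lit 76) (nat_lit 2895040507) (nat_lit 62) (nat_lit 5) (nat_lit 66) (nat_lit 5) (nat_lit 63) (nat_lit 5) (nat_lit 330) (nat_lit 268) (nat_lit 182))))))) (XT.nd (nat_lit 1014) (nat_lit 988) (nat_lit 0) (XT.nd (nat_lit 468) (nat_lit 608) (nat_lit 0) (XT.nd (nat_lit 234) (nat_lit 228) (nat_lit 0) (XT.nd (nat_lit 78) (nat_lit 304) (nat_lit 0) (XT.lf (nat_lit 0) (nat_lit 1870591102) (nat_lit 228) (nat_lit 8849780104) (nat_lit 304) (nat_lit 5758061585) (nat_lit 59) (nat_lit 5) (nat_lit 62) (nat_lit 5) (nat_lit 63) (nat_lit 5) (nat_lit 331) (nat_lit 268) (nat_lit 181)) (XT.nd (nat_lit 78) (nat_lit 304) (nat_lit 0) (XT.lf (nat_lit 0) (nat_lit 9734619658) (nat_lit 228) (nat_lit 4263530676) (nat_lit 304) (nat_lit 2817601501) (nat_lit 59) (nat_lit 5) (nat_lit 62) (nat_lit 5) (nat_lit 63) (nat_lit 5) (nat_lit 332) (nat_lit 268) (nat_lit 180)) (XT.lf (nat_lit 0) (nat_lit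 197748041) (nat_lit 304) (nat_lit 16515728197) (nat_lit 76) (nat_lit 449947350) (nat_lit 55) (nat_lit 5) (nat_lit 59) (nat_lit 5) (nat_lit 56) (nat_lit 5) (nat_lit 333) (nat_lit 268) (nat_lit 179)))) (XT.nd (nat_lit 78) (nat_lit 228) (nat_lit 0) (XT.lf (nat_lit 0) (nat_lit 3341666762) (nat_lit 304) (nat_lit 8866709522) (nat_lit 76) (nat_lit 5309487425) (nat_lit 55) (nat_lit 5) (nat_lit 59) (nat_lit 5) (nat_lit 56) (nat_lit 5) (nat_lit 334) (nat_lit 268) (nat_lit 178)) (XT.nd (nat_lit 78) (nat_lit 228) (nat_lit 0) (XT.lf (nat_lit 0) (nat_lit 6560789444) (nat_lit 304) (nat_lit 1017399951) (nat_lit 76) (nat_lit 10305337861) (nat_lit 55) (nat_lit 5) (nat_lit 59) (nat_lit 5) (nat_lit 56) (nat_lit 5) (nat_lit 335) (nat_lit 268) (nat_lit 177)) (XT.lf (nat_lit 0) (nat_lit 7179150212) (nat_lit 228) (nat_lit 2747789084) (nat_lit 304) (nat_lit 8331724134) (nat_lit 52) (nat_lit 5) (nat_lit 55) (nat_lit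 5) (nat_lit 56) (nat_lit 5) (nat_lit 336) (nat_lit 268) (nat_lit 176))))) (XT.nd (nat_lit 234) (nat_lit 380) (nat_lit 0) (XT.nd (nat_lit 78) (nat_lit 228) (nat_lit 0) (XT.lf (nat_lit 0) (nat_lit 13407481494) (nat_lit 304) (nat_lit 3052329513) (nat_lit 76) (nat_lit 2184856295) (nat_lit 52) (nat_lit 5) (nat_lit 56) (nat_lit 5) (nat_lit 53) (nat_lit 5) (nat_lit 337) (nat_lit 268) (nat_lit 175)) (XT.nd (nat_lit 78) (nat_lit 76) (nat_lit 0) (XT.lf (nat_lit 0) (nat_lit 5263481525) (nat_lit 152) (nat_lit 11788915475) (nat_lit 228) (nat_lit 1988070966) (nat_lit 50) (nat_lit 5) (nat_lit 52) (nat_lit 5) (nat_lit 53) (nat_lit 5) (nat_lit 338) (nat_lit 268) (nat_lit 174)) (XT.lf (nat_lit 0) (nat_lit 1345358251) (nat_lit 228) (nat_lit 5597034037) (nat_lit 76) (nat_lit 12504972585) (nat_lit 49) (nat_lit 5) (nat_lit 52) (nat_lit 5) (nat_lit 50) (nat_lit 5) (nat_lit 339) (nat_lit 268) (nat_lit 173)))) (XT.nd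 (nat_lit 156) (nat_lit 152) (nat_lit 0) (XT.nd (nat_lit 78) (nat_lit 0) (nat_lit 0) (XT.lf (nat_lit 0) (nat_lit 2837014166) (nat_lit 228) (nat_lit 1911829600) (nat_lit 304) (nat_lit 15116748136) (nat_lit 46) (nat_lit 5) (nat_lit 49) (nat_lit 5) (nat_lit 50) (nat_lit 5) (nat_lit 340) (nat_lit 268) (nat_lit 172)) (XT.lf (nat_lit 0) (nat_lit 8325835599) (nat_lit 304) (nat_lit 8714987703) (nat_lit 76) (nat_lit 3253414058) (nat_lit 46) (nat_lit 5) (nat_lit 50) (nat_lit 5) (nat_lit 47) (nat_lit 5) (nat_lit 341) (nat_lit 268) (nat_lit 171))) (XT.nd (nat_lit 78) (nat_lit 152) (nat_lit 0) (XT.lf (nat_lit 0) (nat_lit 12012457662) (nat_lit 304) (nat_lit 197273914) (nat_lit 76) (nat_lit 8525954267) (nat_lit 46) (nat_lit 5) (nat_lit 50) (nat_lit 5) (nat_lit 47) (nat_lit 5) (nat_lit 342) (nat_lit 268) (nat_lit 170)) (XT.lf (nat_lit 0) (nat_lit 8720553373) (nat_lit 152) (nat_lit 7156827518) (nat_lit 228) (nat_lit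 5310978699) (nat_lit 44) (nat_lit 5) (nat_lit 46) (nat_lit 5) (nat_lit 47) (nat_lit 5) (nat_lit 343) (nat_lit 268) (nat_lit 169)))))) (XT.nd (nat_lit 468) (nat_lit 532) (nat_lit 0) (XT.nd (nat_lit 234) (nat_lit 152) (nat_lit 0) (XT.nd (nat_lit 78) (nat_lit 304) (nat_lit 0) (XT.lf (nat_lit 0) (nat_lit 17884622938) (nat_lit 152) (nat_lit 1959722276) (nat_lit 228) (nat_lit 1810698046) (nat_lit 44) (nat_lit 5) (nat_lit 46) (nat_lit 5) (nat_lit 47) (nat_lit 5) (nat_lit 344) (nat_lit 268) (nat_lit 168)) (XT.nd (nat_lit 78) (nat_lit 0) (nat_lit 0) (XT.lf (nat_lit 0) (nat_lit 1827619062) (nat_lit 304) (nat_lit 16919249913) (nat_lit 76) (nat_lit 3386311327) (nat_lit 40) (nat_lit 5) (nat_lit 44) (nat_lit 5) (nat_lit 41) (nat_lit 5) (nat_lit 345) (nat_lit 268) (nat_lit 167)) (XT.lf (nat_lit 0) (nat_lit 5581073947) (nat_lit 304) (nat_lit 8142185631) (nat_lit 76) (nat_lit 8900604052) (nat_lit 40) (nat_lit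 5) (nat_lit 44) (nat_lit 5) (nat_lit 41) (nat_lit 5) (nat_lit 346) (nat_lit 268) (nat_lit 166)))) (XT.nd (nat_lit 78) (nat_lit 0) (nat_lit 0) (XT.lf (nat_lit 0) (nat_lit 891251948) (nat_lit 152) (nat_lit 8549425932) (nat_lit 228) (nat_lit 13688794330) (nat_lit 38) (nat_lit 5) (nat_lit 40) (nat_lit 5) (nat_lit 41) (nat_lit 5) (nat_lit 347) (nat_lit 268) (nat_lit 165)) (XT.nd (nat_lit 78) (nat_lit 0) (nat_lit 0) (XT.lf (nat_lit 0) (nat_lit 10338507844) (nat_lit 152) (nat_lit 3144966288) (nat_lit 228) (nat_lit 10164763583) (nat_lit 38) (nat_lit 5) (nat_lit 40) (nat_lit 5) (nat_lit 41) (nat_lit 5) (nat_lit 348) (nat_lit 268) (nat_lit 164)) (XT.lf (nat_lit 0) (nat_lit 17656361489) (nat_lit 228) (nat_lit 4160408310) (nat_lit 76) (nat_lit 2365542648) (nat_lit 38) (nat_lit 5) (nat_lit 41) (nat_lit 5) (nat_lit 39) (nat_lit 5) (nat_lit 349) (nat_lit 268) (nat_lit 163))))) (XT.nd (nat_lit 234) (nat_lit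 304) (nat_lit 0) (XT.nd (nat_lit 78) (nat_lit 76) (nat_lit 0) (XT.lf (nat_lit 0) (nat_lit 5312874162) (nat_lit 152) (nat_lit 16709720718) (nat_lit 228) (nat_lit 2707779931) (nat_lit 36) (nat_lit 5) (nat_lit 38) (nat_lit 5) (nat_lit 39) (nat_lit 5) (nat_lit 350) (nat_lit 268) (nat_lit 162)) (XT.nd (nat_lit 78) (nat_lit 0) (nat_lit 0) (XT.lf (nat_lit 0) (nat_lit 1229454638) (nat_lit 228) (nat_lit 10173286179) (nat_lit 76) (nat_lit 13890941932) (nat_lit 35) (nat_lit 5) (nat_lit 38) (nat_lit 5) (nat_lit 36) (nat_lit 5) (nat_lit 351) (nat_lit 268) (nat_lit 161)) (XT.lf (nat_lit 0) (nat_lit 5216783913) (nat_lit 228) (nat_lit 700997789) (nat_lit 76) (nat_lit 19955721203) (nat_lit 35) (nat_lit 5) (nat_lit 38) (nat_lit 5) (nat_lit 36) (nat_lit 5) (nat_lit 352) (nat_lit 268) (nat_lit 160)))) (XT.nd (nat_lit 156) (nat_lit 152) (nat_lit 0) (XT.nd (nat_lit 78) (nat_lit 0) (nat_lit 0) (XT.lf (nat_lit 0) (nat_lit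 9213457862) (nat_lit 152) (nat_lit 185638036) (nat_lit 228) (nat_lit 17069369920) (nat_lit 33) (nat_lit 5) (nat_lit 35) (nat_lit 5) (nat_lit 36) (nat_lit 5) (nat_lit 353) (nat_lit 268) (nat_lit 159)) (XT.lf (nat_lit 0) (nat_lit 13755887858) (nat_lit 228) (nat_lit 7718280692) (nat_lit 76) (nat_lit 5605647525) (nat_lit 33) (nat_lit 5) (nat_lit 36) (nat_lit 5) (nat_lit 34) (nat_lit 5) (nat_lit 354) (nat_lit 268) (nat_lit 158))) (XT.nd (nat_lit 78) (nat_lit 0) (nat_lit 0) (XT.lf (nat_lit 0) (nat_lit 2122880216) (nat_lit 152) (nat_lit 16130021952) (nat_lit 228) (nat_lit 9456327633) (nat_lit 31) (nat_lit 5) (nat_lit 33) (nat_lit 5) (nat_lit 34) (nat_lit 5) (nat_lit 355) (nat_lit 268) (nat_lit 157)) (XT.lf (nat_lit 0) (nat_lit 12396446313) (nat_lit 152) (nat_lit 10553762606) (nat_lit 228) (nat_lit 5405363832) (nat_lit 31) (nat_lit 5) (nat_lit 33) (nat_lit 5) (nat_lit 34) (nat_lit 5) (nat_lit 356) (nat_lit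 268) (nat_lit 156))))))))
noncomputable def xc129 : XT := (XT.nd (nat_lit 2028) (nat_lit 456) (nat_lit 0) (XT.nd (nat_lit 1014) (nat_lit 608) (nat_lit 0) (XT.nd (nat_lit 468) (nat_lit 304) (nat_lit 0) (XT.nd (nat_lit 234) (nat_lit 152) (nat_lit 0) (XT.nd (nat_lit 78) (nat_lit 228) (nat_lit 0) (XT.lf (nat_lit 0) (nat_lit 22957785580) (nat_lit 152) (nat_lit 4818457554) (nat_lit 228) (nat_lit 1245436638) (nat_lit 31) (nat_lit 5) (nat_lit 33) (nat_lit 5) (nat_lit 34) (nat_lit 5) (nat_lit 357) (nat_lit 268) (nat_lit 155)) (XT.nd (nat_lit 78) (nat_lit 0) (nat_lit 0) (XT.lf (nat_lit 0) (nat_lit 3019082948) (nat_lit 228) (nat_lit 25557061373) (nat_lit 76) (nat_lit 1129583725) (nat_lit 28) (nat_lit 5) (nat_lit 31) (nat_lit 5) (nat_lit 29) (nat_lit 5) (nat_lit 358) (nat_lit 268) (nat_lit 154)) (XT.lf (nat_lit 0) (nat_lit 7484171339) (nat_lit 228) (nat_lit 15697368494) (nat_lit 76) (nat_lit 7225465397)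 (nat_lit 28) (nat_lit 5) (nat_lit 31) (nat_lit 5) (nat_lit 29) (nat_lit 5) (nat_lit 359) (nat_lit 268) (nat_lit 153)))) (XT.nd (nat_lit 78) (nat_lit 152) (nat_lit 0) (XT.lf (nat_lit 0) (nat_lit 12071676501) (nat_lit 228) (nat_lit 5561468470) (nat_lit 76) (nat_lit 13496528968) (nat_lit 28) (nat_lit 5) (nat_lit 31) (nat_lit 5) (nat_lit 29) (nat_lit 5) (nat_lit 360) (nat_lit 268) (nat_lit 152)) (XT.nd (nat_lit 78) (nat_lit 0) (nat_lit 0) (XT.lf (nat_lit 0) (nat_lit 4956208793) (nat_lit 152) (nat_lit 11877040254) (nat_lit 228) (nat_lit 15039687324) (nat_lit 26) (nat_lit 5) (nat_lit 28) (nat_lit 5) (nat_lit 29) (nat_lit 5) (nat_lit 361) (nat_lit 268) (nat_lit 151)) (XT.lf (nat_lit 0) (nat_lit 15884594185) (nat_lit 152) (nat_lit 5898179864) (nat_lit 228) (nat_lit 10854376193) (nat_lit 26) (nat_lit 5) (nat_lit 28) (nat_lit 5) (nat_lit 29) (nat_lit 5) (nat_lit 362) (nat_lit 268) (nat_lit 150))))) (XT.nd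 (nat_lit 234) (nat_lit 152) (nat_lit 0) (XT.nd (nat_lit 78) (nat_lit 152) (nat_lit 0) (XT.lf (nat_lit 0) (nat_lit 26872479323) (nat_lit 228) (nat_lit 6304493576) (nat_lit 76) (nat_lit 247573324) (nat_lit 26) (nat_lit 5) (nat_lit 29) (nat_lit 5) (nat_lit 27) (nat_lit 4) (nat_lit 363) (nat_lit 268) (nat_lit 149)) (XT.nd (nat_lit 78) (nat_lit 76) (nat_lit 0) (XT.lf (nat_lit 0) (nat_lit 4467801231) (nat_lit 76) (nat_lit 27737929096) (nat_lit 152) (nat_lit 2027114460) (nat_lit 25) (nat_lit 5) (nat_lit 26) (nat_lit 5) (nat_lit 27) (nat_lit 4) (nat_lit 364) (nat_lit 268) (nat_lit 148)) (XT.lf (nat_lit 0) (nat_lit 2636024353) (nat_lit 152) (nat_lit 19414960018) (nat_lit 76) (nat_lit 13012039585) (nat_lit 24) (nat_lit 5) (nat_lit 26) (nat_lit 5) (nat_lit 25) (nat_lit 5) (nat_lit 365) (nat_lit 268) (nat_lit 147)))) (XT.nd (nat_lit 156) (nat_lit 0) (nat_lit 0) (XT.nd (nat_lit 78) (nat_lit 152) (nat_lit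 0) (XT.lf (nat_lit 0) (nat_lit 7388154347) (nat_lit 152) (nat_lit 8791951647) (nat_lit 76) (nat_lit 19737710995) (nat_lit 24) (nat_lit 5) (nat_lit 26) (nat_lit 5) (nat_lit 25) (nat_lit 5) (nat_lit 366) (nat_lit 268) (nat_lit 146)) (XT.lf (nat_lit 0) (nat_lit 2175195562) (nat_lit 152) (nat_lit 10118697920) (nat_lit 228) (nat_lit 24504034606) (nat_lit 22) (nat_lit 5) (nat_lit 24) (nat_lit 5) (nat_lit 25) (nat_lit 5) (nat_lit 367) (nat_lit 268) (nat_lit 145))) (XT.nd (nat_lit 78) (nat_lit 0) (nat_lit 0) (XT.lf (nat_lit 0) (nat_lit 13634752904) (nat_lit 152) (nat_lit 3791094807) (nat_lit 228) (nat_lit 20276228989) (nat_lit 22) (nat_lit 5) (nat_lit 24) (nat_lit 5) (nat_lit 25) (nat_lit 5) (nat_lit 368) (nat_lit 268) (nat_lit 144)) (XT.lf (nat_lit 0) (nat_lit 22728446688) (nat_lit 228) (nat_lit 13238023245) (nat_lit 76) (nat_lit 2666384563) (nat_lit 22) (nat_lit 5) (nat_lit 25) (nat_lit 5) (nat_lit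 23) (nat_lit 4) (nat_lit 369) (nat_lit 268) (nat_lit 143)))))) (XT.nd (nat_lit 468) (nat_lit 304) (nat_lit 0) (XT.nd (nat_lit 234) (nat_lit 228) (nat_lit 0) (XT.nd (nat_lit 78) (nat_lit 76) (nat_lit 0) (XT.lf (nat_lit 0) (nat_lit 28218415445) (nat_lit 228) (nat_lit 2137460073) (nat_lit 76) (nat_lit 9234836509) (nat_lit 22) (nat_lit 5) (nat_lit 25) (nat_lit 5) (nat_lit 23) (nat_lit 4) (nat_lit 370) (nat_lit 268) (nat_lit 142)) (XT.nd (nat_lit 78) (nat_lit 0) (nat_lit 0) (XT.lf (nat_lit 0) (nat_lit 9465207861) (nat_lit 76) (nat_lit 24489886228) (nat_lit 152) (nat_lit 6619755873) (nat_lit 21) (nat_lit 5) (nat_lit 22) (nat_lit 5) (nat_lit 23) (nat_lit 4) (nat_lit 371) (nat_lit 268) (nat_lit 141)) (XT.lf (nat_lit 0) (nat_lit 21444312303) (nat_lit 76) (nat_lit 18432283192) (nat_lit 152) (nat_lit 1711539728) (nat_lit 21) (nat_lit 5) (nat_lit 22) (nat_lit 5) (nat_lit 23) (nat_lit 4) (nat_lit 372) (nat_lit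 268) (nat_lit 140)))) (XT.nd (nat_lit 78) (nat_lit 152) (nat_lit 0) (XT.lf (nat_lit 0) (nat_lit 3269977465) (nat_lit 152) (nat_lit 8896359688) (nat_lit 76) (nat_lit 30464782956) (nat_lit 20) (nat_lit 5) (nat_lit 22) (nat_lit 5) (nat_lit 21) (nat_lit 5) (nat_lit 373) (nat_lit 268) (nat_lit 139)) (XT.nd (nat_lit 78) (nat_lit 0) (nat_lit 0) (XT.lf (nat_lit 0) (nat_lit 2709713411) (nat_lit 152) (nat_lit 5674433686) (nat_lit 228) (nat_lit 35320215299) (nat_lit 18) (nat_lit 5) (nat_lit 20) (nat_lit 5) (nat_lit 21) (nat_lit 5) (nat_lit 374) (nat_lit 268) (nat_lit 138)) (XT.lf (nat_lit 0) (nat_lit 13743802235) (nat_lit 228) (nat_lit 29986185073) (nat_lit 76) (nat_lit 1077057148) (nat_lit 18) (nat_lit 5) (nat_lit 21) (nat_lit 5) (nat_lit 19) (nat_lit 4) (nat_lit 375) (nat_lit 268) (nat_lit 137))))) (XT.nd (nat_lit 234) (nat_lit 228) (nat_lit 0) (XT.nd (nat_lit 78) (nat_lit 76) (nat_lit 0) (XT.lf (nat_lit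 0) (nat_lit 19312279072) (nat_lit 228) (nat_lit 18718012806) (nat_lit 76) (nat_lit 7911078329) (nat_lit 18) (nat_lit 5) (nat_lit 21) (nat_lit 5) (nat_lit 19) (nat_lit 4) (nat_lit 376) (nat_lit 268) (nat_lit 136)) (XT.nd (nat_lit 78) (nat_lit 76) (nat_lit 0) (XT.lf (nat_lit 0) (nat_lit 25039897139) (nat_lit 228) (nat_lit 7125740082) (nat_lit 76) (nat_lit 14944329969) (nat_lit 18) (nat_lit 5) (nat_lit 21) (nat_lit 5) (nat_lit 19) (nat_lit 4) (nat_lit 377) (nat_lit 268) (nat_lit 135)) (XT.lf (nat_lit 0) (nat_lit 4896306851) (nat_lit 76) (nat_lit 26082420598) (nat_lit 152) (nat_lit 17333717076) (nat_lit 17) (nat_lit 5) (nat_lit 18) (nat_lit 5) (nat_lit 19) (nat_lit 4) (nat_lit 378) (nat_lit 268) (nat_lit 134)))) (XT.nd (nat_lit 156) (nat_lit 228) (nat_lit 0) (XT.nd (nat_lit 78) (nat_lit 0) (nat_lit 0) (XT.lf (nat_lit 0) (nat_lit 17411680055) (nat_lit 76) (nat_lit 19748410919) (nat_lit 152) (nat_lit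 12388977990) (nat_lit 17) (nat_lit 5) (nat_lit 18) (nat_lit 5) (nat_lit 19) (nat_lit 4) (nat_lit 379) (nat_lit 268) (nat_lit 133)) (XT.lf (nat_lit 0) (nat_lit 30289499093) (nat_lit 76) (nat_lit 13230029617) (nat_lit 152) (nat_lit 7303488152) (nat_lit 17) (nat_lit 5) (nat_lit 18) (nat_lit 5) (nat_lit 19) (nat_lit 4) (nat_lit 380) (nat_lit 268) (nat_lit 132))) (XT.nd (nat_lit 78) (nat_lit 228) (nat_lit 0) (XT.lf (nat_lit 0) (nat_lit 43541016428) (nat_lit 76) (nat_lit 6521581019) (nat_lit 152) (nat_lit 2072803929) (nat_lit 17) (nat_lit 5) (nat_lit 18) (nat_lit 5) (nat_lit 19) (nat_lit 4) (nat_lit 381) (nat_lit 268) (nat_lit 131)) (XT.lf (nat_lit 0) (nat_lit 3283319810) (nat_lit 228) (nat_lit 49758228003) (nat_lit 76) (nat_lit 443661023) (nat_lit 14) (nat_lit 5) (nat_lit 17) (nat_lit 5) (nat_lit 15) (nat_lit 4) (nat_lit 382) (nat_lit 268) (nat_lit 130))))))) (XT.nd (nat_lit 1014) (nat_lit 228) (nat_lit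 0) (XT.nd (nat_lit 468) (nat_lit 152) (nat_lit 0) (XT.nd (nat_lit 234) (nat_lit 76) (nat_lit 0) (XT.nd (nat_lit 78) (nat_lit 0) (nat_lit 0) (XT.lf (nat_lit 0) (nat_lit 8903700456) (nat_lit 228) (nat_lit 38377144333) (nat_lit 76) (nat_lit 7589696319) (nat_lit 14) (nat_lit 5) (nat_lit 17) (nat_lit 5) (nat_lit 15) (nat_lit 4) (nat_lit 383) (nat_lit 268) (nat_lit 129)) (XT.nd (nat_lit 78) (nat_lit 0) (nat_lit 0) (XT.lf (nat_lit 0) (nat_lit 14685914545) (nat_lit 228) (nat_lit 26666714821) (nat_lit 76) (nat_lit 14945010533) (nat_lit 14) (nat_lit 5) (nat_lit 17) (nat_lit 5) (nat_lit 15) (nat_lit 4) (nat_lit 384) (nat_lit 268) (nat_lit 128)) (XT.lf (nat_lit 0) (nat_lit 20635014497) (nat_lit 228) (nat_lit 14616707055) (nat_lit 76) (nat_lit 22516030639) (nat_lit 14) (nat_lit 5) (nat_lit 17) (nat_lit 5) (nat_lit 15) (nat_lit 4) (nat_lit 385) (nat_lit 268) (nat_lit 127)))) (XT.nd (nat_lit 78) (nat_lit 76)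 (nat_lit 0) (XT.lf (nat_lit 0) (nat_lit 26756198554) (nat_lit 228) (nat_lit 2216591900) (nat_lit 76) (nat_lit 30309372091) (nat_lit 14) (nat_lit 5) (nat_lit 17) (nat_lit 5) (nat_lit 15) (nat_lit 4) (nat_lit 386) (nat_lit 268) (nat_lit 126)) (XT.nd (nat_lit 78) (nat_lit 0) (nat_lit 0) (XT.lf (nat_lit 0) (nat_lit 10754321238) (nat_lit 76) (nat_lit 22403871200) (nat_lit 152) (nat_lit 27680900482) (nat_lit 13) (nat_lit 5) (nat_lit 14) (nat_lit 5) (nat_lit 15) (nat_lit 4) (nat_lit 387) (nat_lit 268) (nat_lit 125)) (XT.lf (nat_lit 0) (nat_lit 24148847158) (nat_lit 76) (nat_lit 15619654785) (nat_lit 152) (nat_lit 22673744443) (nat_lit 13) (nat_lit 5) (nat_lit 14) (nat_lit 5) (nat_lit 15) (nat_lit 4) (nat_lit 388) (nat_lit 268) (nat_lit 124))))) (XT.nd (nat_lit 234) (nat_lit 152) (nat_lit 0) (XT.nd (nat_lit 78) (nat_lit 0) (nat_lit 0) (XT.lf (nat_lit 0) (nat_lit 37934575290) (nat_lit 76) (nat_lit 8636596485)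 (nat_lit 152) (nat_lit 17522503920) (nat_lit 13) (nat_lit 5) (nat_lit 14) (nat_lit 5) (nat_lit 15) (nat_lit 4) (nat_lit 389) (nat_lit 268) (nat_lit 123)) (XT.nd (nat_lit 78) (nat_lit 0) (nat_lit 0) (XT.lf (nat_lit 0) (nat_lit 52123551415) (nat_lit 76) (nat_lit 1448594599) (nat_lit 152) (nat_lit 12222677831) (nat_lit 13) (nat_lit 5) (nat_lit 14) (nat_lit 5) (nat_lit 15) (nat_lit 4) (nat_lit 390) (nat_lit 268) (nat_lit 122)) (XT.lf (nat_lit 0) (nat_lit 60834743129) (nat_lit 152) (nat_lit 876204719) (nat_lit 0) (nat_lit 5834513395) (nat_lit 13) (nat_lit 5) (nat_lit 15) (nat_lit 4) (nat_lit 13) (nat_lit 4) (nat_lit 391) (nat_lit 268) (nat_lit 121)))) (XT.nd (nat_lit 156) (nat_lit 0) (nat_lit 0) (XT.nd (nat_lit 78) (nat_lit 76) (nat_lit 0) (XT.lf (nat_lit 0) (nat_lit 12522883190) (nat_lit 76) (nat_lit 55921569751) (nat_lit 76) (nat_lit 900290313) (nat_lit 12) (nat_lit 4) (nat_lit 13) (nat_lit 5)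 (nat_lit 13) (nat_lit 4) (nat_lit 392) (nat_lit 268) (nat_lit 120)) (XT.lf (nat_lit 0) (nat_lit 4988694470) (nat_lit 152) (nat_lit 44914666267) (nat_lit 76) (nat_lit 21293075329) (nat_lit 11) (nat_lit 5) (nat_lit 13) (nat_lit 5) (nat_lit 12) (nat_lit 4) (nat_lit 393) (nat_lit 268) (nat_lit 119))) (XT.nd (nat_lit 78) (nat_lit 0) (nat_lit 0) (XT.lf (nat_lit 0) (nat_lit 11030937868) (nat_lit 152) (nat_lit 32668753534) (nat_lit 76) (nat_lit 29403882648) (nat_lit 11) (nat_lit 5) (nat_lit 13) (nat_lit 5) (nat_lit 12) (nat_lit 4) (nat_lit 394) (nat_lit 268) (nat_lit 118)) (XT.lf (nat_lit 0) (nat_lit 17249287417) (nat_lit 152) (nat_lit 20064767412) (nat_lit 76) (nat_lit 37754028434) (nat_lit 11) (nat_lit 5) (nat_lit 13) (nat_lit 5) (nat_lit 12) (nat_lit 4) (nat_lit 395) (nat_lit 268) (nat_lit 117)))))) (XT.nd (nat_lit 546) (nat_lit 152) (nat_lit 0) (XT.nd (nat_lit 234) (nat_lit 0) (nat_lit 0) (XT.nd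 (nat_lit 78) (nat_lit 76) (nat_lit 0) (XT.lf (nat_lit 0) (nat_lit 23649176625) (nat_lit 152) (nat_lit 7091694708) (nat_lit 76) (nat_lit 46350808929) (nat_lit 11) (nat_lit 5) (nat_lit 13) (nat_lit 5) (nat_lit 12) (nat_lit 4) (nat_lit 396) (nat_lit 268) (nat_lit 116)) (XT.nd (nat_lit 78) (nat_lit 0) (nat_lit 0) (XT.lf (nat_lit 0) (nat_lit 6386422374) (nat_lit 76) (nat_lit 23911165454) (nat_lit 152) (nat_lit 48876703709) (nat_lit 10) (nat_lit 5) (nat_lit 11) (nat_lit 5) (nat_lit 12) (nat_lit 4) (nat_lit 397) (nat_lit 268) (nat_lit 115)) (XT.lf (nat_lit 0) (nat_lit 20405571833) (nat_lit 76) (nat_lit 16806685086) (nat_lit 152) (nat_lit 44105122125) (nat_lit 10) (nat_lit 5) (nat_lit 11) (nat_lit 5) (nat_lit 12) (nat_lit 4) (nat_lit 398) (nat_lit 268) (nat_lit 114)))) (XT.nd (nat_lit 156) (nat_lit 0) (nat_lit 0) (XT.nd (nat_lit 78) (nat_lit 0) (nat_lit 0) (XT.lf (nat_lit 0) (nat_lit 34836864780) (nat_lit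 76) (nat_lit 9492834642) (nat_lit 152) (nat_lit 39195201756) (nat_lit 10) (nat_lit 5) (nat_lit 11) (nat_lit 5) (nat_lit 12) (nat_lit 4) (nat_lit 399) (nat_lit 268) (nat_lit 113)) (XT.lf (nat_lit 0) (nat_lit 49692911083) (nat_lit 76) (nat_lit 1963223381) (nat_lit 152) (nat_lit 34142652378) (nat_lit 10) (nat_lit 5) (nat_lit 11) (nat_lit 5) (nat_lit 12) (nat_lit 4) (nat_lit 400) (nat_lit 268) (nat_lit 112))) (XT.nd (nat_lit 78) (nat_lit 0) (nat_lit 0) (XT.lf (nat_lit 0) (nat_lit 59253608576) (nat_lit 152) (nat_lit 23209975968) (nat_lit 0) (nat_lit 5675769037) (nat_lit 10) (nat_lit 5) (nat_lit 12) (nat_lit 4) (nat_lit 10) (nat_lit 4) (nat_lit 401) (nat_lit 268) (nat_lit 111)) (XT.lf (nat_lit 0) (nat_lit 67094140998) (nat_lit 152) (nat_lit 9954449431) (nat_lit 0) (nat_lit 13501094705) (nat_lit 10) (nat_lit 5) (nat_lit 12) (nat_lit 4) (nat_lit 10) (nat_lit 4) (nat_lit 402) (nat_lit 268) (nat_lit 110)))))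 (XT.nd (nat_lit 234) (nat_lit 76) (nat_lit 0) (XT.nd (nat_lit 78) (nat_lit 0) (nat_lit 0) (XT.lf (nat_lit 0) (nat_lit 3764619337) (nat_lit 76) (nat_lit 71437279461) (nat_lit 76) (nat_lit 17829469329) (nat_lit 9) (nat_lit 4) (nat_lit 10) (nat_lit 5) (nat_lit 10) (nat_lit 4) (nat_lit 403) (nat_lit 268) (nat_lit 109)) (XT.nd (nat_lit 78) (nat_lit 0) (nat_lit 0) (XT.lf (nat_lit 0) (nat_lit 18091806138) (nat_lit 76) (nat_lit 65557474706) (nat_lit 76) (nat_lit 11935330749) (nat_lit 9) (nat_lit 4) (nat_lit 10) (nat_lit 5) (nat_lit 10) (nat_lit 4) (nat_lit 404) (nat_lit 268) (nat_lit 108)) (XT.lf (nat_lit 0) (nat_lit 32841516809) (nat_lit 76) (nat_lit 59504558890) (nat_lit 76) (nat_lit 5868498600) (nat_lit 9) (nat_lit 4) (nat_lit 10) (nat_lit 5) (nat_lit 10) (nat_lit 4) (nat_lit 405) (nat_lit 268) (nat_lit 107)))) (XT.nd (nat_lit 29952) (nat_lit 0) (nat_lit 19988) (XT.nd (nat_lit 78) (nat_lit 0) (nat_lit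 0) (XT.lf (nat_lit 0) (nat_lit 368984716) (nat_lit 152) (nat_lit 52900532320) (nat_lit 76) (nat_lit 47653928709) (nat_lit 8) (nat_lit 5) (nat_lit 10) (nat_lit 5) (nat_lit 9) (nat_lit 4) (nat_lit 406) (nat_lit 268) (nat_lit 106)) (XT.lf (nat_lit 0) (nat_lit 6671824021) (nat_lit 152) (nat_lit 40118886010) (nat_lit 76) (nat_lit 56921246243) (nat_lit 8) (nat_lit 5) (nat_lit 10) (nat_lit 5) (nat_lit 9) (nat_lit 4) (nat_lit 407) (nat_lit 268) (nat_lit 105))) (XT.nd (nat_lit 78) (nat_lit 0) (nat_lit 0) (XT.lf (nat_lit 0) (nat_lit 1052944213) (nat_lit 0) (nat_lit 1052944213) (nat_lit 532) (nat_lit 1292796249) (nat_lit 271) (nat_lit 5) (nat_lit 271) (nat_lit 3) (nat_lit 278) (nat_lit 3) (nat_lit 269) (nat_lit 269) (nat_lit 242)) (XT.lf (nat_lit 0) (nat_lit 5235717665) (nat_lit 0) (nat_lit 930982499) (nat_lit 532) (nat_lit 671681906) (nat_lit 271) (nat_lit 5) (nat_lit 271) (nat_lit 3) (nat_lit 278) (nat_lit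 3) (nat_lit 270) (nat_lit 269) (nat_lit 241))))))))
noncomputable def xc130 : XT := (XT.nd (nat_lit 2028) (nat_lit 6384) (nat_lit 0) (XT.nd (nat_lit 1014) (nat_lit 5548) (nat_lit 0) (XT.nd (nat_lit 468) (nat_lit 1444) (nat_lit 0) (XT.nd (nat_lit 234) (nat_lit 684) (nat_lit 0) (XT.nd (nat_lit 78) (nat_lit 0) (nat_lit 0) (XT.lf (nat_lit 0) (nat_lit 1217845331) (nat_lit 608) (nat_lit 5327336546) (nat_lit 684) (nat_lit 336920668) (nat_lit 263) (nat_lit 5) (nat_lit 271) (nat_lit 5) (nat_lit 272) (nat_lit 5) (nat_lit 271) (nat_lit 269) (nat_lit 240)) (XT.nd (nat_lit 78) (nat_lit 0) (nat_lit 0) (XT.lf (nat_lit 0) (nat_lit 3103541931) (nat_lit 608) (nat_lit 2143763287) (nat_lit 684) (nat_lit 1681194731) (nat_lit 263) (nat_lit 5) (nat_lit 271) (nat_lit 5) (nat_lit 272) (nat_lit 5) (nat_lit 272) (nat_lit 269) (nat_lit 239)) (XT.lf (nat_lit 76) (nat_lit 1117454444) (nat_lit 0) (nat_lit 3868632595) (nat_lit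 684) (nat_lit 1992143749) (nat_lit 264) (nat_lit 5) (nat_lit 263) (nat_lit 5) (nat_lit 272) (nat_lit 5) (nat_lit 273) (nat_lit 269) (nat_lit 238)))) (XT.nd (nat_lit 78) (nat_lit 684) (nat_lit 0) (XT.lf (nat_lit 76) (nat_lit 4481174374) (nat_lit 0) (nat_lit 2396792662) (nat_lit 684) (nat_lit 153046239) (nat_lit 264) (nat_lit 5) (nat_lit 263) (nat_lit 5) (nat_lit 272) (nat_lit 5) (nat_lit 274) (nat_lit 269) (nat_lit 237)) (XT.nd (nat_lit 78) (nat_lit 0) (nat_lit 76) (XT.lf (nat_lit 76) (nat_lit 820074022) (nat_lit 0) (nat_lit 827470243) (nat_lit 760) (nat_lit 5439261035) (nat_lit 255) (nat_lit 5) (nat_lit 254) (nat_lit 5) (nat_lit 264) (nat_lit 5) (nat_lit 275) (nat_lit 269) (nat_lit 236)) (XT.lf (nat_lit 0) (nat_lit 3466926677) (nat_lit 684) (nat_lit 2851098400) (nat_lit 760) (nat_lit 827298175) (nat_lit 255) (nat_lit 5) (nat_lit 264) (nat_lit 5) (nat_lit 265) (nat_lit 5) (nat_lit 276) (nat_lit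 269) (nat_lit 235))))) (XT.nd (nat_lit 234) (nat_lit 760) (nat_lit 0) (XT.nd (nat_lit 78) (nat_lit 760) (nat_lit 0) (XT.lf (nat_lit 76) (nat_lit 630730796) (nat_lit 0) (nat_lit 4660593436) (nat_lit 760) (nat_lit 1915888753) (nat_lit 256) (nat_lit 5) (nat_lit 255) (nat_lit 5) (nat_lit 265) (nat_lit 5) (nat_lit 277) (nat_lit 269) (nat_lit 234)) (XT.nd (nat_lit 78) (nat_lit 760) (nat_lit 0) (XT.lf (nat_lit 76) (nat_lit 4235467826) (nat_lit 0) (nat_lit 2901428791) (nat_lit 760) (nat_lit 135194998) (nat_lit 256) (nat_lit 5) (nat_lit 255) (nat_lit 5) (nat_lit 265) (nat_lit 5) (nat_lit 278) (nat_lit 269) (nat_lit 233)) (XT.lf (nat_lit 76) (nat_lit 563939554) (nat_lit 0) (nat_lit 1045998473) (nat_lit 836) (nat_lit 5730281816) (nat_lit 246) (nat_lit 5) (nat_lit 245) (nat_lit 5) (nat_lit 256) (nat_lit 5) (nat_lit 279) (nat_lit 269) (nat_lit 232)))) (XT.nd (nat_lit 156) (nat_lit 836) (nat_lit 0) (XT.nd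 (nat_lit 78) (nat_lit 0) (nat_lit 0) (XT.lf (nat_lit 0) (nat_lit 3384335394) (nat_lit 760) (nat_lit 3126536165) (nat_lit 836) (nat_lit 900206213) (nat_lit 246) (nat_lit 5) (nat_lit 256) (nat_lit 5) (nat_lit 257) (nat_lit 5) (nat_lit 280) (nat_lit 269) (nat_lit 231)) (XT.lf (nat_lit 76) (nat_lit 593266466) (nat_lit 0) (nat_lit 4576839289) (nat_lit 836) (nat_lit 2315322948) (nat_lit 247) (nat_lit 5) (nat_lit 246) (nat_lit 5) (nat_lit 257) (nat_lit 5) (nat_lit 281) (nat_lit 269) (nat_lit 230))) (XT.nd (nat_lit 78) (nat_lit 836) (nat_lit 0) (XT.lf (nat_lit 76) (nat_lit 4448498511) (nat_lit 0) (nat_lit 2535904388) (nat_lit 836) (nat_lit 578466900) (nat_lit 247) (nat_lit 5) (nat_lit 246) (nat_lit 5) (nat_lit 257) (nat_lit 5) (nat_lit 282) (nat_lit 269) (nat_lit 229)) (XT.lf (nat_lit 76) (nat_lit 739250806) (nat_lit 0) (nat_lit 399112606) (nat_lit 912) (nat_lit 6505478980) (nat_lit 236) (nat_lit 5)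 (nat_lit 235) (nat_lit 5) (nat_lit 247) (nat_lit 5) (nat_lit 283) (nat_lit 269) (nat_lit 228)))))) (XT.nd (nat_lit 468) (nat_lit 2812) (nat_lit 0) (XT.nd (nat_lit 234) (nat_lit 1976) (nat_lit 0) (XT.nd (nat_lit 78) (nat_lit 836) (nat_lit 0) (XT.lf (nat_lit 0) (nat_lit 2889911455) (nat_lit 836) (nat_lit 3019102854) (nat_lit 76) (nat_lit 1818311912) (nat_lit 236) (nat_lit 5) (nat_lit 247) (nat_lit 5) (nat_lit 237) (nat_lit 5) (nat_lit 284) (nat_lit 269) (nat_lit 227)) (XT.nd (nat_lit 78) (nat_lit 0) (nat_lit 0) (XT.lf (nat_lit 0) (nat_lit 957125731) (nat_lit 836) (nat_lit 3697371295) (nat_lit 912) (nat_lit 3160098984) (nat_lit 225) (nat_lit 5) (nat_lit 236) (nat_lit 5) (nat_lit 237) (nat_lit 5) (nat_lit 285) (nat_lit 269) (nat_lit 226)) (XT.lf (nat_lit 0) (nat_lit 5074377205) (nat_lit 836) (nat_lit 1376616823) (nat_lit 912) (nat_lit 1454214024) (nat_lit 225) (nat_lit 5) (nat_lit 236) (nat_lit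 5) (nat_lit 237) (nat_lit 5) (nat_lit 286) (nat_lit 269) (nat_lit 225)))) (XT.nd (nat_lit 78) (nat_lit 988) (nat_lit 0) (XT.lf (nat_lit 0) (nat_lit 268825906) (nat_lit 988) (nat_lit 6710714897) (nat_lit 76) (nat_lit 1019841692) (nat_lit 212) (nat_lit 5) (nat_lit 225) (nat_lit 5) (nat_lit 213) (nat_lit 5) (nat_lit 287) (nat_lit 269) (nat_lit 224)) (XT.nd (nat_lit 78) (nat_lit 988) (nat_lit 0) (XT.lf (nat_lit 0) (nat_lit 2007417282) (nat_lit 988) (nat_lit 2575405572) (nat_lit 76) (nat_lit 3513420170) (nat_lit 212) (nat_lit 5) (nat_lit 225) (nat_lit 5) (nat_lit 213) (nat_lit 5) (nat_lit 288) (nat_lit 269) (nat_lit 223)) (XT.lf (nat_lit 0) (nat_lit 1676532417) (nat_lit 988) (nat_lit 2089778740) (nat_lit 1064) (nat_lit 4430736832) (nat_lit 199) (nat_lit 5) (nat_lit 212) (nat_lit 5) (nat_lit 213) (nat_lit 5) (nat_lit 289) (nat_lit 269) (nat_lit 222))))) (XT.nd (nat_lit 234) (nat_lit 1672) (nat_lit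 0) (XT.nd (nat_lit 78) (nat_lit 1140) (nat_lit 0) (XT.lf (nat_lit 0) (nat_lit 5561944504) (nat_lit 1064) (nat_lit 2237438624) (nat_lit 76) (nat_lit 502055342) (nat_lit 199) (nat_lit 5) (nat_lit 213) (nat_lit 5) (nat_lit 200) (nat_lit 5) (nat_lit 290) (nat_lit 269) (nat_lit 221)) (XT.nd (nat_lit 78) (nat_lit 76) (nat_lit 0) (XT.lf (nat_lit 0) (nat_lit 2155391744) (nat_lit 1064) (nat_lit 5251943807) (nat_lit 1140) (nat_lit 1001826655) (nat_lit 185) (nat_lit 5) (nat_lit 199) (nat_lit 5) (nat_lit 200) (nat_lit 5) (nat_lit 291) (nat_lit 269) (nat_lit 220)) (XT.lf (nat_lit 0) (nat_lit 750319152) (nat_lit 1140) (nat_lit 1842051079) (nat_lit 76) (nat_lit 5928262162) (nat_lit 184) (nat_lit 5) (nat_lit 199) (nat_lit 5) (nat_lit 185) (nat_lit 5) (nat_lit 292) (nat_lit 269) (nat_lit 219)))) (XT.nd (nat_lit 156) (nat_lit 532) (nat_lit 0) (XT.nd (nat_lit 78) (nat_lit 0) (nat_lit 0) (XT.lf (nat_lit 0) (nat_lit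 2518929848) (nat_lit 1216) (nat_lit 5932171306) (nat_lit 76) (nat_lit 184598438) (nat_lit 169) (nat_lit 5) (nat_lit 185) (nat_lit 5) (nat_lit 170) (nat_lit 5) (nat_lit 293) (nat_lit 269) (nat_lit 218)) (XT.lf (nat_lit 0) (nat_lit 4342207095) (nat_lit 1216) (nat_lit 1396781935) (nat_lit 76) (nat_lit 3015251011) (nat_lit 169) (nat_lit 5) (nat_lit 185) (nat_lit 5) (nat_lit 170) (nat_lit 5) (nat_lit 294) (nat_lit 269) (nat_lit 217))) (XT.nd (nat_lit 78) (nat_lit 0) (nat_lit 0) (XT.lf (nat_lit 0) (nat_lit 3299733330) (nat_lit 532) (nat_lit 2910572195) (nat_lit 608) (nat_lit 2666394948) (nat_lit 162) (nat_lit 5) (nat_lit 169) (nat_lit 5) (nat_lit 170) (nat_lit 5) (nat_lit 295) (nat_lit 269) (nat_lit 216)) (XT.lf (nat_lit 0) (nat_lit 8107975767) (nat_lit 608) (nat_lit 877046112) (nat_lit 76) (nat_lit 18672467) (nat_lit 162) (nat_lit 5) (nat_lit 170) (nat_lit 5) (nat_lit 163) (nat_lit 5) (nat_lit 296)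 (nat_lit 269) (nat_lit 215))))))) (XT.nd (nat_lit 1014) (nat_lit 2660) (nat_lit 0) (XT.nd (nat_lit 468) (nat_lit 1444) (nat_lit 0) (XT.nd (nat_lit 234) (nat_lit 1064) (nat_lit 0) (XT.nd (nat_lit 78) (nat_lit 532) (nat_lit 0) (XT.lf (nat_lit 0) (nat_lit 937636068) (nat_lit 684) (nat_lit 5169411164) (nat_lit 76) (nat_lit 3026414852) (nat_lit 153) (nat_lit 5) (nat_lit 162) (nat_lit 5) (nat_lit 154) (nat_lit 5) (nat_lit 297) (nat_lit 269) (nat_lit 214)) (XT.nd (nat_lit 78) (nat_lit 532) (nat_lit 0) (XT.lf (nat_lit 0) (nat_lit 2777713330) (nat_lit 684) (nat_lit 346984766) (nat_lit 76) (nat_lit 6143126888) (nat_lit 153) (nat_lit 5) (nat_lit 162) (nat_lit 5) (nat_lit 154) (nat_lit 5) (nat_lit 298) (nat_lit 269) (nat_lit 213)) (XT.lf (nat_lit 0) (nat_lit 4672920449) (nat_lit 532) (nat_lit 6914632) (nat_lit 608) (nat_lit 4726236614) (nat_lit 146) (nat_lit 5) (nat_lit 153) (nat_lit 5) (nat_lit 154) (nat_lit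 5) (nat_lit 299) (nat_lit 269) (nat_lit 212)))) (XT.nd (nat_lit 78) (nat_lit 532) (nat_lit 0) (XT.lf (nat_lit 0) (nat_lit 236784877) (nat_lit 532) (nat_lit 6401513445) (nat_lit 608) (nat_lit 2910245644) (nat_lit 139) (nat_lit 5) (nat_lit 146) (nat_lit 5) (nat_lit 147) (nat_lit 5) (nat_lit 300) (nat_lit 269) (nat_lit 211)) (XT.nd (nat_lit 78) (nat_lit 532) (nat_lit 0) (XT.lf (nat_lit 0) (nat_lit 5413985017) (nat_lit 532) (nat_lit 3252768957) (nat_lit 608) (nat_lit 1028254126) (nat_lit 139) (nat_lit 5) (nat_lit 146) (nat_lit 5) (nat_lit 147) (nat_lit 5) (nat_lit 301) (nat_lit 269) (nat_lit 210)) (XT.lf (nat_lit 0) (nat_lit 864894666) (nat_lit 532) (nat_lit 8976092801) (nat_lit 76) (nat_lit 5494144) (nat_lit 132) (nat_lit 5) (nat_lit 139) (nat_lit 5) (nat_lit 133) (nat_lit 5) (nat_lit 302) (nat_lit 269) (nat_lit 209))))) (XT.nd (nat_lit 234) (nat_lit 988) (nat_lit 0) (XT.nd (nat_lit 78) (nat_lit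 456) (nat_lit 0) (XT.lf (nat_lit 0) (nat_lit 2834727336) (nat_lit 532) (nat_lit 3819049084) (nat_lit 76) (nat_lit 3347250993) (nat_lit 132) (nat_lit 5) (nat_lit 139) (nat_lit 5) (nat_lit 133) (nat_lit 5) (nat_lit 303) (nat_lit 269) (nat_lit 208)) (XT.nd (nat_lit 78) (nat_lit 0) (nat_lit 0) (XT.lf (nat_lit 0) (nat_lit 1483665263) (nat_lit 456) (nat_lit 3359972697) (nat_lit 532) (nat_lit 5317220871) (nat_lit 126) (nat_lit 5) (nat_lit 132) (nat_lit 5) (nat_lit 133) (nat_lit 5) (nat_lit 304) (nat_lit 269) (nat_lit 207)) (XT.lf (nat_lit 0) (nat_lit 6918396081) (nat_lit 532) (nat_lit 3339914277) (nat_lit 76) (nat_lit 67054742) (nat_lit 126) (nat_lit 5) (nat_lit 133) (nat_lit 5) (nat_lit 127) (nat_lit 5) (nat_lit 305) (nat_lit 269) (nat_lit 206)))) (XT.nd (nat_lit 156) (nat_lit 456) (nat_lit 0) (XT.nd (nat_lit 78) (nat_lit 76) (nat_lit 0) (XT.lf (nat_lit 0) (nat_lit 2128233012) (nat_lit 456) (nat_lit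 6948189480) (nat_lit 532) (nat_lit 1417799233) (nat_lit 120) (nat_lit 5) (nat_lit 126) (nat_lit 5) (nat_lit 127) (nat_lit 5) (nat_lit 306) (nat_lit 269) (nat_lit 205)) (XT.lf (nat_lit 0) (nat_lit 620326557) (nat_lit 532) (nat_lit 2882476957) (nat_lit 76) (nat_lit 7165154006) (nat_lit 119) (nat_lit 5) (nat_lit 126) (nat_lit 5) (nat_lit 120) (nat_lit 5) (nat_lit 307) (nat_lit 269) (nat_lit 204))) (XT.nd (nat_lit 78) (nat_lit 0) (nat_lit 0) (XT.lf (nat_lit 0) (nat_lit 2686989171) (nat_lit 532) (nat_lit 8078668193) (nat_lit 76) (nat_lit 80992252) (nat_lit 113) (nat_lit 5) (nat_lit 120) (nat_lit 5) (nat_lit 114) (nat_lit 5) (nat_lit 308) (nat_lit 269) (nat_lit 203)) (XT.lf (nat_lit 0) (nat_lit 4848724735) (nat_lit 532) (nat_lit 2455046786) (nat_lit 76) (nat_lit 3725979574) (nat_lit 113) (nat_lit 5) (nat_lit 120) (nat_lit 5) (nat_lit 114) (nat_lit 5) (nat_lit 309) (nat_lit 269) (nat_lit 202))))))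 (XT.nd (nat_lit 468) (nat_lit 1444) (nat_lit 0) (XT.nd (nat_lit 234) (nat_lit 380) (nat_lit 0) (XT.nd (nat_lit 78) (nat_lit 456) (nat_lit 0) (XT.lf (nat_lit 0) (nat_lit 3366777701) (nat_lit 380) (nat_lit 3710797503) (nat_lit 456) (nat_lit 4140742151) (nat_lit 108) (nat_lit 5) (nat_lit 113) (nat_lit 5) (nat_lit 114) (nat_lit 5) (nat_lit 310) (nat_lit 269) (nat_lit 201)) (XT.nd (nat_lit 78) (nat_lit 456) (nat_lit 0) (XT.lf (nat_lit 0) (nat_lit 9368602416) (nat_lit 456) (nat_lit 2035076640) (nat_lit 76) (nat_lit 9040683) (nat_lit 108) (nat_lit 5) (nat_lit 114) (nat_lit 5) (nat_lit 109) (nat_lit 5) (nat_lit 311) (nat_lit 269) (nat_lit 200)) (XT.lf (nat_lit 0) (nat_lit 159621656) (nat_lit 456) (nat_lit 7652390561) (nat_lit 76) (nat_lit 3799550934) (nat_lit 102) (nat_lit 5) (nat_lit 108) (nat_lit 5) (nat_lit 103) (nat_lit 5) (nat_lit 312) (nat_lit 269) (nat_lit 199)))) (XT.nd (nat_lit 78) (nat_lit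 380) (nat_lit 0) (XT.lf (nat_lit 0) (nat_lit 2380559005) (nat_lit 456) (nat_lit 1697130253) (nat_lit 76) (nat_lit 7738345522) (nat_lit 102) (nat_lit 5) (nat_lit 108) (nat_lit 5) (nat_lit 103) (nat_lit 5) (nat_lit 313) (nat_lit 269) (nat_lit 198)) (XT.nd (nat_lit 78) (nat_lit 0) (nat_lit 0) (XT.lf (nat_lit 0) (nat_lit 4489541579) (nat_lit 380) (nat_lit 193988808) (nat_lit 456) (nat_lit 7342682174) (nat_lit 97) (nat_lit 5) (nat_lit 102) (nat_lit 5) (nat_lit 103) (nat_lit 5) (nat_lit 314) (nat_lit 269) (nat_lit 197)) (XT.lf (nat_lit 0) (nat_lit 7082142648) (nat_lit 456) (nat_lit 1417629428) (nat_lit 76) (nat_lit 3742160229) (nat_lit 97) (nat_lit 5) (nat_lit 103) (nat_lit 5) (nat_lit 98) (nat_lit 5) (nat_lit 315) (nat_lit 269) (nat_lit 196))))) (XT.nd (nat_lit 234) (nat_lit 684) (nat_lit 0) (XT.nd (nat_lit 78) (nat_lit 380) (nat_lit 0) (XT.lf (nat_lit 0) (nat_lit 4945297693) (nat_lit 380) (nat_lit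 4630326532) (nat_lit 456) (nat_lit 2887844309) (nat_lit 92) (nat_lit 5) (nat_lit 97) (nat_lit 5) (nat_lit 98) (nat_lit 5) (nat_lit 316) (nat_lit 269) (nat_lit 195)) (XT.nd (nat_lit 78) (nat_lit 380) (nat_lit 0) (XT.lf (nat_lit 0) (nat_lit 11494243009) (nat_lit 380) (nat_lit 637882615) (nat_lit 456) (nat_lit 559910042) (nat_lit 92) (nat_lit 5) (nat_lit 97) (nat_lit 5) (nat_lit 98) (nat_lit 5) (nat_lit 317) (nat_lit 269) (nat_lit 194)) (XT.lf (nat_lit 0) (nat_lit 1861964954) (nat_lit 380) (nat_lit 7594433364) (nat_lit 76) (nat_lit 3468761998) (nat_lit 87) (nat_lit 5) (nat_lit 92) (nat_lit 5) (nat_lit 88) (nat_lit 5) (nat_lit 318) (nat_lit 269) (nat_lit 193)))) (XT.nd (nat_lit 156) (nat_lit 304) (nat_lit 0) (XT.nd (nat_lit 78) (nat_lit 380) (nat_lit 0) (XT.lf (nat_lit 0) (nat_lit 4338504000) (nat_lit 380) (nat_lit 1131099632) (nat_lit 76) (nat_lit 7695739545) (nat_lit 87) (nat_lit 5) (nat_lit 92)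 (nat_lit 5) (nat_lit 88) (nat_lit 5) (nat_lit 319) (nat_lit 269) (nat_lit 192)) (XT.lf (nat_lit 0) (nat_lit 5602586556) (nat_lit 380) (nat_lit 1316074805) (nat_lit 456) (nat_lit 6493218290) (nat_lit 82) (nat_lit 5) (nat_lit 87) (nat_lit 5) (nat_lit 88) (nat_lit 5) (nat_lit 320) (nat_lit 269) (nat_lit 191))) (XT.nd (nat_lit 78) (nat_lit 304) (nat_lit 0) (XT.lf (nat_lit 0) (nat_lit 9592018923) (nat_lit 456) (nat_lit 1165807912) (nat_lit 76) (nat_lit 2907538503) (nat_lit 82) (nat_lit 5) (nat_lit 88) (nat_lit 5) (nat_lit 83) (nat_lit 5) (nat_lit 321) (nat_lit 269) (nat_lit 190)) (XT.lf (nat_lit 0) (nat_lit 5743778932) (nat_lit 304) (nat_lit 6646534030) (nat_lit 380) (nat_lit 1534826756) (nat_lit 78) (nat_lit 5) (nat_lit 82) (nat_lit 5) (nat_lit 83) (nat_lit 5) (nat_lit 322) (nat_lit 269) (nat_lit 189))))))))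
noncomputable def xc131 : XT := (XT.nd (nat_lit 2028) (nat_lit 1520) (nat_lit 0) (XT.nd (nat_lit 1014) (nat_lit 1292) (nat_lit 0) (XT.nd (nat_lit 468) (nat_lit 836) (nat_lit 0) (XT.nd (nat_lit 234) (nat_lit 532) (nat_lit 0) (XT.nd (nat_lit 78) (nat_lit 304) (nat_lit 0) (XT.lf (nat_lit 0) (nat_lit 1047282013) (nat_lit 380) (nat_lit 1350727700) (nat_lit 76) (nat_lit 11794755747) (nat_lit 77) (nat_lit 5) (nat_lit 82) (nat_lit 5) (nat_lit 78) (nat_lit 5) (nat_lit 323) (nat_lit 269) (nat_lit 188)) (XT.nd (nat_lit 78) (nat_lit 0) (nat_lit 0) (XT.lf (nat_lit 0) (nat_lit 3728205670) (nat_lit 380) (nat_lit 8736283064) (nat_lit 76) (nat_lit 2001933319) (nat_lit 73) (nat_lit 5) (nat_lit 78) (nat_lit 5) (nat_lit 74) (nat_lit 5) (nat_lit 324) (nat_lit 269) (nat_lit 187)) (XT.lf (nat_lit 0) (nat_lit 6504648507) (nat_lit 380) (nat_lit 1752420134) (nat_lit 76) (nat_lit 6490790235) (nat_lit 73) (nat_lit 5) (nat_lit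 78) (nat_lit 5) (nat_lit 74) (nat_lit 5) (nat_lit 325) (nat_lit 269) (nat_lit 186)))) (XT.nd (nat_lit 78) (nat_lit 304) (nat_lit 0) (XT.lf (nat_lit 0) (nat_lit 5517772494) (nat_lit 228) (nat_lit 3877879572) (nat_lit 304) (nat_lit 5641171311) (nat_lit 70) (nat_lit 5) (nat_lit 73) (nat_lit 5) (nat_lit 74) (nat_lit 5) (nat_lit 326) (nat_lit 269) (nat_lit 185)) (XT.nd (nat_lit 78) (nat_lit 304) (nat_lit 0) (XT.lf (nat_lit 0) (nat_lit 12375818686) (nat_lit 304) (nat_lit 2329321591) (nat_lit 76) (nat_lit 629265486) (nat_lit 70) (nat_lit 5) (nat_lit 74) (nat_lit 5) (nat_lit 71) (nat_lit 5) (nat_lit 327) (nat_lit 269) (nat_lit 184)) (XT.lf (nat_lit 0) (nat_lit 5107137665) (nat_lit 304) (nat_lit 10404847194) (nat_lit 380) (nat_lit 126954224) (nat_lit 66) (nat_lit 5) (nat_lit 70) (nat_lit 5) (nat_lit 71) (nat_lit 5) (nat_lit 328) (nat_lit 269) (nat_lit 183))))) (XT.nd (nat_lit 234) (nat_lit 532) (nat_lit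 0) (XT.nd (nat_lit 78) (nat_lit 228) (nat_lit 0) (XT.lf (nat_lit 0) (nat_lit 2738150054) (nat_lit 380) (nat_lit 3194875095) (nat_lit 76) (nat_lit 10018710121) (nat_lit 65) (nat_lit 5) (nat_lit 70) (nat_lit 5) (nat_lit 66) (nat_lit 5) (nat_lit 329) (nat_lit 269) (nat_lit 182)) (XT.nd (nat_lit 78) (nat_lit 0) (nat_lit 0) (XT.lf (nat_lit 0) (nat_lit 4417626875) (nat_lit 228) (nat_lit 1291303238) (nat_lit 304) (nat_lit 10564298781) (nat_lit 62) (nat_lit 5) (nat_lit 65) (nat_lit 5) (nat_lit 66) (nat_lit 5) (nat_lit 330) (nat_lit 269) (nat_lit 181)) (XT.lf (nat_lit 0) (nat_lit 8814987216) (nat_lit 304) (nat_lit 4342983959) (nat_lit 76) (nat_lit 3445030469) (nat_lit 62) (nat_lit 5) (nat_lit 66) (nat_lit 5) (nat_lit 63) (nat_lit 5) (nat_lit 331) (nat_lit 269) (nat_lit 180)))) (XT.nd (nat_lit 156) (nat_lit 304) (nat_lit 0) (XT.nd (nat_lit 78) (nat_lit 0) (nat_lit 0) (XT.lf (nat_lit 0) (nat_lit 3420115825)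 (nat_lit 228) (nat_lit 8620380755) (nat_lit 304) (nat_lit 4901401252) (nat_lit 59) (nat_lit 5) (nat_lit 62) (nat_lit 5) (nat_lit 63) (nat_lit 5) (nat_lit 332) (nat_lit 269) (nat_lit 179)) (XT.lf (nat_lit 0) (nat_lit 11476567946) (nat_lit 228) (nat_lit 3910958196) (nat_lit 304) (nat_lit 1902709954) (nat_lit 59) (nat_lit 5) (nat_lit 62) (nat_lit 5) (nat_lit 63) (nat_lit 5) (nat_lit 333) (nat_lit 269) (nat_lit 178))) (XT.nd (nat_lit 78) (nat_lit 0) (nat_lit 0) (XT.lf (nat_lit 0) (nat_lit 1173766330) (nat_lit 304) (nat_lit 15530224232) (nat_lit 76) (nat_lit 944379774) (nat_lit 55) (nat_lit 5) (nat_lit 59) (nat_lit 5) (nat_lit 56) (nat_lit 5) (nat_lit 334) (nat_lit 269) (nat_lit 177)) (XT.lf (nat_lit 0) (nat_lit 4383747685) (nat_lit 304) (nat_lit 7694870214) (nat_lit 76) (nat_lit 5935698266) (nat_lit 55) (nat_lit 5) (nat_lit 59) (nat_lit 5) (nat_lit 56) (nat_lit 5) (nat_lit 335) (nat_lit 269) (nat_lit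 176)))))) (XT.nd (nat_lit 468) (nat_lit 608) (nat_lit 0) (XT.nd (nat_lit 234) (nat_lit 456) (nat_lit 0) (XT.nd (nat_lit 78) (nat_lit 0) (nat_lit 0) (XT.lf (nat_lit 0) (nat_lit 354966465) (nat_lit 228) (nat_lit 7320457769) (nat_lit 304) (nat_lit 10716270111) (nat_lit 52) (nat_lit 5) (nat_lit 55) (nat_lit 5) (nat_lit 56) (nat_lit 5) (nat_lit 336) (nat_lit 269) (nat_lit 175)) (XT.nd (nat_lit 78) (nat_lit 0) (nat_lit 0) (XT.lf (nat_lit 0) (nat_lit 8776800561) (nat_lit 228) (nat_lit 2349000168) (nat_lit 304) (nat_lit 7652810039) (nat_lit 52) (nat_lit 5) (nat_lit 55) (nat_lit 5) (nat_lit 56) (nat_lit 5) (nat_lit 337) (nat_lit 269) (nat_lit 174)) (XT.lf (nat_lit 0) (nat_lit 14689005997) (nat_lit 304) (nat_lit 1779372601) (nat_lit 76) (nat_lit 2708491501) (nat_lit 52) (nat_lit 5) (nat_lit 56) (nat_lit 5) (nat_lit 53) (nat_lit 5) (nat_lit 338) (nat_lit 269) (nat_lit 173)))) (XT.nd (nat_lit 78) (nat_lit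 304) (nat_lit 0) (XT.lf (nat_lit 0) (nat_lit 6772535054) (nat_lit 152) (nat_lit 11658111305) (nat_lit 228) (nat_lit 1154299187) (nat_lit 50) (nat_lit 5) (nat_lit 52) (nat_lit 5) (nat_lit 53) (nat_lit 5) (nat_lit 339) (nat_lit 269) (nat_lit 172)) (XT.nd (nat_lit 78) (nat_lit 228) (nat_lit 0) (XT.lf (nat_lit 0) (nat_lit 2236185197) (nat_lit 228) (nat_lit 4435530007) (nat_lit 76) (nat_lit 13332862749) (nat_lit 49) (nat_lit 5) (nat_lit 52) (nat_lit 5) (nat_lit 50) (nat_lit 5) (nat_lit 340) (nat_lit 269) (nat_lit 171)) (XT.lf (nat_lit 0) (nat_lit 4238506160) (nat_lit 228) (nat_lit 1491152122) (nat_lit 304) (nat_lit 14706077231) (nat_lit 46) (nat_lit 5) (nat_lit 49) (nat_lit 5) (nat_lit 50) (nat_lit 5) (nat_lit 341) (nat_lit 269) (nat_lit 170))))) (XT.nd (nat_lit 234) (nat_lit 456) (nat_lit 0) (XT.nd (nat_lit 78) (nat_lit 152) (nat_lit 0) (XT.lf (nat_lit 0) (nat_lit 9394003234) (nat_lit 304) (nat_lit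 7677786290) (nat_lit 76) (nat_lit 3806069133) (nat_lit 46) (nat_lit 5) (nat_lit 50) (nat_lit 5) (nat_lit 47) (nat_lit 5) (nat_lit 342) (nat_lit 269) (nat_lit 169)) (XT.nd (nat_lit 78) (nat_lit 0) (nat_lit 0) (XT.lf (nat_lit 0) (nat_lit 1078683117) (nat_lit 152) (nat_lit 12099073126) (nat_lit 228) (nat_lit 8155217432) (nat_lit 44) (nat_lit 5) (nat_lit 46) (nat_lit 5) (nat_lit 47) (nat_lit 5) (nat_lit 343) (nat_lit 269) (nat_lit 168)) (XT.lf (nat_lit 0) (nat_lit 10230635190) (nat_lit 152) (nat_lit 6906481625) (nat_lit 228) (nat_lit 4662774626) (nat_lit 44) (nat_lit 5) (nat_lit 46) (nat_lit 5) (nat_lit 47) (nat_lit 5) (nat_lit 344) (nat_lit 269) (nat_lit 167)))) (XT.nd (nat_lit 156) (nat_lit 152) (nat_lit 0) (XT.nd (nat_lit 78) (nat_lit 304) (nat_lit 0) (XT.lf (nat_lit 0) (nat_lit 19633263777) (nat_lit 152) (nat_lit 1567008392) (nat_lit 228) (nat_lit 1081005944) (nat_lit 44) (nat_lit 5) (nat_lit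 46) (nat_lit 5) (nat_lit 47) (nat_lit 5) (nat_lit 345) (nat_lit 269) (nat_lit 166)) (XT.lf (nat_lit 0) (nat_lit 2644862323) (nat_lit 304) (nat_lit 16191981605) (nat_lit 76) (nat_lit 3936895155) (nat_lit 40) (nat_lit 5) (nat_lit 44) (nat_lit 5) (nat_lit 41) (nat_lit 5) (nat_lit 346) (nat_lit 269) (nat_lit 165))) (XT.nd (nat_lit 78) (nat_lit 152) (nat_lit 0) (XT.lf (nat_lit 0) (nat_lit 6488714601) (nat_lit 304) (nat_lit 7187571778) (nat_lit 76) (nat_lit 9603539152) (nat_lit 40) (nat_lit 5) (nat_lit 44) (nat_lit 5) (nat_lit 41) (nat_lit 5) (nat_lit 347) (nat_lit 269) (nat_lit 164)) (XT.lf (nat_lit 0) (nat_lit 2105115209) (nat_lit 152) (nat_lit 8348843353) (nat_lit 228) (nat_lit 13346964204) (nat_lit 38) (nat_lit 5) (nat_lit 40) (nat_lit 5) (nat_lit 41) (nat_lit 5) (nat_lit 348) (nat_lit 269) (nat_lit 163))))))) (XT.nd (nat_lit 1014) (nat_lit 760) (nat_lit 0) (XT.nd (nat_lit 468) (nat_lit 380) (nat_lit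 0) (XT.nd (nat_lit 234) (nat_lit 228) (nat_lit 0) (XT.nd (nat_lit 78) (nat_lit 152) (nat_lit 0) (XT.lf (nat_lit 0) (nat_lit 11801212305) (nat_lit 152) (nat_lit 2795562503) (nat_lit 228) (nat_lit 9739129834) (nat_lit 38) (nat_lit 5) (nat_lit 40) (nat_lit 5) (nat_lit 41) (nat_lit 5) (nat_lit 349) (nat_lit 269) (nat_lit 162)) (XT.nd (nat_lit 78) (nat_lit 152) (nat_lit 0) (XT.lf (nat_lit 0) (nat_lit 18878345610) (nat_lit 228) (nat_lit 3149236281) (nat_lit 76) (nat_lit 2858929859) (nat_lit 38) (nat_lit 5) (nat_lit 41) (nat_lit 5) (nat_lit 39) (nat_lit 5) (nat_lit 350) (nat_lit 269) (nat_lit 161)) (XT.lf (nat_lit 0) (nat_lit 6597107565) (nat_lit 152) (nat_lit 16769107275) (nat_lit 228) (nat_lit 2085096279) (nat_lit 36) (nat_lit 5) (nat_lit 38) (nat_lit 5) (nat_lit 39) (nat_lit 5) (nat_lit 351) (nat_lit 269) (nat_lit 160)))) (XT.nd (nat_lit 78) (nat_lit 152) (nat_lit 0) (XT.lf (nat_lit 0) (nat_lit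 1936417009) (nat_lit 228) (nat_lit 9372605509) (nat_lit 76) (nat_lit 14722909617) (nat_lit 35) (nat_lit 5) (nat_lit 38) (nat_lit 5) (nat_lit 36) (nat_lit 5) (nat_lit 352) (nat_lit 269) (nat_lit 159)) (XT.nd (nat_lit 78) (nat_lit 0) (nat_lit 0) (XT.lf (nat_lit 0) (nat_lit 358639810) (nat_lit 152) (nat_lit 5668656959) (nat_lit 228) (nat_lit 20602345567) (nat_lit 33) (nat_lit 5) (nat_lit 35) (nat_lit 5) (nat_lit 36) (nat_lit 5) (nat_lit 353) (nat_lit 269) (nat_lit 158)) (XT.lf (nat_lit 0) (nat_lit 10325113716) (nat_lit 228) (nat_lit 16692039678) (nat_lit 76) (nat_lit 225612647) (nat_lit 33) (nat_lit 5) (nat_lit 36) (nat_lit 5) (nat_lit 34) (nat_lit 5) (nat_lit 354) (nat_lit 269) (nat_lit 157))))) (XT.nd (nat_lit 234) (nat_lit 228) (nat_lit 0) (XT.nd (nat_lit 78) (nat_lit 152) (nat_lit 0) (XT.lf (nat_lit 0) (nat_lit 14795635310) (nat_lit 228) (nat_lit 6902469388) (nat_lit 76) (nat_lit 6174873926)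 (nat_lit 33) (nat_lit 5) (nat_lit 36) (nat_lit 5) (nat_lit 34) (nat_lit 5) (nat_lit 355) (nat_lit 269) (nat_lit 156)) (XT.nd (nat_lit 78) (nat_lit 0) (nat_lit 0) (XT.lf (nat_lit 0) (nat_lit 3223658115) (nat_lit 152) (nat_lit 16195606894) (nat_lit 228) (nat_lit 9102270832) (nat_lit 31) (nat_lit 5) (nat_lit 33) (nat_lit 5) (nat_lit 34) (nat_lit 5) (nat_lit 356) (nat_lit 269) (nat_lit 155)) (XT.lf (nat_lit 0) (nat_lit 13775224646) (nat_lit 152) (nat_lit 10464243721) (nat_lit 228) (nat_lit 4948353262) (nat_lit 31) (nat_lit 5) (nat_lit 33) (nat_lit 5) (nat_lit 34) (nat_lit 5) (nat_lit 357) (nat_lit 269) (nat_lit 154)))) (XT.nd (nat_lit 156) (nat_lit 0) (nat_lit 0) (XT.nd (nat_lit 78) (nat_lit 228) (nat_lit 0) (XT.lf (nat_lit 0) (nat_lit 24624077346) (nat_lit 152) (nat_lit 4568708597) (nat_lit 228) (nat_lit 681662373) (nat_lit 31) (nat_lit 5) (nat_lit 33) (nat_lit 5) (nat_lit 34) (nat_lit 5) (nat_lit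 358) (nat_lit 269) (nat_lit 153)) (XT.lf (nat_lit 0) (nat_lit 3695143912) (nat_lit 228) (nat_lit 25329831003) (nat_lit 76) (nat_lit 1553998188) (nat_lit 28) (nat_lit 5) (nat_lit 31) (nat_lit 5) (nat_lit 29) (nat_lit 5) (nat_lit 359) (nat_lit 269) (nat_lit 152))) (XT.nd (nat_lit 78) (nat_lit 0) (nat_lit 0) (XT.lf (nat_lit 0) (nat_lit 8277131892) (nat_lit 228) (nat_lit 15203297110) (nat_lit 76) (nat_lit 7821381739) (nat_lit 28) (nat_lit 5) (nat_lit 31) (nat_lit 5) (nat_lit 29) (nat_lit 5) (nat_lit 360) (nat_lit 269) (nat_lit 151)) (XT.lf (nat_lit 0) (nat_lit 12985705838) (nat_lit 228) (nat_lit 4791426662) (nat_lit 76) (nat_lit 14269533943) (nat_lit 28) (nat_lit 5) (nat_lit 31) (nat_lit 5) (nat_lit 29) (nat_lit 5) (nat_lit 361) (nat_lit 269) (nat_lit 150)))))) (XT.nd (nat_lit 546) (nat_lit 304) (nat_lit 0) (XT.nd (nat_lit 234) (nat_lit 304) (nat_lit 0) (XT.nd (nat_lit 78) (nat_lit 0) (nat_lit 0)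 (XT.lf (nat_lit 0) (nat_lit 6032595763) (nat_lit 152) (nat_lit 11850373277) (nat_lit 228) (nat_lit 14929482345) (nat_lit 26) (nat_lit 5) (nat_lit 28) (nat_lit 5) (nat_lit 29) (nat_lit 5) (nat_lit 362) (nat_lit 269) (nat_lit 149)) (XT.nd (nat_lit 78) (nat_lit 0) (nat_lit 0) (XT.lf (nat_lit 0) (nat_lit 17261812309) (nat_lit 152) (nat_lit 5703301779) (nat_lit 228) (nat_lit 10634963209) (nat_lit 26) (nat_lit 5) (nat_lit 28) (nat_lit 5) (nat_lit 29) (nat_lit 5) (nat_lit 363) (nat_lit 269) (nat_lit 148)) (XT.lf (nat_lit 0) (nat_lit 28195577016) (nat_lit 228) (nat_lit 5606935611) (nat_lit 76) (nat_lit 608949908) (nat_lit 26) (nat_lit 5) (nat_lit 29) (nat_lit 5) (nat_lit 27) (nat_lit 4) (nat_lit 364) (nat_lit 269) (nat_lit 147)))) (XT.nd (nat_lit 156) (nat_lit 152) (nat_lit 0) (XT.nd (nat_lit 78) (nat_lit 76) (nat_lit 0) (XT.lf (nat_lit 0) (nat_lit 5479834974) (nat_lit 76) (nat_lit 28202374427) (nat_lit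 152) (nat_lit 1562008237) (nat_lit 25) (nat_lit 5) (nat_lit 26) (nat_lit 5) (nat_lit 27) (nat_lit 4) (nat_lit 365) (nat_lit 269) (nat_lit 146)) (XT.lf (nat_lit 0) (nat_lit 3215743016) (nat_lit 152) (nat_lit 19134732374) (nat_lit 76) (nat_lit 13749134278) (nat_lit 24) (nat_lit 5) (nat_lit 26) (nat_lit 5) (nat_lit 25) (nat_lit 5) (nat_lit 366) (nat_lit 269) (nat_lit 145))) (XT.nd (nat_lit 78) (nat_lit 152) (nat_lit 0) (XT.lf (nat_lit 0) (nat_lit 8095855222) (nat_lit 152) (nat_lit 8218160250) (nat_lit 76) (nat_lit 20666476796) (nat_lit 24) (nat_lit 5) (nat_lit 26) (nat_lit 5) (nat_lit 25) (nat_lit 5) (nat_lit 367) (nat_lit 269) (nat_lit 144)) (XT.lf (nat_lit 0) (nat_lit 3069790101) (nat_lit 152) (nat_lit 10072791563) (nat_lit 228) (nat_lit 24744618666) (nat_lit 22) (nat_lit 5) (nat_lit 24) (nat_lit 5) (nat_lit 25) (nat_lit 5) (nat_lit 368) (nat_lit 269) (nat_lit 143))))) (XT.nd (nat_lit 234) (nat_lit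 304) (nat_lit 0) (XT.nd (nat_lit 78) (nat_lit 0) (nat_lit 0) (XT.lf (nat_lit 0) (nat_lit 14848978668) (nat_lit 152) (nat_lit 3565539016) (nat_lit 228) (nat_lit 20404382870) (nat_lit 22) (nat_lit 5) (nat_lit 24) (nat_lit 5) (nat_lit 25) (nat_lit 5) (nat_lit 369) (nat_lit 269) (nat_lit 142)) (XT.nd (nat_lit 78) (nat_lit 0) (nat_lit 0) (XT.lf (nat_lit 0) (nat_lit 23865791342) (nat_lit 228) (nat_lit 12842775424) (nat_lit 76) (nat_lit 3069354636) (nat_lit 22) (nat_lit 5) (nat_lit 25) (nat_lit 5) (nat_lit 23) (nat_lit 4) (nat_lit 370) (nat_lit 269) (nat_lit 141)) (XT.lf (nat_lit 0) (nat_lit 29507192427) (nat_lit 228) (nat_lit 1432274634) (nat_lit 76) (nat_lit 9825452998) (nat_lit 22) (nat_lit 5) (nat_lit 25) (nat_lit 5) (nat_lit 23) (nat_lit 4) (nat_lit 371) (nat_lit 269) (nat_lit 140)))) (XT.nd (nat_lit 156) (nat_lit 228) (nat_lit 0) (XT.nd (nat_lit 78) (nat_lit 0) (nat_lit 0) (XT.lf (nat_lit 0)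 (nat_lit 10510931091) (nat_lit 76) (nat_lit 24899482584) (nat_lit 152) (nat_lit 6368342372) (nat_lit 21) (nat_lit 5) (nat_lit 22) (nat_lit 5) (nat_lit 23) (nat_lit 4) (nat_lit 372) (nat_lit 269) (nat_lit 139)) (XT.lf (nat_lit 0) (nat_lit 22827221277) (nat_lit 76) (nat_lit 18669620396) (nat_lit 152) (nat_lit 1325986719) (nat_lit 21) (nat_lit 5) (nat_lit 22) (nat_lit 5) (nat_lit 23) (nat_lit 4) (nat_lit 373) (nat_lit 269) (nat_lit 138))) (XT.nd (nat_lit 78) (nat_lit 152) (nat_lit 0) (XT.lf (nat_lit 0) (nat_lit 3783973609) (nat_lit 152) (nat_lit 8436715770) (nat_lit 76) (nat_lit 31676668336) (nat_lit 20) (nat_lit 5) (nat_lit 22) (nat_lit 5) (nat_lit 21) (nat_lit 5) (nat_lit 374) (nat_lit 269) (nat_lit 137)) (XT.lf (nat_lit 0) (nat_lit 3510416633) (nat_lit 152) (nat_lit 5535953623) (nat_lit 228) (nat_lit 35956589336) (nat_lit 18) (nat_lit 5) (nat_lit 20) (nat_lit 5) (nat_lit 21) (nat_lit 5) (nat_lit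 375) (nat_lit 269) (nat_lit 136))))))))
noncomputable def xc132 : XT := (XT.nd (nat_lit 2028) (nat_lit 152) (nat_lit 0) (XT.nd (nat_lit 1014) (nat_lit 228) (nat_lit 0) (XT.nd (nat_lit 468) (nat_lit 304) (nat_lit 0) (XT.nd (nat_lit 234) (nat_lit 76) (nat_lit 0) (XT.nd (nat_lit 78) (nat_lit 0) (nat_lit 0) (XT.lf (nat_lit 0) (nat_lit 14557734054) (nat_lit 228) (nat_lit 30178025036) (nat_lit 76) (nat_lit 1403241649) (nat_lit 18) (nat_lit 5) (nat_lit 21) (nat_lit 5) (nat_lit 19) (nat_lit 4) (nat_lit 376) (nat_lit 269) (nat_lit 135)) (XT.nd (nat_lit 78) (nat_lit 0) (nat_lit 0) (XT.lf (nat_lit 0) (nat_lit 20281567592) (nat_lit 228) (nat_lit 18592421550) (nat_lit 76) (nat_lit 8433724063) (nat_lit 18) (nat_lit 5) (nat_lit 21) (nat_lit 5) (nat_lit 19) (nat_lit 4) (nat_lit 377) (nat_lit 269) (nat_lit 134)) (XT.lf (nat_lit 0) (nat_lit 26169657304) (nat_lit 228) (nat_lit 6672394188) (nat_lit 76) (nat_lit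 15669663155) (nat_lit 18) (nat_lit 5) (nat_lit 21) (nat_lit 5) (nat_lit 19) (nat_lit 4) (nat_lit 378) (nat_lit 269) (nat_lit 133)))) (XT.nd (nat_lit 78) (nat_lit 0) (nat_lit 0) (XT.lf (nat_lit 0) (nat_lit 5703773779) (nat_lit 76) (nat_lit 26578202506) (nat_lit 152) (nat_lit 17468435971) (nat_lit 17) (nat_lit 5) (nat_lit 18) (nat_lit 5) (nat_lit 19) (nat_lit 4) (nat_lit 379) (nat_lit 269) (nat_lit 132)) (XT.nd (nat_lit 78) (nat_lit 0) (nat_lit 0) (XT.lf (nat_lit 0) (nat_lit 18575368052) (nat_lit 76) (nat_lit 20062522752) (nat_lit 152) (nat_lit 12386576828) (nat_lit 17) (nat_lit 5) (nat_lit 18) (nat_lit 5) (nat_lit 19) (nat_lit 4) (nat_lit 380) (nat_lit 269) (nat_lit 131)) (XT.lf (nat_lit 0) (nat_lit 31820841925) (nat_lit 76) (nat_lit 13356697016) (nat_lit 152) (nat_lit 7159417552) (nat_lit 17) (nat_lit 5) (nat_lit 18) (nat_lit 5) (nat_lit 19) (nat_lit 4) (nat_lit 381) (nat_lit 269) (nat_lit 130)))))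 (XT.nd (nat_lit 234) (nat_lit 76) (nat_lit 0) (XT.nd (nat_lit 78) (nat_lit 228) (nat_lit 0) (XT.lf (nat_lit 0) (nat_lit 45451769115) (nat_lit 76) (nat_lit 6454865837) (nat_lit 152) (nat_lit 1782390722) (nat_lit 17) (nat_lit 5) (nat_lit 18) (nat_lit 5) (nat_lit 19) (nat_lit 4) (nat_lit 382) (nat_lit 269) (nat_lit 129)) (XT.nd (nat_lit 78) (nat_lit 0) (nat_lit 0) (XT.lf (nat_lit 0) (nat_lit 3725826766) (nat_lit 228) (nat_lit 50637531742) (nat_lit 76) (nat_lit 715923344) (nat_lit 14) (nat_lit 5) (nat_lit 17) (nat_lit 5) (nat_lit 15) (nat_lit 4) (nat_lit 383) (nat_lit 269) (nat_lit 128)) (XT.lf (nat_lit 0) (nat_lit 9504799200) (nat_lit 228) (nat_lit 38932882836) (nat_lit 76) (nat_lit 8068797394) (nat_lit 14) (nat_lit 5) (nat_lit 17) (nat_lit 5) (nat_lit 15) (nat_lit 4) (nat_lit 384) (nat_lit 269) (nat_lit 127)))) (XT.nd (nat_lit 156) (nat_lit 76) (nat_lit 0) (XT.nd (nat_lit 78) (nat_lit 0) (nat_lit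 0) (XT.lf (nat_lit 0) (nat_lit 15450751914) (nat_lit 228) (nat_lit 26888487308) (nat_lit 76) (nat_lit 15637448408) (nat_lit 14) (nat_lit 5) (nat_lit 17) (nat_lit 5) (nat_lit 15) (nat_lit 4) (nat_lit 385) (nat_lit 269) (nat_lit 126)) (XT.lf (nat_lit 0) (nat_lit 21568880400) (nat_lit 228) (nat_lit 14493820929) (nat_lit 76) (nat_lit 23428489771) (nat_lit 14) (nat_lit 5) (nat_lit 17) (nat_lit 5) (nat_lit 15) (nat_lit 4) (nat_lit 386) (nat_lit 269) (nat_lit 125))) (XT.nd (nat_lit 78) (nat_lit 76) (nat_lit 0) (XT.lf (nat_lit 0) (nat_lit 27864530596) (nat_lit 228) (nat_lit 1738053406) (nat_lit 76) (nat_lit 31448729188) (nat_lit 14) (nat_lit 5) (nat_lit 17) (nat_lit 5) (nat_lit 15) (nat_lit 4) (nat_lit 387) (nat_lit 269) (nat_lit 124)) (XT.lf (nat_lit 0) (nat_lit 11616643632) (nat_lit 76) (nat_lit 22838226208) (nat_lit 152) (nat_lit 28200197289) (nat_lit 13) (nat_lit 5) (nat_lit 14) (nat_lit 5) (nat_lit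 15) (nat_lit 4) (nat_lit 388) (nat_lit 269) (nat_lit 123)))))) (XT.nd (nat_lit 468) (nat_lit 76) (nat_lit 0) (XT.nd (nat_lit 234) (nat_lit 152) (nat_lit 0) (XT.nd (nat_lit 78) (nat_lit 0) (nat_lit 0) (XT.lf (nat_lit 0) (nat_lit 25397286124) (nat_lit 76) (nat_lit 15857408382) (nat_lit 152) (nat_lit 23051888614) (nat_lit 13) (nat_lit 5) (nat_lit 14) (nat_lit 5) (nat_lit 15) (nat_lit 4) (nat_lit 389) (nat_lit 269) (nat_lit 122)) (XT.nd (nat_lit 78) (nat_lit 0) (nat_lit 0) (XT.lf (nat_lit 0) (nat_lit 39581324734) (nat_lit 76) (nat_lit 8671581713) (nat_lit 152) (nat_lit 17754908978) (nat_lit 13) (nat_lit 5) (nat_lit 14) (nat_lit 5) (nat_lit 15) (nat_lit 4) (nat_lit 390) (nat_lit 269) (nat_lit 121)) (XT.lf (nat_lit 0) (nat_lit 54181153284) (nat_lit 76) (nat_lit 1274467324) (nat_lit 152) (nat_lit 12304629952) (nat_lit 13) (nat_lit 5) (nat_lit 14) (nat_lit 5) (nat_lit 15) (nat_lit 4) (nat_lit 391) (nat_lit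 269) (nat_lit 120)))) (XT.nd (nat_lit 78) (nat_lit 152) (nat_lit 0) (XT.lf (nat_lit 0) (nat_lit 62930078407) (nat_lit 152) (nat_lit 416838661) (nat_lit 0) (nat_lit 6216674276) (nat_lit 13) (nat_lit 5) (nat_lit 15) (nat_lit 4) (nat_lit 13) (nat_lit 4) (nat_lit 392) (nat_lit 269) (nat_lit 119)) (XT.nd (nat_lit 78) (nat_lit 76) (nat_lit 0) (XT.lf (nat_lit 0) (nat_lit 13379460590) (nat_lit 76) (nat_lit 57385368930) (nat_lit 76) (nat_lit 652123434) (nat_lit 12) (nat_lit 4) (nat_lit 13) (nat_lit 5) (nat_lit 13) (nat_lit 4) (nat_lit 393) (nat_lit 269) (nat_lit 118)) (XT.lf (nat_lit 0) (nat_lit 5400302801) (nat_lit 152) (nat_lit 45789894270) (nat_lit 76) (nat_lit 22134159309) (nat_lit 11) (nat_lit 5) (nat_lit 13) (nat_lit 5) (nat_lit 12) (nat_lit 4) (nat_lit 394) (nat_lit 269) (nat_lit 117))))) (XT.nd (nat_lit 234) (nat_lit 76) (nat_lit 0) (XT.nd (nat_lit 78) (nat_lit 0) (nat_lit 0) (XT.lf (nat_lit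 0) (nat_lit 11616183962) (nat_lit 152) (nat_lit 33190357902) (nat_lit 76) (nat_lit 30482398856) (nat_lit 11) (nat_lit 5) (nat_lit 13) (nat_lit 5) (nat_lit 12) (nat_lit 4) (nat_lit 395) (nat_lit 269) (nat_lit 116)) (XT.nd (nat_lit 78) (nat_lit 0) (nat_lit 0) (XT.lf (nat_lit 0) (nat_lit 18013676678) (nat_lit 152) (nat_lit 20221605349) (nat_lit 76) (nat_lit 39077328635) (nat_lit 11) (nat_lit 5) (nat_lit 13) (nat_lit 5) (nat_lit 12) (nat_lit 4) (nat_lit 396) (nat_lit 269) (nat_lit 115)) (XT.lf (nat_lit 0) (nat_lit 24598370990) (nat_lit 152) (nat_lit 6872304689) (nat_lit 76) (nat_lit 47926458778) (nat_lit 11) (nat_lit 5) (nat_lit 13) (nat_lit 5) (nat_lit 12) (nat_lit 4) (nat_lit 397) (nat_lit 269) (nat_lit 114)))) (XT.nd (nat_lit 156) (nat_lit 0) (nat_lit 0) (XT.nd (nat_lit 78) (nat_lit 0) (nat_lit 0) (XT.lf (nat_lit 0) (nat_lit 7005919230) (nat_lit 76) (nat_lit 24437446467) (nat_lit 152) (nat_lit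 50098947485) (nat_lit 10) (nat_lit 5) (nat_lit 11) (nat_lit 5) (nat_lit 12) (nat_lit 4) (nat_lit 398) (nat_lit 269) (nat_lit 113)) (XT.lf (nat_lit 0) (nat_lit 21433179945) (nat_lit 76) (nat_lit 17125396366) (nat_lit 152) (nat_lit 45191326921) (nat_lit 10) (nat_lit 5) (nat_lit 11) (nat_lit 5) (nat_lit 12) (nat_lit 4) (nat_lit 399) (nat_lit 269) (nat_lit 112))) (XT.nd (nat_lit 78) (nat_lit 0) (nat_lit 0) (XT.lf (nat_lit 0) (nat_lit 36285311458) (nat_lit 76) (nat_lit 9597533009) (nat_lit 152) (nat_lit 40141010363) (nat_lit 10) (nat_lit 5) (nat_lit 11) (nat_lit 5) (nat_lit 12) (nat_lit 4) (nat_lit 400) (nat_lit 269) (nat_lit 111)) (XT.lf (nat_lit 0) (nat_lit 51575291361) (nat_lit 76) (nat_lit 1847278653) (nat_lit 152) (nat_lit 34943584916) (nat_lit 10) (nat_lit 5) (nat_lit 11) (nat_lit 5) (nat_lit 12) (nat_lit 4) (nat_lit 401) (nat_lit 269) (nat_lit 110))))))) (XT.nd (nat_lit 30888) (nat_lit 0)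 (nat_lit 15504) (XT.nd (nat_lit 30342) (nat_lit 0) (nat_lit 18696) (XT.nd (nat_lit 234) (nat_lit 76) (nat_lit 0) (XT.nd (nat_lit 78) (nat_lit 76) (nat_lit 0) (XT.lf (nat_lit 0) (nat_lit 61243286930) (nat_lit 152) (nat_lit 23521316237) (nat_lit 0) (nat_lit 6012478655) (nat_lit 10) (nat_lit 5) (nat_lit 12) (nat_lit 4) (nat_lit 10) (nat_lit 4) (nat_lit 402) (nat_lit 269) (nat_lit 109)) (XT.nd (nat_lit 78) (nat_lit 76) (nat_lit 0) (XT.lf (nat_lit 0) (nat_lit 69312858525) (nat_lit 152) (nat_lit 9879336302) (nat_lit 0) (nat_lit 14067716426) (nat_lit 10) (nat_lit 5) (nat_lit 12) (nat_lit 4) (nat_lit 10) (nat_lit 4) (nat_lit 403) (nat_lit 269) (nat_lit 108)) (XT.lf (nat_lit 0) (nat_lit 4247640347) (nat_lit 76) (nat_lit 73413769279) (nat_lit 76) (nat_lit 18154710847) (nat_lit 9) (nat_lit 4) (nat_lit 10) (nat_lit 5) (nat_lit 10) (nat_lit 4) (nat_lit 404) (nat_lit 269) (nat_lit 107)))) (XT.nd (nat_lit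 78) (nat_lit 76) (nat_lit 0) (XT.lf (nat_lit 0) (nat_lit 18993863652) (nat_lit 76) (nat_lit 67362423640) (nat_lit 76) (nat_lit 12089854204) (nat_lit 9) (nat_lit 4) (nat_lit 10) (nat_lit 5) (nat_lit 10) (nat_lit 4) (nat_lit 405) (nat_lit 269) (nat_lit 106)) (XT.nd (nat_lit 78) (nat_lit 76) (nat_lit 0) (XT.lf (nat_lit 0) (nat_lit 34175600497) (nat_lit 76) (nat_lit 61132632252) (nat_lit 76) (nat_lit 5846945336) (nat_lit 9) (nat_lit 4) (nat_lit 10) (nat_lit 5) (nat_lit 10) (nat_lit 4) (nat_lit 406) (nat_lit 269) (nat_lit 105)) (XT.lf (nat_lit 0) (nat_lit 568163164) (nat_lit 152) (nat_lit 54145051110) (nat_lit 76) (nat_lit 49232215981) (nat_lit 8) (nat_lit 5) (nat_lit 10) (nat_lit 5) (nat_lit 9) (nat_lit 4) (nat_lit 407) (nat_lit 269) (nat_lit 104))))) (XT.nd (nat_lit 234) (nat_lit 608) (nat_lit 0) (XT.nd (nat_lit 78) (nat_lit 0) (nat_lit 0) (XT.lf (nat_lit 0) (nat_lit 590589951) (nat_lit 684) (nat_lit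 1424759804) (nat_lit 684) (nat_lit 1424759804) (nat_lit 262) (nat_lit 3) (nat_lit 271) (nat_lit 3) (nat_lit 271) (nat_lit 5) (nat_lit 270) (nat_lit 270) (nat_lit 240)) (XT.nd (nat_lit 78) (nat_lit 0) (nat_lit 0) (XT.lf (nat_lit 76) (nat_lit 261103790) (nat_lit 0) (nat_lit 2744988758) (nat_lit 684) (nat_lit 3919274604) (nat_lit 263) (nat_lit 5) (nat_lit 262) (nat_lit 3) (nat_lit 271) (nat_lit 5) (nat_lit 271) (nat_lit 270) (nat_lit 239)) (XT.lf (nat_lit 76) (nat_lit 3486387564) (nat_lit 0) (nat_lit 1357351413) (nat_lit 684) (nat_lit 2129540898) (nat_lit 263) (nat_lit 5) (nat_lit 262) (nat_lit 3) (nat_lit 271) (nat_lit 5) (nat_lit 272) (nat_lit 270) (nat_lit 238)))) (XT.nd (nat_lit 156) (nat_lit 0) (nat_lit 0) (XT.nd (nat_lit 78) (nat_lit 684) (nat_lit 0) (XT.lf (nat_lit 0) (nat_lit 6668794396) (nat_lit 608) (nat_lit 253404319) (nat_lit 684) (nat_lit 102608353) (nat_lit 263) (nat_lit 5) (nat_lit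 271) (nat_lit 5) (nat_lit 272) (nat_lit 5) (nat_lit 273) (nat_lit 270) (nat_lit 237)) (XT.lf (nat_lit 0) (nat_lit 1418342242) (nat_lit 684) (nat_lit 4006139464) (nat_lit 760) (nat_lit 1653821776) (nat_lit 254) (nat_lit 5) (nat_lit 263) (nat_lit 5) (nat_lit 264) (nat_lit 5) (nat_lit 274) (nat_lit 270) (nat_lit 236))) (XT.nd (nat_lit 78) (nat_lit 0) (nat_lit 0) (XT.lf (nat_lit 0) (nat_lit 3175739605) (nat_lit 684) (nat_lit 672647908) (nat_lit 760) (nat_lit 3286935642) (nat_lit 254) (nat_lit 5) (nat_lit 263) (nat_lit 5) (nat_lit 264) (nat_lit 5) (nat_lit 275) (nat_lit 270) (nat_lit 235)) (XT.lf (nat_lit 76) (nat_lit 2777708163) (nat_lit 0) (nat_lit 2171146007) (nat_lit 760) (nat_lit 2246438645) (nat_lit 255) (nat_lit 5) (nat_lit 254) (nat_lit 5) (nat_lit 264) (nat_lit 5) (nat_lit 276) (nat_lit 270) (nat_lit 234)))))) (XT.nd (nat_lit 468) (nat_lit 1748) (nat_lit 0) (XT.nd (nat_lit 234) (nat_lit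 760) (nat_lit 0) (XT.nd (nat_lit 78) (nat_lit 684) (nat_lit 0) (XT.lf (nat_lit 76) (nat_lit 6308386330) (nat_lit 0) (nat_lit 411362578) (nat_lit 760) (nat_lit 539100543) (nat_lit 255) (nat_lit 5) (nat_lit 254) (nat_lit 5) (nat_lit 264) (nat_lit 5) (nat_lit 277) (nat_lit 270) (nat_lit 233)) (XT.nd (nat_lit 78) (nat_lit 0) (nat_lit 0) (XT.lf (nat_lit 0) (nat_lit 1173827834) (nat_lit 760) (nat_lit 4716323569) (nat_lit 836) (nat_lit 1434583021) (nat_lit 245) (nat_lit 5) (nat_lit 255) (nat_lit 5) (nat_lit 256) (nat_lit 5) (nat_lit 278) (nat_lit 270) (nat_lit 232)) (XT.lf (nat_lit 0) (nat_lit 2881607974) (nat_lit 760) (nat_lit 1147273364) (nat_lit 836) (nat_lit 3365040339) (nat_lit 245) (nat_lit 5) (nat_lit 255) (nat_lit 5) (nat_lit 256) (nat_lit 5) (nat_lit 279) (nat_lit 270) (nat_lit 231)))) (XT.nd (nat_lit 78) (nat_lit 760) (nat_lit 0) (XT.lf (nat_lit 76) (nat_lit 2540565270) (nat_lit 0) (nat_lit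 2066743307) (nat_lit 836) (nat_lit 2858986856) (nat_lit 246) (nat_lit 5) (nat_lit 245) (nat_lit 5) (nat_lit 256) (nat_lit 5) (nat_lit 280) (nat_lit 270) (nat_lit 230)) (XT.nd (nat_lit 78) (nat_lit 760) (nat_lit 0) (XT.lf (nat_lit 76) (nat_lit 6325069553) (nat_lit 0) (nat_lit 14882682) (nat_lit 836) (nat_lit 1202341255) (nat_lit 246) (nat_lit 5) (nat_lit 245) (nat_lit 5) (nat_lit 256) (nat_lit 5) (nat_lit 281) (nat_lit 270) (nat_lit 229)) (XT.lf (nat_lit 0) (nat_lit 484492442) (nat_lit 836) (nat_lit 5031034779) (nat_lit 912) (nat_lit 2105291247) (nat_lit 235) (nat_lit 5) (nat_lit 246) (nat_lit 5) (nat_lit 247) (nat_lit 5) (nat_lit 282) (nat_lit 270) (nat_lit 228))))) (XT.nd (nat_lit 234) (nat_lit 1748) (nat_lit 0) (XT.nd (nat_lit 78) (nat_lit 0) (nat_lit 0) (XT.lf (nat_lit 0) (nat_lit 2156329375) (nat_lit 836) (nat_lit 1216668881) (nat_lit 912) (nat_lit 4329685950) (nat_lit 235) (nat_lit 5) (nat_lit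 246) (nat_lit 5) (nat_lit 247) (nat_lit 5) (nat_lit 283) (nat_lit 270) (nat_lit 227)) (XT.nd (nat_lit 78) (nat_lit 0) (nat_lit 76) (XT.lf (nat_lit 76) (nat_lit 2727369716) (nat_lit 0) (nat_lit 1124745024) (nat_lit 912) (nat_lit 3935773554) (nat_lit 236) (nat_lit 5) (nat_lit 235) (nat_lit 5) (nat_lit 247) (nat_lit 5) (nat_lit 284) (nat_lit 270) (nat_lit 226)) (XT.lf (nat_lit 0) (nat_lit 5571502291) (nat_lit 836) (nat_lit 1111548869) (nat_lit 76) (nat_lit 1193508861) (nat_lit 236) (nat_lit 5) (nat_lit 247) (nat_lit 5) (nat_lit 237) (nat_lit 5) (nat_lit 285) (nat_lit 270) (nat_lit 225)))) (XT.nd (nat_lit 156) (nat_lit 912) (nat_lit 0) (XT.nd (nat_lit 78) (nat_lit 76) (nat_lit 0) (XT.lf (nat_lit 0) (nat_lit 2964377093) (nat_lit 836) (nat_lit 4368087828) (nat_lit 912) (nat_lit 635817832) (nat_lit 225) (nat_lit 5) (nat_lit 236) (nat_lit 5) (nat_lit 237) (nat_lit 5) (nat_lit 286) (nat_lit 270) (nat_lit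 224)) (XT.lf (nat_lit 0) (nat_lit 1024568745) (nat_lit 912) (nat_lit 926491120) (nat_lit 76) (nat_lit 6112603922) (nat_lit 224) (nat_lit 5) (nat_lit 236) (nat_lit 5) (nat_lit 225) (nat_lit 5) (nat_lit 287) (nat_lit 270) (nat_lit 223))) (XT.nd (nat_lit 78) (nat_lit 0) (nat_lit 0) (XT.lf (nat_lit 0) (nat_lit 2711601079) (nat_lit 988) (nat_lit 4874488613) (nat_lit 76) (nat_lit 576022264) (nat_lit 212) (nat_lit 5) (nat_lit 225) (nat_lit 5) (nat_lit 213) (nat_lit 5) (nat_lit 288) (nat_lit 270) (nat_lit 222)) (XT.lf (nat_lit 0) (nat_lit 4431436301) (nat_lit 988) (nat_lit 674466059) (nat_lit 76) (nat_lit 3158225999) (nat_lit 212) (nat_lit 5) (nat_lit 225) (nat_lit 5) (nat_lit 213) (nat_lit 5) (nat_lit 289) (nat_lit 270) (nat_lit 221))))))))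
noncomputable def xc133 : XT := (XT.nd (nat_lit 2028) (nat_lit 3876) (nat_lit 0) (XT.nd (nat_lit 1014) (nat_lit 3116) (nat_lit 0) (XT.nd (nat_lit 468) (nat_lit 1824) (nat_lit 0) (XT.nd (nat_lit 234) (nat_lit 1672) (nat_lit 0) (XT.nd (nat_lit 78) (nat_lit 1140) (nat_lit 0) (XT.lf (nat_lit 0) (nat_lit 3685635936) (nat_lit 988) (nat_lit 2507441871) (nat_lit 1064) (nat_lit 2176499311) (nat_lit 199) (nat_lit 5) (nat_lit 212) (nat_lit 5) (nat_lit 213) (nat_lit 5) (nat_lit 290) (nat_lit 270) (nat_lit 220)) (XT.nd (nat_lit 78) (nat_lit 1140) (nat_lit 0) (XT.lf (nat_lit 0) (nat_lit 7971875779) (nat_lit 1064) (nat_lit 328249119) (nat_lit 76) (nat_lit 179211148) (nat_lit 199) (nat_lit 5) (nat_lit 213) (nat_lit 5) (nat_lit 200) (nat_lit 5) (nat_lit 291) (nat_lit 270) (nat_lit 219)) (XT.lf (nat_lit 0) (nat_lit 1210222454) (nat_lit 1140) (nat_lit 4426673739) (nat_lit 76) (nat_lit 2954547217) (nat_lit 184)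 (nat_lit 5) (nat_lit 199) (nat_lit 5) (nat_lit 185) (nat_lit 5) (nat_lit 292) (nat_lit 270) (nat_lit 218)))) (XT.nd (nat_lit 78) (nat_lit 532) (nat_lit 0) (XT.lf (nat_lit 0) (nat_lit 50063097) (nat_lit 1140) (nat_lit 2880497532) (nat_lit 1216) (nat_lit 5777432382) (nat_lit 169) (nat_lit 5) (nat_lit 184) (nat_lit 5) (nat_lit 185) (nat_lit 5) (nat_lit 293) (nat_lit 270) (nat_lit 217)) (XT.nd (nat_lit 78) (nat_lit 532) (nat_lit 0) (XT.lf (nat_lit 0) (nat_lit 4705658038) (nat_lit 1216) (nat_lit 4114223590) (nat_lit 76) (nat_lit 8130456) (nat_lit 169) (nat_lit 5) (nat_lit 185) (nat_lit 5) (nat_lit 170) (nat_lit 5) (nat_lit 294) (nat_lit 270) (nat_lit 216)) (XT.lf (nat_lit 0) (nat_lit 509027028) (nat_lit 532) (nat_lit 6018009548) (nat_lit 608) (nat_lit 2424869800) (nat_lit 162) (nat_lit 5) (nat_lit 169) (nat_lit 5) (nat_lit 170) (nat_lit 5) (nat_lit 295) (nat_lit 270) (nat_lit 215))))) (XT.nd (nat_lit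 234) (nat_lit 1140) (nat_lit 0) (XT.nd (nat_lit 78) (nat_lit 684) (nat_lit 0) (XT.lf (nat_lit 0) (nat_lit 5317506964) (nat_lit 532) (nat_lit 3087523288) (nat_lit 608) (nat_lit 674491616) (nat_lit 162) (nat_lit 5) (nat_lit 169) (nat_lit 5) (nat_lit 170) (nat_lit 5) (nat_lit 296) (nat_lit 270) (nat_lit 214)) (XT.nd (nat_lit 78) (nat_lit 0) (nat_lit 0) (XT.lf (nat_lit 0) (nat_lit 1031009385) (nat_lit 608) (nat_lit 46419962) (nat_lit 684) (nat_lit 8134139489) (nat_lit 153) (nat_lit 5) (nat_lit 161) (nat_lit 5) (nat_lit 162) (nat_lit 5) (nat_lit 297) (nat_lit 270) (nat_lit 213)) (XT.lf (nat_lit 0) (nat_lit 2898303350) (nat_lit 684) (nat_lit 3376592986) (nat_lit 76) (nat_lit 3071640163) (nat_lit 153) (nat_lit 5) (nat_lit 162) (nat_lit 5) (nat_lit 154) (nat_lit 5) (nat_lit 298) (nat_lit 270) (nat_lit 212)))) (XT.nd (nat_lit 156) (nat_lit 608) (nat_lit 0) (XT.nd (nat_lit 78) (nat_lit 0) (nat_lit 0)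 (XT.lf (nat_lit 0) (nat_lit 1564296291) (nat_lit 532) (nat_lit 3188036091) (nat_lit 608) (nat_lit 4733921439) (nat_lit 146) (nat_lit 5) (nat_lit 153) (nat_lit 5) (nat_lit 154) (nat_lit 5) (nat_lit 299) (nat_lit 270) (nat_lit 211)) (XT.lf (nat_lit 0) (nat_lit 6660082509) (nat_lit 608) (nat_lit 2944798163) (nat_lit 76) (nat_lit 25393833) (nat_lit 146) (nat_lit 5) (nat_lit 154) (nat_lit 5) (nat_lit 147) (nat_lit 5) (nat_lit 300) (nat_lit 270) (nat_lit 210))) (XT.nd (nat_lit 78) (nat_lit 76) (nat_lit 0) (XT.lf (nat_lit 0) (nat_lit 2155243278) (nat_lit 532) (nat_lit 6486908015) (nat_lit 608) (nat_lit 1136005182) (nat_lit 139) (nat_lit 5) (nat_lit 146) (nat_lit 5) (nat_lit 147) (nat_lit 5) (nat_lit 301) (nat_lit 270) (nat_lit 209)) (XT.lf (nat_lit 0) (nat_lit 733625652) (nat_lit 608) (nat_lit 2505773694) (nat_lit 76) (nat_lit 6691055058) (nat_lit 138) (nat_lit 5) (nat_lit 146) (nat_lit 5) (nat_lit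 139) (nat_lit 5) (nat_lit 302) (nat_lit 270) (nat_lit 208)))))) (XT.nd (nat_lit 468) (nat_lit 1672) (nat_lit 0) (XT.nd (nat_lit 234) (nat_lit 532) (nat_lit 0) (XT.nd (nat_lit 78) (nat_lit 456) (nat_lit 0) (XT.lf (nat_lit 0) (nat_lit 2630623424) (nat_lit 532) (nat_lit 7317124299) (nat_lit 76) (nat_lit 139461535) (nat_lit 132) (nat_lit 5) (nat_lit 139) (nat_lit 5) (nat_lit 133) (nat_lit 5) (nat_lit 303) (nat_lit 270) (nat_lit 207)) (XT.nd (nat_lit 78) (nat_lit 456) (nat_lit 0) (XT.lf (nat_lit 0) (nat_lit 4608877814) (nat_lit 532) (nat_lit 2061531929) (nat_lit 76) (nat_lit 3577573928) (nat_lit 132) (nat_lit 5) (nat_lit 139) (nat_lit 5) (nat_lit 133) (nat_lit 5) (nat_lit 304) (nat_lit 270) (nat_lit 206)) (XT.lf (nat_lit 0) (nat_lit 3381910039) (nat_lit 456) (nat_lit 3264767612) (nat_lit 532) (nat_lit 3766943665) (nat_lit 126) (nat_lit 5) (nat_lit 132) (nat_lit 5) (nat_lit 133) (nat_lit 5) (nat_lit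 305) (nat_lit 270) (nat_lit 205)))) (XT.nd (nat_lit 78) (nat_lit 532) (nat_lit 0) (XT.lf (nat_lit 0) (nat_lit 8737224337) (nat_lit 532) (nat_lit 1591651526) (nat_lit 76) (nat_lit 255648439) (nat_lit 126) (nat_lit 5) (nat_lit 133) (nat_lit 5) (nat_lit 127) (nat_lit 5) (nat_lit 306) (nat_lit 270) (nat_lit 204)) (XT.nd (nat_lit 78) (nat_lit 0) (nat_lit 0) (XT.lf (nat_lit 0) (nat_lit 167920899) (nat_lit 532) (nat_lit 6738620893) (nat_lit 76) (nat_lit 3852801452) (nat_lit 119) (nat_lit 5) (nat_lit 126) (nat_lit 5) (nat_lit 120) (nat_lit 5) (nat_lit 307) (nat_lit 270) (nat_lit 203)) (XT.lf (nat_lit 0) (nat_lit 2192099218) (nat_lit 532) (nat_lit 1158941688) (nat_lit 76) (nat_lit 7588289068) (nat_lit 119) (nat_lit 5) (nat_lit 126) (nat_lit 5) (nat_lit 120) (nat_lit 5) (nat_lit 308) (nat_lit 270) (nat_lit 202))))) (XT.nd (nat_lit 234) (nat_lit 836) (nat_lit 0) (XT.nd (nat_lit 78) (nat_lit 380) (nat_lit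 0) (XT.lf (nat_lit 0) (nat_lit 4295319932) (nat_lit 532) (nat_lit 6483565828) (nat_lit 76) (nat_lit 345320657) (nat_lit 113) (nat_lit 5) (nat_lit 120) (nat_lit 5) (nat_lit 114) (nat_lit 5) (nat_lit 309) (nat_lit 270) (nat_lit 201)) (XT.nd (nat_lit 78) (nat_lit 380) (nat_lit 0) (XT.lf (nat_lit 0) (nat_lit 6477410832) (nat_lit 532) (nat_lit 744754101) (nat_lit 76) (nat_lit 4092029483) (nat_lit 113) (nat_lit 5) (nat_lit 120) (nat_lit 5) (nat_lit 114) (nat_lit 5) (nat_lit 310) (nat_lit 270) (nat_lit 200)) (XT.lf (nat_lit 0) (nat_lit 5234235473) (nat_lit 380) (nat_lit 3512670875) (nat_lit 456) (nat_lit 2762354800) (nat_lit 108) (nat_lit 5) (nat_lit 113) (nat_lit 5) (nat_lit 114) (nat_lit 5) (nat_lit 311) (nat_lit 270) (nat_lit 199)))) (XT.nd (nat_lit 156) (nat_lit 380) (nat_lit 0) (XT.nd (nat_lit 78) (nat_lit 456) (nat_lit 0) (XT.lf (nat_lit 0) (nat_lit 11067115357) (nat_lit 456) (nat_lit 339735209)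 (nat_lit 76) (nat_lit 303886718) (nat_lit 108) (nat_lit 5) (nat_lit 114) (nat_lit 5) (nat_lit 109) (nat_lit 5) (nat_lit 312) (nat_lit 270) (nat_lit 198)) (XT.lf (nat_lit 0) (nat_lit 1572840985) (nat_lit 456) (nat_lit 6113022809) (nat_lit 76) (nat_lit 4230058577) (nat_lit 102) (nat_lit 5) (nat_lit 108) (nat_lit 5) (nat_lit 103) (nat_lit 5) (nat_lit 313) (nat_lit 270) (nat_lit 197))) (XT.nd (nat_lit 78) (nat_lit 380) (nat_lit 0) (XT.lf (nat_lit 0) (nat_lit 3819384202) (nat_lit 456) (nat_lit 30627200) (nat_lit 76) (nat_lit 8277797941) (nat_lit 102) (nat_lit 5) (nat_lit 108) (nat_lit 5) (nat_lit 103) (nat_lit 5) (nat_lit 314) (nat_lit 270) (nat_lit 196)) (XT.lf (nat_lit 0) (nat_lit 6169471978) (nat_lit 456) (nat_lit 6021746232) (nat_lit 76) (nat_lit 153782485) (nat_lit 97) (nat_lit 5) (nat_lit 103) (nat_lit 5) (nat_lit 98) (nat_lit 5) (nat_lit 315) (nat_lit 270) (nat_lit 195))))))) (XT.nd (nat_lit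 1014) (nat_lit 1824) (nat_lit 0) (XT.nd (nat_lit 468) (nat_lit 912) (nat_lit 0) (XT.nd (nat_lit 234) (nat_lit 380) (nat_lit 0) (XT.nd (nat_lit 78) (nat_lit 380) (nat_lit 0) (XT.lf (nat_lit 0) (nat_lit 232835832) (nat_lit 380) (nat_lit 8372122227) (nat_lit 456) (nat_lit 3963334137) (nat_lit 92) (nat_lit 5) (nat_lit 97) (nat_lit 5) (nat_lit 98) (nat_lit 5) (nat_lit 316) (nat_lit 270) (nat_lit 194)) (XT.nd (nat_lit 78) (nat_lit 380) (nat_lit 0) (XT.lf (nat_lit 0) (nat_lit 6765553863) (nat_lit 380) (nat_lit 4383422980) (nat_lit 456) (nat_lit 1648271923) (nat_lit 92) (nat_lit 5) (nat_lit 97) (nat_lit 5) (nat_lit 98) (nat_lit 5) (nat_lit 317) (nat_lit 270) (nat_lit 193)) (XT.lf (nat_lit 0) (nat_lit 429987187) (nat_lit 304) (nat_lit 271147382) (nat_lit 380) (nat_lit 12332377998) (nat_lit 87) (nat_lit 5) (nat_lit 91) (nat_lit 5) (nat_lit 92) (nat_lit 5) (nat_lit 318) (nat_lit 270) (nat_lit 192)))) (XT.nd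 (nat_lit 78) (nat_lit 380) (nat_lit 0) (XT.lf (nat_lit 0) (nat_lit 3162981790) (nat_lit 380) (nat_lit 6153779401) (nat_lit 76) (nat_lit 3957388684) (nat_lit 87) (nat_lit 5) (nat_lit 92) (nat_lit 5) (nat_lit 88) (nat_lit 5) (nat_lit 319) (nat_lit 270) (nat_lit 191)) (XT.nd (nat_lit 78) (nat_lit 0) (nat_lit 0) (XT.lf (nat_lit 0) (nat_lit 463910193) (nat_lit 380) (nat_lit 5218099469) (nat_lit 456) (nat_lit 7840523864) (nat_lit 82) (nat_lit 5) (nat_lit 87) (nat_lit 5) (nat_lit 88) (nat_lit 5) (nat_lit 320) (nat_lit 270) (nat_lit 190)) (XT.lf (nat_lit 0) (nat_lit 7374673133) (nat_lit 380) (nat_lit 940647517) (nat_lit 456) (nat_lit 5461912864) (nat_lit 82) (nat_lit 5) (nat_lit 87) (nat_lit 5) (nat_lit 88) (nat_lit 5) (nat_lit 321) (nat_lit 270) (nat_lit 189))))) (XT.nd (nat_lit 234) (nat_lit 228) (nat_lit 0) (XT.nd (nat_lit 78) (nat_lit 380) (nat_lit 0) (XT.lf (nat_lit 0) (nat_lit 396293827) (nat_lit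 304) (nat_lit 10645632763) (nat_lit 380) (nat_lit 2997244476) (nat_lit 78) (nat_lit 5) (nat_lit 82) (nat_lit 5) (nat_lit 83) (nat_lit 5) (nat_lit 322) (nat_lit 270) (nat_lit 188)) (XT.nd (nat_lit 78) (nat_lit 380) (nat_lit 0) (XT.lf (nat_lit 0) (nat_lit 7489853365) (nat_lit 304) (nat_lit 6411896631) (nat_lit 380) (nat_lit 405698862) (nat_lit 78) (nat_lit 5) (nat_lit 82) (nat_lit 5) (nat_lit 83) (nat_lit 5) (nat_lit 323) (nat_lit 270) (nat_lit 187)) (XT.lf (nat_lit 0) (nat_lit 163305732) (nat_lit 304) (nat_lit 2035644967) (nat_lit 380) (nat_lit 12384808935) (nat_lit 73) (nat_lit 5) (nat_lit 77) (nat_lit 5) (nat_lit 78) (nat_lit 5) (nat_lit 324) (nat_lit 270) (nat_lit 186)))) (XT.nd (nat_lit 156) (nat_lit 228) (nat_lit 0) (XT.nd (nat_lit 78) (nat_lit 0) (nat_lit 0) (XT.lf (nat_lit 0) (nat_lit 4945100170) (nat_lit 380) (nat_lit 7432223997) (nat_lit 76) (nat_lit 2488792222) (nat_lit 73) (nat_lit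 5) (nat_lit 78) (nat_lit 5) (nat_lit 74) (nat_lit 5) (nat_lit 325) (nat_lit 270) (nat_lit 185)) (XT.lf (nat_lit 0) (nat_lit 7772650418) (nat_lit 380) (nat_lit 284461127) (nat_lit 76) (nat_lit 7099883751) (nat_lit 73) (nat_lit 5) (nat_lit 78) (nat_lit 5) (nat_lit 74) (nat_lit 5) (nat_lit 326) (nat_lit 270) (nat_lit 184))) (XT.nd (nat_lit 78) (nat_lit 0) (nat_lit 0) (XT.lf (nat_lit 0) (nat_lit 7188930107) (nat_lit 228) (nat_lit 3544678539) (nat_lit 304) (nat_lit 4721555780) (nat_lit 70) (nat_lit 5) (nat_lit 73) (nat_lit 5) (nat_lit 74) (nat_lit 5) (nat_lit 327) (nat_lit 270) (nat_lit 183)) (XT.lf (nat_lit 0) (nat_lit 13776615816) (nat_lit 304) (nat_lit 909815936) (nat_lit 76) (nat_lit 1076070951) (nat_lit 70) (nat_lit 5) (nat_lit 74) (nat_lit 5) (nat_lit 71) (nat_lit 5) (nat_lit 328) (nat_lit 270) (nat_lit 182)))))) (XT.nd (nat_lit 546) (nat_lit 684) (nat_lit 0) (XT.nd (nat_lit 234) (nat_lit 532)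 (nat_lit 0) (XT.nd (nat_lit 78) (nat_lit 228) (nat_lit 0) (XT.lf (nat_lit 0) (nat_lit 896537662) (nat_lit 380) (nat_lit 9350331186) (nat_lit 76) (nat_lit 5829544346) (nat_lit 65) (nat_lit 5) (nat_lit 70) (nat_lit 5) (nat_lit 66) (nat_lit 5) (nat_lit 329) (nat_lit 270) (nat_lit 181)) (XT.nd (nat_lit 78) (nat_lit 228) (nat_lit 0) (XT.lf (nat_lit 0) (nat_lit 3815196361) (nat_lit 380) (nat_lit 1838131733) (nat_lit 76) (nat_lit 10746151688) (nat_lit 65) (nat_lit 5) (nat_lit 70) (nat_lit 5) (nat_lit 66) (nat_lit 5) (nat_lit 330) (nat_lit 270) (nat_lit 180)) (XT.lf (nat_lit 0) (nat_lit 5988504221) (nat_lit 228) (nat_lit 871444165) (nat_lit 304) (nat_lit 9871152349) (nat_lit 62) (nat_lit 5) (nat_lit 65) (nat_lit 5) (nat_lit 66) (nat_lit 5) (nat_lit 331) (nat_lit 270) (nat_lit 179)))) (XT.nd (nat_lit 156) (nat_lit 304) (nat_lit 0) (XT.nd (nat_lit 78) (nat_lit 228) (nat_lit 0) (XT.lf (nat_lit 0) (nat_lit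 10034930712) (nat_lit 304) (nat_lit 3051656739) (nat_lit 76) (nat_lit 3984934070) (nat_lit 62) (nat_lit 5) (nat_lit 66) (nat_lit 5) (nat_lit 63) (nat_lit 5) (nat_lit 332) (nat_lit 270) (nat_lit 178)) (XT.lf (nat_lit 0) (nat_lit 4930398618) (nat_lit 228) (nat_lit 8412508293) (nat_lit 304) (nat_lit 4078133007) (nat_lit 59) (nat_lit 5) (nat_lit 62) (nat_lit 5) (nat_lit 63) (nat_lit 5) (nat_lit 333) (nat_lit 270) (nat_lit 177))) (XT.nd (nat_lit 78) (nat_lit 304) (nat_lit 0) (XT.lf (nat_lit 0) (nat_lit 13187543935) (nat_lit 228) (nat_lit 3575389967) (nat_lit 304) (nat_lit 1017742434) (nat_lit 59) (nat_lit 5) (nat_lit 62) (nat_lit 5) (nat_lit 63) (nat_lit 5) (nat_lit 334) (nat_lit 270) (nat_lit 176)) (XT.lf (nat_lit 0) (nat_lit 2123378272) (nat_lit 304) (nat_lit 14600169217) (nat_lit 76) (nat_lit 1426037592) (nat_lit 55) (nat_lit 5) (nat_lit 59) (nat_lit 5) (nat_lit 56) (nat_lit 5) (nat_lit 335) (nat_lit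 270) (nat_lit 175))))) (XT.nd (nat_lit 234) (nat_lit 456) (nat_lit 0) (XT.nd (nat_lit 78) (nat_lit 228) (nat_lit 0) (XT.lf (nat_lit 0) (nat_lit 5403026089) (nat_lit 304) (nat_lit 6570413658) (nat_lit 76) (nat_lit 6553891956) (nat_lit 55) (nat_lit 5) (nat_lit 59) (nat_lit 5) (nat_lit 56) (nat_lit 5) (nat_lit 336) (nat_lit 270) (nat_lit 174)) (XT.nd (nat_lit 78) (nat_lit 0) (nat_lit 0) (XT.lf (nat_lit 0) (nat_lit 1707630840) (nat_lit 228) (nat_lit 7072865105) (nat_lit 304) (nat_lit 10135946740) (nat_lit 52) (nat_lit 5) (nat_lit 55) (nat_lit 5) (nat_lit 56) (nat_lit 5) (nat_lit 337) (nat_lit 270) (nat_lit 173)) (XT.lf (nat_lit 0) (nat_lit 10343032132) (nat_lit 228) (nat_lit 1965871730) (nat_lit 304) (nat_lit 7006849219) (nat_lit 52) (nat_lit 5) (nat_lit 55) (nat_lit 5) (nat_lit 56) (nat_lit 5) (nat_lit 338) (nat_lit 270) (nat_lit 172)))) (XT.nd (nat_lit 156) (nat_lit 304) (nat_lit 0) (XT.nd (nat_lit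 78) (nat_lit 152) (nat_lit 0) (XT.lf (nat_lit 0) (nat_lit 15958500815) (nat_lit 304) (nat_lit 546556402) (nat_lit 76) (nat_lit 3221539550) (nat_lit 52) (nat_lit 5) (nat_lit 56) (nat_lit 5) (nat_lit 53) (nat_lit 5) (nat_lit 339) (nat_lit 270) (nat_lit 171)) (XT.lf (nat_lit 0) (nat_lit 8249298704) (nat_lit 152) (nat_lit 11551193662) (nat_lit 228) (nat_lit 346799868) (nat_lit 50) (nat_lit 5) (nat_lit 52) (nat_lit 5) (nat_lit 53) (nat_lit 5) (nat_lit 340) (nat_lit 270) (nat_lit 170))) (XT.nd (nat_lit 78) (nat_lit 228) (nat_lit 0) (XT.lf (nat_lit 0) (nat_lit 3104916713) (nat_lit 228) (nat_lit 3315494719) (nat_lit 76) (nat_lit 14159600434) (nat_lit 49) (nat_lit 5) (nat_lit 52) (nat_lit 5) (nat_lit 50) (nat_lit 5) (nat_lit 341) (nat_lit 270) (nat_lit 169)) (XT.lf (nat_lit 0) (nat_lit 5606477228) (nat_lit 228) (nat_lit 1085295333) (nat_lit 304) (nat_lit 14332693285) (nat_lit 46) (nat_lit 5) (nat_lit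 49) (nat_lit 5) (nat_lit 50) (nat_lit 5) (nat_lit 342) (nat_lit 270) (nat_lit 168))))))))
noncomputable def xc134 : XT := (XT.nd (nat_lit 2028) (nat_lit 988) (nat_lit 0) (XT.nd (nat_lit 1014) (nat_lit 684) (nat_lit 0) (XT.nd (nat_lit 468) (nat_lit 532) (nat_lit 0) (XT.nd (nat_lit 234) (nat_lit 304) (nat_lit 0) (XT.nd (nat_lit 78) (nat_lit 152) (nat_lit 0) (XT.lf (nat_lit 0) (nat_lit 10447236816) (nat_lit 304) (nat_lit 6684016717) (nat_lit 76) (nat_lit 4349181977) (nat_lit 46) (nat_lit 5) (nat_lit 50) (nat_lit 5) (nat_lit 47) (nat_lit 5) (nat_lit 343) (nat_lit 270) (nat_lit 167)) (XT.nd (nat_lit 78) (nat_lit 0) (nat_lit 0) (XT.lf (nat_lit 0) (nat_lit 2323145761) (nat_lit 152) (nat_lit 12010539768) (nat_lit 228) (nat_lit 7615860912) (nat_lit 44) (nat_lit 5) (nat_lit 46) (nat_lit 5) (nat_lit 47) (nat_lit 5) (nat_lit 344) (nat_lit 270) (nat_lit 166)) (XT.lf (nat_lit 0) (nat_lit 11714352449) (nat_lit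 152) (nat_lit 6675321169) (nat_lit 228) (nat_lit 4041480153) (nat_lit 44) (nat_lit 5) (nat_lit 46) (nat_lit 5) (nat_lit 47) (nat_lit 5) (nat_lit 345) (nat_lit 270) (nat_lit 165)))) (XT.nd (nat_lit 78) (nat_lit 304) (nat_lit 0) (XT.lf (nat_lit 0) (nat_lit 21364784218) (nat_lit 152) (nat_lit 1188431358) (nat_lit 228) (nat_lit 374428636) (nat_lit 44) (nat_lit 5) (nat_lit 46) (nat_lit 5) (nat_lit 47) (nat_lit 5) (nat_lit 346) (nat_lit 270) (nat_lit 164)) (XT.nd (nat_lit 78) (nat_lit 0) (nat_lit 0) (XT.lf (nat_lit 0) (nat_lit 3442857159) (nat_lit 304) (nat_lit 15513780450) (nat_lit 76) (nat_lit 4478222377) (nat_lit 40) (nat_lit 5) (nat_lit 44) (nat_lit 5) (nat_lit 41) (nat_lit 5) (nat_lit 347) (nat_lit 270) (nat_lit 163)) (XT.lf (nat_lit 0) (nat_lit 7381093482) (nat_lit 304) (nat_lit 6273140093) (nat_lit 76) (nat_lit 10302538887) (nat_lit 40) (nat_lit 5) (nat_lit 44) (nat_lit 5) (nat_lit 41) (nat_lit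 5) (nat_lit 348) (nat_lit 270) (nat_lit 162))))) (XT.nd (nat_lit 234) (nat_lit 380) (nat_lit 0) (XT.nd (nat_lit 78) (nat_lit 0) (nat_lit 0) (XT.lf (nat_lit 0) (nat_lit 3287248496) (nat_lit 152) (nat_lit 8168480718) (nat_lit 228) (nat_lit 13038075406) (nat_lit 38) (nat_lit 5) (nat_lit 40) (nat_lit 5) (nat_lit 41) (nat_lit 5) (nat_lit 349) (nat_lit 270) (nat_lit 161)) (XT.nd (nat_lit 78) (nat_lit 0) (nat_lit 0) (XT.lf (nat_lit 0) (nat_lit 13241636859) (nat_lit 152) (nat_lit 2461149829) (nat_lit 228) (nat_lit 9342665162) (nat_lit 38) (nat_lit 5) (nat_lit 40) (nat_lit 5) (nat_lit 41) (nat_lit 5) (nat_lit 350) (nat_lit 270) (nat_lit 160)) (XT.lf (nat_lit 0) (nat_lit 20097248788) (nat_lit 228) (nat_lit 2172939235) (nat_lit 76) (nat_lit 3342869996) (nat_lit 38) (nat_lit 5) (nat_lit 41) (nat_lit 5) (nat_lit 39) (nat_lit 5) (nat_lit 351) (nat_lit 270) (nat_lit 159)))) (XT.nd (nat_lit 156) (nat_lit 152)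 (nat_lit 0) (XT.nd (nat_lit 78) (nat_lit 76) (nat_lit 0) (XT.lf (nat_lit 0) (nat_lit 7855297140) (nat_lit 152) (nat_lit 16855642588) (nat_lit 228) (nat_lit 1484139836) (nat_lit 36) (nat_lit 5) (nat_lit 38) (nat_lit 5) (nat_lit 39) (nat_lit 5) (nat_lit 352) (nat_lit 270) (nat_lit 158)) (XT.lf (nat_lit 0) (nat_lit 2626122990) (nat_lit 228) (nat_lit 8611386412) (nat_lit 76) (nat_lit 15555999890) (nat_lit 35) (nat_lit 5) (nat_lit 38) (nat_lit 5) (nat_lit 36) (nat_lit 5) (nat_lit 353) (nat_lit 270) (nat_lit 157))) (XT.nd (nat_lit 78) (nat_lit 0) (nat_lit 0) (XT.lf (nat_lit 0) (nat_lit 1401576686) (nat_lit 152) (nat_lit 5429677872) (nat_lit 228) (nat_lit 20578163074) (nat_lit 33) (nat_lit 5) (nat_lit 35) (nat_lit 5) (nat_lit 36) (nat_lit 5) (nat_lit 354) (nat_lit 270) (nat_lit 156)) (XT.lf (nat_lit 0) (nat_lit 11243673745) (nat_lit 228) (nat_lit 16175946767) (nat_lit 76) (nat_lit 621756731) (nat_lit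 33) (nat_lit 5) (nat_lit 36) (nat_lit 5) (nat_lit 34) (nat_lit 5) (nat_lit 355) (nat_lit 270) (nat_lit 155)))))) (XT.nd (nat_lit 468) (nat_lit 304) (nat_lit 0) (XT.nd (nat_lit 234) (nat_lit 228) (nat_lit 0) (XT.nd (nat_lit 78) (nat_lit 152) (nat_lit 0) (XT.lf (nat_lit 0) (nat_lit 15830578755) (nat_lit 228) (nat_lit 6122306478) (nat_lit 76) (nat_lit 6738154808) (nat_lit 33) (nat_lit 5) (nat_lit 36) (nat_lit 5) (nat_lit 34) (nat_lit 5) (nat_lit 356) (nat_lit 270) (nat_lit 154)) (XT.nd (nat_lit 78) (nat_lit 0) (nat_lit 0) (XT.lf (nat_lit 0) (nat_lit 4297926056) (nat_lit 152) (nat_lit 16287172418) (nat_lit 228) (nat_lit 8774201593) (nat_lit 31) (nat_lit 5) (nat_lit 33) (nat_lit 5) (nat_lit 34) (nat_lit 5) (nat_lit 357) (nat_lit 270) (nat_lit 153)) (XT.lf (nat_lit 0) (nat_lit 15137567015) (nat_lit 152) (nat_lit 10395352893) (nat_lit 228) (nat_lit 4513175350) (nat_lit 31) (nat_lit 5) (nat_lit 33)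 (nat_lit 5) (nat_lit 34) (nat_lit 5) (nat_lit 358) (nat_lit 270) (nat_lit 152)))) (XT.nd (nat_lit 78) (nat_lit 228) (nat_lit 0) (XT.lf (nat_lit 0) (nat_lit 26284242024) (nat_lit 152) (nat_lit 4334101759) (nat_lit 228) (nat_lit 135482624) (nat_lit 31) (nat_lit 5) (nat_lit 33) (nat_lit 5) (nat_lit 34) (nat_lit 5) (nat_lit 359) (nat_lit 270) (nat_lit 151)) (XT.nd (nat_lit 78) (nat_lit 0) (nat_lit 0) (XT.lf (nat_lit 0) (nat_lit 4357877272) (nat_lit 228) (nat_lit 25152840071) (nat_lit 76) (nat_lit 1968727240) (nat_lit 28) (nat_lit 5) (nat_lit 31) (nat_lit 5) (nat_lit 29) (nat_lit 5) (nat_lit 360) (nat_lit 270) (nat_lit 150)) (XT.lf (nat_lit 0) (nat_lit 9061250744) (nat_lit 228) (nat_lit 14749798099) (nat_lit 76) (nat_lit 8413410673) (nat_lit 28) (nat_lit 5) (nat_lit 31) (nat_lit 5) (nat_lit 29) (nat_lit 5) (nat_lit 361) (nat_lit 270) (nat_lit 149))))) (XT.nd (nat_lit 234) (nat_lit 152) (nat_lit 0)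 (XT.nd (nat_lit 78) (nat_lit 152) (nat_lit 0) (XT.lf (nat_lit 0) (nat_lit 13895475941) (nat_lit 228) (nat_lit 4052064681) (nat_lit 76) (nat_lit 15044598100) (nat_lit 28) (nat_lit 5) (nat_lit 31) (nat_lit 5) (nat_lit 29) (nat_lit 5) (nat_lit 362) (nat_lit 270) (nat_lit 148)) (XT.nd (nat_lit 78) (nat_lit 0) (nat_lit 0) (XT.lf (nat_lit 0) (nat_lit 7088020527) (nat_lit 152) (nat_lit 11844890805) (nat_lit 228) (nat_lit 14848197622) (nat_lit 26) (nat_lit 5) (nat_lit 28) (nat_lit 5) (nat_lit 29) (nat_lit 5) (nat_lit 363) (nat_lit 270) (nat_lit 147)) (XT.lf (nat_lit 0) (nat_lit 18628644242) (nat_lit 152) (nat_lit 5523921541) (nat_lit 228) (nat_lit 10440255606) (nat_lit 26) (nat_lit 5) (nat_lit 28) (nat_lit 5) (nat_lit 29) (nat_lit 5) (nat_lit 364) (nat_lit 270) (nat_lit 146)))) (XT.nd (nat_lit 156) (nat_lit 76) (nat_lit 0) (XT.nd (nat_lit 78) (nat_lit 76) (nat_lit 0) (XT.lf (nat_lit 0) (nat_lit 29528694126)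 (nat_lit 228) (nat_lit 4939350699) (nat_lit 76) (nat_lit 960849646) (nat_lit 26) (nat_lit 5) (nat_lit 29) (nat_lit 5) (nat_lit 27) (nat_lit 4) (nat_lit 365) (nat_lit 270) (nat_lit 145)) (XT.lf (nat_lit 0) (nat_lit 6471828954) (nat_lit 76) (nat_lit 28701860173) (nat_lit 152) (nat_lit 1113138766) (nat_lit 25) (nat_lit 5) (nat_lit 26) (nat_lit 5) (nat_lit 27) (nat_lit 4) (nat_lit 366) (nat_lit 270) (nat_lit 144))) (XT.nd (nat_lit 78) (nat_lit 0) (nat_lit 0) (XT.lf (nat_lit 0) (nat_lit 3784114574) (nat_lit 152) (nat_lit 18895619058) (nat_lit 76) (nat_lit 14488437889) (nat_lit 24) (nat_lit 5) (nat_lit 26) (nat_lit 5) (nat_lit 25) (nat_lit 5) (nat_lit 367) (nat_lit 270) (nat_lit 143)) (XT.lf (nat_lit 0) (nat_lit 8796885507) (nat_lit 152) (nat_lit 7675233904) (nat_lit 76) (nat_lit 21603781375) (nat_lit 24) (nat_lit 5) (nat_lit 26) (nat_lit 5) (nat_lit 25) (nat_lit 5) (nat_lit 368) (nat_lit 270) (nat_lit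 142))))))) (XT.nd (nat_lit 1014) (nat_lit 456) (nat_lit 0) (XT.nd (nat_lit 468) (nat_lit 304) (nat_lit 0) (XT.nd (nat_lit 234) (nat_lit 76) (nat_lit 0) (XT.nd (nat_lit 78) (nat_lit 0) (nat_lit 0) (XT.lf (nat_lit 0) (nat_lit 3943615044) (nat_lit 152) (nat_lit 10045568868) (nat_lit 228) (nat_lit 25020808693) (nat_lit 22) (nat_lit 5) (nat_lit 24) (nat_lit 5) (nat_lit 25) (nat_lit 5) (nat_lit 369) (nat_lit 270) (nat_lit 141)) (XT.nd (nat_lit 78) (nat_lit 0) (nat_lit 0) (XT.lf (nat_lit 0) (nat_lit 16053410397) (nat_lit 152) (nat_lit 3352693107) (nat_lit 228) (nat_lit 20563942965) (nat_lit 22) (nat_lit 5) (nat_lit 24) (nat_lit 5) (nat_lit 25) (nat_lit 5) (nat_lit 370) (nat_lit 270) (nat_lit 140)) (XT.lf (nat_lit 0) (nat_lit 25011109275) (nat_lit 228) (nat_lit 12481156511) (nat_lit 76) (nat_lit 3465873522) (nat_lit 22) (nat_lit 5) (nat_lit 25) (nat_lit 5) (nat_lit 23) (nat_lit 4) (nat_lit 371) (nat_lit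 270) (nat_lit 139)))) (XT.nd (nat_lit 78) (nat_lit 76) (nat_lit 0) (XT.lf (nat_lit 0) (nat_lit 30809247222) (nat_lit 228) (nat_lit 750095129) (nat_lit 76) (nat_lit 10415787701) (nat_lit 22) (nat_lit 5) (nat_lit 25) (nat_lit 5) (nat_lit 23) (nat_lit 4) (nat_lit 372) (nat_lit 270) (nat_lit 138)) (XT.nd (nat_lit 78) (nat_lit 0) (nat_lit 0) (XT.lf (nat_lit 0) (nat_lit 11544297476) (nat_lit 76) (nat_lit 25340028914) (nat_lit 152) (nat_lit 6135218662) (nat_lit 21) (nat_lit 5) (nat_lit 22) (nat_lit 5) (nat_lit 23) (nat_lit 4) (nat_lit 373) (nat_lit 270) (nat_lit 137)) (XT.lf (nat_lit 0) (nat_lit 24209162626) (nat_lit 76) (nat_lit 18932196243) (nat_lit 152) (nat_lit 953946922) (nat_lit 21) (nat_lit 5) (nat_lit 22) (nat_lit 5) (nat_lit 23) (nat_lit 4) (nat_lit 374) (nat_lit 270) (nat_lit 136))))) (XT.nd (nat_lit 234) (nat_lit 76) (nat_lit 0) (XT.nd (nat_lit 78) (nat_lit 152) (nat_lit 0) (XT.lf (nat_lit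 0) (nat_lit 4289515457) (nat_lit 152) (nat_lit 8004988598) (nat_lit 76) (nat_lit 32907807193) (nat_lit 20) (nat_lit 5) (nat_lit 22) (nat_lit 5) (nat_lit 21) (nat_lit 5) (nat_lit 375) (nat_lit 270) (nat_lit 135)) (XT.nd (nat_lit 78) (nat_lit 0) (nat_lit 0) (XT.lf (nat_lit 0) (nat_lit 4293843771) (nat_lit 152) (nat_lit 5411040551) (nat_lit 228) (nat_lit 36636349867) (nat_lit 18) (nat_lit 5) (nat_lit 20) (nat_lit 5) (nat_lit 21) (nat_lit 5) (nat_lit 376) (nat_lit 270) (nat_lit 134)) (XT.lf (nat_lit 0) (nat_lit 15373029327) (nat_lit 228) (nat_lit 30416247690) (nat_lit 76) (nat_lit 1722342184) (nat_lit 18) (nat_lit 5) (nat_lit 21) (nat_lit 5) (nat_lit 19) (nat_lit 4) (nat_lit 377) (nat_lit 270) (nat_lit 133)))) (XT.nd (nat_lit 156) (nat_lit 76) (nat_lit 0) (XT.nd (nat_lit 78) (nat_lit 0) (nat_lit 0) (XT.lf (nat_lit 0) (nat_lit 21257551756) (nat_lit 228) (nat_lit 18502506724) (nat_lit 76) (nat_lit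 8955671014) (nat_lit 18) (nat_lit 5) (nat_lit 21) (nat_lit 5) (nat_lit 19) (nat_lit 4) (nat_lit 378) (nat_lit 270) (nat_lit 132)) (XT.lf (nat_lit 0) (nat_lit 27311579194) (nat_lit 228) (nat_lit 6243743225) (nat_lit 76) (nat_lit 16400855213) (nat_lit 18) (nat_lit 5) (nat_lit 21) (nat_lit 5) (nat_lit 19) (nat_lit 4) (nat_lit 379) (nat_lit 270) (nat_lit 131))) (XT.nd (nat_lit 78) (nat_lit 0) (nat_lit 0) (XT.lf (nat_lit 0) (nat_lit 6497544853) (nat_lit 76) (nat_lit 27105315091) (nat_lit 152) (nat_lit 17629313806) (nat_lit 17) (nat_lit 5) (nat_lit 18) (nat_lit 5) (nat_lit 19) (nat_lit 4) (nat_lit 380) (nat_lit 270) (nat_lit 130)) (XT.lf (nat_lit 0) (nat_lit 19737151287) (nat_lit 76) (nat_lit 20402035823) (nat_lit 152) (nat_lit 12405576808) (nat_lit 17) (nat_lit 5) (nat_lit 18) (nat_lit 5) (nat_lit 19) (nat_lit 4) (nat_lit 381) (nat_lit 270) (nat_lit 129)))))) (XT.nd (nat_lit 546) (nat_lit 228) (nat_lit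 0) (XT.nd (nat_lit 234) (nat_lit 0) (nat_lit 0) (XT.nd (nat_lit 78) (nat_lit 228) (nat_lit 0) (XT.lf (nat_lit 0) (nat_lit 33362381935) (nat_lit 76) (nat_lit 13502676944) (nat_lit 152) (nat_lit 7031872578) (nat_lit 17) (nat_lit 5) (nat_lit 18) (nat_lit 5) (nat_lit 19) (nat_lit 4) (nat_lit 382) (nat_lit 270) (nat_lit 128)) (XT.nd (nat_lit 78) (nat_lit 228) (nat_lit 0) (XT.lf (nat_lit 0) (nat_lit 47385142335) (nat_lit 76) (nat_lit 6401209888) (nat_lit 152) (nat_lit 1503505648) (nat_lit 17) (nat_lit 5) (nat_lit 18) (nat_lit 5) (nat_lit 19) (nat_lit 4) (nat_lit 383) (nat_lit 270) (nat_lit 127)) (XT.lf (nat_lit 0) (nat_lit 4161861502) (nat_lit 228) (nat_lit 51578428736) (nat_lit 76) (nat_lit 981488603) (nat_lit 14) (nat_lit 5) (nat_lit 17) (nat_lit 5) (nat_lit 15) (nat_lit 4) (nat_lit 384) (nat_lit 270) (nat_lit 126)))) (XT.nd (nat_lit 156) (nat_lit 0) (nat_lit 0) (XT.nd (nat_lit 78) (nat_lit 0) (nat_lit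 0) (XT.lf (nat_lit 0) (nat_lit 10104758645) (nat_lit 228) (nat_lit 39539481983) (nat_lit 76) (nat_lit 8547839528) (nat_lit 14) (nat_lit 5) (nat_lit 17) (nat_lit 5) (nat_lit 15) (nat_lit 4) (nat_lit 385) (nat_lit 270) (nat_lit 125)) (XT.lf (nat_lit 0) (nat_lit 16219920557) (nat_lit 228) (nat_lit 27150105677) (nat_lit 76) (nat_lit 16336647794) (nat_lit 14) (nat_lit 5) (nat_lit 17) (nat_lit 5) (nat_lit 15) (nat_lit 4) (nat_lit 386) (nat_lit 270) (nat_lit 124))) (XT.nd (nat_lit 78) (nat_lit 0) (nat_lit 0) (XT.lf (nat_lit 0) (nat_lit 22512690585) (nat_lit 228) (nat_lit 14399474148) (nat_lit 76) (nat_lit 24354719157) (nat_lit 14) (nat_lit 5) (nat_lit 17) (nat_lit 5) (nat_lit 15) (nat_lit 4) (nat_lit 387) (nat_lit 270) (nat_lit 123)) (XT.lf (nat_lit 0) (nat_lit 28988567264) (nat_lit 228) (nat_lit 1276446069) (nat_lit 76) (nat_lit 32609059699) (nat_lit 14) (nat_lit 5) (nat_lit 17) (nat_lit 5) (nat_lit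 15) (nat_lit 4) (nat_lit 388) (nat_lit 270) (nat_lit 122))))) (XT.nd (nat_lit 234) (nat_lit 152) (nat_lit 0) (XT.nd (nat_lit 78) (nat_lit 0) (nat_lit 0) (XT.lf (nat_lit 0) (nat_lit 12473855127) (nat_lit 76) (nat_lit 23299260328) (nat_lit 152) (nat_lit 28752933148) (nat_lit 13) (nat_lit 5) (nat_lit 14) (nat_lit 5) (nat_lit 15) (nat_lit 4) (nat_lit 389) (nat_lit 270) (nat_lit 121)) (XT.nd (nat_lit 78) (nat_lit 0) (nat_lit 0) (XT.lf (nat_lit 0) (nat_lit 26653100033) (nat_lit 76) (nat_lit 16115545520) (nat_lit 152) (nat_lit 23458717058) (nat_lit 13) (nat_lit 5) (nat_lit 14) (nat_lit 5) (nat_lit 15) (nat_lit 4) (nat_lit 390) (nat_lit 270) (nat_lit 120)) (XT.lf (nat_lit 0) (nat_lit 41248274501) (nat_lit 76) (nat_lit 8720481482) (nat_lit 152) (nat_lit 18011121088) (nat_lit 13) (nat_lit 5) (nat_lit 14) (nat_lit 5) (nat_lit 15) (nat_lit 4) (nat_lit 391) (nat_lit 270) (nat_lit 119)))) (XT.nd (nat_lit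 156) (nat_lit 76) (nat_lit 0) (XT.nd (nat_lit 78) (nat_lit 76) (nat_lit 0) (XT.lf (nat_lit 0) (nat_lit 56272131596) (nat_lit 76) (nat_lit 1107606506) (nat_lit 152) (nat_lit 12405385201) (nat_lit 13) (nat_lit 5) (nat_lit 14) (nat_lit 5) (nat_lit 15) (nat_lit 4) (nat_lit 392) (nat_lit 270) (nat_lit 118)) (XT.lf (nat_lit 0) (nat_lit 28995768) (nat_lit 76) (nat_lit 65044040777) (nat_lit 76) (nat_lit 6569693091) (nat_lit 12) (nat_lit 4) (nat_lit 13) (nat_lit 5) (nat_lit 13) (nat_lit 4) (nat_lit 393) (nat_lit 270) (nat_lit 117))) (XT.nd (nat_lit 78) (nat_lit 76) (nat_lit 0) (XT.lf (nat_lit 0) (nat_lit 14234130206) (nat_lit 76) (nat_lit 58905357829) (nat_lit 76) (nat_lit 412307754) (nat_lit 12) (nat_lit 4) (nat_lit 13) (nat_lit 5) (nat_lit 13) (nat_lit 4) (nat_lit 394) (nat_lit 270) (nat_lit 116)) (XT.lf (nat_lit 0) (nat_lit 5809222523) (nat_lit 152) (nat_lit 46718486012) (nat_lit 76) (nat_lit 22988863437)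 (nat_lit 11) (nat_lit 5) (nat_lit 13) (nat_lit 5) (nat_lit 12) (nat_lit 4) (nat_lit 395) (nat_lit 270) (nat_lit 115))))))))
noncomputable def xc135 : XT := (XT.nd (nat_lit 31980) (nat_lit 0) (nat_lit 7524) (XT.nd (nat_lit 30966) (nat_lit 0) (nat_lit 17100) (XT.nd (nat_lit 468) (nat_lit 76) (nat_lit 0) (XT.nd (nat_lit 234) (nat_lit 76) (nat_lit 0) (XT.nd (nat_lit 78) (nat_lit 0) (nat_lit 0) (XT.lf (nat_lit 0) (nat_lit 12204388547) (nat_lit 152) (nat_lit 33753927779) (nat_lit 76) (nat_lit 31581996403) (nat_lit 11) (nat_lit 5) (nat_lit 13) (nat_lit 5) (nat_lit 12) (nat_lit 4) (nat_lit 396) (nat_lit 270) (nat_lit 114)) (XT.nd (nat_lit 78) (nat_lit 0) (nat_lit 0) (XT.lf (nat_lit 0) (nat_lit 18786823935) (nat_lit 152) (nat_lit 20408699276) (nat_lit 76) (nat_lit 40429382068) (nat_lit 11) (nat_lit 5) (nat_lit 13) (nat_lit 5) (nat_lit 12) (nat_lit 4) (nat_lit 397) (nat_lit 270) (nat_lit 113)) (XT.lf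 (nat_lit 0) (nat_lit 25562280331) (nat_lit 152) (nat_lit 6671139623) (nat_lit 76) (nat_lit 49538751157) (nat_lit 11) (nat_lit 5) (nat_lit 13) (nat_lit 5) (nat_lit 12) (nat_lit 4) (nat_lit 398) (nat_lit 270) (nat_lit 112)))) (XT.nd (nat_lit 78) (nat_lit 0) (nat_lit 0) (XT.lf (nat_lit 0) (nat_lit 7619437541) (nat_lit 76) (nat_lit 24990483189) (nat_lit 152) (nat_lit 51371868465) (nat_lit 10) (nat_lit 5) (nat_lit 11) (nat_lit 5) (nat_lit 12) (nat_lit 4) (nat_lit 399) (nat_lit 270) (nat_lit 111)) (XT.nd (nat_lit 78) (nat_lit 0) (nat_lit 0) (XT.lf (nat_lit 0) (nat_lit 22467768289) (nat_lit 76) (nat_lit 17464316828) (nat_lit 152) (nat_lit 46323719694) (nat_lit 10) (nat_lit 5) (nat_lit 11) (nat_lit 5) (nat_lit 12) (nat_lit 4) (nat_lit 400) (nat_lit 270) (nat_lit 110)) (XT.lf (nat_lit 0) (nat_lit 37754058128) (nat_lit 76) (nat_lit 9715710039) (nat_lit 152) (nat_lit 41128398894) (nat_lit 10) (nat_lit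 5) (nat_lit 11) (nat_lit 5) (nat_lit 12) (nat_lit 4) (nat_lit 401) (nat_lit 270) (nat_lit 109))))) (XT.nd (nat_lit 234) (nat_lit 76) (nat_lit 0) (XT.nd (nat_lit 78) (nat_lit 0) (nat_lit 0) (XT.lf (nat_lit 0) (nat_lit 53491664011) (nat_lit 76) (nat_lit 1737892196) (nat_lit 152) (nat_lit 35781366463) (nat_lit 10) (nat_lit 5) (nat_lit 11) (nat_lit 5) (nat_lit 12) (nat_lit 4) (nat_lit 402) (nat_lit 270) (nat_lit 108)) (XT.nd (nat_lit 78) (nat_lit 0) (nat_lit 0) (XT.lf (nat_lit 0) (nat_lit 63280481943) (nat_lit 152) (nat_lit 23864094936) (nat_lit 0) (nat_lit 6349735423) (nat_lit 10) (nat_lit 5) (nat_lit 12) (nat_lit 4) (nat_lit 10) (nat_lit 4) (nat_lit 403) (nat_lit 270) (nat_lit 107)) (XT.lf (nat_lit 0) (nat_lit 71586318461) (nat_lit 152) (nat_lit 9823424364) (nat_lit 0) (nat_lit 14642060937) (nat_lit 10) (nat_lit 5) (nat_lit 12) (nat_lit 4) (nat_lit 10) (nat_lit 4) (nat_lit 404) (nat_lit 270) (nat_lit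 106)))) (XT.nd (nat_lit 156) (nat_lit 0) (nat_lit 0) (XT.nd (nat_lit 78) (nat_lit 0) (nat_lit 0) (XT.lf (nat_lit 0) (nat_lit 4723907741) (nat_lit 76) (nat_lit 75459118954) (nat_lit 76) (nat_lit 18501743950) (nat_lit 9) (nat_lit 4) (nat_lit 10) (nat_lit 5) (nat_lit 10) (nat_lit 4) (nat_lit 405) (nat_lit 270) (nat_lit 105)) (XT.lf (nat_lit 0) (nat_lit 19902357410) (nat_lit 76) (nat_lit 69230807608) (nat_lit 76) (nat_lit 12260697187) (nat_lit 9) (nat_lit 4) (nat_lit 10) (nat_lit 5) (nat_lit 10) (nat_lit 4) (nat_lit 406) (nat_lit 270) (nat_lit 104))) (XT.nd (nat_lit 30030) (nat_lit 0) (nat_lit 19228) (XT.lf (nat_lit 0) (nat_lit 35529681957) (nat_lit 76) (nat_lit 62818563897) (nat_lit 76) (nat_lit 5836088994) (nat_lit 9) (nat_lit 4) (nat_lit 10) (nat_lit 5) (nat_lit 10) (nat_lit 4) (nat_lit 407) (nat_lit 270) (nat_lit 103)) (XT.lf (nat_lit 0) (nat_lit 2395644971) (nat_lit 684) (nat_lit 545122628)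 (nat_lit 684) (nat_lit 545122628) (nat_lit 262) (nat_lit 3) (nat_lit 271) (nat_lit 3) (nat_lit 271) (nat_lit 5) (nat_lit 271) (nat_lit 271) (nat_lit 238)))))) (XT.nd (nat_lit 468) (nat_lit 760) (nat_lit 0) (XT.nd (nat_lit 234) (nat_lit 684) (nat_lit 0) (XT.nd (nat_lit 78) (nat_lit 684) (nat_lit 0) (XT.lf (nat_lit 76) (nat_lit 2095610962) (nat_lit 0) (nat_lit 4488781376) (nat_lit 684) (nat_lit 436708825) (nat_lit 263) (nat_lit 5) (nat_lit 262) (nat_lit 3) (nat_lit 271) (nat_lit 5) (nat_lit 272) (nat_lit 271) (nat_lit 237)) (XT.nd (nat_lit 78) (nat_lit 0) (nat_lit 0) (XT.lf (nat_lit 0) (nat_lit 1276454382) (nat_lit 684) (nat_lit 1721779300) (nat_lit 760) (nat_lit 4075105081) (nat_lit 253) (nat_lit 5) (nat_lit 262) (nat_lit 3) (nat_lit 263) (nat_lit 5) (nat_lit 273) (nat_lit 271) (nat_lit 236)) (XT.lf (nat_lit 76) (nat_lit 1568972611) (nat_lit 0) (nat_lit 1412787345) (nat_lit 760) (nat_lit 4146901205)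 (nat_lit 254) (nat_lit 5) (nat_lit 253) (nat_lit 5) (nat_lit 263) (nat_lit 5) (nat_lit 274) (nat_lit 271) (nat_lit 235)))) (XT.nd (nat_lit 78) (nat_lit 760) (nat_lit 0) (XT.lf (nat_lit 0) (nat_lit 4694194600) (nat_lit 684) (nat_lit 2231012143) (nat_lit 760) (nat_lit 261886644) (nat_lit 254) (nat_lit 5) (nat_lit 263) (nat_lit 5) (nat_lit 264) (nat_lit 5) (nat_lit 275) (nat_lit 271) (nat_lit 234)) (XT.nd (nat_lit 78) (nat_lit 760) (nat_lit 0) (XT.lf (nat_lit 76) (nat_lit 1170114050) (nat_lit 0) (nat_lit 5251273838) (nat_lit 760) (nat_lit 827114614) (nat_lit 255) (nat_lit 5) (nat_lit 254) (nat_lit 5) (nat_lit 264) (nat_lit 5) (nat_lit 276) (nat_lit 271) (nat_lit 233)) (XT.lf (nat_lit 0) (nat_lit 832943074) (nat_lit 760) (nat_lit 2638070397) (nat_lit 836) (nat_lit 3841753222) (nat_lit 244) (nat_lit 5) (nat_lit 254) (nat_lit 5) (nat_lit 255) (nat_lit 5) (nat_lit 277) (nat_lit 271) (nat_lit 232)))))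 (XT.nd (nat_lit 234) (nat_lit 760) (nat_lit 0) (XT.nd (nat_lit 78) (nat_lit 0) (nat_lit 76) (XT.lf (nat_lit 76) (nat_lit 878255659) (nat_lit 0) (nat_lit 1597033630) (nat_lit 836) (nat_lit 4905065353) (nat_lit 245) (nat_lit 5) (nat_lit 244) (nat_lit 5) (nat_lit 255) (nat_lit 5) (nat_lit 278) (nat_lit 271) (nat_lit 231)) (XT.nd (nat_lit 78) (nat_lit 0) (nat_lit 0) (XT.lf (nat_lit 0) (nat_lit 4139277171) (nat_lit 760) (nat_lit 2936346698) (nat_lit 836) (nat_lit 375286719) (nat_lit 245) (nat_lit 5) (nat_lit 255) (nat_lit 5) (nat_lit 256) (nat_lit 5) (nat_lit 279) (nat_lit 271) (nat_lit 230)) (XT.lf (nat_lit 76) (nat_lit 697419124) (nat_lit 0) (nat_lit 5122228974) (nat_lit 836) (nat_lit 1705049461) (nat_lit 246) (nat_lit 5) (nat_lit 245) (nat_lit 5) (nat_lit 256) (nat_lit 5) (nat_lit 280) (nat_lit 271) (nat_lit 229)))) (XT.nd (nat_lit 156) (nat_lit 0) (nat_lit 76) (XT.nd (nat_lit 78) (nat_lit 836)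 (nat_lit 0) (XT.lf (nat_lit 76) (nat_lit 4463994529) (nat_lit 0) (nat_lit 3061316895) (nat_lit 836) (nat_lit 76245373) (nat_lit 246) (nat_lit 5) (nat_lit 245) (nat_lit 5) (nat_lit 256) (nat_lit 5) (nat_lit 281) (nat_lit 271) (nat_lit 228)) (XT.lf (nat_lit 76) (nat_lit 623105182) (nat_lit 0) (nat_lit 899256439) (nat_lit 912) (nat_lit 6159431787) (nat_lit 235) (nat_lit 5) (nat_lit 234) (nat_lit 5) (nat_lit 246) (nat_lit 5) (nat_lit 282) (nat_lit 271) (nat_lit 227))) (XT.nd (nat_lit 78) (nat_lit 0) (nat_lit 0) (XT.lf (nat_lit 0) (nat_lit 3159729809) (nat_lit 836) (nat_lit 3254387035) (nat_lit 912) (nat_lit 1350623743) (nat_lit 235) (nat_lit 5) (nat_lit 246) (nat_lit 5) (nat_lit 247) (nat_lit 5) (nat_lit 283) (nat_lit 271) (nat_lit 226)) (XT.lf (nat_lit 76) (nat_lit 630571488) (nat_lit 0) (nat_lit 4179715607) (nat_lit 912) (nat_lit 3041060419) (nat_lit 236) (nat_lit 5) (nat_lit 235) (nat_lit 5)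 (nat_lit 247) (nat_lit 5) (nat_lit 284) (nat_lit 271) (nat_lit 225))))))) (XT.nd (nat_lit 1014) (nat_lit 4028) (nat_lit 0) (XT.nd (nat_lit 468) (nat_lit 2888) (nat_lit 0) (XT.nd (nat_lit 234) (nat_lit 1900) (nat_lit 0) (XT.nd (nat_lit 78) (nat_lit 836) (nat_lit 0) (XT.lf (nat_lit 76) (nat_lit 4662279114) (nat_lit 0) (nat_lit 1831179465) (nat_lit 912) (nat_lit 1447691802) (nat_lit 236) (nat_lit 5) (nat_lit 235) (nat_lit 5) (nat_lit 247) (nat_lit 5) (nat_lit 285) (nat_lit 271) (nat_lit 224)) (XT.nd (nat_lit 78) (nat_lit 0) (nat_lit 0) (XT.lf (nat_lit 0) (nat_lit 153965247) (nat_lit 912) (nat_lit 7283074571) (nat_lit 76) (nat_lit 597709290) (nat_lit 224) (nat_lit 5) (nat_lit 236) (nat_lit 5) (nat_lit 225) (nat_lit 5) (nat_lit 286) (nat_lit 271) (nat_lit 223)) (XT.lf (nat_lit 0) (nat_lit 1778450950) (nat_lit 912) (nat_lit 3230381492) (nat_lit 76) (nat_lit 3121860026) (nat_lit 224) (nat_lit 5) (nat_lit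 236) (nat_lit 5) (nat_lit 225) (nat_lit 5) (nat_lit 287) (nat_lit 271) (nat_lit 222)))) (XT.nd (nat_lit 78) (nat_lit 988) (nat_lit 0) (XT.lf (nat_lit 0) (nat_lit 925270587) (nat_lit 912) (nat_lit 2488991632) (nat_lit 988) (nat_lit 4816454729) (nat_lit 212) (nat_lit 5) (nat_lit 224) (nat_lit 5) (nat_lit 225) (nat_lit 5) (nat_lit 288) (nat_lit 271) (nat_lit 221)) (XT.nd (nat_lit 78) (nat_lit 988) (nat_lit 0) (XT.lf (nat_lit 0) (nat_lit 5087897170) (nat_lit 988) (nat_lit 3100139115) (nat_lit 76) (nat_lit 146121596) (nat_lit 212) (nat_lit 5) (nat_lit 225) (nat_lit 5) (nat_lit 213) (nat_lit 5) (nat_lit 289) (nat_lit 271) (nat_lit 220)) (XT.lf (nat_lit 0) (nat_lit 1193228965) (nat_lit 988) (nat_lit 5610725382) (nat_lit 1064) (nat_lit 1637057224) (nat_lit 199) (nat_lit 5) (nat_lit 212) (nat_lit 5) (nat_lit 213) (nat_lit 5) (nat_lit 290) (nat_lit 271) (nat_lit 219))))) (XT.nd (nat_lit 234) (nat_lit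 1748) (nat_lit 0) (XT.nd (nat_lit 78) (nat_lit 1064) (nat_lit 0) (XT.lf (nat_lit 0) (nat_lit 8170007) (nat_lit 1064) (nat_lit 2909005670) (nat_lit 76) (nat_lit 5634316485) (nat_lit 198) (nat_lit 5) (nat_lit 212) (nat_lit 5) (nat_lit 199) (nat_lit 5) (nat_lit 291) (nat_lit 271) (nat_lit 218)) (XT.nd (nat_lit 78) (nat_lit 0) (nat_lit 0) (XT.lf (nat_lit 0) (nat_lit 1537499507) (nat_lit 1064) (nat_lit 104927668) (nat_lit 1140) (nat_lit 7023265932) (nat_lit 184) (nat_lit 5) (nat_lit 198) (nat_lit 5) (nat_lit 199) (nat_lit 5) (nat_lit 292) (nat_lit 271) (nat_lit 217)) (XT.lf (nat_lit 0) (nat_lit 3340947250) (nat_lit 1140) (nat_lit 2669766380) (nat_lit 76) (nat_lit 2772216852) (nat_lit 184) (nat_lit 5) (nat_lit 199) (nat_lit 5) (nat_lit 185) (nat_lit 5) (nat_lit 293) (nat_lit 271) (nat_lit 216)))) (XT.nd (nat_lit 156) (nat_lit 608) (nat_lit 0) (XT.nd (nat_lit 78) (nat_lit 0) (nat_lit 0) (XT.lf (nat_lit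 0) (nat_lit 1922746016) (nat_lit 1140) (nat_lit 3147134021) (nat_lit 1216) (nat_lit 3834486719) (nat_lit 169) (nat_lit 5) (nat_lit 184) (nat_lit 5) (nat_lit 185) (nat_lit 5) (nat_lit 294) (nat_lit 271) (nat_lit 215)) (XT.lf (nat_lit 0) (nat_lit 6671967322) (nat_lit 1140) (nat_lit 166431355) (nat_lit 1216) (nat_lit 2191479490) (nat_lit 169) (nat_lit 5) (nat_lit 184) (nat_lit 5) (nat_lit 185) (nat_lit 5) (nat_lit 295) (nat_lit 271) (nat_lit 214))) (XT.nd (nat_lit 78) (nat_lit 76) (nat_lit 0) (XT.lf (nat_lit 0) (nat_lit 2387192629) (nat_lit 532) (nat_lit 6285573064) (nat_lit 608) (nat_lit 486067175) (nat_lit 162) (nat_lit 5) (nat_lit 169) (nat_lit 5) (nat_lit 170) (nat_lit 5) (nat_lit 296) (nat_lit 271) (nat_lit 213)) (XT.lf (nat_lit 0) (nat_lit 1233680887) (nat_lit 608) (nat_lit 2018498914) (nat_lit 76) (nat_lit 6039529245) (nat_lit 161) (nat_lit 5) (nat_lit 169) (nat_lit 5) (nat_lit 162) (nat_lit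 5) (nat_lit 297) (nat_lit 271) (nat_lit 212)))))) (XT.nd (nat_lit 546) (nat_lit 1824) (nat_lit 0) (XT.nd (nat_lit 234) (nat_lit 1064) (nat_lit 0) (XT.nd (nat_lit 78) (nat_lit 532) (nat_lit 0) (XT.lf (nat_lit 0) (nat_lit 2893503673) (nat_lit 608) (nat_lit 92932959) (nat_lit 684) (nat_lit 6442311454) (nat_lit 153) (nat_lit 5) (nat_lit 161) (nat_lit 5) (nat_lit 162) (nat_lit 5) (nat_lit 298) (nat_lit 271) (nat_lit 211)) (XT.nd (nat_lit 78) (nat_lit 532) (nat_lit 0) (XT.lf (nat_lit 0) (nat_lit 4806855051) (nat_lit 684) (nat_lit 1641807721) (nat_lit 76) (nat_lit 3120837973) (nat_lit 153) (nat_lit 5) (nat_lit 162) (nat_lit 5) (nat_lit 154) (nat_lit 5) (nat_lit 299) (nat_lit 271) (nat_lit 210)) (XT.lf (nat_lit 0) (nat_lit 3429307420) (nat_lit 532) (nat_lit 3251617666) (nat_lit 608) (nat_lit 3033632977) (nat_lit 146) (nat_lit 5) (nat_lit 153) (nat_lit 5) (nat_lit 154) (nat_lit 5) (nat_lit 300) (nat_lit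 271) (nat_lit 209)))) (XT.nd (nat_lit 156) (nat_lit 456) (nat_lit 0) (XT.nd (nat_lit 78) (nat_lit 608) (nat_lit 0) (XT.lf (nat_lit 0) (nat_lit 8594186837) (nat_lit 608) (nat_lit 1213668869) (nat_lit 76) (nat_lit 56674008) (nat_lit 146) (nat_lit 5) (nat_lit 154) (nat_lit 5) (nat_lit 147) (nat_lit 5) (nat_lit 301) (nat_lit 271) (nat_lit 208)) (XT.lf (nat_lit 0) (nat_lit 573194340) (nat_lit 608) (nat_lit 6002004136) (nat_lit 76) (nat_lit 3442553363) (nat_lit 138) (nat_lit 5) (nat_lit 146) (nat_lit 5) (nat_lit 139) (nat_lit 5) (nat_lit 302) (nat_lit 271) (nat_lit 207))) (XT.nd (nat_lit 78) (nat_lit 456) (nat_lit 0) (XT.lf (nat_lit 0) (nat_lit 2425971412) (nat_lit 608) (nat_lit 796142166) (nat_lit 76) (nat_lit 6953743044) (nat_lit 138) (nat_lit 5) (nat_lit 146) (nat_lit 5) (nat_lit 139) (nat_lit 5) (nat_lit 303) (nat_lit 271) (nat_lit 206)) (XT.lf (nat_lit 0) (nat_lit 4349453446) (nat_lit 532) (nat_lit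 5719076254) (nat_lit 76) (nat_lit 269767133) (nat_lit 132) (nat_lit 5) (nat_lit 139) (nat_lit 5) (nat_lit 133) (nat_lit 5) (nat_lit 304) (nat_lit 271) (nat_lit 205))))) (XT.nd (nat_lit 234) (nat_lit 912) (nat_lit 0) (XT.nd (nat_lit 78) (nat_lit 912) (nat_lit 0) (XT.lf (nat_lit 0) (nat_lit 6339291059) (nat_lit 532) (nat_lit 358754805) (nat_lit 76) (nat_lit 3807349449) (nat_lit 132) (nat_lit 5) (nat_lit 139) (nat_lit 5) (nat_lit 133) (nat_lit 5) (nat_lit 305) (nat_lit 271) (nat_lit 204)) (XT.nd (nat_lit 78) (nat_lit 456) (nat_lit 0) (XT.lf (nat_lit 0) (nat_lit 5230690196) (nat_lit 456) (nat_lit 3177957822) (nat_lit 532) (nat_lit 2268307303) (nat_lit 126) (nat_lit 5) (nat_lit 132) (nat_lit 5) (nat_lit 133) (nat_lit 5) (nat_lit 306) (nat_lit 271) (nat_lit 203)) (XT.lf (nat_lit 0) (nat_lit 104998837) (nat_lit 456) (nat_lit 10414134061) (nat_lit 532) (nat_lit 335199850) (nat_lit 120) (nat_lit 5) (nat_lit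 126) (nat_lit 5) (nat_lit 127) (nat_lit 5) (nat_lit 307) (nat_lit 271) (nat_lit 202)))) (XT.nd (nat_lit 156) (nat_lit 380) (nat_lit 0) (XT.nd (nat_lit 78) (nat_lit 456) (nat_lit 0) (XT.lf (nat_lit 0) (nat_lit 1680883637) (nat_lit 532) (nat_lit 5183488668) (nat_lit 76) (nat_lit 4170502429) (nat_lit 119) (nat_lit 5) (nat_lit 126) (nat_lit 5) (nat_lit 120) (nat_lit 5) (nat_lit 308) (nat_lit 271) (nat_lit 201)) (XT.lf (nat_lit 0) (nat_lit 522595403) (nat_lit 456) (nat_lit 3204295260) (nat_lit 532) (nat_lit 7494595875) (nat_lit 113) (nat_lit 5) (nat_lit 119) (nat_lit 5) (nat_lit 120) (nat_lit 5) (nat_lit 309) (nat_lit 271) (nat_lit 200))) (XT.nd (nat_lit 78) (nat_lit 380) (nat_lit 0) (XT.lf (nat_lit 0) (nat_lit 5864203176) (nat_lit 532) (nat_lit 4946088251) (nat_lit 76) (nat_lit 602544861) (nat_lit 113) (nat_lit 5) (nat_lit 120) (nat_lit 5) (nat_lit 114) (nat_lit 5) (nat_lit 310) (nat_lit 271) (nat_lit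 199)) (XT.lf (nat_lit 0) (nat_lit 932640857) (nat_lit 380) (nat_lit 7146138624) (nat_lit 456) (nat_lit 3530788978) (nat_lit 108) (nat_lit 5) (nat_lit 113) (nat_lit 5) (nat_lit 114) (nat_lit 5) (nat_lit 311) (nat_lit 271) (nat_lit 198))))))))
noncomputable def xc136 : XT := (XT.nd (nat_lit 2028) (nat_lit 2052) (nat_lit 0) (XT.nd (nat_lit 1014) (nat_lit 1672) (nat_lit 0) (XT.nd (nat_lit 468) (nat_lit 1140) (nat_lit 0) (XT.nd (nat_lit 234) (nat_lit 760) (nat_lit 0) (XT.nd (nat_lit 78) (nat_lit 456) (nat_lit 0) (XT.lf (nat_lit 0) (nat_lit 7056315266) (nat_lit 380) (nat_lit 3326364175) (nat_lit 456) (nat_lit 1428871768) (nat_lit 108) (nat_lit 5) (nat_lit 113) (nat_lit 5) (nat_lit 114) (nat_lit 5) (nat_lit 312) (nat_lit 271) (nat_lit 197)) (XT.nd (nat_lit 78) (nat_lit 0) (nat_lit 0) (XT.lf (nat_lit 0) (nat_lit 713949377) (nat_lit 456) (nat_lit 10695230408) (nat_lit 76) (nat_lit 610468252) (nat_lit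 102) (nat_lit 5) (nat_lit 108) (nat_lit 5) (nat_lit 103) (nat_lit 5) (nat_lit 313) (nat_lit 271) (nat_lit 196)) (XT.lf (nat_lit 0) (nat_lit 2947607211) (nat_lit 456) (nat_lit 4629018387) (nat_lit 76) (nat_lit 4655311843) (nat_lit 102) (nat_lit 5) (nat_lit 108) (nat_lit 5) (nat_lit 103) (nat_lit 5) (nat_lit 314) (nat_lit 271) (nat_lit 195)))) (XT.nd (nat_lit 78) (nat_lit 380) (nat_lit 0) (XT.lf (nat_lit 0) (nat_lit 1618874251) (nat_lit 380) (nat_lit 3619566675) (nat_lit 456) (nat_lit 7212480896) (nat_lit 97) (nat_lit 5) (nat_lit 102) (nat_lit 5) (nat_lit 103) (nat_lit 5) (nat_lit 315) (nat_lit 271) (nat_lit 194)) (XT.nd (nat_lit 78) (nat_lit 380) (nat_lit 0) (XT.lf (nat_lit 0) (nat_lit 7624568730) (nat_lit 456) (nat_lit 4563126116) (nat_lit 76) (nat_lit 488014185) (nat_lit 97) (nat_lit 5) (nat_lit 103) (nat_lit 5) (nat_lit 98) (nat_lit 5) (nat_lit 316) (nat_lit 271) (nat_lit 193)) (XT.lf (nat_lit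 0) (nat_lit 1863022111) (nat_lit 380) (nat_lit 8248709828) (nat_lit 456) (nat_lit 2794653855) (nat_lit 92) (nat_lit 5) (nat_lit 97) (nat_lit 5) (nat_lit 98) (nat_lit 5) (nat_lit 317) (nat_lit 271) (nat_lit 192))))) (XT.nd (nat_lit 234) (nat_lit 760) (nat_lit 0) (XT.nd (nat_lit 78) (nat_lit 380) (nat_lit 0) (XT.lf (nat_lit 0) (nat_lit 8544443978) (nat_lit 380) (nat_lit 4151259586) (nat_lit 456) (nat_lit 447642114) (nat_lit 92) (nat_lit 5) (nat_lit 97) (nat_lit 5) (nat_lit 98) (nat_lit 5) (nat_lit 318) (nat_lit 271) (nat_lit 191)) (XT.nd (nat_lit 78) (nat_lit 0) (nat_lit 0) (XT.lf (nat_lit 0) (nat_lit 1928375133) (nat_lit 380) (nat_lit 11359056259) (nat_lit 76) (nat_lit 99530927) (nat_lit 87) (nat_lit 5) (nat_lit 92) (nat_lit 5) (nat_lit 88) (nat_lit 5) (nat_lit 319) (nat_lit 271) (nat_lit 190)) (XT.lf (nat_lit 0) (nat_lit 4431551976) (nat_lit 380) (nat_lit 4765683796) (nat_lit 76) (nat_lit 4438598633)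 (nat_lit 87) (nat_lit 5) (nat_lit 92) (nat_lit 5) (nat_lit 88) (nat_lit 5) (nat_lit 320) (nat_lit 271) (nat_lit 189)))) (XT.nd (nat_lit 156) (nat_lit 380) (nat_lit 0) (XT.nd (nat_lit 78) (nat_lit 0) (nat_lit 0) (XT.lf (nat_lit 0) (nat_lit 2035117770) (nat_lit 380) (nat_lit 4971817664) (nat_lit 456) (nat_lit 6885349313) (nat_lit 82) (nat_lit 5) (nat_lit 87) (nat_lit 5) (nat_lit 88) (nat_lit 5) (nat_lit 321) (nat_lit 271) (nat_lit 188)) (XT.lf (nat_lit 0) (nat_lit 9107845629) (nat_lit 380) (nat_lit 577774915) (nat_lit 456) (nat_lit 4470051544) (nat_lit 82) (nat_lit 5) (nat_lit 87) (nat_lit 5) (nat_lit 88) (nat_lit 5) (nat_lit 322) (nat_lit 271) (nat_lit 187))) (XT.nd (nat_lit 78) (nat_lit 76) (nat_lit 0) (XT.lf (nat_lit 0) (nat_lit 1936106005) (nat_lit 304) (nat_lit 10543610076) (nat_lit 380) (nat_lit 1946217444) (nat_lit 78) (nat_lit 5) (nat_lit 82) (nat_lit 5) (nat_lit 83) (nat_lit 5) (nat_lit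 323) (nat_lit 271) (nat_lit 186)) (XT.lf (nat_lit 0) (nat_lit 676381823) (nat_lit 380) (nat_lit 5511923449) (nat_lit 76) (nat_lit 8514757754) (nat_lit 77) (nat_lit 5) (nat_lit 82) (nat_lit 5) (nat_lit 78) (nat_lit 5) (nat_lit 324) (nat_lit 271) (nat_lit 185)))))) (XT.nd (nat_lit 468) (nat_lit 760) (nat_lit 0) (XT.nd (nat_lit 234) (nat_lit 380) (nat_lit 0) (XT.nd (nat_lit 78) (nat_lit 228) (nat_lit 0) (XT.lf (nat_lit 0) (nat_lit 1659621491) (nat_lit 304) (nat_lit 1674097736) (nat_lit 380) (nat_lit 11654375723) (nat_lit 73) (nat_lit 5) (nat_lit 77) (nat_lit 5) (nat_lit 78) (nat_lit 5) (nat_lit 325) (nat_lit 271) (nat_lit 184)) (XT.nd (nat_lit 78) (nat_lit 228) (nat_lit 0) (XT.lf (nat_lit 0) (nat_lit 6135067211) (nat_lit 380) (nat_lit 6178946434) (nat_lit 76) (nat_lit 2965756773) (nat_lit 73) (nat_lit 5) (nat_lit 78) (nat_lit 5) (nat_lit 74) (nat_lit 5) (nat_lit 326) (nat_lit 271) (nat_lit 183))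 (XT.lf (nat_lit 0) (nat_lit 1162945163) (nat_lit 228) (nat_lit 7865339470) (nat_lit 304) (nat_lit 6551697327) (nat_lit 70) (nat_lit 5) (nat_lit 73) (nat_lit 5) (nat_lit 74) (nat_lit 5) (nat_lit 327) (nat_lit 271) (nat_lit 182)))) (XT.nd (nat_lit 78) (nat_lit 380) (nat_lit 0) (XT.lf (nat_lit 0) (nat_lit 8823793446) (nat_lit 228) (nat_lit 3227286763) (nat_lit 304) (nat_lit 3836856266) (nat_lit 70) (nat_lit 5) (nat_lit 73) (nat_lit 5) (nat_lit 74) (nat_lit 5) (nat_lit 328) (nat_lit 271) (nat_lit 181)) (XT.nd (nat_lit 78) (nat_lit 76) (nat_lit 0) (XT.lf (nat_lit 0) (nat_lit 476067876) (nat_lit 304) (nat_lit 14688846433) (nat_lit 380) (nat_lit 1040224170) (nat_lit 66) (nat_lit 5) (nat_lit 70) (nat_lit 5) (nat_lit 71) (nat_lit 5) (nat_lit 329) (nat_lit 271) (nat_lit 180)) (XT.lf (nat_lit 0) (nat_lit 1889357875) (nat_lit 380) (nat_lit 8220559943) (nat_lit 76) (nat_lit 6418877534) (nat_lit 65) (nat_lit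 5) (nat_lit 70) (nat_lit 5) (nat_lit 66) (nat_lit 5) (nat_lit 330) (nat_lit 271) (nat_lit 179))))) (XT.nd (nat_lit 234) (nat_lit 532) (nat_lit 0) (XT.nd (nat_lit 78) (nat_lit 228) (nat_lit 0) (XT.lf (nat_lit 0) (nat_lit 4867442624) (nat_lit 380) (nat_lit 524070657) (nat_lit 76) (nat_lit 11470911828) (nat_lit 65) (nat_lit 5) (nat_lit 70) (nat_lit 5) (nat_lit 66) (nat_lit 5) (nat_lit 331) (nat_lit 271) (nat_lit 178)) (XT.nd (nat_lit 78) (nat_lit 0) (nat_lit 0) (XT.lf (nat_lit 0) (nat_lit 7523940797) (nat_lit 228) (nat_lit 465314731) (nat_lit 304) (nat_lit 9215193983) (nat_lit 62) (nat_lit 5) (nat_lit 65) (nat_lit 5) (nat_lit 66) (nat_lit 5) (nat_lit 332) (nat_lit 271) (nat_lit 177)) (XT.lf (nat_lit 0) (nat_lit 11236623255) (nat_lit 304) (nat_lit 1803196320) (nat_lit 76) (nat_lit 4515974870) (nat_lit 62) (nat_lit 5) (nat_lit 66) (nat_lit 5) (nat_lit 63) (nat_lit 5) (nat_lit 333) (nat_lit 271) (nat_lit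 176)))) (XT.nd (nat_lit 156) (nat_lit 304) (nat_lit 0) (XT.nd (nat_lit 78) (nat_lit 0) (nat_lit 0) (XT.lf (nat_lit 0) (nat_lit 6405183344) (nat_lit 228) (nat_lit 8225177741) (nat_lit 304) (nat_lit 3285866493) (nat_lit 59) (nat_lit 5) (nat_lit 62) (nat_lit 5) (nat_lit 63) (nat_lit 5) (nat_lit 334) (nat_lit 271) (nat_lit 175)) (XT.lf (nat_lit 0) (nat_lit 14871396241) (nat_lit 228) (nat_lit 3255752831) (nat_lit 304) (nat_lit 160303344) (nat_lit 59) (nat_lit 5) (nat_lit 62) (nat_lit 5) (nat_lit 63) (nat_lit 5) (nat_lit 335) (nat_lit 271) (nat_lit 174))) (XT.nd (nat_lit 78) (nat_lit 0) (nat_lit 0) (XT.lf (nat_lit 0) (nat_lit 3048988332) (nat_lit 304) (nat_lit 13722346466) (nat_lit 76) (nat_lit 1896122353) (nat_lit 55) (nat_lit 5) (nat_lit 59) (nat_lit 5) (nat_lit 56) (nat_lit 5) (nat_lit 336) (nat_lit 271) (nat_lit 173)) (XT.lf (nat_lit 0) (nat_lit 6401921446) (nat_lit 304) (nat_lit 5490023323) (nat_lit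 76) (nat_lit 7165366611) (nat_lit 55) (nat_lit 5) (nat_lit 59) (nat_lit 5) (nat_lit 56) (nat_lit 5) (nat_lit 337) (nat_lit 271) (nat_lit 172))))))) (XT.nd (nat_lit 1014) (nat_lit 760) (nat_lit 0) (XT.nd (nat_lit 468) (nat_lit 608) (nat_lit 0) (XT.nd (nat_lit 234) (nat_lit 304) (nat_lit 0) (XT.nd (nat_lit 78) (nat_lit 152) (nat_lit 0) (XT.lf (nat_lit 0) (nat_lit 3023837973) (nat_lit 228) (nat_lit 6844664221) (nat_lit 304) (nat_lit 9589981335) (nat_lit 52) (nat_lit 5) (nat_lit 55) (nat_lit 5) (nat_lit 56) (nat_lit 5) (nat_lit 338) (nat_lit 271) (nat_lit 171)) (XT.nd (nat_lit 78) (nat_lit 152) (nat_lit 0) (XT.lf (nat_lit 0) (nat_lit 11881457278) (nat_lit 228) (nat_lit 1597287845) (nat_lit 304) (nat_lit 6391769447) (nat_lit 52) (nat_lit 5) (nat_lit 55) (nat_lit 5) (nat_lit 56) (nat_lit 5) (nat_lit 339) (nat_lit 271) (nat_lit 170)) (XT.lf (nat_lit 0) (nat_lit 662335849) (nat_lit 152) (nat_lit 16562533480)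 (nat_lit 228) (nat_lit 3069223268) (nat_lit 50) (nat_lit 5) (nat_lit 52) (nat_lit 5) (nat_lit 53) (nat_lit 5) (nat_lit 340) (nat_lit 271) (nat_lit 169)))) (XT.nd (nat_lit 78) (nat_lit 228) (nat_lit 0) (XT.lf (nat_lit 0) (nat_lit 428063518) (nat_lit 228) (nat_lit 11034896579) (nat_lit 76) (nat_lit 9264870005) (nat_lit 49) (nat_lit 5) (nat_lit 52) (nat_lit 5) (nat_lit 50) (nat_lit 5) (nat_lit 341) (nat_lit 271) (nat_lit 168)) (XT.nd (nat_lit 78) (nat_lit 228) (nat_lit 0) (XT.lf (nat_lit 0) (nat_lit 3953692417) (nat_lit 228) (nat_lit 2233791507) (nat_lit 76) (nat_lit 14986642949) (nat_lit 49) (nat_lit 5) (nat_lit 52) (nat_lit 5) (nat_lit 50) (nat_lit 5) (nat_lit 342) (nat_lit 271) (nat_lit 167)) (XT.lf (nat_lit 0) (nat_lit 6944259520) (nat_lit 228) (nat_lit 693128627) (nat_lit 304) (nat_lit 13994867256) (nat_lit 46) (nat_lit 5) (nat_lit 49) (nat_lit 5) (nat_lit 50) (nat_lit 5) (nat_lit 343) (nat_lit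 271) (nat_lit 166))))) (XT.nd (nat_lit 234) (nat_lit 456) (nat_lit 0) (XT.nd (nat_lit 78) (nat_lit 152) (nat_lit 0) (XT.lf (nat_lit 0) (nat_lit 11487785115) (nat_lit 304) (nat_lit 5730702586) (nat_lit 76) (nat_lit 4883965825) (nat_lit 46) (nat_lit 5) (nat_lit 50) (nat_lit 5) (nat_lit 47) (nat_lit 5) (nat_lit 344) (nat_lit 271) (nat_lit 165)) (XT.nd (nat_lit 78) (nat_lit 0) (nat_lit 0) (XT.lf (nat_lit 0) (nat_lit 3535362662) (nat_lit 152) (nat_lit 11945268675) (nat_lit 228) (nat_lit 7105329253) (nat_lit 44) (nat_lit 5) (nat_lit 46) (nat_lit 5) (nat_lit 47) (nat_lit 5) (nat_lit 345) (nat_lit 271) (nat_lit 164)) (XT.lf (nat_lit 0) (nat_lit 13175028196) (nat_lit 152) (nat_lit 6462389264) (nat_lit 228) (nat_lit 3445241561) (nat_lit 44) (nat_lit 5) (nat_lit 46) (nat_lit 5) (nat_lit 47) (nat_lit 5) (nat_lit 346) (nat_lit 271) (nat_lit 163)))) (XT.nd (nat_lit 156) (nat_lit 152) (nat_lit 0) (XT.nd (nat_lit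 78) (nat_lit 228) (nat_lit 0) (XT.lf (nat_lit 0) (nat_lit 304856692) (nat_lit 228) (nat_lit 514992316) (nat_lit 76) (nat_lit 22774729659) (nat_lit 43) (nat_lit 5) (nat_lit 46) (nat_lit 5) (nat_lit 44) (nat_lit 5) (nat_lit 347) (nat_lit 271) (nat_lit 162)) (XT.lf (nat_lit 0) (nat_lit 4223538450) (nat_lit 304) (nat_lit 14882049360) (nat_lit 76) (nat_lit 5011494835) (nat_lit 40) (nat_lit 5) (nat_lit 44) (nat_lit 5) (nat_lit 41) (nat_lit 5) (nat_lit 348) (nat_lit 271) (nat_lit 161))) (XT.nd (nat_lit 78) (nat_lit 152) (nat_lit 0) (XT.lf (nat_lit 0) (nat_lit 8260191894) (nat_lit 304) (nat_lit 5396145457) (nat_lit 76) (nat_lit 10998921643) (nat_lit 40) (nat_lit 5) (nat_lit 44) (nat_lit 5) (nat_lit 41) (nat_lit 5) (nat_lit 349) (nat_lit 271) (nat_lit 160)) (XT.lf (nat_lit 0) (nat_lit 4440611761) (nat_lit 152) (nat_lit 8007438489) (nat_lit 228) (nat_lit 12760636534) (nat_lit 38) (nat_lit 5) (nat_lit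 40) (nat_lit 5) (nat_lit 41) (nat_lit 5) (nat_lit 350) (nat_lit 271) (nat_lit 159)))))) (XT.nd (nat_lit 468) (nat_lit 380) (nat_lit 0) (XT.nd (nat_lit 234) (nat_lit 228) (nat_lit 0) (XT.nd (nat_lit 78) (nat_lit 152) (nat_lit 0) (XT.lf (nat_lit 0) (nat_lit 14662911023) (nat_lit 152) (nat_lit 2140715732) (nat_lit 228) (nat_lit 8973837220) (nat_lit 38) (nat_lit 5) (nat_lit 40) (nat_lit 5) (nat_lit 41) (nat_lit 5) (nat_lit 351) (nat_lit 271) (nat_lit 158)) (XT.nd (nat_lit 78) (nat_lit 152) (nat_lit 0) (XT.lf (nat_lit 0) (nat_lit 21315259861) (nat_lit 228) (nat_lit 1228820094) (nat_lit 76) (nat_lit 3818471622) (nat_lit 38) (nat_lit 5) (nat_lit 41) (nat_lit 5) (nat_lit 39) (nat_lit 5) (nat_lit 352) (nat_lit 271) (nat_lit 157)) (XT.lf (nat_lit 0) (nat_lit 9090368203) (nat_lit 152) (nat_lit 16968684939) (nat_lit 228) (nat_lit 903242849) (nat_lit 36) (nat_lit 5) (nat_lit 38) (nat_lit 5) (nat_lit 39)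 (nat_lit 5) (nat_lit 353) (nat_lit 271) (nat_lit 156)))) (XT.nd (nat_lit 78) (nat_lit 152) (nat_lit 0) (XT.lf (nat_lit 0) (nat_lit 3300262953) (nat_lit 228) (nat_lit 7887168610) (nat_lit 76) (nat_lit 16391614739) (nat_lit 35) (nat_lit 5) (nat_lit 38) (nat_lit 5) (nat_lit 36) (nat_lit 5) (nat_lit 354) (nat_lit 271) (nat_lit 155)) (XT.nd (nat_lit 78) (nat_lit 0) (nat_lit 0) (XT.lf (nat_lit 0) (nat_lit 2416550446) (nat_lit 152) (nat_lit 5207009913) (nat_lit 228) (nat_lit 20590123048) (nat_lit 33) (nat_lit 5) (nat_lit 35) (nat_lit 5) (nat_lit 36) (nat_lit 5) (nat_lit 355) (nat_lit 271) (nat_lit 154)) (XT.lf (nat_lit 0) (nat_lit 12154842585) (nat_lit 228) (nat_lit 15702742654) (nat_lit 76) (nat_lit 1007433380) (nat_lit 33) (nat_lit 5) (nat_lit 36) (nat_lit 5) (nat_lit 34) (nat_lit 5) (nat_lit 356) (nat_lit 271) (nat_lit 153))))) (XT.nd (nat_lit 234) (nat_lit 228) (nat_lit 0) (XT.nd (nat_lit 78) (nat_lit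 152) (nat_lit 0) (XT.lf (nat_lit 0) (nat_lit 16862640416) (nat_lit 228) (nat_lit 5375410122) (nat_lit 76) (nat_lit 7296633381) (nat_lit 33) (nat_lit 5) (nat_lit 36) (nat_lit 5) (nat_lit 34) (nat_lit 5) (nat_lit 357) (nat_lit 271) (nat_lit 152)) (XT.nd (nat_lit 78) (nat_lit 0) (nat_lit 0) (XT.lf (nat_lit 0) (nat_lit 5348306196) (nat_lit 152) (nat_lit 16404119494) (nat_lit 228) (nat_lit 8470798020) (nat_lit 31) (nat_lit 5) (nat_lit 33) (nat_lit 5) (nat_lit 34) (nat_lit 5) (nat_lit 358) (nat_lit 271) (nat_lit 151)) (XT.lf (nat_lit 0) (nat_lit 16486298257) (nat_lit 152) (nat_lit 10346370668) (nat_lit 228) (nat_lit 4098444766) (nat_lit 31) (nat_lit 5) (nat_lit 33) (nat_lit 5) (nat_lit 34) (nat_lit 5) (nat_lit 359) (nat_lit 271) (nat_lit 150)))) (XT.nd (nat_lit 156) (nat_lit 0) (nat_lit 0) (XT.nd (nat_lit 78) (nat_lit 152) (nat_lit 0) (XT.lf (nat_lit 0) (nat_lit 386856457) (nat_lit 228) (nat_lit 3723029036)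 (nat_lit 76) (nat_lit 27550554134) (nat_lit 30) (nat_lit 5) (nat_lit 33) (nat_lit 5) (nat_lit 31) (nat_lit 5) (nat_lit 360) (nat_lit 271) (nat_lit 149)) (XT.lf (nat_lit 0) (nat_lit 5008812517) (nat_lit 228) (nat_lit 25024320492) (nat_lit 76) (nat_lit 2374767196) (nat_lit 28) (nat_lit 5) (nat_lit 31) (nat_lit 5) (nat_lit 29) (nat_lit 5) (nat_lit 361) (nat_lit 271) (nat_lit 148))) (XT.nd (nat_lit 78) (nat_lit 0) (nat_lit 0) (XT.lf (nat_lit 0) (nat_lit 9838135768) (nat_lit 228) (nat_lit 14334908759) (nat_lit 76) (nat_lit 9002684972) (nat_lit 28) (nat_lit 5) (nat_lit 31) (nat_lit 5) (nat_lit 29) (nat_lit 5) (nat_lit 362) (nat_lit 271) (nat_lit 147)) (XT.lf (nat_lit 0) (nat_lit 14802677600) (nat_lit 228) (nat_lit 3341215667) (nat_lit 76) (nat_lit 15822996216) (nat_lit 28) (nat_lit 5) (nat_lit 31) (nat_lit 5) (nat_lit 29) (nat_lit 5) (nat_lit 363) (nat_lit 271) (nat_lit 146))))))))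
noncomputable def xc137 : XT := (XT.nd (nat_lit 2028) (nat_lit 380) (nat_lit 0) (XT.nd (nat_lit 1014) (nat_lit 456) (nat_lit 0) (XT.nd (nat_lit 468) (nat_lit 304) (nat_lit 0) (XT.nd (nat_lit 234) (nat_lit 152) (nat_lit 0) (XT.nd (nat_lit 78) (nat_lit 0) (nat_lit 0) (XT.lf (nat_lit 0) (nat_lit 8124911206) (nat_lit 152) (nat_lit 11859966372) (nat_lit 228) (nat_lit 14794850833) (nat_lit 26) (nat_lit 5) (nat_lit 28) (nat_lit 5) (nat_lit 29) (nat_lit 5) (nat_lit 364) (nat_lit 271) (nat_lit 145)) (XT.nd (nat_lit 78) (nat_lit 0) (nat_lit 0) (XT.lf (nat_lit 0) (nat_lit 19987746348) (nat_lit 152) (nat_lit 5359278840) (nat_lit 228) (nat_lit 10269198500) (nat_lit 26) (nat_lit 5) (nat_lit 28) (nat_lit 5) (nat_lit 29) (nat_lit 5) (nat_lit 365) (nat_lit 271) (nat_lit 144)) (XT.lf (nat_lit 0) (nat_lit 30873834618) (nat_lit 228) (nat_lit 4299716176) (nat_lit 76) (nat_lit 1304154579) (nat_lit 26) (nat_lit 5)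 (nat_lit 29) (nat_lit 5) (nat_lit 27) (nat_lit 4) (nat_lit 366) (nat_lit 271) (nat_lit 143)))) (XT.nd (nat_lit 78) (nat_lit 76) (nat_lit 0) (XT.lf (nat_lit 0) (nat_lit 7446075190) (nat_lit 76) (nat_lit 29236225917) (nat_lit 152) (nat_lit 679260125) (nat_lit 25) (nat_lit 5) (nat_lit 26) (nat_lit 5) (nat_lit 27) (nat_lit 4) (nat_lit 367) (nat_lit 271) (nat_lit 142)) (XT.nd (nat_lit 78) (nat_lit 0) (nat_lit 0) (XT.lf (nat_lit 0) (nat_lit 4342448330) (nat_lit 152) (nat_lit 18696010782) (nat_lit 76) (nat_lit 15231159254) (nat_lit 24) (nat_lit 5) (nat_lit 26) (nat_lit 5) (nat_lit 25) (nat_lit 5) (nat_lit 368) (nat_lit 271) (nat_lit 141)) (XT.lf (nat_lit 0) (nat_lit 9492646751) (nat_lit 152) (nat_lit 7161338642) (nat_lit 76) (nat_lit 22550990184) (nat_lit 24) (nat_lit 5) (nat_lit 26) (nat_lit 5) (nat_lit 25) (nat_lit 5) (nat_lit 369) (nat_lit 271) (nat_lit 140))))) (XT.nd (nat_lit 234) (nat_lit 152)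 (nat_lit 0) (XT.nd (nat_lit 78) (nat_lit 0) (nat_lit 0) (XT.lf (nat_lit 0) (nat_lit 4798780164) (nat_lit 152) (nat_lit 10036438769) (nat_lit 228) (nat_lit 25332043254) (nat_lit 22) (nat_lit 5) (nat_lit 24) (nat_lit 5) (nat_lit 25) (nat_lit 5) (nat_lit 370) (nat_lit 271) (nat_lit 139)) (XT.nd (nat_lit 78) (nat_lit 0) (nat_lit 0) (XT.lf (nat_lit 0) (nat_lit 17250407533) (nat_lit 152) (nat_lit 3151820342) (nat_lit 228) (nat_lit 20754269312) (nat_lit 22) (nat_lit 5) (nat_lit 24) (nat_lit 5) (nat_lit 25) (nat_lit 5) (nat_lit 371) (nat_lit 271) (nat_lit 138)) (XT.lf (nat_lit 0) (nat_lit 26166140633) (nat_lit 228) (nat_lit 12151564270) (nat_lit 76) (nat_lit 3856811974) (nat_lit 22) (nat_lit 5) (nat_lit 25) (nat_lit 5) (nat_lit 23) (nat_lit 4) (nat_lit 372) (nat_lit 271) (nat_lit 137)))) (XT.nd (nat_lit 156) (nat_lit 76) (nat_lit 0) (XT.nd (nat_lit 78) (nat_lit 76) (nat_lit 0) (XT.lf (nat_lit 0) (nat_lit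 32126435395) (nat_lit 228) (nat_lit 89076686) (nat_lit 76) (nat_lit 11006865455) (nat_lit 22) (nat_lit 5) (nat_lit 25) (nat_lit 5) (nat_lit 23) (nat_lit 4) (nat_lit 373) (nat_lit 271) (nat_lit 136)) (XT.lf (nat_lit 0) (nat_lit 12567446507) (nat_lit 76) (nat_lit 25811382437) (nat_lit 152) (nat_lit 5919450563) (nat_lit 21) (nat_lit 5) (nat_lit 22) (nat_lit 5) (nat_lit 23) (nat_lit 4) (nat_lit 374) (nat_lit 271) (nat_lit 135))) (XT.nd (nat_lit 78) (nat_lit 76) (nat_lit 0) (XT.lf (nat_lit 0) (nat_lit 25592544406) (nat_lit 76) (nat_lit 19219727816) (nat_lit 152) (nat_lit 594386048) (nat_lit 21) (nat_lit 5) (nat_lit 22) (nat_lit 5) (nat_lit 23) (nat_lit 4) (nat_lit 375) (nat_lit 271) (nat_lit 134)) (XT.lf (nat_lit 0) (nat_lit 4787719858) (nat_lit 152) (nat_lit 7599621577) (nat_lit 76) (nat_lit 34159758919) (nat_lit 20) (nat_lit 5) (nat_lit 22) (nat_lit 5) (nat_lit 21) (nat_lit 5) (nat_lit 376) (nat_lit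 271) (nat_lit 133)))))) (XT.nd (nat_lit 468) (nat_lit 228) (nat_lit 0) (XT.nd (nat_lit 234) (nat_lit 76) (nat_lit 0) (XT.nd (nat_lit 78) (nat_lit 0) (nat_lit 0) (XT.lf (nat_lit 0) (nat_lit 5061847168) (nat_lit 152) (nat_lit 5299084200) (nat_lit 228) (nat_lit 37359403838) (nat_lit 18) (nat_lit 5) (nat_lit 20) (nat_lit 5) (nat_lit 21) (nat_lit 5) (nat_lit 377) (nat_lit 271) (nat_lit 132)) (XT.nd (nat_lit 78) (nat_lit 0) (nat_lit 0) (XT.lf (nat_lit 0) (nat_lit 16191052378) (nat_lit 228) (nat_lit 30699912332) (nat_lit 76) (nat_lit 2035114614) (nat_lit 18) (nat_lit 5) (nat_lit 21) (nat_lit 5) (nat_lit 19) (nat_lit 4) (nat_lit 378) (nat_lit 271) (nat_lit 131)) (XT.lf (nat_lit 0) (nat_lit 22241717310) (nat_lit 228) (nat_lit 18447074364) (nat_lit 76) (nat_lit 9477838391) (nat_lit 18) (nat_lit 5) (nat_lit 21) (nat_lit 5) (nat_lit 19) (nat_lit 4) (nat_lit 379) (nat_lit 271) (nat_lit 130)))) (XT.nd (nat_lit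 78) (nat_lit 76) (nat_lit 0) (XT.lf (nat_lit 0) (nat_lit 28467275115) (nat_lit 228) (nat_lit 5838329733) (nat_lit 76) (nat_lit 17138994702) (nat_lit 18) (nat_lit 5) (nat_lit 21) (nat_lit 5) (nat_lit 19) (nat_lit 4) (nat_lit 380) (nat_lit 271) (nat_lit 129)) (XT.nd (nat_lit 78) (nat_lit 0) (nat_lit 0) (XT.lf (nat_lit 0) (nat_lit 7279385949) (nat_lit 76) (nat_lit 27663753561) (nat_lit 152) (nat_lit 17815865720) (nat_lit 17) (nat_lit 5) (nat_lit 18) (nat_lit 5) (nat_lit 19) (nat_lit 4) (nat_lit 381) (nat_lit 271) (nat_lit 128)) (XT.lf (nat_lit 0) (nat_lit 20899085973) (nat_lit 76) (nat_lit 20766794973) (nat_lit 152) (nat_lit 12445387316) (nat_lit 17) (nat_lit 5) (nat_lit 18) (nat_lit 5) (nat_lit 19) (nat_lit 4) (nat_lit 382) (nat_lit 271) (nat_lit 127))))) (XT.nd (nat_lit 234) (nat_lit 0) (nat_lit 0) (XT.nd (nat_lit 78) (nat_lit 228) (nat_lit 0) (XT.lf (nat_lit 0) (nat_lit 34916476836) (nat_lit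 76) (nat_lit 13667658296) (nat_lit 152) (nat_lit 6920152255) (nat_lit 17) (nat_lit 5) (nat_lit 18) (nat_lit 5) (nat_lit 19) (nat_lit 4) (nat_lit 383) (nat_lit 271) (nat_lit 126)) (XT.nd (nat_lit 78) (nat_lit 228) (nat_lit 0) (XT.lf (nat_lit 0) (nat_lit 49343806745) (nat_lit 76) (nat_lit 6360140402) (nat_lit 152) (nat_lit 1235332661) (nat_lit 17) (nat_lit 5) (nat_lit 18) (nat_lit 5) (nat_lit 19) (nat_lit 4) (nat_lit 384) (nat_lit 271) (nat_lit 125)) (XT.lf (nat_lit 0) (nat_lit 4592363433) (nat_lit 228) (nat_lit 52580745348) (nat_lit 76) (nat_lit 1241009196) (nat_lit 14) (nat_lit 5) (nat_lit 17) (nat_lit 5) (nat_lit 15) (nat_lit 4) (nat_lit 385) (nat_lit 271) (nat_lit 124)))) (XT.nd (nat_lit 156) (nat_lit 0) (nat_lit 0) (XT.nd (nat_lit 78) (nat_lit 0) (nat_lit 0) (XT.lf (nat_lit 0) (nat_lit 10704645177) (nat_lit 228) (nat_lit 40196505035) (nat_lit 76) (nat_lit 9027649407) (nat_lit 14) (nat_lit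 5) (nat_lit 17) (nat_lit 5) (nat_lit 15) (nat_lit 4) (nat_lit 386) (nat_lit 271) (nat_lit 123)) (XT.lf (nat_lit 0) (nat_lit 16994618924) (nat_lit 228) (nat_lit 27450859908) (nat_lit 76) (nat_lit 17043615863) (nat_lit 14) (nat_lit 5) (nat_lit 17) (nat_lit 5) (nat_lit 15) (nat_lit 4) (nat_lit 387) (nat_lit 271) (nat_lit 122))) (XT.nd (nat_lit 78) (nat_lit 0) (nat_lit 0) (XT.lf (nat_lit 0) (nat_lit 23467780768) (nat_lit 228) (nat_lit 14332672994) (nat_lit 76) (nat_lit 25295912804) (nat_lit 14) (nat_lit 5) (nat_lit 17) (nat_lit 5) (nat_lit 15) (nat_lit 4) (nat_lit 388) (nat_lit 271) (nat_lit 121)) (XT.lf (nat_lit 0) (nat_lit 30129786871) (nat_lit 228) (nat_lit 830481802) (nat_lit 76) (nat_lit 33791750977) (nat_lit 14) (nat_lit 5) (nat_lit 17) (nat_lit 5) (nat_lit 15) (nat_lit 4) (nat_lit 389) (nat_lit 271) (nat_lit 120))))))) (XT.nd (nat_lit 1014) (nat_lit 76) (nat_lit 0) (XT.nd (nat_lit 468) (nat_lit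 152) (nat_lit 0) (XT.nd (nat_lit 234) (nat_lit 76) (nat_lit 0) (XT.nd (nat_lit 78) (nat_lit 0) (nat_lit 0) (XT.lf (nat_lit 0) (nat_lit 13327580806) (nat_lit 76) (nat_lit 23786990455) (nat_lit 152) (nat_lit 29339085983) (nat_lit 13) (nat_lit 5) (nat_lit 14) (nat_lit 5) (nat_lit 15) (nat_lit 4) (nat_lit 390) (nat_lit 271) (nat_lit 119)) (XT.nd (nat_lit 78) (nat_lit 0) (nat_lit 0) (XT.lf (nat_lit 0) (nat_lit 27918236748) (nat_lit 76) (nat_lit 16393917049) (nat_lit 152) (nat_lit 23894094920) (nat_lit 13) (nat_lit 5) (nat_lit 14) (nat_lit 5) (nat_lit 15) (nat_lit 4) (nat_lit 391) (nat_lit 271) (nat_lit 118)) (XT.lf (nat_lit 0) (nat_lit 42937706924) (nat_lit 76) (nat_lit 8782974725) (nat_lit 152) (nat_lit 18290888070) (nat_lit 13) (nat_lit 5) (nat_lit 14) (nat_lit 5) (nat_lit 15) (nat_lit 4) (nat_lit 392) (nat_lit 271) (nat_lit 117)))) (XT.nd (nat_lit 78) (nat_lit 76) (nat_lit 0) (XT.lf (nat_lit 0)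 (nat_lit 58399115144) (nat_lit 76) (nat_lit 947513146) (nat_lit 152) (nat_lit 12524569427) (nat_lit 13) (nat_lit 5) (nat_lit 14) (nat_lit 5) (nat_lit 15) (nat_lit 4) (nat_lit 393) (nat_lit 271) (nat_lit 116)) (XT.nd (nat_lit 78) (nat_lit 0) (nat_lit 0) (XT.lf (nat_lit 0) (nat_lit 469948940) (nat_lit 76) (nat_lit 66799660866) (nat_lit 76) (nat_lit 6514959240) (nat_lit 12) (nat_lit 4) (nat_lit 13) (nat_lit 5) (nat_lit 13) (nat_lit 4) (nat_lit 394) (nat_lit 271) (nat_lit 115)) (XT.lf (nat_lit 0) (nat_lit 15088419452) (nat_lit 76) (nat_lit 60482517463) (nat_lit 76) (nat_lit 180187041) (nat_lit 12) (nat_lit 4) (nat_lit 13) (nat_lit 5) (nat_lit 13) (nat_lit 4) (nat_lit 395) (nat_lit 271) (nat_lit 114))))) (XT.nd (nat_lit 234) (nat_lit 76) (nat_lit 0) (XT.nd (nat_lit 78) (nat_lit 0) (nat_lit 0) (XT.lf (nat_lit 0) (nat_lit 6216236156) (nat_lit 152) (nat_lit 47700486359) (nat_lit 76) (nat_lit 23858262913)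 (nat_lit 11) (nat_lit 5) (nat_lit 13) (nat_lit 5) (nat_lit 12) (nat_lit 4) (nat_lit 396) (nat_lit 271) (nat_lit 113)) (XT.nd (nat_lit 78) (nat_lit 0) (nat_lit 0) (XT.lf (nat_lit 0) (nat_lit 12796478414) (nat_lit 152) (nat_lit 34359211406) (nat_lit 76) (nat_lit 32703954910) (nat_lit 11) (nat_lit 5) (nat_lit 13) (nat_lit 5) (nat_lit 12) (nat_lit 4) (nat_lit 397) (nat_lit 271) (nat_lit 112)) (XT.lf (nat_lit 0) (nat_lit 19569805557) (nat_lit 152) (nat_lit 20625490151) (nat_lit 76) (nat_lit 41811679661) (nat_lit 11) (nat_lit 5) (nat_lit 13) (nat_lit 5) (nat_lit 12) (nat_lit 4) (nat_lit 398) (nat_lit 271) (nat_lit 111)))) (XT.nd (nat_lit 156) (nat_lit 0) (nat_lit 0) (XT.nd (nat_lit 78) (nat_lit 76) (nat_lit 0) (XT.lf (nat_lit 0) (nat_lit 26542136026) (nat_lit 152) (nat_lit 6487322255) (nat_lit 76) (nat_lit 51189395372) (nat_lit 11) (nat_lit 5) (nat_lit 13) (nat_lit 5) (nat_lit 12) (nat_lit 4) (nat_lit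 399) (nat_lit 271) (nat_lit 110)) (XT.lf (nat_lit 0) (nat_lit 8228207994) (nat_lit 76) (nat_lit 25570448724) (nat_lit 152) (nat_lit 52696182738) (nat_lit 10) (nat_lit 5) (nat_lit 11) (nat_lit 5) (nat_lit 12) (nat_lit 4) (nat_lit 400) (nat_lit 271) (nat_lit 109))) (XT.nd (nat_lit 78) (nat_lit 0) (nat_lit 0) (XT.lf (nat_lit 0) (nat_lit 23510915246) (nat_lit 76) (nat_lit 17823441516) (nat_lit 152) (nat_lit 47502905285) (nat_lit 10) (nat_lit 5) (nat_lit 11) (nat_lit 5) (nat_lit 12) (nat_lit 4) (nat_lit 401) (nat_lit 271) (nat_lit 108)) (XT.lf (nat_lit 0) (nat_lit 39245042890) (nat_lit 76) (nat_lit 9847176665) (nat_lit 152) (nat_lit 42157856685) (nat_lit 10) (nat_lit 5) (nat_lit 11) (nat_lit 5) (nat_lit 12) (nat_lit 4) (nat_lit 402) (nat_lit 271) (nat_lit 107)))))) (XT.nd (nat_lit 30654) (nat_lit 0) (nat_lit 17100) (XT.nd (nat_lit 312) (nat_lit 0) (nat_lit 0) (XT.nd (nat_lit 78) (nat_lit 76) (nat_lit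 0) (XT.lf (nat_lit 0) (nat_lit 55444339192) (nat_lit 76) (nat_lit 1634684617) (nat_lit 152) (nat_lit 36656366510) (nat_lit 10) (nat_lit 5) (nat_lit 11) (nat_lit 5) (nat_lit 12) (nat_lit 4) (nat_lit 403) (nat_lit 271) (nat_lit 106)) (XT.nd (nat_lit 156) (nat_lit 76) (nat_lit 0) (XT.lf (nat_lit 0) (nat_lit 65367317935) (nat_lit 152) (nat_lit 24237986690) (nat_lit 0) (nat_lit 6688104202) (nat_lit 10) (nat_lit 5) (nat_lit 12) (nat_lit 4) (nat_lit 10) (nat_lit 4) (nat_lit 404) (nat_lit 271) (nat_lit 105)) (XT.lf (nat_lit 0) (nat_lit 5194438419) (nat_lit 76) (nat_lit 77574845200) (nat_lit 76) (nat_lit 18870531567) (nat_lit 9) (nat_lit 4) (nat_lit 10) (nat_lit 5) (nat_lit 10) (nat_lit 4) (nat_lit 406) (nat_lit 271) (nat_lit 103)))) (XT.nd (nat_lit 30186) (nat_lit 0) (nat_lit 18544) (XT.nd (nat_lit 30108) (nat_lit 0) (nat_lit 18544) (XT.lf (nat_lit 0) (nat_lit 20818664487) (nat_lit 76) (nat_lit 71163996572)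 (nat_lit 76) (nat_lit 12447678587) (nat_lit 9) (nat_lit 4) (nat_lit 10) (nat_lit 5) (nat_lit 10) (nat_lit 4) (nat_lit 407) (nat_lit 271) (nat_lit 102)) (XT.lf (nat_lit 0) (nat_lit 304936109) (nat_lit 0) (nat_lit 304936109) (nat_lit 684) (nat_lit 2926111367) (nat_lit 253) (nat_lit 5) (nat_lit 253) (nat_lit 3) (nat_lit 262) (nat_lit 3) (nat_lit 272) (nat_lit 272) (nat_lit 236))) (XT.nd (nat_lit 78) (nat_lit 0) (nat_lit 0) (XT.lf (nat_lit 0) (nat_lit 2886229309) (nat_lit 684) (nat_lit 3274139585) (nat_lit 760) (nat_lit 964920218) (nat_lit 253) (nat_lit 5) (nat_lit 262) (nat_lit 3) (nat_lit 263) (nat_lit 5) (nat_lit 273) (nat_lit 272) (nat_lit 235)) (XT.lf (nat_lit 0) (nat_lit 4545099455) (nat_lit 684) (nat_lit 30916685) (nat_lit 760) (nat_lit 2606052104) (nat_lit 253) (nat_lit 5) (nat_lit 262) (nat_lit 3) (nat_lit 263) (nat_lit 5) (nat_lit 274) (nat_lit 272) (nat_lit 234))))) (XT.nd (nat_lit 234)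 (nat_lit 684) (nat_lit 0) (XT.nd (nat_lit 78) (nat_lit 760) (nat_lit 0) (XT.lf (nat_lit 76) (nat_lit 3341474292) (nat_lit 0) (nat_lit 2882587910) (nat_lit 760) (nat_lit 1017504243) (nat_lit 254) (nat_lit 5) (nat_lit 253) (nat_lit 5) (nat_lit 263) (nat_lit 5) (nat_lit 275) (nat_lit 272) (nat_lit 233)) (XT.nd (nat_lit 78) (nat_lit 0) (nat_lit 76) (XT.lf (nat_lit 0) (nat_lit 577137216) (nat_lit 760) (nat_lit 527764860) (nat_lit 836) (nat_lit 6199699577) (nat_lit 243) (nat_lit 5) (nat_lit 253) (nat_lit 5) (nat_lit 254) (nat_lit 5) (nat_lit 276) (nat_lit 272) (nat_lit 232)) (XT.lf (nat_lit 0) (nat_lit 2175981264) (nat_lit 760) (nat_lit 4417793737) (nat_lit 836) (nat_lit 776261102) (nat_lit 244) (nat_lit 5) (nat_lit 254) (nat_lit 5) (nat_lit 255) (nat_lit 5) (nat_lit 277) (nat_lit 272) (nat_lit 231)))) (XT.nd (nat_lit 156) (nat_lit 760) (nat_lit 0) (XT.nd (nat_lit 78) (nat_lit 0) (nat_lit 0) (XT.lf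 (nat_lit 0) (nat_lit 3781509164) (nat_lit 760) (nat_lit 935894921) (nat_lit 836) (nat_lit 2721379442) (nat_lit 244) (nat_lit 5) (nat_lit 254) (nat_lit 5) (nat_lit 255) (nat_lit 5) (nat_lit 278) (nat_lit 272) (nat_lit 230)) (XT.lf (nat_lit 76) (nat_lit 2668457019) (nat_lit 0) (nat_lit 2736471237) (nat_lit 836) (nat_lit 2105681605) (nat_lit 245) (nat_lit 5) (nat_lit 244) (nat_lit 5) (nat_lit 255) (nat_lit 5) (nat_lit 279) (nat_lit 272) (nat_lit 229))) (XT.nd (nat_lit 78) (nat_lit 760) (nat_lit 0) (XT.lf (nat_lit 76) (nat_lit 6366383467) (nat_lit 0) (nat_lit 665496230) (nat_lit 836) (nat_lit 554171491) (nat_lit 245) (nat_lit 5) (nat_lit 244) (nat_lit 5) (nat_lit 255) (nat_lit 5) (nat_lit 280) (nat_lit 272) (nat_lit 228)) (XT.lf (nat_lit 0) (nat_lit 1008686438) (nat_lit 836) (nat_lit 5162432667) (nat_lit 912) (nat_lit 1492879505) (nat_lit 234) (nat_lit 5) (nat_lit 245) (nat_lit 5) (nat_lit 246)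 (nat_lit 5) (nat_lit 281) (nat_lit 272) (nat_lit 227))))))))
noncomputable def xc138 : XT := (XT.nd (nat_lit 2028) (nat_lit 4864) (nat_lit 0) (XT.nd (nat_lit 1014) (nat_lit 4408) (nat_lit 0) (XT.nd (nat_lit 468) (nat_lit 2964) (nat_lit 0) (XT.nd (nat_lit 234) (nat_lit 836) (nat_lit 0) (XT.nd (nat_lit 78) (nat_lit 0) (nat_lit 0) (XT.lf (nat_lit 0) (nat_lit 2574084749) (nat_lit 836) (nat_lit 1432116325) (nat_lit 912) (nat_lit 3739011164) (nat_lit 234) (nat_lit 5) (nat_lit 245) (nat_lit 5) (nat_lit 246) (nat_lit 5) (nat_lit 282) (nat_lit 272) (nat_lit 226)) (XT.nd (nat_lit 78) (nat_lit 0) (nat_lit 76) (XT.lf (nat_lit 76) (nat_lit 2422980775) (nat_lit 0) (nat_lit 1736042470) (nat_lit 912) (nat_lit 3670755061) (nat_lit 235) (nat_lit 5) (nat_lit 234) (nat_lit 5) (nat_lit 246) (nat_lit 5) (nat_lit 283) (nat_lit 272) (nat_lit 225)) (XT.lf (nat_lit 0) (nat_lit 5762489083) (nat_lit 836) (nat_lit 1535090766)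 (nat_lit 912) (nat_lit 620262786) (nat_lit 235) (nat_lit 5) (nat_lit 246) (nat_lit 5) (nat_lit 247) (nat_lit 5) (nat_lit 284) (nat_lit 272) (nat_lit 224)))) (XT.nd (nat_lit 78) (nat_lit 912) (nat_lit 0) (XT.lf (nat_lit 76) (nat_lit 2448603494) (nat_lit 0) (nat_lit 4958206192) (nat_lit 912) (nat_lit 602044699) (nat_lit 236) (nat_lit 5) (nat_lit 235) (nat_lit 5) (nat_lit 247) (nat_lit 5) (nat_lit 285) (nat_lit 272) (nat_lit 223)) (XT.nd (nat_lit 78) (nat_lit 0) (nat_lit 76) (XT.lf (nat_lit 0) (nat_lit 946589459) (nat_lit 912) (nat_lit 1564043505) (nat_lit 988) (nat_lit 5592712789) (nat_lit 223) (nat_lit 5) (nat_lit 235) (nat_lit 5) (nat_lit 236) (nat_lit 5) (nat_lit 286) (nat_lit 272) (nat_lit 222)) (XT.lf (nat_lit 0) (nat_lit 2508646349) (nat_lit 912) (nat_lit 5640065730) (nat_lit 76) (nat_lit 52489577) (nat_lit 224) (nat_lit 5) (nat_lit 236) (nat_lit 5) (nat_lit 225) (nat_lit 5) (nat_lit 287)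 (nat_lit 272) (nat_lit 221))))) (XT.nd (nat_lit 234) (nat_lit 2128) (nat_lit 0) (XT.nd (nat_lit 78) (nat_lit 912) (nat_lit 0) (XT.lf (nat_lit 0) (nat_lit 4113418211) (nat_lit 912) (nat_lit 1520010336) (nat_lit 76) (nat_lit 2668767292) (nat_lit 224) (nat_lit 5) (nat_lit 236) (nat_lit 5) (nat_lit 225) (nat_lit 5) (nat_lit 288) (nat_lit 272) (nat_lit 220)) (XT.nd (nat_lit 78) (nat_lit 0) (nat_lit 0) (XT.lf (nat_lit 0) (nat_lit 2742592848) (nat_lit 912) (nat_lit 3006458586) (nat_lit 988) (nat_lit 2657762792) (nat_lit 212) (nat_lit 5) (nat_lit 224) (nat_lit 5) (nat_lit 225) (nat_lit 5) (nat_lit 289) (nat_lit 272) (nat_lit 219)) (XT.lf (nat_lit 0) (nat_lit 7130000054) (nat_lit 912) (nat_lit 276399605) (nat_lit 988) (nat_lit 1109065837) (nat_lit 212) (nat_lit 5) (nat_lit 224) (nat_lit 5) (nat_lit 225) (nat_lit 5) (nat_lit 290) (nat_lit 272) (nat_lit 218)))) (XT.nd (nat_lit 156) (nat_lit 1064) (nat_lit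 0) (XT.nd (nat_lit 78) (nat_lit 0) (nat_lit 0) (XT.lf (nat_lit 0) (nat_lit 488694305) (nat_lit 1064) (nat_lit 5610265607) (nat_lit 76) (nat_lit 2527983063) (nat_lit 198) (nat_lit 5) (nat_lit 212) (nat_lit 5) (nat_lit 199) (nat_lit 5) (nat_lit 291) (nat_lit 272) (nat_lit 217)) (XT.lf (nat_lit 0) (nat_lit 2087987939) (nat_lit 1064) (nat_lit 1211089442) (nat_lit 76) (nat_lit 5443148674) (nat_lit 198) (nat_lit 5) (nat_lit 212) (nat_lit 5) (nat_lit 199) (nat_lit 5) (nat_lit 292) (nat_lit 272) (nat_lit 216))) (XT.nd (nat_lit 78) (nat_lit 0) (nat_lit 0) (XT.lf (nat_lit 0) (nat_lit 3351309063) (nat_lit 1064) (nat_lit 376385743) (nat_lit 1140) (nat_lit 5133565283) (nat_lit 184) (nat_lit 5) (nat_lit 198) (nat_lit 5) (nat_lit 199) (nat_lit 5) (nat_lit 293) (nat_lit 272) (nat_lit 215)) (XT.lf (nat_lit 0) (nat_lit 5415365621) (nat_lit 1140) (nat_lit 968628745) (nat_lit 76) (nat_lit 2599971178) (nat_lit 184)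 (nat_lit 5) (nat_lit 199) (nat_lit 5) (nat_lit 185) (nat_lit 5) (nat_lit 294) (nat_lit 272) (nat_lit 214)))))) (XT.nd (nat_lit 468) (nat_lit 1520) (nat_lit 0) (XT.nd (nat_lit 234) (nat_lit 1140) (nat_lit 0) (XT.nd (nat_lit 78) (nat_lit 608) (nat_lit 0) (XT.lf (nat_lit 0) (nat_lit 3744195977) (nat_lit 1140) (nat_lit 3411424149) (nat_lit 1216) (nat_lit 1954735163) (nat_lit 169) (nat_lit 5) (nat_lit 184) (nat_lit 5) (nat_lit 185) (nat_lit 5) (nat_lit 295) (nat_lit 272) (nat_lit 213)) (XT.nd (nat_lit 78) (nat_lit 608) (nat_lit 0) (XT.lf (nat_lit 0) (nat_lit 8584522051) (nat_lit 1140) (nat_lit 336352555) (nat_lit 1216) (nat_lit 320538285) (nat_lit 169) (nat_lit 5) (nat_lit 184) (nat_lit 5) (nat_lit 185) (nat_lit 5) (nat_lit 296) (nat_lit 272) (nat_lit 212)) (XT.lf (nat_lit 0) (nat_lit 1368198568) (nat_lit 608) (nat_lit 5174153306) (nat_lit 76) (nat_lit 2832750725) (nat_lit 161) (nat_lit 5) (nat_lit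 169) (nat_lit 5) (nat_lit 162) (nat_lit 5) (nat_lit 297) (nat_lit 272) (nat_lit 211)))) (XT.nd (nat_lit 78) (nat_lit 1140) (nat_lit 0) (XT.lf (nat_lit 0) (nat_lit 3075621692) (nat_lit 608) (nat_lit 335535828) (nat_lit 76) (nat_lit 6102371115) (nat_lit 161) (nat_lit 5) (nat_lit 169) (nat_lit 5) (nat_lit 162) (nat_lit 5) (nat_lit 298) (nat_lit 272) (nat_lit 210)) (XT.nd (nat_lit 78) (nat_lit 532) (nat_lit 0) (XT.lf (nat_lit 0) (nat_lit 4706733522) (nat_lit 608) (nat_lit 138251251) (nat_lit 684) (nat_lit 4810854415) (nat_lit 153) (nat_lit 5) (nat_lit 161) (nat_lit 5) (nat_lit 162) (nat_lit 5) (nat_lit 299) (nat_lit 272) (nat_lit 209)) (XT.lf (nat_lit 0) (nat_lit 40410986) (nat_lit 532) (nat_lit 6628073331) (nat_lit 608) (nat_lit 3133954772) (nat_lit 146) (nat_lit 5) (nat_lit 153) (nat_lit 5) (nat_lit 154) (nat_lit 5) (nat_lit 300) (nat_lit 272) (nat_lit 208))))) (XT.nd (nat_lit 234) (nat_lit 912)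 (nat_lit 0) (XT.nd (nat_lit 78) (nat_lit 608) (nat_lit 0) (XT.lf (nat_lit 0) (nat_lit 5245903524) (nat_lit 532) (nat_lit 3318947036) (nat_lit 608) (nat_lit 1388091769) (nat_lit 146) (nat_lit 5) (nat_lit 153) (nat_lit 5) (nat_lit 154) (nat_lit 5) (nat_lit 301) (nat_lit 272) (nat_lit 207)) (XT.nd (nat_lit 78) (nat_lit 0) (nat_lit 0) (XT.lf (nat_lit 0) (nat_lit 375039441) (nat_lit 608) (nat_lit 9638287499) (nat_lit 76) (nat_lit 95375891) (nat_lit 138) (nat_lit 5) (nat_lit 146) (nat_lit 5) (nat_lit 139) (nat_lit 5) (nat_lit 302) (nat_lit 272) (nat_lit 206)) (XT.lf (nat_lit 0) (nat_lit 2212076569) (nat_lit 608) (nat_lit 4449244126) (nat_lit 76) (nat_lit 3605981745) (nat_lit 138) (nat_lit 5) (nat_lit 146) (nat_lit 5) (nat_lit 139) (nat_lit 5) (nat_lit 303) (nat_lit 272) (nat_lit 205)))) (XT.nd (nat_lit 156) (nat_lit 456) (nat_lit 0) (XT.nd (nat_lit 78) (nat_lit 0) (nat_lit 0) (XT.lf (nat_lit 0) (nat_lit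 879485137) (nat_lit 456) (nat_lit 3202172380) (nat_lit 532) (nat_lit 6349724135) (nat_lit 132) (nat_lit 5) (nat_lit 138) (nat_lit 5) (nat_lit 139) (nat_lit 5) (nat_lit 304) (nat_lit 272) (nat_lit 204)) (XT.lf (nat_lit 0) (nat_lit 6025710749) (nat_lit 532) (nat_lit 4177422248) (nat_lit 76) (nat_lit 396741995) (nat_lit 132) (nat_lit 5) (nat_lit 139) (nat_lit 5) (nat_lit 133) (nat_lit 5) (nat_lit 305) (nat_lit 272) (nat_lit 203))) (XT.nd (nat_lit 78) (nat_lit 0) (nat_lit 0) (XT.lf (nat_lit 0) (nat_lit 1319558385) (nat_lit 456) (nat_lit 6723346974) (nat_lit 532) (nat_lit 2730115219) (nat_lit 126) (nat_lit 5) (nat_lit 132) (nat_lit 5) (nat_lit 133) (nat_lit 5) (nat_lit 306) (nat_lit 272) (nat_lit 202)) (XT.lf (nat_lit 0) (nat_lit 7034630277) (nat_lit 456) (nat_lit 3099149305) (nat_lit 532) (nat_lit 817226848) (nat_lit 126) (nat_lit 5) (nat_lit 132) (nat_lit 5) (nat_lit 133) (nat_lit 5) (nat_lit 307)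 (nat_lit 272) (nat_lit 201))))))) (XT.nd (nat_lit 1014) (nat_lit 1900) (nat_lit 0) (XT.nd (nat_lit 468) (nat_lit 1596) (nat_lit 0) (XT.nd (nat_lit 234) (nat_lit 380) (nat_lit 0) (XT.nd (nat_lit 78) (nat_lit 456) (nat_lit 0) (XT.lf (nat_lit 0) (nat_lit 1125486300) (nat_lit 532) (nat_lit 9362387494) (nat_lit 76) (nat_lit 646315870) (nat_lit 119) (nat_lit 5) (nat_lit 126) (nat_lit 5) (nat_lit 120) (nat_lit 5) (nat_lit 308) (nat_lit 272) (nat_lit 200)) (XT.nd (nat_lit 78) (nat_lit 456) (nat_lit 0) (XT.lf (nat_lit 0) (nat_lit 3152674187) (nat_lit 532) (nat_lit 3682578159) (nat_lit 76) (nat_lit 4486132096) (nat_lit 119) (nat_lit 5) (nat_lit 126) (nat_lit 5) (nat_lit 120) (nat_lit 5) (nat_lit 309) (nat_lit 272) (nat_lit 199)) (XT.lf (nat_lit 0) (nat_lit 2178449070) (nat_lit 456) (nat_lit 3055979775) (nat_lit 532) (nat_lit 6279989946) (nat_lit 113) (nat_lit 5) (nat_lit 119) (nat_lit 5) (nat_lit 120)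 (nat_lit 5) (nat_lit 310) (nat_lit 272) (nat_lit 198)))) (XT.nd (nat_lit 78) (nat_lit 380) (nat_lit 0) (XT.lf (nat_lit 0) (nat_lit 7397489669) (nat_lit 532) (nat_lit 3461909345) (nat_lit 76) (nat_lit 853314754) (nat_lit 113) (nat_lit 5) (nat_lit 120) (nat_lit 5) (nat_lit 114) (nat_lit 5) (nat_lit 311) (nat_lit 272) (nat_lit 197)) (XT.nd (nat_lit 78) (nat_lit 0) (nat_lit 0) (XT.lf (nat_lit 0) (nat_lit 2577176130) (nat_lit 380) (nat_lit 7077331690) (nat_lit 456) (nat_lit 2261611990) (nat_lit 108) (nat_lit 5) (nat_lit 113) (nat_lit 5) (nat_lit 114) (nat_lit 5) (nat_lit 312) (nat_lit 272) (nat_lit 196)) (XT.lf (nat_lit 0) (nat_lit 8837476615) (nat_lit 380) (nat_lit 3151212292) (nat_lit 456) (nat_lit 136688739) (nat_lit 108) (nat_lit 5) (nat_lit 113) (nat_lit 5) (nat_lit 114) (nat_lit 5) (nat_lit 313) (nat_lit 272) (nat_lit 195))))) (XT.nd (nat_lit 234) (nat_lit 760) (nat_lit 0) (XT.nd (nat_lit 78)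 (nat_lit 380) (nat_lit 0) (XT.lf (nat_lit 0) (nat_lit 2024281448) (nat_lit 456) (nat_lit 9397257119) (nat_lit 76) (nat_lit 918443959) (nat_lit 102) (nat_lit 5) (nat_lit 108) (nat_lit 5) (nat_lit 103) (nat_lit 5) (nat_lit 314) (nat_lit 272) (nat_lit 194)) (XT.nd (nat_lit 78) (nat_lit 380) (nat_lit 0) (XT.lf (nat_lit 0) (nat_lit 4287407844) (nat_lit 456) (nat_lit 3196209132) (nat_lit 76) (nat_lit 5076196110) (nat_lit 102) (nat_lit 5) (nat_lit 108) (nat_lit 5) (nat_lit 103) (nat_lit 5) (nat_lit 315) (nat_lit 272) (nat_lit 193)) (XT.lf (nat_lit 0) (nat_lit 3223711660) (nat_lit 380) (nat_lit 3401767001) (nat_lit 456) (nat_lit 6160577867) (nat_lit 97) (nat_lit 5) (nat_lit 102) (nat_lit 5) (nat_lit 103) (nat_lit 5) (nat_lit 316) (nat_lit 272) (nat_lit 192)))) (XT.nd (nat_lit 156) (nat_lit 380) (nat_lit 0) (XT.nd (nat_lit 78) (nat_lit 380) (nat_lit 0) (XT.lf (nat_lit 0) (nat_lit 9050414467) (nat_lit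 456) (nat_lit 3154848345) (nat_lit 76) (nat_lit 813351402) (nat_lit 97) (nat_lit 5) (nat_lit 103) (nat_lit 5) (nat_lit 98) (nat_lit 5) (nat_lit 317) (nat_lit 272) (nat_lit 191)) (XT.lf (nat_lit 0) (nat_lit 3448935588) (nat_lit 380) (nat_lit 8143097256) (nat_lit 456) (nat_lit 1664825541) (nat_lit 92) (nat_lit 5) (nat_lit 97) (nat_lit 5) (nat_lit 98) (nat_lit 5) (nat_lit 318) (nat_lit 272) (nat_lit 190))) (XT.nd (nat_lit 78) (nat_lit 304) (nat_lit 0) (XT.lf (nat_lit 0) (nat_lit 703250928) (nat_lit 456) (nat_lit 3222654828) (nat_lit 76) (nat_lit 9575883957) (nat_lit 91) (nat_lit 5) (nat_lit 97) (nat_lit 5) (nat_lit 92) (nat_lit 5) (nat_lit 319) (nat_lit 272) (nat_lit 189)) (XT.lf (nat_lit 0) (nat_lit 3125722243) (nat_lit 380) (nat_lit 10172926017) (nat_lit 76) (nat_lit 454447232) (nat_lit 87) (nat_lit 5) (nat_lit 92) (nat_lit 5) (nat_lit 88) (nat_lit 5) (nat_lit 320) (nat_lit 272) (nat_lit 188))))))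 (XT.nd (nat_lit 468) (nat_lit 836) (nat_lit 0) (XT.nd (nat_lit 234) (nat_lit 684) (nat_lit 0) (XT.nd (nat_lit 78) (nat_lit 380) (nat_lit 0) (XT.lf (nat_lit 0) (nat_lit 5670805191) (nat_lit 380) (nat_lit 3426225252) (nat_lit 76) (nat_lit 4913436571) (nat_lit 87) (nat_lit 5) (nat_lit 92) (nat_lit 5) (nat_lit 88) (nat_lit 5) (nat_lit 321) (nat_lit 272) (nat_lit 187)) (XT.nd (nat_lit 78) (nat_lit 0) (nat_lit 0) (XT.lf (nat_lit 0) (nat_lit 3564066742) (nat_lit 380) (nat_lit 4741271196) (nat_lit 456) (nat_lit 5969852797) (nat_lit 82) (nat_lit 5) (nat_lit 87) (nat_lit 5) (nat_lit 88) (nat_lit 5) (nat_lit 322) (nat_lit 272) (nat_lit 186)) (XT.lf (nat_lit 0) (nat_lit 10806222201) (nat_lit 380) (nat_lit 226466416) (nat_lit 456) (nat_lit 3514777366) (nat_lit 82) (nat_lit 5) (nat_lit 87) (nat_lit 5) (nat_lit 88) (nat_lit 5) (nat_lit 323) (nat_lit 272) (nat_lit 185)))) (XT.nd (nat_lit 78) (nat_lit 380) (nat_lit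 0) (XT.lf (nat_lit 0) (nat_lit 3434403498) (nat_lit 304) (nat_lit 10462716313) (nat_lit 380) (nat_lit 929154476) (nat_lit 78) (nat_lit 5) (nat_lit 82) (nat_lit 5) (nat_lit 83) (nat_lit 5) (nat_lit 324) (nat_lit 272) (nat_lit 184)) (XT.nd (nat_lit 78) (nat_lit 304) (nat_lit 0) (XT.lf (nat_lit 0) (nat_lit 1720424344) (nat_lit 380) (nat_lit 4257559136) (nat_lit 76) (nat_lit 9134377864) (nat_lit 77) (nat_lit 5) (nat_lit 82) (nat_lit 5) (nat_lit 78) (nat_lit 5) (nat_lit 325) (nat_lit 272) (nat_lit 183)) (XT.lf (nat_lit 0) (nat_lit 3115213309) (nat_lit 304) (nat_lit 1325964009) (nat_lit 380) (nat_lit 10965287531) (nat_lit 73) (nat_lit 5) (nat_lit 77) (nat_lit 5) (nat_lit 78) (nat_lit 5) (nat_lit 326) (nat_lit 272) (nat_lit 182))))) (XT.nd (nat_lit 234) (nat_lit 608) (nat_lit 0) (XT.nd (nat_lit 78) (nat_lit 228) (nat_lit 0) (XT.lf (nat_lit 0) (nat_lit 7300940355) (nat_lit 380) (nat_lit 4972813006)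 (nat_lit 76) (nat_lit 3433936550) (nat_lit 73) (nat_lit 5) (nat_lit 78) (nat_lit 5) (nat_lit 74) (nat_lit 5) (nat_lit 327) (nat_lit 272) (nat_lit 181)) (XT.nd (nat_lit 78) (nat_lit 0) (nat_lit 0) (XT.lf (nat_lit 0) (nat_lit 2575693164) (nat_lit 228) (nat_lit 7689909234) (nat_lit 304) (nat_lit 5751795638) (nat_lit 70) (nat_lit 5) (nat_lit 73) (nat_lit 5) (nat_lit 74) (nat_lit 5) (nat_lit 328) (nat_lit 272) (nat_lit 180)) (XT.lf (nat_lit 0) (nat_lit 10426235062) (nat_lit 228) (nat_lit 2924697191) (nat_lit 304) (nat_lit 2984532237) (nat_lit 70) (nat_lit 5) (nat_lit 73) (nat_lit 5) (nat_lit 74) (nat_lit 5) (nat_lit 329) (nat_lit 272) (nat_lit 179)))) (XT.nd (nat_lit 156) (nat_lit 228) (nat_lit 0) (XT.nd (nat_lit 78) (nat_lit 76) (nat_lit 0) (XT.lf (nat_lit 0) (nat_lit 1839985718) (nat_lit 304) (nat_lit 14707567014) (nat_lit 380) (nat_lit 114976656) (nat_lit 66) (nat_lit 5) (nat_lit 70) (nat_lit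 5) (nat_lit 71) (nat_lit 5) (nat_lit 330) (nat_lit 272) (nat_lit 178)) (XT.lf (nat_lit 0) (nat_lit 2856514701) (nat_lit 380) (nat_lit 7137851471) (nat_lit 76) (nat_lit 7002099772) (nat_lit 65) (nat_lit 5) (nat_lit 70) (nat_lit 5) (nat_lit 66) (nat_lit 5) (nat_lit 331) (nat_lit 272) (nat_lit 177))) (XT.nd (nat_lit 78) (nat_lit 0) (nat_lit 0) (XT.lf (nat_lit 0) (nat_lit 765756957) (nat_lit 228) (nat_lit 5139027238) (nat_lit 304) (nat_lit 11435920735) (nat_lit 62) (nat_lit 5) (nat_lit 65) (nat_lit 5) (nat_lit 66) (nat_lit 5) (nat_lit 332) (nat_lit 272) (nat_lit 176)) (XT.lf (nat_lit 0) (nat_lit 9027613068) (nat_lit 228) (nat_lit 71815638) (nat_lit 304) (nat_lit 8594210896) (nat_lit 62) (nat_lit 5) (nat_lit 65) (nat_lit 5) (nat_lit 66) (nat_lit 5) (nat_lit 333) (nat_lit 272) (nat_lit 175))))))))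
noncomputable def xc139 : XT := (XT.nd (nat_lit 2028) (nat_lit 1292) (nat_lit 0) (XT.nd (nat_lit 1014) (nat_lit 988) (nat_lit 0) (XT.nd (nat_lit 468) (nat_lit 608) (nat_lit 0) (XT.nd (nat_lit 234) (nat_lit 456) (nat_lit 0) (XT.nd (nat_lit 78) (nat_lit 304) (nat_lit 0) (XT.lf (nat_lit 0) (nat_lit 12422665888) (nat_lit 304) (nat_lit 594204151) (nat_lit 76) (nat_lit 5039325525) (nat_lit 62) (nat_lit 5) (nat_lit 66) (nat_lit 5) (nat_lit 63) (nat_lit 5) (nat_lit 334) (nat_lit 272) (nat_lit 174)) (XT.nd (nat_lit 78) (nat_lit 76) (nat_lit 0) (XT.lf (nat_lit 0) (nat_lit 7848043687) (nat_lit 228) (nat_lit 8057468185) (nat_lit 304) (nat_lit 2522334368) (nat_lit 59) (nat_lit 5) (nat_lit 62) (nat_lit 5) (nat_lit 63) (nat_lit 5) (nat_lit 335) (nat_lit 272) (nat_lit 173)) (XT.lf (nat_lit 0) (nat_lit 658774818) (nat_lit 304) (nat_lit 2285605167) (nat_lit 76) (nat_lit 15866387522) (nat_lit 58) (nat_lit 5) (nat_lit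 62) (nat_lit 5) (nat_lit 59) (nat_lit 5) (nat_lit 336) (nat_lit 272) (nat_lit 172)))) (XT.nd (nat_lit 78) (nat_lit 228) (nat_lit 0) (XT.lf (nat_lit 0) (nat_lit 3952889608) (nat_lit 304) (nat_lit 12893722934) (nat_lit 76) (nat_lit 2355780681) (nat_lit 55) (nat_lit 5) (nat_lit 59) (nat_lit 5) (nat_lit 56) (nat_lit 5) (nat_lit 337) (nat_lit 272) (nat_lit 171)) (XT.nd (nat_lit 78) (nat_lit 228) (nat_lit 0) (XT.lf (nat_lit 0) (nat_lit 7382747658) (nat_lit 304) (nat_lit 4450555162) (nat_lit 76) (nat_lit 7771370966) (nat_lit 55) (nat_lit 5) (nat_lit 59) (nat_lit 5) (nat_lit 56) (nat_lit 5) (nat_lit 338) (nat_lit 272) (nat_lit 170)) (XT.lf (nat_lit 0) (nat_lit 4306916396) (nat_lit 228) (nat_lit 6634897315) (nat_lit 304) (nat_lit 9076432961) (nat_lit 52) (nat_lit 5) (nat_lit 55) (nat_lit 5) (nat_lit 56) (nat_lit 5) (nat_lit 339) (nat_lit 272) (nat_lit 169))))) (XT.nd (nat_lit 234) (nat_lit 380) (nat_lit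 0) (XT.nd (nat_lit 78) (nat_lit 228) (nat_lit 0) (XT.lf (nat_lit 0) (nat_lit 13395535253) (nat_lit 228) (nat_lit 1242190139) (nat_lit 304) (nat_lit 5805612030) (nat_lit 52) (nat_lit 5) (nat_lit 55) (nat_lit 5) (nat_lit 56) (nat_lit 5) (nat_lit 340) (nat_lit 272) (nat_lit 168)) (XT.nd (nat_lit 78) (nat_lit 76) (nat_lit 0) (XT.lf (nat_lit 0) (nat_lit 1847718993) (nat_lit 152) (nat_lit 16641499996) (nat_lit 228) (nat_lit 2390633280) (nat_lit 50) (nat_lit 5) (nat_lit 52) (nat_lit 5) (nat_lit 53) (nat_lit 5) (nat_lit 341) (nat_lit 272) (nat_lit 167)) (XT.lf (nat_lit 0) (nat_lit 1174525037) (nat_lit 228) (nat_lit 10219178375) (nat_lit 76) (nat_lit 9933354458) (nat_lit 49) (nat_lit 5) (nat_lit 52) (nat_lit 5) (nat_lit 50) (nat_lit 5) (nat_lit 342) (nat_lit 272) (nat_lit 166)))) (XT.nd (nat_lit 156) (nat_lit 152) (nat_lit 0) (XT.nd (nat_lit 78) (nat_lit 228) (nat_lit 0) (XT.lf (nat_lit 0) (nat_lit 4784555242)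 (nat_lit 228) (nat_lit 1187441077) (nat_lit 76) (nat_lit 15815405687) (nat_lit 49) (nat_lit 5) (nat_lit 52) (nat_lit 5) (nat_lit 50) (nat_lit 5) (nat_lit 343) (nat_lit 272) (nat_lit 165)) (XT.lf (nat_lit 0) (nat_lit 8255036146) (nat_lit 228) (nat_lit 313577905) (nat_lit 304) (nat_lit 13690981698) (nat_lit 46) (nat_lit 5) (nat_lit 49) (nat_lit 5) (nat_lit 50) (nat_lit 5) (nat_lit 344) (nat_lit 272) (nat_lit 164))) (XT.nd (nat_lit 78) (nat_lit 152) (nat_lit 0) (XT.lf (nat_lit 0) (nat_lit 12517809559) (nat_lit 304) (nat_lit 4815023859) (nat_lit 76) (nat_lit 5411584233) (nat_lit 46) (nat_lit 5) (nat_lit 50) (nat_lit 5) (nat_lit 47) (nat_lit 5) (nat_lit 345) (nat_lit 272) (nat_lit 163)) (XT.lf (nat_lit 0) (nat_lit 4718360603) (nat_lit 152) (nat_lit 11902469900) (nat_lit 228) (nat_lit 6621903696) (nat_lit 44) (nat_lit 5) (nat_lit 46) (nat_lit 5) (nat_lit 47) (nat_lit 5) (nat_lit 346) (nat_lit 272)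 (nat_lit 162)))))) (XT.nd (nat_lit 468) (nat_lit 532) (nat_lit 0) (XT.nd (nat_lit 234) (nat_lit 152) (nat_lit 0) (XT.nd (nat_lit 78) (nat_lit 304) (nat_lit 0) (XT.lf (nat_lit 0) (nat_lit 14615849004) (nat_lit 152) (nat_lit 6266788287) (nat_lit 228) (nat_lit 2872302270) (nat_lit 44) (nat_lit 5) (nat_lit 46) (nat_lit 5) (nat_lit 47) (nat_lit 5) (nat_lit 347) (nat_lit 272) (nat_lit 161)) (XT.nd (nat_lit 78) (nat_lit 0) (nat_lit 0) (XT.lf (nat_lit 0) (nat_lit 507884310) (nat_lit 228) (nat_lit 454786154) (nat_lit 304) (nat_lit 23319798848) (nat_lit 40) (nat_lit 5) (nat_lit 43) (nat_lit 5) (nat_lit 44) (nat_lit 5) (nat_lit 348) (nat_lit 272) (nat_lit 160)) (XT.lf (nat_lit 0) (nat_lit 4988754902) (nat_lit 304) (nat_lit 14294346920) (nat_lit 76) (nat_lit 5537865496) (nat_lit 40) (nat_lit 5) (nat_lit 44) (nat_lit 5) (nat_lit 41) (nat_lit 5) (nat_lit 349) (nat_lit 272) (nat_lit 159)))) (XT.nd (nat_lit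 78) (nat_lit 152) (nat_lit 0) (XT.lf (nat_lit 0) (nat_lit 9127910563) (nat_lit 304) (nat_lit 4553987179) (nat_lit 76) (nat_lit 11693962899) (nat_lit 40) (nat_lit 5) (nat_lit 44) (nat_lit 5) (nat_lit 41) (nat_lit 5) (nat_lit 350) (nat_lit 272) (nat_lit 158)) (XT.nd (nat_lit 78) (nat_lit 0) (nat_lit 0) (XT.lf (nat_lit 0) (nat_lit 5568029200) (nat_lit 152) (nat_lit 7864876603) (nat_lit 228) (nat_lit 12513253789) (nat_lit 38) (nat_lit 5) (nat_lit 40) (nat_lit 5) (nat_lit 41) (nat_lit 5) (nat_lit 351) (nat_lit 272) (nat_lit 157)) (XT.lf (nat_lit 0) (nat_lit 16068040185) (nat_lit 152) (nat_lit 1833301242) (nat_lit 228) (nat_lit 8631205888) (nat_lit 38) (nat_lit 5) (nat_lit 40) (nat_lit 5) (nat_lit 41) (nat_lit 5) (nat_lit 352) (nat_lit 272) (nat_lit 156))))) (XT.nd (nat_lit 234) (nat_lit 304) (nat_lit 0) (XT.nd (nat_lit 78) (nat_lit 228) (nat_lit 0) (XT.lf (nat_lit 0) (nat_lit 22534502377) (nat_lit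 228) (nat_lit 314315748) (nat_lit 76) (nat_lit 4286796650) (nat_lit 38) (nat_lit 5) (nat_lit 41) (nat_lit 5) (nat_lit 39) (nat_lit 5) (nat_lit 353) (nat_lit 272) (nat_lit 155)) (XT.nd (nat_lit 78) (nat_lit 76) (nat_lit 0) (XT.lf (nat_lit 0) (nat_lit 10305121052) (nat_lit 152) (nat_lit 17107656953) (nat_lit 228) (nat_lit 340820687) (nat_lit 36) (nat_lit 5) (nat_lit 38) (nat_lit 5) (nat_lit 39) (nat_lit 5) (nat_lit 354) (nat_lit 272) (nat_lit 154)) (XT.lf (nat_lit 0) (nat_lit 3960451230) (nat_lit 228) (nat_lit 7197627202) (nat_lit 76) (nat_lit 17231119663) (nat_lit 35) (nat_lit 5) (nat_lit 38) (nat_lit 5) (nat_lit 36) (nat_lit 5) (nat_lit 355) (nat_lit 272) (nat_lit 153)))) (XT.nd (nat_lit 156) (nat_lit 152) (nat_lit 0) (XT.nd (nat_lit 78) (nat_lit 0) (nat_lit 0) (XT.lf (nat_lit 0) (nat_lit 3406123460) (nat_lit 152) (nat_lit 4999794538) (nat_lit 228) (nat_lit 20637193392) (nat_lit 33) (nat_lit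 5) (nat_lit 35) (nat_lit 5) (nat_lit 36) (nat_lit 5) (nat_lit 356) (nat_lit 272) (nat_lit 152)) (XT.lf (nat_lit 0) (nat_lit 13060404657) (nat_lit 228) (nat_lit 15270363234) (nat_lit 76) (nat_lit 1383611651) (nat_lit 33) (nat_lit 5) (nat_lit 36) (nat_lit 5) (nat_lit 34) (nat_lit 5) (nat_lit 357) (nat_lit 272) (nat_lit 151))) (XT.nd (nat_lit 78) (nat_lit 152) (nat_lit 0) (XT.lf (nat_lit 0) (nat_lit 17893681565) (nat_lit 228) (nat_lit 4659525146) (nat_lit 76) (nat_lit 7851411286) (nat_lit 33) (nat_lit 5) (nat_lit 36) (nat_lit 5) (nat_lit 34) (nat_lit 5) (nat_lit 358) (nat_lit 272) (nat_lit 150)) (XT.lf (nat_lit 0) (nat_lit 6377303180) (nat_lit 152) (nat_lit 16545910252) (nat_lit 228) (nat_lit 8190819199) (nat_lit 31) (nat_lit 5) (nat_lit 33) (nat_lit 5) (nat_lit 34) (nat_lit 5) (nat_lit 359) (nat_lit 272) (nat_lit 149))))))) (XT.nd (nat_lit 1014) (nat_lit 608) (nat_lit 0) (XT.nd (nat_lit 468) (nat_lit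 304) (nat_lit 0) (XT.nd (nat_lit 234) (nat_lit 152) (nat_lit 0) (XT.nd (nat_lit 78) (nat_lit 228) (nat_lit 0) (XT.lf (nat_lit 0) (nat_lit 17824137493) (nat_lit 152) (nat_lit 10316632830) (nat_lit 228) (nat_lit 3702851738) (nat_lit 31) (nat_lit 5) (nat_lit 33) (nat_lit 5) (nat_lit 34) (nat_lit 5) (nat_lit 360) (nat_lit 272) (nat_lit 148)) (XT.nd (nat_lit 78) (nat_lit 152) (nat_lit 0) (XT.lf (nat_lit 0) (nat_lit 892081241) (nat_lit 228) (nat_lit 3005893942) (nat_lit 76) (nat_lit 28697156682) (nat_lit 30) (nat_lit 5) (nat_lit 33) (nat_lit 5) (nat_lit 31) (nat_lit 5) (nat_lit 361) (nat_lit 272) (nat_lit 147)) (XT.lf (nat_lit 0) (nat_lit 5649414273) (nat_lit 228) (nat_lit 24942639153) (nat_lit 76) (nat_lit 2773070385) (nat_lit 28) (nat_lit 5) (nat_lit 31) (nat_lit 5) (nat_lit 29) (nat_lit 5) (nat_lit 362) (nat_lit 272) (nat_lit 146)))) (XT.nd (nat_lit 78) (nat_lit 152) (nat_lit 0) (XT.lf (nat_lit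 0) (nat_lit 10609335550) (nat_lit 228) (nat_lit 13956790047) (nat_lit 76) (nat_lit 9590299670) (nat_lit 28) (nat_lit 5) (nat_lit 31) (nat_lit 5) (nat_lit 29) (nat_lit 5) (nat_lit 363) (nat_lit 272) (nat_lit 145)) (XT.nd (nat_lit 78) (nat_lit 152) (nat_lit 0) (XT.lf (nat_lit 0) (nat_lit 15708947937) (nat_lit 228) (nat_lit 2656824977) (nat_lit 76) (nat_lit 16605971684) (nat_lit 28) (nat_lit 5) (nat_lit 31) (nat_lit 5) (nat_lit 29) (nat_lit 5) (nat_lit 364) (nat_lit 272) (nat_lit 144)) (XT.lf (nat_lit 0) (nat_lit 9145593279) (nat_lit 152) (nat_lit 11895027162) (nat_lit 228) (nat_lit 14768536383) (nat_lit 26) (nat_lit 5) (nat_lit 28) (nat_lit 5) (nat_lit 29) (nat_lit 5) (nat_lit 365) (nat_lit 272) (nat_lit 143))))) (XT.nd (nat_lit 234) (nat_lit 228) (nat_lit 0) (XT.nd (nat_lit 78) (nat_lit 76) (nat_lit 0) (XT.lf (nat_lit 0) (nat_lit 21341684309) (nat_lit 152) (nat_lit 5208660894) (nat_lit 228) (nat_lit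 10120808460) (nat_lit 26) (nat_lit 5) (nat_lit 28) (nat_lit 5) (nat_lit 29) (nat_lit 5) (nat_lit 366) (nat_lit 272) (nat_lit 142)) (XT.nd (nat_lit 78) (nat_lit 76) (nat_lit 0) (XT.lf (nat_lit 0) (nat_lit 32232964792) (nat_lit 228) (nat_lit 3686116424) (nat_lit 76) (nat_lit 1639706252) (nat_lit 26) (nat_lit 5) (nat_lit 29) (nat_lit 5) (nat_lit 27) (nat_lit 4) (nat_lit 367) (nat_lit 272) (nat_lit 141)) (XT.lf (nat_lit 0) (nat_lit 8404768377) (nat_lit 76) (nat_lit 29805375980) (nat_lit 152) (nat_lit 259188496) (nat_lit 25) (nat_lit 5) (nat_lit 26) (nat_lit 5) (nat_lit 27) (nat_lit 4) (nat_lit 368) (nat_lit 272) (nat_lit 140)))) (XT.nd (nat_lit 156) (nat_lit 152) (nat_lit 0) (XT.nd (nat_lit 78) (nat_lit 0) (nat_lit 0) (XT.lf (nat_lit 0) (nat_lit 4891998167) (nat_lit 152) (nat_lit 18534413164) (nat_lit 76) (nat_lit 15978477884) (nat_lit 24) (nat_lit 5) (nat_lit 26) (nat_lit 5) (nat_lit 25) (nat_lit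 5) (nat_lit 369) (nat_lit 272) (nat_lit 139)) (XT.lf (nat_lit 0) (nat_lit 10184490607) (nat_lit 152) (nat_lit 6674743907) (nat_lit 76) (nat_lit 23509445959) (nat_lit 24) (nat_lit 5) (nat_lit 26) (nat_lit 5) (nat_lit 25) (nat_lit 5) (nat_lit 370) (nat_lit 272) (nat_lit 138))) (XT.nd (nat_lit 78) (nat_lit 0) (nat_lit 0) (XT.lf (nat_lit 0) (nat_lit 5637301651) (nat_lit 152) (nat_lit 10044858575) (nat_lit 228) (nat_lit 25677837618) (nat_lit 22) (nat_lit 5) (nat_lit 24) (nat_lit 5) (nat_lit 25) (nat_lit 5) (nat_lit 371) (nat_lit 272) (nat_lit 137)) (XT.lf (nat_lit 0) (nat_lit 18442247994) (nat_lit 152) (nat_lit 2962226061) (nat_lit 228) (nat_lit 20974793572) (nat_lit 22) (nat_lit 5) (nat_lit 24) (nat_lit 5) (nat_lit 25) (nat_lit 5) (nat_lit 372) (nat_lit 272) (nat_lit 136)))))) (XT.nd (nat_lit 546) (nat_lit 304) (nat_lit 0) (XT.nd (nat_lit 234) (nat_lit 228) (nat_lit 0) (XT.nd (nat_lit 78) (nat_lit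 76) (nat_lit 0) (XT.lf (nat_lit 0) (nat_lit 27332591606) (nat_lit 228) (nat_lit 11852498289) (nat_lit 76) (nat_lit 4243005772) (nat_lit 22) (nat_lit 5) (nat_lit 25) (nat_lit 5) (nat_lit 23) (nat_lit 4) (nat_lit 373) (nat_lit 272) (nat_lit 135)) (XT.nd (nat_lit 78) (nat_lit 0) (nat_lit 0) (XT.lf (nat_lit 0) (nat_lit 563531928) (nat_lit 76) (nat_lit 32902469614) (nat_lit 152) (nat_lit 11041567609) (nat_lit 21) (nat_lit 5) (nat_lit 22) (nat_lit 5) (nat_lit 23) (nat_lit 4) (nat_lit 374) (nat_lit 272) (nat_lit 134)) (XT.lf (nat_lit 0) (nat_lit 13582437767) (nat_lit 76) (nat_lit 26313457585) (nat_lit 152) (nat_lit 5720160991) (nat_lit 21) (nat_lit 5) (nat_lit 22) (nat_lit 5) (nat_lit 23) (nat_lit 4) (nat_lit 375) (nat_lit 272) (nat_lit 133)))) (XT.nd (nat_lit 156) (nat_lit 152) (nat_lit 0) (XT.nd (nat_lit 78) (nat_lit 76) (nat_lit 0) (XT.lf (nat_lit 0) (nat_lit 26979707014) (nat_lit 76) (nat_lit 19531983412)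 (nat_lit 152) (nat_lit 246321427) (nat_lit 21) (nat_lit 5) (nat_lit 22) (nat_lit 5) (nat_lit 23) (nat_lit 4) (nat_lit 376) (nat_lit 272) (nat_lit 132)) (XT.lf (nat_lit 0) (nat_lit 5279658492) (nat_lit 152) (nat_lit 7219148844) (nat_lit 76) (nat_lit 35434073330) (nat_lit 20) (nat_lit 5) (nat_lit 22) (nat_lit 5) (nat_lit 21) (nat_lit 5) (nat_lit 377) (nat_lit 272) (nat_lit 131))) (XT.nd (nat_lit 78) (nat_lit 0) (nat_lit 0) (XT.lf (nat_lit 0) (nat_lit 5816198656) (nat_lit 152) (nat_lit 5199514387) (nat_lit 228) (nat_lit 38125735463) (nat_lit 18) (nat_lit 5) (nat_lit 20) (nat_lit 5) (nat_lit 21) (nat_lit 5) (nat_lit 378) (nat_lit 272) (nat_lit 130)) (XT.lf (nat_lit 0) (nat_lit 17013132494) (nat_lit 228) (nat_lit 31028183913) (nat_lit 76) (nat_lit 2342281884) (nat_lit 18) (nat_lit 5) (nat_lit 21) (nat_lit 5) (nat_lit 19) (nat_lit 4) (nat_lit 379) (nat_lit 272) (nat_lit 129))))) (XT.nd (nat_lit 234)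 (nat_lit 228) (nat_lit 0) (XT.nd (nat_lit 78) (nat_lit 76) (nat_lit 0) (XT.lf (nat_lit 0) (nat_lit 23235520814) (nat_lit 228) (nat_lit 18425024664) (nat_lit 76) (nat_lit 10001119011) (nat_lit 18) (nat_lit 5) (nat_lit 21) (nat_lit 5) (nat_lit 19) (nat_lit 4) (nat_lit 380) (nat_lit 272) (nat_lit 128)) (XT.nd (nat_lit 78) (nat_lit 76) (nat_lit 0) (XT.lf (nat_lit 0) (nat_lit 29638334131) (nat_lit 228) (nat_lit 5454778721) (nat_lit 76) (nat_lit 17885150434) (nat_lit 18) (nat_lit 5) (nat_lit 21) (nat_lit 5) (nat_lit 19) (nat_lit 4) (nat_lit 381) (nat_lit 272) (nat_lit 127)) (XT.lf (nat_lit 0) (nat_lit 8050990972) (nat_lit 76) (nat_lit 28253567212) (nat_lit 152) (nat_lit 18027665191) (nat_lit 17) (nat_lit 5) (nat_lit 18) (nat_lit 5) (nat_lit 19) (nat_lit 4) (nat_lit 382) (nat_lit 272) (nat_lit 126)))) (XT.nd (nat_lit 156) (nat_lit 228) (nat_lit 0) (XT.nd (nat_lit 78) (nat_lit 0) (nat_lit 0) (XT.lf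 (nat_lit 0) (nat_lit 22063168692) (nat_lit 76) (nat_lit 21156693039) (nat_lit 152) (nat_lit 12505470779) (nat_lit 17) (nat_lit 5) (nat_lit 18) (nat_lit 5) (nat_lit 19) (nat_lit 4) (nat_lit 383) (nat_lit 272) (nat_lit 125)) (XT.lf (nat_lit 0) (nat_lit 36485437296) (nat_lit 76) (nat_lit 13851371751) (nat_lit 152) (nat_lit 6823603273) (nat_lit 17) (nat_lit 5) (nat_lit 18) (nat_lit 5) (nat_lit 19) (nat_lit 4) (nat_lit 384) (nat_lit 272) (nat_lit 124))) (XT.nd (nat_lit 78) (nat_lit 228) (nat_lit 0) (XT.lf (nat_lit 0) (nat_lit 51330398767) (nat_lit 76) (nat_lit 6331220057) (nat_lit 152) (nat_lit 977097932) (nat_lit 17) (nat_lit 5) (nat_lit 18) (nat_lit 5) (nat_lit 19) (nat_lit 4) (nat_lit 385) (nat_lit 272) (nat_lit 123)) (XT.lf (nat_lit 0) (nat_lit 5018235086) (nat_lit 228) (nat_lit 53644418768) (nat_lit 76) (nat_lit 1495108106) (nat_lit 14) (nat_lit 5) (nat_lit 17) (nat_lit 5) (nat_lit 15) (nat_lit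 4) (nat_lit 386) (nat_lit 272) (nat_lit 122))))))))
noncomputable def xc140 : XT := (XT.nd (nat_lit 32292) (nat_lit 0) (nat_lit 9348) (XT.nd (nat_lit 1014) (nat_lit 152) (nat_lit 0) (XT.nd (nat_lit 468) (nat_lit 152) (nat_lit 0) (XT.nd (nat_lit 234) (nat_lit 76) (nat_lit 0) (XT.nd (nat_lit 78) (nat_lit 0) (nat_lit 0) (XT.lf (nat_lit 0) (nat_lit 11305493998) (nat_lit 228) (nat_lit 40903614807) (nat_lit 76) (nat_lit 9509030962) (nat_lit 14) (nat_lit 5) (nat_lit 17) (nat_lit 5) (nat_lit 15) (nat_lit 4) (nat_lit 387) (nat_lit 272) (nat_lit 121)) (XT.nd (nat_lit 78) (nat_lit 0) (nat_lit 0) (XT.lf (nat_lit 0) (nat_lit 17776020080) (nat_lit 228) (nat_lit 27790128056) (nat_lit 76) (nat_lit 17759343826) (nat_lit 14) (nat_lit 5) (nat_lit 17) (nat_lit 5) (nat_lit 15) (nat_lit 4) (nat_lit 388) (nat_lit 272) (nat_lit 120)) (XT.lf (nat_lit 0) (nat_lit 24435467190) (nat_lit 228) (nat_lit 14292500127) (nat_lit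 76) (nat_lit 26253255711) (nat_lit 14) (nat_lit 5) (nat_lit 17) (nat_lit 5) (nat_lit 15) (nat_lit 4) (nat_lit 389) (nat_lit 272) (nat_lit 119)))) (XT.nd (nat_lit 78) (nat_lit 76) (nat_lit 0) (XT.lf (nat_lit 0) (nat_lit 31289654262) (nat_lit 228) (nat_lit 398936977) (nat_lit 76) (nat_lit 34998188479) (nat_lit 14) (nat_lit 5) (nat_lit 17) (nat_lit 5) (nat_lit 15) (nat_lit 4) (nat_lit 390) (nat_lit 272) (nat_lit 118)) (XT.nd (nat_lit 78) (nat_lit 0) (nat_lit 0) (XT.lf (nat_lit 0) (nat_lit 14179392418) (nat_lit 76) (nat_lit 24301478967) (nat_lit 152) (nat_lit 29958691912) (nat_lit 13) (nat_lit 5) (nat_lit 14) (nat_lit 5) (nat_lit 15) (nat_lit 4) (nat_lit 391) (nat_lit 272) (nat_lit 117)) (XT.lf (nat_lit 0) (nat_lit 29194603450) (nat_lit 76) (nat_lit 16692413005) (nat_lit 152) (nat_lit 24357940438) (nat_lit 13) (nat_lit 5) (nat_lit 14) (nat_lit 5) (nat_lit 15) (nat_lit 4) (nat_lit 392) (nat_lit 272)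 (nat_lit 116))))) (XT.nd (nat_lit 234) (nat_lit 76) (nat_lit 0) (XT.nd (nat_lit 78) (nat_lit 76) (nat_lit 0) (XT.lf (nat_lit 0) (nat_lit 44651876579) (nat_lit 76) (nat_lit 8858773137) (nat_lit 152) (nat_lit 18594005654) (nat_lit 13) (nat_lit 5) (nat_lit 14) (nat_lit 5) (nat_lit 15) (nat_lit 4) (nat_lit 393) (nat_lit 272) (nat_lit 115)) (XT.nd (nat_lit 78) (nat_lit 76) (nat_lit 0) (XT.lf (nat_lit 0) (nat_lit 60564718158) (nat_lit 76) (nat_lit 793714434) (nat_lit 152) (nat_lit 12661851113) (nat_lit 13) (nat_lit 5) (nat_lit 14) (nat_lit 5) (nat_lit 15) (nat_lit 4) (nat_lit 394) (nat_lit 272) (nat_lit 114)) (XT.lf (nat_lit 0) (nat_lit 898868127) (nat_lit 76) (nat_lit 68619183604) (nat_lit 76) (nat_lit 6473039138) (nat_lit 12) (nat_lit 4) (nat_lit 13) (nat_lit 5) (nat_lit 13) (nat_lit 4) (nat_lit 395) (nat_lit 272) (nat_lit 113)))) (XT.nd (nat_lit 156) (nat_lit 0) (nat_lit 0) (XT.nd (nat_lit 78)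 (nat_lit 0) (nat_lit 0) (XT.lf (nat_lit 0) (nat_lit 43987139) (nat_lit 152) (nat_lit 62073467403) (nat_lit 76) (nat_lit 15899379273) (nat_lit 11) (nat_lit 5) (nat_lit 13) (nat_lit 5) (nat_lit 12) (nat_lit 4) (nat_lit 396) (nat_lit 272) (nat_lit 112)) (XT.lf (nat_lit 0) (nat_lit 6622100145) (nat_lit 152) (nat_lit 48736030847) (nat_lit 76) (nat_lit 24743426932) (nat_lit 11) (nat_lit 5) (nat_lit 13) (nat_lit 5) (nat_lit 12) (nat_lit 4) (nat_lit 397) (nat_lit 272) (nat_lit 111))) (XT.nd (nat_lit 78) (nat_lit 0) (nat_lit 0) (XT.lf (nat_lit 0) (nat_lit 13393360052) (nat_lit 152) (nat_lit 35006036191) (nat_lit 76) (nat_lit 33849555239) (nat_lit 11) (nat_lit 5) (nat_lit 13) (nat_lit 5) (nat_lit 12) (nat_lit 4) (nat_lit 398) (nat_lit 272) (nat_lit 110)) (XT.lf (nat_lit 0) (nat_lit 20363683496) (nat_lit 152) (nat_lit 20871486353) (nat_lit 76) (nat_lit 43225721003) (nat_lit 11) (nat_lit 5) (nat_lit 13)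 (nat_lit 5) (nat_lit 12) (nat_lit 4) (nat_lit 399) (nat_lit 272) (nat_lit 109)))))) (XT.nd (nat_lit 30732) (nat_lit 0) (nat_lit 17784) (XT.nd (nat_lit 234) (nat_lit 76) (nat_lit 0) (XT.nd (nat_lit 78) (nat_lit 76) (nat_lit 0) (XT.lf (nat_lit 0) (nat_lit 27539161051) (nat_lit 152) (nat_lit 6320030756) (nat_lit 76) (nat_lit 52880116993) (nat_lit 11) (nat_lit 5) (nat_lit 13) (nat_lit 5) (nat_lit 12) (nat_lit 4) (nat_lit 400) (nat_lit 272) (nat_lit 108)) (XT.nd (nat_lit 78) (nat_lit 0) (nat_lit 0) (XT.lf (nat_lit 0) (nat_lit 8833417252) (nat_lit 76) (nat_lit 26177557510) (nat_lit 152) (nat_lit 54072674045) (nat_lit 10) (nat_lit 5) (nat_lit 11) (nat_lit 5) (nat_lit 12) (nat_lit 4) (nat_lit 401) (nat_lit 272) (nat_lit 107)) (XT.lf (nat_lit 0) (nat_lit 24564167964) (nat_lit 76) (nat_lit 18202800416) (nat_lit 152) (nat_lit 48729551496) (nat_lit 10) (nat_lit 5) (nat_lit 11) (nat_lit 5) (nat_lit 12) (nat_lit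 4) (nat_lit 402) (nat_lit 272) (nat_lit 106)))) (XT.nd (nat_lit 78) (nat_lit 76) (nat_lit 0) (XT.lf (nat_lit 0) (nat_lit 40760185691) (nat_lit 76) (nat_lit 9991772212) (nat_lit 152) (nat_lit 43229931272) (nat_lit 10) (nat_lit 5) (nat_lit 11) (nat_lit 5) (nat_lit 12) (nat_lit 4) (nat_lit 403) (nat_lit 272) (nat_lit 105)) (XT.nd (nat_lit 234) (nat_lit 76) (nat_lit 0) (XT.lf (nat_lit 0) (nat_lit 57435622294) (nat_lit 76) (nat_lit 1537298211) (nat_lit 152) (nat_lit 37569007880) (nat_lit 10) (nat_lit 5) (nat_lit 11) (nat_lit 5) (nat_lit 12) (nat_lit 4) (nat_lit 404) (nat_lit 272) (nat_lit 104)) (XT.lf (nat_lit 0) (nat_lit 5660209780) (nat_lit 76) (nat_lit 79762541756) (nat_lit 76) (nat_lit 19261075169) (nat_lit 9) (nat_lit 4) (nat_lit 10) (nat_lit 5) (nat_lit 10) (nat_lit 4) (nat_lit 407) (nat_lit 272) (nat_lit 101))))) (XT.nd (nat_lit 234) (nat_lit 0) (nat_lit 0) (XT.nd (nat_lit 78) (nat_lit 760)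 (nat_lit 0) (XT.lf (nat_lit 0) (nat_lit 1125572313) (nat_lit 0) (nat_lit 1125572313) (nat_lit 684) (nat_lit 1338949111) (nat_lit 253) (nat_lit 5) (nat_lit 253) (nat_lit 3) (nat_lit 262) (nat_lit 3) (nat_lit 273) (nat_lit 273) (nat_lit 234)) (XT.nd (nat_lit 78) (nat_lit 760) (nat_lit 0) (XT.lf (nat_lit 0) (nat_lit 5552425219) (nat_lit 0) (nat_lit 562057344) (nat_lit 684) (nat_lit 1123946166) (nat_lit 253) (nat_lit 5) (nat_lit 253) (nat_lit 3) (nat_lit 262) (nat_lit 3) (nat_lit 274) (nat_lit 273) (nat_lit 233)) (XT.lf (nat_lit 0) (nat_lit 433996213) (nat_lit 760) (nat_lit 5661081159) (nat_lit 836) (nat_lit 1204320515) (nat_lit 243) (nat_lit 5) (nat_lit 253) (nat_lit 5) (nat_lit 254) (nat_lit 5) (nat_lit 275) (nat_lit 273) (nat_lit 232)))) (XT.nd (nat_lit 156) (nat_lit 0) (nat_lit 0) (XT.nd (nat_lit 78) (nat_lit 0) (nat_lit 0) (XT.lf (nat_lit 0) (nat_lit 1979595140) (nat_lit 760) (nat_lit 2314957750)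 (nat_lit 836) (nat_lit 3068518970) (nat_lit 243) (nat_lit 5) (nat_lit 253) (nat_lit 5) (nat_lit 254) (nat_lit 5) (nat_lit 276) (nat_lit 273) (nat_lit 231)) (XT.lf (nat_lit 76) (nat_lit 1121057548) (nat_lit 0) (nat_lit 2403756176) (nat_lit 836) (nat_lit 3905356275) (nat_lit 244) (nat_lit 5) (nat_lit 243) (nat_lit 5) (nat_lit 254) (nat_lit 5) (nat_lit 277) (nat_lit 273) (nat_lit 230))) (XT.nd (nat_lit 78) (nat_lit 0) (nat_lit 76) (XT.lf (nat_lit 76) (nat_lit 4675557318) (nat_lit 0) (nat_lit 408050865) (nat_lit 836) (nat_lit 2416764567) (nat_lit 244) (nat_lit 5) (nat_lit 243) (nat_lit 5) (nat_lit 254) (nat_lit 5) (nat_lit 278) (nat_lit 273) (nat_lit 229)) (XT.lf (nat_lit 76) (nat_lit 729322612) (nat_lit 0) (nat_lit 5928394995) (nat_lit 836) (nat_lit 916012539) (nat_lit 245) (nat_lit 5) (nat_lit 244) (nat_lit 5) (nat_lit 255) (nat_lit 5) (nat_lit 279) (nat_lit 273) (nat_lit 228))))))) (XT.nd (nat_lit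 1014) (nat_lit 5016) (nat_lit 0) (XT.nd (nat_lit 468) (nat_lit 1824) (nat_lit 0) (XT.nd (nat_lit 234) (nat_lit 836) (nat_lit 0) (XT.nd (nat_lit 78) (nat_lit 0) (nat_lit 0) (XT.lf (nat_lit 0) (nat_lit 596665634) (nat_lit 836) (nat_lit 3244743093) (nat_lit 912) (nat_lit 3808421213) (nat_lit 233) (nat_lit 5) (nat_lit 244) (nat_lit 5) (nat_lit 245) (nat_lit 5) (nat_lit 280) (nat_lit 273) (nat_lit 227)) (XT.nd (nat_lit 78) (nat_lit 0) (nat_lit 76) (XT.lf (nat_lit 76) (nat_lit 429281655) (nat_lit 0) (nat_lit 1659065722) (nat_lit 912) (nat_lit 5641128422) (nat_lit 234) (nat_lit 5) (nat_lit 233) (nat_lit 5) (nat_lit 245) (nat_lit 5) (nat_lit 281) (nat_lit 273) (nat_lit 226)) (XT.lf (nat_lit 0) (nat_lit 3612815990) (nat_lit 836) (nat_lit 3570880495) (nat_lit 912) (nat_lit 628266831) (nat_lit 234) (nat_lit 5) (nat_lit 245) (nat_lit 5) (nat_lit 246) (nat_lit 5) (nat_lit 282) (nat_lit 273) (nat_lit 225))))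 (XT.nd (nat_lit 78) (nat_lit 912) (nat_lit 0) (XT.lf (nat_lit 76) (nat_lit 224866540) (nat_lit 0) (nat_lit 4927504208) (nat_lit 912) (nat_lit 2745564806) (nat_lit 235) (nat_lit 5) (nat_lit 234) (nat_lit 5) (nat_lit 246) (nat_lit 5) (nat_lit 283) (nat_lit 273) (nat_lit 224)) (XT.nd (nat_lit 78) (nat_lit 912) (nat_lit 0) (XT.lf (nat_lit 76) (nat_lit 4174605476) (nat_lit 0) (nat_lit 2551445770) (nat_lit 912) (nat_lit 1260885555) (nat_lit 235) (nat_lit 5) (nat_lit 234) (nat_lit 5) (nat_lit 246) (nat_lit 5) (nat_lit 284) (nat_lit 273) (nat_lit 223)) (XT.lf (nat_lit 76) (nat_lit 131066497) (nat_lit 0) (nat_lit 86026714) (nat_lit 988) (nat_lit 7862900596) (nat_lit 223) (nat_lit 5) (nat_lit 222) (nat_lit 5) (nat_lit 235) (nat_lit 5) (nat_lit 285) (nat_lit 273) (nat_lit 222))))) (XT.nd (nat_lit 234) (nat_lit 1900) (nat_lit 0) (XT.nd (nat_lit 78) (nat_lit 0) (nat_lit 0) (XT.lf (nat_lit 0) (nat_lit 1730455475)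 (nat_lit 912) (nat_lit 3974631252) (nat_lit 988) (nat_lit 2469970225) (nat_lit 223) (nat_lit 5) (nat_lit 235) (nat_lit 5) (nat_lit 236) (nat_lit 5) (nat_lit 286) (nat_lit 273) (nat_lit 221)) (XT.nd (nat_lit 78) (nat_lit 0) (nat_lit 0) (XT.lf (nat_lit 76) (nat_lit 86317940) (nat_lit 0) (nat_lit 3159849442) (nat_lit 988) (nat_lit 5028174345) (nat_lit 224) (nat_lit 5) (nat_lit 223) (nat_lit 5) (nat_lit 236) (nat_lit 5) (nat_lit 287) (nat_lit 273) (nat_lit 220)) (XT.lf (nat_lit 76) (nat_lit 4317490812) (nat_lit 0) (nat_lit 486248004) (nat_lit 988) (nat_lit 3573050508) (nat_lit 224) (nat_lit 5) (nat_lit 223) (nat_lit 5) (nat_lit 236) (nat_lit 5) (nat_lit 288) (nat_lit 273) (nat_lit 219)))) (XT.nd (nat_lit 156) (nat_lit 1064) (nat_lit 0) (XT.nd (nat_lit 78) (nat_lit 0) (nat_lit 0) (XT.lf (nat_lit 0) (nat_lit 140671548) (nat_lit 912) (nat_lit 6248141201) (nat_lit 988) (nat_lit 2094148052) (nat_lit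 212) (nat_lit 5) (nat_lit 224) (nat_lit 5) (nat_lit 225) (nat_lit 5) (nat_lit 289) (nat_lit 273) (nat_lit 218)) (XT.lf (nat_lit 0) (nat_lit 4511706475) (nat_lit 912) (nat_lit 3514031178) (nat_lit 988) (nat_lit 566522371) (nat_lit 212) (nat_lit 5) (nat_lit 224) (nat_lit 5) (nat_lit 225) (nat_lit 5) (nat_lit 290) (nat_lit 273) (nat_lit 217))) (XT.nd (nat_lit 78) (nat_lit 0) (nat_lit 0) (XT.lf (nat_lit 0) (nat_lit 271507540) (nat_lit 988) (nat_lit 677667120) (nat_lit 1064) (nat_lit 7756583899) (nat_lit 198) (nat_lit 5) (nat_lit 211) (nat_lit 5) (nat_lit 212) (nat_lit 5) (nat_lit 291) (nat_lit 273) (nat_lit 216)) (XT.lf (nat_lit 0) (nat_lit 2522357883) (nat_lit 1064) (nat_lit 4045382898) (nat_lit 76) (nat_lit 2254116433) (nat_lit 198) (nat_lit 5) (nat_lit 212) (nat_lit 5) (nat_lit 199) (nat_lit 5) (nat_lit 292) (nat_lit 273) (nat_lit 215)))))) (XT.nd (nat_lit 468) (nat_lit 2204) (nat_lit 0) (XT.nd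 (nat_lit 234) (nat_lit 608) (nat_lit 0) (XT.nd (nat_lit 78) (nat_lit 1140) (nat_lit 0) (XT.lf (nat_lit 0) (nat_lit 443950339) (nat_lit 1064) (nat_lit 3671141604) (nat_lit 1140) (nat_lit 4827239810) (nat_lit 184) (nat_lit 5) (nat_lit 198) (nat_lit 5) (nat_lit 199) (nat_lit 5) (nat_lit 293) (nat_lit 273) (nat_lit 214)) (XT.nd (nat_lit 78) (nat_lit 1140) (nat_lit 0) (XT.lf (nat_lit 0) (nat_lit 5118060579) (nat_lit 1064) (nat_lit 640585454) (nat_lit 1140) (nat_lit 3307745088) (nat_lit 184) (nat_lit 5) (nat_lit 198) (nat_lit 5) (nat_lit 199) (nat_lit 5) (nat_lit 294) (nat_lit 273) (nat_lit 213)) (XT.lf (nat_lit 0) (nat_lit 694852161) (nat_lit 1140) (nat_lit 6750517147) (nat_lit 1216) (nat_lit 1749047020) (nat_lit 169) (nat_lit 5) (nat_lit 184) (nat_lit 5) (nat_lit 185) (nat_lit 5) (nat_lit 295) (nat_lit 273) (nat_lit 212)))) (XT.nd (nat_lit 78) (nat_lit 608) (nat_lit 0) (XT.lf (nat_lit 0) (nat_lit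 5519041963) (nat_lit 1140) (nat_lit 3673891398) (nat_lit 1216) (nat_lit 133099946) (nat_lit 169) (nat_lit 5) (nat_lit 184) (nat_lit 5) (nat_lit 185) (nat_lit 5) (nat_lit 296) (nat_lit 273) (nat_lit 211)) (XT.nd (nat_lit 78) (nat_lit 0) (nat_lit 0) (XT.lf (nat_lit 0) (nat_lit 998564951) (nat_lit 532) (nat_lit 477211534) (nat_lit 608) (nat_lit 7986205579) (nat_lit 161) (nat_lit 5) (nat_lit 168) (nat_lit 5) (nat_lit 169) (nat_lit 5) (nat_lit 297) (nat_lit 273) (nat_lit 210)) (XT.lf (nat_lit 0) (nat_lit 3161604116) (nat_lit 608) (nat_lit 3636641931) (nat_lit 76) (nat_lit 2802836152) (nat_lit 161) (nat_lit 5) (nat_lit 169) (nat_lit 5) (nat_lit 162) (nat_lit 5) (nat_lit 298) (nat_lit 273) (nat_lit 209))))) (XT.nd (nat_lit 234) (nat_lit 1064) (nat_lit 0) (XT.nd (nat_lit 78) (nat_lit 532) (nat_lit 0) (XT.lf (nat_lit 0) (nat_lit 1323660464) (nat_lit 608) (nat_lit 3558273704) (nat_lit 684) (nat_lit 4862955041)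 (nat_lit 153) (nat_lit 5) (nat_lit 161) (nat_lit 5) (nat_lit 162) (nat_lit 5) (nat_lit 299) (nat_lit 273) (nat_lit 208)) (XT.nd (nat_lit 78) (nat_lit 532) (nat_lit 0) (XT.lf (nat_lit 0) (nat_lit 6475256424) (nat_lit 608) (nat_lit 182487678) (nat_lit 684) (nat_lit 3235200424) (nat_lit 153) (nat_lit 5) (nat_lit 161) (nat_lit 5) (nat_lit 162) (nat_lit 5) (nat_lit 300) (nat_lit 273) (nat_lit 207)) (XT.lf (nat_lit 0) (nat_lit 1705426114) (nat_lit 532) (nat_lit 6797576540) (nat_lit 608) (nat_lit 1542002349) (nat_lit 146) (nat_lit 5) (nat_lit 153) (nat_lit 5) (nat_lit 154) (nat_lit 5) (nat_lit 301) (nat_lit 273) (nat_lit 206)))) (XT.nd (nat_lit 156) (nat_lit 456) (nat_lit 0) (XT.nd (nat_lit 78) (nat_lit 532) (nat_lit 0) (XT.lf (nat_lit 0) (nat_lit 203088726) (nat_lit 608) (nat_lit 3184891466) (nat_lit 76) (nat_lit 6813483629) (nat_lit 145) (nat_lit 5) (nat_lit 153) (nat_lit 5) (nat_lit 146) (nat_lit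 5) (nat_lit 302) (nat_lit 273) (nat_lit 205)) (XT.lf (nat_lit 0) (nat_lit 1960743438) (nat_lit 608) (nat_lit 8245086478) (nat_lit 76) (nat_lit 156636955) (nat_lit 138) (nat_lit 5) (nat_lit 146) (nat_lit 5) (nat_lit 139) (nat_lit 5) (nat_lit 303) (nat_lit 273) (nat_lit 204))) (XT.nd (nat_lit 78) (nat_lit 456) (nat_lit 0) (XT.lf (nat_lit 0) (nat_lit 3807033830) (nat_lit 608) (nat_lit 2949372279) (nat_lit 76) (nat_lit 3770860019) (nat_lit 138) (nat_lit 5) (nat_lit 146) (nat_lit 5) (nat_lit 139) (nat_lit 5) (nat_lit 304) (nat_lit 273) (nat_lit 203)) (XT.lf (nat_lit 0) (nat_lit 2523205634) (nat_lit 456) (nat_lit 3180521212) (nat_lit 532) (nat_lit 4993474139) (nat_lit 132) (nat_lit 5) (nat_lit 138) (nat_lit 5) (nat_lit 139) (nat_lit 5) (nat_lit 305) (nat_lit 273) (nat_lit 202))))))))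
noncomputable def xc141 : XT := (XT.nd (nat_lit 2028) (nat_lit 2432) (nat_lit 0) (XT.nd (nat_lit 1014) (nat_lit 2432) (nat_lit 0) (XT.nd (nat_lit 468) (nat_lit 1216) (nat_lit 0) (XT.nd (nat_lit 234) (nat_lit 912) (nat_lit 0) (XT.nd (nat_lit 78) (nat_lit 532) (nat_lit 0) (XT.lf (nat_lit 0) (nat_lit 7663522038) (nat_lit 532) (nat_lit 2687864821) (nat_lit 76) (nat_lit 520701798) (nat_lit 132) (nat_lit 5) (nat_lit 139) (nat_lit 5) (nat_lit 133) (nat_lit 5) (nat_lit 306) (nat_lit 273) (nat_lit 201)) (XT.nd (nat_lit 78) (nat_lit 76) (nat_lit 0) (XT.lf (nat_lit 0) (nat_lit 2958193074) (nat_lit 456) (nat_lit 6755972381) (nat_lit 532) (nat_lit 1337135497) (nat_lit 126) (nat_lit 5) (nat_lit 132) (nat_lit 5) (nat_lit 133) (nat_lit 5) (nat_lit 307) (nat_lit 273) (nat_lit 200)) (XT.lf (nat_lit 0) (nat_lit 578665191) (nat_lit 532) (nat_lit 2443464722) (nat_lit 76) (nat_lit 8213634336) (nat_lit 125) (nat_lit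 5) (nat_lit 132) (nat_lit 5) (nat_lit 126) (nat_lit 5) (nat_lit 308) (nat_lit 273) (nat_lit 199)))) (XT.nd (nat_lit 78) (nat_lit 456) (nat_lit 0) (XT.lf (nat_lit 0) (nat_lit 2539215978) (nat_lit 532) (nat_lit 8035089053) (nat_lit 76) (nat_lit 850670972) (nat_lit 119) (nat_lit 5) (nat_lit 126) (nat_lit 5) (nat_lit 120) (nat_lit 5) (nat_lit 309) (nat_lit 273) (nat_lit 198)) (XT.nd (nat_lit 78) (nat_lit 456) (nat_lit 0) (XT.lf (nat_lit 0) (nat_lit 4587026343) (nat_lit 532) (nat_lit 2231725342) (nat_lit 76) (nat_lit 4800294336) (nat_lit 119) (nat_lit 5) (nat_lit 126) (nat_lit 5) (nat_lit 120) (nat_lit 5) (nat_lit 310) (nat_lit 273) (nat_lit 197)) (XT.lf (nat_lit 0) (nat_lit 3789825545) (nat_lit 456) (nat_lit 2917246930) (nat_lit 532) (nat_lit 5111575802) (nat_lit 113) (nat_lit 5) (nat_lit 119) (nat_lit 5) (nat_lit 120) (nat_lit 5) (nat_lit 311) (nat_lit 273) (nat_lit 196))))) (XT.nd (nat_lit 234)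 (nat_lit 760) (nat_lit 0) (XT.nd (nat_lit 78) (nat_lit 456) (nat_lit 0) (XT.lf (nat_lit 0) (nat_lit 8898856718) (nat_lit 532) (nat_lit 2026920784) (nat_lit 76) (nat_lit 1098250182) (nat_lit 113) (nat_lit 5) (nat_lit 120) (nat_lit 5) (nat_lit 114) (nat_lit 5) (nat_lit 312) (nat_lit 273) (nat_lit 195)) (XT.nd (nat_lit 78) (nat_lit 76) (nat_lit 0) (XT.lf (nat_lit 0) (nat_lit 4178250532) (nat_lit 380) (nat_lit 7022716875) (nat_lit 456) (nat_lit 1033296096) (nat_lit 108) (nat_lit 5) (nat_lit 113) (nat_lit 5) (nat_lit 114) (nat_lit 5) (nat_lit 313) (nat_lit 273) (nat_lit 194)) (XT.lf (nat_lit 0) (nat_lit 1095813655) (nat_lit 456) (nat_lit 1879709469) (nat_lit 76) (nat_lit 9475099473) (nat_lit 107) (nat_lit 5) (nat_lit 113) (nat_lit 5) (nat_lit 108) (nat_lit 5) (nat_lit 314) (nat_lit 273) (nat_lit 193)))) (XT.nd (nat_lit 156) (nat_lit 380) (nat_lit 0) (XT.nd (nat_lit 78) (nat_lit 0) (nat_lit 0) (XT.lf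 (nat_lit 0) (nat_lit 3299934567) (nat_lit 456) (nat_lit 8153272108) (nat_lit 76) (nat_lit 1219031172) (nat_lit 102) (nat_lit 5) (nat_lit 108) (nat_lit 5) (nat_lit 103) (nat_lit 5) (nat_lit 315) (nat_lit 273) (nat_lit 192)) (XT.lf (nat_lit 0) (nat_lit 5595568600) (nat_lit 456) (nat_lit 1810636449) (nat_lit 76) (nat_lit 5493563444) (nat_lit 102) (nat_lit 5) (nat_lit 108) (nat_lit 5) (nat_lit 103) (nat_lit 5) (nat_lit 316) (nat_lit 273) (nat_lit 191))) (XT.nd (nat_lit 78) (nat_lit 0) (nat_lit 0) (XT.lf (nat_lit 0) (nat_lit 4787357859) (nat_lit 380) (nat_lit 3196169267) (nat_lit 456) (nat_lit 5149922062) (nat_lit 97) (nat_lit 5) (nat_lit 102) (nat_lit 5) (nat_lit 103) (nat_lit 5) (nat_lit 317) (nat_lit 273) (nat_lit 190)) (XT.lf (nat_lit 0) (nat_lit 10450316641) (nat_lit 456) (nat_lit 1793021408) (nat_lit 76) (nat_lit 1130613468) (nat_lit 97) (nat_lit 5) (nat_lit 103) (nat_lit 5) (nat_lit 98) (nat_lit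 5) (nat_lit 318) (nat_lit 273) (nat_lit 189)))))) (XT.nd (nat_lit 468) (nat_lit 1292) (nat_lit 0) (XT.nd (nat_lit 234) (nat_lit 380) (nat_lit 0) (XT.nd (nat_lit 78) (nat_lit 380) (nat_lit 0) (XT.lf (nat_lit 0) (nat_lit 4994596902) (nat_lit 380) (nat_lit 8054584191) (nat_lit 456) (nat_lit 570771882) (nat_lit 92) (nat_lit 5) (nat_lit 97) (nat_lit 5) (nat_lit 98) (nat_lit 5) (nat_lit 319) (nat_lit 273) (nat_lit 188)) (XT.nd (nat_lit 78) (nat_lit 304) (nat_lit 0) (XT.lf (nat_lit 0) (nat_lit 1813353208) (nat_lit 456) (nat_lit 1896220303) (nat_lit 76) (nat_lit 10163346527) (nat_lit 91) (nat_lit 5) (nat_lit 97) (nat_lit 5) (nat_lit 92) (nat_lit 5) (nat_lit 320) (nat_lit 273) (nat_lit 187)) (XT.lf (nat_lit 0) (nat_lit 4293578043) (nat_lit 380) (nat_lit 9038862286) (nat_lit 76) (nat_lit 799808784) (nat_lit 87) (nat_lit 5) (nat_lit 92) (nat_lit 5) (nat_lit 88) (nat_lit 5) (nat_lit 321) (nat_lit 273) (nat_lit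 186)))) (XT.nd (nat_lit 78) (nat_lit 380) (nat_lit 0) (XT.lf (nat_lit 0) (nat_lit 6883729476) (nat_lit 380) (nat_lit 2131680445) (nat_lit 76) (nat_lit 5382905818) (nat_lit 87) (nat_lit 5) (nat_lit 92) (nat_lit 5) (nat_lit 88) (nat_lit 5) (nat_lit 322) (nat_lit 273) (nat_lit 185)) (XT.nd (nat_lit 78) (nat_lit 0) (nat_lit 0) (XT.lf (nat_lit 0) (nat_lit 5054620981) (nat_lit 380) (nat_lit 4525604724) (nat_lit 456) (nat_lit 5091302047) (nat_lit 82) (nat_lit 5) (nat_lit 87) (nat_lit 5) (nat_lit 88) (nat_lit 5) (nat_lit 323) (nat_lit 273) (nat_lit 184)) (XT.lf (nat_lit 0) (nat_lit 12360619294) (nat_lit 456) (nat_lit 2480257745) (nat_lit 76) (nat_lit 111990952) (nat_lit 82) (nat_lit 5) (nat_lit 88) (nat_lit 5) (nat_lit 83) (nat_lit 5) (nat_lit 324) (nat_lit 273) (nat_lit 183))))) (XT.nd (nat_lit 234) (nat_lit 608) (nat_lit 0) (XT.nd (nat_lit 78) (nat_lit 304) (nat_lit 0) (XT.lf (nat_lit 0) (nat_lit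 55579048) (nat_lit 380) (nat_lit 10346056474) (nat_lit 76) (nat_lit 4838835433) (nat_lit 77) (nat_lit 5) (nat_lit 82) (nat_lit 5) (nat_lit 78) (nat_lit 5) (nat_lit 325) (nat_lit 273) (nat_lit 182)) (XT.nd (nat_lit 78) (nat_lit 304) (nat_lit 0) (XT.lf (nat_lit 0) (nat_lit 2737020642) (nat_lit 380) (nat_lit 3047061744) (nat_lit 76) (nat_lit 9751681306) (nat_lit 77) (nat_lit 5) (nat_lit 82) (nat_lit 5) (nat_lit 78) (nat_lit 5) (nat_lit 326) (nat_lit 273) (nat_lit 181)) (XT.lf (nat_lit 0) (nat_lit 4533774029) (nat_lit 304) (nat_lit 990253571) (nat_lit 380) (nat_lit 10315153439) (nat_lit 73) (nat_lit 5) (nat_lit 77) (nat_lit 5) (nat_lit 78) (nat_lit 5) (nat_lit 327) (nat_lit 273) (nat_lit 180)))) (XT.nd (nat_lit 156) (nat_lit 380) (nat_lit 0) (XT.nd (nat_lit 78) (nat_lit 228) (nat_lit 0) (XT.lf (nat_lit 0) (nat_lit 8445429145) (nat_lit 380) (nat_lit 3810373472) (nat_lit 76) (nat_lit 3894393683) (nat_lit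 73) (nat_lit 5) (nat_lit 78) (nat_lit 5) (nat_lit 74) (nat_lit 5) (nat_lit 328) (nat_lit 273) (nat_lit 179)) (XT.lf (nat_lit 0) (nat_lit 3951728825) (nat_lit 228) (nat_lit 7532831584) (nat_lit 304) (nat_lit 4985097354) (nat_lit 70) (nat_lit 5) (nat_lit 73) (nat_lit 5) (nat_lit 74) (nat_lit 5) (nat_lit 329) (nat_lit 273) (nat_lit 178))) (XT.nd (nat_lit 78) (nat_lit 380) (nat_lit 0) (XT.lf (nat_lit 0) (nat_lit 11999958877) (nat_lit 228) (nat_lit 2635957595) (nat_lit 304) (nat_lit 2162172910) (nat_lit 70) (nat_lit 5) (nat_lit 73) (nat_lit 5) (nat_lit 74) (nat_lit 5) (nat_lit 330) (nat_lit 273) (nat_lit 177)) (XT.lf (nat_lit 0) (nat_lit 767842329) (nat_lit 380) (nat_lit 13975474539) (nat_lit 76) (nat_lit 2391750448) (nat_lit 65) (nat_lit 5) (nat_lit 70) (nat_lit 5) (nat_lit 66) (nat_lit 5) (nat_lit 331) (nat_lit 273) (nat_lit 176))))))) (XT.nd (nat_lit 1014) (nat_lit 1216) (nat_lit 0) (XT.nd (nat_lit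 468) (nat_lit 684) (nat_lit 0) (XT.nd (nat_lit 234) (nat_lit 304) (nat_lit 0) (XT.nd (nat_lit 78) (nat_lit 228) (nat_lit 0) (XT.lf (nat_lit 0) (nat_lit 3800421179) (nat_lit 380) (nat_lit 6098970454) (nat_lit 76) (nat_lit 7580393430) (nat_lit 65) (nat_lit 5) (nat_lit 70) (nat_lit 5) (nat_lit 66) (nat_lit 5) (nat_lit 332) (nat_lit 273) (nat_lit 175)) (XT.nd (nat_lit 78) (nat_lit 0) (nat_lit 0) (XT.lf (nat_lit 0) (nat_lit 2029461751) (nat_lit 228) (nat_lit 4897607245) (nat_lit 304) (nat_lit 10907698447) (nat_lit 62) (nat_lit 5) (nat_lit 65) (nat_lit 5) (nat_lit 66) (nat_lit 5) (nat_lit 333) (nat_lit 273) (nat_lit 174)) (XT.lf (nat_lit 0) (nat_lit 10195917936) (nat_lit 304) (nat_lit 7698997198) (nat_lit 76) (nat_lit 304047498) (nat_lit 62) (nat_lit 5) (nat_lit 66) (nat_lit 5) (nat_lit 63) (nat_lit 5) (nat_lit 334) (nat_lit 273) (nat_lit 173)))) (XT.nd (nat_lit 78) (nat_lit 76) (nat_lit 0) (XT.lf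 (nat_lit 0) (nat_lit 590065667) (nat_lit 228) (nat_lit 13011163350) (nat_lit 304) (nat_lit 4971717698) (nat_lit 59) (nat_lit 5) (nat_lit 62) (nat_lit 5) (nat_lit 63) (nat_lit 5) (nat_lit 335) (nat_lit 273) (nat_lit 172)) (XT.nd (nat_lit 78) (nat_lit 76) (nat_lit 0) (XT.lf (nat_lit 0) (nat_lit 9262394266) (nat_lit 228) (nat_lit 7908519321) (nat_lit 304) (nat_lit 1785384813) (nat_lit 59) (nat_lit 5) (nat_lit 62) (nat_lit 5) (nat_lit 63) (nat_lit 5) (nat_lit 336) (nat_lit 273) (nat_lit 171)) (XT.lf (nat_lit 0) (nat_lit 1452093841) (nat_lit 304) (nat_lit 1193512061) (nat_lit 76) (nat_lit 16705584078) (nat_lit 58) (nat_lit 5) (nat_lit 62) (nat_lit 5) (nat_lit 59) (nat_lit 5) (nat_lit 337) (nat_lit 273) (nat_lit 170))))) (XT.nd (nat_lit 234) (nat_lit 228) (nat_lit 0) (XT.nd (nat_lit 78) (nat_lit 228) (nat_lit 0) (XT.lf (nat_lit 0) (nat_lit 4837271022) (nat_lit 304) (nat_lit 12111438640) (nat_lit 76)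 (nat_lit 2806107845) (nat_lit 55) (nat_lit 5) (nat_lit 59) (nat_lit 5) (nat_lit 56) (nat_lit 5) (nat_lit 338) (nat_lit 273) (nat_lit 169)) (XT.nd (nat_lit 78) (nat_lit 228) (nat_lit 0) (XT.lf (nat_lit 0) (nat_lit 8347720114) (nat_lit 304) (nat_lit 3449027175) (nat_lit 76) (nat_lit 8373107963) (nat_lit 55) (nat_lit 5) (nat_lit 59) (nat_lit 5) (nat_lit 56) (nat_lit 5) (nat_lit 339) (nat_lit 273) (nat_lit 168)) (XT.lf (nat_lit 0) (nat_lit 5560040642) (nat_lit 228) (nat_lit 6442666233) (nat_lit 304) (nat_lit 8593473037) (nat_lit 52) (nat_lit 5) (nat_lit 55) (nat_lit 5) (nat_lit 56) (nat_lit 5) (nat_lit 340) (nat_lit 273) (nat_lit 167)))) (XT.nd (nat_lit 156) (nat_lit 76) (nat_lit 0) (XT.nd (nat_lit 78) (nat_lit 152) (nat_lit 0) (XT.lf (nat_lit 0) (nat_lit 14888582625) (nat_lit 228) (nat_lit 899574288) (nat_lit 304) (nat_lit 5246525137) (nat_lit 52) (nat_lit 5) (nat_lit 55) (nat_lit 5) (nat_lit 56)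 (nat_lit 5) (nat_lit 341) (nat_lit 273) (nat_lit 166)) (XT.lf (nat_lit 0) (nat_lit 3001758413) (nat_lit 152) (nat_lit 16746825222) (nat_lit 228) (nat_lit 1735925014) (nat_lit 50) (nat_lit 5) (nat_lit 52) (nat_lit 5) (nat_lit 53) (nat_lit 5) (nat_lit 342) (nat_lit 273) (nat_lit 165))) (XT.nd (nat_lit 78) (nat_lit 0) (nat_lit 0) (XT.lf (nat_lit 0) (nat_lit 1901267636) (nat_lit 228) (nat_lit 9444817634) (nat_lit 76) (nat_lit 10599474944) (nat_lit 49) (nat_lit 5) (nat_lit 52) (nat_lit 5) (nat_lit 50) (nat_lit 5) (nat_lit 343) (nat_lit 273) (nat_lit 164)) (XT.lf (nat_lit 0) (nat_lit 5599457770) (nat_lit 228) (nat_lit 173611792) (nat_lit 76) (nat_lit 16647265773) (nat_lit 49) (nat_lit 5) (nat_lit 52) (nat_lit 5) (nat_lit 50) (nat_lit 5) (nat_lit 344) (nat_lit 273) (nat_lit 163)))))) (XT.nd (nat_lit 546) (nat_lit 532) (nat_lit 0) (XT.nd (nat_lit 234) (nat_lit 304) (nat_lit 0) (XT.nd (nat_lit 78) (nat_lit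 152) (nat_lit 0) (XT.lf (nat_lit 0) (nat_lit 9487995790) (nat_lit 304) (nat_lit 13365669520) (nat_lit 76) (nat_lit 53316812) (nat_lit 46) (nat_lit 5) (nat_lit 50) (nat_lit 5) (nat_lit 47) (nat_lit 5) (nat_lit 345) (nat_lit 273) (nat_lit 162)) (XT.nd (nat_lit 78) (nat_lit 152) (nat_lit 0) (XT.lf (nat_lit 0) (nat_lit 13539390495) (nat_lit 304) (nat_lit 3934307448) (nat_lit 76) (nat_lit 5933154526) (nat_lit 46) (nat_lit 5) (nat_lit 50) (nat_lit 5) (nat_lit 47) (nat_lit 5) (nat_lit 346) (nat_lit 273) (nat_lit 161)) (XT.lf (nat_lit 0) (nat_lit 5875027890) (nat_lit 152) (nat_lit 11881415205) (nat_lit 228) (nat_lit 6163962227) (nat_lit 44) (nat_lit 5) (nat_lit 46) (nat_lit 5) (nat_lit 47) (nat_lit 5) (nat_lit 347) (nat_lit 273) (nat_lit 160)))) (XT.nd (nat_lit 156) (nat_lit 0) (nat_lit 0) (XT.nd (nat_lit 78) (nat_lit 304) (nat_lit 0) (XT.lf (nat_lit 0) (nat_lit 16039874444) (nat_lit 152) (nat_lit 6087676604)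 (nat_lit 228) (nat_lit 2320996989) (nat_lit 44) (nat_lit 5) (nat_lit 46) (nat_lit 5) (nat_lit 47) (nat_lit 5) (nat_lit 348) (nat_lit 273) (nat_lit 159)) (XT.lf (nat_lit 0) (nat_lit 1511793885) (nat_lit 228) (nat_lit 96090451) (nat_lit 304) (nat_lit 23384110306) (nat_lit 40) (nat_lit 5) (nat_lit 43) (nat_lit 5) (nat_lit 44) (nat_lit 5) (nat_lit 349) (nat_lit 273) (nat_lit 158))) (XT.nd (nat_lit 78) (nat_lit 0) (nat_lit 0) (XT.lf (nat_lit 0) (nat_lit 5740274745) (nat_lit 304) (nat_lit 13748378646) (nat_lit 76) (nat_lit 6058441855) (nat_lit 40) (nat_lit 5) (nat_lit 44) (nat_lit 5) (nat_lit 41) (nat_lit 5) (nat_lit 350) (nat_lit 273) (nat_lit 157)) (XT.lf (nat_lit 0) (nat_lit 9986075254) (nat_lit 304) (nat_lit 3744200308) (nat_lit 76) (nat_lit 12388898675) (nat_lit 40) (nat_lit 5) (nat_lit 44) (nat_lit 5) (nat_lit 41) (nat_lit 5) (nat_lit 351) (nat_lit 273) (nat_lit 156))))) (XT.nd (nat_lit 234)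 (nat_lit 228) (nat_lit 0) (XT.nd (nat_lit 78) (nat_lit 152) (nat_lit 0) (XT.lf (nat_lit 0) (nat_lit 6672198068) (nat_lit 152) (nat_lit 7740011288) (nat_lit 228) (nat_lit 12294625725) (nat_lit 38) (nat_lit 5) (nat_lit 40) (nat_lit 5) (nat_lit 41) (nat_lit 5) (nat_lit 352) (nat_lit 273) (nat_lit 155)) (XT.nd (nat_lit 78) (nat_lit 152) (nat_lit 0) (XT.lf (nat_lit 0) (nat_lit 17459914392) (nat_lit 152) (nat_lit 1537997742) (nat_lit 228) (nat_lit 8313418106) (nat_lit 38) (nat_lit 5) (nat_lit 40) (nat_lit 5) (nat_lit 41) (nat_lit 5) (nat_lit 353) (nat_lit 273) (nat_lit 154)) (XT.lf (nat_lit 0) (nat_lit 584415306) (nat_lit 152) (nat_lit 23178242604) (nat_lit 228) (nat_lit 4170065984) (nat_lit 36) (nat_lit 5) (nat_lit 38) (nat_lit 5) (nat_lit 39) (nat_lit 5) (nat_lit 354) (nat_lit 273) (nat_lit 153)))) (XT.nd (nat_lit 156) (nat_lit 152) (nat_lit 0) (XT.nd (nat_lit 78) (nat_lit 0) (nat_lit 0) (XT.lf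 (nat_lit 0) (nat_lit 200640178) (nat_lit 228) (nat_lit 17069376473) (nat_lit 76) (nat_lit 11299573182) (nat_lit 35) (nat_lit 5) (nat_lit 38) (nat_lit 5) (nat_lit 36) (nat_lit 5) (nat_lit 355) (nat_lit 273) (nat_lit 152)) (XT.lf (nat_lit 0) (nat_lit 4608231104) (nat_lit 228) (nat_lit 6540564722) (nat_lit 76) (nat_lit 18075847091) (nat_lit 35) (nat_lit 5) (nat_lit 38) (nat_lit 5) (nat_lit 36) (nat_lit 5) (nat_lit 356) (nat_lit 273) (nat_lit 151))) (XT.nd (nat_lit 78) (nat_lit 0) (nat_lit 0) (XT.lf (nat_lit 0) (nat_lit 4372739722) (nat_lit 152) (nat_lit 4807224822) (nat_lit 228) (nat_lit 20718432535) (nat_lit 33) (nat_lit 5) (nat_lit 35) (nat_lit 5) (nat_lit 36) (nat_lit 5) (nat_lit 357) (nat_lit 273) (nat_lit 150)) (XT.lf (nat_lit 0) (nat_lit 13962082754) (nat_lit 228) (nat_lit 14876874830) (nat_lit 76) (nat_lit 1751216023) (nat_lit 33) (nat_lit 5) (nat_lit 36) (nat_lit 5) (nat_lit 34) (nat_lit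 5) (nat_lit 358) (nat_lit 273) (nat_lit 149))))))))
noncomputable def xc142 : XT := (XT.nd (nat_lit 2028) (nat_lit 532) (nat_lit 0) (XT.nd (nat_lit 1014) (nat_lit 532) (nat_lit 0) (XT.nd (nat_lit 468) (nat_lit 304) (nat_lit 0) (XT.nd (nat_lit 234) (nat_lit 228) (nat_lit 0) (XT.nd (nat_lit 78) (nat_lit 152) (nat_lit 0) (XT.lf (nat_lit 0) (nat_lit 18925507505) (nat_lit 228) (nat_lit 3972515462) (nat_lit 76) (nat_lit 8403551704) (nat_lit 33) (nat_lit 5) (nat_lit 36) (nat_lit 5) (nat_lit 34) (nat_lit 5) (nat_lit 359) (nat_lit 273) (nat_lit 148)) (XT.nd (nat_lit 78) (nat_lit 0) (nat_lit 0) (XT.lf (nat_lit 0) (nat_lit 7387311876) (nat_lit 152) (nat_lit 16712065270) (nat_lit 228) (nat_lit 7933100696) (nat_lit 31) (nat_lit 5) (nat_lit 33) (nat_lit 5) (nat_lit 34) (nat_lit 5) (nat_lit 360) (nat_lit 273) (nat_lit 147)) (XT.lf (nat_lit 0) (nat_lit 19153705891) (nat_lit 152) (nat_lit 10305527650) (nat_lit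 228) (nat_lit 3325157602) (nat_lit 31) (nat_lit 5) (nat_lit 33) (nat_lit 5) (nat_lit 34) (nat_lit 5) (nat_lit 361) (nat_lit 273) (nat_lit 146)))) (XT.nd (nat_lit 78) (nat_lit 152) (nat_lit 0) (XT.lf (nat_lit 0) (nat_lit 1384127014) (nat_lit 228) (nat_lit 2314822796) (nat_lit 76) (nat_lit 29859783066) (nat_lit 30) (nat_lit 5) (nat_lit 33) (nat_lit 5) (nat_lit 31) (nat_lit 5) (nat_lit 362) (nat_lit 273) (nat_lit 145)) (XT.nd (nat_lit 78) (nat_lit 0) (nat_lit 0) (XT.lf (nat_lit 0) (nat_lit 6281086711) (nat_lit 228) (nat_lit 24906291167) (nat_lit 76) (nat_lit 3164548078) (nat_lit 28) (nat_lit 5) (nat_lit 31) (nat_lit 5) (nat_lit 29) (nat_lit 5) (nat_lit 363) (nat_lit 273) (nat_lit 144)) (XT.lf (nat_lit 0) (nat_lit 11376343781) (nat_lit 228) (nat_lit 13613719807) (nat_lit 76) (nat_lit 10177315050) (nat_lit 28) (nat_lit 5) (nat_lit 31) (nat_lit 5) (nat_lit 29) (nat_lit 5) (nat_lit 364) (nat_lit 273)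 (nat_lit 143))))) (XT.nd (nat_lit 234) (nat_lit 152) (nat_lit 0) (XT.nd (nat_lit 78) (nat_lit 152) (nat_lit 0) (XT.lf (nat_lit 0) (nat_lit 16615874787) (nat_lit 228) (nat_lit 1996943375) (nat_lit 76) (nat_lit 17394739563) (nat_lit 28) (nat_lit 5) (nat_lit 31) (nat_lit 5) (nat_lit 29) (nat_lit 5) (nat_lit 365) (nat_lit 273) (nat_lit 142)) (XT.nd (nat_lit 78) (nat_lit 0) (nat_lit 0) (XT.lf (nat_lit 0) (nat_lit 10152296582) (nat_lit 152) (nat_lit 11949551461) (nat_lit 228) (nat_lit 14768421605) (nat_lit 26) (nat_lit 5) (nat_lit 28) (nat_lit 5) (nat_lit 29) (nat_lit 5) (nat_lit 366) (nat_lit 273) (nat_lit 141)) (XT.lf (nat_lit 0) (nat_lit 22692940182) (nat_lit 152) (nat_lit 5071399832) (nat_lit 228) (nat_lit 9994169734) (nat_lit 26) (nat_lit 5) (nat_lit 28) (nat_lit 5) (nat_lit 29) (nat_lit 5) (nat_lit 367) (nat_lit 273) (nat_lit 140)))) (XT.nd (nat_lit 156) (nat_lit 0) (nat_lit 0) (XT.nd (nat_lit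 78) (nat_lit 152) (nat_lit 0) (XT.lf (nat_lit 0) (nat_lit 33608017773) (nat_lit 228) (nat_lit 3096736454) (nat_lit 76) (nat_lit 1968308352) (nat_lit 26) (nat_lit 5) (nat_lit 29) (nat_lit 5) (nat_lit 27) (nat_lit 4) (nat_lit 368) (nat_lit 273) (nat_lit 139)) (XT.lf (nat_lit 0) (nat_lit 145309734) (nat_lit 152) (nat_lit 30262500293) (nat_lit 76) (nat_lit 9203235426) (nat_lit 24) (nat_lit 5) (nat_lit 26) (nat_lit 5) (nat_lit 25) (nat_lit 5) (nat_lit 369) (nat_lit 273) (nat_lit 138))) (XT.nd (nat_lit 78) (nat_lit 0) (nat_lit 0) (XT.lf (nat_lit 0) (nat_lit 5433966319) (nat_lit 152) (nat_lit 18409440807) (nat_lit 76) (nat_lit 16731546851) (nat_lit 24) (nat_lit 5) (nat_lit 26) (nat_lit 5) (nat_lit 25) (nat_lit 5) (nat_lit 370) (nat_lit 273) (nat_lit 137)) (XT.lf (nat_lit 0) (nat_lit 10873722614) (nat_lit 152) (nat_lit 6213816562) (nat_lit 76) (nat_lit 24480471697) (nat_lit 24) (nat_lit 5) (nat_lit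 26) (nat_lit 5) (nat_lit 25) (nat_lit 5) (nat_lit 371) (nat_lit 273) (nat_lit 136)))))) (XT.nd (nat_lit 468) (nat_lit 228) (nat_lit 0) (XT.nd (nat_lit 234) (nat_lit 152) (nat_lit 0) (XT.nd (nat_lit 78) (nat_lit 0) (nat_lit 0) (XT.lf (nat_lit 0) (nat_lit 6461108306) (nat_lit 152) (nat_lit 10070331623) (nat_lit 228) (nat_lit 26057780689) (nat_lit 22) (nat_lit 5) (nat_lit 24) (nat_lit 5) (nat_lit 25) (nat_lit 5) (nat_lit 372) (nat_lit 273) (nat_lit 135)) (XT.nd (nat_lit 78) (nat_lit 0) (nat_lit 0) (XT.lf (nat_lit 0) (nat_lit 19631134469) (nat_lit 152) (nat_lit 2783255261) (nat_lit 228) (nat_lit 21225015965) (nat_lit 22) (nat_lit 5) (nat_lit 24) (nat_lit 5) (nat_lit 25) (nat_lit 5) (nat_lit 373) (nat_lit 273) (nat_lit 134)) (XT.lf (nat_lit 0) (nat_lit 28512138357) (nat_lit 228) (nat_lit 11582554424) (nat_lit 76) (nat_lit 4625258184) (nat_lit 22) (nat_lit 5) (nat_lit 25) (nat_lit 5) (nat_lit 23)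 (nat_lit 4) (nat_lit 374) (nat_lit 273) (nat_lit 133)))) (XT.nd (nat_lit 78) (nat_lit 76) (nat_lit 0) (XT.lf (nat_lit 0) (nat_lit 1199824162) (nat_lit 76) (nat_lit 33625207465) (nat_lit 152) (nat_lit 11006918435) (nat_lit 21) (nat_lit 5) (nat_lit 22) (nat_lit 5) (nat_lit 23) (nat_lit 4) (nat_lit 375) (nat_lit 273) (nat_lit 132)) (XT.nd (nat_lit 78) (nat_lit 76) (nat_lit 0) (XT.lf (nat_lit 0) (nat_lit 14591256799) (nat_lit 76) (nat_lit 26846224189) (nat_lit 152) (nat_lit 5536526790) (nat_lit 21) (nat_lit 5) (nat_lit 22) (nat_lit 5) (nat_lit 23) (nat_lit 4) (nat_lit 376) (nat_lit 273) (nat_lit 131)) (XT.lf (nat_lit 0) (nat_lit 89401919) (nat_lit 152) (nat_lit 19778475955) (nat_lit 76) (nat_lit 28282624491) (nat_lit 20) (nat_lit 5) (nat_lit 22) (nat_lit 5) (nat_lit 21) (nat_lit 5) (nat_lit 377) (nat_lit 273) (nat_lit 130))))) (XT.nd (nat_lit 234) (nat_lit 76) (nat_lit 0) (XT.nd (nat_lit 78) (nat_lit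 152) (nat_lit 0) (XT.lf (nat_lit 0) (nat_lit 5766361036) (nat_lit 152) (nat_lit 6862190101) (nat_lit 76) (nat_lit 36732293609) (nat_lit 20) (nat_lit 5) (nat_lit 22) (nat_lit 5) (nat_lit 21) (nat_lit 5) (nat_lit 378) (nat_lit 273) (nat_lit 129)) (XT.nd (nat_lit 78) (nat_lit 0) (nat_lit 0) (XT.lf (nat_lit 0) (nat_lit 6558594949) (nat_lit 152) (nat_lit 5111798868) (nat_lit 228) (nat_lit 38935403945) (nat_lit 18) (nat_lit 5) (nat_lit 20) (nat_lit 5) (nat_lit 21) (nat_lit 5) (nat_lit 379) (nat_lit 273) (nat_lit 128)) (XT.lf (nat_lit 0) (nat_lit 17840567231) (nat_lit 228) (nat_lit 31400328527) (nat_lit 76) (nat_lit 2644536232) (nat_lit 18) (nat_lit 5) (nat_lit 21) (nat_lit 5) (nat_lit 19) (nat_lit 4) (nat_lit 380) (nat_lit 273) (nat_lit 127)))) (XT.nd (nat_lit 156) (nat_lit 76) (nat_lit 0) (XT.nd (nat_lit 78) (nat_lit 0) (nat_lit 0) (XT.lf (nat_lit 0) (nat_lit 24240393004) (nat_lit 228) (nat_lit 18435347343)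 (nat_lit 76) (nat_lit 10526381602) (nat_lit 18) (nat_lit 5) (nat_lit 21) (nat_lit 5) (nat_lit 19) (nat_lit 4) (nat_lit 381) (nat_lit 273) (nat_lit 126)) (XT.lf (nat_lit 0) (nat_lit 30826325480) (nat_lit 228) (nat_lit 5091792897) (nat_lit 76) (nat_lit 18640373899) (nat_lit 18) (nat_lit 5) (nat_lit 21) (nat_lit 5) (nat_lit 19) (nat_lit 4) (nat_lit 382) (nat_lit 273) (nat_lit 125))) (XT.nd (nat_lit 78) (nat_lit 0) (nat_lit 0) (XT.lf (nat_lit 0) (nat_lit 8813986856) (nat_lit 76) (nat_lit 28874857935) (nat_lit 152) (nat_lit 18264341597) (nat_lit 17) (nat_lit 5) (nat_lit 18) (nat_lit 5) (nat_lit 19) (nat_lit 4) (nat_lit 383) (nat_lit 273) (nat_lit 124)) (XT.lf (nat_lit 0) (nat_lit 23231341573) (nat_lit 76) (nat_lit 21571669273) (nat_lit 152) (nat_lit 12585340194) (nat_lit 17) (nat_lit 5) (nat_lit 18) (nat_lit 5) (nat_lit 19) (nat_lit 4) (nat_lit 384) (nat_lit 273) (nat_lit 123))))))) (XT.nd (nat_lit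 1014) (nat_lit 76) (nat_lit 0) (XT.nd (nat_lit 468) (nat_lit 228) (nat_lit 0) (XT.nd (nat_lit 234) (nat_lit 0) (nat_lit 0) (XT.nd (nat_lit 78) (nat_lit 228) (nat_lit 0) (XT.lf (nat_lit 0) (nat_lit 38071532279) (nat_lit 76) (nat_lit 14053588091) (nat_lit 152) (nat_lit 6741617479) (nat_lit 17) (nat_lit 5) (nat_lit 18) (nat_lit 5) (nat_lit 19) (nat_lit 4) (nat_lit 385) (nat_lit 273) (nat_lit 122)) (XT.nd (nat_lit 78) (nat_lit 228) (nat_lit 0) (XT.lf (nat_lit 0) (nat_lit 53347526133) (nat_lit 76) (nat_lit 6314045190) (nat_lit 152) (nat_lit 728067286) (nat_lit 17) (nat_lit 5) (nat_lit 18) (nat_lit 5) (nat_lit 19) (nat_lit 4) (nat_lit 386) (nat_lit 273) (nat_lit 121)) (XT.lf (nat_lit 0) (nat_lit 5440344727) (nat_lit 228) (nat_lit 54769493682) (nat_lit 76) (nat_lit 1744380837) (nat_lit 14) (nat_lit 5) (nat_lit 17) (nat_lit 5) (nat_lit 15) (nat_lit 4) (nat_lit 387) (nat_lit 273) (nat_lit 120)))) (XT.nd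 (nat_lit 78) (nat_lit 0) (nat_lit 0) (XT.lf (nat_lit 0) (nat_lit 11908311817) (nat_lit 228) (nat_lit 41660570194) (nat_lit 76) (nat_lit 9992767413) (nat_lit 14) (nat_lit 5) (nat_lit 17) (nat_lit 5) (nat_lit 15) (nat_lit 4) (nat_lit 388) (nat_lit 273) (nat_lit 119)) (XT.nd (nat_lit 78) (nat_lit 0) (nat_lit 0) (XT.lf (nat_lit 0) (nat_lit 18565274468) (nat_lit 228) (nat_lit 28167372619) (nat_lit 76) (nat_lit 18484809114) (nat_lit 14) (nat_lit 5) (nat_lit 17) (nat_lit 5) (nat_lit 15) (nat_lit 4) (nat_lit 389) (nat_lit 273) (nat_lit 118)) (XT.lf (nat_lit 0) (nat_lit 25417049444) (nat_lit 228) (nat_lit 14278110782) (nat_lit 76) (nat_lit 27227926171) (nat_lit 14) (nat_lit 5) (nat_lit 17) (nat_lit 5) (nat_lit 15) (nat_lit 4) (nat_lit 390) (nat_lit 273) (nat_lit 117))))) (XT.nd (nat_lit 234) (nat_lit 152) (nat_lit 0) (XT.nd (nat_lit 78) (nat_lit 0) (nat_lit 0) (XT.lf (nat_lit 0) (nat_lit 19736696) (nat_lit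 76) (nat_lit 32450076757) (nat_lit 152) (nat_lit 36210211226) (nat_lit 13) (nat_lit 5) (nat_lit 14) (nat_lit 5) (nat_lit 15) (nat_lit 4) (nat_lit 391) (nat_lit 273) (nat_lit 116)) (XT.nd (nat_lit 78) (nat_lit 0) (nat_lit 0) (XT.lf (nat_lit 0) (nat_lit 15030812637) (nat_lit 76) (nat_lit 24842832506) (nat_lit 152) (nat_lit 30611843611) (nat_lit 13) (nat_lit 5) (nat_lit 14) (nat_lit 5) (nat_lit 15) (nat_lit 4) (nat_lit 392) (nat_lit 273) (nat_lit 115)) (XT.lf (nat_lit 0) (nat_lit 30484071114) (nat_lit 76) (nat_lit 17010961288) (nat_lit 152) (nat_lit 24850223254) (nat_lit 13) (nat_lit 5) (nat_lit 14) (nat_lit 5) (nat_lit 15) (nat_lit 4) (nat_lit 393) (nat_lit 273) (nat_lit 114)))) (XT.nd (nat_lit 156) (nat_lit 152) (nat_lit 0) (XT.nd (nat_lit 78) (nat_lit 0) (nat_lit 0) (XT.lf (nat_lit 0) (nat_lit 46393014973) (nat_lit 76) (nat_lit 8947619722) (nat_lit 152) (nat_lit 18920315730) (nat_lit 13) (nat_lit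 5) (nat_lit 14) (nat_lit 5) (nat_lit 15) (nat_lit 4) (nat_lit 394) (nat_lit 273) (nat_lit 113)) (XT.lf (nat_lit 0) (nat_lit 62771545233) (nat_lit 76) (nat_lit 645762169) (nat_lit 152) (nat_lit 12816939565) (nat_lit 13) (nat_lit 5) (nat_lit 14) (nat_lit 5) (nat_lit 15) (nat_lit 4) (nat_lit 395) (nat_lit 273) (nat_lit 112))) (XT.nd (nat_lit 78) (nat_lit 76) (nat_lit 0) (XT.lf (nat_lit 0) (nat_lit 1316842482) (nat_lit 76) (nat_lit 70503881189) (nat_lit 76) (nat_lit 6443487377) (nat_lit 12) (nat_lit 4) (nat_lit 13) (nat_lit 5) (nat_lit 13) (nat_lit 4) (nat_lit 396) (nat_lit 273) (nat_lit 111)) (XT.lf (nat_lit 0) (nat_lit 258294039) (nat_lit 152) (nat_lit 63551719868) (nat_lit 76) (nat_lit 16540842332) (nat_lit 11) (nat_lit 5) (nat_lit 13) (nat_lit 5) (nat_lit 12) (nat_lit 4) (nat_lit 397) (nat_lit 273) (nat_lit 110)))))) (XT.nd (nat_lit 30966) (nat_lit 0) (nat_lit 16872) (XT.nd (nat_lit 234) (nat_lit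 76) (nat_lit 0) (XT.nd (nat_lit 78) (nat_lit 0) (nat_lit 0) (XT.lf (nat_lit 0) (nat_lit 7027546921) (nat_lit 152) (nat_lit 49825343270) (nat_lit 76) (nat_lit 25645420692) (nat_lit 11) (nat_lit 5) (nat_lit 13) (nat_lit 5) (nat_lit 12) (nat_lit 4) (nat_lit 398) (nat_lit 273) (nat_lit 109)) (XT.nd (nat_lit 78) (nat_lit 0) (nat_lit 0) (XT.lf (nat_lit 0) (nat_lit 13995921798) (nat_lit 152) (nat_lit 35694306110) (nat_lit 76) (nat_lit 35020081655) (nat_lit 11) (nat_lit 5) (nat_lit 13) (nat_lit 5) (nat_lit 12) (nat_lit 4) (nat_lit 399) (nat_lit 273) (nat_lit 108)) (XT.lf (nat_lit 0) (nat_lit 21169507539) (nat_lit 152) (nat_lit 21146260879) (nat_lit 76) (nat_lit 44673016672) (nat_lit 11) (nat_lit 5) (nat_lit 13) (nat_lit 5) (nat_lit 12) (nat_lit 4) (nat_lit 400) (nat_lit 273) (nat_lit 107)))) (XT.nd (nat_lit 156) (nat_lit 0) (nat_lit 0) (XT.nd (nat_lit 78) (nat_lit 76) (nat_lit 0) (XT.lf (nat_lit 0)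 (nat_lit 28554572327) (nat_lit 152) (nat_lit 6168495693) (nat_lit 76) (nat_lit 54612660346) (nat_lit 11) (nat_lit 5) (nat_lit 13) (nat_lit 5) (nat_lit 12) (nat_lit 4) (nat_lit 401) (nat_lit 273) (nat_lit 106)) (XT.lf (nat_lit 0) (nat_lit 9436211284) (nat_lit 76) (nat_lit 26812064482) (nat_lit 152) (nat_lit 55502193153) (nat_lit 10) (nat_lit 5) (nat_lit 11) (nat_lit 5) (nat_lit 12) (nat_lit 4) (nat_lit 402) (nat_lit 273) (nat_lit 105))) (XT.nd (nat_lit 78) (nat_lit 0) (nat_lit 0) (XT.lf (nat_lit 0) (nat_lit 25629045930) (nat_lit 76) (nat_lit 18602457484) (nat_lit 152) (nat_lit 50004388416) (nat_lit 10) (nat_lit 5) (nat_lit 11) (nat_lit 5) (nat_lit 12) (nat_lit 4) (nat_lit 403) (nat_lit 273) (nat_lit 104)) (XT.lf (nat_lit 0) (nat_lit 42301392162) (nat_lit 76) (nat_lit 10149363296) (nat_lit 152) (nat_lit 44345227633) (nat_lit 10) (nat_lit 5) (nat_lit 11) (nat_lit 5) (nat_lit 12) (nat_lit 4) (nat_lit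 404) (nat_lit 273) (nat_lit 103))))) (XT.nd (nat_lit 234) (nat_lit 760) (nat_lit 0) (XT.nd (nat_lit 78) (nat_lit 0) (nat_lit 0) (XT.lf (nat_lit 0) (nat_lit 195782821) (nat_lit 836) (nat_lit 1726485021) (nat_lit 836) (nat_lit 1726485021) (nat_lit 242) (nat_lit 3) (nat_lit 253) (nat_lit 3) (nat_lit 253) (nat_lit 5) (nat_lit 274) (nat_lit 274) (nat_lit 232)) (XT.nd (nat_lit 78) (nat_lit 0) (nat_lit 0) (XT.lf (nat_lit 0) (nat_lit 1870729254) (nat_lit 836) (nat_lit 174552283) (nat_lit 836) (nat_lit 5314631194) (nat_lit 242) (nat_lit 3) (nat_lit 253) (nat_lit 3) (nat_lit 253) (nat_lit 5) (nat_lit 275) (nat_lit 274) (nat_lit 231)) (XT.lf (nat_lit 76) (nat_lit 3235690565) (nat_lit 0) (nat_lit 132182252) (nat_lit 836) (nat_lit 4057222473) (nat_lit 243) (nat_lit 5) (nat_lit 242) (nat_lit 3) (nat_lit 253) (nat_lit 5) (nat_lit 276) (nat_lit 274) (nat_lit 230)))) (XT.nd (nat_lit 156) (nat_lit 836) (nat_lit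 0) (XT.nd (nat_lit 78) (nat_lit 0) (nat_lit 0) (XT.lf (nat_lit 0) (nat_lit 4873532608) (nat_lit 760) (nat_lit 789474944) (nat_lit 836) (nat_lit 1830425964) (nat_lit 243) (nat_lit 5) (nat_lit 253) (nat_lit 5) (nat_lit 254) (nat_lit 5) (nat_lit 277) (nat_lit 274) (nat_lit 229)) (XT.lf (nat_lit 76) (nat_lit 2733984229) (nat_lit 0) (nat_lit 3663744971) (nat_lit 836) (nat_lit 1166996774) (nat_lit 244) (nat_lit 5) (nat_lit 243) (nat_lit 5) (nat_lit 254) (nat_lit 5) (nat_lit 278) (nat_lit 274) (nat_lit 228))) (XT.nd (nat_lit 78) (nat_lit 0) (nat_lit 76) (XT.lf (nat_lit 0) (nat_lit 277558240) (nat_lit 836) (nat_lit 1293209134) (nat_lit 912) (nat_lit 6068759076) (nat_lit 232) (nat_lit 5) (nat_lit 243) (nat_lit 5) (nat_lit 244) (nat_lit 5) (nat_lit 279) (nat_lit 274) (nat_lit 227)) (XT.lf (nat_lit 0) (nat_lit 1718797226) (nat_lit 836) (nat_lit 5368994598) (nat_lit 912) (nat_lit 629224574) (nat_lit 233)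 (nat_lit 5) (nat_lit 244) (nat_lit 5) (nat_lit 245) (nat_lit 5) (nat_lit 280) (nat_lit 274) (nat_lit 226))))))))
noncomputable def xc143 : XT := (XT.nd (nat_lit 2028) (nat_lit 5092) (nat_lit 0) (XT.nd (nat_lit 1014) (nat_lit 5016) (nat_lit 0) (XT.nd (nat_lit 468) (nat_lit 1824) (nat_lit 0) (XT.nd (nat_lit 234) (nat_lit 836) (nat_lit 0) (XT.nd (nat_lit 78) (nat_lit 0) (nat_lit 0) (XT.lf (nat_lit 0) (nat_lit 3181438610) (nat_lit 836) (nat_lit 1719099239) (nat_lit 912) (nat_lit 2897041616) (nat_lit 233) (nat_lit 5) (nat_lit 244) (nat_lit 5) (nat_lit 245) (nat_lit 5) (nat_lit 281) (nat_lit 274) (nat_lit 225)) (XT.nd (nat_lit 78) (nat_lit 0) (nat_lit 0) (XT.lf (nat_lit 76) (nat_lit 2049234622) (nat_lit 0) (nat_lit 2609321075) (nat_lit 912) (nat_lit 3222976491) (nat_lit 234) (nat_lit 5) (nat_lit 233) (nat_lit 5) (nat_lit 245) (nat_lit 5) (nat_lit 282) (nat_lit 274) (nat_lit 224)) (XT.lf (nat_lit 76)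 (nat_lit 5935116420) (nat_lit 0) (nat_lit 214262019) (nat_lit 912) (nat_lit 1819631304) (nat_lit 234) (nat_lit 5) (nat_lit 233) (nat_lit 5) (nat_lit 245) (nat_lit 5) (nat_lit 283) (nat_lit 274) (nat_lit 223)))) (XT.nd (nat_lit 78) (nat_lit 912) (nat_lit 0) (XT.lf (nat_lit 76) (nat_lit 1861646787) (nat_lit 0) (nat_lit 5816418679) (nat_lit 912) (nat_lit 381337422) (nat_lit 235) (nat_lit 5) (nat_lit 234) (nat_lit 5) (nat_lit 246) (nat_lit 5) (nat_lit 284) (nat_lit 274) (nat_lit 222)) (XT.nd (nat_lit 78) (nat_lit 0) (nat_lit 0) (XT.lf (nat_lit 0) (nat_lit 1055613400) (nat_lit 912) (nat_lit 2281220335) (nat_lit 988) (nat_lit 4816128140) (nat_lit 222) (nat_lit 5) (nat_lit 234) (nat_lit 5) (nat_lit 235) (nat_lit 5) (nat_lit 285) (nat_lit 274) (nat_lit 221)) (XT.lf (nat_lit 76) (nat_lit 1751985632) (nat_lit 0) (nat_lit 748312361) (nat_lit 988) (nat_lit 5749825878) (nat_lit 223) (nat_lit 5) (nat_lit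 222) (nat_lit 5) (nat_lit 235) (nat_lit 5) (nat_lit 286) (nat_lit 274) (nat_lit 220))))) (XT.nd (nat_lit 234) (nat_lit 1900) (nat_lit 0) (XT.nd (nat_lit 78) (nat_lit 0) (nat_lit 0) (XT.lf (nat_lit 0) (nat_lit 3986592925) (nat_lit 912) (nat_lit 2447658172) (nat_lit 988) (nat_lit 1916077460) (nat_lit 223) (nat_lit 5) (nat_lit 235) (nat_lit 5) (nat_lit 236) (nat_lit 5) (nat_lit 287) (nat_lit 274) (nat_lit 219)) (XT.nd (nat_lit 78) (nat_lit 0) (nat_lit 0) (XT.lf (nat_lit 76) (nat_lit 1718980161) (nat_lit 0) (nat_lit 3780264590) (nat_lit 988) (nat_lit 2954915302) (nat_lit 224) (nat_lit 5) (nat_lit 223) (nat_lit 5) (nat_lit 236) (nat_lit 5) (nat_lit 288) (nat_lit 274) (nat_lit 218)) (XT.lf (nat_lit 76) (nat_lit 6029610374) (nat_lit 0) (nat_lit 1011145799) (nat_lit 988) (nat_lit 1520917486) (nat_lit 224) (nat_lit 5) (nat_lit 223) (nat_lit 5) (nat_lit 236) (nat_lit 5) (nat_lit 289) (nat_lit 274) (nat_lit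 217)))) (XT.nd (nat_lit 156) (nat_lit 988) (nat_lit 0) (XT.nd (nat_lit 78) (nat_lit 76) (nat_lit 0) (XT.lf (nat_lit 0) (nat_lit 1782596395) (nat_lit 912) (nat_lit 6840807606) (nat_lit 988) (nat_lit 49231421) (nat_lit 212) (nat_lit 5) (nat_lit 224) (nat_lit 5) (nat_lit 225) (nat_lit 5) (nat_lit 290) (nat_lit 274) (nat_lit 216)) (XT.lf (nat_lit 0) (nat_lit 1434287382) (nat_lit 988) (nat_lit 2564100822) (nat_lit 76) (nat_lit 4788291360) (nat_lit 211) (nat_lit 5) (nat_lit 224) (nat_lit 5) (nat_lit 212) (nat_lit 5) (nat_lit 291) (nat_lit 274) (nat_lit 215))) (XT.nd (nat_lit 78) (nat_lit 0) (nat_lit 0) (XT.lf (nat_lit 0) (nat_lit 1896900612) (nat_lit 988) (nat_lit 1044274764) (nat_lit 1064) (nat_lit 5963623022) (nat_lit 198) (nat_lit 5) (nat_lit 211) (nat_lit 5) (nat_lit 212) (nat_lit 5) (nat_lit 292) (nat_lit 274) (nat_lit 214)) (XT.lf (nat_lit 0) (nat_lit 4501132352) (nat_lit 1064) (nat_lit 2533045942)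 (nat_lit 76) (nat_lit 1992108366) (nat_lit 198) (nat_lit 5) (nat_lit 212) (nat_lit 5) (nat_lit 199) (nat_lit 5) (nat_lit 293) (nat_lit 274) (nat_lit 213)))))) (XT.nd (nat_lit 468) (nat_lit 2204) (nat_lit 0) (XT.nd (nat_lit 234) (nat_lit 532) (nat_lit 0) (XT.nd (nat_lit 78) (nat_lit 1216) (nat_lit 0) (XT.lf (nat_lit 0) (nat_lit 2074950640) (nat_lit 1064) (nat_lit 4026817734) (nat_lit 1140) (nat_lit 3049894720) (nat_lit 184) (nat_lit 5) (nat_lit 198) (nat_lit 5) (nat_lit 199) (nat_lit 5) (nat_lit 294) (nat_lit 274) (nat_lit 212)) (XT.nd (nat_lit 78) (nat_lit 1216) (nat_lit 0) (XT.lf (nat_lit 0) (nat_lit 6842167243) (nat_lit 1064) (nat_lit 898193194) (nat_lit 1140) (nat_lit 1540800466) (nat_lit 184) (nat_lit 5) (nat_lit 198) (nat_lit 5) (nat_lit 199) (nat_lit 5) (nat_lit 295) (nat_lit 274) (nat_lit 211)) (XT.lf (nat_lit 0) (nat_lit 23525283) (nat_lit 1216) (nat_lit 7084730522) (nat_lit 76) (nat_lit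 2306032074) (nat_lit 168) (nat_lit 5) (nat_lit 184) (nat_lit 5) (nat_lit 169) (nat_lit 5) (nat_lit 296) (nat_lit 274) (nat_lit 210)))) (XT.nd (nat_lit 78) (nat_lit 532) (nat_lit 0) (XT.lf (nat_lit 0) (nat_lit 1603339126) (nat_lit 1216) (nat_lit 2315511154) (nat_lit 76) (nat_lit 5632168164) (nat_lit 168) (nat_lit 5) (nat_lit 184) (nat_lit 5) (nat_lit 169) (nat_lit 5) (nat_lit 297) (nat_lit 274) (nat_lit 209)) (XT.nd (nat_lit 78) (nat_lit 0) (nat_lit 0) (XT.lf (nat_lit 0) (nat_lit 2617164872) (nat_lit 532) (nat_lit 605298533) (nat_lit 608) (nat_lit 6469681743) (nat_lit 161) (nat_lit 5) (nat_lit 168) (nat_lit 5) (nat_lit 169) (nat_lit 5) (nat_lit 298) (nat_lit 274) (nat_lit 208)) (XT.lf (nat_lit 0) (nat_lit 4908219221) (nat_lit 608) (nat_lit 2150175185) (nat_lit 76) (nat_lit 2778619705) (nat_lit 161) (nat_lit 5) (nat_lit 169) (nat_lit 5) (nat_lit 162) (nat_lit 5) (nat_lit 299) (nat_lit 274) (nat_lit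 207))))) (XT.nd (nat_lit 234) (nat_lit 988) (nat_lit 0) (XT.nd (nat_lit 78) (nat_lit 608) (nat_lit 0) (XT.lf (nat_lit 0) (nat_lit 2943293478) (nat_lit 608) (nat_lit 3703943167) (nat_lit 684) (nat_lit 3338960563) (nat_lit 153) (nat_lit 5) (nat_lit 161) (nat_lit 5) (nat_lit 162) (nat_lit 5) (nat_lit 300) (nat_lit 274) (nat_lit 206)) (XT.nd (nat_lit 78) (nat_lit 608) (nat_lit 0) (XT.lf (nat_lit 0) (nat_lit 8203420136) (nat_lit 608) (nat_lit 225749931) (nat_lit 684) (nat_lit 1711010679) (nat_lit 153) (nat_lit 5) (nat_lit 161) (nat_lit 5) (nat_lit 162) (nat_lit 5) (nat_lit 301) (nat_lit 274) (nat_lit 205)) (XT.lf (nat_lit 0) (nat_lit 908920) (nat_lit 608) (nat_lit 6972930925) (nat_lit 76) (nat_lit 3323964510) (nat_lit 145) (nat_lit 5) (nat_lit 153) (nat_lit 5) (nat_lit 146) (nat_lit 5) (nat_lit 302) (nat_lit 274) (nat_lit 204)))) (XT.nd (nat_lit 156) (nat_lit 456) (nat_lit 0) (XT.nd (nat_lit 78)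 (nat_lit 532) (nat_lit 0) (XT.lf (nat_lit 0) (nat_lit 1721976164) (nat_lit 608) (nat_lit 1725517840) (nat_lit 76) (nat_lit 7012432354) (nat_lit 145) (nat_lit 5) (nat_lit 153) (nat_lit 5) (nat_lit 146) (nat_lit 5) (nat_lit 303) (nat_lit 274) (nat_lit 203)) (XT.lf (nat_lit 0) (nat_lit 3503638522) (nat_lit 608) (nat_lit 6906663179) (nat_lit 76) (nat_lit 216383464) (nat_lit 138) (nat_lit 5) (nat_lit 146) (nat_lit 5) (nat_lit 139) (nat_lit 5) (nat_lit 304) (nat_lit 274) (nat_lit 202))) (XT.nd (nat_lit 78) (nat_lit 456) (nat_lit 0) (XT.lf (nat_lit 0) (nat_lit 5362092206) (nat_lit 608) (nat_lit 1498265201) (nat_lit 76) (nat_lit 3937429898) (nat_lit 138) (nat_lit 5) (nat_lit 146) (nat_lit 5) (nat_lit 139) (nat_lit 5) (nat_lit 305) (nat_lit 274) (nat_lit 201)) (XT.lf (nat_lit 0) (nat_lit 4123396047) (nat_lit 456) (nat_lit 3164977908) (nat_lit 532) (nat_lit 3685325945) (nat_lit 132) (nat_lit 5) (nat_lit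 138) (nat_lit 5) (nat_lit 139) (nat_lit 5) (nat_lit 306) (nat_lit 274) (nat_lit 200))))))) (XT.nd (nat_lit 1014) (nat_lit 2432) (nat_lit 0) (XT.nd (nat_lit 468) (nat_lit 1216) (nat_lit 0) (XT.nd (nat_lit 234) (nat_lit 912) (nat_lit 0) (XT.nd (nat_lit 78) (nat_lit 532) (nat_lit 0) (XT.lf (nat_lit 0) (nat_lit 9266827611) (nat_lit 532) (nat_lit 1246321394) (nat_lit 76) (nat_lit 641947834) (nat_lit 132) (nat_lit 5) (nat_lit 139) (nat_lit 5) (nat_lit 133) (nat_lit 5) (nat_lit 307) (nat_lit 274) (nat_lit 199)) (XT.nd (nat_lit 78) (nat_lit 0) (nat_lit 0) (XT.lf (nat_lit 0) (nat_lit 12716211) (nat_lit 532) (nat_lit 6786437528) (nat_lit 76) (nat_lit 4541350290) (nat_lit 125) (nat_lit 5) (nat_lit 132) (nat_lit 5) (nat_lit 126) (nat_lit 5) (nat_lit 308) (nat_lit 274) (nat_lit 198)) (XT.lf (nat_lit 0) (nat_lit 1919414150) (nat_lit 532) (nat_lit 1025288448) (nat_lit 76) (nat_lit 8586646112) (nat_lit 125)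 (nat_lit 5) (nat_lit 132) (nat_lit 5) (nat_lit 126) (nat_lit 5) (nat_lit 309) (nat_lit 274) (nat_lit 197)))) (XT.nd (nat_lit 78) (nat_lit 456) (nat_lit 0) (XT.lf (nat_lit 0) (nat_lit 3916141904) (nat_lit 532) (nat_lit 6760287198) (nat_lit 76) (nat_lit 1050538943) (nat_lit 119) (nat_lit 5) (nat_lit 126) (nat_lit 5) (nat_lit 120) (nat_lit 5) (nat_lit 310) (nat_lit 274) (nat_lit 196)) (XT.nd (nat_lit 78) (nat_lit 456) (nat_lit 0) (XT.lf (nat_lit 0) (nat_lit 5987500674) (nat_lit 532) (nat_lit 826973679) (nat_lit 76) (nat_lit 5113572916) (nat_lit 119) (nat_lit 5) (nat_lit 126) (nat_lit 5) (nat_lit 120) (nat_lit 5) (nat_lit 311) (nat_lit 274) (nat_lit 195)) (XT.lf (nat_lit 0) (nat_lit 5360795270) (nat_lit 456) (nat_lit 2787578705) (nat_lit 532) (nat_lit 3985995899) (nat_lit 113) (nat_lit 5) (nat_lit 119) (nat_lit 5) (nat_lit 120) (nat_lit 5) (nat_lit 312) (nat_lit 274) (nat_lit 194))))) (XT.nd (nat_lit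 234) (nat_lit 760) (nat_lit 0) (XT.nd (nat_lit 78) (nat_lit 456) (nat_lit 0) (XT.lf (nat_lit 0) (nat_lit 10371819552) (nat_lit 532) (nat_lit 637218612) (nat_lit 76) (nat_lit 1337942890) (nat_lit 113) (nat_lit 5) (nat_lit 120) (nat_lit 5) (nat_lit 114) (nat_lit 5) (nat_lit 313) (nat_lit 274) (nat_lit 193)) (XT.nd (nat_lit 78) (nat_lit 0) (nat_lit 0) (XT.lf (nat_lit 0) (nat_lit 154391451) (nat_lit 456) (nat_lit 6825836260) (nat_lit 76) (nat_lit 5583936656) (nat_lit 107) (nat_lit 5) (nat_lit 113) (nat_lit 5) (nat_lit 108) (nat_lit 5) (nat_lit 314) (nat_lit 274) (nat_lit 192)) (XT.lf (nat_lit 0) (nat_lit 2291715445) (nat_lit 456) (nat_lit 517045952) (nat_lit 76) (nat_lit 9979036228) (nat_lit 107) (nat_lit 5) (nat_lit 113) (nat_lit 5) (nat_lit 108) (nat_lit 5) (nat_lit 315) (nat_lit 274) (nat_lit 191)))) (XT.nd (nat_lit 156) (nat_lit 380) (nat_lit 0) (XT.nd (nat_lit 78) (nat_lit 0) (nat_lit 0) (XT.lf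 (nat_lit 0) (nat_lit 4544115634) (nat_lit 456) (nat_lit 6959560605) (nat_lit 76) (nat_lit 1512962739) (nat_lit 102) (nat_lit 5) (nat_lit 108) (nat_lit 5) (nat_lit 103) (nat_lit 5) (nat_lit 316) (nat_lit 274) (nat_lit 190)) (XT.lf (nat_lit 0) (nat_lit 6875263843) (nat_lit 456) (nat_lit 468538391) (nat_lit 76) (nat_lit 5908235039) (nat_lit 102) (nat_lit 5) (nat_lit 108) (nat_lit 5) (nat_lit 103) (nat_lit 5) (nat_lit 317) (nat_lit 274) (nat_lit 189))) (XT.nd (nat_lit 78) (nat_lit 0) (nat_lit 0) (XT.lf (nat_lit 0) (nat_lit 6313705382) (nat_lit 380) (nat_lit 3002064013) (nat_lit 456) (nat_lit 4177571631) (nat_lit 97) (nat_lit 5) (nat_lit 102) (nat_lit 5) (nat_lit 103) (nat_lit 5) (nat_lit 318) (nat_lit 274) (nat_lit 188)) (XT.lf (nat_lit 0) (nat_lit 11827441693) (nat_lit 456) (nat_lit 473947137) (nat_lit 76) (nat_lit 1440581946) (nat_lit 97) (nat_lit 5) (nat_lit 103) (nat_lit 5) (nat_lit 98) (nat_lit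 5) (nat_lit 319) (nat_lit 274) (nat_lit 187)))))) (XT.nd (nat_lit 546) (nat_lit 912) (nat_lit 0) (XT.nd (nat_lit 234) (nat_lit 760) (nat_lit 0) (XT.nd (nat_lit 78) (nat_lit 304) (nat_lit 0) (XT.lf (nat_lit 0) (nat_lit 480863078) (nat_lit 456) (nat_lit 7496801306) (nat_lit 76) (nat_lit 6018121410) (nat_lit 91) (nat_lit 5) (nat_lit 97) (nat_lit 5) (nat_lit 92) (nat_lit 5) (nat_lit 320) (nat_lit 274) (nat_lit 186)) (XT.nd (nat_lit 78) (nat_lit 304) (nat_lit 0) (XT.lf (nat_lit 0) (nat_lit 2894245230) (nat_lit 456) (nat_lit 611685317) (nat_lit 76) (nat_lit 10751201067) (nat_lit 91) (nat_lit 5) (nat_lit 97) (nat_lit 5) (nat_lit 92) (nat_lit 5) (nat_lit 321) (nat_lit 274) (nat_lit 185)) (XT.lf (nat_lit 0) (nat_lit 5434812693) (nat_lit 380) (nat_lit 7953395567) (nat_lit 76) (nat_lit 1136488630) (nat_lit 87) (nat_lit 5) (nat_lit 92) (nat_lit 5) (nat_lit 88) (nat_lit 5) (nat_lit 322) (nat_lit 274) (nat_lit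 184)))) (XT.nd (nat_lit 156) (nat_lit 380) (nat_lit 0) (XT.nd (nat_lit 78) (nat_lit 380) (nat_lit 0) (XT.lf (nat_lit 0) (nat_lit 8073180495) (nat_lit 380) (nat_lit 878511841) (nat_lit 76) (nat_lit 5847971228) (nat_lit 87) (nat_lit 5) (nat_lit 92) (nat_lit 5) (nat_lit 88) (nat_lit 5) (nat_lit 323) (nat_lit 274) (nat_lit 183)) (XT.lf (nat_lit 0) (nat_lit 6510465696) (nat_lit 380) (nat_lit 4324013447) (nat_lit 456) (nat_lit 4247108000) (nat_lit 82) (nat_lit 5) (nat_lit 87) (nat_lit 5) (nat_lit 88) (nat_lit 5) (nat_lit 324) (nat_lit 274) (nat_lit 182))) (XT.nd (nat_lit 78) (nat_lit 380) (nat_lit 0) (XT.lf (nat_lit 0) (nat_lit 13673272408) (nat_lit 456) (nat_lit 1262384292) (nat_lit 76) (nat_lit 436492740) (nat_lit 82) (nat_lit 5) (nat_lit 88) (nat_lit 5) (nat_lit 83) (nat_lit 5) (nat_lit 325) (nat_lit 274) (nat_lit 181)) (XT.lf (nat_lit 0) (nat_lit 994123669) (nat_lit 380) (nat_lit 9357191406) (nat_lit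 76) (nat_lit 5317274386) (nat_lit 77) (nat_lit 5) (nat_lit 82) (nat_lit 5) (nat_lit 78) (nat_lit 5) (nat_lit 326) (nat_lit 274) (nat_lit 180))))) (XT.nd (nat_lit 234) (nat_lit 608) (nat_lit 0) (XT.nd (nat_lit 78) (nat_lit 304) (nat_lit 0) (XT.lf (nat_lit 0) (nat_lit 3728720824) (nat_lit 380) (nat_lit 1877068973) (nat_lit 76) (nat_lit 10367798628) (nat_lit 77) (nat_lit 5) (nat_lit 82) (nat_lit 5) (nat_lit 78) (nat_lit 5) (nat_lit 327) (nat_lit 274) (nat_lit 179)) (XT.nd (nat_lit 78) (nat_lit 0) (nat_lit 0) (XT.lf (nat_lit 0) (nat_lit 5918825162) (nat_lit 304) (nat_lit 666026446) (nat_lit 380) (nat_lit 9701719251) (nat_lit 73) (nat_lit 5) (nat_lit 77) (nat_lit 5) (nat_lit 78) (nat_lit 5) (nat_lit 328) (nat_lit 274) (nat_lit 178)) (XT.lf (nat_lit 0) (nat_lit 9571127376) (nat_lit 380) (nat_lit 2688353331) (nat_lit 76) (nat_lit 4348146068) (nat_lit 73) (nat_lit 5) (nat_lit 78) (nat_lit 5) (nat_lit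 74) (nat_lit 5) (nat_lit 329) (nat_lit 274) (nat_lit 177)))) (XT.nd (nat_lit 156) (nat_lit 380) (nat_lit 0) (XT.nd (nat_lit 78) (nat_lit 0) (nat_lit 0) (XT.lf (nat_lit 0) (nat_lit 5294491140) (nat_lit 228) (nat_lit 7393301472) (nat_lit 304) (nat_lit 4249315038) (nat_lit 70) (nat_lit 5) (nat_lit 73) (nat_lit 5) (nat_lit 74) (nat_lit 5) (nat_lit 330) (nat_lit 274) (nat_lit 176)) (XT.lf (nat_lit 0) (nat_lit 13548511478) (nat_lit 228) (nat_lit 2360167332) (nat_lit 304) (nat_lit 1367489324) (nat_lit 70) (nat_lit 5) (nat_lit 73) (nat_lit 5) (nat_lit 74) (nat_lit 5) (nat_lit 331) (nat_lit 274) (nat_lit 175))) (XT.nd (nat_lit 78) (nat_lit 0) (nat_lit 0) (XT.lf (nat_lit 0) (nat_lit 1624092198) (nat_lit 380) (nat_lit 13178217842) (nat_lit 76) (nat_lit 2821008462) (nat_lit 65) (nat_lit 5) (nat_lit 70) (nat_lit 5) (nat_lit 66) (nat_lit 5) (nat_lit 332) (nat_lit 274) (nat_lit 174)) (XT.lf (nat_lit 0) (nat_lit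 4723380028) (nat_lit 380) (nat_lit 5100851283) (nat_lit 76) (nat_lit 8154897952) (nat_lit 65) (nat_lit 5) (nat_lit 70) (nat_lit 5) (nat_lit 66) (nat_lit 5) (nat_lit 333) (nat_lit 274) (nat_lit 173))))))))
noncomputable def xc144 : XT := (XT.nd (nat_lit 2028) (nat_lit 1216) (nat_lit 0) (XT.nd (nat_lit 1014) (nat_lit 988) (nat_lit 0) (XT.nd (nat_lit 468) (nat_lit 684) (nat_lit 0) (XT.nd (nat_lit 234) (nat_lit 304) (nat_lit 0) (XT.nd (nat_lit 78) (nat_lit 228) (nat_lit 0) (XT.lf (nat_lit 0) (nat_lit 3259854591) (nat_lit 228) (nat_lit 4671653183) (nat_lit 304) (nat_lit 10413645671) (nat_lit 62) (nat_lit 5) (nat_lit 65) (nat_lit 5) (nat_lit 66) (nat_lit 5) (nat_lit 334) (nat_lit 274) (nat_lit 172)) (XT.nd (nat_lit 78) (nat_lit 228) (nat_lit 0) (XT.lf (nat_lit 0) (nat_lit 11278699436) (nat_lit 304) (nat_lit 6774062612) (nat_lit 76) (nat_lit 668126208) (nat_lit 62) (nat_lit 5) (nat_lit 66) (nat_lit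 5) (nat_lit 63) (nat_lit 5) (nat_lit 335) (nat_lit 274) (nat_lit 171)) (XT.lf (nat_lit 0) (nat_lit 1752339742) (nat_lit 228) (nat_lit 13022204165) (nat_lit 304) (nat_lit 4331918174) (nat_lit 59) (nat_lit 5) (nat_lit 62) (nat_lit 5) (nat_lit 63) (nat_lit 5) (nat_lit 336) (nat_lit 274) (nat_lit 170)))) (XT.nd (nat_lit 78) (nat_lit 304) (nat_lit 0) (XT.lf (nat_lit 0) (nat_lit 10651501148) (nat_lit 228) (nat_lit 7777528215) (nat_lit 304) (nat_lit 1072974459) (nat_lit 59) (nat_lit 5) (nat_lit 62) (nat_lit 5) (nat_lit 63) (nat_lit 5) (nat_lit 337) (nat_lit 274) (nat_lit 169)) (XT.nd (nat_lit 78) (nat_lit 228) (nat_lit 0) (XT.lf (nat_lit 0) (nat_lit 2224807168) (nat_lit 304) (nat_lit 135282866) (nat_lit 76) (nat_lit 17549107082) (nat_lit 58) (nat_lit 5) (nat_lit 62) (nat_lit 5) (nat_lit 59) (nat_lit 5) (nat_lit 338) (nat_lit 274) (nat_lit 168)) (XT.lf (nat_lit 0) (nat_lit 5704224130) (nat_lit 304)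 (nat_lit 11372796710) (nat_lit 76) (nat_lit 3248151147) (nat_lit 55) (nat_lit 5) (nat_lit 59) (nat_lit 5) (nat_lit 56) (nat_lit 5) (nat_lit 339) (nat_lit 274) (nat_lit 167))))) (XT.nd (nat_lit 234) (nat_lit 456) (nat_lit 0) (XT.nd (nat_lit 78) (nat_lit 228) (nat_lit 0) (XT.lf (nat_lit 0) (nat_lit 9298962374) (nat_lit 304) (nat_lit 2482609554) (nat_lit 76) (nat_lit 8971738159) (nat_lit 55) (nat_lit 5) (nat_lit 59) (nat_lit 5) (nat_lit 56) (nat_lit 5) (nat_lit 340) (nat_lit 274) (nat_lit 166)) (XT.nd (nat_lit 78) (nat_lit 0) (nat_lit 0) (XT.lf (nat_lit 0) (nat_lit 6786241195) (nat_lit 228) (nat_lit 6267129177) (nat_lit 304) (nat_lit 8139378923) (nat_lit 52) (nat_lit 5) (nat_lit 55) (nat_lit 5) (nat_lit 56) (nat_lit 5) (nat_lit 341) (nat_lit 274) (nat_lit 165)) (XT.lf (nat_lit 0) (nat_lit 16363783146) (nat_lit 228) (nat_lit 568486717) (nat_lit 304) (nat_lit 4712757487) (nat_lit 52) (nat_lit 5)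 (nat_lit 55) (nat_lit 5) (nat_lit 56) (nat_lit 5) (nat_lit 342) (nat_lit 274) (nat_lit 164)))) (XT.nd (nat_lit 156) (nat_lit 228) (nat_lit 0) (XT.nd (nat_lit 78) (nat_lit 76) (nat_lit 0) (XT.lf (nat_lit 0) (nat_lit 4127354431) (nat_lit 152) (nat_lit 16877922811) (nat_lit 228) (nat_lit 1103275396) (nat_lit 50) (nat_lit 5) (nat_lit 52) (nat_lit 5) (nat_lit 53) (nat_lit 5) (nat_lit 343) (nat_lit 274) (nat_lit 163)) (XT.lf (nat_lit 0) (nat_lit 2610117190) (nat_lit 228) (nat_lit 8709276224) (nat_lit 76) (nat_lit 11264447460) (nat_lit 49) (nat_lit 5) (nat_lit 52) (nat_lit 5) (nat_lit 50) (nat_lit 5) (nat_lit 344) (nat_lit 274) (nat_lit 162))) (XT.nd (nat_lit 78) (nat_lit 0) (nat_lit 0) (XT.lf (nat_lit 0) (nat_lit 826517843) (nat_lit 228) (nat_lit 5581695378) (nat_lit 304) (nat_lit 16664992710) (nat_lit 46) (nat_lit 5) (nat_lit 49) (nat_lit 5) (nat_lit 50) (nat_lit 5) (nat_lit 345) (nat_lit 274) (nat_lit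 161)) (XT.lf (nat_lit 0) (nat_lit 10399865420) (nat_lit 304) (nat_lit 12771331716) (nat_lit 76) (nat_lit 403676284) (nat_lit 46) (nat_lit 5) (nat_lit 50) (nat_lit 5) (nat_lit 47) (nat_lit 5) (nat_lit 346) (nat_lit 274) (nat_lit 160)))))) (XT.nd (nat_lit 468) (nat_lit 532) (nat_lit 0) (XT.nd (nat_lit 234) (nat_lit 304) (nat_lit 0) (XT.nd (nat_lit 78) (nat_lit 152) (nat_lit 0) (XT.lf (nat_lit 0) (nat_lit 14554533138) (nat_lit 304) (nat_lit 3086018332) (nat_lit 76) (nat_lit 6449751072) (nat_lit 46) (nat_lit 5) (nat_lit 50) (nat_lit 5) (nat_lit 47) (nat_lit 5) (nat_lit 347) (nat_lit 274) (nat_lit 159)) (XT.nd (nat_lit 78) (nat_lit 0) (nat_lit 0) (XT.lf (nat_lit 0) (nat_lit 7008123357) (nat_lit 152) (nat_lit 11881435010) (nat_lit 228) (nat_lit 5729973958) (nat_lit 44) (nat_lit 5) (nat_lit 46) (nat_lit 5) (nat_lit 47) (nat_lit 5) (nat_lit 348) (nat_lit 274) (nat_lit 158)) (XT.lf (nat_lit 0) (nat_lit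 17450046046) (nat_lit 152) (nat_lit 5924265492) (nat_lit 228) (nat_lit 1789746184) (nat_lit 44) (nat_lit 5) (nat_lit 46) (nat_lit 5) (nat_lit 47) (nat_lit 5) (nat_lit 349) (nat_lit 274) (nat_lit 157)))) (XT.nd (nat_lit 78) (nat_lit 0) (nat_lit 0) (XT.lf (nat_lit 0) (nat_lit 2239496851) (nat_lit 304) (nat_lit 23237248904) (nat_lit 76) (nat_lit 247075045) (nat_lit 40) (nat_lit 5) (nat_lit 44) (nat_lit 5) (nat_lit 41) (nat_lit 5) (nat_lit 350) (nat_lit 274) (nat_lit 156)) (XT.nd (nat_lit 78) (nat_lit 0) (nat_lit 0) (XT.lf (nat_lit 0) (nat_lit 6479791118) (nat_lit 304) (nat_lit 13241988757) (nat_lit 76) (nat_lit 6574289177) (nat_lit 40) (nat_lit 5) (nat_lit 44) (nat_lit 5) (nat_lit 41) (nat_lit 5) (nat_lit 351) (nat_lit 274) (nat_lit 155)) (XT.lf (nat_lit 0) (nat_lit 10836442104) (nat_lit 304) (nat_lit 2964447435) (nat_lit 76) (nat_lit 13084928806) (nat_lit 40) (nat_lit 5) (nat_lit 44) (nat_lit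 5) (nat_lit 41) (nat_lit 5) (nat_lit 352) (nat_lit 274) (nat_lit 154))))) (XT.nd (nat_lit 234) (nat_lit 228) (nat_lit 0) (XT.nd (nat_lit 78) (nat_lit 152) (nat_lit 0) (XT.lf (nat_lit 0) (nat_lit 7755697021) (nat_lit 152) (nat_lit 7632112076) (nat_lit 228) (nat_lit 12103538323) (nat_lit 38) (nat_lit 5) (nat_lit 40) (nat_lit 5) (nat_lit 41) (nat_lit 5) (nat_lit 353) (nat_lit 274) (nat_lit 153)) (XT.nd (nat_lit 78) (nat_lit 152) (nat_lit 0) (XT.lf (nat_lit 0) (nat_lit 18841316689) (nat_lit 152) (nat_lit 1253943935) (nat_lit 228) (nat_lit 8019203005) (nat_lit 38) (nat_lit 5) (nat_lit 40) (nat_lit 5) (nat_lit 41) (nat_lit 5) (nat_lit 354) (nat_lit 274) (nat_lit 152)) (XT.lf (nat_lit 0) (nat_lit 1464049464) (nat_lit 152) (nat_lit 23534906447) (nat_lit 228) (nat_lit 3755674158) (nat_lit 36) (nat_lit 5) (nat_lit 38) (nat_lit 5) (nat_lit 39) (nat_lit 5) (nat_lit 355) (nat_lit 274) (nat_lit 151)))) (XT.nd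 (nat_lit 156) (nat_lit 152) (nat_lit 0) (XT.nd (nat_lit 78) (nat_lit 0) (nat_lit 0) (XT.lf (nat_lit 0) (nat_lit 720218935) (nat_lit 228) (nat_lit 16733893402) (nat_lit 76) (nat_lit 11956806822) (nat_lit 35) (nat_lit 5) (nat_lit 38) (nat_lit 5) (nat_lit 36) (nat_lit 5) (nat_lit 356) (nat_lit 274) (nat_lit 150)) (XT.lf (nat_lit 0) (nat_lit 5245079544) (nat_lit 228) (nat_lit 5913903639) (nat_lit 76) (nat_lit 18927099634) (nat_lit 35) (nat_lit 5) (nat_lit 38) (nat_lit 5) (nat_lit 36) (nat_lit 5) (nat_lit 357) (nat_lit 274) (nat_lit 149))) (XT.nd (nat_lit 78) (nat_lit 0) (nat_lit 0) (XT.lf (nat_lit 0) (nat_lit 5318732506) (nat_lit 152) (nat_lit 4628542564) (nat_lit 228) (nat_lit 20832985172) (nat_lit 33) (nat_lit 5) (nat_lit 35) (nat_lit 5) (nat_lit 36) (nat_lit 5) (nat_lit 358) (nat_lit 274) (nat_lit 148)) (XT.lf (nat_lit 0) (nat_lit 14861542803) (nat_lit 228) (nat_lit 14520467057) (nat_lit 76)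 (nat_lit 2111129281) (nat_lit 33) (nat_lit 5) (nat_lit 36) (nat_lit 5) (nat_lit 34) (nat_lit 5) (nat_lit 359) (nat_lit 274) (nat_lit 147))))))) (XT.nd (nat_lit 1014) (nat_lit 532) (nat_lit 0) (XT.nd (nat_lit 468) (nat_lit 304) (nat_lit 0) (XT.nd (nat_lit 234) (nat_lit 228) (nat_lit 0) (XT.nd (nat_lit 78) (nat_lit 152) (nat_lit 0) (XT.lf (nat_lit 0) (nat_lit 19959872309) (nat_lit 228) (nat_lit 3312356928) (nat_lit 76) (nat_lit 8954082311) (nat_lit 33) (nat_lit 5) (nat_lit 36) (nat_lit 5) (nat_lit 34) (nat_lit 5) (nat_lit 360) (nat_lit 274) (nat_lit 146)) (XT.nd (nat_lit 78) (nat_lit 0) (nat_lit 0) (XT.lf (nat_lit 0) (nat_lit 8380624701) (nat_lit 152) (nat_lit 16902161049) (nat_lit 228) (nat_lit 7696550331) (nat_lit 31) (nat_lit 5) (nat_lit 33) (nat_lit 5) (nat_lit 34) (nat_lit 5) (nat_lit 361) (nat_lit 274) (nat_lit 145)) (XT.lf (nat_lit 0) (nat_lit 20477534027) (nat_lit 152) (nat_lit 10312493306)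 (nat_lit 228) (nat_lit 2964190596) (nat_lit 31) (nat_lit 5) (nat_lit 33) (nat_lit 5) (nat_lit 34) (nat_lit 5) (nat_lit 362) (nat_lit 274) (nat_lit 144)))) (XT.nd (nat_lit 78) (nat_lit 152) (nat_lit 0) (XT.lf (nat_lit 0) (nat_lit 1864224994) (nat_lit 228) (nat_lit 1647866344) (nat_lit 76) (nat_lit 31039968757) (nat_lit 30) (nat_lit 5) (nat_lit 33) (nat_lit 5) (nat_lit 31) (nat_lit 5) (nat_lit 363) (nat_lit 274) (nat_lit 143)) (XT.nd (nat_lit 78) (nat_lit 0) (nat_lit 0) (XT.lf (nat_lit 0) (nat_lit 6905177724) (nat_lit 228) (nat_lit 24913893551) (nat_lit 76) (nat_lit 3550073248) (nat_lit 28) (nat_lit 5) (nat_lit 31) (nat_lit 5) (nat_lit 29) (nat_lit 5) (nat_lit 364) (nat_lit 274) (nat_lit 142)) (XT.lf (nat_lit 0) (nat_lit 12140603427) (nat_lit 228) (nat_lit 13304086400) (nat_lit 76) (nat_lit 10764759481) (nat_lit 28) (nat_lit 5) (nat_lit 31) (nat_lit 5) (nat_lit 29) (nat_lit 5) (nat_lit 365) (nat_lit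 274) (nat_lit 141))))) (XT.nd (nat_lit 234) (nat_lit 152) (nat_lit 0) (XT.nd (nat_lit 78) (nat_lit 152) (nat_lit 0) (XT.lf (nat_lit 0) (nat_lit 17525000867) (nat_lit 228) (nat_lit 1359720608) (nat_lit 76) (nat_lit 18190489496) (nat_lit 28) (nat_lit 5) (nat_lit 31) (nat_lit 5) (nat_lit 29) (nat_lit 5) (nat_lit 366) (nat_lit 274) (nat_lit 140)) (XT.nd (nat_lit 78) (nat_lit 0) (nat_lit 0) (XT.lf (nat_lit 0) (nat_lit 11147161930) (nat_lit 152) (nat_lit 12023066268) (nat_lit 228) (nat_lit 14793743205) (nat_lit 26) (nat_lit 5) (nat_lit 28) (nat_lit 5) (nat_lit 29) (nat_lit 5) (nat_lit 367) (nat_lit 274) (nat_lit 139)) (XT.lf (nat_lit 0) (nat_lit 24043919116) (nat_lit 152) (nat_lit 4946870237) (nat_lit 228) (nat_lit 9888430702) (nat_lit 26) (nat_lit 5) (nat_lit 28) (nat_lit 5) (nat_lit 29) (nat_lit 5) (nat_lit 368) (nat_lit 274) (nat_lit 138)))) (XT.nd (nat_lit 156) (nat_lit 0) (nat_lit 0) (XT.nd (nat_lit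 78) (nat_lit 152) (nat_lit 0) (XT.lf (nat_lit 0) (nat_lit 35000897797) (nat_lit 228) (nat_lit 2529855851) (nat_lit 76) (nat_lit 2290729185) (nat_lit 26) (nat_lit 5) (nat_lit 29) (nat_lit 5) (nat_lit 27) (nat_lit 4) (nat_lit 369) (nat_lit 274) (nat_lit 137)) (XT.lf (nat_lit 0) (nat_lit 533366314) (nat_lit 152) (nat_lit 30509205640) (nat_lit 76) (nat_lit 9745074849) (nat_lit 24) (nat_lit 5) (nat_lit 26) (nat_lit 5) (nat_lit 25) (nat_lit 5) (nat_lit 370) (nat_lit 274) (nat_lit 136))) (XT.nd (nat_lit 78) (nat_lit 0) (nat_lit 0) (XT.lf (nat_lit 0) (nat_lit 5969506948) (nat_lit 152) (nat_lit 18319811739) (nat_lit 76) (nat_lit 17491495548) (nat_lit 24) (nat_lit 5) (nat_lit 26) (nat_lit 5) (nat_lit 25) (nat_lit 5) (nat_lit 371) (nat_lit 274) (nat_lit 135)) (XT.lf (nat_lit 0) (nat_lit 11561605787) (nat_lit 152) (nat_lit 5777015241) (nat_lit 76) (nat_lit 25465373510) (nat_lit 24) (nat_lit 5) (nat_lit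 26) (nat_lit 5) (nat_lit 25) (nat_lit 5) (nat_lit 372) (nat_lit 274) (nat_lit 134)))))) (XT.nd (nat_lit 468) (nat_lit 228) (nat_lit 0) (XT.nd (nat_lit 234) (nat_lit 152) (nat_lit 0) (XT.nd (nat_lit 78) (nat_lit 0) (nat_lit 0) (XT.lf (nat_lit 0) (nat_lit 7272047415) (nat_lit 152) (nat_lit 10112405084) (nat_lit 228) (nat_lit 26471532153) (nat_lit 22) (nat_lit 5) (nat_lit 24) (nat_lit 5) (nat_lit 25) (nat_lit 5) (nat_lit 373) (nat_lit 274) (nat_lit 133)) (XT.nd (nat_lit 78) (nat_lit 0) (nat_lit 0) (XT.lf (nat_lit 0) (nat_lit 20819200405) (nat_lit 152) (nat_lit 2614290310) (nat_lit 228) (nat_lit 21504502409) (nat_lit 22) (nat_lit 5) (nat_lit 24) (nat_lit 5) (nat_lit 25) (nat_lit 5) (nat_lit 374) (nat_lit 274) (nat_lit 132)) (XT.lf (nat_lit 0) (nat_lit 29706430778) (nat_lit 228) (nat_lit 11340419582) (nat_lit 76) (nat_lit 5004342293) (nat_lit 22) (nat_lit 5) (nat_lit 25) (nat_lit 5) (nat_lit 23)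 (nat_lit 4) (nat_lit 375) (nat_lit 274) (nat_lit 131)))) (XT.nd (nat_lit 78) (nat_lit 76) (nat_lit 0) (XT.lf (nat_lit 0) (nat_lit 1819649857) (nat_lit 76) (nat_lit 34384801432) (nat_lit 152) (nat_lit 10992233725) (nat_lit 21) (nat_lit 5) (nat_lit 22) (nat_lit 5) (nat_lit 23) (nat_lit 4) (nat_lit 376) (nat_lit 274) (nat_lit 130)) (XT.nd (nat_lit 78) (nat_lit 76) (nat_lit 0) (XT.lf (nat_lit 0) (nat_lit 15595820688) (nat_lit 76) (nat_lit 27409705811) (nat_lit 152) (nat_lit 5367775736) (nat_lit 21) (nat_lit 5) (nat_lit 22) (nat_lit 5) (nat_lit 23) (nat_lit 4) (nat_lit 377) (nat_lit 274) (nat_lit 129)) (XT.lf (nat_lit 0) (nat_lit 410834258) (nat_lit 152) (nat_lit 19815001876) (nat_lit 76) (nat_lit 29359450876) (nat_lit 20) (nat_lit 5) (nat_lit 22) (nat_lit 5) (nat_lit 21) (nat_lit 5) (nat_lit 378) (nat_lit 274) (nat_lit 128))))) (XT.nd (nat_lit 234) (nat_lit 76) (nat_lit 0) (XT.nd (nat_lit 78) (nat_lit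 152) (nat_lit 0) (XT.lf (nat_lit 0) (nat_lit 6248818160) (nat_lit 152) (nat_lit 6527445748) (nat_lit 76) (nat_lit 38055959165) (nat_lit 20) (nat_lit 5) (nat_lit 22) (nat_lit 5) (nat_lit 21) (nat_lit 5) (nat_lit 379) (nat_lit 274) (nat_lit 127)) (XT.nd (nat_lit 78) (nat_lit 0) (nat_lit 0) (XT.lf (nat_lit 0) (nat_lit 7290662755) (nat_lit 152) (nat_lit 5035441314) (nat_lit 228) (nat_lit 39788541393) (nat_lit 18) (nat_lit 5) (nat_lit 20) (nat_lit 5) (nat_lit 21) (nat_lit 5) (nat_lit 380) (nat_lit 274) (nat_lit 126)) (XT.lf (nat_lit 0) (nat_lit 18674625573) (nat_lit 228) (nat_lit 31815709197) (nat_lit 76) (nat_lit 2942541271) (nat_lit 18) (nat_lit 5) (nat_lit 21) (nat_lit 5) (nat_lit 19) (nat_lit 4) (nat_lit 381) (nat_lit 274) (nat_lit 125)))) (XT.nd (nat_lit 156) (nat_lit 76) (nat_lit 0) (XT.nd (nat_lit 78) (nat_lit 0) (nat_lit 0) (XT.lf (nat_lit 0) (nat_lit 25257742004) (nat_lit 228) (nat_lit 18477117291)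 (nat_lit 76) (nat_lit 11054473003) (nat_lit 18) (nat_lit 5) (nat_lit 21) (nat_lit 5) (nat_lit 19) (nat_lit 4) (nat_lit 382) (nat_lit 274) (nat_lit 124)) (XT.lf (nat_lit 0) (nat_lit 32032801856) (nat_lit 228) (nat_lit 4748148167) (nat_lit 76) (nat_lit 19405701575) (nat_lit 18) (nat_lit 5) (nat_lit 21) (nat_lit 5) (nat_lit 19) (nat_lit 4) (nat_lit 383) (nat_lit 274) (nat_lit 123))) (XT.nd (nat_lit 78) (nat_lit 0) (nat_lit 0) (XT.lf (nat_lit 0) (nat_lit 9569938325) (nat_lit 76) (nat_lit 29527778860) (nat_lit 152) (nat_lit 18525577953) (nat_lit 17) (nat_lit 5) (nat_lit 18) (nat_lit 5) (nat_lit 19) (nat_lit 4) (nat_lit 384) (nat_lit 274) (nat_lit 122)) (XT.lf (nat_lit 0) (nat_lit 24405497222) (nat_lit 76) (nat_lit 22011707883) (nat_lit 152) (nat_lit 12684556816) (nat_lit 17) (nat_lit 5) (nat_lit 18) (nat_lit 5) (nat_lit 19) (nat_lit 4) (nat_lit 385) (nat_lit 274) (nat_lit 121))))))))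
noncomputable def xc145 : XT := (XT.nd (nat_lit 32604) (nat_lit 0) (nat_lit 8740) (XT.nd (nat_lit 1014) (nat_lit 76) (nat_lit 0) (XT.nd (nat_lit 468) (nat_lit 228) (nat_lit 0) (XT.nd (nat_lit 234) (nat_lit 0) (nat_lit 0) (XT.nd (nat_lit 78) (nat_lit 228) (nat_lit 0) (XT.lf (nat_lit 0) (nat_lit 39676994172) (nat_lit 76) (nat_lit 14274116638) (nat_lit 152) (nat_lit 6673629514) (nat_lit 17) (nat_lit 5) (nat_lit 18) (nat_lit 5) (nat_lit 19) (nat_lit 4) (nat_lit 386) (nat_lit 274) (nat_lit 120)) (XT.nd (nat_lit 78) (nat_lit 228) (nat_lit 0) (XT.lf (nat_lit 0) (nat_lit 55397773202) (nat_lit 76) (nat_lit 6308244122) (nat_lit 152) (nat_lit 487543781) (nat_lit 17) (nat_lit 5) (nat_lit 18) (nat_lit 5) (nat_lit 19) (nat_lit 4) (nat_lit 387) (nat_lit 274) (nat_lit 119)) (XT.lf (nat_lit 0) (nat_lit 5859528854) (nat_lit 228) (nat_lit 55956119214) (nat_lit 76) (nat_lit 1989397235) (nat_lit 14) (nat_lit 5)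 (nat_lit 17) (nat_lit 5) (nat_lit 15) (nat_lit 4) (nat_lit 388) (nat_lit 274) (nat_lit 118)))) (XT.nd (nat_lit 78) (nat_lit 0) (nat_lit 0) (XT.lf (nat_lit 0) (nat_lit 12514079409) (nat_lit 228) (nat_lit 42467222952) (nat_lit 76) (nat_lit 10479623225) (nat_lit 14) (nat_lit 5) (nat_lit 17) (nat_lit 5) (nat_lit 15) (nat_lit 4) (nat_lit 389) (nat_lit 274) (nat_lit 117)) (XT.nd (nat_lit 78) (nat_lit 0) (nat_lit 0) (XT.lf (nat_lit 0) (nat_lit 19363512544) (nat_lit 228) (nat_lit 28582137148) (nat_lit 76) (nat_lit 19220977455) (nat_lit 14) (nat_lit 5) (nat_lit 17) (nat_lit 5) (nat_lit 15) (nat_lit 4) (nat_lit 390) (nat_lit 274) (nat_lit 116)) (XT.lf (nat_lit 0) (nat_lit 26413813201) (nat_lit 228) (nat_lit 14288729204) (nat_lit 76) (nat_lit 28221098002) (nat_lit 14) (nat_lit 5) (nat_lit 17) (nat_lit 5) (nat_lit 15) (nat_lit 4) (nat_lit 391) (nat_lit 274) (nat_lit 115))))) (XT.nd (nat_lit 234) (nat_lit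 152) (nat_lit 0) (XT.nd (nat_lit 78) (nat_lit 0) (nat_lit 0) (XT.lf (nat_lit 0) (nat_lit 433958356) (nat_lit 76) (nat_lit 33241354953) (nat_lit 152) (nat_lit 37058062166) (nat_lit 13) (nat_lit 5) (nat_lit 14) (nat_lit 5) (nat_lit 15) (nat_lit 4) (nat_lit 392) (nat_lit 274) (nat_lit 114)) (XT.nd (nat_lit 78) (nat_lit 0) (nat_lit 0) (XT.lf (nat_lit 0) (nat_lit 15883319113) (nat_lit 76) (nat_lit 25411200872) (nat_lit 152) (nat_lit 31298688825) (nat_lit 13) (nat_lit 5) (nat_lit 14) (nat_lit 5) (nat_lit 15) (nat_lit 4) (nat_lit 393) (nat_lit 274) (nat_lit 113)) (XT.lf (nat_lit 0) (nat_lit 31788478778) (nat_lit 76) (nat_lit 17349526429) (nat_lit 152) (nat_lit 25370962870) (nat_lit 13) (nat_lit 5) (nat_lit 14) (nat_lit 5) (nat_lit 15) (nat_lit 4) (nat_lit 394) (nat_lit 274) (nat_lit 112)))) (XT.nd (nat_lit 156) (nat_lit 152) (nat_lit 0) (XT.nd (nat_lit 78) (nat_lit 0) (nat_lit 0) (XT.lf (nat_lit 0)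 (nat_lit 48163335064) (nat_lit 76) (nat_lit 9049287442) (nat_lit 152) (nat_lit 19269704734) (nat_lit 13) (nat_lit 5) (nat_lit 14) (nat_lit 5) (nat_lit 15) (nat_lit 4) (nat_lit 395) (nat_lit 274) (nat_lit 111)) (XT.lf (nat_lit 0) (nat_lit 65022196097) (nat_lit 76) (nat_lit 503231275) (nat_lit 152) (nat_lit 12989583220) (nat_lit 13) (nat_lit 5) (nat_lit 14) (nat_lit 5) (nat_lit 15) (nat_lit 4) (nat_lit 396) (nat_lit 274) (nat_lit 110))) (XT.nd (nat_lit 78) (nat_lit 76) (nat_lit 0) (XT.lf (nat_lit 0) (nat_lit 1724910592) (nat_lit 76) (nat_lit 72455101006) (nat_lit 76) (nat_lit 6425892824) (nat_lit 12) (nat_lit 4) (nat_lit 13) (nat_lit 5) (nat_lit 13) (nat_lit 4) (nat_lit 397) (nat_lit 274) (nat_lit 109)) (XT.lf (nat_lit 0) (nat_lit 466803804) (nat_lit 152) (nat_lit 65096360297) (nat_lit 76) (nat_lit 17192107362) (nat_lit 11) (nat_lit 5) (nat_lit 13) (nat_lit 5) (nat_lit 12) (nat_lit 4) (nat_lit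 398) (nat_lit 274) (nat_lit 108)))))) (XT.nd (nat_lit 31044) (nat_lit 0) (nat_lit 16872) (XT.nd (nat_lit 234) (nat_lit 76) (nat_lit 0) (XT.nd (nat_lit 78) (nat_lit 0) (nat_lit 0) (XT.lf (nat_lit 0) (nat_lit 7433286867) (nat_lit 152) (nat_lit 50968733503) (nat_lit 76) (nat_lit 26565307352) (nat_lit 11) (nat_lit 5) (nat_lit 13) (nat_lit 5) (nat_lit 12) (nat_lit 4) (nat_lit 399) (nat_lit 274) (nat_lit 107)) (XT.nd (nat_lit 78) (nat_lit 0) (nat_lit 0) (XT.lf (nat_lit 0) (nat_lit 14605035896) (nat_lit 152) (nat_lit 36423999308) (nat_lit 76) (nat_lit 36216823948) (nat_lit 11) (nat_lit 5) (nat_lit 13) (nat_lit 5) (nat_lit 12) (nat_lit 4) (nat_lit 400) (nat_lit 274) (nat_lit 106)) (XT.lf (nat_lit 0) (nat_lit 21988317469) (nat_lit 152) (nat_lit 21449448719) (nat_lit 76) (nat_lit 46155090515) (nat_lit 11) (nat_lit 5) (nat_lit 13) (nat_lit 5) (nat_lit 12) (nat_lit 4) (nat_lit 401) (nat_lit 274) (nat_lit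 105)))) (XT.nd (nat_lit 78) (nat_lit 76) (nat_lit 0) (XT.lf (nat_lit 0) (nat_lit 29589582996) (nat_lit 152) (nat_lit 6031997180) (nat_lit 76) (nat_lit 56388790974) (nat_lit 11) (nat_lit 5) (nat_lit 13) (nat_lit 5) (nat_lit 12) (nat_lit 4) (nat_lit 402) (nat_lit 274) (nat_lit 104)) (XT.nd (nat_lit 30654) (nat_lit 0) (nat_lit 17632) (XT.lf (nat_lit 0) (nat_lit 10037698523) (nat_lit 76) (nat_lit 27474264334) (nat_lit 152) (nat_lit 56985657370) (nat_lit 10) (nat_lit 5) (nat_lit 11) (nat_lit 5) (nat_lit 12) (nat_lit 4) (nat_lit 403) (nat_lit 274) (nat_lit 103)) (XT.lf (nat_lit 0) (nat_lit 1660784267) (nat_lit 836) (nat_lit 1025413963) (nat_lit 836) (nat_lit 1025413963) (nat_lit 242) (nat_lit 3) (nat_lit 253) (nat_lit 3) (nat_lit 253) (nat_lit 5) (nat_lit 275) (nat_lit 275) (nat_lit 230))))) (XT.nd (nat_lit 234) (nat_lit 0) (nat_lit 0) (XT.nd (nat_lit 78) (nat_lit 760) (nat_lit 0) (XT.lf (nat_lit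 76) (nat_lit 1307602142) (nat_lit 0) (nat_lit 3465076638) (nat_lit 836) (nat_lit 2717162491) (nat_lit 243) (nat_lit 5) (nat_lit 242) (nat_lit 3) (nat_lit 253) (nat_lit 5) (nat_lit 276) (nat_lit 275) (nat_lit 229)) (XT.nd (nat_lit 78) (nat_lit 760) (nat_lit 0) (XT.lf (nat_lit 76) (nat_lit 4780304141) (nat_lit 0) (nat_lit 1453255622) (nat_lit 836) (nat_lit 1326014869) (nat_lit 243) (nat_lit 5) (nat_lit 242) (nat_lit 3) (nat_lit 253) (nat_lit 5) (nat_lit 277) (nat_lit 275) (nat_lit 228)) (XT.lf (nat_lit 0) (nat_lit 64359566) (nat_lit 836) (nat_lit 6929377397) (nat_lit 912) (nat_lit 638943945) (nat_lit 232) (nat_lit 5) (nat_lit 243) (nat_lit 5) (nat_lit 244) (nat_lit 5) (nat_lit 278) (nat_lit 275) (nat_lit 227)))) (XT.nd (nat_lit 156) (nat_lit 0) (nat_lit 0) (XT.nd (nat_lit 78) (nat_lit 0) (nat_lit 0) (XT.lf (nat_lit 0) (nat_lit 1460527607) (nat_lit 836) (nat_lit 3418068410) (nat_lit 912) (nat_lit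 2829364648) (nat_lit 232) (nat_lit 5) (nat_lit 243) (nat_lit 5) (nat_lit 244) (nat_lit 5) (nat_lit 279) (nat_lit 275) (nat_lit 226)) (XT.lf (nat_lit 76) (nat_lit 172368971) (nat_lit 0) (nat_lit 2677385364) (nat_lit 912) (nat_lit 4937302644) (nat_lit 233) (nat_lit 5) (nat_lit 232) (nat_lit 5) (nat_lit 244) (nat_lit 5) (nat_lit 280) (nat_lit 275) (nat_lit 225))) (XT.nd (nat_lit 78) (nat_lit 0) (nat_lit 76) (XT.lf (nat_lit 76) (nat_lit 3911302055) (nat_lit 0) (nat_lit 354577217) (nat_lit 912) (nat_lit 3603180927) (nat_lit 233) (nat_lit 5) (nat_lit 232) (nat_lit 5) (nat_lit 244) (nat_lit 5) (nat_lit 281) (nat_lit 275) (nat_lit 224)) (XT.lf (nat_lit 0) (nat_lit 5696405765) (nat_lit 836) (nat_lit 240852114) (nat_lit 912) (nat_lit 2017196116) (nat_lit 233) (nat_lit 5) (nat_lit 244) (nat_lit 5) (nat_lit 245) (nat_lit 5) (nat_lit 282) (nat_lit 275) (nat_lit 223))))))) (XT.nd (nat_lit 1014) (nat_lit 4484)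 (nat_lit 0) (XT.nd (nat_lit 468) (nat_lit 2812) (nat_lit 0) (XT.nd (nat_lit 234) (nat_lit 0) (nat_lit 76) (XT.nd (nat_lit 78) (nat_lit 912) (nat_lit 0) (XT.lf (nat_lit 76) (nat_lit 3625533527) (nat_lit 0) (nat_lit 3536392659) (nat_lit 912) (nat_lit 880806530) (nat_lit 234) (nat_lit 5) (nat_lit 233) (nat_lit 5) (nat_lit 245) (nat_lit 5) (nat_lit 283) (nat_lit 275) (nat_lit 222)) (XT.nd (nat_lit 78) (nat_lit 0) (nat_lit 76) (XT.lf (nat_lit 0) (nat_lit 483972279) (nat_lit 912) (nat_lit 555900285) (nat_lit 988) (nat_lit 7095011303) (nat_lit 221) (nat_lit 5) (nat_lit 233) (nat_lit 5) (nat_lit 234) (nat_lit 5) (nat_lit 284) (nat_lit 275) (nat_lit 221)) (XT.lf (nat_lit 0) (nat_lit 1876035475) (nat_lit 912) (nat_lit 4794479270) (nat_lit 988) (nat_lit 1558980053) (nat_lit 222) (nat_lit 5) (nat_lit 234) (nat_lit 5) (nat_lit 235) (nat_lit 5) (nat_lit 285) (nat_lit 275) (nat_lit 220)))) (XT.nd (nat_lit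 78) (nat_lit 0) (nat_lit 0) (XT.lf (nat_lit 0) (nat_lit 3282571623) (nat_lit 912) (nat_lit 810400735) (nat_lit 988) (nat_lit 4234866289) (nat_lit 222) (nat_lit 5) (nat_lit 234) (nat_lit 5) (nat_lit 235) (nat_lit 5) (nat_lit 286) (nat_lit 275) (nat_lit 219)) (XT.nd (nat_lit 78) (nat_lit 0) (nat_lit 76) (XT.lf (nat_lit 76) (nat_lit 3328710665) (nat_lit 0) (nat_lit 1392596820) (nat_lit 988) (nat_lit 3708198932) (nat_lit 223) (nat_lit 5) (nat_lit 222) (nat_lit 5) (nat_lit 235) (nat_lit 5) (nat_lit 287) (nat_lit 275) (nat_lit 218)) (XT.lf (nat_lit 0) (nat_lit 6183883035) (nat_lit 912) (nat_lit 969375205) (nat_lit 988) (nat_lit 1381617215) (nat_lit 223) (nat_lit 5) (nat_lit 235) (nat_lit 5) (nat_lit 236) (nat_lit 5) (nat_lit 288) (nat_lit 275) (nat_lit 217))))) (XT.nd (nat_lit 234) (nat_lit 1976) (nat_lit 0) (XT.nd (nat_lit 78) (nat_lit 988) (nat_lit 0) (XT.lf (nat_lit 76) (nat_lit 3307049409) (nat_lit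 0) (nat_lit 4389119474) (nat_lit 988) (nat_lit 947131171) (nat_lit 224) (nat_lit 5) (nat_lit 223) (nat_lit 5) (nat_lit 236) (nat_lit 5) (nat_lit 289) (nat_lit 275) (nat_lit 216)) (XT.nd (nat_lit 78) (nat_lit 0) (nat_lit 76) (XT.lf (nat_lit 0) (nat_lit 459676990) (nat_lit 988) (nat_lit 1058177798) (nat_lit 1064) (nat_lit 7237927278) (nat_lit 210) (nat_lit 5) (nat_lit 223) (nat_lit 5) (nat_lit 224) (nat_lit 5) (nat_lit 290) (nat_lit 275) (nat_lit 215)) (XT.lf (nat_lit 0) (nat_lit 1898260639) (nat_lit 988) (nat_lit 5510563243) (nat_lit 76) (nat_lit 1462338687) (nat_lit 211) (nat_lit 5) (nat_lit 224) (nat_lit 5) (nat_lit 212) (nat_lit 5) (nat_lit 291) (nat_lit 275) (nat_lit 214)))) (XT.nd (nat_lit 156) (nat_lit 1064) (nat_lit 0) (XT.nd (nat_lit 78) (nat_lit 988) (nat_lit 0) (XT.lf (nat_lit 0) (nat_lit 3368558237) (nat_lit 988) (nat_lit 1101519463) (nat_lit 76) (nat_lit 4520331826) (nat_lit 211)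 (nat_lit 5) (nat_lit 224) (nat_lit 5) (nat_lit 212) (nat_lit 5) (nat_lit 292) (nat_lit 275) (nat_lit 213)) (XT.lf (nat_lit 0) (nat_lit 3478218834) (nat_lit 988) (nat_lit 1402002885) (nat_lit 1064) (nat_lit 4233154398) (nat_lit 198) (nat_lit 5) (nat_lit 211) (nat_lit 5) (nat_lit 212) (nat_lit 5) (nat_lit 293) (nat_lit 275) (nat_lit 212))) (XT.nd (nat_lit 78) (nat_lit 1064) (nat_lit 0) (XT.lf (nat_lit 0) (nat_lit 6430024115) (nat_lit 1064) (nat_lit 1069119852) (nat_lit 76) (nat_lit 1741162258) (nat_lit 198) (nat_lit 5) (nat_lit 212) (nat_lit 5) (nat_lit 199) (nat_lit 5) (nat_lit 294) (nat_lit 275) (nat_lit 211)) (XT.lf (nat_lit 0) (nat_lit 3662019398) (nat_lit 1064) (nat_lit 4379069040) (nat_lit 1140) (nat_lit 1329569256) (nat_lit 184) (nat_lit 5) (nat_lit 198) (nat_lit 5) (nat_lit 199) (nat_lit 5) (nat_lit 295) (nat_lit 275) (nat_lit 210)))))) (XT.nd (nat_lit 546) (nat_lit 2128) (nat_lit 0) (XT.nd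 (nat_lit 234) (nat_lit 1140) (nat_lit 0) (XT.nd (nat_lit 78) (nat_lit 1140) (nat_lit 0) (XT.lf (nat_lit 0) (nat_lit 168669449) (nat_lit 1140) (nat_lit 979471915) (nat_lit 76) (nat_lit 8357467578) (nat_lit 183) (nat_lit 5) (nat_lit 198) (nat_lit 5) (nat_lit 184) (nat_lit 5) (nat_lit 296) (nat_lit 275) (nat_lit 209)) (XT.nd (nat_lit 78) (nat_lit 0) (nat_lit 0) (XT.lf (nat_lit 0) (nat_lit 1711373658) (nat_lit 1216) (nat_lit 5739629612) (nat_lit 76) (nat_lit 2192474996) (nat_lit 168) (nat_lit 5) (nat_lit 184) (nat_lit 5) (nat_lit 169) (nat_lit 5) (nat_lit 297) (nat_lit 275) (nat_lit 208)) (XT.lf (nat_lit 0) (nat_lit 3289441840) (nat_lit 1216) (nat_lit 872701901) (nat_lit 76) (nat_lit 5623717636) (nat_lit 168) (nat_lit 5) (nat_lit 184) (nat_lit 5) (nat_lit 169) (nat_lit 5) (nat_lit 298) (nat_lit 275) (nat_lit 207)))) (XT.nd (nat_lit 156) (nat_lit 608) (nat_lit 0) (XT.nd (nat_lit 78) (nat_lit 0) (nat_lit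 0) (XT.lf (nat_lit 0) (nat_lit 4193128184) (nat_lit 532) (nat_lit 730697240) (nat_lit 608) (nat_lit 5008470089) (nat_lit 161) (nat_lit 5) (nat_lit 168) (nat_lit 5) (nat_lit 169) (nat_lit 5) (nat_lit 299) (nat_lit 275) (nat_lit 206)) (XT.lf (nat_lit 0) (nat_lit 6612414597) (nat_lit 608) (nat_lit 710706452) (nat_lit 76) (nat_lit 2759893716) (nat_lit 161) (nat_lit 5) (nat_lit 169) (nat_lit 5) (nat_lit 162) (nat_lit 5) (nat_lit 300) (nat_lit 275) (nat_lit 205))) (XT.nd (nat_lit 78) (nat_lit 0) (nat_lit 0) (XT.lf (nat_lit 0) (nat_lit 4520821428) (nat_lit 608) (nat_lit 3851748475) (nat_lit 684) (nat_lit 1865104373) (nat_lit 153) (nat_lit 5) (nat_lit 161) (nat_lit 5) (nat_lit 162) (nat_lit 5) (nat_lit 301) (nat_lit 275) (nat_lit 204)) (XT.lf (nat_lit 0) (nat_lit 9895376279) (nat_lit 608) (nat_lit 268140888) (nat_lit 684) (nat_lit 234161381) (nat_lit 153) (nat_lit 5) (nat_lit 161) (nat_lit 5) (nat_lit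 162) (nat_lit 5) (nat_lit 302) (nat_lit 275) (nat_lit 203))))) (XT.nd (nat_lit 234) (nat_lit 988) (nat_lit 0) (XT.nd (nat_lit 78) (nat_lit 532) (nat_lit 0) (XT.lf (nat_lit 0) (nat_lit 1469668980) (nat_lit 608) (nat_lit 5672487426) (nat_lit 76) (nat_lit 3418386568) (nat_lit 145) (nat_lit 5) (nat_lit 153) (nat_lit 5) (nat_lit 146) (nat_lit 5) (nat_lit 303) (nat_lit 275) (nat_lit 202)) (XT.nd (nat_lit 78) (nat_lit 532) (nat_lit 0) (XT.lf (nat_lit 0) (nat_lit 3199589617) (nat_lit 608) (nat_lit 311621796) (nat_lit 76) (nat_lit 7217662725) (nat_lit 145) (nat_lit 5) (nat_lit 153) (nat_lit 5) (nat_lit 146) (nat_lit 5) (nat_lit 304) (nat_lit 275) (nat_lit 201)) (XT.lf (nat_lit 0) (nat_lit 5007628610) (nat_lit 608) (nat_lit 5619117204) (nat_lit 76) (nat_lit 274762423) (nat_lit 138) (nat_lit 5) (nat_lit 146) (nat_lit 5) (nat_lit 139) (nat_lit 5) (nat_lit 305) (nat_lit 275) (nat_lit 200)))) (XT.nd (nat_lit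 156) (nat_lit 532) (nat_lit 0) (XT.nd (nat_lit 78) (nat_lit 456) (nat_lit 0) (XT.lf (nat_lit 0) (nat_lit 6881091800) (nat_lit 608) (nat_lit 92003575) (nat_lit 76) (nat_lit 4105928965) (nat_lit 138) (nat_lit 5) (nat_lit 146) (nat_lit 5) (nat_lit 139) (nat_lit 5) (nat_lit 306) (nat_lit 275) (nat_lit 199)) (XT.lf (nat_lit 0) (nat_lit 5684079966) (nat_lit 456) (nat_lit 3155337802) (nat_lit 532) (nat_lit 2421625738) (nat_lit 132) (nat_lit 5) (nat_lit 138) (nat_lit 5) (nat_lit 139) (nat_lit 5) (nat_lit 307) (nat_lit 275) (nat_lit 198))) (XT.nd (nat_lit 78) (nat_lit 76) (nat_lit 0) (XT.lf (nat_lit 0) (nat_lit 154095980) (nat_lit 456) (nat_lit 10686778862) (nat_lit 532) (nat_lit 608153230) (nat_lit 126) (nat_lit 5) (nat_lit 132) (nat_lit 5) (nat_lit 133) (nat_lit 5) (nat_lit 308) (nat_lit 275) (nat_lit 197)) (XT.lf (nat_lit 0) (nat_lit 1297941390) (nat_lit 532) (nat_lit 5541991610) (nat_lit 76) (nat_lit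 4800506086) (nat_lit 125) (nat_lit 5) (nat_lit 132) (nat_lit 5) (nat_lit 126) (nat_lit 5) (nat_lit 309) (nat_lit 275) (nat_lit 196))))))))
noncomputable def xc146 : XT := (XT.nd (nat_lit 2028) (nat_lit 2204) (nat_lit 0) (XT.nd (nat_lit 1014) (nat_lit 1900) (nat_lit 0) (XT.nd (nat_lit 468) (nat_lit 1520) (nat_lit 0) (XT.nd (nat_lit 234) (nat_lit 456) (nat_lit 0) (XT.nd (nat_lit 78) (nat_lit 456) (nat_lit 0) (XT.lf (nat_lit 0) (nat_lit 356778072) (nat_lit 456) (nat_lit 2871069132) (nat_lit 532) (nat_lit 8610232221) (nat_lit 119) (nat_lit 5) (nat_lit 125) (nat_lit 5) (nat_lit 126) (nat_lit 5) (nat_lit 310) (nat_lit 275) (nat_lit 195)) (XT.nd (nat_lit 78) (nat_lit 456) (nat_lit 0) (XT.lf (nat_lit 0) (nat_lit 5259707268) (nat_lit 532) (nat_lit 5534257539) (nat_lit 76) (nat_lit 1246394674) (nat_lit 119) (nat_lit 5) (nat_lit 126) (nat_lit 5) (nat_lit 120) (nat_lit 5) (nat_lit 311) (nat_lit 275) (nat_lit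 194)) (XT.lf (nat_lit 0) (nat_lit 546095017) (nat_lit 456) (nat_lit 6816650083) (nat_lit 532) (nat_lit 4885687459) (nat_lit 113) (nat_lit 5) (nat_lit 119) (nat_lit 5) (nat_lit 120) (nat_lit 5) (nat_lit 312) (nat_lit 275) (nat_lit 193)))) (XT.nd (nat_lit 78) (nat_lit 456) (nat_lit 0) (XT.lf (nat_lit 0) (nat_lit 6895240542) (nat_lit 456) (nat_lit 2666487778) (nat_lit 532) (nat_lit 2900064250) (nat_lit 113) (nat_lit 5) (nat_lit 119) (nat_lit 5) (nat_lit 120) (nat_lit 5) (nat_lit 313) (nat_lit 275) (nat_lit 192)) (XT.nd (nat_lit 78) (nat_lit 76) (nat_lit 0) (XT.lf (nat_lit 0) (nat_lit 725057919) (nat_lit 380) (nat_lit 11101653884) (nat_lit 456) (nat_lit 854870140) (nat_lit 108) (nat_lit 5) (nat_lit 113) (nat_lit 5) (nat_lit 114) (nat_lit 5) (nat_lit 314) (nat_lit 275) (nat_lit 191)) (XT.lf (nat_lit 0) (nat_lit 1288175992) (nat_lit 456) (nat_lit 5652888239) (nat_lit 76) (nat_lit 5964739969) (nat_lit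 107) (nat_lit 5) (nat_lit 113) (nat_lit 5) (nat_lit 108) (nat_lit 5) (nat_lit 315) (nat_lit 275) (nat_lit 190))))) (XT.nd (nat_lit 234) (nat_lit 760) (nat_lit 0) (XT.nd (nat_lit 78) (nat_lit 380) (nat_lit 0) (XT.lf (nat_lit 0) (nat_lit 821059752) (nat_lit 380) (nat_lit 2643564536) (nat_lit 456) (nat_lit 9672313114) (nat_lit 102) (nat_lit 5) (nat_lit 107) (nat_lit 5) (nat_lit 108) (nat_lit 5) (nat_lit 316) (nat_lit 275) (nat_lit 189)) (XT.nd (nat_lit 78) (nat_lit 380) (nat_lit 0) (XT.lf (nat_lit 0) (nat_lit 5759883942) (nat_lit 456) (nat_lit 5812602615) (nat_lit 76) (nat_lit 1800938700) (nat_lit 102) (nat_lit 5) (nat_lit 108) (nat_lit 5) (nat_lit 103) (nat_lit 5) (nat_lit 317) (nat_lit 275) (nat_lit 188)) (XT.lf (nat_lit 0) (nat_lit 850254070) (nat_lit 380) (nat_lit 7287445548) (nat_lit 456) (nat_lit 5478922618) (nat_lit 97) (nat_lit 5) (nat_lit 102) (nat_lit 5) (nat_lit 103) (nat_lit 5) (nat_lit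 318) (nat_lit 275) (nat_lit 187)))) (XT.nd (nat_lit 156) (nat_lit 380) (nat_lit 0) (XT.nd (nat_lit 78) (nat_lit 380) (nat_lit 0) (XT.lf (nat_lit 0) (nat_lit 7806469157) (nat_lit 380) (nat_lit 2818782232) (nat_lit 456) (nat_lit 3240736377) (nat_lit 97) (nat_lit 5) (nat_lit 102) (nat_lit 5) (nat_lit 103) (nat_lit 5) (nat_lit 319) (nat_lit 275) (nat_lit 186)) (XT.lf (nat_lit 0) (nat_lit 821930116) (nat_lit 380) (nat_lit 12370795391) (nat_lit 456) (nat_lit 929973854) (nat_lit 92) (nat_lit 5) (nat_lit 97) (nat_lit 5) (nat_lit 98) (nat_lit 5) (nat_lit 320) (nat_lit 275) (nat_lit 185))) (XT.nd (nat_lit 78) (nat_lit 304) (nat_lit 0) (XT.lf (nat_lit 0) (nat_lit 1491882587) (nat_lit 456) (nat_lit 6419354282) (nat_lit 76) (nat_lit 6473377813) (nat_lit 91) (nat_lit 5) (nat_lit 97) (nat_lit 5) (nat_lit 92) (nat_lit 5) (nat_lit 321) (nat_lit 275) (nat_lit 184)) (XT.lf (nat_lit 0) (nat_lit 647008088) (nat_lit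 304) (nat_lit 3307850553) (nat_lit 380) (nat_lit 10699659867) (nat_lit 87) (nat_lit 5) (nat_lit 91) (nat_lit 5) (nat_lit 92) (nat_lit 5) (nat_lit 322) (nat_lit 275) (nat_lit 183)))))) (XT.nd (nat_lit 468) (nat_lit 1140) (nat_lit 0) (XT.nd (nat_lit 234) (nat_lit 380) (nat_lit 0) (XT.nd (nat_lit 78) (nat_lit 380) (nat_lit 0) (XT.lf (nat_lit 0) (nat_lit 6552166914) (nat_lit 380) (nat_lit 6913241107) (nat_lit 76) (nat_lit 1465319439) (nat_lit 87) (nat_lit 5) (nat_lit 92) (nat_lit 5) (nat_lit 88) (nat_lit 5) (nat_lit 323) (nat_lit 275) (nat_lit 182)) (XT.nd (nat_lit 78) (nat_lit 0) (nat_lit 0) (XT.lf (nat_lit 0) (nat_lit 343343671) (nat_lit 380) (nat_lit 8901847075) (nat_lit 456) (nat_lit 5969518725) (nat_lit 82) (nat_lit 5) (nat_lit 87) (nat_lit 5) (nat_lit 88) (nat_lit 5) (nat_lit 324) (nat_lit 275) (nat_lit 181)) (XT.lf (nat_lit 0) (nat_lit 7935118987) (nat_lit 380) (nat_lit 4135740243) (nat_lit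 456) (nat_lit 3434816171) (nat_lit 82) (nat_lit 5) (nat_lit 87) (nat_lit 5) (nat_lit 88) (nat_lit 5) (nat_lit 325) (nat_lit 275) (nat_lit 180)))) (XT.nd (nat_lit 78) (nat_lit 380) (nat_lit 0) (XT.lf (nat_lit 0) (nat_lit 14971239961) (nat_lit 456) (nat_lit 82156861) (nat_lit 76) (nat_lit 752294714) (nat_lit 82) (nat_lit 5) (nat_lit 88) (nat_lit 5) (nat_lit 83) (nat_lit 5) (nat_lit 326) (nat_lit 275) (nat_lit 179)) (XT.nd (nat_lit 78) (nat_lit 0) (nat_lit 0) (XT.lf (nat_lit 0) (nat_lit 1907044042) (nat_lit 380) (nat_lit 8413242464) (nat_lit 76) (nat_lit 5790935222) (nat_lit 77) (nat_lit 5) (nat_lit 82) (nat_lit 5) (nat_lit 78) (nat_lit 5) (nat_lit 327) (nat_lit 275) (nat_lit 178)) (XT.lf (nat_lit 0) (nat_lit 4697957850) (nat_lit 380) (nat_lit 744386204) (nat_lit 76) (nat_lit 10983825407) (nat_lit 77) (nat_lit 5) (nat_lit 82) (nat_lit 5) (nat_lit 78) (nat_lit 5) (nat_lit 328) (nat_lit 275) (nat_lit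 177))))) (XT.nd (nat_lit 234) (nat_lit 608) (nat_lit 0) (XT.nd (nat_lit 78) (nat_lit 228) (nat_lit 0) (XT.lf (nat_lit 0) (nat_lit 7273727943) (nat_lit 304) (nat_lit 352389809) (nat_lit 380) (nat_lit 9122859630) (nat_lit 73) (nat_lit 5) (nat_lit 77) (nat_lit 5) (nat_lit 78) (nat_lit 5) (nat_lit 329) (nat_lit 275) (nat_lit 176)) (XT.nd (nat_lit 78) (nat_lit 228) (nat_lit 0) (XT.lf (nat_lit 0) (nat_lit 10680520935) (nat_lit 380) (nat_lit 1603643062) (nat_lit 76) (nat_lit 4796170404) (nat_lit 73) (nat_lit 5) (nat_lit 78) (nat_lit 5) (nat_lit 74) (nat_lit 5) (nat_lit 330) (nat_lit 275) (nat_lit 175)) (XT.lf (nat_lit 0) (nat_lit 6607261636) (nat_lit 228) (nat_lit 7270567516) (nat_lit 304) (nat_lit 3542281116) (nat_lit 70) (nat_lit 5) (nat_lit 73) (nat_lit 5) (nat_lit 74) (nat_lit 5) (nat_lit 331) (nat_lit 275) (nat_lit 174)))) (XT.nd (nat_lit 156) (nat_lit 228) (nat_lit 0) (XT.nd (nat_lit 78) (nat_lit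 380) (nat_lit 0) (XT.lf (nat_lit 0) (nat_lit 15075292805) (nat_lit 228) (nat_lit 2096474294) (nat_lit 304) (nat_lit 598306845) (nat_lit 70) (nat_lit 5) (nat_lit 73) (nat_lit 5) (nat_lit 74) (nat_lit 5) (nat_lit 332) (nat_lit 275) (nat_lit 173)) (XT.lf (nat_lit 0) (nat_lit 2458199636) (nat_lit 380) (nat_lit 12426876722) (nat_lit 76) (nat_lit 3242621938) (nat_lit 65) (nat_lit 5) (nat_lit 70) (nat_lit 5) (nat_lit 66) (nat_lit 5) (nat_lit 333) (nat_lit 275) (nat_lit 172))) (XT.nd (nat_lit 78) (nat_lit 228) (nat_lit 0) (XT.lf (nat_lit 0) (nat_lit 5627590819) (nat_lit 380) (nat_lit 4140587835) (nat_lit 76) (nat_lit 8726713067) (nat_lit 65) (nat_lit 5) (nat_lit 70) (nat_lit 5) (nat_lit 66) (nat_lit 5) (nat_lit 334) (nat_lit 275) (nat_lit 171)) (XT.lf (nat_lit 0) (nat_lit 4460024617) (nat_lit 228) (nat_lit 4460325468) (nat_lit 304) (nat_lit 9951916356) (nat_lit 62) (nat_lit 5) (nat_lit 65) (nat_lit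 5) (nat_lit 66) (nat_lit 5) (nat_lit 335) (nat_lit 275) (nat_lit 170))))))) (XT.nd (nat_lit 1014) (nat_lit 988) (nat_lit 0) (XT.nd (nat_lit 468) (nat_lit 684) (nat_lit 0) (XT.nd (nat_lit 234) (nat_lit 304) (nat_lit 0) (XT.nd (nat_lit 78) (nat_lit 228) (nat_lit 0) (XT.lf (nat_lit 0) (nat_lit 12349366916) (nat_lit 304) (nat_lit 5887733635) (nat_lit 76) (nat_lit 1022751278) (nat_lit 62) (nat_lit 5) (nat_lit 66) (nat_lit 5) (nat_lit 63) (nat_lit 5) (nat_lit 336) (nat_lit 275) (nat_lit 169)) (XT.nd (nat_lit 78) (nat_lit 0) (nat_lit 0) (XT.lf (nat_lit 0) (nat_lit 2883778919) (nat_lit 228) (nat_lit 13055349235) (nat_lit 304) (nat_lit 3718213682) (nat_lit 59) (nat_lit 5) (nat_lit 62) (nat_lit 5) (nat_lit 63) (nat_lit 5) (nat_lit 337) (nat_lit 275) (nat_lit 168)) (XT.lf (nat_lit 0) (nat_lit 12018491798) (nat_lit 228) (nat_lit 7663746242) (nat_lit 304) (nat_lit 383161715) (nat_lit 59) (nat_lit 5) (nat_lit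 62) (nat_lit 5) (nat_lit 63) (nat_lit 5) (nat_lit 338) (nat_lit 275) (nat_lit 167)))) (XT.nd (nat_lit 78) (nat_lit 0) (nat_lit 0) (XT.lf (nat_lit 0) (nat_lit 909641527) (nat_lit 228) (nat_lit 2077948177) (nat_lit 304) (nat_lit 17497385674) (nat_lit 55) (nat_lit 5) (nat_lit 58) (nat_lit 5) (nat_lit 59) (nat_lit 5) (nat_lit 339) (nat_lit 275) (nat_lit 166)) (XT.nd (nat_lit 78) (nat_lit 0) (nat_lit 0) (XT.lf (nat_lit 0) (nat_lit 6555749550) (nat_lit 304) (nat_lit 10675253974) (nat_lit 76) (nat_lit 3682913115) (nat_lit 55) (nat_lit 5) (nat_lit 59) (nat_lit 5) (nat_lit 56) (nat_lit 5) (nat_lit 340) (nat_lit 275) (nat_lit 165)) (XT.lf (nat_lit 0) (nat_lit 10238512503) (nat_lit 304) (nat_lit 1548615377) (nat_lit 76) (nat_lit 9568382958) (nat_lit 55) (nat_lit 5) (nat_lit 59) (nat_lit 5) (nat_lit 56) (nat_lit 5) (nat_lit 341) (nat_lit 275) (nat_lit 164))))) (XT.nd (nat_lit 234) (nat_lit 304) (nat_lit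 0) (XT.nd (nat_lit 78) (nat_lit 152) (nat_lit 0) (XT.lf (nat_lit 0) (nat_lit 7988413909) (nat_lit 228) (nat_lit 6107497615) (nat_lit 304) (nat_lit 7712527860) (nat_lit 52) (nat_lit 5) (nat_lit 55) (nat_lit 5) (nat_lit 56) (nat_lit 5) (nat_lit 342) (nat_lit 275) (nat_lit 163)) (XT.nd (nat_lit 78) (nat_lit 152) (nat_lit 0) (XT.lf (nat_lit 0) (nat_lit 17824197105) (nat_lit 228) (nat_lit 248021477) (nat_lit 304) (nat_lit 4202652415) (nat_lit 52) (nat_lit 5) (nat_lit 55) (nat_lit 5) (nat_lit 56) (nat_lit 5) (nat_lit 343) (nat_lit 275) (nat_lit 162)) (XT.lf (nat_lit 0) (nat_lit 5227273909) (nat_lit 152) (nat_lit 17034267878) (nat_lit 228) (nat_lit 490952442) (nat_lit 50) (nat_lit 5) (nat_lit 52) (nat_lit 5) (nat_lit 53) (nat_lit 5) (nat_lit 344) (nat_lit 275) (nat_lit 161)))) (XT.nd (nat_lit 156) (nat_lit 0) (nat_lit 0) (XT.nd (nat_lit 78) (nat_lit 228) (nat_lit 0) (XT.lf (nat_lit 0) (nat_lit 3302815583)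 (nat_lit 228) (nat_lit 8010156792) (nat_lit 76) (nat_lit 11929450606) (nat_lit 49) (nat_lit 5) (nat_lit 52) (nat_lit 5) (nat_lit 50) (nat_lit 5) (nat_lit 345) (nat_lit 275) (nat_lit 160)) (XT.lf (nat_lit 0) (nat_lit 1802295433) (nat_lit 228) (nat_lit 5403805487) (nat_lit 304) (nat_lit 16540645278) (nat_lit 46) (nat_lit 5) (nat_lit 49) (nat_lit 5) (nat_lit 50) (nat_lit 5) (nat_lit 346) (nat_lit 275) (nat_lit 159))) (XT.nd (nat_lit 78) (nat_lit 0) (nat_lit 0) (XT.lf (nat_lit 0) (nat_lit 11303085585) (nat_lit 304) (nat_lit 12216298522) (nat_lit 76) (nat_lit 744526291) (nat_lit 46) (nat_lit 5) (nat_lit 50) (nat_lit 5) (nat_lit 47) (nat_lit 5) (nat_lit 347) (nat_lit 275) (nat_lit 158)) (XT.lf (nat_lit 0) (nat_lit 15565173213) (nat_lit 304) (nat_lit 2267751168) (nat_lit 76) (nat_lit 6962408380) (nat_lit 46) (nat_lit 5) (nat_lit 50) (nat_lit 5) (nat_lit 47) (nat_lit 5) (nat_lit 348) (nat_lit 275) (nat_lit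 157)))))) (XT.nd (nat_lit 468) (nat_lit 380) (nat_lit 0) (XT.nd (nat_lit 234) (nat_lit 152) (nat_lit 0) (XT.nd (nat_lit 78) (nat_lit 304) (nat_lit 0) (XT.lf (nat_lit 0) (nat_lit 8120284892) (nat_lit 152) (nat_lit 11901915526) (nat_lit 228) (nat_lit 5318493843) (nat_lit 44) (nat_lit 5) (nat_lit 46) (nat_lit 5) (nat_lit 47) (nat_lit 5) (nat_lit 349) (nat_lit 275) (nat_lit 156)) (XT.nd (nat_lit 78) (nat_lit 304) (nat_lit 0) (XT.lf (nat_lit 0) (nat_lit 18849195811) (nat_lit 152) (nat_lit 5775816240) (nat_lit 228) (nat_lit 1277050866) (nat_lit 44) (nat_lit 5) (nat_lit 46) (nat_lit 5) (nat_lit 47) (nat_lit 5) (nat_lit 350) (nat_lit 275) (nat_lit 155)) (XT.lf (nat_lit 0) (nat_lit 2857466349) (nat_lit 304) (nat_lit 23042287488) (nat_lit 76) (nat_lit 578850468) (nat_lit 40) (nat_lit 5) (nat_lit 44) (nat_lit 5) (nat_lit 41) (nat_lit 5) (nat_lit 351) (nat_lit 275) (nat_lit 154)))) (XT.nd (nat_lit 78) (nat_lit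 152) (nat_lit 0) (XT.lf (nat_lit 0) (nat_lit 7208927174) (nat_lit 304) (nat_lit 12773152417) (nat_lit 76) (nat_lit 7086433553) (nat_lit 40) (nat_lit 5) (nat_lit 44) (nat_lit 5) (nat_lit 41) (nat_lit 5) (nat_lit 352) (nat_lit 275) (nat_lit 153)) (XT.nd (nat_lit 78) (nat_lit 152) (nat_lit 0) (XT.lf (nat_lit 0) (nat_lit 11680702671) (nat_lit 304) (nat_lit 2212510953) (nat_lit 76) (nat_lit 13783220069) (nat_lit 40) (nat_lit 5) (nat_lit 44) (nat_lit 5) (nat_lit 41) (nat_lit 5) (nat_lit 353) (nat_lit 275) (nat_lit 152)) (XT.lf (nat_lit 0) (nat_lit 8820994014) (nat_lit 152) (nat_lit 7540498993) (nat_lit 228) (nat_lit 11938860352) (nat_lit 38) (nat_lit 5) (nat_lit 40) (nat_lit 5) (nat_lit 41) (nat_lit 5) (nat_lit 354) (nat_lit 275) (nat_lit 151))))) (XT.nd (nat_lit 234) (nat_lit 152) (nat_lit 0) (XT.nd (nat_lit 78) (nat_lit 228) (nat_lit 0) (XT.lf (nat_lit 0) (nat_lit 20214931028) (nat_lit 152) (nat_lit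 980322986) (nat_lit 228) (nat_lit 7747367327) (nat_lit 38) (nat_lit 5) (nat_lit 40) (nat_lit 5) (nat_lit 41) (nat_lit 5) (nat_lit 355) (nat_lit 275) (nat_lit 150)) (XT.nd (nat_lit 78) (nat_lit 76) (nat_lit 0) (XT.lf (nat_lit 0) (nat_lit 2320584482) (nat_lit 152) (nat_lit 23921712020) (nat_lit 228) (nat_lit 3359819729) (nat_lit 36) (nat_lit 5) (nat_lit 38) (nat_lit 5) (nat_lit 39) (nat_lit 5) (nat_lit 356) (nat_lit 275) (nat_lit 149)) (XT.lf (nat_lit 0) (nat_lit 1225904635) (nat_lit 228) (nat_lit 16436999500) (nat_lit 76) (nat_lit 12615488823) (nat_lit 35) (nat_lit 5) (nat_lit 38) (nat_lit 5) (nat_lit 36) (nat_lit 5) (nat_lit 357) (nat_lit 275) (nat_lit 148)))) (XT.nd (nat_lit 156) (nat_lit 0) (nat_lit 0) (XT.nd (nat_lit 78) (nat_lit 152) (nat_lit 0) (XT.lf (nat_lit 0) (nat_lit 5872411670) (nat_lit 228) (nat_lit 5315679289) (nat_lit 76) (nat_lit 19786153202) (nat_lit 35) (nat_lit 5) (nat_lit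 38) (nat_lit 5) (nat_lit 36) (nat_lit 5) (nat_lit 358) (nat_lit 275) (nat_lit 147)) (XT.lf (nat_lit 0) (nat_lit 6246331613) (nat_lit 152) (nat_lit 4463035562) (nat_lit 228) (nat_lit 20980078282) (nat_lit 33) (nat_lit 5) (nat_lit 35) (nat_lit 5) (nat_lit 36) (nat_lit 5) (nat_lit 359) (nat_lit 275) (nat_lit 146))) (XT.nd (nat_lit 78) (nat_lit 0) (nat_lit 0) (XT.lf (nat_lit 0) (nat_lit 15760398386) (nat_lit 228) (nat_lit 14199446119) (nat_lit 76) (nat_lit 2464195252) (nat_lit 33) (nat_lit 5) (nat_lit 36) (nat_lit 5) (nat_lit 34) (nat_lit 5) (nat_lit 360) (nat_lit 275) (nat_lit 145)) (XT.lf (nat_lit 0) (nat_lit 20998483332) (nat_lit 228) (nat_lit 2677130597) (nat_lit 76) (nat_lit 9503998074) (nat_lit 33) (nat_lit 5) (nat_lit 36) (nat_lit 5) (nat_lit 34) (nat_lit 5) (nat_lit 361) (nat_lit 275) (nat_lit 144))))))))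
noncomputable def xc147 : XT := (XT.nd (nat_lit 2028) (nat_lit 456) (nat_lit 0) (XT.nd (nat_lit 1014) (nat_lit 380) (nat_lit 0) (XT.nd (nat_lit 468) (nat_lit 456) (nat_lit 0) (XT.nd (nat_lit 234) (nat_lit 152) (nat_lit 0) (XT.nd (nat_lit 78) (nat_lit 76) (nat_lit 0) (XT.lf (nat_lit 0) (nat_lit 9359438548) (nat_lit 152) (nat_lit 17115827654) (nat_lit 228) (nat_lit 7480144186) (nat_lit 31) (nat_lit 5) (nat_lit 33) (nat_lit 5) (nat_lit 34) (nat_lit 5) (nat_lit 362) (nat_lit 275) (nat_lit 143)) (XT.nd (nat_lit 78) (nat_lit 76) (nat_lit 0) (XT.lf (nat_lit 0) (nat_lit 21798068889) (nat_lit 152) (nat_lit 10337015457) (nat_lit 228) (nat_lit 2618841891) (nat_lit 31) (nat_lit 5) (nat_lit 33) (nat_lit 5) (nat_lit 34) (nat_lit 5) (nat_lit 363) (nat_lit 275) (nat_lit 142)) (XT.lf (nat_lit 0) (nat_lit 2333549961) (nat_lit 228) (nat_lit 1003173637) (nat_lit 76) (nat_lit 32239234742) (nat_lit 30) (nat_lit 5)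 (nat_lit 33) (nat_lit 5) (nat_lit 31) (nat_lit 5) (nat_lit 364) (nat_lit 275) (nat_lit 141)))) (XT.nd (nat_lit 78) (nat_lit 0) (nat_lit 0) (XT.lf (nat_lit 0) (nat_lit 7522982892) (nat_lit 228) (nat_lit 24964179289) (nat_lit 76) (nat_lit 3930483192) (nat_lit 28) (nat_lit 5) (nat_lit 31) (nat_lit 5) (nat_lit 29) (nat_lit 5) (nat_lit 365) (nat_lit 275) (nat_lit 140)) (XT.nd (nat_lit 78) (nat_lit 0) (nat_lit 0) (XT.lf (nat_lit 0) (nat_lit 12903510691) (nat_lit 228) (nat_lit 13026382712) (nat_lit 76) (nat_lit 11353632116) (nat_lit 28) (nat_lit 5) (nat_lit 31) (nat_lit 5) (nat_lit 29) (nat_lit 5) (nat_lit 366) (nat_lit 275) (nat_lit 139)) (XT.lf (nat_lit 0) (nat_lit 18437827749) (nat_lit 228) (nat_lit 743399332) (nat_lit 76) (nat_lit 18994388502) (nat_lit 28) (nat_lit 5) (nat_lit 31) (nat_lit 5) (nat_lit 29) (nat_lit 5) (nat_lit 367) (nat_lit 275) (nat_lit 138))))) (XT.nd (nat_lit 234) (nat_lit 304)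 (nat_lit 0) (XT.nd (nat_lit 78) (nat_lit 0) (nat_lit 0) (XT.lf (nat_lit 0) (nat_lit 12132247398) (nat_lit 152) (nat_lit 12115145062) (nat_lit 228) (nat_lit 14843803924) (nat_lit 26) (nat_lit 5) (nat_lit 28) (nat_lit 5) (nat_lit 29) (nat_lit 5) (nat_lit 368) (nat_lit 275) (nat_lit 137)) (XT.nd (nat_lit 78) (nat_lit 0) (nat_lit 0) (XT.lf (nat_lit 0) (nat_lit 25396955729) (nat_lit 152) (nat_lit 4834486836) (nat_lit 228) (nat_lit 9802800538) (nat_lit 26) (nat_lit 5) (nat_lit 28) (nat_lit 5) (nat_lit 29) (nat_lit 5) (nat_lit 369) (nat_lit 275) (nat_lit 136)) (XT.lf (nat_lit 0) (nat_lit 36413484342) (nat_lit 228) (nat_lit 1983843056) (nat_lit 76) (nat_lit 2607704037) (nat_lit 26) (nat_lit 5) (nat_lit 29) (nat_lit 5) (nat_lit 27) (nat_lit 4) (nat_lit 370) (nat_lit 275) (nat_lit 135)))) (XT.nd (nat_lit 156) (nat_lit 152) (nat_lit 0) (XT.nd (nat_lit 78) (nat_lit 0) (nat_lit 0) (XT.lf (nat_lit 0) (nat_lit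 911038798) (nat_lit 152) (nat_lit 30801265991) (nat_lit 76) (nat_lit 10287914756) (nat_lit 24) (nat_lit 5) (nat_lit 26) (nat_lit 5) (nat_lit 25) (nat_lit 5) (nat_lit 371) (nat_lit 275) (nat_lit 134)) (XT.lf (nat_lit 0) (nat_lit 6499729529) (nat_lit 152) (nat_lit 18264342189) (nat_lit 76) (nat_lit 18259432318) (nat_lit 24) (nat_lit 5) (nat_lit 26) (nat_lit 5) (nat_lit 25) (nat_lit 5) (nat_lit 372) (nat_lit 275) (nat_lit 133))) (XT.nd (nat_lit 78) (nat_lit 152) (nat_lit 0) (XT.lf (nat_lit 0) (nat_lit 12249364031) (nat_lit 152) (nat_lit 5362885017) (nat_lit 76) (nat_lit 26465443360) (nat_lit 24) (nat_lit 5) (nat_lit 26) (nat_lit 5) (nat_lit 25) (nat_lit 5) (nat_lit 373) (nat_lit 275) (nat_lit 132)) (XT.lf (nat_lit 0) (nat_lit 8071890296) (nat_lit 152) (nat_lit 10170667908) (nat_lit 228) (nat_lit 26918819831) (nat_lit 22) (nat_lit 5) (nat_lit 24) (nat_lit 5) (nat_lit 25) (nat_lit 5) (nat_lit 374)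 (nat_lit 275) (nat_lit 131)))))) (XT.nd (nat_lit 468) (nat_lit 228) (nat_lit 0) (XT.nd (nat_lit 234) (nat_lit 76) (nat_lit 0) (XT.nd (nat_lit 78) (nat_lit 76) (nat_lit 0) (XT.lf (nat_lit 0) (nat_lit 22008515698) (nat_lit 152) (nat_lit 2454748797) (nat_lit 228) (nat_lit 21812881863) (nat_lit 22) (nat_lit 5) (nat_lit 24) (nat_lit 5) (nat_lit 25) (nat_lit 5) (nat_lit 375) (nat_lit 275) (nat_lit 130)) (XT.nd (nat_lit 78) (nat_lit 76) (nat_lit 0) (XT.lf (nat_lit 0) (nat_lit 30917096102) (nat_lit 228) (nat_lit 11124866805) (nat_lit 76) (nat_lit 5381003208) (nat_lit 22) (nat_lit 5) (nat_lit 25) (nat_lit 5) (nat_lit 23) (nat_lit 4) (nat_lit 376) (nat_lit 275) (nat_lit 129)) (XT.lf (nat_lit 0) (nat_lit 2424556037) (nat_lit 76) (nat_lit 35181486152) (nat_lit 152) (nat_lit 10996906700) (nat_lit 21) (nat_lit 5) (nat_lit 22) (nat_lit 5) (nat_lit 23) (nat_lit 4) (nat_lit 377) (nat_lit 275) (nat_lit 128))))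 (XT.nd (nat_lit 78) (nat_lit 76) (nat_lit 0) (XT.lf (nat_lit 0) (nat_lit 16597983352) (nat_lit 76) (nat_lit 28003978224) (nat_lit 152) (nat_lit 5213183729) (nat_lit 21) (nat_lit 5) (nat_lit 22) (nat_lit 5) (nat_lit 23) (nat_lit 4) (nat_lit 378) (nat_lit 275) (nat_lit 127)) (XT.nd (nat_lit 78) (nat_lit 0) (nat_lit 0) (XT.lf (nat_lit 0) (nat_lit 723611996) (nat_lit 152) (nat_lit 19884587800) (nat_lit 76) (nat_lit 30455473963) (nat_lit 20) (nat_lit 5) (nat_lit 22) (nat_lit 5) (nat_lit 21) (nat_lit 5) (nat_lit 379) (nat_lit 275) (nat_lit 126)) (XT.lf (nat_lit 0) (nat_lit 6727984366) (nat_lit 152) (nat_lit 6213692293) (nat_lit 76) (nat_lit 39406608388) (nat_lit 20) (nat_lit 5) (nat_lit 22) (nat_lit 5) (nat_lit 21) (nat_lit 5) (nat_lit 380) (nat_lit 275) (nat_lit 125))))) (XT.nd (nat_lit 234) (nat_lit 76) (nat_lit 0) (XT.nd (nat_lit 78) (nat_lit 0) (nat_lit 0) (XT.lf (nat_lit 0) (nat_lit 8013963614)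 (nat_lit 152) (nat_lit 4969979415) (nat_lit 228) (nat_lit 40685350930) (nat_lit 18) (nat_lit 5) (nat_lit 20) (nat_lit 5) (nat_lit 21) (nat_lit 5) (nat_lit 381) (nat_lit 275) (nat_lit 124)) (XT.nd (nat_lit 78) (nat_lit 0) (nat_lit 0) (XT.lf (nat_lit 0) (nat_lit 19516550952) (nat_lit 228) (nat_lit 32273781956) (nat_lit 76) (nat_lit 3236933968) (nat_lit 18) (nat_lit 5) (nat_lit 21) (nat_lit 5) (nat_lit 19) (nat_lit 4) (nat_lit 382) (nat_lit 275) (nat_lit 123)) (XT.lf (nat_lit 0) (nat_lit 26288956410) (nat_lit 228) (nat_lit 18549490503) (nat_lit 76) (nat_lit 11586220261) (nat_lit 18) (nat_lit 5) (nat_lit 21) (nat_lit 5) (nat_lit 19) (nat_lit 4) (nat_lit 383) (nat_lit 275) (nat_lit 122)))) (XT.nd (nat_lit 156) (nat_lit 0) (nat_lit 0) (XT.nd (nat_lit 78) (nat_lit 76) (nat_lit 0) (XT.lf (nat_lit 0) (nat_lit 33259302558) (nat_lit 228) (nat_lit 4422689402) (nat_lit 76) (nat_lit 20182157154) (nat_lit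 18) (nat_lit 5) (nat_lit 21) (nat_lit 5) (nat_lit 19) (nat_lit 4) (nat_lit 384) (nat_lit 275) (nat_lit 121)) (XT.lf (nat_lit 0) (nat_lit 10320352400) (nat_lit 76) (nat_lit 30212533130) (nat_lit 152) (nat_lit 18811108802) (nat_lit 17) (nat_lit 5) (nat_lit 18) (nat_lit 5) (nat_lit 19) (nat_lit 4) (nat_lit 385) (nat_lit 275) (nat_lit 120))) (XT.nd (nat_lit 78) (nat_lit 0) (nat_lit 0) (XT.lf (nat_lit 0) (nat_lit 25587483425) (nat_lit 76) (nat_lit 22476836697) (nat_lit 152) (nat_lit 12802727996) (nat_lit 17) (nat_lit 5) (nat_lit 18) (nat_lit 5) (nat_lit 19) (nat_lit 4) (nat_lit 386) (nat_lit 275) (nat_lit 119)) (XT.lf (nat_lit 0) (nat_lit 41304023692) (nat_lit 76) (nat_lit 14512803804) (nat_lit 152) (nat_lit 6619114590) (nat_lit 17) (nat_lit 5) (nat_lit 18) (nat_lit 5) (nat_lit 19) (nat_lit 4) (nat_lit 387) (nat_lit 275) (nat_lit 118))))))) (XT.nd (nat_lit 1014) (nat_lit 0) (nat_lit 0) (XT.nd (nat_lit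 468) (nat_lit 152) (nat_lit 0) (XT.nd (nat_lit 234) (nat_lit 76) (nat_lit 0) (XT.nd (nat_lit 78) (nat_lit 228) (nat_lit 0) (XT.lf (nat_lit 0) (nat_lit 57483706102) (nat_lit 76) (nat_lit 6313475589) (nat_lit 152) (nat_lit 254865425) (nat_lit 17) (nat_lit 5) (nat_lit 18) (nat_lit 5) (nat_lit 19) (nat_lit 4) (nat_lit 388) (nat_lit 275) (nat_lit 117)) (XT.nd (nat_lit 78) (nat_lit 0) (nat_lit 0) (XT.lf (nat_lit 0) (nat_lit 6276594562) (nat_lit 228) (nat_lit 57204546141) (nat_lit 76) (nat_lit 2230703220) (nat_lit 14) (nat_lit 5) (nat_lit 17) (nat_lit 5) (nat_lit 15) (nat_lit 4) (nat_lit 389) (nat_lit 275) (nat_lit 116)) (XT.lf (nat_lit 0) (nat_lit 13123754066) (nat_lit 228) (nat_lit 43323514738) (nat_lit 76) (nat_lit 10970345967) (nat_lit 14) (nat_lit 5) (nat_lit 17) (nat_lit 5) (nat_lit 15) (nat_lit 4) (nat_lit 390) (nat_lit 275) (nat_lit 115)))) (XT.nd (nat_lit 78) (nat_lit 76) (nat_lit 0) (XT.lf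 (nat_lit 0) (nat_lit 20171847313) (nat_lit 228) (nat_lit 29034043105) (nat_lit 76) (nat_lit 19968804881) (nat_lit 14) (nat_lit 5) (nat_lit 17) (nat_lit 5) (nat_lit 15) (nat_lit 4) (nat_lit 391) (nat_lit 275) (nat_lit 114)) (XT.nd (nat_lit 78) (nat_lit 76) (nat_lit 0) (XT.lf (nat_lit 0) (nat_lit 27427032833) (nat_lit 228) (nat_lit 14323645296) (nat_lit 76) (nat_lit 29233942692) (nat_lit 14) (nat_lit 5) (nat_lit 17) (nat_lit 5) (nat_lit 15) (nat_lit 4) (nat_lit 392) (nat_lit 275) (nat_lit 113)) (XT.lf (nat_lit 0) (nat_lit 836862638) (nat_lit 76) (nat_lit 34066831904) (nat_lit 152) (nat_lit 37945036950) (nat_lit 13) (nat_lit 5) (nat_lit 14) (nat_lit 5) (nat_lit 15) (nat_lit 4) (nat_lit 393) (nat_lit 275) (nat_lit 112))))) (XT.nd (nat_lit 234) (nat_lit 152) (nat_lit 0) (XT.nd (nat_lit 78) (nat_lit 0) (nat_lit 0) (XT.lf (nat_lit 0) (nat_lit 16738348328) (nat_lit 76) (nat_lit 26006776027) (nat_lit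 152) (nat_lit 32019429023) (nat_lit 13) (nat_lit 5) (nat_lit 14) (nat_lit 5) (nat_lit 15) (nat_lit 4) (nat_lit 394) (nat_lit 275) (nat_lit 111)) (XT.nd (nat_lit 78) (nat_lit 0) (nat_lit 0) (XT.lf (nat_lit 0) (nat_lit 33109637648) (nat_lit 76) (nat_lit 17708108464) (nat_lit 152) (nat_lit 25920227225) (nat_lit 13) (nat_lit 5) (nat_lit 14) (nat_lit 5) (nat_lit 15) (nat_lit 4) (nat_lit 395) (nat_lit 275) (nat_lit 110)) (XT.lf (nat_lit 0) (nat_lit 49965035607) (nat_lit 76) (nat_lit 9163577950) (nat_lit 152) (nat_lit 19642102156) (nat_lit 13) (nat_lit 5) (nat_lit 14) (nat_lit 5) (nat_lit 15) (nat_lit 4) (nat_lit 396) (nat_lit 275) (nat_lit 109)))) (XT.nd (nat_lit 156) (nat_lit 76) (nat_lit 0) (XT.nd (nat_lit 78) (nat_lit 76) (nat_lit 0) (XT.lf (nat_lit 0) (nat_lit 67319270224) (nat_lit 76) (nat_lit 365718393) (nat_lit 152) (nat_lit 13179568076) (nat_lit 13) (nat_lit 5) (nat_lit 14) (nat_lit 5) (nat_lit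 15) (nat_lit 4) (nat_lit 397) (nat_lit 275) (nat_lit 108)) (XT.lf (nat_lit 0) (nat_lit 2124063731) (nat_lit 76) (nat_lit 74474265753) (nat_lit 76) (nat_lit 6419876909) (nat_lit 12) (nat_lit 4) (nat_lit 13) (nat_lit 5) (nat_lit 13) (nat_lit 4) (nat_lit 398) (nat_lit 275) (nat_lit 107))) (XT.nd (nat_lit 78) (nat_lit 0) (nat_lit 0) (XT.lf (nat_lit 0) (nat_lit 670044363) (nat_lit 152) (nat_lit 66708115120) (nat_lit 76) (nat_lit 17854010426) (nat_lit 11) (nat_lit 5) (nat_lit 13) (nat_lit 5) (nat_lit 12) (nat_lit 4) (nat_lit 399) (nat_lit 275) (nat_lit 106)) (XT.lf (nat_lit 0) (nat_lit 7840010176) (nat_lit 152) (nat_lit 52166595523) (nat_lit 76) (nat_lit 27504149915) (nat_lit 11) (nat_lit 5) (nat_lit 13) (nat_lit 5) (nat_lit 12) (nat_lit 4) (nat_lit 400) (nat_lit 275) (nat_lit 105)))))) (XT.nd (nat_lit 31200) (nat_lit 0) (nat_lit 15960) (XT.nd (nat_lit 30888) (nat_lit 0) (nat_lit 16720) (XT.nd (nat_lit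 78) (nat_lit 0) (nat_lit 0) (XT.lf (nat_lit 0) (nat_lit 15221560472) (nat_lit 152) (nat_lit 37195165903) (nat_lit 76) (nat_lit 37441079485) (nat_lit 11) (nat_lit 5) (nat_lit 13) (nat_lit 5) (nat_lit 12) (nat_lit 4) (nat_lit 401) (nat_lit 275) (nat_lit 104)) (XT.nd (nat_lit 78) (nat_lit 0) (nat_lit 0) (XT.lf (nat_lit 0) (nat_lit 22821145147) (nat_lit 152) (nat_lit 21780744429) (nat_lit 76) (nat_lit 47673481889) (nat_lit 11) (nat_lit 5) (nat_lit 13) (nat_lit 5) (nat_lit 12) (nat_lit 4) (nat_lit 402) (nat_lit 275) (nat_lit 103)) (XT.lf (nat_lit 0) (nat_lit 30645404615) (nat_lit 152) (nat_lit 5909862190) (nat_lit 76) (nat_lit 58210298061) (nat_lit 11) (nat_lit 5) (nat_lit 13) (nat_lit 5) (nat_lit 12) (nat_lit 4) (nat_lit 403) (nat_lit 275) (nat_lit 102)))) (XT.nd (nat_lit 156) (nat_lit 836) (nat_lit 0) (XT.nd (nat_lit 78) (nat_lit 0) (nat_lit 0) (XT.lf (nat_lit 0) (nat_lit 3085975842) (nat_lit 836)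 (nat_lit 346528340) (nat_lit 836) (nat_lit 346528340) (nat_lit 242) (nat_lit 3) (nat_lit 253) (nat_lit 3) (nat_lit 253) (nat_lit 5) (nat_lit 276) (nat_lit 276) (nat_lit 228)) (XT.lf (nat_lit 76) (nat_lit 2752211624) (nat_lit 0) (nat_lit 4847774473) (nat_lit 836) (nat_lit 28847970) (nat_lit 243) (nat_lit 5) (nat_lit 242) (nat_lit 3) (nat_lit 253) (nat_lit 5) (nat_lit 277) (nat_lit 276) (nat_lit 227))) (XT.nd (nat_lit 78) (nat_lit 0) (nat_lit 0) (XT.lf (nat_lit 0) (nat_lit 1297535927) (nat_lit 836) (nat_lit 1427715315) (nat_lit 912) (nat_lit 4977522747) (nat_lit 231) (nat_lit 5) (nat_lit 242) (nat_lit 3) (nat_lit 243) (nat_lit 5) (nat_lit 278) (nat_lit 276) (nat_lit 226)) (XT.lf (nat_lit 76) (nat_lit 2138913433) (nat_lit 0) (nat_lit 494341262) (nat_lit 912) (nat_lit 5146658527) (nat_lit 232) (nat_lit 5) (nat_lit 231) (nat_lit 5) (nat_lit 243) (nat_lit 5) (nat_lit 279) (nat_lit 276) (nat_lit 225)))))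 (XT.nd (nat_lit 234) (nat_lit 836) (nat_lit 0) (XT.nd (nat_lit 78) (nat_lit 0) (nat_lit 0) (XT.lf (nat_lit 0) (nat_lit 3991928321) (nat_lit 836) (nat_lit 2063318384) (nat_lit 912) (nat_lit 1804724084) (nat_lit 232) (nat_lit 5) (nat_lit 243) (nat_lit 5) (nat_lit 244) (nat_lit 5) (nat_lit 280) (nat_lit 276) (nat_lit 224)) (XT.nd (nat_lit 78) (nat_lit 0) (nat_lit 0) (XT.lf (nat_lit 76) (nat_lit 1620544940) (nat_lit 0) (nat_lit 3743704028) (nat_lit 912) (nat_lit 2579082526) (nat_lit 233) (nat_lit 5) (nat_lit 232) (nat_lit 5) (nat_lit 244) (nat_lit 5) (nat_lit 281) (nat_lit 276) (nat_lit 223)) (XT.lf (nat_lit 76) (nat_lit 5429616748) (nat_lit 0) (nat_lit 1322493274) (nat_lit 912) (nat_lit 1277937328) (nat_lit 233) (nat_lit 5) (nat_lit 232) (nat_lit 5) (nat_lit 244) (nat_lit 5) (nat_lit 282) (nat_lit 276) (nat_lit 222)))) (XT.nd (nat_lit 156) (nat_lit 0) (nat_lit 0) (XT.nd (nat_lit 78) (nat_lit 0)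 (nat_lit 0) (XT.lf (nat_lit 0) (nat_lit 38758375) (nat_lit 912) (nat_lit 6902800811) (nat_lit 988) (nat_lit 1178536170) (nat_lit 221) (nat_lit 5) (nat_lit 233) (nat_lit 5) (nat_lit 234) (nat_lit 5) (nat_lit 283) (nat_lit 276) (nat_lit 221)) (XT.lf (nat_lit 0) (nat_lit 1364472356) (nat_lit 912) (nat_lit 3064301408) (nat_lit 988) (nat_lit 3783913575) (nat_lit 221) (nat_lit 5) (nat_lit 233) (nat_lit 5) (nat_lit 234) (nat_lit 5) (nat_lit 284) (nat_lit 276) (nat_lit 220))) (XT.nd (nat_lit 78) (nat_lit 0) (nat_lit 76) (XT.lf (nat_lit 76) (nat_lit 878242812) (nat_lit 0) (nat_lit 1817040106) (nat_lit 988) (nat_lit 5613890330) (nat_lit 222) (nat_lit 5) (nat_lit 221) (nat_lit 5) (nat_lit 234) (nat_lit 5) (nat_lit 285) (nat_lit 276) (nat_lit 219)) (XT.lf (nat_lit 0) (nat_lit 4063665880) (nat_lit 912) (nat_lit 3443890143) (nat_lit 988) (nat_lit 901141984) (nat_lit 222) (nat_lit 5) (nat_lit 234) (nat_lit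 5) (nat_lit 235) (nat_lit 5) (nat_lit 286) (nat_lit 276) (nat_lit 218))))))))
noncomputable def xc148 : XT := (XT.nd (nat_lit 2028) (nat_lit 4560) (nat_lit 0) (XT.nd (nat_lit 1014) (nat_lit 3192) (nat_lit 0) (XT.nd (nat_lit 468) (nat_lit 3724) (nat_lit 0) (XT.nd (nat_lit 234) (nat_lit 912) (nat_lit 0) (XT.nd (nat_lit 78) (nat_lit 0) (nat_lit 0) (XT.lf (nat_lit 76) (nat_lit 628447116) (nat_lit 0) (nat_lit 4827913879) (nat_lit 988) (nat_lit 3055421257) (nat_lit 223) (nat_lit 5) (nat_lit 222) (nat_lit 5) (nat_lit 235) (nat_lit 5) (nat_lit 287) (nat_lit 276) (nat_lit 217)) (XT.nd (nat_lit 78) (nat_lit 0) (nat_lit 76) (XT.lf (nat_lit 76) (nat_lit 4865244115) (nat_lit 0) (nat_lit 2020513936) (nat_lit 988) (nat_lit 1732422821) (nat_lit 223) (nat_lit 5) (nat_lit 222) (nat_lit 5) (nat_lit 235) (nat_lit 5) (nat_lit 288) (nat_lit 276) (nat_lit 216)) (XT.lf (nat_lit 76) (nat_lit 473419717) (nat_lit 0) (nat_lit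 7858954893) (nat_lit 988) (nat_lit 396234170) (nat_lit 224) (nat_lit 5) (nat_lit 223) (nat_lit 5) (nat_lit 236) (nat_lit 5) (nat_lit 289) (nat_lit 276) (nat_lit 215)))) (XT.nd (nat_lit 78) (nat_lit 0) (nat_lit 0) (XT.lf (nat_lit 0) (nat_lit 981018540) (nat_lit 988) (nat_lit 3996874418) (nat_lit 1064) (nat_lit 3863634453) (nat_lit 210) (nat_lit 5) (nat_lit 223) (nat_lit 5) (nat_lit 224) (nat_lit 5) (nat_lit 290) (nat_lit 276) (nat_lit 214)) (XT.nd (nat_lit 78) (nat_lit 0) (nat_lit 76) (XT.lf (nat_lit 76) (nat_lit 363862782) (nat_lit 0) (nat_lit 1994196606) (nat_lit 1064) (nat_lit 6600725220) (nat_lit 211) (nat_lit 5) (nat_lit 210) (nat_lit 5) (nat_lit 224) (nat_lit 5) (nat_lit 291) (nat_lit 276) (nat_lit 213)) (XT.lf (nat_lit 0) (nat_lit 3791365967) (nat_lit 988) (nat_lit 4181215689) (nat_lit 76) (nat_lit 1106589163) (nat_lit 211) (nat_lit 5) (nat_lit 224) (nat_lit 5) (nat_lit 212) (nat_lit 5)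 (nat_lit 292) (nat_lit 276) (nat_lit 212))))) (XT.nd (nat_lit 234) (nat_lit 1748) (nat_lit 0) (XT.nd (nat_lit 78) (nat_lit 1064) (nat_lit 0) (XT.lf (nat_lit 0) (nat_lit 322865761) (nat_lit 988) (nat_lit 4932529999) (nat_lit 1064) (nat_lit 3948199327) (nat_lit 198) (nat_lit 5) (nat_lit 211) (nat_lit 5) (nat_lit 212) (nat_lit 5) (nat_lit 293) (nat_lit 276) (nat_lit 211)) (XT.nd (nat_lit 78) (nat_lit 1064) (nat_lit 0) (XT.lf (nat_lit 0) (nat_lit 5019469164) (nat_lit 988) (nat_lit 1751726161) (nat_lit 1064) (nat_lit 2560377783) (nat_lit 198) (nat_lit 5) (nat_lit 211) (nat_lit 5) (nat_lit 212) (nat_lit 5) (nat_lit 294) (nat_lit 276) (nat_lit 210)) (XT.lf (nat_lit 0) (nat_lit 357298641) (nat_lit 1064) (nat_lit 7959943787) (nat_lit 1140) (nat_lit 1146659685) (nat_lit 184) (nat_lit 5) (nat_lit 198) (nat_lit 5) (nat_lit 199) (nat_lit 5) (nat_lit 295) (nat_lit 276) (nat_lit 209)))) (XT.nd (nat_lit 156)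 (nat_lit 532) (nat_lit 0) (XT.nd (nat_lit 78) (nat_lit 1140) (nat_lit 0) (XT.lf (nat_lit 0) (nat_lit 331757338) (nat_lit 1140) (nat_lit 4393494456) (nat_lit 76) (nat_lit 4874061862) (nat_lit 183) (nat_lit 5) (nat_lit 198) (nat_lit 5) (nat_lit 184) (nat_lit 5) (nat_lit 296) (nat_lit 276) (nat_lit 208)) (XT.lf (nat_lit 0) (nat_lit 429861130) (nat_lit 1140) (nat_lit 1373719565) (nat_lit 1216) (nat_lit 7935753436) (nat_lit 168) (nat_lit 5) (nat_lit 183) (nat_lit 5) (nat_lit 184) (nat_lit 5) (nat_lit 297) (nat_lit 276) (nat_lit 207))) (XT.nd (nat_lit 78) (nat_lit 532) (nat_lit 0) (XT.lf (nat_lit 0) (nat_lit 3353008596) (nat_lit 1216) (nat_lit 4443590745) (nat_lit 76) (nat_lit 2086001117) (nat_lit 168) (nat_lit 5) (nat_lit 184) (nat_lit 5) (nat_lit 169) (nat_lit 5) (nat_lit 298) (nat_lit 276) (nat_lit 206)) (XT.lf (nat_lit 0) (nat_lit 537060873) (nat_lit 532) (nat_lit 4400201273) (nat_lit 608) (nat_lit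 5093299656) (nat_lit 161) (nat_lit 5) (nat_lit 168) (nat_lit 5) (nat_lit 169) (nat_lit 5) (nat_lit 299) (nat_lit 276) (nat_lit 205)))))) (XT.nd (nat_lit 468) (nat_lit 1444) (nat_lit 0) (XT.nd (nat_lit 234) (nat_lit 1140) (nat_lit 0) (XT.nd (nat_lit 78) (nat_lit 608) (nat_lit 0) (XT.lf (nat_lit 0) (nat_lit 5730410734) (nat_lit 532) (nat_lit 853701909) (nat_lit 608) (nat_lit 3598443199) (nat_lit 161) (nat_lit 5) (nat_lit 168) (nat_lit 5) (nat_lit 169) (nat_lit 5) (nat_lit 300) (nat_lit 276) (nat_lit 204)) (XT.nd (nat_lit 78) (nat_lit 0) (nat_lit 0) (XT.lf (nat_lit 0) (nat_lit 699257107) (nat_lit 608) (nat_lit 7585825184) (nat_lit 684) (nat_lit 2053930599) (nat_lit 153) (nat_lit 5) (nat_lit 161) (nat_lit 5) (nat_lit 162) (nat_lit 5) (nat_lit 301) (nat_lit 276) (nat_lit 203)) (XT.lf (nat_lit 0) (nat_lit 6060187371) (nat_lit 608) (nat_lit 4001881957) (nat_lit 684) (nat_lit 437387972) (nat_lit 153)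 (nat_lit 5) (nat_lit 161) (nat_lit 5) (nat_lit 162) (nat_lit 5) (nat_lit 302) (nat_lit 276) (nat_lit 202)))) (XT.nd (nat_lit 78) (nat_lit 532) (nat_lit 0) (XT.lf (nat_lit 0) (nat_lit 895456165) (nat_lit 532) (nat_lit 289019069) (nat_lit 608) (nat_lit 9480503186) (nat_lit 145) (nat_lit 5) (nat_lit 152) (nat_lit 5) (nat_lit 153) (nat_lit 5) (nat_lit 303) (nat_lit 276) (nat_lit 201)) (XT.nd (nat_lit 78) (nat_lit 532) (nat_lit 0) (XT.lf (nat_lit 0) (nat_lit 2898180572) (nat_lit 608) (nat_lit 4419689641) (nat_lit 76) (nat_lit 3515945349) (nat_lit 145) (nat_lit 5) (nat_lit 153) (nat_lit 5) (nat_lit 146) (nat_lit 5) (nat_lit 304) (nat_lit 276) (nat_lit 200)) (XT.lf (nat_lit 0) (nat_lit 1081663306) (nat_lit 532) (nat_lit 3568410174) (nat_lit 608) (nat_lit 6358079516) (nat_lit 138) (nat_lit 5) (nat_lit 145) (nat_lit 5) (nat_lit 146) (nat_lit 5) (nat_lit 305) (nat_lit 276) (nat_lit 199))))) (XT.nd (nat_lit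 234) (nat_lit 988) (nat_lit 0) (XT.nd (nat_lit 78) (nat_lit 456) (nat_lit 0) (XT.lf (nat_lit 0) (nat_lit 6476436913) (nat_lit 608) (nat_lit 4378749378) (nat_lit 76) (nat_lit 331914198) (nat_lit 138) (nat_lit 5) (nat_lit 146) (nat_lit 5) (nat_lit 139) (nat_lit 5) (nat_lit 306) (nat_lit 276) (nat_lit 198)) (XT.nd (nat_lit 78) (nat_lit 0) (nat_lit 0) (XT.lf (nat_lit 0) (nat_lit 1298478526) (nat_lit 456) (nat_lit 7081702015) (nat_lit 532) (nat_lit 2990594449) (nat_lit 132) (nat_lit 5) (nat_lit 138) (nat_lit 5) (nat_lit 139) (nat_lit 5) (nat_lit 307) (nat_lit 276) (nat_lit 197)) (XT.lf (nat_lit 0) (nat_lit 7209095755) (nat_lit 456) (nat_lit 3151412355) (nat_lit 532) (nat_lit 1198902671) (nat_lit 132) (nat_lit 5) (nat_lit 138) (nat_lit 5) (nat_lit 139) (nat_lit 5) (nat_lit 308) (nat_lit 276) (nat_lit 196)))) (XT.nd (nat_lit 156) (nat_lit 456) (nat_lit 0) (XT.nd (nat_lit 78) (nat_lit 0) (nat_lit 0)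 (XT.lf (nat_lit 0) (nat_lit 633246511) (nat_lit 532) (nat_lit 10221895586) (nat_lit 76) (nat_lit 898430597) (nat_lit 125) (nat_lit 5) (nat_lit 132) (nat_lit 5) (nat_lit 126) (nat_lit 5) (nat_lit 309) (nat_lit 276) (nat_lit 195)) (XT.lf (nat_lit 0) (nat_lit 2547968041) (nat_lit 532) (nat_lit 4343335679) (nat_lit 76) (nat_lit 5060380714) (nat_lit 125) (nat_lit 5) (nat_lit 132) (nat_lit 5) (nat_lit 126) (nat_lit 5) (nat_lit 310) (nat_lit 276) (nat_lit 194))) (XT.nd (nat_lit 78) (nat_lit 0) (nat_lit 0) (XT.lf (nat_lit 0) (nat_lit 1719015567) (nat_lit 456) (nat_lit 2794472816) (nat_lit 532) (nat_lit 7642481707) (nat_lit 119) (nat_lit 5) (nat_lit 125) (nat_lit 5) (nat_lit 126) (nat_lit 5) (nat_lit 311) (nat_lit 276) (nat_lit 193)) (XT.lf (nat_lit 0) (nat_lit 6573197522) (nat_lit 532) (nat_lit 4353468152) (nat_lit 76) (nat_lit 1438692314) (nat_lit 119) (nat_lit 5) (nat_lit 126) (nat_lit 5) (nat_lit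 120) (nat_lit 5) (nat_lit 312) (nat_lit 276) (nat_lit 192))))))) (XT.nd (nat_lit 1014) (nat_lit 1748) (nat_lit 0) (XT.nd (nat_lit 468) (nat_lit 1520) (nat_lit 0) (XT.nd (nat_lit 234) (nat_lit 380) (nat_lit 0) (XT.nd (nat_lit 78) (nat_lit 456) (nat_lit 0) (XT.lf (nat_lit 0) (nat_lit 1896090891) (nat_lit 456) (nat_lit 6822393966) (nat_lit 532) (nat_lit 3861858544) (nat_lit 113) (nat_lit 5) (nat_lit 119) (nat_lit 5) (nat_lit 120) (nat_lit 5) (nat_lit 313) (nat_lit 276) (nat_lit 191)) (XT.nd (nat_lit 78) (nat_lit 456) (nat_lit 0) (XT.lf (nat_lit 0) (nat_lit 8396867684) (nat_lit 456) (nat_lit 2553515789) (nat_lit 532) (nat_lit 1850755946) (nat_lit 113) (nat_lit 5) (nat_lit 119) (nat_lit 5) (nat_lit 120) (nat_lit 5) (nat_lit 314) (nat_lit 276) (nat_lit 190)) (XT.lf (nat_lit 0) (nat_lit 232930650) (nat_lit 456) (nat_lit 10969160434) (nat_lit 76) (nat_lit 1825934863) (nat_lit 107) (nat_lit 5) (nat_lit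 113) (nat_lit 5) (nat_lit 108) (nat_lit 5) (nat_lit 315) (nat_lit 276) (nat_lit 189)))) (XT.nd (nat_lit 78) (nat_lit 380) (nat_lit 0) (XT.lf (nat_lit 0) (nat_lit 2391156079) (nat_lit 456) (nat_lit 4523838721) (nat_lit 76) (nat_lit 6344723938) (nat_lit 107) (nat_lit 5) (nat_lit 113) (nat_lit 5) (nat_lit 108) (nat_lit 5) (nat_lit 316) (nat_lit 276) (nat_lit 188)) (XT.nd (nat_lit 78) (nat_lit 0) (nat_lit 0) (XT.lf (nat_lit 0) (nat_lit 2131595984) (nat_lit 380) (nat_lit 2482662698) (nat_lit 456) (nat_lit 8884125153) (nat_lit 102) (nat_lit 5) (nat_lit 107) (nat_lit 5) (nat_lit 108) (nat_lit 5) (nat_lit 317) (nat_lit 276) (nat_lit 187)) (XT.lf (nat_lit 0) (nat_lit 6950160750) (nat_lit 456) (nat_lit 4709061184) (nat_lit 76) (nat_lit 2083628450) (nat_lit 102) (nat_lit 5) (nat_lit 108) (nat_lit 5) (nat_lit 103) (nat_lit 5) (nat_lit 318) (nat_lit 276) (nat_lit 186))))) (XT.nd (nat_lit 234) (nat_lit 684)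 (nat_lit 0) (XT.nd (nat_lit 78) (nat_lit 456) (nat_lit 0) (XT.lf (nat_lit 0) (nat_lit 2141152579) (nat_lit 380) (nat_lit 7240686680) (nat_lit 456) (nat_lit 4612064663) (nat_lit 97) (nat_lit 5) (nat_lit 102) (nat_lit 5) (nat_lit 103) (nat_lit 5) (nat_lit 319) (nat_lit 276) (nat_lit 185)) (XT.nd (nat_lit 78) (nat_lit 456) (nat_lit 0) (XT.lf (nat_lit 0) (nat_lit 9269198073) (nat_lit 380) (nat_lit 2645693044) (nat_lit 456) (nat_lit 2336768533) (nat_lit 97) (nat_lit 5) (nat_lit 102) (nat_lit 5) (nat_lit 103) (nat_lit 5) (nat_lit 320) (nat_lit 276) (nat_lit 184)) (XT.lf (nat_lit 0) (nat_lit 28385101) (nat_lit 456) (nat_lit 12426166153) (nat_lit 76) (nat_lit 2061964847) (nat_lit 91) (nat_lit 5) (nat_lit 97) (nat_lit 5) (nat_lit 92) (nat_lit 5) (nat_lit 321) (nat_lit 276) (nat_lit 183)))) (XT.nd (nat_lit 156) (nat_lit 380) (nat_lit 0) (XT.nd (nat_lit 78) (nat_lit 304) (nat_lit 0) (XT.lf (nat_lit 0)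 (nat_lit 2476024131) (nat_lit 456) (nat_lit 5384344127) (nat_lit 76) (nat_lit 6926522273) (nat_lit 91) (nat_lit 5) (nat_lit 97) (nat_lit 5) (nat_lit 92) (nat_lit 5) (nat_lit 322) (nat_lit 276) (nat_lit 182)) (XT.lf (nat_lit 0) (nat_lit 1881973912) (nat_lit 304) (nat_lit 3115239489) (nat_lit 380) (nat_lit 10068179839) (nat_lit 87) (nat_lit 5) (nat_lit 91) (nat_lit 5) (nat_lit 92) (nat_lit 5) (nat_lit 323) (nat_lit 276) (nat_lit 181))) (XT.nd (nat_lit 78) (nat_lit 380) (nat_lit 0) (XT.lf (nat_lit 0) (nat_lit 7648260473) (nat_lit 380) (nat_lit 5915287857) (nat_lit 76) (nat_lit 1787096113) (nat_lit 87) (nat_lit 5) (nat_lit 92) (nat_lit 5) (nat_lit 88) (nat_lit 5) (nat_lit 324) (nat_lit 276) (nat_lit 180)) (XT.lf (nat_lit 0) (nat_lit 1547177302) (nat_lit 380) (nat_lit 8860170829) (nat_lit 456) (nat_lit 5236269268) (nat_lit 82) (nat_lit 5) (nat_lit 87) (nat_lit 5) (nat_lit 88) (nat_lit 5) (nat_lit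 325) (nat_lit 276) (nat_lit 179)))))) (XT.nd (nat_lit 468) (nat_lit 1064) (nat_lit 0) (XT.nd (nat_lit 234) (nat_lit 304) (nat_lit 0) (XT.nd (nat_lit 78) (nat_lit 380) (nat_lit 0) (XT.lf (nat_lit 0) (nat_lit 9331942771) (nat_lit 380) (nat_lit 3960072976) (nat_lit 456) (nat_lit 2652098502) (nat_lit 82) (nat_lit 5) (nat_lit 87) (nat_lit 5) (nat_lit 88) (nat_lit 5) (nat_lit 326) (nat_lit 276) (nat_lit 178)) (XT.nd (nat_lit 78) (nat_lit 0) (nat_lit 0) (XT.lf (nat_lit 0) (nat_lit 13824090) (nat_lit 380) (nat_lit 15168927925) (nat_lit 76) (nat_lit 1070756641) (nat_lit 77) (nat_lit 5) (nat_lit 82) (nat_lit 5) (nat_lit 78) (nat_lit 5) (nat_lit 327) (nat_lit 276) (nat_lit 177)) (XT.lf (nat_lit 0) (nat_lit 2796658666) (nat_lit 380) (nat_lit 7511275818) (nat_lit 76) (nat_lit 6260772813) (nat_lit 77) (nat_lit 5) (nat_lit 82) (nat_lit 5) (nat_lit 78) (nat_lit 5) (nat_lit 328) (nat_lit 276) (nat_lit 176))))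 (XT.nd (nat_lit 78) (nat_lit 0) (nat_lit 0) (XT.lf (nat_lit 0) (nat_lit 361069649) (nat_lit 304) (nat_lit 5289456304) (nat_lit 380) (nat_lit 11243226327) (nat_lit 73) (nat_lit 5) (nat_lit 77) (nat_lit 5) (nat_lit 78) (nat_lit 5) (nat_lit 329) (nat_lit 276) (nat_lit 175)) (XT.nd (nat_lit 78) (nat_lit 0) (nat_lit 0) (XT.lf (nat_lit 0) (nat_lit 8601693789) (nat_lit 304) (nat_lit 48495078) (nat_lit 380) (nat_lit 8576570682) (nat_lit 73) (nat_lit 5) (nat_lit 77) (nat_lit 5) (nat_lit 78) (nat_lit 5) (nat_lit 330) (nat_lit 276) (nat_lit 174)) (XT.lf (nat_lit 0) (nat_lit 11775995228) (nat_lit 380) (nat_lit 553287967) (nat_lit 76) (nat_lit 5239405082) (nat_lit 73) (nat_lit 5) (nat_lit 78) (nat_lit 5) (nat_lit 74) (nat_lit 5) (nat_lit 331) (nat_lit 276) (nat_lit 173))))) (XT.nd (nat_lit 234) (nat_lit 456) (nat_lit 0) (XT.nd (nat_lit 78) (nat_lit 380) (nat_lit 0) (XT.lf (nat_lit 0) (nat_lit 7893174613)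 (nat_lit 228) (nat_lit 7163929145) (nat_lit 304) (nat_lit 2861940659) (nat_lit 70) (nat_lit 5) (nat_lit 73) (nat_lit 5) (nat_lit 74) (nat_lit 5) (nat_lit 332) (nat_lit 276) (nat_lit 172)) (XT.nd (nat_lit 78) (nat_lit 304) (nat_lit 0) (XT.lf (nat_lit 0) (nat_lit 144564778) (nat_lit 304) (nat_lit 1698047422) (nat_lit 76) (nat_lit 16437541677) (nat_lit 69) (nat_lit 5) (nat_lit 73) (nat_lit 5) (nat_lit 70) (nat_lit 5) (nat_lit 333) (nat_lit 276) (nat_lit 171)) (XT.lf (nat_lit 0) (nat_lit 3272246005) (nat_lit 380) (nat_lit 11718819931) (nat_lit 76) (nat_lit 3657539602) (nat_lit 65) (nat_lit 5) (nat_lit 70) (nat_lit 5) (nat_lit 66) (nat_lit 5) (nat_lit 334) (nat_lit 276) (nat_lit 170)))) (XT.nd (nat_lit 156) (nat_lit 228) (nat_lit 0) (XT.nd (nat_lit 78) (nat_lit 228) (nat_lit 0) (XT.lf (nat_lit 0) (nat_lit 6515156777) (nat_lit 380) (nat_lit 3215423827) (nat_lit 76) (nat_lit 9296901843) (nat_lit 65)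 (nat_lit 5) (nat_lit 70) (nat_lit 5) (nat_lit 66) (nat_lit 5) (nat_lit 335) (nat_lit 276) (nat_lit 169)) (XT.lf (nat_lit 0) (nat_lit 5632918944) (nat_lit 228) (nat_lit 4262834156) (nat_lit 304) (nat_lit 9520773890) (nat_lit 62) (nat_lit 5) (nat_lit 65) (nat_lit 5) (nat_lit 66) (nat_lit 5) (nat_lit 336) (nat_lit 276) (nat_lit 168))) (XT.nd (nat_lit 78) (nat_lit 228) (nat_lit 0) (XT.lf (nat_lit 0) (nat_lit 13410117032) (nat_lit 304) (nat_lit 5037359466) (nat_lit 76) (nat_lit 1368808766) (nat_lit 62) (nat_lit 5) (nat_lit 66) (nat_lit 5) (nat_lit 63) (nat_lit 5) (nat_lit 337) (nat_lit 276) (nat_lit 167)) (XT.lf (nat_lit 0) (nat_lit 3987229777) (nat_lit 228) (nat_lit 13110011830) (nat_lit 304) (nat_lit 3128787299) (nat_lit 59) (nat_lit 5) (nat_lit 62) (nat_lit 5) (nat_lit 63) (nat_lit 5) (nat_lit 338) (nat_lit 276) (nat_lit 166))))))))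
noncomputable def xc149 : XT := (XT.nd (nat_lit 2028) (nat_lit 1292) (nat_lit 0) (XT.nd (nat_lit 1014) (nat_lit 988) (nat_lit 0) (XT.nd (nat_lit 468) (nat_lit 608) (nat_lit 0) (XT.nd (nat_lit 234) (nat_lit 228) (nat_lit 0) (XT.nd (nat_lit 78) (nat_lit 228) (nat_lit 0) (XT.lf (nat_lit 0) (nat_lit 280320613) (nat_lit 304) (nat_lit 7283324917) (nat_lit 76) (nat_lit 13083213202) (nat_lit 58) (nat_lit 5) (nat_lit 62) (nat_lit 5) (nat_lit 59) (nat_lit 5) (nat_lit 339) (nat_lit 276) (nat_lit 165)) (XT.nd (nat_lit 78) (nat_lit 0) (nat_lit 0) (XT.lf (nat_lit 0) (nat_lit 1928311719) (nat_lit 228) (nat_lit 1806276221) (nat_lit 304) (nat_lit 17344634469) (nat_lit 55) (nat_lit 5) (nat_lit 58) (nat_lit 5) (nat_lit 59) (nat_lit 5) (nat_lit 340) (nat_lit 276) (nat_lit 164)) (XT.lf (nat_lit 0) (nat_lit 7393763064) (nat_lit 304) (nat_lit 10016412114) (nat_lit 76) (nat_lit 4111354542) (nat_lit 55) (nat_lit 5)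 (nat_lit 59) (nat_lit 5) (nat_lit 56) (nat_lit 5) (nat_lit 341) (nat_lit 276) (nat_lit 163)))) (XT.nd (nat_lit 78) (nat_lit 228) (nat_lit 0) (XT.lf (nat_lit 0) (nat_lit 11168329070) (nat_lit 304) (nat_lit 644491820) (nat_lit 76) (nat_lit 10164127683) (nat_lit 55) (nat_lit 5) (nat_lit 59) (nat_lit 5) (nat_lit 56) (nat_lit 5) (nat_lit 342) (nat_lit 276) (nat_lit 162)) (XT.nd (nat_lit 78) (nat_lit 0) (nat_lit 0) (XT.lf (nat_lit 0) (nat_lit 9169328914) (nat_lit 228) (nat_lit 5963033378) (nat_lit 304) (nat_lit 7311391272) (nat_lit 52) (nat_lit 5) (nat_lit 55) (nat_lit 5) (nat_lit 56) (nat_lit 5) (nat_lit 343) (nat_lit 276) (nat_lit 161)) (XT.lf (nat_lit 0) (nat_lit 19210690035) (nat_lit 304) (nat_lit 3652562101) (nat_lit 76) (nat_lit 61459534) (nat_lit 52) (nat_lit 5) (nat_lit 56) (nat_lit 5) (nat_lit 53) (nat_lit 5) (nat_lit 344) (nat_lit 276) (nat_lit 160))))) (XT.nd (nat_lit 234) (nat_lit 152)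 (nat_lit 0) (XT.nd (nat_lit 78) (nat_lit 228) (nat_lit 0) (XT.lf (nat_lit 0) (nat_lit 100686523) (nat_lit 228) (nat_lit 17113691046) (nat_lit 76) (nat_lit 6202455646) (nat_lit 49) (nat_lit 5) (nat_lit 52) (nat_lit 5) (nat_lit 50) (nat_lit 5) (nat_lit 345) (nat_lit 276) (nat_lit 159)) (XT.nd (nat_lit 78) (nat_lit 228) (nat_lit 0) (XT.lf (nat_lit 0) (nat_lit 3981026148) (nat_lit 228) (nat_lit 7345194536) (nat_lit 76) (nat_lit 12595628705) (nat_lit 49) (nat_lit 5) (nat_lit 52) (nat_lit 5) (nat_lit 50) (nat_lit 5) (nat_lit 346) (nat_lit 276) (nat_lit 158)) (XT.lf (nat_lit 0) (nat_lit 2752756090) (nat_lit 228) (nat_lit 5240402872) (nat_lit 304) (nat_lit 16448404636) (nat_lit 46) (nat_lit 5) (nat_lit 49) (nat_lit 5) (nat_lit 50) (nat_lit 5) (nat_lit 347) (nat_lit 276) (nat_lit 157)))) (XT.nd (nat_lit 156) (nat_lit 152) (nat_lit 0) (XT.nd (nat_lit 78) (nat_lit 0) (nat_lit 0) (XT.lf (nat_lit 0) (nat_lit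 12199463668) (nat_lit 304) (nat_lit 11698469309) (nat_lit 76) (nat_lit 1076730794) (nat_lit 46) (nat_lit 5) (nat_lit 50) (nat_lit 5) (nat_lit 47) (nat_lit 5) (nat_lit 348) (nat_lit 276) (nat_lit 156)) (XT.lf (nat_lit 0) (nat_lit 16573182307) (nat_lit 304) (nat_lit 1477222374) (nat_lit 76) (nat_lit 7472124043) (nat_lit 46) (nat_lit 5) (nat_lit 50) (nat_lit 5) (nat_lit 47) (nat_lit 5) (nat_lit 349) (nat_lit 276) (nat_lit 155))) (XT.nd (nat_lit 78) (nat_lit 0) (nat_lit 0) (XT.lf (nat_lit 0) (nat_lit 9214037499) (nat_lit 152) (nat_lit 11942296082) (nat_lit 228) (nat_lit 4928157684) (nat_lit 44) (nat_lit 5) (nat_lit 46) (nat_lit 5) (nat_lit 47) (nat_lit 5) (nat_lit 350) (nat_lit 276) (nat_lit 154)) (XT.lf (nat_lit 0) (nat_lit 20240054269) (nat_lit 152) (nat_lit 5641637416) (nat_lit 228) (nat_lit 781487660) (nat_lit 44) (nat_lit 5) (nat_lit 46) (nat_lit 5) (nat_lit 47) (nat_lit 5) (nat_lit 351) (nat_lit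 276) (nat_lit 153)))))) (XT.nd (nat_lit 468) (nat_lit 380) (nat_lit 0) (XT.nd (nat_lit 234) (nat_lit 304) (nat_lit 0) (XT.nd (nat_lit 78) (nat_lit 0) (nat_lit 0) (XT.lf (nat_lit 0) (nat_lit 3462357643) (nat_lit 304) (nat_lit 22892686208) (nat_lit 76) (nat_lit 901959380) (nat_lit 40) (nat_lit 5) (nat_lit 44) (nat_lit 5) (nat_lit 41) (nat_lit 5) (nat_lit 352) (nat_lit 276) (nat_lit 152)) (XT.nd (nat_lit 78) (nat_lit 0) (nat_lit 0) (XT.lf (nat_lit 0) (nat_lit 7929240916) (nat_lit 304) (nat_lit 12339968441) (nat_lit 76) (nat_lit 7595864810) (nat_lit 40) (nat_lit 5) (nat_lit 44) (nat_lit 5) (nat_lit 41) (nat_lit 5) (nat_lit 353) (nat_lit 276) (nat_lit 151)) (XT.lf (nat_lit 0) (nat_lit 12520488728) (nat_lit 304) (nat_lit 1486285748) (nat_lit 76) (nat_lit 14484909147) (nat_lit 40) (nat_lit 5) (nat_lit 44) (nat_lit 5) (nat_lit 41) (nat_lit 5) (nat_lit 354) (nat_lit 276) (nat_lit 150)))) (XT.nd (nat_lit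 78) (nat_lit 152) (nat_lit 0) (XT.lf (nat_lit 0) (nat_lit 9870453774) (nat_lit 152) (nat_lit 7464539916) (nat_lit 228) (nat_lit 11799539009) (nat_lit 38) (nat_lit 5) (nat_lit 40) (nat_lit 5) (nat_lit 41) (nat_lit 5) (nat_lit 355) (nat_lit 276) (nat_lit 149)) (XT.nd (nat_lit 78) (nat_lit 152) (nat_lit 0) (XT.lf (nat_lit 0) (nat_lit 21583349773) (nat_lit 152) (nat_lit 716359815) (nat_lit 228) (nat_lit 7496791111) (nat_lit 38) (nat_lit 5) (nat_lit 40) (nat_lit 5) (nat_lit 41) (nat_lit 5) (nat_lit 356) (nat_lit 276) (nat_lit 148)) (XT.lf (nat_lit 0) (nat_lit 3156168210) (nat_lit 152) (nat_lit 24338447535) (nat_lit 228) (nat_lit 2981281062) (nat_lit 36) (nat_lit 5) (nat_lit 38) (nat_lit 5) (nat_lit 39) (nat_lit 5) (nat_lit 357) (nat_lit 276) (nat_lit 147))))) (XT.nd (nat_lit 234) (nat_lit 152) (nat_lit 0) (XT.nd (nat_lit 78) (nat_lit 152) (nat_lit 0) (XT.lf (nat_lit 0) (nat_lit 1718972784) (nat_lit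 228) (nat_lit 16177059525) (nat_lit 76) (nat_lit 13276711332) (nat_lit 35) (nat_lit 5) (nat_lit 38) (nat_lit 5) (nat_lit 36) (nat_lit 5) (nat_lit 358) (nat_lit 276) (nat_lit 146)) (XT.nd (nat_lit 78) (nat_lit 152) (nat_lit 0) (XT.lf (nat_lit 0) (nat_lit 6491585001) (nat_lit 228) (nat_lit 4744033201) (nat_lit 76) (nat_lit 20654259977) (nat_lit 35) (nat_lit 5) (nat_lit 38) (nat_lit 5) (nat_lit 36) (nat_lit 5) (nat_lit 359) (nat_lit 276) (nat_lit 145)) (XT.lf (nat_lit 0) (nat_lit 7157670220) (nat_lit 152) (nat_lit 4310035047) (nat_lit 228) (nat_lit 21159017397) (nat_lit 33) (nat_lit 5) (nat_lit 35) (nat_lit 5) (nat_lit 36) (nat_lit 5) (nat_lit 360) (nat_lit 276) (nat_lit 144)))) (XT.nd (nat_lit 156) (nat_lit 152) (nat_lit 0) (XT.nd (nat_lit 78) (nat_lit 0) (nat_lit 0) (XT.lf (nat_lit 0) (nat_lit 16660215051) (nat_lit 228) (nat_lit 13912228495) (nat_lit 76) (nat_lit 2811221394) (nat_lit 33) (nat_lit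 5) (nat_lit 36) (nat_lit 5) (nat_lit 34) (nat_lit 5) (nat_lit 361) (nat_lit 276) (nat_lit 143)) (XT.lf (nat_lit 0) (nat_lit 22043005514) (nat_lit 228) (nat_lit 2065016352) (nat_lit 76) (nat_lit 10054263924) (nat_lit 33) (nat_lit 5) (nat_lit 36) (nat_lit 5) (nat_lit 34) (nat_lit 5) (nat_lit 362) (nat_lit 276) (nat_lit 142))) (XT.nd (nat_lit 78) (nat_lit 0) (nat_lit 0) (XT.lf (nat_lit 0) (nat_lit 10325861356) (nat_lit 152) (nat_lit 17352746514) (nat_lit 228) (nat_lit 7282922859) (nat_lit 31) (nat_lit 5) (nat_lit 33) (nat_lit 5) (nat_lit 34) (nat_lit 5) (nat_lit 363) (nat_lit 276) (nat_lit 141)) (XT.lf (nat_lit 0) (nat_lit 23117680521) (nat_lit 152) (nat_lit 10378624981) (nat_lit 228) (nat_lit 2288061855) (nat_lit 31) (nat_lit 5) (nat_lit 33) (nat_lit 5) (nat_lit 34) (nat_lit 5) (nat_lit 364) (nat_lit 276) (nat_lit 140))))))) (XT.nd (nat_lit 1014) (nat_lit 608) (nat_lit 0) (XT.nd (nat_lit 468)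 (nat_lit 304) (nat_lit 0) (XT.nd (nat_lit 234) (nat_lit 152) (nat_lit 0) (XT.nd (nat_lit 78) (nat_lit 152) (nat_lit 0) (XT.lf (nat_lit 0) (nat_lit 2793223928) (nat_lit 228) (nat_lit 378985976) (nat_lit 76) (nat_lit 33459090570) (nat_lit 30) (nat_lit 5) (nat_lit 33) (nat_lit 5) (nat_lit 31) (nat_lit 5) (nat_lit 365) (nat_lit 276) (nat_lit 139)) (XT.nd (nat_lit 78) (nat_lit 0) (nat_lit 0) (XT.lf (nat_lit 0) (nat_lit 8135749235) (nat_lit 228) (nat_lit 25055991773) (nat_lit 76) (nat_lit 4306582009) (nat_lit 28) (nat_lit 5) (nat_lit 31) (nat_lit 5) (nat_lit 29) (nat_lit 5) (nat_lit 366) (nat_lit 276) (nat_lit 138)) (XT.lf (nat_lit 0) (nat_lit 13666418785) (nat_lit 228) (nat_lit 12779200510) (nat_lit 76) (nat_lit 11944905469) (nat_lit 28) (nat_lit 5) (nat_lit 31) (nat_lit 5) (nat_lit 29) (nat_lit 5) (nat_lit 367) (nat_lit 276) (nat_lit 137)))) (XT.nd (nat_lit 78) (nat_lit 152) (nat_lit 0) (XT.lf (nat_lit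 0) (nat_lit 19355819643) (nat_lit 228) (nat_lit 146309386) (nat_lit 76) (nat_lit 19807583642) (nat_lit 28) (nat_lit 5) (nat_lit 31) (nat_lit 5) (nat_lit 29) (nat_lit 5) (nat_lit 368) (nat_lit 276) (nat_lit 136)) (XT.nd (nat_lit 78) (nat_lit 0) (nat_lit 0) (XT.lf (nat_lit 0) (nat_lit 13109534276) (nat_lit 152) (nat_lit 12225405717) (nat_lit 228) (nat_lit 14917969416) (nat_lit 26) (nat_lit 5) (nat_lit 28) (nat_lit 5) (nat_lit 29) (nat_lit 5) (nat_lit 369) (nat_lit 276) (nat_lit 135)) (XT.lf (nat_lit 0) (nat_lit 26754320183) (nat_lit 152) (nat_lit 4733702318) (nat_lit 228) (nat_lit 9736546083) (nat_lit 26) (nat_lit 5) (nat_lit 28) (nat_lit 5) (nat_lit 29) (nat_lit 5) (nat_lit 370) (nat_lit 276) (nat_lit 134))))) (XT.nd (nat_lit 234) (nat_lit 152) (nat_lit 0) (XT.nd (nat_lit 78) (nat_lit 152) (nat_lit 0) (XT.lf (nat_lit 0) (nat_lit 37847636079) (nat_lit 228) (nat_lit 1457149968) (nat_lit 76) (nat_lit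 2919937398) (nat_lit 26) (nat_lit 5) (nat_lit 29) (nat_lit 5) (nat_lit 27) (nat_lit 4) (nat_lit 371) (nat_lit 276) (nat_lit 133)) (XT.nd (nat_lit 78) (nat_lit 0) (nat_lit 0) (XT.lf (nat_lit 0) (nat_lit 1279280033) (nat_lit 152) (nat_lit 31137863289) (nat_lit 76) (nat_lit 10832660843) (nat_lit 24) (nat_lit 5) (nat_lit 26) (nat_lit 5) (nat_lit 25) (nat_lit 5) (nat_lit 372) (nat_lit 276) (nat_lit 132)) (XT.lf (nat_lit 0) (nat_lit 7025702067) (nat_lit 152) (nat_lit 18241941697) (nat_lit 76) (nat_lit 19036446982) (nat_lit 24) (nat_lit 5) (nat_lit 26) (nat_lit 5) (nat_lit 25) (nat_lit 5) (nat_lit 373) (nat_lit 276) (nat_lit 131)))) (XT.nd (nat_lit 156) (nat_lit 0) (nat_lit 0) (XT.nd (nat_lit 78) (nat_lit 152) (nat_lit 0) (XT.lf (nat_lit 0) (nat_lit 12938185391) (nat_lit 152) (nat_lit 4970052385) (nat_lit 76) (nat_lit 27481961704) (nat_lit 24) (nat_lit 5) (nat_lit 26) (nat_lit 5) (nat_lit 25) (nat_lit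 5) (nat_lit 374) (nat_lit 276) (nat_lit 130)) (XT.lf (nat_lit 0) (nat_lit 8862337568) (nat_lit 152) (nat_lit 10244748894) (nat_lit 228) (nat_lit 27399437224) (nat_lit 22) (nat_lit 5) (nat_lit 24) (nat_lit 5) (nat_lit 25) (nat_lit 5) (nat_lit 375) (nat_lit 276) (nat_lit 129))) (XT.nd (nat_lit 78) (nat_lit 0) (nat_lit 0) (XT.lf (nat_lit 0) (nat_lit 23201092104) (nat_lit 152) (nat_lit 2304081503) (nat_lit 228) (nat_lit 22149843851) (nat_lit 22) (nat_lit 5) (nat_lit 24) (nat_lit 5) (nat_lit 25) (nat_lit 5) (nat_lit 376) (nat_lit 276) (nat_lit 128)) (XT.lf (nat_lit 0) (nat_lit 32145742364) (nat_lit 228) (nat_lit 10934750651) (nat_lit 76) (nat_lit 5755960166) (nat_lit 22) (nat_lit 5) (nat_lit 25) (nat_lit 5) (nat_lit 23) (nat_lit 4) (nat_lit 377) (nat_lit 276) (nat_lit 127)))))) (XT.nd (nat_lit 546) (nat_lit 304) (nat_lit 0) (XT.nd (nat_lit 234) (nat_lit 152) (nat_lit 0) (XT.nd (nat_lit 78) (nat_lit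 76) (nat_lit 0) (XT.lf (nat_lit 0) (nat_lit 3016018973) (nat_lit 76) (nat_lit 36015553298) (nat_lit 152) (nat_lit 11020381592) (nat_lit 21) (nat_lit 5) (nat_lit 22) (nat_lit 5) (nat_lit 23) (nat_lit 4) (nat_lit 378) (nat_lit 276) (nat_lit 126)) (XT.nd (nat_lit 78) (nat_lit 76) (nat_lit 0) (XT.lf (nat_lit 0) (nat_lit 17599540576) (nat_lit 76) (nat_lit 28629168020) (nat_lit 152) (nat_lit 5072072145) (nat_lit 21) (nat_lit 5) (nat_lit 22) (nat_lit 5) (nat_lit 23) (nat_lit 4) (nat_lit 379) (nat_lit 276) (nat_lit 125)) (XT.lf (nat_lit 0) (nat_lit 1028525852) (nat_lit 152) (nat_lit 19986390650) (nat_lit 76) (nat_lit 31572022112) (nat_lit 20) (nat_lit 5) (nat_lit 22) (nat_lit 5) (nat_lit 21) (nat_lit 5) (nat_lit 380) (nat_lit 276) (nat_lit 124)))) (XT.nd (nat_lit 156) (nat_lit 0) (nat_lit 0) (XT.nd (nat_lit 78) (nat_lit 152) (nat_lit 0) (XT.lf (nat_lit 0) (nat_lit 7204780689) (nat_lit 152) (nat_lit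 5919778029) (nat_lit 76) (nat_lit 40785781329) (nat_lit 20) (nat_lit 5) (nat_lit 22) (nat_lit 5) (nat_lit 21) (nat_lit 5) (nat_lit 381) (nat_lit 276) (nat_lit 123)) (XT.lf (nat_lit 0) (nat_lit 8729998486) (nat_lit 152) (nat_lit 4914983087) (nat_lit 228) (nat_lit 41626104968) (nat_lit 18) (nat_lit 5) (nat_lit 20) (nat_lit 5) (nat_lit 21) (nat_lit 5) (nat_lit 382) (nat_lit 276) (nat_lit 122))) (XT.nd (nat_lit 78) (nat_lit 0) (nat_lit 0) (XT.lf (nat_lit 0) (nat_lit 20367564127) (nat_lit 228) (nat_lit 32774092204) (nat_lit 76) (nat_lit 3528326519) (nat_lit 18) (nat_lit 5) (nat_lit 21) (nat_lit 5) (nat_lit 19) (nat_lit 4) (nat_lit 383) (nat_lit 276) (nat_lit 121)) (XT.lf (nat_lit 0) (nat_lit 27335408255) (nat_lit 228) (nat_lit 18651700256) (nat_lit 76) (nat_lit 12122432628) (nat_lit 18) (nat_lit 5) (nat_lit 21) (nat_lit 5) (nat_lit 19) (nat_lit 4) (nat_lit 384) (nat_lit 276) (nat_lit 120))))) (XT.nd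 (nat_lit 234) (nat_lit 228) (nat_lit 0) (XT.nd (nat_lit 78) (nat_lit 76) (nat_lit 0) (XT.lf (nat_lit 0) (nat_lit 34507356541) (nat_lit 228) (nat_lit 4114326431) (nat_lit 76) (nat_lit 20970753674) (nat_lit 18) (nat_lit 5) (nat_lit 21) (nat_lit 5) (nat_lit 19) (nat_lit 4) (nat_lit 385) (nat_lit 276) (nat_lit 119)) (XT.nd (nat_lit 78) (nat_lit 0) (nat_lit 0) (XT.lf (nat_lit 0) (nat_lit 11066682667) (nat_lit 76) (nat_lit 30929372791) (nat_lit 152) (nat_lit 19120718256) (nat_lit 17) (nat_lit 5) (nat_lit 18) (nat_lit 5) (nat_lit 19) (nat_lit 4) (nat_lit 386) (nat_lit 276) (nat_lit 118)) (XT.lf (nat_lit 0) (nat_lit 26779107631) (nat_lit 76) (nat_lit 22967125940) (nat_lit 152) (nat_lit 12939505167) (nat_lit 17) (nat_lit 5) (nat_lit 18) (nat_lit 5) (nat_lit 19) (nat_lit 4) (nat_lit 387) (nat_lit 276) (nat_lit 117)))) (XT.nd (nat_lit 156) (nat_lit 228) (nat_lit 0) (XT.nd (nat_lit 78) (nat_lit 0) (nat_lit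 0) (XT.lf (nat_lit 0) (nat_lit 42954794601) (nat_lit 76) (nat_lit 14769531746) (nat_lit 152) (nat_lit 6577586407) (nat_lit 17) (nat_lit 5) (nat_lit 18) (nat_lit 5) (nat_lit 19) (nat_lit 4) (nat_lit 388) (nat_lit 276) (nat_lit 116)) (XT.lf (nat_lit 0) (nat_lit 59607877672) (nat_lit 76) (nat_lit 6329427262) (nat_lit 152) (nat_lit 29403018) (nat_lit 17) (nat_lit 5) (nat_lit 18) (nat_lit 5) (nat_lit 19) (nat_lit 4) (nat_lit 389) (nat_lit 276) (nat_lit 115))) (XT.nd (nat_lit 78) (nat_lit 0) (nat_lit 0) (XT.lf (nat_lit 0) (nat_lit 6692321792) (nat_lit 228) (nat_lit 58515124368) (nat_lit 76) (nat_lit 2468822419) (nat_lit 14) (nat_lit 5) (nat_lit 17) (nat_lit 5) (nat_lit 15) (nat_lit 4) (nat_lit 390) (nat_lit 276) (nat_lit 114)) (XT.lf (nat_lit 0) (nat_lit 13738271923) (nat_lit 228) (nat_lit 44229474397) (nat_lit 76) (nat_lit 11465668096) (nat_lit 14) (nat_lit 5) (nat_lit 17) (nat_lit 5) (nat_lit 15)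 (nat_lit 4) (nat_lit 391) (nat_lit 276) (nat_lit 113))))))))
noncomputable def xc150 : XT := (XT.nd (nat_lit 32760) (nat_lit 0) (nat_lit 7296) (XT.nd (nat_lit 31746) (nat_lit 0) (nat_lit 15048) (XT.nd (nat_lit 468) (nat_lit 152) (nat_lit 0) (XT.nd (nat_lit 234) (nat_lit 0) (nat_lit 0) (XT.nd (nat_lit 78) (nat_lit 76) (nat_lit 0) (XT.lf (nat_lit 0) (nat_lit 20991376748) (nat_lit 228) (nat_lit 29522786939) (nat_lit 76) (nat_lit 20729239659) (nat_lit 14) (nat_lit 5) (nat_lit 17) (nat_lit 5) (nat_lit 15) (nat_lit 4) (nat_lit 392) (nat_lit 276) (nat_lit 112)) (XT.nd (nat_lit 78) (nat_lit 76) (nat_lit 0) (XT.lf (nat_lit 0) (nat_lit 28457973930) (nat_lit 228) (nat_lit 14382211490) (nat_lit 76) (nat_lit 30267631489) (nat_lit 14) (nat_lit 5) (nat_lit 17) (nat_lit 5) (nat_lit 15) (nat_lit 4) (nat_lit 393) (nat_lit 276) (nat_lit 111)) (XT.lf (nat_lit 0) (nat_lit 1229473024) (nat_lit 76) (nat_lit 34926933102)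 (nat_lit 152) (nat_lit 38871523527) (nat_lit 13) (nat_lit 5) (nat_lit 14) (nat_lit 5) (nat_lit 15) (nat_lit 4) (nat_lit 394) (nat_lit 276) (nat_lit 110)))) (XT.nd (nat_lit 78) (nat_lit 0) (nat_lit 0) (XT.lf (nat_lit 0) (nat_lit 17597299270) (nat_lit 76) (nat_lit 26629791193) (nat_lit 152) (nat_lit 32774318174) (nat_lit 13) (nat_lit 5) (nat_lit 14) (nat_lit 5) (nat_lit 15) (nat_lit 4) (nat_lit 395) (nat_lit 276) (nat_lit 109)) (XT.nd (nat_lit 78) (nat_lit 0) (nat_lit 0) (XT.lf (nat_lit 0) (nat_lit 34449335022) (nat_lit 76) (nat_lit 18086741897) (nat_lit 152) (nat_lit 26498131401) (nat_lit 13) (nat_lit 5) (nat_lit 14) (nat_lit 5) (nat_lit 15) (nat_lit 4) (nat_lit 396) (nat_lit 276) (nat_lit 108)) (XT.lf (nat_lit 0) (nat_lit 51800305359) (nat_lit 76) (nat_lit 9290320415) (nat_lit 152) (nat_lit 20037479162) (nat_lit 13) (nat_lit 5) (nat_lit 14) (nat_lit 5) (nat_lit 15) (nat_lit 4) (nat_lit 397)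 (nat_lit 276) (nat_lit 107))))) (XT.nd (nat_lit 234) (nat_lit 0) (nat_lit 0) (XT.nd (nat_lit 78) (nat_lit 152) (nat_lit 0) (XT.lf (nat_lit 0) (nat_lit 69665371325) (nat_lit 76) (nat_lit 232840552) (nat_lit 152) (nat_lit 13386716227) (nat_lit 13) (nat_lit 5) (nat_lit 14) (nat_lit 5) (nat_lit 15) (nat_lit 4) (nat_lit 398) (nat_lit 276) (nat_lit 106)) (XT.nd (nat_lit 78) (nat_lit 76) (nat_lit 0) (XT.lf (nat_lit 0) (nat_lit 2515248948) (nat_lit 76) (nat_lit 76562873703) (nat_lit 76) (nat_lit 6425092031) (nat_lit 12) (nat_lit 4) (nat_lit 13) (nat_lit 5) (nat_lit 13) (nat_lit 4) (nat_lit 399) (nat_lit 276) (nat_lit 105)) (XT.lf (nat_lit 0) (nat_lit 868519192) (nat_lit 152) (nat_lit 68387805190) (nat_lit 76) (nat_lit 18527381557) (nat_lit 11) (nat_lit 5) (nat_lit 13) (nat_lit 5) (nat_lit 12) (nat_lit 4) (nat_lit 400) (nat_lit 276) (nat_lit 104)))) (XT.nd (nat_lit 156) (nat_lit 0) (nat_lit 0) (XT.nd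 (nat_lit 78) (nat_lit 0) (nat_lit 0) (XT.lf (nat_lit 0) (nat_lit 8248388635) (nat_lit 152) (nat_lit 53419405637) (nat_lit 76) (nat_lit 28463013071) (nat_lit 11) (nat_lit 5) (nat_lit 13) (nat_lit 5) (nat_lit 12) (nat_lit 4) (nat_lit 401) (nat_lit 276) (nat_lit 103)) (XT.lf (nat_lit 0) (nat_lit 15846341416) (nat_lit 152) (nat_lit 38007925975) (nat_lit 76) (nat_lit 38694155227) (nat_lit 11) (nat_lit 5) (nat_lit 13) (nat_lit 5) (nat_lit 12) (nat_lit 4) (nat_lit 402) (nat_lit 276) (nat_lit 102))) (XT.nd (nat_lit 30810) (nat_lit 0) (nat_lit 16720) (XT.lf (nat_lit 0) (nat_lit 23669016520) (nat_lit 152) (nat_lit 22139899865) (nat_lit 76) (nat_lit 49229747858) (nat_lit 11) (nat_lit 5) (nat_lit 13) (nat_lit 5) (nat_lit 12) (nat_lit 4) (nat_lit 403) (nat_lit 276) (nat_lit 101)) (XT.lf (nat_lit 0) (nat_lit 308928453) (nat_lit 0) (nat_lit 308928453) (nat_lit 836) (nat_lit 3232778505) (nat_lit 231) (nat_lit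 5) (nat_lit 231) (nat_lit 3) (nat_lit 242) (nat_lit 3) (nat_lit 277) (nat_lit 277) (nat_lit 226)))))) (XT.nd (nat_lit 468) (nat_lit 836) (nat_lit 0) (XT.nd (nat_lit 234) (nat_lit 836) (nat_lit 0) (XT.nd (nat_lit 78) (nat_lit 0) (nat_lit 0) (XT.lf (nat_lit 0) (nat_lit 2530749568) (nat_lit 836) (nat_lit 3642242842) (nat_lit 912) (nat_lit 1603179571) (nat_lit 231) (nat_lit 5) (nat_lit 242) (nat_lit 3) (nat_lit 243) (nat_lit 5) (nat_lit 278) (nat_lit 277) (nat_lit 225)) (XT.nd (nat_lit 78) (nat_lit 0) (nat_lit 0) (XT.lf (nat_lit 0) (nat_lit 3821785464) (nat_lit 836) (nat_lit 130359734) (nat_lit 912) (nat_lit 3902551159) (nat_lit 231) (nat_lit 5) (nat_lit 242) (nat_lit 3) (nat_lit 243) (nat_lit 5) (nat_lit 279) (nat_lit 277) (nat_lit 224)) (XT.lf (nat_lit 76) (nat_lit 3530128788) (nat_lit 0) (nat_lit 1607815342) (nat_lit 912) (nat_lit 2798128600) (nat_lit 232) (nat_lit 5) (nat_lit 231) (nat_lit 5)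 (nat_lit 243) (nat_lit 5) (nat_lit 280) (nat_lit 277) (nat_lit 223)))) (XT.nd (nat_lit 78) (nat_lit 912) (nat_lit 0) (XT.lf (nat_lit 0) (nat_lit 6456473507) (nat_lit 836) (nat_lit 751580385) (nat_lit 912) (nat_lit 813035376) (nat_lit 232) (nat_lit 5) (nat_lit 243) (nat_lit 5) (nat_lit 244) (nat_lit 5) (nat_lit 281) (nat_lit 277) (nat_lit 222)) (XT.nd (nat_lit 78) (nat_lit 912) (nat_lit 0) (XT.lf (nat_lit 76) (nat_lit 3029331804) (nat_lit 0) (nat_lit 4785411984) (nat_lit 912) (nat_lit 293989927) (nat_lit 233) (nat_lit 5) (nat_lit 232) (nat_lit 5) (nat_lit 244) (nat_lit 5) (nat_lit 282) (nat_lit 277) (nat_lit 221)) (XT.lf (nat_lit 0) (nat_lit 958307760) (nat_lit 912) (nat_lit 1296510307) (nat_lit 988) (nat_lit 5945074359) (nat_lit 220) (nat_lit 5) (nat_lit 232) (nat_lit 5) (nat_lit 233) (nat_lit 5) (nat_lit 283) (nat_lit 277) (nat_lit 220))))) (XT.nd (nat_lit 234) (nat_lit 912) (nat_lit 0) (XT.nd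 (nat_lit 78) (nat_lit 0) (nat_lit 0) (XT.lf (nat_lit 0) (nat_lit 2228270391) (nat_lit 912) (nat_lit 5676202409) (nat_lit 988) (nat_lit 389721550) (nat_lit 221) (nat_lit 5) (nat_lit 233) (nat_lit 5) (nat_lit 234) (nat_lit 5) (nat_lit 284) (nat_lit 277) (nat_lit 219)) (XT.nd (nat_lit 78) (nat_lit 0) (nat_lit 0) (XT.lf (nat_lit 0) (nat_lit 3530017463) (nat_lit 912) (nat_lit 1764305765) (nat_lit 988) (nat_lit 3097265248) (nat_lit 221) (nat_lit 5) (nat_lit 233) (nat_lit 5) (nat_lit 234) (nat_lit 5) (nat_lit 285) (nat_lit 277) (nat_lit 218)) (XT.lf (nat_lit 76) (nat_lit 2282868462) (nat_lit 0) (nat_lit 2569250864) (nat_lit 988) (nat_lit 3640417594) (nat_lit 222) (nat_lit 5) (nat_lit 221) (nat_lit 5) (nat_lit 234) (nat_lit 5) (nat_lit 286) (nat_lit 277) (nat_lit 217)))) (XT.nd (nat_lit 156) (nat_lit 988) (nat_lit 0) (XT.nd (nat_lit 78) (nat_lit 0) (nat_lit 0) (XT.lf (nat_lit 0) (nat_lit 6194577026)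 (nat_lit 912) (nat_lit 2138569364) (nat_lit 988) (nat_lit 264016124) (nat_lit 222) (nat_lit 5) (nat_lit 234) (nat_lit 5) (nat_lit 235) (nat_lit 5) (nat_lit 287) (nat_lit 277) (nat_lit 216)) (XT.lf (nat_lit 76) (nat_lit 2042127841) (nat_lit 0) (nat_lit 5541818490) (nat_lit 988) (nat_lit 1120848867) (nat_lit 223) (nat_lit 5) (nat_lit 222) (nat_lit 5) (nat_lit 235) (nat_lit 5) (nat_lit 288) (nat_lit 277) (nat_lit 215))) (XT.nd (nat_lit 78) (nat_lit 0) (nat_lit 76) (XT.lf (nat_lit 0) (nat_lit 179255432) (nat_lit 988) (nat_lit 2452556214) (nat_lit 1064) (nat_lit 6184337151) (nat_lit 209) (nat_lit 5) (nat_lit 222) (nat_lit 5) (nat_lit 223) (nat_lit 5) (nat_lit 289) (nat_lit 277) (nat_lit 214)) (XT.lf (nat_lit 0) (nat_lit 1480937135) (nat_lit 988) (nat_lit 7052235983) (nat_lit 1064) (nat_lit 397845628) (nat_lit 210) (nat_lit 5) (nat_lit 223) (nat_lit 5) (nat_lit 224) (nat_lit 5) (nat_lit 290) (nat_lit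 277) (nat_lit 213))))))) (XT.nd (nat_lit 1014) (nat_lit 3420) (nat_lit 0) (XT.nd (nat_lit 468) (nat_lit 2356) (nat_lit 0) (XT.nd (nat_lit 234) (nat_lit 2052) (nat_lit 0) (XT.nd (nat_lit 78) (nat_lit 0) (nat_lit 0) (XT.lf (nat_lit 0) (nat_lit 2836754355) (nat_lit 988) (nat_lit 2712231485) (nat_lit 1064) (nat_lit 3499956336) (nat_lit 210) (nat_lit 5) (nat_lit 223) (nat_lit 5) (nat_lit 224) (nat_lit 5) (nat_lit 291) (nat_lit 277) (nat_lit 212)) (XT.nd (nat_lit 78) (nat_lit 0) (nat_lit 76) (XT.lf (nat_lit 76) (nat_lit 1765557742) (nat_lit 0) (nat_lit 2449724349) (nat_lit 1064) (nat_lit 4955718326) (nat_lit 211) (nat_lit 5) (nat_lit 210) (nat_lit 5) (nat_lit 224) (nat_lit 5) (nat_lit 292) (nat_lit 277) (nat_lit 211)) (XT.lf (nat_lit 0) (nat_lit 5635861502) (nat_lit 988) (nat_lit 2897787564) (nat_lit 76) (nat_lit 763106959) (nat_lit 211) (nat_lit 5) (nat_lit 224) (nat_lit 5) (nat_lit 212) (nat_lit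 5) (nat_lit 293) (nat_lit 277) (nat_lit 210)))) (XT.nd (nat_lit 78) (nat_lit 1140) (nat_lit 0) (XT.lf (nat_lit 0) (nat_lit 1727603932) (nat_lit 988) (nat_lit 5379208025) (nat_lit 1064) (nat_lit 2319294582) (nat_lit 198) (nat_lit 5) (nat_lit 211) (nat_lit 5) (nat_lit 212) (nat_lit 5) (nat_lit 294) (nat_lit 277) (nat_lit 209)) (XT.nd (nat_lit 78) (nat_lit 1140) (nat_lit 0) (XT.lf (nat_lit 0) (nat_lit 6524472849) (nat_lit 988) (nat_lit 2094280010) (nat_lit 1064) (nat_lit 940732103) (nat_lit 198) (nat_lit 5) (nat_lit 211) (nat_lit 5) (nat_lit 212) (nat_lit 5) (nat_lit 295) (nat_lit 277) (nat_lit 208)) (XT.lf (nat_lit 0) (nat_lit 467706322) (nat_lit 1140) (nat_lit 7938119446) (nat_lit 76) (nat_lit 1291014885) (nat_lit 183) (nat_lit 5) (nat_lit 198) (nat_lit 5) (nat_lit 184) (nat_lit 5) (nat_lit 296) (nat_lit 277) (nat_lit 207))))) (XT.nd (nat_lit 234) (nat_lit 1216) (nat_lit 0) (XT.nd (nat_lit 78)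 (nat_lit 1140) (nat_lit 0) (XT.lf (nat_lit 0) (nat_lit 1920078092) (nat_lit 1140) (nat_lit 3136630295) (nat_lit 76) (nat_lit 4780760294) (nat_lit 183) (nat_lit 5) (nat_lit 198) (nat_lit 5) (nat_lit 184) (nat_lit 5) (nat_lit 297) (nat_lit 277) (nat_lit 206)) (XT.nd (nat_lit 78) (nat_lit 0) (nat_lit 0) (XT.lf (nat_lit 0) (nat_lit 1817811558) (nat_lit 1140) (nat_lit 1585490573) (nat_lit 1216) (nat_lit 6579442299) (nat_lit 168) (nat_lit 5) (nat_lit 183) (nat_lit 5) (nat_lit 184) (nat_lit 5) (nat_lit 298) (nat_lit 277) (nat_lit 205)) (XT.lf (nat_lit 0) (nat_lit 4952603216) (nat_lit 1216) (nat_lit 3192952992) (nat_lit 76) (nat_lit 1986220769) (nat_lit 168) (nat_lit 5) (nat_lit 184) (nat_lit 5) (nat_lit 169) (nat_lit 5) (nat_lit 299) (nat_lit 277) (nat_lit 204)))) (XT.nd (nat_lit 156) (nat_lit 684) (nat_lit 0) (XT.nd (nat_lit 78) (nat_lit 0) (nat_lit 0) (XT.lf (nat_lit 0) (nat_lit 1923550082) (nat_lit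 532) (nat_lit 4630346875) (nat_lit 608) (nat_lit 3731262730) (nat_lit 161) (nat_lit 5) (nat_lit 168) (nat_lit 5) (nat_lit 169) (nat_lit 5) (nat_lit 300) (nat_lit 277) (nat_lit 203)) (XT.lf (nat_lit 0) (nat_lit 7232786535) (nat_lit 532) (nat_lit 974594096) (nat_lit 608) (nat_lit 2235682014) (nat_lit 161) (nat_lit 5) (nat_lit 168) (nat_lit 5) (nat_lit 169) (nat_lit 5) (nat_lit 301) (nat_lit 277) (nat_lit 202))) (XT.nd (nat_lit 78) (nat_lit 76) (nat_lit 0) (XT.lf (nat_lit 0) (nat_lit 2083090452) (nat_lit 608) (nat_lit 7846973754) (nat_lit 684) (nat_lit 675092661) (nat_lit 153) (nat_lit 5) (nat_lit 161) (nat_lit 5) (nat_lit 162) (nat_lit 5) (nat_lit 302) (nat_lit 277) (nat_lit 201)) (XT.lf (nat_lit 0) (nat_lit 929492496) (nat_lit 684) (nat_lit 3215655803) (nat_lit 76) (nat_lit 6626275250) (nat_lit 152) (nat_lit 5) (nat_lit 161) (nat_lit 5) (nat_lit 153) (nat_lit 5) (nat_lit 303) (nat_lit 277) (nat_lit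 200)))))) (XT.nd (nat_lit 546) (nat_lit 1368) (nat_lit 0) (XT.nd (nat_lit 234) (nat_lit 988) (nat_lit 0) (XT.nd (nat_lit 78) (nat_lit 532) (nat_lit 0) (XT.lf (nat_lit 0) (nat_lit 2261522073) (nat_lit 532) (nat_lit 302633508) (nat_lit 608) (nat_lit 8378495329) (nat_lit 145) (nat_lit 5) (nat_lit 152) (nat_lit 5) (nat_lit 153) (nat_lit 5) (nat_lit 304) (nat_lit 277) (nat_lit 199)) (XT.nd (nat_lit 78) (nat_lit 532) (nat_lit 0) (XT.lf (nat_lit 0) (nat_lit 4290076052) (nat_lit 608) (nat_lit 3210992360) (nat_lit 76) (nat_lit 3616717503) (nat_lit 145) (nat_lit 5) (nat_lit 153) (nat_lit 5) (nat_lit 146) (nat_lit 5) (nat_lit 305) (nat_lit 277) (nat_lit 198)) (XT.lf (nat_lit 0) (nat_lit 2442251293) (nat_lit 532) (nat_lit 3627033075) (nat_lit 608) (nat_lit 5228881556) (nat_lit 138) (nat_lit 5) (nat_lit 145) (nat_lit 5) (nat_lit 146) (nat_lit 5) (nat_lit 306) (nat_lit 277) (nat_lit 197)))) (XT.nd (nat_lit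 156) (nat_lit 532) (nat_lit 0) (XT.nd (nat_lit 78) (nat_lit 456) (nat_lit 0) (XT.lf (nat_lit 0) (nat_lit 7913617610) (nat_lit 608) (nat_lit 3182049514) (nat_lit 76) (nat_lit 387972955) (nat_lit 138) (nat_lit 5) (nat_lit 146) (nat_lit 5) (nat_lit 139) (nat_lit 5) (nat_lit 307) (nat_lit 277) (nat_lit 196)) (XT.lf (nat_lit 0) (nat_lit 2652475008) (nat_lit 456) (nat_lit 7198438919) (nat_lit 532) (nat_lit 1822669719) (nat_lit 132) (nat_lit 5) (nat_lit 138) (nat_lit 5) (nat_lit 139) (nat_lit 5) (nat_lit 308) (nat_lit 277) (nat_lit 195))) (XT.nd (nat_lit 78) (nat_lit 532) (nat_lit 0) (XT.lf (nat_lit 0) (nat_lit 8702108556) (nat_lit 456) (nat_lit 3153028361) (nat_lit 532) (nat_lit 13857554) (nat_lit 132) (nat_lit 5) (nat_lit 138) (nat_lit 5) (nat_lit 139) (nat_lit 5) (nat_lit 309) (nat_lit 277) (nat_lit 194)) (XT.lf (nat_lit 0) (nat_lit 1828057896) (nat_lit 532) (nat_lit 9203391600) (nat_lit 76) (nat_lit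 1037868414) (nat_lit 125) (nat_lit 5) (nat_lit 132) (nat_lit 5) (nat_lit 126) (nat_lit 5) (nat_lit 310) (nat_lit 277) (nat_lit 193))))) (XT.nd (nat_lit 234) (nat_lit 912) (nat_lit 0) (XT.nd (nat_lit 78) (nat_lit 456) (nat_lit 0) (XT.lf (nat_lit 0) (nat_lit 3765974062) (nat_lit 532) (nat_lit 3187071814) (nat_lit 76) (nat_lit 5321400776) (nat_lit 125) (nat_lit 5) (nat_lit 132) (nat_lit 5) (nat_lit 126) (nat_lit 5) (nat_lit 311) (nat_lit 277) (nat_lit 192)) (XT.nd (nat_lit 78) (nat_lit 0) (nat_lit 0) (XT.lf (nat_lit 0) (nat_lit 3044536598) (nat_lit 456) (nat_lit 2724919885) (nat_lit 532) (nat_lit 6716079393) (nat_lit 119) (nat_lit 5) (nat_lit 125) (nat_lit 5) (nat_lit 126) (nat_lit 5) (nat_lit 312) (nat_lit 277) (nat_lit 191)) (XT.lf (nat_lit 0) (nat_lit 7859750632) (nat_lit 532) (nat_lit 3214567896) (nat_lit 76) (nat_lit 1627866656) (nat_lit 119) (nat_lit 5) (nat_lit 126) (nat_lit 5) (nat_lit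 120) (nat_lit 5) (nat_lit 313) (nat_lit 277) (nat_lit 190)))) (XT.nd (nat_lit 156) (nat_lit 456) (nat_lit 0) (XT.nd (nat_lit 78) (nat_lit 0) (nat_lit 0) (XT.lf (nat_lit 0) (nat_lit 3210031798) (nat_lit 456) (nat_lit 6839719550) (nat_lit 532) (nat_lit 2874500482) (nat_lit 113) (nat_lit 5) (nat_lit 119) (nat_lit 5) (nat_lit 120) (nat_lit 5) (nat_lit 314) (nat_lit 277) (nat_lit 189)) (XT.lf (nat_lit 0) (nat_lit 9869218550) (nat_lit 456) (nat_lit 2448231715) (nat_lit 532) (nat_lit 835197248) (nat_lit 113) (nat_lit 5) (nat_lit 119) (nat_lit 5) (nat_lit 120) (nat_lit 5) (nat_lit 315) (nat_lit 277) (nat_lit 188))) (XT.nd (nat_lit 78) (nat_lit 0) (nat_lit 0) (XT.lf (nat_lit 0) (nat_lit 1273253333) (nat_lit 456) (nat_lit 10037423435) (nat_lit 76) (nat_lit 2075899094) (nat_lit 107) (nat_lit 5) (nat_lit 113) (nat_lit 5) (nat_lit 108) (nat_lit 5) (nat_lit 316) (nat_lit 277) (nat_lit 187)) (XT.lf (nat_lit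 0) (nat_lit 3466128397) (nat_lit 456) (nat_lit 3435464745) (nat_lit 76) (nat_lit 6724566807) (nat_lit 107) (nat_lit 5) (nat_lit 113) (nat_lit 5) (nat_lit 108) (nat_lit 5) (nat_lit 317) (nat_lit 277) (nat_lit 186))))))))
noncomputable def xc151 : XT := (XT.nd (nat_lit 2028) (nat_lit 1976) (nat_lit 0) (XT.nd (nat_lit 1014) (nat_lit 1596) (nat_lit 0) (XT.nd (nat_lit 468) (nat_lit 1368) (nat_lit 0) (XT.nd (nat_lit 234) (nat_lit 456) (nat_lit 0) (XT.nd (nat_lit 78) (nat_lit 380) (nat_lit 0) (XT.lf (nat_lit 0) (nat_lit 3407632127) (nat_lit 380) (nat_lit 2330722770) (nat_lit 456) (nat_lit 8134193677) (nat_lit 102) (nat_lit 5) (nat_lit 107) (nat_lit 5) (nat_lit 108) (nat_lit 5) (nat_lit 318) (nat_lit 277) (nat_lit 185)) (XT.nd (nat_lit 78) (nat_lit 380) (nat_lit 0) (XT.lf (nat_lit 0) (nat_lit 8117738331) (nat_lit 456) (nat_lit 3645771318) (nat_lit 76) (nat_lit 2361672781) (nat_lit 102) (nat_lit 5) (nat_lit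 108) (nat_lit 5) (nat_lit 103) (nat_lit 5) (nat_lit 319) (nat_lit 277) (nat_lit 184)) (XT.lf (nat_lit 0) (nat_lit 3398139430) (nat_lit 380) (nat_lit 7207759072) (nat_lit 456) (nat_lit 3778397539) (nat_lit 97) (nat_lit 5) (nat_lit 102) (nat_lit 5) (nat_lit 103) (nat_lit 5) (nat_lit 320) (nat_lit 277) (nat_lit 183)))) (XT.nd (nat_lit 78) (nat_lit 456) (nat_lit 0) (XT.lf (nat_lit 0) (nat_lit 10705285931) (nat_lit 380) (nat_lit 2482201497) (nat_lit 456) (nat_lit 1463154052) (nat_lit 97) (nat_lit 5) (nat_lit 102) (nat_lit 5) (nat_lit 103) (nat_lit 5) (nat_lit 321) (nat_lit 277) (nat_lit 182)) (XT.nd (nat_lit 78) (nat_lit 0) (nat_lit 0) (XT.lf (nat_lit 0) (nat_lit 941260990) (nat_lit 456) (nat_lit 11607115425) (nat_lit 76) (nat_lit 2375224885) (nat_lit 91) (nat_lit 5) (nat_lit 97) (nat_lit 5) (nat_lit 92) (nat_lit 5) (nat_lit 322) (nat_lit 277) (nat_lit 181)) (XT.lf (nat_lit 0) (nat_lit 3435765375)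 (nat_lit 456) (nat_lit 4388752399) (nat_lit 76) (nat_lit 7378396672) (nat_lit 91) (nat_lit 5) (nat_lit 97) (nat_lit 5) (nat_lit 92) (nat_lit 5) (nat_lit 323) (nat_lit 277) (nat_lit 180))))) (XT.nd (nat_lit 234) (nat_lit 684) (nat_lit 0) (XT.nd (nat_lit 78) (nat_lit 380) (nat_lit 0) (XT.lf (nat_lit 0) (nat_lit 3084210846) (nat_lit 304) (nat_lit 2933603281) (nat_lit 380) (nat_lit 9472431074) (nat_lit 87) (nat_lit 5) (nat_lit 91) (nat_lit 5) (nat_lit 92) (nat_lit 5) (nat_lit 324) (nat_lit 277) (nat_lit 179)) (XT.nd (nat_lit 78) (nat_lit 380) (nat_lit 0) (XT.lf (nat_lit 0) (nat_lit 8725600219) (nat_lit 380) (nat_lit 4956588059) (nat_lit 76) (nat_lit 2102578249) (nat_lit 87) (nat_lit 5) (nat_lit 92) (nat_lit 5) (nat_lit 88) (nat_lit 5) (nat_lit 325) (nat_lit 277) (nat_lit 178)) (XT.lf (nat_lit 0) (nat_lit 2718612247) (nat_lit 380) (nat_lit 8834966756) (nat_lit 456) (nat_lit 4533394090) (nat_lit 82)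 (nat_lit 5) (nat_lit 87) (nat_lit 5) (nat_lit 88) (nat_lit 5) (nat_lit 326) (nat_lit 277) (nat_lit 177)))) (XT.nd (nat_lit 156) (nat_lit 304) (nat_lit 0) (XT.nd (nat_lit 78) (nat_lit 380) (nat_lit 0) (XT.lf (nat_lit 0) (nat_lit 10704153119) (nat_lit 380) (nat_lit 3796341963) (nat_lit 456) (nat_lit 1896745675) (nat_lit 82) (nat_lit 5) (nat_lit 87) (nat_lit 5) (nat_lit 88) (nat_lit 5) (nat_lit 327) (nat_lit 277) (nat_lit 176)) (XT.lf (nat_lit 0) (nat_lit 822397359) (nat_lit 380) (nat_lit 14503254092) (nat_lit 76) (nat_lit 1390364325) (nat_lit 77) (nat_lit 5) (nat_lit 82) (nat_lit 5) (nat_lit 78) (nat_lit 5) (nat_lit 328) (nat_lit 277) (nat_lit 175))) (XT.nd (nat_lit 78) (nat_lit 304) (nat_lit 0) (XT.lf (nat_lit 0) (nat_lit 3665178373) (nat_lit 380) (nat_lit 6648515383) (nat_lit 76) (nat_lit 6727707633) (nat_lit 77) (nat_lit 5) (nat_lit 82) (nat_lit 5) (nat_lit 78) (nat_lit 5) (nat_lit 329) (nat_lit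 277) (nat_lit 174)) (XT.lf (nat_lit 0) (nat_lit 1449332813) (nat_lit 304) (nat_lit 5142832784) (nat_lit 380) (nat_lit 10784431139) (nat_lit 73) (nat_lit 5) (nat_lit 77) (nat_lit 5) (nat_lit 78) (nat_lit 5) (nat_lit 330) (nat_lit 277) (nat_lit 173)))))) (XT.nd (nat_lit 468) (nat_lit 988) (nat_lit 0) (XT.nd (nat_lit 234) (nat_lit 380) (nat_lit 0) (XT.nd (nat_lit 78) (nat_lit 228) (nat_lit 0) (XT.lf (nat_lit 0) (nat_lit 9661698524) (nat_lit 380) (nat_lit 7816867305) (nat_lit 76) (nat_lit 241655419) (nat_lit 73) (nat_lit 5) (nat_lit 78) (nat_lit 5) (nat_lit 74) (nat_lit 5) (nat_lit 331) (nat_lit 277) (nat_lit 172)) (XT.nd (nat_lit 78) (nat_lit 0) (nat_lit 0) (XT.lf (nat_lit 0) (nat_lit 474786220) (nat_lit 228) (nat_lit 12389619927) (nat_lit 304) (nat_lit 5208530626) (nat_lit 70) (nat_lit 5) (nat_lit 73) (nat_lit 5) (nat_lit 74) (nat_lit 5) (nat_lit 332) (nat_lit 277) (nat_lit 171)) (XT.lf (nat_lit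 0) (nat_lit 9155226830) (nat_lit 228) (nat_lit 7072733911) (nat_lit 304) (nat_lit 2206344555) (nat_lit 70) (nat_lit 5) (nat_lit 73) (nat_lit 5) (nat_lit 74) (nat_lit 5) (nat_lit 333) (nat_lit 277) (nat_lit 170)))) (XT.nd (nat_lit 78) (nat_lit 304) (nat_lit 0) (XT.lf (nat_lit 0) (nat_lit 854713254) (nat_lit 304) (nat_lit 738852807) (nat_lit 76) (nat_lit 17213124208) (nat_lit 69) (nat_lit 5) (nat_lit 73) (nat_lit 5) (nat_lit 70) (nat_lit 5) (nat_lit 334) (nat_lit 277) (nat_lit 169)) (XT.nd (nat_lit 78) (nat_lit 0) (nat_lit 0) (XT.lf (nat_lit 0) (nat_lit 4068217495) (nat_lit 380) (nat_lit 11051567399) (nat_lit 76) (nat_lit 4066671018) (nat_lit 65) (nat_lit 5) (nat_lit 70) (nat_lit 5) (nat_lit 66) (nat_lit 5) (nat_lit 335) (nat_lit 277) (nat_lit 168)) (XT.lf (nat_lit 0) (nat_lit 7388091198) (nat_lit 380) (nat_lit 2322743697) (nat_lit 76) (nat_lit 9866493586) (nat_lit 65) (nat_lit 5) (nat_lit 70)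 (nat_lit 5) (nat_lit 66) (nat_lit 5) (nat_lit 336) (nat_lit 277) (nat_lit 167))))) (XT.nd (nat_lit 234) (nat_lit 532) (nat_lit 0) (XT.nd (nat_lit 78) (nat_lit 228) (nat_lit 0) (XT.lf (nat_lit 0) (nat_lit 6781351877) (nat_lit 228) (nat_lit 4078436142) (nat_lit 304) (nat_lit 9118584912) (nat_lit 62) (nat_lit 5) (nat_lit 65) (nat_lit 5) (nat_lit 66) (nat_lit 5) (nat_lit 337) (nat_lit 277) (nat_lit 166)) (XT.nd (nat_lit 78) (nat_lit 228) (nat_lit 0) (XT.lf (nat_lit 0) (nat_lit 14463065380) (nat_lit 304) (nat_lit 4220428427) (nat_lit 76) (nat_lit 1707144167) (nat_lit 62) (nat_lit 5) (nat_lit 66) (nat_lit 5) (nat_lit 63) (nat_lit 5) (nat_lit 338) (nat_lit 277) (nat_lit 165)) (XT.lf (nat_lit 0) (nat_lit 5065407789) (nat_lit 228) (nat_lit 13185659359) (nat_lit 304) (nat_lit 2561916830) (nat_lit 59) (nat_lit 5) (nat_lit 62) (nat_lit 5) (nat_lit 63) (nat_lit 5) (nat_lit 339) (nat_lit 277) (nat_lit 164))))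 (XT.nd (nat_lit 156) (nat_lit 228) (nat_lit 0) (XT.nd (nat_lit 78) (nat_lit 228) (nat_lit 0) (XT.lf (nat_lit 0) (nat_lit 917701868) (nat_lit 304) (nat_lit 6558100846) (nat_lit 76) (nat_lit 13771028444) (nat_lit 58) (nat_lit 5) (nat_lit 62) (nat_lit 5) (nat_lit 59) (nat_lit 5) (nat_lit 340) (nat_lit 277) (nat_lit 163)) (XT.lf (nat_lit 0) (nat_lit 2920632695) (nat_lit 228) (nat_lit 1545627671) (nat_lit 304) (nat_lit 17226201917) (nat_lit 55) (nat_lit 5) (nat_lit 58) (nat_lit 5) (nat_lit 59) (nat_lit 5) (nat_lit 341) (nat_lit 277) (nat_lit 162))) (XT.nd (nat_lit 78) (nat_lit 228) (nat_lit 0) (XT.lf (nat_lit 0) (nat_lit 8220101385) (nat_lit 304) (nat_lit 9394009314) (nat_lit 76) (nat_lit 4534397350) (nat_lit 55) (nat_lit 5) (nat_lit 59) (nat_lit 5) (nat_lit 56) (nat_lit 5) (nat_lit 342) (nat_lit 277) (nat_lit 161)) (XT.lf (nat_lit 0) (nat_lit 236809146) (nat_lit 228) (nat_lit 11855764042) (nat_lit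 304) (nat_lit 10525491703) (nat_lit 52) (nat_lit 5) (nat_lit 55) (nat_lit 5) (nat_lit 56) (nat_lit 5) (nat_lit 343) (nat_lit 277) (nat_lit 160))))))) (XT.nd (nat_lit 1014) (nat_lit 912) (nat_lit 0) (XT.nd (nat_lit 468) (nat_lit 608) (nat_lit 0) (XT.nd (nat_lit 234) (nat_lit 228) (nat_lit 0) (XT.nd (nat_lit 78) (nat_lit 228) (nat_lit 0) (XT.lf (nat_lit 0) (nat_lit 10331639045) (nat_lit 228) (nat_lit 5833045911) (nat_lit 304) (nat_lit 6934529387) (nat_lit 52) (nat_lit 5) (nat_lit 55) (nat_lit 5) (nat_lit 56) (nat_lit 5) (nat_lit 344) (nat_lit 277) (nat_lit 159)) (XT.nd (nat_lit 78) (nat_lit 228) (nat_lit 0) (XT.lf (nat_lit 0) (nat_lit 20351399984) (nat_lit 304) (nat_lit 2886301136) (nat_lit 76) (nat_lit 357333549) (nat_lit 52) (nat_lit 5) (nat_lit 56) (nat_lit 5) (nat_lit 53) (nat_lit 5) (nat_lit 345) (nat_lit 277) (nat_lit 158)) (XT.lf (nat_lit 0) (nat_lit 665965466) (nat_lit 228) (nat_lit 16748201816)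 (nat_lit 76) (nat_lit 6687844443) (nat_lit 49) (nat_lit 5) (nat_lit 52) (nat_lit 5) (nat_lit 50) (nat_lit 5) (nat_lit 346) (nat_lit 277) (nat_lit 157)))) (XT.nd (nat_lit 78) (nat_lit 228) (nat_lit 0) (XT.lf (nat_lit 0) (nat_lit 4646338823) (nat_lit 228) (nat_lit 6712249439) (nat_lit 76) (nat_lit 13264094778) (nat_lit 49) (nat_lit 5) (nat_lit 52) (nat_lit 5) (nat_lit 50) (nat_lit 5) (nat_lit 347) (nat_lit 277) (nat_lit 156)) (XT.nd (nat_lit 78) (nat_lit 0) (nat_lit 0) (XT.lf (nat_lit 0) (nat_lit 3680274011) (nat_lit 228) (nat_lit 5090784172) (nat_lit 304) (nat_lit 16387176787) (nat_lit 46) (nat_lit 5) (nat_lit 49) (nat_lit 5) (nat_lit 50) (nat_lit 5) (nat_lit 348) (nat_lit 277) (nat_lit 155)) (XT.lf (nat_lit 0) (nat_lit 13090742624) (nat_lit 304) (nat_lit 11215868700) (nat_lit 76) (nat_lit 1401113700) (nat_lit 46) (nat_lit 5) (nat_lit 50) (nat_lit 5) (nat_lit 47) (nat_lit 5) (nat_lit 349) (nat_lit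 277) (nat_lit 154))))) (XT.nd (nat_lit 234) (nat_lit 456) (nat_lit 0) (XT.nd (nat_lit 78) (nat_lit 152) (nat_lit 0) (XT.lf (nat_lit 0) (nat_lit 17580372966) (nat_lit 304) (nat_lit 712262649) (nat_lit 76) (nat_lit 7979861533) (nat_lit 46) (nat_lit 5) (nat_lit 50) (nat_lit 5) (nat_lit 47) (nat_lit 5) (nat_lit 350) (nat_lit 277) (nat_lit 153)) (XT.nd (nat_lit 78) (nat_lit 0) (nat_lit 0) (XT.lf (nat_lit 0) (nat_lit 10291800938) (nat_lit 152) (nat_lit 12002066605) (nat_lit 228) (nat_lit 4557677432) (nat_lit 44) (nat_lit 5) (nat_lit 46) (nat_lit 5) (nat_lit 47) (nat_lit 5) (nat_lit 351) (nat_lit 277) (nat_lit 152)) (XT.lf (nat_lit 0) (nat_lit 21625258143) (nat_lit 152) (nat_lit 5521082306) (nat_lit 228) (nat_lit 301704152) (nat_lit 44) (nat_lit 5) (nat_lit 46) (nat_lit 5) (nat_lit 47) (nat_lit 5) (nat_lit 352) (nat_lit 277) (nat_lit 151)))) (XT.nd (nat_lit 156) (nat_lit 152) (nat_lit 0) (XT.nd (nat_lit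 78) (nat_lit 0) (nat_lit 0) (XT.lf (nat_lit 0) (nat_lit 4055593350) (nat_lit 304) (nat_lit 22786866261) (nat_lit 76) (nat_lit 1217210638) (nat_lit 40) (nat_lit 5) (nat_lit 44) (nat_lit 5) (nat_lit 41) (nat_lit 5) (nat_lit 353) (nat_lit 277) (nat_lit 150)) (XT.lf (nat_lit 0) (nat_lit 8642229771) (nat_lit 304) (nat_lit 11940652413) (nat_lit 76) (nat_lit 8103539275) (nat_lit 40) (nat_lit 5) (nat_lit 44) (nat_lit 5) (nat_lit 41) (nat_lit 5) (nat_lit 354) (nat_lit 277) (nat_lit 149))) (XT.nd (nat_lit 78) (nat_lit 152) (nat_lit 0) (XT.lf (nat_lit 0) (nat_lit 13357376815) (nat_lit 304) (nat_lit 783772301) (nat_lit 76) (nat_lit 15191105471) (nat_lit 40) (nat_lit 5) (nat_lit 44) (nat_lit 5) (nat_lit 41) (nat_lit 5) (nat_lit 355) (nat_lit 277) (nat_lit 148)) (XT.lf (nat_lit 0) (nat_lit 10906344877) (nat_lit 152) (nat_lit 7403648094) (nat_lit 228) (nat_lit 11684595824) (nat_lit 38) (nat_lit 5) (nat_lit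 40) (nat_lit 5) (nat_lit 41) (nat_lit 5) (nat_lit 356) (nat_lit 277) (nat_lit 147)))))) (XT.nd (nat_lit 546) (nat_lit 532) (nat_lit 0) (XT.nd (nat_lit 234) (nat_lit 152) (nat_lit 0) (XT.nd (nat_lit 78) (nat_lit 228) (nat_lit 0) (XT.lf (nat_lit 0) (nat_lit 22949080840) (nat_lit 152) (nat_lit 461318552) (nat_lit 228) (nat_lit 7266423626) (nat_lit 38) (nat_lit 5) (nat_lit 40) (nat_lit 5) (nat_lit 41) (nat_lit 5) (nat_lit 357) (nat_lit 277) (nat_lit 146)) (XT.nd (nat_lit 78) (nat_lit 76) (nat_lit 0) (XT.lf (nat_lit 0) (nat_lit 3972849856) (nat_lit 152) (nat_lit 24784958916) (nat_lit 228) (nat_lit 2618901925) (nat_lit 36) (nat_lit 5) (nat_lit 38) (nat_lit 5) (nat_lit 39) (nat_lit 5) (nat_lit 358) (nat_lit 277) (nat_lit 145)) (XT.lf (nat_lit 0) (nat_lit 2200640007) (nat_lit 228) (nat_lit 15952549498) (nat_lit 76) (nat_lit 13941539058) (nat_lit 35) (nat_lit 5) (nat_lit 38) (nat_lit 5) (nat_lit 36)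 (nat_lit 5) (nat_lit 359) (nat_lit 277) (nat_lit 144)))) (XT.nd (nat_lit 156) (nat_lit 0) (nat_lit 0) (XT.nd (nat_lit 78) (nat_lit 152) (nat_lit 0) (XT.lf (nat_lit 0) (nat_lit 7103903463) (nat_lit 228) (nat_lit 4197206806) (nat_lit 76) (nat_lit 21532651259) (nat_lit 35) (nat_lit 5) (nat_lit 38) (nat_lit 5) (nat_lit 36) (nat_lit 5) (nat_lit 360) (nat_lit 277) (nat_lit 143)) (XT.lf (nat_lit 0) (nat_lit 8054791370) (nat_lit 152) (nat_lit 4168913268) (nat_lit 228) (nat_lit 21369183117) (nat_lit 33) (nat_lit 5) (nat_lit 35) (nat_lit 5) (nat_lit 36) (nat_lit 5) (nat_lit 361) (nat_lit 277) (nat_lit 142))) (XT.nd (nat_lit 78) (nat_lit 0) (nat_lit 0) (XT.lf (nat_lit 0) (nat_lit 17562514397) (nat_lit 228) (nat_lit 13657334997) (nat_lit 76) (nat_lit 3152981247) (nat_lit 33) (nat_lit 5) (nat_lit 36) (nat_lit 5) (nat_lit 34) (nat_lit 5) (nat_lit 362) (nat_lit 277) (nat_lit 141)) (XT.lf (nat_lit 0) (nat_lit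 23095065481) (nat_lit 228) (nat_lit 1474286889) (nat_lit 76) (nat_lit 10605817289) (nat_lit 33) (nat_lit 5) (nat_lit 36) (nat_lit 5) (nat_lit 34) (nat_lit 5) (nat_lit 363) (nat_lit 277) (nat_lit 140))))) (XT.nd (nat_lit 234) (nat_lit 152) (nat_lit 0) (XT.nd (nat_lit 78) (nat_lit 228) (nat_lit 0) (XT.lf (nat_lit 0) (nat_lit 11281918328) (nat_lit 152) (nat_lit 17612648385) (nat_lit 228) (nat_lit 7103987929) (nat_lit 31) (nat_lit 5) (nat_lit 33) (nat_lit 5) (nat_lit 34) (nat_lit 5) (nat_lit 364) (nat_lit 277) (nat_lit 139)) (XT.nd (nat_lit 78) (nat_lit 228) (nat_lit 0) (XT.lf (nat_lit 0) (nat_lit 24438668345) (nat_lit 152) (nat_lit 10436895842) (nat_lit 228) (nat_lit 1970856511) (nat_lit 31) (nat_lit 5) (nat_lit 33) (nat_lit 5) (nat_lit 34) (nat_lit 5) (nat_lit 365) (nat_lit 277) (nat_lit 138)) (XT.lf (nat_lit 0) (nat_lit 230873985) (nat_lit 152) (nat_lit 3015664925) (nat_lit 228) (nat_lit 34472382593)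 (nat_lit 28) (nat_lit 5) (nat_lit 30) (nat_lit 5) (nat_lit 31) (nat_lit 5) (nat_lit 366) (nat_lit 277) (nat_lit 137)))) (XT.nd (nat_lit 156) (nat_lit 152) (nat_lit 0) (XT.nd (nat_lit 78) (nat_lit 0) (nat_lit 0) (XT.lf (nat_lit 0) (nat_lit 8744678774) (nat_lit 228) (nat_lit 25188279601) (nat_lit 76) (nat_lit 4679142954) (nat_lit 28) (nat_lit 5) (nat_lit 31) (nat_lit 5) (nat_lit 29) (nat_lit 5) (nat_lit 367) (nat_lit 277) (nat_lit 136)) (XT.lf (nat_lit 0) (nat_lit 14430641505) (nat_lit 228) (nat_lit 12561225141) (nat_lit 76) (nat_lit 12539527861) (nat_lit 28) (nat_lit 5) (nat_lit 31) (nat_lit 5) (nat_lit 29) (nat_lit 5) (nat_lit 368) (nat_lit 277) (nat_lit 135))) (XT.nd (nat_lit 78) (nat_lit 0) (nat_lit 0) (XT.lf (nat_lit 0) (nat_lit 441757914) (nat_lit 152) (nat_lit 19842895538) (nat_lit 228) (nat_lit 20193693109) (nat_lit 26) (nat_lit 5) (nat_lit 28) (nat_lit 5) (nat_lit 29) (nat_lit 5) (nat_lit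 369) (nat_lit 277) (nat_lit 134)) (XT.lf (nat_lit 0) (nat_lit 14080932714) (nat_lit 152) (nat_lit 12353508545) (nat_lit 228) (nat_lit 15015665322) (nat_lit 26) (nat_lit 5) (nat_lit 28) (nat_lit 5) (nat_lit 29) (nat_lit 5) (nat_lit 370) (nat_lit 277) (nat_lit 133))))))))
noncomputable def xc152 : XT := (XT.nd (nat_lit 2028) (nat_lit 152) (nat_lit 0) (XT.nd (nat_lit 1014) (nat_lit 380) (nat_lit 0) (XT.nd (nat_lit 468) (nat_lit 304) (nat_lit 0) (XT.nd (nat_lit 234) (nat_lit 152) (nat_lit 0) (XT.nd (nat_lit 78) (nat_lit 152) (nat_lit 0) (XT.lf (nat_lit 0) (nat_lit 28118223973) (nat_lit 152) (nat_lit 4644005287) (nat_lit 228) (nat_lit 9688988896) (nat_lit 26) (nat_lit 5) (nat_lit 28) (nat_lit 5) (nat_lit 29) (nat_lit 5) (nat_lit 371) (nat_lit 277) (nat_lit 132)) (XT.nd (nat_lit 78) (nat_lit 152) (nat_lit 0) (XT.lf (nat_lit 0) (nat_lit 39305194679) (nat_lit 228) (nat_lit 948306846) (nat_lit 76) (nat_lit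 3228105075) (nat_lit 26) (nat_lit 5) (nat_lit 29) (nat_lit 5) (nat_lit 27) (nat_lit 4) (nat_lit 372) (nat_lit 277) (nat_lit 131)) (XT.lf (nat_lit 0) (nat_lit 1638998873) (nat_lit 152) (nat_lit 31518280005) (nat_lit 76) (nat_lit 11380195711) (nat_lit 24) (nat_lit 5) (nat_lit 26) (nat_lit 5) (nat_lit 25) (nat_lit 5) (nat_lit 373) (nat_lit 277) (nat_lit 130)))) (XT.nd (nat_lit 78) (nat_lit 152) (nat_lit 0) (XT.lf (nat_lit 0) (nat_lit 7548454137) (nat_lit 152) (nat_lit 18251608508) (nat_lit 76) (nat_lit 19823613249) (nat_lit 24) (nat_lit 5) (nat_lit 26) (nat_lit 5) (nat_lit 25) (nat_lit 5) (nat_lit 374) (nat_lit 277) (nat_lit 129)) (XT.nd (nat_lit 78) (nat_lit 152) (nat_lit 0) (XT.lf (nat_lit 0) (nat_lit 13629225135) (nat_lit 152) (nat_lit 4597220520) (nat_lit 76) (nat_lit 28516200028) (nat_lit 24) (nat_lit 5) (nat_lit 26) (nat_lit 5) (nat_lit 25) (nat_lit 5) (nat_lit 375) (nat_lit 277) (nat_lit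 128)) (XT.lf (nat_lit 0) (nat_lit 9645024138) (nat_lit 152) (nat_lit 10334314897) (nat_lit 228) (nat_lit 27913241246) (nat_lit 22) (nat_lit 5) (nat_lit 24) (nat_lit 5) (nat_lit 25) (nat_lit 5) (nat_lit 376) (nat_lit 277) (nat_lit 127))))) (XT.nd (nat_lit 234) (nat_lit 228) (nat_lit 0) (XT.nd (nat_lit 78) (nat_lit 76) (nat_lit 0) (XT.lf (nat_lit 0) (nat_lit 24398888403) (nat_lit 152) (nat_lit 2161770488) (nat_lit 228) (nat_lit 22515136161) (nat_lit 22) (nat_lit 5) (nat_lit 24) (nat_lit 5) (nat_lit 25) (nat_lit 5) (nat_lit 377) (nat_lit 277) (nat_lit 126)) (XT.nd (nat_lit 78) (nat_lit 76) (nat_lit 0) (XT.lf (nat_lit 0) (nat_lit 33393961725) (nat_lit 228) (nat_lit 10769002843) (nat_lit 76) (nat_lit 6129908516) (nat_lit 22) (nat_lit 5) (nat_lit 25) (nat_lit 5) (nat_lit 23) (nat_lit 4) (nat_lit 378) (nat_lit 277) (nat_lit 125)) (XT.lf (nat_lit 0) (nat_lit 3595448789) (nat_lit 76) (nat_lit 36887350430)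 (nat_lit 152) (nat_lit 11062151199) (nat_lit 21) (nat_lit 5) (nat_lit 22) (nat_lit 5) (nat_lit 23) (nat_lit 4) (nat_lit 379) (nat_lit 277) (nat_lit 124)))) (XT.nd (nat_lit 156) (nat_lit 152) (nat_lit 0) (XT.nd (nat_lit 78) (nat_lit 76) (nat_lit 0) (XT.lf (nat_lit 0) (nat_lit 18602234799) (nat_lit 76) (nat_lit 29285451345) (nat_lit 152) (nat_lit 4943805338) (nat_lit 21) (nat_lit 5) (nat_lit 22) (nat_lit 5) (nat_lit 23) (nat_lit 4) (nat_lit 380) (nat_lit 277) (nat_lit 123)) (XT.lf (nat_lit 0) (nat_lit 1326329970) (nat_lit 152) (nat_lit 20119647387) (nat_lit 76) (nat_lit 32710420337) (nat_lit 20) (nat_lit 5) (nat_lit 22) (nat_lit 5) (nat_lit 21) (nat_lit 5) (nat_lit 381) (nat_lit 277) (nat_lit 122))) (XT.nd (nat_lit 78) (nat_lit 152) (nat_lit 0) (XT.lf (nat_lit 0) (nat_lit 7680097258) (nat_lit 152) (nat_lit 5644618959) (nat_lit 76) (nat_lit 42195022305) (nat_lit 20) (nat_lit 5) (nat_lit 22) (nat_lit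 5) (nat_lit 21) (nat_lit 5) (nat_lit 382) (nat_lit 277) (nat_lit 121)) (XT.lf (nat_lit 0) (nat_lit 9440212102) (nat_lit 152) (nat_lit 4870052799) (nat_lit 228) (nat_lit 42611143664) (nat_lit 18) (nat_lit 5) (nat_lit 20) (nat_lit 5) (nat_lit 21) (nat_lit 5) (nat_lit 383) (nat_lit 277) (nat_lit 120)))))) (XT.nd (nat_lit 468) (nat_lit 304) (nat_lit 0) (XT.nd (nat_lit 234) (nat_lit 76) (nat_lit 0) (XT.nd (nat_lit 78) (nat_lit 0) (nat_lit 0) (XT.lf (nat_lit 0) (nat_lit 21228865957) (nat_lit 228) (nat_lit 33316271318) (nat_lit 76) (nat_lit 3817308119) (nat_lit 18) (nat_lit 5) (nat_lit 21) (nat_lit 5) (nat_lit 19) (nat_lit 4) (nat_lit 384) (nat_lit 277) (nat_lit 119)) (XT.nd (nat_lit 78) (nat_lit 0) (nat_lit 0) (XT.lf (nat_lit 0) (nat_lit 28398455848) (nat_lit 228) (nat_lit 18783053543) (nat_lit 76) (nat_lit 12663903475) (nat_lit 18) (nat_lit 5) (nat_lit 21) (nat_lit 5) (nat_lit 19) (nat_lit 4) (nat_lit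 385) (nat_lit 277) (nat_lit 118)) (XT.lf (nat_lit 0) (nat_lit 35778485339) (nat_lit 228) (nat_lit 3822030282) (nat_lit 76) (nat_lit 21772495574) (nat_lit 18) (nat_lit 5) (nat_lit 21) (nat_lit 5) (nat_lit 19) (nat_lit 4) (nat_lit 386) (nat_lit 277) (nat_lit 117)))) (XT.nd (nat_lit 78) (nat_lit 0) (nat_lit 0) (XT.lf (nat_lit 0) (nat_lit 11810333345) (nat_lit 76) (nat_lit 31678597803) (nat_lit 152) (nat_lit 19454238183) (nat_lit 17) (nat_lit 5) (nat_lit 18) (nat_lit 5) (nat_lit 19) (nat_lit 4) (nat_lit 387) (nat_lit 277) (nat_lit 116)) (XT.nd (nat_lit 78) (nat_lit 0) (nat_lit 0) (XT.lf (nat_lit 0) (nat_lit 27982141247) (nat_lit 76) (nat_lit 23482687124) (nat_lit 152) (nat_lit 13094581952) (nat_lit 17) (nat_lit 5) (nat_lit 18) (nat_lit 5) (nat_lit 19) (nat_lit 4) (nat_lit 388) (nat_lit 277) (nat_lit 115)) (XT.lf (nat_lit 0) (nat_lit 44631458232) (nat_lit 76) (nat_lit 15044217121) (nat_lit 152) (nat_lit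 6548595193) (nat_lit 17) (nat_lit 5) (nat_lit 18) (nat_lit 5) (nat_lit 19) (nat_lit 4) (nat_lit 389) (nat_lit 277) (nat_lit 114))))) (XT.nd (nat_lit 234) (nat_lit 76) (nat_lit 0) (XT.nd (nat_lit 78) (nat_lit 152) (nat_lit 0) (XT.lf (nat_lit 0) (nat_lit 185745193) (nat_lit 152) (nat_lit 6168193519) (nat_lit 76) (nat_lit 61585211392) (nat_lit 16) (nat_lit 5) (nat_lit 18) (nat_lit 5) (nat_lit 17) (nat_lit 5) (nat_lit 390) (nat_lit 277) (nat_lit 113)) (XT.nd (nat_lit 78) (nat_lit 0) (nat_lit 0) (XT.lf (nat_lit 0) (nat_lit 7107465460) (nat_lit 228) (nat_lit 59888300640) (nat_lit 76) (nat_lit 2704257723) (nat_lit 14) (nat_lit 5) (nat_lit 17) (nat_lit 5) (nat_lit 15) (nat_lit 4) (nat_lit 391) (nat_lit 277) (nat_lit 112)) (XT.lf (nat_lit 0) (nat_lit 14358550193) (nat_lit 228) (nat_lit 45185215464) (nat_lit 76) (nat_lit 11966308655) (nat_lit 14) (nat_lit 5) (nat_lit 17) (nat_lit 5) (nat_lit 15) (nat_lit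 4) (nat_lit 392) (nat_lit 277) (nat_lit 111)))) (XT.nd (nat_lit 156) (nat_lit 76) (nat_lit 0) (XT.nd (nat_lit 78) (nat_lit 0) (nat_lit 0) (XT.lf (nat_lit 0) (nat_lit 21823186120) (nat_lit 228) (nat_lit 30048137377) (nat_lit 76) (nat_lit 21503224145) (nat_lit 14) (nat_lit 5) (nat_lit 17) (nat_lit 5) (nat_lit 15) (nat_lit 4) (nat_lit 393) (nat_lit 277) (nat_lit 110)) (XT.lf (nat_lit 0) (nat_lit 29507895739) (nat_lit 228) (nat_lit 14463839806) (nat_lit 76) (nat_lit 31323337421) (nat_lit 14) (nat_lit 5) (nat_lit 17) (nat_lit 5) (nat_lit 15) (nat_lit 4) (nat_lit 394) (nat_lit 277) (nat_lit 109))) (XT.nd (nat_lit 78) (nat_lit 0) (nat_lit 0) (XT.lf (nat_lit 0) (nat_lit 1612765459) (nat_lit 76) (nat_lit 35822131275) (nat_lit 152) (nat_lit 39837966592) (nat_lit 13) (nat_lit 5) (nat_lit 14) (nat_lit 5) (nat_lit 15) (nat_lit 4) (nat_lit 395) (nat_lit 277) (nat_lit 108)) (XT.lf (nat_lit 0) (nat_lit 18461536932)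 (nat_lit 76) (nat_lit 27280520054) (nat_lit 152) (nat_lit 33563661660) (nat_lit 13) (nat_lit 5) (nat_lit 14) (nat_lit 5) (nat_lit 15) (nat_lit 4) (nat_lit 396) (nat_lit 277) (nat_lit 107))))))) (XT.nd (nat_lit 31902) (nat_lit 0) (nat_lit 13072) (XT.nd (nat_lit 31356) (nat_lit 0) (nat_lit 15808) (XT.nd (nat_lit 234) (nat_lit 152) (nat_lit 0) (XT.nd (nat_lit 78) (nat_lit 0) (nat_lit 0) (XT.lf (nat_lit 0) (nat_lit 35809338066) (nat_lit 76) (nat_lit 18485494761) (nat_lit 152) (nat_lit 27104836451) (nat_lit 13) (nat_lit 5) (nat_lit 14) (nat_lit 5) (nat_lit 15) (nat_lit 4) (nat_lit 397) (nat_lit 277) (nat_lit 106)) (XT.nd (nat_lit 78) (nat_lit 0) (nat_lit 0) (XT.lf (nat_lit 0) (nat_lit 53671327136) (nat_lit 76) (nat_lit 9429370423) (nat_lit 152) (nat_lit 20455847331) (nat_lit 13) (nat_lit 5) (nat_lit 14) (nat_lit 5) (nat_lit 15) (nat_lit 4) (nat_lit 398) (nat_lit 277) (nat_lit 105)) (XT.lf (nat_lit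 0) (nat_lit 72063111703) (nat_lit 76) (nat_lit 104233920) (nat_lit 152) (nat_lit 13610884504) (nat_lit 13) (nat_lit 5) (nat_lit 14) (nat_lit 5) (nat_lit 15) (nat_lit 4) (nat_lit 399) (nat_lit 277) (nat_lit 104)))) (XT.nd (nat_lit 78) (nat_lit 76) (nat_lit 0) (XT.lf (nat_lit 0) (nat_lit 2899371988) (nat_lit 76) (nat_lit 78722499076) (nat_lit 76) (nat_lit 6441220054) (nat_lit 12) (nat_lit 4) (nat_lit 13) (nat_lit 5) (nat_lit 13) (nat_lit 4) (nat_lit 400) (nat_lit 277) (nat_lit 103)) (XT.nd (nat_lit 78) (nat_lit 0) (nat_lit 0) (XT.lf (nat_lit 0) (nat_lit 1062708898) (nat_lit 152) (nat_lit 70136344441) (nat_lit 76) (nat_lit 19213046361) (nat_lit 11) (nat_lit 5) (nat_lit 13) (nat_lit 5) (nat_lit 12) (nat_lit 4) (nat_lit 401) (nat_lit 277) (nat_lit 102)) (XT.lf (nat_lit 0) (nat_lit 8659077314) (nat_lit 152) (nat_lit 54727720908) (nat_lit 76) (nat_lit 29442964975) (nat_lit 11) (nat_lit 5) (nat_lit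 13) (nat_lit 5) (nat_lit 12) (nat_lit 4) (nat_lit 402) (nat_lit 277) (nat_lit 101))))) (XT.nd (nat_lit 234) (nat_lit 912) (nat_lit 0) (XT.nd (nat_lit 78) (nat_lit 0) (nat_lit 0) (XT.lf (nat_lit 0) (nat_lit 942527900) (nat_lit 0) (nat_lit 942527900) (nat_lit 836) (nat_lit 2041338203) (nat_lit 231) (nat_lit 5) (nat_lit 231) (nat_lit 3) (nat_lit 242) (nat_lit 3) (nat_lit 278) (nat_lit 278) (nat_lit 224)) (XT.nd (nat_lit 78) (nat_lit 0) (nat_lit 0) (XT.lf (nat_lit 0) (nat_lit 5019607452) (nat_lit 836) (nat_lit 2450357661) (nat_lit 912) (nat_lit 462636831) (nat_lit 231) (nat_lit 5) (nat_lit 242) (nat_lit 3) (nat_lit 243) (nat_lit 5) (nat_lit 279) (nat_lit 278) (nat_lit 223)) (XT.lf (nat_lit 76) (nat_lit 1151453296) (nat_lit 0) (nat_lit 5138709930) (nat_lit 912) (nat_lit 1725225272) (nat_lit 232) (nat_lit 5) (nat_lit 231) (nat_lit 5) (nat_lit 243) (nat_lit 5) (nat_lit 280) (nat_lit 278) (nat_lit 222))))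 (XT.nd (nat_lit 156) (nat_lit 0) (nat_lit 76) (XT.nd (nat_lit 78) (nat_lit 912) (nat_lit 0) (XT.lf (nat_lit 76) (nat_lit 4886902623) (nat_lit 0) (nat_lit 2691626993) (nat_lit 912) (nat_lit 522821179) (nat_lit 232) (nat_lit 5) (nat_lit 231) (nat_lit 5) (nat_lit 243) (nat_lit 5) (nat_lit 281) (nat_lit 278) (nat_lit 221)) (XT.lf (nat_lit 76) (nat_lit 522962121) (nat_lit 0) (nat_lit 139505182) (nat_lit 988) (nat_lit 7528473161) (nat_lit 220) (nat_lit 5) (nat_lit 219) (nat_lit 5) (nat_lit 232) (nat_lit 5) (nat_lit 282) (nat_lit 278) (nat_lit 220))) (XT.nd (nat_lit 78) (nat_lit 0) (nat_lit 0) (XT.lf (nat_lit 0) (nat_lit 1886495332) (nat_lit 912) (nat_lit 3899474762) (nat_lit 988) (nat_lit 2496757685) (nat_lit 220) (nat_lit 5) (nat_lit 232) (nat_lit 5) (nat_lit 233) (nat_lit 5) (nat_lit 283) (nat_lit 278) (nat_lit 219)) (XT.lf (nat_lit 0) (nat_lit 3106858985) (nat_lit 912) (nat_lit 44727542) (nat_lit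 988) (nat_lit 5226967457) (nat_lit 220) (nat_lit 5) (nat_lit 232) (nat_lit 5) (nat_lit 233) (nat_lit 5) (nat_lit 284) (nat_lit 278) (nat_lit 218)))))) (XT.nd (nat_lit 468) (nat_lit 1976) (nat_lit 0) (XT.nd (nat_lit 234) (nat_lit 836) (nat_lit 0) (XT.nd (nat_lit 78) (nat_lit 0) (nat_lit 76) (XT.lf (nat_lit 76) (nat_lit 3978609553) (nat_lit 0) (nat_lit 382918865) (nat_lit 988) (nat_lit 4115867276) (nat_lit 221) (nat_lit 5) (nat_lit 220) (nat_lit 5) (nat_lit 233) (nat_lit 5) (nat_lit 285) (nat_lit 278) (nat_lit 217)) (XT.nd (nat_lit 78) (nat_lit 0) (nat_lit 0) (XT.lf (nat_lit 0) (nat_lit 5638567565) (nat_lit 912) (nat_lit 505212423) (nat_lit 988) (nat_lit 2435950258) (nat_lit 221) (nat_lit 5) (nat_lit 233) (nat_lit 5) (nat_lit 234) (nat_lit 5) (nat_lit 286) (nat_lit 278) (nat_lit 216)) (XT.lf (nat_lit 76) (nat_lit 3650514065) (nat_lit 0) (nat_lit 3303977135) (nat_lit 988) (nat_lit 1730693892) (nat_lit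 222) (nat_lit 5) (nat_lit 221) (nat_lit 5) (nat_lit 234) (nat_lit 5) (nat_lit 287) (nat_lit 278) (nat_lit 215)))) (XT.nd (nat_lit 78) (nat_lit 912) (nat_lit 0) (XT.lf (nat_lit 76) (nat_lit 7916416922) (nat_lit 0) (nat_lit 361145247) (nat_lit 988) (nat_lit 517276818) (nat_lit 222) (nat_lit 5) (nat_lit 221) (nat_lit 5) (nat_lit 234) (nat_lit 5) (nat_lit 288) (nat_lit 278) (nat_lit 214)) (XT.nd (nat_lit 78) (nat_lit 0) (nat_lit 0) (XT.lf (nat_lit 0) (nat_lit 740705032) (nat_lit 988) (nat_lit 5496288753) (nat_lit 1064) (nat_lit 2669965493) (nat_lit 209) (nat_lit 5) (nat_lit 222) (nat_lit 5) (nat_lit 223) (nat_lit 5) (nat_lit 289) (nat_lit 278) (nat_lit 213)) (XT.lf (nat_lit 0) (nat_lit 2002741263) (nat_lit 988) (nat_lit 1210442502) (nat_lit 1064) (nat_lit 5809864350) (nat_lit 209) (nat_lit 5) (nat_lit 222) (nat_lit 5) (nat_lit 223) (nat_lit 5) (nat_lit 290) (nat_lit 278) (nat_lit 212))))) (XT.nd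 (nat_lit 234) (nat_lit 1976) (nat_lit 0) (XT.nd (nat_lit 78) (nat_lit 0) (nat_lit 76) (XT.lf (nat_lit 76) (nat_lit 3242075704) (nat_lit 0) (nat_lit 56948874) (nat_lit 1064) (nat_lit 5843761649) (nat_lit 210) (nat_lit 5) (nat_lit 209) (nat_lit 5) (nat_lit 223) (nat_lit 5) (nat_lit 291) (nat_lit 278) (nat_lit 211)) (XT.nd (nat_lit 78) (nat_lit 0) (nat_lit 0) (XT.lf (nat_lit 0) (nat_lit 4643324851) (nat_lit 988) (nat_lit 1469676131) (nat_lit 1064) (nat_lit 3152898139) (nat_lit 210) (nat_lit 5) (nat_lit 223) (nat_lit 5) (nat_lit 224) (nat_lit 5) (nat_lit 292) (nat_lit 278) (nat_lit 210)) (XT.lf (nat_lit 76) (nat_lit 3129467142) (nat_lit 0) (nat_lit 2896203019) (nat_lit 1064) (nat_lit 3367158610) (nat_lit 211) (nat_lit 5) (nat_lit 210) (nat_lit 5) (nat_lit 224) (nat_lit 5) (nat_lit 293) (nat_lit 278) (nat_lit 209)))) (XT.nd (nat_lit 156) (nat_lit 1140) (nat_lit 0) (XT.nd (nat_lit 78) (nat_lit 988)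 (nat_lit 0) (XT.lf (nat_lit 0) (nat_lit 7436339511) (nat_lit 988) (nat_lit 1656731185) (nat_lit 76) (nat_lit 430943254) (nat_lit 211) (nat_lit 5) (nat_lit 224) (nat_lit 5) (nat_lit 212) (nat_lit 5) (nat_lit 294) (nat_lit 278) (nat_lit 208)) (XT.lf (nat_lit 0) (nat_lit 3094402545) (nat_lit 988) (nat_lit 5822139667) (nat_lit 1064) (nat_lit 741827775) (nat_lit 198) (nat_lit 5) (nat_lit 211) (nat_lit 5) (nat_lit 212) (nat_lit 5) (nat_lit 295) (nat_lit 278) (nat_lit 207))) (XT.nd (nat_lit 78) (nat_lit 1064) (nat_lit 0) (XT.lf (nat_lit 0) (nat_lit 617823476) (nat_lit 1064) (nat_lit 1806400887) (nat_lit 76) (nat_lit 7372815136) (nat_lit 197) (nat_lit 5) (nat_lit 211) (nat_lit 5) (nat_lit 198) (nat_lit 5) (nat_lit 296) (nat_lit 278) (nat_lit 206)) (XT.lf (nat_lit 0) (nat_lit 2014133660) (nat_lit 1140) (nat_lit 6828040704) (nat_lit 76) (nat_lit 1097198318) (nat_lit 183) (nat_lit 5) (nat_lit 198) (nat_lit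 5) (nat_lit 184) (nat_lit 5) (nat_lit 297) (nat_lit 278) (nat_lit 205))))))))
noncomputable def xc153 : XT := (XT.nd (nat_lit 2028) (nat_lit 3420) (nat_lit 0) (XT.nd (nat_lit 1014) (nat_lit 3040) (nat_lit 0) (XT.nd (nat_lit 468) (nat_lit 1596) (nat_lit 0) (XT.nd (nat_lit 234) (nat_lit 1216) (nat_lit 0) (XT.nd (nat_lit 78) (nat_lit 1140) (nat_lit 0) (XT.lf (nat_lit 0) (nat_lit 3465443686) (nat_lit 1140) (nat_lit 1921775490) (nat_lit 76) (nat_lit 4698409304) (nat_lit 183) (nat_lit 5) (nat_lit 198) (nat_lit 5) (nat_lit 184) (nat_lit 5) (nat_lit 298) (nat_lit 278) (nat_lit 204)) (XT.nd (nat_lit 78) (nat_lit 0) (nat_lit 0) (XT.lf (nat_lit 0) (nat_lit 3168466739) (nat_lit 1140) (nat_lit 1793823904) (nat_lit 1216) (nat_lit 5273965977) (nat_lit 168) (nat_lit 5) (nat_lit 183) (nat_lit 5) (nat_lit 184) (nat_lit 5) (nat_lit 299) (nat_lit 278) (nat_lit 203)) (XT.lf (nat_lit 0) (nat_lit 6514136693) (nat_lit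 1216) (nat_lit 1984240238) (nat_lit 76) (nat_lit 1892767160) (nat_lit 168) (nat_lit 5) (nat_lit 184) (nat_lit 5) (nat_lit 169) (nat_lit 5) (nat_lit 300) (nat_lit 278) (nat_lit 202)))) (XT.nd (nat_lit 78) (nat_lit 684) (nat_lit 0) (XT.lf (nat_lit 0) (nat_lit 3272968700) (nat_lit 532) (nat_lit 4861763233) (nat_lit 608) (nat_lit 2415322475) (nat_lit 161) (nat_lit 5) (nat_lit 168) (nat_lit 5) (nat_lit 169) (nat_lit 5) (nat_lit 301) (nat_lit 278) (nat_lit 201)) (XT.nd (nat_lit 78) (nat_lit 684) (nat_lit 0) (XT.lf (nat_lit 0) (nat_lit 8703859563) (nat_lit 532) (nat_lit 1093643523) (nat_lit 608) (nat_lit 916463021) (nat_lit 161) (nat_lit 5) (nat_lit 168) (nat_lit 5) (nat_lit 169) (nat_lit 5) (nat_lit 302) (nat_lit 278) (nat_lit 200)) (XT.lf (nat_lit 0) (nat_lit 649496110) (nat_lit 684) (nat_lit 7457974758) (nat_lit 76) (nat_lit 2774150560) (nat_lit 152) (nat_lit 5) (nat_lit 161) (nat_lit 5) (nat_lit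 153) (nat_lit 5) (nat_lit 303) (nat_lit 278) (nat_lit 199))))) (XT.nd (nat_lit 234) (nat_lit 1064) (nat_lit 0) (XT.nd (nat_lit 78) (nat_lit 532) (nat_lit 0) (XT.lf (nat_lit 0) (nat_lit 2249875191) (nat_lit 684) (nat_lit 2037300658) (nat_lit 76) (nat_lit 6766719857) (nat_lit 152) (nat_lit 5) (nat_lit 161) (nat_lit 5) (nat_lit 153) (nat_lit 5) (nat_lit 304) (nat_lit 278) (nat_lit 198)) (XT.nd (nat_lit 78) (nat_lit 0) (nat_lit 0) (XT.lf (nat_lit 0) (nat_lit 3591694272) (nat_lit 532) (nat_lit 316372581) (nat_lit 608) (nat_lit 7323013586) (nat_lit 145) (nat_lit 5) (nat_lit 152) (nat_lit 5) (nat_lit 153) (nat_lit 5) (nat_lit 305) (nat_lit 278) (nat_lit 197)) (XT.lf (nat_lit 0) (nat_lit 5648818925) (nat_lit 608) (nat_lit 2043029577) (nat_lit 76) (nat_lit 3720782976) (nat_lit 145) (nat_lit 5) (nat_lit 153) (nat_lit 5) (nat_lit 146) (nat_lit 5) (nat_lit 306) (nat_lit 278) (nat_lit 196)))) (XT.nd (nat_lit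 156) (nat_lit 532) (nat_lit 0) (XT.nd (nat_lit 78) (nat_lit 0) (nat_lit 0) (XT.lf (nat_lit 0) (nat_lit 3767416360) (nat_lit 532) (nat_lit 3690194710) (nat_lit 608) (nat_lit 4141577633) (nat_lit 138) (nat_lit 5) (nat_lit 145) (nat_lit 5) (nat_lit 146) (nat_lit 5) (nat_lit 307) (nat_lit 278) (nat_lit 195)) (XT.lf (nat_lit 0) (nat_lit 9322566897) (nat_lit 608) (nat_lit 2025684865) (nat_lit 76) (nat_lit 443067070) (nat_lit 138) (nat_lit 5) (nat_lit 146) (nat_lit 5) (nat_lit 139) (nat_lit 5) (nat_lit 308) (nat_lit 278) (nat_lit 194))) (XT.nd (nat_lit 78) (nat_lit 76) (nat_lit 0) (XT.lf (nat_lit 0) (nat_lit 3971602587) (nat_lit 456) (nat_lit 7324172314) (nat_lit 532) (nat_lit 691901076) (nat_lit 132) (nat_lit 5) (nat_lit 138) (nat_lit 5) (nat_lit 139) (nat_lit 5) (nat_lit 309) (nat_lit 278) (nat_lit 193)) (XT.lf (nat_lit 0) (nat_lit 1114467727) (nat_lit 532) (nat_lit 2034305533) (nat_lit 76) (nat_lit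 9040899980) (nat_lit 131) (nat_lit 5) (nat_lit 138) (nat_lit 5) (nat_lit 132) (nat_lit 5) (nat_lit 310) (nat_lit 278) (nat_lit 192)))))) (XT.nd (nat_lit 468) (nat_lit 1596) (nat_lit 0) (XT.nd (nat_lit 234) (nat_lit 532) (nat_lit 0) (XT.nd (nat_lit 78) (nat_lit 456) (nat_lit 0) (XT.lf (nat_lit 0) (nat_lit 2991217089) (nat_lit 532) (nat_lit 8230402149) (nat_lit 76) (nat_lit 1175032272) (nat_lit 125) (nat_lit 5) (nat_lit 132) (nat_lit 5) (nat_lit 126) (nat_lit 5) (nat_lit 311) (nat_lit 278) (nat_lit 191)) (XT.nd (nat_lit 78) (nat_lit 456) (nat_lit 0) (XT.lf (nat_lit 0) (nat_lit 4954989649) (nat_lit 532) (nat_lit 2069974066) (nat_lit 76) (nat_lit 5583982416) (nat_lit 125) (nat_lit 5) (nat_lit 132) (nat_lit 5) (nat_lit 126) (nat_lit 5) (nat_lit 312) (nat_lit 278) (nat_lit 190)) (XT.lf (nat_lit 0) (nat_lit 4336693285) (nat_lit 456) (nat_lit 2662085414) (nat_lit 532) (nat_lit 5828225583) (nat_lit 119)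 (nat_lit 5) (nat_lit 125) (nat_lit 5) (nat_lit 126) (nat_lit 5) (nat_lit 313) (nat_lit 278) (nat_lit 189)))) (XT.nd (nat_lit 78) (nat_lit 532) (nat_lit 0) (XT.lf (nat_lit 0) (nat_lit 9122366775) (nat_lit 532) (nat_lit 2114375372) (nat_lit 76) (nat_lit 1814334453) (nat_lit 119) (nat_lit 5) (nat_lit 126) (nat_lit 5) (nat_lit 120) (nat_lit 5) (nat_lit 314) (nat_lit 278) (nat_lit 188)) (XT.nd (nat_lit 78) (nat_lit 76) (nat_lit 0) (XT.lf (nat_lit 0) (nat_lit 4491230650) (nat_lit 456) (nat_lit 6868319342) (nat_lit 532) (nat_lit 1920850665) (nat_lit 113) (nat_lit 5) (nat_lit 119) (nat_lit 5) (nat_lit 120) (nat_lit 5) (nat_lit 315) (nat_lit 278) (nat_lit 187)) (XT.lf (nat_lit 0) (nat_lit 146429523) (nat_lit 532) (nat_lit 2202322148) (nat_lit 76) (nat_lit 11167773241) (nat_lit 112) (nat_lit 5) (nat_lit 119) (nat_lit 5) (nat_lit 113) (nat_lit 5) (nat_lit 316) (nat_lit 278) (nat_lit 186))))) (XT.nd (nat_lit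 234) (nat_lit 836) (nat_lit 0) (XT.nd (nat_lit 78) (nat_lit 380) (nat_lit 0) (XT.lf (nat_lit 0) (nat_lit 2285468055) (nat_lit 456) (nat_lit 9150110083) (nat_lit 76) (nat_lit 2322157766) (nat_lit 107) (nat_lit 5) (nat_lit 113) (nat_lit 5) (nat_lit 108) (nat_lit 5) (nat_lit 317) (nat_lit 278) (nat_lit 185)) (XT.nd (nat_lit 78) (nat_lit 380) (nat_lit 0) (XT.lf (nat_lit 0) (nat_lit 4515759939) (nat_lit 456) (nat_lit 2384707274) (nat_lit 76) (nat_lit 7104926820) (nat_lit 107) (nat_lit 5) (nat_lit 113) (nat_lit 5) (nat_lit 108) (nat_lit 5) (nat_lit 318) (nat_lit 278) (nat_lit 184)) (XT.lf (nat_lit 0) (nat_lit 4652370529) (nat_lit 380) (nat_lit 2187222069) (nat_lit 456) (nat_lit 7420112945) (nat_lit 102) (nat_lit 5) (nat_lit 107) (nat_lit 5) (nat_lit 108) (nat_lit 5) (nat_lit 319) (nat_lit 278) (nat_lit 183)))) (XT.nd (nat_lit 156) (nat_lit 456) (nat_lit 0) (XT.nd (nat_lit 78) (nat_lit 380) (nat_lit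 0) (XT.lf (nat_lit 0) (nat_lit 9265288539) (nat_lit 456) (nat_lit 2619729525) (nat_lit 76) (nat_lit 2635685824) (nat_lit 102) (nat_lit 5) (nat_lit 108) (nat_lit 5) (nat_lit 103) (nat_lit 5) (nat_lit 320) (nat_lit 278) (nat_lit 182)) (XT.lf (nat_lit 0) (nat_lit 4624367026) (nat_lit 380) (nat_lit 7188203166) (nat_lit 456) (nat_lit 2975518847) (nat_lit 97) (nat_lit 5) (nat_lit 102) (nat_lit 5) (nat_lit 103) (nat_lit 5) (nat_lit 321) (nat_lit 278) (nat_lit 181))) (XT.nd (nat_lit 78) (nat_lit 456) (nat_lit 0) (XT.lf (nat_lit 0) (nat_lit 12117981803) (nat_lit 380) (nat_lit 2327746496) (nat_lit 456) (nat_lit 617504383) (nat_lit 97) (nat_lit 5) (nat_lit 102) (nat_lit 5) (nat_lit 103) (nat_lit 5) (nat_lit 322) (nat_lit 278) (nat_lit 180)) (XT.lf (nat_lit 0) (nat_lit 1829169228) (nat_lit 456) (nat_lit 10831909420) (nat_lit 76) (nat_lit 2683451273) (nat_lit 91) (nat_lit 5) (nat_lit 97) (nat_lit 5) (nat_lit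 92) (nat_lit 5) (nat_lit 323) (nat_lit 278) (nat_lit 179))))))) (XT.nd (nat_lit 1014) (nat_lit 1444) (nat_lit 0) (XT.nd (nat_lit 468) (nat_lit 912) (nat_lit 0) (XT.nd (nat_lit 234) (nat_lit 760) (nat_lit 0) (XT.nd (nat_lit 78) (nat_lit 304) (nat_lit 0) (XT.lf (nat_lit 0) (nat_lit 4373469800) (nat_lit 456) (nat_lit 3429716459) (nat_lit 76) (nat_lit 7829816184) (nat_lit 91) (nat_lit 5) (nat_lit 97) (nat_lit 5) (nat_lit 92) (nat_lit 5) (nat_lit 324) (nat_lit 278) (nat_lit 178)) (XT.nd (nat_lit 78) (nat_lit 0) (nat_lit 0) (XT.lf (nat_lit 0) (nat_lit 4256742561) (nat_lit 304) (nat_lit 2762309472) (nat_lit 380) (nat_lit 8910346903) (nat_lit 87) (nat_lit 5) (nat_lit 91) (nat_lit 5) (nat_lit 92) (nat_lit 5) (nat_lit 325) (nat_lit 278) (nat_lit 177)) (XT.lf (nat_lit 0) (nat_lit 9786587693) (nat_lit 380) (nat_lit 4034347409) (nat_lit 76) (nat_lit 2412492482) (nat_lit 87) (nat_lit 5) (nat_lit 92) (nat_lit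 5) (nat_lit 88) (nat_lit 5) (nat_lit 326) (nat_lit 278) (nat_lit 176)))) (XT.nd (nat_lit 78) (nat_lit 380) (nat_lit 0) (XT.lf (nat_lit 0) (nat_lit 3860609512) (nat_lit 380) (nat_lit 8825711679) (nat_lit 456) (nat_lit 3858798065) (nat_lit 82) (nat_lit 5) (nat_lit 87) (nat_lit 5) (nat_lit 88) (nat_lit 5) (nat_lit 327) (nat_lit 278) (nat_lit 175)) (XT.nd (nat_lit 78) (nat_lit 380) (nat_lit 0) (XT.lf (nat_lit 0) (nat_lit 12054830039) (nat_lit 380) (nat_lit 3643917582) (nat_lit 456) (nat_lit 1166659844) (nat_lit 82) (nat_lit 5) (nat_lit 87) (nat_lit 5) (nat_lit 88) (nat_lit 5) (nat_lit 328) (nat_lit 278) (nat_lit 174)) (XT.lf (nat_lit 0) (nat_lit 1608836219) (nat_lit 380) (nat_lit 13881945201) (nat_lit 76) (nat_lit 1703057426) (nat_lit 77) (nat_lit 5) (nat_lit 82) (nat_lit 5) (nat_lit 78) (nat_lit 5) (nat_lit 329) (nat_lit 278) (nat_lit 173))))) (XT.nd (nat_lit 234) (nat_lit 608) (nat_lit 0) (XT.nd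 (nat_lit 78) (nat_lit 304) (nat_lit 0) (XT.lf (nat_lit 0) (nat_lit 4514713276) (nat_lit 380) (nat_lit 5822333452) (nat_lit 76) (nat_lit 7192628348) (nat_lit 77) (nat_lit 5) (nat_lit 82) (nat_lit 5) (nat_lit 78) (nat_lit 5) (nat_lit 330) (nat_lit 278) (nat_lit 172)) (XT.nd (nat_lit 78) (nat_lit 0) (nat_lit 0) (XT.lf (nat_lit 0) (nat_lit 2508394921) (nat_lit 304) (nat_lit 5009336441) (nat_lit 380) (nat_lit 10357571032) (nat_lit 73) (nat_lit 5) (nat_lit 77) (nat_lit 5) (nat_lit 78) (nat_lit 5) (nat_lit 331) (nat_lit 278) (nat_lit 171)) (XT.lf (nat_lit 0) (nat_lit 10660837953) (nat_lit 380) (nat_lit 7046122802) (nat_lit 76) (nat_lit 522852340) (nat_lit 73) (nat_lit 5) (nat_lit 78) (nat_lit 5) (nat_lit 74) (nat_lit 5) (nat_lit 332) (nat_lit 278) (nat_lit 170)))) (XT.nd (nat_lit 156) (nat_lit 380) (nat_lit 0) (XT.nd (nat_lit 78) (nat_lit 0) (nat_lit 0) (XT.lf (nat_lit 0) (nat_lit 1484424931) (nat_lit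 228) (nat_lit 12464111333) (nat_lit 304) (nat_lit 4644927979) (nat_lit 70) (nat_lit 5) (nat_lit 73) (nat_lit 5) (nat_lit 74) (nat_lit 5) (nat_lit 333) (nat_lit 278) (nat_lit 169)) (XT.lf (nat_lit 0) (nat_lit 10396286669) (nat_lit 228) (nat_lit 6996374964) (nat_lit 304) (nat_lit 1573643081) (nat_lit 70) (nat_lit 5) (nat_lit 73) (nat_lit 5) (nat_lit 74) (nat_lit 5) (nat_lit 334) (nat_lit 278) (nat_lit 168))) (XT.nd (nat_lit 78) (nat_lit 0) (nat_lit 0) (XT.lf (nat_lit 0) (nat_lit 194935600) (nat_lit 304) (nat_lit 1352587954) (nat_lit 380) (nat_lit 17802698307) (nat_lit 65) (nat_lit 5) (nat_lit 69) (nat_lit 5) (nat_lit 70) (nat_lit 5) (nat_lit 335) (nat_lit 278) (nat_lit 167)) (XT.lf (nat_lit 0) (nat_lit 4848011318) (nat_lit 380) (nat_lit 10422781563) (nat_lit 76) (nat_lit 4470889292) (nat_lit 65) (nat_lit 5) (nat_lit 70) (nat_lit 5) (nat_lit 66) (nat_lit 5) (nat_lit 336) (nat_lit 278) (nat_lit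 166)))))) (XT.nd (nat_lit 546) (nat_lit 684) (nat_lit 0) (XT.nd (nat_lit 234) (nat_lit 532) (nat_lit 0) (XT.nd (nat_lit 78) (nat_lit 228) (nat_lit 0) (XT.lf (nat_lit 0) (nat_lit 8248323544) (nat_lit 380) (nat_lit 1460064010) (nat_lit 76) (nat_lit 10436486591) (nat_lit 65) (nat_lit 5) (nat_lit 70) (nat_lit 5) (nat_lit 66) (nat_lit 5) (nat_lit 337) (nat_lit 278) (nat_lit 165)) (XT.nd (nat_lit 78) (nat_lit 0) (nat_lit 0) (XT.lf (nat_lit 0) (nat_lit 7908013628) (nat_lit 228) (nat_lit 3906432512) (nat_lit 304) (nat_lit 8743813499) (nat_lit 62) (nat_lit 5) (nat_lit 65) (nat_lit 5) (nat_lit 66) (nat_lit 5) (nat_lit 338) (nat_lit 278) (nat_lit 164)) (XT.lf (nat_lit 0) (nat_lit 15510252503) (nat_lit 304) (nat_lit 3434559592) (nat_lit 76) (nat_lit 2038565050) (nat_lit 62) (nat_lit 5) (nat_lit 66) (nat_lit 5) (nat_lit 63) (nat_lit 5) (nat_lit 339) (nat_lit 278) (nat_lit 163)))) (XT.nd (nat_lit 156) (nat_lit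 228) (nat_lit 0) (XT.nd (nat_lit 78) (nat_lit 76) (nat_lit 0) (XT.lf (nat_lit 0) (nat_lit 6120905812) (nat_lit 228) (nat_lit 13281810885) (nat_lit 304) (nat_lit 2015969087) (nat_lit 59) (nat_lit 5) (nat_lit 62) (nat_lit 5) (nat_lit 63) (nat_lit 5) (nat_lit 340) (nat_lit 278) (nat_lit 162)) (XT.lf (nat_lit 0) (nat_lit 1538099016) (nat_lit 304) (nat_lit 5865293661) (nat_lit 76) (nat_lit 14462525633) (nat_lit 58) (nat_lit 5) (nat_lit 62) (nat_lit 5) (nat_lit 59) (nat_lit 5) (nat_lit 341) (nat_lit 278) (nat_lit 161))) (XT.nd (nat_lit 78) (nat_lit 0) (nat_lit 0) (XT.lf (nat_lit 0) (nat_lit 3889080807) (nat_lit 228) (nat_lit 1295232586) (nat_lit 304) (nat_lit 17140884491) (nat_lit 55) (nat_lit 5) (nat_lit 58) (nat_lit 5) (nat_lit 59) (nat_lit 5) (nat_lit 342) (nat_lit 278) (nat_lit 160)) (XT.lf (nat_lit 0) (nat_lit 9036527622) (nat_lit 304) (nat_lit 8805912387) (nat_lit 76) (nat_lit 4952927311) (nat_lit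 55) (nat_lit 5) (nat_lit 59) (nat_lit 5) (nat_lit 56) (nat_lit 5) (nat_lit 343) (nat_lit 278) (nat_lit 159))))) (XT.nd (nat_lit 234) (nat_lit 456) (nat_lit 0) (XT.nd (nat_lit 78) (nat_lit 0) (nat_lit 0) (XT.lf (nat_lit 0) (nat_lit 1105302026) (nat_lit 228) (nat_lit 11911554956) (nat_lit 304) (nat_lit 10262417985) (nat_lit 52) (nat_lit 5) (nat_lit 55) (nat_lit 5) (nat_lit 56) (nat_lit 5) (nat_lit 344) (nat_lit 278) (nat_lit 158)) (XT.nd (nat_lit 78) (nat_lit 0) (nat_lit 0) (XT.lf (nat_lit 0) (nat_lit 11477887834) (nat_lit 228) (nat_lit 5716889709) (nat_lit 304) (nat_lit 6580586172) (nat_lit 52) (nat_lit 5) (nat_lit 55) (nat_lit 5) (nat_lit 56) (nat_lit 5) (nat_lit 345) (nat_lit 278) (nat_lit 157)) (XT.lf (nat_lit 0) (nat_lit 21493932979) (nat_lit 304) (nat_lit 2147329017) (nat_lit 76) (nat_lit 645205247) (nat_lit 52) (nat_lit 5) (nat_lit 56) (nat_lit 5) (nat_lit 53) (nat_lit 5) (nat_lit 346)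 (nat_lit 278) (nat_lit 156)))) (XT.nd (nat_lit 156) (nat_lit 228) (nat_lit 0) (XT.nd (nat_lit 78) (nat_lit 0) (nat_lit 0) (XT.lf (nat_lit 0) (nat_lit 1215926848) (nat_lit 228) (nat_lit 16422200363) (nat_lit 76) (nat_lit 7170612991) (nat_lit 49) (nat_lit 5) (nat_lit 52) (nat_lit 5) (nat_lit 50) (nat_lit 5) (nat_lit 347) (nat_lit 278) (nat_lit 155)) (XT.lf (nat_lit 0) (nat_lit 5300275025) (nat_lit 228) (nat_lit 6109298953) (nat_lit 76) (nat_lit 13935933364) (nat_lit 49) (nat_lit 5) (nat_lit 52) (nat_lit 5) (nat_lit 50) (nat_lit 5) (nat_lit 348) (nat_lit 278) (nat_lit 154))) (XT.nd (nat_lit 78) (nat_lit 0) (nat_lit 0) (XT.lf (nat_lit 0) (nat_lit 4587114730) (nat_lit 228) (nat_lit 4954290254) (nat_lit 304) (nat_lit 16355953002) (nat_lit 46) (nat_lit 5) (nat_lit 49) (nat_lit 5) (nat_lit 50) (nat_lit 5) (nat_lit 349) (nat_lit 278) (nat_lit 153)) (XT.lf (nat_lit 0) (nat_lit 13978605864) (nat_lit 304)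 (nat_lit 10766639522) (nat_lit 76) (nat_lit 1718461450) (nat_lit 46) (nat_lit 5) (nat_lit 50) (nat_lit 5) (nat_lit 47) (nat_lit 5) (nat_lit 350) (nat_lit 278) (nat_lit 152))))))))
noncomputable def xc154 : XT := (XT.nd (nat_lit 2028) (nat_lit 988) (nat_lit 0) (XT.nd (nat_lit 1014) (nat_lit 684) (nat_lit 0) (XT.nd (nat_lit 468) (nat_lit 532) (nat_lit 0) (XT.nd (nat_lit 234) (nat_lit 228) (nat_lit 0) (XT.nd (nat_lit 78) (nat_lit 76) (nat_lit 0) (XT.lf (nat_lit 0) (nat_lit 29771031) (nat_lit 152) (nat_lit 18559018682) (nat_lit 228) (nat_lit 8457068000) (nat_lit 44) (nat_lit 5) (nat_lit 46) (nat_lit 5) (nat_lit 47) (nat_lit 5) (nat_lit 351) (nat_lit 278) (nat_lit 151)) (XT.nd (nat_lit 78) (nat_lit 76) (nat_lit 0) (XT.lf (nat_lit 0) (nat_lit 11355896954) (nat_lit 152) (nat_lit 12080765270) (nat_lit 228) (nat_lit 4205836747) (nat_lit 44) (nat_lit 5) (nat_lit 46) (nat_lit 5) (nat_lit 47) (nat_lit 5)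 (nat_lit 352) (nat_lit 278) (nat_lit 150)) (XT.lf (nat_lit 0) (nat_lit 160393365) (nat_lit 228) (nat_lit 5251533467) (nat_lit 76) (nat_lit 22845344599) (nat_lit 43) (nat_lit 5) (nat_lit 46) (nat_lit 5) (nat_lit 44) (nat_lit 5) (nat_lit 353) (nat_lit 278) (nat_lit 149)))) (XT.nd (nat_lit 78) (nat_lit 0) (nat_lit 0) (XT.lf (nat_lit 0) (nat_lit 4638534575) (nat_lit 304) (nat_lit 22723370229) (nat_lit 76) (nat_lit 1525376007) (nat_lit 40) (nat_lit 5) (nat_lit 44) (nat_lit 5) (nat_lit 41) (nat_lit 5) (nat_lit 354) (nat_lit 278) (nat_lit 148)) (XT.nd (nat_lit 78) (nat_lit 0) (nat_lit 0) (XT.lf (nat_lit 0) (nat_lit 9349334941) (nat_lit 304) (nat_lit 11573530219) (nat_lit 76) (nat_lit 8610382395) (nat_lit 40) (nat_lit 5) (nat_lit 44) (nat_lit 5) (nat_lit 41) (nat_lit 5) (nat_lit 355) (nat_lit 278) (nat_lit 147)) (XT.lf (nat_lit 0) (nat_lit 14192892563) (nat_lit 304) (nat_lit 103070162) (nat_lit 76)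 (nat_lit 15902893918) (nat_lit 40) (nat_lit 5) (nat_lit 44) (nat_lit 5) (nat_lit 41) (nat_lit 5) (nat_lit 356) (nat_lit 278) (nat_lit 146))))) (XT.nd (nat_lit 234) (nat_lit 228) (nat_lit 0) (XT.nd (nat_lit 78) (nat_lit 152) (nat_lit 0) (XT.lf (nat_lit 0) (nat_lit 11930846460) (nat_lit 152) (nat_lit 7357279811) (nat_lit 228) (nat_lit 11593122807) (nat_lit 38) (nat_lit 5) (nat_lit 40) (nat_lit 5) (nat_lit 41) (nat_lit 5) (nat_lit 357) (nat_lit 278) (nat_lit 145)) (XT.nd (nat_lit 78) (nat_lit 152) (nat_lit 0) (XT.lf (nat_lit 0) (nat_lit 24314554465) (nat_lit 152) (nat_lit 214500122) (nat_lit 228) (nat_lit 7055279546) (nat_lit 38) (nat_lit 5) (nat_lit 40) (nat_lit 5) (nat_lit 41) (nat_lit 5) (nat_lit 358) (nat_lit 278) (nat_lit 144)) (XT.lf (nat_lit 0) (nat_lit 4772586393) (nat_lit 152) (nat_lit 25261147852) (nat_lit 228) (nat_lit 2271587591) (nat_lit 36) (nat_lit 5) (nat_lit 38) (nat_lit 5) (nat_lit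 39) (nat_lit 5) (nat_lit 359) (nat_lit 278) (nat_lit 143)))) (XT.nd (nat_lit 156) (nat_lit 152) (nat_lit 0) (XT.nd (nat_lit 78) (nat_lit 0) (nat_lit 0) (XT.lf (nat_lit 0) (nat_lit 2672067859) (nat_lit 228) (nat_lit 15762050846) (nat_lit 76) (nat_lit 14611011912) (nat_lit 35) (nat_lit 5) (nat_lit 38) (nat_lit 5) (nat_lit 36) (nat_lit 5) (nat_lit 360) (nat_lit 278) (nat_lit 142)) (XT.lf (nat_lit 0) (nat_lit 7710621200) (nat_lit 228) (nat_lit 3673535499) (nat_lit 76) (nat_lit 22422540196) (nat_lit 35) (nat_lit 5) (nat_lit 38) (nat_lit 5) (nat_lit 36) (nat_lit 5) (nat_lit 361) (nat_lit 278) (nat_lit 141))) (XT.nd (nat_lit 78) (nat_lit 0) (nat_lit 0) (XT.lf (nat_lit 0) (nat_lit 8939654117) (nat_lit 152) (nat_lit 4039081211) (nat_lit 228) (nat_lit 21610027862) (nat_lit 33) (nat_lit 5) (nat_lit 35) (nat_lit 5) (nat_lit 36) (nat_lit 5) (nat_lit 362) (nat_lit 278) (nat_lit 140)) (XT.lf (nat_lit 0) (nat_lit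 18468777986) (nat_lit 228) (nat_lit 13433385189) (nat_lit 76) (nat_lit 3490216751) (nat_lit 33) (nat_lit 5) (nat_lit 36) (nat_lit 5) (nat_lit 34) (nat_lit 5) (nat_lit 363) (nat_lit 278) (nat_lit 139)))))) (XT.nd (nat_lit 468) (nat_lit 304) (nat_lit 0) (XT.nd (nat_lit 234) (nat_lit 228) (nat_lit 0) (XT.nd (nat_lit 78) (nat_lit 152) (nat_lit 0) (XT.lf (nat_lit 0) (nat_lit 24156255462) (nat_lit 228) (nat_lit 903302041) (nat_lit 76) (nat_lit 11159570513) (nat_lit 33) (nat_lit 5) (nat_lit 36) (nat_lit 5) (nat_lit 34) (nat_lit 5) (nat_lit 364) (nat_lit 278) (nat_lit 138)) (XT.nd (nat_lit 78) (nat_lit 0) (nat_lit 0) (XT.lf (nat_lit 0) (nat_lit 12229557828) (nat_lit 152) (nat_lit 17895311441) (nat_lit 228) (nat_lit 6942498636) (nat_lit 31) (nat_lit 5) (nat_lit 33) (nat_lit 5) (nat_lit 34) (nat_lit 5) (nat_lit 365) (nat_lit 278) (nat_lit 137)) (XT.lf (nat_lit 0) (nat_lit 25763267182) (nat_lit 152) (nat_lit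 10511443109) (nat_lit 228) (nat_lit 1666284215) (nat_lit 31) (nat_lit 5) (nat_lit 33) (nat_lit 5) (nat_lit 34) (nat_lit 5) (nat_lit 366) (nat_lit 278) (nat_lit 136)))) (XT.nd (nat_lit 78) (nat_lit 0) (nat_lit 0) (XT.lf (nat_lit 0) (nat_lit 830691505) (nat_lit 152) (nat_lit 2865157304) (nat_lit 228) (nat_lit 35143863831) (nat_lit 28) (nat_lit 5) (nat_lit 30) (nat_lit 5) (nat_lit 31) (nat_lit 5) (nat_lit 367) (nat_lit 278) (nat_lit 135)) (XT.nd (nat_lit 78) (nat_lit 0) (nat_lit 0) (XT.lf (nat_lit 0) (nat_lit 9350931910) (nat_lit 228) (nat_lit 25360091694) (nat_lit 76) (nat_lit 5048910668) (nat_lit 28) (nat_lit 5) (nat_lit 31) (nat_lit 5) (nat_lit 29) (nat_lit 5) (nat_lit 368) (nat_lit 278) (nat_lit 134)) (XT.lf (nat_lit 0) (nat_lit 15197456647) (nat_lit 228) (nat_lit 12371230540) (nat_lit 76) (nat_lit 13138425760) (nat_lit 28) (nat_lit 5) (nat_lit 31) (nat_lit 5) (nat_lit 29) (nat_lit 5) (nat_lit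 369) (nat_lit 278) (nat_lit 133))))) (XT.nd (nat_lit 234) (nat_lit 152) (nat_lit 0) (XT.nd (nat_lit 78) (nat_lit 0) (nat_lit 0) (XT.lf (nat_lit 0) (nat_lit 1016284836) (nat_lit 152) (nat_lit 20206474304) (nat_lit 228) (nat_lit 20459850333) (nat_lit 26) (nat_lit 5) (nat_lit 28) (nat_lit 5) (nat_lit 29) (nat_lit 5) (nat_lit 370) (nat_lit 278) (nat_lit 132)) (XT.nd (nat_lit 78) (nat_lit 0) (nat_lit 0) (XT.lf (nat_lit 0) (nat_lit 15048287088) (nat_lit 152) (nat_lit 12499154481) (nat_lit 228) (nat_lit 15136374535) (nat_lit 26) (nat_lit 5) (nat_lit 28) (nat_lit 5) (nat_lit 29) (nat_lit 5) (nat_lit 371) (nat_lit 278) (nat_lit 131)) (XT.lf (nat_lit 0) (nat_lit 29490825443) (nat_lit 152) (nat_lit 4564918338) (nat_lit 228) (nat_lit 9659502498) (nat_lit 26) (nat_lit 5) (nat_lit 28) (nat_lit 5) (nat_lit 29) (nat_lit 5) (nat_lit 372) (nat_lit 278) (nat_lit 130)))) (XT.nd (nat_lit 156) (nat_lit 0) (nat_lit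 0) (XT.nd (nat_lit 78) (nat_lit 152) (nat_lit 0) (XT.lf (nat_lit 0) (nat_lit 40787988486) (nat_lit 228) (nat_lit 455917498) (nat_lit 76) (nat_lit 3532856186) (nat_lit 26) (nat_lit 5) (nat_lit 29) (nat_lit 5) (nat_lit 27) (nat_lit 4) (nat_lit 373) (nat_lit 278) (nat_lit 129)) (XT.lf (nat_lit 0) (nat_lit 1991063022) (nat_lit 152) (nat_lit 31941894969) (nat_lit 76) (nat_lit 11931381055) (nat_lit 24) (nat_lit 5) (nat_lit 26) (nat_lit 5) (nat_lit 25) (nat_lit 5) (nat_lit 374) (nat_lit 278) (nat_lit 128))) (XT.nd (nat_lit 78) (nat_lit 0) (nat_lit 0) (XT.lf (nat_lit 0) (nat_lit 8068979783) (nat_lit 152) (nat_lit 18292425272) (nat_lit 76) (nat_lit 20621991037) (nat_lit 24) (nat_lit 5) (nat_lit 26) (nat_lit 5) (nat_lit 25) (nat_lit 5) (nat_lit 375) (nat_lit 278) (nat_lit 127)) (XT.lf (nat_lit 0) (nat_lit 14323608707) (nat_lit 152) (nat_lit 4243164813) (nat_lit 76) (nat_lit 29569423301) (nat_lit 24) (nat_lit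 5) (nat_lit 26) (nat_lit 5) (nat_lit 25) (nat_lit 5) (nat_lit 376) (nat_lit 278) (nat_lit 126))))))) (XT.nd (nat_lit 1014) (nat_lit 456) (nat_lit 0) (XT.nd (nat_lit 468) (nat_lit 228) (nat_lit 0) (XT.nd (nat_lit 234) (nat_lit 152) (nat_lit 0) (XT.nd (nat_lit 78) (nat_lit 0) (nat_lit 0) (XT.lf (nat_lit 0) (nat_lit 10421523926) (nat_lit 152) (nat_lit 10439069139) (nat_lit 228) (nat_lit 28460150129) (nat_lit 22) (nat_lit 5) (nat_lit 24) (nat_lit 5) (nat_lit 25) (nat_lit 5) (nat_lit 377) (nat_lit 278) (nat_lit 125)) (XT.nd (nat_lit 78) (nat_lit 0) (nat_lit 0) (XT.lf (nat_lit 0) (nat_lit 25603815311) (nat_lit 152) (nat_lit 2027327288) (nat_lit 228) (nat_lit 22908562718) (nat_lit 22) (nat_lit 5) (nat_lit 24) (nat_lit 5) (nat_lit 25) (nat_lit 5) (nat_lit 378) (nat_lit 278) (nat_lit 124)) (XT.lf (nat_lit 0) (nat_lit 34663333683) (nat_lit 228) (nat_lit 10626628185) (nat_lit 76) (nat_lit 6503521622) (nat_lit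 22) (nat_lit 5) (nat_lit 25) (nat_lit 5) (nat_lit 23) (nat_lit 4) (nat_lit 379) (nat_lit 278) (nat_lit 123)))) (XT.nd (nat_lit 78) (nat_lit 76) (nat_lit 0) (XT.lf (nat_lit 0) (nat_lit 4164193811) (nat_lit 76) (nat_lit 37797279957) (nat_lit 152) (nat_lit 11121754597) (nat_lit 21) (nat_lit 5) (nat_lit 22) (nat_lit 5) (nat_lit 23) (nat_lit 4) (nat_lit 380) (nat_lit 278) (nat_lit 122)) (XT.nd (nat_lit 78) (nat_lit 76) (nat_lit 0) (XT.lf (nat_lit 0) (nat_lit 19607759667) (nat_lit 76) (nat_lit 29973052763) (nat_lit 152) (nat_lit 4827788296) (nat_lit 21) (nat_lit 5) (nat_lit 22) (nat_lit 5) (nat_lit 23) (nat_lit 4) (nat_lit 381) (nat_lit 278) (nat_lit 121)) (XT.lf (nat_lit 0) (nat_lit 1617744285) (nat_lit 152) (nat_lit 20283671361) (nat_lit 76) (nat_lit 33871992691) (nat_lit 20) (nat_lit 5) (nat_lit 22) (nat_lit 5) (nat_lit 21) (nat_lit 5) (nat_lit 382) (nat_lit 278) (nat_lit 120))))) (XT.nd (nat_lit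 234) (nat_lit 76) (nat_lit 0) (XT.nd (nat_lit 78) (nat_lit 152) (nat_lit 0) (XT.lf (nat_lit 0) (nat_lit 8154795724) (nat_lit 152) (nat_lit 5387194958) (nat_lit 76) (nat_lit 43635882434) (nat_lit 20) (nat_lit 5) (nat_lit 22) (nat_lit 5) (nat_lit 21) (nat_lit 5) (nat_lit 383) (nat_lit 278) (nat_lit 119)) (XT.nd (nat_lit 78) (nat_lit 0) (nat_lit 0) (XT.lf (nat_lit 0) (nat_lit 10145997089) (nat_lit 152) (nat_lit 4834817988) (nat_lit 228) (nat_lit 43640873531) (nat_lit 18) (nat_lit 5) (nat_lit 20) (nat_lit 5) (nat_lit 21) (nat_lit 5) (nat_lit 384) (nat_lit 278) (nat_lit 118)) (XT.lf (nat_lit 0) (nat_lit 22101640038) (nat_lit 228) (nat_lit 33900033515) (nat_lit 76) (nat_lit 4104446653) (nat_lit 18) (nat_lit 5) (nat_lit 21) (nat_lit 5) (nat_lit 19) (nat_lit 4) (nat_lit 385) (nat_lit 278) (nat_lit 117)))) (XT.nd (nat_lit 156) (nat_lit 76) (nat_lit 0) (XT.nd (nat_lit 78) (nat_lit 0) (nat_lit 0) (XT.lf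 (nat_lit 0) (nat_lit 29479446516) (nat_lit 228) (nat_lit 18942927729) (nat_lit 76) (nat_lit 13211412123) (nat_lit 18) (nat_lit 5) (nat_lit 21) (nat_lit 5) (nat_lit 19) (nat_lit 4) (nat_lit 386) (nat_lit 278) (nat_lit 116)) (XT.lf (nat_lit 0) (nat_lit 37074205911) (nat_lit 228) (nat_lit 3544829618) (nat_lit 76) (nat_lit 22588380677) (nat_lit 18) (nat_lit 5) (nat_lit 21) (nat_lit 5) (nat_lit 19) (nat_lit 4) (nat_lit 387) (nat_lit 278) (nat_lit 115))) (XT.nd (nat_lit 78) (nat_lit 0) (nat_lit 0) (XT.lf (nat_lit 0) (nat_lit 12552663138) (nat_lit 76) (nat_lit 32460555160) (nat_lit 152) (nat_lit 19811546523) (nat_lit 17) (nat_lit 5) (nat_lit 18) (nat_lit 5) (nat_lit 19) (nat_lit 4) (nat_lit 388) (nat_lit 278) (nat_lit 114)) (XT.lf (nat_lit 0) (nat_lit 29198323729) (nat_lit 76) (nat_lit 24023672032) (nat_lit 152) (nat_lit 13267692415) (nat_lit 17) (nat_lit 5) (nat_lit 18) (nat_lit 5) (nat_lit 19) (nat_lit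 4) (nat_lit 389) (nat_lit 278) (nat_lit 113)))))) (XT.nd (nat_lit 468) (nat_lit 228) (nat_lit 0) (XT.nd (nat_lit 234) (nat_lit 0) (nat_lit 0) (XT.nd (nat_lit 78) (nat_lit 228) (nat_lit 0) (XT.lf (nat_lit 0) (nat_lit 46336147848) (nat_lit 76) (nat_lit 15336809940) (nat_lit 152) (nat_lit 6531725869) (nat_lit 17) (nat_lit 5) (nat_lit 18) (nat_lit 5) (nat_lit 19) (nat_lit 4) (nat_lit 390) (nat_lit 278) (nat_lit 112)) (XT.nd (nat_lit 78) (nat_lit 152) (nat_lit 0) (XT.lf (nat_lit 0) (nat_lit 394389780) (nat_lit 152) (nat_lit 5994006078) (nat_lit 76) (nat_lit 63582737947) (nat_lit 16) (nat_lit 5) (nat_lit 18) (nat_lit 5) (nat_lit 17) (nat_lit 5) (nat_lit 391) (nat_lit 278) (nat_lit 111)) (XT.lf (nat_lit 0) (nat_lit 7522757494) (nat_lit 228) (nat_lit 61324616489) (nat_lit 76) (nat_lit 2937492751) (nat_lit 14) (nat_lit 5) (nat_lit 17) (nat_lit 5) (nat_lit 15) (nat_lit 4) (nat_lit 392) (nat_lit 278) (nat_lit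 110)))) (XT.nd (nat_lit 78) (nat_lit 0) (nat_lit 0) (XT.lf (nat_lit 0) (nat_lit 14985489290) (nat_lit 228) (nat_lit 46190933899) (nat_lit 76) (nat_lit 12472974902) (nat_lit 14) (nat_lit 5) (nat_lit 17) (nat_lit 5) (nat_lit 15) (nat_lit 4) (nat_lit 393) (nat_lit 278) (nat_lit 109)) (XT.nd (nat_lit 78) (nat_lit 0) (nat_lit 0) (XT.lf (nat_lit 0) (nat_lit 22668350239) (nat_lit 228) (nat_lit 30609932926) (nat_lit 76) (nat_lit 22291696586) (nat_lit 14) (nat_lit 5) (nat_lit 17) (nat_lit 5) (nat_lit 15) (nat_lit 4) (nat_lit 394) (nat_lit 278) (nat_lit 108)) (XT.lf (nat_lit 0) (nat_lit 30578053520) (nat_lit 228) (nat_lit 14567999105) (nat_lit 76) (nat_lit 32402237268) (nat_lit 14) (nat_lit 5) (nat_lit 17) (nat_lit 5) (nat_lit 15) (nat_lit 4) (nat_lit 395) (nat_lit 278) (nat_lit 107))))) (XT.nd (nat_lit 234) (nat_lit 152) (nat_lit 0) (XT.nd (nat_lit 78) (nat_lit 0) (nat_lit 0) (XT.lf (nat_lit 0) (nat_lit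 1987671417) (nat_lit 76) (nat_lit 36752945821) (nat_lit 152) (nat_lit 40844866697) (nat_lit 13) (nat_lit 5) (nat_lit 14) (nat_lit 5) (nat_lit 15) (nat_lit 4) (nat_lit 396) (nat_lit 278) (nat_lit 106)) (XT.nd (nat_lit 78) (nat_lit 0) (nat_lit 0) (XT.lf (nat_lit 0) (nat_lit 19332395655) (nat_lit 76) (nat_lit 27959276051) (nat_lit 152) (nat_lit 34387815304) (nat_lit 13) (nat_lit 5) (nat_lit 14) (nat_lit 5) (nat_lit 15) (nat_lit 4) (nat_lit 397) (nat_lit 278) (nat_lit 105)) (XT.lf (nat_lit 0) (nat_lit 37191397447) (nat_lit 76) (nat_lit 18904467755) (nat_lit 152) (nat_lit 27740548335) (nat_lit 13) (nat_lit 5) (nat_lit 14) (nat_lit 5) (nat_lit 15) (nat_lit 4) (nat_lit 398) (nat_lit 278) (nat_lit 104)))) (XT.nd (nat_lit 156) (nat_lit 152) (nat_lit 0) (XT.nd (nat_lit 78) (nat_lit 0) (nat_lit 0) (XT.lf (nat_lit 0) (nat_lit 55580281745) (nat_lit 76) (nat_lit 9580608963) (nat_lit 152) (nat_lit 20897257499)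 (nat_lit 13) (nat_lit 5) (nat_lit 14) (nat_lit 5) (nat_lit 15) (nat_lit 4) (nat_lit 399) (nat_lit 278) (nat_lit 103)) (XT.lf (nat_lit 0) (nat_lit 74494865674) (nat_lit 152) (nat_lit 13831712390) (nat_lit 0) (nat_lit 20048382) (nat_lit 13) (nat_lit 5) (nat_lit 15) (nat_lit 4) (nat_lit 13) (nat_lit 4) (nat_lit 400) (nat_lit 278) (nat_lit 102))) (XT.nd (nat_lit 78) (nat_lit 76) (nat_lit 0) (XT.lf (nat_lit 0) (nat_lit 3277300054) (nat_lit 76) (nat_lit 80954792543) (nat_lit 76) (nat_lit 6467970899) (nat_lit 12) (nat_lit 4) (nat_lit 13) (nat_lit 5) (nat_lit 13) (nat_lit 4) (nat_lit 401) (nat_lit 278) (nat_lit 101)) (XT.lf (nat_lit 0) (nat_lit 1253072708) (nat_lit 152) (nat_lit 71954738757) (nat_lit 76) (nat_lit 19911827570) (nat_lit 11) (nat_lit 5) (nat_lit 13) (nat_lit 5) (nat_lit 12) (nat_lit 4) (nat_lit 402) (nat_lit 278) (nat_lit 100))))))))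
noncomputable def xc155 : XT := (XT.nd (nat_lit 2028) (nat_lit 5700) (nat_lit 0) (XT.nd (nat_lit 1014) (nat_lit 4256) (nat_lit 0) (XT.nd (nat_lit 468) (nat_lit 836) (nat_lit 0) (XT.nd (nat_lit 234) (nat_lit 0) (nat_lit 0) (XT.nd (nat_lit 78) (nat_lit 912) (nat_lit 0) (XT.lf (nat_lit 0) (nat_lit 1559296143) (nat_lit 0) (nat_lit 1559296143) (nat_lit 836) (nat_lit 888115482) (nat_lit 231) (nat_lit 5) (nat_lit 231) (nat_lit 3) (nat_lit 242) (nat_lit 3) (nat_lit 279) (nat_lit 279) (nat_lit 222)) (XT.nd (nat_lit 78) (nat_lit 912) (nat_lit 0) (XT.lf (nat_lit 0) (nat_lit 6794227190) (nat_lit 0) (nat_lit 656704162) (nat_lit 836) (nat_lit 647015878) (nat_lit 231) (nat_lit 5) (nat_lit 231) (nat_lit 3) (nat_lit 242) (nat_lit 3) (nat_lit 280) (nat_lit 279) (nat_lit 221)) (XT.lf (nat_lit 0) (nat_lit 503531919) (nat_lit 912) (nat_lit 5789669372) (nat_lit 988) (nat_lit 1891817156) (nat_lit 219) (nat_lit 5)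 (nat_lit 231) (nat_lit 5) (nat_lit 232) (nat_lit 5) (nat_lit 281) (nat_lit 279) (nat_lit 220)))) (XT.nd (nat_lit 78) (nat_lit 0) (nat_lit 0) (XT.lf (nat_lit 0) (nat_lit 1652428227) (nat_lit 912) (nat_lit 2079392114) (nat_lit 988) (nat_lit 4543460106) (nat_lit 219) (nat_lit 5) (nat_lit 231) (nat_lit 5) (nat_lit 232) (nat_lit 5) (nat_lit 282) (nat_lit 279) (nat_lit 219)) (XT.nd (nat_lit 78) (nat_lit 0) (nat_lit 76) (XT.lf (nat_lit 76) (nat_lit 1752941365) (nat_lit 0) (nat_lit 1057990765) (nat_lit 988) (nat_lit 5558137669) (nat_lit 220) (nat_lit 5) (nat_lit 219) (nat_lit 5) (nat_lit 232) (nat_lit 5) (nat_lit 283) (nat_lit 279) (nat_lit 218)) (XT.lf (nat_lit 0) (nat_lit 4001150379) (nat_lit 912) (nat_lit 2763373497) (nat_lit 988) (nat_lit 1701311743) (nat_lit 220) (nat_lit 5) (nat_lit 232) (nat_lit 5) (nat_lit 233) (nat_lit 5) (nat_lit 284) (nat_lit 279) (nat_lit 217))))) (XT.nd (nat_lit 234) (nat_lit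 912) (nat_lit 0) (XT.nd (nat_lit 78) (nat_lit 0) (nat_lit 0) (XT.lf (nat_lit 76) (nat_lit 1193814116) (nat_lit 0) (nat_lit 4015842996) (nat_lit 988) (nat_lit 3356439324) (nat_lit 221) (nat_lit 5) (nat_lit 220) (nat_lit 5) (nat_lit 233) (nat_lit 5) (nat_lit 285) (nat_lit 279) (nat_lit 216)) (XT.nd (nat_lit 78) (nat_lit 0) (nat_lit 76) (XT.lf (nat_lit 76) (nat_lit 5302628380) (nat_lit 0) (nat_lit 1141244937) (nat_lit 988) (nat_lit 2225875589) (nat_lit 221) (nat_lit 5) (nat_lit 220) (nat_lit 5) (nat_lit 233) (nat_lit 5) (nat_lit 286) (nat_lit 279) (nat_lit 215)) (XT.lf (nat_lit 76) (nat_lit 730594795) (nat_lit 0) (nat_lit 6971842020) (nat_lit 988) (nat_lit 1074520004) (nat_lit 222) (nat_lit 5) (nat_lit 221) (nat_lit 5) (nat_lit 234) (nat_lit 5) (nat_lit 287) (nat_lit 279) (nat_lit 214)))) (XT.nd (nat_lit 156) (nat_lit 0) (nat_lit 76) (XT.nd (nat_lit 78) (nat_lit 0) (nat_lit 0) (XT.lf (nat_lit 0)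 (nat_lit 118076371) (nat_lit 988) (nat_lit 3903724756) (nat_lit 1064) (nat_lit 4865343252) (nat_lit 208) (nat_lit 5) (nat_lit 221) (nat_lit 5) (nat_lit 222) (nat_lit 5) (nat_lit 288) (nat_lit 279) (nat_lit 213)) (XT.lf (nat_lit 76) (nat_lit 334892283) (nat_lit 0) (nat_lit 957487609) (nat_lit 1064) (nat_lit 7708972663) (nat_lit 209) (nat_lit 5) (nat_lit 208) (nat_lit 5) (nat_lit 222) (nat_lit 5) (nat_lit 289) (nat_lit 279) (nat_lit 212))) (XT.nd (nat_lit 78) (nat_lit 0) (nat_lit 0) (XT.lf (nat_lit 0) (nat_lit 2528079744) (nat_lit 988) (nat_lit 4383808097) (nat_lit 1064) (nat_lit 2206372307) (nat_lit 209) (nat_lit 5) (nat_lit 222) (nat_lit 5) (nat_lit 223) (nat_lit 5) (nat_lit 290) (nat_lit 279) (nat_lit 211)) (XT.lf (nat_lit 0) (nat_lit 3776564823) (nat_lit 988) (nat_lit 6591389) (nat_lit 1064) (nat_lit 5456303823) (nat_lit 209) (nat_lit 5) (nat_lit 222) (nat_lit 5) (nat_lit 223) (nat_lit 5)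 (nat_lit 291) (nat_lit 279) (nat_lit 210)))))) (XT.nd (nat_lit 468) (nat_lit 3420) (nat_lit 0) (XT.nd (nat_lit 234) (nat_lit 912) (nat_lit 0) (XT.nd (nat_lit 78) (nat_lit 0) (nat_lit 76) (XT.lf (nat_lit 76) (nat_lit 4567343888) (nat_lit 0) (nat_lit 506282296) (nat_lit 1064) (nat_lit 4290390932) (nat_lit 210) (nat_lit 5) (nat_lit 209) (nat_lit 5) (nat_lit 223) (nat_lit 5) (nat_lit 292) (nat_lit 279) (nat_lit 209)) (XT.nd (nat_lit 78) (nat_lit 0) (nat_lit 0) (XT.lf (nat_lit 0) (nat_lit 6405273165) (nat_lit 988) (nat_lit 265842672) (nat_lit 1064) (nat_lit 2821378111) (nat_lit 210) (nat_lit 5) (nat_lit 223) (nat_lit 5) (nat_lit 224) (nat_lit 5) (nat_lit 293) (nat_lit 279) (nat_lit 208)) (XT.lf (nat_lit 76) (nat_lit 4459040352) (nat_lit 0) (nat_lit 3334665073) (nat_lit 1064) (nat_lit 1830666283) (nat_lit 211) (nat_lit 5) (nat_lit 210) (nat_lit 5) (nat_lit 224) (nat_lit 5) (nat_lit 294) (nat_lit 279)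 (nat_lit 207)))) (XT.nd (nat_lit 78) (nat_lit 1064) (nat_lit 0) (XT.lf (nat_lit 0) (nat_lit 9197182703) (nat_lit 988) (nat_lit 454675175) (nat_lit 76) (nat_lit 109196357) (nat_lit 211) (nat_lit 5) (nat_lit 224) (nat_lit 5) (nat_lit 212) (nat_lit 5) (nat_lit 295) (nat_lit 279) (nat_lit 206)) (XT.nd (nat_lit 78) (nat_lit 0) (nat_lit 0) (XT.lf (nat_lit 0) (nat_lit 773031044) (nat_lit 1064) (nat_lit 5481359684) (nat_lit 76) (nat_lit 3645883289) (nat_lit 197) (nat_lit 5) (nat_lit 211) (nat_lit 5) (nat_lit 198) (nat_lit 5) (nat_lit 296) (nat_lit 279) (nat_lit 205)) (XT.lf (nat_lit 0) (nat_lit 2114225801) (nat_lit 1064) (nat_lit 625464805) (nat_lit 76) (nat_lit 7304592685) (nat_lit 197) (nat_lit 5) (nat_lit 211) (nat_lit 5) (nat_lit 198) (nat_lit 5) (nat_lit 297) (nat_lit 279) (nat_lit 204))))) (XT.nd (nat_lit 234) (nat_lit 1216) (nat_lit 0) (XT.nd (nat_lit 78) (nat_lit 1140) (nat_lit 0) (XT.lf (nat_lit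 0) (nat_lit 3518988012) (nat_lit 1140) (nat_lit 5762053076) (nat_lit 76) (nat_lit 910916404) (nat_lit 183) (nat_lit 5) (nat_lit 198) (nat_lit 5) (nat_lit 184) (nat_lit 5) (nat_lit 298) (nat_lit 279) (nat_lit 203)) (XT.nd (nat_lit 78) (nat_lit 1140) (nat_lit 0) (XT.lf (nat_lit 0) (nat_lit 4971766551) (nat_lit 1140) (nat_lit 745614338) (nat_lit 76) (nat_lit 4626548124) (nat_lit 183) (nat_lit 5) (nat_lit 198) (nat_lit 5) (nat_lit 184) (nat_lit 5) (nat_lit 299) (nat_lit 279) (nat_lit 202)) (XT.lf (nat_lit 0) (nat_lit 4485238937) (nat_lit 1140) (nat_lit 1999178458) (nat_lit 1216) (nat_lit 4015595654) (nat_lit 168) (nat_lit 5) (nat_lit 183) (nat_lit 5) (nat_lit 184) (nat_lit 5) (nat_lit 300) (nat_lit 279) (nat_lit 201)))) (XT.nd (nat_lit 156) (nat_lit 684) (nat_lit 0) (XT.nd (nat_lit 78) (nat_lit 532) (nat_lit 0) (XT.lf (nat_lit 0) (nat_lit 8041406754) (nat_lit 1216) (nat_lit 814149815) (nat_lit 76)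 (nat_lit 1805295079) (nat_lit 168) (nat_lit 5) (nat_lit 184) (nat_lit 5) (nat_lit 169) (nat_lit 5) (nat_lit 301) (nat_lit 279) (nat_lit 200)) (XT.lf (nat_lit 0) (nat_lit 4588720316) (nat_lit 532) (nat_lit 5094811862) (nat_lit 608) (nat_lit 1141870059) (nat_lit 161) (nat_lit 5) (nat_lit 168) (nat_lit 5) (nat_lit 169) (nat_lit 5) (nat_lit 302) (nat_lit 279) (nat_lit 199))) (XT.nd (nat_lit 78) (nat_lit 608) (nat_lit 0) (XT.lf (nat_lit 0) (nat_lit 355675221) (nat_lit 608) (nat_lit 851842035) (nat_lit 76) (nat_lit 9787808074) (nat_lit 160) (nat_lit 5) (nat_lit 168) (nat_lit 5) (nat_lit 161) (nat_lit 5) (nat_lit 303) (nat_lit 279) (nat_lit 198)) (XT.lf (nat_lit 0) (nat_lit 1923833343) (nat_lit 684) (nat_lit 6444020002) (nat_lit 76) (nat_lit 2800730756) (nat_lit 152) (nat_lit 5) (nat_lit 161) (nat_lit 5) (nat_lit 153) (nat_lit 5) (nat_lit 304) (nat_lit 279) (nat_lit 197))))))) (XT.nd (nat_lit 1014)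 (nat_lit 2660) (nat_lit 0) (XT.nd (nat_lit 468) (nat_lit 1444) (nat_lit 0) (XT.nd (nat_lit 234) (nat_lit 1064) (nat_lit 0) (XT.nd (nat_lit 78) (nat_lit 532) (nat_lit 0) (XT.lf (nat_lit 0) (nat_lit 3535674699) (nat_lit 684) (nat_lit 896775019) (nat_lit 76) (nat_lit 6914726966) (nat_lit 152) (nat_lit 5) (nat_lit 161) (nat_lit 5) (nat_lit 153) (nat_lit 5) (nat_lit 305) (nat_lit 279) (nat_lit 196)) (XT.nd (nat_lit 78) (nat_lit 0) (nat_lit 0) (XT.lf (nat_lit 0) (nat_lit 4889308929) (nat_lit 532) (nat_lit 330256319) (nat_lit 608) (nat_lit 6310885158) (nat_lit 145) (nat_lit 5) (nat_lit 152) (nat_lit 5) (nat_lit 153) (nat_lit 5) (nat_lit 306) (nat_lit 279) (nat_lit 195)) (XT.lf (nat_lit 0) (nat_lit 6977714722) (nat_lit 608) (nat_lit 912603475) (nat_lit 76) (nat_lit 3828225061) (nat_lit 145) (nat_lit 5) (nat_lit 153) (nat_lit 5) (nat_lit 146) (nat_lit 5) (nat_lit 307) (nat_lit 279) (nat_lit 194)))) (XT.nd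 (nat_lit 78) (nat_lit 532) (nat_lit 0) (XT.lf (nat_lit 0) (nat_lit 5060472340) (nat_lit 532) (nat_lit 3757871654) (nat_lit 608) (nat_lit 3093075061) (nat_lit 138) (nat_lit 5) (nat_lit 145) (nat_lit 5) (nat_lit 146) (nat_lit 5) (nat_lit 308) (nat_lit 279) (nat_lit 193)) (XT.nd (nat_lit 78) (nat_lit 532) (nat_lit 0) (XT.lf (nat_lit 0) (nat_lit 10706533429) (nat_lit 608) (nat_lit 906489219) (nat_lit 76) (nat_lit 497319518) (nat_lit 138) (nat_lit 5) (nat_lit 146) (nat_lit 5) (nat_lit 139) (nat_lit 5) (nat_lit 309) (nat_lit 279) (nat_lit 192)) (XT.lf (nat_lit 0) (nat_lit 396843064) (nat_lit 532) (nat_lit 7058006294) (nat_lit 76) (nat_lit 4858298160) (nat_lit 131) (nat_lit 5) (nat_lit 138) (nat_lit 5) (nat_lit 132) (nat_lit 5) (nat_lit 310) (nat_lit 279) (nat_lit 191))))) (XT.nd (nat_lit 234) (nat_lit 988) (nat_lit 0) (XT.nd (nat_lit 78) (nat_lit 456) (nat_lit 0) (XT.lf (nat_lit 0) (nat_lit 2211585882)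 (nat_lit 532) (nat_lit 938345580) (nat_lit 76) (nat_lit 9372068623) (nat_lit 131) (nat_lit 5) (nat_lit 138) (nat_lit 5) (nat_lit 132) (nat_lit 5) (nat_lit 311) (nat_lit 279) (nat_lit 190)) (XT.nd (nat_lit 78) (nat_lit 0) (nat_lit 0) (XT.lf (nat_lit 0) (nat_lit 4125649102) (nat_lit 532) (nat_lit 7299925959) (nat_lit 76) (nat_lit 1310224616) (nat_lit 125) (nat_lit 5) (nat_lit 132) (nat_lit 5) (nat_lit 126) (nat_lit 5) (nat_lit 312) (nat_lit 279) (nat_lit 189)) (XT.lf (nat_lit 0) (nat_lit 6117906814) (nat_lit 532) (nat_lit 988977895) (nat_lit 76) (nat_lit 5848532351) (nat_lit 125) (nat_lit 5) (nat_lit 132) (nat_lit 5) (nat_lit 126) (nat_lit 5) (nat_lit 313) (nat_lit 279) (nat_lit 188)))) (XT.nd (nat_lit 156) (nat_lit 532) (nat_lit 0) (XT.nd (nat_lit 78) (nat_lit 0) (nat_lit 0) (XT.lf (nat_lit 0) (nat_lit 5598682659) (nat_lit 456) (nat_lit 2605665512) (nat_lit 532) (nat_lit 4976268513) (nat_lit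 119) (nat_lit 5) (nat_lit 125) (nat_lit 5) (nat_lit 126) (nat_lit 5) (nat_lit 314) (nat_lit 279) (nat_lit 187)) (XT.lf (nat_lit 0) (nat_lit 10363917527) (nat_lit 532) (nat_lit 1049868504) (nat_lit 76) (nat_lit 1998495655) (nat_lit 119) (nat_lit 5) (nat_lit 126) (nat_lit 5) (nat_lit 120) (nat_lit 5) (nat_lit 315) (nat_lit 279) (nat_lit 186))) (XT.nd (nat_lit 78) (nat_lit 76) (nat_lit 0) (XT.lf (nat_lit 0) (nat_lit 5742847482) (nat_lit 456) (nat_lit 6907914220) (nat_lit 532) (nat_lit 998284997) (nat_lit 113) (nat_lit 5) (nat_lit 119) (nat_lit 5) (nat_lit 120) (nat_lit 5) (nat_lit 316) (nat_lit 279) (nat_lit 185)) (XT.lf (nat_lit 0) (nat_lit 1083894377) (nat_lit 532) (nat_lit 1164291139) (nat_lit 76) (nat_lit 11644661702) (nat_lit 112) (nat_lit 5) (nat_lit 119) (nat_lit 5) (nat_lit 113) (nat_lit 5) (nat_lit 317) (nat_lit 279) (nat_lit 184)))))) (XT.nd (nat_lit 546) (nat_lit 1064) (nat_lit 0) (XT.nd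 (nat_lit 234) (nat_lit 836) (nat_lit 0) (XT.nd (nat_lit 78) (nat_lit 380) (nat_lit 0) (XT.lf (nat_lit 0) (nat_lit 3272136651) (nat_lit 456) (nat_lit 8304398421) (nat_lit 76) (nat_lit 2565242896) (nat_lit 107) (nat_lit 5) (nat_lit 113) (nat_lit 5) (nat_lit 108) (nat_lit 5) (nat_lit 318) (nat_lit 279) (nat_lit 183)) (XT.nd (nat_lit 78) (nat_lit 380) (nat_lit 0) (XT.lf (nat_lit 0) (nat_lit 5542596382) (nat_lit 456) (nat_lit 1368661148) (nat_lit 76) (nat_lit 7486443942) (nat_lit 107) (nat_lit 5) (nat_lit 113) (nat_lit 5) (nat_lit 108) (nat_lit 5) (nat_lit 319) (nat_lit 279) (nat_lit 182)) (XT.lf (nat_lit 0) (nat_lit 5868866368) (nat_lit 380) (nat_lit 2051667664) (nat_lit 456) (nat_lit 6739609027) (nat_lit 102) (nat_lit 5) (nat_lit 107) (nat_lit 5) (nat_lit 108) (nat_lit 5) (nat_lit 320) (nat_lit 279) (nat_lit 181)))) (XT.nd (nat_lit 156) (nat_lit 456) (nat_lit 0) (XT.nd (nat_lit 78) (nat_lit 380)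 (nat_lit 0) (XT.lf (nat_lit 0) (nat_lit 10395370919) (nat_lit 456) (nat_lit 1628083941) (nat_lit 76) (nat_lit 2906256879) (nat_lit 102) (nat_lit 5) (nat_lit 108) (nat_lit 5) (nat_lit 103) (nat_lit 5) (nat_lit 321) (nat_lit 279) (nat_lit 180)) (XT.lf (nat_lit 0) (nat_lit 5822842983) (nat_lit 380) (nat_lit 7181595818) (nat_lit 456) (nat_lit 2201149179) (nat_lit 97) (nat_lit 5) (nat_lit 102) (nat_lit 5) (nat_lit 103) (nat_lit 5) (nat_lit 322) (nat_lit 279) (nat_lit 179))) (XT.nd (nat_lit 78) (nat_lit 380) (nat_lit 0) (XT.lf (nat_lit 0) (nat_lit 198500739) (nat_lit 456) (nat_lit 1981293641) (nat_lit 76) (nat_lit 13309894638) (nat_lit 96) (nat_lit 5) (nat_lit 102) (nat_lit 5) (nat_lit 97) (nat_lit 5) (nat_lit 323) (nat_lit 279) (nat_lit 178)) (XT.lf (nat_lit 0) (nat_lit 2694366114) (nat_lit 456) (nat_lit 10097936109) (nat_lit 76) (nat_lit 2987321425) (nat_lit 91) (nat_lit 5) (nat_lit 97) (nat_lit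 5) (nat_lit 92) (nat_lit 5) (nat_lit 324) (nat_lit 279) (nat_lit 177))))) (XT.nd (nat_lit 234) (nat_lit 760) (nat_lit 0) (XT.nd (nat_lit 78) (nat_lit 304) (nat_lit 0) (XT.lf (nat_lit 0) (nat_lit 5291394098) (nat_lit 456) (nat_lit 2504519997) (nat_lit 76) (nat_lit 8281571461) (nat_lit 91) (nat_lit 5) (nat_lit 97) (nat_lit 5) (nat_lit 92) (nat_lit 5) (nat_lit 325) (nat_lit 279) (nat_lit 176)) (XT.nd (nat_lit 78) (nat_lit 0) (nat_lit 0) (XT.lf (nat_lit 0) (nat_lit 5402453500) (nat_lit 304) (nat_lit 2600761840) (nat_lit 380) (nat_lit 8379978828) (nat_lit 87) (nat_lit 5) (nat_lit 91) (nat_lit 5) (nat_lit 92) (nat_lit 5) (nat_lit 326) (nat_lit 279) (nat_lit 175)) (XT.lf (nat_lit 0) (nat_lit 10833526324) (nat_lit 380) (nat_lit 3145915778) (nat_lit 76) (nat_lit 2717534696) (nat_lit 87) (nat_lit 5) (nat_lit 92) (nat_lit 5) (nat_lit 88) (nat_lit 5) (nat_lit 327) (nat_lit 279) (nat_lit 174)))) (XT.nd (nat_lit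 156) (nat_lit 380) (nat_lit 0) (XT.nd (nat_lit 78) (nat_lit 0) (nat_lit 0) (XT.lf (nat_lit 0) (nat_lit 4975993164) (nat_lit 380) (nat_lit 8831925126) (nat_lit 456) (nat_lit 3210495792) (nat_lit 82) (nat_lit 5) (nat_lit 87) (nat_lit 5) (nat_lit 88) (nat_lit 5) (nat_lit 328) (nat_lit 279) (nat_lit 173)) (XT.lf (nat_lit 0) (nat_lit 13386926753) (nat_lit 380) (nat_lit 3502208019) (nat_lit 456) (nat_lit 459847780) (nat_lit 82) (nat_lit 5) (nat_lit 87) (nat_lit 5) (nat_lit 88) (nat_lit 5) (nat_lit 329) (nat_lit 279) (nat_lit 172))) (XT.nd (nat_lit 78) (nat_lit 0) (nat_lit 0) (XT.lf (nat_lit 0) (nat_lit 2375139705) (nat_lit 380) (nat_lit 13302639099) (nat_lit 76) (nat_lit 2009575834) (nat_lit 77) (nat_lit 5) (nat_lit 82) (nat_lit 5) (nat_lit 78) (nat_lit 5) (nat_lit 330) (nat_lit 279) (nat_lit 171)) (XT.lf (nat_lit 0) (nat_lit 5347279335) (nat_lit 380) (nat_lit 5030241846) (nat_lit 76) (nat_lit 7656394272)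 (nat_lit 77) (nat_lit 5) (nat_lit 82) (nat_lit 5) (nat_lit 78) (nat_lit 5) (nat_lit 331) (nat_lit 279) (nat_lit 170))))))))
noncomputable def xc156 : XT := (XT.nd (nat_lit 2028) (nat_lit 1368) (nat_lit 0) (XT.nd (nat_lit 1014) (nat_lit 1292) (nat_lit 0) (XT.nd (nat_lit 468) (nat_lit 760) (nat_lit 0) (XT.nd (nat_lit 234) (nat_lit 380) (nat_lit 0) (XT.nd (nat_lit 78) (nat_lit 228) (nat_lit 0) (XT.lf (nat_lit 0) (nat_lit 3540930324) (nat_lit 304) (nat_lit 4888355033) (nat_lit 380) (nat_lit 9960980752) (nat_lit 73) (nat_lit 5) (nat_lit 77) (nat_lit 5) (nat_lit 78) (nat_lit 5) (nat_lit 332) (nat_lit 279) (nat_lit 169)) (XT.nd (nat_lit 78) (nat_lit 228) (nat_lit 0) (XT.lf (nat_lit 0) (nat_lit 11649235505) (nat_lit 380) (nat_lit 6309961456) (nat_lit 76) (nat_lit 796759475) (nat_lit 73) (nat_lit 5) (nat_lit 78) (nat_lit 5) (nat_lit 74) (nat_lit 5) (nat_lit 333) (nat_lit 279) (nat_lit 168)) (XT.lf (nat_lit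 0) (nat_lit 2467213052) (nat_lit 228) (nat_lit 12557897815) (nat_lit 304) (nat_lit 4105740079) (nat_lit 70) (nat_lit 5) (nat_lit 73) (nat_lit 5) (nat_lit 74) (nat_lit 5) (nat_lit 334) (nat_lit 279) (nat_lit 167)))) (XT.nd (nat_lit 78) (nat_lit 380) (nat_lit 0) (XT.lf (nat_lit 0) (nat_lit 11619102816) (nat_lit 228) (nat_lit 6934288681) (nat_lit 304) (nat_lit 962079811) (nat_lit 70) (nat_lit 5) (nat_lit 73) (nat_lit 5) (nat_lit 74) (nat_lit 5) (nat_lit 335) (nat_lit 279) (nat_lit 166)) (XT.nd (nat_lit 78) (nat_lit 0) (nat_lit 0) (XT.lf (nat_lit 0) (nat_lit 1116138320) (nat_lit 304) (nat_lit 1113714294) (nat_lit 380) (nat_lit 17681182300) (nat_lit 65) (nat_lit 5) (nat_lit 69) (nat_lit 5) (nat_lit 70) (nat_lit 5) (nat_lit 336) (nat_lit 279) (nat_lit 165)) (XT.lf (nat_lit 0) (nat_lit 5613441571) (nat_lit 380) (nat_lit 9830259186) (nat_lit 76) (nat_lit 4871033637) (nat_lit 65) (nat_lit 5) (nat_lit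 70) (nat_lit 5) (nat_lit 66) (nat_lit 5) (nat_lit 337) (nat_lit 279) (nat_lit 164))))) (XT.nd (nat_lit 234) (nat_lit 532) (nat_lit 0) (XT.nd (nat_lit 78) (nat_lit 228) (nat_lit 0) (XT.lf (nat_lit 0) (nat_lit 9097705205) (nat_lit 380) (nat_lit 625025324) (nat_lit 76) (nat_lit 11007850768) (nat_lit 65) (nat_lit 5) (nat_lit 70) (nat_lit 5) (nat_lit 66) (nat_lit 5) (nat_lit 338) (nat_lit 279) (nat_lit 163)) (XT.nd (nat_lit 78) (nat_lit 0) (nat_lit 0) (XT.lf (nat_lit 0) (nat_lit 9015478559) (nat_lit 228) (nat_lit 3746166052) (nat_lit 304) (nat_lit 8395015678) (nat_lit 62) (nat_lit 5) (nat_lit 65) (nat_lit 5) (nat_lit 66) (nat_lit 5) (nat_lit 339) (nat_lit 279) (nat_lit 162)) (XT.lf (nat_lit 0) (nat_lit 16553649589) (nat_lit 304) (nat_lit 2677494873) (nat_lit 76) (nat_lit 2363843557) (nat_lit 62) (nat_lit 5) (nat_lit 66) (nat_lit 5) (nat_lit 63) (nat_lit 5) (nat_lit 340) (nat_lit 279) (nat_lit 161))))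 (XT.nd (nat_lit 156) (nat_lit 228) (nat_lit 0) (XT.nd (nat_lit 78) (nat_lit 76) (nat_lit 0) (XT.lf (nat_lit 0) (nat_lit 7156202124) (nat_lit 228) (nat_lit 13398034790) (nat_lit 304) (nat_lit 1489394480) (nat_lit 59) (nat_lit 5) (nat_lit 62) (nat_lit 5) (nat_lit 63) (nat_lit 5) (nat_lit 341) (nat_lit 279) (nat_lit 160)) (XT.lf (nat_lit 0) (nat_lit 2143075139) (nat_lit 304) (nat_lit 5202766081) (nat_lit 76) (nat_lit 15158788371) (nat_lit 58) (nat_lit 5) (nat_lit 62) (nat_lit 5) (nat_lit 59) (nat_lit 5) (nat_lit 342) (nat_lit 279) (nat_lit 159))) (XT.nd (nat_lit 78) (nat_lit 0) (nat_lit 0) (XT.lf (nat_lit 0) (nat_lit 4836019166) (nat_lit 228) (nat_lit 1054361112) (nat_lit 304) (nat_lit 17087570745) (nat_lit 55) (nat_lit 5) (nat_lit 58) (nat_lit 5) (nat_lit 59) (nat_lit 5) (nat_lit 343) (nat_lit 279) (nat_lit 158)) (XT.lf (nat_lit 0) (nat_lit 9844736465) (nat_lit 304) (nat_lit 8250109359) (nat_lit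 76) (nat_lit 5367796628) (nat_lit 55) (nat_lit 5) (nat_lit 59) (nat_lit 5) (nat_lit 56) (nat_lit 5) (nat_lit 344) (nat_lit 279) (nat_lit 157)))))) (XT.nd (nat_lit 468) (nat_lit 608) (nat_lit 0) (XT.nd (nat_lit 234) (nat_lit 456) (nat_lit 0) (XT.nd (nat_lit 78) (nat_lit 0) (nat_lit 0) (XT.lf (nat_lit 0) (nat_lit 1950402463) (nat_lit 228) (nat_lit 11986234051) (nat_lit 304) (nat_lit 10024679752) (nat_lit 52) (nat_lit 5) (nat_lit 55) (nat_lit 5) (nat_lit 56) (nat_lit 5) (nat_lit 345) (nat_lit 279) (nat_lit 156)) (XT.nd (nat_lit 78) (nat_lit 0) (nat_lit 0) (XT.lf (nat_lit 0) (nat_lit 12610517067) (nat_lit 228) (nat_lit 5613961882) (nat_lit 304) (nat_lit 6248284560) (nat_lit 52) (nat_lit 5) (nat_lit 55) (nat_lit 5) (nat_lit 56) (nat_lit 5) (nat_lit 346) (nat_lit 279) (nat_lit 155)) (XT.lf (nat_lit 0) (nat_lit 22640203505) (nat_lit 304) (nat_lit 1433578322) (nat_lit 76) (nat_lit 925803455) (nat_lit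 52) (nat_lit 5) (nat_lit 56) (nat_lit 5) (nat_lit 53) (nat_lit 5) (nat_lit 347) (nat_lit 279) (nat_lit 154)))) (XT.nd (nat_lit 78) (nat_lit 228) (nat_lit 0) (XT.lf (nat_lit 0) (nat_lit 1751963912) (nat_lit 228) (nat_lit 16133975141) (nat_lit 76) (nat_lit 7651668995) (nat_lit 49) (nat_lit 5) (nat_lit 52) (nat_lit 5) (nat_lit 50) (nat_lit 5) (nat_lit 348) (nat_lit 279) (nat_lit 153)) (XT.nd (nat_lit 78) (nat_lit 228) (nat_lit 0) (XT.lf (nat_lit 0) (nat_lit 5944292265) (nat_lit 228) (nat_lit 5534431094) (nat_lit 76) (nat_lit 14612203223) (nat_lit 49) (nat_lit 5) (nat_lit 52) (nat_lit 5) (nat_lit 50) (nat_lit 5) (nat_lit 349) (nat_lit 279) (nat_lit 152)) (XT.lf (nat_lit 0) (nat_lit 5475442187) (nat_lit 228) (nat_lit 4830303783) (nat_lit 304) (nat_lit 16353805606) (nat_lit 46) (nat_lit 5) (nat_lit 49) (nat_lit 5) (nat_lit 50) (nat_lit 5) (nat_lit 350) (nat_lit 279) (nat_lit 151))))) (XT.nd (nat_lit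 234) (nat_lit 456) (nat_lit 0) (XT.nd (nat_lit 78) (nat_lit 152) (nat_lit 0) (XT.lf (nat_lit 0) (nat_lit 14864681885) (nat_lit 304) (nat_lit 10349036164) (nat_lit 76) (nat_lit 2029525463) (nat_lit 46) (nat_lit 5) (nat_lit 50) (nat_lit 5) (nat_lit 47) (nat_lit 5) (nat_lit 351) (nat_lit 279) (nat_lit 150)) (XT.nd (nat_lit 78) (nat_lit 0) (nat_lit 0) (XT.lf (nat_lit 0) (nat_lit 764005897) (nat_lit 152) (nat_lit 18842620958) (nat_lit 228) (nat_lit 8236439256) (nat_lit 44) (nat_lit 5) (nat_lit 46) (nat_lit 5) (nat_lit 47) (nat_lit 5) (nat_lit 352) (nat_lit 279) (nat_lit 149)) (XT.lf (nat_lit 0) (nat_lit 12408556129) (nat_lit 152) (nat_lit 12177976302) (nat_lit 228) (nat_lit 3871486815) (nat_lit 44) (nat_lit 5) (nat_lit 46) (nat_lit 5) (nat_lit 47) (nat_lit 5) (nat_lit 353) (nat_lit 279) (nat_lit 148)))) (XT.nd (nat_lit 156) (nat_lit 152) (nat_lit 0) (XT.nd (nat_lit 78) (nat_lit 228) (nat_lit 0) (XT.lf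 (nat_lit 0) (nat_lit 603592090) (nat_lit 228) (nat_lit 4708778392) (nat_lit 76) (nat_lit 23779136084) (nat_lit 43) (nat_lit 5) (nat_lit 46) (nat_lit 5) (nat_lit 44) (nat_lit 5) (nat_lit 354) (nat_lit 279) (nat_lit 147)) (XT.lf (nat_lit 0) (nat_lit 5212485056) (nat_lit 304) (nat_lit 22700856028) (nat_lit 76) (nat_lit 1827192570) (nat_lit 40) (nat_lit 5) (nat_lit 44) (nat_lit 5) (nat_lit 41) (nat_lit 5) (nat_lit 355) (nat_lit 279) (nat_lit 146))) (XT.nd (nat_lit 78) (nat_lit 152) (nat_lit 0) (XT.lf (nat_lit 0) (nat_lit 10051945517) (nat_lit 304) (nat_lit 11237031943) (nat_lit 76) (nat_lit 9117291228) (nat_lit 40) (nat_lit 5) (nat_lit 44) (nat_lit 5) (nat_lit 41) (nat_lit 5) (nat_lit 356) (nat_lit 279) (nat_lit 145)) (XT.lf (nat_lit 0) (nat_lit 568726095) (nat_lit 152) (nat_lit 14465255652) (nat_lit 228) (nat_lit 16058078245) (nat_lit 38) (nat_lit 5) (nat_lit 40) (nat_lit 5) (nat_lit 41) (nat_lit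 5) (nat_lit 357) (nat_lit 279) (nat_lit 144))))))) (XT.nd (nat_lit 1014) (nat_lit 608) (nat_lit 0) (XT.nd (nat_lit 468) (nat_lit 380) (nat_lit 0) (XT.nd (nat_lit 234) (nat_lit 228) (nat_lit 0) (XT.nd (nat_lit 78) (nat_lit 152) (nat_lit 0) (XT.lf (nat_lit 0) (nat_lit 12946054572) (nat_lit 152) (nat_lit 7324932199) (nat_lit 228) (nat_lit 11524278832) (nat_lit 38) (nat_lit 5) (nat_lit 40) (nat_lit 5) (nat_lit 41) (nat_lit 5) (nat_lit 358) (nat_lit 279) (nat_lit 143)) (XT.nd (nat_lit 78) (nat_lit 152) (nat_lit 0) (XT.lf (nat_lit 0) (nat_lit 25657607643) (nat_lit 228) (nat_lit 6837913335) (nat_lit 76) (nat_lit 24276868) (nat_lit 38) (nat_lit 5) (nat_lit 41) (nat_lit 5) (nat_lit 39) (nat_lit 5) (nat_lit 359) (nat_lit 279) (nat_lit 142)) (XT.lf (nat_lit 0) (nat_lit 5557248613) (nat_lit 152) (nat_lit 25766970004) (nat_lit 228) (nat_lit 1938301161) (nat_lit 36) (nat_lit 5) (nat_lit 38) (nat_lit 5) (nat_lit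 39) (nat_lit 5) (nat_lit 360) (nat_lit 279) (nat_lit 141)))) (XT.nd (nat_lit 78) (nat_lit 152) (nat_lit 0) (XT.lf (nat_lit 0) (nat_lit 3134366432) (nat_lit 228) (nat_lit 15604244885) (nat_lit 76) (nat_lit 15286147512) (nat_lit 35) (nat_lit 5) (nat_lit 38) (nat_lit 5) (nat_lit 36) (nat_lit 5) (nat_lit 361) (nat_lit 279) (nat_lit 140)) (XT.nd (nat_lit 78) (nat_lit 152) (nat_lit 0) (XT.lf (nat_lit 0) (nat_lit 8312946183) (nat_lit 228) (nat_lit 3171443034) (nat_lit 76) (nat_lit 23325124405) (nat_lit 35) (nat_lit 5) (nat_lit 38) (nat_lit 5) (nat_lit 36) (nat_lit 5) (nat_lit 362) (nat_lit 279) (nat_lit 139)) (XT.lf (nat_lit 0) (nat_lit 9814139345) (nat_lit 152) (nat_lit 3919986465) (nat_lit 228) (nat_lit 21881072831) (nat_lit 33) (nat_lit 5) (nat_lit 35) (nat_lit 5) (nat_lit 36) (nat_lit 5) (nat_lit 363) (nat_lit 279) (nat_lit 138))))) (XT.nd (nat_lit 234) (nat_lit 228) (nat_lit 0) (XT.nd (nat_lit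 78) (nat_lit 152) (nat_lit 0) (XT.lf (nat_lit 0) (nat_lit 19380451050) (nat_lit 228) (nat_lit 13239092128) (nat_lit 76) (nat_lit 3823640443) (nat_lit 33) (nat_lit 5) (nat_lit 36) (nat_lit 5) (nat_lit 34) (nat_lit 5) (nat_lit 364) (nat_lit 279) (nat_lit 137)) (XT.nd (nat_lit 78) (nat_lit 152) (nat_lit 0) (XT.lf (nat_lit 0) (nat_lit 25228137033) (nat_lit 228) (nat_lit 350503416) (nat_lit 76) (nat_lit 11716413152) (nat_lit 33) (nat_lit 5) (nat_lit 36) (nat_lit 5) (nat_lit 34) (nat_lit 5) (nat_lit 365) (nat_lit 279) (nat_lit 136)) (XT.lf (nat_lit 0) (nat_lit 13170656977) (nat_lit 152) (nat_lit 18200559514) (nat_lit 228) (nat_lit 6797668749) (nat_lit 31) (nat_lit 5) (nat_lit 33) (nat_lit 5) (nat_lit 34) (nat_lit 5) (nat_lit 366) (nat_lit 279) (nat_lit 135)))) (XT.nd (nat_lit 156) (nat_lit 0) (nat_lit 0) (XT.nd (nat_lit 78) (nat_lit 228) (nat_lit 0) (XT.lf (nat_lit 0) (nat_lit 27093652978) (nat_lit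 152) (nat_lit 10601921092) (nat_lit 228) (nat_lit 1373452502) (nat_lit 31) (nat_lit 5) (nat_lit 33) (nat_lit 5) (nat_lit 34) (nat_lit 5) (nat_lit 367) (nat_lit 279) (nat_lit 134)) (XT.lf (nat_lit 0) (nat_lit 1414469165) (nat_lit 152) (nat_lit 2723967553) (nat_lit 228) (nat_lit 35856309410) (nat_lit 28) (nat_lit 5) (nat_lit 30) (nat_lit 5) (nat_lit 31) (nat_lit 5) (nat_lit 368) (nat_lit 279) (nat_lit 133))) (XT.nd (nat_lit 78) (nat_lit 0) (nat_lit 0) (XT.lf (nat_lit 0) (nat_lit 9955630641) (nat_lit 228) (nat_lit 25570572741) (nat_lit 76) (nat_lit 5416603292) (nat_lit 28) (nat_lit 5) (nat_lit 31) (nat_lit 5) (nat_lit 29) (nat_lit 5) (nat_lit 369) (nat_lit 279) (nat_lit 132)) (XT.lf (nat_lit 0) (nat_lit 15968109252) (nat_lit 228) (nat_lit 12208074541) (nat_lit 76) (nat_lit 13742506013) (nat_lit 28) (nat_lit 5) (nat_lit 31) (nat_lit 5) (nat_lit 29) (nat_lit 5) (nat_lit 370) (nat_lit 279) (nat_lit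 131)))))) (XT.nd (nat_lit 468) (nat_lit 304) (nat_lit 0) (XT.nd (nat_lit 234) (nat_lit 152) (nat_lit 0) (XT.nd (nat_lit 78) (nat_lit 0) (nat_lit 0) (XT.lf (nat_lit 0) (nat_lit 1575828131) (nat_lit 152) (nat_lit 20594261426) (nat_lit 228) (nat_lit 20753489778) (nat_lit 26) (nat_lit 5) (nat_lit 28) (nat_lit 5) (nat_lit 29) (nat_lit 5) (nat_lit 371) (nat_lit 279) (nat_lit 130)) (XT.nd (nat_lit 78) (nat_lit 0) (nat_lit 0) (XT.lf (nat_lit 0) (nat_lit 16013381089) (nat_lit 152) (nat_lit 12662083380) (nat_lit 228) (nat_lit 15279634640) (nat_lit 26) (nat_lit 5) (nat_lit 28) (nat_lit 5) (nat_lit 29) (nat_lit 5) (nat_lit 372) (nat_lit 279) (nat_lit 129)) (XT.lf (nat_lit 0) (nat_lit 30874235049) (nat_lit 152) (nat_lit 4495996242) (nat_lit 228) (nat_lit 9647509775) (nat_lit 26) (nat_lit 5) (nat_lit 28) (nat_lit 5) (nat_lit 29) (nat_lit 5) (nat_lit 373) (nat_lit 279) (nat_lit 128)))) (XT.nd (nat_lit 78)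 (nat_lit 76) (nat_lit 0) (XT.lf (nat_lit 0) (nat_lit 21770079) (nat_lit 76) (nat_lit 42276275234) (nat_lit 152) (nat_lit 3813254252) (nat_lit 25) (nat_lit 5) (nat_lit 26) (nat_lit 5) (nat_lit 27) (nat_lit 4) (nat_lit 374) (nat_lit 279) (nat_lit 127)) (XT.nd (nat_lit 78) (nat_lit 0) (nat_lit 0) (XT.lf (nat_lit 0) (nat_lit 2336301730) (nat_lit 152) (nat_lit 32408179496) (nat_lit 76) (nat_lit 12487059760) (nat_lit 24) (nat_lit 5) (nat_lit 26) (nat_lit 5) (nat_lit 25) (nat_lit 5) (nat_lit 375) (nat_lit 279) (nat_lit 126)) (XT.lf (nat_lit 0) (nat_lit 8588240261) (nat_lit 152) (nat_lit 18363554999) (nat_lit 76) (nat_lit 21432628703) (nat_lit 24) (nat_lit 5) (nat_lit 26) (nat_lit 5) (nat_lit 25) (nat_lit 5) (nat_lit 376) (nat_lit 279) (nat_lit 125))))) (XT.nd (nat_lit 234) (nat_lit 152) (nat_lit 0) (XT.nd (nat_lit 78) (nat_lit 152) (nat_lit 0) (XT.lf (nat_lit 0) (nat_lit 15022434526) (nat_lit 152)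 (nat_lit 3906728660) (nat_lit 76) (nat_lit 30642892345) (nat_lit 24) (nat_lit 5) (nat_lit 26) (nat_lit 5) (nat_lit 25) (nat_lit 5) (nat_lit 377) (nat_lit 279) (nat_lit 124)) (XT.nd (nat_lit 78) (nat_lit 0) (nat_lit 0) (XT.lf (nat_lit 0) (nat_lit 11193354358) (nat_lit 152) (nat_lit 10558749646) (nat_lit 228) (nat_lit 29040141499) (nat_lit 22) (nat_lit 5) (nat_lit 24) (nat_lit 5) (nat_lit 25) (nat_lit 5) (nat_lit 378) (nat_lit 279) (nat_lit 123)) (XT.lf (nat_lit 0) (nat_lit 26817740173) (nat_lit 152) (nat_lit 1900291215) (nat_lit 228) (nat_lit 23329981605) (nat_lit 22) (nat_lit 5) (nat_lit 24) (nat_lit 5) (nat_lit 25) (nat_lit 5) (nat_lit 379) (nat_lit 279) (nat_lit 122)))) (XT.nd (nat_lit 156) (nat_lit 76) (nat_lit 0) (XT.nd (nat_lit 78) (nat_lit 76) (nat_lit 0) (XT.lf (nat_lit 0) (nat_lit 35955428158) (nat_lit 228) (nat_lit 10506700720) (nat_lit 76) (nat_lit 6877452655) (nat_lit 22) (nat_lit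 5) (nat_lit 25) (nat_lit 5) (nat_lit 23) (nat_lit 4) (nat_lit 380) (nat_lit 279) (nat_lit 121)) (XT.lf (nat_lit 0) (nat_lit 4723544698) (nat_lit 76) (nat_lit 38745798237) (nat_lit 152) (nat_lit 11198775000) (nat_lit 21) (nat_lit 5) (nat_lit 22) (nat_lit 5) (nat_lit 23) (nat_lit 4) (nat_lit 381) (nat_lit 279) (nat_lit 120))) (XT.nd (nat_lit 78) (nat_lit 76) (nat_lit 0) (XT.lf (nat_lit 0) (nat_lit 20617764372) (nat_lit 76) (nat_lit 30692244230) (nat_lit 152) (nat_lit 4723464436) (nat_lit 21) (nat_lit 5) (nat_lit 22) (nat_lit 5) (nat_lit 23) (nat_lit 4) (nat_lit 382) (nat_lit 279) (nat_lit 119)) (XT.lf (nat_lit 0) (nat_lit 1903456758) (nat_lit 152) (nat_lit 20477848909) (nat_lit 76) (nat_lit 35058064569) (nat_lit 20) (nat_lit 5) (nat_lit 22) (nat_lit 5) (nat_lit 21) (nat_lit 5) (nat_lit 383) (nat_lit 279) (nat_lit 118))))))))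
noncomputable def xc157 : XT := (XT.nd (nat_lit 33072) (nat_lit 0) (nat_lit 8588) (XT.nd (nat_lit 1014) (nat_lit 152) (nat_lit 0) (XT.nd (nat_lit 468) (nat_lit 228) (nat_lit 0) (XT.nd (nat_lit 234) (nat_lit 76) (nat_lit 0) (XT.nd (nat_lit 78) (nat_lit 152) (nat_lit 0) (XT.lf (nat_lit 0) (nat_lit 8629711581) (nat_lit 152) (nat_lit 5146546154) (nat_lit 76) (nat_lit 45109922108) (nat_lit 20) (nat_lit 5) (nat_lit 22) (nat_lit 5) (nat_lit 21) (nat_lit 5) (nat_lit 384) (nat_lit 279) (nat_lit 117)) (XT.nd (nat_lit 78) (nat_lit 0) (nat_lit 0) (XT.lf (nat_lit 0) (nat_lit 10848697884) (nat_lit 152) (nat_lit 4808935584) (nat_lit 228) (nat_lit 44715766207) (nat_lit 18) (nat_lit 5) (nat_lit 20) (nat_lit 5) (nat_lit 21) (nat_lit 5) (nat_lit 385) (nat_lit 279) (nat_lit 116)) (XT.lf (nat_lit 0) (nat_lit 22987055251) (nat_lit 228) (nat_lit 34525172948) (nat_lit 76) (nat_lit 4390290289) (nat_lit 18) (nat_lit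 5) (nat_lit 21) (nat_lit 5) (nat_lit 19) (nat_lit 4) (nat_lit 386) (nat_lit 279) (nat_lit 115)))) (XT.nd (nat_lit 78) (nat_lit 76) (nat_lit 0) (XT.lf (nat_lit 0) (nat_lit 30579719243) (nat_lit 228) (nat_lit 19130767432) (nat_lit 76) (nat_lit 13765725590) (nat_lit 18) (nat_lit 5) (nat_lit 21) (nat_lit 5) (nat_lit 19) (nat_lit 4) (nat_lit 387) (nat_lit 279) (nat_lit 114)) (XT.nd (nat_lit 78) (nat_lit 76) (nat_lit 0) (XT.lf (nat_lit 0) (nat_lit 38396033382) (nat_lit 228) (nat_lit 3281807391) (nat_lit 76) (nat_lit 23419402101) (nat_lit 18) (nat_lit 5) (nat_lit 21) (nat_lit 5) (nat_lit 19) (nat_lit 4) (nat_lit 388) (nat_lit 279) (nat_lit 113)) (XT.lf (nat_lit 0) (nat_lit 13294988901) (nat_lit 76) (nat_lit 33275638120) (nat_lit 152) (nat_lit 20192565738) (nat_lit 17) (nat_lit 5) (nat_lit 18) (nat_lit 5) (nat_lit 19) (nat_lit 4) (nat_lit 389) (nat_lit 279) (nat_lit 112))))) (XT.nd (nat_lit 234) (nat_lit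 152) (nat_lit 0) (XT.nd (nat_lit 78) (nat_lit 76) (nat_lit 0) (XT.lf (nat_lit 0) (nat_lit 30429366518) (nat_lit 76) (nat_lit 24590271809) (nat_lit 152) (nat_lit 13458609420) (nat_lit 17) (nat_lit 5) (nat_lit 18) (nat_lit 5) (nat_lit 19) (nat_lit 4) (nat_lit 390) (nat_lit 279) (nat_lit 111)) (XT.nd (nat_lit 78) (nat_lit 76) (nat_lit 0) (XT.lf (nat_lit 0) (nat_lit 48070982844) (nat_lit 76) (nat_lit 15647292507) (nat_lit 152) (nat_lit 6526596317) (nat_lit 17) (nat_lit 5) (nat_lit 18) (nat_lit 5) (nat_lit 19) (nat_lit 4) (nat_lit 391) (nat_lit 279) (nat_lit 110)) (XT.lf (nat_lit 0) (nat_lit 597636529) (nat_lit 152) (nat_lit 5835214471) (nat_lit 76) (nat_lit 65631581396) (nat_lit 16) (nat_lit 5) (nat_lit 18) (nat_lit 5) (nat_lit 17) (nat_lit 5) (nat_lit 392) (nat_lit 279) (nat_lit 109)))) (XT.nd (nat_lit 156) (nat_lit 0) (nat_lit 0) (XT.nd (nat_lit 78) (nat_lit 0) (nat_lit 0) (XT.lf (nat_lit 0) (nat_lit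 7938908755) (nat_lit 228) (nat_lit 62824706412) (nat_lit 76) (nat_lit 3168993250) (nat_lit 14) (nat_lit 5) (nat_lit 17) (nat_lit 5) (nat_lit 15) (nat_lit 4) (nat_lit 393) (nat_lit 279) (nat_lit 108)) (XT.lf (nat_lit 0) (nat_lit 15619974878) (nat_lit 228) (nat_lit 47246906021) (nat_lit 76) (nat_lit 12986363873) (nat_lit 14) (nat_lit 5) (nat_lit 17) (nat_lit 5) (nat_lit 15) (nat_lit 4) (nat_lit 394) (nat_lit 279) (nat_lit 107))) (XT.nd (nat_lit 78) (nat_lit 0) (nat_lit 0) (XT.lf (nat_lit 0) (nat_lit 23527935609) (nat_lit 228) (nat_lit 31208079560) (nat_lit 76) (nat_lit 23095592846) (nat_lit 14) (nat_lit 5) (nat_lit 17) (nat_lit 5) (nat_lit 15) (nat_lit 4) (nat_lit 395) (nat_lit 279) (nat_lit 106)) (XT.lf (nat_lit 0) (nat_lit 31669700818) (nat_lit 228) (nat_lit 14694212521) (nat_lit 76) (nat_lit 33505513476) (nat_lit 14) (nat_lit 5) (nat_lit 17) (nat_lit 5) (nat_lit 15) (nat_lit 4) (nat_lit 396)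 (nat_lit 279) (nat_lit 105)))))) (XT.nd (nat_lit 31512) (nat_lit 0) (nat_lit 15656) (XT.nd (nat_lit 234) (nat_lit 76) (nat_lit 0) (XT.nd (nat_lit 78) (nat_lit 0) (nat_lit 0) (XT.lf (nat_lit 0) (nat_lit 2355080798) (nat_lit 76) (nat_lit 37719942346) (nat_lit 152) (nat_lit 41892779489) (nat_lit 13) (nat_lit 5) (nat_lit 14) (nat_lit 5) (nat_lit 15) (nat_lit 4) (nat_lit 397) (nat_lit 279) (nat_lit 104)) (XT.nd (nat_lit 78) (nat_lit 0) (nat_lit 0) (XT.lf (nat_lit 0) (nat_lit 20211182320) (nat_lit 76) (nat_lit 28666411761) (nat_lit 152) (nat_lit 35247184511) (nat_lit 13) (nat_lit 5) (nat_lit 14) (nat_lit 5) (nat_lit 15) (nat_lit 4) (nat_lit 398) (nat_lit 279) (nat_lit 103)) (XT.lf (nat_lit 0) (nat_lit 38597250821) (nat_lit 76) (nat_lit 19343793466) (nat_lit 152) (nat_lit 28405516967) (nat_lit 13) (nat_lit 5) (nat_lit 14) (nat_lit 5) (nat_lit 15) (nat_lit 4) (nat_lit 399) (nat_lit 279) (nat_lit 102))))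 (XT.nd (nat_lit 78) (nat_lit 76) (nat_lit 0) (XT.lf (nat_lit 0) (nat_lit 57529351800) (nat_lit 76) (nat_lit 9743941483) (nat_lit 152) (nat_lit 21361798702) (nat_lit 13) (nat_lit 5) (nat_lit 14) (nat_lit 5) (nat_lit 15) (nat_lit 4) (nat_lit 400) (nat_lit 279) (nat_lit 101)) (XT.nd (nat_lit 78) (nat_lit 76) (nat_lit 0) (XT.lf (nat_lit 0) (nat_lit 76883855956) (nat_lit 152) (nat_lit 13969703098) (nat_lit 0) (nat_lit 138770600) (nat_lit 13) (nat_lit 5) (nat_lit 15) (nat_lit 4) (nat_lit 13) (nat_lit 4) (nat_lit 401) (nat_lit 279) (nat_lit 100)) (XT.lf (nat_lit 0) (nat_lit 3649864418) (nat_lit 76) (nat_lit 83261481843) (nat_lit 76) (nat_lit 6505081233) (nat_lit 12) (nat_lit 4) (nat_lit 13) (nat_lit 5) (nat_lit 13) (nat_lit 4) (nat_lit 402) (nat_lit 279) (nat_lit 99))))) (XT.nd (nat_lit 234) (nat_lit 0) (nat_lit 76) (XT.nd (nat_lit 78) (nat_lit 0) (nat_lit 0) (XT.lf (nat_lit 0) (nat_lit 225500874)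 (nat_lit 988) (nat_lit 1933007570) (nat_lit 988) (nat_lit 1933007570) (nat_lit 218) (nat_lit 3) (nat_lit 231) (nat_lit 3) (nat_lit 231) (nat_lit 5) (nat_lit 280) (nat_lit 280) (nat_lit 220)) (XT.nd (nat_lit 78) (nat_lit 0) (nat_lit 76) (XT.lf (nat_lit 0) (nat_lit 1526014101) (nat_lit 988) (nat_lit 212089269) (nat_lit 988) (nat_lit 6533737988) (nat_lit 218) (nat_lit 3) (nat_lit 231) (nat_lit 3) (nat_lit 231) (nat_lit 5) (nat_lit 281) (nat_lit 280) (nat_lit 219)) (XT.lf (nat_lit 0) (nat_lit 2635556182) (nat_lit 912) (nat_lit 4772764253) (nat_lit 988) (nat_lit 954999862) (nat_lit 219) (nat_lit 5) (nat_lit 231) (nat_lit 5) (nat_lit 232) (nat_lit 5) (nat_lit 282) (nat_lit 280) (nat_lit 218)))) (XT.nd (nat_lit 156) (nat_lit 0) (nat_lit 76) (XT.nd (nat_lit 78) (nat_lit 0) (nat_lit 0) (XT.lf (nat_lit 0) (nat_lit 3757261565) (nat_lit 912) (nat_lit 985856207) (nat_lit 988) (nat_lit 3715131086) (nat_lit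 219) (nat_lit 5) (nat_lit 231) (nat_lit 5) (nat_lit 232) (nat_lit 5) (nat_lit 283) (nat_lit 280) (nat_lit 217)) (XT.lf (nat_lit 76) (nat_lit 2950114750) (nat_lit 0) (nat_lit 1951546330) (nat_lit 988) (nat_lit 3654762385) (nat_lit 220) (nat_lit 5) (nat_lit 219) (nat_lit 5) (nat_lit 232) (nat_lit 5) (nat_lit 284) (nat_lit 280) (nat_lit 216))) (XT.nd (nat_lit 78) (nat_lit 0) (nat_lit 0) (XT.lf (nat_lit 0) (nat_lit 6061104003) (nat_lit 912) (nat_lit 1665121427) (nat_lit 988) (nat_lit 931963997) (nat_lit 220) (nat_lit 5) (nat_lit 232) (nat_lit 5) (nat_lit 233) (nat_lit 5) (nat_lit 285) (nat_lit 280) (nat_lit 215)) (XT.lf (nat_lit 76) (nat_lit 2399201880) (nat_lit 0) (nat_lit 4861404215) (nat_lit 988) (nat_lit 1502309489) (nat_lit 221) (nat_lit 5) (nat_lit 220) (nat_lit 5) (nat_lit 233) (nat_lit 5) (nat_lit 286) (nat_lit 280) (nat_lit 214))))))) (XT.nd (nat_lit 1014) (nat_lit 4408) (nat_lit 0) (XT.nd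 (nat_lit 468) (nat_lit 1900) (nat_lit 0) (XT.nd (nat_lit 234) (nat_lit 0) (nat_lit 0) (XT.nd (nat_lit 78) (nat_lit 912) (nat_lit 0) (XT.lf (nat_lit 76) (nat_lit 6597215329) (nat_lit 0) (nat_lit 1879449207) (nat_lit 988) (nat_lit 394765435) (nat_lit 221) (nat_lit 5) (nat_lit 220) (nat_lit 5) (nat_lit 233) (nat_lit 5) (nat_lit 287) (nat_lit 280) (nat_lit 213)) (XT.nd (nat_lit 78) (nat_lit 0) (nat_lit 0) (XT.lf (nat_lit 0) (nat_lit 726400257) (nat_lit 988) (nat_lit 7049103569) (nat_lit 1064) (nat_lit 1207692189) (nat_lit 208) (nat_lit 5) (nat_lit 221) (nat_lit 5) (nat_lit 222) (nat_lit 5) (nat_lit 288) (nat_lit 280) (nat_lit 212)) (XT.lf (nat_lit 0) (nat_lit 1880413879) (nat_lit 988) (nat_lit 2828593290) (nat_lit 1064) (nat_lit 4389034382) (nat_lit 208) (nat_lit 5) (nat_lit 221) (nat_lit 5) (nat_lit 222) (nat_lit 5) (nat_lit 289) (nat_lit 280) (nat_lit 211)))) (XT.nd (nat_lit 78) (nat_lit 0) (nat_lit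 76) (XT.lf (nat_lit 76) (nat_lit 1525493601) (nat_lit 0) (nat_lit 1524574073) (nat_lit 1064) (nat_lit 6166890683) (nat_lit 209) (nat_lit 5) (nat_lit 208) (nat_lit 5) (nat_lit 222) (nat_lit 5) (nat_lit 290) (nat_lit 280) (nat_lit 210)) (XT.nd (nat_lit 78) (nat_lit 0) (nat_lit 0) (XT.lf (nat_lit 0) (nat_lit 4267748662) (nat_lit 988) (nat_lit 3311279245) (nat_lit 1064) (nat_lit 1760081479) (nat_lit 209) (nat_lit 5) (nat_lit 222) (nat_lit 5) (nat_lit 223) (nat_lit 5) (nat_lit 291) (nat_lit 280) (nat_lit 209)) (XT.lf (nat_lit 76) (nat_lit 1185314501) (nat_lit 0) (nat_lit 4331306793) (nat_lit 1064) (nat_lit 3948517067) (nat_lit 210) (nat_lit 5) (nat_lit 209) (nat_lit 5) (nat_lit 223) (nat_lit 5) (nat_lit 292) (nat_lit 280) (nat_lit 208))))) (XT.nd (nat_lit 234) (nat_lit 1976) (nat_lit 0) (XT.nd (nat_lit 78) (nat_lit 0) (nat_lit 76) (XT.lf (nat_lit 76) (nat_lit 5861877555) (nat_lit 0) (nat_lit 943400218)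 (nat_lit 1064) (nat_lit 2789652602) (nat_lit 210) (nat_lit 5) (nat_lit 209) (nat_lit 5) (nat_lit 223) (nat_lit 5) (nat_lit 293) (nat_lit 280) (nat_lit 207)) (XT.nd (nat_lit 78) (nat_lit 0) (nat_lit 0) (XT.lf (nat_lit 76) (nat_lit 920430781) (nat_lit 0) (nat_lit 7215350224) (nat_lit 1064) (nat_lit 1592789728) (nat_lit 211) (nat_lit 5) (nat_lit 210) (nat_lit 5) (nat_lit 224) (nat_lit 5) (nat_lit 294) (nat_lit 280) (nat_lit 206)) (XT.lf (nat_lit 76) (nat_lit 5757567144) (nat_lit 0) (nat_lit 3766099090) (nat_lit 1064) (nat_lit 342078792) (nat_lit 211) (nat_lit 5) (nat_lit 210) (nat_lit 5) (nat_lit 224) (nat_lit 5) (nat_lit 295) (nat_lit 280) (nat_lit 205)))) (XT.nd (nat_lit 156) (nat_lit 988) (nat_lit 0) (XT.nd (nat_lit 78) (nat_lit 0) (nat_lit 76) (XT.lf (nat_lit 76) (nat_lit 714732194) (nat_lit 0) (nat_lit 190879068) (nat_lit 1140) (nat_lit 9101858752) (nat_lit 197) (nat_lit 5) (nat_lit 196) (nat_lit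 5) (nat_lit 211) (nat_lit 5) (nat_lit 296) (nat_lit 280) (nat_lit 204)) (XT.lf (nat_lit 0) (nat_lit 2231044909) (nat_lit 1064) (nat_lit 4446646972) (nat_lit 76) (nat_lit 3474282210) (nat_lit 197) (nat_lit 5) (nat_lit 211) (nat_lit 5) (nat_lit 198) (nat_lit 5) (nat_lit 297) (nat_lit 280) (nat_lit 203))) (XT.nd (nat_lit 78) (nat_lit 0) (nat_lit 0) (XT.lf (nat_lit 0) (nat_lit 530346931) (nat_lit 1064) (nat_lit 3045435637) (nat_lit 1140) (nat_lit 6725687789) (nat_lit 183) (nat_lit 5) (nat_lit 197) (nat_lit 5) (nat_lit 198) (nat_lit 5) (nat_lit 298) (nat_lit 280) (nat_lit 202)) (XT.lf (nat_lit 0) (nat_lit 4986071783) (nat_lit 1140) (nat_lit 4737036595) (nat_lit 76) (nat_lit 731628887) (nat_lit 183) (nat_lit 5) (nat_lit 198) (nat_lit 5) (nat_lit 184) (nat_lit 5) (nat_lit 299) (nat_lit 280) (nat_lit 201)))))) (XT.nd (nat_lit 546) (nat_lit 1520) (nat_lit 0) (XT.nd (nat_lit 234) (nat_lit 1216) (nat_lit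 0) (XT.nd (nat_lit 78) (nat_lit 532) (nat_lit 0) (XT.lf (nat_lit 0) (nat_lit 402867039) (nat_lit 1140) (nat_lit 6043783492) (nat_lit 1216) (nat_lit 4165753037) (nat_lit 168) (nat_lit 5) (nat_lit 183) (nat_lit 5) (nat_lit 184) (nat_lit 5) (nat_lit 300) (nat_lit 280) (nat_lit 200)) (XT.nd (nat_lit 78) (nat_lit 532) (nat_lit 0) (XT.lf (nat_lit 0) (nat_lit 5771382679) (nat_lit 1140) (nat_lit 2201994642) (nat_lit 1216) (nat_lit 2800792242) (nat_lit 168) (nat_lit 5) (nat_lit 183) (nat_lit 5) (nat_lit 184) (nat_lit 5) (nat_lit 301) (nat_lit 280) (nat_lit 199)) (XT.lf (nat_lit 0) (nat_lit 326835985) (nat_lit 532) (nat_lit 9214347273) (nat_lit 608) (nat_lit 1399785429) (nat_lit 161) (nat_lit 5) (nat_lit 168) (nat_lit 5) (nat_lit 169) (nat_lit 5) (nat_lit 302) (nat_lit 280) (nat_lit 198)))) (XT.nd (nat_lit 156) (nat_lit 532) (nat_lit 0) (XT.nd (nat_lit 78) (nat_lit 608) (nat_lit 0) (XT.lf (nat_lit 0)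 (nat_lit 90719572) (nat_lit 608) (nat_lit 5238210896) (nat_lit 76) (nat_lit 5782415747) (nat_lit 160) (nat_lit 5) (nat_lit 168) (nat_lit 5) (nat_lit 161) (nat_lit 5) (nat_lit 303) (nat_lit 280) (nat_lit 197)) (XT.lf (nat_lit 0) (nat_lit 267894205) (nat_lit 608) (nat_lit 1308691751) (nat_lit 684) (nat_lit 9710505123) (nat_lit 152) (nat_lit 5) (nat_lit 160) (nat_lit 5) (nat_lit 161) (nat_lit 5) (nat_lit 304) (nat_lit 280) (nat_lit 196))) (XT.nd (nat_lit 78) (nat_lit 532) (nat_lit 0) (XT.lf (nat_lit 0) (nat_lit 3164367035) (nat_lit 684) (nat_lit 5470695301) (nat_lit 76) (nat_lit 2831359973) (nat_lit 152) (nat_lit 5) (nat_lit 161) (nat_lit 5) (nat_lit 153) (nat_lit 5) (nat_lit 305) (nat_lit 280) (nat_lit 195)) (XT.lf (nat_lit 0) (nat_lit 213146322) (nat_lit 532) (nat_lit 4579015172) (nat_lit 608) (nat_lit 6859233767) (nat_lit 145) (nat_lit 5) (nat_lit 152) (nat_lit 5) (nat_lit 153) (nat_lit 5) (nat_lit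 306) (nat_lit 280) (nat_lit 194))))) (XT.nd (nat_lit 234) (nat_lit 988) (nat_lit 0) (XT.nd (nat_lit 78) (nat_lit 532) (nat_lit 0) (XT.lf (nat_lit 0) (nat_lit 6157548975) (nat_lit 532) (nat_lit 344304419) (nat_lit 608) (nat_lit 5339104318) (nat_lit 145) (nat_lit 5) (nat_lit 152) (nat_lit 5) (nat_lit 153) (nat_lit 5) (nat_lit 307) (nat_lit 280) (nat_lit 193)) (XT.nd (nat_lit 78) (nat_lit 0) (nat_lit 0) (XT.lf (nat_lit 0) (nat_lit 186974524) (nat_lit 532) (nat_lit 8094744086) (nat_lit 608) (nat_lit 3753953227) (nat_lit 138) (nat_lit 5) (nat_lit 145) (nat_lit 5) (nat_lit 146) (nat_lit 5) (nat_lit 308) (nat_lit 280) (nat_lit 192)) (XT.lf (nat_lit 0) (nat_lit 6324581250) (nat_lit 532) (nat_lit 3830048941) (nat_lit 608) (nat_lit 2080438053) (nat_lit 138) (nat_lit 5) (nat_lit 145) (nat_lit 5) (nat_lit 146) (nat_lit 5) (nat_lit 309) (nat_lit 280) (nat_lit 191)))) (XT.nd (nat_lit 156) (nat_lit 456) (nat_lit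 0) (XT.nd (nat_lit 78) (nat_lit 76) (nat_lit 0) (XT.lf (nat_lit 0) (nat_lit 182100854) (nat_lit 456) (nat_lit 11888277833) (nat_lit 532) (nat_lit 370497853) (nat_lit 132) (nat_lit 5) (nat_lit 138) (nat_lit 5) (nat_lit 139) (nat_lit 5) (nat_lit 310) (nat_lit 280) (nat_lit 190)) (XT.lf (nat_lit 0) (nat_lit 1441451388) (nat_lit 532) (nat_lit 6146456077) (nat_lit 76) (nat_lit 5062242875) (nat_lit 131) (nat_lit 5) (nat_lit 138) (nat_lit 5) (nat_lit 132) (nat_lit 5) (nat_lit 311) (nat_lit 280) (nat_lit 189))) (XT.nd (nat_lit 78) (nat_lit 0) (nat_lit 0) (XT.lf (nat_lit 0) (nat_lit 126546642) (nat_lit 456) (nat_lit 3155227562) (nat_lit 532) (nat_lit 9584401231) (nat_lit 125) (nat_lit 5) (nat_lit 131) (nat_lit 5) (nat_lit 132) (nat_lit 5) (nat_lit 312) (nat_lit 280) (nat_lit 188)) (XT.lf (nat_lit 0) (nat_lit 5234144280) (nat_lit 532) (nat_lit 6409122385) (nat_lit 76) (nat_lit 1443735687) (nat_lit 125)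 (nat_lit 5) (nat_lit 132) (nat_lit 5) (nat_lit 126) (nat_lit 5) (nat_lit 313) (nat_lit 280) (nat_lit 187))))))))
noncomputable def xc158 : XT := (XT.nd (nat_lit 2028) (nat_lit 2356) (nat_lit 0) (XT.nd (nat_lit 1014) (nat_lit 2204) (nat_lit 0) (XT.nd (nat_lit 468) (nat_lit 1216) (nat_lit 0) (XT.nd (nat_lit 234) (nat_lit 912) (nat_lit 0) (XT.nd (nat_lit 78) (nat_lit 0) (nat_lit 0) (XT.lf (nat_lit 0) (nat_lit 60000637) (nat_lit 456) (nat_lit 7198064518) (nat_lit 532) (nat_lit 6056024964) (nat_lit 119) (nat_lit 5) (nat_lit 125) (nat_lit 5) (nat_lit 126) (nat_lit 5) (nat_lit 314) (nat_lit 280) (nat_lit 186)) (XT.nd (nat_lit 78) (nat_lit 0) (nat_lit 0) (XT.lf (nat_lit 0) (nat_lit 6833556680) (nat_lit 456) (nat_lit 2555376183) (nat_lit 532) (nat_lit 4157695471) (nat_lit 119) (nat_lit 5) (nat_lit 125) (nat_lit 5) (nat_lit 126) (nat_lit 5) (nat_lit 315) (nat_lit 280) (nat_lit 185)) (XT.lf (nat_lit 0)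 (nat_lit 11587154544) (nat_lit 532) (nat_lit 18174694) (nat_lit 76) (nat_lit 2180734593) (nat_lit 119) (nat_lit 5) (nat_lit 126) (nat_lit 5) (nat_lit 120) (nat_lit 5) (nat_lit 316) (nat_lit 280) (nat_lit 184)))) (XT.nd (nat_lit 78) (nat_lit 456) (nat_lit 0) (XT.lf (nat_lit 0) (nat_lit 6967899342) (nat_lit 456) (nat_lit 6958252124) (nat_lit 532) (nat_lit 104309343) (nat_lit 113) (nat_lit 5) (nat_lit 119) (nat_lit 5) (nat_lit 120) (nat_lit 5) (nat_lit 317) (nat_lit 280) (nat_lit 183)) (XT.nd (nat_lit 78) (nat_lit 380) (nat_lit 0) (XT.lf (nat_lit 0) (nat_lit 1995921029) (nat_lit 532) (nat_lit 158499095) (nat_lit 76) (nat_lit 12127713743) (nat_lit 112) (nat_lit 5) (nat_lit 119) (nat_lit 5) (nat_lit 113) (nat_lit 5) (nat_lit 318) (nat_lit 280) (nat_lit 182)) (XT.lf (nat_lit 0) (nat_lit 4235702347) (nat_lit 456) (nat_lit 7497620331) (nat_lit 76) (nat_lit 2805665539) (nat_lit 107) (nat_lit 5) (nat_lit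 113) (nat_lit 5) (nat_lit 108) (nat_lit 5) (nat_lit 319) (nat_lit 280) (nat_lit 181))))) (XT.nd (nat_lit 234) (nat_lit 836) (nat_lit 0) (XT.nd (nat_lit 78) (nat_lit 380) (nat_lit 0) (XT.lf (nat_lit 0) (nat_lit 6549069999) (nat_lit 456) (nat_lit 384565602) (nat_lit 76) (nat_lit 7869741490) (nat_lit 107) (nat_lit 5) (nat_lit 113) (nat_lit 5) (nat_lit 108) (nat_lit 5) (nat_lit 320) (nat_lit 280) (nat_lit 180)) (XT.nd (nat_lit 78) (nat_lit 0) (nat_lit 0) (XT.lf (nat_lit 0) (nat_lit 7060037197) (nat_lit 380) (nat_lit 1923594670) (nat_lit 456) (nat_lit 6090532044) (nat_lit 102) (nat_lit 5) (nat_lit 107) (nat_lit 5) (nat_lit 108) (nat_lit 5) (nat_lit 321) (nat_lit 280) (nat_lit 179)) (XT.lf (nat_lit 0) (nat_lit 11510440383) (nat_lit 456) (nat_lit 668124998) (nat_lit 76) (nat_lit 3173952154) (nat_lit 102) (nat_lit 5) (nat_lit 108) (nat_lit 5) (nat_lit 103) (nat_lit 5) (nat_lit 322) (nat_lit 280) (nat_lit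 178)))) (XT.nd (nat_lit 156) (nat_lit 380) (nat_lit 0) (XT.nd (nat_lit 78) (nat_lit 76) (nat_lit 0) (XT.lf (nat_lit 0) (nat_lit 6996439523) (nat_lit 380) (nat_lit 7187548506) (nat_lit 456) (nat_lit 1453124617) (nat_lit 97) (nat_lit 5) (nat_lit 102) (nat_lit 5) (nat_lit 103) (nat_lit 5) (nat_lit 323) (nat_lit 280) (nat_lit 177)) (XT.lf (nat_lit 0) (nat_lit 979381794) (nat_lit 456) (nat_lit 1054587799) (nat_lit 76) (nat_lit 13896256960) (nat_lit 96) (nat_lit 5) (nat_lit 102) (nat_lit 5) (nat_lit 97) (nat_lit 5) (nat_lit 324) (nat_lit 280) (nat_lit 176))) (XT.nd (nat_lit 78) (nat_lit 0) (nat_lit 0) (XT.lf (nat_lit 0) (nat_lit 3539003121) (nat_lit 456) (nat_lit 9402730546) (nat_lit 76) (nat_lit 3287485525) (nat_lit 91) (nat_lit 5) (nat_lit 97) (nat_lit 5) (nat_lit 92) (nat_lit 5) (nat_lit 325) (nat_lit 280) (nat_lit 175)) (XT.lf (nat_lit 0) (nat_lit 6191695167) (nat_lit 456) (nat_lit 1610584096)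 (nat_lit 76) (nat_lit 8734430699) (nat_lit 91) (nat_lit 5) (nat_lit 97) (nat_lit 5) (nat_lit 92) (nat_lit 5) (nat_lit 326) (nat_lit 280) (nat_lit 174)))))) (XT.nd (nat_lit 468) (nat_lit 1140) (nat_lit 0) (XT.nd (nat_lit 234) (nat_lit 380) (nat_lit 0) (XT.nd (nat_lit 78) (nat_lit 380) (nat_lit 0) (XT.lf (nat_lit 0) (nat_lit 6524097905) (nat_lit 304) (nat_lit 2448398309) (nat_lit 380) (nat_lit 7879489718) (nat_lit 87) (nat_lit 5) (nat_lit 91) (nat_lit 5) (nat_lit 92) (nat_lit 5) (nat_lit 327) (nat_lit 280) (nat_lit 173)) (XT.nd (nat_lit 78) (nat_lit 380) (nat_lit 0) (XT.lf (nat_lit 0) (nat_lit 11868628258) (nat_lit 380) (nat_lit 2288778450) (nat_lit 76) (nat_lit 3018372113) (nat_lit 87) (nat_lit 5) (nat_lit 92) (nat_lit 5) (nat_lit 88) (nat_lit 5) (nat_lit 328) (nat_lit 280) (nat_lit 172)) (XT.lf (nat_lit 0) (nat_lit 6067459184) (nat_lit 380) (nat_lit 8853167258) (nat_lit 456) (nat_lit 2586604978)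 (nat_lit 82) (nat_lit 5) (nat_lit 87) (nat_lit 5) (nat_lit 88) (nat_lit 5) (nat_lit 329) (nat_lit 280) (nat_lit 171)))) (XT.nd (nat_lit 78) (nat_lit 304) (nat_lit 0) (XT.lf (nat_lit 0) (nat_lit 221183622) (nat_lit 456) (nat_lit 3147240008) (nat_lit 76) (nat_lit 14479861320) (nat_lit 81) (nat_lit 5) (nat_lit 87) (nat_lit 5) (nat_lit 82) (nat_lit 5) (nat_lit 330) (nat_lit 280) (nat_lit 170)) (XT.nd (nat_lit 78) (nat_lit 0) (nat_lit 0) (XT.lf (nat_lit 0) (nat_lit 3123213955) (nat_lit 380) (nat_lit 12763114767) (nat_lit 76) (nat_lit 2310627258) (nat_lit 77) (nat_lit 5) (nat_lit 82) (nat_lit 5) (nat_lit 78) (nat_lit 5) (nat_lit 331) (nat_lit 280) (nat_lit 169)) (XT.lf (nat_lit 0) (nat_lit 6164804568) (nat_lit 380) (nat_lit 4269883563) (nat_lit 76) (nat_lit 8119837701) (nat_lit 77) (nat_lit 5) (nat_lit 82) (nat_lit 5) (nat_lit 78) (nat_lit 5) (nat_lit 332) (nat_lit 280) (nat_lit 168))))) (XT.nd (nat_lit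 234) (nat_lit 608) (nat_lit 0) (XT.nd (nat_lit 78) (nat_lit 228) (nat_lit 0) (XT.lf (nat_lit 0) (nat_lit 4549489796) (nat_lit 304) (nat_lit 4779315703) (nat_lit 380) (nat_lit 9593095676) (nat_lit 73) (nat_lit 5) (nat_lit 77) (nat_lit 5) (nat_lit 78) (nat_lit 5) (nat_lit 333) (nat_lit 280) (nat_lit 167)) (XT.nd (nat_lit 78) (nat_lit 228) (nat_lit 0) (XT.lf (nat_lit 0) (nat_lit 12628906191) (nat_lit 380) (nat_lit 5606108231) (nat_lit 76) (nat_lit 1064060850) (nat_lit 73) (nat_lit 5) (nat_lit 78) (nat_lit 5) (nat_lit 74) (nat_lit 5) (nat_lit 334) (nat_lit 280) (nat_lit 166)) (XT.lf (nat_lit 0) (nat_lit 3425625120) (nat_lit 228) (nat_lit 12670578893) (nat_lit 304) (nat_lit 3589327269) (nat_lit 70) (nat_lit 5) (nat_lit 73) (nat_lit 5) (nat_lit 74) (nat_lit 5) (nat_lit 335) (nat_lit 280) (nat_lit 165)))) (XT.nd (nat_lit 156) (nat_lit 228) (nat_lit 0) (XT.nd (nat_lit 78) (nat_lit 380) (nat_lit 0) (XT.lf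 (nat_lit 0) (nat_lit 12826312479) (nat_lit 228) (nat_lit 6885952433) (nat_lit 304) (nat_lit 369985883) (nat_lit 70) (nat_lit 5) (nat_lit 73) (nat_lit 5) (nat_lit 74) (nat_lit 5) (nat_lit 336) (nat_lit 280) (nat_lit 164)) (XT.lf (nat_lit 0) (nat_lit 2012432021) (nat_lit 304) (nat_lit 883716072) (nat_lit 380) (nat_lit 17593654759) (nat_lit 65) (nat_lit 5) (nat_lit 69) (nat_lit 5) (nat_lit 70) (nat_lit 5) (nat_lit 337) (nat_lit 280) (nat_lit 163))) (XT.nd (nat_lit 78) (nat_lit 228) (nat_lit 0) (XT.lf (nat_lit 0) (nat_lit 6366244774) (nat_lit 380) (nat_lit 9271923655) (nat_lit 76) (nat_lit 5267911811) (nat_lit 65) (nat_lit 5) (nat_lit 70) (nat_lit 5) (nat_lit 66) (nat_lit 5) (nat_lit 338) (nat_lit 280) (nat_lit 162)) (XT.lf (nat_lit 0) (nat_lit 188289685) (nat_lit 228) (nat_lit 9751535230) (nat_lit 304) (nat_lit 11395050411) (nat_lit 62) (nat_lit 5) (nat_lit 65) (nat_lit 5) (nat_lit 66) (nat_lit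 5) (nat_lit 339) (nat_lit 280) (nat_lit 161))))))) (XT.nd (nat_lit 1014) (nat_lit 1140) (nat_lit 0) (XT.nd (nat_lit 468) (nat_lit 684) (nat_lit 0) (XT.nd (nat_lit 234) (nat_lit 304) (nat_lit 0) (XT.nd (nat_lit 78) (nat_lit 228) (nat_lit 0) (XT.lf (nat_lit 0) (nat_lit 10106212989) (nat_lit 228) (nat_lit 3597018905) (nat_lit 304) (nat_lit 8070834264) (nat_lit 62) (nat_lit 5) (nat_lit 65) (nat_lit 5) (nat_lit 66) (nat_lit 5) (nat_lit 340) (nat_lit 280) (nat_lit 160)) (XT.nd (nat_lit 78) (nat_lit 228) (nat_lit 0) (XT.lf (nat_lit 0) (nat_lit 17595163885) (nat_lit 304) (nat_lit 1947091558) (nat_lit 76) (nat_lit 2683718761) (nat_lit 62) (nat_lit 5) (nat_lit 66) (nat_lit 5) (nat_lit 63) (nat_lit 5) (nat_lit 341) (nat_lit 280) (nat_lit 159)) (XT.lf (nat_lit 0) (nat_lit 8173668034) (nat_lit 228) (nat_lit 13533946593) (nat_lit 304) (nat_lit 980721918) (nat_lit 59) (nat_lit 5) (nat_lit 62) (nat_lit 5) (nat_lit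 63) (nat_lit 5) (nat_lit 342) (nat_lit 280) (nat_lit 158)))) (XT.nd (nat_lit 78) (nat_lit 228) (nat_lit 0) (XT.lf (nat_lit 0) (nat_lit 2734121237) (nat_lit 304) (nat_lit 4568495222) (nat_lit 76) (nat_lit 15860876906) (nat_lit 58) (nat_lit 5) (nat_lit 62) (nat_lit 5) (nat_lit 59) (nat_lit 5) (nat_lit 343) (nat_lit 280) (nat_lit 157)) (XT.nd (nat_lit 78) (nat_lit 0) (nat_lit 0) (XT.lf (nat_lit 0) (nat_lit 5763705015) (nat_lit 228) (nat_lit 822321051) (nat_lit 304) (nat_lit 17065236721) (nat_lit 55) (nat_lit 5) (nat_lit 58) (nat_lit 5) (nat_lit 59) (nat_lit 5) (nat_lit 344) (nat_lit 280) (nat_lit 156)) (XT.lf (nat_lit 0) (nat_lit 10646359088) (nat_lit 304) (nat_lit 7724702470) (nat_lit 76) (nat_lit 5779826377) (nat_lit 55) (nat_lit 5) (nat_lit 59) (nat_lit 5) (nat_lit 56) (nat_lit 5) (nat_lit 345) (nat_lit 280) (nat_lit 155))))) (XT.nd (nat_lit 234) (nat_lit 456) (nat_lit 0) (XT.nd (nat_lit 78)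 (nat_lit 0) (nat_lit 0) (XT.lf (nat_lit 0) (nat_lit 2774247156) (nat_lit 228) (nat_lit 12079379793) (nat_lit 304) (nat_lit 9811129662) (nat_lit 52) (nat_lit 5) (nat_lit 55) (nat_lit 5) (nat_lit 56) (nat_lit 5) (nat_lit 346) (nat_lit 280) (nat_lit 154)) (XT.nd (nat_lit 78) (nat_lit 0) (nat_lit 0) (XT.lf (nat_lit 0) (nat_lit 13731873957) (nat_lit 228) (nat_lit 5523699885) (nat_lit 304) (nat_lit 5936421949) (nat_lit 52) (nat_lit 5) (nat_lit 55) (nat_lit 5) (nat_lit 56) (nat_lit 5) (nat_lit 347) (nat_lit 280) (nat_lit 153)) (XT.lf (nat_lit 0) (nat_lit 23792076720) (nat_lit 304) (nat_lit 743085280) (nat_lit 76) (nat_lit 1199823247) (nat_lit 52) (nat_lit 5) (nat_lit 56) (nat_lit 5) (nat_lit 53) (nat_lit 5) (nat_lit 348) (nat_lit 280) (nat_lit 152)))) (XT.nd (nat_lit 156) (nat_lit 228) (nat_lit 0) (XT.nd (nat_lit 78) (nat_lit 0) (nat_lit 0) (XT.lf (nat_lit 0) (nat_lit 2275405344) (nat_lit 228) (nat_lit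 15881929515) (nat_lit 76) (nat_lit 8131890772) (nat_lit 49) (nat_lit 5) (nat_lit 52) (nat_lit 5) (nat_lit 50) (nat_lit 5) (nat_lit 349) (nat_lit 280) (nat_lit 151)) (XT.lf (nat_lit 0) (nat_lit 6579788523) (nat_lit 228) (nat_lit 4985837929) (nat_lit 76) (nat_lit 15293939910) (nat_lit 49) (nat_lit 5) (nat_lit 52) (nat_lit 5) (nat_lit 50) (nat_lit 5) (nat_lit 350) (nat_lit 280) (nat_lit 150))) (XT.nd (nat_lit 78) (nat_lit 0) (nat_lit 0) (XT.lf (nat_lit 0) (nat_lit 6347325412) (nat_lit 228) (nat_lit 4718246944) (nat_lit 304) (nat_lit 16379884017) (nat_lit 46) (nat_lit 5) (nat_lit 49) (nat_lit 5) (nat_lit 50) (nat_lit 5) (nat_lit 351) (nat_lit 280) (nat_lit 149)) (XT.lf (nat_lit 0) (nat_lit 15750548673) (nat_lit 304) (nat_lit 9961418320) (nat_lit 76) (nat_lit 2335024451) (nat_lit 46) (nat_lit 5) (nat_lit 50) (nat_lit 5) (nat_lit 47) (nat_lit 5) (nat_lit 352) (nat_lit 280) (nat_lit 148)))))) (XT.nd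 (nat_lit 546) (nat_lit 532) (nat_lit 0) (XT.nd (nat_lit 234) (nat_lit 380) (nat_lit 0) (XT.nd (nat_lit 78) (nat_lit 76) (nat_lit 0) (XT.lf (nat_lit 0) (nat_lit 1478170993) (nat_lit 152) (nat_lit 19150412280) (nat_lit 228) (nat_lit 8036420750) (nat_lit 44) (nat_lit 5) (nat_lit 46) (nat_lit 5) (nat_lit 47) (nat_lit 5) (nat_lit 353) (nat_lit 280) (nat_lit 147)) (XT.nd (nat_lit 78) (nat_lit 76) (nat_lit 0) (XT.lf (nat_lit 0) (nat_lit 13451924385) (nat_lit 152) (nat_lit 12293327914) (nat_lit 228) (nat_lit 3553542407) (nat_lit 44) (nat_lit 5) (nat_lit 46) (nat_lit 5) (nat_lit 47) (nat_lit 5) (nat_lit 354) (nat_lit 280) (nat_lit 146)) (XT.lf (nat_lit 0) (nat_lit 1034921573) (nat_lit 228) (nat_lit 4189940811) (nat_lit 76) (nat_lit 24726680350) (nat_lit 43) (nat_lit 5) (nat_lit 46) (nat_lit 5) (nat_lit 44) (nat_lit 5) (nat_lit 355) (nat_lit 280) (nat_lit 145)))) (XT.nd (nat_lit 156) (nat_lit 152) (nat_lit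 0) (XT.nd (nat_lit 78) (nat_lit 0) (nat_lit 0) (XT.lf (nat_lit 0) (nat_lit 5778695072) (nat_lit 304) (nat_lit 22718091241) (nat_lit 76) (nat_lit 2123365009) (nat_lit 40) (nat_lit 5) (nat_lit 44) (nat_lit 5) (nat_lit 41) (nat_lit 5) (nat_lit 356) (nat_lit 280) (nat_lit 144)) (XT.lf (nat_lit 0) (nat_lit 10751402391) (nat_lit 304) (nat_lit 10929686137) (nat_lit 76) (nat_lit 9625136821) (nat_lit 40) (nat_lit 5) (nat_lit 44) (nat_lit 5) (nat_lit 41) (nat_lit 5) (nat_lit 357) (nat_lit 280) (nat_lit 143))) (XT.nd (nat_lit 78) (nat_lit 0) (nat_lit 0) (XT.lf (nat_lit 0) (nat_lit 1223926439) (nat_lit 152) (nat_lit 14653518170) (nat_lit 228) (nat_lit 16135318011) (nat_lit 38) (nat_lit 5) (nat_lit 40) (nat_lit 5) (nat_lit 41) (nat_lit 5) (nat_lit 358) (nat_lit 280) (nat_lit 142)) (XT.lf (nat_lit 0) (nat_lit 13953988211) (nat_lit 152) (nat_lit 7306141183) (nat_lit 228) (nat_lit 11477286245) (nat_lit 38)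 (nat_lit 5) (nat_lit 40) (nat_lit 5) (nat_lit 41) (nat_lit 5) (nat_lit 359) (nat_lit 280) (nat_lit 141))))) (XT.nd (nat_lit 234) (nat_lit 304) (nat_lit 0) (XT.nd (nat_lit 78) (nat_lit 228) (nat_lit 0) (XT.lf (nat_lit 0) (nat_lit 26799477622) (nat_lit 228) (nat_lit 6432403208) (nat_lit 76) (nat_lit 252077239) (nat_lit 38) (nat_lit 5) (nat_lit 41) (nat_lit 5) (nat_lit 39) (nat_lit 5) (nat_lit 360) (nat_lit 280) (nat_lit 140)) (XT.nd (nat_lit 78) (nat_lit 76) (nat_lit 0) (XT.lf (nat_lit 0) (nat_lit 6328626858) (nat_lit 152) (nat_lit 26302433357) (nat_lit 228) (nat_lit 1618060096) (nat_lit 36) (nat_lit 5) (nat_lit 38) (nat_lit 5) (nat_lit 39) (nat_lit 5) (nat_lit 361) (nat_lit 280) (nat_lit 139)) (XT.lf (nat_lit 0) (nat_lit 3588597762) (nat_lit 228) (nat_lit 15477907639) (nat_lit 76) (nat_lit 15967943591) (nat_lit 35) (nat_lit 5) (nat_lit 38) (nat_lit 5) (nat_lit 36) (nat_lit 5) (nat_lit 362) (nat_lit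 280) (nat_lit 138)))) (XT.nd (nat_lit 156) (nat_lit 152) (nat_lit 0) (XT.nd (nat_lit 78) (nat_lit 152) (nat_lit 0) (XT.lf (nat_lit 0) (nat_lit 8912043633) (nat_lit 228) (nat_lit 2689436234) (nat_lit 76) (nat_lit 24241588480) (nat_lit 35) (nat_lit 5) (nat_lit 38) (nat_lit 5) (nat_lit 36) (nat_lit 5) (nat_lit 363) (nat_lit 280) (nat_lit 137)) (XT.lf (nat_lit 0) (nat_lit 10680055281) (nat_lit 152) (nat_lit 3811111195) (nat_lit 228) (nat_lit 22181905179) (nat_lit 33) (nat_lit 5) (nat_lit 35) (nat_lit 5) (nat_lit 36) (nat_lit 5) (nat_lit 364) (nat_lit 280) (nat_lit 136))) (XT.nd (nat_lit 78) (nat_lit 152) (nat_lit 0) (XT.lf (nat_lit 0) (nat_lit 20298946045) (nat_lit 228) (nat_lit 13073257430) (nat_lit 76) (nat_lit 4153937543) (nat_lit 33) (nat_lit 5) (nat_lit 36) (nat_lit 5) (nat_lit 34) (nat_lit 5) (nat_lit 365) (nat_lit 280) (nat_lit 135)) (XT.lf (nat_lit 0) (nat_lit 189284284) (nat_lit 152) (nat_lit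 26124779932) (nat_lit 228) (nat_lit 12089749406) (nat_lit 31) (nat_lit 5) (nat_lit 33) (nat_lit 5) (nat_lit 34) (nat_lit 5) (nat_lit 366) (nat_lit 280) (nat_lit 134))))))))
noncomputable def xc159 : XT := (XT.nd (nat_lit 2028) (nat_lit 304) (nat_lit 0) (XT.nd (nat_lit 1014) (nat_lit 380) (nat_lit 0) (XT.nd (nat_lit 468) (nat_lit 304) (nat_lit 0) (XT.nd (nat_lit 234) (nat_lit 152) (nat_lit 0) (XT.nd (nat_lit 78) (nat_lit 228) (nat_lit 0) (XT.lf (nat_lit 0) (nat_lit 14107026959) (nat_lit 152) (nat_lit 18528260464) (nat_lit 228) (nat_lit 6668763628) (nat_lit 31) (nat_lit 5) (nat_lit 33) (nat_lit 5) (nat_lit 34) (nat_lit 5) (nat_lit 367) (nat_lit 280) (nat_lit 133)) (XT.nd (nat_lit 78) (nat_lit 228) (nat_lit 0) (XT.lf (nat_lit 0) (nat_lit 28431948269) (nat_lit 152) (nat_lit 10708021603) (nat_lit 228) (nat_lit 1091515122) (nat_lit 31) (nat_lit 5) (nat_lit 33) (nat_lit 5) (nat_lit 34) (nat_lit 5)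 (nat_lit 368) (nat_lit 280) (nat_lit 132)) (XT.lf (nat_lit 0) (nat_lit 1983679482) (nat_lit 152) (nat_lit 2591581132) (nat_lit 228) (nat_lit 36609753112) (nat_lit 28) (nat_lit 5) (nat_lit 30) (nat_lit 5) (nat_lit 31) (nat_lit 5) (nat_lit 369) (nat_lit 280) (nat_lit 131)))) (XT.nd (nat_lit 78) (nat_lit 152) (nat_lit 0) (XT.lf (nat_lit 0) (nat_lit 10559861605) (nat_lit 228) (nat_lit 25818958937) (nat_lit 76) (nat_lit 5782914478) (nat_lit 28) (nat_lit 5) (nat_lit 31) (nat_lit 5) (nat_lit 29) (nat_lit 5) (nat_lit 370) (nat_lit 280) (nat_lit 130)) (XT.nd (nat_lit 78) (nat_lit 152) (nat_lit 0) (XT.lf (nat_lit 0) (nat_lit 16743814709) (nat_lit 228) (nat_lit 12070694460) (nat_lit 76) (nat_lit 14352657977) (nat_lit 28) (nat_lit 5) (nat_lit 31) (nat_lit 5) (nat_lit 29) (nat_lit 5) (nat_lit 371) (nat_lit 280) (nat_lit 129)) (XT.lf (nat_lit 0) (nat_lit 2121787819) (nat_lit 152) (nat_lit 21006219622) (nat_lit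 228) (nat_lit 21074316674) (nat_lit 26) (nat_lit 5) (nat_lit 28) (nat_lit 5) (nat_lit 29) (nat_lit 5) (nat_lit 372) (nat_lit 280) (nat_lit 128))))) (XT.nd (nat_lit 234) (nat_lit 228) (nat_lit 0) (XT.nd (nat_lit 78) (nat_lit 76) (nat_lit 0) (XT.lf (nat_lit 0) (nat_lit 16977942564) (nat_lit 152) (nat_lit 12842072438) (nat_lit 228) (nat_lit 15445035526) (nat_lit 26) (nat_lit 5) (nat_lit 28) (nat_lit 5) (nat_lit 29) (nat_lit 5) (nat_lit 373) (nat_lit 280) (nat_lit 127)) (XT.nd (nat_lit 78) (nat_lit 76) (nat_lit 0) (XT.lf (nat_lit 0) (nat_lit 32270520394) (nat_lit 152) (nat_lit 4436824243) (nat_lit 228) (nat_lit 9652480552) (nat_lit 26) (nat_lit 5) (nat_lit 28) (nat_lit 5) (nat_lit 29) (nat_lit 5) (nat_lit 374) (nat_lit 280) (nat_lit 126)) (XT.lf (nat_lit 0) (nat_lit 494391287) (nat_lit 76) (nat_lit 43346910631) (nat_lit 152) (nat_lit 3644944149) (nat_lit 25) (nat_lit 5) (nat_lit 26) (nat_lit 5)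 (nat_lit 27) (nat_lit 4) (nat_lit 375) (nat_lit 280) (nat_lit 125)))) (XT.nd (nat_lit 156) (nat_lit 152) (nat_lit 0) (XT.nd (nat_lit 78) (nat_lit 0) (nat_lit 0) (XT.lf (nat_lit 0) (nat_lit 2675508340) (nat_lit 152) (nat_lit 32916693783) (nat_lit 76) (nat_lit 13048057897) (nat_lit 24) (nat_lit 5) (nat_lit 26) (nat_lit 5) (nat_lit 25) (nat_lit 5) (nat_lit 376) (nat_lit 280) (nat_lit 124)) (XT.lf (nat_lit 0) (nat_lit 9107166652) (nat_lit 152) (nat_lit 18464237281) (nat_lit 76) (nat_lit 22256565181) (nat_lit 24) (nat_lit 5) (nat_lit 26) (nat_lit 5) (nat_lit 25) (nat_lit 5) (nat_lit 377) (nat_lit 280) (nat_lit 123))) (XT.nd (nat_lit 78) (nat_lit 152) (nat_lit 0) (XT.lf (nat_lit 0) (nat_lit 15726776671) (nat_lit 152) (nat_lit 3586819483) (nat_lit 76) (nat_lit 31737866121) (nat_lit 24) (nat_lit 5) (nat_lit 26) (nat_lit 5) (nat_lit 25) (nat_lit 5) (nat_lit 378) (nat_lit 280) (nat_lit 122)) (XT.lf (nat_lit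 0) (nat_lit 11961980623) (nat_lit 152) (nat_lit 10693127775) (nat_lit 228) (nat_lit 29653250603) (nat_lit 22) (nat_lit 5) (nat_lit 24) (nat_lit 5) (nat_lit 25) (nat_lit 5) (nat_lit 379) (nat_lit 280) (nat_lit 121)))))) (XT.nd (nat_lit 468) (nat_lit 228) (nat_lit 0) (XT.nd (nat_lit 234) (nat_lit 76) (nat_lit 0) (XT.nd (nat_lit 78) (nat_lit 76) (nat_lit 0) (XT.lf (nat_lit 0) (nat_lit 28042491441) (nat_lit 152) (nat_lit 1780227757) (nat_lit 228) (nat_lit 23779303247) (nat_lit 22) (nat_lit 5) (nat_lit 24) (nat_lit 5) (nat_lit 25) (nat_lit 5) (nat_lit 380) (nat_lit 280) (nat_lit 120)) (XT.nd (nat_lit 78) (nat_lit 76) (nat_lit 0) (XT.lf (nat_lit 0) (nat_lit 37271808472) (nat_lit 228) (nat_lit 10408360116) (nat_lit 76) (nat_lit 7252336311) (nat_lit 22) (nat_lit 5) (nat_lit 25) (nat_lit 5) (nat_lit 23) (nat_lit 4) (nat_lit 381) (nat_lit 280) (nat_lit 119)) (XT.lf (nat_lit 0) (nat_lit 5274738335) (nat_lit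 76) (nat_lit 39733414790) (nat_lit 152) (nat_lit 11292837756) (nat_lit 21) (nat_lit 5) (nat_lit 22) (nat_lit 5) (nat_lit 23) (nat_lit 4) (nat_lit 382) (nat_lit 280) (nat_lit 118)))) (XT.nd (nat_lit 78) (nat_lit 76) (nat_lit 0) (XT.lf (nat_lit 0) (nat_lit 21633857785) (nat_lit 76) (nat_lit 31443344185) (nat_lit 152) (nat_lit 4630313520) (nat_lit 21) (nat_lit 5) (nat_lit 22) (nat_lit 5) (nat_lit 23) (nat_lit 4) (nat_lit 383) (nat_lit 280) (nat_lit 117)) (XT.nd (nat_lit 78) (nat_lit 0) (nat_lit 0) (XT.lf (nat_lit 0) (nat_lit 2184125494) (nat_lit 152) (nat_lit 20701636170) (nat_lit 76) (nat_lit 36269964954) (nat_lit 20) (nat_lit 5) (nat_lit 22) (nat_lit 5) (nat_lit 21) (nat_lit 5) (nat_lit 384) (nat_lit 280) (nat_lit 116)) (XT.lf (nat_lit 0) (nat_lit 9105656359) (nat_lit 152) (nat_lit 4921769522) (nat_lit 76) (nat_lit 46618713409) (nat_lit 20) (nat_lit 5) (nat_lit 22) (nat_lit 5) (nat_lit 21) (nat_lit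 5) (nat_lit 385) (nat_lit 280) (nat_lit 115))))) (XT.nd (nat_lit 234) (nat_lit 76) (nat_lit 0) (XT.nd (nat_lit 78) (nat_lit 0) (nat_lit 0) (XT.lf (nat_lit 0) (nat_lit 11549614454) (nat_lit 152) (nat_lit 4792088613) (nat_lit 228) (nat_lit 45836357366) (nat_lit 18) (nat_lit 5) (nat_lit 20) (nat_lit 5) (nat_lit 21) (nat_lit 5) (nat_lit 386) (nat_lit 280) (nat_lit 114)) (XT.nd (nat_lit 78) (nat_lit 0) (nat_lit 0) (XT.lf (nat_lit 0) (nat_lit 23886268201) (nat_lit 228) (nat_lit 35191561021) (nat_lit 76) (nat_lit 4675369001) (nat_lit 18) (nat_lit 5) (nat_lit 21) (nat_lit 5) (nat_lit 19) (nat_lit 4) (nat_lit 387) (nat_lit 280) (nat_lit 113)) (XT.lf (nat_lit 0) (nat_lit 31700607222) (nat_lit 228) (nat_lit 19346081605) (nat_lit 76) (nat_lit 14327600273) (nat_lit 18) (nat_lit 5) (nat_lit 21) (nat_lit 5) (nat_lit 19) (nat_lit 4) (nat_lit 388) (nat_lit 280) (nat_lit 112)))) (XT.nd (nat_lit 156) (nat_lit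 0) (nat_lit 0) (XT.nd (nat_lit 78) (nat_lit 76) (nat_lit 0) (XT.lf (nat_lit 0) (nat_lit 39745483705) (nat_lit 228) (nat_lit 3032097680) (nat_lit 76) (nat_lit 24266550102) (nat_lit 18) (nat_lit 5) (nat_lit 21) (nat_lit 5) (nat_lit 19) (nat_lit 4) (nat_lit 389) (nat_lit 280) (nat_lit 111)) (XT.lf (nat_lit 0) (nat_lit 14038589128) (nat_lit 76) (nat_lit 34124285532) (nat_lit 152) (nat_lit 20597261383) (nat_lit 17) (nat_lit 5) (nat_lit 18) (nat_lit 5) (nat_lit 19) (nat_lit 4) (nat_lit 390) (nat_lit 280) (nat_lit 110))) (XT.nd (nat_lit 78) (nat_lit 0) (nat_lit 0) (XT.lf (nat_lit 0) (nat_lit 31676956795) (nat_lit 76) (nat_lit 25182716147) (nat_lit 152) (nat_lit 13667143113) (nat_lit 17) (nat_lit 5) (nat_lit 18) (nat_lit 5) (nat_lit 19) (nat_lit 4) (nat_lit 391) (nat_lit 280) (nat_lit 109)) (XT.lf (nat_lit 0) (nat_lit 49838072796) (nat_lit 76) (nat_lit 15975678450) (nat_lit 152) (nat_lit 6532855770)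 (nat_lit 17) (nat_lit 5) (nat_lit 18) (nat_lit 5) (nat_lit 19) (nat_lit 4) (nat_lit 392) (nat_lit 280) (nat_lit 108))))))) (XT.nd (nat_lit 32214) (nat_lit 0) (nat_lit 13908) (XT.nd (nat_lit 468) (nat_lit 0) (nat_lit 0) (XT.nd (nat_lit 234) (nat_lit 76) (nat_lit 0) (XT.nd (nat_lit 78) (nat_lit 152) (nat_lit 0) (XT.lf (nat_lit 0) (nat_lit 795992672) (nat_lit 152) (nat_lit 5691096819) (nat_lit 76) (nat_lit 67733775430) (nat_lit 16) (nat_lit 5) (nat_lit 18) (nat_lit 5) (nat_lit 17) (nat_lit 5) (nat_lit 393) (nat_lit 280) (nat_lit 107)) (XT.nd (nat_lit 78) (nat_lit 0) (nat_lit 0) (XT.lf (nat_lit 0) (nat_lit 8356610880) (nat_lit 228) (nat_lit 64389296250) (nat_lit 76) (nat_lit 3399208410) (nat_lit 14) (nat_lit 5) (nat_lit 17) (nat_lit 5) (nat_lit 15) (nat_lit 4) (nat_lit 394) (nat_lit 280) (nat_lit 106)) (XT.lf (nat_lit 0) (nat_lit 16262879816) (nat_lit 228) (nat_lit 48353486644) (nat_lit 76) (nat_lit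 13507163880) (nat_lit 14) (nat_lit 5) (nat_lit 17) (nat_lit 5) (nat_lit 15) (nat_lit 4) (nat_lit 395) (nat_lit 280) (nat_lit 105)))) (XT.nd (nat_lit 78) (nat_lit 76) (nat_lit 0) (XT.lf (nat_lit 0) (nat_lit 24403002504) (nat_lit 228) (nat_lit 31842548590) (nat_lit 76) (nat_lit 23915848098) (nat_lit 14) (nat_lit 5) (nat_lit 17) (nat_lit 5) (nat_lit 15) (nat_lit 4) (nat_lit 396) (nat_lit 280) (nat_lit 104)) (XT.nd (nat_lit 78) (nat_lit 76) (nat_lit 0) (XT.lf (nat_lit 0) (nat_lit 32784091674) (nat_lit 228) (nat_lit 14842055055) (nat_lit 76) (nat_lit 34634356032) (nat_lit 14) (nat_lit 5) (nat_lit 17) (nat_lit 5) (nat_lit 15) (nat_lit 4) (nat_lit 397) (nat_lit 280) (nat_lit 103)) (XT.lf (nat_lit 0) (nat_lit 2715844673) (nat_lit 76) (nat_lit 38723732294) (nat_lit 152) (nat_lit 42982315056) (nat_lit 13) (nat_lit 5) (nat_lit 14) (nat_lit 5) (nat_lit 15) (nat_lit 4) (nat_lit 398) (nat_lit 280) (nat_lit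 102))))) (XT.nd (nat_lit 31434) (nat_lit 0) (nat_lit 15580) (XT.nd (nat_lit 78) (nat_lit 0) (nat_lit 0) (XT.lf (nat_lit 0) (nat_lit 21099179392) (nat_lit 76) (nat_lit 29402318364) (nat_lit 152) (nat_lit 36142223524) (nat_lit 13) (nat_lit 5) (nat_lit 14) (nat_lit 5) (nat_lit 15) (nat_lit 4) (nat_lit 399) (nat_lit 280) (nat_lit 101)) (XT.nd (nat_lit 78) (nat_lit 0) (nat_lit 0) (XT.lf (nat_lit 0) (nat_lit 40028626213) (nat_lit 76) (nat_lit 19803635668) (nat_lit 152) (nat_lit 29100035368) (nat_lit 13) (nat_lit 5) (nat_lit 14) (nat_lit 5) (nat_lit 15) (nat_lit 4) (nat_lit 400) (nat_lit 280) (nat_lit 100)) (XT.lf (nat_lit 0) (nat_lit 59520725429) (nat_lit 76) (nat_lit 9919297007) (nat_lit 152) (nat_lit 21849597218) (nat_lit 13) (nat_lit 5) (nat_lit 14) (nat_lit 5) (nat_lit 15) (nat_lit 4) (nat_lit 401) (nat_lit 280) (nat_lit 99)))) (XT.nd (nat_lit 156) (nat_lit 0) (nat_lit 76) (XT.nd (nat_lit 78)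 (nat_lit 0) (nat_lit 0) (XT.lf (nat_lit 0) (nat_lit 1290244579) (nat_lit 988) (nat_lit 1445203489) (nat_lit 988) (nat_lit 1445203489) (nat_lit 218) (nat_lit 3) (nat_lit 231) (nat_lit 3) (nat_lit 231) (nat_lit 5) (nat_lit 281) (nat_lit 281) (nat_lit 218)) (XT.lf (nat_lit 76) (nat_lit 858087196) (nat_lit 0) (nat_lit 2776283316) (nat_lit 988) (nat_lit 4820116617) (nat_lit 219) (nat_lit 5) (nat_lit 218) (nat_lit 3) (nat_lit 231) (nat_lit 5) (nat_lit 282) (nat_lit 281) (nat_lit 217))) (XT.nd (nat_lit 78) (nat_lit 0) (nat_lit 0) (XT.lf (nat_lit 0) (nat_lit 4710021402) (nat_lit 912) (nat_lit 3793697014) (nat_lit 988) (nat_lit 47113136) (nat_lit 219) (nat_lit 5) (nat_lit 231) (nat_lit 5) (nat_lit 232) (nat_lit 5) (nat_lit 283) (nat_lit 281) (nat_lit 216)) (XT.lf (nat_lit 76) (nat_lit 75606733) (nat_lit 0) (nat_lit 5732379587) (nat_lit 988) (nat_lit 2842446109) (nat_lit 220) (nat_lit 5) (nat_lit 219)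 (nat_lit 5) (nat_lit 232) (nat_lit 5) (nat_lit 284) (nat_lit 281) (nat_lit 215)))))) (XT.nd (nat_lit 546) (nat_lit 836) (nat_lit 0) (XT.nd (nat_lit 234) (nat_lit 0) (nat_lit 0) (XT.nd (nat_lit 78) (nat_lit 912) (nat_lit 0) (XT.lf (nat_lit 76) (nat_lit 4117499467) (nat_lit 0) (nat_lit 2822436808) (nat_lit 988) (nat_lit 1813119166) (nat_lit 220) (nat_lit 5) (nat_lit 219) (nat_lit 5) (nat_lit 232) (nat_lit 5) (nat_lit 285) (nat_lit 281) (nat_lit 214)) (XT.nd (nat_lit 78) (nat_lit 988) (nat_lit 0) (XT.lf (nat_lit 0) (nat_lit 8071496943) (nat_lit 912) (nat_lit 601724826) (nat_lit 988) (nat_lit 186629393) (nat_lit 220) (nat_lit 5) (nat_lit 232) (nat_lit 5) (nat_lit 233) (nat_lit 5) (nat_lit 286) (nat_lit 281) (nat_lit 213)) (XT.lf (nat_lit 0) (nat_lit 289468413) (nat_lit 988) (nat_lit 5398317895) (nat_lit 1064) (nat_lit 3281221505) (nat_lit 207) (nat_lit 5) (nat_lit 220) (nat_lit 5) (nat_lit 221)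 (nat_lit 5) (nat_lit 287) (nat_lit 281) (nat_lit 212)))) (XT.nd (nat_lit 156) (nat_lit 0) (nat_lit 76) (XT.nd (nat_lit 78) (nat_lit 0) (nat_lit 76) (XT.lf (nat_lit 0) (nat_lit 1355357310) (nat_lit 988) (nat_lit 1230345261) (nat_lit 1064) (nat_lit 6496413314) (nat_lit 207) (nat_lit 5) (nat_lit 220) (nat_lit 5) (nat_lit 221) (nat_lit 5) (nat_lit 288) (nat_lit 281) (nat_lit 211)) (XT.lf (nat_lit 0) (nat_lit 2455760437) (nat_lit 988) (nat_lit 6103058999) (nat_lit 1064) (nat_lit 639778131) (nat_lit 208) (nat_lit 5) (nat_lit 221) (nat_lit 5) (nat_lit 222) (nat_lit 5) (nat_lit 289) (nat_lit 281) (nat_lit 210))) (XT.nd (nat_lit 78) (nat_lit 0) (nat_lit 0) (XT.lf (nat_lit 0) (nat_lit 3594659473) (nat_lit 988) (nat_lit 1789647519) (nat_lit 1064) (nat_lit 3934157041) (nat_lit 208) (nat_lit 5) (nat_lit 221) (nat_lit 5) (nat_lit 222) (nat_lit 5) (nat_lit 290) (nat_lit 281) (nat_lit 209)) (XT.lf (nat_lit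 76) (nat_lit 2684044297) (nat_lit 0) (nat_lit 2077768959) (nat_lit 1064) (nat_lit 4680343854) (nat_lit 209) (nat_lit 5) (nat_lit 208) (nat_lit 5) (nat_lit 222) (nat_lit 5) (nat_lit 291) (nat_lit 281) (nat_lit 208))))) (XT.nd (nat_lit 234) (nat_lit 988) (nat_lit 0) (XT.nd (nat_lit 78) (nat_lit 0) (nat_lit 0) (XT.lf (nat_lit 0) (nat_lit 5964097199) (nat_lit 988) (nat_lit 2275691527) (nat_lit 1064) (nat_lit 1329820489) (nat_lit 209) (nat_lit 5) (nat_lit 222) (nat_lit 5) (nat_lit 223) (nat_lit 5) (nat_lit 292) (nat_lit 281) (nat_lit 207)) (XT.nd (nat_lit 78) (nat_lit 0) (nat_lit 0) (XT.lf (nat_lit 76) (nat_lit 2344673306) (nat_lit 0) (nat_lit 4870886242) (nat_lit 1064) (nat_lit 2484982231) (nat_lit 210) (nat_lit 5) (nat_lit 209) (nat_lit 5) (nat_lit 223) (nat_lit 5) (nat_lit 293) (nat_lit 281) (nat_lit 206)) (XT.lf (nat_lit 76) (nat_lit 7128801230) (nat_lit 0) (nat_lit 1369411201) (nat_lit 1064)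 (nat_lit 1337429221) (nat_lit 210) (nat_lit 5) (nat_lit 209) (nat_lit 5) (nat_lit 223) (nat_lit 5) (nat_lit 294) (nat_lit 281) (nat_lit 205)))) (XT.nd (nat_lit 156) (nat_lit 0) (nat_lit 0) (XT.nd (nat_lit 78) (nat_lit 1064) (nat_lit 0) (XT.lf (nat_lit 76) (nat_lit 2078874365) (nat_lit 0) (nat_lit 7753552542) (nat_lit 1064) (nat_lit 142022468) (nat_lit 211) (nat_lit 5) (nat_lit 210) (nat_lit 5) (nat_lit 224) (nat_lit 5) (nat_lit 295) (nat_lit 281) (nat_lit 204)) (XT.lf (nat_lit 0) (nat_lit 1081047710) (nat_lit 1064) (nat_lit 3099488580) (nat_lit 1140) (nat_lit 5936223831) (nat_lit 196) (nat_lit 5) (nat_lit 210) (nat_lit 5) (nat_lit 211) (nat_lit 5) (nat_lit 296) (nat_lit 281) (nat_lit 203))) (XT.nd (nat_lit 78) (nat_lit 0) (nat_lit 76) (XT.lf (nat_lit 76) (nat_lit 1853657686) (nat_lit 0) (nat_lit 474828335) (nat_lit 1140) (nat_lit 7935139366) (nat_lit 197) (nat_lit 5) (nat_lit 196) (nat_lit 5)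 (nat_lit 211) (nat_lit 5) (nat_lit 297) (nat_lit 281) (nat_lit 202)) (XT.lf (nat_lit 0) (nat_lit 3650434483) (nat_lit 1064) (nat_lit 3449729194) (nat_lit 76) (nat_lit 3313662361) (nat_lit 197) (nat_lit 5) (nat_lit 211) (nat_lit 5) (nat_lit 198) (nat_lit 5) (nat_lit 298) (nat_lit 281) (nat_lit 201))))))))
noncomputable def xc160 : XT := (XT.nd (nat_lit 2028) (nat_lit 3648) (nat_lit 0) (XT.nd (nat_lit 1014) (nat_lit 2584) (nat_lit 0) (XT.nd (nat_lit 468) (nat_lit 2204) (nat_lit 0) (XT.nd (nat_lit 234) (nat_lit 608) (nat_lit 0) (XT.nd (nat_lit 78) (nat_lit 1140) (nat_lit 0) (XT.lf (nat_lit 0) (nat_lit 1665492985) (nat_lit 1064) (nat_lit 3341388077) (nat_lit 1140) (nat_lit 5561847267) (nat_lit 183) (nat_lit 5) (nat_lit 197) (nat_lit 5) (nat_lit 198) (nat_lit 5) (nat_lit 299) (nat_lit 281) (nat_lit 200)) (XT.nd (nat_lit 78) (nat_lit 1140) (nat_lit 0) (XT.lf (nat_lit 0) (nat_lit 6419011586) (nat_lit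 1140) (nat_lit 3750032721) (nat_lit 76) (nat_lit 558823292) (nat_lit 183) (nat_lit 5) (nat_lit 198) (nat_lit 5) (nat_lit 184) (nat_lit 5) (nat_lit 300) (nat_lit 281) (nat_lit 199)) (XT.lf (nat_lit 0) (nat_lit 1532998267) (nat_lit 1140) (nat_lit 6363777415) (nat_lit 1216) (nat_lit 2994345743) (nat_lit 168) (nat_lit 5) (nat_lit 183) (nat_lit 5) (nat_lit 184) (nat_lit 5) (nat_lit 301) (nat_lit 281) (nat_lit 198)))) (XT.nd (nat_lit 78) (nat_lit 608) (nat_lit 0) (XT.lf (nat_lit 0) (nat_lit 7030004953) (nat_lit 1140) (nat_lit 2402695664) (nat_lit 1216) (nat_lit 1626194761) (nat_lit 168) (nat_lit 5) (nat_lit 183) (nat_lit 5) (nat_lit 184) (nat_lit 5) (nat_lit 302) (nat_lit 281) (nat_lit 197)) (XT.nd (nat_lit 78) (nat_lit 76) (nat_lit 0) (XT.lf (nat_lit 0) (nat_lit 1450883282) (nat_lit 532) (nat_lit 9570574138) (nat_lit 608) (nat_lit 210078768) (nat_lit 161) (nat_lit 5) (nat_lit 168) (nat_lit 5) (nat_lit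 169) (nat_lit 5) (nat_lit 303) (nat_lit 281) (nat_lit 196)) (XT.lf (nat_lit 0) (nat_lit 1265931757) (nat_lit 608) (nat_lit 4288499046) (nat_lit 76) (nat_lit 5853346326) (nat_lit 160) (nat_lit 5) (nat_lit 168) (nat_lit 5) (nat_lit 161) (nat_lit 5) (nat_lit 304) (nat_lit 281) (nat_lit 195))))) (XT.nd (nat_lit 234) (nat_lit 1064) (nat_lit 0) (XT.nd (nat_lit 78) (nat_lit 532) (nat_lit 0) (XT.lf (nat_lit 0) (nat_lit 1371937657) (nat_lit 608) (nat_lit 1400821751) (nat_lit 684) (nat_lit 8816793901) (nat_lit 152) (nat_lit 5) (nat_lit 160) (nat_lit 5) (nat_lit 161) (nat_lit 5) (nat_lit 305) (nat_lit 281) (nat_lit 194)) (XT.nd (nat_lit 78) (nat_lit 532) (nat_lit 0) (XT.lf (nat_lit 0) (nat_lit 4374218105) (nat_lit 684) (nat_lit 4535141073) (nat_lit 76) (nat_lit 2865973026) (nat_lit 152) (nat_lit 5) (nat_lit 161) (nat_lit 5) (nat_lit 153) (nat_lit 5) (nat_lit 306) (nat_lit 281) (nat_lit 193)) (XT.lf (nat_lit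 0) (nat_lit 1308434671) (nat_lit 532) (nat_lit 4720405442) (nat_lit 608) (nat_lit 5937722047) (nat_lit 145) (nat_lit 5) (nat_lit 152) (nat_lit 5) (nat_lit 153) (nat_lit 5) (nat_lit 307) (nat_lit 281) (nat_lit 192)))) (XT.nd (nat_lit 156) (nat_lit 532) (nat_lit 0) (XT.nd (nat_lit 78) (nat_lit 532) (nat_lit 0) (XT.lf (nat_lit 0) (nat_lit 7399454045) (nat_lit 532) (nat_lit 358536285) (nat_lit 608) (nat_lit 4404822367) (nat_lit 145) (nat_lit 5) (nat_lit 152) (nat_lit 5) (nat_lit 153) (nat_lit 5) (nat_lit 308) (nat_lit 281) (nat_lit 191)) (XT.lf (nat_lit 0) (nat_lit 1272481566) (nat_lit 532) (nat_lit 8298208872) (nat_lit 608) (nat_lit 2793339534) (nat_lit 138) (nat_lit 5) (nat_lit 145) (nat_lit 5) (nat_lit 146) (nat_lit 5) (nat_lit 309) (nat_lit 281) (nat_lit 190))) (XT.nd (nat_lit 78) (nat_lit 532) (nat_lit 0) (XT.lf (nat_lit 0) (nat_lit 7562763159) (nat_lit 532) (nat_lit 3906719791) (nat_lit 608)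 (nat_lit 1100878098) (nat_lit 138) (nat_lit 5) (nat_lit 145) (nat_lit 5) (nat_lit 146) (nat_lit 5) (nat_lit 310) (nat_lit 281) (nat_lit 189)) (XT.lf (nat_lit 0) (nat_lit 628458153) (nat_lit 532) (nat_lit 11532297451) (nat_lit 76) (nat_lit 622009121) (nat_lit 131) (nat_lit 5) (nat_lit 138) (nat_lit 5) (nat_lit 132) (nat_lit 5) (nat_lit 311) (nat_lit 281) (nat_lit 188)))))) (XT.nd (nat_lit 468) (nat_lit 1216) (nat_lit 0) (XT.nd (nat_lit 234) (nat_lit 912) (nat_lit 0) (XT.nd (nat_lit 78) (nat_lit 456) (nat_lit 0) (XT.lf (nat_lit 0) (nat_lit 2458116582) (nat_lit 532) (nat_lit 5272040817) (nat_lit 76) (nat_lit 5268965257) (nat_lit 131) (nat_lit 5) (nat_lit 138) (nat_lit 5) (nat_lit 132) (nat_lit 5) (nat_lit 312) (nat_lit 281) (nat_lit 187)) (XT.nd (nat_lit 78) (nat_lit 0) (nat_lit 0) (XT.lf (nat_lit 0) (nat_lit 1178771504) (nat_lit 456) (nat_lit 3156603628) (nat_lit 532) (nat_lit 8886840315) (nat_lit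 125) (nat_lit 5) (nat_lit 131) (nat_lit 5) (nat_lit 132) (nat_lit 5) (nat_lit 313) (nat_lit 281) (nat_lit 186)) (XT.lf (nat_lit 0) (nat_lit 6319367029) (nat_lit 532) (nat_lit 5555301842) (nat_lit 76) (nat_lit 1575844376) (nat_lit 125) (nat_lit 5) (nat_lit 132) (nat_lit 5) (nat_lit 126) (nat_lit 5) (nat_lit 314) (nat_lit 281) (nat_lit 185)))) (XT.nd (nat_lit 78) (nat_lit 456) (nat_lit 0) (XT.lf (nat_lit 0) (nat_lit 1097639045) (nat_lit 456) (nat_lit 7289288692) (nat_lit 532) (nat_lit 5298034745) (nat_lit 119) (nat_lit 5) (nat_lit 125) (nat_lit 5) (nat_lit 126) (nat_lit 5) (nat_lit 315) (nat_lit 281) (nat_lit 184)) (XT.nd (nat_lit 78) (nat_lit 456) (nat_lit 0) (XT.lf (nat_lit 0) (nat_lit 8044231719) (nat_lit 456) (nat_lit 2510952263) (nat_lit 532) (nat_lit 3370124425) (nat_lit 119) (nat_lit 5) (nat_lit 125) (nat_lit 5) (nat_lit 126) (nat_lit 5) (nat_lit 316) (nat_lit 281) (nat_lit 183)) (XT.lf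 (nat_lit 0) (nat_lit 1003010837) (nat_lit 456) (nat_lit 11801348517) (nat_lit 532) (nat_lit 1368051810) (nat_lit 113) (nat_lit 5) (nat_lit 119) (nat_lit 5) (nat_lit 120) (nat_lit 5) (nat_lit 317) (nat_lit 281) (nat_lit 182))))) (XT.nd (nat_lit 234) (nat_lit 760) (nat_lit 0) (XT.nd (nat_lit 78) (nat_lit 380) (nat_lit 0) (XT.lf (nat_lit 0) (nat_lit 748550920) (nat_lit 532) (nat_lit 6262997024) (nat_lit 76) (nat_lit 7413159841) (nat_lit 112) (nat_lit 5) (nat_lit 119) (nat_lit 5) (nat_lit 113) (nat_lit 5) (nat_lit 318) (nat_lit 281) (nat_lit 181)) (XT.nd (nat_lit 78) (nat_lit 0) (nat_lit 0) (XT.lf (nat_lit 0) (nat_lit 833999412) (nat_lit 380) (nat_lit 2058838519) (nat_lit 456) (nat_lit 11791599220) (nat_lit 107) (nat_lit 5) (nat_lit 112) (nat_lit 5) (nat_lit 113) (nat_lit 5) (nat_lit 319) (nat_lit 281) (nat_lit 180)) (XT.lf (nat_lit 0) (nat_lit 5178497423) (nat_lit 456) (nat_lit 6727252454) (nat_lit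 76) (nat_lit 3043917282) (nat_lit 107) (nat_lit 5) (nat_lit 113) (nat_lit 5) (nat_lit 108) (nat_lit 5) (nat_lit 320) (nat_lit 281) (nat_lit 179)))) (XT.nd (nat_lit 156) (nat_lit 380) (nat_lit 0) (XT.nd (nat_lit 78) (nat_lit 0) (nat_lit 0) (XT.lf (nat_lit 0) (nat_lit 581552890) (nat_lit 380) (nat_lit 6961544505) (nat_lit 456) (nat_lit 7679465044) (nat_lit 102) (nat_lit 5) (nat_lit 107) (nat_lit 5) (nat_lit 108) (nat_lit 5) (nat_lit 321) (nat_lit 281) (nat_lit 178)) (XT.lf (nat_lit 0) (nat_lit 8228671981) (nat_lit 380) (nat_lit 1802564622) (nat_lit 456) (nat_lit 5470848860) (nat_lit 102) (nat_lit 5) (nat_lit 107) (nat_lit 5) (nat_lit 108) (nat_lit 5) (nat_lit 322) (nat_lit 281) (nat_lit 177))) (XT.nd (nat_lit 78) (nat_lit 0) (nat_lit 0) (XT.lf (nat_lit 0) (nat_lit 267952093) (nat_lit 380) (nat_lit 12347478113) (nat_lit 456) (nat_lit 3173940042) (nat_lit 97) (nat_lit 5) (nat_lit 102) (nat_lit 5)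 (nat_lit 103) (nat_lit 5) (nat_lit 323) (nat_lit 281) (nat_lit 176)) (XT.lf (nat_lit 0) (nat_lit 8147902368) (nat_lit 380) (nat_lit 7205705656) (nat_lit 456) (nat_lit 729389636) (nat_lit 97) (nat_lit 5) (nat_lit 102) (nat_lit 5) (nat_lit 103) (nat_lit 5) (nat_lit 324) (nat_lit 281) (nat_lit 175))))))) (XT.nd (nat_lit 1014) (nat_lit 1520) (nat_lit 0) (XT.nd (nat_lit 468) (nat_lit 988) (nat_lit 0) (XT.nd (nat_lit 234) (nat_lit 684) (nat_lit 0) (XT.nd (nat_lit 78) (nat_lit 380) (nat_lit 0) (XT.lf (nat_lit 0) (nat_lit 1739205356) (nat_lit 456) (nat_lit 156689519) (nat_lit 76) (nat_lit 14489471827) (nat_lit 96) (nat_lit 5) (nat_lit 102) (nat_lit 5) (nat_lit 97) (nat_lit 5) (nat_lit 325) (nat_lit 281) (nat_lit 174)) (XT.nd (nat_lit 78) (nat_lit 0) (nat_lit 0) (XT.lf (nat_lit 0) (nat_lit 4365133647) (nat_lit 456) (nat_lit 8743966345) (nat_lit 76) (nat_lit 3584568434) (nat_lit 91) (nat_lit 5) (nat_lit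 97) (nat_lit 5) (nat_lit 92) (nat_lit 5) (nat_lit 326) (nat_lit 281) (nat_lit 173)) (XT.lf (nat_lit 0) (nat_lit 7076436733) (nat_lit 456) (nat_lit 745458786) (nat_lit 76) (nat_lit 9189141623) (nat_lit 91) (nat_lit 5) (nat_lit 97) (nat_lit 5) (nat_lit 92) (nat_lit 5) (nat_lit 327) (nat_lit 281) (nat_lit 172)))) (XT.nd (nat_lit 78) (nat_lit 380) (nat_lit 0) (XT.lf (nat_lit 0) (nat_lit 7624308353) (nat_lit 304) (nat_lit 2304688993) (nat_lit 380) (nat_lit 7407147409) (nat_lit 87) (nat_lit 5) (nat_lit 91) (nat_lit 5) (nat_lit 92) (nat_lit 5) (nat_lit 328) (nat_lit 281) (nat_lit 171)) (XT.nd (nat_lit 78) (nat_lit 380) (nat_lit 0) (XT.lf (nat_lit 0) (nat_lit 12894020827) (nat_lit 380) (nat_lit 1460547844) (nat_lit 76) (nat_lit 3315645283) (nat_lit 87) (nat_lit 5) (nat_lit 92) (nat_lit 5) (nat_lit 88) (nat_lit 5) (nat_lit 329) (nat_lit 281) (nat_lit 170)) (XT.lf (nat_lit 0) (nat_lit 7137583841) (nat_lit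 380) (nat_lit 8889036927) (nat_lit 456) (nat_lit 1985340191) (nat_lit 82) (nat_lit 5) (nat_lit 87) (nat_lit 5) (nat_lit 88) (nat_lit 5) (nat_lit 330) (nat_lit 281) (nat_lit 169))))) (XT.nd (nat_lit 234) (nat_lit 608) (nat_lit 0) (XT.nd (nat_lit 78) (nat_lit 304) (nat_lit 0) (XT.lf (nat_lit 0) (nat_lit 874048135) (nat_lit 456) (nat_lit 2365868239) (nat_lit 76) (nat_lit 15123736375) (nat_lit 81) (nat_lit 5) (nat_lit 87) (nat_lit 5) (nat_lit 82) (nat_lit 5) (nat_lit 331) (nat_lit 281) (nat_lit 168)) (XT.nd (nat_lit 78) (nat_lit 0) (nat_lit 0) (XT.lf (nat_lit 0) (nat_lit 3854878193) (nat_lit 380) (nat_lit 12261284386) (nat_lit 76) (nat_lit 2606889377) (nat_lit 77) (nat_lit 5) (nat_lit 82) (nat_lit 5) (nat_lit 78) (nat_lit 5) (nat_lit 332) (nat_lit 281) (nat_lit 167)) (XT.lf (nat_lit 0) (nat_lit 6969134937) (nat_lit 380) (nat_lit 3539024901) (nat_lit 76) (nat_lit 8583766134) (nat_lit 77) (nat_lit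 5) (nat_lit 82) (nat_lit 5) (nat_lit 78) (nat_lit 5) (nat_lit 333) (nat_lit 281) (nat_lit 166)))) (XT.nd (nat_lit 156) (nat_lit 304) (nat_lit 0) (XT.nd (nat_lit 78) (nat_lit 0) (nat_lit 0) (XT.lf (nat_lit 0) (nat_lit 5536508530) (nat_lit 304) (nat_lit 4681682844) (nat_lit 380) (nat_lit 9252446188) (nat_lit 73) (nat_lit 5) (nat_lit 77) (nat_lit 5) (nat_lit 78) (nat_lit 5) (nat_lit 334) (nat_lit 281) (nat_lit 165)) (XT.lf (nat_lit 0) (nat_lit 13601791307) (nat_lit 380) (nat_lit 4932409992) (nat_lit 76) (nat_lit 1325409192) (nat_lit 73) (nat_lit 5) (nat_lit 78) (nat_lit 5) (nat_lit 74) (nat_lit 5) (nat_lit 335) (nat_lit 281) (nat_lit 164))) (XT.nd (nat_lit 78) (nat_lit 76) (nat_lit 0) (XT.lf (nat_lit 0) (nat_lit 4362021619) (nat_lit 228) (nat_lit 12801798290) (nat_lit 304) (nat_lit 3094136872) (nat_lit 70) (nat_lit 5) (nat_lit 73) (nat_lit 5) (nat_lit 74) (nat_lit 5) (nat_lit 336) (nat_lit 281)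 (nat_lit 163)) (XT.lf (nat_lit 0) (nat_lit 200240255) (nat_lit 304) (nat_lit 6648620201) (nat_lit 76) (nat_lit 13818186890) (nat_lit 69) (nat_lit 5) (nat_lit 73) (nat_lit 5) (nat_lit 70) (nat_lit 5) (nat_lit 337) (nat_lit 281) (nat_lit 162)))))) (XT.nd (nat_lit 468) (nat_lit 760) (nat_lit 0) (XT.nd (nat_lit 234) (nat_lit 228) (nat_lit 0) (XT.nd (nat_lit 78) (nat_lit 228) (nat_lit 0) (XT.lf (nat_lit 0) (nat_lit 2886085734) (nat_lit 304) (nat_lit 661938695) (nat_lit 380) (nat_lit 17538974997) (nat_lit 65) (nat_lit 5) (nat_lit 69) (nat_lit 5) (nat_lit 70) (nat_lit 5) (nat_lit 338) (nat_lit 281) (nat_lit 161)) (XT.nd (nat_lit 78) (nat_lit 228) (nat_lit 0) (XT.lf (nat_lit 0) (nat_lit 7108085125) (nat_lit 380) (nat_lit 8745817714) (nat_lit 76) (nat_lit 5662302417) (nat_lit 65) (nat_lit 5) (nat_lit 70) (nat_lit 5) (nat_lit 66) (nat_lit 5) (nat_lit 339) (nat_lit 281) (nat_lit 160)) (XT.lf (nat_lit 0)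 (nat_lit 990317088) (nat_lit 228) (nat_lit 9790166599) (nat_lit 304) (nat_lit 11177647667) (nat_lit 62) (nat_lit 5) (nat_lit 65) (nat_lit 5) (nat_lit 66) (nat_lit 5) (nat_lit 340) (nat_lit 281) (nat_lit 159)))) (XT.nd (nat_lit 78) (nat_lit 228) (nat_lit 0) (XT.lf (nat_lit 0) (nat_lit 11182582595) (nat_lit 228) (nat_lit 3458410358) (nat_lit 304) (nat_lit 7769993994) (nat_lit 62) (nat_lit 5) (nat_lit 65) (nat_lit 5) (nat_lit 66) (nat_lit 5) (nat_lit 341) (nat_lit 281) (nat_lit 158)) (XT.nd (nat_lit 78) (nat_lit 228) (nat_lit 0) (XT.lf (nat_lit 0) (nat_lit 18636643844) (nat_lit 304) (nat_lit 1241315257) (nat_lit 76) (nat_lit 2998898905) (nat_lit 62) (nat_lit 5) (nat_lit 66) (nat_lit 5) (nat_lit 63) (nat_lit 5) (nat_lit 342) (nat_lit 281) (nat_lit 157)) (XT.lf (nat_lit 0) (nat_lit 9175575074) (nat_lit 228) (nat_lit 13689206917) (nat_lit 304) (nat_lit 488553986) (nat_lit 59) (nat_lit 5) (nat_lit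 62) (nat_lit 5) (nat_lit 63) (nat_lit 5) (nat_lit 343) (nat_lit 281) (nat_lit 156))))) (XT.nd (nat_lit 234) (nat_lit 456) (nat_lit 0) (XT.nd (nat_lit 78) (nat_lit 228) (nat_lit 0) (XT.lf (nat_lit 0) (nat_lit 3312660892) (nat_lit 304) (nat_lit 3960565781) (nat_lit 76) (nat_lit 16569830637) (nat_lit 58) (nat_lit 5) (nat_lit 62) (nat_lit 5) (nat_lit 59) (nat_lit 5) (nat_lit 344) (nat_lit 281) (nat_lit 155)) (XT.nd (nat_lit 78) (nat_lit 0) (nat_lit 0) (XT.lf (nat_lit 0) (nat_lit 6674296695) (nat_lit 228) (nat_lit 598455576) (nat_lit 304) (nat_lit 17072941634) (nat_lit 55) (nat_lit 5) (nat_lit 58) (nat_lit 5) (nat_lit 59) (nat_lit 5) (nat_lit 345) (nat_lit 281) (nat_lit 154)) (XT.lf (nat_lit 0) (nat_lit 11442967817) (nat_lit 304) (nat_lit 7227901580) (nat_lit 76) (nat_lit 6189808829) (nat_lit 55) (nat_lit 5) (nat_lit 59) (nat_lit 5) (nat_lit 56) (nat_lit 5) (nat_lit 346) (nat_lit 281) (nat_lit 153))))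 (XT.nd (nat_lit 156) (nat_lit 228) (nat_lit 0) (XT.nd (nat_lit 78) (nat_lit 0) (nat_lit 0) (XT.lf (nat_lit 0) (nat_lit 3578873967) (nat_lit 228) (nat_lit 12190614727) (nat_lit 304) (nat_lit 9620695446) (nat_lit 52) (nat_lit 5) (nat_lit 55) (nat_lit 5) (nat_lit 56) (nat_lit 5) (nat_lit 347) (nat_lit 281) (nat_lit 152)) (XT.lf (nat_lit 0) (nat_lit 14844217939) (nat_lit 228) (nat_lit 5445579367) (nat_lit 304) (nat_lit 5643865961) (nat_lit 52) (nat_lit 5) (nat_lit 55) (nat_lit 5) (nat_lit 56) (nat_lit 5) (nat_lit 348) (nat_lit 281) (nat_lit 151))) (XT.nd (nat_lit 78) (nat_lit 228) (nat_lit 0) (XT.lf (nat_lit 0) (nat_lit 24951373105) (nat_lit 304) (nat_lit 73983370) (nat_lit 76) (nat_lit 1467928122) (nat_lit 52) (nat_lit 5) (nat_lit 56) (nat_lit 5) (nat_lit 53) (nat_lit 5) (nat_lit 349) (nat_lit 281) (nat_lit 150)) (XT.lf (nat_lit 0) (nat_lit 2787519436) (nat_lit 228) (nat_lit 15664575655) (nat_lit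 76) (nat_lit 8612129621) (nat_lit 49) (nat_lit 5) (nat_lit 52) (nat_lit 5) (nat_lit 50) (nat_lit 5) (nat_lit 350) (nat_lit 281) (nat_lit 149))))))))
noncomputable def xc161 : XT := (XT.nd (nat_lit 2028) (nat_lit 912) (nat_lit 0) (XT.nd (nat_lit 1014) (nat_lit 760) (nat_lit 0) (XT.nd (nat_lit 468) (nat_lit 608) (nat_lit 0) (XT.nd (nat_lit 234) (nat_lit 228) (nat_lit 0) (XT.nd (nat_lit 78) (nat_lit 228) (nat_lit 0) (XT.lf (nat_lit 0) (nat_lit 7208106384) (nat_lit 228) (nat_lit 4461809430) (nat_lit 76) (nat_lit 15982158229) (nat_lit 49) (nat_lit 5) (nat_lit 52) (nat_lit 5) (nat_lit 50) (nat_lit 5) (nat_lit 351) (nat_lit 281) (nat_lit 148)) (XT.nd (nat_lit 78) (nat_lit 0) (nat_lit 0) (XT.lf (nat_lit 0) (nat_lit 7204744854) (nat_lit 228) (nat_lit 4617579297) (nat_lit 304) (nat_lit 16433411032) (nat_lit 46) (nat_lit 5) (nat_lit 49) (nat_lit 5) (nat_lit 50) (nat_lit 5) (nat_lit 352) (nat_lit 281) (nat_lit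 147)) (XT.lf (nat_lit 0) (nat_lit 16637737894) (nat_lit 304) (nat_lit 9602245101) (nat_lit 76) (nat_lit 2635646609) (nat_lit 46) (nat_lit 5) (nat_lit 50) (nat_lit 5) (nat_lit 47) (nat_lit 5) (nat_lit 353) (nat_lit 281) (nat_lit 146)))) (XT.nd (nat_lit 78) (nat_lit 76) (nat_lit 0) (XT.lf (nat_lit 0) (nat_lit 2174080756) (nat_lit 152) (nat_lit 19482218166) (nat_lit 228) (nat_lit 7856067729) (nat_lit 44) (nat_lit 5) (nat_lit 46) (nat_lit 5) (nat_lit 47) (nat_lit 5) (nat_lit 354) (nat_lit 281) (nat_lit 145)) (XT.nd (nat_lit 78) (nat_lit 76) (nat_lit 0) (XT.lf (nat_lit 0) (nat_lit 14488069139) (nat_lit 152) (nat_lit 12426490390) (nat_lit 228) (nat_lit 3250978152) (nat_lit 44) (nat_lit 5) (nat_lit 46) (nat_lit 5) (nat_lit 47) (nat_lit 5) (nat_lit 355) (nat_lit 281) (nat_lit 144)) (XT.lf (nat_lit 0) (nat_lit 1455470324) (nat_lit 228) (nat_lit 3693430597) (nat_lit 76) (nat_lit 25689208617) (nat_lit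 43) (nat_lit 5) (nat_lit 46) (nat_lit 5) (nat_lit 44) (nat_lit 5) (nat_lit 356) (nat_lit 281) (nat_lit 143))))) (XT.nd (nat_lit 234) (nat_lit 228) (nat_lit 0) (XT.nd (nat_lit 78) (nat_lit 152) (nat_lit 0) (XT.lf (nat_lit 0) (nat_lit 6338365155) (nat_lit 304) (nat_lit 22773947799) (nat_lit 76) (nat_lit 2414567761) (nat_lit 40) (nat_lit 5) (nat_lit 44) (nat_lit 5) (nat_lit 41) (nat_lit 5) (nat_lit 357) (nat_lit 281) (nat_lit 142)) (XT.nd (nat_lit 78) (nat_lit 152) (nat_lit 0) (XT.lf (nat_lit 0) (nat_lit 11449001969) (nat_lit 304) (nat_lit 10650114410) (nat_lit 76) (nat_lit 10134766462) (nat_lit 40) (nat_lit 5) (nat_lit 44) (nat_lit 5) (nat_lit 41) (nat_lit 5) (nat_lit 358) (nat_lit 281) (nat_lit 141)) (XT.lf (nat_lit 0) (nat_lit 1862151030) (nat_lit 152) (nat_lit 14861532470) (nat_lit 228) (nat_lit 16238095073) (nat_lit 38) (nat_lit 5) (nat_lit 40) (nat_lit 5) (nat_lit 41) (nat_lit 5) (nat_lit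 359) (nat_lit 281) (nat_lit 140)))) (XT.nd (nat_lit 156) (nat_lit 228) (nat_lit 0) (XT.nd (nat_lit 78) (nat_lit 0) (nat_lit 0) (XT.lf (nat_lit 0) (nat_lit 14956595039) (nat_lit 152) (nat_lit 7300479550) (nat_lit 228) (nat_lit 11451427669) (nat_lit 38) (nat_lit 5) (nat_lit 40) (nat_lit 5) (nat_lit 41) (nat_lit 5) (nat_lit 360) (nat_lit 281) (nat_lit 139)) (XT.lf (nat_lit 0) (nat_lit 27954241242) (nat_lit 228) (nat_lit 6049781444) (nat_lit 76) (nat_lit 473676756) (nat_lit 38) (nat_lit 5) (nat_lit 41) (nat_lit 5) (nat_lit 39) (nat_lit 5) (nat_lit 361) (nat_lit 281) (nat_lit 138))) (XT.nd (nat_lit 78) (nat_lit 76) (nat_lit 0) (XT.lf (nat_lit 0) (nat_lit 7088436447) (nat_lit 152) (nat_lit 26867596708) (nat_lit 228) (nat_lit 1309932938) (nat_lit 36) (nat_lit 5) (nat_lit 38) (nat_lit 5) (nat_lit 39) (nat_lit 5) (nat_lit 362) (nat_lit 281) (nat_lit 137)) (XT.lf (nat_lit 0) (nat_lit 4035779059) (nat_lit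 228) (nat_lit 15381904975) (nat_lit 76) (nat_lit 16657380289) (nat_lit 35) (nat_lit 5) (nat_lit 38) (nat_lit 5) (nat_lit 36) (nat_lit 5) (nat_lit 363) (nat_lit 281) (nat_lit 136)))))) (XT.nd (nat_lit 468) (nat_lit 456) (nat_lit 0) (XT.nd (nat_lit 234) (nat_lit 152) (nat_lit 0) (XT.nd (nat_lit 78) (nat_lit 152) (nat_lit 0) (XT.lf (nat_lit 0) (nat_lit 9509039276) (nat_lit 228) (nat_lit 2226100007) (nat_lit 76) (nat_lit 25173106417) (nat_lit 35) (nat_lit 5) (nat_lit 38) (nat_lit 5) (nat_lit 36) (nat_lit 5) (nat_lit 364) (nat_lit 281) (nat_lit 135)) (XT.nd (nat_lit 78) (nat_lit 0) (nat_lit 0) (XT.lf (nat_lit 0) (nat_lit 11539142731) (nat_lit 152) (nat_lit 3711970251) (nat_lit 228) (nat_lit 22512175383) (nat_lit 33) (nat_lit 5) (nat_lit 35) (nat_lit 5) (nat_lit 36) (nat_lit 5) (nat_lit 365) (nat_lit 281) (nat_lit 134)) (XT.lf (nat_lit 0) (nat_lit 21225646034) (nat_lit 228) (nat_lit 12934766623) (nat_lit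 76) (nat_lit 4481767929) (nat_lit 33) (nat_lit 5) (nat_lit 36) (nat_lit 5) (nat_lit 34) (nat_lit 5) (nat_lit 366) (nat_lit 281) (nat_lit 133)))) (XT.nd (nat_lit 78) (nat_lit 0) (nat_lit 0) (XT.lf (nat_lit 0) (nat_lit 720448514) (nat_lit 152) (nat_lit 26696566208) (nat_lit 228) (nat_lit 12129300933) (nat_lit 31) (nat_lit 5) (nat_lit 33) (nat_lit 5) (nat_lit 34) (nat_lit 5) (nat_lit 367) (nat_lit 281) (nat_lit 132)) (XT.nd (nat_lit 78) (nat_lit 0) (nat_lit 0) (XT.lf (nat_lit 0) (nat_lit 15040418060) (nat_lit 152) (nat_lit 18878324664) (nat_lit 228) (nat_lit 6555097454) (nat_lit 31) (nat_lit 5) (nat_lit 33) (nat_lit 5) (nat_lit 34) (nat_lit 5) (nat_lit 368) (nat_lit 281) (nat_lit 131)) (XT.lf (nat_lit 0) (nat_lit 29780227389) (nat_lit 152) (nat_lit 10829472335) (nat_lit 228) (nat_lit 819669234) (nat_lit 31) (nat_lit 5) (nat_lit 33) (nat_lit 5) (nat_lit 34) (nat_lit 5) (nat_lit 369) (nat_lit 281)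 (nat_lit 130))))) (XT.nd (nat_lit 234) (nat_lit 228) (nat_lit 0) (XT.nd (nat_lit 78) (nat_lit 0) (nat_lit 0) (XT.lf (nat_lit 0) (nat_lit 2539726997) (nat_lit 152) (nat_lit 2467513646) (nat_lit 228) (nat_lit 37404298340) (nat_lit 28) (nat_lit 5) (nat_lit 30) (nat_lit 5) (nat_lit 31) (nat_lit 5) (nat_lit 370) (nat_lit 281) (nat_lit 129)) (XT.nd (nat_lit 78) (nat_lit 0) (nat_lit 0) (XT.lf (nat_lit 0) (nat_lit 11164678986) (nat_lit 228) (nat_lit 26104574000) (nat_lit 76) (nat_lit 6148515295) (nat_lit 28) (nat_lit 5) (nat_lit 31) (nat_lit 5) (nat_lit 29) (nat_lit 5) (nat_lit 371) (nat_lit 281) (nat_lit 128)) (XT.lf (nat_lit 0) (nat_lit 17525761707) (nat_lit 228) (nat_lit 11958102958) (nat_lit 76) (nat_lit 14969755563) (nat_lit 28) (nat_lit 5) (nat_lit 31) (nat_lit 5) (nat_lit 29) (nat_lit 5) (nat_lit 372) (nat_lit 281) (nat_lit 127)))) (XT.nd (nat_lit 156) (nat_lit 76) (nat_lit 0) (XT.nd (nat_lit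 78) (nat_lit 0) (nat_lit 0) (XT.lf (nat_lit 0) (nat_lit 2655499746) (nat_lit 152) (nat_lit 21442354325) (nat_lit 228) (nat_lit 21422091657) (nat_lit 26) (nat_lit 5) (nat_lit 28) (nat_lit 5) (nat_lit 29) (nat_lit 5) (nat_lit 373) (nat_lit 281) (nat_lit 126)) (XT.lf (nat_lit 0) (nat_lit 17943648116) (nat_lit 152) (nat_lit 13038934722) (nat_lit 228) (nat_lit 15632217158) (nat_lit 26) (nat_lit 5) (nat_lit 28) (nat_lit 5) (nat_lit 29) (nat_lit 5) (nat_lit 374) (nat_lit 281) (nat_lit 125))) (XT.nd (nat_lit 78) (nat_lit 76) (nat_lit 0) (XT.lf (nat_lit 0) (nat_lit 33681711030) (nat_lit 152) (nat_lit 4387016456) (nat_lit 228) (nat_lit 9673929304) (nat_lit 26) (nat_lit 5) (nat_lit 28) (nat_lit 5) (nat_lit 29) (nat_lit 5) (nat_lit 375) (nat_lit 281) (nat_lit 124)) (XT.lf (nat_lit 0) (nat_lit 954098232) (nat_lit 76) (nat_lit 44461011173) (nat_lit 152) (nat_lit 3487813322) (nat_lit 25) (nat_lit 5) (nat_lit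 26) (nat_lit 5) (nat_lit 27) (nat_lit 4) (nat_lit 376) (nat_lit 281) (nat_lit 123))))))) (XT.nd (nat_lit 1014) (nat_lit 380) (nat_lit 0) (XT.nd (nat_lit 468) (nat_lit 304) (nat_lit 0) (XT.nd (nat_lit 234) (nat_lit 152) (nat_lit 0) (XT.nd (nat_lit 78) (nat_lit 0) (nat_lit 0) (XT.lf (nat_lit 0) (nat_lit 3009442700) (nat_lit 152) (nat_lit 33467083560) (nat_lit 76) (nat_lit 13615186640) (nat_lit 24) (nat_lit 5) (nat_lit 26) (nat_lit 5) (nat_lit 25) (nat_lit 5) (nat_lit 377) (nat_lit 281) (nat_lit 122)) (XT.nd (nat_lit 78) (nat_lit 0) (nat_lit 0) (XT.lf (nat_lit 0) (nat_lit 9626662340) (nat_lit 152) (nat_lit 18593784753) (nat_lit 76) (nat_lit 23094832045) (nat_lit 24) (nat_lit 5) (nat_lit 26) (nat_lit 5) (nat_lit 25) (nat_lit 5) (nat_lit 378) (nat_lit 281) (nat_lit 121)) (XT.lf (nat_lit 0) (nat_lit 16437687436) (nat_lit 152) (nat_lit 3282404993) (nat_lit 76) (nat_lit 32855603958) (nat_lit 24) (nat_lit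 5) (nat_lit 26) (nat_lit 5) (nat_lit 25) (nat_lit 5) (nat_lit 379) (nat_lit 281) (nat_lit 120)))) (XT.nd (nat_lit 78) (nat_lit 0) (nat_lit 0) (XT.lf (nat_lit 0) (nat_lit 12728819713) (nat_lit 152) (nat_lit 10842006856) (nat_lit 228) (nat_lit 30299568698) (nat_lit 22) (nat_lit 5) (nat_lit 24) (nat_lit 5) (nat_lit 25) (nat_lit 5) (nat_lit 380) (nat_lit 281) (nat_lit 119)) (XT.nd (nat_lit 78) (nat_lit 0) (nat_lit 0) (XT.lf (nat_lit 0) (nat_lit 29279862953) (nat_lit 152) (nat_lit 1666727064) (nat_lit 228) (nat_lit 24256488729) (nat_lit 22) (nat_lit 5) (nat_lit 24) (nat_lit 5) (nat_lit 25) (nat_lit 5) (nat_lit 381) (nat_lit 281) (nat_lit 118)) (XT.lf (nat_lit 0) (nat_lit 38614034241) (nat_lit 228) (nat_lit 10330808275) (nat_lit 76) (nat_lit 7628790438) (nat_lit 22) (nat_lit 5) (nat_lit 25) (nat_lit 5) (nat_lit 23) (nat_lit 4) (nat_lit 382) (nat_lit 281) (nat_lit 117))))) (XT.nd (nat_lit 234) (nat_lit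 152) (nat_lit 0) (XT.nd (nat_lit 78) (nat_lit 76) (nat_lit 0) (XT.lf (nat_lit 0) (nat_lit 5818961535) (nat_lit 76) (nat_lit 40760691630) (nat_lit 152) (nat_lit 11403608472) (nat_lit 21) (nat_lit 5) (nat_lit 22) (nat_lit 5) (nat_lit 23) (nat_lit 4) (nat_lit 383) (nat_lit 281) (nat_lit 116)) (XT.nd (nat_lit 78) (nat_lit 76) (nat_lit 0) (XT.lf (nat_lit 0) (nat_lit 22657612402) (nat_lit 76) (nat_lit 32226716739) (nat_lit 152) (nat_lit 4547849706) (nat_lit 21) (nat_lit 5) (nat_lit 22) (nat_lit 5) (nat_lit 23) (nat_lit 4) (nat_lit 384) (nat_lit 281) (nat_lit 115)) (XT.lf (nat_lit 0) (nat_lit 2460380746) (nat_lit 152) (nat_lit 20954556113) (nat_lit 76) (nat_lit 37509028600) (nat_lit 20) (nat_lit 5) (nat_lit 22) (nat_lit 5) (nat_lit 21) (nat_lit 5) (nat_lit 385) (nat_lit 281) (nat_lit 114)))) (XT.nd (nat_lit 156) (nat_lit 0) (nat_lit 0) (XT.nd (nat_lit 78) (nat_lit 152) (nat_lit 0) (XT.lf (nat_lit 0)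 (nat_lit 9583419726) (nat_lit 152) (nat_lit 4712015674) (nat_lit 76) (nat_lit 48163842479) (nat_lit 20) (nat_lit 5) (nat_lit 22) (nat_lit 5) (nat_lit 21) (nat_lit 5) (nat_lit 386) (nat_lit 281) (nat_lit 113)) (XT.lf (nat_lit 0) (nat_lit 12250005832) (nat_lit 152) (nat_lit 4783984896) (nat_lit 228) (nat_lit 47003245781) (nat_lit 18) (nat_lit 5) (nat_lit 20) (nat_lit 5) (nat_lit 21) (nat_lit 5) (nat_lit 387) (nat_lit 281) (nat_lit 112))) (XT.nd (nat_lit 78) (nat_lit 0) (nat_lit 0) (XT.lf (nat_lit 0) (nat_lit 24800425569) (nat_lit 228) (nat_lit 35899143920) (nat_lit 76) (nat_lit 4960196009) (nat_lit 18) (nat_lit 5) (nat_lit 21) (nat_lit 5) (nat_lit 19) (nat_lit 4) (nat_lit 388) (nat_lit 281) (nat_lit 111)) (XT.lf (nat_lit 0) (nat_lit 32843440314) (nat_lit 228) (nat_lit 19588440818) (nat_lit 76) (nat_lit 14897783561) (nat_lit 18) (nat_lit 5) (nat_lit 21) (nat_lit 5) (nat_lit 19) (nat_lit 4) (nat_lit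 389) (nat_lit 281) (nat_lit 110)))))) (XT.nd (nat_lit 546) (nat_lit 76) (nat_lit 0) (XT.nd (nat_lit 234) (nat_lit 228) (nat_lit 0) (XT.nd (nat_lit 78) (nat_lit 76) (nat_lit 0) (XT.lf (nat_lit 0) (nat_lit 41124076250) (nat_lit 228) (nat_lit 2794882713) (nat_lit 76) (nat_lit 25130813866) (nat_lit 18) (nat_lit 5) (nat_lit 21) (nat_lit 5) (nat_lit 19) (nat_lit 4) (nat_lit 390) (nat_lit 281) (nat_lit 109)) (XT.nd (nat_lit 78) (nat_lit 0) (nat_lit 0) (XT.lf (nat_lit 0) (nat_lit 14784707270) (nat_lit 76) (nat_lit 35006981266) (nat_lit 152) (nat_lit 21025640788) (nat_lit 17) (nat_lit 5) (nat_lit 18) (nat_lit 5) (nat_lit 19) (nat_lit 4) (nat_lit 391) (nat_lit 281) (nat_lit 108)) (XT.lf (nat_lit 0) (nat_lit 32942761099) (nat_lit 76) (nat_lit 25801272551) (nat_lit 152) (nat_lit 13893139507) (nat_lit 17) (nat_lit 5) (nat_lit 18) (nat_lit 5) (nat_lit 19) (nat_lit 4) (nat_lit 392) (nat_lit 281) (nat_lit 107))))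 (XT.nd (nat_lit 156) (nat_lit 152) (nat_lit 0) (XT.nd (nat_lit 78) (nat_lit 76) (nat_lit 0) (XT.lf (nat_lit 0) (nat_lit 51639521388) (nat_lit 76) (nat_lit 16322011833) (nat_lit 152) (nat_lit 6550183288) (nat_lit 17) (nat_lit 5) (nat_lit 18) (nat_lit 5) (nat_lit 19) (nat_lit 4) (nat_lit 393) (nat_lit 281) (nat_lit 106)) (XT.lf (nat_lit 0) (nat_lit 989942249) (nat_lit 152) (nat_lit 5560977535) (nat_lit 76) (nat_lit 69891386386) (nat_lit 16) (nat_lit 5) (nat_lit 18) (nat_lit 5) (nat_lit 17) (nat_lit 5) (nat_lit 394) (nat_lit 281) (nat_lit 105))) (XT.nd (nat_lit 78) (nat_lit 0) (nat_lit 0) (XT.lf (nat_lit 0) (nat_lit 8776538033) (nat_lit 228) (nat_lit 66019201780) (nat_lit 76) (nat_lit 3628572129) (nat_lit 14) (nat_lit 5) (nat_lit 17) (nat_lit 5) (nat_lit 15) (nat_lit 4) (nat_lit 395) (nat_lit 281) (nat_lit 104)) (XT.lf (nat_lit 0) (nat_lit 16915066042) (nat_lit 228) (nat_lit 49511107401) (nat_lit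 76) (nat_lit 14036055948) (nat_lit 14) (nat_lit 5) (nat_lit 17) (nat_lit 5) (nat_lit 15) (nat_lit 4) (nat_lit 396) (nat_lit 281) (nat_lit 103))))) (XT.nd (nat_lit 234) (nat_lit 0) (nat_lit 0) (XT.nd (nat_lit 78) (nat_lit 76) (nat_lit 0) (XT.lf (nat_lit 0) (nat_lit 25294606980) (nat_lit 228) (nat_lit 32513374716) (nat_lit 76) (nat_lit 24753398446) (nat_lit 14) (nat_lit 5) (nat_lit 17) (nat_lit 5) (nat_lit 15) (nat_lit 4) (nat_lit 397) (nat_lit 281) (nat_lit 102)) (XT.nd (nat_lit 78) (nat_lit 76) (nat_lit 0) (XT.lf (nat_lit 0) (nat_lit 33922482774) (nat_lit 228) (nat_lit 15011151336) (nat_lit 76) (nat_lit 35789964291) (nat_lit 14) (nat_lit 5) (nat_lit 17) (nat_lit 5) (nat_lit 15) (nat_lit 4) (nat_lit 398) (nat_lit 281) (nat_lit 101)) (XT.lf (nat_lit 0) (nat_lit 3070777880) (nat_lit 76) (nat_lit 39764972662) (nat_lit 152) (nat_lit 44114137399) (nat_lit 13) (nat_lit 5) (nat_lit 14) (nat_lit 5) (nat_lit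 15) (nat_lit 4) (nat_lit 399) (nat_lit 281) (nat_lit 100)))) (XT.nd (nat_lit 31434) (nat_lit 0) (nat_lit 15580) (XT.nd (nat_lit 78) (nat_lit 0) (nat_lit 0) (XT.lf (nat_lit 0) (nat_lit 21997647849) (nat_lit 76) (nat_lit 30167425195) (nat_lit 152) (nat_lit 37073434785) (nat_lit 13) (nat_lit 5) (nat_lit 14) (nat_lit 5) (nat_lit 15) (nat_lit 4) (nat_lit 400) (nat_lit 281) (nat_lit 99)) (XT.lf (nat_lit 0) (nat_lit 41487245266) (nat_lit 76) (nat_lit 20284188699) (nat_lit 152) (nat_lit 29824438909) (nat_lit 13) (nat_lit 5) (nat_lit 14) (nat_lit 5) (nat_lit 15) (nat_lit 4) (nat_lit 401) (nat_lit 281) (nat_lit 98))) (XT.nd (nat_lit 78) (nat_lit 0) (nat_lit 0) (XT.lf (nat_lit 0) (nat_lit 2326198290) (nat_lit 988) (nat_lit 974096112) (nat_lit 988) (nat_lit 974096112) (nat_lit 218) (nat_lit 3) (nat_lit 231) (nat_lit 3) (nat_lit 231) (nat_lit 5) (nat_lit 282) (nat_lit 282) (nat_lit 216)) (XT.lf (nat_lit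 76) (nat_lit 1902669257) (nat_lit 0) (nat_lit 3786926805) (nat_lit 988) (nat_lit 2956716162) (nat_lit 219) (nat_lit 5) (nat_lit 218) (nat_lit 3) (nat_lit 231) (nat_lit 5) (nat_lit 283) (nat_lit 282) (nat_lit 215))))))))
noncomputable def xc162 : XT := (XT.nd (nat_lit 2028) (nat_lit 5472) (nat_lit 0) (XT.nd (nat_lit 1014) (nat_lit 3800) (nat_lit 0) (XT.nd (nat_lit 468) (nat_lit 836) (nat_lit 0) (XT.nd (nat_lit 234) (nat_lit 912) (nat_lit 0) (XT.nd (nat_lit 78) (nat_lit 0) (nat_lit 76) (XT.lf (nat_lit 76) (nat_lit 5889503106) (nat_lit 0) (nat_lit 850852346) (nat_lit 988) (nat_lit 2007006076) (nat_lit 219) (nat_lit 5) (nat_lit 218) (nat_lit 3) (nat_lit 231) (nat_lit 5) (nat_lit 284) (nat_lit 282) (nat_lit 214)) (XT.nd (nat_lit 78) (nat_lit 0) (nat_lit 0) (XT.lf (nat_lit 76) (nat_lit 1125332484) (nat_lit 0) (nat_lit 6693034555) (nat_lit 988) (nat_lit 1033266977) (nat_lit 220) (nat_lit 5) (nat_lit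 219) (nat_lit 5) (nat_lit 232) (nat_lit 5) (nat_lit 285) (nat_lit 282) (nat_lit 213)) (XT.lf (nat_lit 76) (nat_lit 5257973527) (nat_lit 0) (nat_lit 3672822127) (nat_lit 988) (nat_lit 28238454) (nat_lit 220) (nat_lit 5) (nat_lit 219) (nat_lit 5) (nat_lit 232) (nat_lit 5) (nat_lit 286) (nat_lit 282) (nat_lit 212)))) (XT.nd (nat_lit 78) (nat_lit 0) (nat_lit 76) (XT.lf (nat_lit 76) (nat_lit 423320680) (nat_lit 0) (nat_lit 533543268) (nat_lit 1064) (nat_lit 8113472902) (nat_lit 207) (nat_lit 5) (nat_lit 206) (nat_lit 5) (nat_lit 220) (nat_lit 5) (nat_lit 287) (nat_lit 282) (nat_lit 211)) (XT.nd (nat_lit 78) (nat_lit 0) (nat_lit 0) (XT.lf (nat_lit 0) (nat_lit 2001095489) (nat_lit 988) (nat_lit 4484357479) (nat_lit 1064) (nat_lit 2698669505) (nat_lit 207) (nat_lit 5) (nat_lit 220) (nat_lit 5) (nat_lit 221) (nat_lit 5) (nat_lit 288) (nat_lit 282) (nat_lit 210)) (XT.lf (nat_lit 0) (nat_lit 3049360771)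 (nat_lit 988) (nat_lit 222682849) (nat_lit 1064) (nat_lit 6030151689) (nat_lit 207) (nat_lit 5) (nat_lit 220) (nat_lit 5) (nat_lit 221) (nat_lit 5) (nat_lit 289) (nat_lit 282) (nat_lit 209))))) (XT.nd (nat_lit 234) (nat_lit 988) (nat_lit 0) (XT.nd (nat_lit 78) (nat_lit 0) (nat_lit 0) (XT.lf (nat_lit 0) (nat_lit 4138980024) (nat_lit 988) (nat_lit 5195079341) (nat_lit 1064) (nat_lit 89507036) (nat_lit 208) (nat_lit 5) (nat_lit 221) (nat_lit 5) (nat_lit 222) (nat_lit 5) (nat_lit 290) (nat_lit 282) (nat_lit 208)) (XT.nd (nat_lit 78) (nat_lit 0) (nat_lit 0) (XT.lf (nat_lit 0) (nat_lit 5265166027) (nat_lit 988) (nat_lit 784044296) (nat_lit 1064) (nat_lit 3499303656) (nat_lit 208) (nat_lit 5) (nat_lit 221) (nat_lit 5) (nat_lit 222) (nat_lit 5) (nat_lit 291) (nat_lit 282) (nat_lit 207)) (XT.lf (nat_lit 76) (nat_lit 3813473052) (nat_lit 0) (nat_lit 2618429546) (nat_lit 1064) (nat_lit 3245154633) (nat_lit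 209) (nat_lit 5) (nat_lit 208) (nat_lit 5) (nat_lit 222) (nat_lit 5) (nat_lit 292) (nat_lit 282) (nat_lit 206)))) (XT.nd (nat_lit 156) (nat_lit 1064) (nat_lit 0) (XT.nd (nat_lit 78) (nat_lit 0) (nat_lit 0) (XT.lf (nat_lit 0) (nat_lit 7621308433) (nat_lit 988) (nat_lit 1274185578) (nat_lit 1064) (nat_lit 914381487) (nat_lit 209) (nat_lit 5) (nat_lit 222) (nat_lit 5) (nat_lit 223) (nat_lit 5) (nat_lit 293) (nat_lit 282) (nat_lit 205)) (XT.lf (nat_lit 76) (nat_lit 3474302193) (nat_lit 0) (nat_lit 5403138049) (nat_lit 1064) (nat_lit 1068354068) (nat_lit 210) (nat_lit 5) (nat_lit 209) (nat_lit 5) (nat_lit 223) (nat_lit 5) (nat_lit 294) (nat_lit 282) (nat_lit 204))) (XT.nd (nat_lit 78) (nat_lit 0) (nat_lit 76) (XT.lf (nat_lit 0) (nat_lit 68823451) (nat_lit 1064) (nat_lit 1715853958) (nat_lit 1140) (nat_lit 8301582453) (nat_lit 195) (nat_lit 5) (nat_lit 209) (nat_lit 5) (nat_lit 210) (nat_lit 5) (nat_lit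 295) (nat_lit 282) (nat_lit 203)) (XT.lf (nat_lit 0) (nat_lit 1241535855) (nat_lit 1064) (nat_lit 7035358700) (nat_lit 1140) (nat_lit 1953084019) (nat_lit 196) (nat_lit 5) (nat_lit 210) (nat_lit 5) (nat_lit 211) (nat_lit 5) (nat_lit 296) (nat_lit 282) (nat_lit 202)))))) (XT.nd (nat_lit 468) (nat_lit 1748) (nat_lit 0) (XT.nd (nat_lit 234) (nat_lit 2128) (nat_lit 0) (XT.nd (nat_lit 78) (nat_lit 0) (nat_lit 0) (XT.lf (nat_lit 0) (nat_lit 2458104857) (nat_lit 1064) (nat_lit 2128708773) (nat_lit 1140) (nat_lit 5790976995) (nat_lit 196) (nat_lit 5) (nat_lit 210) (nat_lit 5) (nat_lit 211) (nat_lit 5) (nat_lit 297) (nat_lit 282) (nat_lit 201)) (XT.nd (nat_lit 78) (nat_lit 0) (nat_lit 76) (XT.lf (nat_lit 76) (nat_lit 2962602818) (nat_lit 0) (nat_lit 751324948) (nat_lit 1140) (nat_lit 6816067381) (nat_lit 197) (nat_lit 5) (nat_lit 196) (nat_lit 5) (nat_lit 211) (nat_lit 5) (nat_lit 298) (nat_lit 282)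 (nat_lit 200)) (XT.lf (nat_lit 0) (nat_lit 5034769109) (nat_lit 1064) (nat_lit 2487788714) (nat_lit 76) (nat_lit 3163427293) (nat_lit 197) (nat_lit 5) (nat_lit 211) (nat_lit 5) (nat_lit 198) (nat_lit 5) (nat_lit 299) (nat_lit 282) (nat_lit 199)))) (XT.nd (nat_lit 78) (nat_lit 1140) (nat_lit 0) (XT.lf (nat_lit 0) (nat_lit 2770444715) (nat_lit 1064) (nat_lit 3634474825) (nat_lit 1140) (nat_lit 4441483198) (nat_lit 183) (nat_lit 5) (nat_lit 197) (nat_lit 5) (nat_lit 198) (nat_lit 5) (nat_lit 300) (nat_lit 282) (nat_lit 198)) (XT.nd (nat_lit 78) (nat_lit 1140) (nat_lit 0) (XT.lf (nat_lit 0) (nat_lit 7821269604) (nat_lit 1140) (nat_lit 2798234549) (nat_lit 76) (nat_lit 392013231) (nat_lit 183) (nat_lit 5) (nat_lit 198) (nat_lit 5) (nat_lit 184) (nat_lit 5) (nat_lit 301) (nat_lit 282) (nat_lit 197)) (XT.lf (nat_lit 0) (nat_lit 2632853063) (nat_lit 1140) (nat_lit 6685410332) (nat_lit 1216) (nat_lit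 1862213739) (nat_lit 168) (nat_lit 5) (nat_lit 183) (nat_lit 5) (nat_lit 184) (nat_lit 5) (nat_lit 302) (nat_lit 282) (nat_lit 196))))) (XT.nd (nat_lit 234) (nat_lit 1140) (nat_lit 0) (XT.nd (nat_lit 78) (nat_lit 608) (nat_lit 0) (XT.lf (nat_lit 0) (nat_lit 8264074857) (nat_lit 1140) (nat_lit 2601688762) (nat_lit 1216) (nat_lit 488609365) (nat_lit 168) (nat_lit 5) (nat_lit 183) (nat_lit 5) (nat_lit 184) (nat_lit 5) (nat_lit 303) (nat_lit 282) (nat_lit 195)) (XT.nd (nat_lit 78) (nat_lit 0) (nat_lit 0) (XT.lf (nat_lit 0) (nat_lit 926181630) (nat_lit 608) (nat_lit 8997372917) (nat_lit 76) (nat_lit 1609155688) (nat_lit 160) (nat_lit 5) (nat_lit 168) (nat_lit 5) (nat_lit 161) (nat_lit 5) (nat_lit 304) (nat_lit 282) (nat_lit 194)) (XT.lf (nat_lit 0) (nat_lit 2409094552) (nat_lit 608) (nat_lit 3373834029) (nat_lit 76) (nat_lit 5932291146) (nat_lit 160) (nat_lit 5) (nat_lit 168) (nat_lit 5) (nat_lit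 161) (nat_lit 5) (nat_lit 305) (nat_lit 282) (nat_lit 193)))) (XT.nd (nat_lit 156) (nat_lit 532) (nat_lit 0) (XT.nd (nat_lit 78) (nat_lit 0) (nat_lit 0) (XT.lf (nat_lit 0) (nat_lit 2446187148) (nat_lit 608) (nat_lit 1492680740) (nat_lit 684) (nat_lit 7964296703) (nat_lit 152) (nat_lit 5) (nat_lit 160) (nat_lit 5) (nat_lit 161) (nat_lit 5) (nat_lit 306) (nat_lit 282) (nat_lit 192)) (XT.lf (nat_lit 0) (nat_lit 5556363735) (nat_lit 684) (nat_lit 3634646066) (nat_lit 76) (nat_lit 2904513490) (nat_lit 152) (nat_lit 5) (nat_lit 161) (nat_lit 5) (nat_lit 153) (nat_lit 5) (nat_lit 307) (nat_lit 282) (nat_lit 191))) (XT.nd (nat_lit 78) (nat_lit 0) (nat_lit 0) (XT.lf (nat_lit 0) (nat_lit 2374074703) (nat_lit 532) (nat_lit 4865806667) (nat_lit 608) (nat_lit 5053275960) (nat_lit 145) (nat_lit 5) (nat_lit 152) (nat_lit 5) (nat_lit 153) (nat_lit 5) (nat_lit 308) (nat_lit 282) (nat_lit 190)) (XT.lf (nat_lit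 0) (nat_lit 8617929891) (nat_lit 532) (nat_lit 372971074) (nat_lit 608) (nat_lit 3505338156) (nat_lit 145) (nat_lit 5) (nat_lit 152) (nat_lit 5) (nat_lit 153) (nat_lit 5) (nat_lit 309) (nat_lit 282) (nat_lit 189))))))) (XT.nd (nat_lit 1014) (nat_lit 2204) (nat_lit 0) (XT.nd (nat_lit 468) (nat_lit 1748) (nat_lit 0) (XT.nd (nat_lit 234) (nat_lit 456) (nat_lit 0) (XT.nd (nat_lit 78) (nat_lit 532) (nat_lit 0) (XT.lf (nat_lit 0) (nat_lit 2328563266) (nat_lit 532) (nat_lit 8510038033) (nat_lit 608) (nat_lit 1865515353) (nat_lit 138) (nat_lit 5) (nat_lit 145) (nat_lit 5) (nat_lit 146) (nat_lit 5) (nat_lit 310) (nat_lit 282) (nat_lit 188)) (XT.nd (nat_lit 78) (nat_lit 532) (nat_lit 0) (XT.lf (nat_lit 0) (nat_lit 8777905523) (nat_lit 532) (nat_lit 3987885360) (nat_lit 608) (nat_lit 151744861) (nat_lit 138) (nat_lit 5) (nat_lit 145) (nat_lit 5) (nat_lit 146) (nat_lit 5) (nat_lit 311) (nat_lit 282) (nat_lit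 187)) (XT.lf (nat_lit 0) (nat_lit 1592381463) (nat_lit 532) (nat_lit 10850296528) (nat_lit 76) (nat_lit 693926768) (nat_lit 131) (nat_lit 5) (nat_lit 138) (nat_lit 5) (nat_lit 132) (nat_lit 5) (nat_lit 312) (nat_lit 282) (nat_lit 186)))) (XT.nd (nat_lit 78) (nat_lit 456) (nat_lit 0) (XT.lf (nat_lit 0) (nat_lit 3449403348) (nat_lit 532) (nat_lit 4432173064) (nat_lit 76) (nat_lit 5478740403) (nat_lit 131) (nat_lit 5) (nat_lit 138) (nat_lit 5) (nat_lit 132) (nat_lit 5) (nat_lit 313) (nat_lit 282) (nat_lit 185)) (XT.nd (nat_lit 78) (nat_lit 0) (nat_lit 0) (XT.lf (nat_lit 0) (nat_lit 2202379028) (nat_lit 456) (nat_lit 3163375674) (nat_lit 532) (nat_lit 8224900937) (nat_lit 125) (nat_lit 5) (nat_lit 131) (nat_lit 5) (nat_lit 132) (nat_lit 5) (nat_lit 314) (nat_lit 282) (nat_lit 184)) (XT.lf (nat_lit 0) (nat_lit 7383864074) (nat_lit 532) (nat_lit 4735916770) (nat_lit 76) (nat_lit 1706819036) (nat_lit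 125) (nat_lit 5) (nat_lit 132) (nat_lit 5) (nat_lit 126) (nat_lit 5) (nat_lit 315) (nat_lit 282) (nat_lit 183))))) (XT.nd (nat_lit 234) (nat_lit 836) (nat_lit 0) (XT.nd (nat_lit 78) (nat_lit 456) (nat_lit 0) (XT.lf (nat_lit 0) (nat_lit 2106945245) (nat_lit 456) (nat_lit 7390408901) (nat_lit 532) (nat_lit 4571245777) (nat_lit 119) (nat_lit 5) (nat_lit 125) (nat_lit 5) (nat_lit 126) (nat_lit 5) (nat_lit 316) (nat_lit 282) (nat_lit 182)) (XT.nd (nat_lit 78) (nat_lit 456) (nat_lit 0) (XT.lf (nat_lit 0) (nat_lit 9233497533) (nat_lit 456) (nat_lit 2472146412) (nat_lit 532) (nat_lit 2611296109) (nat_lit 119) (nat_lit 5) (nat_lit 125) (nat_lit 5) (nat_lit 126) (nat_lit 5) (nat_lit 317) (nat_lit 282) (nat_lit 181)) (XT.lf (nat_lit 0) (nat_lit 1996531585) (nat_lit 456) (nat_lit 12011803683) (nat_lit 532) (nat_lit 563571835) (nat_lit 113) (nat_lit 5) (nat_lit 119) (nat_lit 5) (nat_lit 120) (nat_lit 5)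 (nat_lit 318) (nat_lit 282) (nat_lit 180)))) (XT.nd (nat_lit 156) (nat_lit 380) (nat_lit 0) (XT.nd (nat_lit 78) (nat_lit 380) (nat_lit 0) (XT.lf (nat_lit 0) (nat_lit 1575883524) (nat_lit 532) (nat_lit 5498479995) (nat_lit 76) (nat_lit 7757920232) (nat_lit 112) (nat_lit 5) (nat_lit 119) (nat_lit 5) (nat_lit 113) (nat_lit 5) (nat_lit 319) (nat_lit 282) (nat_lit 179)) (XT.lf (nat_lit 0) (nat_lit 1802089011) (nat_lit 380) (nat_lit 1968032504) (nat_lit 456) (nat_lit 11330144491) (nat_lit 107) (nat_lit 5) (nat_lit 112) (nat_lit 5) (nat_lit 113) (nat_lit 5) (nat_lit 320) (nat_lit 282) (nat_lit 178))) (XT.nd (nat_lit 78) (nat_lit 380) (nat_lit 0) (XT.lf (nat_lit 0) (nat_lit 6102750456) (nat_lit 456) (nat_lit 5990907631) (nat_lit 76) (nat_lit 3280471653) (nat_lit 107) (nat_lit 5) (nat_lit 113) (nat_lit 5) (nat_lit 108) (nat_lit 5) (nat_lit 321) (nat_lit 282) (nat_lit 177)) (XT.lf (nat_lit 0) (nat_lit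 1527964202) (nat_lit 380) (nat_lit 6996858910) (nat_lit 456) (nat_lit 7130820699) (nat_lit 102) (nat_lit 5) (nat_lit 107) (nat_lit 5) (nat_lit 108) (nat_lit 5) (nat_lit 322) (nat_lit 282) (nat_lit 176)))))) (XT.nd (nat_lit 468) (nat_lit 1064) (nat_lit 0) (XT.nd (nat_lit 234) (nat_lit 760) (nat_lit 0) (XT.nd (nat_lit 78) (nat_lit 380) (nat_lit 0) (XT.lf (nat_lit 0) (nat_lit 9377439642) (nat_lit 380) (nat_lit 1688163960) (nat_lit 456) (nat_lit 4878636174) (nat_lit 102) (nat_lit 5) (nat_lit 107) (nat_lit 5) (nat_lit 108) (nat_lit 5) (nat_lit 323) (nat_lit 282) (nat_lit 175)) (XT.nd (nat_lit 78) (nat_lit 0) (nat_lit 0) (XT.lf (nat_lit 0) (nat_lit 1190135955) (nat_lit 380) (nat_lit 12526184684) (nat_lit 456) (nat_lit 2524178905) (nat_lit 97) (nat_lit 5) (nat_lit 102) (nat_lit 5) (nat_lit 103) (nat_lit 5) (nat_lit 324) (nat_lit 282) (nat_lit 174)) (XT.lf (nat_lit 0) (nat_lit 9279859148) (nat_lit 380)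 (nat_lit 7235743066) (nat_lit 456) (nat_lit 27990414) (nat_lit 97) (nat_lit 5) (nat_lit 102) (nat_lit 5) (nat_lit 103) (nat_lit 5) (nat_lit 325) (nat_lit 282) (nat_lit 173)))) (XT.nd (nat_lit 78) (nat_lit 304) (nat_lit 0) (XT.lf (nat_lit 0) (nat_lit 729012198) (nat_lit 380) (nat_lit 1757888773) (nat_lit 456) (nat_lit 14368356753) (nat_lit 91) (nat_lit 5) (nat_lit 96) (nat_lit 5) (nat_lit 97) (nat_lit 5) (nat_lit 326) (nat_lit 282) (nat_lit 172)) (XT.nd (nat_lit 78) (nat_lit 304) (nat_lit 0) (XT.lf (nat_lit 0) (nat_lit 5174719415) (nat_lit 456) (nat_lit 8119447634) (nat_lit 76) (nat_lit 3879171510) (nat_lit 91) (nat_lit 5) (nat_lit 97) (nat_lit 5) (nat_lit 92) (nat_lit 5) (nat_lit 327) (nat_lit 282) (nat_lit 171)) (XT.lf (nat_lit 0) (nat_lit 95039489) (nat_lit 304) (nat_lit 7853469709) (nat_lit 380) (nat_lit 9552307458) (nat_lit 87) (nat_lit 5) (nat_lit 91) (nat_lit 5) (nat_lit 92) (nat_lit 5)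 (nat_lit 328) (nat_lit 282) (nat_lit 170))))) (XT.nd (nat_lit 234) (nat_lit 684) (nat_lit 0) (XT.nd (nat_lit 78) (nat_lit 380) (nat_lit 0) (XT.lf (nat_lit 0) (nat_lit 8705603831) (nat_lit 304) (nat_lit 2169134343) (nat_lit 380) (nat_lit 6961318660) (nat_lit 87) (nat_lit 5) (nat_lit 91) (nat_lit 5) (nat_lit 92) (nat_lit 5) (nat_lit 329) (nat_lit 282) (nat_lit 169)) (XT.nd (nat_lit 78) (nat_lit 380) (nat_lit 0) (XT.lf (nat_lit 0) (nat_lit 13911752679) (nat_lit 380) (nat_lit 658955702) (nat_lit 76) (nat_lit 3609969959) (nat_lit 87) (nat_lit 5) (nat_lit 92) (nat_lit 5) (nat_lit 88) (nat_lit 5) (nat_lit 330) (nat_lit 282) (nat_lit 168)) (XT.lf (nat_lit 0) (nat_lit 8188831614) (nat_lit 380) (nat_lit 8939169862) (nat_lit 456) (nat_lit 1405006971) (nat_lit 82) (nat_lit 5) (nat_lit 87) (nat_lit 5) (nat_lit 88) (nat_lit 5) (nat_lit 331) (nat_lit 282) (nat_lit 167)))) (XT.nd (nat_lit 156) (nat_lit 304)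 (nat_lit 0) (XT.nd (nat_lit 78) (nat_lit 304) (nat_lit 0) (XT.lf (nat_lit 0) (nat_lit 1509402395) (nat_lit 456) (nat_lit 1611329187) (nat_lit 76) (nat_lit 15774902717) (nat_lit 81) (nat_lit 5) (nat_lit 87) (nat_lit 5) (nat_lit 82) (nat_lit 5) (nat_lit 332) (nat_lit 282) (nat_lit 166)) (XT.lf (nat_lit 0) (nat_lit 4571870395) (nat_lit 380) (nat_lit 11795185860) (nat_lit 76) (nat_lit 2899011886) (nat_lit 77) (nat_lit 5) (nat_lit 82) (nat_lit 5) (nat_lit 78) (nat_lit 5) (nat_lit 333) (nat_lit 282) (nat_lit 165))) (XT.nd (nat_lit 78) (nat_lit 304) (nat_lit 0) (XT.lf (nat_lit 0) (nat_lit 7762039913) (nat_lit 380) (nat_lit 2835548019) (nat_lit 76) (nat_lit 9048964388) (nat_lit 77) (nat_lit 5) (nat_lit 82) (nat_lit 5) (nat_lit 78) (nat_lit 5) (nat_lit 334) (nat_lit 282) (nat_lit 164)) (XT.lf (nat_lit 0) (nat_lit 6504313692) (nat_lit 304) (nat_lit 4594956092) (nat_lit 380) (nat_lit 8937652377) (nat_lit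 73) (nat_lit 5) (nat_lit 77) (nat_lit 5) (nat_lit 78) (nat_lit 5) (nat_lit 335) (nat_lit 282) (nat_lit 163))))))))
noncomputable def xc163 : XT := (XT.nd (nat_lit 2028) (nat_lit 1520) (nat_lit 0) (XT.nd (nat_lit 1014) (nat_lit 1064) (nat_lit 0) (XT.nd (nat_lit 468) (nat_lit 760) (nat_lit 0) (XT.nd (nat_lit 234) (nat_lit 532) (nat_lit 0) (XT.nd (nat_lit 78) (nat_lit 304) (nat_lit 0) (XT.lf (nat_lit 0) (nat_lit 14569763916) (nat_lit 380) (nat_lit 4286828247) (nat_lit 76) (nat_lit 1581427963) (nat_lit 73) (nat_lit 5) (nat_lit 78) (nat_lit 5) (nat_lit 74) (nat_lit 5) (nat_lit 336) (nat_lit 282) (nat_lit 162)) (XT.nd (nat_lit 78) (nat_lit 76) (nat_lit 0) (XT.lf (nat_lit 0) (nat_lit 5278656371) (nat_lit 228) (nat_lit 12951242030) (nat_lit 304) (nat_lit 2618697979) (nat_lit 70) (nat_lit 5) (nat_lit 73) (nat_lit 5) (nat_lit 74) (nat_lit 5) (nat_lit 337) (nat_lit 282) (nat_lit 161)) (XT.lf (nat_lit 0)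 (nat_lit 747193231) (nat_lit 304) (nat_lit 6073893646) (nat_lit 76) (nat_lit 14449211715) (nat_lit 69) (nat_lit 5) (nat_lit 73) (nat_lit 5) (nat_lit 70) (nat_lit 5) (nat_lit 338) (nat_lit 282) (nat_lit 160)))) (XT.nd (nat_lit 78) (nat_lit 228) (nat_lit 0) (XT.lf (nat_lit 0) (nat_lit 3739263416) (nat_lit 304) (nat_lit 447760793) (nat_lit 380) (nat_lit 17516092116) (nat_lit 65) (nat_lit 5) (nat_lit 69) (nat_lit 5) (nat_lit 70) (nat_lit 5) (nat_lit 339) (nat_lit 282) (nat_lit 159)) (XT.nd (nat_lit 78) (nat_lit 228) (nat_lit 0) (XT.lf (nat_lit 0) (nat_lit 7840559470) (nat_lit 380) (nat_lit 8250096619) (nat_lit 76) (nat_lit 6054957098) (nat_lit 65) (nat_lit 5) (nat_lit 70) (nat_lit 5) (nat_lit 66) (nat_lit 5) (nat_lit 340) (nat_lit 282) (nat_lit 158)) (XT.lf (nat_lit 0) (nat_lit 1770689917) (nat_lit 228) (nat_lit 9844532651) (nat_lit 304) (nat_lit 10985826322) (nat_lit 62) (nat_lit 5) (nat_lit 65)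 (nat_lit 5) (nat_lit 66) (nat_lit 5) (nat_lit 341) (nat_lit 282) (nat_lit 157))))) (XT.nd (nat_lit 234) (nat_lit 532) (nat_lit 0) (XT.nd (nat_lit 78) (nat_lit 228) (nat_lit 0) (XT.lf (nat_lit 0) (nat_lit 12246859409) (nat_lit 228) (nat_lit 3329794760) (nat_lit 304) (nat_lit 7491296945) (nat_lit 62) (nat_lit 5) (nat_lit 65) (nat_lit 5) (nat_lit 66) (nat_lit 5) (nat_lit 342) (nat_lit 282) (nat_lit 156)) (XT.nd (nat_lit 78) (nat_lit 228) (nat_lit 0) (XT.lf (nat_lit 0) (nat_lit 19679884024) (nat_lit 304) (nat_lit 558233244) (nat_lit 76) (nat_lit 3310063517) (nat_lit 62) (nat_lit 5) (nat_lit 66) (nat_lit 5) (nat_lit 63) (nat_lit 5) (nat_lit 343) (nat_lit 282) (nat_lit 155)) (XT.lf (nat_lit 0) (nat_lit 10164101821) (nat_lit 228) (nat_lit 13863519590) (nat_lit 304) (nat_lit 11562391) (nat_lit 59) (nat_lit 5) (nat_lit 62) (nat_lit 5) (nat_lit 63) (nat_lit 5) (nat_lit 344) (nat_lit 282) (nat_lit 154))))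 (XT.nd (nat_lit 156) (nat_lit 228) (nat_lit 0) (XT.nd (nat_lit 78) (nat_lit 228) (nat_lit 0) (XT.lf (nat_lit 0) (nat_lit 3880054686) (nat_lit 304) (nat_lit 3377163604) (nat_lit 76) (nat_lit 17286670513) (nat_lit 58) (nat_lit 5) (nat_lit 62) (nat_lit 5) (nat_lit 59) (nat_lit 5) (nat_lit 345) (nat_lit 282) (nat_lit 153)) (XT.lf (nat_lit 0) (nat_lit 7569860245) (nat_lit 228) (nat_lit 382141069) (nat_lit 304) (nat_lit 17109823833) (nat_lit 55) (nat_lit 5) (nat_lit 58) (nat_lit 5) (nat_lit 59) (nat_lit 5) (nat_lit 346) (nat_lit 282) (nat_lit 152))) (XT.nd (nat_lit 78) (nat_lit 228) (nat_lit 0) (XT.lf (nat_lit 0) (nat_lit 12236080544) (nat_lit 304) (nat_lit 6758017952) (nat_lit 76) (nat_lit 6598509656) (nat_lit 55) (nat_lit 5) (nat_lit 59) (nat_lit 5) (nat_lit 56) (nat_lit 5) (nat_lit 347) (nat_lit 282) (nat_lit 151)) (XT.lf (nat_lit 0) (nat_lit 4366228306) (nat_lit 228) (nat_lit 12319603543) (nat_lit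 304) (nat_lit 9452375877) (nat_lit 52) (nat_lit 5) (nat_lit 55) (nat_lit 5) (nat_lit 56) (nat_lit 5) (nat_lit 348) (nat_lit 282) (nat_lit 150)))))) (XT.nd (nat_lit 468) (nat_lit 608) (nat_lit 0) (XT.nd (nat_lit 234) (nat_lit 228) (nat_lit 0) (XT.nd (nat_lit 78) (nat_lit 228) (nat_lit 0) (XT.lf (nat_lit 0) (nat_lit 15949727117) (nat_lit 228) (nat_lit 5379112159) (nat_lit 304) (nat_lit 5369550452) (nat_lit 52) (nat_lit 5) (nat_lit 55) (nat_lit 5) (nat_lit 56) (nat_lit 5) (nat_lit 349) (nat_lit 282) (nat_lit 149)) (XT.nd (nat_lit 78) (nat_lit 76) (nat_lit 0) (XT.lf (nat_lit 0) (nat_lit 586956358) (nat_lit 152) (nat_lit 25538558728) (nat_lit 228) (nat_lit 1149437895) (nat_lit 50) (nat_lit 5) (nat_lit 52) (nat_lit 5) (nat_lit 53) (nat_lit 5) (nat_lit 350) (nat_lit 282) (nat_lit 148)) (XT.lf (nat_lit 0) (nat_lit 3289518034) (nat_lit 228) (nat_lit 15480528811) (nat_lit 76) (nat_lit 9093212075) (nat_lit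 49) (nat_lit 5) (nat_lit 52) (nat_lit 5) (nat_lit 50) (nat_lit 5) (nat_lit 351) (nat_lit 282) (nat_lit 147)))) (XT.nd (nat_lit 78) (nat_lit 228) (nat_lit 0) (XT.lf (nat_lit 0) (nat_lit 7830536968) (nat_lit 228) (nat_lit 3960727681) (nat_lit 76) (nat_lit 16677854593) (nat_lit 49) (nat_lit 5) (nat_lit 52) (nat_lit 5) (nat_lit 50) (nat_lit 5) (nat_lit 352) (nat_lit 282) (nat_lit 146)) (XT.nd (nat_lit 78) (nat_lit 0) (nat_lit 0) (XT.lf (nat_lit 0) (nat_lit 8049598369) (nat_lit 228) (nat_lit 4527795756) (nat_lit 304) (nat_lit 16513679359) (nat_lit 46) (nat_lit 5) (nat_lit 49) (nat_lit 5) (nat_lit 50) (nat_lit 5) (nat_lit 353) (nat_lit 282) (nat_lit 145)) (XT.lf (nat_lit 0) (nat_lit 17527738878) (nat_lit 304) (nat_lit 9270069483) (nat_lit 76) (nat_lit 2932051689) (nat_lit 46) (nat_lit 5) (nat_lit 50) (nat_lit 5) (nat_lit 47) (nat_lit 5) (nat_lit 354) (nat_lit 282) (nat_lit 144))))) (XT.nd (nat_lit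 234) (nat_lit 380) (nat_lit 0) (XT.nd (nat_lit 78) (nat_lit 76) (nat_lit 0) (XT.lf (nat_lit 0) (nat_lit 2853465337) (nat_lit 152) (nat_lit 19837910573) (nat_lit 228) (nat_lit 7694496822) (nat_lit 44) (nat_lit 5) (nat_lit 46) (nat_lit 5) (nat_lit 47) (nat_lit 5) (nat_lit 355) (nat_lit 282) (nat_lit 143)) (XT.nd (nat_lit 78) (nat_lit 76) (nat_lit 0) (XT.lf (nat_lit 0) (nat_lit 15518985153) (nat_lit 152) (nat_lit 12577174289) (nat_lit 228) (nat_lit 2962825031) (nat_lit 44) (nat_lit 5) (nat_lit 46) (nat_lit 5) (nat_lit 47) (nat_lit 5) (nat_lit 356) (nat_lit 282) (nat_lit 142)) (XT.lf (nat_lit 0) (nat_lit 1866276581) (nat_lit 228) (nat_lit 3217742386) (nat_lit 76) (nat_lit 26667942050) (nat_lit 43) (nat_lit 5) (nat_lit 46) (nat_lit 5) (nat_lit 44) (nat_lit 5) (nat_lit 357) (nat_lit 282) (nat_lit 141)))) (XT.nd (nat_lit 156) (nat_lit 152) (nat_lit 0) (XT.nd (nat_lit 78) (nat_lit 0) (nat_lit 0) (XT.lf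 (nat_lit 0) (nat_lit 6892649612) (nat_lit 304) (nat_lit 22867396999) (nat_lit 76) (nat_lit 2701447062) (nat_lit 40) (nat_lit 5) (nat_lit 44) (nat_lit 5) (nat_lit 41) (nat_lit 5) (nat_lit 358) (nat_lit 282) (nat_lit 140)) (XT.lf (nat_lit 0) (nat_lit 12145999700) (nat_lit 304) (nat_lit 10397026354) (nat_lit 76) (nat_lit 10647005833) (nat_lit 40) (nat_lit 5) (nat_lit 44) (nat_lit 5) (nat_lit 41) (nat_lit 5) (nat_lit 359) (nat_lit 282) (nat_lit 139))) (XT.nd (nat_lit 78) (nat_lit 0) (nat_lit 0) (XT.lf (nat_lit 0) (nat_lit 2484993407) (nat_lit 152) (nat_lit 15089081484) (nat_lit 228) (nat_lit 16365842621) (nat_lit 38) (nat_lit 5) (nat_lit 40) (nat_lit 5) (nat_lit 41) (nat_lit 5) (nat_lit 360) (nat_lit 282) (nat_lit 138)) (XT.lf (nat_lit 0) (nat_lit 15955756819) (nat_lit 152) (nat_lit 7307555140) (nat_lit 228) (nat_lit 11446043019) (nat_lit 38) (nat_lit 5) (nat_lit 40) (nat_lit 5) (nat_lit 41) (nat_lit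 5) (nat_lit 361) (nat_lit 282) (nat_lit 137))))))) (XT.nd (nat_lit 1014) (nat_lit 608) (nat_lit 0) (XT.nd (nat_lit 468) (nat_lit 532) (nat_lit 0) (XT.nd (nat_lit 234) (nat_lit 152) (nat_lit 0) (XT.nd (nat_lit 78) (nat_lit 228) (nat_lit 0) (XT.lf (nat_lit 0) (nat_lit 29123511603) (nat_lit 228) (nat_lit 5688722469) (nat_lit 76) (nat_lit 689637648) (nat_lit 38) (nat_lit 5) (nat_lit 41) (nat_lit 5) (nat_lit 39) (nat_lit 5) (nat_lit 362) (nat_lit 282) (nat_lit 136)) (XT.nd (nat_lit 78) (nat_lit 76) (nat_lit 0) (XT.lf (nat_lit 0) (nat_lit 7838322817) (nat_lit 152) (nat_lit 27462568290) (nat_lit 228) (nat_lit 1013036223) (nat_lit 36) (nat_lit 5) (nat_lit 38) (nat_lit 5) (nat_lit 39) (nat_lit 5) (nat_lit 363) (nat_lit 282) (nat_lit 135)) (XT.lf (nat_lit 0) (nat_lit 4476885764) (nat_lit 228) (nat_lit 15315188033) (nat_lit 76) (nat_lit 17355422361) (nat_lit 35) (nat_lit 5) (nat_lit 38) (nat_lit 5) (nat_lit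 36) (nat_lit 5) (nat_lit 364) (nat_lit 282) (nat_lit 134)))) (XT.nd (nat_lit 78) (nat_lit 152) (nat_lit 0) (XT.lf (nat_lit 0) (nat_lit 10105022429) (nat_lit 228) (nat_lit 1780092628) (nat_lit 76) (nat_lit 26120843942) (nat_lit 35) (nat_lit 5) (nat_lit 38) (nat_lit 5) (nat_lit 36) (nat_lit 5) (nat_lit 365) (nat_lit 282) (nat_lit 133)) (XT.nd (nat_lit 78) (nat_lit 0) (nat_lit 0) (XT.lf (nat_lit 0) (nat_lit 12393080036) (nat_lit 152) (nat_lit 3622109375) (nat_lit 228) (nat_lit 22871594796) (nat_lit 33) (nat_lit 5) (nat_lit 35) (nat_lit 5) (nat_lit 36) (nat_lit 5) (nat_lit 366) (nat_lit 282) (nat_lit 132)) (XT.lf (nat_lit 0) (nat_lit 22161907929) (nat_lit 228) (nat_lit 12822584784) (nat_lit 76) (nat_lit 4807768012) (nat_lit 33) (nat_lit 5) (nat_lit 36) (nat_lit 5) (nat_lit 34) (nat_lit 5) (nat_lit 367) (nat_lit 282) (nat_lit 131))))) (XT.nd (nat_lit 234) (nat_lit 380) (nat_lit 0) (XT.nd (nat_lit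 78) (nat_lit 0) (nat_lit 0) (XT.lf (nat_lit 0) (nat_lit 1237382642) (nat_lit 152) (nat_lit 27297673278) (nat_lit 228) (nat_lit 12188588619) (nat_lit 31) (nat_lit 5) (nat_lit 33) (nat_lit 5) (nat_lit 34) (nat_lit 5) (nat_lit 368) (nat_lit 282) (nat_lit 130)) (XT.nd (nat_lit 78) (nat_lit 0) (nat_lit 0) (XT.lf (nat_lit 0) (nat_lit 15972524459) (nat_lit 152) (nat_lit 19250703612) (nat_lit 228) (nat_lit 6456030628) (nat_lit 31) (nat_lit 5) (nat_lit 33) (nat_lit 5) (nat_lit 34) (nat_lit 5) (nat_lit 369) (nat_lit 282) (nat_lit 129)) (XT.lf (nat_lit 0) (nat_lit 31140521450) (nat_lit 152) (nat_lit 10966035348) (nat_lit 228) (nat_lit 557152758) (nat_lit 31) (nat_lit 5) (nat_lit 33) (nat_lit 5) (nat_lit 34) (nat_lit 5) (nat_lit 370) (nat_lit 282) (nat_lit 128)))) (XT.nd (nat_lit 156) (nat_lit 152) (nat_lit 0) (XT.nd (nat_lit 78) (nat_lit 0) (nat_lit 0) (XT.lf (nat_lit 0) (nat_lit 3083952675) (nat_lit 152)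 (nat_lit 2351309138) (nat_lit 228) (nat_lit 38240116266) (nat_lit 28) (nat_lit 5) (nat_lit 30) (nat_lit 5) (nat_lit 31) (nat_lit 5) (nat_lit 371) (nat_lit 282) (nat_lit 127)) (XT.lf (nat_lit 0) (nat_lit 11771107275) (nat_lit 228) (nat_lit 26426825457) (nat_lit 76) (nat_lit 6514056042) (nat_lit 28) (nat_lit 5) (nat_lit 31) (nat_lit 5) (nat_lit 29) (nat_lit 5) (nat_lit 372) (nat_lit 282) (nat_lit 126))) (XT.nd (nat_lit 78) (nat_lit 152) (nat_lit 0) (XT.lf (nat_lit 0) (nat_lit 18315115062) (nat_lit 228) (nat_lit 11869384141) (nat_lit 76) (nat_lit 15594659189) (nat_lit 28) (nat_lit 5) (nat_lit 31) (nat_lit 5) (nat_lit 29) (nat_lit 5) (nat_lit 373) (nat_lit 282) (nat_lit 125)) (XT.lf (nat_lit 0) (nat_lit 3178239763) (nat_lit 152) (nat_lit 21902712440) (nat_lit 228) (nat_lit 21796628743) (nat_lit 26) (nat_lit 5) (nat_lit 28) (nat_lit 5) (nat_lit 29) (nat_lit 5) (nat_lit 374) (nat_lit 282) (nat_lit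 124)))))) (XT.nd (nat_lit 546) (nat_lit 304) (nat_lit 0) (XT.nd (nat_lit 234) (nat_lit 228) (nat_lit 0) (XT.nd (nat_lit 78) (nat_lit 76) (nat_lit 0) (XT.lf (nat_lit 0) (nat_lit 18912127486) (nat_lit 152) (nat_lit 13252517798) (nat_lit 228) (nat_lit 15840867494) (nat_lit 26) (nat_lit 5) (nat_lit 28) (nat_lit 5) (nat_lit 29) (nat_lit 5) (nat_lit 375) (nat_lit 282) (nat_lit 123)) (XT.nd (nat_lit 78) (nat_lit 76) (nat_lit 0) (XT.lf (nat_lit 0) (nat_lit 35109803066) (nat_lit 152) (nat_lit 4346214362) (nat_lit 228) (nat_lit 9711413029) (nat_lit 26) (nat_lit 5) (nat_lit 28) (nat_lit 5) (nat_lit 29) (nat_lit 5) (nat_lit 376) (nat_lit 282) (nat_lit 122)) (XT.lf (nat_lit 0) (nat_lit 1402058729) (nat_lit 76) (nat_lit 45619229502) (nat_lit 152) (nat_lit 3341265565) (nat_lit 25) (nat_lit 5) (nat_lit 26) (nat_lit 5) (nat_lit 27) (nat_lit 4) (nat_lit 377) (nat_lit 282) (nat_lit 121)))) (XT.nd (nat_lit 156)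 (nat_lit 152) (nat_lit 0) (XT.nd (nat_lit 78) (nat_lit 0) (nat_lit 0) (XT.lf (nat_lit 0) (nat_lit 3338833445) (nat_lit 152) (nat_lit 34059076992) (nat_lit 76) (nat_lit 14189244093) (nat_lit 24) (nat_lit 5) (nat_lit 26) (nat_lit 5) (nat_lit 25) (nat_lit 5) (nat_lit 378) (nat_lit 282) (nat_lit 120)) (XT.lf (nat_lit 0) (nat_lit 10147605380) (nat_lit 152) (nat_lit 18751579777) (nat_lit 76) (nat_lit 23948455504) (nat_lit 24) (nat_lit 5) (nat_lit 26) (nat_lit 5) (nat_lit 25) (nat_lit 5) (nat_lit 379) (nat_lit 282) (nat_lit 119))) (XT.nd (nat_lit 78) (nat_lit 152) (nat_lit 0) (XT.lf (nat_lit 0) (nat_lit 17156199777) (nat_lit 152) (nat_lit 2992509649) (nat_lit 76) (nat_lit 33997367706) (nat_lit 24) (nat_lit 5) (nat_lit 26) (nat_lit 5) (nat_lit 25) (nat_lit 5) (nat_lit 380) (nat_lit 282) (nat_lit 118)) (XT.lf (nat_lit 0) (nat_lit 13495244275) (nat_lit 152) (nat_lit 11005220920) (nat_lit 228) (nat_lit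 30979241570) (nat_lit 22) (nat_lit 5) (nat_lit 24) (nat_lit 5) (nat_lit 25) (nat_lit 5) (nat_lit 381) (nat_lit 282) (nat_lit 117))))) (XT.nd (nat_lit 234) (nat_lit 228) (nat_lit 0) (XT.nd (nat_lit 78) (nat_lit 76) (nat_lit 0) (XT.lf (nat_lit 0) (nat_lit 30531618035) (nat_lit 152) (nat_lit 1559402524) (nat_lit 228) (nat_lit 24761548256) (nat_lit 22) (nat_lit 5) (nat_lit 24) (nat_lit 5) (nat_lit 25) (nat_lit 5) (nat_lit 382) (nat_lit 282) (nat_lit 116)) (XT.nd (nat_lit 78) (nat_lit 76) (nat_lit 0) (XT.lf (nat_lit 0) (nat_lit 39983664161) (nat_lit 228) (nat_lit 10273306145) (nat_lit 76) (nat_lit 8007417595) (nat_lit 22) (nat_lit 5) (nat_lit 25) (nat_lit 5) (nat_lit 23) (nat_lit 4) (nat_lit 383) (nat_lit 282) (nat_lit 115)) (XT.lf (nat_lit 0) (nat_lit 6357354540) (nat_lit 76) (nat_lit 41828242698) (nat_lit 152) (nat_lit 11530791270) (nat_lit 21) (nat_lit 5) (nat_lit 22) (nat_lit 5) (nat_lit 23)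 (nat_lit 4) (nat_lit 384) (nat_lit 282) (nat_lit 114)))) (XT.nd (nat_lit 156) (nat_lit 152) (nat_lit 0) (XT.nd (nat_lit 78) (nat_lit 76) (nat_lit 0) (XT.lf (nat_lit 0) (nat_lit 23690568112) (nat_lit 76) (nat_lit 33042770978) (nat_lit 152) (nat_lit 4475619705) (nat_lit 21) (nat_lit 5) (nat_lit 22) (nat_lit 5) (nat_lit 23) (nat_lit 4) (nat_lit 385) (nat_lit 282) (nat_lit 113)) (XT.lf (nat_lit 0) (nat_lit 2732826805) (nat_lit 152) (nat_lit 21236195773) (nat_lit 76) (nat_lit 38776598164) (nat_lit 20) (nat_lit 5) (nat_lit 22) (nat_lit 5) (nat_lit 21) (nat_lit 5) (nat_lit 386) (nat_lit 282) (nat_lit 112))) (XT.nd (nat_lit 78) (nat_lit 152) (nat_lit 0) (XT.lf (nat_lit 0) (nat_lit 10063771480) (nat_lit 152) (nat_lit 4516485830) (nat_lit 76) (nat_lit 49746911837) (nat_lit 20) (nat_lit 5) (nat_lit 22) (nat_lit 5) (nat_lit 21) (nat_lit 5) (nat_lit 387) (nat_lit 282) (nat_lit 111)) (XT.lf (nat_lit 0) (nat_lit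 12951093475) (nat_lit 152) (nat_lit 4784355818) (nat_lit 228) (nat_lit 48217092512) (nat_lit 18) (nat_lit 5) (nat_lit 20) (nat_lit 5) (nat_lit 21) (nat_lit 5) (nat_lit 388) (nat_lit 282) (nat_lit 110))))))))
noncomputable def xc164 : XT := (XT.nd (nat_lit 33384) (nat_lit 0) (nat_lit 7144) (XT.nd (nat_lit 32370) (nat_lit 0) (nat_lit 13832) (XT.nd (nat_lit 468) (nat_lit 304) (nat_lit 0) (XT.nd (nat_lit 234) (nat_lit 76) (nat_lit 0) (XT.nd (nat_lit 78) (nat_lit 0) (nat_lit 0) (XT.lf (nat_lit 0) (nat_lit 25730666370) (nat_lit 228) (nat_lit 36647940339) (nat_lit 76) (nat_lit 5245269150) (nat_lit 18) (nat_lit 5) (nat_lit 21) (nat_lit 5) (nat_lit 19) (nat_lit 4) (nat_lit 389) (nat_lit 282) (nat_lit 109)) (XT.nd (nat_lit 78) (nat_lit 0) (nat_lit 0) (XT.lf (nat_lit 0) (nat_lit 34009547440) (nat_lit 228) (nat_lit 19857474724) (nat_lit 76) (nat_lit 15477015380) (nat_lit 18) (nat_lit 5) (nat_lit 21) (nat_lit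 5) (nat_lit 19) (nat_lit 4) (nat_lit 390) (nat_lit 282) (nat_lit 108)) (XT.lf (nat_lit 0) (nat_lit 42533336321) (nat_lit 228) (nat_lit 2569390050) (nat_lit 76) (nat_lit 26013183246) (nat_lit 18) (nat_lit 5) (nat_lit 21) (nat_lit 5) (nat_lit 19) (nat_lit 4) (nat_lit 391) (nat_lit 282) (nat_lit 107)))) (XT.nd (nat_lit 78) (nat_lit 0) (nat_lit 0) (XT.lf (nat_lit 0) (nat_lit 15534554895) (nat_lit 76) (nat_lit 35924253733) (nat_lit 152) (nat_lit 21477751857) (nat_lit 17) (nat_lit 5) (nat_lit 18) (nat_lit 5) (nat_lit 19) (nat_lit 4) (nat_lit 392) (nat_lit 282) (nat_lit 106)) (XT.nd (nat_lit 78) (nat_lit 0) (nat_lit 0) (XT.lf (nat_lit 0) (nat_lit 34228428793) (nat_lit 76) (nat_lit 26446245708) (nat_lit 152) (nat_lit 14136479172) (nat_lit 17) (nat_lit 5) (nat_lit 18) (nat_lit 5) (nat_lit 19) (nat_lit 4) (nat_lit 393) (nat_lit 282) (nat_lit 105)) (XT.lf (nat_lit 0) (nat_lit 53477430196) (nat_lit 76)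 (nat_lit 16686366343) (nat_lit 152) (nat_lit 6578286341) (nat_lit 17) (nat_lit 5) (nat_lit 18) (nat_lit 5) (nat_lit 19) (nat_lit 4) (nat_lit 394) (nat_lit 282) (nat_lit 104))))) (XT.nd (nat_lit 234) (nat_lit 76) (nat_lit 0) (XT.nd (nat_lit 78) (nat_lit 152) (nat_lit 0) (XT.lf (nat_lit 0) (nat_lit 1179947612) (nat_lit 152) (nat_lit 5444224819) (nat_lit 76) (nat_lit 72106515850) (nat_lit 16) (nat_lit 5) (nat_lit 18) (nat_lit 5) (nat_lit 17) (nat_lit 5) (nat_lit 395) (nat_lit 282) (nat_lit 103)) (XT.nd (nat_lit 78) (nat_lit 0) (nat_lit 0) (XT.lf (nat_lit 0) (nat_lit 9199348575) (nat_lit 228) (nat_lit 67715327502) (nat_lit 76) (nat_lit 3857504198) (nat_lit 14) (nat_lit 5) (nat_lit 17) (nat_lit 5) (nat_lit 15) (nat_lit 4) (nat_lit 396) (nat_lit 282) (nat_lit 102)) (XT.lf (nat_lit 0) (nat_lit 17577386373) (nat_lit 228) (nat_lit 50720275253) (nat_lit 76) (nat_lit 14573715204) (nat_lit 14) (nat_lit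 5) (nat_lit 17) (nat_lit 5) (nat_lit 15) (nat_lit 4) (nat_lit 397) (nat_lit 282) (nat_lit 101)))) (XT.nd (nat_lit 156) (nat_lit 76) (nat_lit 0) (XT.nd (nat_lit 78) (nat_lit 0) (nat_lit 0) (XT.lf (nat_lit 0) (nat_lit 26203802810) (nat_lit 228) (nat_lit 33220654238) (nat_lit 76) (nat_lit 25609182513) (nat_lit 14) (nat_lit 5) (nat_lit 17) (nat_lit 5) (nat_lit 15) (nat_lit 4) (nat_lit 398) (nat_lit 282) (nat_lit 100)) (XT.lf (nat_lit 0) (nat_lit 35086135530) (nat_lit 228) (nat_lit 15201173527) (nat_lit 76) (nat_lit 36973548767) (nat_lit 14) (nat_lit 5) (nat_lit 17) (nat_lit 5) (nat_lit 15) (nat_lit 4) (nat_lit 399) (nat_lit 282) (nat_lit 99))) (XT.nd (nat_lit 78) (nat_lit 0) (nat_lit 0) (XT.lf (nat_lit 0) (nat_lit 3420661483) (nat_lit 76) (nat_lit 40844365803) (nat_lit 152) (nat_lit 45288964001) (nat_lit 13) (nat_lit 5) (nat_lit 14) (nat_lit 5) (nat_lit 15) (nat_lit 4) (nat_lit 400) (nat_lit 282)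 (nat_lit 98)) (XT.lf (nat_lit 0) (nat_lit 22907829970) (nat_lit 76) (nat_lit 30962199369) (nat_lit 152) (nat_lit 38041368392) (nat_lit 13) (nat_lit 5) (nat_lit 14) (nat_lit 5) (nat_lit 15) (nat_lit 4) (nat_lit 401) (nat_lit 282) (nat_lit 97)))))) (XT.nd (nat_lit 468) (nat_lit 836) (nat_lit 0) (XT.nd (nat_lit 234) (nat_lit 912) (nat_lit 0) (XT.nd (nat_lit 78) (nat_lit 0) (nat_lit 0) (XT.lf (nat_lit 0) (nat_lit 3335984591) (nat_lit 988) (nat_lit 518387822) (nat_lit 988) (nat_lit 518387822) (nat_lit 218) (nat_lit 3) (nat_lit 231) (nat_lit 3) (nat_lit 231) (nat_lit 5) (nat_lit 283) (nat_lit 283) (nat_lit 214)) (XT.nd (nat_lit 78) (nat_lit 0) (nat_lit 0) (XT.lf (nat_lit 76) (nat_lit 2920103227) (nat_lit 0) (nat_lit 4774655629) (nat_lit 988) (nat_lit 1152681334) (nat_lit 219) (nat_lit 5) (nat_lit 218) (nat_lit 3) (nat_lit 231) (nat_lit 5) (nat_lit 284) (nat_lit 283) (nat_lit 213)) (XT.lf (nat_lit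 76) (nat_lit 6998570619) (nat_lit 0) (nat_lit 1725039101) (nat_lit 988) (nat_lit 229608188) (nat_lit 219) (nat_lit 5) (nat_lit 218) (nat_lit 3) (nat_lit 231) (nat_lit 5) (nat_lit 285) (nat_lit 283) (nat_lit 212)))) (XT.nd (nat_lit 78) (nat_lit 0) (nat_lit 0) (XT.lf (nat_lit 0) (nat_lit 707360347) (nat_lit 988) (nat_lit 6922732208) (nat_lit 1064) (nat_lit 1431918359) (nat_lit 206) (nat_lit 5) (nat_lit 219) (nat_lit 5) (nat_lit 220) (nat_lit 5) (nat_lit 286) (nat_lit 283) (nat_lit 211)) (XT.nd (nat_lit 78) (nat_lit 0) (nat_lit 0) (XT.lf (nat_lit 0) (nat_lit 1671343792) (nat_lit 988) (nat_lit 2816542904) (nat_lit 1064) (nat_lit 4686063685) (nat_lit 206) (nat_lit 5) (nat_lit 219) (nat_lit 5) (nat_lit 220) (nat_lit 5) (nat_lit 287) (nat_lit 283) (nat_lit 210)) (XT.lf (nat_lit 76) (nat_lit 1421532659) (nat_lit 0) (nat_lit 1223861852) (nat_lit 1064) (nat_lit 6644473935) (nat_lit 207) (nat_lit 5) (nat_lit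 206) (nat_lit 5) (nat_lit 220) (nat_lit 5) (nat_lit 288) (nat_lit 283) (nat_lit 209))))) (XT.nd (nat_lit 234) (nat_lit 912) (nat_lit 0) (XT.nd (nat_lit 78) (nat_lit 0) (nat_lit 0) (XT.lf (nat_lit 0) (nat_lit 3666315482) (nat_lit 988) (nat_lit 3604739883) (nat_lit 1064) (nat_lit 2137732479) (nat_lit 207) (nat_lit 5) (nat_lit 220) (nat_lit 5) (nat_lit 221) (nat_lit 5) (nat_lit 289) (nat_lit 283) (nat_lit 208)) (XT.nd (nat_lit 78) (nat_lit 0) (nat_lit 0) (XT.lf (nat_lit 76) (nat_lit 770277574) (nat_lit 0) (nat_lit 3936402503) (nat_lit 1064) (nat_lit 4824981965) (nat_lit 208) (nat_lit 5) (nat_lit 207) (nat_lit 5) (nat_lit 221) (nat_lit 5) (nat_lit 290) (nat_lit 283) (nat_lit 207)) (XT.lf (nat_lit 76) (nat_lit 5331229613) (nat_lit 0) (nat_lit 453430668) (nat_lit 1064) (nat_lit 3873420241) (nat_lit 208) (nat_lit 5) (nat_lit 207) (nat_lit 5) (nat_lit 221) (nat_lit 5) (nat_lit 291) (nat_lit 283) (nat_lit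 206)))) (XT.nd (nat_lit 156) (nat_lit 988) (nat_lit 0) (XT.nd (nat_lit 78) (nat_lit 0) (nat_lit 0) (XT.lf (nat_lit 76) (nat_lit 194718959) (nat_lit 0) (nat_lit 6703237112) (nat_lit 1064) (nat_lit 2890294932) (nat_lit 209) (nat_lit 5) (nat_lit 208) (nat_lit 5) (nat_lit 222) (nat_lit 5) (nat_lit 292) (nat_lit 283) (nat_lit 205)) (XT.lf (nat_lit 76) (nat_lit 4916573093) (nat_lit 0) (nat_lit 3147851994) (nat_lit 1064) (nat_lit 1857355594) (nat_lit 209) (nat_lit 5) (nat_lit 208) (nat_lit 5) (nat_lit 222) (nat_lit 5) (nat_lit 293) (nat_lit 283) (nat_lit 204))) (XT.nd (nat_lit 78) (nat_lit 1064) (nat_lit 0) (XT.lf (nat_lit 0) (nat_lit 9243376207) (nat_lit 988) (nat_lit 304044009) (nat_lit 1064) (nat_lit 512617327) (nat_lit 209) (nat_lit 5) (nat_lit 222) (nat_lit 5) (nat_lit 223) (nat_lit 5) (nat_lit 294) (nat_lit 283) (nat_lit 203)) (XT.lf (nat_lit 0) (nat_lit 299218213) (nat_lit 1064) (nat_lit 5626952512)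 (nat_lit 1140) (nat_lit 4274772712) (nat_lit 195) (nat_lit 5) (nat_lit 209) (nat_lit 5) (nat_lit 210) (nat_lit 5) (nat_lit 295) (nat_lit 283) (nat_lit 202))))))) (XT.nd (nat_lit 1014) (nat_lit 3420) (nat_lit 0) (XT.nd (nat_lit 468) (nat_lit 2356) (nat_lit 0) (XT.nd (nat_lit 234) (nat_lit 912) (nat_lit 0) (XT.nd (nat_lit 78) (nat_lit 0) (nat_lit 76) (XT.lf (nat_lit 0) (nat_lit 1408897907) (nat_lit 1064) (nat_lit 769167823) (nat_lit 1140) (nat_lit 8168508107) (nat_lit 195) (nat_lit 5) (nat_lit 209) (nat_lit 5) (nat_lit 210) (nat_lit 5) (nat_lit 296) (nat_lit 283) (nat_lit 201)) (XT.nd (nat_lit 78) (nat_lit 0) (nat_lit 0) (XT.lf (nat_lit 0) (nat_lit 2584243790) (nat_lit 1064) (nat_lit 6213638427) (nat_lit 1140) (nat_lit 1697760470) (nat_lit 196) (nat_lit 5) (nat_lit 210) (nat_lit 5) (nat_lit 211) (nat_lit 5) (nat_lit 297) (nat_lit 283) (nat_lit 200)) (XT.lf (nat_lit 0) (nat_lit 3799286702) (nat_lit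 1064) (nat_lit 1189870004) (nat_lit 1140) (nat_lit 5659933422) (nat_lit 196) (nat_lit 5) (nat_lit 210) (nat_lit 5) (nat_lit 211) (nat_lit 5) (nat_lit 298) (nat_lit 283) (nat_lit 199)))) (XT.nd (nat_lit 78) (nat_lit 988) (nat_lit 0) (XT.lf (nat_lit 76) (nat_lit 4044350542) (nat_lit 0) (nat_lit 1021062136) (nat_lit 1140) (nat_lit 5741327830) (nat_lit 197) (nat_lit 5) (nat_lit 196) (nat_lit 5) (nat_lit 211) (nat_lit 5) (nat_lit 299) (nat_lit 283) (nat_lit 198)) (XT.nd (nat_lit 78) (nat_lit 1064) (nat_lit 0) (XT.lf (nat_lit 0) (nat_lit 6387453800) (nat_lit 1064) (nat_lit 1558150195) (nat_lit 76) (nat_lit 3023015814) (nat_lit 197) (nat_lit 5) (nat_lit 211) (nat_lit 5) (nat_lit 198) (nat_lit 5) (nat_lit 300) (nat_lit 283) (nat_lit 197)) (XT.lf (nat_lit 0) (nat_lit 3847984432) (nat_lit 1064) (nat_lit 3925284076) (nat_lit 1140) (nat_lit 3361399870) (nat_lit 183) (nat_lit 5) (nat_lit 197) (nat_lit 5)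 (nat_lit 198) (nat_lit 5) (nat_lit 301) (nat_lit 283) (nat_lit 196))))) (XT.nd (nat_lit 234) (nat_lit 1140) (nat_lit 0) (XT.nd (nat_lit 78) (nat_lit 1216) (nat_lit 0) (XT.lf (nat_lit 0) (nat_lit 9196154342) (nat_lit 1140) (nat_lit 1878977557) (nat_lit 76) (nat_lit 230736811) (nat_lit 183) (nat_lit 5) (nat_lit 198) (nat_lit 5) (nat_lit 184) (nat_lit 5) (nat_lit 302) (nat_lit 283) (nat_lit 195)) (XT.nd (nat_lit 78) (nat_lit 76) (nat_lit 0) (XT.lf (nat_lit 0) (nat_lit 3705207350) (nat_lit 1140) (nat_lit 7009188397) (nat_lit 1216) (nat_lit 766263414) (nat_lit 168) (nat_lit 5) (nat_lit 183) (nat_lit 5) (nat_lit 184) (nat_lit 5) (nat_lit 303) (nat_lit 283) (nat_lit 194)) (XT.lf (nat_lit 0) (nat_lit 603000145) (nat_lit 1216) (nat_lit 2190277107) (nat_lit 76) (nat_lit 8867343464) (nat_lit 167) (nat_lit 5) (nat_lit 183) (nat_lit 5) (nat_lit 168) (nat_lit 5) (nat_lit 304) (nat_lit 283) (nat_lit 193))))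 (XT.nd (nat_lit 156) (nat_lit 608) (nat_lit 0) (XT.nd (nat_lit 78) (nat_lit 0) (nat_lit 0) (XT.lf (nat_lit 0) (nat_lit 2026962071) (nat_lit 608) (nat_lit 8254362077) (nat_lit 76) (nat_lit 1563589999) (nat_lit 160) (nat_lit 5) (nat_lit 168) (nat_lit 5) (nat_lit 161) (nat_lit 5) (nat_lit 305) (nat_lit 283) (nat_lit 192)) (XT.lf (nat_lit 0) (nat_lit 3523110099) (nat_lit 608) (nat_lit 2491619896) (nat_lit 76) (nat_lit 6019152736) (nat_lit 160) (nat_lit 5) (nat_lit 168) (nat_lit 5) (nat_lit 161) (nat_lit 5) (nat_lit 306) (nat_lit 283) (nat_lit 191))) (XT.nd (nat_lit 78) (nat_lit 0) (nat_lit 0) (XT.lf (nat_lit 0) (nat_lit 3493360454) (nat_lit 608) (nat_lit 1584434804) (nat_lit 684) (nat_lit 7150345018) (nat_lit 152) (nat_lit 5) (nat_lit 160) (nat_lit 5) (nat_lit 161) (nat_lit 5) (nat_lit 307) (nat_lit 283) (nat_lit 190)) (XT.lf (nat_lit 0) (nat_lit 6713646680) (nat_lit 684) (nat_lit 2766638376) (nat_lit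 76) (nat_lit 2946933345) (nat_lit 152) (nat_lit 5) (nat_lit 161) (nat_lit 5) (nat_lit 153) (nat_lit 5) (nat_lit 308) (nat_lit 283) (nat_lit 189)))))) (XT.nd (nat_lit 468) (nat_lit 1824) (nat_lit 0) (XT.nd (nat_lit 234) (nat_lit 532) (nat_lit 0) (XT.nd (nat_lit 78) (nat_lit 532) (nat_lit 0) (XT.lf (nat_lit 0) (nat_lit 3412765123) (nat_lit 532) (nat_lit 5015352421) (nat_lit 608) (nat_lit 4203292800) (nat_lit 145) (nat_lit 5) (nat_lit 152) (nat_lit 5) (nat_lit 153) (nat_lit 5) (nat_lit 309) (nat_lit 283) (nat_lit 188)) (XT.nd (nat_lit 78) (nat_lit 532) (nat_lit 0) (XT.lf (nat_lit 0) (nat_lit 9815757282) (nat_lit 532) (nat_lit 387627734) (nat_lit 608) (nat_lit 2638089136) (nat_lit 145) (nat_lit 5) (nat_lit 152) (nat_lit 5) (nat_lit 153) (nat_lit 5) (nat_lit 310) (nat_lit 283) (nat_lit 187)) (XT.lf (nat_lit 0) (nat_lit 3357895377) (nat_lit 532) (nat_lit 8730352742) (nat_lit 608) (nat_lit 967927824)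 (nat_lit 138) (nat_lit 5) (nat_lit 145) (nat_lit 5) (nat_lit 146) (nat_lit 5) (nat_lit 311) (nat_lit 283) (nat_lit 186)))) (XT.nd (nat_lit 78) (nat_lit 456) (nat_lit 0) (XT.lf (nat_lit 0) (nat_lit 754467020) (nat_lit 608) (nat_lit 3311468853) (nat_lit 76) (nat_lit 9210686364) (nat_lit 137) (nat_lit 5) (nat_lit 145) (nat_lit 5) (nat_lit 138) (nat_lit 5) (nat_lit 312) (nat_lit 283) (nat_lit 185)) (XT.nd (nat_lit 78) (nat_lit 0) (nat_lit 0) (XT.lf (nat_lit 0) (nat_lit 2530971614) (nat_lit 532) (nat_lit 10206845252) (nat_lit 76) (nat_lit 764944754) (nat_lit 131) (nat_lit 5) (nat_lit 138) (nat_lit 5) (nat_lit 132) (nat_lit 5) (nat_lit 313) (nat_lit 283) (nat_lit 184)) (XT.lf (nat_lit 0) (nat_lit 4417757979) (nat_lit 532) (nat_lit 3624400225) (nat_lit 76) (nat_lit 5691840656) (nat_lit 131) (nat_lit 5) (nat_lit 138) (nat_lit 5) (nat_lit 132) (nat_lit 5) (nat_lit 314) (nat_lit 283) (nat_lit 183)))))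 (XT.nd (nat_lit 234) (nat_lit 912) (nat_lit 0) (XT.nd (nat_lit 78) (nat_lit 456) (nat_lit 0) (XT.lf (nat_lit 0) (nat_lit 3199965508) (nat_lit 456) (nat_lit 3175398197) (nat_lit 532) (nat_lit 7596405636) (nat_lit 125) (nat_lit 5) (nat_lit 131) (nat_lit 5) (nat_lit 132) (nat_lit 5) (nat_lit 315) (nat_lit 283) (nat_lit 182)) (XT.nd (nat_lit 78) (nat_lit 456) (nat_lit 0) (XT.lf (nat_lit 0) (nat_lit 8430072271) (nat_lit 532) (nat_lit 3948553112) (nat_lit 76) (nat_lit 1836918253) (nat_lit 125) (nat_lit 5) (nat_lit 132) (nat_lit 5) (nat_lit 126) (nat_lit 5) (nat_lit 316) (nat_lit 283) (nat_lit 181)) (XT.lf (nat_lit 0) (nat_lit 3090482595) (nat_lit 456) (nat_lit 7501311052) (nat_lit 532) (nat_lit 3873497666) (nat_lit 119) (nat_lit 5) (nat_lit 125) (nat_lit 5) (nat_lit 126) (nat_lit 5) (nat_lit 317) (nat_lit 283) (nat_lit 180)))) (XT.nd (nat_lit 156) (nat_lit 380) (nat_lit 0) (XT.nd (nat_lit 78) (nat_lit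 532) (nat_lit 0) (XT.lf (nat_lit 0) (nat_lit 10404025752) (nat_lit 456) (nat_lit 2438728168) (nat_lit 532) (nat_lit 1879066561) (nat_lit 119) (nat_lit 5) (nat_lit 125) (nat_lit 5) (nat_lit 126) (nat_lit 5) (nat_lit 318) (nat_lit 283) (nat_lit 179)) (XT.lf (nat_lit 0) (nat_lit 212281329) (nat_lit 532) (nat_lit 12022389933) (nat_lit 76) (nat_lit 2750128153) (nat_lit 112) (nat_lit 5) (nat_lit 119) (nat_lit 5) (nat_lit 113) (nat_lit 5) (nat_lit 319) (nat_lit 283) (nat_lit 178))) (XT.nd (nat_lit 78) (nat_lit 380) (nat_lit 0) (XT.lf (nat_lit 0) (nat_lit 2381832927) (nat_lit 532) (nat_lit 4765699509) (nat_lit 76) (nat_lit 8105999150) (nat_lit 112) (nat_lit 5) (nat_lit 119) (nat_lit 5) (nat_lit 113) (nat_lit 5) (nat_lit 320) (nat_lit 283) (nat_lit 177)) (XT.lf (nat_lit 0) (nat_lit 2745085244) (nat_lit 380) (nat_lit 1883260517) (nat_lit 456) (nat_lit 10901642091) (nat_lit 107) (nat_lit 5) (nat_lit 112)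 (nat_lit 5) (nat_lit 113) (nat_lit 5) (nat_lit 321) (nat_lit 283) (nat_lit 176))))))))
noncomputable def xc165 : XT := (XT.nd (nat_lit 2028) (nat_lit 2052) (nat_lit 0) (XT.nd (nat_lit 1014) (nat_lit 1672) (nat_lit 0) (XT.nd (nat_lit 468) (nat_lit 1064) (nat_lit 0) (XT.nd (nat_lit 234) (nat_lit 836) (nat_lit 0) (XT.nd (nat_lit 78) (nat_lit 380) (nat_lit 0) (XT.lf (nat_lit 0) (nat_lit 7010593183) (nat_lit 456) (nat_lit 5286326822) (nat_lit 76) (nat_lit 3515785465) (nat_lit 107) (nat_lit 5) (nat_lit 113) (nat_lit 5) (nat_lit 108) (nat_lit 5) (nat_lit 322) (nat_lit 283) (nat_lit 175)) (XT.nd (nat_lit 78) (nat_lit 0) (nat_lit 0) (XT.lf (nat_lit 0) (nat_lit 2449441479) (nat_lit 380) (nat_lit 7043194191) (nat_lit 456) (nat_lit 6610436435) (nat_lit 102) (nat_lit 5) (nat_lit 107) (nat_lit 5) (nat_lit 108) (nat_lit 5) (nat_lit 323) (nat_lit 283) (nat_lit 174)) (XT.lf (nat_lit 0) (nat_lit 10508897152)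 (nat_lit 380) (nat_lit 1580002581) (nat_lit 456) (nat_lit 4312074012) (nat_lit 102) (nat_lit 5) (nat_lit 107) (nat_lit 5) (nat_lit 108) (nat_lit 5) (nat_lit 324) (nat_lit 283) (nat_lit 173)))) (XT.nd (nat_lit 78) (nat_lit 456) (nat_lit 0) (XT.lf (nat_lit 0) (nat_lit 2087509654) (nat_lit 380) (nat_lit 12721257836) (nat_lit 456) (nat_lit 1897689795) (nat_lit 97) (nat_lit 5) (nat_lit 102) (nat_lit 5) (nat_lit 103) (nat_lit 5) (nat_lit 325) (nat_lit 283) (nat_lit 172)) (XT.nd (nat_lit 78) (nat_lit 380) (nat_lit 0) (XT.lf (nat_lit 0) (nat_lit 640190455) (nat_lit 456) (nat_lit 6630711313) (nat_lit 76) (nat_lit 9748172245) (nat_lit 96) (nat_lit 5) (nat_lit 102) (nat_lit 5) (nat_lit 97) (nat_lit 5) (nat_lit 326) (nat_lit 283) (nat_lit 171)) (XT.lf (nat_lit 0) (nat_lit 1593199827) (nat_lit 380) (nat_lit 1625393394) (nat_lit 456) (nat_lit 14121851457) (nat_lit 91) (nat_lit 5) (nat_lit 96) (nat_lit 5)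 (nat_lit 97) (nat_lit 5) (nat_lit 327) (nat_lit 283) (nat_lit 170))))) (XT.nd (nat_lit 234) (nat_lit 760) (nat_lit 0) (XT.nd (nat_lit 78) (nat_lit 304) (nat_lit 0) (XT.lf (nat_lit 0) (nat_lit 5969636517) (nat_lit 456) (nat_lit 7527101473) (nat_lit 76) (nat_lit 4171874324) (nat_lit 91) (nat_lit 5) (nat_lit 97) (nat_lit 5) (nat_lit 92) (nat_lit 5) (nat_lit 328) (nat_lit 283) (nat_lit 169)) (XT.nd (nat_lit 78) (nat_lit 0) (nat_lit 0) (XT.lf (nat_lit 0) (nat_lit 925624875) (nat_lit 304) (nat_lit 7890340480) (nat_lit 380) (nat_lit 9190291079) (nat_lit 87) (nat_lit 5) (nat_lit 91) (nat_lit 5) (nat_lit 92) (nat_lit 5) (nat_lit 329) (nat_lit 283) (nat_lit 168)) (XT.lf (nat_lit 0) (nat_lit 9770397384) (nat_lit 304) (nat_lit 2041263403) (nat_lit 380) (nat_lit 6540463459) (nat_lit 87) (nat_lit 5) (nat_lit 91) (nat_lit 5) (nat_lit 92) (nat_lit 5) (nat_lit 330) (nat_lit 283) (nat_lit 167)))) (XT.nd (nat_lit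 156) (nat_lit 380) (nat_lit 0) (XT.nd (nat_lit 78) (nat_lit 0) (nat_lit 0) (XT.lf (nat_lit 0) (nat_lit 120505795) (nat_lit 380) (nat_lit 14804452182) (nat_lit 456) (nat_lit 3782591463) (nat_lit 82) (nat_lit 5) (nat_lit 87) (nat_lit 5) (nat_lit 88) (nat_lit 5) (nat_lit 331) (nat_lit 283) (nat_lit 166)) (XT.lf (nat_lit 0) (nat_lit 9223562693) (nat_lit 380) (nat_lit 9003236961) (nat_lit 456) (nat_lit 843996255) (nat_lit 82) (nat_lit 5) (nat_lit 87) (nat_lit 5) (nat_lit 88) (nat_lit 5) (nat_lit 332) (nat_lit 283) (nat_lit 165))) (XT.nd (nat_lit 78) (nat_lit 304) (nat_lit 0) (XT.lf (nat_lit 0) (nat_lit 2128850567) (nat_lit 456) (nat_lit 881541906) (nat_lit 76) (nat_lit 16434269368) (nat_lit 81) (nat_lit 5) (nat_lit 87) (nat_lit 5) (nat_lit 82) (nat_lit 5) (nat_lit 333) (nat_lit 283) (nat_lit 164)) (XT.lf (nat_lit 0) (nat_lit 5275852650) (nat_lit 380) (nat_lit 11362975778) (nat_lit 76) (nat_lit 3187618427)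 (nat_lit 77) (nat_lit 5) (nat_lit 82) (nat_lit 5) (nat_lit 78) (nat_lit 5) (nat_lit 334) (nat_lit 283) (nat_lit 163)))))) (XT.nd (nat_lit 468) (nat_lit 760) (nat_lit 0) (XT.nd (nat_lit 234) (nat_lit 608) (nat_lit 0) (XT.nd (nat_lit 78) (nat_lit 304) (nat_lit 0) (XT.lf (nat_lit 0) (nat_lit 8545217755) (nat_lit 380) (nat_lit 2157443918) (nat_lit 76) (nat_lit 9516196605) (nat_lit 77) (nat_lit 5) (nat_lit 82) (nat_lit 5) (nat_lit 78) (nat_lit 5) (nat_lit 335) (nat_lit 283) (nat_lit 162)) (XT.nd (nat_lit 78) (nat_lit 0) (nat_lit 0) (XT.lf (nat_lit 0) (nat_lit 7455131581) (nat_lit 304) (nat_lit 4518668441) (nat_lit 380) (nat_lit 8647419052) (nat_lit 73) (nat_lit 5) (nat_lit 77) (nat_lit 5) (nat_lit 78) (nat_lit 5) (nat_lit 336) (nat_lit 283) (nat_lit 161)) (XT.lf (nat_lit 0) (nat_lit 15534634071) (nat_lit 380) (nat_lit 3667432298) (nat_lit 76) (nat_lit 1832713290) (nat_lit 73) (nat_lit 5) (nat_lit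 78) (nat_lit 5) (nat_lit 74) (nat_lit 5) (nat_lit 337) (nat_lit 283) (nat_lit 160)))) (XT.nd (nat_lit 78) (nat_lit 380) (nat_lit 0) (XT.lf (nat_lit 0) (nat_lit 6177683518) (nat_lit 228) (nat_lit 13118636669) (nat_lit 304) (nat_lit 2161616539) (nat_lit 70) (nat_lit 5) (nat_lit 73) (nat_lit 5) (nat_lit 74) (nat_lit 5) (nat_lit 338) (nat_lit 283) (nat_lit 159)) (XT.nd (nat_lit 78) (nat_lit 304) (nat_lit 0) (XT.lf (nat_lit 0) (nat_lit 1279502297) (nat_lit 304) (nat_lit 5526366690) (nat_lit 76) (nat_lit 15086740493) (nat_lit 69) (nat_lit 5) (nat_lit 73) (nat_lit 5) (nat_lit 70) (nat_lit 5) (nat_lit 339) (nat_lit 283) (nat_lit 158)) (XT.lf (nat_lit 0) (nat_lit 4574030734) (nat_lit 304) (nat_lit 240592182) (nat_lit 380) (nat_lit 17524040588) (nat_lit 65) (nat_lit 5) (nat_lit 69) (nat_lit 5) (nat_lit 70) (nat_lit 5) (nat_lit 340) (nat_lit 283) (nat_lit 157))))) (XT.nd (nat_lit 234) (nat_lit 532) (nat_lit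 0) (XT.nd (nat_lit 78) (nat_lit 228) (nat_lit 0) (XT.lf (nat_lit 0) (nat_lit 8565202017) (nat_lit 380) (nat_lit 7783021681) (nat_lit 76) (nat_lit 6446602614) (nat_lit 65) (nat_lit 5) (nat_lit 70) (nat_lit 5) (nat_lit 66) (nat_lit 5) (nat_lit 341) (nat_lit 283) (nat_lit 156)) (XT.nd (nat_lit 78) (nat_lit 0) (nat_lit 0) (XT.lf (nat_lit 0) (nat_lit 2531382786) (nat_lit 228) (nat_lit 9914268719) (nat_lit 304) (nat_lit 10818510948) (nat_lit 62) (nat_lit 5) (nat_lit 65) (nat_lit 5) (nat_lit 66) (nat_lit 5) (nat_lit 342) (nat_lit 283) (nat_lit 155)) (XT.lf (nat_lit 0) (nat_lit 13301228465) (nat_lit 228) (nat_lit 3210659563) (nat_lit 304) (nat_lit 7233618219) (nat_lit 62) (nat_lit 5) (nat_lit 65) (nat_lit 5) (nat_lit 66) (nat_lit 5) (nat_lit 343) (nat_lit 283) (nat_lit 154)))) (XT.nd (nat_lit 156) (nat_lit 228) (nat_lit 0) (XT.nd (nat_lit 78) (nat_lit 76) (nat_lit 0) (XT.lf (nat_lit 0) (nat_lit 106061470)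 (nat_lit 228) (nat_lit 20621587800) (nat_lit 304) (nat_lit 3512823475) (nat_lit 59) (nat_lit 5) (nat_lit 62) (nat_lit 5) (nat_lit 63) (nat_lit 5) (nat_lit 344) (nat_lit 283) (nat_lit 153)) (XT.lf (nat_lit 0) (nat_lit 442705622) (nat_lit 304) (nat_lit 13609453796) (nat_lit 76) (nat_lit 10694164278) (nat_lit 58) (nat_lit 5) (nat_lit 62) (nat_lit 5) (nat_lit 59) (nat_lit 5) (nat_lit 345) (nat_lit 283) (nat_lit 152))) (XT.nd (nat_lit 78) (nat_lit 228) (nat_lit 0) (XT.lf (nat_lit 0) (nat_lit 4437604378) (nat_lit 304) (nat_lit 2816569613) (nat_lit 76) (nat_lit 18012401325) (nat_lit 58) (nat_lit 5) (nat_lit 62) (nat_lit 5) (nat_lit 59) (nat_lit 5) (nat_lit 346) (nat_lit 283) (nat_lit 151)) (XT.lf (nat_lit 0) (nat_lit 8452375649) (nat_lit 228) (nat_lit 172785078) (nat_lit 304) (nat_lit 17175097010) (nat_lit 55) (nat_lit 5) (nat_lit 58) (nat_lit 5) (nat_lit 59) (nat_lit 5) (nat_lit 347) (nat_lit 283)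 (nat_lit 150))))))) (XT.nd (nat_lit 1014) (nat_lit 912) (nat_lit 0) (XT.nd (nat_lit 468) (nat_lit 684) (nat_lit 0) (XT.nd (nat_lit 234) (nat_lit 228) (nat_lit 0) (XT.nd (nat_lit 78) (nat_lit 228) (nat_lit 0) (XT.lf (nat_lit 0) (nat_lit 13027164933) (nat_lit 304) (nat_lit 6313458391) (nat_lit 76) (nat_lit 7006670019) (nat_lit 55) (nat_lit 5) (nat_lit 59) (nat_lit 5) (nat_lit 56) (nat_lit 5) (nat_lit 348) (nat_lit 283) (nat_lit 149)) (XT.nd (nat_lit 78) (nat_lit 0) (nat_lit 0) (XT.lf (nat_lit 0) (nat_lit 5138169175) (nat_lit 228) (nat_lit 12466051272) (nat_lit 304) (nat_lit 9305236971) (nat_lit 52) (nat_lit 5) (nat_lit 55) (nat_lit 5) (nat_lit 56) (nat_lit 5) (nat_lit 349) (nat_lit 283) (nat_lit 148)) (XT.lf (nat_lit 0) (nat_lit 17050504387) (nat_lit 228) (nat_lit 5323844382) (nat_lit 304) (nat_lit 5112471740) (nat_lit 52) (nat_lit 5) (nat_lit 55) (nat_lit 5) (nat_lit 56) (nat_lit 5) (nat_lit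 350) (nat_lit 283) (nat_lit 147)))) (XT.nd (nat_lit 78) (nat_lit 76) (nat_lit 0) (XT.lf (nat_lit 0) (nat_lit 1231085755) (nat_lit 152) (nat_lit 26080068547) (nat_lit 228) (nat_lit 769649714) (nat_lit 50) (nat_lit 5) (nat_lit 52) (nat_lit 5) (nat_lit 53) (nat_lit 5) (nat_lit 351) (nat_lit 283) (nat_lit 146)) (XT.nd (nat_lit 78) (nat_lit 0) (nat_lit 0) (XT.lf (nat_lit 0) (nat_lit 3782560267) (nat_lit 228) (nat_lit 15328501926) (nat_lit 76) (nat_lit 9575942046) (nat_lit 49) (nat_lit 5) (nat_lit 52) (nat_lit 5) (nat_lit 50) (nat_lit 5) (nat_lit 352) (nat_lit 283) (nat_lit 145)) (XT.lf (nat_lit 0) (nat_lit 8448323652) (nat_lit 228) (nat_lit 3481061405) (nat_lit 76) (nat_lit 17382009268) (nat_lit 49) (nat_lit 5) (nat_lit 52) (nat_lit 5) (nat_lit 50) (nat_lit 5) (nat_lit 353) (nat_lit 283) (nat_lit 144))))) (XT.nd (nat_lit 234) (nat_lit 304) (nat_lit 0) (XT.nd (nat_lit 78) (nat_lit 152) (nat_lit 0)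 (XT.lf (nat_lit 0) (nat_lit 8883706896) (nat_lit 228) (nat_lit 4448424689) (nat_lit 304) (nat_lit 16620048355) (nat_lit 46) (nat_lit 5) (nat_lit 49) (nat_lit 5) (nat_lit 50) (nat_lit 5) (nat_lit 354) (nat_lit 283) (nat_lit 143)) (XT.nd (nat_lit 78) (nat_lit 152) (nat_lit 0) (XT.lf (nat_lit 0) (nat_lit 18422002421) (nat_lit 304) (nat_lit 8963533080) (nat_lit 76) (nat_lit 3224872964) (nat_lit 46) (nat_lit 5) (nat_lit 50) (nat_lit 5) (nat_lit 47) (nat_lit 5) (nat_lit 355) (nat_lit 283) (nat_lit 142)) (XT.lf (nat_lit 0) (nat_lit 3517976034) (nat_lit 152) (nat_lit 20217406324) (nat_lit 228) (nat_lit 7550882731) (nat_lit 44) (nat_lit 5) (nat_lit 46) (nat_lit 5) (nat_lit 47) (nat_lit 5) (nat_lit 356) (nat_lit 283) (nat_lit 141)))) (XT.nd (nat_lit 156) (nat_lit 228) (nat_lit 0) (XT.nd (nat_lit 78) (nat_lit 76) (nat_lit 0) (XT.lf (nat_lit 0) (nat_lit 16546600084) (nat_lit 152) (nat_lit 12745128774) (nat_lit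 228) (nat_lit 2688167068) (nat_lit 44) (nat_lit 5) (nat_lit 46) (nat_lit 5) (nat_lit 47) (nat_lit 5) (nat_lit 357) (nat_lit 283) (nat_lit 140)) (XT.lf (nat_lit 0) (nat_lit 2268331564) (nat_lit 228) (nat_lit 2761450519) (nat_lit 76) (nat_lit 27664094153) (nat_lit 43) (nat_lit 5) (nat_lit 46) (nat_lit 5) (nat_lit 44) (nat_lit 5) (nat_lit 358) (nat_lit 283) (nat_lit 139))) (XT.nd (nat_lit 78) (nat_lit 0) (nat_lit 0) (XT.lf (nat_lit 0) (nat_lit 7442659849) (nat_lit 304) (nat_lit 22997504842) (nat_lit 76) (nat_lit 2984622878) (nat_lit 40) (nat_lit 5) (nat_lit 44) (nat_lit 5) (nat_lit 41) (nat_lit 5) (nat_lit 359) (nat_lit 283) (nat_lit 138)) (XT.lf (nat_lit 0) (nat_lit 12843613427) (nat_lit 304) (nat_lit 10169214750) (nat_lit 76) (nat_lit 11162661061) (nat_lit 40) (nat_lit 5) (nat_lit 44) (nat_lit 5) (nat_lit 41) (nat_lit 5) (nat_lit 360) (nat_lit 283) (nat_lit 137)))))) (XT.nd (nat_lit 546) (nat_lit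 380) (nat_lit 0) (XT.nd (nat_lit 234) (nat_lit 380) (nat_lit 0) (XT.nd (nat_lit 78) (nat_lit 0) (nat_lit 0) (XT.lf (nat_lit 0) (nat_lit 3093974209) (nat_lit 152) (nat_lit 15335988107) (nat_lit 228) (nat_lit 16518053356) (nat_lit 38) (nat_lit 5) (nat_lit 40) (nat_lit 5) (nat_lit 41) (nat_lit 5) (nat_lit 361) (nat_lit 283) (nat_lit 136)) (XT.nd (nat_lit 78) (nat_lit 0) (nat_lit 0) (XT.lf (nat_lit 0) (nat_lit 16953294571) (nat_lit 152) (nat_lit 7327009152) (nat_lit 228) (nat_lit 11460526695) (nat_lit 38) (nat_lit 5) (nat_lit 40) (nat_lit 5) (nat_lit 41) (nat_lit 5) (nat_lit 362) (nat_lit 283) (nat_lit 135)) (XT.lf (nat_lit 0) (nat_lit 30308879808) (nat_lit 228) (nat_lit 5347976454) (nat_lit 76) (nat_lit 900496058) (nat_lit 38) (nat_lit 5) (nat_lit 41) (nat_lit 5) (nat_lit 39) (nat_lit 5) (nat_lit 363) (nat_lit 283) (nat_lit 134)))) (XT.nd (nat_lit 156) (nat_lit 152) (nat_lit 0) (XT.nd (nat_lit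 78) (nat_lit 76) (nat_lit 0) (XT.lf (nat_lit 0) (nat_lit 8579866390) (nat_lit 152) (nat_lit 28087504515) (nat_lit 228) (nat_lit 726531557) (nat_lit 36) (nat_lit 5) (nat_lit 38) (nat_lit 5) (nat_lit 39) (nat_lit 5) (nat_lit 364) (nat_lit 283) (nat_lit 133)) (XT.lf (nat_lit 0) (nat_lit 4912854448) (nat_lit 228) (nat_lit 15276788936) (nat_lit 76) (nat_lit 18063021277) (nat_lit 35) (nat_lit 5) (nat_lit 38) (nat_lit 5) (nat_lit 36) (nat_lit 5) (nat_lit 365) (nat_lit 283) (nat_lit 132))) (XT.nd (nat_lit 78) (nat_lit 152) (nat_lit 0) (XT.lf (nat_lit 0) (nat_lit 10701048938) (nat_lit 228) (nat_lit 1350141292) (nat_lit 76) (nat_lit 27085960760) (nat_lit 35) (nat_lit 5) (nat_lit 38) (nat_lit 5) (nat_lit 36) (nat_lit 5) (nat_lit 366) (nat_lit 283) (nat_lit 131)) (XT.lf (nat_lit 0) (nat_lit 13243487786) (nat_lit 152) (nat_lit 3541103523) (nat_lit 228) (nat_lit 23259933375) (nat_lit 33) (nat_lit 5) (nat_lit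 35) (nat_lit 5) (nat_lit 36) (nat_lit 5) (nat_lit 367) (nat_lit 283) (nat_lit 130))))) (XT.nd (nat_lit 234) (nat_lit 228) (nat_lit 0) (XT.nd (nat_lit 78) (nat_lit 152) (nat_lit 0) (XT.lf (nat_lit 0) (nat_lit 23109065586) (nat_lit 228) (nat_lit 12735752442) (nat_lit 76) (nat_lit 5132552514) (nat_lit 33) (nat_lit 5) (nat_lit 36) (nat_lit 5) (nat_lit 34) (nat_lit 5) (nat_lit 368) (nat_lit 283) (nat_lit 129)) (XT.nd (nat_lit 78) (nat_lit 0) (nat_lit 0) (XT.lf (nat_lit 0) (nat_lit 1741391361) (nat_lit 152) (nat_lit 27928282319) (nat_lit 228) (nat_lit 12267139724) (nat_lit 31) (nat_lit 5) (nat_lit 33) (nat_lit 5) (nat_lit 34) (nat_lit 5) (nat_lit 369) (nat_lit 283) (nat_lit 128)) (XT.lf (nat_lit 0) (nat_lit 16904988775) (nat_lit 152) (nat_lit 19645388645) (nat_lit 228) (nat_lit 6370967321) (nat_lit 31) (nat_lit 5) (nat_lit 33) (nat_lit 5) (nat_lit 34) (nat_lit 5) (nat_lit 370) (nat_lit 283) (nat_lit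 127)))) (XT.nd (nat_lit 156) (nat_lit 0) (nat_lit 0) (XT.nd (nat_lit 78) (nat_lit 228) (nat_lit 0) (XT.lf (nat_lit 0) (nat_lit 32514823096) (nat_lit 152) (nat_lit 11117505656) (nat_lit 228) (nat_lit 303241878) (nat_lit 31) (nat_lit 5) (nat_lit 33) (nat_lit 5) (nat_lit 34) (nat_lit 5) (nat_lit 371) (nat_lit 283) (nat_lit 126)) (XT.lf (nat_lit 0) (nat_lit 3617638065) (nat_lit 152) (nat_lit 2242538470) (nat_lit 228) (nat_lit 39117444153) (nat_lit 28) (nat_lit 5) (nat_lit 30) (nat_lit 5) (nat_lit 31) (nat_lit 5) (nat_lit 372) (nat_lit 283) (nat_lit 125))) (XT.nd (nat_lit 78) (nat_lit 0) (nat_lit 0) (XT.lf (nat_lit 0) (nat_lit 12380143895) (nat_lit 228) (nat_lit 26785201186) (nat_lit 76) (nat_lit 6880167975) (nat_lit 28) (nat_lit 5) (nat_lit 31) (nat_lit 5) (nat_lit 29) (nat_lit 5) (nat_lit 373) (nat_lit 283) (nat_lit 124)) (XT.lf (nat_lit 0) (nat_lit 19113018419) (nat_lit 228) (nat_lit 11803689904)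 (nat_lit 76) (nat_lit 16228217656) (nat_lit 28) (nat_lit 5) (nat_lit 31) (nat_lit 5) (nat_lit 29) (nat_lit 5) (nat_lit 374) (nat_lit 283) (nat_lit 123))))))))
noncomputable def xc166 : XT := (XT.nd (nat_lit 33540) (nat_lit 0) (nat_lit 9956) (XT.nd (nat_lit 1014) (nat_lit 456) (nat_lit 0) (XT.nd (nat_lit 468) (nat_lit 304) (nat_lit 0) (XT.nd (nat_lit 234) (nat_lit 152) (nat_lit 0) (XT.nd (nat_lit 78) (nat_lit 0) (nat_lit 0) (XT.lf (nat_lit 0) (nat_lit 3691227661) (nat_lit 152) (nat_lit 22387381226) (nat_lit 228) (nat_lit 22197793451) (nat_lit 26) (nat_lit 5) (nat_lit 28) (nat_lit 5) (nat_lit 29) (nat_lit 5) (nat_lit 375) (nat_lit 283) (nat_lit 122)) (XT.nd (nat_lit 78) (nat_lit 0) (nat_lit 0) (XT.lf (nat_lit 0) (nat_lit 19884967723) (nat_lit 152) (nat_lit 13482702471) (nat_lit 228) (nat_lit 16070720554) (nat_lit 26) (nat_lit 5) (nat_lit 28) (nat_lit 5) (nat_lit 29) (nat_lit 5) (nat_lit 376) (nat_lit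 283) (nat_lit 121)) (XT.lf (nat_lit 0) (nat_lit 36556763578) (nat_lit 152) (nat_lit 4314085394) (nat_lit 228) (nat_lit 9764529240) (nat_lit 26) (nat_lit 5) (nat_lit 28) (nat_lit 5) (nat_lit 29) (nat_lit 5) (nat_lit 377) (nat_lit 283) (nat_lit 120)))) (XT.nd (nat_lit 78) (nat_lit 76) (nat_lit 0) (XT.lf (nat_lit 0) (nat_lit 1839386349) (nat_lit 76) (nat_lit 46822275229) (nat_lit 152) (nat_lit 3204740258) (nat_lit 25) (nat_lit 5) (nat_lit 26) (nat_lit 5) (nat_lit 27) (nat_lit 4) (nat_lit 378) (nat_lit 283) (nat_lit 119)) (XT.nd (nat_lit 78) (nat_lit 0) (nat_lit 0) (XT.lf (nat_lit 0) (nat_lit 3664380167) (nat_lit 152) (nat_lit 34692481808) (nat_lit 76) (nat_lit 14771017045) (nat_lit 24) (nat_lit 5) (nat_lit 26) (nat_lit 5) (nat_lit 25) (nat_lit 5) (nat_lit 379) (nat_lit 283) (nat_lit 118)) (XT.lf (nat_lit 0) (nat_lit 10670850744) (nat_lit 152) (nat_lit 18937071351) (nat_lit 76) (nat_lit 24818458324)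 (nat_lit 24) (nat_lit 5) (nat_lit 26) (nat_lit 5) (nat_lit 25) (nat_lit 5) (nat_lit 380) (nat_lit 283) (nat_lit 117))))) (XT.nd (nat_lit 234) (nat_lit 152) (nat_lit 0) (XT.nd (nat_lit 78) (nat_lit 152) (nat_lit 0) (XT.lf (nat_lit 0) (nat_lit 17883329656) (nat_lit 152) (nat_lit 2716211327) (nat_lit 76) (nat_lit 35164423839) (nat_lit 24) (nat_lit 5) (nat_lit 26) (nat_lit 5) (nat_lit 25) (nat_lit 5) (nat_lit 381) (nat_lit 283) (nat_lit 116)) (XT.nd (nat_lit 78) (nat_lit 0) (nat_lit 0) (XT.lf (nat_lit 0) (nat_lit 14262586257) (nat_lit 152) (nat_lit 11182633517) (nat_lit 228) (nat_lit 31692468200) (nat_lit 22) (nat_lit 5) (nat_lit 24) (nat_lit 5) (nat_lit 25) (nat_lit 5) (nat_lit 382) (nat_lit 283) (nat_lit 115)) (XT.lf (nat_lit 0) (nat_lit 31799493425) (nat_lit 152) (nat_lit 1457889425) (nat_lit 228) (nat_lit 25294539736) (nat_lit 22) (nat_lit 5) (nat_lit 24) (nat_lit 5) (nat_lit 25) (nat_lit 5)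 (nat_lit 383) (nat_lit 283) (nat_lit 114)))) (XT.nd (nat_lit 156) (nat_lit 76) (nat_lit 0) (XT.nd (nat_lit 78) (nat_lit 76) (nat_lit 0) (XT.lf (nat_lit 0) (nat_lit 41382258724) (nat_lit 228) (nat_lit 10235170728) (nat_lit 76) (nat_lit 8388806533) (nat_lit 22) (nat_lit 5) (nat_lit 25) (nat_lit 5) (nat_lit 23) (nat_lit 4) (nat_lit 384) (nat_lit 283) (nat_lit 113)) (XT.lf (nat_lit 0) (nat_lit 6891014340) (nat_lit 76) (nat_lit 42936733413) (nat_lit 152) (nat_lit 11674127152) (nat_lit 21) (nat_lit 5) (nat_lit 22) (nat_lit 5) (nat_lit 23) (nat_lit 4) (nat_lit 385) (nat_lit 283) (nat_lit 112))) (XT.nd (nat_lit 78) (nat_lit 76) (nat_lit 0) (XT.lf (nat_lit 0) (nat_lit 24734235800) (nat_lit 76) (nat_lit 33891960354) (nat_lit 152) (nat_lit 4413201058) (nat_lit 21) (nat_lit 5) (nat_lit 22) (nat_lit 5) (nat_lit 23) (nat_lit 4) (nat_lit 386) (nat_lit 283) (nat_lit 111)) (XT.lf (nat_lit 0) (nat_lit 3002043806)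 (nat_lit 152) (nat_lit 21546203671) (nat_lit 76) (nat_lit 40074026287) (nat_lit 20) (nat_lit 5) (nat_lit 22) (nat_lit 5) (nat_lit 21) (nat_lit 5) (nat_lit 387) (nat_lit 283) (nat_lit 110)))))) (XT.nd (nat_lit 468) (nat_lit 228) (nat_lit 0) (XT.nd (nat_lit 234) (nat_lit 76) (nat_lit 0) (XT.nd (nat_lit 78) (nat_lit 152) (nat_lit 0) (XT.lf (nat_lit 0) (nat_lit 10547463456) (nat_lit 152) (nat_lit 4334428973) (nat_lit 76) (nat_lit 51369542666) (nat_lit 20) (nat_lit 5) (nat_lit 22) (nat_lit 5) (nat_lit 21) (nat_lit 5) (nat_lit 388) (nat_lit 283) (nat_lit 109)) (XT.nd (nat_lit 78) (nat_lit 0) (nat_lit 0) (XT.lf (nat_lit 0) (nat_lit 13654064461) (nat_lit 152) (nat_lit 4792955184) (nat_lit 228) (nat_lit 49478620234) (nat_lit 18) (nat_lit 5) (nat_lit 20) (nat_lit 5) (nat_lit 21) (nat_lit 5) (nat_lit 389) (nat_lit 283) (nat_lit 108)) (XT.lf (nat_lit 0) (nat_lit 26678124144) (nat_lit 228) (nat_lit 37438039405)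 (nat_lit 76) (nat_lit 5531072188) (nat_lit 18) (nat_lit 5) (nat_lit 21) (nat_lit 5) (nat_lit 19) (nat_lit 4) (nat_lit 390) (nat_lit 283) (nat_lit 107)))) (XT.nd (nat_lit 78) (nat_lit 76) (nat_lit 0) (XT.lf (nat_lit 0) (nat_lit 35200258895) (nat_lit 228) (nat_lit 20152869700) (nat_lit 76) (nat_lit 16066029689) (nat_lit 18) (nat_lit 5) (nat_lit 21) (nat_lit 5) (nat_lit 19) (nat_lit 4) (nat_lit 391) (nat_lit 283) (nat_lit 106)) (XT.nd (nat_lit 78) (nat_lit 76) (nat_lit 0) (XT.lf (nat_lit 0) (nat_lit 43974797607) (nat_lit 228) (nat_lit 2354889940) (nat_lit 76) (nat_lit 26914650440) (nat_lit 18) (nat_lit 5) (nat_lit 21) (nat_lit 5) (nat_lit 19) (nat_lit 4) (nat_lit 392) (nat_lit 283) (nat_lit 105)) (XT.lf (nat_lit 0) (nat_lit 16289314709) (nat_lit 76) (nat_lit 36876675500) (nat_lit 152) (nat_lit 21953681966) (nat_lit 17) (nat_lit 5) (nat_lit 18) (nat_lit 5) (nat_lit 19) (nat_lit 4) (nat_lit 393)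 (nat_lit 283) (nat_lit 104))))) (XT.nd (nat_lit 234) (nat_lit 152) (nat_lit 0) (XT.nd (nat_lit 78) (nat_lit 76) (nat_lit 0) (XT.lf (nat_lit 0) (nat_lit 35535595411) (nat_lit 76) (nat_lit 27117976919) (nat_lit 152) (nat_lit 14397076027) (nat_lit 17) (nat_lit 5) (nat_lit 18) (nat_lit 5) (nat_lit 19) (nat_lit 4) (nat_lit 394) (nat_lit 283) (nat_lit 103)) (XT.nd (nat_lit 78) (nat_lit 76) (nat_lit 0) (XT.lf (nat_lit 0) (nat_lit 55353902377) (nat_lit 76) (nat_lit 17068844557) (nat_lit 152) (nat_lit 6616899474) (nat_lit 17) (nat_lit 5) (nat_lit 18) (nat_lit 5) (nat_lit 19) (nat_lit 4) (nat_lit 395) (nat_lit 283) (nat_lit 102)) (XT.lf (nat_lit 0) (nat_lit 1366450852) (nat_lit 152) (nat_lit 5340248291) (nat_lit 76) (nat_lit 74381303249) (nat_lit 16) (nat_lit 5) (nat_lit 18) (nat_lit 5) (nat_lit 17) (nat_lit 5) (nat_lit 396) (nat_lit 283) (nat_lit 101)))) (XT.nd (nat_lit 156) (nat_lit 0) (nat_lit 0) (XT.nd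 (nat_lit 78) (nat_lit 0) (nat_lit 0) (XT.lf (nat_lit 0) (nat_lit 9625686653) (nat_lit 228) (nat_lit 69478665608) (nat_lit 76) (nat_lit 4086411438) (nat_lit 14) (nat_lit 5) (nat_lit 17) (nat_lit 5) (nat_lit 15) (nat_lit 4) (nat_lit 397) (nat_lit 283) (nat_lit 100)) (XT.lf (nat_lit 0) (nat_lit 18250686237) (nat_lit 228) (nat_lit 51981571162) (nat_lit 76) (nat_lit 15120812208) (nat_lit 14) (nat_lit 5) (nat_lit 17) (nat_lit 5) (nat_lit 15) (nat_lit 4) (nat_lit 398) (nat_lit 283) (nat_lit 99))) (XT.nd (nat_lit 78) (nat_lit 0) (nat_lit 0) (XT.lf (nat_lit 0) (nat_lit 27131643373) (nat_lit 228) (nat_lit 33964543430) (nat_lit 76) (nat_lit 26484142986) (nat_lit 14) (nat_lit 5) (nat_lit 17) (nat_lit 5) (nat_lit 15) (nat_lit 4) (nat_lit 399) (nat_lit 283) (nat_lit 98)) (XT.lf (nat_lit 0) (nat_lit 36276318119) (nat_lit 228) (nat_lit 15411839378) (nat_lit 76) (nat_lit 38186332898) (nat_lit 14) (nat_lit 5)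 (nat_lit 17) (nat_lit 5) (nat_lit 15) (nat_lit 4) (nat_lit 400) (nat_lit 283) (nat_lit 97))))))) (XT.nd (nat_lit 1014) (nat_lit 3800) (nat_lit 0) (XT.nd (nat_lit 468) (nat_lit 760) (nat_lit 0) (XT.nd (nat_lit 234) (nat_lit 0) (nat_lit 76) (XT.nd (nat_lit 78) (nat_lit 988) (nat_lit 0) (XT.lf (nat_lit 0) (nat_lit 4322104616) (nat_lit 988) (nat_lit 76845316) (nat_lit 988) (nat_lit 76845316) (nat_lit 218) (nat_lit 3) (nat_lit 231) (nat_lit 3) (nat_lit 231) (nat_lit 5) (nat_lit 284) (nat_lit 284) (nat_lit 212)) (XT.nd (nat_lit 78) (nat_lit 0) (nat_lit 0) (XT.lf (nat_lit 0) (nat_lit 585177549) (nat_lit 988) (nat_lit 5150751500) (nat_lit 1064) (nat_lit 3321845279) (nat_lit 205) (nat_lit 5) (nat_lit 218) (nat_lit 3) (nat_lit 219) (nat_lit 5) (nat_lit 285) (nat_lit 284) (nat_lit 211)) (XT.lf (nat_lit 0) (nat_lit 1466440376) (nat_lit 988) (nat_lit 1095486285) (nat_lit 1064) (nat_lit 6606139044) (nat_lit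 205) (nat_lit 5) (nat_lit 218) (nat_lit 3) (nat_lit 219) (nat_lit 5) (nat_lit 286) (nat_lit 284) (nat_lit 210)))) (XT.nd (nat_lit 78) (nat_lit 0) (nat_lit 0) (XT.lf (nat_lit 0) (nat_lit 2378932453) (nat_lit 988) (nat_lit 6164132712) (nat_lit 1064) (nat_lit 738511766) (nat_lit 206) (nat_lit 5) (nat_lit 219) (nat_lit 5) (nat_lit 220) (nat_lit 5) (nat_lit 287) (nat_lit 284) (nat_lit 209)) (XT.nd (nat_lit 78) (nat_lit 0) (nat_lit 0) (XT.lf (nat_lit 0) (nat_lit 3323766917) (nat_lit 988) (nat_lit 1962901849) (nat_lit 1064) (nat_lit 4111728951) (nat_lit 206) (nat_lit 5) (nat_lit 219) (nat_lit 5) (nat_lit 220) (nat_lit 5) (nat_lit 288) (nat_lit 284) (nat_lit 208)) (XT.lf (nat_lit 76) (nat_lit 2393118556) (nat_lit 0) (nat_lit 1896181710) (nat_lit 1064) (nat_lit 5229703946) (nat_lit 207) (nat_lit 5) (nat_lit 206) (nat_lit 5) (nat_lit 220) (nat_lit 5) (nat_lit 289) (nat_lit 284) (nat_lit 207))))) (XT.nd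 (nat_lit 234) (nat_lit 912) (nat_lit 0) (XT.nd (nat_lit 78) (nat_lit 0) (nat_lit 0) (XT.lf (nat_lit 0) (nat_lit 5289347766) (nat_lit 988) (nat_lit 2756950021) (nat_lit 1064) (nat_lit 1596814863) (nat_lit 207) (nat_lit 5) (nat_lit 220) (nat_lit 5) (nat_lit 221) (nat_lit 5) (nat_lit 290) (nat_lit 284) (nat_lit 206)) (XT.nd (nat_lit 78) (nat_lit 0) (nat_lit 0) (XT.lf (nat_lit 76) (nat_lit 1739946077) (nat_lit 0) (nat_lit 4586006931) (nat_lit 1064) (nat_lit 3444843377) (nat_lit 208) (nat_lit 5) (nat_lit 207) (nat_lit 5) (nat_lit 221) (nat_lit 5) (nat_lit 291) (nat_lit 284) (nat_lit 205)) (XT.lf (nat_lit 76) (nat_lit 6410156963) (nat_lit 0) (nat_lit 983064998) (nat_lit 1064) (nat_lit 2509149016) (nat_lit 208) (nat_lit 5) (nat_lit 207) (nat_lit 5) (nat_lit 221) (nat_lit 5) (nat_lit 292) (nat_lit 284) (nat_lit 204)))) (XT.nd (nat_lit 156) (nat_lit 988) (nat_lit 0) (XT.nd (nat_lit 78) (nat_lit 0) (nat_lit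 0) (XT.lf (nat_lit 76) (nat_lit 1160459411) (nat_lit 0) (nat_lit 7342071664) (nat_lit 1064) (nat_lit 1535107005) (nat_lit 209) (nat_lit 5) (nat_lit 208) (nat_lit 5) (nat_lit 222) (nat_lit 5) (nat_lit 293) (nat_lit 284) (nat_lit 203)) (XT.lf (nat_lit 76) (nat_lit 5996010949) (nat_lit 0) (nat_lit 3667275358) (nat_lit 1064) (nat_lit 513176480) (nat_lit 209) (nat_lit 5) (nat_lit 208) (nat_lit 5) (nat_lit 222) (nat_lit 5) (nat_lit 294) (nat_lit 284) (nat_lit 202))) (XT.nd (nat_lit 78) (nat_lit 0) (nat_lit 0) (XT.lf (nat_lit 0) (nat_lit 510162013) (nat_lit 1064) (nat_lit 9675050803) (nat_lit 1140) (nat_lit 134687624) (nat_lit 195) (nat_lit 5) (nat_lit 209) (nat_lit 5) (nat_lit 210) (nat_lit 5) (nat_lit 295) (nat_lit 284) (nat_lit 201)) (XT.lf (nat_lit 0) (nat_lit 1607233355) (nat_lit 1064) (nat_lit 4826672006) (nat_lit 1140) (nat_lit 4032023835) (nat_lit 195) (nat_lit 5) (nat_lit 209) (nat_lit 5)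 (nat_lit 210) (nat_lit 5) (nat_lit 296) (nat_lit 284) (nat_lit 200)))))) (XT.nd (nat_lit 546) (nat_lit 2888) (nat_lit 0) (XT.nd (nat_lit 234) (nat_lit 912) (nat_lit 0) (XT.nd (nat_lit 78) (nat_lit 0) (nat_lit 76) (XT.lf (nat_lit 76) (nat_lit 151578163) (nat_lit 0) (nat_lit 2562246263) (nat_lit 1140) (nat_lit 7903255784) (nat_lit 196) (nat_lit 5) (nat_lit 195) (nat_lit 5) (nat_lit 210) (nat_lit 5) (nat_lit 297) (nat_lit 284) (nat_lit 199)) (XT.nd (nat_lit 78) (nat_lit 0) (nat_lit 0) (XT.lf (nat_lit 0) (nat_lit 3892294113) (nat_lit 1064) (nat_lit 5426552403) (nat_lit 1140) (nat_lit 1452797282) (nat_lit 196) (nat_lit 5) (nat_lit 210) (nat_lit 5) (nat_lit 211) (nat_lit 5) (nat_lit 298) (nat_lit 284) (nat_lit 198)) (XT.lf (nat_lit 0) (nat_lit 5107947836) (nat_lit 1064) (nat_lit 280425156) (nat_lit 1140) (nat_lit 5542453753) (nat_lit 196) (nat_lit 5) (nat_lit 210) (nat_lit 5) (nat_lit 211) (nat_lit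 5) (nat_lit 299) (nat_lit 284) (nat_lit 197)))) (XT.nd (nat_lit 156) (nat_lit 988) (nat_lit 0) (XT.nd (nat_lit 78) (nat_lit 0) (nat_lit 76) (XT.lf (nat_lit 76) (nat_lit 5101555919) (nat_lit 0) (nat_lit 1284701295) (nat_lit 1140) (nat_lit 4707778645) (nat_lit 197) (nat_lit 5) (nat_lit 196) (nat_lit 5) (nat_lit 211) (nat_lit 5) (nat_lit 300) (nat_lit 284) (nat_lit 196)) (XT.lf (nat_lit 0) (nat_lit 7711739887) (nat_lit 1064) (nat_lit 658271851) (nat_lit 76) (nat_lit 2891899994) (nat_lit 197) (nat_lit 5) (nat_lit 211) (nat_lit 5) (nat_lit 198) (nat_lit 5) (nat_lit 301) (nat_lit 284) (nat_lit 195))) (XT.nd (nat_lit 78) (nat_lit 0) (nat_lit 0) (XT.lf (nat_lit 0) (nat_lit 4900766197) (nat_lit 1064) (nat_lit 4214382977) (nat_lit 1140) (nat_lit 2318564023) (nat_lit 183) (nat_lit 5) (nat_lit 197) (nat_lit 5) (nat_lit 198) (nat_lit 5) (nat_lit 302) (nat_lit 284) (nat_lit 194)) (XT.lf (nat_lit 0) (nat_lit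 10546830800) (nat_lit 1140) (nat_lit 989730871) (nat_lit 76) (nat_lit 74555119) (nat_lit 183) (nat_lit 5) (nat_lit 198) (nat_lit 5) (nat_lit 184) (nat_lit 5) (nat_lit 303) (nat_lit 284) (nat_lit 193))))) (XT.nd (nat_lit 234) (nat_lit 1140) (nat_lit 0) (XT.nd (nat_lit 78) (nat_lit 532) (nat_lit 0) (XT.lf (nat_lit 0) (nat_lit 290661689) (nat_lit 1216) (nat_lit 7042009913) (nat_lit 76) (nat_lit 4459112035) (nat_lit 167) (nat_lit 5) (nat_lit 183) (nat_lit 5) (nat_lit 168) (nat_lit 5) (nat_lit 304) (nat_lit 284) (nat_lit 192)) (XT.nd (nat_lit 78) (nat_lit 532) (nat_lit 0) (XT.lf (nat_lit 0) (nat_lit 1654596820) (nat_lit 1216) (nat_lit 1324802230) (nat_lit 76) (nat_lit 8998493782) (nat_lit 167) (nat_lit 5) (nat_lit 183) (nat_lit 5) (nat_lit 168) (nat_lit 5) (nat_lit 305) (nat_lit 284) (nat_lit 191)) (XT.lf (nat_lit 0) (nat_lit 3099171623) (nat_lit 608) (nat_lit 7547207353) (nat_lit 76) (nat_lit 1522044161)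 (nat_lit 160) (nat_lit 5) (nat_lit 168) (nat_lit 5) (nat_lit 161) (nat_lit 5) (nat_lit 306) (nat_lit 284) (nat_lit 190)))) (XT.nd (nat_lit 156) (nat_lit 532) (nat_lit 0) (XT.nd (nat_lit 78) (nat_lit 608) (nat_lit 0) (XT.lf (nat_lit 0) (nat_lit 4610745819) (nat_lit 608) (nat_lit 1639392196) (nat_lit 76) (nat_lit 6113850096) (nat_lit 160) (nat_lit 5) (nat_lit 168) (nat_lit 5) (nat_lit 161) (nat_lit 5) (nat_lit 307) (nat_lit 284) (nat_lit 189)) (XT.lf (nat_lit 0) (nat_lit 4516049561) (nat_lit 608) (nat_lit 1676245011) (nat_lit 684) (nat_lit 6372414435) (nat_lit 152) (nat_lit 5) (nat_lit 160) (nat_lit 5) (nat_lit 161) (nat_lit 5) (nat_lit 308) (nat_lit 284) (nat_lit 188))) (XT.nd (nat_lit 78) (nat_lit 532) (nat_lit 0) (XT.lf (nat_lit 0) (nat_lit 7848784078) (nat_lit 684) (nat_lit 1928676955) (nat_lit 76) (nat_lit 2993192650) (nat_lit 152) (nat_lit 5) (nat_lit 161) (nat_lit 5) (nat_lit 153) (nat_lit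 5) (nat_lit 309) (nat_lit 284) (nat_lit 187)) (XT.lf (nat_lit 0) (nat_lit 4427079624) (nat_lit 532) (nat_lit 5169179526) (nat_lit 608) (nat_lit 3385305017) (nat_lit 145) (nat_lit 5) (nat_lit 152) (nat_lit 5) (nat_lit 153) (nat_lit 5) (nat_lit 310) (nat_lit 284) (nat_lit 186))))))))
noncomputable def xc167 : XT := (XT.nd (nat_lit 2028) (nat_lit 2964) (nat_lit 0) (XT.nd (nat_lit 1014) (nat_lit 2280) (nat_lit 0) (XT.nd (nat_lit 468) (nat_lit 1368) (nat_lit 0) (XT.nd (nat_lit 234) (nat_lit 912) (nat_lit 0) (XT.nd (nat_lit 78) (nat_lit 608) (nat_lit 0) (XT.lf (nat_lit 0) (nat_lit 10995600436) (nat_lit 532) (nat_lit 402525044) (nat_lit 608) (nat_lit 1800642911) (nat_lit 145) (nat_lit 5) (nat_lit 152) (nat_lit 5) (nat_lit 153) (nat_lit 5) (nat_lit 311) (nat_lit 284) (nat_lit 185)) (XT.nd (nat_lit 78) (nat_lit 76) (nat_lit 0) (XT.lf (nat_lit 0) (nat_lit 4363029649) (nat_lit 532) (nat_lit 8959285258)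 (nat_lit 608) (nat_lit 98150512) (nat_lit 138) (nat_lit 5) (nat_lit 145) (nat_lit 5) (nat_lit 146) (nat_lit 5) (nat_lit 312) (nat_lit 284) (nat_lit 184)) (XT.lf (nat_lit 0) (nat_lit 1632708823) (nat_lit 608) (nat_lit 2514547625) (nat_lit 76) (nat_lit 9500814940) (nat_lit 137) (nat_lit 5) (nat_lit 145) (nat_lit 5) (nat_lit 138) (nat_lit 5) (nat_lit 313) (nat_lit 284) (nat_lit 183)))) (XT.nd (nat_lit 78) (nat_lit 456) (nat_lit 0) (XT.lf (nat_lit 0) (nat_lit 3446582831) (nat_lit 532) (nat_lit 9599712715) (nat_lit 76) (nat_lit 835211584) (nat_lit 131) (nat_lit 5) (nat_lit 138) (nat_lit 5) (nat_lit 132) (nat_lit 5) (nat_lit 314) (nat_lit 284) (nat_lit 182)) (XT.nd (nat_lit 78) (nat_lit 456) (nat_lit 0) (XT.lf (nat_lit 0) (nat_lit 5365516028) (nat_lit 532) (nat_lit 2846396412) (nat_lit 76) (nat_lit 5908536154) (nat_lit 131) (nat_lit 5) (nat_lit 138) (nat_lit 5) (nat_lit 132) (nat_lit 5) (nat_lit 315)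 (nat_lit 284) (nat_lit 181)) (XT.lf (nat_lit 0) (nat_lit 4174006805) (nat_lit 456) (nat_lit 3192538975) (nat_lit 532) (nat_lit 6999297966) (nat_lit 125) (nat_lit 5) (nat_lit 131) (nat_lit 5) (nat_lit 132) (nat_lit 5) (nat_lit 316) (nat_lit 284) (nat_lit 180))))) (XT.nd (nat_lit 234) (nat_lit 912) (nat_lit 0) (XT.nd (nat_lit 78) (nat_lit 456) (nat_lit 0) (XT.lf (nat_lit 0) (nat_lit 9460326004) (nat_lit 532) (nat_lit 3190922270) (nat_lit 76) (nat_lit 1966391570) (nat_lit 125) (nat_lit 5) (nat_lit 132) (nat_lit 5) (nat_lit 126) (nat_lit 5) (nat_lit 317) (nat_lit 284) (nat_lit 179)) (XT.nd (nat_lit 78) (nat_lit 0) (nat_lit 0) (XT.lf (nat_lit 0) (nat_lit 4050695416) (nat_lit 456) (nat_lit 7621901222) (nat_lit 532) (nat_lit 3202742953) (nat_lit 119) (nat_lit 5) (nat_lit 125) (nat_lit 5) (nat_lit 126) (nat_lit 5) (nat_lit 318) (nat_lit 284) (nat_lit 178)) (XT.lf (nat_lit 0) (nat_lit 11558377926) (nat_lit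 456) (nat_lit 2410483060) (nat_lit 532) (nat_lit 1171400070) (nat_lit 119) (nat_lit 5) (nat_lit 125) (nat_lit 5) (nat_lit 126) (nat_lit 5) (nat_lit 319) (nat_lit 284) (nat_lit 177)))) (XT.nd (nat_lit 156) (nat_lit 380) (nat_lit 0) (XT.nd (nat_lit 78) (nat_lit 0) (nat_lit 0) (XT.lf (nat_lit 0) (nat_lit 955225397) (nat_lit 532) (nat_lit 11511474364) (nat_lit 76) (nat_lit 2944613853) (nat_lit 112) (nat_lit 5) (nat_lit 119) (nat_lit 5) (nat_lit 113) (nat_lit 5) (nat_lit 320) (nat_lit 284) (nat_lit 176)) (XT.lf (nat_lit 0) (nat_lit 3168409883) (nat_lit 532) (nat_lit 4062469264) (nat_lit 76) (nat_lit 8457899371) (nat_lit 112) (nat_lit 5) (nat_lit 119) (nat_lit 5) (nat_lit 113) (nat_lit 5) (nat_lit 321) (nat_lit 284) (nat_lit 175))) (XT.nd (nat_lit 78) (nat_lit 0) (nat_lit 0) (XT.lf (nat_lit 0) (nat_lit 3665342942) (nat_lit 380) (nat_lit 1804200824) (nat_lit 456) (nat_lit 10504394309) (nat_lit 107)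 (nat_lit 5) (nat_lit 112) (nat_lit 5) (nat_lit 113) (nat_lit 5) (nat_lit 322) (nat_lit 284) (nat_lit 174)) (XT.lf (nat_lit 0) (nat_lit 7904066990) (nat_lit 456) (nat_lit 4611371489) (nat_lit 76) (nat_lit 3750300091) (nat_lit 107) (nat_lit 5) (nat_lit 113) (nat_lit 5) (nat_lit 108) (nat_lit 5) (nat_lit 323) (nat_lit 284) (nat_lit 173)))))) (XT.nd (nat_lit 468) (nat_lit 1064) (nat_lit 0) (XT.nd (nat_lit 234) (nat_lit 456) (nat_lit 0) (XT.nd (nat_lit 78) (nat_lit 380) (nat_lit 0) (XT.lf (nat_lit 0) (nat_lit 3348297851) (nat_lit 380) (nat_lit 7100309145) (nat_lit 456) (nat_lit 6116592977) (nat_lit 102) (nat_lit 5) (nat_lit 107) (nat_lit 5) (nat_lit 108) (nat_lit 5) (nat_lit 324) (nat_lit 284) (nat_lit 172)) (XT.nd (nat_lit 78) (nat_lit 380) (nat_lit 0) (XT.lf (nat_lit 0) (nat_lit 11625497200) (nat_lit 380) (nat_lit 1477712492) (nat_lit 456) (nat_lit 3769439581) (nat_lit 102) (nat_lit 5) (nat_lit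 107) (nat_lit 5) (nat_lit 108) (nat_lit 5) (nat_lit 325) (nat_lit 284) (nat_lit 171)) (XT.lf (nat_lit 0) (nat_lit 2962341202) (nat_lit 380) (nat_lit 12932556814) (nat_lit 456) (nat_lit 1292715995) (nat_lit 97) (nat_lit 5) (nat_lit 102) (nat_lit 5) (nat_lit 103) (nat_lit 5) (nat_lit 326) (nat_lit 284) (nat_lit 170)))) (XT.nd (nat_lit 78) (nat_lit 380) (nat_lit 0) (XT.lf (nat_lit 0) (nat_lit 1289481948) (nat_lit 456) (nat_lit 6027806808) (nat_lit 76) (nat_lit 10192718768) (nat_lit 96) (nat_lit 5) (nat_lit 102) (nat_lit 5) (nat_lit 97) (nat_lit 5) (nat_lit 327) (nat_lit 284) (nat_lit 169)) (XT.nd (nat_lit 78) (nat_lit 0) (nat_lit 0) (XT.lf (nat_lit 0) (nat_lit 2434960629) (nat_lit 380) (nat_lit 1499556230) (nat_lit 456) (nat_lit 13906845489) (nat_lit 91) (nat_lit 5) (nat_lit 96) (nat_lit 5) (nat_lit 97) (nat_lit 5) (nat_lit 328) (nat_lit 284) (nat_lit 168)) (XT.lf (nat_lit 0) (nat_lit 6751681141)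 (nat_lit 456) (nat_lit 6964970706) (nat_lit 76) (nat_lit 4463236292) (nat_lit 91) (nat_lit 5) (nat_lit 97) (nat_lit 5) (nat_lit 92) (nat_lit 5) (nat_lit 329) (nat_lit 284) (nat_lit 167))))) (XT.nd (nat_lit 234) (nat_lit 380) (nat_lit 0) (XT.nd (nat_lit 78) (nat_lit 380) (nat_lit 0) (XT.lf (nat_lit 0) (nat_lit 1733612493) (nat_lit 304) (nat_lit 7939725479) (nat_lit 380) (nat_lit 8854645675) (nat_lit 87) (nat_lit 5) (nat_lit 91) (nat_lit 5) (nat_lit 92) (nat_lit 5) (nat_lit 330) (nat_lit 284) (nat_lit 166)) (XT.nd (nat_lit 78) (nat_lit 380) (nat_lit 0) (XT.lf (nat_lit 0) (nat_lit 10821003356) (nat_lit 304) (nat_lit 1920632164) (nat_lit 380) (nat_lit 6143129658) (nat_lit 87) (nat_lit 5) (nat_lit 91) (nat_lit 5) (nat_lit 92) (nat_lit 5) (nat_lit 331) (nat_lit 284) (nat_lit 165)) (XT.lf (nat_lit 0) (nat_lit 890204590) (nat_lit 380) (nat_lit 15050422644) (nat_lit 456) (nat_lit 3310476075) (nat_lit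 82) (nat_lit 5) (nat_lit 87) (nat_lit 5) (nat_lit 88) (nat_lit 5) (nat_lit 332) (nat_lit 284) (nat_lit 164)))) (XT.nd (nat_lit 156) (nat_lit 304) (nat_lit 0) (XT.nd (nat_lit 78) (nat_lit 76) (nat_lit 0) (XT.lf (nat_lit 0) (nat_lit 10244040080) (nat_lit 380) (nat_lit 9080942707) (nat_lit 456) (nat_lit 300779121) (nat_lit 82) (nat_lit 5) (nat_lit 87) (nat_lit 5) (nat_lit 88) (nat_lit 5) (nat_lit 333) (nat_lit 284) (nat_lit 163)) (XT.lf (nat_lit 0) (nat_lit 2733922702) (nat_lit 456) (nat_lit 174528690) (nat_lit 76) (nat_lit 17102732994) (nat_lit 81) (nat_lit 5) (nat_lit 87) (nat_lit 5) (nat_lit 82) (nat_lit 5) (nat_lit 334) (nat_lit 284) (nat_lit 162))) (XT.nd (nat_lit 78) (nat_lit 0) (nat_lit 0) (XT.lf (nat_lit 0) (nat_lit 5968416234) (nat_lit 380) (nat_lit 10962922777) (nat_lit 76) (nat_lit 3473308422) (nat_lit 77) (nat_lit 5) (nat_lit 82) (nat_lit 5) (nat_lit 78) (nat_lit 5) (nat_lit 335) (nat_lit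 284) (nat_lit 161)) (XT.lf (nat_lit 0) (nat_lit 9320300506) (nat_lit 380) (nat_lit 1502805804) (nat_lit 76) (nat_lit 9986208176) (nat_lit 77) (nat_lit 5) (nat_lit 82) (nat_lit 5) (nat_lit 78) (nat_lit 5) (nat_lit 336) (nat_lit 284) (nat_lit 160))))))) (XT.nd (nat_lit 1014) (nat_lit 1292) (nat_lit 0) (XT.nd (nat_lit 468) (nat_lit 760) (nat_lit 0) (XT.nd (nat_lit 234) (nat_lit 380) (nat_lit 0) (XT.nd (nat_lit 78) (nat_lit 228) (nat_lit 0) (XT.lf (nat_lit 0) (nat_lit 8391094397) (nat_lit 304) (nat_lit 4452384462) (nat_lit 380) (nat_lit 8380531043) (nat_lit 73) (nat_lit 5) (nat_lit 77) (nat_lit 5) (nat_lit 78) (nat_lit 5) (nat_lit 337) (nat_lit 284) (nat_lit 159)) (XT.nd (nat_lit 78) (nat_lit 228) (nat_lit 0) (XT.lf (nat_lit 0) (nat_lit 16498153757) (nat_lit 380) (nat_lit 3072392776) (nat_lit 76) (nat_lit 2079835784) (nat_lit 73) (nat_lit 5) (nat_lit 78) (nat_lit 5) (nat_lit 74) (nat_lit 5) (nat_lit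 338) (nat_lit 284) (nat_lit 158)) (XT.lf (nat_lit 0) (nat_lit 7061164137) (nat_lit 228) (nat_lit 13303747638) (nat_lit 304) (nat_lit 1721570721) (nat_lit 70) (nat_lit 5) (nat_lit 73) (nat_lit 5) (nat_lit 74) (nat_lit 5) (nat_lit 339) (nat_lit 284) (nat_lit 157)))) (XT.nd (nat_lit 78) (nat_lit 304) (nat_lit 0) (XT.lf (nat_lit 0) (nat_lit 1798510674) (nat_lit 304) (nat_lit 5004304202) (nat_lit 76) (nat_lit 15731681690) (nat_lit 69) (nat_lit 5) (nat_lit 73) (nat_lit 5) (nat_lit 70) (nat_lit 5) (nat_lit 340) (nat_lit 284) (nat_lit 156)) (XT.nd (nat_lit 78) (nat_lit 0) (nat_lit 0) (XT.lf (nat_lit 0) (nat_lit 5392361483) (nat_lit 304) (nat_lit 39871936) (nat_lit 380) (nat_lit 17561936099) (nat_lit 65) (nat_lit 5) (nat_lit 69) (nat_lit 5) (nat_lit 70) (nat_lit 5) (nat_lit 341) (nat_lit 284) (nat_lit 155)) (XT.lf (nat_lit 0) (nat_lit 9283488799) (nat_lit 380) (nat_lit 7342954186) (nat_lit 76) (nat_lit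 6837942820) (nat_lit 65) (nat_lit 5) (nat_lit 70) (nat_lit 5) (nat_lit 66) (nat_lit 5) (nat_lit 342) (nat_lit 284) (nat_lit 154))))) (XT.nd (nat_lit 234) (nat_lit 304) (nat_lit 0) (XT.nd (nat_lit 78) (nat_lit 228) (nat_lit 0) (XT.lf (nat_lit 0) (nat_lit 3274278903) (nat_lit 228) (nat_lit 9999047227) (nat_lit 304) (nat_lit 10674699641) (nat_lit 62) (nat_lit 5) (nat_lit 65) (nat_lit 5) (nat_lit 66) (nat_lit 5) (nat_lit 343) (nat_lit 284) (nat_lit 153)) (XT.nd (nat_lit 78) (nat_lit 228) (nat_lit 0) (XT.lf (nat_lit 0) (nat_lit 14347794090) (nat_lit 228) (nat_lit 3100523472) (nat_lit 304) (nat_lit 6995901877) (nat_lit 62) (nat_lit 5) (nat_lit 65) (nat_lit 5) (nat_lit 66) (nat_lit 5) (nat_lit 344) (nat_lit 284) (nat_lit 152)) (XT.lf (nat_lit 0) (nat_lit 761976793) (nat_lit 228) (nat_lit 21023929316) (nat_lit 304) (nat_lit 3168280416) (nat_lit 59) (nat_lit 5) (nat_lit 62) (nat_lit 5) (nat_lit 63) (nat_lit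 5) (nat_lit 345) (nat_lit 284) (nat_lit 151)))) (XT.nd (nat_lit 156) (nat_lit 228) (nat_lit 0) (XT.nd (nat_lit 78) (nat_lit 0) (nat_lit 0) (XT.lf (nat_lit 0) (nat_lit 884285869) (nat_lit 304) (nat_lit 13375107410) (nat_lit 76) (nat_lit 11216086970) (nat_lit 58) (nat_lit 5) (nat_lit 62) (nat_lit 5) (nat_lit 59) (nat_lit 5) (nat_lit 346) (nat_lit 284) (nat_lit 150)) (XT.lf (nat_lit 0) (nat_lit 4986556858) (nat_lit 304) (nat_lit 2277154081) (nat_lit 76) (nat_lit 18748013912) (nat_lit 58) (nat_lit 5) (nat_lit 62) (nat_lit 5) (nat_lit 59) (nat_lit 5) (nat_lit 347) (nat_lit 284) (nat_lit 149))) (XT.nd (nat_lit 78) (nat_lit 0) (nat_lit 0) (XT.lf (nat_lit 0) (nat_lit 9293857206) (nat_lit 304) (nat_lit 17238161109) (nat_lit 76) (nat_lit 29586773) (nat_lit 55) (nat_lit 5) (nat_lit 59) (nat_lit 5) (nat_lit 56) (nat_lit 5) (nat_lit 348) (nat_lit 284) (nat_lit 148)) (XT.lf (nat_lit 0) (nat_lit 13817642407)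 (nat_lit 304) (nat_lit 5892719717) (nat_lit 76) (nat_lit 7415008561) (nat_lit 55) (nat_lit 5) (nat_lit 59) (nat_lit 5) (nat_lit 56) (nat_lit 5) (nat_lit 349) (nat_lit 284) (nat_lit 147)))))) (XT.nd (nat_lit 546) (nat_lit 608) (nat_lit 0) (XT.nd (nat_lit 234) (nat_lit 304) (nat_lit 0) (XT.nd (nat_lit 78) (nat_lit 152) (nat_lit 0) (XT.lf (nat_lit 0) (nat_lit 5896474888) (nat_lit 228) (nat_lit 12629701604) (nat_lit 304) (nat_lit 9178408424) (nat_lit 52) (nat_lit 5) (nat_lit 55) (nat_lit 5) (nat_lit 56) (nat_lit 5) (nat_lit 350) (nat_lit 284) (nat_lit 146)) (XT.nd (nat_lit 78) (nat_lit 152) (nat_lit 0) (XT.lf (nat_lit 0) (nat_lit 18148583244) (nat_lit 228) (nat_lit 5279354658) (nat_lit 304) (nat_lit 4871685061) (nat_lit 52) (nat_lit 5) (nat_lit 55) (nat_lit 5) (nat_lit 56) (nat_lit 5) (nat_lit 351) (nat_lit 284) (nat_lit 145)) (XT.lf (nat_lit 0) (nat_lit 1858574182) (nat_lit 152) (nat_lit 26650719315)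 (nat_lit 228) (nat_lit 402248755) (nat_lit 50) (nat_lit 5) (nat_lit 52) (nat_lit 5) (nat_lit 53) (nat_lit 5) (nat_lit 352) (nat_lit 284) (nat_lit 144)))) (XT.nd (nat_lit 156) (nat_lit 228) (nat_lit 0) (XT.nd (nat_lit 78) (nat_lit 0) (nat_lit 0) (XT.lf (nat_lit 0) (nat_lit 4267756080) (nat_lit 228) (nat_lit 15207300570) (nat_lit 76) (nat_lit 10061102868) (nat_lit 49) (nat_lit 5) (nat_lit 52) (nat_lit 5) (nat_lit 50) (nat_lit 5) (nat_lit 353) (nat_lit 284) (nat_lit 143)) (XT.lf (nat_lit 0) (nat_lit 9062665600) (nat_lit 228) (nat_lit 3021360806) (nat_lit 76) (nat_lit 18095588536) (nat_lit 49) (nat_lit 5) (nat_lit 52) (nat_lit 5) (nat_lit 50) (nat_lit 5) (nat_lit 354) (nat_lit 284) (nat_lit 142))) (XT.nd (nat_lit 78) (nat_lit 0) (nat_lit 0) (XT.lf (nat_lit 0) (nat_lit 9708819833) (nat_lit 228) (nat_lit 4379026134) (nat_lit 304) (nat_lit 16751940989) (nat_lit 46) (nat_lit 5) (nat_lit 49) (nat_lit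 5) (nat_lit 50) (nat_lit 5) (nat_lit 355) (nat_lit 284) (nat_lit 141)) (XT.lf (nat_lit 0) (nat_lit 19321944402) (nat_lit 304) (nat_lit 8681361226) (nat_lit 76) (nat_lit 3514719091) (nat_lit 46) (nat_lit 5) (nat_lit 50) (nat_lit 5) (nat_lit 47) (nat_lit 5) (nat_lit 356) (nat_lit 284) (nat_lit 140))))) (XT.nd (nat_lit 234) (nat_lit 380) (nat_lit 0) (XT.nd (nat_lit 78) (nat_lit 76) (nat_lit 0) (XT.lf (nat_lit 0) (nat_lit 4169190438) (nat_lit 152) (nat_lit 20620665656) (nat_lit 228) (nat_lit 7424455121) (nat_lit 44) (nat_lit 5) (nat_lit 46) (nat_lit 5) (nat_lit 47) (nat_lit 5) (nat_lit 357) (nat_lit 284) (nat_lit 139)) (XT.nd (nat_lit 78) (nat_lit 76) (nat_lit 0) (XT.lf (nat_lit 0) (nat_lit 17572779759) (nat_lit 152) (nat_lit 12930140056) (nat_lit 228) (nat_lit 2426138205) (nat_lit 44) (nat_lit 5) (nat_lit 46) (nat_lit 5) (nat_lit 47) (nat_lit 5) (nat_lit 358) (nat_lit 284) (nat_lit 138)) (XT.lf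 (nat_lit 0) (nat_lit 2662582553) (nat_lit 228) (nat_lit 2323204262) (nat_lit 76) (nat_lit 28678873083) (nat_lit 43) (nat_lit 5) (nat_lit 46) (nat_lit 5) (nat_lit 44) (nat_lit 5) (nat_lit 359) (nat_lit 284) (nat_lit 137)))) (XT.nd (nat_lit 156) (nat_lit 152) (nat_lit 0) (XT.nd (nat_lit 78) (nat_lit 0) (nat_lit 0) (XT.lf (nat_lit 0) (nat_lit 7989467544) (nat_lit 304) (nat_lit 23163427662) (nat_lit 76) (nat_lit 3264690742) (nat_lit 40) (nat_lit 5) (nat_lit 44) (nat_lit 5) (nat_lit 41) (nat_lit 5) (nat_lit 360) (nat_lit 284) (nat_lit 136)) (XT.lf (nat_lit 0) (nat_lit 13543026587) (nat_lit 304) (nat_lit 9965551070) (nat_lit 76) (nat_lit 11682520677) (nat_lit 40) (nat_lit 5) (nat_lit 44) (nat_lit 5) (nat_lit 41) (nat_lit 5) (nat_lit 361) (nat_lit 284) (nat_lit 135))) (XT.nd (nat_lit 78) (nat_lit 0) (nat_lit 0) (XT.lf (nat_lit 0) (nat_lit 3690545908) (nat_lit 152) (nat_lit 15602113729) (nat_lit 228)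 (nat_lit 16694276884) (nat_lit 38) (nat_lit 5) (nat_lit 40) (nat_lit 5) (nat_lit 41) (nat_lit 5) (nat_lit 362) (nat_lit 284) (nat_lit 134)) (XT.lf (nat_lit 0) (nat_lit 17950973480) (nat_lit 152) (nat_lit 7358514551) (nat_lit 228) (nat_lit 11494324949) (nat_lit 38) (nat_lit 5) (nat_lit 40) (nat_lit 5) (nat_lit 41) (nat_lit 5) (nat_lit 363) (nat_lit 284) (nat_lit 133))))))))
noncomputable def xc168 : XT := (XT.nd (nat_lit 2028) (nat_lit 456) (nat_lit 0) (XT.nd (nat_lit 1014) (nat_lit 456) (nat_lit 0) (XT.nd (nat_lit 468) (nat_lit 532) (nat_lit 0) (XT.nd (nat_lit 234) (nat_lit 152) (nat_lit 0) (XT.nd (nat_lit 78) (nat_lit 228) (nat_lit 0) (XT.lf (nat_lit 0) (nat_lit 31511918335) (nat_lit 228) (nat_lit 5026364951) (nat_lit 76) (nat_lit 1106763725) (nat_lit 38) (nat_lit 5) (nat_lit 41) (nat_lit 5) (nat_lit 39) (nat_lit 5) (nat_lit 364) (nat_lit 284) (nat_lit 132)) (XT.nd (nat_lit 78) (nat_lit 76)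 (nat_lit 0) (XT.lf (nat_lit 0) (nat_lit 9314587190) (nat_lit 152) (nat_lit 28742608844) (nat_lit 228) (nat_lit 449622864) (nat_lit 36) (nat_lit 5) (nat_lit 38) (nat_lit 5) (nat_lit 39) (nat_lit 5) (nat_lit 365) (nat_lit 284) (nat_lit 131)) (XT.lf (nat_lit 0) (nat_lit 5344585554) (nat_lit 228) (nat_lit 15265816765) (nat_lit 76) (nat_lit 18781117255) (nat_lit 35) (nat_lit 5) (nat_lit 38) (nat_lit 5) (nat_lit 36) (nat_lit 5) (nat_lit 366) (nat_lit 284) (nat_lit 130)))) (XT.nd (nat_lit 78) (nat_lit 152) (nat_lit 0) (XT.lf (nat_lit 0) (nat_lit 11298143971) (nat_lit 228) (nat_lit 935037920) (nat_lit 76) (nat_lit 28069612729) (nat_lit 35) (nat_lit 5) (nat_lit 38) (nat_lit 5) (nat_lit 36) (nat_lit 5) (nat_lit 367) (nat_lit 284) (nat_lit 129)) (XT.nd (nat_lit 78) (nat_lit 0) (nat_lit 0) (XT.lf (nat_lit 0) (nat_lit 14091933289) (nat_lit 152) (nat_lit 3468555280) (nat_lit 228) (nat_lit 23677017581) (nat_lit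 33) (nat_lit 5) (nat_lit 35) (nat_lit 5) (nat_lit 36) (nat_lit 5) (nat_lit 368) (nat_lit 284) (nat_lit 128)) (XT.lf (nat_lit 0) (nat_lit 24068432773) (nat_lit 228) (nat_lit 12673381726) (nat_lit 76) (nat_lit 5456716158) (nat_lit 33) (nat_lit 5) (nat_lit 36) (nat_lit 5) (nat_lit 34) (nat_lit 5) (nat_lit 369) (nat_lit 284) (nat_lit 127))))) (XT.nd (nat_lit 234) (nat_lit 380) (nat_lit 0) (XT.nd (nat_lit 78) (nat_lit 0) (nat_lit 0) (XT.lf (nat_lit 0) (nat_lit 2233719104) (nat_lit 152) (nat_lit 28588620036) (nat_lit 228) (nat_lit 12364528454) (nat_lit 31) (nat_lit 5) (nat_lit 33) (nat_lit 5) (nat_lit 34) (nat_lit 5) (nat_lit 370) (nat_lit 284) (nat_lit 126)) (XT.nd (nat_lit 78) (nat_lit 0) (nat_lit 0) (XT.lf (nat_lit 0) (nat_lit 17839406401) (nat_lit 152) (nat_lit 20062409768) (nat_lit 228) (nat_lit 6299353173) (nat_lit 31) (nat_lit 5) (nat_lit 33) (nat_lit 5) (nat_lit 34) (nat_lit 5) (nat_lit 371)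 (nat_lit 284) (nat_lit 125)) (XT.lf (nat_lit 0) (nat_lit 33905091054) (nat_lit 152) (nat_lit 11283709916) (nat_lit 228) (nat_lit 57248681) (nat_lit 31) (nat_lit 5) (nat_lit 33) (nat_lit 5) (nat_lit 34) (nat_lit 5) (nat_lit 372) (nat_lit 284) (nat_lit 124)))) (XT.nd (nat_lit 156) (nat_lit 152) (nat_lit 0) (XT.nd (nat_lit 78) (nat_lit 0) (nat_lit 0) (XT.lf (nat_lit 0) (nat_lit 4142009236) (nat_lit 152) (nat_lit 2140797806) (nat_lit 228) (nat_lit 40036583841) (nat_lit 28) (nat_lit 5) (nat_lit 30) (nat_lit 5) (nat_lit 31) (nat_lit 5) (nat_lit 373) (nat_lit 284) (nat_lit 123)) (XT.lf (nat_lit 0) (nat_lit 12992761712) (nat_lit 228) (nat_lit 27179266191) (nat_lit 76) (nat_lit 7247464948) (nat_lit 28) (nat_lit 5) (nat_lit 31) (nat_lit 5) (nat_lit 29) (nat_lit 5) (nat_lit 374) (nat_lit 284) (nat_lit 122))) (XT.nd (nat_lit 78) (nat_lit 152) (nat_lit 0) (XT.lf (nat_lit 0) (nat_lit 19920596835) (nat_lit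 228) (nat_lit 11760236494) (nat_lit 76) (nat_lit 16871269946) (nat_lit 28) (nat_lit 5) (nat_lit 31) (nat_lit 5) (nat_lit 29) (nat_lit 5) (nat_lit 375) (nat_lit 284) (nat_lit 121)) (XT.lf (nat_lit 0) (nat_lit 4195630911) (nat_lit 152) (nat_lit 22896487263) (nat_lit 228) (nat_lit 22625501075) (nat_lit 26) (nat_lit 5) (nat_lit 28) (nat_lit 5) (nat_lit 29) (nat_lit 5) (nat_lit 376) (nat_lit 284) (nat_lit 120)))))) (XT.nd (nat_lit 468) (nat_lit 304) (nat_lit 0) (XT.nd (nat_lit 234) (nat_lit 76) (nat_lit 0) (XT.nd (nat_lit 78) (nat_lit 76) (nat_lit 0) (XT.lf (nat_lit 0) (nat_lit 20863717163) (nat_lit 152) (nat_lit 13729401603) (nat_lit 228) (nat_lit 16321554617) (nat_lit 26) (nat_lit 5) (nat_lit 28) (nat_lit 5) (nat_lit 29) (nat_lit 5) (nat_lit 377) (nat_lit 284) (nat_lit 119)) (XT.nd (nat_lit 78) (nat_lit 76) (nat_lit 0) (XT.lf (nat_lit 0) (nat_lit 38024534843) (nat_lit 152) (nat_lit 4290321604)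 (nat_lit 228) (nat_lit 9832914095) (nat_lit 26) (nat_lit 5) (nat_lit 28) (nat_lit 5) (nat_lit 29) (nat_lit 5) (nat_lit 378) (nat_lit 284) (nat_lit 118)) (XT.lf (nat_lit 0) (nat_lit 2267143921) (nat_lit 76) (nat_lit 48070914493) (nat_lit 152) (nat_lit 3077710372) (nat_lit 25) (nat_lit 5) (nat_lit 26) (nat_lit 5) (nat_lit 27) (nat_lit 4) (nat_lit 379) (nat_lit 284) (nat_lit 117)))) (XT.nd (nat_lit 78) (nat_lit 0) (nat_lit 0) (XT.lf (nat_lit 0) (nat_lit 3986755457) (nat_lit 152) (nat_lit 35367182651) (nat_lit 76) (nat_lit 15361282658) (nat_lit 24) (nat_lit 5) (nat_lit 26) (nat_lit 5) (nat_lit 25) (nat_lit 5) (nat_lit 380) (nat_lit 284) (nat_lit 116)) (XT.nd (nat_lit 78) (nat_lit 0) (nat_lit 0) (XT.lf (nat_lit 0) (nat_lit 11197232466) (nat_lit 152) (nat_lit 19149772218) (nat_lit 76) (nat_lit 25705861687) (nat_lit 24) (nat_lit 5) (nat_lit 26) (nat_lit 5) (nat_lit 25) (nat_lit 5) (nat_lit 381) (nat_lit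 284) (nat_lit 115)) (XT.lf (nat_lit 0) (nat_lit 18620078283) (nat_lit 152) (nat_lit 2452638179) (nat_lit 76) (nat_lit 36358045499) (nat_lit 24) (nat_lit 5) (nat_lit 26) (nat_lit 5) (nat_lit 25) (nat_lit 5) (nat_lit 382) (nat_lit 284) (nat_lit 114))))) (XT.nd (nat_lit 234) (nat_lit 152) (nat_lit 0) (XT.nd (nat_lit 78) (nat_lit 0) (nat_lit 0) (XT.lf (nat_lit 0) (nat_lit 15032140397) (nat_lit 152) (nat_lit 11374136625) (nat_lit 228) (nat_lit 32439499559) (nat_lit 22) (nat_lit 5) (nat_lit 24) (nat_lit 5) (nat_lit 25) (nat_lit 5) (nat_lit 383) (nat_lit 284) (nat_lit 113)) (XT.nd (nat_lit 78) (nat_lit 0) (nat_lit 0) (XT.lf (nat_lit 0) (nat_lit 33085203035) (nat_lit 152) (nat_lit 1361843682) (nat_lit 228) (nat_lit 25855567494) (nat_lit 22) (nat_lit 5) (nat_lit 24) (nat_lit 5) (nat_lit 25) (nat_lit 5) (nat_lit 384) (nat_lit 284) (nat_lit 112)) (XT.lf (nat_lit 0) (nat_lit 42811382851) (nat_lit 228) (nat_lit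 10215772272) (nat_lit 76) (nat_lit 8773533610) (nat_lit 22) (nat_lit 5) (nat_lit 25) (nat_lit 5) (nat_lit 23) (nat_lit 4) (nat_lit 385) (nat_lit 284) (nat_lit 111)))) (XT.nd (nat_lit 156) (nat_lit 76) (nat_lit 0) (XT.nd (nat_lit 78) (nat_lit 0) (nat_lit 0) (XT.lf (nat_lit 0) (nat_lit 7420997823) (nat_lit 76) (nat_lit 44086880315) (nat_lit 152) (nat_lit 11833392483) (nat_lit 21) (nat_lit 5) (nat_lit 22) (nat_lit 5) (nat_lit 23) (nat_lit 4) (nat_lit 386) (nat_lit 284) (nat_lit 110)) (XT.lf (nat_lit 0) (nat_lit 25790100789) (nat_lit 76) (nat_lit 34774782174) (nat_lit 152) (nat_lit 4360200503) (nat_lit 21) (nat_lit 5) (nat_lit 22) (nat_lit 5) (nat_lit 23) (nat_lit 4) (nat_lit 387) (nat_lit 284) (nat_lit 109))) (XT.nd (nat_lit 78) (nat_lit 0) (nat_lit 0) (XT.lf (nat_lit 0) (nat_lit 3268589422) (nat_lit 152) (nat_lit 21884287421) (nat_lit 76) (nat_lit 41402677634) (nat_lit 20) (nat_lit 5) (nat_lit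 22) (nat_lit 5) (nat_lit 21) (nat_lit 5) (nat_lit 388) (nat_lit 284) (nat_lit 108)) (XT.lf (nat_lit 0) (nat_lit 11035231342) (nat_lit 152) (nat_lit 4165139162) (nat_lit 76) (nat_lit 53033377060) (nat_lit 20) (nat_lit 5) (nat_lit 22) (nat_lit 5) (nat_lit 21) (nat_lit 5) (nat_lit 389) (nat_lit 284) (nat_lit 107))))))) (XT.nd (nat_lit 32604) (nat_lit 0) (nat_lit 13680) (XT.nd (nat_lit 468) (nat_lit 228) (nat_lit 0) (XT.nd (nat_lit 234) (nat_lit 76) (nat_lit 0) (XT.nd (nat_lit 78) (nat_lit 0) (nat_lit 0) (XT.lf (nat_lit 0) (nat_lit 14360074540) (nat_lit 152) (nat_lit 4809558141) (nat_lit 228) (nat_lit 50788612687) (nat_lit 18) (nat_lit 5) (nat_lit 20) (nat_lit 5) (nat_lit 21) (nat_lit 5) (nat_lit 390) (nat_lit 284) (nat_lit 106)) (XT.nd (nat_lit 78) (nat_lit 0) (nat_lit 0) (XT.lf (nat_lit 0) (nat_lit 27643929065) (nat_lit 228) (nat_lit 38269598776) (nat_lit 76) (nat_lit 5818076051) (nat_lit 18)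 (nat_lit 5) (nat_lit 21) (nat_lit 5) (nat_lit 19) (nat_lit 4) (nat_lit 391) (nat_lit 284) (nat_lit 105)) (XT.lf (nat_lit 0) (nat_lit 36416908600) (nat_lit 228) (nat_lit 20474366653) (nat_lit 76) (nat_lit 16665555917) (nat_lit 18) (nat_lit 5) (nat_lit 21) (nat_lit 5) (nat_lit 19) (nat_lit 4) (nat_lit 392) (nat_lit 284) (nat_lit 104)))) (XT.nd (nat_lit 78) (nat_lit 76) (nat_lit 0) (XT.lf (nat_lit 0) (nat_lit 45450004582) (nat_lit 228) (nat_lit 2150692815) (nat_lit 76) (nat_lit 27836211639) (nat_lit 18) (nat_lit 5) (nat_lit 21) (nat_lit 5) (nat_lit 19) (nat_lit 4) (nat_lit 393) (nat_lit 284) (nat_lit 103)) (XT.nd (nat_lit 78) (nat_lit 0) (nat_lit 0) (XT.lf (nat_lit 0) (nat_lit 17050143425) (nat_lit 76) (nat_lit 37864862989) (nat_lit 152) (nat_lit 22453556968) (nat_lit 17) (nat_lit 5) (nat_lit 18) (nat_lit 5) (nat_lit 19) (nat_lit 4) (nat_lit 394) (nat_lit 284) (nat_lit 102)) (XT.lf (nat_lit 0)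 (nat_lit 36865885871) (nat_lit 76) (nat_lit 27816843628) (nat_lit 152) (nat_lit 14674876214) (nat_lit 17) (nat_lit 5) (nat_lit 18) (nat_lit 5) (nat_lit 19) (nat_lit 4) (nat_lit 395) (nat_lit 284) (nat_lit 101))))) (XT.nd (nat_lit 234) (nat_lit 0) (nat_lit 0) (XT.nd (nat_lit 78) (nat_lit 228) (nat_lit 0) (XT.lf (nat_lit 0) (nat_lit 57271046243) (nat_lit 76) (nat_lit 17469577274) (nat_lit 152) (nat_lit 6665783067) (nat_lit 17) (nat_lit 5) (nat_lit 18) (nat_lit 5) (nat_lit 19) (nat_lit 4) (nat_lit 396) (nat_lit 284) (nat_lit 100)) (XT.nd (nat_lit 78) (nat_lit 152) (nat_lit 0) (XT.lf (nat_lit 0) (nat_lit 1549875155) (nat_lit 152) (nat_lit 5248496768) (nat_lit 76) (nat_lit 76717928437) (nat_lit 16) (nat_lit 5) (nat_lit 18) (nat_lit 5) (nat_lit 17) (nat_lit 5) (nat_lit 397) (nat_lit 284) (nat_lit 99)) (XT.lf (nat_lit 0) (nat_lit 10056183731) (nat_lit 228) (nat_lit 71310295141) (nat_lit 76) (nat_lit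 4315688779) (nat_lit 14) (nat_lit 5) (nat_lit 17) (nat_lit 5) (nat_lit 15) (nat_lit 4) (nat_lit 398) (nat_lit 284) (nat_lit 98)))) (XT.nd (nat_lit 31746) (nat_lit 0) (nat_lit 14516) (XT.nd (nat_lit 78) (nat_lit 0) (nat_lit 0) (XT.lf (nat_lit 0) (nat_lit 18935805347) (nat_lit 228) (nat_lit 53295648942) (nat_lit 76) (nat_lit 15678014242) (nat_lit 14) (nat_lit 5) (nat_lit 17) (nat_lit 5) (nat_lit 15) (nat_lit 4) (nat_lit 399) (nat_lit 284) (nat_lit 97)) (XT.lf (nat_lit 0) (nat_lit 28079183473) (nat_lit 228) (nat_lit 34745257058) (nat_lit 76) (nat_lit 27379228118) (nat_lit 14) (nat_lit 5) (nat_lit 17) (nat_lit 5) (nat_lit 15) (nat_lit 4) (nat_lit 400) (nat_lit 284) (nat_lit 96))) (XT.nd (nat_lit 78) (nat_lit 0) (nat_lit 0) (XT.lf (nat_lit 0) (nat_lit 348256308) (nat_lit 0) (nat_lit 348256308) (nat_lit 988) (nat_lit 3886616751) (nat_lit 205) (nat_lit 5) (nat_lit 205) (nat_lit 3) (nat_lit 218) (nat_lit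 3) (nat_lit 285) (nat_lit 285) (nat_lit 210)) (XT.lf (nat_lit 0) (nat_lit 2251589103) (nat_lit 988) (nat_lit 4416412807) (nat_lit 1064) (nat_lit 2609256190) (nat_lit 205) (nat_lit 5) (nat_lit 218) (nat_lit 3) (nat_lit 219) (nat_lit 5) (nat_lit 286) (nat_lit 285) (nat_lit 209)))))) (XT.nd (nat_lit 468) (nat_lit 836) (nat_lit 0) (XT.nd (nat_lit 234) (nat_lit 0) (nat_lit 76) (XT.nd (nat_lit 78) (nat_lit 0) (nat_lit 76) (XT.lf (nat_lit 0) (nat_lit 3111264875) (nat_lit 988) (nat_lit 265378799) (nat_lit 1064) (nat_lit 6015736374) (nat_lit 205) (nat_lit 5) (nat_lit 218) (nat_lit 3) (nat_lit 219) (nat_lit 5) (nat_lit 287) (nat_lit 285) (nat_lit 208)) (XT.nd (nat_lit 78) (nat_lit 0) (nat_lit 0) (XT.lf (nat_lit 0) (nat_lit 4005914807) (nat_lit 988) (nat_lit 5438243740) (nat_lit 1064) (nat_lit 66573290) (nat_lit 206) (nat_lit 5) (nat_lit 219) (nat_lit 5) (nat_lit 220) (nat_lit 5) (nat_lit 288) (nat_lit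 285) (nat_lit 207)) (XT.lf (nat_lit 0) (nat_lit 4933785149) (nat_lit 988) (nat_lit 1137504484) (nat_lit 1064) (nat_lit 3561203316) (nat_lit 206) (nat_lit 5) (nat_lit 219) (nat_lit 5) (nat_lit 220) (nat_lit 5) (nat_lit 289) (nat_lit 285) (nat_lit 206)))) (XT.nd (nat_lit 78) (nat_lit 0) (nat_lit 76) (XT.lf (nat_lit 76) (nat_lit 3340527078) (nat_lit 0) (nat_lit 2552184894) (nat_lit 1064) (nat_lit 3865147041) (nat_lit 207) (nat_lit 5) (nat_lit 206) (nat_lit 5) (nat_lit 220) (nat_lit 5) (nat_lit 290) (nat_lit 285) (nat_lit 205)) (XT.nd (nat_lit 78) (nat_lit 0) (nat_lit 0) (XT.lf (nat_lit 0) (nat_lit 6874216172) (nat_lit 988) (nat_lit 1938600874) (nat_lit 1064) (nat_lit 1074402039) (nat_lit 207) (nat_lit 5) (nat_lit 220) (nat_lit 5) (nat_lit 221) (nat_lit 5) (nat_lit 291) (nat_lit 285) (nat_lit 204)) (XT.lf (nat_lit 76) (nat_lit 2684368208) (nat_lit 0) (nat_lit 5224588507) (nat_lit 1064) (nat_lit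 2110835443) (nat_lit 208) (nat_lit 5) (nat_lit 207) (nat_lit 5) (nat_lit 221) (nat_lit 5) (nat_lit 292) (nat_lit 285) (nat_lit 203))))) (XT.nd (nat_lit 234) (nat_lit 0) (nat_lit 0) (XT.nd (nat_lit 78) (nat_lit 988) (nat_lit 0) (XT.lf (nat_lit 76) (nat_lit 7468698321) (nat_lit 0) (nat_lit 1498966044) (nat_lit 1064) (nat_lit 1188934909) (nat_lit 208) (nat_lit 5) (nat_lit 207) (nat_lit 5) (nat_lit 221) (nat_lit 5) (nat_lit 293) (nat_lit 285) (nat_lit 202)) (XT.nd (nat_lit 78) (nat_lit 1064) (nat_lit 0) (XT.lf (nat_lit 76) (nat_lit 2100069953) (nat_lit 0) (nat_lit 7974943332) (nat_lit 1064) (nat_lit 222034214) (nat_lit 209) (nat_lit 5) (nat_lit 208) (nat_lit 5) (nat_lit 222) (nat_lit 5) (nat_lit 294) (nat_lit 285) (nat_lit 201)) (XT.lf (nat_lit 0) (nat_lit 775533396) (nat_lit 1064) (nat_lit 3394520621) (nat_lit 1140) (nat_lit 6270969970) (nat_lit 194) (nat_lit 5) (nat_lit 208) (nat_lit 5) (nat_lit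 209) (nat_lit 5) (nat_lit 295) (nat_lit 285) (nat_lit 200)))) (XT.nd (nat_lit 156) (nat_lit 0) (nat_lit 76) (XT.nd (nat_lit 78) (nat_lit 0) (nat_lit 76) (XT.lf (nat_lit 76) (nat_lit 1562974888) (nat_lit 0) (nat_lit 225865664) (nat_lit 1140) (nat_lit 8800744636) (nat_lit 195) (nat_lit 5) (nat_lit 194) (nat_lit 5) (nat_lit 209) (nat_lit 5) (nat_lit 296) (nat_lit 285) (nat_lit 199)) (XT.lf (nat_lit 0) (nat_lit 2879918821) (nat_lit 1064) (nat_lit 4058012763) (nat_lit 1140) (nat_lit 3803288953) (nat_lit 195) (nat_lit 5) (nat_lit 209) (nat_lit 5) (nat_lit 210) (nat_lit 5) (nat_lit 297) (nat_lit 285) (nat_lit 198))) (XT.nd (nat_lit 78) (nat_lit 0) (nat_lit 76) (XT.lf (nat_lit 76) (nat_lit 1060629427) (nat_lit 0) (nat_lit 2932108712) (nat_lit 1140) (nat_lit 6905033895) (nat_lit 196) (nat_lit 5) (nat_lit 195) (nat_lit 5) (nat_lit 210) (nat_lit 5) (nat_lit 298) (nat_lit 285) (nat_lit 197)) (XT.lf (nat_lit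 0) (nat_lit 5168948890) (nat_lit 1064) (nat_lit 4671736404) (nat_lit 1140) (nat_lit 1217470839) (nat_lit 196) (nat_lit 5) (nat_lit 210) (nat_lit 5) (nat_lit 211) (nat_lit 5) (nat_lit 299) (nat_lit 285) (nat_lit 196))))))))
noncomputable def xc169 : XT := (XT.nd (nat_lit 2028) (nat_lit 3800) (nat_lit 0) (XT.nd (nat_lit 1014) (nat_lit 3268) (nat_lit 0) (XT.nd (nat_lit 468) (nat_lit 1672) (nat_lit 0) (XT.nd (nat_lit 234) (nat_lit 1216) (nat_lit 0) (XT.nd (nat_lit 78) (nat_lit 988) (nat_lit 0) (XT.lf (nat_lit 76) (nat_lit 614030018) (nat_lit 0) (nat_lit 5779161553) (nat_lit 1140) (nat_lit 4829813021) (nat_lit 197) (nat_lit 5) (nat_lit 196) (nat_lit 5) (nat_lit 211) (nat_lit 5) (nat_lit 300) (nat_lit 285) (nat_lit 195)) (XT.nd (nat_lit 78) (nat_lit 988) (nat_lit 0) (XT.lf (nat_lit 76) (nat_lit 6136754412) (nat_lit 0) (nat_lit 1542874057) (nat_lit 1140) (nat_lit 3712440206) (nat_lit 197) (nat_lit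 5) (nat_lit 196) (nat_lit 5) (nat_lit 211) (nat_lit 5) (nat_lit 301) (nat_lit 285) (nat_lit 194)) (XT.lf (nat_lit 0) (nat_lit 218527067) (nat_lit 1064) (nat_lit 8794308645) (nat_lit 1140) (nat_lit 2553156836) (nat_lit 183) (nat_lit 5) (nat_lit 197) (nat_lit 5) (nat_lit 198) (nat_lit 5) (nat_lit 302) (nat_lit 285) (nat_lit 193)))) (XT.nd (nat_lit 78) (nat_lit 1216) (nat_lit 0) (XT.lf (nat_lit 0) (nat_lit 5931324137) (nat_lit 1064) (nat_lit 4502319205) (nat_lit 1140) (nat_lit 1310094888) (nat_lit 183) (nat_lit 5) (nat_lit 197) (nat_lit 5) (nat_lit 198) (nat_lit 5) (nat_lit 303) (nat_lit 285) (nat_lit 192)) (XT.nd (nat_lit 78) (nat_lit 1216) (nat_lit 0) (XT.lf (nat_lit 0) (nat_lit 11798603869) (nat_lit 1064) (nat_lit 78480638) (nat_lit 1140) (nat_lit 50362778) (nat_lit 183) (nat_lit 5) (nat_lit 197) (nat_lit 5) (nat_lit 198) (nat_lit 5) (nat_lit 304) (nat_lit 285) (nat_lit 191)) (XT.lf (nat_lit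 0) (nat_lit 1302786075) (nat_lit 1216) (nat_lit 6349208860) (nat_lit 76) (nat_lit 4461943662) (nat_lit 167) (nat_lit 5) (nat_lit 183) (nat_lit 5) (nat_lit 168) (nat_lit 5) (nat_lit 305) (nat_lit 285) (nat_lit 190))))) (XT.nd (nat_lit 234) (nat_lit 1140) (nat_lit 0) (XT.nd (nat_lit 78) (nat_lit 532) (nat_lit 0) (XT.lf (nat_lit 0) (nat_lit 2678413884) (nat_lit 1216) (nat_lit 486816830) (nat_lit 76) (nat_lit 9141320698) (nat_lit 167) (nat_lit 5) (nat_lit 183) (nat_lit 5) (nat_lit 168) (nat_lit 5) (nat_lit 306) (nat_lit 285) (nat_lit 189)) (XT.nd (nat_lit 78) (nat_lit 0) (nat_lit 0) (XT.lf (nat_lit 0) (nat_lit 4145488924) (nat_lit 608) (nat_lit 6873646587) (nat_lit 76) (nat_lit 1484329542) (nat_lit 160) (nat_lit 5) (nat_lit 168) (nat_lit 5) (nat_lit 161) (nat_lit 5) (nat_lit 307) (nat_lit 285) (nat_lit 188)) (XT.lf (nat_lit 0) (nat_lit 5674643099) (nat_lit 608) (nat_lit 814809897) (nat_lit 76) (nat_lit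 6216318081) (nat_lit 160) (nat_lit 5) (nat_lit 168) (nat_lit 5) (nat_lit 161) (nat_lit 5) (nat_lit 308) (nat_lit 285) (nat_lit 187)))) (XT.nd (nat_lit 156) (nat_lit 532) (nat_lit 0) (XT.nd (nat_lit 78) (nat_lit 0) (nat_lit 0) (XT.lf (nat_lit 0) (nat_lit 5516728799) (nat_lit 608) (nat_lit 1768267833) (nat_lit 684) (nat_lit 5628116104) (nat_lit 152) (nat_lit 5) (nat_lit 160) (nat_lit 5) (nat_lit 161) (nat_lit 5) (nat_lit 309) (nat_lit 285) (nat_lit 186)) (XT.lf (nat_lit 0) (nat_lit 8964375791) (nat_lit 684) (nat_lit 1118443594) (nat_lit 76) (nat_lit 3043259243) (nat_lit 152) (nat_lit 5) (nat_lit 161) (nat_lit 5) (nat_lit 153) (nat_lit 5) (nat_lit 310) (nat_lit 285) (nat_lit 185))) (XT.nd (nat_lit 78) (nat_lit 0) (nat_lit 0) (XT.lf (nat_lit 0) (nat_lit 5419474960) (nat_lit 532) (nat_lit 5327428191) (nat_lit 608) (nat_lit 2596972032) (nat_lit 145) (nat_lit 5) (nat_lit 152) (nat_lit 5) (nat_lit 153)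 (nat_lit 5) (nat_lit 311) (nat_lit 285) (nat_lit 184)) (XT.lf (nat_lit 0) (nat_lit 12160014999) (nat_lit 532) (nat_lit 417681649) (nat_lit 608) (nat_lit 990689251) (nat_lit 145) (nat_lit 5) (nat_lit 152) (nat_lit 5) (nat_lit 153) (nat_lit 5) (nat_lit 312) (nat_lit 285) (nat_lit 183)))))) (XT.nd (nat_lit 468) (nat_lit 1748) (nat_lit 0) (XT.nd (nat_lit 234) (nat_lit 456) (nat_lit 0) (XT.nd (nat_lit 78) (nat_lit 456) (nat_lit 0) (XT.lf (nat_lit 0) (nat_lit 731564877) (nat_lit 608) (nat_lit 8458026576) (nat_lit 76) (nat_lit 4607449591) (nat_lit 137) (nat_lit 5) (nat_lit 145) (nat_lit 5) (nat_lit 138) (nat_lit 5) (nat_lit 313) (nat_lit 285) (nat_lit 182)) (XT.nd (nat_lit 78) (nat_lit 456) (nat_lit 0) (XT.lf (nat_lit 0) (nat_lit 2488182493) (nat_lit 608) (nat_lit 1745168054) (nat_lit 76) (nat_lit 9798854739) (nat_lit 137) (nat_lit 5) (nat_lit 145) (nat_lit 5) (nat_lit 138) (nat_lit 5) (nat_lit 314)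 (nat_lit 285) (nat_lit 181)) (XT.lf (nat_lit 0) (nat_lit 4341461199) (nat_lit 532) (nat_lit 9026795534) (nat_lit 76) (nat_lit 904870143) (nat_lit 131) (nat_lit 5) (nat_lit 138) (nat_lit 5) (nat_lit 132) (nat_lit 5) (nat_lit 315) (nat_lit 285) (nat_lit 180)))) (XT.nd (nat_lit 78) (nat_lit 456) (nat_lit 0) (XT.lf (nat_lit 0) (nat_lit 6294909551) (nat_lit 532) (nat_lit 2095954748) (nat_lit 76) (nat_lit 6129095357) (nat_lit 131) (nat_lit 5) (nat_lit 138) (nat_lit 5) (nat_lit 132) (nat_lit 5) (nat_lit 316) (nat_lit 285) (nat_lit 179)) (XT.nd (nat_lit 78) (nat_lit 0) (nat_lit 0) (XT.lf (nat_lit 0) (nat_lit 5126866119) (nat_lit 456) (nat_lit 3214678451) (nat_lit 532) (nat_lit 6431635432) (nat_lit 125) (nat_lit 5) (nat_lit 131) (nat_lit 5) (nat_lit 132) (nat_lit 5) (nat_lit 317) (nat_lit 285) (nat_lit 178)) (XT.lf (nat_lit 0) (nat_lit 10476864189) (nat_lit 532) (nat_lit 2460853505) (nat_lit 76) (nat_lit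 2095480187) (nat_lit 125) (nat_lit 5) (nat_lit 132) (nat_lit 5) (nat_lit 126) (nat_lit 5) (nat_lit 318) (nat_lit 285) (nat_lit 177))))) (XT.nd (nat_lit 234) (nat_lit 760) (nat_lit 0) (XT.nd (nat_lit 78) (nat_lit 532) (nat_lit 0) (XT.lf (nat_lit 0) (nat_lit 4989916668) (nat_lit 456) (nat_lit 7752104906) (nat_lit 532) (nat_lit 2557040303) (nat_lit 119) (nat_lit 5) (nat_lit 125) (nat_lit 5) (nat_lit 126) (nat_lit 5) (nat_lit 319) (nat_lit 285) (nat_lit 176)) (XT.nd (nat_lit 78) (nat_lit 532) (nat_lit 0) (XT.lf (nat_lit 0) (nat_lit 12699013137) (nat_lit 456) (nat_lit 2387211772) (nat_lit 532) (nat_lit 486362519) (nat_lit 119) (nat_lit 5) (nat_lit 125) (nat_lit 5) (nat_lit 126) (nat_lit 5) (nat_lit 320) (nat_lit 285) (nat_lit 175)) (XT.lf (nat_lit 0) (nat_lit 1678175333) (nat_lit 532) (nat_lit 11035264003) (nat_lit 76) (nat_lit 3138505906) (nat_lit 112) (nat_lit 5) (nat_lit 119) (nat_lit 5) (nat_lit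 113) (nat_lit 5) (nat_lit 321) (nat_lit 285) (nat_lit 174)))) (XT.nd (nat_lit 156) (nat_lit 380) (nat_lit 0) (XT.nd (nat_lit 78) (nat_lit 380) (nat_lit 0) (XT.lf (nat_lit 0) (nat_lit 3937533223) (nat_lit 532) (nat_lit 3386717524) (nat_lit 76) (nat_lit 8814115613) (nat_lit 112) (nat_lit 5) (nat_lit 119) (nat_lit 5) (nat_lit 113) (nat_lit 5) (nat_lit 322) (nat_lit 285) (nat_lit 173)) (XT.lf (nat_lit 0) (nat_lit 4565109187) (nat_lit 380) (nat_lit 1730550895) (nat_lit 456) (nat_lit 10136806706) (nat_lit 107) (nat_lit 5) (nat_lit 112) (nat_lit 5) (nat_lit 113) (nat_lit 5) (nat_lit 323) (nat_lit 285) (nat_lit 172))) (XT.nd (nat_lit 78) (nat_lit 380) (nat_lit 0) (XT.lf (nat_lit 0) (nat_lit 8785129062) (nat_lit 456) (nat_lit 3964016396) (nat_lit 76) (nat_lit 3984442671) (nat_lit 107) (nat_lit 5) (nat_lit 113) (nat_lit 5) (nat_lit 108) (nat_lit 5) (nat_lit 324) (nat_lit 285) (nat_lit 171)) (XT.lf (nat_lit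 0) (nat_lit 4226740119) (nat_lit 380) (nat_lit 7167988161) (nat_lit 456) (nat_lit 5647666832) (nat_lit 102) (nat_lit 5) (nat_lit 107) (nat_lit 5) (nat_lit 108) (nat_lit 5) (nat_lit 325) (nat_lit 285) (nat_lit 170))))))) (XT.nd (nat_lit 1014) (nat_lit 1596) (nat_lit 0) (XT.nd (nat_lit 468) (nat_lit 1064) (nat_lit 0) (XT.nd (nat_lit 234) (nat_lit 684) (nat_lit 0) (XT.nd (nat_lit 78) (nat_lit 456) (nat_lit 0) (XT.lf (nat_lit 0) (nat_lit 12729595449) (nat_lit 380) (nat_lit 1380946528) (nat_lit 456) (nat_lit 3249101473) (nat_lit 102) (nat_lit 5) (nat_lit 107) (nat_lit 5) (nat_lit 108) (nat_lit 5) (nat_lit 326) (nat_lit 285) (nat_lit 169)) (XT.nd (nat_lit 78) (nat_lit 76) (nat_lit 0) (XT.lf (nat_lit 0) (nat_lit 3816793735) (nat_lit 380) (nat_lit 13159972902) (nat_lit 456) (nat_lit 707589008) (nat_lit 97) (nat_lit 5) (nat_lit 102) (nat_lit 5) (nat_lit 103) (nat_lit 5) (nat_lit 327) (nat_lit 285) (nat_lit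 168)) (XT.lf (nat_lit 0) (nat_lit 1922082684) (nat_lit 456) (nat_lit 5452843251) (nat_lit 76) (nat_lit 10641870447) (nat_lit 96) (nat_lit 5) (nat_lit 102) (nat_lit 5) (nat_lit 97) (nat_lit 5) (nat_lit 328) (nat_lit 285) (nat_lit 167)))) (XT.nd (nat_lit 78) (nat_lit 304) (nat_lit 0) (XT.lf (nat_lit 0) (nat_lit 3256397427) (nat_lit 380) (nat_lit 1379966647) (nat_lit 456) (nat_lit 13722051124) (nat_lit 91) (nat_lit 5) (nat_lit 96) (nat_lit 5) (nat_lit 97) (nat_lit 5) (nat_lit 329) (nat_lit 285) (nat_lit 166)) (XT.nd (nat_lit 78) (nat_lit 304) (nat_lit 0) (XT.lf (nat_lit 0) (nat_lit 7522574989) (nat_lit 456) (nat_lit 6431207214) (nat_lit 76) (nat_lit 4753798230) (nat_lit 91) (nat_lit 5) (nat_lit 97) (nat_lit 5) (nat_lit 92) (nat_lit 5) (nat_lit 330) (nat_lit 285) (nat_lit 165)) (XT.lf (nat_lit 0) (nat_lit 2521051985) (nat_lit 304) (nat_lit 8001345263) (nat_lit 380) (nat_lit 8544025137) (nat_lit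 87) (nat_lit 5) (nat_lit 91) (nat_lit 5) (nat_lit 92) (nat_lit 5) (nat_lit 331) (nat_lit 285) (nat_lit 164))))) (XT.nd (nat_lit 234) (nat_lit 608) (nat_lit 0) (XT.nd (nat_lit 78) (nat_lit 456) (nat_lit 0) (XT.lf (nat_lit 0) (nat_lit 11859644250) (nat_lit 304) (nat_lit 1806822021) (nat_lit 380) (nat_lit 5767947909) (nat_lit 87) (nat_lit 5) (nat_lit 91) (nat_lit 5) (nat_lit 92) (nat_lit 5) (nat_lit 332) (nat_lit 285) (nat_lit 163)) (XT.nd (nat_lit 78) (nat_lit 76) (nat_lit 0) (XT.lf (nat_lit 0) (nat_lit 1639018016) (nat_lit 380) (nat_lit 15315147593) (nat_lit 456) (nat_lit 2857812667) (nat_lit 82) (nat_lit 5) (nat_lit 87) (nat_lit 5) (nat_lit 88) (nat_lit 5) (nat_lit 333) (nat_lit 285) (nat_lit 162)) (XT.lf (nat_lit 0) (nat_lit 221686185) (nat_lit 456) (nat_lit 8948098896) (nat_lit 76) (nat_lit 11028511538) (nat_lit 81) (nat_lit 5) (nat_lit 87) (nat_lit 5) (nat_lit 82) (nat_lit 5) (nat_lit 334)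 (nat_lit 285) (nat_lit 161)))) (XT.nd (nat_lit 156) (nat_lit 304) (nat_lit 0) (XT.nd (nat_lit 78) (nat_lit 0) (nat_lit 0) (XT.lf (nat_lit 0) (nat_lit 521773019) (nat_lit 304) (nat_lit 2809322109) (nat_lit 380) (nat_lit 17264422393) (nat_lit 77) (nat_lit 5) (nat_lit 81) (nat_lit 5) (nat_lit 82) (nat_lit 5) (nat_lit 335) (nat_lit 285) (nat_lit 160)) (XT.lf (nat_lit 0) (nat_lit 6651086408) (nat_lit 380) (nat_lit 10593401304) (nat_lit 76) (nat_lit 3756658812) (nat_lit 77) (nat_lit 5) (nat_lit 82) (nat_lit 5) (nat_lit 78) (nat_lit 5) (nat_lit 336) (nat_lit 285) (nat_lit 159))) (XT.nd (nat_lit 78) (nat_lit 304) (nat_lit 0) (XT.lf (nat_lit 0) (nat_lit 10088858732) (nat_lit 380) (nat_lit 869822836) (nat_lit 76) (nat_lit 10459727565) (nat_lit 77) (nat_lit 5) (nat_lit 82) (nat_lit 5) (nat_lit 78) (nat_lit 5) (nat_lit 337) (nat_lit 285) (nat_lit 158)) (XT.lf (nat_lit 0) (nat_lit 9314246654) (nat_lit 304)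 (nat_lit 4395698637) (nat_lit 380) (nat_lit 8135848773) (nat_lit 73) (nat_lit 5) (nat_lit 77) (nat_lit 5) (nat_lit 78) (nat_lit 5) (nat_lit 338) (nat_lit 285) (nat_lit 157)))))) (XT.nd (nat_lit 546) (nat_lit 760) (nat_lit 0) (XT.nd (nat_lit 234) (nat_lit 532) (nat_lit 0) (XT.nd (nat_lit 78) (nat_lit 304) (nat_lit 0) (XT.lf (nat_lit 0) (nat_lit 17462021609) (nat_lit 380) (nat_lit 2499975540) (nat_lit 76) (nat_lit 2323342268) (nat_lit 73) (nat_lit 5) (nat_lit 78) (nat_lit 5) (nat_lit 74) (nat_lit 5) (nat_lit 339) (nat_lit 285) (nat_lit 156)) (XT.nd (nat_lit 78) (nat_lit 76) (nat_lit 0) (XT.lf (nat_lit 0) (nat_lit 7931072502) (nat_lit 228) (nat_lit 13506377711) (nat_lit 304) (nat_lit 1297306527) (nat_lit 70) (nat_lit 5) (nat_lit 73) (nat_lit 5) (nat_lit 74) (nat_lit 5) (nat_lit 340) (nat_lit 285) (nat_lit 155)) (XT.lf (nat_lit 0) (nat_lit 2305499559) (nat_lit 304) (nat_lit 4506065444) (nat_lit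 76) (nat_lit 16384930079) (nat_lit 69) (nat_lit 5) (nat_lit 73) (nat_lit 5) (nat_lit 70) (nat_lit 5) (nat_lit 341) (nat_lit 285) (nat_lit 154)))) (XT.nd (nat_lit 156) (nat_lit 228) (nat_lit 0) (XT.nd (nat_lit 78) (nat_lit 0) (nat_lit 0) (XT.lf (nat_lit 0) (nat_lit 6042699555) (nat_lit 380) (nat_lit 17475527559) (nat_lit 76) (nat_lit 151910114) (nat_lit 65) (nat_lit 5) (nat_lit 70) (nat_lit 5) (nat_lit 66) (nat_lit 5) (nat_lit 342) (nat_lit 285) (nat_lit 153)) (XT.lf (nat_lit 0) (nat_lit 9996841914) (nat_lit 380) (nat_lit 6928349660) (nat_lit 76) (nat_lit 7229660544) (nat_lit 65) (nat_lit 5) (nat_lit 70) (nat_lit 5) (nat_lit 66) (nat_lit 5) (nat_lit 343) (nat_lit 285) (nat_lit 152))) (XT.nd (nat_lit 78) (nat_lit 0) (nat_lit 0) (XT.lf (nat_lit 0) (nat_lit 4001175980) (nat_lit 228) (nat_lit 10098576044) (nat_lit 304) (nat_lit 10553460156) (nat_lit 62) (nat_lit 5) (nat_lit 65) (nat_lit 5) (nat_lit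 66) (nat_lit 5) (nat_lit 344) (nat_lit 285) (nat_lit 151)) (XT.lf (nat_lit 0) (nat_lit 15388585883) (nat_lit 228) (nat_lit 2998934711) (nat_lit 304) (nat_lit 6777157113) (nat_lit 62) (nat_lit 5) (nat_lit 65) (nat_lit 5) (nat_lit 66) (nat_lit 5) (nat_lit 345) (nat_lit 285) (nat_lit 150))))) (XT.nd (nat_lit 234) (nat_lit 456) (nat_lit 0) (XT.nd (nat_lit 78) (nat_lit 76) (nat_lit 0) (XT.lf (nat_lit 0) (nat_lit 1400100003) (nat_lit 228) (nat_lit 21450757934) (nat_lit 304) (nat_lit 2839228761) (nat_lit 59) (nat_lit 5) (nat_lit 62) (nat_lit 5) (nat_lit 63) (nat_lit 5) (nat_lit 346) (nat_lit 285) (nat_lit 149)) (XT.nd (nat_lit 78) (nat_lit 0) (nat_lit 0) (XT.lf (nat_lit 0) (nat_lit 1314527405) (nat_lit 304) (nat_lit 13170620225) (nat_lit 76) (nat_lit 11742123508) (nat_lit 58) (nat_lit 5) (nat_lit 62) (nat_lit 5) (nat_lit 59) (nat_lit 5) (nat_lit 347) (nat_lit 285) (nat_lit 148)) (XT.lf (nat_lit 0)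 (nat_lit 5528107894) (nat_lit 304) (nat_lit 1757371220) (nat_lit 76) (nat_lit 19494487270) (nat_lit 58) (nat_lit 5) (nat_lit 62) (nat_lit 5) (nat_lit 59) (nat_lit 5) (nat_lit 348) (nat_lit 285) (nat_lit 147)))) (XT.nd (nat_lit 156) (nat_lit 228) (nat_lit 0) (XT.nd (nat_lit 78) (nat_lit 0) (nat_lit 0) (XT.lf (nat_lit 0) (nat_lit 9960694791) (nat_lit 304) (nat_lit 17162934656) (nat_lit 76) (nat_lit 222841796) (nat_lit 55) (nat_lit 5) (nat_lit 59) (nat_lit 5) (nat_lit 56) (nat_lit 5) (nat_lit 349) (nat_lit 285) (nat_lit 146)) (XT.lf (nat_lit 0) (nat_lit 14608891940) (nat_lit 304) (nat_lit 5494383555) (nat_lit 76) (nat_lit 7824223303) (nat_lit 55) (nat_lit 5) (nat_lit 59) (nat_lit 5) (nat_lit 56) (nat_lit 5) (nat_lit 350) (nat_lit 285) (nat_lit 145))) (XT.nd (nat_lit 78) (nat_lit 0) (nat_lit 0) (XT.lf (nat_lit 0) (nat_lit 6642848479) (nat_lit 228) (nat_lit 12810335318) (nat_lit 304) (nat_lit 9071080258)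 (nat_lit 52) (nat_lit 5) (nat_lit 55) (nat_lit 5) (nat_lit 56) (nat_lit 5) (nat_lit 351) (nat_lit 285) (nat_lit 144)) (XT.lf (nat_lit 0) (nat_lit 19245933309) (nat_lit 228) (nat_lit 5245252449) (nat_lit 304) (nat_lit 4646301226) (nat_lit 52) (nat_lit 5) (nat_lit 55) (nat_lit 5) (nat_lit 56) (nat_lit 5) (nat_lit 352) (nat_lit 285) (nat_lit 143))))))))
noncomputable def xc170 : XT := (XT.nd (nat_lit 2028) (nat_lit 912) (nat_lit 0) (XT.nd (nat_lit 1014) (nat_lit 912) (nat_lit 0) (XT.nd (nat_lit 468) (nat_lit 456) (nat_lit 0) (XT.nd (nat_lit 234) (nat_lit 380) (nat_lit 0) (XT.nd (nat_lit 78) (nat_lit 76) (nat_lit 0) (XT.lf (nat_lit 0) (nat_lit 2470986940) (nat_lit 152) (nat_lit 27250644995) (nat_lit 228) (nat_lit 46241516) (nat_lit 50) (nat_lit 5) (nat_lit 52) (nat_lit 5) (nat_lit 53) (nat_lit 5) (nat_lit 353) (nat_lit 285) (nat_lit 142)) (XT.nd (nat_lit 78) (nat_lit 0) (nat_lit 0) (XT.lf (nat_lit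 0) (nat_lit 4746169576) (nat_lit 228) (nat_lit 15115818188) (nat_lit 76) (nat_lit 10549459246) (nat_lit 49) (nat_lit 5) (nat_lit 52) (nat_lit 5) (nat_lit 50) (nat_lit 5) (nat_lit 354) (nat_lit 285) (nat_lit 141)) (XT.lf (nat_lit 0) (nat_lit 9674721115) (nat_lit 228) (nat_lit 2580252700) (nat_lit 76) (nat_lit 18819546767) (nat_lit 49) (nat_lit 5) (nat_lit 52) (nat_lit 5) (nat_lit 50) (nat_lit 5) (nat_lit 355) (nat_lit 285) (nat_lit 140)))) (XT.nd (nat_lit 78) (nat_lit 152) (nat_lit 0) (XT.lf (nat_lit 0) (nat_lit 10526620134) (nat_lit 228) (nat_lit 4319190117) (nat_lit 304) (nat_lit 16908840988) (nat_lit 46) (nat_lit 5) (nat_lit 49) (nat_lit 5) (nat_lit 50) (nat_lit 5) (nat_lit 356) (nat_lit 285) (nat_lit 139)) (XT.nd (nat_lit 78) (nat_lit 152) (nat_lit 0) (XT.lf (nat_lit 0) (nat_lit 20228949241) (nat_lit 304) (nat_lit 8422358339) (nat_lit 76) (nat_lit 3802175875) (nat_lit 46) (nat_lit 5) (nat_lit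 50) (nat_lit 5) (nat_lit 47) (nat_lit 5) (nat_lit 357) (nat_lit 285) (nat_lit 138)) (XT.lf (nat_lit 0) (nat_lit 4808617289) (nat_lit 152) (nat_lit 21047690887) (nat_lit 228) (nat_lit 7314495692) (nat_lit 44) (nat_lit 5) (nat_lit 46) (nat_lit 5) (nat_lit 47) (nat_lit 5) (nat_lit 358) (nat_lit 285) (nat_lit 137))))) (XT.nd (nat_lit 234) (nat_lit 152) (nat_lit 0) (XT.nd (nat_lit 78) (nat_lit 304) (nat_lit 0) (XT.lf (nat_lit 0) (nat_lit 18599333189) (nat_lit 152) (nat_lit 13132029949) (nat_lit 228) (nat_lit 2175919358) (nat_lit 44) (nat_lit 5) (nat_lit 46) (nat_lit 5) (nat_lit 47) (nat_lit 5) (nat_lit 359) (nat_lit 285) (nat_lit 136)) (XT.nd (nat_lit 78) (nat_lit 228) (nat_lit 0) (XT.lf (nat_lit 0) (nat_lit 3049935798) (nat_lit 228) (nat_lit 1901723303) (nat_lit 76) (nat_lit 29713483884) (nat_lit 43) (nat_lit 5) (nat_lit 46) (nat_lit 5) (nat_lit 44) (nat_lit 5) (nat_lit 360) (nat_lit 285) (nat_lit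 135)) (XT.lf (nat_lit 0) (nat_lit 8534107645) (nat_lit 304) (nat_lit 23364408044) (nat_lit 76) (nat_lit 3542223488) (nat_lit 40) (nat_lit 5) (nat_lit 44) (nat_lit 5) (nat_lit 41) (nat_lit 5) (nat_lit 361) (nat_lit 285) (nat_lit 134)))) (XT.nd (nat_lit 156) (nat_lit 0) (nat_lit 0) (XT.nd (nat_lit 78) (nat_lit 152) (nat_lit 0) (XT.lf (nat_lit 0) (nat_lit 14245391244) (nat_lit 304) (nat_lit 9784981245) (nat_lit 76) (nat_lit 12207357485) (nat_lit 40) (nat_lit 5) (nat_lit 44) (nat_lit 5) (nat_lit 41) (nat_lit 5) (nat_lit 362) (nat_lit 285) (nat_lit 133)) (XT.lf (nat_lit 0) (nat_lit 4276097306) (nat_lit 152) (nat_lit 15887356873) (nat_lit 228) (nat_lit 16894117282) (nat_lit 38) (nat_lit 5) (nat_lit 40) (nat_lit 5) (nat_lit 41) (nat_lit 5) (nat_lit 363) (nat_lit 285) (nat_lit 132))) (XT.nd (nat_lit 78) (nat_lit 0) (nat_lit 0) (XT.lf (nat_lit 0) (nat_lit 18950507558) (nat_lit 152) (nat_lit 7401774583)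 (nat_lit 228) (nat_lit 11546933426) (nat_lit 38) (nat_lit 5) (nat_lit 40) (nat_lit 5) (nat_lit 41) (nat_lit 5) (nat_lit 364) (nat_lit 285) (nat_lit 131)) (XT.lf (nat_lit 0) (nat_lit 32734184297) (nat_lit 228) (nat_lit 4722776791) (nat_lit 76) (nat_lit 1308929579) (nat_lit 38) (nat_lit 5) (nat_lit 41) (nat_lit 5) (nat_lit 39) (nat_lit 5) (nat_lit 365) (nat_lit 285) (nat_lit 130)))))) (XT.nd (nat_lit 468) (nat_lit 380) (nat_lit 0) (XT.nd (nat_lit 234) (nat_lit 304) (nat_lit 0) (XT.nd (nat_lit 78) (nat_lit 76) (nat_lit 0) (XT.lf (nat_lit 0) (nat_lit 10043949217) (nat_lit 152) (nat_lit 29428130764) (nat_lit 228) (nat_lit 181553779) (nat_lit 36) (nat_lit 5) (nat_lit 38) (nat_lit 5) (nat_lit 39) (nat_lit 5) (nat_lit 366) (nat_lit 285) (nat_lit 129)) (XT.nd (nat_lit 78) (nat_lit 0) (nat_lit 0) (XT.lf (nat_lit 0) (nat_lit 5772945999) (nat_lit 228) (nat_lit 15281453782) (nat_lit 76) (nat_lit 19510641206)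 (nat_lit 35) (nat_lit 5) (nat_lit 38) (nat_lit 5) (nat_lit 36) (nat_lit 5) (nat_lit 367) (nat_lit 285) (nat_lit 128)) (XT.lf (nat_lit 0) (nat_lit 11897304677) (nat_lit 228) (nat_lit 533635188) (nat_lit 76) (nat_lit 29072953958) (nat_lit 35) (nat_lit 5) (nat_lit 38) (nat_lit 5) (nat_lit 36) (nat_lit 5) (nat_lit 368) (nat_lit 285) (nat_lit 127)))) (XT.nd (nat_lit 78) (nat_lit 152) (nat_lit 0) (XT.lf (nat_lit 0) (nat_lit 14939934826) (nat_lit 152) (nat_lit 3404093370) (nat_lit 228) (nat_lit 24122728434) (nat_lit 33) (nat_lit 5) (nat_lit 35) (nat_lit 5) (nat_lit 36) (nat_lit 5) (nat_lit 369) (nat_lit 285) (nat_lit 126)) (XT.nd (nat_lit 78) (nat_lit 152) (nat_lit 0) (XT.lf (nat_lit 0) (nat_lit 25041306022) (nat_lit 228) (nat_lit 12634652752) (nat_lit 76) (nat_lit 5780835278) (nat_lit 33) (nat_lit 5) (nat_lit 36) (nat_lit 5) (nat_lit 34) (nat_lit 5) (nat_lit 370) (nat_lit 285) (nat_lit 125)) (XT.lf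 (nat_lit 0) (nat_lit 2715553943) (nat_lit 152) (nat_lit 29278957728) (nat_lit 228) (nat_lit 12480373854) (nat_lit 31) (nat_lit 5) (nat_lit 33) (nat_lit 5) (nat_lit 34) (nat_lit 5) (nat_lit 371) (nat_lit 285) (nat_lit 124))))) (XT.nd (nat_lit 234) (nat_lit 152) (nat_lit 0) (XT.nd (nat_lit 78) (nat_lit 228) (nat_lit 0) (XT.lf (nat_lit 0) (nat_lit 18777329627) (nat_lit 152) (nat_lit 20501834577) (nat_lit 228) (nat_lit 6240673133) (nat_lit 31) (nat_lit 5) (nat_lit 33) (nat_lit 5) (nat_lit 34) (nat_lit 5) (nat_lit 372) (nat_lit 285) (nat_lit 123)) (XT.nd (nat_lit 78) (nat_lit 152) (nat_lit 0) (XT.lf (nat_lit 0) (nat_lit 177939727) (nat_lit 228) (nat_lit 11284768640) (nat_lit 76) (nat_lit 35133517929) (nat_lit 30) (nat_lit 5) (nat_lit 33) (nat_lit 5) (nat_lit 31) (nat_lit 5) (nat_lit 373) (nat_lit 285) (nat_lit 122)) (XT.lf (nat_lit 0) (nat_lit 4658240509) (nat_lit 152) (nat_lit 2045707179) (nat_lit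 228) (nat_lit 40997900381) (nat_lit 28) (nat_lit 5) (nat_lit 30) (nat_lit 5) (nat_lit 31) (nat_lit 5) (nat_lit 374) (nat_lit 285) (nat_lit 121)))) (XT.nd (nat_lit 156) (nat_lit 152) (nat_lit 0) (XT.nd (nat_lit 78) (nat_lit 0) (nat_lit 0) (XT.lf (nat_lit 0) (nat_lit 13609911421) (nat_lit 228) (nat_lit 27608659606) (nat_lit 76) (nat_lit 7616544974) (nat_lit 28) (nat_lit 5) (nat_lit 31) (nat_lit 5) (nat_lit 29) (nat_lit 5) (nat_lit 375) (nat_lit 285) (nat_lit 120)) (XT.lf (nat_lit 0) (nat_lit 20738959263) (nat_lit 228) (nat_lit 11738301287) (nat_lit 76) (nat_lit 17524646955) (nat_lit 28) (nat_lit 5) (nat_lit 31) (nat_lit 5) (nat_lit 29) (nat_lit 5) (nat_lit 376) (nat_lit 285) (nat_lit 119))) (XT.nd (nat_lit 78) (nat_lit 0) (nat_lit 0) (XT.lf (nat_lit 0) (nat_lit 4692568196) (nat_lit 152) (nat_lit 23430195530) (nat_lit 228) (nat_lit 23079715084) (nat_lit 26) (nat_lit 5) (nat_lit 28) (nat_lit 5)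 (nat_lit 29) (nat_lit 5) (nat_lit 377) (nat_lit 285) (nat_lit 118)) (XT.lf (nat_lit 0) (nat_lit 21849889219) (nat_lit 152) (nat_lit 13992559039) (nat_lit 228) (nat_lit 16593190554) (nat_lit 26) (nat_lit 5) (nat_lit 28) (nat_lit 5) (nat_lit 29) (nat_lit 5) (nat_lit 378) (nat_lit 285) (nat_lit 117))))))) (XT.nd (nat_lit 1014) (nat_lit 304) (nat_lit 0) (XT.nd (nat_lit 468) (nat_lit 304) (nat_lit 0) (XT.nd (nat_lit 234) (nat_lit 152) (nat_lit 0) (XT.nd (nat_lit 78) (nat_lit 152) (nat_lit 0) (XT.lf (nat_lit 0) (nat_lit 39515038404) (nat_lit 152) (nat_lit 4274638425) (nat_lit 228) (nat_lit 9916240642) (nat_lit 26) (nat_lit 5) (nat_lit 28) (nat_lit 5) (nat_lit 29) (nat_lit 5) (nat_lit 379) (nat_lit 285) (nat_lit 116)) (XT.nd (nat_lit 78) (nat_lit 76) (nat_lit 0) (XT.lf (nat_lit 0) (nat_lit 2686346835) (nat_lit 76) (nat_lit 49365969638) (nat_lit 152) (nat_lit 2959680581) (nat_lit 25) (nat_lit 5) (nat_lit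 26) (nat_lit 5) (nat_lit 27) (nat_lit 4) (nat_lit 380) (nat_lit 285) (nat_lit 115)) (XT.lf (nat_lit 0) (nat_lit 4306606859) (nat_lit 152) (nat_lit 36083138642) (nat_lit 76) (nat_lit 15960810082) (nat_lit 24) (nat_lit 5) (nat_lit 26) (nat_lit 5) (nat_lit 25) (nat_lit 5) (nat_lit 381) (nat_lit 285) (nat_lit 114)))) (XT.nd (nat_lit 78) (nat_lit 152) (nat_lit 0) (XT.lf (nat_lit 0) (nat_lit 11727565690) (nat_lit 152) (nat_lit 19389256173) (nat_lit 76) (nat_lit 26611686998) (nat_lit 24) (nat_lit 5) (nat_lit 26) (nat_lit 5) (nat_lit 25) (nat_lit 5) (nat_lit 382) (nat_lit 285) (nat_lit 113)) (XT.nd (nat_lit 78) (nat_lit 152) (nat_lit 0) (XT.lf (nat_lit 0) (nat_lit 19367434273) (nat_lit 152) (nat_lit 2200965662) (nat_lit 76) (nat_lit 37579514496) (nat_lit 24) (nat_lit 5) (nat_lit 26) (nat_lit 5) (nat_lit 25) (nat_lit 5) (nat_lit 383) (nat_lit 285) (nat_lit 112)) (XT.lf (nat_lit 0) (nat_lit 15805167529)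 (nat_lit 152) (nat_lit 11579649631) (nat_lit 228) (nat_lit 33220637522) (nat_lit 22) (nat_lit 5) (nat_lit 24) (nat_lit 5) (nat_lit 25) (nat_lit 5) (nat_lit 384) (nat_lit 285) (nat_lit 111))))) (XT.nd (nat_lit 234) (nat_lit 228) (nat_lit 0) (XT.nd (nat_lit 78) (nat_lit 76) (nat_lit 0) (XT.lf (nat_lit 0) (nat_lit 34390441573) (nat_lit 152) (nat_lit 1270940651) (nat_lit 228) (nat_lit 26444781098) (nat_lit 22) (nat_lit 5) (nat_lit 24) (nat_lit 5) (nat_lit 25) (nat_lit 5) (nat_lit 385) (nat_lit 285) (nat_lit 110)) (XT.nd (nat_lit 78) (nat_lit 76) (nat_lit 0) (XT.lf (nat_lit 0) (nat_lit 44272608460) (nat_lit 228) (nat_lit 10214531633) (nat_lit 76) (nat_lit 9162164145) (nat_lit 22) (nat_lit 5) (nat_lit 25) (nat_lit 5) (nat_lit 23) (nat_lit 4) (nat_lit 386) (nat_lit 285) (nat_lit 109)) (XT.lf (nat_lit 0) (nat_lit 7948324762) (nat_lit 76) (nat_lit 45279450811) (nat_lit 152) (nat_lit 12008397571) (nat_lit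 21) (nat_lit 5) (nat_lit 22) (nat_lit 5) (nat_lit 23) (nat_lit 4) (nat_lit 387) (nat_lit 285) (nat_lit 108)))) (XT.nd (nat_lit 156) (nat_lit 152) (nat_lit 0) (XT.nd (nat_lit 78) (nat_lit 76) (nat_lit 0) (XT.lf (nat_lit 0) (nat_lit 26859626148) (nat_lit 76) (nat_lit 35691777180) (nat_lit 152) (nat_lit 4316252454) (nat_lit 21) (nat_lit 5) (nat_lit 22) (nat_lit 5) (nat_lit 23) (nat_lit 4) (nat_lit 388) (nat_lit 285) (nat_lit 107)) (XT.lf (nat_lit 0) (nat_lit 3533000486) (nat_lit 152) (nat_lit 22250211499) (nat_lit 76) (nat_lit 42763930889) (nat_lit 20) (nat_lit 5) (nat_lit 22) (nat_lit 5) (nat_lit 21) (nat_lit 5) (nat_lit 389) (nat_lit 285) (nat_lit 106))) (XT.nd (nat_lit 78) (nat_lit 152) (nat_lit 0) (XT.lf (nat_lit 0) (nat_lit 11527796420) (nat_lit 152) (nat_lit 4007953003) (nat_lit 76) (nat_lit 54740080242) (nat_lit 20) (nat_lit 5) (nat_lit 22) (nat_lit 5) (nat_lit 21) (nat_lit 5) (nat_lit 390)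 (nat_lit 285) (nat_lit 105)) (XT.lf (nat_lit 0) (nat_lit 15070251028) (nat_lit 152) (nat_lit 4833960166) (nat_lit 228) (nat_lit 52147914244) (nat_lit 18) (nat_lit 5) (nat_lit 20) (nat_lit 5) (nat_lit 21) (nat_lit 5) (nat_lit 391) (nat_lit 285) (nat_lit 104)))))) (XT.nd (nat_lit 468) (nat_lit 228) (nat_lit 0) (XT.nd (nat_lit 234) (nat_lit 76) (nat_lit 0) (XT.nd (nat_lit 78) (nat_lit 0) (nat_lit 0) (XT.lf (nat_lit 0) (nat_lit 28629209984) (nat_lit 228) (nat_lit 39142842916) (nat_lit 76) (nat_lit 6106740018) (nat_lit 18) (nat_lit 5) (nat_lit 21) (nat_lit 5) (nat_lit 19) (nat_lit 4) (nat_lit 392) (nat_lit 285) (nat_lit 103)) (XT.nd (nat_lit 78) (nat_lit 0) (nat_lit 0) (XT.lf (nat_lit 0) (nat_lit 37660836292) (nat_lit 228) (nat_lit 20821758990) (nat_lit 76) (nat_lit 17276320348) (nat_lit 18) (nat_lit 5) (nat_lit 21) (nat_lit 5) (nat_lit 19) (nat_lit 4) (nat_lit 393) (nat_lit 285) (nat_lit 102)) (XT.lf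 (nat_lit 0) (nat_lit 46960514849) (nat_lit 228) (nat_lit 1956146937) (nat_lit 76) (nat_lit 28778868623) (nat_lit 18) (nat_lit 5) (nat_lit 21) (nat_lit 5) (nat_lit 19) (nat_lit 4) (nat_lit 394) (nat_lit 285) (nat_lit 101)))) (XT.nd (nat_lit 78) (nat_lit 0) (nat_lit 0) (XT.lf (nat_lit 0) (nat_lit 17818174522) (nat_lit 76) (nat_lit 38889476259) (nat_lit 152) (nat_lit 22977540285) (nat_lit 17) (nat_lit 5) (nat_lit 18) (nat_lit 5) (nat_lit 19) (nat_lit 4) (nat_lit 395) (nat_lit 285) (nat_lit 100)) (XT.nd (nat_lit 78) (nat_lit 0) (nat_lit 0) (XT.lf (nat_lit 0) (nat_lit 38220917587) (nat_lit 76) (nat_lit 28543259015) (nat_lit 152) (nat_lit 14969857071) (nat_lit 17) (nat_lit 5) (nat_lit 18) (nat_lit 5) (nat_lit 19) (nat_lit 4) (nat_lit 396) (nat_lit 285) (nat_lit 99)) (XT.lf (nat_lit 0) (nat_lit 59230978737) (nat_lit 76) (nat_lit 17888722920) (nat_lit 152) (nat_lit 6724722161) (nat_lit 17) (nat_lit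 5) (nat_lit 18) (nat_lit 5) (nat_lit 19) (nat_lit 4) (nat_lit 397) (nat_lit 285) (nat_lit 98))))) (XT.nd (nat_lit 31902) (nat_lit 0) (nat_lit 14516) (XT.nd (nat_lit 78) (nat_lit 152) (nat_lit 0) (XT.lf (nat_lit 0) (nat_lit 1730626078) (nat_lit 152) (nat_lit 5168456175) (nat_lit 76) (nat_lit 79118614268) (nat_lit 16) (nat_lit 5) (nat_lit 18) (nat_lit 5) (nat_lit 17) (nat_lit 5) (nat_lit 398) (nat_lit 285) (nat_lit 97)) (XT.nd (nat_lit 78) (nat_lit 0) (nat_lit 0) (XT.lf (nat_lit 0) (nat_lit 10491460042) (nat_lit 228) (nat_lit 73211381320) (nat_lit 76) (nat_lit 4545720284) (nat_lit 14) (nat_lit 5) (nat_lit 17) (nat_lit 5) (nat_lit 15) (nat_lit 4) (nat_lit 399) (nat_lit 285) (nat_lit 96)) (XT.lf (nat_lit 0) (nat_lit 19633579313) (nat_lit 228) (nat_lit 54663234260) (nat_lit 76) (nat_lit 16245986555) (nat_lit 14) (nat_lit 5) (nat_lit 17) (nat_lit 5) (nat_lit 15) (nat_lit 4) (nat_lit 400) (nat_lit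 285) (nat_lit 95)))) (XT.nd (nat_lit 156) (nat_lit 0) (nat_lit 0) (XT.nd (nat_lit 78) (nat_lit 0) (nat_lit 0) (XT.lf (nat_lit 0) (nat_lit 760844630) (nat_lit 0) (nat_lit 760844630) (nat_lit 988) (nat_lit 3173454205) (nat_lit 205) (nat_lit 5) (nat_lit 205) (nat_lit 3) (nat_lit 218) (nat_lit 3) (nat_lit 286) (nat_lit 286) (nat_lit 208)) (XT.lf (nat_lit 0) (nat_lit 3873341910) (nat_lit 988) (nat_lit 3711068225) (nat_lit 1064) (nat_lit 1921915583) (nat_lit 205) (nat_lit 5) (nat_lit 218) (nat_lit 3) (nat_lit 219) (nat_lit 5) (nat_lit 287) (nat_lit 286) (nat_lit 207))) (XT.nd (nat_lit 78) (nat_lit 0) (nat_lit 0) (XT.lf (nat_lit 76) (nat_lit 550842709) (nat_lit 0) (nat_lit 4167992172) (nat_lit 1064) (nat_lit 4907342062) (nat_lit 206) (nat_lit 5) (nat_lit 205) (nat_lit 5) (nat_lit 219) (nat_lit 5) (nat_lit 288) (nat_lit 286) (nat_lit 206)) (XT.lf (nat_lit 76) (nat_lit 5000814273) (nat_lit 0) (nat_lit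 597335685) (nat_lit 1064) (nat_lit 4151268759) (nat_lit 206) (nat_lit 5) (nat_lit 205) (nat_lit 5) (nat_lit 219) (nat_lit 5) (nat_lit 289) (nat_lit 286) (nat_lit 205))))))))
noncomputable def xc171 : XT := (XT.nd (nat_lit 2028) (nat_lit 5168) (nat_lit 0) (XT.nd (nat_lit 1014) (nat_lit 4256) (nat_lit 0) (XT.nd (nat_lit 468) (nat_lit 0) (nat_lit 76) (XT.nd (nat_lit 234) (nat_lit 988) (nat_lit 0) (XT.nd (nat_lit 78) (nat_lit 0) (nat_lit 0) (XT.lf (nat_lit 0) (nat_lit 6505406229) (nat_lit 988) (nat_lit 338106741) (nat_lit 1064) (nat_lit 3032845237) (nat_lit 206) (nat_lit 5) (nat_lit 219) (nat_lit 5) (nat_lit 220) (nat_lit 5) (nat_lit 290) (nat_lit 286) (nat_lit 204)) (XT.nd (nat_lit 78) (nat_lit 0) (nat_lit 76) (XT.lf (nat_lit 76) (nat_lit 4266093975) (nat_lit 0) (nat_lit 3193476364) (nat_lit 1064) (nat_lit 2546990770) (nat_lit 207) (nat_lit 5) (nat_lit 206) (nat_lit 5) (nat_lit 220) (nat_lit 5)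 (nat_lit 291) (nat_lit 286) (nat_lit 203)) (XT.lf (nat_lit 0) (nat_lit 8424761606) (nat_lit 988) (nat_lit 1147425648) (nat_lit 1064) (nat_lit 569055375) (nat_lit 207) (nat_lit 5) (nat_lit 220) (nat_lit 5) (nat_lit 221) (nat_lit 5) (nat_lit 292) (nat_lit 286) (nat_lit 202)))) (XT.nd (nat_lit 78) (nat_lit 1064) (nat_lit 0) (XT.lf (nat_lit 76) (nat_lit 3605905710) (nat_lit 0) (nat_lit 5853568003) (nat_lit 1064) (nat_lit 819317227) (nat_lit 208) (nat_lit 5) (nat_lit 207) (nat_lit 5) (nat_lit 221) (nat_lit 5) (nat_lit 293) (nat_lit 286) (nat_lit 201)) (XT.nd (nat_lit 78) (nat_lit 0) (nat_lit 76) (XT.lf (nat_lit 0) (nat_lit 89007445) (nat_lit 1064) (nat_lit 1912516003) (nat_lit 1140) (nat_lit 8419364147) (nat_lit 193) (nat_lit 5) (nat_lit 207) (nat_lit 5) (nat_lit 208) (nat_lit 5) (nat_lit 294) (nat_lit 286) (nat_lit 200)) (XT.lf (nat_lit 0) (nat_lit 1031875031) (nat_lit 1064) (nat_lit 7560820731)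 (nat_lit 1140) (nat_lit 1973634830) (nat_lit 194) (nat_lit 5) (nat_lit 208) (nat_lit 5) (nat_lit 209) (nat_lit 5) (nat_lit 295) (nat_lit 286) (nat_lit 199))))) (XT.nd (nat_lit 234) (nat_lit 0) (nat_lit 76) (XT.nd (nat_lit 78) (nat_lit 0) (nat_lit 0) (XT.lf (nat_lit 0) (nat_lit 2018321344) (nat_lit 1064) (nat_lit 2642115673) (nat_lit 1140) (nat_lit 6055279551) (nat_lit 194) (nat_lit 5) (nat_lit 208) (nat_lit 5) (nat_lit 209) (nat_lit 5) (nat_lit 296) (nat_lit 286) (nat_lit 198)) (XT.nd (nat_lit 78) (nat_lit 0) (nat_lit 76) (XT.lf (nat_lit 76) (nat_lit 2455729794) (nat_lit 0) (nat_lit 578908842) (nat_lit 1140) (nat_lit 7834974509) (nat_lit 195) (nat_lit 5) (nat_lit 194) (nat_lit 5) (nat_lit 209) (nat_lit 5) (nat_lit 297) (nat_lit 286) (nat_lit 197)) (XT.lf (nat_lit 0) (nat_lit 4120495352) (nat_lit 1064) (nat_lit 3318730049) (nat_lit 1140) (nat_lit 3587765983) (nat_lit 195) (nat_lit 5) (nat_lit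 209) (nat_lit 5) (nat_lit 210) (nat_lit 5) (nat_lit 298) (nat_lit 286) (nat_lit 196)))) (XT.nd (nat_lit 156) (nat_lit 0) (nat_lit 76) (XT.nd (nat_lit 78) (nat_lit 0) (nat_lit 76) (XT.lf (nat_lit 76) (nat_lit 1945030004) (nat_lit 0) (nat_lit 3296247920) (nat_lit 1140) (nat_lit 5947777747) (nat_lit 196) (nat_lit 5) (nat_lit 195) (nat_lit 5) (nat_lit 210) (nat_lit 5) (nat_lit 299) (nat_lit 286) (nat_lit 195)) (XT.lf (nat_lit 0) (nat_lit 6417321112) (nat_lit 1064) (nat_lit 3946950640) (nat_lit 1140) (nat_lit 991095198) (nat_lit 196) (nat_lit 5) (nat_lit 210) (nat_lit 5) (nat_lit 211) (nat_lit 5) (nat_lit 300) (nat_lit 286) (nat_lit 194))) (XT.nd (nat_lit 78) (nat_lit 0) (nat_lit 0) (XT.lf (nat_lit 76) (nat_lit 1488908991) (nat_lit 0) (nat_lit 6165771082) (nat_lit 1140) (nat_lit 3871239646) (nat_lit 197) (nat_lit 5) (nat_lit 196) (nat_lit 5) (nat_lit 211) (nat_lit 5) (nat_lit 301) (nat_lit 286) (nat_lit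 193)) (XT.lf (nat_lit 76) (nat_lit 7152369737) (nat_lit 0) (nat_lit 1796184242) (nat_lit 1140) (nat_lit 2752485485) (nat_lit 197) (nat_lit 5) (nat_lit 196) (nat_lit 5) (nat_lit 211) (nat_lit 5) (nat_lit 302) (nat_lit 286) (nat_lit 192)))))) (XT.nd (nat_lit 468) (nat_lit 1748) (nat_lit 0) (XT.nd (nat_lit 234) (nat_lit 532) (nat_lit 0) (XT.nd (nat_lit 78) (nat_lit 1216) (nat_lit 0) (XT.lf (nat_lit 0) (nat_lit 1082883805) (nat_lit 1064) (nat_lit 9214938622) (nat_lit 1140) (nat_lit 1583124302) (nat_lit 183) (nat_lit 5) (nat_lit 197) (nat_lit 5) (nat_lit 198) (nat_lit 5) (nat_lit 303) (nat_lit 286) (nat_lit 191)) (XT.nd (nat_lit 78) (nat_lit 1216) (nat_lit 0) (XT.lf (nat_lit 0) (nat_lit 6942080295) (nat_lit 1064) (nat_lit 4789622488) (nat_lit 1140) (nat_lit 333254785) (nat_lit 183) (nat_lit 5) (nat_lit 197) (nat_lit 5) (nat_lit 198) (nat_lit 5) (nat_lit 304) (nat_lit 286) (nat_lit 190)) (XT.lf (nat_lit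 0) (nat_lit 710926203) (nat_lit 1140) (nat_lit 212341712) (nat_lit 1216) (nat_lit 11331341039) (nat_lit 167) (nat_lit 5) (nat_lit 182) (nat_lit 5) (nat_lit 183) (nat_lit 5) (nat_lit 305) (nat_lit 286) (nat_lit 189)))) (XT.nd (nat_lit 78) (nat_lit 532) (nat_lit 0) (XT.lf (nat_lit 0) (nat_lit 2287674667) (nat_lit 1216) (nat_lit 5687520595) (nat_lit 76) (nat_lit 4472376829) (nat_lit 167) (nat_lit 5) (nat_lit 183) (nat_lit 5) (nat_lit 168) (nat_lit 5) (nat_lit 306) (nat_lit 286) (nat_lit 188)) (XT.nd (nat_lit 78) (nat_lit 0) (nat_lit 0) (XT.lf (nat_lit 0) (nat_lit 332409372) (nat_lit 532) (nat_lit 3347809541) (nat_lit 608) (nat_lit 8966516033) (nat_lit 160) (nat_lit 5) (nat_lit 167) (nat_lit 5) (nat_lit 168) (nat_lit 5) (nat_lit 307) (nat_lit 286) (nat_lit 187)) (XT.lf (nat_lit 0) (nat_lit 5168470005) (nat_lit 608) (nat_lit 6231541358) (nat_lit 76) (nat_lit 1450269605) (nat_lit 160) (nat_lit 5)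 (nat_lit 168) (nat_lit 5) (nat_lit 161) (nat_lit 5) (nat_lit 308) (nat_lit 286) (nat_lit 186))))) (XT.nd (nat_lit 234) (nat_lit 1140) (nat_lit 0) (XT.nd (nat_lit 78) (nat_lit 608) (nat_lit 0) (XT.lf (nat_lit 0) (nat_lit 6717325511) (nat_lit 608) (nat_lit 15647760) (nat_lit 76) (nat_lit 6326506824) (nat_lit 160) (nat_lit 5) (nat_lit 168) (nat_lit 5) (nat_lit 161) (nat_lit 5) (nat_lit 309) (nat_lit 286) (nat_lit 185)) (XT.nd (nat_lit 78) (nat_lit 0) (nat_lit 0) (XT.lf (nat_lit 0) (nat_lit 6497762524) (nat_lit 608) (nat_lit 1860655554) (nat_lit 684) (nat_lit 4915188672) (nat_lit 152) (nat_lit 5) (nat_lit 160) (nat_lit 5) (nat_lit 161) (nat_lit 5) (nat_lit 310) (nat_lit 286) (nat_lit 184)) (XT.lf (nat_lit 0) (nat_lit 10062912296) (nat_lit 684) (nat_lit 333735361) (nat_lit 76) (nat_lit 3097108451) (nat_lit 152) (nat_lit 5) (nat_lit 161) (nat_lit 5) (nat_lit 153) (nat_lit 5) (nat_lit 311) (nat_lit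 286) (nat_lit 183)))) (XT.nd (nat_lit 156) (nat_lit 608) (nat_lit 0) (XT.nd (nat_lit 78) (nat_lit 0) (nat_lit 0) (XT.lf (nat_lit 0) (nat_lit 6392298578) (nat_lit 532) (nat_lit 5490242157) (nat_lit 608) (nat_lit 1836072506) (nat_lit 145) (nat_lit 5) (nat_lit 152) (nat_lit 5) (nat_lit 153) (nat_lit 5) (nat_lit 312) (nat_lit 286) (nat_lit 182)) (XT.lf (nat_lit 0) (nat_lit 13311455613) (nat_lit 532) (nat_lit 433116099) (nat_lit 608) (nat_lit 206032562) (nat_lit 145) (nat_lit 5) (nat_lit 152) (nat_lit 5) (nat_lit 153) (nat_lit 5) (nat_lit 313) (nat_lit 286) (nat_lit 181))) (XT.nd (nat_lit 78) (nat_lit 0) (nat_lit 0) (XT.lf (nat_lit 0) (nat_lit 1536514158) (nat_lit 608) (nat_lit 7891557665) (nat_lit 76) (nat_lit 4758309341) (nat_lit 137) (nat_lit 5) (nat_lit 145) (nat_lit 5) (nat_lit 138) (nat_lit 5) (nat_lit 314) (nat_lit 286) (nat_lit 180)) (XT.lf (nat_lit 0) (nat_lit 3323024409) (nat_lit 608) (nat_lit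 1001202990) (nat_lit 76) (nat_lit 10105088597) (nat_lit 137) (nat_lit 5) (nat_lit 145) (nat_lit 5) (nat_lit 138) (nat_lit 5) (nat_lit 315) (nat_lit 286) (nat_lit 179))))))) (XT.nd (nat_lit 1014) (nat_lit 2128) (nat_lit 0) (XT.nd (nat_lit 468) (nat_lit 1596) (nat_lit 0) (XT.nd (nat_lit 234) (nat_lit 532) (nat_lit 0) (XT.nd (nat_lit 78) (nat_lit 456) (nat_lit 0) (XT.lf (nat_lit 0) (nat_lit 5217751678) (nat_lit 532) (nat_lit 8486110510) (nat_lit 76) (nat_lit 974058110) (nat_lit 131) (nat_lit 5) (nat_lit 138) (nat_lit 5) (nat_lit 132) (nat_lit 5) (nat_lit 316) (nat_lit 286) (nat_lit 178)) (XT.nd (nat_lit 78) (nat_lit 456) (nat_lit 0) (XT.lf (nat_lit 0) (nat_lit 7208073966) (nat_lit 532) (nat_lit 1370980100) (nat_lit 76) (nat_lit 6353785561) (nat_lit 131) (nat_lit 5) (nat_lit 138) (nat_lit 5) (nat_lit 132) (nat_lit 5) (nat_lit 317) (nat_lit 286) (nat_lit 177)) (XT.lf (nat_lit 0) (nat_lit 6060801341)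 (nat_lit 456) (nat_lit 3241709158) (nat_lit 532) (nat_lit 5891582823) (nat_lit 125) (nat_lit 5) (nat_lit 131) (nat_lit 5) (nat_lit 132) (nat_lit 5) (nat_lit 318) (nat_lit 286) (nat_lit 176)))) (XT.nd (nat_lit 78) (nat_lit 532) (nat_lit 0) (XT.lf (nat_lit 0) (nat_lit 11481836912) (nat_lit 532) (nat_lit 1756286770) (nat_lit 76) (nat_lit 2224417616) (nat_lit 125) (nat_lit 5) (nat_lit 132) (nat_lit 5) (nat_lit 126) (nat_lit 5) (nat_lit 319) (nat_lit 286) (nat_lit 175)) (XT.nd (nat_lit 78) (nat_lit 76) (nat_lit 0) (XT.lf (nat_lit 0) (nat_lit 5910375210) (nat_lit 456) (nat_lit 7891866326) (nat_lit 532) (nat_lit 1934548063) (nat_lit 119) (nat_lit 5) (nat_lit 125) (nat_lit 5) (nat_lit 126) (nat_lit 5) (nat_lit 320) (nat_lit 286) (nat_lit 174)) (XT.lf (nat_lit 0) (nat_lit 174413729) (nat_lit 532) (nat_lit 2192554395) (nat_lit 76) (nat_lit 13652120257) (nat_lit 118) (nat_lit 5) (nat_lit 125) (nat_lit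 5) (nat_lit 119) (nat_lit 5) (nat_lit 321) (nat_lit 286) (nat_lit 173))))) (XT.nd (nat_lit 234) (nat_lit 760) (nat_lit 0) (XT.nd (nat_lit 78) (nat_lit 380) (nat_lit 0) (XT.lf (nat_lit 0) (nat_lit 2382958498) (nat_lit 532) (nat_lit 10591927925) (nat_lit 76) (nat_lit 3332155511) (nat_lit 112) (nat_lit 5) (nat_lit 119) (nat_lit 5) (nat_lit 113) (nat_lit 5) (nat_lit 322) (nat_lit 286) (nat_lit 172)) (XT.nd (nat_lit 78) (nat_lit 380) (nat_lit 0) (XT.lf (nat_lit 0) (nat_lit 4691035827) (nat_lit 532) (nat_lit 2736480217) (nat_lit 76) (nat_lit 9175135612) (nat_lit 112) (nat_lit 5) (nat_lit 119) (nat_lit 5) (nat_lit 113) (nat_lit 5) (nat_lit 323) (nat_lit 286) (nat_lit 171)) (XT.lf (nat_lit 0) (nat_lit 5446530327) (nat_lit 380) (nat_lit 1662026330) (nat_lit 456) (nat_lit 9797382364) (nat_lit 107) (nat_lit 5) (nat_lit 112) (nat_lit 5) (nat_lit 113) (nat_lit 5) (nat_lit 324) (nat_lit 286) (nat_lit 170))))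 (XT.nd (nat_lit 156) (nat_lit 380) (nat_lit 0) (XT.nd (nat_lit 78) (nat_lit 380) (nat_lit 0) (XT.lf (nat_lit 0) (nat_lit 9655658203) (nat_lit 456) (nat_lit 3342342829) (nat_lit 76) (nat_lit 4218627263) (nat_lit 107) (nat_lit 5) (nat_lit 113) (nat_lit 5) (nat_lit 108) (nat_lit 5) (nat_lit 325) (nat_lit 286) (nat_lit 169)) (XT.lf (nat_lit 0) (nat_lit 5086875656) (nat_lit 380) (nat_lit 7246040098) (nat_lit 456) (nat_lit 5202124707) (nat_lit 102) (nat_lit 5) (nat_lit 107) (nat_lit 5) (nat_lit 108) (nat_lit 5) (nat_lit 326) (nat_lit 286) (nat_lit 168))) (XT.nd (nat_lit 78) (nat_lit 380) (nat_lit 0) (XT.lf (nat_lit 0) (nat_lit 13823457423) (nat_lit 380) (nat_lit 1289377149) (nat_lit 456) (nat_lit 2749514196) (nat_lit 102) (nat_lit 5) (nat_lit 107) (nat_lit 5) (nat_lit 108) (nat_lit 5) (nat_lit 327) (nat_lit 286) (nat_lit 167)) (XT.lf (nat_lit 0) (nat_lit 4652932288) (nat_lit 380) (nat_lit 13403428309)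 (nat_lit 456) (nat_lit 140723109) (nat_lit 97) (nat_lit 5) (nat_lit 102) (nat_lit 5) (nat_lit 103) (nat_lit 5) (nat_lit 328) (nat_lit 286) (nat_lit 166)))))) (XT.nd (nat_lit 546) (nat_lit 912) (nat_lit 0) (XT.nd (nat_lit 234) (nat_lit 760) (nat_lit 0) (XT.nd (nat_lit 78) (nat_lit 380) (nat_lit 0) (XT.lf (nat_lit 0) (nat_lit 2539568218) (nat_lit 456) (nat_lit 4904016671) (nat_lit 76) (nat_lit 11096266644) (nat_lit 96) (nat_lit 5) (nat_lit 102) (nat_lit 5) (nat_lit 97) (nat_lit 5) (nat_lit 329) (nat_lit 286) (nat_lit 165)) (XT.nd (nat_lit 78) (nat_lit 0) (nat_lit 0) (XT.lf (nat_lit 0) (nat_lit 4059516798) (nat_lit 380) (nat_lit 1266236727) (nat_lit 456) (nat_lit 13566270176) (nat_lit 91) (nat_lit 5) (nat_lit 96) (nat_lit 5) (nat_lit 97) (nat_lit 5) (nat_lit 330) (nat_lit 286) (nat_lit 164)) (XT.lf (nat_lit 0) (nat_lit 8283970416) (nat_lit 456) (nat_lit 5924065559) (nat_lit 76) (nat_lit 5044083823)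 (nat_lit 91) (nat_lit 5) (nat_lit 97) (nat_lit 5) (nat_lit 92) (nat_lit 5) (nat_lit 331) (nat_lit 286) (nat_lit 163)))) (XT.nd (nat_lit 156) (nat_lit 456) (nat_lit 0) (XT.nd (nat_lit 78) (nat_lit 0) (nat_lit 0) (XT.lf (nat_lit 0) (nat_lit 3289897907) (nat_lit 304) (nat_lit 8074949594) (nat_lit 380) (nat_lit 8257165660) (nat_lit 87) (nat_lit 5) (nat_lit 91) (nat_lit 5) (nat_lit 92) (nat_lit 5) (nat_lit 332) (nat_lit 286) (nat_lit 162)) (XT.lf (nat_lit 0) (nat_lit 12888457230) (nat_lit 304) (nat_lit 1699438306) (nat_lit 380) (nat_lit 5413626898) (nat_lit 87) (nat_lit 5) (nat_lit 91) (nat_lit 5) (nat_lit 92) (nat_lit 5) (nat_lit 333) (nat_lit 286) (nat_lit 161))) (XT.nd (nat_lit 78) (nat_lit 76) (nat_lit 0) (XT.lf (nat_lit 0) (nat_lit 2368843932) (nat_lit 380) (nat_lit 15598536670) (nat_lit 456) (nat_lit 2423255134) (nat_lit 82) (nat_lit 5) (nat_lit 87) (nat_lit 5) (nat_lit 88) (nat_lit 5) (nat_lit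 334) (nat_lit 286) (nat_lit 160)) (XT.lf (nat_lit 0) (nat_lit 723617492) (nat_lit 456) (nat_lit 8545322543) (nat_lit 76) (nat_lit 11519915260) (nat_lit 81) (nat_lit 5) (nat_lit 87) (nat_lit 5) (nat_lit 82) (nat_lit 5) (nat_lit 335) (nat_lit 286) (nat_lit 159))))) (XT.nd (nat_lit 234) (nat_lit 608) (nat_lit 0) (XT.nd (nat_lit 78) (nat_lit 0) (nat_lit 0) (XT.lf (nat_lit 0) (nat_lit 1202064948) (nat_lit 304) (nat_lit 2716207018) (nat_lit 380) (nat_lit 17279977450) (nat_lit 77) (nat_lit 5) (nat_lit 81) (nat_lit 5) (nat_lit 82) (nat_lit 5) (nat_lit 336) (nat_lit 286) (nat_lit 158)) (XT.nd (nat_lit 78) (nat_lit 0) (nat_lit 0) (XT.lf (nat_lit 0) (nat_lit 7325326972) (nat_lit 380) (nat_lit 10252885729) (nat_lit 76) (nat_lit 4038225707) (nat_lit 77) (nat_lit 5) (nat_lit 82) (nat_lit 5) (nat_lit 78) (nat_lit 5) (nat_lit 337) (nat_lit 286) (nat_lit 157)) (XT.lf (nat_lit 0) (nat_lit 10852406020) (nat_lit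 380) (nat_lit 256774207) (nat_lit 76) (nat_lit 10937468061) (nat_lit 77) (nat_lit 5) (nat_lit 82) (nat_lit 5) (nat_lit 78) (nat_lit 5) (nat_lit 338) (nat_lit 286) (nat_lit 156)))) (XT.nd (nat_lit 156) (nat_lit 304) (nat_lit 0) (XT.nd (nat_lit 78) (nat_lit 0) (nat_lit 0) (XT.lf (nat_lit 0) (nat_lit 10226551257) (nat_lit 304) (nat_lit 4348233788) (nat_lit 380) (nat_lit 7912304101) (nat_lit 73) (nat_lit 5) (nat_lit 77) (nat_lit 5) (nat_lit 78) (nat_lit 5) (nat_lit 339) (nat_lit 286) (nat_lit 155)) (XT.lf (nat_lit 0) (nat_lit 18427887384) (nat_lit 380) (nat_lit 1948535915) (nat_lit 76) (nat_lit 2563757411) (nat_lit 73) (nat_lit 5) (nat_lit 78) (nat_lit 5) (nat_lit 74) (nat_lit 5) (nat_lit 340) (nat_lit 286) (nat_lit 154))) (XT.nd (nat_lit 78) (nat_lit 76) (nat_lit 0) (XT.lf (nat_lit 0) (nat_lit 8789302010) (nat_lit 228) (nat_lit 13726365578) (nat_lit 304) (nat_lit 887633664) (nat_lit 70) (nat_lit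 5) (nat_lit 73) (nat_lit 5) (nat_lit 74) (nat_lit 5) (nat_lit 341) (nat_lit 286) (nat_lit 153)) (XT.lf (nat_lit 0) (nat_lit 2801692131) (nat_lit 304) (nat_lit 4030098493) (nat_lit 76) (nat_lit 17047368676) (nat_lit 69) (nat_lit 5) (nat_lit 73) (nat_lit 5) (nat_lit 70) (nat_lit 5) (nat_lit 342) (nat_lit 286) (nat_lit 152))))))))
noncomputable def xc172 : XT := (XT.nd (nat_lit 2028) (nat_lit 1292) (nat_lit 0) (XT.nd (nat_lit 1014) (nat_lit 1064) (nat_lit 0) (XT.nd (nat_lit 468) (nat_lit 684) (nat_lit 0) (XT.nd (nat_lit 234) (nat_lit 304) (nat_lit 0) (XT.nd (nat_lit 78) (nat_lit 228) (nat_lit 0) (XT.lf (nat_lit 0) (nat_lit 6646163504) (nat_lit 380) (nat_lit 17383392267) (nat_lit 76) (nat_lit 337612504) (nat_lit 65) (nat_lit 5) (nat_lit 70) (nat_lit 5) (nat_lit 66) (nat_lit 5) (nat_lit 343) (nat_lit 286) (nat_lit 151)) (XT.nd (nat_lit 78) (nat_lit 228) (nat_lit 0) (XT.lf (nat_lit 0) (nat_lit 10706633543)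 (nat_lit 380) (nat_lit 6537752461) (nat_lit 76) (nat_lit 7622419376) (nat_lit 65) (nat_lit 5) (nat_lit 70) (nat_lit 5) (nat_lit 66) (nat_lit 5) (nat_lit 344) (nat_lit 286) (nat_lit 150)) (XT.lf (nat_lit 0) (nat_lit 4713791813) (nat_lit 228) (nat_lit 10212596952) (nat_lit 304) (nat_lit 10453926271) (nat_lit 62) (nat_lit 5) (nat_lit 65) (nat_lit 5) (nat_lit 66) (nat_lit 5) (nat_lit 345) (nat_lit 286) (nat_lit 149)))) (XT.nd (nat_lit 78) (nat_lit 304) (nat_lit 0) (XT.lf (nat_lit 0) (nat_lit 16425564385) (nat_lit 228) (nat_lit 2905469380) (nat_lit 304) (nat_lit 6576454652) (nat_lit 62) (nat_lit 5) (nat_lit 65) (nat_lit 5) (nat_lit 66) (nat_lit 5) (nat_lit 346) (nat_lit 286) (nat_lit 148)) (XT.nd (nat_lit 78) (nat_lit 76) (nat_lit 0) (XT.lf (nat_lit 0) (nat_lit 2022048244) (nat_lit 228) (nat_lit 21902095489) (nat_lit 304) (nat_lit 2524650634) (nat_lit 59) (nat_lit 5) (nat_lit 62) (nat_lit 5) (nat_lit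 63) (nat_lit 5) (nat_lit 347) (nat_lit 286) (nat_lit 147)) (XT.lf (nat_lit 0) (nat_lit 1734501411) (nat_lit 304) (nat_lit 12994770401) (nat_lit 76) (nat_lit 12273059972) (nat_lit 58) (nat_lit 5) (nat_lit 62) (nat_lit 5) (nat_lit 59) (nat_lit 5) (nat_lit 348) (nat_lit 286) (nat_lit 146))))) (XT.nd (nat_lit 234) (nat_lit 456) (nat_lit 0) (XT.nd (nat_lit 78) (nat_lit 228) (nat_lit 0) (XT.lf (nat_lit 0) (nat_lit 6063405678) (nat_lit 304) (nat_lit 1255754074) (nat_lit 76) (nat_lit 20252790586) (nat_lit 58) (nat_lit 5) (nat_lit 62) (nat_lit 5) (nat_lit 59) (nat_lit 5) (nat_lit 349) (nat_lit 286) (nat_lit 145)) (XT.nd (nat_lit 78) (nat_lit 0) (nat_lit 0) (XT.lf (nat_lit 0) (nat_lit 10625263461) (nat_lit 304) (nat_lit 17119455943) (nat_lit 76) (nat_lit 410851792) (nat_lit 55) (nat_lit 5) (nat_lit 59) (nat_lit 5) (nat_lit 56) (nat_lit 5) (nat_lit 350) (nat_lit 286) (nat_lit 144)) (XT.lf (nat_lit 0) (nat_lit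 15402253675) (nat_lit 304) (nat_lit 5117111419) (nat_lit 76) (nat_lit 8234993441) (nat_lit 55) (nat_lit 5) (nat_lit 59) (nat_lit 5) (nat_lit 56) (nat_lit 5) (nat_lit 351) (nat_lit 286) (nat_lit 143)))) (XT.nd (nat_lit 156) (nat_lit 228) (nat_lit 0) (XT.nd (nat_lit 78) (nat_lit 0) (nat_lit 0) (XT.lf (nat_lit 0) (nat_lit 7378922835) (nat_lit 228) (nat_lit 13007768824) (nat_lit 304) (nat_lit 8982499668) (nat_lit 52) (nat_lit 5) (nat_lit 55) (nat_lit 5) (nat_lit 56) (nat_lit 5) (nat_lit 352) (nat_lit 286) (nat_lit 142)) (XT.lf (nat_lit 0) (nat_lit 20344465581) (nat_lit 228) (nat_lit 5221176476) (nat_lit 304) (nat_lit 4435483469) (nat_lit 52) (nat_lit 5) (nat_lit 55) (nat_lit 5) (nat_lit 56) (nat_lit 5) (nat_lit 353) (nat_lit 286) (nat_lit 141))) (XT.nd (nat_lit 78) (nat_lit 0) (nat_lit 0) (XT.lf (nat_lit 0) (nat_lit 293476193) (nat_lit 228) (nat_lit 27583586340) (nat_lit 76) (nat_lit 2773378049)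 (nat_lit 49) (nat_lit 5) (nat_lit 52) (nat_lit 5) (nat_lit 50) (nat_lit 5) (nat_lit 354) (nat_lit 286) (nat_lit 140)) (XT.lf (nat_lit 0) (nat_lit 5218822185) (nat_lit 228) (nat_lit 15053031636) (nat_lit 76) (nat_lit 11041759115) (nat_lit 49) (nat_lit 5) (nat_lit 52) (nat_lit 5) (nat_lit 50) (nat_lit 5) (nat_lit 355) (nat_lit 286) (nat_lit 139)))))) (XT.nd (nat_lit 468) (nat_lit 608) (nat_lit 0) (XT.nd (nat_lit 234) (nat_lit 228) (nat_lit 0) (XT.nd (nat_lit 78) (nat_lit 228) (nat_lit 0) (XT.lf (nat_lit 0) (nat_lit 10285610827) (nat_lit 228) (nat_lit 2156435914) (nat_lit 76) (nat_lit 19554828405) (nat_lit 49) (nat_lit 5) (nat_lit 52) (nat_lit 5) (nat_lit 50) (nat_lit 5) (nat_lit 356) (nat_lit 286) (nat_lit 138)) (XT.nd (nat_lit 78) (nat_lit 0) (nat_lit 0) (XT.lf (nat_lit 0) (nat_lit 11338729141) (nat_lit 228) (nat_lit 4268535071) (nat_lit 304) (nat_lit 17090290183) (nat_lit 46) (nat_lit 5) (nat_lit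 49) (nat_lit 5) (nat_lit 50) (nat_lit 5) (nat_lit 357) (nat_lit 286) (nat_lit 137)) (XT.lf (nat_lit 0) (nat_lit 21144373195) (nat_lit 304) (nat_lit 8185403560) (nat_lit 76) (nat_lit 4087807945) (nat_lit 46) (nat_lit 5) (nat_lit 50) (nat_lit 5) (nat_lit 47) (nat_lit 5) (nat_lit 358) (nat_lit 286) (nat_lit 136)))) (XT.nd (nat_lit 78) (nat_lit 76) (nat_lit 0) (XT.lf (nat_lit 0) (nat_lit 5437701087) (nat_lit 152) (nat_lit 21498525197) (nat_lit 228) (nat_lit 7220335424) (nat_lit 44) (nat_lit 5) (nat_lit 46) (nat_lit 5) (nat_lit 47) (nat_lit 5) (nat_lit 359) (nat_lit 286) (nat_lit 135)) (XT.nd (nat_lit 78) (nat_lit 76) (nat_lit 0) (XT.lf (nat_lit 0) (nat_lit 19628017339) (nat_lit 152) (nat_lit 13350654520) (nat_lit 228) (nat_lit 1936735639) (nat_lit 44) (nat_lit 5) (nat_lit 46) (nat_lit 5) (nat_lit 47) (nat_lit 5) (nat_lit 360) (nat_lit 286) (nat_lit 134)) (XT.lf (nat_lit 0) (nat_lit 3431259273) (nat_lit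 228) (nat_lit 1495793489) (nat_lit 76) (nat_lit 30769130655) (nat_lit 43) (nat_lit 5) (nat_lit 46) (nat_lit 5) (nat_lit 44) (nat_lit 5) (nat_lit 361) (nat_lit 286) (nat_lit 133))))) (XT.nd (nat_lit 234) (nat_lit 228) (nat_lit 0) (XT.nd (nat_lit 78) (nat_lit 152) (nat_lit 0) (XT.lf (nat_lit 0) (nat_lit 9077581223) (nat_lit 304) (nat_lit 23599771007) (nat_lit 76) (nat_lit 3817772899) (nat_lit 40) (nat_lit 5) (nat_lit 44) (nat_lit 5) (nat_lit 41) (nat_lit 5) (nat_lit 362) (nat_lit 286) (nat_lit 132)) (XT.nd (nat_lit 78) (nat_lit 152) (nat_lit 0) (XT.lf (nat_lit 0) (nat_lit 14951830989) (nat_lit 304) (nat_lit 9626521674) (nat_lit 76) (nat_lit 12737930352) (nat_lit 40) (nat_lit 5) (nat_lit 44) (nat_lit 5) (nat_lit 41) (nat_lit 5) (nat_lit 363) (nat_lit 286) (nat_lit 131)) (XT.lf (nat_lit 0) (nat_lit 4851957773) (nat_lit 152) (nat_lit 16191651944) (nat_lit 228) (nat_lit 17117230828) (nat_lit 38) (nat_lit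 5) (nat_lit 40) (nat_lit 5) (nat_lit 41) (nat_lit 5) (nat_lit 364) (nat_lit 286) (nat_lit 130)))) (XT.nd (nat_lit 156) (nat_lit 228) (nat_lit 0) (XT.nd (nat_lit 78) (nat_lit 0) (nat_lit 0) (XT.lf (nat_lit 0) (nat_lit 19953564094) (nat_lit 152) (nat_lit 7456521377) (nat_lit 228) (nat_lit 11617894854) (nat_lit 38) (nat_lit 5) (nat_lit 40) (nat_lit 5) (nat_lit 41) (nat_lit 5) (nat_lit 365) (nat_lit 286) (nat_lit 129)) (XT.lf (nat_lit 0) (nat_lit 33977222561) (nat_lit 228) (nat_lit 4436164206) (nat_lit 76) (nat_lit 1507461245) (nat_lit 38) (nat_lit 5) (nat_lit 41) (nat_lit 5) (nat_lit 39) (nat_lit 5) (nat_lit 366) (nat_lit 286) (nat_lit 128))) (XT.nd (nat_lit 78) (nat_lit 0) (nat_lit 0) (XT.lf (nat_lit 0) (nat_lit 76865045) (nat_lit 228) (nat_lit 30066723648) (nat_lit 76) (nat_lit 10691723372) (nat_lit 35) (nat_lit 5) (nat_lit 38) (nat_lit 5) (nat_lit 36) (nat_lit 5) (nat_lit 367) (nat_lit 286)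 (nat_lit 127)) (XT.lf (nat_lit 0) (nat_lit 6198771648) (nat_lit 228) (nat_lit 15322951890) (nat_lit 76) (nat_lit 20252516604) (nat_lit 35) (nat_lit 5) (nat_lit 38) (nat_lit 5) (nat_lit 36) (nat_lit 5) (nat_lit 368) (nat_lit 286) (nat_lit 126))))))) (XT.nd (nat_lit 1014) (nat_lit 532) (nat_lit 0) (XT.nd (nat_lit 468) (nat_lit 380) (nat_lit 0) (XT.nd (nat_lit 234) (nat_lit 228) (nat_lit 0) (XT.nd (nat_lit 78) (nat_lit 152) (nat_lit 0) (XT.lf (nat_lit 0) (nat_lit 12499502719) (nat_lit 228) (nat_lit 144842782) (nat_lit 76) (nat_lit 30097138851) (nat_lit 35) (nat_lit 5) (nat_lit 38) (nat_lit 5) (nat_lit 36) (nat_lit 5) (nat_lit 369) (nat_lit 286) (nat_lit 125)) (XT.nd (nat_lit 78) (nat_lit 0) (nat_lit 0) (XT.lf (nat_lit 0) (nat_lit 15788965690) (nat_lit 152) (nat_lit 3347371259) (nat_lit 228) (nat_lit 24596999716) (nat_lit 33) (nat_lit 5) (nat_lit 35) (nat_lit 5) (nat_lit 36) (nat_lit 5) (nat_lit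 370) (nat_lit 286) (nat_lit 124)) (XT.lf (nat_lit 0) (nat_lit 26028967359) (nat_lit 228) (nat_lit 12618810229) (nat_lit 76) (nat_lit 6105469342) (nat_lit 33) (nat_lit 5) (nat_lit 36) (nat_lit 5) (nat_lit 34) (nat_lit 5) (nat_lit 371) (nat_lit 286) (nat_lit 123)))) (XT.nd (nat_lit 78) (nat_lit 76) (nat_lit 0) (XT.lf (nat_lit 0) (nat_lit 3188031274) (nat_lit 152) (nat_lit 29999610455) (nat_lit 228) (nat_lit 12614337851) (nat_lit 31) (nat_lit 5) (nat_lit 33) (nat_lit 5) (nat_lit 34) (nat_lit 5) (nat_lit 372) (nat_lit 286) (nat_lit 122)) (XT.nd (nat_lit 78) (nat_lit 76) (nat_lit 0) (XT.lf (nat_lit 0) (nat_lit 19720271567) (nat_lit 152) (nat_lit 20963767279) (nat_lit 228) (nat_lit 6194449426) (nat_lit 31) (nat_lit 5) (nat_lit 33) (nat_lit 5) (nat_lit 34) (nat_lit 5) (nat_lit 373) (nat_lit 286) (nat_lit 121)) (XT.lf (nat_lit 0) (nat_lit 405499831) (nat_lit 228) (nat_lit 11250183320) (nat_lit 76) (nat_lit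 36331622647) (nat_lit 30) (nat_lit 5) (nat_lit 33) (nat_lit 5) (nat_lit 31) (nat_lit 5) (nat_lit 374) (nat_lit 286) (nat_lit 120))))) (XT.nd (nat_lit 234) (nat_lit 228) (nat_lit 0) (XT.nd (nat_lit 78) (nat_lit 0) (nat_lit 0) (XT.lf (nat_lit 0) (nat_lit 5167457982) (nat_lit 152) (nat_lit 1956909140) (nat_lit 228) (nat_lit 42001820826) (nat_lit 28) (nat_lit 5) (nat_lit 30) (nat_lit 5) (nat_lit 31) (nat_lit 5) (nat_lit 375) (nat_lit 286) (nat_lit 119)) (XT.nd (nat_lit 78) (nat_lit 0) (nat_lit 0) (XT.lf (nat_lit 0) (nat_lit 14232523834) (nat_lit 228) (nat_lit 28073091917) (nat_lit 76) (nat_lit 7987991722) (nat_lit 28) (nat_lit 5) (nat_lit 31) (nat_lit 5) (nat_lit 29) (nat_lit 5) (nat_lit 376) (nat_lit 286) (nat_lit 118)) (XT.lf (nat_lit 0) (nat_lit 21569200925) (nat_lit 228) (nat_lit 11737219765) (nat_lit 76) (nat_lit 18189173159) (nat_lit 28) (nat_lit 5) (nat_lit 31) (nat_lit 5) (nat_lit 29) (nat_lit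 5) (nat_lit 377) (nat_lit 286) (nat_lit 117)))) (XT.nd (nat_lit 156) (nat_lit 76) (nat_lit 0) (XT.nd (nat_lit 78) (nat_lit 0) (nat_lit 0) (XT.lf (nat_lit 0) (nat_lit 5183112757) (nat_lit 152) (nat_lit 23988708569) (nat_lit 228) (nat_lit 23560445662) (nat_lit 26) (nat_lit 5) (nat_lit 28) (nat_lit 5) (nat_lit 29) (nat_lit 5) (nat_lit 378) (nat_lit 286) (nat_lit 116)) (XT.lf (nat_lit 0) (nat_lit 22844966008) (nat_lit 152) (nat_lit 14272148599) (nat_lit 228) (nat_lit 16885490276) (nat_lit 26) (nat_lit 5) (nat_lit 28) (nat_lit 5) (nat_lit 29) (nat_lit 5) (nat_lit 379) (nat_lit 286) (nat_lit 115))) (XT.nd (nat_lit 78) (nat_lit 76) (nat_lit 0) (XT.lf (nat_lit 0) (nat_lit 41030178985) (nat_lit 152) (nat_lit 4266773489) (nat_lit 228) (nat_lit 10014217187) (nat_lit 26) (nat_lit 5) (nat_lit 28) (nat_lit 5) (nat_lit 29) (nat_lit 5) (nat_lit 380) (nat_lit 286) (nat_lit 114)) (XT.lf (nat_lit 0) (nat_lit 3097966173)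 (nat_lit 76) (nat_lit 50708318988) (nat_lit 152) (nat_lit 2850185484) (nat_lit 25) (nat_lit 5) (nat_lit 26) (nat_lit 5) (nat_lit 27) (nat_lit 4) (nat_lit 381) (nat_lit 286) (nat_lit 113)))))) (XT.nd (nat_lit 468) (nat_lit 304) (nat_lit 0) (XT.nd (nat_lit 234) (nat_lit 152) (nat_lit 0) (XT.nd (nat_lit 78) (nat_lit 0) (nat_lit 0) (XT.lf (nat_lit 0) (nat_lit 4624558705) (nat_lit 152) (nat_lit 36840381140) (nat_lit 76) (nat_lit 16570362017) (nat_lit 24) (nat_lit 5) (nat_lit 26) (nat_lit 5) (nat_lit 25) (nat_lit 5) (nat_lit 382) (nat_lit 286) (nat_lit 112)) (XT.nd (nat_lit 78) (nat_lit 0) (nat_lit 0) (XT.lf (nat_lit 0) (nat_lit 12262648622) (nat_lit 152) (nat_lit 19655155545) (nat_lit 76) (nat_lit 27536957639) (nat_lit 24) (nat_lit 5) (nat_lit 26) (nat_lit 5) (nat_lit 25) (nat_lit 5) (nat_lit 383) (nat_lit 286) (nat_lit 111)) (XT.lf (nat_lit 0) (nat_lit 20126375710) (nat_lit 152) (nat_lit 1960413746)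 (nat_lit 76) (nat_lit 38830123262) (nat_lit 24) (nat_lit 5) (nat_lit 26) (nat_lit 5) (nat_lit 25) (nat_lit 5) (nat_lit 384) (nat_lit 286) (nat_lit 110)))) (XT.nd (nat_lit 78) (nat_lit 0) (nat_lit 0) (XT.lf (nat_lit 0) (nat_lit 16582897746) (nat_lit 152) (nat_lit 11799118399) (nat_lit 228) (nat_lit 34036233909) (nat_lit 22) (nat_lit 5) (nat_lit 24) (nat_lit 5) (nat_lit 25) (nat_lit 5) (nat_lit 385) (nat_lit 286) (nat_lit 109)) (XT.nd (nat_lit 78) (nat_lit 0) (nat_lit 0) (XT.lf (nat_lit 0) (nat_lit 35716888016) (nat_lit 152) (nat_lit 1184873996) (nat_lit 228) (nat_lit 27062374299) (nat_lit 22) (nat_lit 5) (nat_lit 24) (nat_lit 5) (nat_lit 25) (nat_lit 5) (nat_lit 386) (nat_lit 286) (nat_lit 108)) (XT.lf (nat_lit 0) (nat_lit 45767516964) (nat_lit 228) (nat_lit 10230917807) (nat_lit 76) (nat_lit 9555253715) (nat_lit 22) (nat_lit 5) (nat_lit 25) (nat_lit 5) (nat_lit 23) (nat_lit 4) (nat_lit 387)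 (nat_lit 286) (nat_lit 107))))) (XT.nd (nat_lit 234) (nat_lit 152) (nat_lit 0) (XT.nd (nat_lit 78) (nat_lit 76) (nat_lit 0) (XT.lf (nat_lit 0) (nat_lit 8473980656) (nat_lit 76) (nat_lit 46515263016) (nat_lit 152) (nat_lit 12198985359) (nat_lit 21) (nat_lit 5) (nat_lit 22) (nat_lit 5) (nat_lit 23) (nat_lit 4) (nat_lit 388) (nat_lit 286) (nat_lit 106)) (XT.nd (nat_lit 78) (nat_lit 76) (nat_lit 0) (XT.lf (nat_lit 0) (nat_lit 27944255855) (nat_lit 76) (nat_lit 36643529214) (nat_lit 152) (nat_lit 4281017562) (nat_lit 21) (nat_lit 5) (nat_lit 22) (nat_lit 5) (nat_lit 23) (nat_lit 4) (nat_lit 389) (nat_lit 286) (nat_lit 105)) (XT.lf (nat_lit 0) (nat_lit 3795794517) (nat_lit 152) (nat_lit 22643795190) (nat_lit 76) (nat_lit 44159180728) (nat_lit 20) (nat_lit 5) (nat_lit 22) (nat_lit 5) (nat_lit 21) (nat_lit 5) (nat_lit 390) (nat_lit 286) (nat_lit 104)))) (XT.nd (nat_lit 156) (nat_lit 0) (nat_lit 0) (XT.nd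 (nat_lit 78) (nat_lit 152) (nat_lit 0) (XT.lf (nat_lit 0) (nat_lit 12025867222) (nat_lit 152) (nat_lit 3862247268) (nat_lit 76) (nat_lit 56491342759) (nat_lit 20) (nat_lit 5) (nat_lit 22) (nat_lit 5) (nat_lit 21) (nat_lit 5) (nat_lit 391) (nat_lit 286) (nat_lit 103)) (XT.lf (nat_lit 0) (nat_lit 15785695586) (nat_lit 152) (nat_lit 4865976125) (nat_lit 228) (nat_lit 53557429602) (nat_lit 18) (nat_lit 5) (nat_lit 20) (nat_lit 5) (nat_lit 21) (nat_lit 5) (nat_lit 392) (nat_lit 286) (nat_lit 102))) (XT.nd (nat_lit 78) (nat_lit 0) (nat_lit 0) (XT.lf (nat_lit 0) (nat_lit 29635096413) (nat_lit 228) (nat_lit 40058061540) (nat_lit 76) (nat_lit 6397512853) (nat_lit 18) (nat_lit 5) (nat_lit 21) (nat_lit 5) (nat_lit 19) (nat_lit 4) (nat_lit 393) (nat_lit 286) (nat_lit 101)) (XT.lf (nat_lit 0) (nat_lit 38933389662) (nat_lit 228) (nat_lit 21194890728) (nat_lit 76) (nat_lit 17899047467) (nat_lit 18) (nat_lit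 5) (nat_lit 21) (nat_lit 5) (nat_lit 19) (nat_lit 4) (nat_lit 394) (nat_lit 286) (nat_lit 100))))))))
noncomputable def xc173 : XT := (XT.nd (nat_lit 33852) (nat_lit 0) (nat_lit 5396) (XT.nd (nat_lit 32838) (nat_lit 0) (nat_lit 11476) (XT.nd (nat_lit 32292) (nat_lit 0) (nat_lit 13452) (XT.nd (nat_lit 234) (nat_lit 76) (nat_lit 0) (XT.nd (nat_lit 78) (nat_lit 76) (nat_lit 0) (XT.lf (nat_lit 0) (nat_lit 48507901442) (nat_lit 228) (nat_lit 1770636168) (nat_lit 76) (nat_lit 29743630322) (nat_lit 18) (nat_lit 5) (nat_lit 21) (nat_lit 5) (nat_lit 19) (nat_lit 4) (nat_lit 395) (nat_lit 286) (nat_lit 99)) (XT.nd (nat_lit 78) (nat_lit 0) (nat_lit 0) (XT.lf (nat_lit 0) (nat_lit 18594520864) (nat_lit 76) (nat_lit 39951218874) (nat_lit 152) (nat_lit 23525832097) (nat_lit 17) (nat_lit 5) (nat_lit 18) (nat_lit 5) (nat_lit 19) (nat_lit 4) (nat_lit 396) (nat_lit 286) (nat_lit 98)) (XT.lf (nat_lit 0) (nat_lit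 39602303470) (nat_lit 76) (nat_lit 29297671667) (nat_lit 152) (nat_lit 15282026184) (nat_lit 17) (nat_lit 5) (nat_lit 18) (nat_lit 5) (nat_lit 19) (nat_lit 4) (nat_lit 397) (nat_lit 286) (nat_lit 97)))) (XT.nd (nat_lit 78) (nat_lit 76) (nat_lit 0) (XT.lf (nat_lit 0) (nat_lit 61235828832) (nat_lit 76) (nat_lit 18326467016) (nat_lit 152) (nat_lit 6793525380) (nat_lit 17) (nat_lit 5) (nat_lit 18) (nat_lit 5) (nat_lit 19) (nat_lit 4) (nat_lit 398) (nat_lit 286) (nat_lit 96)) (XT.nd (nat_lit 31902) (nat_lit 0) (nat_lit 14364) (XT.lf (nat_lit 0) (nat_lit 1909092761) (nat_lit 152) (nat_lit 5099647578) (nat_lit 76) (nat_lit 81585629176) (nat_lit 16) (nat_lit 5) (nat_lit 18) (nat_lit 5) (nat_lit 17) (nat_lit 5) (nat_lit 399) (nat_lit 286) (nat_lit 95)) (XT.lf (nat_lit 0) (nat_lit 1162726084) (nat_lit 0) (nat_lit 1162726084) (nat_lit 988) (nat_lit 2486528461) (nat_lit 205) (nat_lit 5) (nat_lit 205) (nat_lit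 3) (nat_lit 218) (nat_lit 3) (nat_lit 287) (nat_lit 287) (nat_lit 206))))) (XT.nd (nat_lit 234) (nat_lit 912) (nat_lit 0) (XT.nd (nat_lit 78) (nat_lit 0) (nat_lit 0) (XT.lf (nat_lit 0) (nat_lit 5454529568) (nat_lit 988) (nat_lit 3032658575) (nat_lit 1064) (nat_lit 1257904380) (nat_lit 205) (nat_lit 5) (nat_lit 218) (nat_lit 3) (nat_lit 219) (nat_lit 5) (nat_lit 288) (nat_lit 287) (nat_lit 205)) (XT.nd (nat_lit 78) (nat_lit 0) (nat_lit 0) (XT.lf (nat_lit 76) (nat_lit 1349367122) (nat_lit 0) (nat_lit 4940867726) (nat_lit 1064) (nat_lit 3579431052) (nat_lit 206) (nat_lit 5) (nat_lit 205) (nat_lit 5) (nat_lit 219) (nat_lit 5) (nat_lit 289) (nat_lit 287) (nat_lit 204)) (XT.lf (nat_lit 76) (nat_lit 5910061159) (nat_lit 0) (nat_lit 1244222540) (nat_lit 1064) (nat_lit 2843640539) (nat_lit 206) (nat_lit 5) (nat_lit 205) (nat_lit 5) (nat_lit 219) (nat_lit 5) (nat_lit 290) (nat_lit 287) (nat_lit 203))))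 (XT.nd (nat_lit 156) (nat_lit 988) (nat_lit 0) (XT.nd (nat_lit 78) (nat_lit 0) (nat_lit 0) (XT.lf (nat_lit 76) (nat_lit 446130932) (nat_lit 0) (nat_lit 7600612596) (nat_lit 1064) (nat_lit 2083256710) (nat_lit 207) (nat_lit 5) (nat_lit 206) (nat_lit 5) (nat_lit 220) (nat_lit 5) (nat_lit 291) (nat_lit 287) (nat_lit 202)) (XT.lf (nat_lit 76) (nat_lit 5172049350) (nat_lit 0) (nat_lit 3821589000) (nat_lit 1064) (nat_lit 1271613631) (nat_lit 207) (nat_lit 5) (nat_lit 206) (nat_lit 5) (nat_lit 220) (nat_lit 5) (nat_lit 292) (nat_lit 287) (nat_lit 201))) (XT.nd (nat_lit 78) (nat_lit 1064) (nat_lit 0) (XT.lf (nat_lit 0) (nat_lit 9944653995) (nat_lit 988) (nat_lit 381270369) (nat_lit 1064) (nat_lit 79407530) (nat_lit 207) (nat_lit 5) (nat_lit 220) (nat_lit 5) (nat_lit 221) (nat_lit 5) (nat_lit 293) (nat_lit 287) (nat_lit 200)) (XT.lf (nat_lit 0) (nat_lit 424720222) (nat_lit 1064) (nat_lit 6045299206)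 (nat_lit 1140) (nat_lit 4077803061) (nat_lit 193) (nat_lit 5) (nat_lit 207) (nat_lit 5) (nat_lit 208) (nat_lit 5) (nat_lit 294) (nat_lit 287) (nat_lit 199)))))) (XT.nd (nat_lit 468) (nat_lit 1976) (nat_lit 0) (XT.nd (nat_lit 234) (nat_lit 0) (nat_lit 76) (XT.nd (nat_lit 78) (nat_lit 0) (nat_lit 76) (XT.lf (nat_lit 0) (nat_lit 1307356797) (nat_lit 1064) (nat_lit 1174104561) (nat_lit 1140) (nat_lit 8213630010) (nat_lit 193) (nat_lit 5) (nat_lit 207) (nat_lit 5) (nat_lit 208) (nat_lit 5) (nat_lit 295) (nat_lit 287) (nat_lit 198)) (XT.nd (nat_lit 78) (nat_lit 0) (nat_lit 0) (XT.lf (nat_lit 0) (nat_lit 2246833171) (nat_lit 1064) (nat_lit 6958285579) (nat_lit 1140) (nat_lit 1640786090) (nat_lit 194) (nat_lit 5) (nat_lit 208) (nat_lit 5) (nat_lit 209) (nat_lit 5) (nat_lit 296) (nat_lit 287) (nat_lit 197)) (XT.lf (nat_lit 0) (nat_lit 3228387382) (nat_lit 1064) (nat_lit 1916175480) (nat_lit 1140) (nat_lit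 5856299311) (nat_lit 194) (nat_lit 5) (nat_lit 208) (nat_lit 5) (nat_lit 209) (nat_lit 5) (nat_lit 297) (nat_lit 287) (nat_lit 196)))) (XT.nd (nat_lit 78) (nat_lit 0) (nat_lit 76) (XT.lf (nat_lit 76) (nat_lit 3326711198) (nat_lit 0) (nat_lit 922666161) (nat_lit 1140) (nat_lit 6910826397) (nat_lit 195) (nat_lit 5) (nat_lit 194) (nat_lit 5) (nat_lit 209) (nat_lit 5) (nat_lit 298) (nat_lit 287) (nat_lit 195)) (XT.nd (nat_lit 78) (nat_lit 0) (nat_lit 0) (XT.lf (nat_lit 0) (nat_lit 5332034585) (nat_lit 1064) (nat_lit 2606695102) (nat_lit 1140) (nat_lit 3384698954) (nat_lit 195) (nat_lit 5) (nat_lit 209) (nat_lit 5) (nat_lit 210) (nat_lit 5) (nat_lit 299) (nat_lit 287) (nat_lit 194)) (XT.lf (nat_lit 76) (nat_lit 2807020921) (nat_lit 0) (nat_lit 3655457674) (nat_lit 1140) (nat_lit 5028645648) (nat_lit 196) (nat_lit 5) (nat_lit 195) (nat_lit 5) (nat_lit 210) (nat_lit 5) (nat_lit 300) (nat_lit 287) (nat_lit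 193))))) (XT.nd (nat_lit 234) (nat_lit 2204) (nat_lit 0) (XT.nd (nat_lit 78) (nat_lit 0) (nat_lit 0) (XT.lf (nat_lit 0) (nat_lit 7640384393) (nat_lit 1064) (nat_lit 3250072274) (nat_lit 1140) (nat_lit 773019811) (nat_lit 196) (nat_lit 5) (nat_lit 210) (nat_lit 5) (nat_lit 211) (nat_lit 5) (nat_lit 301) (nat_lit 287) (nat_lit 192)) (XT.nd (nat_lit 78) (nat_lit 0) (nat_lit 0) (XT.lf (nat_lit 76) (nat_lit 2340870137) (nat_lit 0) (nat_lit 6551738354) (nat_lit 1140) (nat_lit 2947252634) (nat_lit 197) (nat_lit 5) (nat_lit 196) (nat_lit 5) (nat_lit 211) (nat_lit 5) (nat_lit 302) (nat_lit 287) (nat_lit 191)) (XT.lf (nat_lit 76) (nat_lit 8150721291) (nat_lit 0) (nat_lit 2045209711) (nat_lit 1140) (nat_lit 1825230728) (nat_lit 197) (nat_lit 5) (nat_lit 196) (nat_lit 5) (nat_lit 211) (nat_lit 5) (nat_lit 303) (nat_lit 287) (nat_lit 190)))) (XT.nd (nat_lit 156) (nat_lit 1140) (nat_lit 0) (XT.nd (nat_lit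 78) (nat_lit 76) (nat_lit 0) (XT.lf (nat_lit 0) (nat_lit 1923929964) (nat_lit 1064) (nat_lit 9639186496) (nat_lit 1140) (nat_lit 644071478) (nat_lit 183) (nat_lit 5) (nat_lit 197) (nat_lit 5) (nat_lit 198) (nat_lit 5) (nat_lit 304) (nat_lit 287) (nat_lit 189)) (XT.lf (nat_lit 0) (nat_lit 602567484) (nat_lit 1140) (nat_lit 4468153797) (nat_lit 76) (nat_lit 7326699832) (nat_lit 182) (nat_lit 5) (nat_lit 197) (nat_lit 5) (nat_lit 183) (nat_lit 5) (nat_lit 305) (nat_lit 287) (nat_lit 188))) (XT.nd (nat_lit 78) (nat_lit 0) (nat_lit 0) (XT.lf (nat_lit 0) (nat_lit 1529470993) (nat_lit 1140) (nat_lit 340927055) (nat_lit 1216) (nat_lit 10722896779) (nat_lit 167) (nat_lit 5) (nat_lit 182) (nat_lit 5) (nat_lit 183) (nat_lit 5) (nat_lit 306) (nat_lit 287) (nat_lit 187)) (XT.lf (nat_lit 0) (nat_lit 3247816840) (nat_lit 1216) (nat_lit 5054899413) (nat_lit 76) (nat_lit 4490208099) (nat_lit 167) (nat_lit 5)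 (nat_lit 183) (nat_lit 5) (nat_lit 168) (nat_lit 5) (nat_lit 307) (nat_lit 287) (nat_lit 186))))))) (XT.nd (nat_lit 1014) (nat_lit 2888) (nat_lit 0) (XT.nd (nat_lit 468) (nat_lit 1520) (nat_lit 0) (XT.nd (nat_lit 234) (nat_lit 532) (nat_lit 0) (XT.nd (nat_lit 78) (nat_lit 608) (nat_lit 0) (XT.lf (nat_lit 0) (nat_lit 1137753485) (nat_lit 532) (nat_lit 3526063162) (nat_lit 608) (nat_lit 8334833793) (nat_lit 160) (nat_lit 5) (nat_lit 167) (nat_lit 5) (nat_lit 168) (nat_lit 5) (nat_lit 308) (nat_lit 287) (nat_lit 185)) (XT.nd (nat_lit 78) (nat_lit 608) (nat_lit 0) (XT.lf (nat_lit 0) (nat_lit 6170556260) (nat_lit 608) (nat_lit 5618869702) (nat_lit 76) (nat_lit 1419699248) (nat_lit 160) (nat_lit 5) (nat_lit 168) (nat_lit 5) (nat_lit 161) (nat_lit 5) (nat_lit 309) (nat_lit 287) (nat_lit 184)) (XT.lf (nat_lit 0) (nat_lit 775340547) (nat_lit 608) (nat_lit 6973319092) (nat_lit 684) (nat_lit 5676493707)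 (nat_lit 152) (nat_lit 5) (nat_lit 160) (nat_lit 5) (nat_lit 161) (nat_lit 5) (nat_lit 310) (nat_lit 287) (nat_lit 183)))) (XT.nd (nat_lit 78) (nat_lit 532) (nat_lit 0) (XT.lf (nat_lit 0) (nat_lit 7461412395) (nat_lit 608) (nat_lit 1953556647) (nat_lit 684) (nat_lit 4231490674) (nat_lit 152) (nat_lit 5) (nat_lit 160) (nat_lit 5) (nat_lit 161) (nat_lit 5) (nat_lit 311) (nat_lit 287) (nat_lit 182)) (XT.nd (nat_lit 78) (nat_lit 0) (nat_lit 0) (XT.lf (nat_lit 0) (nat_lit 436051493) (nat_lit 532) (nat_lit 10714922263) (nat_lit 608) (nat_lit 2722862936) (nat_lit 145) (nat_lit 5) (nat_lit 152) (nat_lit 5) (nat_lit 153) (nat_lit 5) (nat_lit 312) (nat_lit 287) (nat_lit 181)) (XT.lf (nat_lit 0) (nat_lit 7347795849) (nat_lit 532) (nat_lit 5657768840) (nat_lit 608) (nat_lit 1100497045) (nat_lit 145) (nat_lit 5) (nat_lit 152) (nat_lit 5) (nat_lit 153) (nat_lit 5) (nat_lit 313) (nat_lit 287) (nat_lit 180)))))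 (XT.nd (nat_lit 234) (nat_lit 912) (nat_lit 0) (XT.nd (nat_lit 78) (nat_lit 0) (nat_lit 0) (XT.lf (nat_lit 0) (nat_lit 103244024) (nat_lit 532) (nat_lit 442325502) (nat_lit 608) (nat_lit 13799955260) (nat_lit 137) (nat_lit 5) (nat_lit 144) (nat_lit 5) (nat_lit 145) (nat_lit 5) (nat_lit 314) (nat_lit 287) (nat_lit 179)) (XT.nd (nat_lit 78) (nat_lit 0) (nat_lit 0) (XT.lf (nat_lit 0) (nat_lit 2320664380) (nat_lit 608) (nat_lit 7355178079) (nat_lit 76) (nat_lit 4912969511) (nat_lit 137) (nat_lit 5) (nat_lit 145) (nat_lit 5) (nat_lit 138) (nat_lit 5) (nat_lit 315) (nat_lit 287) (nat_lit 178)) (XT.lf (nat_lit 0) (nat_lit 4139273197) (nat_lit 608) (nat_lit 280631006) (nat_lit 76) (nat_lit 10419805225) (nat_lit 137) (nat_lit 5) (nat_lit 145) (nat_lit 5) (nat_lit 138) (nat_lit 5) (nat_lit 316) (nat_lit 287) (nat_lit 177)))) (XT.nd (nat_lit 156) (nat_lit 456) (nat_lit 0) (XT.nd (nat_lit 78) (nat_lit 0)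 (nat_lit 0) (XT.lf (nat_lit 0) (nat_lit 6077504742) (nat_lit 532) (nat_lit 7975787718) (nat_lit 76) (nat_lit 1042908341) (nat_lit 131) (nat_lit 5) (nat_lit 138) (nat_lit 5) (nat_lit 132) (nat_lit 5) (nat_lit 317) (nat_lit 287) (nat_lit 176)) (XT.lf (nat_lit 0) (nat_lit 8107054547) (nat_lit 532) (nat_lit 669482214) (nat_lit 76) (nat_lit 6582873387) (nat_lit 131) (nat_lit 5) (nat_lit 138) (nat_lit 5) (nat_lit 132) (nat_lit 5) (nat_lit 318) (nat_lit 287) (nat_lit 175))) (XT.nd (nat_lit 78) (nat_lit 0) (nat_lit 0) (XT.lf (nat_lit 0) (nat_lit 6977972010) (nat_lit 456) (nat_lit 3273535184) (nat_lit 532) (nat_lit 5377405931) (nat_lit 125) (nat_lit 5) (nat_lit 131) (nat_lit 5) (nat_lit 132) (nat_lit 5) (nat_lit 319) (nat_lit 287) (nat_lit 174)) (XT.lf (nat_lit 0) (nat_lit 12477311716) (nat_lit 532) (nat_lit 1075265938) (nat_lit 76) (nat_lit 2353430306) (nat_lit 125) (nat_lit 5) (nat_lit 132) (nat_lit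 5) (nat_lit 126) (nat_lit 5) (nat_lit 320) (nat_lit 287) (nat_lit 173)))))) (XT.nd (nat_lit 546) (nat_lit 1140) (nat_lit 0) (XT.nd (nat_lit 234) (nat_lit 760) (nat_lit 0) (XT.nd (nat_lit 78) (nat_lit 532) (nat_lit 0) (XT.lf (nat_lit 0) (nat_lit 6814202672) (nat_lit 456) (nat_lit 8041147788) (nat_lit 532) (nat_lit 1333518194) (nat_lit 119) (nat_lit 5) (nat_lit 125) (nat_lit 5) (nat_lit 126) (nat_lit 5) (nat_lit 321) (nat_lit 287) (nat_lit 172)) (XT.nd (nat_lit 78) (nat_lit 456) (nat_lit 0) (XT.lf (nat_lit 0) (nat_lit 807030173) (nat_lit 532) (nat_lit 1539684919) (nat_lit 76) (nat_lit 14133320023) (nat_lit 118) (nat_lit 5) (nat_lit 125) (nat_lit 5) (nat_lit 119) (nat_lit 5) (nat_lit 322) (nat_lit 287) (nat_lit 171)) (XT.lf (nat_lit 0) (nat_lit 3071317746) (nat_lit 532) (nat_lit 10179745148) (nat_lit 76) (nat_lit 3525903217) (nat_lit 112) (nat_lit 5) (nat_lit 119) (nat_lit 5) (nat_lit 113) (nat_lit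 5) (nat_lit 323) (nat_lit 287) (nat_lit 170)))) (XT.nd (nat_lit 156) (nat_lit 380) (nat_lit 0) (XT.nd (nat_lit 78) (nat_lit 380) (nat_lit 0) (XT.lf (nat_lit 0) (nat_lit 5430670292) (nat_lit 532) (nat_lit 2109894415) (nat_lit 76) (nat_lit 9541441176) (nat_lit 112) (nat_lit 5) (nat_lit 119) (nat_lit 5) (nat_lit 113) (nat_lit 5) (nat_lit 324) (nat_lit 287) (nat_lit 169)) (XT.lf (nat_lit 0) (nat_lit 6311658600) (nat_lit 380) (nat_lit 1598359841) (nat_lit 456) (nat_lit 9484716463) (nat_lit 107) (nat_lit 5) (nat_lit 112) (nat_lit 5) (nat_lit 113) (nat_lit 5) (nat_lit 325) (nat_lit 287) (nat_lit 168))) (XT.nd (nat_lit 78) (nat_lit 380) (nat_lit 0) (XT.lf (nat_lit 0) (nat_lit 10517460354) (nat_lit 456) (nat_lit 2744532183) (nat_lit 76) (nat_lit 4453255939) (nat_lit 107) (nat_lit 5) (nat_lit 113) (nat_lit 5) (nat_lit 108) (nat_lit 5) (nat_lit 326) (nat_lit 287) (nat_lit 167)) (XT.lf (nat_lit 0) (nat_lit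 5930718926) (nat_lit 380) (nat_lit 7334297248) (nat_lit 456) (nat_lit 4778518233) (nat_lit 102) (nat_lit 5) (nat_lit 107) (nat_lit 5) (nat_lit 108) (nat_lit 5) (nat_lit 327) (nat_lit 287) (nat_lit 166))))) (XT.nd (nat_lit 234) (nat_lit 684) (nat_lit 0) (XT.nd (nat_lit 78) (nat_lit 456) (nat_lit 0) (XT.lf (nat_lit 0) (nat_lit 14909265029) (nat_lit 380) (nat_lit 1202695306) (nat_lit 456) (nat_lit 2269213006) (nat_lit 102) (nat_lit 5) (nat_lit 107) (nat_lit 5) (nat_lit 108) (nat_lit 5) (nat_lit 328) (nat_lit 287) (nat_lit 165)) (XT.nd (nat_lit 78) (nat_lit 0) (nat_lit 0) (XT.lf (nat_lit 0) (nat_lit 401401120) (nat_lit 456) (nat_lit 13257420646) (nat_lit 76) (nat_lit 5067275727) (nat_lit 96) (nat_lit 5) (nat_lit 102) (nat_lit 5) (nat_lit 97) (nat_lit 5) (nat_lit 329) (nat_lit 287) (nat_lit 164)) (XT.lf (nat_lit 0) (nat_lit 3143442185) (nat_lit 456) (nat_lit 4379620650) (nat_lit 76) (nat_lit 11556537135)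 (nat_lit 96) (nat_lit 5) (nat_lit 102) (nat_lit 5) (nat_lit 97) (nat_lit 5) (nat_lit 330) (nat_lit 287) (nat_lit 163)))) (XT.nd (nat_lit 156) (nat_lit 304) (nat_lit 0) (XT.nd (nat_lit 78) (nat_lit 0) (nat_lit 0) (XT.lf (nat_lit 0) (nat_lit 4846235328) (nat_lit 380) (nat_lit 1157999944) (nat_lit 456) (nat_lit 13438389320) (nat_lit 91) (nat_lit 5) (nat_lit 96) (nat_lit 5) (nat_lit 97) (nat_lit 5) (nat_lit 331) (nat_lit 287) (nat_lit 162)) (XT.lf (nat_lit 0) (nat_lit 9037455290) (nat_lit 456) (nat_lit 5441896989) (nat_lit 76) (nat_lit 5334601027) (nat_lit 91) (nat_lit 5) (nat_lit 97) (nat_lit 5) (nat_lit 92) (nat_lit 5) (nat_lit 332) (nat_lit 287) (nat_lit 161))) (XT.nd (nat_lit 78) (nat_lit 0) (nat_lit 0) (XT.lf (nat_lit 0) (nat_lit 4042015867) (nat_lit 304) (nat_lit 8160316163) (nat_lit 380) (nat_lit 7992881165) (nat_lit 87) (nat_lit 5) (nat_lit 91) (nat_lit 5) (nat_lit 92) (nat_lit 5) (nat_lit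 333) (nat_lit 287) (nat_lit 160)) (XT.lf (nat_lit 0) (nat_lit 13909500289) (nat_lit 304) (nat_lit 1598108914) (nat_lit 380) (nat_lit 5078948846) (nat_lit 87) (nat_lit 5) (nat_lit 91) (nat_lit 5) (nat_lit 92) (nat_lit 5) (nat_lit 334) (nat_lit 287) (nat_lit 159))))))))
noncomputable def xc174 : XT := (XT.nd (nat_lit 2028) (nat_lit 1672) (nat_lit 0) (XT.nd (nat_lit 1014) (nat_lit 1368) (nat_lit 0) (XT.nd (nat_lit 468) (nat_lit 836) (nat_lit 0) (XT.nd (nat_lit 234) (nat_lit 304) (nat_lit 0) (XT.nd (nat_lit 78) (nat_lit 380) (nat_lit 0) (XT.lf (nat_lit 0) (nat_lit 3081492222) (nat_lit 380) (nat_lit 15900534291) (nat_lit 456) (nat_lit 2005527760) (nat_lit 82) (nat_lit 5) (nat_lit 87) (nat_lit 5) (nat_lit 88) (nat_lit 5) (nat_lit 335) (nat_lit 287) (nat_lit 158)) (XT.nd (nat_lit 78) (nat_lit 304) (nat_lit 0) (XT.lf (nat_lit 0) (nat_lit 1212175599) (nat_lit 456) (nat_lit 8168993635) (nat_lit 76) (nat_lit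 12016844960) (nat_lit 81) (nat_lit 5) (nat_lit 87) (nat_lit 5) (nat_lit 82) (nat_lit 5) (nat_lit 336) (nat_lit 287) (nat_lit 157)) (XT.lf (nat_lit 0) (nat_lit 1864612652) (nat_lit 304) (nat_lit 2630481658) (nat_lit 380) (nat_lit 17324837689) (nat_lit 77) (nat_lit 5) (nat_lit 81) (nat_lit 5) (nat_lit 82) (nat_lit 5) (nat_lit 337) (nat_lit 287) (nat_lit 156)))) (XT.nd (nat_lit 78) (nat_lit 304) (nat_lit 0) (XT.lf (nat_lit 0) (nat_lit 7992544574) (nat_lit 380) (nat_lit 9939944811) (nat_lit 76) (nat_lit 4318545944) (nat_lit 77) (nat_lit 5) (nat_lit 82) (nat_lit 5) (nat_lit 78) (nat_lit 5) (nat_lit 338) (nat_lit 287) (nat_lit 155)) (XT.nd (nat_lit 78) (nat_lit 0) (nat_lit 0) (XT.lf (nat_lit 0) (nat_lit 344702833) (nat_lit 304) (nat_lit 11271013902) (nat_lit 380) (nat_lit 11078740109) (nat_lit 73) (nat_lit 5) (nat_lit 77) (nat_lit 5) (nat_lit 78) (nat_lit 5) (nat_lit 339) (nat_lit 287) (nat_lit 154))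 (XT.lf (nat_lit 0) (nat_lit 11129895258) (nat_lit 304) (nat_lit 4309639602) (nat_lit 380) (nat_lit 7708896398) (nat_lit 73) (nat_lit 5) (nat_lit 77) (nat_lit 5) (nat_lit 78) (nat_lit 5) (nat_lit 340) (nat_lit 287) (nat_lit 153))))) (XT.nd (nat_lit 234) (nat_lit 532) (nat_lit 0) (XT.nd (nat_lit 78) (nat_lit 304) (nat_lit 0) (XT.lf (nat_lit 0) (nat_lit 19397356229) (nat_lit 380) (nat_lit 1416513256) (nat_lit 76) (nat_lit 2801585276) (nat_lit 73) (nat_lit 5) (nat_lit 78) (nat_lit 5) (nat_lit 74) (nat_lit 5) (nat_lit 341) (nat_lit 287) (nat_lit 152)) (XT.nd (nat_lit 78) (nat_lit 76) (nat_lit 0) (XT.lf (nat_lit 0) (nat_lit 9637670799) (nat_lit 228) (nat_lit 13963584517) (nat_lit 304) (nat_lit 491421634) (nat_lit 70) (nat_lit 5) (nat_lit 73) (nat_lit 5) (nat_lit 74) (nat_lit 5) (nat_lit 342) (nat_lit 287) (nat_lit 151)) (XT.lf (nat_lit 0) (nat_lit 3288257349) (nat_lit 304) (nat_lit 3574934980) (nat_lit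 76) (nat_lit 17719870606) (nat_lit 69) (nat_lit 5) (nat_lit 73) (nat_lit 5) (nat_lit 70) (nat_lit 5) (nat_lit 343) (nat_lit 287) (nat_lit 150)))) (XT.nd (nat_lit 156) (nat_lit 228) (nat_lit 0) (XT.nd (nat_lit 78) (nat_lit 0) (nat_lit 0) (XT.lf (nat_lit 0) (nat_lit 7243496342) (nat_lit 380) (nat_lit 17323876862) (nat_lit 76) (nat_lit 518487497) (nat_lit 65) (nat_lit 5) (nat_lit 70) (nat_lit 5) (nat_lit 66) (nat_lit 5) (nat_lit 344) (nat_lit 287) (nat_lit 149)) (XT.lf (nat_lit 0) (nat_lit 11414189765) (nat_lit 380) (nat_lit 6169790693) (nat_lit 76) (nat_lit 8016865373) (nat_lit 65) (nat_lit 5) (nat_lit 70) (nat_lit 5) (nat_lit 66) (nat_lit 5) (nat_lit 345) (nat_lit 287) (nat_lit 148))) (XT.nd (nat_lit 78) (nat_lit 0) (nat_lit 0) (XT.lf (nat_lit 0) (nat_lit 5413769574) (nat_lit 228) (nat_lit 10340884207) (nat_lit 304) (nat_lit 10375294376) (nat_lit 62) (nat_lit 5) (nat_lit 65) (nat_lit 5) (nat_lit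 66) (nat_lit 5) (nat_lit 346) (nat_lit 287) (nat_lit 147)) (XT.lf (nat_lit 0) (nat_lit 17460626468) (nat_lit 228) (nat_lit 2819729914) (nat_lit 304) (nat_lit 6392923356) (nat_lit 62) (nat_lit 5) (nat_lit 65) (nat_lit 5) (nat_lit 66) (nat_lit 5) (nat_lit 347) (nat_lit 287) (nat_lit 146)))))) (XT.nd (nat_lit 468) (nat_lit 608) (nat_lit 0) (XT.nd (nat_lit 234) (nat_lit 456) (nat_lit 0) (XT.nd (nat_lit 78) (nat_lit 76) (nat_lit 0) (XT.lf (nat_lit 0) (nat_lit 2629363703) (nat_lit 228) (nat_lit 22378005385) (nat_lit 304) (nat_lit 2223582735) (nat_lit 59) (nat_lit 5) (nat_lit 62) (nat_lit 5) (nat_lit 63) (nat_lit 5) (nat_lit 348) (nat_lit 287) (nat_lit 145)) (XT.nd (nat_lit 78) (nat_lit 0) (nat_lit 0) (XT.lf (nat_lit 0) (nat_lit 2145230189) (nat_lit 304) (nat_lit 12846421006) (nat_lit 76) (nat_lit 12809667982) (nat_lit 58) (nat_lit 5) (nat_lit 62) (nat_lit 5) (nat_lit 59) (nat_lit 5) (nat_lit 349)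 (nat_lit 287) (nat_lit 144)) (XT.lf (nat_lit 0) (nat_lit 6593554194) (nat_lit 304) (nat_lit 770909699) (nat_lit 76) (nat_lit 21023885188) (nat_lit 58) (nat_lit 5) (nat_lit 62) (nat_lit 5) (nat_lit 59) (nat_lit 5) (nat_lit 350) (nat_lit 287) (nat_lit 143)))) (XT.nd (nat_lit 78) (nat_lit 228) (nat_lit 0) (XT.lf (nat_lit 0) (nat_lit 11288773770) (nat_lit 304) (nat_lit 17106725406) (nat_lit 76) (nat_lit 594093306) (nat_lit 55) (nat_lit 5) (nat_lit 59) (nat_lit 5) (nat_lit 56) (nat_lit 5) (nat_lit 351) (nat_lit 287) (nat_lit 142)) (XT.nd (nat_lit 78) (nat_lit 228) (nat_lit 0) (XT.lf (nat_lit 0) (nat_lit 16199032358) (nat_lit 304) (nat_lit 4759640085) (nat_lit 76) (nat_lit 8647981070) (nat_lit 55) (nat_lit 5) (nat_lit 59) (nat_lit 5) (nat_lit 56) (nat_lit 5) (nat_lit 352) (nat_lit 287) (nat_lit 141)) (XT.lf (nat_lit 0) (nat_lit 8106265542) (nat_lit 228) (nat_lit 13221852815) (nat_lit 304) (nat_lit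 8911968063) (nat_lit 52) (nat_lit 5) (nat_lit 55) (nat_lit 5) (nat_lit 56) (nat_lit 5) (nat_lit 353) (nat_lit 287) (nat_lit 140))))) (XT.nd (nat_lit 234) (nat_lit 380) (nat_lit 0) (XT.nd (nat_lit 78) (nat_lit 228) (nat_lit 0) (XT.lf (nat_lit 0) (nat_lit 21446037434) (nat_lit 228) (nat_lit 5206793252) (nat_lit 304) (nat_lit 4238444482) (nat_lit 52) (nat_lit 5) (nat_lit 55) (nat_lit 5) (nat_lit 56) (nat_lit 5) (nat_lit 354) (nat_lit 287) (nat_lit 139)) (XT.nd (nat_lit 78) (nat_lit 0) (nat_lit 0) (XT.lf (nat_lit 0) (nat_lit 622928558) (nat_lit 228) (nat_lit 27909869563) (nat_lit 76) (nat_lit 3027274625) (nat_lit 49) (nat_lit 5) (nat_lit 52) (nat_lit 5) (nat_lit 50) (nat_lit 5) (nat_lit 355) (nat_lit 287) (nat_lit 138)) (XT.lf (nat_lit 0) (nat_lit 5686695665) (nat_lit 228) (nat_lit 15017996986) (nat_lit 76) (nat_lit 11538735417) (nat_lit 49) (nat_lit 5) (nat_lit 52) (nat_lit 5) (nat_lit 50) (nat_lit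 5) (nat_lit 356) (nat_lit 287) (nat_lit 137)))) (XT.nd (nat_lit 156) (nat_lit 152) (nat_lit 0) (XT.nd (nat_lit 78) (nat_lit 228) (nat_lit 0) (XT.lf (nat_lit 0) (nat_lit 10896420720) (nat_lit 228) (nat_lit 1748676953) (nat_lit 76) (nat_lit 20302369888) (nat_lit 49) (nat_lit 5) (nat_lit 52) (nat_lit 5) (nat_lit 50) (nat_lit 5) (nat_lit 357) (nat_lit 287) (nat_lit 136)) (XT.lf (nat_lit 0) (nat_lit 12146711170) (nat_lit 228) (nat_lit 4226706357) (nat_lit 304) (nat_lit 17295886028) (nat_lit 46) (nat_lit 5) (nat_lit 49) (nat_lit 5) (nat_lit 50) (nat_lit 5) (nat_lit 358) (nat_lit 287) (nat_lit 135))) (XT.nd (nat_lit 78) (nat_lit 152) (nat_lit 0) (XT.lf (nat_lit 0) (nat_lit 22069547522) (nat_lit 304) (nat_lit 7969446647) (nat_lit 76) (nat_lit 4372160342) (nat_lit 46) (nat_lit 5) (nat_lit 50) (nat_lit 5) (nat_lit 47) (nat_lit 5) (nat_lit 359) (nat_lit 287) (nat_lit 134)) (XT.lf (nat_lit 0) (nat_lit 6057826444)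 (nat_lit 152) (nat_lit 21973251509) (nat_lit 228) (nat_lit 7141351992) (nat_lit 44) (nat_lit 5) (nat_lit 46) (nat_lit 5) (nat_lit 47) (nat_lit 5) (nat_lit 360) (nat_lit 287) (nat_lit 133))))))) (XT.nd (nat_lit 1014) (nat_lit 684) (nat_lit 0) (XT.nd (nat_lit 468) (nat_lit 532) (nat_lit 0) (XT.nd (nat_lit 234) (nat_lit 152) (nat_lit 0) (XT.nd (nat_lit 78) (nat_lit 304) (nat_lit 0) (XT.lf (nat_lit 0) (nat_lit 20660541669) (nat_lit 152) (nat_lit 13585902851) (nat_lit 228) (nat_lit 1707853733) (nat_lit 44) (nat_lit 5) (nat_lit 46) (nat_lit 5) (nat_lit 47) (nat_lit 5) (nat_lit 361) (nat_lit 287) (nat_lit 132)) (XT.nd (nat_lit 78) (nat_lit 228) (nat_lit 0) (XT.lf (nat_lit 0) (nat_lit 3807385289) (nat_lit 228) (nat_lit 1104262814) (nat_lit 76) (nat_lit 31847018653) (nat_lit 43) (nat_lit 5) (nat_lit 46) (nat_lit 5) (nat_lit 44) (nat_lit 5) (nat_lit 362) (nat_lit 287) (nat_lit 131)) (XT.lf (nat_lit 0)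 (nat_lit 9620858182) (nat_lit 304) (nat_lit 23868920439) (nat_lit 76) (nat_lit 4091871273) (nat_lit 40) (nat_lit 5) (nat_lit 44) (nat_lit 5) (nat_lit 41) (nat_lit 5) (nat_lit 363) (nat_lit 287) (nat_lit 130)))) (XT.nd (nat_lit 78) (nat_lit 152) (nat_lit 0) (XT.lf (nat_lit 0) (nat_lit 15663443708) (nat_lit 304) (nat_lit 9489255482) (nat_lit 76) (nat_lit 13274985919) (nat_lit 40) (nat_lit 5) (nat_lit 44) (nat_lit 5) (nat_lit 41) (nat_lit 5) (nat_lit 364) (nat_lit 287) (nat_lit 129)) (XT.nd (nat_lit 78) (nat_lit 0) (nat_lit 0) (XT.lf (nat_lit 0) (nat_lit 5419401272) (nat_lit 152) (nat_lit 16514968062) (nat_lit 228) (nat_lit 17363323894) (nat_lit 38) (nat_lit 5) (nat_lit 40) (nat_lit 5) (nat_lit 41) (nat_lit 5) (nat_lit 365) (nat_lit 287) (nat_lit 128)) (XT.lf (nat_lit 0) (nat_lit 20961767876) (nat_lit 152) (nat_lit 7522514650) (nat_lit 228) (nat_lit 11706796886) (nat_lit 38) (nat_lit 5) (nat_lit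 40) (nat_lit 5) (nat_lit 41) (nat_lit 5) (nat_lit 366) (nat_lit 287) (nat_lit 127))))) (XT.nd (nat_lit 234) (nat_lit 304) (nat_lit 0) (XT.nd (nat_lit 78) (nat_lit 228) (nat_lit 0) (XT.lf (nat_lit 0) (nat_lit 35242568775) (nat_lit 228) (nat_lit 4165539179) (nat_lit 76) (nat_lit 1702806468) (nat_lit 38) (nat_lit 5) (nat_lit 41) (nat_lit 5) (nat_lit 39) (nat_lit 5) (nat_lit 367) (nat_lit 287) (nat_lit 126)) (XT.nd (nat_lit 78) (nat_lit 0) (nat_lit 0) (XT.lf (nat_lit 0) (nat_lit 324449898) (nat_lit 228) (nat_lit 30563923896) (nat_lit 76) (nat_lit 11164471347) (nat_lit 35) (nat_lit 5) (nat_lit 38) (nat_lit 5) (nat_lit 36) (nat_lit 5) (nat_lit 368) (nat_lit 287) (nat_lit 125)) (XT.lf (nat_lit 0) (nat_lit 6622869654) (nat_lit 228) (nat_lit 15389629320) (nat_lit 76) (nat_lit 21007661301) (nat_lit 35) (nat_lit 5) (nat_lit 38) (nat_lit 5) (nat_lit 36) (nat_lit 5) (nat_lit 369) (nat_lit 287) (nat_lit 124))))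 (XT.nd (nat_lit 156) (nat_lit 152) (nat_lit 0) (XT.nd (nat_lit 78) (nat_lit 0) (nat_lit 0) (XT.lf (nat_lit 0) (nat_lit 237000875) (nat_lit 152) (nat_lit 12870964012) (nat_lit 228) (nat_lit 30908601405) (nat_lit 33) (nat_lit 5) (nat_lit 35) (nat_lit 5) (nat_lit 36) (nat_lit 5) (nat_lit 370) (nat_lit 287) (nat_lit 123)) (XT.lf (nat_lit 0) (nat_lit 16640458036) (nat_lit 152) (nat_lit 3298065831) (nat_lit 228) (nat_lit 25099816324) (nat_lit 33) (nat_lit 5) (nat_lit 35) (nat_lit 5) (nat_lit 36) (nat_lit 5) (nat_lit 371) (nat_lit 287) (nat_lit 122))) (XT.nd (nat_lit 78) (nat_lit 152) (nat_lit 0) (XT.lf (nat_lit 0) (nat_lit 27032686937) (nat_lit 228) (nat_lit 12625160278) (nat_lit 76) (nat_lit 6431162413) (nat_lit 33) (nat_lit 5) (nat_lit 36) (nat_lit 5) (nat_lit 34) (nat_lit 5) (nat_lit 372) (nat_lit 287) (nat_lit 121)) (XT.lf (nat_lit 0) (nat_lit 3652237310) (nat_lit 152) (nat_lit 30750936308) (nat_lit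 228) (nat_lit 12766123422) (nat_lit 31) (nat_lit 5) (nat_lit 33) (nat_lit 5) (nat_lit 34) (nat_lit 5) (nat_lit 373) (nat_lit 287) (nat_lit 120)))))) (XT.nd (nat_lit 546) (nat_lit 304) (nat_lit 0) (XT.nd (nat_lit 234) (nat_lit 152) (nat_lit 0) (XT.nd (nat_lit 78) (nat_lit 228) (nat_lit 0) (XT.lf (nat_lit 0) (nat_lit 20669709907) (nat_lit 152) (nat_lit 21448347812) (nat_lit 228) (nat_lit 6160239643) (nat_lit 31) (nat_lit 5) (nat_lit 33) (nat_lit 5) (nat_lit 34) (nat_lit 5) (nat_lit 374) (nat_lit 287) (nat_lit 119)) (XT.nd (nat_lit 78) (nat_lit 152) (nat_lit 0) (XT.lf (nat_lit 0) (nat_lit 627130291) (nat_lit 228) (nat_lit 11235979536) (nat_lit 76) (nat_lit 37557398625) (nat_lit 30) (nat_lit 5) (nat_lit 33) (nat_lit 5) (nat_lit 31) (nat_lit 5) (nat_lit 375) (nat_lit 287) (nat_lit 118)) (XT.lf (nat_lit 0) (nat_lit 5670742875) (nat_lit 152) (nat_lit 1874067490) (nat_lit 228) (nat_lit 43048833160)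 (nat_lit 28) (nat_lit 5) (nat_lit 30) (nat_lit 5) (nat_lit 31) (nat_lit 5) (nat_lit 376) (nat_lit 287) (nat_lit 117)))) (XT.nd (nat_lit 156) (nat_lit 152) (nat_lit 0) (XT.nd (nat_lit 78) (nat_lit 0) (nat_lit 0) (XT.lf (nat_lit 0) (nat_lit 14861512058) (nat_lit 228) (nat_lit 28572342383) (nat_lit 76) (nat_lit 8362375935) (nat_lit 28) (nat_lit 5) (nat_lit 31) (nat_lit 5) (nat_lit 29) (nat_lit 5) (nat_lit 377) (nat_lit 287) (nat_lit 116)) (XT.lf (nat_lit 0) (nat_lit 22412405601) (nat_lit 228) (nat_lit 11756382677) (nat_lit 76) (nat_lit 18865668219) (nat_lit 28) (nat_lit 5) (nat_lit 31) (nat_lit 5) (nat_lit 29) (nat_lit 5) (nat_lit 378) (nat_lit 287) (nat_lit 115))) (XT.nd (nat_lit 78) (nat_lit 0) (nat_lit 0) (XT.lf (nat_lit 0) (nat_lit 5668295569) (nat_lit 152) (nat_lit 24572265737) (nat_lit 228) (nat_lit 24067748356) (nat_lit 26) (nat_lit 5) (nat_lit 28) (nat_lit 5) (nat_lit 29) (nat_lit 5) (nat_lit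 379) (nat_lit 287) (nat_lit 114)) (XT.lf (nat_lit 0) (nat_lit 23850401813) (nat_lit 152) (nat_lit 14568173165) (nat_lit 228) (nat_lit 17198355299) (nat_lit 26) (nat_lit 5) (nat_lit 28) (nat_lit 5) (nat_lit 29) (nat_lit 5) (nat_lit 380) (nat_lit 287) (nat_lit 113))))) (XT.nd (nat_lit 234) (nat_lit 152) (nat_lit 0) (XT.nd (nat_lit 78) (nat_lit 152) (nat_lit 0) (XT.lf (nat_lit 0) (nat_lit 42571848262) (nat_lit 152) (nat_lit 4266485536) (nat_lit 228) (nat_lit 10126585756) (nat_lit 26) (nat_lit 5) (nat_lit 28) (nat_lit 5) (nat_lit 29) (nat_lit 5) (nat_lit 381) (nat_lit 287) (nat_lit 112)) (XT.nd (nat_lit 78) (nat_lit 76) (nat_lit 0) (XT.lf (nat_lit 0) (nat_lit 3502931678) (nat_lit 76) (nat_lit 52098896733) (nat_lit 152) (nat_lit 2748787933) (nat_lit 25) (nat_lit 5) (nat_lit 26) (nat_lit 5) (nat_lit 27) (nat_lit 4) (nat_lit 382) (nat_lit 287) (nat_lit 111)) (XT.lf (nat_lit 0) (nat_lit 4941213876)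 (nat_lit 152) (nat_lit 37639011688) (nat_lit 76) (nat_lit 17190696208) (nat_lit 24) (nat_lit 5) (nat_lit 26) (nat_lit 5) (nat_lit 25) (nat_lit 5) (nat_lit 383) (nat_lit 287) (nat_lit 110)))) (XT.nd (nat_lit 156) (nat_lit 152) (nat_lit 0) (XT.nd (nat_lit 78) (nat_lit 0) (nat_lit 0) (XT.lf (nat_lit 0) (nat_lit 12803264401) (nat_lit 152) (nat_lit 19947158866) (nat_lit 76) (nat_lit 28482700671) (nat_lit 24) (nat_lit 5) (nat_lit 26) (nat_lit 5) (nat_lit 25) (nat_lit 5) (nat_lit 384) (nat_lit 287) (nat_lit 109)) (XT.lf (nat_lit 0) (nat_lit 20897872147) (nat_lit 152) (nat_lit 1730244269) (nat_lit 76) (nat_lit 40111176767) (nat_lit 24) (nat_lit 5) (nat_lit 26) (nat_lit 5) (nat_lit 25) (nat_lit 5) (nat_lit 385) (nat_lit 287) (nat_lit 108))) (XT.nd (nat_lit 78) (nat_lit 0) (nat_lit 0) (XT.lf (nat_lit 0) (nat_lit 17366533412) (nat_lit 152) (nat_lit 12032514403) (nat_lit 228) (nat_lit 34886689634) (nat_lit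 22) (nat_lit 5) (nat_lit 24) (nat_lit 5) (nat_lit 25) (nat_lit 5) (nat_lit 386) (nat_lit 287) (nat_lit 107)) (XT.lf (nat_lit 0) (nat_lit 37066208961) (nat_lit 152) (nat_lit 1103354635) (nat_lit 228) (nat_lit 27708584078) (nat_lit 22) (nat_lit 5) (nat_lit 24) (nat_lit 5) (nat_lit 25) (nat_lit 5) (nat_lit 387) (nat_lit 287) (nat_lit 106))))))))
noncomputable def xc175 : XT := (XT.nd (nat_lit 33930) (nat_lit 0) (nat_lit 6460) (XT.nd (nat_lit 32916) (nat_lit 0) (nat_lit 13300) (XT.nd (nat_lit 468) (nat_lit 76) (nat_lit 0) (XT.nd (nat_lit 234) (nat_lit 228) (nat_lit 0) (XT.nd (nat_lit 78) (nat_lit 76) (nat_lit 0) (XT.lf (nat_lit 0) (nat_lit 47297701725) (nat_lit 228) (nat_lit 10264445609) (nat_lit 76) (nat_lit 9953349394) (nat_lit 22) (nat_lit 5) (nat_lit 25) (nat_lit 5) (nat_lit 23) (nat_lit 4) (nat_lit 388) (nat_lit 287) (nat_lit 105)) (XT.nd (nat_lit 78) (nat_lit 0) (nat_lit 0) (XT.lf (nat_lit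 0) (nat_lit 8998919418) (nat_lit 76) (nat_lit 47795185681) (nat_lit 152) (nat_lit 12405030195) (nat_lit 21) (nat_lit 5) (nat_lit 22) (nat_lit 5) (nat_lit 23) (nat_lit 4) (nat_lit 389) (nat_lit 287) (nat_lit 104)) (XT.lf (nat_lit 0) (nat_lit 29045417844) (nat_lit 76) (nat_lit 37630664970) (nat_lit 152) (nat_lit 4254181366) (nat_lit 21) (nat_lit 5) (nat_lit 22) (nat_lit 5) (nat_lit 23) (nat_lit 4) (nat_lit 390) (nat_lit 287) (nat_lit 103)))) (XT.nd (nat_lit 78) (nat_lit 152) (nat_lit 0) (XT.lf (nat_lit 0) (nat_lit 4057471178) (nat_lit 152) (nat_lit 23064910672) (nat_lit 76) (nat_lit 45589839751) (nat_lit 20) (nat_lit 5) (nat_lit 22) (nat_lit 5) (nat_lit 21) (nat_lit 5) (nat_lit 391) (nat_lit 287) (nat_lit 102)) (XT.nd (nat_lit 78) (nat_lit 152) (nat_lit 0) (XT.lf (nat_lit 0) (nat_lit 12530141127) (nat_lit 152) (nat_lit 3727436653) (nat_lit 76) (nat_lit 58288882655) (nat_lit 20) (nat_lit 5) (nat_lit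 22) (nat_lit 5) (nat_lit 21) (nat_lit 5) (nat_lit 392) (nat_lit 287) (nat_lit 101)) (XT.lf (nat_lit 0) (nat_lit 16507486859) (nat_lit 152) (nat_lit 4905439388) (nat_lit 228) (nat_lit 55018123582) (nat_lit 18) (nat_lit 5) (nat_lit 20) (nat_lit 5) (nat_lit 21) (nat_lit 5) (nat_lit 393) (nat_lit 287) (nat_lit 100))))) (XT.nd (nat_lit 234) (nat_lit 76) (nat_lit 0) (XT.nd (nat_lit 78) (nat_lit 0) (nat_lit 0) (XT.lf (nat_lit 0) (nat_lit 30662720453) (nat_lit 228) (nat_lit 41015608210) (nat_lit 76) (nat_lit 6690833879) (nat_lit 18) (nat_lit 5) (nat_lit 21) (nat_lit 5) (nat_lit 19) (nat_lit 4) (nat_lit 394) (nat_lit 287) (nat_lit 99)) (XT.nd (nat_lit 78) (nat_lit 0) (nat_lit 0) (XT.lf (nat_lit 0) (nat_lit 40235926446) (nat_lit 228) (nat_lit 21593654753) (nat_lit 76) (nat_lit 18534461260) (nat_lit 18) (nat_lit 5) (nat_lit 21) (nat_lit 5) (nat_lit 19) (nat_lit 4) (nat_lit 395) (nat_lit 287) (nat_lit 98))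 (XT.lf (nat_lit 0) (nat_lit 50093755081) (nat_lit 228) (nat_lit 1593577878) (nat_lit 76) (nat_lit 30731514347) (nat_lit 18) (nat_lit 5) (nat_lit 21) (nat_lit 5) (nat_lit 19) (nat_lit 4) (nat_lit 396) (nat_lit 287) (nat_lit 97)))) (XT.nd (nat_lit 156) (nat_lit 0) (nat_lit 0) (XT.nd (nat_lit 78) (nat_lit 0) (nat_lit 0) (XT.lf (nat_lit 0) (nat_lit 19380277224) (nat_lit 76) (nat_lit 41050837850) (nat_lit 152) (nat_lit 24098668614) (nat_lit 17) (nat_lit 5) (nat_lit 18) (nat_lit 5) (nat_lit 19) (nat_lit 4) (nat_lit 397) (nat_lit 287) (nat_lit 96)) (XT.lf (nat_lit 0) (nat_lit 41011654840) (nat_lit 76) (nat_lit 30080565321) (nat_lit 152) (nat_lit 15611420517) (nat_lit 17) (nat_lit 5) (nat_lit 18) (nat_lit 5) (nat_lit 19) (nat_lit 4) (nat_lit 398) (nat_lit 287) (nat_lit 95))) (XT.nd (nat_lit 31980) (nat_lit 0) (nat_lit 14288) (XT.lf (nat_lit 0) (nat_lit 63287740849) (nat_lit 76) (nat_lit 18783021710)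 (nat_lit 152) (nat_lit 6872023906) (nat_lit 17) (nat_lit 5) (nat_lit 18) (nat_lit 5) (nat_lit 19) (nat_lit 4) (nat_lit 399) (nat_lit 287) (nat_lit 94)) (XT.lf (nat_lit 0) (nat_lit 1554904611) (nat_lit 0) (nat_lit 1554904611) (nat_lit 988) (nat_lit 1823892370) (nat_lit 205) (nat_lit 5) (nat_lit 205) (nat_lit 3) (nat_lit 218) (nat_lit 3) (nat_lit 288) (nat_lit 288) (nat_lit 204)))))) (XT.nd (nat_lit 468) (nat_lit 0) (nat_lit 76) (XT.nd (nat_lit 234) (nat_lit 988) (nat_lit 0) (XT.nd (nat_lit 78) (nat_lit 0) (nat_lit 0) (XT.lf (nat_lit 0) (nat_lit 6999056587) (nat_lit 988) (nat_lit 2379231040) (nat_lit 1064) (nat_lit 615399575) (nat_lit 205) (nat_lit 5) (nat_lit 218) (nat_lit 3) (nat_lit 219) (nat_lit 5) (nat_lit 289) (nat_lit 288) (nat_lit 203)) (XT.nd (nat_lit 78) (nat_lit 0) (nat_lit 0) (XT.lf (nat_lit 76) (nat_lit 2126957317) (nat_lit 0) (nat_lit 5699741121) (nat_lit 1064) (nat_lit 2296361281)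 (nat_lit 206) (nat_lit 5) (nat_lit 205) (nat_lit 5) (nat_lit 219) (nat_lit 5) (nat_lit 290) (nat_lit 288) (nat_lit 202)) (XT.lf (nat_lit 76) (nat_lit 6803002976) (nat_lit 0) (nat_lit 1874410735) (nat_lit 1064) (nat_lit 1578995675) (nat_lit 206) (nat_lit 5) (nat_lit 205) (nat_lit 5) (nat_lit 219) (nat_lit 5) (nat_lit 291) (nat_lit 288) (nat_lit 201)))) (XT.nd (nat_lit 78) (nat_lit 1064) (nat_lit 0) (XT.lf (nat_lit 76) (nat_lit 1214828021) (nat_lit 0) (nat_lit 8345435193) (nat_lit 1064) (nat_lit 833339982) (nat_lit 207) (nat_lit 5) (nat_lit 206) (nat_lit 5) (nat_lit 220) (nat_lit 5) (nat_lit 292) (nat_lit 288) (nat_lit 200)) (XT.nd (nat_lit 78) (nat_lit 1064) (nat_lit 0) (XT.lf (nat_lit 76) (nat_lit 6060524579) (nat_lit 0) (nat_lit 4437988339) (nat_lit 1064) (nat_lit 35573273) (nat_lit 207) (nat_lit 5) (nat_lit 206) (nat_lit 5) (nat_lit 220) (nat_lit 5) (nat_lit 293) (nat_lit 288) (nat_lit 199))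 (XT.lf (nat_lit 76) (nat_lit 357689695) (nat_lit 0) (nat_lit 392636425) (nat_lit 1140) (nat_lit 9928883130) (nat_lit 193) (nat_lit 5) (nat_lit 192) (nat_lit 5) (nat_lit 207) (nat_lit 5) (nat_lit 294) (nat_lit 288) (nat_lit 198))))) (XT.nd (nat_lit 234) (nat_lit 0) (nat_lit 76) (XT.nd (nat_lit 78) (nat_lit 0) (nat_lit 0) (XT.lf (nat_lit 0) (nat_lit 1617732828) (nat_lit 1064) (nat_lit 5454049520) (nat_lit 1140) (nat_lit 3755171075) (nat_lit 193) (nat_lit 5) (nat_lit 207) (nat_lit 5) (nat_lit 208) (nat_lit 5) (nat_lit 295) (nat_lit 288) (nat_lit 197)) (XT.nd (nat_lit 78) (nat_lit 0) (nat_lit 76) (XT.lf (nat_lit 0) (nat_lit 2492471674) (nat_lit 1064) (nat_lit 459222200) (nat_lit 1140) (nat_lit 8028033009) (nat_lit 193) (nat_lit 5) (nat_lit 207) (nat_lit 5) (nat_lit 208) (nat_lit 5) (nat_lit 296) (nat_lit 288) (nat_lit 196)) (XT.lf (nat_lit 0) (nat_lit 3430273504) (nat_lit 1064) (nat_lit 6385283017)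 (nat_lit 1140) (nat_lit 1320457609) (nat_lit 194) (nat_lit 5) (nat_lit 208) (nat_lit 5) (nat_lit 209) (nat_lit 5) (nat_lit 297) (nat_lit 288) (nat_lit 195)))) (XT.nd (nat_lit 156) (nat_lit 0) (nat_lit 76) (XT.nd (nat_lit 78) (nat_lit 0) (nat_lit 0) (XT.lf (nat_lit 0) (nat_lit 4408768458) (nat_lit 1064) (nat_lit 1214679065) (nat_lit 1140) (nat_lit 5673199879) (nat_lit 194) (nat_lit 5) (nat_lit 208) (nat_lit 5) (nat_lit 209) (nat_lit 5) (nat_lit 298) (nat_lit 288) (nat_lit 194)) (XT.lf (nat_lit 76) (nat_lit 4178053216) (nat_lit 0) (nat_lit 1258000076) (nat_lit 1140) (nat_lit 6025496511) (nat_lit 195) (nat_lit 5) (nat_lit 194) (nat_lit 5) (nat_lit 209) (nat_lit 5) (nat_lit 299) (nat_lit 288) (nat_lit 193))) (XT.nd (nat_lit 78) (nat_lit 0) (nat_lit 0) (XT.lf (nat_lit 0) (nat_lit 6517468685) (nat_lit 1064) (nat_lit 1919888085) (nat_lit 1140) (nat_lit 3193375366) (nat_lit 195) (nat_lit 5) (nat_lit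 209) (nat_lit 5) (nat_lit 210) (nat_lit 5) (nat_lit 300) (nat_lit 288) (nat_lit 192)) (XT.lf (nat_lit 76) (nat_lit 3648739341) (nat_lit 0) (nat_lit 4010500156) (nat_lit 1140) (nat_lit 4144944332) (nat_lit 196) (nat_lit 5) (nat_lit 195) (nat_lit 5) (nat_lit 210) (nat_lit 5) (nat_lit 301) (nat_lit 288) (nat_lit 191))))))) (XT.nd (nat_lit 1014) (nat_lit 3268) (nat_lit 0) (XT.nd (nat_lit 468) (nat_lit 1672) (nat_lit 0) (XT.nd (nat_lit 234) (nat_lit 2204) (nat_lit 0) (XT.nd (nat_lit 78) (nat_lit 0) (nat_lit 0) (XT.lf (nat_lit 0) (nat_lit 8840982151) (nat_lit 1064) (nat_lit 2579088360) (nat_lit 1140) (nat_lit 562627368) (nat_lit 196) (nat_lit 5) (nat_lit 210) (nat_lit 5) (nat_lit 211) (nat_lit 5) (nat_lit 302) (nat_lit 288) (nat_lit 190)) (XT.nd (nat_lit 78) (nat_lit 0) (nat_lit 0) (XT.lf (nat_lit 76) (nat_lit 3172048146) (nat_lit 0) (nat_lit 6937746758) (nat_lit 1140) (nat_lit 2055253396) (nat_lit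 197) (nat_lit 5) (nat_lit 196) (nat_lit 5) (nat_lit 211) (nat_lit 5) (nat_lit 303) (nat_lit 288) (nat_lit 189)) (XT.lf (nat_lit 76) (nat_lit 9134031187) (nat_lit 0) (nat_lit 2290504112) (nat_lit 1140) (nat_lit 928126662) (nat_lit 197) (nat_lit 5) (nat_lit 196) (nat_lit 5) (nat_lit 211) (nat_lit 5) (nat_lit 304) (nat_lit 288) (nat_lit 188)))) (XT.nd (nat_lit 78) (nat_lit 1140) (nat_lit 0) (XT.lf (nat_lit 0) (nat_lit 261320336) (nat_lit 1140) (nat_lit 9803718339) (nat_lit 76) (nat_lit 2479833716) (nat_lit 182) (nat_lit 5) (nat_lit 197) (nat_lit 5) (nat_lit 183) (nat_lit 5) (nat_lit 305) (nat_lit 288) (nat_lit 187)) (XT.nd (nat_lit 78) (nat_lit 1140) (nat_lit 0) (XT.lf (nat_lit 0) (nat_lit 1505856897) (nat_lit 1140) (nat_lit 3843304790) (nat_lit 76) (nat_lit 7392296144) (nat_lit 182) (nat_lit 5) (nat_lit 197) (nat_lit 5) (nat_lit 183) (nat_lit 5) (nat_lit 306) (nat_lit 288) (nat_lit 186)) (XT.lf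 (nat_lit 0) (nat_lit 2326808610) (nat_lit 1140) (nat_lit 466354313) (nat_lit 1216) (nat_lit 10150640341) (nat_lit 167) (nat_lit 5) (nat_lit 182) (nat_lit 5) (nat_lit 183) (nat_lit 5) (nat_lit 307) (nat_lit 288) (nat_lit 185))))) (XT.nd (nat_lit 234) (nat_lit 1140) (nat_lit 0) (XT.nd (nat_lit 78) (nat_lit 532) (nat_lit 0) (XT.lf (nat_lit 0) (nat_lit 4185586846) (nat_lit 1216) (nat_lit 4449409247) (nat_lit 76) (nat_lit 4515252701) (nat_lit 167) (nat_lit 5) (nat_lit 183) (nat_lit 5) (nat_lit 168) (nat_lit 5) (nat_lit 308) (nat_lit 288) (nat_lit 184)) (XT.nd (nat_lit 78) (nat_lit 0) (nat_lit 0) (XT.lf (nat_lit 0) (nat_lit 1921600325) (nat_lit 532) (nat_lit 3705197243) (nat_lit 608) (nat_lit 7735903671) (nat_lit 160) (nat_lit 5) (nat_lit 167) (nat_lit 5) (nat_lit 168) (nat_lit 5) (nat_lit 309) (nat_lit 288) (nat_lit 183)) (XT.lf (nat_lit 0) (nat_lit 7154081992) (nat_lit 608) (nat_lit 5033719235)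 (nat_lit 76) (nat_lit 1392464185) (nat_lit 160) (nat_lit 5) (nat_lit 168) (nat_lit 5) (nat_lit 161) (nat_lit 5) (nat_lit 310) (nat_lit 288) (nat_lit 182)))) (XT.nd (nat_lit 156) (nat_lit 532) (nat_lit 0) (XT.nd (nat_lit 78) (nat_lit 0) (nat_lit 0) (XT.lf (nat_lit 0) (nat_lit 1544927944) (nat_lit 608) (nat_lit 7218520050) (nat_lit 684) (nat_lit 5039843220) (nat_lit 152) (nat_lit 5) (nat_lit 160) (nat_lit 5) (nat_lit 161) (nat_lit 5) (nat_lit 311) (nat_lit 288) (nat_lit 181)) (XT.lf (nat_lit 0) (nat_lit 8409844262) (nat_lit 608) (nat_lit 2047116147) (nat_lit 684) (nat_lit 3574993357) (nat_lit 152) (nat_lit 5) (nat_lit 160) (nat_lit 5) (nat_lit 161) (nat_lit 5) (nat_lit 312) (nat_lit 288) (nat_lit 180))) (XT.nd (nat_lit 78) (nat_lit 0) (nat_lit 0) (XT.lf (nat_lit 0) (nat_lit 1190616839) (nat_lit 532) (nat_lit 11039107230) (nat_lit 608) (nat_lit 2036920051) (nat_lit 145) (nat_lit 5) (nat_lit 152)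 (nat_lit 5) (nat_lit 153) (nat_lit 5) (nat_lit 313) (nat_lit 288) (nat_lit 179)) (XT.lf (nat_lit 0) (nat_lit 8288116910) (nat_lit 532) (nat_lit 5830159477) (nat_lit 608) (nat_lit 388241302) (nat_lit 145) (nat_lit 5) (nat_lit 152) (nat_lit 5) (nat_lit 153) (nat_lit 5) (nat_lit 314) (nat_lit 288) (nat_lit 178)))))) (XT.nd (nat_lit 546) (nat_lit 1748) (nat_lit 0) (XT.nd (nat_lit 234) (nat_lit 456) (nat_lit 0) (XT.nd (nat_lit 78) (nat_lit 456) (nat_lit 0) (XT.lf (nat_lit 0) (nat_lit 834580144) (nat_lit 532) (nat_lit 443801151) (nat_lit 608) (nat_lit 13475026587) (nat_lit 137) (nat_lit 5) (nat_lit 144) (nat_lit 5) (nat_lit 145) (nat_lit 5) (nat_lit 315) (nat_lit 288) (nat_lit 177)) (XT.nd (nat_lit 78) (nat_lit 456) (nat_lit 0) (XT.lf (nat_lit 0) (nat_lit 3085971744) (nat_lit 608) (nat_lit 6847087719) (nat_lit 76) (nat_lit 5071585752) (nat_lit 137) (nat_lit 5) (nat_lit 145) (nat_lit 5) (nat_lit 138)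 (nat_lit 5) (nat_lit 316) (nat_lit 288) (nat_lit 176)) (XT.lf (nat_lit 0) (nat_lit 426798540) (nat_lit 456) (nat_lit 4516180194) (nat_lit 532) (nat_lit 10320603642) (nat_lit 131) (nat_lit 5) (nat_lit 137) (nat_lit 5) (nat_lit 138) (nat_lit 5) (nat_lit 317) (nat_lit 288) (nat_lit 175)))) (XT.nd (nat_lit 156) (nat_lit 0) (nat_lit 0) (XT.nd (nat_lit 78) (nat_lit 456) (nat_lit 0) (XT.lf (nat_lit 0) (nat_lit 6922682663) (nat_lit 532) (nat_lit 7494063982) (nat_lit 76) (nat_lit 1111549242) (nat_lit 131) (nat_lit 5) (nat_lit 138) (nat_lit 5) (nat_lit 132) (nat_lit 5) (nat_lit 318) (nat_lit 288) (nat_lit 174)) (XT.lf (nat_lit 0) (nat_lit 10638355) (nat_lit 456) (nat_lit 8983276478) (nat_lit 532) (nat_lit 6806089176) (nat_lit 125) (nat_lit 5) (nat_lit 131) (nat_lit 5) (nat_lit 132) (nat_lit 5) (nat_lit 319) (nat_lit 288) (nat_lit 173))) (XT.nd (nat_lit 78) (nat_lit 0) (nat_lit 0) (XT.lf (nat_lit 0) (nat_lit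 7880445895) (nat_lit 456) (nat_lit 3310071668) (nat_lit 532) (nat_lit 4887465617) (nat_lit 125) (nat_lit 5) (nat_lit 131) (nat_lit 5) (nat_lit 132) (nat_lit 5) (nat_lit 320) (nat_lit 288) (nat_lit 172)) (XT.lf (nat_lit 0) (nat_lit 13465279571) (nat_lit 532) (nat_lit 415932405) (nat_lit 76) (nat_lit 2482738241) (nat_lit 125) (nat_lit 5) (nat_lit 132) (nat_lit 5) (nat_lit 126) (nat_lit 5) (nat_lit 321) (nat_lit 288) (nat_lit 171))))) (XT.nd (nat_lit 234) (nat_lit 760) (nat_lit 0) (XT.nd (nat_lit 78) (nat_lit 532) (nat_lit 0) (XT.lf (nat_lit 0) (nat_lit 7703439955) (nat_lit 456) (nat_lit 8199929088) (nat_lit 532) (nat_lit 752290531) (nat_lit 119) (nat_lit 5) (nat_lit 125) (nat_lit 5) (nat_lit 126) (nat_lit 5) (nat_lit 322) (nat_lit 288) (nat_lit 170)) (XT.nd (nat_lit 78) (nat_lit 456) (nat_lit 0) (XT.lf (nat_lit 0) (nat_lit 1422610701) (nat_lit 532) (nat_lit 908482586) (nat_lit 76) (nat_lit 14624843573)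 (nat_lit 118) (nat_lit 5) (nat_lit 125) (nat_lit 5) (nat_lit 119) (nat_lit 5) (nat_lit 323) (nat_lit 288) (nat_lit 169)) (XT.lf (nat_lit 0) (nat_lit 3744916881) (nat_lit 532) (nat_lit 9797098465) (nat_lit 76) (nat_lit 3720079823) (nat_lit 112) (nat_lit 5) (nat_lit 119) (nat_lit 5) (nat_lit 113) (nat_lit 5) (nat_lit 324) (nat_lit 288) (nat_lit 168)))) (XT.nd (nat_lit 156) (nat_lit 380) (nat_lit 0) (XT.nd (nat_lit 78) (nat_lit 380) (nat_lit 0) (XT.lf (nat_lit 0) (nat_lit 6158114287) (nat_lit 532) (nat_lit 1505192182) (nat_lit 76) (nat_lit 9913509179) (nat_lit 112) (nat_lit 5) (nat_lit 119) (nat_lit 5) (nat_lit 113) (nat_lit 5) (nat_lit 325) (nat_lit 288) (nat_lit 167)) (XT.lf (nat_lit 0) (nat_lit 7162458413) (nat_lit 380) (nat_lit 1539300286) (nat_lit 456) (nat_lit 9197491181) (nat_lit 107) (nat_lit 5) (nat_lit 112) (nat_lit 5) (nat_lit 113) (nat_lit 5) (nat_lit 326) (nat_lit 288) (nat_lit 166)))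 (XT.nd (nat_lit 78) (nat_lit 380) (nat_lit 0) (XT.lf (nat_lit 0) (nat_lit 11372273829) (nat_lit 456) (nat_lit 2168859919) (nat_lit 76) (nat_lit 4688719823) (nat_lit 107) (nat_lit 5) (nat_lit 113) (nat_lit 5) (nat_lit 108) (nat_lit 5) (nat_lit 327) (nat_lit 288) (nat_lit 165)) (XT.lf (nat_lit 0) (nat_lit 6760197662) (nat_lit 380) (nat_lit 7432614362) (nat_lit 456) (nat_lit 4375479007) (nat_lit 102) (nat_lit 5) (nat_lit 107) (nat_lit 5) (nat_lit 108) (nat_lit 5) (nat_lit 328) (nat_lit 288) (nat_lit 164))))))))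
noncomputable def xc176 : XT := (XT.nd (nat_lit 2028) (nat_lit 1976) (nat_lit 0) (XT.nd (nat_lit 1014) (nat_lit 1596) (nat_lit 0) (XT.nd (nat_lit 468) (nat_lit 1064) (nat_lit 0) (XT.nd (nat_lit 234) (nat_lit 684) (nat_lit 0) (XT.nd (nat_lit 78) (nat_lit 456) (nat_lit 0) (XT.lf (nat_lit 0) (nat_lit 15989122755) (nat_lit 380) (nat_lit 1120609365) (nat_lit 456) (nat_lit 1806809034) (nat_lit 102) (nat_lit 5) (nat_lit 107) (nat_lit 5) (nat_lit 108) (nat_lit 5) (nat_lit 329) (nat_lit 288) (nat_lit 163)) (XT.nd (nat_lit 78) (nat_lit 0) (nat_lit 0) (XT.lf (nat_lit 0) (nat_lit 925760552) (nat_lit 456) (nat_lit 13003185477) (nat_lit 76) (nat_lit 5342966320) (nat_lit 96) (nat_lit 5) (nat_lit 102) (nat_lit 5) (nat_lit 97) (nat_lit 5) (nat_lit 330) (nat_lit 288) (nat_lit 162)) (XT.lf (nat_lit 0) (nat_lit 3735140984) (nat_lit 456) (nat_lit 3878040543) (nat_lit 76) (nat_lit 12023303463) (nat_lit 96) (nat_lit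 5) (nat_lit 102) (nat_lit 5) (nat_lit 97) (nat_lit 5) (nat_lit 331) (nat_lit 288) (nat_lit 161)))) (XT.nd (nat_lit 78) (nat_lit 304) (nat_lit 0) (XT.lf (nat_lit 0) (nat_lit 5618385538) (nat_lit 380) (nat_lit 1054909907) (nat_lit 456) (nat_lit 13337375704) (nat_lit 91) (nat_lit 5) (nat_lit 96) (nat_lit 5) (nat_lit 97) (nat_lit 5) (nat_lit 332) (nat_lit 288) (nat_lit 160)) (XT.nd (nat_lit 78) (nat_lit 304) (nat_lit 0) (XT.lf (nat_lit 0) (nat_lit 9784557610) (nat_lit 456) (nat_lit 4983143778) (nat_lit 76) (nat_lit 5625843403) (nat_lit 91) (nat_lit 5) (nat_lit 97) (nat_lit 5) (nat_lit 92) (nat_lit 5) (nat_lit 333) (nat_lit 288) (nat_lit 159)) (XT.lf (nat_lit 0) (nat_lit 4779188325) (nat_lit 304) (nat_lit 8257249394) (nat_lit 380) (nat_lit 7750059000) (nat_lit 87) (nat_lit 5) (nat_lit 91) (nat_lit 5) (nat_lit 92) (nat_lit 5) (nat_lit 334) (nat_lit 288) (nat_lit 158))))) (XT.nd (nat_lit 234) (nat_lit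 608) (nat_lit 0) (XT.nd (nat_lit 78) (nat_lit 456) (nat_lit 0) (XT.lf (nat_lit 0) (nat_lit 14924758096) (nat_lit 304) (nat_lit 1502483002) (nat_lit 380) (nat_lit 4762765272) (nat_lit 87) (nat_lit 5) (nat_lit 91) (nat_lit 5) (nat_lit 92) (nat_lit 5) (nat_lit 335) (nat_lit 288) (nat_lit 157)) (XT.nd (nat_lit 78) (nat_lit 76) (nat_lit 0) (XT.lf (nat_lit 0) (nat_lit 3778690474) (nat_lit 380) (nat_lit 16221118536) (nat_lit 456) (nat_lit 1603420967) (nat_lit 82) (nat_lit 5) (nat_lit 87) (nat_lit 5) (nat_lit 88) (nat_lit 5) (nat_lit 336) (nat_lit 288) (nat_lit 156)) (XT.lf (nat_lit 0) (nat_lit 1688591374) (nat_lit 456) (nat_lit 7817693772) (nat_lit 76) (nat_lit 12519995461) (nat_lit 81) (nat_lit 5) (nat_lit 87) (nat_lit 5) (nat_lit 82) (nat_lit 5) (nat_lit 337) (nat_lit 288) (nat_lit 155)))) (XT.nd (nat_lit 156) (nat_lit 304) (nat_lit 0) (XT.nd (nat_lit 78) (nat_lit 0) (nat_lit 0) (XT.lf (nat_lit 0)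 (nat_lit 2511073942) (nat_lit 304) (nat_lit 2551783167) (nat_lit 380) (nat_lit 17398226816) (nat_lit 77) (nat_lit 5) (nat_lit 81) (nat_lit 5) (nat_lit 82) (nat_lit 5) (nat_lit 338) (nat_lit 288) (nat_lit 154)) (XT.lf (nat_lit 0) (nat_lit 8654092796) (nat_lit 380) (nat_lit 9653236483) (nat_lit 76) (nat_lit 4598138579) (nat_lit 77) (nat_lit 5) (nat_lit 82) (nat_lit 5) (nat_lit 78) (nat_lit 5) (nat_lit 339) (nat_lit 288) (nat_lit 153))) (XT.nd (nat_lit 78) (nat_lit 0) (nat_lit 0) (XT.lf (nat_lit 0) (nat_lit 934216212) (nat_lit 304) (nat_lit 11445026650) (nat_lit 380) (nat_lit 10983163646) (nat_lit 73) (nat_lit 5) (nat_lit 77) (nat_lit 5) (nat_lit 78) (nat_lit 5) (nat_lit 340) (nat_lit 288) (nat_lit 152)) (XT.lf (nat_lit 0) (nat_lit 12026095314) (nat_lit 304) (nat_lit 4279591247) (nat_lit 380) (nat_lit 7524688857) (nat_lit 73) (nat_lit 5) (nat_lit 77) (nat_lit 5) (nat_lit 78) (nat_lit 5) (nat_lit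 341) (nat_lit 288) (nat_lit 151)))))) (XT.nd (nat_lit 468) (nat_lit 760) (nat_lit 0) (XT.nd (nat_lit 234) (nat_lit 532) (nat_lit 0) (XT.nd (nat_lit 78) (nat_lit 304) (nat_lit 0) (XT.lf (nat_lit 0) (nat_lit 20371992747) (nat_lit 380) (nat_lit 902425813) (nat_lit 76) (nat_lit 3037310789) (nat_lit 73) (nat_lit 5) (nat_lit 78) (nat_lit 5) (nat_lit 74) (nat_lit 5) (nat_lit 342) (nat_lit 288) (nat_lit 150)) (XT.nd (nat_lit 78) (nat_lit 76) (nat_lit 0) (XT.lf (nat_lit 0) (nat_lit 10477927070) (nat_lit 228) (nat_lit 14217941172) (nat_lit 304) (nat_lit 107596049) (nat_lit 70) (nat_lit 5) (nat_lit 73) (nat_lit 5) (nat_lit 74) (nat_lit 5) (nat_lit 343) (nat_lit 288) (nat_lit 149)) (XT.lf (nat_lit 0) (nat_lit 3766313548) (nat_lit 304) (nat_lit 3139185134) (nat_lit 76) (nat_lit 18403300893) (nat_lit 69) (nat_lit 5) (nat_lit 73) (nat_lit 5) (nat_lit 70) (nat_lit 5) (nat_lit 344) (nat_lit 288) (nat_lit 148))))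 (XT.nd (nat_lit 78) (nat_lit 228) (nat_lit 0) (XT.lf (nat_lit 0) (nat_lit 7835905326) (nat_lit 380) (nat_lit 17295928758) (nat_lit 76) (nat_lit 694987185) (nat_lit 65) (nat_lit 5) (nat_lit 70) (nat_lit 5) (nat_lit 66) (nat_lit 5) (nat_lit 345) (nat_lit 288) (nat_lit 147)) (XT.nd (nat_lit 78) (nat_lit 228) (nat_lit 0) (XT.lf (nat_lit 0) (nat_lit 12120794190) (nat_lit 380) (nat_lit 5823171394) (nat_lit 76) (nat_lit 8413628677) (nat_lit 65) (nat_lit 5) (nat_lit 70) (nat_lit 5) (nat_lit 66) (nat_lit 5) (nat_lit 346) (nat_lit 288) (nat_lit 146)) (XT.lf (nat_lit 0) (nat_lit 6102682808) (nat_lit 228) (nat_lit 10483243212) (nat_lit 304) (nat_lit 10316820260) (nat_lit 62) (nat_lit 5) (nat_lit 65) (nat_lit 5) (nat_lit 66) (nat_lit 5) (nat_lit 347) (nat_lit 288) (nat_lit 145))))) (XT.nd (nat_lit 234) (nat_lit 456) (nat_lit 0) (XT.nd (nat_lit 78) (nat_lit 304) (nat_lit 0) (XT.lf (nat_lit 0) (nat_lit 18495610454)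 (nat_lit 228) (nat_lit 2741343635) (nat_lit 304) (nat_lit 6225747031) (nat_lit 62) (nat_lit 5) (nat_lit 65) (nat_lit 5) (nat_lit 66) (nat_lit 5) (nat_lit 348) (nat_lit 288) (nat_lit 144)) (XT.nd (nat_lit 78) (nat_lit 76) (nat_lit 0) (XT.lf (nat_lit 0) (nat_lit 3223518449) (nat_lit 228) (nat_lit 22878591500) (nat_lit 304) (nat_lit 1935113087) (nat_lit 59) (nat_lit 5) (nat_lit 62) (nat_lit 5) (nat_lit 63) (nat_lit 5) (nat_lit 349) (nat_lit 288) (nat_lit 143)) (XT.lf (nat_lit 0) (nat_lit 2547690343) (nat_lit 304) (nat_lit 12724515580) (nat_lit 76) (nat_lit 13352706453) (nat_lit 58) (nat_lit 5) (nat_lit 62) (nat_lit 5) (nat_lit 59) (nat_lit 5) (nat_lit 350) (nat_lit 288) (nat_lit 142)))) (XT.nd (nat_lit 156) (nat_lit 228) (nat_lit 0) (XT.nd (nat_lit 78) (nat_lit 228) (nat_lit 0) (XT.lf (nat_lit 0) (nat_lit 7119616400) (nat_lit 304) (nat_lit 301514606) (nat_lit 76) (nat_lit 21808726435) (nat_lit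 58) (nat_lit 5) (nat_lit 62) (nat_lit 5) (nat_lit 59) (nat_lit 5) (nat_lit 351) (nat_lit 288) (nat_lit 141)) (XT.lf (nat_lit 0) (nat_lit 11952399190) (nat_lit 304) (nat_lit 17123825541) (nat_lit 76) (nat_lit 773020791) (nat_lit 55) (nat_lit 5) (nat_lit 59) (nat_lit 5) (nat_lit 56) (nat_lit 5) (nat_lit 352) (nat_lit 288) (nat_lit 140))) (XT.nd (nat_lit 78) (nat_lit 228) (nat_lit 0) (XT.lf (nat_lit 0) (nat_lit 17000500617) (nat_lit 304) (nat_lit 4420777223) (nat_lit 76) (nat_lit 9063832818) (nat_lit 55) (nat_lit 5) (nat_lit 59) (nat_lit 5) (nat_lit 56) (nat_lit 5) (nat_lit 353) (nat_lit 288) (nat_lit 139)) (XT.lf (nat_lit 0) (nat_lit 8826383494) (nat_lit 228) (nat_lit 13452471003) (nat_lit 304) (nat_lit 8858838279) (nat_lit 52) (nat_lit 5) (nat_lit 55) (nat_lit 5) (nat_lit 56) (nat_lit 5) (nat_lit 354) (nat_lit 288) (nat_lit 138))))))) (XT.nd (nat_lit 1014) (nat_lit 912) (nat_lit 0) (XT.nd (nat_lit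 468) (nat_lit 608) (nat_lit 0) (XT.nd (nat_lit 234) (nat_lit 228) (nat_lit 0) (XT.nd (nat_lit 78) (nat_lit 228) (nat_lit 0) (XT.lf (nat_lit 0) (nat_lit 22552457379) (nat_lit 228) (nat_lit 5201795693) (nat_lit 304) (nat_lit 4054443617) (nat_lit 52) (nat_lit 5) (nat_lit 55) (nat_lit 5) (nat_lit 56) (nat_lit 5) (nat_lit 355) (nat_lit 288) (nat_lit 137)) (XT.nd (nat_lit 78) (nat_lit 0) (nat_lit 0) (XT.lf (nat_lit 0) (nat_lit 943857982) (nat_lit 228) (nat_lit 28274713612) (nat_lit 76) (nat_lit 3278989494) (nat_lit 49) (nat_lit 5) (nat_lit 52) (nat_lit 5) (nat_lit 50) (nat_lit 5) (nat_lit 356) (nat_lit 288) (nat_lit 136)) (XT.lf (nat_lit 0) (nat_lit 6150734950) (nat_lit 228) (nat_lit 15009845596) (nat_lit 76) (nat_lit 12041107801) (nat_lit 49) (nat_lit 5) (nat_lit 52) (nat_lit 5) (nat_lit 50) (nat_lit 5) (nat_lit 357) (nat_lit 288) (nat_lit 135)))) (XT.nd (nat_lit 78) (nat_lit 228) (nat_lit 0) (XT.lf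 (nat_lit 0) (nat_lit 11508205006) (nat_lit 228) (nat_lit 1355805904) (nat_lit 76) (nat_lit 21063101490) (nat_lit 49) (nat_lit 5) (nat_lit 52) (nat_lit 5) (nat_lit 50) (nat_lit 5) (nat_lit 358) (nat_lit 288) (nat_lit 134)) (XT.nd (nat_lit 78) (nat_lit 0) (nat_lit 0) (XT.lf (nat_lit 0) (nat_lit 12952077870) (nat_lit 228) (nat_lit 4193374862) (nat_lit 304) (nat_lit 17525279282) (nat_lit 46) (nat_lit 5) (nat_lit 49) (nat_lit 5) (nat_lit 50) (nat_lit 5) (nat_lit 359) (nat_lit 288) (nat_lit 133)) (XT.lf (nat_lit 0) (nat_lit 23005781493) (nat_lit 304) (nat_lit 7773504105) (nat_lit 76) (nat_lit 4655760026) (nat_lit 46) (nat_lit 5) (nat_lit 50) (nat_lit 5) (nat_lit 47) (nat_lit 5) (nat_lit 360) (nat_lit 288) (nat_lit 132))))) (XT.nd (nat_lit 234) (nat_lit 380) (nat_lit 0) (XT.nd (nat_lit 78) (nat_lit 76) (nat_lit 0) (XT.lf (nat_lit 0) (nat_lit 6670322218) (nat_lit 152) (nat_lit 22471991477) (nat_lit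 228) (nat_lit 7076967333) (nat_lit 44) (nat_lit 5) (nat_lit 46) (nat_lit 5) (nat_lit 47) (nat_lit 5) (nat_lit 361) (nat_lit 288) (nat_lit 131)) (XT.nd (nat_lit 78) (nat_lit 76) (nat_lit 0) (XT.lf (nat_lit 0) (nat_lit 21698572463) (nat_lit 152) (nat_lit 13837695882) (nat_lit 228) (nat_lit 1488579423) (nat_lit 44) (nat_lit 5) (nat_lit 46) (nat_lit 5) (nat_lit 47) (nat_lit 5) (nat_lit 362) (nat_lit 288) (nat_lit 130)) (XT.lf (nat_lit 0) (nat_lit 4179112963) (nat_lit 228) (nat_lit 726037621) (nat_lit 76) (nat_lit 32948356328) (nat_lit 43) (nat_lit 5) (nat_lit 46) (nat_lit 5) (nat_lit 44) (nat_lit 5) (nat_lit 363) (nat_lit 288) (nat_lit 129)))) (XT.nd (nat_lit 156) (nat_lit 152) (nat_lit 0) (XT.nd (nat_lit 78) (nat_lit 0) (nat_lit 0) (XT.lf (nat_lit 0) (nat_lit 10164879839) (nat_lit 304) (nat_lit 24171335778) (nat_lit 76) (nat_lit 4365032903) (nat_lit 40) (nat_lit 5) (nat_lit 44) (nat_lit 5) (nat_lit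 41) (nat_lit 5) (nat_lit 364) (nat_lit 288) (nat_lit 128)) (XT.lf (nat_lit 0) (nat_lit 16381304215) (nat_lit 304) (nat_lit 9372328996) (nat_lit 76) (nat_lit 13819260247) (nat_lit 40) (nat_lit 5) (nat_lit 44) (nat_lit 5) (nat_lit 41) (nat_lit 5) (nat_lit 365) (nat_lit 288) (nat_lit 127))) (XT.nd (nat_lit 78) (nat_lit 0) (nat_lit 0) (XT.lf (nat_lit 0) (nat_lit 5979650164) (nat_lit 152) (nat_lit 16857308008) (nat_lit 228) (nat_lit 17632150975) (nat_lit 38) (nat_lit 5) (nat_lit 40) (nat_lit 5) (nat_lit 41) (nat_lit 5) (nat_lit 366) (nat_lit 288) (nat_lit 126)) (XT.lf (nat_lit 0) (nat_lit 21976705237) (nat_lit 152) (nat_lit 7599540482) (nat_lit 228) (nat_lit 11813270078) (nat_lit 38) (nat_lit 5) (nat_lit 40) (nat_lit 5) (nat_lit 41) (nat_lit 5) (nat_lit 367) (nat_lit 288) (nat_lit 125)))))) (XT.nd (nat_lit 468) (nat_lit 532) (nat_lit 0) (XT.nd (nat_lit 234) (nat_lit 152) (nat_lit 0) (XT.nd (nat_lit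 78) (nat_lit 228) (nat_lit 0) (XT.lf (nat_lit 0) (nat_lit 36531752273) (nat_lit 228) (nat_lit 3909970005) (nat_lit 76) (nat_lit 1895394466) (nat_lit 38) (nat_lit 5) (nat_lit 41) (nat_lit 5) (nat_lit 39) (nat_lit 5) (nat_lit 368) (nat_lit 288) (nat_lit 124)) (XT.nd (nat_lit 78) (nat_lit 0) (nat_lit 0) (XT.lf (nat_lit 0) (nat_lit 565382285) (nat_lit 228) (nat_lit 31099277412) (nat_lit 76) (nat_lit 11642676554) (nat_lit 35) (nat_lit 5) (nat_lit 38) (nat_lit 5) (nat_lit 36) (nat_lit 5) (nat_lit 369) (nat_lit 288) (nat_lit 123)) (XT.lf (nat_lit 0) (nat_lit 7046020685) (nat_lit 228) (nat_lit 15480867518) (nat_lit 76) (nat_lit 21776989262) (nat_lit 35) (nat_lit 5) (nat_lit 38) (nat_lit 5) (nat_lit 36) (nat_lit 5) (nat_lit 370) (nat_lit 288) (nat_lit 122)))) (XT.nd (nat_lit 78) (nat_lit 0) (nat_lit 0) (XT.lf (nat_lit 0) (nat_lit 610929713) (nat_lit 152) (nat_lit 13111727335) (nat_lit 228) (nat_lit 31607613443)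 (nat_lit 33) (nat_lit 5) (nat_lit 35) (nat_lit 5) (nat_lit 36) (nat_lit 5) (nat_lit 371) (nat_lit 288) (nat_lit 121)) (XT.nd (nat_lit 78) (nat_lit 0) (nat_lit 0) (XT.lf (nat_lit 0) (nat_lit 17495806546) (nat_lit 152) (nat_lit 3255876159) (nat_lit 228) (nat_lit 25631212752) (nat_lit 33) (nat_lit 5) (nat_lit 35) (nat_lit 5) (nat_lit 36) (nat_lit 5) (nat_lit 372) (nat_lit 288) (nat_lit 120)) (XT.lf (nat_lit 0) (nat_lit 28053725569) (nat_lit 228) (nat_lit 12653067449) (nat_lit 76) (nat_lit 6758444529) (nat_lit 33) (nat_lit 5) (nat_lit 36) (nat_lit 5) (nat_lit 34) (nat_lit 5) (nat_lit 373) (nat_lit 288) (nat_lit 119))))) (XT.nd (nat_lit 234) (nat_lit 304) (nat_lit 0) (XT.nd (nat_lit 78) (nat_lit 76) (nat_lit 0) (XT.lf (nat_lit 0) (nat_lit 4109212383) (nat_lit 152) (nat_lit 31533335770) (nat_lit 228) (nat_lit 12935472886) (nat_lit 31) (nat_lit 5) (nat_lit 33) (nat_lit 5) (nat_lit 34) (nat_lit 5) (nat_lit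 374) (nat_lit 288) (nat_lit 118)) (XT.nd (nat_lit 78) (nat_lit 76) (nat_lit 0) (XT.lf (nat_lit 0) (nat_lit 21627090480) (nat_lit 152) (nat_lit 21955751035) (nat_lit 228) (nat_lit 6137634949) (nat_lit 31) (nat_lit 5) (nat_lit 33) (nat_lit 5) (nat_lit 34) (nat_lit 5) (nat_lit 375) (nat_lit 288) (nat_lit 117)) (XT.lf (nat_lit 0) (nat_lit 843385491) (nat_lit 228) (nat_lit 11241539191) (nat_lit 76) (nat_lit 38812150839) (nat_lit 30) (nat_lit 5) (nat_lit 33) (nat_lit 5) (nat_lit 31) (nat_lit 5) (nat_lit 376) (nat_lit 288) (nat_lit 116)))) (XT.nd (nat_lit 156) (nat_lit 152) (nat_lit 0) (XT.nd (nat_lit 78) (nat_lit 0) (nat_lit 0) (XT.lf (nat_lit 0) (nat_lit 6169134699) (nat_lit 152) (nat_lit 1796866078) (nat_lit 228) (nat_lit 44139485363) (nat_lit 28) (nat_lit 5) (nat_lit 30) (nat_lit 5) (nat_lit 31) (nat_lit 5) (nat_lit 377) (nat_lit 288) (nat_lit 115)) (XT.lf (nat_lit 0) (nat_lit 15497773583) (nat_lit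 228) (nat_lit 29106256654) (nat_lit 76) (nat_lit 8740256790) (nat_lit 28) (nat_lit 5) (nat_lit 31) (nat_lit 5) (nat_lit 29) (nat_lit 5) (nat_lit 378) (nat_lit 288) (nat_lit 114))) (XT.nd (nat_lit 78) (nat_lit 152) (nat_lit 0) (XT.lf (nat_lit 0) (nat_lit 23269647832) (nat_lit 228) (nat_lit 11795233380) (nat_lit 76) (nat_lit 19554948535) (nat_lit 28) (nat_lit 5) (nat_lit 31) (nat_lit 5) (nat_lit 29) (nat_lit 5) (nat_lit 379) (nat_lit 288) (nat_lit 113)) (XT.lf (nat_lit 0) (nat_lit 6149108344) (nat_lit 152) (nat_lit 25181142552) (nat_lit 228) (nat_lit 24601722861) (nat_lit 26) (nat_lit 5) (nat_lit 28) (nat_lit 5) (nat_lit 29) (nat_lit 5) (nat_lit 380) (nat_lit 288) (nat_lit 112))))))))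
noncomputable def xc177 : XT := (XT.nd (nat_lit 34086) (nat_lit 0) (nat_lit 7752) (XT.nd (nat_lit 1014) (nat_lit 228) (nat_lit 0) (XT.nd (nat_lit 468) (nat_lit 304) (nat_lit 0) (XT.nd (nat_lit 234) (nat_lit 76) (nat_lit 0) (XT.nd (nat_lit 78) (nat_lit 76) (nat_lit 0) (XT.lf (nat_lit 0) (nat_lit 24867626398) (nat_lit 152) (nat_lit 14880663838) (nat_lit 228) (nat_lit 17531725428) (nat_lit 26) (nat_lit 5) (nat_lit 28) (nat_lit 5) (nat_lit 29) (nat_lit 5) (nat_lit 381) (nat_lit 288) (nat_lit 111)) (XT.nd (nat_lit 78) (nat_lit 76) (nat_lit 0) (XT.lf (nat_lit 0) (nat_lit 44141928498) (nat_lit 152) (nat_lit 4273553383) (nat_lit 228) (nat_lit 10253120678) (nat_lit 26) (nat_lit 5) (nat_lit 28) (nat_lit 5) (nat_lit 29) (nat_lit 5) (nat_lit 382) (nat_lit 288) (nat_lit 110)) (XT.lf (nat_lit 0) (nat_lit 3902134548) (nat_lit 76) (nat_lit 53538692907) (nat_lit 152) (nat_lit 2655077460) (nat_lit 25) (nat_lit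 5) (nat_lit 26) (nat_lit 5) (nat_lit 27) (nat_lit 4) (nat_lit 383) (nat_lit 288) (nat_lit 109)))) (XT.nd (nat_lit 78) (nat_lit 0) (nat_lit 0) (XT.lf (nat_lit 0) (nat_lit 5257155457) (nat_lit 152) (nat_lit 38479200149) (nat_lit 76) (nat_lit 17822566902) (nat_lit 24) (nat_lit 5) (nat_lit 26) (nat_lit 5) (nat_lit 25) (nat_lit 5) (nat_lit 384) (nat_lit 288) (nat_lit 108)) (XT.nd (nat_lit 78) (nat_lit 0) (nat_lit 0) (XT.lf (nat_lit 0) (nat_lit 13350182881) (nat_lit 152) (nat_lit 20265008691) (nat_lit 76) (nat_lit 29449948495) (nat_lit 24) (nat_lit 5) (nat_lit 26) (nat_lit 5) (nat_lit 25) (nat_lit 5) (nat_lit 385) (nat_lit 288) (nat_lit 107)) (XT.lf (nat_lit 0) (nat_lit 21682886514) (nat_lit 152) (nat_lit 1509758451) (nat_lit 76) (nat_lit 41423994404) (nat_lit 24) (nat_lit 5) (nat_lit 26) (nat_lit 5) (nat_lit 25) (nat_lit 5) (nat_lit 386) (nat_lit 288) (nat_lit 106))))) (XT.nd (nat_lit 234) (nat_lit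 152) (nat_lit 0) (XT.nd (nat_lit 78) (nat_lit 0) (nat_lit 0) (XT.lf (nat_lit 0) (nat_lit 18157252040) (nat_lit 152) (nat_lit 12279833931) (nat_lit 228) (nat_lit 35772453964) (nat_lit 22) (nat_lit 5) (nat_lit 24) (nat_lit 5) (nat_lit 25) (nat_lit 5) (nat_lit 387) (nat_lit 288) (nat_lit 105)) (XT.nd (nat_lit 78) (nat_lit 0) (nat_lit 0) (XT.lf (nat_lit 0) (nat_lit 38440061856) (nat_lit 152) (nat_lit 1026109736) (nat_lit 228) (nat_lit 28383689796) (nat_lit 22) (nat_lit 5) (nat_lit 24) (nat_lit 5) (nat_lit 25) (nat_lit 5) (nat_lit 388) (nat_lit 288) (nat_lit 104)) (XT.lf (nat_lit 0) (nat_lit 48864770444) (nat_lit 228) (nat_lit 10314673508) (nat_lit 76) (nat_lit 10356990942) (nat_lit 22) (nat_lit 5) (nat_lit 25) (nat_lit 5) (nat_lit 23) (nat_lit 4) (nat_lit 389) (nat_lit 288) (nat_lit 103)))) (XT.nd (nat_lit 156) (nat_lit 76) (nat_lit 0) (XT.nd (nat_lit 78) (nat_lit 0) (nat_lit 0) (XT.lf (nat_lit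 0) (nat_lit 9524065945) (nat_lit 76) (nat_lit 49120138222) (nat_lit 152) (nat_lit 12626436711) (nat_lit 21) (nat_lit 5) (nat_lit 22) (nat_lit 5) (nat_lit 23) (nat_lit 4) (nat_lit 390) (nat_lit 288) (nat_lit 102)) (XT.lf (nat_lit 0) (nat_lit 30164526928) (nat_lit 76) (nat_lit 38653853822) (nat_lit 152) (nat_lit 4235453030) (nat_lit 21) (nat_lit 5) (nat_lit 22) (nat_lit 5) (nat_lit 23) (nat_lit 4) (nat_lit 391) (nat_lit 288) (nat_lit 101))) (XT.nd (nat_lit 78) (nat_lit 0) (nat_lit 0) (XT.lf (nat_lit 0) (nat_lit 4318513651) (nat_lit 152) (nat_lit 23513481261) (nat_lit 76) (nat_lit 47057340394) (nat_lit 20) (nat_lit 5) (nat_lit 22) (nat_lit 5) (nat_lit 21) (nat_lit 5) (nat_lit 392) (nat_lit 288) (nat_lit 100)) (XT.lf (nat_lit 0) (nat_lit 13041305883) (nat_lit 152) (nat_lit 3602971665) (nat_lit 76) (nat_lit 60134447629) (nat_lit 20) (nat_lit 5) (nat_lit 22) (nat_lit 5) (nat_lit 21) (nat_lit 5) (nat_lit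 393) (nat_lit 288) (nat_lit 99)))))) (XT.nd (nat_lit 32526) (nat_lit 0) (nat_lit 13300) (XT.nd (nat_lit 234) (nat_lit 76) (nat_lit 0) (XT.nd (nat_lit 78) (nat_lit 0) (nat_lit 0) (XT.lf (nat_lit 0) (nat_lit 17236683003) (nat_lit 152) (nat_lit 4952201005) (nat_lit 228) (nat_lit 56531021037) (nat_lit 18) (nat_lit 5) (nat_lit 20) (nat_lit 5) (nat_lit 21) (nat_lit 5) (nat_lit 394) (nat_lit 288) (nat_lit 98)) (XT.nd (nat_lit 78) (nat_lit 0) (nat_lit 0) (XT.lf (nat_lit 0) (nat_lit 31713218663) (nat_lit 228) (nat_lit 42015899081) (nat_lit 76) (nat_lit 6987134011) (nat_lit 18) (nat_lit 5) (nat_lit 21) (nat_lit 5) (nat_lit 19) (nat_lit 4) (nat_lit 395) (nat_lit 288) (nat_lit 97)) (XT.lf (nat_lit 0) (nat_lit 41569816469) (nat_lit 228) (nat_lit 22017991217) (nat_lit 76) (nat_lit 19183286473) (nat_lit 18) (nat_lit 5) (nat_lit 21) (nat_lit 5) (nat_lit 19) (nat_lit 4) (nat_lit 396) (nat_lit 288) (nat_lit 96))))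 (XT.nd (nat_lit 78) (nat_lit 76) (nat_lit 0) (XT.lf (nat_lit 0) (nat_lit 51719686403) (nat_lit 228) (nat_lit 1424420963) (nat_lit 76) (nat_lit 31743548490) (nat_lit 18) (nat_lit 5) (nat_lit 21) (nat_lit 5) (nat_lit 19) (nat_lit 4) (nat_lit 397) (nat_lit 288) (nat_lit 95)) (XT.nd (nat_lit 32136) (nat_lit 0) (nat_lit 14288) (XT.lf (nat_lit 0) (nat_lit 20176522692) (nat_lit 76) (nat_lit 42189123669) (nat_lit 152) (nat_lit 24696321437) (nat_lit 17) (nat_lit 5) (nat_lit 18) (nat_lit 5) (nat_lit 19) (nat_lit 4) (nat_lit 398) (nat_lit 288) (nat_lit 94)) (XT.lf (nat_lit 0) (nat_lit 1938338198) (nat_lit 0) (nat_lit 1938338198) (nat_lit 988) (nat_lit 1183697326) (nat_lit 205) (nat_lit 5) (nat_lit 205) (nat_lit 3) (nat_lit 218) (nat_lit 3) (nat_lit 289) (nat_lit 289) (nat_lit 202))))) (XT.nd (nat_lit 234) (nat_lit 988) (nat_lit 0) (XT.nd (nat_lit 78) (nat_lit 0) (nat_lit 0) (XT.lf (nat_lit 0) (nat_lit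 8503244876) (nat_lit 0) (nat_lit 7477619) (nat_lit 988) (nat_lit 1741526963) (nat_lit 205) (nat_lit 5) (nat_lit 205) (nat_lit 3) (nat_lit 218) (nat_lit 3) (nat_lit 290) (nat_lit 289) (nat_lit 201)) (XT.nd (nat_lit 78) (nat_lit 0) (nat_lit 0) (XT.lf (nat_lit 76) (nat_lit 2885562136) (nat_lit 0) (nat_lit 6446327062) (nat_lit 1064) (nat_lit 1054617090) (nat_lit 206) (nat_lit 5) (nat_lit 205) (nat_lit 5) (nat_lit 219) (nat_lit 5) (nat_lit 291) (nat_lit 289) (nat_lit 200)) (XT.lf (nat_lit 76) (nat_lit 7681652385) (nat_lit 0) (nat_lit 2489471899) (nat_lit 1064) (nat_lit 353904352) (nat_lit 206) (nat_lit 5) (nat_lit 205) (nat_lit 5) (nat_lit 219) (nat_lit 5) (nat_lit 292) (nat_lit 289) (nat_lit 199)))) (XT.nd (nat_lit 156) (nat_lit 0) (nat_lit 0) (XT.nd (nat_lit 78) (nat_lit 0) (nat_lit 0) (XT.lf (nat_lit 0) (nat_lit 371345781) (nat_lit 1064) (nat_lit 8707840145) (nat_lit 1140) (nat_lit 1588132312)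 (nat_lit 192) (nat_lit 5) (nat_lit 206) (nat_lit 5) (nat_lit 207) (nat_lit 5) (nat_lit 293) (nat_lit 289) (nat_lit 198)) (XT.lf (nat_lit 0) (nat_lit 1141682918) (nat_lit 1064) (nat_lit 3890865382) (nat_lit 1140) (nat_lit 5780347179) (nat_lit 192) (nat_lit 5) (nat_lit 206) (nat_lit 5) (nat_lit 207) (nat_lit 5) (nat_lit 294) (nat_lit 289) (nat_lit 197))) (XT.nd (nat_lit 78) (nat_lit 0) (nat_lit 76) (XT.lf (nat_lit 76) (nat_lit 1077946245) (nat_lit 0) (nat_lit 845019184) (nat_lit 1140) (nat_lit 9040275812) (nat_lit 193) (nat_lit 5) (nat_lit 192) (nat_lit 5) (nat_lit 207) (nat_lit 5) (nat_lit 295) (nat_lit 289) (nat_lit 196)) (XT.lf (nat_lit 0) (nat_lit 2778783427) (nat_lit 1064) (nat_lit 4889413241) (nat_lit 1140) (nat_lit 3448403002) (nat_lit 193) (nat_lit 5) (nat_lit 207) (nat_lit 5) (nat_lit 208) (nat_lit 5) (nat_lit 296) (nat_lit 289) (nat_lit 195))))))) (XT.nd (nat_lit 1014) (nat_lit 3648)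 (nat_lit 0) (XT.nd (nat_lit 468) (nat_lit 1976) (nat_lit 0) (XT.nd (nat_lit 234) (nat_lit 0) (nat_lit 76) (XT.nd (nat_lit 78) (nat_lit 0) (nat_lit 76) (XT.lf (nat_lit 76) (nat_lit 238705510) (nat_lit 0) (nat_lit 3410950057) (nat_lit 1140) (nat_lit 7625256077) (nat_lit 194) (nat_lit 5) (nat_lit 193) (nat_lit 5) (nat_lit 208) (nat_lit 5) (nat_lit 297) (nat_lit 289) (nat_lit 194)) (XT.nd (nat_lit 78) (nat_lit 0) (nat_lit 0) (XT.lf (nat_lit 0) (nat_lit 4585152053) (nat_lit 1064) (nat_lit 5839966091) (nat_lit 1140) (nat_lit 1011733073) (nat_lit 194) (nat_lit 5) (nat_lit 208) (nat_lit 5) (nat_lit 209) (nat_lit 5) (nat_lit 298) (nat_lit 289) (nat_lit 193)) (XT.lf (nat_lit 0) (nat_lit 5562361942) (nat_lit 1064) (nat_lit 535706411) (nat_lit 1140) (nat_lit 5505203386) (nat_lit 194) (nat_lit 5) (nat_lit 208) (nat_lit 5) (nat_lit 209) (nat_lit 5) (nat_lit 299) (nat_lit 289) (nat_lit 192)))) (XT.nd (nat_lit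 78) (nat_lit 0) (nat_lit 76) (XT.lf (nat_lit 76) (nat_lit 5011793986) (nat_lit 0) (nat_lit 1585733414) (nat_lit 1140) (nat_lit 5176329578) (nat_lit 195) (nat_lit 5) (nat_lit 194) (nat_lit 5) (nat_lit 209) (nat_lit 5) (nat_lit 300) (nat_lit 289) (nat_lit 191)) (XT.nd (nat_lit 78) (nat_lit 0) (nat_lit 0) (XT.lf (nat_lit 0) (nat_lit 7679599459) (nat_lit 1064) (nat_lit 1256391439) (nat_lit 1140) (nat_lit 3013123694) (nat_lit 195) (nat_lit 5) (nat_lit 209) (nat_lit 5) (nat_lit 210) (nat_lit 5) (nat_lit 301) (nat_lit 289) (nat_lit 190)) (XT.lf (nat_lit 76) (nat_lit 4472225267) (nat_lit 0) (nat_lit 4362108167) (nat_lit 1140) (nat_lit 3294119993) (nat_lit 196) (nat_lit 5) (nat_lit 195) (nat_lit 5) (nat_lit 210) (nat_lit 5) (nat_lit 302) (nat_lit 289) (nat_lit 189))))) (XT.nd (nat_lit 234) (nat_lit 2204) (nat_lit 0) (XT.nd (nat_lit 78) (nat_lit 0) (nat_lit 0) (XT.lf (nat_lit 0) (nat_lit 10021836298)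 (nat_lit 1064) (nat_lit 1932089174) (nat_lit 1140) (nat_lit 359331774) (nat_lit 196) (nat_lit 5) (nat_lit 210) (nat_lit 5) (nat_lit 211) (nat_lit 5) (nat_lit 303) (nat_lit 289) (nat_lit 188)) (XT.nd (nat_lit 78) (nat_lit 0) (nat_lit 0) (XT.lf (nat_lit 76) (nat_lit 3984479743) (nat_lit 0) (nat_lit 7324459850) (nat_lit 1140) (nat_lit 1192774117) (nat_lit 197) (nat_lit 5) (nat_lit 196) (nat_lit 5) (nat_lit 211) (nat_lit 5) (nat_lit 304) (nat_lit 289) (nat_lit 187)) (XT.lf (nat_lit 76) (nat_lit 10104430912) (nat_lit 0) (nat_lit 2532598546) (nat_lit 1140) (nat_lit 58750189) (nat_lit 197) (nat_lit 5) (nat_lit 196) (nat_lit 5) (nat_lit 211) (nat_lit 5) (nat_lit 305) (nat_lit 289) (nat_lit 186)))) (XT.nd (nat_lit 156) (nat_lit 1140) (nat_lit 0) (XT.nd (nat_lit 78) (nat_lit 0) (nat_lit 0) (XT.lf (nat_lit 0) (nat_lit 1128589449) (nat_lit 1140) (nat_lit 9361039966) (nat_lit 76) (nat_lit 2404515443) (nat_lit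 182) (nat_lit 5) (nat_lit 197) (nat_lit 5) (nat_lit 183) (nat_lit 5) (nat_lit 306) (nat_lit 289) (nat_lit 185)) (XT.lf (nat_lit 0) (nat_lit 2385430180) (nat_lit 1140) (nat_lit 3243273911) (nat_lit 76) (nat_lit 7468712325) (nat_lit 182) (nat_lit 5) (nat_lit 197) (nat_lit 5) (nat_lit 183) (nat_lit 5) (nat_lit 307) (nat_lit 289) (nat_lit 184))) (XT.nd (nat_lit 78) (nat_lit 0) (nat_lit 0) (XT.lf (nat_lit 0) (nat_lit 3104929852) (nat_lit 1140) (nat_lit 588931469) (nat_lit 1216) (nat_lit 9612532215) (nat_lit 167) (nat_lit 5) (nat_lit 182) (nat_lit 5) (nat_lit 183) (nat_lit 5) (nat_lit 308) (nat_lit 289) (nat_lit 183)) (XT.lf (nat_lit 0) (nat_lit 5103251256) (nat_lit 1216) (nat_lit 3869217146) (nat_lit 76) (nat_lit 4547343668) (nat_lit 167) (nat_lit 5) (nat_lit 183) (nat_lit 5) (nat_lit 168) (nat_lit 5) (nat_lit 309) (nat_lit 289) (nat_lit 182)))))) (XT.nd (nat_lit 546) (nat_lit 1368) (nat_lit 0) (XT.nd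 (nat_lit 234) (nat_lit 1140) (nat_lit 0) (XT.nd (nat_lit 78) (nat_lit 608) (nat_lit 0) (XT.lf (nat_lit 0) (nat_lit 2685925905) (nat_lit 532) (nat_lit 3885494632) (nat_lit 608) (nat_lit 7167740291) (nat_lit 160) (nat_lit 5) (nat_lit 167) (nat_lit 5) (nat_lit 168) (nat_lit 5) (nat_lit 310) (nat_lit 289) (nat_lit 181)) (XT.nd (nat_lit 78) (nat_lit 608) (nat_lit 0) (XT.lf (nat_lit 0) (nat_lit 8121281550) (nat_lit 608) (nat_lit 4474280667) (nat_lit 76) (nat_lit 1368420371) (nat_lit 160) (nat_lit 5) (nat_lit 168) (nat_lit 5) (nat_lit 161) (nat_lit 5) (nat_lit 311) (nat_lit 289) (nat_lit 180)) (XT.lf (nat_lit 0) (nat_lit 2294760729) (nat_lit 608) (nat_lit 7469010409) (nat_lit 684) (nat_lit 4430415179) (nat_lit 152) (nat_lit 5) (nat_lit 160) (nat_lit 5) (nat_lit 161) (nat_lit 5) (nat_lit 312) (nat_lit 289) (nat_lit 179)))) (XT.nd (nat_lit 156) (nat_lit 608) (nat_lit 0) (XT.nd (nat_lit 78) (nat_lit 532)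 (nat_lit 0) (XT.lf (nat_lit 0) (nat_lit 9345134684) (nat_lit 608) (nat_lit 2141475999) (nat_lit 684) (nat_lit 2943773898) (nat_lit 152) (nat_lit 5) (nat_lit 160) (nat_lit 5) (nat_lit 161) (nat_lit 5) (nat_lit 313) (nat_lit 289) (nat_lit 178)) (XT.lf (nat_lit 0) (nat_lit 1925254941) (nat_lit 532) (nat_lit 11372860613) (nat_lit 608) (nat_lit 1374463910) (nat_lit 145) (nat_lit 5) (nat_lit 152) (nat_lit 5) (nat_lit 153) (nat_lit 5) (nat_lit 314) (nat_lit 289) (nat_lit 177))) (XT.nd (nat_lit 78) (nat_lit 532) (nat_lit 0) (XT.lf (nat_lit 0) (nat_lit 296695701) (nat_lit 608) (nat_lit 5707877531) (nat_lit 76) (nat_lit 8915631387) (nat_lit 144) (nat_lit 5) (nat_lit 152) (nat_lit 5) (nat_lit 145) (nat_lit 5) (nat_lit 315) (nat_lit 289) (nat_lit 176)) (XT.lf (nat_lit 0) (nat_lit 1546052462) (nat_lit 532) (nat_lit 445998100) (nat_lit 608) (nat_lit 13182767507) (nat_lit 137) (nat_lit 5) (nat_lit 144) (nat_lit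 5) (nat_lit 145) (nat_lit 5) (nat_lit 316) (nat_lit 289) (nat_lit 175))))) (XT.nd (nat_lit 234) (nat_lit 912) (nat_lit 0) (XT.nd (nat_lit 78) (nat_lit 456) (nat_lit 0) (XT.lf (nat_lit 0) (nat_lit 3834303025) (nat_lit 608) (nat_lit 6365587632) (nat_lit 76) (nat_lit 5234315995) (nat_lit 137) (nat_lit 5) (nat_lit 145) (nat_lit 5) (nat_lit 138) (nat_lit 5) (nat_lit 317) (nat_lit 289) (nat_lit 174)) (XT.nd (nat_lit 78) (nat_lit 0) (nat_lit 0) (XT.lf (nat_lit 0) (nat_lit 1119780775) (nat_lit 456) (nat_lit 4614678162) (nat_lit 532) (nat_lit 9966856199) (nat_lit 131) (nat_lit 5) (nat_lit 137) (nat_lit 5) (nat_lit 138) (nat_lit 5) (nat_lit 318) (nat_lit 289) (nat_lit 173)) (XT.lf (nat_lit 0) (nat_lit 7755165461) (nat_lit 532) (nat_lit 7039276732) (nat_lit 76) (nat_lit 1180105117) (nat_lit 131) (nat_lit 5) (nat_lit 138) (nat_lit 5) (nat_lit 132) (nat_lit 5) (nat_lit 319) (nat_lit 289) (nat_lit 172))))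 (XT.nd (nat_lit 156) (nat_lit 456) (nat_lit 0) (XT.nd (nat_lit 78) (nat_lit 0) (nat_lit 0) (XT.lf (nat_lit 0) (nat_lit 683903840) (nat_lit 456) (nat_lit 9192901402) (nat_lit 532) (nat_lit 6377978170) (nat_lit 125) (nat_lit 5) (nat_lit 131) (nat_lit 5) (nat_lit 132) (nat_lit 5) (nat_lit 320) (nat_lit 289) (nat_lit 171)) (XT.lf (nat_lit 0) (nat_lit 8770205228) (nat_lit 456) (nat_lit 3351244332) (nat_lit 532) (nat_lit 4420212226) (nat_lit 125) (nat_lit 5) (nat_lit 131) (nat_lit 5) (nat_lit 132) (nat_lit 5) (nat_lit 321) (nat_lit 289) (nat_lit 170))) (XT.nd (nat_lit 78) (nat_lit 0) (nat_lit 0) (XT.lf (nat_lit 0) (nat_lit 227928661) (nat_lit 456) (nat_lit 14221922855) (nat_lit 532) (nat_lit 2386817833) (nat_lit 119) (nat_lit 5) (nat_lit 125) (nat_lit 5) (nat_lit 126) (nat_lit 5) (nat_lit 322) (nat_lit 289) (nat_lit 169)) (XT.lf (nat_lit 0) (nat_lit 8580043392) (nat_lit 456) (nat_lit 8368206975) (nat_lit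 532) (nat_lit 189287366) (nat_lit 119) (nat_lit 5) (nat_lit 125) (nat_lit 5) (nat_lit 126) (nat_lit 5) (nat_lit 323) (nat_lit 289) (nat_lit 168))))))))
noncomputable def xc178 : XT := (XT.nd (nat_lit 2028) (nat_lit 2356) (nat_lit 0) (XT.nd (nat_lit 1014) (nat_lit 1900) (nat_lit 0) (XT.nd (nat_lit 468) (nat_lit 1140) (nat_lit 0) (XT.nd (nat_lit 234) (nat_lit 760) (nat_lit 0) (XT.nd (nat_lit 78) (nat_lit 456) (nat_lit 0) (XT.lf (nat_lit 0) (nat_lit 2022711609) (nat_lit 532) (nat_lit 297229304) (nat_lit 76) (nat_lit 15127236679) (nat_lit 118) (nat_lit 5) (nat_lit 125) (nat_lit 5) (nat_lit 119) (nat_lit 5) (nat_lit 324) (nat_lit 289) (nat_lit 167)) (XT.nd (nat_lit 78) (nat_lit 0) (nat_lit 0) (XT.lf (nat_lit 0) (nat_lit 4405345830) (nat_lit 532) (nat_lit 9442468637) (nat_lit 76) (nat_lit 3915007235) (nat_lit 112) (nat_lit 5) (nat_lit 119) (nat_lit 5) (nat_lit 113) (nat_lit 5) (nat_lit 325) (nat_lit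 289) (nat_lit 166)) (XT.lf (nat_lit 0) (nat_lit 6874975621) (nat_lit 532) (nat_lit 920694761) (nat_lit 76) (nat_lit 10291812528) (nat_lit 112) (nat_lit 5) (nat_lit 119) (nat_lit 5) (nat_lit 113) (nat_lit 5) (nat_lit 326) (nat_lit 289) (nat_lit 165)))) (XT.nd (nat_lit 78) (nat_lit 380) (nat_lit 0) (XT.lf (nat_lit 0) (nat_lit 8000812281) (nat_lit 380) (nat_lit 1484611777) (nat_lit 456) (nat_lit 8934470892) (nat_lit 107) (nat_lit 5) (nat_lit 112) (nat_lit 5) (nat_lit 113) (nat_lit 5) (nat_lit 327) (nat_lit 289) (nat_lit 164)) (XT.nd (nat_lit 78) (nat_lit 380) (nat_lit 0) (XT.lf (nat_lit 0) (nat_lit 12221774275) (nat_lit 456) (nat_lit 1613689851) (nat_lit 76) (nat_lit 4925400087) (nat_lit 107) (nat_lit 5) (nat_lit 113) (nat_lit 5) (nat_lit 108) (nat_lit 5) (nat_lit 328) (nat_lit 289) (nat_lit 163)) (XT.lf (nat_lit 0) (nat_lit 7577158713) (nat_lit 380) (nat_lit 7540867744) (nat_lit 456) (nat_lit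 3991713899) (nat_lit 102) (nat_lit 5) (nat_lit 107) (nat_lit 5) (nat_lit 108) (nat_lit 5) (nat_lit 329) (nat_lit 289) (nat_lit 162))))) (XT.nd (nat_lit 234) (nat_lit 684) (nat_lit 0) (XT.nd (nat_lit 78) (nat_lit 456) (nat_lit 0) (XT.lf (nat_lit 0) (nat_lit 17065063545) (nat_lit 380) (nat_lit 1042844104) (nat_lit 456) (nat_lit 1360984685) (nat_lit 102) (nat_lit 5) (nat_lit 107) (nat_lit 5) (nat_lit 108) (nat_lit 5) (nat_lit 330) (nat_lit 289) (nat_lit 161)) (XT.nd (nat_lit 78) (nat_lit 0) (nat_lit 0) (XT.lf (nat_lit 0) (nat_lit 1436441653) (nat_lit 456) (nat_lit 12778748298) (nat_lit 76) (nat_lit 5619828333) (nat_lit 96) (nat_lit 5) (nat_lit 102) (nat_lit 5) (nat_lit 97) (nat_lit 5) (nat_lit 331) (nat_lit 289) (nat_lit 160)) (XT.lf (nat_lit 0) (nat_lit 4316038207) (nat_lit 456) (nat_lit 3397748028) (nat_lit 76) (nat_lit 12497180261) (nat_lit 96) (nat_lit 5) (nat_lit 102) (nat_lit 5) (nat_lit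 97) (nat_lit 5) (nat_lit 332) (nat_lit 289) (nat_lit 159)))) (XT.nd (nat_lit 156) (nat_lit 304) (nat_lit 0) (XT.nd (nat_lit 78) (nat_lit 0) (nat_lit 0) (XT.lf (nat_lit 0) (nat_lit 6377721486) (nat_lit 380) (nat_lit 956639176) (nat_lit 456) (nat_lit 13262272830) (nat_lit 91) (nat_lit 5) (nat_lit 96) (nat_lit 5) (nat_lit 97) (nat_lit 5) (nat_lit 333) (nat_lit 289) (nat_lit 158)) (XT.lf (nat_lit 0) (nat_lit 10526749878) (nat_lit 456) (nat_lit 4546333896) (nat_lit 76) (nat_lit 5918291384) (nat_lit 91) (nat_lit 5) (nat_lit 97) (nat_lit 5) (nat_lit 92) (nat_lit 5) (nat_lit 334) (nat_lit 289) (nat_lit 157))) (XT.nd (nat_lit 78) (nat_lit 0) (nat_lit 0) (XT.lf (nat_lit 0) (nat_lit 5503120090) (nat_lit 304) (nat_lit 8365579324) (nat_lit 380) (nat_lit 7527655877) (nat_lit 87) (nat_lit 5) (nat_lit 91) (nat_lit 5) (nat_lit 92) (nat_lit 5) (nat_lit 335) (nat_lit 289) (nat_lit 156)) (XT.lf (nat_lit 0) (nat_lit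 15936147553) (nat_lit 304) (nat_lit 1412229772) (nat_lit 380) (nat_lit 4463992995) (nat_lit 87) (nat_lit 5) (nat_lit 91) (nat_lit 5) (nat_lit 92) (nat_lit 5) (nat_lit 336) (nat_lit 289) (nat_lit 155)))))) (XT.nd (nat_lit 468) (nat_lit 836) (nat_lit 0) (XT.nd (nat_lit 234) (nat_lit 304) (nat_lit 0) (XT.nd (nat_lit 78) (nat_lit 380) (nat_lit 0) (XT.lf (nat_lit 0) (nat_lit 4462089350) (nat_lit 380) (nat_lit 16560300132) (nat_lit 456) (nat_lit 1215787310) (nat_lit 82) (nat_lit 5) (nat_lit 87) (nat_lit 5) (nat_lit 88) (nat_lit 5) (nat_lit 337) (nat_lit 289) (nat_lit 154)) (XT.nd (nat_lit 78) (nat_lit 304) (nat_lit 0) (XT.lf (nat_lit 0) (nat_lit 2154038922) (nat_lit 456) (nat_lit 7490088972) (nat_lit 76) (nat_lit 13030052062) (nat_lit 81) (nat_lit 5) (nat_lit 87) (nat_lit 5) (nat_lit 82) (nat_lit 5) (nat_lit 338) (nat_lit 289) (nat_lit 153)) (XT.lf (nat_lit 0) (nat_lit 3143030640) (nat_lit 304) (nat_lit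 2479771348) (nat_lit 380) (nat_lit 17499440277) (nat_lit 77) (nat_lit 5) (nat_lit 81) (nat_lit 5) (nat_lit 82) (nat_lit 5) (nat_lit 339) (nat_lit 289) (nat_lit 152)))) (XT.nd (nat_lit 78) (nat_lit 304) (nat_lit 0) (XT.lf (nat_lit 0) (nat_lit 9311276032) (nat_lit 380) (nat_lit 9391502940) (nat_lit 76) (nat_lit 4877506300) (nat_lit 77) (nat_lit 5) (nat_lit 82) (nat_lit 5) (nat_lit 78) (nat_lit 5) (nat_lit 340) (nat_lit 289) (nat_lit 151)) (XT.nd (nat_lit 78) (nat_lit 0) (nat_lit 0) (XT.lf (nat_lit 0) (nat_lit 1508168134) (nat_lit 304) (nat_lit 11633680806) (nat_lit 380) (nat_lit 10909285320) (nat_lit 73) (nat_lit 5) (nat_lit 77) (nat_lit 5) (nat_lit 78) (nat_lit 5) (nat_lit 341) (nat_lit 289) (nat_lit 150)) (XT.lf (nat_lit 0) (nat_lit 12916902867) (nat_lit 304) (nat_lit 4257788068) (nat_lit 380) (nat_lit 7358805021) (nat_lit 73) (nat_lit 5) (nat_lit 77) (nat_lit 5) (nat_lit 78) (nat_lit 5) (nat_lit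 342) (nat_lit 289) (nat_lit 149))))) (XT.nd (nat_lit 234) (nat_lit 532) (nat_lit 0) (XT.nd (nat_lit 78) (nat_lit 304) (nat_lit 0) (XT.lf (nat_lit 0) (nat_lit 21353324864) (nat_lit 380) (nat_lit 404865878) (nat_lit 76) (nat_lit 3271401133) (nat_lit 73) (nat_lit 5) (nat_lit 78) (nat_lit 5) (nat_lit 74) (nat_lit 5) (nat_lit 343) (nat_lit 289) (nat_lit 148)) (XT.nd (nat_lit 78) (nat_lit 0) (nat_lit 0) (XT.lf (nat_lit 0) (nat_lit 259696389) (nat_lit 304) (nat_lit 14227055608) (nat_lit 76) (nat_lit 11049435319) (nat_lit 69) (nat_lit 5) (nat_lit 73) (nat_lit 5) (nat_lit 70) (nat_lit 5) (nat_lit 344) (nat_lit 289) (nat_lit 147)) (XT.lf (nat_lit 0) (nat_lit 4236931834) (nat_lit 304) (nat_lit 2721533093) (nat_lit 76) (nat_lit 19098518186) (nat_lit 69) (nat_lit 5) (nat_lit 73) (nat_lit 5) (nat_lit 70) (nat_lit 5) (nat_lit 345) (nat_lit 289) (nat_lit 146)))) (XT.nd (nat_lit 156) (nat_lit 228) (nat_lit 0)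 (XT.nd (nat_lit 78) (nat_lit 0) (nat_lit 0) (XT.lf (nat_lit 0) (nat_lit 8424554070) (nat_lit 380) (nat_lit 17298580388) (nat_lit 76) (nat_lit 867542959) (nat_lit 65) (nat_lit 5) (nat_lit 70) (nat_lit 5) (nat_lit 66) (nat_lit 5) (nat_lit 346) (nat_lit 289) (nat_lit 145)) (XT.lf (nat_lit 0) (nat_lit 12827691399) (nat_lit 380) (nat_lit 5496676018) (nat_lit 76) (nat_lit 8813325070) (nat_lit 65) (nat_lit 5) (nat_lit 70) (nat_lit 5) (nat_lit 66) (nat_lit 5) (nat_lit 347) (nat_lit 289) (nat_lit 144))) (XT.nd (nat_lit 78) (nat_lit 0) (nat_lit 0) (XT.lf (nat_lit 0) (nat_lit 6782040177) (nat_lit 228) (nat_lit 10639509269) (nat_lit 304) (nat_lit 10277816105) (nat_lit 62) (nat_lit 5) (nat_lit 65) (nat_lit 5) (nat_lit 66) (nat_lit 5) (nat_lit 348) (nat_lit 289) (nat_lit 143)) (XT.lf (nat_lit 0) (nat_lit 19532300986) (nat_lit 228) (nat_lit 2669961383) (nat_lit 304) (nat_lit 6074161419) (nat_lit 62) (nat_lit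 5) (nat_lit 65) (nat_lit 5) (nat_lit 66) (nat_lit 5) (nat_lit 349) (nat_lit 289) (nat_lit 142))))))) (XT.nd (nat_lit 1014) (nat_lit 988) (nat_lit 0) (XT.nd (nat_lit 468) (nat_lit 608) (nat_lit 0) (XT.nd (nat_lit 234) (nat_lit 228) (nat_lit 0) (XT.nd (nat_lit 78) (nat_lit 304) (nat_lit 0) (XT.lf (nat_lit 0) (nat_lit 3805919012) (nat_lit 228) (nat_lit 23403997180) (nat_lit 304) (nat_lit 1658377969) (nat_lit 59) (nat_lit 5) (nat_lit 62) (nat_lit 5) (nat_lit 63) (nat_lit 5) (nat_lit 350) (nat_lit 289) (nat_lit 141)) (XT.nd (nat_lit 78) (nat_lit 228) (nat_lit 0) (XT.lf (nat_lit 0) (nat_lit 2942815792) (nat_lit 304) (nat_lit 12628073976) (nat_lit 76) (nat_lit 13902923269) (nat_lit 58) (nat_lit 5) (nat_lit 62) (nat_lit 5) (nat_lit 59) (nat_lit 5) (nat_lit 351) (nat_lit 289) (nat_lit 140)) (XT.lf (nat_lit 0) (nat_lit 156748262) (nat_lit 228) (nat_lit 7487375757) (nat_lit 304) (nat_lit 22453024029) (nat_lit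 55) (nat_lit 5) (nat_lit 58) (nat_lit 5) (nat_lit 59) (nat_lit 5) (nat_lit 352) (nat_lit 289) (nat_lit 139)))) (XT.nd (nat_lit 78) (nat_lit 228) (nat_lit 0) (XT.lf (nat_lit 0) (nat_lit 12617279212) (nat_lit 304) (nat_lit 17169916943) (nat_lit 76) (nat_lit 948068032) (nat_lit 55) (nat_lit 5) (nat_lit 59) (nat_lit 5) (nat_lit 56) (nat_lit 5) (nat_lit 353) (nat_lit 289) (nat_lit 138)) (XT.nd (nat_lit 78) (nat_lit 228) (nat_lit 0) (XT.lf (nat_lit 0) (nat_lit 17807902088) (nat_lit 304) (nat_lit 4099397274) (nat_lit 76) (nat_lit 9483181412) (nat_lit 55) (nat_lit 5) (nat_lit 59) (nat_lit 5) (nat_lit 56) (nat_lit 5) (nat_lit 354) (nat_lit 289) (nat_lit 137)) (XT.lf (nat_lit 0) (nat_lit 9540727252) (nat_lit 228) (nat_lit 13699538962) (nat_lit 304) (nat_lit 8822511971) (nat_lit 52) (nat_lit 5) (nat_lit 55) (nat_lit 5) (nat_lit 56) (nat_lit 5) (nat_lit 355) (nat_lit 289) (nat_lit 136))))) (XT.nd (nat_lit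 234) (nat_lit 380) (nat_lit 0) (XT.nd (nat_lit 78) (nat_lit 228) (nat_lit 0) (XT.lf (nat_lit 0) (nat_lit 23665489599) (nat_lit 228) (nat_lit 5205901825) (nat_lit 304) (nat_lit 3882784249) (nat_lit 52) (nat_lit 5) (nat_lit 55) (nat_lit 5) (nat_lit 56) (nat_lit 5) (nat_lit 356) (nat_lit 289) (nat_lit 135)) (XT.nd (nat_lit 78) (nat_lit 0) (nat_lit 0) (XT.lf (nat_lit 0) (nat_lit 1257065386) (nat_lit 228) (nat_lit 28677623662) (nat_lit 76) (nat_lit 3529019684) (nat_lit 49) (nat_lit 5) (nat_lit 52) (nat_lit 5) (nat_lit 50) (nat_lit 5) (nat_lit 357) (nat_lit 289) (nat_lit 134)) (XT.lf (nat_lit 0) (nat_lit 6611850848) (nat_lit 228) (nat_lit 15027780422) (nat_lit 76) (nat_lit 12549584244) (nat_lit 49) (nat_lit 5) (nat_lit 52) (nat_lit 5) (nat_lit 50) (nat_lit 5) (nat_lit 358) (nat_lit 289) (nat_lit 133)))) (XT.nd (nat_lit 156) (nat_lit 152) (nat_lit 0) (XT.nd (nat_lit 78) (nat_lit 228) (nat_lit 0) (XT.lf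 (nat_lit 0) (nat_lit 12121988874) (nat_lit 228) (nat_lit 976712565) (nat_lit 76) (nat_lit 21837949106) (nat_lit 49) (nat_lit 5) (nat_lit 52) (nat_lit 5) (nat_lit 50) (nat_lit 5) (nat_lit 359) (nat_lit 289) (nat_lit 132)) (XT.lf (nat_lit 0) (nat_lit 13756292354) (nat_lit 228) (nat_lit 4168235693) (nat_lit 304) (nat_lit 17778171861) (nat_lit 46) (nat_lit 5) (nat_lit 49) (nat_lit 5) (nat_lit 50) (nat_lit 5) (nat_lit 360) (nat_lit 289) (nat_lit 131))) (XT.nd (nat_lit 78) (nat_lit 152) (nat_lit 0) (XT.lf (nat_lit 0) (nat_lit 23954365293) (nat_lit 304) (nat_lit 7596655556) (nat_lit 76) (nat_lit 4939117316) (nat_lit 46) (nat_lit 5) (nat_lit 50) (nat_lit 5) (nat_lit 47) (nat_lit 5) (nat_lit 361) (nat_lit 289) (nat_lit 130)) (XT.lf (nat_lit 0) (nat_lit 7276465422) (nat_lit 152) (nat_lit 22994904566) (nat_lit 228) (nat_lit 7026645361) (nat_lit 44) (nat_lit 5) (nat_lit 46) (nat_lit 5) (nat_lit 47) (nat_lit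 5) (nat_lit 362) (nat_lit 289) (nat_lit 129)))))) (XT.nd (nat_lit 468) (nat_lit 532) (nat_lit 0) (XT.nd (nat_lit 234) (nat_lit 152) (nat_lit 0) (XT.nd (nat_lit 78) (nat_lit 304) (nat_lit 0) (XT.lf (nat_lit 0) (nat_lit 22743736956) (nat_lit 152) (nat_lit 14105985345) (nat_lit 228) (nat_lit 1278255260) (nat_lit 44) (nat_lit 5) (nat_lit 46) (nat_lit 5) (nat_lit 47) (nat_lit 5) (nat_lit 363) (nat_lit 289) (nat_lit 128)) (XT.nd (nat_lit 78) (nat_lit 228) (nat_lit 0) (XT.lf (nat_lit 0) (nat_lit 4547210562) (nat_lit 228) (nat_lit 360079021) (nat_lit 76) (nat_lit 34074357321) (nat_lit 43) (nat_lit 5) (nat_lit 46) (nat_lit 5) (nat_lit 44) (nat_lit 5) (nat_lit 364) (nat_lit 289) (nat_lit 127)) (XT.lf (nat_lit 0) (nat_lit 10710561376) (nat_lit 304) (nat_lit 24506568910) (nat_lit 76) (nat_lit 4637755492) (nat_lit 40) (nat_lit 5) (nat_lit 44) (nat_lit 5) (nat_lit 41) (nat_lit 5) (nat_lit 365) (nat_lit 289)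 (nat_lit 126)))) (XT.nd (nat_lit 78) (nat_lit 152) (nat_lit 0) (XT.lf (nat_lit 0) (nat_lit 17106466780) (nat_lit 304) (nat_lit 9274948437) (nat_lit 76) (nat_lit 14371480386) (nat_lit 40) (nat_lit 5) (nat_lit 44) (nat_lit 5) (nat_lit 41) (nat_lit 5) (nat_lit 366) (nat_lit 289) (nat_lit 125)) (XT.nd (nat_lit 78) (nat_lit 0) (nat_lit 0) (XT.lf (nat_lit 0) (nat_lit 6533878819) (nat_lit 152) (nat_lit 17218707241) (nat_lit 228) (nat_lit 17923512870) (nat_lit 38) (nat_lit 5) (nat_lit 40) (nat_lit 5) (nat_lit 41) (nat_lit 5) (nat_lit 367) (nat_lit 289) (nat_lit 124)) (XT.lf (nat_lit 0) (nat_lit 22999927899) (nat_lit 152) (nat_lit 7687410185) (nat_lit 228) (nat_lit 11936986011) (nat_lit 38) (nat_lit 5) (nat_lit 40) (nat_lit 5) (nat_lit 41) (nat_lit 5) (nat_lit 368) (nat_lit 289) (nat_lit 123))))) (XT.nd (nat_lit 234) (nat_lit 304) (nat_lit 0) (XT.nd (nat_lit 78) (nat_lit 228) (nat_lit 0) (XT.lf (nat_lit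 0) (nat_lit 37846298898) (nat_lit 228) (nat_lit 3668578040) (nat_lit 76) (nat_lit 2085637207) (nat_lit 38) (nat_lit 5) (nat_lit 41) (nat_lit 5) (nat_lit 39) (nat_lit 5) (nat_lit 369) (nat_lit 289) (nat_lit 122)) (XT.nd (nat_lit 78) (nat_lit 0) (nat_lit 0) (XT.lf (nat_lit 0) (nat_lit 800270881) (nat_lit 228) (nat_lit 31672594879) (nat_lit 76) (nat_lit 12127003571) (nat_lit 35) (nat_lit 5) (nat_lit 38) (nat_lit 5) (nat_lit 36) (nat_lit 5) (nat_lit 370) (nat_lit 289) (nat_lit 121)) (XT.lf (nat_lit 0) (nat_lit 7468981041) (nat_lit 228) (nat_lit 15596108248) (nat_lit 76) (nat_lit 22561412261) (nat_lit 35) (nat_lit 5) (nat_lit 38) (nat_lit 5) (nat_lit 36) (nat_lit 5) (nat_lit 371) (nat_lit 289) (nat_lit 120)))) (XT.nd (nat_lit 156) (nat_lit 152) (nat_lit 0) (XT.nd (nat_lit 78) (nat_lit 0) (nat_lit 0) (XT.lf (nat_lit 0) (nat_lit 975019515) (nat_lit 152) (nat_lit 13368058138) (nat_lit 228) (nat_lit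 32340698097) (nat_lit 33) (nat_lit 5) (nat_lit 35) (nat_lit 5) (nat_lit 36) (nat_lit 5) (nat_lit 372) (nat_lit 289) (nat_lit 119)) (XT.lf (nat_lit 0) (nat_lit 18356371918) (nat_lit 152) (nat_lit 3220522330) (nat_lit 228) (nat_lit 26191271708) (nat_lit 33) (nat_lit 5) (nat_lit 35) (nat_lit 5) (nat_lit 36) (nat_lit 5) (nat_lit 373) (nat_lit 289) (nat_lit 118))) (XT.nd (nat_lit 78) (nat_lit 152) (nat_lit 0) (XT.lf (nat_lit 0) (nat_lit 29093337170) (nat_lit 228) (nat_lit 12701951926) (nat_lit 76) (nat_lit 7087833027) (nat_lit 33) (nat_lit 5) (nat_lit 36) (nat_lit 5) (nat_lit 34) (nat_lit 5) (nat_lit 374) (nat_lit 289) (nat_lit 117)) (XT.lf (nat_lit 0) (nat_lit 4559954071) (nat_lit 152) (nat_lit 32347251172) (nat_lit 228) (nat_lit 13122166313) (nat_lit 31) (nat_lit 5) (nat_lit 33) (nat_lit 5) (nat_lit 34) (nat_lit 5) (nat_lit 375) (nat_lit 289) (nat_lit 116))))))))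
noncomputable def xc179 : XT := (XT.nd (nat_lit 34164) (nat_lit 0) (nat_lit 8588) (XT.nd (nat_lit 1014) (nat_lit 304) (nat_lit 0) (XT.nd (nat_lit 468) (nat_lit 304) (nat_lit 0) (XT.nd (nat_lit 234) (nat_lit 152) (nat_lit 0) (XT.nd (nat_lit 78) (nat_lit 228) (nat_lit 0) (XT.lf (nat_lit 0) (nat_lit 22593830686) (nat_lit 152) (nat_lit 22486186022) (nat_lit 228) (nat_lit 6126258406) (nat_lit 31) (nat_lit 5) (nat_lit 33) (nat_lit 5) (nat_lit 34) (nat_lit 5) (nat_lit 376) (nat_lit 289) (nat_lit 115)) (XT.nd (nat_lit 78) (nat_lit 152) (nat_lit 0) (XT.lf (nat_lit 0) (nat_lit 1054794409) (nat_lit 228) (nat_lit 11266296224) (nat_lit 76) (nat_lit 40097196159) (nat_lit 30) (nat_lit 5) (nat_lit 33) (nat_lit 5) (nat_lit 31) (nat_lit 5) (nat_lit 377) (nat_lit 289) (nat_lit 114)) (XT.lf (nat_lit 0) (nat_lit 6663634264) (nat_lit 152) (nat_lit 1725007675) (nat_lit 228) (nat_lit 45274384608) (nat_lit 28) (nat_lit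 5) (nat_lit 30) (nat_lit 5) (nat_lit 31) (nat_lit 5) (nat_lit 378) (nat_lit 289) (nat_lit 113)))) (XT.nd (nat_lit 78) (nat_lit 152) (nat_lit 0) (XT.lf (nat_lit 0) (nat_lit 16142192288) (nat_lit 228) (nat_lit 29674744569) (nat_lit 76) (nat_lit 9122183202) (nat_lit 28) (nat_lit 5) (nat_lit 31) (nat_lit 5) (nat_lit 29) (nat_lit 5) (nat_lit 379) (nat_lit 289) (nat_lit 112)) (XT.nd (nat_lit 78) (nat_lit 152) (nat_lit 0) (XT.lf (nat_lit 0) (nat_lit 24141995031) (nat_lit 228) (nat_lit 11853265348) (nat_lit 76) (nat_lit 20257828747) (nat_lit 28) (nat_lit 5) (nat_lit 31) (nat_lit 5) (nat_lit 29) (nat_lit 5) (nat_lit 380) (nat_lit 289) (nat_lit 111)) (XT.lf (nat_lit 0) (nat_lit 6626506382) (nat_lit 152) (nat_lit 25815650108) (nat_lit 228) (nat_lit 25162511896) (nat_lit 26) (nat_lit 5) (nat_lit 28) (nat_lit 5) (nat_lit 29) (nat_lit 5) (nat_lit 381) (nat_lit 289) (nat_lit 110))))) (XT.nd (nat_lit 234) (nat_lit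 228) (nat_lit 0) (XT.nd (nat_lit 78) (nat_lit 76) (nat_lit 0) (XT.lf (nat_lit 0) (nat_lit 25898048188) (nat_lit 152) (nat_lit 15209679171) (nat_lit 228) (nat_lit 17885577530) (nat_lit 26) (nat_lit 5) (nat_lit 28) (nat_lit 5) (nat_lit 29) (nat_lit 5) (nat_lit 382) (nat_lit 289) (nat_lit 109)) (XT.nd (nat_lit 78) (nat_lit 76) (nat_lit 0) (XT.lf (nat_lit 0) (nat_lit 45742296059) (nat_lit 152) (nat_lit 4287774952) (nat_lit 228) (nat_lit 10393627249) (nat_lit 26) (nat_lit 5) (nat_lit 28) (nat_lit 5) (nat_lit 29) (nat_lit 5) (nat_lit 383) (nat_lit 289) (nat_lit 108)) (XT.lf (nat_lit 0) (nat_lit 4296430105) (nat_lit 76) (nat_lit 55028753470) (nat_lit 152) (nat_lit 2568668787) (nat_lit 25) (nat_lit 5) (nat_lit 26) (nat_lit 5) (nat_lit 27) (nat_lit 4) (nat_lit 384) (nat_lit 289) (nat_lit 107)))) (XT.nd (nat_lit 156) (nat_lit 152) (nat_lit 0) (XT.nd (nat_lit 78) (nat_lit 0) (nat_lit 0) (XT.lf (nat_lit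 0) (nat_lit 5572948323) (nat_lit 152) (nat_lit 39361183007) (nat_lit 76) (nat_lit 18466726243) (nat_lit 24) (nat_lit 5) (nat_lit 26) (nat_lit 5) (nat_lit 25) (nat_lit 5) (nat_lit 385) (nat_lit 289) (nat_lit 106)) (XT.lf (nat_lit 0) (nat_lit 13904162351) (nat_lit 152) (nat_lit 20608499586) (nat_lit 76) (nat_lit 30439740477) (nat_lit 24) (nat_lit 5) (nat_lit 26) (nat_lit 5) (nat_lit 25) (nat_lit 5) (nat_lit 386) (nat_lit 289) (nat_lit 105))) (XT.nd (nat_lit 78) (nat_lit 152) (nat_lit 0) (XT.lf (nat_lit 0) (nat_lit 22482376976) (nat_lit 152) (nat_lit 1298294539) (nat_lit 76) (nat_lit 42769911836) (nat_lit 24) (nat_lit 5) (nat_lit 26) (nat_lit 5) (nat_lit 25) (nat_lit 5) (nat_lit 387) (nat_lit 289) (nat_lit 104)) (XT.lf (nat_lit 0) (nat_lit 18956209044) (nat_lit 152) (nat_lit 12541097360) (nat_lit 228) (nat_lit 36694023889) (nat_lit 22) (nat_lit 5) (nat_lit 24) (nat_lit 5) (nat_lit 25) (nat_lit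 5) (nat_lit 388) (nat_lit 289) (nat_lit 103)))))) (XT.nd (nat_lit 468) (nat_lit 152) (nat_lit 0) (XT.nd (nat_lit 234) (nat_lit 76) (nat_lit 0) (XT.nd (nat_lit 78) (nat_lit 76) (nat_lit 0) (XT.lf (nat_lit 0) (nat_lit 39840098123) (nat_lit 152) (nat_lit 952881776) (nat_lit 228) (nat_lit 29088012438) (nat_lit 22) (nat_lit 5) (nat_lit 24) (nat_lit 5) (nat_lit 25) (nat_lit 5) (nat_lit 389) (nat_lit 289) (nat_lit 102)) (XT.nd (nat_lit 78) (nat_lit 76) (nat_lit 0) (XT.lf (nat_lit 0) (nat_lit 50470347518) (nat_lit 228) (nat_lit 10381201592) (nat_lit 76) (nat_lit 10766711950) (nat_lit 22) (nat_lit 5) (nat_lit 25) (nat_lit 5) (nat_lit 23) (nat_lit 4) (nat_lit 390) (nat_lit 289) (nat_lit 101)) (XT.lf (nat_lit 0) (nat_lit 10050318553) (nat_lit 76) (nat_lit 50491090818) (nat_lit 152) (nat_lit 12863138766) (nat_lit 21) (nat_lit 5) (nat_lit 22) (nat_lit 5) (nat_lit 23) (nat_lit 4) (nat_lit 391) (nat_lit 289)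 (nat_lit 100)))) (XT.nd (nat_lit 78) (nat_lit 76) (nat_lit 0) (XT.lf (nat_lit 0) (nat_lit 31302987619) (nat_lit 76) (nat_lit 39713807737) (nat_lit 152) (nat_lit 4224564149) (nat_lit 21) (nat_lit 5) (nat_lit 22) (nat_lit 5) (nat_lit 23) (nat_lit 4) (nat_lit 392) (nat_lit 289) (nat_lit 99)) (XT.nd (nat_lit 78) (nat_lit 0) (nat_lit 0) (XT.lf (nat_lit 0) (nat_lit 4579389956) (nat_lit 152) (nat_lit 23989479788) (nat_lit 76) (nat_lit 48563136814) (nat_lit 20) (nat_lit 5) (nat_lit 22) (nat_lit 5) (nat_lit 21) (nat_lit 5) (nat_lit 393) (nat_lit 289) (nat_lit 98)) (XT.lf (nat_lit 0) (nat_lit 13560041074) (nat_lit 152) (nat_lit 3488336630) (nat_lit 76) (nat_lit 62029817183) (nat_lit 20) (nat_lit 5) (nat_lit 22) (nat_lit 5) (nat_lit 21) (nat_lit 5) (nat_lit 394) (nat_lit 289) (nat_lit 97))))) (XT.nd (nat_lit 234) (nat_lit 0) (nat_lit 0) (XT.nd (nat_lit 78) (nat_lit 0) (nat_lit 0) (XT.lf (nat_lit 0) (nat_lit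 17974324107) (nat_lit 152) (nat_lit 5006128930) (nat_lit 228) (nat_lit 58097206874) (nat_lit 18) (nat_lit 5) (nat_lit 20) (nat_lit 5) (nat_lit 21) (nat_lit 5) (nat_lit 395) (nat_lit 289) (nat_lit 96)) (XT.nd (nat_lit 78) (nat_lit 0) (nat_lit 0) (XT.lf (nat_lit 0) (nat_lit 32787733892) (nat_lit 228) (nat_lit 43059411802) (nat_lit 76) (nat_lit 7286836744) (nat_lit 18) (nat_lit 5) (nat_lit 21) (nat_lit 5) (nat_lit 19) (nat_lit 4) (nat_lit 396) (nat_lit 289) (nat_lit 95)) (XT.lf (nat_lit 0) (nat_lit 42936443652) (nat_lit 228) (nat_lit 22467886049) (nat_lit 76) (nat_lit 19846249837) (nat_lit 18) (nat_lit 5) (nat_lit 21) (nat_lit 5) (nat_lit 19) (nat_lit 4) (nat_lit 397) (nat_lit 289) (nat_lit 94)))) (XT.nd (nat_lit 32292) (nat_lit 0) (nat_lit 13148) (XT.nd (nat_lit 32214) (nat_lit 0) (nat_lit 14212) (XT.lf (nat_lit 0) (nat_lit 53387328149) (nat_lit 228) (nat_lit 1262643975) (nat_lit 76) (nat_lit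 32780772197) (nat_lit 18) (nat_lit 5) (nat_lit 21) (nat_lit 5) (nat_lit 19) (nat_lit 4) (nat_lit 398) (nat_lit 289) (nat_lit 93)) (XT.lf (nat_lit 0) (nat_lit 2313941873) (nat_lit 0) (nat_lit 2313941873) (nat_lit 988) (nat_lit 564187212) (nat_lit 205) (nat_lit 5) (nat_lit 205) (nat_lit 3) (nat_lit 218) (nat_lit 3) (nat_lit 290) (nat_lit 290) (nat_lit 200))) (XT.nd (nat_lit 78) (nat_lit 1064) (nat_lit 0) (XT.lf (nat_lit 0) (nat_lit 9374756842) (nat_lit 0) (nat_lit 624116567) (nat_lit 988) (nat_lit 521887268) (nat_lit 205) (nat_lit 5) (nat_lit 205) (nat_lit 3) (nat_lit 218) (nat_lit 3) (nat_lit 291) (nat_lit 290) (nat_lit 199)) (XT.lf (nat_lit 0) (nat_lit 146233284) (nat_lit 1064) (nat_lit 7034559194) (nat_lit 1140) (nat_lit 3479331008) (nat_lit 191) (nat_lit 5) (nat_lit 205) (nat_lit 5) (nat_lit 206) (nat_lit 5) (nat_lit 292) (nat_lit 290) (nat_lit 198))))))) (XT.nd (nat_lit 1014) (nat_lit 4560)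 (nat_lit 0) (XT.nd (nat_lit 468) (nat_lit 0) (nat_lit 228) (XT.nd (nat_lit 234) (nat_lit 0) (nat_lit 76) (XT.nd (nat_lit 78) (nat_lit 0) (nat_lit 76) (XT.lf (nat_lit 0) (nat_lit 818603419) (nat_lit 1064) (nat_lit 2264036127) (nat_lit 1140) (nat_lit 7721069104) (nat_lit 191) (nat_lit 5) (nat_lit 205) (nat_lit 5) (nat_lit 206) (nat_lit 5) (nat_lit 293) (nat_lit 290) (nat_lit 197)) (XT.nd (nat_lit 78) (nat_lit 0) (nat_lit 0) (XT.lf (nat_lit 0) (nat_lit 1525795283) (nat_lit 1064) (nat_lit 8273394895) (nat_lit 1140) (nat_lit 1152007933) (nat_lit 192) (nat_lit 5) (nat_lit 206) (nat_lit 5) (nat_lit 207) (nat_lit 5) (nat_lit 294) (nat_lit 290) (nat_lit 196)) (XT.lf (nat_lit 0) (nat_lit 2285942268) (nat_lit 1064) (nat_lit 3332173427) (nat_lit 1140) (nat_lit 5484079586) (nat_lit 192) (nat_lit 5) (nat_lit 206) (nat_lit 5) (nat_lit 207) (nat_lit 5) (nat_lit 295) (nat_lit 290) (nat_lit 195)))) (XT.nd (nat_lit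 78) (nat_lit 0) (nat_lit 76) (XT.lf (nat_lit 76) (nat_lit 1779080805) (nat_lit 0) (nat_lit 1285680972) (nat_lit 1140) (nat_lit 8193118726) (nat_lit 193) (nat_lit 5) (nat_lit 192) (nat_lit 5) (nat_lit 207) (nat_lit 5) (nat_lit 296) (nat_lit 290) (nat_lit 194)) (XT.nd (nat_lit 78) (nat_lit 0) (nat_lit 0) (XT.lf (nat_lit 0) (nat_lit 3910802426) (nat_lit 1064) (nat_lit 4349642848) (nat_lit 1140) (nat_lit 3156508495) (nat_lit 193) (nat_lit 5) (nat_lit 207) (nat_lit 5) (nat_lit 208) (nat_lit 5) (nat_lit 297) (nat_lit 290) (nat_lit 193)) (XT.lf (nat_lit 76) (nat_lit 925589536) (nat_lit 0) (nat_lit 3858201742) (nat_lit 1140) (nat_lit 6796993163) (nat_lit 194) (nat_lit 5) (nat_lit 193) (nat_lit 5) (nat_lit 208) (nat_lit 5) (nat_lit 298) (nat_lit 290) (nat_lit 192))))) (XT.nd (nat_lit 234) (nat_lit 0) (nat_lit 76) (XT.nd (nat_lit 78) (nat_lit 0) (nat_lit 0) (XT.lf (nat_lit 0) (nat_lit 5714289557) (nat_lit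 1064) (nat_lit 5320589320) (nat_lit 1140) (nat_lit 713742843) (nat_lit 194) (nat_lit 5) (nat_lit 208) (nat_lit 5) (nat_lit 209) (nat_lit 5) (nat_lit 299) (nat_lit 290) (nat_lit 191)) (XT.nd (nat_lit 78) (nat_lit 0) (nat_lit 0) (XT.lf (nat_lit 76) (nat_lit 125007127) (nat_lit 0) (nat_lit 6568129204) (nat_lit 1140) (nat_lit 5227775148) (nat_lit 195) (nat_lit 5) (nat_lit 194) (nat_lit 5) (nat_lit 209) (nat_lit 5) (nat_lit 300) (nat_lit 290) (nat_lit 190)) (XT.lf (nat_lit 76) (nat_lit 5829881968) (nat_lit 0) (nat_lit 1906651948) (nat_lit 1140) (nat_lit 4360809936) (nat_lit 195) (nat_lit 5) (nat_lit 194) (nat_lit 5) (nat_lit 209) (nat_lit 5) (nat_lit 301) (nat_lit 290) (nat_lit 189)))) (XT.nd (nat_lit 156) (nat_lit 0) (nat_lit 76) (XT.nd (nat_lit 78) (nat_lit 0) (nat_lit 0) (XT.lf (nat_lit 0) (nat_lit 8821106977) (nat_lit 1064) (nat_lit 614383599) (nat_lit 1140) (nat_lit 2843311039) (nat_lit 195)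 (nat_lit 5) (nat_lit 209) (nat_lit 5) (nat_lit 210) (nat_lit 5) (nat_lit 302) (nat_lit 290) (nat_lit 188)) (XT.lf (nat_lit 76) (nat_lit 5279427888) (nat_lit 0) (nat_lit 4710987255) (nat_lit 1140) (nat_lit 2473749823) (nat_lit 196) (nat_lit 5) (nat_lit 195) (nat_lit 5) (nat_lit 210) (nat_lit 5) (nat_lit 303) (nat_lit 290) (nat_lit 187))) (XT.nd (nat_lit 78) (nat_lit 0) (nat_lit 0) (XT.lf (nat_lit 0) (nat_lit 11185555467) (nat_lit 1064) (nat_lit 1307261918) (nat_lit 1140) (nat_lit 162576225) (nat_lit 196) (nat_lit 5) (nat_lit 210) (nat_lit 5) (nat_lit 211) (nat_lit 5) (nat_lit 304) (nat_lit 290) (nat_lit 186)) (XT.lf (nat_lit 76) (nat_lit 4780110047) (nat_lit 0) (nat_lit 7712523073) (nat_lit 1140) (nat_lit 357469697) (nat_lit 197) (nat_lit 5) (nat_lit 196) (nat_lit 5) (nat_lit 211) (nat_lit 5) (nat_lit 305) (nat_lit 290) (nat_lit 185)))))) (XT.nd (nat_lit 546) (nat_lit 2204) (nat_lit 0) (XT.nd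 (nat_lit 234) (nat_lit 1596) (nat_lit 0) (XT.nd (nat_lit 78) (nat_lit 0) (nat_lit 76) (XT.lf (nat_lit 0) (nat_lit 769881316) (nat_lit 1140) (nat_lit 1994347523) (nat_lit 1216) (nat_lit 10286312029) (nat_lit 181) (nat_lit 5) (nat_lit 196) (nat_lit 5) (nat_lit 197) (nat_lit 5) (nat_lit 306) (nat_lit 290) (nat_lit 184)) (XT.nd (nat_lit 78) (nat_lit 0) (nat_lit 0) (XT.lf (nat_lit 0) (nat_lit 1972541866) (nat_lit 1140) (nat_lit 8947375998) (nat_lit 76) (nat_lit 2335531777) (nat_lit 182) (nat_lit 5) (nat_lit 197) (nat_lit 5) (nat_lit 183) (nat_lit 5) (nat_lit 307) (nat_lit 290) (nat_lit 183)) (XT.lf (nat_lit 0) (nat_lit 3243492826) (nat_lit 1140) (nat_lit 2666304976) (nat_lit 76) (nat_lit 7555764831) (nat_lit 182) (nat_lit 5) (nat_lit 197) (nat_lit 5) (nat_lit 183) (nat_lit 5) (nat_lit 308) (nat_lit 290) (nat_lit 182)))) (XT.nd (nat_lit 156) (nat_lit 532) (nat_lit 0) (XT.nd (nat_lit 78) (nat_lit 0)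 (nat_lit 0) (XT.lf (nat_lit 0) (nat_lit 3865734438) (nat_lit 1140) (nat_lit 708952629) (nat_lit 1216) (nat_lit 9106651102) (nat_lit 167) (nat_lit 5) (nat_lit 182) (nat_lit 5) (nat_lit 183) (nat_lit 5) (nat_lit 309) (nat_lit 290) (nat_lit 181)) (XT.lf (nat_lit 0) (nat_lit 6002976003) (nat_lit 1216) (nat_lit 3312587111) (nat_lit 76) (nat_lit 4586331031) (nat_lit 167) (nat_lit 5) (nat_lit 183) (nat_lit 5) (nat_lit 168) (nat_lit 5) (nat_lit 310) (nat_lit 290) (nat_lit 180))) (XT.nd (nat_lit 78) (nat_lit 0) (nat_lit 0) (XT.lf (nat_lit 0) (nat_lit 3432615070) (nat_lit 532) (nat_lit 4067231938) (nat_lit 608) (nat_lit 6628469088) (nat_lit 160) (nat_lit 5) (nat_lit 167) (nat_lit 5) (nat_lit 168) (nat_lit 5) (nat_lit 311) (nat_lit 290) (nat_lit 179)) (XT.lf (nat_lit 0) (nat_lit 9074296091) (nat_lit 608) (nat_lit 3938841687) (nat_lit 76) (nat_lit 1347433450) (nat_lit 160) (nat_lit 5) (nat_lit 168) (nat_lit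 5) (nat_lit 161) (nat_lit 5) (nat_lit 312) (nat_lit 290) (nat_lit 178))))) (XT.nd (nat_lit 234) (nat_lit 1064) (nat_lit 0) (XT.nd (nat_lit 78) (nat_lit 532) (nat_lit 0) (XT.lf (nat_lit 0) (nat_lit 3026705584) (nat_lit 608) (nat_lit 7725067486) (nat_lit 684) (nat_lit 3846367188) (nat_lit 152) (nat_lit 5) (nat_lit 160) (nat_lit 5) (nat_lit 161) (nat_lit 5) (nat_lit 313) (nat_lit 290) (nat_lit 177)) (XT.nd (nat_lit 78) (nat_lit 532) (nat_lit 0) (XT.lf (nat_lit 0) (nat_lit 10269277106) (nat_lit 608) (nat_lit 2236775389) (nat_lit 684) (nat_lit 2336009012) (nat_lit 152) (nat_lit 5) (nat_lit 160) (nat_lit 5) (nat_lit 161) (nat_lit 5) (nat_lit 314) (nat_lit 290) (nat_lit 176)) (XT.lf (nat_lit 0) (nat_lit 2641811342) (nat_lit 532) (nat_lit 11716478486) (nat_lit 608) (nat_lit 733669605) (nat_lit 145) (nat_lit 5) (nat_lit 152) (nat_lit 5) (nat_lit 153) (nat_lit 5) (nat_lit 315) (nat_lit 290) (nat_lit 175))))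 (XT.nd (nat_lit 156) (nat_lit 456) (nat_lit 0) (XT.nd (nat_lit 78) (nat_lit 532) (nat_lit 0) (XT.lf (nat_lit 0) (nat_lit 954838704) (nat_lit 608) (nat_lit 5225676870) (nat_lit 76) (nat_lit 9166912564) (nat_lit 144) (nat_lit 5) (nat_lit 152) (nat_lit 5) (nat_lit 145) (nat_lit 5) (nat_lit 316) (nat_lit 290) (nat_lit 174)) (XT.lf (nat_lit 0) (nat_lit 2239464777) (nat_lit 532) (nat_lit 448899124) (nat_lit 608) (nat_lit 12921723170) (nat_lit 137) (nat_lit 5) (nat_lit 144) (nat_lit 5) (nat_lit 145) (nat_lit 5) (nat_lit 317) (nat_lit 290) (nat_lit 173))) (XT.nd (nat_lit 78) (nat_lit 456) (nat_lit 0) (XT.lf (nat_lit 0) (nat_lit 4567441390) (nat_lit 608) (nat_lit 5909074143) (nat_lit 76) (nat_lit 5401320657) (nat_lit 137) (nat_lit 5) (nat_lit 145) (nat_lit 5) (nat_lit 138) (nat_lit 5) (nat_lit 318) (nat_lit 290) (nat_lit 172)) (XT.lf (nat_lit 0) (nat_lit 1794507463) (nat_lit 456) (nat_lit 4718254299)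 (nat_lit 532) (nat_lit 9640576229) (nat_lit 131) (nat_lit 5) (nat_lit 137) (nat_lit 5) (nat_lit 138) (nat_lit 5) (nat_lit 319) (nat_lit 290) (nat_lit 171))))))))
noncomputable def xc180 : XT := (XT.nd (nat_lit 2028) (nat_lit 2584) (nat_lit 0) (XT.nd (nat_lit 1014) (nat_lit 2052) (nat_lit 0) (XT.nd (nat_lit 468) (nat_lit 1216) (nat_lit 0) (XT.nd (nat_lit 234) (nat_lit 988) (nat_lit 0) (XT.nd (nat_lit 78) (nat_lit 456) (nat_lit 0) (XT.lf (nat_lit 0) (nat_lit 8576756533) (nat_lit 532) (nat_lit 6609858211) (nat_lit 76) (nat_lit 1248696506) (nat_lit 131) (nat_lit 5) (nat_lit 138) (nat_lit 5) (nat_lit 132) (nat_lit 5) (nat_lit 320) (nat_lit 290) (nat_lit 170)) (XT.nd (nat_lit 78) (nat_lit 0) (nat_lit 0) (XT.lf (nat_lit 0) (nat_lit 1338737418) (nat_lit 456) (nat_lit 9412252050) (nat_lit 532) (nat_lit 5973320078) (nat_lit 125) (nat_lit 5) (nat_lit 131) (nat_lit 5) (nat_lit 132) (nat_lit 5) (nat_lit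 321) (nat_lit 290) (nat_lit 169)) (XT.lf (nat_lit 0) (nat_lit 9649152610) (nat_lit 456) (nat_lit 3396989047) (nat_lit 532) (nat_lit 3974180304) (nat_lit 125) (nat_lit 5) (nat_lit 131) (nat_lit 5) (nat_lit 132) (nat_lit 5) (nat_lit 322) (nat_lit 290) (nat_lit 168)))) (XT.nd (nat_lit 78) (nat_lit 532) (nat_lit 0) (XT.lf (nat_lit 0) (nat_lit 861465782) (nat_lit 456) (nat_lit 14573124244) (nat_lit 532) (nat_lit 1889905978) (nat_lit 119) (nat_lit 5) (nat_lit 125) (nat_lit 5) (nat_lit 126) (nat_lit 5) (nat_lit 323) (nat_lit 290) (nat_lit 167)) (XT.nd (nat_lit 78) (nat_lit 456) (nat_lit 0) (XT.lf (nat_lit 0) (nat_lit 350025478) (nat_lit 532) (nat_lit 8192434595) (nat_lit 76) (nat_lit 9092330528) (nat_lit 118) (nat_lit 5) (nat_lit 125) (nat_lit 5) (nat_lit 119) (nat_lit 5) (nat_lit 324) (nat_lit 290) (nat_lit 166)) (XT.lf (nat_lit 0) (nat_lit 301593798) (nat_lit 456) (nat_lit 2310122513) (nat_lit 532)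 (nat_lit 15342353240) (nat_lit 112) (nat_lit 5) (nat_lit 118) (nat_lit 5) (nat_lit 119) (nat_lit 5) (nat_lit 325) (nat_lit 290) (nat_lit 165))))) (XT.nd (nat_lit 234) (nat_lit 836) (nat_lit 0) (XT.nd (nat_lit 78) (nat_lit 380) (nat_lit 0) (XT.lf (nat_lit 0) (nat_lit 5054125531) (nat_lit 532) (nat_lit 9114428923) (nat_lit 76) (nat_lit 4110999271) (nat_lit 112) (nat_lit 5) (nat_lit 119) (nat_lit 5) (nat_lit 113) (nat_lit 5) (nat_lit 326) (nat_lit 290) (nat_lit 164)) (XT.nd (nat_lit 78) (nat_lit 380) (nat_lit 0) (XT.lf (nat_lit 0) (nat_lit 7582797051) (nat_lit 532) (nat_lit 354807086) (nat_lit 76) (nat_lit 10676821098) (nat_lit 112) (nat_lit 5) (nat_lit 119) (nat_lit 5) (nat_lit 113) (nat_lit 5) (nat_lit 327) (nat_lit 290) (nat_lit 163)) (XT.lf (nat_lit 0) (nat_lit 8828526456) (nat_lit 380) (nat_lit 1434072821) (nat_lit 456) (nat_lit 8694497645) (nat_lit 107) (nat_lit 5) (nat_lit 112) (nat_lit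 5) (nat_lit 113) (nat_lit 5) (nat_lit 328) (nat_lit 290) (nat_lit 162)))) (XT.nd (nat_lit 156) (nat_lit 456) (nat_lit 0) (XT.nd (nat_lit 78) (nat_lit 380) (nat_lit 0) (XT.lf (nat_lit 0) (nat_lit 13067579385) (nat_lit 456) (nat_lit 1077468758) (nat_lit 76) (nat_lit 5163668894) (nat_lit 107) (nat_lit 5) (nat_lit 113) (nat_lit 5) (nat_lit 108) (nat_lit 5) (nat_lit 329) (nat_lit 290) (nat_lit 161)) (XT.lf (nat_lit 0) (nat_lit 8383373580) (nat_lit 380) (nat_lit 7658954415) (nat_lit 456) (nat_lit 3626000637) (nat_lit 102) (nat_lit 5) (nat_lit 107) (nat_lit 5) (nat_lit 108) (nat_lit 5) (nat_lit 330) (nat_lit 290) (nat_lit 160))) (XT.nd (nat_lit 78) (nat_lit 456) (nat_lit 0) (XT.lf (nat_lit 0) (nat_lit 18139054389) (nat_lit 380) (nat_lit 969139756) (nat_lit 456) (nat_lit 930489295) (nat_lit 102) (nat_lit 5) (nat_lit 107) (nat_lit 5) (nat_lit 108) (nat_lit 5) (nat_lit 331) (nat_lit 290) (nat_lit 159))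 (XT.lf (nat_lit 0) (nat_lit 1934722275) (nat_lit 456) (nat_lit 12582854696) (nat_lit 76) (nat_lit 5898304439) (nat_lit 96) (nat_lit 5) (nat_lit 102) (nat_lit 5) (nat_lit 97) (nat_lit 5) (nat_lit 332) (nat_lit 290) (nat_lit 158)))))) (XT.nd (nat_lit 468) (nat_lit 988) (nat_lit 0) (XT.nd (nat_lit 234) (nat_lit 684) (nat_lit 0) (XT.nd (nat_lit 78) (nat_lit 380) (nat_lit 0) (XT.lf (nat_lit 0) (nat_lit 4887448842) (nat_lit 456) (nat_lit 2937295954) (nat_lit 76) (nat_lit 12978776499) (nat_lit 96) (nat_lit 5) (nat_lit 102) (nat_lit 5) (nat_lit 97) (nat_lit 5) (nat_lit 333) (nat_lit 290) (nat_lit 157)) (XT.nd (nat_lit 78) (nat_lit 0) (nat_lit 0) (XT.lf (nat_lit 0) (nat_lit 7125924071) (nat_lit 380) (nat_lit 862878150) (nat_lit 456) (nat_lit 13212196679) (nat_lit 91) (nat_lit 5) (nat_lit 96) (nat_lit 5) (nat_lit 97) (nat_lit 5) (nat_lit 334) (nat_lit 290) (nat_lit 156)) (XT.lf (nat_lit 0) (nat_lit 11265453250)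 (nat_lit 456) (nat_lit 4130075977) (nat_lit 76) (nat_lit 6212413486) (nat_lit 91) (nat_lit 5) (nat_lit 97) (nat_lit 5) (nat_lit 92) (nat_lit 5) (nat_lit 335) (nat_lit 290) (nat_lit 155)))) (XT.nd (nat_lit 78) (nat_lit 380) (nat_lit 0) (XT.lf (nat_lit 0) (nat_lit 6215443512) (nat_lit 304) (nat_lit 8485160567) (nat_lit 380) (nat_lit 7324694062) (nat_lit 87) (nat_lit 5) (nat_lit 91) (nat_lit 5) (nat_lit 92) (nat_lit 5) (nat_lit 336) (nat_lit 290) (nat_lit 154)) (XT.nd (nat_lit 78) (nat_lit 380) (nat_lit 0) (XT.lf (nat_lit 0) (nat_lit 16945523066) (nat_lit 304) (nat_lit 1327037309) (nat_lit 380) (nat_lit 4181610367) (nat_lit 87) (nat_lit 5) (nat_lit 91) (nat_lit 5) (nat_lit 92) (nat_lit 5) (nat_lit 337) (nat_lit 290) (nat_lit 153)) (XT.lf (nat_lit 0) (nat_lit 5133267669) (nat_lit 380) (nat_lit 16918121523) (nat_lit 456) (nat_lit 841537689) (nat_lit 82) (nat_lit 5) (nat_lit 87) (nat_lit 5) (nat_lit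 88) (nat_lit 5) (nat_lit 338) (nat_lit 290) (nat_lit 152))))) (XT.nd (nat_lit 234) (nat_lit 608) (nat_lit 0) (XT.nd (nat_lit 78) (nat_lit 304) (nat_lit 0) (XT.lf (nat_lit 0) (nat_lit 2609639265) (nat_lit 456) (nat_lit 7184924912) (nat_lit 76) (nat_lit 13547691994) (nat_lit 81) (nat_lit 5) (nat_lit 87) (nat_lit 5) (nat_lit 82) (nat_lit 5) (nat_lit 339) (nat_lit 290) (nat_lit 151)) (XT.nd (nat_lit 78) (nat_lit 0) (nat_lit 0) (XT.lf (nat_lit 0) (nat_lit 3761993517) (nat_lit 304) (nat_lit 2414127431) (nat_lit 380) (nat_lit 17627841957) (nat_lit 77) (nat_lit 5) (nat_lit 81) (nat_lit 5) (nat_lit 82) (nat_lit 5) (nat_lit 340) (nat_lit 290) (nat_lit 150)) (XT.lf (nat_lit 0) (nat_lit 9965353170) (nat_lit 380) (nat_lit 9153566024) (nat_lit 76) (nat_lit 5157136760) (nat_lit 77) (nat_lit 5) (nat_lit 82) (nat_lit 5) (nat_lit 78) (nat_lit 5) (nat_lit 341) (nat_lit 290) (nat_lit 149)))) (XT.nd (nat_lit 156)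 (nat_lit 304) (nat_lit 0) (XT.nd (nat_lit 78) (nat_lit 0) (nat_lit 0) (XT.lf (nat_lit 0) (nat_lit 2068000260) (nat_lit 304) (nat_lit 11836874807) (nat_lit 380) (nat_lit 10856345917) (nat_lit 73) (nat_lit 5) (nat_lit 77) (nat_lit 5) (nat_lit 78) (nat_lit 5) (nat_lit 342) (nat_lit 290) (nat_lit 148)) (XT.lf (nat_lit 0) (nat_lit 13804009062) (nat_lit 304) (nat_lit 4243952367) (nat_lit 380) (nat_lit 7210425519) (nat_lit 73) (nat_lit 5) (nat_lit 77) (nat_lit 5) (nat_lit 78) (nat_lit 5) (nat_lit 343) (nat_lit 290) (nat_lit 147))) (XT.nd (nat_lit 78) (nat_lit 76) (nat_lit 0) (XT.lf (nat_lit 0) (nat_lit 79047287) (nat_lit 228) (nat_lit 22264560102) (nat_lit 304) (nat_lit 3426019629) (nat_lit 70) (nat_lit 5) (nat_lit 73) (nat_lit 5) (nat_lit 74) (nat_lit 5) (nat_lit 344) (nat_lit 290) (nat_lit 146)) (XT.lf (nat_lit 0) (nat_lit 614699785) (nat_lit 304) (nat_lit 14156947281) (nat_lit 76) (nat_lit 11519868152)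 (nat_lit 69) (nat_lit 5) (nat_lit 73) (nat_lit 5) (nat_lit 70) (nat_lit 5) (nat_lit 345) (nat_lit 290) (nat_lit 145))))))) (XT.nd (nat_lit 1014) (nat_lit 1064) (nat_lit 0) (XT.nd (nat_lit 468) (nat_lit 760) (nat_lit 0) (XT.nd (nat_lit 234) (nat_lit 456) (nat_lit 0) (XT.nd (nat_lit 78) (nat_lit 304) (nat_lit 0) (XT.lf (nat_lit 0) (nat_lit 4701139308) (nat_lit 304) (nat_lit 2320732489) (nat_lit 76) (nat_lit 19806376424) (nat_lit 69) (nat_lit 5) (nat_lit 73) (nat_lit 5) (nat_lit 70) (nat_lit 5) (nat_lit 346) (nat_lit 290) (nat_lit 144)) (XT.nd (nat_lit 78) (nat_lit 0) (nat_lit 0) (XT.lf (nat_lit 0) (nat_lit 9010565821) (nat_lit 380) (nat_lit 17330945064) (nat_lit 76) (nat_lit 1036566852) (nat_lit 65) (nat_lit 5) (nat_lit 70) (nat_lit 5) (nat_lit 66) (nat_lit 5) (nat_lit 347) (nat_lit 290) (nat_lit 143)) (XT.lf (nat_lit 0) (nat_lit 13536090227) (nat_lit 380) (nat_lit 5189156167) (nat_lit 76) (nat_lit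 9216557448) (nat_lit 65) (nat_lit 5) (nat_lit 70) (nat_lit 5) (nat_lit 66) (nat_lit 5) (nat_lit 348) (nat_lit 290) (nat_lit 142)))) (XT.nd (nat_lit 78) (nat_lit 228) (nat_lit 0) (XT.lf (nat_lit 0) (nat_lit 7453289944) (nat_lit 228) (nat_lit 10809546429) (nat_lit 304) (nat_lit 10257647653) (nat_lit 62) (nat_lit 5) (nat_lit 65) (nat_lit 5) (nat_lit 66) (nat_lit 5) (nat_lit 349) (nat_lit 290) (nat_lit 141)) (XT.nd (nat_lit 78) (nat_lit 228) (nat_lit 0) (XT.lf (nat_lit 0) (nat_lit 20572433667) (nat_lit 228) (nat_lit 2605256226) (nat_lit 304) (nat_lit 5937451374) (nat_lit 62) (nat_lit 5) (nat_lit 65) (nat_lit 5) (nat_lit 66) (nat_lit 5) (nat_lit 350) (nat_lit 290) (nat_lit 140)) (XT.lf (nat_lit 0) (nat_lit 4377910711) (nat_lit 228) (nat_lit 23954404336) (nat_lit 304) (nat_lit 1392559028) (nat_lit 59) (nat_lit 5) (nat_lit 62) (nat_lit 5) (nat_lit 63) (nat_lit 5) (nat_lit 351) (nat_lit 290) (nat_lit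 139))))) (XT.nd (nat_lit 234) (nat_lit 456) (nat_lit 0) (XT.nd (nat_lit 78) (nat_lit 228) (nat_lit 0) (XT.lf (nat_lit 0) (nat_lit 3331500622) (nat_lit 304) (nat_lit 12556188443) (nat_lit 76) (nat_lit 14461056893) (nat_lit 58) (nat_lit 5) (nat_lit 62) (nat_lit 5) (nat_lit 59) (nat_lit 5) (nat_lit 352) (nat_lit 290) (nat_lit 138)) (XT.nd (nat_lit 78) (nat_lit 0) (nat_lit 0) (XT.lf (nat_lit 0) (nat_lit 607759562) (nat_lit 228) (nat_lit 7561629203) (nat_lit 304) (nat_lit 22821533883) (nat_lit 55) (nat_lit 5) (nat_lit 58) (nat_lit 5) (nat_lit 59) (nat_lit 5) (nat_lit 353) (nat_lit 290) (nat_lit 137)) (XT.lf (nat_lit 0) (nat_lit 13284522300) (nat_lit 304) (nat_lit 17244234581) (nat_lit 76) (nat_lit 1119649499) (nat_lit 55) (nat_lit 5) (nat_lit 59) (nat_lit 5) (nat_lit 56) (nat_lit 5) (nat_lit 354) (nat_lit 290) (nat_lit 136)))) (XT.nd (nat_lit 156) (nat_lit 228) (nat_lit 0) (XT.nd (nat_lit 78) (nat_lit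 228) (nat_lit 0) (XT.lf (nat_lit 0) (nat_lit 18622454405) (nat_lit 304) (nat_lit 3794437571) (nat_lit 76) (nat_lit 9906647171) (nat_lit 55) (nat_lit 5) (nat_lit 59) (nat_lit 5) (nat_lit 56) (nat_lit 5) (nat_lit 355) (nat_lit 290) (nat_lit 135)) (XT.lf (nat_lit 0) (nat_lit 10250695185) (nat_lit 228) (nat_lit 13963003055) (nat_lit 304) (nat_lit 8802437159) (nat_lit 52) (nat_lit 5) (nat_lit 55) (nat_lit 5) (nat_lit 56) (nat_lit 5) (nat_lit 356) (nat_lit 290) (nat_lit 134))) (XT.nd (nat_lit 78) (nat_lit 228) (nat_lit 0) (XT.lf (nat_lit 0) (nat_lit 24786858282) (nat_lit 228) (nat_lit 5218853563) (nat_lit 304) (nat_lit 3722811300) (nat_lit 52) (nat_lit 5) (nat_lit 55) (nat_lit 5) (nat_lit 56) (nat_lit 5) (nat_lit 357) (nat_lit 290) (nat_lit 133)) (XT.lf (nat_lit 0) (nat_lit 1563315066) (nat_lit 228) (nat_lit 29118184856) (nat_lit 76) (nat_lit 3777844847) (nat_lit 49) (nat_lit 5) (nat_lit 52) (nat_lit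 5) (nat_lit 50) (nat_lit 5) (nat_lit 358) (nat_lit 290) (nat_lit 132)))))) (XT.nd (nat_lit 468) (nat_lit 684) (nat_lit 0) (XT.nd (nat_lit 234) (nat_lit 152) (nat_lit 0) (XT.nd (nat_lit 78) (nat_lit 228) (nat_lit 0) (XT.lf (nat_lit 0) (nat_lit 7070922604) (nat_lit 228) (nat_lit 15071072557) (nat_lit 76) (nat_lit 13064862618) (nat_lit 49) (nat_lit 5) (nat_lit 52) (nat_lit 5) (nat_lit 50) (nat_lit 5) (nat_lit 359) (nat_lit 290) (nat_lit 131)) (XT.nd (nat_lit 78) (nat_lit 228) (nat_lit 0) (XT.lf (nat_lit 0) (nat_lit 12738771095) (nat_lit 228) (nat_lit 610342798) (nat_lit 76) (nat_lit 22627835974) (nat_lit 49) (nat_lit 5) (nat_lit 52) (nat_lit 5) (nat_lit 50) (nat_lit 5) (nat_lit 360) (nat_lit 290) (nat_lit 130)) (XT.lf (nat_lit 0) (nat_lit 14560773140) (nat_lit 228) (nat_lit 4151006946) (nat_lit 304) (nat_lit 18054314831) (nat_lit 46) (nat_lit 5) (nat_lit 49) (nat_lit 5) (nat_lit 50) (nat_lit 5)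 (nat_lit 361) (nat_lit 290) (nat_lit 129)))) (XT.nd (nat_lit 78) (nat_lit 152) (nat_lit 0) (XT.lf (nat_lit 0) (nat_lit 24916572795) (nat_lit 304) (nat_lit 7438040309) (nat_lit 76) (nat_lit 5222727247) (nat_lit 46) (nat_lit 5) (nat_lit 50) (nat_lit 5) (nat_lit 47) (nat_lit 5) (nat_lit 362) (nat_lit 290) (nat_lit 128)) (XT.nd (nat_lit 78) (nat_lit 0) (nat_lit 0) (XT.lf (nat_lit 0) (nat_lit 7877484937) (nat_lit 152) (nat_lit 23542187224) (nat_lit 228) (nat_lit 6989889824) (nat_lit 44) (nat_lit 5) (nat_lit 46) (nat_lit 5) (nat_lit 47) (nat_lit 5) (nat_lit 363) (nat_lit 290) (nat_lit 127)) (XT.lf (nat_lit 0) (nat_lit 23797627271) (nat_lit 152) (nat_lit 14390752789) (nat_lit 228) (nat_lit 1076258357) (nat_lit 44) (nat_lit 5) (nat_lit 46) (nat_lit 5) (nat_lit 47) (nat_lit 5) (nat_lit 364) (nat_lit 290) (nat_lit 126))))) (XT.nd (nat_lit 234) (nat_lit 380) (nat_lit 0) (XT.nd (nat_lit 78) (nat_lit 228)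 (nat_lit 0) (XT.lf (nat_lit 0) (nat_lit 4912417727) (nat_lit 228) (nat_lit 5399510) (nat_lit 76) (nat_lit 35226242394) (nat_lit 43) (nat_lit 5) (nat_lit 46) (nat_lit 5) (nat_lit 44) (nat_lit 5) (nat_lit 365) (nat_lit 290) (nat_lit 125)) (XT.nd (nat_lit 78) (nat_lit 0) (nat_lit 0) (XT.lf (nat_lit 0) (nat_lit 11258794177) (nat_lit 304) (nat_lit 24874241289) (nat_lit 76) (nat_lit 4910521489) (nat_lit 40) (nat_lit 5) (nat_lit 44) (nat_lit 5) (nat_lit 41) (nat_lit 5) (nat_lit 366) (nat_lit 290) (nat_lit 124)) (XT.lf (nat_lit 0) (nat_lit 17839967540) (nat_lit 304) (nat_lit 9196376805) (nat_lit 76) (nat_lit 14932365896) (nat_lit 40) (nat_lit 5) (nat_lit 44) (nat_lit 5) (nat_lit 41) (nat_lit 5) (nat_lit 367) (nat_lit 290) (nat_lit 123)))) (XT.nd (nat_lit 156) (nat_lit 228) (nat_lit 0) (XT.nd (nat_lit 78) (nat_lit 0) (nat_lit 0) (XT.lf (nat_lit 0) (nat_lit 7083217033) (nat_lit 152) (nat_lit 17599233010)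 (nat_lit 228) (nat_lit 18237254984) (nat_lit 38) (nat_lit 5) (nat_lit 40) (nat_lit 5) (nat_lit 41) (nat_lit 5) (nat_lit 368) (nat_lit 290) (nat_lit 122)) (XT.lf (nat_lit 0) (nat_lit 24032956658) (nat_lit 152) (nat_lit 7785959239) (nat_lit 228) (nat_lit 12077655521) (nat_lit 38) (nat_lit 5) (nat_lit 40) (nat_lit 5) (nat_lit 41) (nat_lit 5) (nat_lit 369) (nat_lit 290) (nat_lit 121))) (XT.nd (nat_lit 78) (nat_lit 228) (nat_lit 0) (XT.lf (nat_lit 0) (nat_lit 39187733729) (nat_lit 228) (nat_lit 3440534652) (nat_lit 76) (nat_lit 2273930620) (nat_lit 38) (nat_lit 5) (nat_lit 41) (nat_lit 5) (nat_lit 39) (nat_lit 5) (nat_lit 370) (nat_lit 290) (nat_lit 120)) (XT.lf (nat_lit 0) (nat_lit 1029696226) (nat_lit 228) (nat_lit 32283757875) (nat_lit 76) (nat_lit 12618108165) (nat_lit 35) (nat_lit 5) (nat_lit 38) (nat_lit 5) (nat_lit 36) (nat_lit 5) (nat_lit 371) (nat_lit 290) (nat_lit 119))))))))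
noncomputable def xc181 : XT := (XT.nd (nat_lit 34320) (nat_lit 0) (nat_lit 9576) (XT.nd (nat_lit 1014) (nat_lit 608) (nat_lit 0) (XT.nd (nat_lit 468) (nat_lit 380) (nat_lit 0) (XT.nd (nat_lit 234) (nat_lit 152) (nat_lit 0) (XT.nd (nat_lit 78) (nat_lit 152) (nat_lit 0) (XT.lf (nat_lit 0) (nat_lit 7892484665) (nat_lit 228) (nat_lit 15734850863) (nat_lit 76) (nat_lit 23361841510) (nat_lit 35) (nat_lit 5) (nat_lit 38) (nat_lit 5) (nat_lit 36) (nat_lit 5) (nat_lit 372) (nat_lit 290) (nat_lit 118)) (XT.nd (nat_lit 78) (nat_lit 0) (nat_lit 0) (XT.lf (nat_lit 0) (nat_lit 1330183864) (nat_lit 152) (nat_lit 13639944432) (nat_lit 228) (nat_lit 33108125422) (nat_lit 33) (nat_lit 5) (nat_lit 35) (nat_lit 5) (nat_lit 36) (nat_lit 5) (nat_lit 373) (nat_lit 290) (nat_lit 117)) (XT.lf (nat_lit 0) (nat_lit 19223484204) (nat_lit 152) (nat_lit 3191744359) (nat_lit 228) (nat_lit 26780122851) (nat_lit 33) (nat_lit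 5) (nat_lit 35) (nat_lit 5) (nat_lit 36) (nat_lit 5) (nat_lit 374) (nat_lit 290) (nat_lit 116)))) (XT.nd (nat_lit 78) (nat_lit 152) (nat_lit 0) (XT.lf (nat_lit 0) (nat_lit 30152771119) (nat_lit 228) (nat_lit 12771286903) (nat_lit 76) (nat_lit 7419833804) (nat_lit 33) (nat_lit 5) (nat_lit 36) (nat_lit 5) (nat_lit 34) (nat_lit 5) (nat_lit 375) (nat_lit 290) (nat_lit 115)) (XT.nd (nat_lit 78) (nat_lit 0) (nat_lit 0) (XT.lf (nat_lit 0) (nat_lit 5005420161) (nat_lit 152) (nat_lit 33193166237) (nat_lit 228) (nat_lit 13326020048) (nat_lit 31) (nat_lit 5) (nat_lit 33) (nat_lit 5) (nat_lit 34) (nat_lit 5) (nat_lit 376) (nat_lit 290) (nat_lit 114)) (XT.lf (nat_lit 0) (nat_lit 23571322759) (nat_lit 152) (nat_lit 23039895417) (nat_lit 228) (nat_lit 6125763387) (nat_lit 31) (nat_lit 5) (nat_lit 33) (nat_lit 5) (nat_lit 34) (nat_lit 5) (nat_lit 377) (nat_lit 290) (nat_lit 113))))) (XT.nd (nat_lit 234) (nat_lit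 152) (nat_lit 0) (XT.nd (nat_lit 78) (nat_lit 152) (nat_lit 0) (XT.lf (nat_lit 0) (nat_lit 1261862271) (nat_lit 228) (nat_lit 11309734123) (nat_lit 76) (nat_lit 41413865267) (nat_lit 30) (nat_lit 5) (nat_lit 33) (nat_lit 5) (nat_lit 31) (nat_lit 5) (nat_lit 378) (nat_lit 290) (nat_lit 112)) (XT.nd (nat_lit 78) (nat_lit 0) (nat_lit 0) (XT.lf (nat_lit 0) (nat_lit 7155206525) (nat_lit 152) (nat_lit 1658212909) (nat_lit 228) (nat_lit 46454196581) (nat_lit 28) (nat_lit 5) (nat_lit 30) (nat_lit 5) (nat_lit 31) (nat_lit 5) (nat_lit 379) (nat_lit 290) (nat_lit 111)) (XT.lf (nat_lit 0) (nat_lit 16795640353) (nat_lit 228) (nat_lit 30277778136) (nat_lit 76) (nat_lit 9508695063) (nat_lit 28) (nat_lit 5) (nat_lit 31) (nat_lit 5) (nat_lit 29) (nat_lit 5) (nat_lit 380) (nat_lit 290) (nat_lit 110)))) (XT.nd (nat_lit 156) (nat_lit 0) (nat_lit 0) (XT.nd (nat_lit 78) (nat_lit 152) (nat_lit 0) (XT.lf (nat_lit 0)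 (nat_lit 25030509538) (nat_lit 228) (nat_lit 11930019842) (nat_lit 76) (nat_lit 20975123186) (nat_lit 28) (nat_lit 5) (nat_lit 31) (nat_lit 5) (nat_lit 29) (nat_lit 5) (nat_lit 381) (nat_lit 290) (nat_lit 109)) (XT.lf (nat_lit 0) (nat_lit 7101411280) (nat_lit 152) (nat_lit 26476134580) (nat_lit 228) (nat_lit 25750300203) (nat_lit 26) (nat_lit 5) (nat_lit 28) (nat_lit 5) (nat_lit 29) (nat_lit 5) (nat_lit 382) (nat_lit 290) (nat_lit 108))) (XT.nd (nat_lit 78) (nat_lit 0) (nat_lit 0) (XT.lf (nat_lit 0) (nat_lit 26943057310) (nat_lit 152) (nat_lit 15555304467) (nat_lit 228) (nat_lit 18259924419) (nat_lit 26) (nat_lit 5) (nat_lit 28) (nat_lit 5) (nat_lit 29) (nat_lit 5) (nat_lit 383) (nat_lit 290) (nat_lit 107)) (XT.lf (nat_lit 0) (nat_lit 47374824821) (nat_lit 152) (nat_lit 4308966377) (nat_lit 228) (nat_lit 10547940497) (nat_lit 26) (nat_lit 5) (nat_lit 28) (nat_lit 5) (nat_lit 29) (nat_lit 5)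 (nat_lit 384) (nat_lit 290) (nat_lit 106)))))) (XT.nd (nat_lit 468) (nat_lit 304) (nat_lit 0) (XT.nd (nat_lit 234) (nat_lit 152) (nat_lit 0) (XT.nd (nat_lit 78) (nat_lit 76) (nat_lit 0) (XT.lf (nat_lit 0) (nat_lit 4686640306) (nat_lit 76) (nat_lit 56570180478) (nat_lit 152) (nat_lit 2489200434) (nat_lit 25) (nat_lit 5) (nat_lit 26) (nat_lit 5) (nat_lit 27) (nat_lit 4) (nat_lit 385) (nat_lit 290) (nat_lit 105)) (XT.nd (nat_lit 78) (nat_lit 0) (nat_lit 0) (XT.lf (nat_lit 0) (nat_lit 5889140640) (nat_lit 152) (nat_lit 40285261832) (nat_lit 76) (nat_lit 19123925630) (nat_lit 24) (nat_lit 5) (nat_lit 26) (nat_lit 5) (nat_lit 25) (nat_lit 5) (nat_lit 386) (nat_lit 290) (nat_lit 104)) (XT.lf (nat_lit 0) (nat_lit 14465951170) (nat_lit 152) (nat_lit 20977476258) (nat_lit 76) (nat_lit 31453124536) (nat_lit 24) (nat_lit 5) (nat_lit 26) (nat_lit 5) (nat_lit 25) (nat_lit 5) (nat_lit 387) (nat_lit 290) (nat_lit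 103)))) (XT.nd (nat_lit 78) (nat_lit 152) (nat_lit 0) (XT.lf (nat_lit 0) (nat_lit 23297298721) (nat_lit 152) (nat_lit 1095225593) (nat_lit 76) (nat_lit 44150282827) (nat_lit 24) (nat_lit 5) (nat_lit 26) (nat_lit 5) (nat_lit 25) (nat_lit 5) (nat_lit 388) (nat_lit 290) (nat_lit 102)) (XT.nd (nat_lit 78) (nat_lit 0) (nat_lit 0) (XT.lf (nat_lit 0) (nat_lit 19764540375) (nat_lit 152) (nat_lit 12816348482) (nat_lit 228) (nat_lit 37651943584) (nat_lit 22) (nat_lit 5) (nat_lit 24) (nat_lit 5) (nat_lit 25) (nat_lit 5) (nat_lit 389) (nat_lit 290) (nat_lit 101)) (XT.lf (nat_lit 0) (nat_lit 41267966173) (nat_lit 152) (nat_lit 883427649) (nat_lit 228) (nat_lit 29821913955) (nat_lit 22) (nat_lit 5) (nat_lit 24) (nat_lit 5) (nat_lit 25) (nat_lit 5) (nat_lit 390) (nat_lit 290) (nat_lit 100))))) (XT.nd (nat_lit 234) (nat_lit 228) (nat_lit 0) (XT.nd (nat_lit 78) (nat_lit 76) (nat_lit 0) (XT.lf (nat_lit 0) (nat_lit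 52116076342) (nat_lit 228) (nat_lit 10463669669) (nat_lit 76) (nat_lit 11183040936) (nat_lit 22) (nat_lit 5) (nat_lit 25) (nat_lit 5) (nat_lit 23) (nat_lit 4) (nat_lit 391) (nat_lit 290) (nat_lit 99)) (XT.nd (nat_lit 78) (nat_lit 0) (nat_lit 0) (XT.lf (nat_lit 0) (nat_lit 10578551297) (nat_lit 76) (nat_lit 51909064611) (nat_lit 152) (nat_lit 13115098490) (nat_lit 21) (nat_lit 5) (nat_lit 22) (nat_lit 5) (nat_lit 23) (nat_lit 4) (nat_lit 392) (nat_lit 290) (nat_lit 98)) (XT.lf (nat_lit 0) (nat_lit 32462196847) (nat_lit 76) (nat_lit 40811281258) (nat_lit 152) (nat_lit 4221267638) (nat_lit 21) (nat_lit 5) (nat_lit 22) (nat_lit 5) (nat_lit 23) (nat_lit 4) (nat_lit 393) (nat_lit 290) (nat_lit 97)))) (XT.nd (nat_lit 156) (nat_lit 152) (nat_lit 0) (XT.nd (nat_lit 78) (nat_lit 0) (nat_lit 0) (XT.lf (nat_lit 0) (nat_lit 4840554193) (nat_lit 152) (nat_lit 24492927109) (nat_lit 76) (nat_lit 50108706768)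 (nat_lit 20) (nat_lit 5) (nat_lit 22) (nat_lit 5) (nat_lit 21) (nat_lit 5) (nat_lit 394) (nat_lit 290) (nat_lit 96)) (XT.lf (nat_lit 0) (nat_lit 14087019529) (nat_lit 152) (nat_lit 3383047823) (nat_lit 76) (nat_lit 63976804756) (nat_lit 20) (nat_lit 5) (nat_lit 22) (nat_lit 5) (nat_lit 21) (nat_lit 5) (nat_lit 395) (nat_lit 290) (nat_lit 95))) (XT.nd (nat_lit 78) (nat_lit 0) (nat_lit 0) (XT.lf (nat_lit 0) (nat_lit 18721434512) (nat_lit 152) (nat_lit 5067107308) (nat_lit 228) (nat_lit 59717826168) (nat_lit 18) (nat_lit 5) (nat_lit 20) (nat_lit 5) (nat_lit 21) (nat_lit 5) (nat_lit 396) (nat_lit 290) (nat_lit 94)) (XT.lf (nat_lit 0) (nat_lit 33887417063) (nat_lit 228) (nat_lit 44146684540) (nat_lit 76) (nat_lit 7590359099) (nat_lit 18) (nat_lit 5) (nat_lit 21) (nat_lit 5) (nat_lit 19) (nat_lit 4) (nat_lit 397) (nat_lit 290) (nat_lit 93))))))) (XT.nd (nat_lit 1014) (nat_lit 3496) (nat_lit 0) (XT.nd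 (nat_lit 468) (nat_lit 0) (nat_lit 152) (XT.nd (nat_lit 234) (nat_lit 0) (nat_lit 76) (XT.nd (nat_lit 78) (nat_lit 0) (nat_lit 0) (XT.lf (nat_lit 0) (nat_lit 35598831) (nat_lit 1140) (nat_lit 2646632217) (nat_lit 1140) (nat_lit 2646632217) (nat_lit 190) (nat_lit 3) (nat_lit 205) (nat_lit 3) (nat_lit 205) (nat_lit 5) (nat_lit 291) (nat_lit 291) (nat_lit 198)) (XT.nd (nat_lit 78) (nat_lit 0) (nat_lit 76) (XT.lf (nat_lit 0) (nat_lit 648425251) (nat_lit 1140) (nat_lit 568896888) (nat_lit 1140) (nat_lit 9582056371) (nat_lit 190) (nat_lit 3) (nat_lit 205) (nat_lit 3) (nat_lit 205) (nat_lit 5) (nat_lit 292) (nat_lit 291) (nat_lit 197)) (XT.lf (nat_lit 0) (nat_lit 1292379287) (nat_lit 1064) (nat_lit 6603714991) (nat_lit 1140) (nat_lit 3047739741) (nat_lit 191) (nat_lit 5) (nat_lit 205) (nat_lit 5) (nat_lit 206) (nat_lit 5) (nat_lit 293) (nat_lit 291) (nat_lit 196)))) (XT.nd (nat_lit 78) (nat_lit 0)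 (nat_lit 76) (XT.lf (nat_lit 0) (nat_lit 1951665409) (nat_lit 1064) (nat_lit 1708771795) (nat_lit 1140) (nat_lit 7432340792) (nat_lit 191) (nat_lit 5) (nat_lit 205) (nat_lit 5) (nat_lit 206) (nat_lit 5) (nat_lit 294) (nat_lit 291) (nat_lit 195)) (XT.nd (nat_lit 78) (nat_lit 0) (nat_lit 0) (XT.lf (nat_lit 0) (nat_lit 2649247649) (nat_lit 1064) (nat_lit 7865851192) (nat_lit 1140) (nat_lit 730570105) (nat_lit 192) (nat_lit 5) (nat_lit 206) (nat_lit 5) (nat_lit 207) (nat_lit 5) (nat_lit 295) (nat_lit 291) (nat_lit 194)) (XT.lf (nat_lit 0) (nat_lit 3400810349) (nat_lit 1064) (nat_lit 2795492464) (nat_lit 1140) (nat_lit 5205885405) (nat_lit 192) (nat_lit 5) (nat_lit 206) (nat_lit 5) (nat_lit 207) (nat_lit 5) (nat_lit 296) (nat_lit 291) (nat_lit 193))))) (XT.nd (nat_lit 234) (nat_lit 0) (nat_lit 152) (XT.nd (nat_lit 78) (nat_lit 0) (nat_lit 76) (XT.lf (nat_lit 76) (nat_lit 2462857766) (nat_lit 0) (nat_lit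 1715722051) (nat_lit 1140) (nat_lit 7384745674) (nat_lit 193) (nat_lit 5) (nat_lit 192) (nat_lit 5) (nat_lit 207) (nat_lit 5) (nat_lit 297) (nat_lit 291) (nat_lit 192)) (XT.nd (nat_lit 78) (nat_lit 0) (nat_lit 0) (XT.lf (nat_lit 0) (nat_lit 5016584878) (nat_lit 1064) (nat_lit 3833084542) (nat_lit 1140) (nat_lit 2878551664) (nat_lit 193) (nat_lit 5) (nat_lit 207) (nat_lit 5) (nat_lit 208) (nat_lit 5) (nat_lit 298) (nat_lit 291) (nat_lit 191)) (XT.lf (nat_lit 76) (nat_lit 1594061210) (nat_lit 0) (nat_lit 4299070975) (nat_lit 1140) (nat_lit 6004559668) (nat_lit 194) (nat_lit 5) (nat_lit 193) (nat_lit 5) (nat_lit 208) (nat_lit 5) (nat_lit 299) (nat_lit 291) (nat_lit 190)))) (XT.nd (nat_lit 156) (nat_lit 0) (nat_lit 0) (XT.nd (nat_lit 78) (nat_lit 0) (nat_lit 0) (XT.lf (nat_lit 0) (nat_lit 6820380268) (nat_lit 1064) (nat_lit 4825502736) (nat_lit 1140) (nat_lit 425661092) (nat_lit 194) (nat_lit 5)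 (nat_lit 208) (nat_lit 5) (nat_lit 209) (nat_lit 5) (nat_lit 300) (nat_lit 291) (nat_lit 189)) (XT.lf (nat_lit 76) (nat_lit 777042936) (nat_lit 0) (nat_lit 7030558062) (nat_lit 1140) (nat_lit 4442074879) (nat_lit 195) (nat_lit 5) (nat_lit 194) (nat_lit 5) (nat_lit 209) (nat_lit 5) (nat_lit 301) (nat_lit 291) (nat_lit 188))) (XT.nd (nat_lit 78) (nat_lit 0) (nat_lit 76) (XT.lf (nat_lit 76) (nat_lit 6634181917) (nat_lit 0) (nat_lit 2221506829) (nat_lit 1140) (nat_lit 3576553144) (nat_lit 195) (nat_lit 5) (nat_lit 194) (nat_lit 5) (nat_lit 209) (nat_lit 5) (nat_lit 302) (nat_lit 291) (nat_lit 187)) (XT.lf (nat_lit 76) (nat_lit 8023507) (nat_lit 0) (nat_lit 9936611352) (nat_lit 1140) (nat_lit 2675394534) (nat_lit 196) (nat_lit 5) (nat_lit 195) (nat_lit 5) (nat_lit 210) (nat_lit 5) (nat_lit 303) (nat_lit 291) (nat_lit 186)))))) (XT.nd (nat_lit 546) (nat_lit 1748) (nat_lit 0) (XT.nd (nat_lit 234) (nat_lit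 1064) (nat_lit 0) (XT.nd (nat_lit 78) (nat_lit 1064) (nat_lit 0) (XT.lf (nat_lit 76) (nat_lit 6072211575) (nat_lit 0) (nat_lit 5057817713) (nat_lit 1140) (nat_lit 1681534031) (nat_lit 196) (nat_lit 5) (nat_lit 195) (nat_lit 5) (nat_lit 210) (nat_lit 5) (nat_lit 304) (nat_lit 291) (nat_lit 185)) (XT.nd (nat_lit 78) (nat_lit 1064) (nat_lit 0) (XT.lf (nat_lit 76) (nat_lit 12306189751) (nat_lit 0) (nat_lit 28729214) (nat_lit 1140) (nat_lit 674431729) (nat_lit 196) (nat_lit 5) (nat_lit 195) (nat_lit 5) (nat_lit 210) (nat_lit 5) (nat_lit 305) (nat_lit 291) (nat_lit 184)) (XT.lf (nat_lit 0) (nat_lit 444052348) (nat_lit 1140) (nat_lit 7654028988) (nat_lit 1216) (nat_lit 5112262182) (nat_lit 181) (nat_lit 5) (nat_lit 196) (nat_lit 5) (nat_lit 197) (nat_lit 5) (nat_lit 306) (nat_lit 291) (nat_lit 183)))) (XT.nd (nat_lit 156) (nat_lit 1064) (nat_lit 0) (XT.nd (nat_lit 78) (nat_lit 0) (nat_lit 76) (XT.lf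 (nat_lit 0) (nat_lit 1574590716) (nat_lit 1140) (nat_lit 1418717501) (nat_lit 1216) (nat_lit 10424119205) (nat_lit 181) (nat_lit 5) (nat_lit 196) (nat_lit 5) (nat_lit 197) (nat_lit 5) (nat_lit 307) (nat_lit 291) (nat_lit 182)) (XT.lf (nat_lit 0) (nat_lit 2795310103) (nat_lit 1140) (nat_lit 8561168974) (nat_lit 76) (nat_lit 2272579416) (nat_lit 182) (nat_lit 5) (nat_lit 197) (nat_lit 5) (nat_lit 183) (nat_lit 5) (nat_lit 308) (nat_lit 291) (nat_lit 181))) (XT.nd (nat_lit 78) (nat_lit 1140) (nat_lit 0) (XT.lf (nat_lit 0) (nat_lit 4082149050) (nat_lit 1140) (nat_lit 2110732665) (nat_lit 76) (nat_lit 7653293781) (nat_lit 182) (nat_lit 5) (nat_lit 197) (nat_lit 5) (nat_lit 183) (nat_lit 5) (nat_lit 309) (nat_lit 291) (nat_lit 180)) (XT.lf (nat_lit 0) (nat_lit 4611036936) (nat_lit 1140) (nat_lit 826698931) (nat_lit 1216) (nat_lit 8631187160) (nat_lit 167) (nat_lit 5) (nat_lit 182) (nat_lit 5) (nat_lit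 183) (nat_lit 5) (nat_lit 310) (nat_lit 291) (nat_lit 179))))) (XT.nd (nat_lit 234) (nat_lit 1216) (nat_lit 0) (XT.nd (nat_lit 78) (nat_lit 532) (nat_lit 0) (XT.lf (nat_lit 0) (nat_lit 6886833035) (nat_lit 1216) (nat_lit 2777874283) (nat_lit 76) (nat_lit 4632081064) (nat_lit 167) (nat_lit 5) (nat_lit 183) (nat_lit 5) (nat_lit 168) (nat_lit 5) (nat_lit 311) (nat_lit 291) (nat_lit 178)) (XT.nd (nat_lit 78) (nat_lit 0) (nat_lit 0) (XT.lf (nat_lit 0) (nat_lit 4163467391) (nat_lit 532) (nat_lit 4250680198) (nat_lit 608) (nat_lit 6116319851) (nat_lit 160) (nat_lit 5) (nat_lit 167) (nat_lit 5) (nat_lit 168) (nat_lit 5) (nat_lit 312) (nat_lit 291) (nat_lit 177)) (XT.lf (nat_lit 0) (nat_lit 10015179979) (nat_lit 608) (nat_lit 3425781187) (nat_lit 76) (nat_lit 1329378244) (nat_lit 160) (nat_lit 5) (nat_lit 168) (nat_lit 5) (nat_lit 161) (nat_lit 5) (nat_lit 313) (nat_lit 291) (nat_lit 176)))) (XT.nd (nat_lit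 156) (nat_lit 608) (nat_lit 0) (XT.nd (nat_lit 78) (nat_lit 0) (nat_lit 0) (XT.lf (nat_lit 0) (nat_lit 3742544016) (nat_lit 608) (nat_lit 7986970103) (nat_lit 684) (nat_lit 3285954220) (nat_lit 152) (nat_lit 5) (nat_lit 160) (nat_lit 5) (nat_lit 161) (nat_lit 5) (nat_lit 314) (nat_lit 291) (nat_lit 175)) (XT.lf (nat_lit 0) (nat_lit 11184187714) (nat_lit 608) (nat_lit 2333151072) (nat_lit 684) (nat_lit 1749968910) (nat_lit 152) (nat_lit 5) (nat_lit 160) (nat_lit 5) (nat_lit 161) (nat_lit 5) (nat_lit 315) (nat_lit 291) (nat_lit 174))) (XT.nd (nat_lit 78) (nat_lit 76) (nat_lit 0) (XT.lf (nat_lit 0) (nat_lit 3342046692) (nat_lit 532) (nat_lit 12070265285) (nat_lit 608) (nat_lit 112802680) (nat_lit 145) (nat_lit 5) (nat_lit 152) (nat_lit 5) (nat_lit 153) (nat_lit 5) (nat_lit 316) (nat_lit 291) (nat_lit 173)) (XT.lf (nat_lit 0) (nat_lit 1595456842) (nat_lit 608) (nat_lit 4766520146) (nat_lit 76) (nat_lit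 9426661420) (nat_lit 144) (nat_lit 5) (nat_lit 152) (nat_lit 5) (nat_lit 145) (nat_lit 5) (nat_lit 317) (nat_lit 291) (nat_lit 172))))))))
noncomputable def xc182 : XT := (XT.nd (nat_lit 2028) (nat_lit 2660) (nat_lit 0) (XT.nd (nat_lit 1014) (nat_lit 2584) (nat_lit 0) (XT.nd (nat_lit 468) (nat_lit 1368) (nat_lit 0) (XT.nd (nat_lit 234) (nat_lit 456) (nat_lit 0) (XT.nd (nat_lit 78) (nat_lit 456) (nat_lit 0) (XT.lf (nat_lit 0) (nat_lit 2916537250) (nat_lit 532) (nat_lit 452488711) (nat_lit 608) (nat_lit 12690534859) (nat_lit 137) (nat_lit 5) (nat_lit 144) (nat_lit 5) (nat_lit 145) (nat_lit 5) (nat_lit 318) (nat_lit 291) (nat_lit 171)) (XT.nd (nat_lit 78) (nat_lit 456) (nat_lit 0) (XT.lf (nat_lit 0) (nat_lit 5287091904) (nat_lit 608) (nat_lit 5476033314) (nat_lit 76) (nat_lit 5572762843) (nat_lit 137) (nat_lit 5) (nat_lit 145) (nat_lit 5) (nat_lit 138) (nat_lit 5) (nat_lit 319) (nat_lit 291) (nat_lit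 170)) (XT.lf (nat_lit 0) (nat_lit 2452672278) (nat_lit 456) (nat_lit 4826939068) (nat_lit 532) (nat_lit 9340401815) (nat_lit 131) (nat_lit 5) (nat_lit 137) (nat_lit 5) (nat_lit 138) (nat_lit 5) (nat_lit 320) (nat_lit 291) (nat_lit 169)))) (XT.nd (nat_lit 78) (nat_lit 456) (nat_lit 0) (XT.lf (nat_lit 0) (nat_lit 9389187996) (nat_lit 532) (nat_lit 6204330013) (nat_lit 76) (nat_lit 1317440495) (nat_lit 131) (nat_lit 5) (nat_lit 138) (nat_lit 5) (nat_lit 132) (nat_lit 5) (nat_lit 321) (nat_lit 291) (nat_lit 168)) (XT.nd (nat_lit 78) (nat_lit 0) (nat_lit 0) (XT.lf (nat_lit 0) (nat_lit 1976803642) (nat_lit 456) (nat_lit 9641422897) (nat_lit 532) (nat_lit 5590734935) (nat_lit 125) (nat_lit 5) (nat_lit 131) (nat_lit 5) (nat_lit 132) (nat_lit 5) (nat_lit 322) (nat_lit 291) (nat_lit 167)) (XT.lf (nat_lit 0) (nat_lit 10519116608) (nat_lit 456) (nat_lit 3447251423) (nat_lit 532) (nat_lit 3547983630) (nat_lit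 125) (nat_lit 5) (nat_lit 131) (nat_lit 5) (nat_lit 132) (nat_lit 5) (nat_lit 323) (nat_lit 291) (nat_lit 166))))) (XT.nd (nat_lit 234) (nat_lit 380) (nat_lit 0) (XT.nd (nat_lit 78) (nat_lit 532) (nat_lit 0) (XT.lf (nat_lit 0) (nat_lit 1478033915) (nat_lit 456) (nat_lit 14939193175) (nat_lit 532) (nat_lit 1410721935) (nat_lit 119) (nat_lit 5) (nat_lit 125) (nat_lit 5) (nat_lit 126) (nat_lit 5) (nat_lit 324) (nat_lit 291) (nat_lit 165)) (XT.nd (nat_lit 78) (nat_lit 456) (nat_lit 0) (XT.lf (nat_lit 0) (nat_lit 870646874) (nat_lit 532) (nat_lit 7853882583) (nat_lit 76) (nat_lit 9423347196) (nat_lit 118) (nat_lit 5) (nat_lit 125) (nat_lit 5) (nat_lit 119) (nat_lit 5) (nat_lit 325) (nat_lit 291) (nat_lit 164)) (XT.lf (nat_lit 0) (nat_lit 889237985) (nat_lit 456) (nat_lit 2301654386) (nat_lit 532) (nat_lit 15286139531) (nat_lit 112) (nat_lit 5) (nat_lit 118) (nat_lit 5) (nat_lit 119) (nat_lit 5) (nat_lit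 326) (nat_lit 291) (nat_lit 163)))) (XT.nd (nat_lit 156) (nat_lit 0) (nat_lit 0) (XT.nd (nat_lit 78) (nat_lit 380) (nat_lit 0) (XT.lf (nat_lit 0) (nat_lit 5692712560) (nat_lit 532) (nat_lit 8811639929) (nat_lit 76) (nat_lit 4308362447) (nat_lit 112) (nat_lit 5) (nat_lit 119) (nat_lit 5) (nat_lit 113) (nat_lit 5) (nat_lit 327) (nat_lit 291) (nat_lit 162)) (XT.lf (nat_lit 0) (nat_lit 197848131) (nat_lit 380) (nat_lit 8087114536) (nat_lit 456) (nat_lit 10873056329) (nat_lit 107) (nat_lit 5) (nat_lit 112) (nat_lit 5) (nat_lit 113) (nat_lit 5) (nat_lit 328) (nat_lit 291) (nat_lit 161))) (XT.nd (nat_lit 78) (nat_lit 0) (nat_lit 0) (XT.lf (nat_lit 0) (nat_lit 9647336257) (nat_lit 380) (nat_lit 1387475523) (nat_lit 456) (nat_lit 8476486901) (nat_lit 107) (nat_lit 5) (nat_lit 112) (nat_lit 5) (nat_lit 113) (nat_lit 5) (nat_lit 329) (nat_lit 291) (nat_lit 160)) (XT.lf (nat_lit 0) (nat_lit 13911253370)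 (nat_lit 456) (nat_lit 558721287) (nat_lit 76) (nat_lit 5403890305) (nat_lit 107) (nat_lit 5) (nat_lit 113) (nat_lit 5) (nat_lit 108) (nat_lit 5) (nat_lit 330) (nat_lit 291) (nat_lit 159)))))) (XT.nd (nat_lit 468) (nat_lit 1368) (nat_lit 0) (XT.nd (nat_lit 234) (nat_lit 380) (nat_lit 0) (XT.nd (nat_lit 78) (nat_lit 456) (nat_lit 0) (XT.lf (nat_lit 0) (nat_lit 9180543658) (nat_lit 380) (nat_lit 7786791328) (nat_lit 456) (nat_lit 3277183636) (nat_lit 102) (nat_lit 5) (nat_lit 107) (nat_lit 5) (nat_lit 108) (nat_lit 5) (nat_lit 331) (nat_lit 291) (nat_lit 158)) (XT.nd (nat_lit 78) (nat_lit 456) (nat_lit 0) (XT.lf (nat_lit 0) (nat_lit 19213001623) (nat_lit 380) (nat_lit 899251114) (nat_lit 456) (nat_lit 514135022) (nat_lit 102) (nat_lit 5) (nat_lit 107) (nat_lit 5) (nat_lit 108) (nat_lit 5) (nat_lit 332) (nat_lit 291) (nat_lit 157)) (XT.lf (nat_lit 0) (nat_lit 2421821699) (nat_lit 456) (nat_lit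 12414335954) (nat_lit 76) (nat_lit 6178827194) (nat_lit 96) (nat_lit 5) (nat_lit 102) (nat_lit 5) (nat_lit 97) (nat_lit 5) (nat_lit 333) (nat_lit 291) (nat_lit 156)))) (XT.nd (nat_lit 78) (nat_lit 380) (nat_lit 0) (XT.lf (nat_lit 0) (nat_lit 5450633235) (nat_lit 456) (nat_lit 2495313489) (nat_lit 76) (nat_lit 13468696709) (nat_lit 96) (nat_lit 5) (nat_lit 102) (nat_lit 5) (nat_lit 97) (nat_lit 5) (nat_lit 334) (nat_lit 291) (nat_lit 155)) (XT.nd (nat_lit 78) (nat_lit 0) (nat_lit 0) (XT.lf (nat_lit 0) (nat_lit 7864606065) (nat_lit 380) (nat_lit 773334009) (nat_lit 456) (nat_lit 13186332082) (nat_lit 91) (nat_lit 5) (nat_lit 96) (nat_lit 5) (nat_lit 97) (nat_lit 5) (nat_lit 335) (nat_lit 291) (nat_lit 154)) (XT.lf (nat_lit 0) (nat_lit 12002041483) (nat_lit 456) (nat_lit 3733054572) (nat_lit 76) (nat_lit 6508667464) (nat_lit 91) (nat_lit 5) (nat_lit 97) (nat_lit 5) (nat_lit 92) (nat_lit 5) (nat_lit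 336) (nat_lit 291) (nat_lit 153))))) (XT.nd (nat_lit 234) (nat_lit 684) (nat_lit 0) (XT.nd (nat_lit 78) (nat_lit 380) (nat_lit 0) (XT.lf (nat_lit 0) (nat_lit 6917723406) (nat_lit 304) (nat_lit 8615871349) (nat_lit 380) (nat_lit 7140257779) (nat_lit 87) (nat_lit 5) (nat_lit 91) (nat_lit 5) (nat_lit 92) (nat_lit 5) (nat_lit 337) (nat_lit 291) (nat_lit 152)) (XT.nd (nat_lit 78) (nat_lit 380) (nat_lit 0) (XT.lf (nat_lit 0) (nat_lit 17954681563) (nat_lit 304) (nat_lit 1246611501) (nat_lit 380) (nat_lit 3914653721) (nat_lit 87) (nat_lit 5) (nat_lit 91) (nat_lit 5) (nat_lit 92) (nat_lit 5) (nat_lit 338) (nat_lit 291) (nat_lit 151)) (XT.lf (nat_lit 0) (nat_lit 5793737223) (nat_lit 380) (nat_lit 17294656012) (nat_lit 456) (nat_lit 479637773) (nat_lit 82) (nat_lit 5) (nat_lit 87) (nat_lit 5) (nat_lit 88) (nat_lit 5) (nat_lit 339) (nat_lit 291) (nat_lit 150)))) (XT.nd (nat_lit 156) (nat_lit 304) (nat_lit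 0) (XT.nd (nat_lit 78) (nat_lit 304) (nat_lit 0) (XT.lf (nat_lit 0) (nat_lit 3056463815) (nat_lit 456) (nat_lit 6901022448) (nat_lit 76) (nat_lit 14073585823) (nat_lit 81) (nat_lit 5) (nat_lit 87) (nat_lit 5) (nat_lit 82) (nat_lit 5) (nat_lit 340) (nat_lit 291) (nat_lit 149)) (XT.lf (nat_lit 0) (nat_lit 4369406963) (nat_lit 304) (nat_lit 2354552897) (nat_lit 380) (nat_lit 17782861090) (nat_lit 77) (nat_lit 5) (nat_lit 81) (nat_lit 5) (nat_lit 82) (nat_lit 5) (nat_lit 341) (nat_lit 291) (nat_lit 148))) (XT.nd (nat_lit 78) (nat_lit 304) (nat_lit 0) (XT.lf (nat_lit 0) (nat_lit 10617541078) (nat_lit 380) (nat_lit 8938322875) (nat_lit 76) (nat_lit 5437503867) (nat_lit 77) (nat_lit 5) (nat_lit 82) (nat_lit 5) (nat_lit 78) (nat_lit 5) (nat_lit 342) (nat_lit 291) (nat_lit 147)) (XT.lf (nat_lit 0) (nat_lit 2615087946) (nat_lit 304) (nat_lit 12054535087) (nat_lit 380) (nat_lit 10823644399) (nat_lit 73)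 (nat_lit 5) (nat_lit 77) (nat_lit 5) (nat_lit 78) (nat_lit 5) (nat_lit 343) (nat_lit 291) (nat_lit 146))))))) (XT.nd (nat_lit 1014) (nat_lit 1292) (nat_lit 0) (XT.nd (nat_lit 468) (nat_lit 760) (nat_lit 0) (XT.nd (nat_lit 234) (nat_lit 304) (nat_lit 0) (XT.nd (nat_lit 78) (nat_lit 304) (nat_lit 0) (XT.lf (nat_lit 0) (nat_lit 14689049410) (nat_lit 304) (nat_lit 4237828255) (nat_lit 380) (nat_lit 7078784988) (nat_lit 73) (nat_lit 5) (nat_lit 77) (nat_lit 5) (nat_lit 78) (nat_lit 5) (nat_lit 344) (nat_lit 291) (nat_lit 145)) (XT.nd (nat_lit 78) (nat_lit 76) (nat_lit 0) (XT.lf (nat_lit 0) (nat_lit 556824961) (nat_lit 228) (nat_lit 22790553871) (nat_lit 304) (nat_lit 3184991757) (nat_lit 70) (nat_lit 5) (nat_lit 73) (nat_lit 5) (nat_lit 74) (nat_lit 5) (nat_lit 345) (nat_lit 291) (nat_lit 144)) (XT.lf (nat_lit 0) (nat_lit 960421865) (nat_lit 304) (nat_lit 14113260945) (nat_lit 76) (nat_lit 11996437684)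 (nat_lit 69) (nat_lit 5) (nat_lit 73) (nat_lit 5) (nat_lit 70) (nat_lit 5) (nat_lit 346) (nat_lit 291) (nat_lit 143)))) (XT.nd (nat_lit 78) (nat_lit 304) (nat_lit 0) (XT.lf (nat_lit 0) (nat_lit 5159922114) (nat_lit 304) (nat_lit 1935602274) (nat_lit 76) (nat_lit 20527726442) (nat_lit 69) (nat_lit 5) (nat_lit 73) (nat_lit 5) (nat_lit 70) (nat_lit 5) (nat_lit 347) (nat_lit 291) (nat_lit 142)) (XT.nd (nat_lit 78) (nat_lit 0) (nat_lit 0) (XT.lf (nat_lit 0) (nat_lit 9595026569) (nat_lit 380) (nat_lit 17392213094) (nat_lit 76) (nat_lit 1202452815) (nat_lit 65) (nat_lit 5) (nat_lit 70) (nat_lit 5) (nat_lit 66) (nat_lit 5) (nat_lit 348) (nat_lit 291) (nat_lit 141)) (XT.lf (nat_lit 0) (nat_lit 14247166888) (nat_lit 380) (nat_lit 4899529569) (nat_lit 76) (nat_lit 9623917236) (nat_lit 65) (nat_lit 5) (nat_lit 70) (nat_lit 5) (nat_lit 66) (nat_lit 5) (nat_lit 349) (nat_lit 291) (nat_lit 140))))) (XT.nd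 (nat_lit 234) (nat_lit 304) (nat_lit 0) (XT.nd (nat_lit 78) (nat_lit 228) (nat_lit 0) (XT.lf (nat_lit 0) (nat_lit 8117824226) (nat_lit 228) (nat_lit 10993246416) (nat_lit 304) (nat_lit 10255731560) (nat_lit 62) (nat_lit 5) (nat_lit 65) (nat_lit 5) (nat_lit 66) (nat_lit 5) (nat_lit 350) (nat_lit 291) (nat_lit 139)) (XT.nd (nat_lit 78) (nat_lit 228) (nat_lit 0) (XT.lf (nat_lit 0) (nat_lit 21617699477) (nat_lit 228) (nat_lit 2546922256) (nat_lit 304) (nat_lit 5814948194) (nat_lit 62) (nat_lit 5) (nat_lit 65) (nat_lit 5) (nat_lit 66) (nat_lit 5) (nat_lit 351) (nat_lit 291) (nat_lit 138)) (XT.lf (nat_lit 0) (nat_lit 4940781757) (nat_lit 228) (nat_lit 24530032641) (nat_lit 304) (nat_lit 1136880544) (nat_lit 59) (nat_lit 5) (nat_lit 62) (nat_lit 5) (nat_lit 63) (nat_lit 5) (nat_lit 352) (nat_lit 291) (nat_lit 137)))) (XT.nd (nat_lit 156) (nat_lit 0) (nat_lit 0) (XT.nd (nat_lit 78) (nat_lit 228) (nat_lit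 0) (XT.lf (nat_lit 0) (nat_lit 3714601788) (nat_lit 304) (nat_lit 12508019962) (nat_lit 76) (nat_lit 15027837912) (nat_lit 58) (nat_lit 5) (nat_lit 62) (nat_lit 5) (nat_lit 59) (nat_lit 5) (nat_lit 353) (nat_lit 291) (nat_lit 136)) (XT.lf (nat_lit 0) (nat_lit 1046681247) (nat_lit 228) (nat_lit 7646741981) (nat_lit 304) (nat_lit 23218611922) (nat_lit 55) (nat_lit 5) (nat_lit 58) (nat_lit 5) (nat_lit 59) (nat_lit 5) (nat_lit 354) (nat_lit 291) (nat_lit 135))) (XT.nd (nat_lit 78) (nat_lit 0) (nat_lit 0) (XT.lf (nat_lit 0) (nat_lit 13955208701) (nat_lit 304) (nat_lit 17346084317) (nat_lit 76) (nat_lit 1288161621) (nat_lit 55) (nat_lit 5) (nat_lit 59) (nat_lit 5) (nat_lit 56) (nat_lit 5) (nat_lit 355) (nat_lit 291) (nat_lit 134)) (XT.lf (nat_lit 0) (nat_lit 19445352049) (nat_lit 304) (nat_lit 3504894676) (nat_lit 76) (nat_lit 10334839438) (nat_lit 55) (nat_lit 5) (nat_lit 59) (nat_lit 5) (nat_lit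 56) (nat_lit 5) (nat_lit 356) (nat_lit 291) (nat_lit 133)))))) (XT.nd (nat_lit 546) (nat_lit 608) (nat_lit 0) (XT.nd (nat_lit 234) (nat_lit 228) (nat_lit 0) (XT.nd (nat_lit 78) (nat_lit 228) (nat_lit 0) (XT.lf (nat_lit 0) (nat_lit 10957637396) (nat_lit 228) (nat_lit 14242839441) (nat_lit 304) (nat_lit 8798105928) (nat_lit 52) (nat_lit 5) (nat_lit 55) (nat_lit 5) (nat_lit 56) (nat_lit 5) (nat_lit 357) (nat_lit 291) (nat_lit 132)) (XT.nd (nat_lit 78) (nat_lit 228) (nat_lit 0) (XT.lf (nat_lit 0) (nat_lit 25918251754) (nat_lit 228) (nat_lit 5240415572) (nat_lit 304) (nat_lit 3573908895) (nat_lit 52) (nat_lit 5) (nat_lit 55) (nat_lit 5) (nat_lit 56) (nat_lit 5) (nat_lit 358) (nat_lit 291) (nat_lit 131)) (XT.lf (nat_lit 0) (nat_lit 1863337073) (nat_lit 228) (nat_lit 29596059258) (nat_lit 76) (nat_lit 4025928587) (nat_lit 49) (nat_lit 5) (nat_lit 52) (nat_lit 5) (nat_lit 50) (nat_lit 5) (nat_lit 359)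 (nat_lit 291) (nat_lit 130)))) (XT.nd (nat_lit 156) (nat_lit 228) (nat_lit 0) (XT.nd (nat_lit 78) (nat_lit 0) (nat_lit 0) (XT.lf (nat_lit 0) (nat_lit 7528800335) (nat_lit 228) (nat_lit 15139057992) (nat_lit 76) (nat_lit 13587632180) (nat_lit 49) (nat_lit 5) (nat_lit 52) (nat_lit 5) (nat_lit 50) (nat_lit 5) (nat_lit 360) (nat_lit 291) (nat_lit 129)) (XT.lf (nat_lit 0) (nat_lit 13359526513) (nat_lit 228) (nat_lit 255695080) (nat_lit 76) (nat_lit 23433684339) (nat_lit 49) (nat_lit 5) (nat_lit 52) (nat_lit 5) (nat_lit 50) (nat_lit 5) (nat_lit 361) (nat_lit 291) (nat_lit 128))) (XT.nd (nat_lit 78) (nat_lit 0) (nat_lit 0) (XT.lf (nat_lit 0) (nat_lit 15366897885) (nat_lit 228) (nat_lit 4141428551) (nat_lit 304) (nat_lit 18353506548) (nat_lit 46) (nat_lit 5) (nat_lit 49) (nat_lit 5) (nat_lit 50) (nat_lit 5) (nat_lit 362) (nat_lit 291) (nat_lit 127)) (XT.lf (nat_lit 0) (nat_lit 25893664232) (nat_lit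 304) (nat_lit 7296854141) (nat_lit 76) (nat_lit 5507070872) (nat_lit 46) (nat_lit 5) (nat_lit 50) (nat_lit 5) (nat_lit 47) (nat_lit 5) (nat_lit 363) (nat_lit 291) (nat_lit 126))))) (XT.nd (nat_lit 234) (nat_lit 152) (nat_lit 0) (XT.nd (nat_lit 78) (nat_lit 304) (nat_lit 0) (XT.lf (nat_lit 0) (nat_lit 8474565025) (nat_lit 152) (nat_lit 24114072146) (nat_lit 228) (nat_lit 6966242284) (nat_lit 44) (nat_lit 5) (nat_lit 46) (nat_lit 5) (nat_lit 47) (nat_lit 5) (nat_lit 364) (nat_lit 291) (nat_lit 125)) (XT.nd (nat_lit 78) (nat_lit 304) (nat_lit 0) (XT.lf (nat_lit 0) (nat_lit 24861804186) (nat_lit 152) (nat_lit 14692008679) (nat_lit 228) (nat_lit 881998307) (nat_lit 44) (nat_lit 5) (nat_lit 46) (nat_lit 5) (nat_lit 47) (nat_lit 5) (nat_lit 365) (nat_lit 291) (nat_lit 124)) (XT.lf (nat_lit 0) (nat_lit 345685805) (nat_lit 228) (nat_lit 4933084714) (nat_lit 304) (nat_lit 36062878466) (nat_lit 40) (nat_lit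 5) (nat_lit 43) (nat_lit 5) (nat_lit 44) (nat_lit 5) (nat_lit 366) (nat_lit 291) (nat_lit 123)))) (XT.nd (nat_lit 156) (nat_lit 152) (nat_lit 0) (XT.nd (nat_lit 78) (nat_lit 0) (nat_lit 0) (XT.lf (nat_lit 0) (nat_lit 11810448057) (nat_lit 304) (nat_lit 25274041260) (nat_lit 76) (nat_lit 5183799365) (nat_lit 40) (nat_lit 5) (nat_lit 44) (nat_lit 5) (nat_lit 41) (nat_lit 5) (nat_lit 367) (nat_lit 291) (nat_lit 122)) (XT.lf (nat_lit 0) (nat_lit 18582826814) (nat_lit 304) (nat_lit 9135930956) (nat_lit 76) (nat_lit 15502630302) (nat_lit 40) (nat_lit 5) (nat_lit 44) (nat_lit 5) (nat_lit 41) (nat_lit 5) (nat_lit 368) (nat_lit 291) (nat_lit 121))) (XT.nd (nat_lit 78) (nat_lit 0) (nat_lit 0) (XT.lf (nat_lit 0) (nat_lit 7628753274) (nat_lit 152) (nat_lit 17998983543) (nat_lit 228) (nat_lit 18573265770) (nat_lit 38) (nat_lit 5) (nat_lit 40) (nat_lit 5) (nat_lit 41) (nat_lit 5) (nat_lit 369) (nat_lit 291)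 (nat_lit 120)) (XT.lf (nat_lit 0) (nat_lit 25077284901) (nat_lit 152) (nat_lit 7895046311) (nat_lit 228) (nat_lit 12235027067) (nat_lit 38) (nat_lit 5) (nat_lit 40) (nat_lit 5) (nat_lit 41) (nat_lit 5) (nat_lit 370) (nat_lit 291) (nat_lit 119))))))))
noncomputable def xc183 : XT := (XT.nd (nat_lit 2028) (nat_lit 152) (nat_lit 0) (XT.nd (nat_lit 1014) (nat_lit 456) (nat_lit 0) (XT.nd (nat_lit 468) (nat_lit 532) (nat_lit 0) (XT.nd (nat_lit 234) (nat_lit 152) (nat_lit 0) (XT.nd (nat_lit 78) (nat_lit 228) (nat_lit 0) (XT.lf (nat_lit 0) (nat_lit 40557583729) (nat_lit 228) (nat_lit 3225058327) (nat_lit 76) (nat_lit 2460655747) (nat_lit 38) (nat_lit 5) (nat_lit 41) (nat_lit 5) (nat_lit 39) (nat_lit 5) (nat_lit 371) (nat_lit 291) (nat_lit 118)) (XT.nd (nat_lit 78) (nat_lit 0) (nat_lit 0) (XT.lf (nat_lit 0) (nat_lit 1254212543) (nat_lit 228) (nat_lit 32932716599) (nat_lit 76) (nat_lit 13116638673) (nat_lit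 35) (nat_lit 5) (nat_lit 38) (nat_lit 5) (nat_lit 36) (nat_lit 5) (nat_lit 372) (nat_lit 291) (nat_lit 117)) (XT.lf (nat_lit 0) (nat_lit 8317245059) (nat_lit 228) (nat_lit 15896649776) (nat_lit 76) (nat_lit 24179189243) (nat_lit 35) (nat_lit 5) (nat_lit 38) (nat_lit 5) (nat_lit 36) (nat_lit 5) (nat_lit 373) (nat_lit 291) (nat_lit 116)))) (XT.nd (nat_lit 78) (nat_lit 0) (nat_lit 0) (XT.lf (nat_lit 0) (nat_lit 1677294359) (nat_lit 152) (nat_lit 13927401366) (nat_lit 228) (nat_lit 33910216750) (nat_lit 33) (nat_lit 5) (nat_lit 35) (nat_lit 5) (nat_lit 36) (nat_lit 5) (nat_lit 374) (nat_lit 291) (nat_lit 115)) (XT.nd (nat_lit 78) (nat_lit 0) (nat_lit 0) (XT.lf (nat_lit 0) (nat_lit 20098445992) (nat_lit 152) (nat_lit 3169301156) (nat_lit 228) (nat_lit 27397941649) (nat_lit 33) (nat_lit 5) (nat_lit 35) (nat_lit 5) (nat_lit 36) (nat_lit 5) (nat_lit 375) (nat_lit 291) (nat_lit 114)) (XT.lf (nat_lit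 0) (nat_lit 31233274540) (nat_lit 228) (nat_lit 12860596138) (nat_lit 76) (nat_lit 7754942520) (nat_lit 33) (nat_lit 5) (nat_lit 36) (nat_lit 5) (nat_lit 34) (nat_lit 5) (nat_lit 376) (nat_lit 291) (nat_lit 113))))) (XT.nd (nat_lit 234) (nat_lit 304) (nat_lit 0) (XT.nd (nat_lit 78) (nat_lit 76) (nat_lit 0) (XT.lf (nat_lit 0) (nat_lit 5446531458) (nat_lit 152) (nat_lit 34071605705) (nat_lit 228) (nat_lit 13546885337) (nat_lit 31) (nat_lit 5) (nat_lit 33) (nat_lit 5) (nat_lit 34) (nat_lit 5) (nat_lit 377) (nat_lit 291) (nat_lit 112)) (XT.nd (nat_lit 78) (nat_lit 76) (nat_lit 0) (XT.lf (nat_lit 0) (nat_lit 24560936900) (nat_lit 152) (nat_lit 23617154883) (nat_lit 228) (nat_lit 6135832102) (nat_lit 31) (nat_lit 5) (nat_lit 33) (nat_lit 5) (nat_lit 34) (nat_lit 5) (nat_lit 378) (nat_lit 291) (nat_lit 111)) (XT.lf (nat_lit 0) (nat_lit 1465072112) (nat_lit 228) (nat_lit 11371383590) (nat_lit 76) (nat_lit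 42763504548) (nat_lit 30) (nat_lit 5) (nat_lit 33) (nat_lit 5) (nat_lit 31) (nat_lit 5) (nat_lit 379) (nat_lit 291) (nat_lit 110)))) (XT.nd (nat_lit 156) (nat_lit 152) (nat_lit 0) (XT.nd (nat_lit 78) (nat_lit 0) (nat_lit 0) (XT.lf (nat_lit 0) (nat_lit 7644783291) (nat_lit 152) (nat_lit 1596219269) (nat_lit 228) (nat_lit 47679644927) (nat_lit 28) (nat_lit 5) (nat_lit 30) (nat_lit 5) (nat_lit 31) (nat_lit 5) (nat_lit 380) (nat_lit 291) (nat_lit 109)) (XT.lf (nat_lit 0) (nat_lit 17458980103) (nat_lit 228) (nat_lit 30915389668) (nat_lit 76) (nat_lit 9900324437) (nat_lit 28) (nat_lit 5) (nat_lit 31) (nat_lit 5) (nat_lit 29) (nat_lit 5) (nat_lit 381) (nat_lit 291) (nat_lit 108))) (XT.nd (nat_lit 78) (nat_lit 152) (nat_lit 0) (XT.lf (nat_lit 0) (nat_lit 25936250591) (nat_lit 228) (nat_lit 12025083727) (nat_lit 76) (nat_lit 21707647292) (nat_lit 28) (nat_lit 5) (nat_lit 31) (nat_lit 5) (nat_lit 29)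 (nat_lit 5) (nat_lit 382) (nat_lit 291) (nat_lit 107)) (XT.lf (nat_lit 0) (nat_lit 7574713498) (nat_lit 152) (nat_lit 27162976793) (nat_lit 228) (nat_lit 26365313640) (nat_lit 26) (nat_lit 5) (nat_lit 28) (nat_lit 5) (nat_lit 29) (nat_lit 5) (nat_lit 383) (nat_lit 291) (nat_lit 106)))))) (XT.nd (nat_lit 468) (nat_lit 304) (nat_lit 0) (XT.nd (nat_lit 234) (nat_lit 76) (nat_lit 0) (XT.nd (nat_lit 78) (nat_lit 76) (nat_lit 0) (XT.lf (nat_lit 0) (nat_lit 28004028525) (nat_lit 152) (nat_lit 15917651150) (nat_lit 228) (nat_lit 18654813832) (nat_lit 26) (nat_lit 5) (nat_lit 28) (nat_lit 5) (nat_lit 29) (nat_lit 5) (nat_lit 384) (nat_lit 291) (nat_lit 105)) (XT.nd (nat_lit 78) (nat_lit 76) (nat_lit 0) (XT.lf (nat_lit 0) (nat_lit 49041389464) (nat_lit 152) (nat_lit 4336961144) (nat_lit 228) (nat_lit 10715924033) (nat_lit 26) (nat_lit 5) (nat_lit 28) (nat_lit 5) (nat_lit 29) (nat_lit 5) (nat_lit 385)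 (nat_lit 291) (nat_lit 104)) (XT.lf (nat_lit 0) (nat_lit 5073556130) (nat_lit 76) (nat_lit 58164132347) (nat_lit 152) (nat_lit 2416333403) (nat_lit 25) (nat_lit 5) (nat_lit 26) (nat_lit 5) (nat_lit 27) (nat_lit 4) (nat_lit 386) (nat_lit 291) (nat_lit 103)))) (XT.nd (nat_lit 78) (nat_lit 0) (nat_lit 0) (XT.lf (nat_lit 0) (nat_lit 6206265295) (nat_lit 152) (nat_lit 41251801904) (nat_lit 76) (nat_lit 19794917035) (nat_lit 24) (nat_lit 5) (nat_lit 26) (nat_lit 5) (nat_lit 25) (nat_lit 5) (nat_lit 387) (nat_lit 291) (nat_lit 102)) (XT.nd (nat_lit 78) (nat_lit 0) (nat_lit 0) (XT.lf (nat_lit 0) (nat_lit 15036289351) (nat_lit 152) (nat_lit 21371831825) (nat_lit 76) (nat_lit 32491158695) (nat_lit 24) (nat_lit 5) (nat_lit 26) (nat_lit 5) (nat_lit 25) (nat_lit 5) (nat_lit 388) (nat_lit 291) (nat_lit 101)) (XT.lf (nat_lit 0) (nat_lit 24128605688) (nat_lit 152) (nat_lit 899957388) (nat_lit 76) (nat_lit 45566481043)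 (nat_lit 24) (nat_lit 5) (nat_lit 26) (nat_lit 5) (nat_lit 25) (nat_lit 5) (nat_lit 389) (nat_lit 291) (nat_lit 100))))) (XT.nd (nat_lit 234) (nat_lit 152) (nat_lit 0) (XT.nd (nat_lit 78) (nat_lit 0) (nat_lit 0) (XT.lf (nat_lit 0) (nat_lit 20583365038) (nat_lit 152) (nat_lit 13105653907) (nat_lit 228) (nat_lit 38646803974) (nat_lit 22) (nat_lit 5) (nat_lit 24) (nat_lit 5) (nat_lit 25) (nat_lit 5) (nat_lit 390) (nat_lit 291) (nat_lit 99)) (XT.nd (nat_lit 78) (nat_lit 0) (nat_lit 0) (XT.lf (nat_lit 0) (nat_lit 42725314335) (nat_lit 152) (nat_lit 817517828) (nat_lit 228) (nat_lit 30585796696) (nat_lit 22) (nat_lit 5) (nat_lit 24) (nat_lit 5) (nat_lit 25) (nat_lit 5) (nat_lit 391) (nat_lit 291) (nat_lit 98)) (XT.lf (nat_lit 0) (nat_lit 53803621597) (nat_lit 228) (nat_lit 10561755486) (nat_lit 76) (nat_lit 11606502403) (nat_lit 22) (nat_lit 5) (nat_lit 25) (nat_lit 5) (nat_lit 23) (nat_lit 4) (nat_lit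 392) (nat_lit 291) (nat_lit 97)))) (XT.nd (nat_lit 156) (nat_lit 76) (nat_lit 0) (XT.nd (nat_lit 78) (nat_lit 0) (nat_lit 0) (XT.lf (nat_lit 0) (nat_lit 11109616185) (nat_lit 76) (nat_lit 53375131976) (nat_lit 152) (nat_lit 13382305391) (nat_lit 21) (nat_lit 5) (nat_lit 22) (nat_lit 5) (nat_lit 23) (nat_lit 4) (nat_lit 393) (nat_lit 291) (nat_lit 96)) (XT.lf (nat_lit 0) (nat_lit 33643546586) (nat_lit 76) (nat_lit 41947071567) (nat_lit 152) (nat_lit 4225336683) (nat_lit 21) (nat_lit 5) (nat_lit 22) (nat_lit 5) (nat_lit 23) (nat_lit 4) (nat_lit 394) (nat_lit 291) (nat_lit 95))) (XT.nd (nat_lit 78) (nat_lit 0) (nat_lit 0) (XT.lf (nat_lit 0) (nat_lit 5102447734) (nat_lit 152) (nat_lit 25023890742) (nat_lit 76) (nat_lit 51695553463) (nat_lit 20) (nat_lit 5) (nat_lit 22) (nat_lit 5) (nat_lit 21) (nat_lit 5) (nat_lit 395) (nat_lit 291) (nat_lit 94)) (XT.lf (nat_lit 0) (nat_lit 14622908672) (nat_lit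 152) (nat_lit 3286651704) (nat_lit 76) (nat_lit 65977259862) (nat_lit 20) (nat_lit 5) (nat_lit 22) (nat_lit 5) (nat_lit 21) (nat_lit 5) (nat_lit 396) (nat_lit 291) (nat_lit 93))))))) (XT.nd (nat_lit 33384) (nat_lit 0) (nat_lit 9576) (XT.nd (nat_lit 32838) (nat_lit 0) (nat_lit 13224) (XT.nd (nat_lit 32604) (nat_lit 0) (nat_lit 13148) (XT.nd (nat_lit 32448) (nat_lit 0) (nat_lit 13072) (XT.lf (nat_lit 0) (nat_lit 19479025027) (nat_lit 152) (nat_lit 5135035797) (nat_lit 228) (nat_lit 61394084384) (nat_lit 18) (nat_lit 5) (nat_lit 20) (nat_lit 5) (nat_lit 21) (nat_lit 5) (nat_lit 397) (nat_lit 291) (nat_lit 92)) (XT.nd (nat_lit 78) (nat_lit 0) (nat_lit 0) (XT.lf (nat_lit 0) (nat_lit 607288020) (nat_lit 1140) (nat_lit 2431701153) (nat_lit 1140) (nat_lit 2431701153) (nat_lit 190) (nat_lit 3) (nat_lit 205) (nat_lit 3) (nat_lit 205) (nat_lit 5) (nat_lit 292) (nat_lit 292) (nat_lit 196)) (XT.lf (nat_lit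 0) (nat_lit 1775880384) (nat_lit 1140) (nat_lit 14449173) (nat_lit 1140) (nat_lit 9298003440) (nat_lit 190) (nat_lit 3) (nat_lit 205) (nat_lit 3) (nat_lit 205) (nat_lit 5) (nat_lit 293) (nat_lit 292) (nat_lit 195)))) (XT.nd (nat_lit 78) (nat_lit 0) (nat_lit 0) (XT.lf (nat_lit 0) (nat_lit 2407368033) (nat_lit 1064) (nat_lit 6196792056) (nat_lit 1140) (nat_lit 2633967676) (nat_lit 191) (nat_lit 5) (nat_lit 205) (nat_lit 5) (nat_lit 206) (nat_lit 5) (nat_lit 294) (nat_lit 292) (nat_lit 194)) (XT.nd (nat_lit 78) (nat_lit 0) (nat_lit 76) (XT.lf (nat_lit 0) (nat_lit 3055086602) (nat_lit 1064) (nat_lit 1172622925) (nat_lit 1140) (nat_lit 7164821445) (nat_lit 191) (nat_lit 5) (nat_lit 205) (nat_lit 5) (nat_lit 206) (nat_lit 5) (nat_lit 295) (nat_lit 292) (nat_lit 193)) (XT.lf (nat_lit 0) (nat_lit 3744540431) (nat_lit 1064) (nat_lit 7483723654) (nat_lit 1140) (nat_lit 322665297) (nat_lit 192) (nat_lit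 5) (nat_lit 206) (nat_lit 5) (nat_lit 207) (nat_lit 5) (nat_lit 296) (nat_lit 292) (nat_lit 192))))) (XT.nd (nat_lit 234) (nat_lit 0) (nat_lit 76) (XT.nd (nat_lit 78) (nat_lit 0) (nat_lit 0) (XT.lf (nat_lit 0) (nat_lit 4489063158) (nat_lit 1064) (nat_lit 2279257167) (nat_lit 1140) (nat_lit 4944759140) (nat_lit 192) (nat_lit 5) (nat_lit 206) (nat_lit 5) (nat_lit 207) (nat_lit 5) (nat_lit 297) (nat_lit 292) (nat_lit 191)) (XT.nd (nat_lit 78) (nat_lit 0) (nat_lit 76) (XT.lf (nat_lit 76) (nat_lit 3130960236) (nat_lit 0) (nat_lit 2136192347) (nat_lit 1140) (nat_lit 6612634906) (nat_lit 193) (nat_lit 5) (nat_lit 192) (nat_lit 5) (nat_lit 207) (nat_lit 5) (nat_lit 298) (nat_lit 292) (nat_lit 190)) (XT.lf (nat_lit 0) (nat_lit 6098799250) (nat_lit 1064) (nat_lit 3338172666) (nat_lit 1140) (nat_lit 2613647883) (nat_lit 193) (nat_lit 5) (nat_lit 207) (nat_lit 5) (nat_lit 208) (nat_lit 5) (nat_lit 299)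 (nat_lit 292) (nat_lit 189)))) (XT.nd (nat_lit 156) (nat_lit 0) (nat_lit 76) (XT.nd (nat_lit 78) (nat_lit 0) (nat_lit 76) (XT.lf (nat_lit 76) (nat_lit 2245808004) (nat_lit 0) (nat_lit 4734502885) (nat_lit 1140) (nat_lit 5245547349) (nat_lit 194) (nat_lit 5) (nat_lit 193) (nat_lit 5) (nat_lit 208) (nat_lit 5) (nat_lit 300) (nat_lit 292) (nat_lit 188)) (XT.lf (nat_lit 0) (nat_lit 7906000278) (nat_lit 1064) (nat_lit 4353146257) (nat_lit 1140) (nat_lit 146703113) (nat_lit 194) (nat_lit 5) (nat_lit 208) (nat_lit 5) (nat_lit 209) (nat_lit 5) (nat_lit 301) (nat_lit 292) (nat_lit 187))) (XT.nd (nat_lit 78) (nat_lit 0) (nat_lit 0) (XT.lf (nat_lit 76) (nat_lit 1411425573) (nat_lit 0) (nat_lit 7491625603) (nat_lit 1140) (nat_lit 3686908882) (nat_lit 195) (nat_lit 5) (nat_lit 194) (nat_lit 5) (nat_lit 209) (nat_lit 5) (nat_lit 302) (nat_lit 292) (nat_lit 186)) (XT.lf (nat_lit 76) (nat_lit 7426480529) (nat_lit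 0) (nat_lit 2531016887) (nat_lit 1140) (nat_lit 2821298045) (nat_lit 195) (nat_lit 5) (nat_lit 194) (nat_lit 5) (nat_lit 209) (nat_lit 5) (nat_lit 303) (nat_lit 292) (nat_lit 185)))))) (XT.nd (nat_lit 546) (nat_lit 2736) (nat_lit 0) (XT.nd (nat_lit 234) (nat_lit 0) (nat_lit 76) (XT.nd (nat_lit 78) (nat_lit 1140) (nat_lit 0) (XT.lf (nat_lit 76) (nat_lit 624187368) (nat_lit 0) (nat_lit 10434225072) (nat_lit 1140) (nat_lit 1914463859) (nat_lit 196) (nat_lit 5) (nat_lit 195) (nat_lit 5) (nat_lit 210) (nat_lit 5) (nat_lit 304) (nat_lit 292) (nat_lit 184)) (XT.nd (nat_lit 78) (nat_lit 1140) (nat_lit 0) (XT.lf (nat_lit 76) (nat_lit 6852361568) (nat_lit 0) (nat_lit 5403256497) (nat_lit 1140) (nat_lit 915288294) (nat_lit 196) (nat_lit 5) (nat_lit 195) (nat_lit 5) (nat_lit 210) (nat_lit 5) (nat_lit 305) (nat_lit 292) (nat_lit 183)) (XT.lf (nat_lit 0) (nat_lit 96322923) (nat_lit 1140) (nat_lit 120357875)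 (nat_lit 1216) (nat_lit 13158646495) (nat_lit 180) (nat_lit 5) (nat_lit 195) (nat_lit 5) (nat_lit 196) (nat_lit 5) (nat_lit 306) (nat_lit 292) (nat_lit 182)))) (XT.nd (nat_lit 156) (nat_lit 0) (nat_lit 76) (XT.nd (nat_lit 78) (nat_lit 0) (nat_lit 0) (XT.lf (nat_lit 0) (nat_lit 1216221454) (nat_lit 1140) (nat_lit 7266697967) (nat_lit 1216) (nat_lit 5099822101) (nat_lit 181) (nat_lit 5) (nat_lit 196) (nat_lit 5) (nat_lit 197) (nat_lit 5) (nat_lit 307) (nat_lit 292) (nat_lit 181)) (XT.lf (nat_lit 0) (nat_lit 2358573617) (nat_lit 1140) (nat_lit 862296607) (nat_lit 1216) (nat_lit 10575864193) (nat_lit 181) (nat_lit 5) (nat_lit 196) (nat_lit 5) (nat_lit 197) (nat_lit 5) (nat_lit 308) (nat_lit 292) (nat_lit 180))) (XT.nd (nat_lit 78) (nat_lit 0) (nat_lit 0) (XT.lf (nat_lit 0) (nat_lit 3598928085) (nat_lit 1140) (nat_lit 8200954082) (nat_lit 76) (nat_lit 2215374280) (nat_lit 182) (nat_lit 5) (nat_lit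 197) (nat_lit 5) (nat_lit 183) (nat_lit 5) (nat_lit 309) (nat_lit 292) (nat_lit 179)) (XT.lf (nat_lit 0) (nat_lit 4903408355) (nat_lit 1140) (nat_lit 1574977013) (nat_lit 76) (nat_lit 7761161994) (nat_lit 182) (nat_lit 5) (nat_lit 197) (nat_lit 5) (nat_lit 183) (nat_lit 5) (nat_lit 310) (nat_lit 292) (nat_lit 178))))) (XT.nd (nat_lit 234) (nat_lit 1216) (nat_lit 0) (XT.nd (nat_lit 78) (nat_lit 532) (nat_lit 0) (XT.lf (nat_lit 0) (nat_lit 5342572366) (nat_lit 1140) (nat_lit 942439406) (nat_lit 1216) (nat_lit 8184435646) (nat_lit 167) (nat_lit 5) (nat_lit 182) (nat_lit 5) (nat_lit 183) (nat_lit 5) (nat_lit 311) (nat_lit 292) (nat_lit 177)) (XT.nd (nat_lit 78) (nat_lit 532) (nat_lit 0) (XT.lf (nat_lit 0) (nat_lit 7756806630) (nat_lit 1216) (nat_lit 2263519455) (nat_lit 76) (nat_lit 4684475584) (nat_lit 167) (nat_lit 5) (nat_lit 183) (nat_lit 5) (nat_lit 168) (nat_lit 5) (nat_lit 312) (nat_lit 292)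 (nat_lit 176)) (XT.lf (nat_lit 0) (nat_lit 4880202753) (nat_lit 532) (nat_lit 4436105498) (nat_lit 608) (nat_lit 5629620634) (nat_lit 160) (nat_lit 5) (nat_lit 167) (nat_lit 5) (nat_lit 168) (nat_lit 5) (nat_lit 313) (nat_lit 292) (nat_lit 175)))) (XT.nd (nat_lit 156) (nat_lit 608) (nat_lit 0) (XT.nd (nat_lit 78) (nat_lit 608) (nat_lit 0) (XT.lf (nat_lit 0) (nat_lit 10945906850) (nat_lit 608) (nat_lit 2933563811) (nat_lit 76) (nat_lit 1314138270) (nat_lit 160) (nat_lit 5) (nat_lit 168) (nat_lit 5) (nat_lit 161) (nat_lit 5) (nat_lit 314) (nat_lit 292) (nat_lit 174)) (XT.lf (nat_lit 0) (nat_lit 4443977904) (nat_lit 608) (nat_lit 8254999032) (nat_lit 684) (nat_lit 2747522777) (nat_lit 152) (nat_lit 5) (nat_lit 160) (nat_lit 5) (nat_lit 161) (nat_lit 5) (nat_lit 315) (nat_lit 292) (nat_lit 173))) (XT.nd (nat_lit 78) (nat_lit 608) (nat_lit 0) (XT.lf (nat_lit 0) (nat_lit 12091710985) (nat_lit 608)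 (nat_lit 2430737668) (nat_lit 684) (nat_lit 1184011598) (nat_lit 152) (nat_lit 5) (nat_lit 160) (nat_lit 5) (nat_lit 161) (nat_lit 5) (nat_lit 316) (nat_lit 292) (nat_lit 172)) (XT.lf (nat_lit 0) (nat_lit 480228982) (nat_lit 608) (nat_lit 11949455739) (nat_lit 76) (nat_lit 3542563898) (nat_lit 144) (nat_lit 5) (nat_lit 152) (nat_lit 5) (nat_lit 145) (nat_lit 5) (nat_lit 317) (nat_lit 292) (nat_lit 171))))))))
noncomputable def xc184 : XT := (XT.nd (nat_lit 2028) (nat_lit 2812) (nat_lit 0) (XT.nd (nat_lit 1014) (nat_lit 2280) (nat_lit 0) (XT.nd (nat_lit 468) (nat_lit 1368) (nat_lit 0) (XT.nd (nat_lit 234) (nat_lit 912) (nat_lit 0) (XT.nd (nat_lit 78) (nat_lit 532) (nat_lit 0) (XT.lf (nat_lit 0) (nat_lit 2220163773) (nat_lit 608) (nat_lit 4328945452) (nat_lit 76) (nat_lit 9695078644) (nat_lit 144) (nat_lit 5) (nat_lit 152) (nat_lit 5) (nat_lit 145) (nat_lit 5) (nat_lit 318) (nat_lit 292) (nat_lit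 170)) (XT.nd (nat_lit 78) (nat_lit 0) (nat_lit 0) (XT.lf (nat_lit 0) (nat_lit 3578911801) (nat_lit 532) (nat_lit 456752989) (nat_lit 608) (nat_lit 12487934847) (nat_lit 137) (nat_lit 5) (nat_lit 144) (nat_lit 5) (nat_lit 145) (nat_lit 5) (nat_lit 319) (nat_lit 292) (nat_lit 169)) (XT.lf (nat_lit 0) (nat_lit 5994886745) (nat_lit 608) (nat_lit 5065035727) (nat_lit 76) (nat_lit 5748808549) (nat_lit 137) (nat_lit 5) (nat_lit 145) (nat_lit 5) (nat_lit 138) (nat_lit 5) (nat_lit 320) (nat_lit 292) (nat_lit 168)))) (XT.nd (nat_lit 78) (nat_lit 456) (nat_lit 0) (XT.lf (nat_lit 0) (nat_lit 3095891048) (nat_lit 456) (nat_lit 4940770843) (nat_lit 532) (nat_lit 9065055663) (nat_lit 131) (nat_lit 5) (nat_lit 137) (nat_lit 5) (nat_lit 138) (nat_lit 5) (nat_lit 321) (nat_lit 292) (nat_lit 167)) (XT.nd (nat_lit 78) (nat_lit 456) (nat_lit 0) (XT.lf (nat_lit 0) (nat_lit 10194125741) (nat_lit 532) (nat_lit 5821297933)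 (nat_lit 76) (nat_lit 1386451026) (nat_lit 131) (nat_lit 5) (nat_lit 138) (nat_lit 5) (nat_lit 132) (nat_lit 5) (nat_lit 322) (nat_lit 292) (nat_lit 166)) (XT.lf (nat_lit 0) (nat_lit 2599689712) (nat_lit 456) (nat_lit 9880522579) (nat_lit 532) (nat_lit 5228920979) (nat_lit 125) (nat_lit 5) (nat_lit 131) (nat_lit 5) (nat_lit 132) (nat_lit 5) (nat_lit 323) (nat_lit 292) (nat_lit 165))))) (XT.nd (nat_lit 234) (nat_lit 836) (nat_lit 0) (XT.nd (nat_lit 78) (nat_lit 532) (nat_lit 0) (XT.lf (nat_lit 0) (nat_lit 11381857058) (nat_lit 456) (nat_lit 3501986436) (nat_lit 532) (nat_lit 3140310514) (nat_lit 125) (nat_lit 5) (nat_lit 131) (nat_lit 5) (nat_lit 132) (nat_lit 5) (nat_lit 324) (nat_lit 292) (nat_lit 164)) (XT.nd (nat_lit 78) (nat_lit 76) (nat_lit 0) (XT.lf (nat_lit 0) (nat_lit 2079189108) (nat_lit 456) (nat_lit 15320327028) (nat_lit 532) (nat_lit 947924144) (nat_lit 119) (nat_lit 5) (nat_lit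 125) (nat_lit 5) (nat_lit 126) (nat_lit 5) (nat_lit 325) (nat_lit 292) (nat_lit 163)) (XT.lf (nat_lit 0) (nat_lit 1377603900) (nat_lit 532) (nat_lit 7538716659) (nat_lit 76) (nat_lit 9760950762) (nat_lit 118) (nat_lit 5) (nat_lit 125) (nat_lit 5) (nat_lit 119) (nat_lit 5) (nat_lit 326) (nat_lit 292) (nat_lit 162)))) (XT.nd (nat_lit 156) (nat_lit 380) (nat_lit 0) (XT.nd (nat_lit 78) (nat_lit 0) (nat_lit 0) (XT.lf (nat_lit 0) (nat_lit 1461297698) (nat_lit 456) (nat_lit 2297396635) (nat_lit 532) (nat_lit 15257887723) (nat_lit 112) (nat_lit 5) (nat_lit 118) (nat_lit 5) (nat_lit 119) (nat_lit 5) (nat_lit 327) (nat_lit 292) (nat_lit 161)) (XT.lf (nat_lit 0) (nat_lit 6322503516) (nat_lit 532) (nat_lit 8532844757) (nat_lit 76) (nat_lit 4507396711) (nat_lit 112) (nat_lit 5) (nat_lit 119) (nat_lit 5) (nat_lit 113) (nat_lit 5) (nat_lit 328) (nat_lit 292) (nat_lit 160))) (XT.nd (nat_lit 78) (nat_lit 0)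 (nat_lit 0) (XT.lf (nat_lit 0) (nat_lit 741602999) (nat_lit 380) (nat_lit 8242718765) (nat_lit 456) (nat_lit 10734349307) (nat_lit 107) (nat_lit 5) (nat_lit 112) (nat_lit 5) (nat_lit 113) (nat_lit 5) (nat_lit 329) (nat_lit 292) (nat_lit 159)) (XT.lf (nat_lit 0) (nat_lit 10458911126) (nat_lit 380) (nat_lit 1344624830) (nat_lit 456) (nat_lit 8279423535) (nat_lit 107) (nat_lit 5) (nat_lit 112) (nat_lit 5) (nat_lit 113) (nat_lit 5) (nat_lit 330) (nat_lit 292) (nat_lit 158)))))) (XT.nd (nat_lit 468) (nat_lit 1064) (nat_lit 0) (XT.nd (nat_lit 234) (nat_lit 836) (nat_lit 0) (XT.nd (nat_lit 78) (nat_lit 380) (nat_lit 0) (XT.lf (nat_lit 0) (nat_lit 14754311213) (nat_lit 456) (nat_lit 56045153) (nat_lit 76) (nat_lit 5646421138) (nat_lit 107) (nat_lit 5) (nat_lit 113) (nat_lit 5) (nat_lit 108) (nat_lit 5) (nat_lit 331) (nat_lit 292) (nat_lit 157)) (XT.nd (nat_lit 78) (nat_lit 0) (nat_lit 0) (XT.lf (nat_lit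 0) (nat_lit 9970305213) (nat_lit 380) (nat_lit 7924314646) (nat_lit 456) (nat_lit 2944170065) (nat_lit 102) (nat_lit 5) (nat_lit 107) (nat_lit 5) (nat_lit 108) (nat_lit 5) (nat_lit 332) (nat_lit 292) (nat_lit 156)) (XT.lf (nat_lit 0) (nat_lit 20288755988) (nat_lit 380) (nat_lit 832946685) (nat_lit 456) (nat_lit 110792976) (nat_lit 102) (nat_lit 5) (nat_lit 107) (nat_lit 5) (nat_lit 108) (nat_lit 5) (nat_lit 333) (nat_lit 292) (nat_lit 155)))) (XT.nd (nat_lit 78) (nat_lit 380) (nat_lit 0) (XT.lf (nat_lit 0) (nat_lit 2898904436) (nat_lit 456) (nat_lit 12272104534) (nat_lit 76) (nat_lit 6461820082) (nat_lit 96) (nat_lit 5) (nat_lit 102) (nat_lit 5) (nat_lit 97) (nat_lit 5) (nat_lit 334) (nat_lit 292) (nat_lit 154)) (XT.nd (nat_lit 78) (nat_lit 380) (nat_lit 0) (XT.lf (nat_lit 0) (nat_lit 6006800858) (nat_lit 456) (nat_lit 2070501537) (nat_lit 76) (nat_lit 13967542146) (nat_lit 96) (nat_lit 5) (nat_lit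 102) (nat_lit 5) (nat_lit 97) (nat_lit 5) (nat_lit 335) (nat_lit 292) (nat_lit 153)) (XT.lf (nat_lit 0) (nat_lit 8595316865) (nat_lit 380) (nat_lit 687729727) (nat_lit 456) (nat_lit 13183929305) (nat_lit 91) (nat_lit 5) (nat_lit 96) (nat_lit 5) (nat_lit 97) (nat_lit 5) (nat_lit 336) (nat_lit 292) (nat_lit 152))))) (XT.nd (nat_lit 234) (nat_lit 760) (nat_lit 0) (XT.nd (nat_lit 78) (nat_lit 304) (nat_lit 0) (XT.lf (nat_lit 0) (nat_lit 12737844678) (nat_lit 456) (nat_lit 3354025676) (nat_lit 76) (nat_lit 6807501409) (nat_lit 91) (nat_lit 5) (nat_lit 97) (nat_lit 5) (nat_lit 92) (nat_lit 5) (nat_lit 337) (nat_lit 292) (nat_lit 151)) (XT.nd (nat_lit 78) (nat_lit 0) (nat_lit 0) (XT.lf (nat_lit 0) (nat_lit 7611461714) (nat_lit 304) (nat_lit 8757612609) (nat_lit 380) (nat_lit 6973489827) (nat_lit 87) (nat_lit 5) (nat_lit 91) (nat_lit 5) (nat_lit 92) (nat_lit 5) (nat_lit 338) (nat_lit 292) (nat_lit 150))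 (XT.lf (nat_lit 0) (nat_lit 18965367258) (nat_lit 304) (nat_lit 1170675011) (nat_lit 380) (nat_lit 3662214026) (nat_lit 87) (nat_lit 5) (nat_lit 91) (nat_lit 5) (nat_lit 92) (nat_lit 5) (nat_lit 339) (nat_lit 292) (nat_lit 149)))) (XT.nd (nat_lit 156) (nat_lit 304) (nat_lit 0) (XT.nd (nat_lit 78) (nat_lit 76) (nat_lit 0) (XT.lf (nat_lit 0) (nat_lit 6444947325) (nat_lit 380) (nat_lit 17690006998) (nat_lit 456) (nat_lit 129104627) (nat_lit 82) (nat_lit 5) (nat_lit 87) (nat_lit 5) (nat_lit 88) (nat_lit 5) (nat_lit 340) (nat_lit 292) (nat_lit 148)) (XT.lf (nat_lit 0) (nat_lit 3495537663) (nat_lit 456) (nat_lit 6637273395) (nat_lit 76) (nat_lit 14608398799) (nat_lit 81) (nat_lit 5) (nat_lit 87) (nat_lit 5) (nat_lit 82) (nat_lit 5) (nat_lit 341) (nat_lit 292) (nat_lit 147))) (XT.nd (nat_lit 78) (nat_lit 0) (nat_lit 0) (XT.lf (nat_lit 0) (nat_lit 4966653410) (nat_lit 304) (nat_lit 2300768372) (nat_lit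 380) (nat_lit 17963989371) (nat_lit 77) (nat_lit 5) (nat_lit 81) (nat_lit 5) (nat_lit 82) (nat_lit 5) (nat_lit 342) (nat_lit 292) (nat_lit 146)) (XT.lf (nat_lit 0) (nat_lit 11269017931) (nat_lit 380) (nat_lit 8744741832) (nat_lit 76) (nat_lit 5719068990) (nat_lit 77) (nat_lit 5) (nat_lit 82) (nat_lit 5) (nat_lit 78) (nat_lit 5) (nat_lit 343) (nat_lit 292) (nat_lit 145))))))) (XT.nd (nat_lit 1014) (nat_lit 1140) (nat_lit 0) (XT.nd (nat_lit 468) (nat_lit 760) (nat_lit 0) (XT.nd (nat_lit 234) (nat_lit 380) (nat_lit 0) (XT.nd (nat_lit 78) (nat_lit 228) (nat_lit 0) (XT.lf (nat_lit 0) (nat_lit 3150744541) (nat_lit 304) (nat_lit 12286615136) (nat_lit 380) (nat_lit 10810534996) (nat_lit 73) (nat_lit 5) (nat_lit 77) (nat_lit 5) (nat_lit 78) (nat_lit 5) (nat_lit 344) (nat_lit 292) (nat_lit 144)) (XT.nd (nat_lit 78) (nat_lit 228) (nat_lit 0) (XT.lf (nat_lit 0) (nat_lit 15573608229) (nat_lit 304) (nat_lit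 4239180574) (nat_lit 380) (nat_lit 6963169184) (nat_lit 73) (nat_lit 5) (nat_lit 77) (nat_lit 5) (nat_lit 78) (nat_lit 5) (nat_lit 345) (nat_lit 292) (nat_lit 143)) (XT.lf (nat_lit 0) (nat_lit 1021645701) (nat_lit 228) (nat_lit 23340475564) (nat_lit 304) (nat_lit 2956469062) (nat_lit 70) (nat_lit 5) (nat_lit 73) (nat_lit 5) (nat_lit 74) (nat_lit 5) (nat_lit 346) (nat_lit 292) (nat_lit 142)))) (XT.nd (nat_lit 78) (nat_lit 304) (nat_lit 0) (XT.lf (nat_lit 0) (nat_lit 1297728333) (nat_lit 304) (nat_lit 14095151794) (nat_lit 76) (nat_lit 12479785888) (nat_lit 69) (nat_lit 5) (nat_lit 73) (nat_lit 5) (nat_lit 70) (nat_lit 5) (nat_lit 347) (nat_lit 292) (nat_lit 141)) (XT.nd (nat_lit 78) (nat_lit 304) (nat_lit 0) (XT.lf (nat_lit 0) (nat_lit 5614228334) (nat_lit 304) (nat_lit 1565022790) (nat_lit 76) (nat_lit 21263417530) (nat_lit 69) (nat_lit 5) (nat_lit 73) (nat_lit 5) (nat_lit 70) (nat_lit 5) (nat_lit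 348) (nat_lit 292) (nat_lit 140)) (XT.lf (nat_lit 0) (nat_lit 10178988001) (nat_lit 380) (nat_lit 17481648144) (nat_lit 76) (nat_lit 1365577919) (nat_lit 65) (nat_lit 5) (nat_lit 70) (nat_lit 5) (nat_lit 66) (nat_lit 5) (nat_lit 349) (nat_lit 292) (nat_lit 139))))) (XT.nd (nat_lit 234) (nat_lit 532) (nat_lit 0) (XT.nd (nat_lit 78) (nat_lit 228) (nat_lit 0) (XT.lf (nat_lit 0) (nat_lit 14962067949) (nat_lit 380) (nat_lit 4626776289) (nat_lit 76) (nat_lit 10035985743) (nat_lit 65) (nat_lit 5) (nat_lit 70) (nat_lit 5) (nat_lit 66) (nat_lit 5) (nat_lit 350) (nat_lit 292) (nat_lit 138)) (XT.nd (nat_lit 78) (nat_lit 0) (nat_lit 0) (XT.lf (nat_lit 0) (nat_lit 8776983031) (nat_lit 228) (nat_lit 11190527637) (nat_lit 304) (nat_lit 10271532904) (nat_lit 62) (nat_lit 5) (nat_lit 65) (nat_lit 5) (nat_lit 66) (nat_lit 5) (nat_lit 351) (nat_lit 292) (nat_lit 137)) (XT.lf (nat_lit 0) (nat_lit 22669748984) (nat_lit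 228) (nat_lit 2494673446) (nat_lit 304) (nat_lit 5706027123) (nat_lit 62) (nat_lit 5) (nat_lit 65) (nat_lit 5) (nat_lit 66) (nat_lit 5) (nat_lit 352) (nat_lit 292) (nat_lit 136)))) (XT.nd (nat_lit 156) (nat_lit 228) (nat_lit 0) (XT.nd (nat_lit 78) (nat_lit 76) (nat_lit 0) (XT.lf (nat_lit 0) (nat_lit 5495767134) (nat_lit 228) (nat_lit 25131138799) (nat_lit 304) (nat_lit 890606854) (nat_lit 59) (nat_lit 5) (nat_lit 62) (nat_lit 5) (nat_lit 63) (nat_lit 5) (nat_lit 353) (nat_lit 292) (nat_lit 135)) (XT.lf (nat_lit 0) (nat_lit 4092941668) (nat_lit 304) (nat_lit 12482794791) (nat_lit 76) (nat_lit 15603990527) (nat_lit 58) (nat_lit 5) (nat_lit 62) (nat_lit 5) (nat_lit 59) (nat_lit 5) (nat_lit 354) (nat_lit 292) (nat_lit 134))) (XT.nd (nat_lit 78) (nat_lit 0) (nat_lit 0) (XT.lf (nat_lit 0) (nat_lit 1474621319) (nat_lit 228) (nat_lit 7742544374) (nat_lit 304) (nat_lit 23644109881) (nat_lit 55) (nat_lit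 5) (nat_lit 58) (nat_lit 5) (nat_lit 59) (nat_lit 5) (nat_lit 355) (nat_lit 292) (nat_lit 133)) (XT.lf (nat_lit 0) (nat_lit 14630393129) (nat_lit 304) (nat_lit 17474839641) (nat_lit 76) (nat_lit 1453983996) (nat_lit 55) (nat_lit 5) (nat_lit 59) (nat_lit 5) (nat_lit 56) (nat_lit 5) (nat_lit 356) (nat_lit 292) (nat_lit 132)))))) (XT.nd (nat_lit 468) (nat_lit 456) (nat_lit 0) (XT.nd (nat_lit 234) (nat_lit 456) (nat_lit 0) (XT.nd (nat_lit 78) (nat_lit 228) (nat_lit 0) (XT.lf (nat_lit 0) (nat_lit 20277769083) (nat_lit 304) (nat_lit 3229820929) (nat_lit 76) (nat_lit 10768357947) (nat_lit 55) (nat_lit 5) (nat_lit 59) (nat_lit 5) (nat_lit 56) (nat_lit 5) (nat_lit 357) (nat_lit 292) (nat_lit 131)) (XT.nd (nat_lit 78) (nat_lit 0) (nat_lit 0) (XT.lf (nat_lit 0) (nat_lit 11662859452) (nat_lit 228) (nat_lit 14539053170) (nat_lit 304) (nat_lit 8809052267) (nat_lit 52) (nat_lit 5) (nat_lit 55) (nat_lit 5)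 (nat_lit 56) (nat_lit 5) (nat_lit 358) (nat_lit 292) (nat_lit 130)) (XT.lf (nat_lit 0) (nat_lit 27061326428) (nat_lit 228) (nat_lit 5270374201) (nat_lit 304) (nat_lit 3435498163) (nat_lit 52) (nat_lit 5) (nat_lit 55) (nat_lit 5) (nat_lit 56) (nat_lit 5) (nat_lit 359) (nat_lit 292) (nat_lit 129)))) (XT.nd (nat_lit 78) (nat_lit 228) (nat_lit 0) (XT.lf (nat_lit 0) (nat_lit 2157829469) (nat_lit 228) (nat_lit 30110983034) (nat_lit 76) (nat_lit 4273719730) (nat_lit 49) (nat_lit 5) (nat_lit 52) (nat_lit 5) (nat_lit 50) (nat_lit 5) (nat_lit 360) (nat_lit 292) (nat_lit 128)) (XT.nd (nat_lit 78) (nat_lit 228) (nat_lit 0) (XT.lf (nat_lit 0) (nat_lit 7986307340) (nat_lit 228) (nat_lit 15231134585) (nat_lit 76) (nat_lit 14118575015) (nat_lit 49) (nat_lit 5) (nat_lit 52) (nat_lit 5) (nat_lit 50) (nat_lit 5) (nat_lit 361) (nat_lit 292) (nat_lit 127)) (XT.lf (nat_lit 0) (nat_lit 89937762) (nat_lit 228) (nat_lit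 13896135193) (nat_lit 304) (nat_lit 24167343847) (nat_lit 46) (nat_lit 5) (nat_lit 49) (nat_lit 5) (nat_lit 50) (nat_lit 5) (nat_lit 362) (nat_lit 292) (nat_lit 126))))) (XT.nd (nat_lit 234) (nat_lit 304) (nat_lit 0) (XT.nd (nat_lit 78) (nat_lit 152) (nat_lit 0) (XT.lf (nat_lit 0) (nat_lit 16176006952) (nat_lit 228) (nat_lit 4139261187) (nat_lit 304) (nat_lit 18675590933) (nat_lit 46) (nat_lit 5) (nat_lit 49) (nat_lit 5) (nat_lit 50) (nat_lit 5) (nat_lit 363) (nat_lit 292) (nat_lit 125)) (XT.nd (nat_lit 78) (nat_lit 152) (nat_lit 0) (XT.lf (nat_lit 0) (nat_lit 26886888763) (nat_lit 304) (nat_lit 7172346271) (nat_lit 76) (nat_lit 5792616495) (nat_lit 46) (nat_lit 5) (nat_lit 50) (nat_lit 5) (nat_lit 47) (nat_lit 5) (nat_lit 364) (nat_lit 292) (nat_lit 124)) (XT.lf (nat_lit 0) (nat_lit 9068848672) (nat_lit 152) (nat_lit 24710827617) (nat_lit 228) (nat_lit 6955280232) (nat_lit 44) (nat_lit 5) (nat_lit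 46) (nat_lit 5) (nat_lit 47) (nat_lit 5) (nat_lit 365) (nat_lit 292) (nat_lit 123)))) (XT.nd (nat_lit 156) (nat_lit 0) (nat_lit 0) (XT.nd (nat_lit 78) (nat_lit 304) (nat_lit 0) (XT.lf (nat_lit 0) (nat_lit 25937800734) (nat_lit 152) (nat_lit 15009791568) (nat_lit 228) (nat_lit 694915226) (nat_lit 44) (nat_lit 5) (nat_lit 46) (nat_lit 5) (nat_lit 47) (nat_lit 5) (nat_lit 366) (nat_lit 292) (nat_lit 122)) (XT.lf (nat_lit 0) (nat_lit 687244980) (nat_lit 228) (nat_lit 4956349947) (nat_lit 304) (nat_lit 36931956019) (nat_lit 40) (nat_lit 5) (nat_lit 43) (nat_lit 5) (nat_lit 44) (nat_lit 5) (nat_lit 367) (nat_lit 292) (nat_lit 121))) (XT.nd (nat_lit 78) (nat_lit 0) (nat_lit 0) (XT.lf (nat_lit 0) (nat_lit 12366373390) (nat_lit 304) (nat_lit 25705721573) (nat_lit 76) (nat_lit 5458044831) (nat_lit 40) (nat_lit 5) (nat_lit 44) (nat_lit 5) (nat_lit 41) (nat_lit 5) (nat_lit 368) (nat_lit 292) (nat_lit 120))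 (XT.lf (nat_lit 0) (nat_lit 19336051318) (nat_lit 304) (nat_lit 9092978861) (nat_lit 76) (nat_lit 16082982497) (nat_lit 40) (nat_lit 5) (nat_lit 44) (nat_lit 5) (nat_lit 41) (nat_lit 5) (nat_lit 369) (nat_lit 292) (nat_lit 119))))))))
noncomputable def xc185 : XT := (XT.nd (nat_lit 2028) (nat_lit 76) (nat_lit 0) (XT.nd (nat_lit 1014) (nat_lit 532) (nat_lit 0) (XT.nd (nat_lit 468) (nat_lit 380) (nat_lit 0) (XT.nd (nat_lit 234) (nat_lit 380) (nat_lit 0) (XT.nd (nat_lit 78) (nat_lit 0) (nat_lit 0) (XT.lf (nat_lit 0) (nat_lit 8171537759) (nat_lit 152) (nat_lit 18418087316) (nat_lit 228) (nat_lit 18931475277) (nat_lit 38) (nat_lit 5) (nat_lit 40) (nat_lit 5) (nat_lit 41) (nat_lit 5) (nat_lit 370) (nat_lit 292) (nat_lit 118)) (XT.nd (nat_lit 78) (nat_lit 0) (nat_lit 0) (XT.lf (nat_lit 0) (nat_lit 26134381979) (nat_lit 152) (nat_lit 8014552327) (nat_lit 228) (nat_lit 12408885193) (nat_lit 38) (nat_lit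 5) (nat_lit 40) (nat_lit 5) (nat_lit 41) (nat_lit 5) (nat_lit 371) (nat_lit 292) (nat_lit 117)) (XT.lf (nat_lit 0) (nat_lit 41957380322) (nat_lit 228) (nat_lit 3021411957) (nat_lit 76) (nat_lit 2646179829) (nat_lit 38) (nat_lit 5) (nat_lit 41) (nat_lit 5) (nat_lit 39) (nat_lit 5) (nat_lit 372) (nat_lit 292) (nat_lit 116)))) (XT.nd (nat_lit 78) (nat_lit 152) (nat_lit 0) (XT.lf (nat_lit 0) (nat_lit 1474349458) (nat_lit 228) (nat_lit 33619487794) (nat_lit 76) (nat_lit 13623237336) (nat_lit 35) (nat_lit 5) (nat_lit 38) (nat_lit 5) (nat_lit 36) (nat_lit 5) (nat_lit 373) (nat_lit 292) (nat_lit 115)) (XT.nd (nat_lit 78) (nat_lit 152) (nat_lit 0) (XT.lf (nat_lit 0) (nat_lit 8743957109) (nat_lit 228) (nat_lit 16081112081) (nat_lit 76) (nat_lit 25014370262) (nat_lit 35) (nat_lit 5) (nat_lit 38) (nat_lit 5) (nat_lit 36) (nat_lit 5) (nat_lit 374) (nat_lit 292) (nat_lit 114)) (XT.lf (nat_lit 0) (nat_lit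 2017183347) (nat_lit 152) (nat_lit 14230470463) (nat_lit 228) (nat_lit 34747343749) (nat_lit 33) (nat_lit 5) (nat_lit 35) (nat_lit 5) (nat_lit 36) (nat_lit 5) (nat_lit 375) (nat_lit 292) (nat_lit 113))))) (XT.nd (nat_lit 234) (nat_lit 228) (nat_lit 0) (XT.nd (nat_lit 78) (nat_lit 152) (nat_lit 0) (XT.lf (nat_lit 0) (nat_lit 20982535447) (nat_lit 152) (nat_lit 3152969565) (nat_lit 228) (nat_lit 28044948342) (nat_lit 33) (nat_lit 5) (nat_lit 35) (nat_lit 5) (nat_lit 36) (nat_lit 5) (nat_lit 376) (nat_lit 292) (nat_lit 112)) (XT.nd (nat_lit 78) (nat_lit 152) (nat_lit 0) (XT.lf (nat_lit 0) (nat_lit 32336094520) (nat_lit 228) (nat_lit 12969451658) (nat_lit 76) (nat_lit 8093645750) (nat_lit 33) (nat_lit 5) (nat_lit 36) (nat_lit 5) (nat_lit 34) (nat_lit 5) (nat_lit 377) (nat_lit 292) (nat_lit 111)) (XT.lf (nat_lit 0) (nat_lit 5884174448) (nat_lit 152) (nat_lit 34983135044) (nat_lit 228) (nat_lit 13784647056)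 (nat_lit 31) (nat_lit 5) (nat_lit 33) (nat_lit 5) (nat_lit 34) (nat_lit 5) (nat_lit 378) (nat_lit 292) (nat_lit 110)))) (XT.nd (nat_lit 156) (nat_lit 152) (nat_lit 0) (XT.nd (nat_lit 78) (nat_lit 76) (nat_lit 0) (XT.lf (nat_lit 0) (nat_lit 25564024276) (nat_lit 152) (nat_lit 24218272604) (nat_lit 228) (nat_lit 6156174210) (nat_lit 31) (nat_lit 5) (nat_lit 33) (nat_lit 5) (nat_lit 34) (nat_lit 5) (nat_lit 379) (nat_lit 292) (nat_lit 109)) (XT.lf (nat_lit 0) (nat_lit 1664886254) (nat_lit 228) (nat_lit 11450820360) (nat_lit 76) (nat_lit 44147477951) (nat_lit 30) (nat_lit 5) (nat_lit 33) (nat_lit 5) (nat_lit 31) (nat_lit 5) (nat_lit 380) (nat_lit 292) (nat_lit 108))) (XT.nd (nat_lit 78) (nat_lit 0) (nat_lit 0) (XT.lf (nat_lit 0) (nat_lit 8133265795) (nat_lit 152) (nat_lit 1538780154) (nat_lit 228) (nat_lit 48951510803) (nat_lit 28) (nat_lit 5) (nat_lit 30) (nat_lit 5) (nat_lit 31) (nat_lit 5) (nat_lit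 381) (nat_lit 292) (nat_lit 107)) (XT.lf (nat_lit 0) (nat_lit 18133065784) (nat_lit 228) (nat_lit 31587670086) (nat_lit 76) (nat_lit 10297596704) (nat_lit 28) (nat_lit 5) (nat_lit 31) (nat_lit 5) (nat_lit 29) (nat_lit 5) (nat_lit 382) (nat_lit 292) (nat_lit 106)))))) (XT.nd (nat_lit 468) (nat_lit 228) (nat_lit 0) (XT.nd (nat_lit 234) (nat_lit 152) (nat_lit 0) (XT.nd (nat_lit 78) (nat_lit 152) (nat_lit 0) (XT.lf (nat_lit 0) (nat_lit 26860276243) (nat_lit 228) (nat_lit 12138087431) (nat_lit 76) (nat_lit 22456218976) (nat_lit 28) (nat_lit 5) (nat_lit 31) (nat_lit 5) (nat_lit 29) (nat_lit 5) (nat_lit 383) (nat_lit 292) (nat_lit 105)) (XT.nd (nat_lit 78) (nat_lit 0) (nat_lit 0) (XT.lf (nat_lit 0) (nat_lit 8047274801) (nat_lit 152) (nat_lit 27876591873) (nat_lit 228) (nat_lit 27007818370) (nat_lit 26) (nat_lit 5) (nat_lit 28) (nat_lit 5) (nat_lit 29) (nat_lit 5) (nat_lit 384) (nat_lit 292) (nat_lit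 104)) (XT.lf (nat_lit 0) (nat_lit 29082324039) (nat_lit 152) (nat_lit 16296856195) (nat_lit 228) (nat_lit 19070327491) (nat_lit 26) (nat_lit 5) (nat_lit 28) (nat_lit 5) (nat_lit 29) (nat_lit 5) (nat_lit 385) (nat_lit 292) (nat_lit 103)))) (XT.nd (nat_lit 78) (nat_lit 152) (nat_lit 0) (XT.lf (nat_lit 0) (nat_lit 50743868680) (nat_lit 152) (nat_lit 4371609309) (nat_lit 228) (nat_lit 10897468980) (nat_lit 26) (nat_lit 5) (nat_lit 28) (nat_lit 5) (nat_lit 29) (nat_lit 5) (nat_lit 386) (nat_lit 292) (nat_lit 102)) (XT.nd (nat_lit 78) (nat_lit 76) (nat_lit 0) (XT.lf (nat_lit 0) (nat_lit 5457939848) (nat_lit 76) (nat_lit 59811824208) (nat_lit 152) (nat_lit 2349749934) (nat_lit 25) (nat_lit 5) (nat_lit 26) (nat_lit 5) (nat_lit 27) (nat_lit 4) (nat_lit 387) (nat_lit 292) (nat_lit 101)) (XT.lf (nat_lit 0) (nat_lit 6524841260) (nat_lit 152) (nat_lit 42261230990) (nat_lit 76) (nat_lit 20480454277) (nat_lit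 24) (nat_lit 5) (nat_lit 26) (nat_lit 5) (nat_lit 25) (nat_lit 5) (nat_lit 388) (nat_lit 292) (nat_lit 100))))) (XT.nd (nat_lit 234) (nat_lit 76) (nat_lit 0) (XT.nd (nat_lit 78) (nat_lit 152) (nat_lit 0) (XT.lf (nat_lit 0) (nat_lit 15615910076) (nat_lit 152) (nat_lit 21791506224) (nat_lit 76) (nat_lit 33554912612) (nat_lit 24) (nat_lit 5) (nat_lit 26) (nat_lit 5) (nat_lit 25) (nat_lit 5) (nat_lit 389) (nat_lit 292) (nat_lit 99)) (XT.nd (nat_lit 78) (nat_lit 152) (nat_lit 0) (XT.lf (nat_lit 0) (nat_lit 24977252252) (nat_lit 152) (nat_lit 711926445) (nat_lit 76) (nat_lit 47019901839) (nat_lit 24) (nat_lit 5) (nat_lit 26) (nat_lit 5) (nat_lit 25) (nat_lit 5) (nat_lit 390) (nat_lit 292) (nat_lit 98)) (XT.lf (nat_lit 0) (nat_lit 21413787521) (nat_lit 152) (nat_lit 13409102504) (nat_lit 228) (nat_lit 39679242386) (nat_lit 22) (nat_lit 5) (nat_lit 24) (nat_lit 5) (nat_lit 25) (nat_lit 5) (nat_lit 391)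 (nat_lit 292) (nat_lit 97)))) (XT.nd (nat_lit 156) (nat_lit 76) (nat_lit 0) (XT.nd (nat_lit 78) (nat_lit 0) (nat_lit 0) (XT.lf (nat_lit 0) (nat_lit 44213793698) (nat_lit 152) (nat_lit 754935577) (nat_lit 228) (nat_lit 31380102921) (nat_lit 22) (nat_lit 5) (nat_lit 24) (nat_lit 5) (nat_lit 25) (nat_lit 5) (nat_lit 392) (nat_lit 292) (nat_lit 96)) (XT.lf (nat_lit 0) (nat_lit 55534671488) (nat_lit 228) (nat_lit 10675173073) (nat_lit 76) (nat_lit 12037617863) (nat_lit 22) (nat_lit 5) (nat_lit 25) (nat_lit 5) (nat_lit 23) (nat_lit 4) (nat_lit 393) (nat_lit 292) (nat_lit 95))) (XT.nd (nat_lit 78) (nat_lit 0) (nat_lit 0) (XT.lf (nat_lit 0) (nat_lit 11644345286) (nat_lit 76) (nat_lit 54890416877) (nat_lit 152) (nat_lit 13664775539) (nat_lit 21) (nat_lit 5) (nat_lit 22) (nat_lit 5) (nat_lit 23) (nat_lit 4) (nat_lit 394) (nat_lit 292) (nat_lit 94)) (XT.lf (nat_lit 0) (nat_lit 34848426397) (nat_lit 76)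 (nat_lit 43122018609) (nat_lit 152) (nat_lit 4236563760) (nat_lit 21) (nat_lit 5) (nat_lit 22) (nat_lit 5) (nat_lit 23) (nat_lit 4) (nat_lit 395) (nat_lit 292) (nat_lit 93))))))) (XT.nd (nat_lit 33462) (nat_lit 0) (nat_lit 10032) (XT.nd (nat_lit 32916) (nat_lit 0) (nat_lit 12996) (XT.nd (nat_lit 32682) (nat_lit 0) (nat_lit 12920) (XT.nd (nat_lit 78) (nat_lit 0) (nat_lit 0) (XT.lf (nat_lit 0) (nat_lit 5365500348) (nat_lit 152) (nat_lit 25582483626) (nat_lit 76) (nat_lit 53325207411) (nat_lit 20) (nat_lit 5) (nat_lit 22) (nat_lit 5) (nat_lit 21) (nat_lit 5) (nat_lit 396) (nat_lit 292) (nat_lit 92)) (XT.nd (nat_lit 32526) (nat_lit 0) (nat_lit 12920) (XT.lf (nat_lit 0) (nat_lit 15168371838) (nat_lit 152) (nat_lit 3198723257) (nat_lit 76) (nat_lit 68033070225) (nat_lit 20) (nat_lit 5) (nat_lit 22) (nat_lit 5) (nat_lit 21) (nat_lit 5) (nat_lit 397) (nat_lit 292) (nat_lit 91)) (XT.lf (nat_lit 0) (nat_lit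 1163371892) (nat_lit 1140) (nat_lit 2227217905) (nat_lit 1140) (nat_lit 2227217905) (nat_lit 190) (nat_lit 3) (nat_lit 205) (nat_lit 3) (nat_lit 205) (nat_lit 5) (nat_lit 293) (nat_lit 293) (nat_lit 194)))) (XT.nd (nat_lit 78) (nat_lit 0) (nat_lit 76) (XT.lf (nat_lit 76) (nat_lit 534249834) (nat_lit 0) (nat_lit 2344441004) (nat_lit 1140) (nat_lit 8509121900) (nat_lit 191) (nat_lit 5) (nat_lit 190) (nat_lit 3) (nat_lit 205) (nat_lit 5) (nat_lit 294) (nat_lit 293) (nat_lit 193)) (XT.nd (nat_lit 78) (nat_lit 0) (nat_lit 0) (XT.lf (nat_lit 0) (nat_lit 3494027162) (nat_lit 1064) (nat_lit 5812392882) (nat_lit 1140) (nat_lit 2236783240) (nat_lit 191) (nat_lit 5) (nat_lit 205) (nat_lit 5) (nat_lit 206) (nat_lit 5) (nat_lit 295) (nat_lit 293) (nat_lit 192)) (XT.lf (nat_lit 0) (nat_lit 4131630547) (nat_lit 1064) (nat_lit 654109442) (nat_lit 1140) (nat_lit 6917432626) (nat_lit 191) (nat_lit 5) (nat_lit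 205) (nat_lit 5) (nat_lit 206) (nat_lit 5) (nat_lit 296) (nat_lit 293) (nat_lit 191))))) (XT.nd (nat_lit 234) (nat_lit 0) (nat_lit 152) (XT.nd (nat_lit 78) (nat_lit 0) (nat_lit 76) (XT.lf (nat_lit 76) (nat_lit 4740841751) (nat_lit 0) (nat_lit 74252044) (nat_lit 1140) (nat_lit 7052075647) (nat_lit 192) (nat_lit 5) (nat_lit 191) (nat_lit 5) (nat_lit 206) (nat_lit 5) (nat_lit 297) (nat_lit 293) (nat_lit 190)) (XT.nd (nat_lit 78) (nat_lit 0) (nat_lit 0) (XT.lf (nat_lit 0) (nat_lit 5553350000) (nat_lit 1064) (nat_lit 1781983010) (nat_lit 1140) (nat_lit 4699753977) (nat_lit 192) (nat_lit 5) (nat_lit 206) (nat_lit 5) (nat_lit 207) (nat_lit 5) (nat_lit 298) (nat_lit 293) (nat_lit 189)) (XT.lf (nat_lit 76) (nat_lit 3784995308) (nat_lit 0) (nat_lit 2548094719) (nat_lit 1140) (nat_lit 5874400570) (nat_lit 193) (nat_lit 5) (nat_lit 192) (nat_lit 5) (nat_lit 207) (nat_lit 5) (nat_lit 299) (nat_lit 293) (nat_lit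 188)))) (XT.nd (nat_lit 156) (nat_lit 0) (nat_lit 0) (XT.nd (nat_lit 78) (nat_lit 0) (nat_lit 0) (XT.lf (nat_lit 0) (nat_lit 7159995695) (nat_lit 1064) (nat_lit 2863424442) (nat_lit 1140) (nat_lit 2360960769) (nat_lit 193) (nat_lit 5) (nat_lit 207) (nat_lit 5) (nat_lit 208) (nat_lit 5) (nat_lit 300) (nat_lit 293) (nat_lit 187)) (XT.lf (nat_lit 76) (nat_lit 2882439438) (nat_lit 0) (nat_lit 5165405707) (nat_lit 1140) (nat_lit 4517675661) (nat_lit 194) (nat_lit 5) (nat_lit 193) (nat_lit 5) (nat_lit 208) (nat_lit 5) (nat_lit 301) (nat_lit 293) (nat_lit 186))) (XT.nd (nat_lit 78) (nat_lit 0) (nat_lit 76) (XT.lf (nat_lit 76) (nat_lit 8848487237) (nat_lit 0) (nat_lit 126342634) (nat_lit 1140) (nat_lit 3776916234) (nat_lit 194) (nat_lit 5) (nat_lit 193) (nat_lit 5) (nat_lit 208) (nat_lit 5) (nat_lit 302) (nat_lit 293) (nat_lit 185)) (XT.lf (nat_lit 76) (nat_lit 2029761694) (nat_lit 0) (nat_lit 7952165490)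 (nat_lit 1140) (nat_lit 2960087321) (nat_lit 195) (nat_lit 5) (nat_lit 194) (nat_lit 5) (nat_lit 209) (nat_lit 5) (nat_lit 303) (nat_lit 293) (nat_lit 184)))))) (XT.nd (nat_lit 546) (nat_lit 2128) (nat_lit 0) (XT.nd (nat_lit 234) (nat_lit 1064) (nat_lit 0) (XT.nd (nat_lit 78) (nat_lit 0) (nat_lit 76) (XT.lf (nat_lit 76) (nat_lit 8208491794) (nat_lit 0) (nat_lit 2835870811) (nat_lit 1140) (nat_lit 2092899290) (nat_lit 195) (nat_lit 5) (nat_lit 194) (nat_lit 5) (nat_lit 209) (nat_lit 5) (nat_lit 304) (nat_lit 293) (nat_lit 183)) (XT.nd (nat_lit 78) (nat_lit 0) (nat_lit 0) (XT.lf (nat_lit 76) (nat_lit 1223479636) (nat_lit 0) (nat_lit 10935314205) (nat_lit 1140) (nat_lit 1178993155) (nat_lit 196) (nat_lit 5) (nat_lit 195) (nat_lit 5) (nat_lit 210) (nat_lit 5) (nat_lit 305) (nat_lit 293) (nat_lit 182)) (XT.lf (nat_lit 76) (nat_lit 7621589354) (nat_lit 0) (nat_lit 5747939027) (nat_lit 1140) (nat_lit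 172936632) (nat_lit 196) (nat_lit 5) (nat_lit 195) (nat_lit 5) (nat_lit 210) (nat_lit 5) (nat_lit 306) (nat_lit 293) (nat_lit 181)))) (XT.nd (nat_lit 156) (nat_lit 0) (nat_lit 76) (XT.nd (nat_lit 78) (nat_lit 0) (nat_lit 76) (XT.lf (nat_lit 76) (nat_lit 447705192) (nat_lit 0) (nat_lit 388615441) (nat_lit 1216) (nat_lit 12917039765) (nat_lit 181) (nat_lit 5) (nat_lit 180) (nat_lit 5) (nat_lit 196) (nat_lit 5) (nat_lit 307) (nat_lit 293) (nat_lit 180)) (XT.lf (nat_lit 0) (nat_lit 1967994680) (nat_lit 1140) (nat_lit 6903162577) (nat_lit 1216) (nat_lit 5096526872) (nat_lit 181) (nat_lit 5) (nat_lit 196) (nat_lit 5) (nat_lit 197) (nat_lit 5) (nat_lit 308) (nat_lit 293) (nat_lit 179))) (XT.nd (nat_lit 78) (nat_lit 0) (nat_lit 76) (XT.lf (nat_lit 0) (nat_lit 3123783818) (nat_lit 1140) (nat_lit 323567128) (nat_lit 1216) (nat_lit 10741402359) (nat_lit 181) (nat_lit 5) (nat_lit 196) (nat_lit 5) (nat_lit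 197) (nat_lit 5) (nat_lit 309) (nat_lit 293) (nat_lit 178)) (XT.lf (nat_lit 0) (nat_lit 4385337513) (nat_lit 1140) (nat_lit 7865353935) (nat_lit 76) (nat_lit 2163650459) (nat_lit 182) (nat_lit 5) (nat_lit 197) (nat_lit 5) (nat_lit 183) (nat_lit 5) (nat_lit 310) (nat_lit 293) (nat_lit 177))))) (XT.nd (nat_lit 234) (nat_lit 1140) (nat_lit 0) (XT.nd (nat_lit 78) (nat_lit 1140) (nat_lit 0) (XT.lf (nat_lit 0) (nat_lit 5709191757) (nat_lit 1140) (nat_lit 1057538198) (nat_lit 76) (nat_lit 7879254087) (nat_lit 182) (nat_lit 5) (nat_lit 197) (nat_lit 5) (nat_lit 183) (nat_lit 5) (nat_lit 311) (nat_lit 293) (nat_lit 176)) (XT.nd (nat_lit 78) (nat_lit 0) (nat_lit 0) (XT.lf (nat_lit 0) (nat_lit 6062001505) (nat_lit 1140) (nat_lit 1056431795) (nat_lit 1216) (nat_lit 7764790915) (nat_lit 167) (nat_lit 5) (nat_lit 182) (nat_lit 5) (nat_lit 183) (nat_lit 5) (nat_lit 312) (nat_lit 293) (nat_lit 175)) (XT.lf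 (nat_lit 0) (nat_lit 8614799362) (nat_lit 1216) (nat_lit 1768043894) (nat_lit 76) (nat_lit 4743411292) (nat_lit 167) (nat_lit 5) (nat_lit 183) (nat_lit 5) (nat_lit 168) (nat_lit 5) (nat_lit 313) (nat_lit 293) (nat_lit 174)))) (XT.nd (nat_lit 156) (nat_lit 608) (nat_lit 0) (XT.nd (nat_lit 78) (nat_lit 0) (nat_lit 0) (XT.lf (nat_lit 0) (nat_lit 5584466635) (nat_lit 532) (nat_lit 4623769578) (nat_lit 608) (nat_lit 5166792021) (nat_lit 160) (nat_lit 5) (nat_lit 167) (nat_lit 5) (nat_lit 168) (nat_lit 5) (nat_lit 314) (nat_lit 293) (nat_lit 173)) (XT.lf (nat_lit 0) (nat_lit 11868375367) (nat_lit 608) (nat_lit 2460734821) (nat_lit 76) (nat_lit 1301605287) (nat_lit 160) (nat_lit 5) (nat_lit 168) (nat_lit 5) (nat_lit 161) (nat_lit 5) (nat_lit 315) (nat_lit 293) (nat_lit 172))) (XT.nd (nat_lit 78) (nat_lit 0) (nat_lit 0) (XT.lf (nat_lit 0) (nat_lit 5132634754) (nat_lit 608) (nat_lit 8529437415) (nat_lit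 684) (nat_lit 2229505374) (nat_lit 152) (nat_lit 5) (nat_lit 160) (nat_lit 5) (nat_lit 161) (nat_lit 5) (nat_lit 316) (nat_lit 293) (nat_lit 171)) (XT.lf (nat_lit 0) (nat_lit 12993624948) (nat_lit 608) (nat_lit 2529667964) (nat_lit 684) (nat_lit 636577493) (nat_lit 152) (nat_lit 5) (nat_lit 160) (nat_lit 5) (nat_lit 161) (nat_lit 5) (nat_lit 317) (nat_lit 293) (nat_lit 170))))))))
noncomputable def xc186 : XT := (XT.nd (nat_lit 2028) (nat_lit 2812) (nat_lit 0) (XT.nd (nat_lit 1014) (nat_lit 2280) (nat_lit 0) (XT.nd (nat_lit 468) (nat_lit 1824) (nat_lit 0) (XT.nd (nat_lit 234) (nat_lit 456) (nat_lit 0) (XT.nd (nat_lit 78) (nat_lit 532) (nat_lit 0) (XT.lf (nat_lit 0) (nat_lit 1054677818) (nat_lit 608) (nat_lit 11744278927) (nat_lit 76) (nat_lit 3634877107) (nat_lit 144) (nat_lit 5) (nat_lit 152) (nat_lit 5) (nat_lit 145) (nat_lit 5) (nat_lit 318) (nat_lit 293) (nat_lit 169)) (XT.nd (nat_lit 78)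 (nat_lit 532) (nat_lit 0) (XT.lf (nat_lit 0) (nat_lit 2830498750) (nat_lit 608) (nat_lit 3911570627) (nat_lit 76) (nat_lit 9972374005) (nat_lit 144) (nat_lit 5) (nat_lit 152) (nat_lit 5) (nat_lit 145) (nat_lit 5) (nat_lit 319) (nat_lit 293) (nat_lit 168)) (XT.lf (nat_lit 0) (nat_lit 4228157214) (nat_lit 532) (nat_lit 461679648) (nat_lit 608) (nat_lit 12312741563) (nat_lit 137) (nat_lit 5) (nat_lit 144) (nat_lit 5) (nat_lit 145) (nat_lit 5) (nat_lit 320) (nat_lit 293) (nat_lit 167)))) (XT.nd (nat_lit 78) (nat_lit 456) (nat_lit 0) (XT.lf (nat_lit 0) (nat_lit 6692390133) (nat_lit 608) (nat_lit 4674731555) (nat_lit 76) (nat_lit 5929626863) (nat_lit 137) (nat_lit 5) (nat_lit 145) (nat_lit 5) (nat_lit 138) (nat_lit 5) (nat_lit 321) (nat_lit 293) (nat_lit 166)) (XT.nd (nat_lit 78) (nat_lit 0) (nat_lit 0) (XT.lf (nat_lit 0) (nat_lit 3725706794) (nat_lit 456) (nat_lit 5059795743) (nat_lit 532) (nat_lit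 8813340440) (nat_lit 131) (nat_lit 5) (nat_lit 137) (nat_lit 5) (nat_lit 138) (nat_lit 5) (nat_lit 322) (nat_lit 293) (nat_lit 165)) (XT.lf (nat_lit 0) (nat_lit 10993174233) (nat_lit 532) (nat_lit 5459447117) (nat_lit 76) (nat_lit 1455839181) (nat_lit 131) (nat_lit 5) (nat_lit 138) (nat_lit 5) (nat_lit 132) (nat_lit 5) (nat_lit 323) (nat_lit 293) (nat_lit 164))))) (XT.nd (nat_lit 234) (nat_lit 912) (nat_lit 0) (XT.nd (nat_lit 78) (nat_lit 456) (nat_lit 0) (XT.lf (nat_lit 0) (nat_lit 3208910454) (nat_lit 456) (nat_lit 10129673665) (nat_lit 532) (nat_lit 4886650138) (nat_lit 125) (nat_lit 5) (nat_lit 131) (nat_lit 5) (nat_lit 132) (nat_lit 5) (nat_lit 324) (nat_lit 293) (nat_lit 163)) (XT.nd (nat_lit 78) (nat_lit 456) (nat_lit 0) (XT.lf (nat_lit 0) (nat_lit 12239070100) (nat_lit 456) (nat_lit 3561158076) (nat_lit 532) (nat_lit 2749919373) (nat_lit 125) (nat_lit 5) (nat_lit 131) (nat_lit 5) (nat_lit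 132) (nat_lit 5) (nat_lit 325) (nat_lit 293) (nat_lit 162)) (XT.lf (nat_lit 0) (nat_lit 2666415546) (nat_lit 456) (nat_lit 15716743378) (nat_lit 532) (nat_lit 500238343) (nat_lit 119) (nat_lit 5) (nat_lit 125) (nat_lit 5) (nat_lit 126) (nat_lit 5) (nat_lit 326) (nat_lit 293) (nat_lit 161)))) (XT.nd (nat_lit 156) (nat_lit 380) (nat_lit 0) (XT.nd (nat_lit 78) (nat_lit 456) (nat_lit 0) (XT.lf (nat_lit 0) (nat_lit 1872167591) (nat_lit 532) (nat_lit 7245712920) (nat_lit 76) (nat_lit 10105530770) (nat_lit 118) (nat_lit 5) (nat_lit 125) (nat_lit 5) (nat_lit 119) (nat_lit 5) (nat_lit 327) (nat_lit 293) (nat_lit 160)) (XT.lf (nat_lit 0) (nat_lit 2019212013) (nat_lit 456) (nat_lit 2297219296) (nat_lit 532) (nat_lit 15256734739) (nat_lit 112) (nat_lit 5) (nat_lit 118) (nat_lit 5) (nat_lit 119) (nat_lit 5) (nat_lit 328) (nat_lit 293) (nat_lit 159))) (XT.nd (nat_lit 78) (nat_lit 380) (nat_lit 0) (XT.lf (nat_lit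 0) (nat_lit 6944839174) (nat_lit 532) (nat_lit 8276864439) (nat_lit 76) (nat_lit 4708396149) (nat_lit 112) (nat_lit 5) (nat_lit 119) (nat_lit 5) (nat_lit 113) (nat_lit 5) (nat_lit 329) (nat_lit 293) (nat_lit 158)) (XT.lf (nat_lit 0) (nat_lit 1270797479) (nat_lit 380) (nat_lit 8407985806) (nat_lit 456) (nat_lit 10618168162) (nat_lit 107) (nat_lit 5) (nat_lit 112) (nat_lit 5) (nat_lit 113) (nat_lit 5) (nat_lit 330) (nat_lit 293) (nat_lit 157)))))) (XT.nd (nat_lit 468) (nat_lit 1444) (nat_lit 0) (XT.nd (nat_lit 234) (nat_lit 456) (nat_lit 0) (XT.nd (nat_lit 78) (nat_lit 380) (nat_lit 0) (XT.lf (nat_lit 0) (nat_lit 11264859421) (nat_lit 380) (nat_lit 1305337825) (nat_lit 456) (nat_lit 8102358063) (nat_lit 107) (nat_lit 5) (nat_lit 112) (nat_lit 5) (nat_lit 113) (nat_lit 5) (nat_lit 331) (nat_lit 293) (nat_lit 156)) (XT.nd (nat_lit 78) (nat_lit 0) (nat_lit 0) (XT.lf (nat_lit 0) (nat_lit 440488936)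 (nat_lit 380) (nat_lit 15161968019) (nat_lit 456) (nat_lit 5455357108) (nat_lit 102) (nat_lit 5) (nat_lit 107) (nat_lit 5) (nat_lit 108) (nat_lit 5) (nat_lit 332) (nat_lit 293) (nat_lit 155)) (XT.lf (nat_lit 0) (nat_lit 10754234094) (nat_lit 380) (nat_lit 8071479073) (nat_lit 456) (nat_lit 2625926141) (nat_lit 102) (nat_lit 5) (nat_lit 107) (nat_lit 5) (nat_lit 108) (nat_lit 5) (nat_lit 333) (nat_lit 293) (nat_lit 154)))) (XT.nd (nat_lit 78) (nat_lit 380) (nat_lit 0) (XT.lf (nat_lit 0) (nat_lit 275134723) (nat_lit 456) (nat_lit 492094844) (nat_lit 76) (nat_lit 21090204384) (nat_lit 101) (nat_lit 5) (nat_lit 107) (nat_lit 5) (nat_lit 102) (nat_lit 5) (nat_lit 334) (nat_lit 293) (nat_lit 153)) (XT.nd (nat_lit 78) (nat_lit 0) (nat_lit 0) (XT.lf (nat_lit 0) (nat_lit 3367083827) (nat_lit 456) (nat_lit 12155149848) (nat_lit 76) (nat_lit 6747698507) (nat_lit 96) (nat_lit 5) (nat_lit 102) (nat_lit 5)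 (nat_lit 97) (nat_lit 5) (nat_lit 335) (nat_lit 293) (nat_lit 152)) (XT.lf (nat_lit 0) (nat_lit 6557113873) (nat_lit 456) (nat_lit 1661628405) (nat_lit 76) (nat_lit 14475911927) (nat_lit 96) (nat_lit 5) (nat_lit 102) (nat_lit 5) (nat_lit 97) (nat_lit 5) (nat_lit 336) (nat_lit 293) (nat_lit 151))))) (XT.nd (nat_lit 234) (nat_lit 760) (nat_lit 0) (XT.nd (nat_lit 78) (nat_lit 304) (nat_lit 0) (XT.lf (nat_lit 0) (nat_lit 9319547017) (nat_lit 380) (nat_lit 605803128) (nat_lit 456) (nat_lit 13204300855) (nat_lit 91) (nat_lit 5) (nat_lit 96) (nat_lit 5) (nat_lit 97) (nat_lit 5) (nat_lit 337) (nat_lit 293) (nat_lit 150)) (XT.nd (nat_lit 78) (nat_lit 304) (nat_lit 0) (XT.lf (nat_lit 0) (nat_lit 13474152844) (nat_lit 456) (nat_lit 2991812501) (nat_lit 76) (nat_lit 7109354806) (nat_lit 91) (nat_lit 5) (nat_lit 97) (nat_lit 5) (nat_lit 92) (nat_lit 5) (nat_lit 338) (nat_lit 293) (nat_lit 149)) (XT.lf (nat_lit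 0) (nat_lit 8298101924) (nat_lit 304) (nat_lit 8910307166) (nat_lit 380) (nat_lit 6823588398) (nat_lit 87) (nat_lit 5) (nat_lit 91) (nat_lit 5) (nat_lit 92) (nat_lit 5) (nat_lit 339) (nat_lit 293) (nat_lit 148)))) (XT.nd (nat_lit 156) (nat_lit 304) (nat_lit 0) (XT.nd (nat_lit 78) (nat_lit 456) (nat_lit 0) (XT.lf (nat_lit 0) (nat_lit 19979276197) (nat_lit 304) (nat_lit 1098966308) (nat_lit 380) (nat_lit 3423433725) (nat_lit 87) (nat_lit 5) (nat_lit 91) (nat_lit 5) (nat_lit 92) (nat_lit 5) (nat_lit 340) (nat_lit 293) (nat_lit 147)) (XT.lf (nat_lit 0) (nat_lit 206879180) (nat_lit 456) (nat_lit 17895339015) (nat_lit 76) (nat_lit 6879320879) (nat_lit 81) (nat_lit 5) (nat_lit 87) (nat_lit 5) (nat_lit 82) (nat_lit 5) (nat_lit 341) (nat_lit 293) (nat_lit 146))) (XT.nd (nat_lit 78) (nat_lit 304) (nat_lit 0) (XT.lf (nat_lit 0) (nat_lit 3927842697) (nat_lit 456) (nat_lit 6392636553) (nat_lit 76) (nat_lit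 15152792152) (nat_lit 81) (nat_lit 5) (nat_lit 87) (nat_lit 5) (nat_lit 82) (nat_lit 5) (nat_lit 342) (nat_lit 293) (nat_lit 145)) (XT.lf (nat_lit 0) (nat_lit 5555057517) (nat_lit 304) (nat_lit 2252512593) (nat_lit 380) (nat_lit 18170778266) (nat_lit 77) (nat_lit 5) (nat_lit 81) (nat_lit 5) (nat_lit 82) (nat_lit 5) (nat_lit 343) (nat_lit 293) (nat_lit 144))))))) (XT.nd (nat_lit 1014) (nat_lit 1140) (nat_lit 0) (XT.nd (nat_lit 468) (nat_lit 1064) (nat_lit 0) (XT.nd (nat_lit 234) (nat_lit 304) (nat_lit 0) (XT.nd (nat_lit 78) (nat_lit 304) (nat_lit 0) (XT.lf (nat_lit 0) (nat_lit 11920926361) (nat_lit 380) (nat_lit 8571858590) (nat_lit 76) (nat_lit 6002282126) (nat_lit 77) (nat_lit 5) (nat_lit 82) (nat_lit 5) (nat_lit 78) (nat_lit 5) (nat_lit 344) (nat_lit 293) (nat_lit 143)) (XT.nd (nat_lit 78) (nat_lit 0) (nat_lit 0) (XT.lf (nat_lit 0) (nat_lit 3676225457) (nat_lit 304) (nat_lit 12533094631) (nat_lit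 380) (nat_lit 10816424489) (nat_lit 73) (nat_lit 5) (nat_lit 77) (nat_lit 5) (nat_lit 78) (nat_lit 5) (nat_lit 345) (nat_lit 293) (nat_lit 142)) (XT.lf (nat_lit 0) (nat_lit 16459222864) (nat_lit 304) (nat_lit 4247793896) (nat_lit 380) (nat_lit 6862912262) (nat_lit 73) (nat_lit 5) (nat_lit 77) (nat_lit 5) (nat_lit 78) (nat_lit 5) (nat_lit 346) (nat_lit 293) (nat_lit 141)))) (XT.nd (nat_lit 78) (nat_lit 76) (nat_lit 0) (XT.lf (nat_lit 0) (nat_lit 1474687372) (nat_lit 228) (nat_lit 23914575283) (nat_lit 304) (nat_lit 2739693770) (nat_lit 70) (nat_lit 5) (nat_lit 73) (nat_lit 5) (nat_lit 74) (nat_lit 5) (nat_lit 347) (nat_lit 293) (nat_lit 140)) (XT.nd (nat_lit 78) (nat_lit 0) (nat_lit 0) (XT.lf (nat_lit 0) (nat_lit 1627445189) (nat_lit 304) (nat_lit 14101843675) (nat_lit 76) (nat_lit 12970547712) (nat_lit 69) (nat_lit 5) (nat_lit 73) (nat_lit 5) (nat_lit 70) (nat_lit 5) (nat_lit 348) (nat_lit 293)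 (nat_lit 139)) (XT.lf (nat_lit 0) (nat_lit 6064970724) (nat_lit 304) (nat_lit 1207932043) (nat_lit 76) (nat_lit 22014298937) (nat_lit 69) (nat_lit 5) (nat_lit 73) (nat_lit 5) (nat_lit 70) (nat_lit 5) (nat_lit 349) (nat_lit 293) (nat_lit 138))))) (XT.nd (nat_lit 234) (nat_lit 532) (nat_lit 0) (XT.nd (nat_lit 78) (nat_lit 228) (nat_lit 0) (XT.lf (nat_lit 0) (nat_lit 10763470315) (nat_lit 380) (nat_lit 17598583834) (nat_lit 76) (nat_lit 1526303498) (nat_lit 65) (nat_lit 5) (nat_lit 70) (nat_lit 5) (nat_lit 66) (nat_lit 5) (nat_lit 350) (nat_lit 293) (nat_lit 137)) (XT.nd (nat_lit 78) (nat_lit 228) (nat_lit 0) (XT.lf (nat_lit 0) (nat_lit 15681913165) (nat_lit 380) (nat_lit 4369935155) (nat_lit 76) (nat_lit 10453335454) (nat_lit 65) (nat_lit 5) (nat_lit 70) (nat_lit 5) (nat_lit 66) (nat_lit 5) (nat_lit 351) (nat_lit 293) (nat_lit 136)) (XT.lf (nat_lit 0) (nat_lit 9432058077) (nat_lit 228) (nat_lit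 11401334265) (nat_lit 304) (nat_lit 10304562856) (nat_lit 62) (nat_lit 5) (nat_lit 65) (nat_lit 5) (nat_lit 66) (nat_lit 5) (nat_lit 352) (nat_lit 293) (nat_lit 135)))) (XT.nd (nat_lit 156) (nat_lit 304) (nat_lit 0) (XT.nd (nat_lit 78) (nat_lit 228) (nat_lit 0) (XT.lf (nat_lit 0) (nat_lit 23730196362) (nat_lit 228) (nat_lit 2448242581) (nat_lit 304) (nat_lit 5610104989) (nat_lit 62) (nat_lit 5) (nat_lit 65) (nat_lit 5) (nat_lit 66) (nat_lit 5) (nat_lit 353) (nat_lit 293) (nat_lit 134)) (XT.lf (nat_lit 0) (nat_lit 6044052273) (nat_lit 228) (nat_lit 25758015916) (nat_lit 304) (nat_lit 653039918) (nat_lit 59) (nat_lit 5) (nat_lit 62) (nat_lit 5) (nat_lit 63) (nat_lit 5) (nat_lit 354) (nat_lit 293) (nat_lit 133))) (XT.nd (nat_lit 78) (nat_lit 228) (nat_lit 0) (XT.lf (nat_lit 0) (nat_lit 4467310487) (nat_lit 304) (nat_lit 12479801239) (nat_lit 76) (nat_lit 16190233985) (nat_lit 58) (nat_lit 5) (nat_lit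 62) (nat_lit 5) (nat_lit 59) (nat_lit 5) (nat_lit 355) (nat_lit 293) (nat_lit 132)) (XT.lf (nat_lit 0) (nat_lit 1892636596) (nat_lit 228) (nat_lit 7848890017) (nat_lit 304) (nat_lit 24097932755) (nat_lit 55) (nat_lit 5) (nat_lit 58) (nat_lit 5) (nat_lit 59) (nat_lit 5) (nat_lit 356) (nat_lit 293) (nat_lit 131)))))) (XT.nd (nat_lit 546) (nat_lit 456) (nat_lit 0) (XT.nd (nat_lit 234) (nat_lit 456) (nat_lit 0) (XT.nd (nat_lit 78) (nat_lit 228) (nat_lit 0) (XT.lf (nat_lit 0) (nat_lit 15311107323) (nat_lit 304) (nat_lit 17629938628) (nat_lit 76) (nat_lit 1617480532) (nat_lit 55) (nat_lit 5) (nat_lit 59) (nat_lit 5) (nat_lit 56) (nat_lit 5) (nat_lit 357) (nat_lit 293) (nat_lit 130)) (XT.nd (nat_lit 78) (nat_lit 228) (nat_lit 0) (XT.lf (nat_lit 0) (nat_lit 21120861767) (nat_lit 304) (nat_lit 2968321186) (nat_lit 76) (nat_lit 11207794138) (nat_lit 55) (nat_lit 5) (nat_lit 59) (nat_lit 5) (nat_lit 56)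 (nat_lit 5) (nat_lit 358) (nat_lit 293) (nat_lit 129)) (XT.lf (nat_lit 0) (nat_lit 12367625936) (nat_lit 228) (nat_lit 14851677348) (nat_lit 304) (nat_lit 8834850050) (nat_lit 52) (nat_lit 5) (nat_lit 55) (nat_lit 5) (nat_lit 56) (nat_lit 5) (nat_lit 359) (nat_lit 293) (nat_lit 128)))) (XT.nd (nat_lit 156) (nat_lit 228) (nat_lit 0) (XT.nd (nat_lit 78) (nat_lit 228) (nat_lit 0) (XT.lf (nat_lit 0) (nat_lit 28217710590) (nat_lit 228) (nat_lit 5308536479) (nat_lit 304) (nat_lit 3307035162) (nat_lit 52) (nat_lit 5) (nat_lit 55) (nat_lit 5) (nat_lit 56) (nat_lit 5) (nat_lit 360) (nat_lit 293) (nat_lit 127)) (XT.lf (nat_lit 0) (nat_lit 2447460464) (nat_lit 228) (nat_lit 30662763838) (nat_lit 76) (nat_lit 4521653525) (nat_lit 49) (nat_lit 5) (nat_lit 52) (nat_lit 5) (nat_lit 50) (nat_lit 5) (nat_lit 361) (nat_lit 293) (nat_lit 126))) (XT.nd (nat_lit 78) (nat_lit 228) (nat_lit 0) (XT.lf (nat_lit 0) (nat_lit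 8444242299) (nat_lit 228) (nat_lit 15346759218) (nat_lit 76) (nat_lit 14658367415) (nat_lit 49) (nat_lit 5) (nat_lit 52) (nat_lit 5) (nat_lit 50) (nat_lit 5) (nat_lit 362) (nat_lit 293) (nat_lit 125)) (XT.lf (nat_lit 0) (nat_lit 430599129) (nat_lit 228) (nat_lit 14190290879) (nat_lit 304) (nat_lit 24670499297) (nat_lit 46) (nat_lit 5) (nat_lit 49) (nat_lit 5) (nat_lit 50) (nat_lit 5) (nat_lit 363) (nat_lit 293) (nat_lit 124))))) (XT.nd (nat_lit 234) (nat_lit 304) (nat_lit 0) (XT.nd (nat_lit 78) (nat_lit 152) (nat_lit 0) (XT.lf (nat_lit 0) (nat_lit 16989406805) (nat_lit 228) (nat_lit 4144285265) (nat_lit 304) (nat_lit 19020455879) (nat_lit 46) (nat_lit 5) (nat_lit 49) (nat_lit 5) (nat_lit 50) (nat_lit 5) (nat_lit 364) (nat_lit 293) (nat_lit 123)) (XT.nd (nat_lit 78) (nat_lit 152) (nat_lit 0) (XT.lf (nat_lit 0) (nat_lit 27897486947) (nat_lit 304) (nat_lit 7063816503) (nat_lit 76) (nat_lit 6079820853)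 (nat_lit 46) (nat_lit 5) (nat_lit 50) (nat_lit 5) (nat_lit 47) (nat_lit 5) (nat_lit 365) (nat_lit 293) (nat_lit 122)) (XT.lf (nat_lit 0) (nat_lit 9661440756) (nat_lit 152) (nat_lit 25332756939) (nat_lit 228) (nat_lit 6956615309) (nat_lit 44) (nat_lit 5) (nat_lit 46) (nat_lit 5) (nat_lit 47) (nat_lit 5) (nat_lit 366) (nat_lit 293) (nat_lit 121)))) (XT.nd (nat_lit 156) (nat_lit 0) (nat_lit 0) (XT.nd (nat_lit 78) (nat_lit 304) (nat_lit 0) (XT.lf (nat_lit 0) (nat_lit 27027125654) (nat_lit 152) (nat_lit 15344167347) (nat_lit 228) (nat_lit 514477897) (nat_lit 44) (nat_lit 5) (nat_lit 46) (nat_lit 5) (nat_lit 47) (nat_lit 5) (nat_lit 367) (nat_lit 293) (nat_lit 120)) (XT.lf (nat_lit 0) (nat_lit 1020039350) (nat_lit 228) (nat_lit 4987472995) (nat_lit 304) (nat_lit 37839321996) (nat_lit 40) (nat_lit 5) (nat_lit 43) (nat_lit 5) (nat_lit 44) (nat_lit 5) (nat_lit 368) (nat_lit 293) (nat_lit 119))) (XT.nd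 (nat_lit 78) (nat_lit 0) (nat_lit 0) (XT.lf (nat_lit 0) (nat_lit 12927403135) (nat_lit 304) (nat_lit 26169097080) (nat_lit 76) (nat_lit 5733701987) (nat_lit 40) (nat_lit 5) (nat_lit 44) (nat_lit 5) (nat_lit 41) (nat_lit 5) (nat_lit 369) (nat_lit 293) (nat_lit 118)) (XT.lf (nat_lit 0) (nat_lit 20100636298) (nat_lit 304) (nat_lit 9066937022) (nat_lit 76) (nat_lit 16674128100) (nat_lit 40) (nat_lit 5) (nat_lit 44) (nat_lit 5) (nat_lit 41) (nat_lit 5) (nat_lit 370) (nat_lit 293) (nat_lit 117))))))))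
noncomputable def xc187 : XT := (XT.nd (nat_lit 34632) (nat_lit 0) (nat_lit 9348) (XT.nd (nat_lit 1014) (nat_lit 532) (nat_lit 0) (XT.nd (nat_lit 468) (nat_lit 380) (nat_lit 0) (XT.nd (nat_lit 234) (nat_lit 380) (nat_lit 0) (XT.nd (nat_lit 78) (nat_lit 0) (nat_lit 0) (XT.lf (nat_lit 0) (nat_lit 8712585378) (nat_lit 152) (nat_lit 18856702389) (nat_lit 228) (nat_lit 19311853821) (nat_lit 38) (nat_lit 5) (nat_lit 40) (nat_lit 5) (nat_lit 41) (nat_lit 5) (nat_lit 371) (nat_lit 293) (nat_lit 116)) (XT.nd (nat_lit 78) (nat_lit 0) (nat_lit 0) (XT.lf (nat_lit 0) (nat_lit 27205696435) (nat_lit 152) (nat_lit 8144379629) (nat_lit 228) (nat_lit 12599049114) (nat_lit 38) (nat_lit 5) (nat_lit 40) (nat_lit 5) (nat_lit 41) (nat_lit 5) (nat_lit 372) (nat_lit 293) (nat_lit 115)) (XT.lf (nat_lit 0) (nat_lit 43388661899) (nat_lit 228) (nat_lit 2828900278) (nat_lit 76) (nat_lit 2830857343) (nat_lit 38) (nat_lit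 5) (nat_lit 41) (nat_lit 5) (nat_lit 39) (nat_lit 5) (nat_lit 373) (nat_lit 293) (nat_lit 114)))) (XT.nd (nat_lit 78) (nat_lit 152) (nat_lit 0) (XT.lf (nat_lit 0) (nat_lit 1690613628) (nat_lit 228) (nat_lit 34344152827) (nat_lit 76) (nat_lit 14138541584) (nat_lit 35) (nat_lit 5) (nat_lit 38) (nat_lit 5) (nat_lit 36) (nat_lit 5) (nat_lit 374) (nat_lit 293) (nat_lit 113)) (XT.nd (nat_lit 78) (nat_lit 152) (nat_lit 0) (XT.lf (nat_lit 0) (nat_lit 9173298819) (nat_lit 228) (nat_lit 16287895346) (nat_lit 76) (nat_lit 25868303437) (nat_lit 35) (nat_lit 5) (nat_lit 38) (nat_lit 5) (nat_lit 36) (nat_lit 5) (nat_lit 375) (nat_lit 293) (nat_lit 112)) (XT.lf (nat_lit 0) (nat_lit 2350646493) (nat_lit 152) (nat_lit 14549218920) (nat_lit 228) (nat_lit 35619927600) (nat_lit 33) (nat_lit 5) (nat_lit 35) (nat_lit 5) (nat_lit 36) (nat_lit 5) (nat_lit 376) (nat_lit 293) (nat_lit 111))))) (XT.nd (nat_lit 234) (nat_lit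 228) (nat_lit 0) (XT.nd (nat_lit 78) (nat_lit 152) (nat_lit 0) (XT.lf (nat_lit 0) (nat_lit 21877009224) (nat_lit 152) (nat_lit 3142543452) (nat_lit 228) (nat_lit 28721407023) (nat_lit 33) (nat_lit 5) (nat_lit 35) (nat_lit 5) (nat_lit 36) (nat_lit 5) (nat_lit 377) (nat_lit 293) (nat_lit 110)) (XT.nd (nat_lit 78) (nat_lit 152) (nat_lit 0) (XT.lf (nat_lit 0) (nat_lit 33462480253) (nat_lit 228) (nat_lit 13097471616) (nat_lit 76) (nat_lit 8436422089) (nat_lit 33) (nat_lit 5) (nat_lit 36) (nat_lit 5) (nat_lit 34) (nat_lit 5) (nat_lit 378) (nat_lit 293) (nat_lit 109)) (XT.lf (nat_lit 0) (nat_lit 6319203826) (nat_lit 152) (nat_lit 35928360236) (nat_lit 228) (nat_lit 14039222531) (nat_lit 31) (nat_lit 5) (nat_lit 33) (nat_lit 5) (nat_lit 34) (nat_lit 5) (nat_lit 379) (nat_lit 293) (nat_lit 108)))) (XT.nd (nat_lit 156) (nat_lit 152) (nat_lit 0) (XT.nd (nat_lit 78) (nat_lit 76) (nat_lit 0) (XT.lf (nat_lit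 0) (nat_lit 26581919902) (nat_lit 152) (nat_lit 24843588881) (nat_lit 228) (nat_lit 6186525516) (nat_lit 31) (nat_lit 5) (nat_lit 33) (nat_lit 5) (nat_lit 34) (nat_lit 5) (nat_lit 380) (nat_lit 293) (nat_lit 107)) (XT.lf (nat_lit 0) (nat_lit 1861747705) (nat_lit 228) (nat_lit 11547663156) (nat_lit 76) (nat_lit 45567168823) (nat_lit 30) (nat_lit 5) (nat_lit 33) (nat_lit 5) (nat_lit 31) (nat_lit 5) (nat_lit 381) (nat_lit 293) (nat_lit 106))) (XT.nd (nat_lit 78) (nat_lit 0) (nat_lit 0) (XT.lf (nat_lit 0) (nat_lit 8621527134) (nat_lit 152) (nat_lit 1485663991) (nat_lit 228) (nat_lit 50270632550) (nat_lit 28) (nat_lit 5) (nat_lit 30) (nat_lit 5) (nat_lit 31) (nat_lit 5) (nat_lit 382) (nat_lit 293) (nat_lit 105)) (XT.lf (nat_lit 0) (nat_lit 18818745267) (nat_lit 228) (nat_lit 32294767365) (nat_lit 76) (nat_lit 10701031659) (nat_lit 28) (nat_lit 5) (nat_lit 31) (nat_lit 5) (nat_lit 29) (nat_lit 5)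 (nat_lit 383) (nat_lit 293) (nat_lit 104)))))) (XT.nd (nat_lit 468) (nat_lit 228) (nat_lit 0) (XT.nd (nat_lit 234) (nat_lit 152) (nat_lit 0) (XT.nd (nat_lit 78) (nat_lit 152) (nat_lit 0) (XT.lf (nat_lit 0) (nat_lit 27803645218) (nat_lit 228) (nat_lit 12268703041) (nat_lit 76) (nat_lit 23221659966) (nat_lit 28) (nat_lit 5) (nat_lit 31) (nat_lit 5) (nat_lit 29) (nat_lit 5) (nat_lit 384) (nat_lit 293) (nat_lit 103)) (XT.nd (nat_lit 78) (nat_lit 0) (nat_lit 0) (XT.lf (nat_lit 0) (nat_lit 8519930578) (nat_lit 152) (nat_lit 28617428959) (nat_lit 228) (nat_lit 27678120148) (nat_lit 26) (nat_lit 5) (nat_lit 28) (nat_lit 5) (nat_lit 29) (nat_lit 5) (nat_lit 385) (nat_lit 293) (nat_lit 102)) (XT.lf (nat_lit 0) (nat_lit 30179296219) (nat_lit 152) (nat_lit 16693081619) (nat_lit 228) (nat_lit 19506580254) (nat_lit 26) (nat_lit 5) (nat_lit 28) (nat_lit 5) (nat_lit 29) (nat_lit 5) (nat_lit 386) (nat_lit 293)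 (nat_lit 101)))) (XT.nd (nat_lit 78) (nat_lit 152) (nat_lit 0) (XT.lf (nat_lit 0) (nat_lit 52484148293) (nat_lit 152) (nat_lit 4412776751) (nat_lit 228) (nat_lit 11092492990) (nat_lit 26) (nat_lit 5) (nat_lit 28) (nat_lit 5) (nat_lit 29) (nat_lit 5) (nat_lit 387) (nat_lit 293) (nat_lit 100)) (XT.nd (nat_lit 78) (nat_lit 76) (nat_lit 0) (XT.lf (nat_lit 0) (nat_lit 5840527166) (nat_lit 76) (nat_lit 61514528345) (nat_lit 152) (nat_lit 2289152348) (nat_lit 25) (nat_lit 5) (nat_lit 26) (nat_lit 5) (nat_lit 27) (nat_lit 4) (nat_lit 388) (nat_lit 293) (nat_lit 99)) (XT.lf (nat_lit 0) (nat_lit 6845374890) (nat_lit 152) (nat_lit 43314038254) (nat_lit 76) (nat_lit 21181294270) (nat_lit 24) (nat_lit 5) (nat_lit 26) (nat_lit 5) (nat_lit 25) (nat_lit 5) (nat_lit 389) (nat_lit 293) (nat_lit 98))))) (XT.nd (nat_lit 234) (nat_lit 76) (nat_lit 0) (XT.nd (nat_lit 78) (nat_lit 152) (nat_lit 0) (XT.lf (nat_lit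 0) (nat_lit 16205541158) (nat_lit 152) (nat_lit 22236484746) (nat_lit 76) (nat_lit 34645469083) (nat_lit 24) (nat_lit 5) (nat_lit 26) (nat_lit 5) (nat_lit 25) (nat_lit 5) (nat_lit 390) (nat_lit 293) (nat_lit 97)) (XT.nd (nat_lit 78) (nat_lit 152) (nat_lit 0) (XT.lf (nat_lit 0) (nat_lit 25844194848) (nat_lit 152) (nat_lit 530598156) (nat_lit 76) (nat_lit 48511964033) (nat_lit 24) (nat_lit 5) (nat_lit 26) (nat_lit 5) (nat_lit 25) (nat_lit 5) (nat_lit 391) (nat_lit 293) (nat_lit 96)) (XT.lf (nat_lit 0) (nat_lit 22256900111) (nat_lit 152) (nat_lit 13726804913) (nat_lit 228) (nat_lit 40749942302) (nat_lit 22) (nat_lit 5) (nat_lit 24) (nat_lit 5) (nat_lit 25) (nat_lit 5) (nat_lit 392) (nat_lit 293) (nat_lit 95)))) (XT.nd (nat_lit 156) (nat_lit 76) (nat_lit 0) (XT.nd (nat_lit 78) (nat_lit 0) (nat_lit 0) (XT.lf (nat_lit 0) (nat_lit 45735060873) (nat_lit 152) (nat_lit 695476201) (nat_lit 228) (nat_lit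 32205314401) (nat_lit 22) (nat_lit 5) (nat_lit 24) (nat_lit 5) (nat_lit 25) (nat_lit 5) (nat_lit 393) (nat_lit 293) (nat_lit 94)) (XT.lf (nat_lit 0) (nat_lit 57310939970) (nat_lit 228) (nat_lit 10803671194) (nat_lit 76) (nat_lit 12476906818) (nat_lit 22) (nat_lit 5) (nat_lit 25) (nat_lit 5) (nat_lit 23) (nat_lit 4) (nat_lit 394) (nat_lit 293) (nat_lit 93))) (XT.nd (nat_lit 78) (nat_lit 0) (nat_lit 0) (XT.lf (nat_lit 0) (nat_lit 12183552745) (nat_lit 76) (nat_lit 56456095302) (nat_lit 152) (nat_lit 13962550821) (nat_lit 21) (nat_lit 5) (nat_lit 22) (nat_lit 5) (nat_lit 23) (nat_lit 4) (nat_lit 395) (nat_lit 293) (nat_lit 92)) (XT.lf (nat_lit 0) (nat_lit 36078225888) (nat_lit 76) (nat_lit 44337005301) (nat_lit 152) (nat_lit 4254759717) (nat_lit 21) (nat_lit 5) (nat_lit 22) (nat_lit 5) (nat_lit 23) (nat_lit 4) (nat_lit 396) (nat_lit 293) (nat_lit 91))))))) (XT.nd (nat_lit 1014) (nat_lit 3496) (nat_lit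 0) (XT.nd (nat_lit 468) (nat_lit 0) (nat_lit 152) (XT.nd (nat_lit 234) (nat_lit 0) (nat_lit 76) (XT.nd (nat_lit 78) (nat_lit 0) (nat_lit 0) (XT.lf (nat_lit 0) (nat_lit 1705262615) (nat_lit 1140) (nat_lit 2032526023) (nat_lit 1140) (nat_lit 2032526023) (nat_lit 190) (nat_lit 3) (nat_lit 205) (nat_lit 3) (nat_lit 205) (nat_lit 5) (nat_lit 294) (nat_lit 294) (nat_lit 192)) (XT.nd (nat_lit 78) (nat_lit 0) (nat_lit 76) (XT.lf (nat_lit 76) (nat_lit 1068166553) (nat_lit 0) (nat_lit 2886309040) (nat_lit 1140) (nat_lit 7743701263) (nat_lit 191) (nat_lit 5) (nat_lit 190) (nat_lit 3) (nat_lit 205) (nat_lit 5) (nat_lit 295) (nat_lit 294) (nat_lit 191)) (XT.lf (nat_lit 0) (nat_lit 4555053168) (nat_lit 1064) (nat_lit 5449199455) (nat_lit 1140) (nat_lit 1855019298) (nat_lit 191) (nat_lit 5) (nat_lit 205) (nat_lit 5) (nat_lit 206) (nat_lit 5) (nat_lit 296) (nat_lit 294) (nat_lit 190)))) (XT.nd (nat_lit 78)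 (nat_lit 0) (nat_lit 0) (XT.lf (nat_lit 0) (nat_lit 5183934019) (nat_lit 1064) (nat_lit 151824751) (nat_lit 1140) (nat_lit 6689161974) (nat_lit 191) (nat_lit 5) (nat_lit 205) (nat_lit 5) (nat_lit 206) (nat_lit 5) (nat_lit 297) (nat_lit 294) (nat_lit 189)) (XT.nd (nat_lit 78) (nat_lit 0) (nat_lit 76) (XT.lf (nat_lit 76) (nat_lit 5399858234) (nat_lit 0) (nat_lit 465971191) (nat_lit 1140) (nat_lit 6328713788) (nat_lit 192) (nat_lit 5) (nat_lit 191) (nat_lit 5) (nat_lit 206) (nat_lit 5) (nat_lit 298) (nat_lit 294) (nat_lit 188)) (XT.lf (nat_lit 0) (nat_lit 6596201746) (nat_lit 1064) (nat_lit 1302261360) (nat_lit 1140) (nat_lit 4469978439) (nat_lit 192) (nat_lit 5) (nat_lit 206) (nat_lit 5) (nat_lit 207) (nat_lit 5) (nat_lit 299) (nat_lit 294) (nat_lit 187))))) (XT.nd (nat_lit 234) (nat_lit 0) (nat_lit 76) (XT.nd (nat_lit 78) (nat_lit 0) (nat_lit 76) (XT.lf (nat_lit 76) (nat_lit 4426499042) (nat_lit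 0) (nat_lit 2952388068) (nat_lit 1140) (nat_lit 5167784644) (nat_lit 193) (nat_lit 5) (nat_lit 192) (nat_lit 5) (nat_lit 207) (nat_lit 5) (nat_lit 300) (nat_lit 294) (nat_lit 186)) (XT.nd (nat_lit 78) (nat_lit 0) (nat_lit 0) (XT.lf (nat_lit 0) (nat_lit 8202613898) (nat_lit 1064) (nat_lit 2407435004) (nat_lit 1140) (nat_lit 2119699337) (nat_lit 193) (nat_lit 5) (nat_lit 207) (nat_lit 5) (nat_lit 208) (nat_lit 5) (nat_lit 301) (nat_lit 294) (nat_lit 185)) (XT.lf (nat_lit 76) (nat_lit 3505492124) (nat_lit 0) (nat_lit 5592653424) (nat_lit 1140) (nat_lit 3818784111) (nat_lit 194) (nat_lit 5) (nat_lit 193) (nat_lit 5) (nat_lit 208) (nat_lit 5) (nat_lit 302) (nat_lit 294) (nat_lit 184)))) (XT.nd (nat_lit 156) (nat_lit 0) (nat_lit 76) (XT.nd (nat_lit 78) (nat_lit 0) (nat_lit 76) (XT.lf (nat_lit 76) (nat_lit 9634892828) (nat_lit 0) (nat_lit 394487812) (nat_lit 1140) (nat_lit 3080105449) (nat_lit 194)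 (nat_lit 5) (nat_lit 193) (nat_lit 5) (nat_lit 208) (nat_lit 5) (nat_lit 303) (nat_lit 294) (nat_lit 183)) (XT.lf (nat_lit 76) (nat_lit 2633583525) (nat_lit 0) (nat_lit 8412986200) (nat_lit 1140) (nat_lit 2259532954) (nat_lit 195) (nat_lit 5) (nat_lit 194) (nat_lit 5) (nat_lit 209) (nat_lit 5) (nat_lit 304) (nat_lit 294) (nat_lit 182))) (XT.nd (nat_lit 78) (nat_lit 0) (nat_lit 76) (XT.lf (nat_lit 76) (nat_lit 8981862061) (nat_lit 0) (nat_lit 3136729212) (nat_lit 1140) (nat_lit 1389320262) (nat_lit 195) (nat_lit 5) (nat_lit 194) (nat_lit 5) (nat_lit 209) (nat_lit 5) (nat_lit 305) (nat_lit 294) (nat_lit 181)) (XT.lf (nat_lit 76) (nat_lit 1807423771) (nat_lit 0) (nat_lit 11440640462) (nat_lit 1140) (nat_lit 466974299) (nat_lit 196) (nat_lit 5) (nat_lit 195) (nat_lit 5) (nat_lit 210) (nat_lit 5) (nat_lit 306) (nat_lit 294) (nat_lit 180)))))) (XT.nd (nat_lit 546) (nat_lit 1748) (nat_lit 0) (XT.nd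 (nat_lit 234) (nat_lit 988) (nat_lit 0) (XT.nd (nat_lit 78) (nat_lit 0) (nat_lit 0) (XT.lf (nat_lit 0) (nat_lit 536811711) (nat_lit 1140) (nat_lit 5550248459) (nat_lit 1216) (nat_lit 7839305302) (nat_lit 180) (nat_lit 5) (nat_lit 195) (nat_lit 5) (nat_lit 196) (nat_lit 5) (nat_lit 307) (nat_lit 294) (nat_lit 179)) (XT.nd (nat_lit 78) (nat_lit 0) (nat_lit 76) (XT.lf (nat_lit 76) (nat_lit 1002319327) (nat_lit 0) (nat_lit 555031542) (nat_lit 1216) (nat_lit 12586682568) (nat_lit 181) (nat_lit 5) (nat_lit 180) (nat_lit 5) (nat_lit 196) (nat_lit 5) (nat_lit 308) (nat_lit 294) (nat_lit 178)) (XT.lf (nat_lit 0) (nat_lit 2701260726) (nat_lit 1140) (nat_lit 6562103690) (nat_lit 1216) (nat_lit 5102104466) (nat_lit 181) (nat_lit 5) (nat_lit 196) (nat_lit 5) (nat_lit 197) (nat_lit 5) (nat_lit 309) (nat_lit 294) (nat_lit 177)))) (XT.nd (nat_lit 156) (nat_lit 1064) (nat_lit 0) (XT.nd (nat_lit 78) (nat_lit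 0) (nat_lit 76) (XT.lf (nat_lit 76) (nat_lit 202872756) (nat_lit 0) (nat_lit 3671163263) (nat_lit 1216) (nat_lit 10719694419) (nat_lit 182) (nat_lit 5) (nat_lit 181) (nat_lit 5) (nat_lit 197) (nat_lit 5) (nat_lit 310) (nat_lit 294) (nat_lit 176)) (XT.lf (nat_lit 0) (nat_lit 5156393902) (nat_lit 1140) (nat_lit 7553073655) (nat_lit 76) (nat_lit 2117159229) (nat_lit 182) (nat_lit 5) (nat_lit 197) (nat_lit 5) (nat_lit 183) (nat_lit 5) (nat_lit 311) (nat_lit 294) (nat_lit 175))) (XT.nd (nat_lit 78) (nat_lit 1140) (nat_lit 0) (XT.lf (nat_lit 0) (nat_lit 6501337668) (nat_lit 1140) (nat_lit 556991627) (nat_lit 76) (nat_lit 8007475648) (nat_lit 182) (nat_lit 5) (nat_lit 197) (nat_lit 5) (nat_lit 183) (nat_lit 5) (nat_lit 312) (nat_lit 294) (nat_lit 174)) (XT.lf (nat_lit 0) (nat_lit 6770915907) (nat_lit 1140) (nat_lit 1168923322) (nat_lit 1216) (nat_lit 7370740769) (nat_lit 167) (nat_lit 5) (nat_lit 182)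 (nat_lit 5) (nat_lit 183) (nat_lit 5) (nat_lit 313) (nat_lit 294) (nat_lit 173))))) (XT.nd (nat_lit 234) (nat_lit 1216) (nat_lit 0) (XT.nd (nat_lit 78) (nat_lit 532) (nat_lit 0) (XT.lf (nat_lit 0) (nat_lit 9462637756) (nat_lit 1216) (nat_lit 1290044449) (nat_lit 76) (nat_lit 4808799162) (nat_lit 167) (nat_lit 5) (nat_lit 183) (nat_lit 5) (nat_lit 168) (nat_lit 5) (nat_lit 314) (nat_lit 294) (nat_lit 172)) (XT.nd (nat_lit 78) (nat_lit 0) (nat_lit 0) (XT.lf (nat_lit 0) (nat_lit 6277835115) (nat_lit 532) (nat_lit 4813930413) (nat_lit 608) (nat_lit 4726341703) (nat_lit 160) (nat_lit 5) (nat_lit 167) (nat_lit 5) (nat_lit 168) (nat_lit 5) (nat_lit 315) (nat_lit 294) (nat_lit 171)) (XT.lf (nat_lit 0) (nat_lit 12784414668) (nat_lit 608) (nat_lit 2005915236) (nat_lit 76) (nat_lit 1291678866) (nat_lit 160) (nat_lit 5) (nat_lit 168) (nat_lit 5) (nat_lit 161) (nat_lit 5) (nat_lit 316) (nat_lit 294) (nat_lit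 170)))) (XT.nd (nat_lit 156) (nat_lit 608) (nat_lit 0) (XT.nd (nat_lit 78) (nat_lit 0) (nat_lit 0) (XT.lf (nat_lit 0) (nat_lit 5810072665) (nat_lit 608) (nat_lit 8810571184) (nat_lit 684) (nat_lit 1730415338) (nat_lit 152) (nat_lit 5) (nat_lit 160) (nat_lit 5) (nat_lit 161) (nat_lit 5) (nat_lit 317) (nat_lit 294) (nat_lit 169)) (XT.lf (nat_lit 0) (nat_lit 13891646190) (nat_lit 608) (nat_lit 2630073194) (nat_lit 684) (nat_lit 106184335) (nat_lit 152) (nat_lit 5) (nat_lit 160) (nat_lit 5) (nat_lit 161) (nat_lit 5) (nat_lit 318) (nat_lit 294) (nat_lit 168))) (XT.nd (nat_lit 78) (nat_lit 0) (nat_lit 0) (XT.lf (nat_lit 0) (nat_lit 1614211418) (nat_lit 608) (nat_lit 11565303228) (nat_lit 76) (nat_lit 3730761287) (nat_lit 144) (nat_lit 5) (nat_lit 152) (nat_lit 5) (nat_lit 145) (nat_lit 5) (nat_lit 319) (nat_lit 294) (nat_lit 167)) (XT.lf (nat_lit 0) (nat_lit 3427931447) (nat_lit 608) (nat_lit 3513088554)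 (nat_lit 76) (nat_lit 10258766455) (nat_lit 144) (nat_lit 5) (nat_lit 152) (nat_lit 5) (nat_lit 145) (nat_lit 5) (nat_lit 320) (nat_lit 294) (nat_lit 166))))))))
noncomputable def xc188 : XT := (XT.nd (nat_lit 2028) (nat_lit 2660) (nat_lit 0) (XT.nd (nat_lit 1014) (nat_lit 2204) (nat_lit 0) (XT.nd (nat_lit 468) (nat_lit 1748) (nat_lit 0) (XT.nd (nat_lit 234) (nat_lit 456) (nat_lit 0) (XT.nd (nat_lit 78) (nat_lit 456) (nat_lit 0) (XT.lf (nat_lit 0) (nat_lit 4865773973) (nat_lit 532) (nat_lit 467257882) (nat_lit 608) (nat_lit 12163855047) (nat_lit 137) (nat_lit 5) (nat_lit 144) (nat_lit 5) (nat_lit 145) (nat_lit 5) (nat_lit 321) (nat_lit 294) (nat_lit 165)) (XT.nd (nat_lit 78) (nat_lit 456) (nat_lit 0) (XT.lf (nat_lit 0) (nat_lit 7381103005) (nat_lit 608) (nat_lit 4303845929) (nat_lit 76) (nat_lit 6115390170) (nat_lit 137) (nat_lit 5) (nat_lit 145) (nat_lit 5) (nat_lit 138) (nat_lit 5) (nat_lit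 322) (nat_lit 294) (nat_lit 164)) (XT.lf (nat_lit 0) (nat_lit 4343594517) (nat_lit 456) (nat_lit 5184067487) (nat_lit 532) (nat_lit 8584134383) (nat_lit 131) (nat_lit 5) (nat_lit 137) (nat_lit 5) (nat_lit 138) (nat_lit 5) (nat_lit 323) (nat_lit 294) (nat_lit 163)))) (XT.nd (nat_lit 78) (nat_lit 456) (nat_lit 0) (XT.lf (nat_lit 0) (nat_lit 11787881062) (nat_lit 532) (nat_lit 5117537483) (nat_lit 76) (nat_lit 1525713456) (nat_lit 131) (nat_lit 5) (nat_lit 138) (nat_lit 5) (nat_lit 132) (nat_lit 5) (nat_lit 324) (nat_lit 294) (nat_lit 162)) (XT.nd (nat_lit 78) (nat_lit 0) (nat_lit 0) (XT.lf (nat_lit 0) (nat_lit 3805913040) (nat_lit 456) (nat_lit 10389012464) (nat_lit 532) (nat_lit 4562763762) (nat_lit 125) (nat_lit 5) (nat_lit 131) (nat_lit 5) (nat_lit 132) (nat_lit 5) (nat_lit 325) (nat_lit 294) (nat_lit 161)) (XT.lf (nat_lit 0) (nat_lit 13092392953) (nat_lit 456) (nat_lit 3624739022) (nat_lit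 532) (nat_lit 2375634546) (nat_lit 125) (nat_lit 5) (nat_lit 131) (nat_lit 5) (nat_lit 132) (nat_lit 5) (nat_lit 326) (nat_lit 294) (nat_lit 160))))) (XT.nd (nat_lit 234) (nat_lit 760) (nat_lit 0) (XT.nd (nat_lit 78) (nat_lit 532) (nat_lit 0) (XT.lf (nat_lit 0) (nat_lit 3241130196) (nat_lit 456) (nat_lit 16128679782) (nat_lit 532) (nat_lit 66453406) (nat_lit 119) (nat_lit 5) (nat_lit 125) (nat_lit 5) (nat_lit 126) (nat_lit 5) (nat_lit 327) (nat_lit 294) (nat_lit 159)) (XT.nd (nat_lit 78) (nat_lit 456) (nat_lit 0) (XT.lf (nat_lit 0) (nat_lit 2355550616) (nat_lit 532) (nat_lit 6973721277) (nat_lit 76) (nat_lit 10457477431) (nat_lit 118) (nat_lit 5) (nat_lit 125) (nat_lit 5) (nat_lit 119) (nat_lit 5) (nat_lit 328) (nat_lit 294) (nat_lit 158)) (XT.lf (nat_lit 0) (nat_lit 2564353726) (nat_lit 456) (nat_lit 2301003215) (nat_lit 532) (nat_lit 15281889306) (nat_lit 112) (nat_lit 5) (nat_lit 118) (nat_lit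 5) (nat_lit 119) (nat_lit 5) (nat_lit 329) (nat_lit 294) (nat_lit 157)))) (XT.nd (nat_lit 156) (nat_lit 380) (nat_lit 0) (XT.nd (nat_lit 78) (nat_lit 380) (nat_lit 0) (XT.lf (nat_lit 0) (nat_lit 7561008415) (nat_lit 532) (nat_lit 8042593635) (nat_lit 76) (nat_lit 4911649672) (nat_lit 112) (nat_lit 5) (nat_lit 119) (nat_lit 5) (nat_lit 113) (nat_lit 5) (nat_lit 330) (nat_lit 294) (nat_lit 156)) (XT.lf (nat_lit 0) (nat_lit 1786766996) (nat_lit 380) (nat_lit 8582918827) (nat_lit 456) (nat_lit 10523656723) (nat_lit 107) (nat_lit 5) (nat_lit 112) (nat_lit 5) (nat_lit 113) (nat_lit 5) (nat_lit 331) (nat_lit 294) (nat_lit 155))) (XT.nd (nat_lit 78) (nat_lit 380) (nat_lit 0) (XT.lf (nat_lit 0) (nat_lit 12066732964) (nat_lit 380) (nat_lit 1269443054) (nat_lit 456) (nat_lit 7944403092) (nat_lit 107) (nat_lit 5) (nat_lit 112) (nat_lit 5) (nat_lit 113) (nat_lit 5) (nat_lit 332) (nat_lit 294) (nat_lit 154))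 (XT.lf (nat_lit 0) (nat_lit 924402366) (nat_lit 380) (nat_lit 15528899863) (nat_lit 456) (nat_lit 5224290612) (nat_lit 102) (nat_lit 5) (nat_lit 107) (nat_lit 5) (nat_lit 108) (nat_lit 5) (nat_lit 333) (nat_lit 294) (nat_lit 153)))))) (XT.nd (nat_lit 468) (nat_lit 1368) (nat_lit 0) (XT.nd (nat_lit 234) (nat_lit 380) (nat_lit 0) (XT.nd (nat_lit 78) (nat_lit 456) (nat_lit 0) (XT.lf (nat_lit 0) (nat_lit 11533850205) (nat_lit 380) (nat_lit 8228257235) (nat_lit 456) (nat_lit 2321473625) (nat_lit 102) (nat_lit 5) (nat_lit 107) (nat_lit 5) (nat_lit 108) (nat_lit 5) (nat_lit 334) (nat_lit 294) (nat_lit 152)) (XT.nd (nat_lit 78) (nat_lit 380) (nat_lit 0) (XT.lf (nat_lit 0) (nat_lit 648196626) (nat_lit 456) (nat_lit 55486168) (nat_lit 76) (nat_lit 21798097537) (nat_lit 101) (nat_lit 5) (nat_lit 107) (nat_lit 5) (nat_lit 102) (nat_lit 5) (nat_lit 335) (nat_lit 294) (nat_lit 151)) (XT.lf (nat_lit 0) (nat_lit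 3827425458) (nat_lit 456) (nat_lit 12062534268) (nat_lit 76) (nat_lit 7036870740) (nat_lit 96) (nat_lit 5) (nat_lit 102) (nat_lit 5) (nat_lit 97) (nat_lit 5) (nat_lit 336) (nat_lit 294) (nat_lit 150)))) (XT.nd (nat_lit 78) (nat_lit 380) (nat_lit 0) (XT.lf (nat_lit 0) (nat_lit 7102690508) (nat_lit 456) (nat_lit 1267525728) (nat_lit 76) (nat_lit 14994404117) (nat_lit 96) (nat_lit 5) (nat_lit 102) (nat_lit 5) (nat_lit 97) (nat_lit 5) (nat_lit 337) (nat_lit 294) (nat_lit 149)) (XT.nd (nat_lit 78) (nat_lit 0) (nat_lit 0) (XT.lf (nat_lit 0) (nat_lit 10038732491) (nat_lit 380) (nat_lit 527306008) (nat_lit 456) (nat_lit 13246818486) (nat_lit 91) (nat_lit 5) (nat_lit 96) (nat_lit 5) (nat_lit 97) (nat_lit 5) (nat_lit 338) (nat_lit 294) (nat_lit 148)) (XT.lf (nat_lit 0) (nat_lit 14212219286) (nat_lit 456) (nat_lit 2645301492) (nat_lit 76) (nat_lit 7414659538) (nat_lit 91) (nat_lit 5) (nat_lit 97) (nat_lit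 5) (nat_lit 92) (nat_lit 5) (nat_lit 339) (nat_lit 294) (nat_lit 147))))) (XT.nd (nat_lit 234) (nat_lit 608) (nat_lit 0) (XT.nd (nat_lit 78) (nat_lit 456) (nat_lit 0) (XT.lf (nat_lit 0) (nat_lit 8979033254) (nat_lit 304) (nat_lit 9073898951) (nat_lit 380) (nat_lit 6689804088) (nat_lit 87) (nat_lit 5) (nat_lit 91) (nat_lit 5) (nat_lit 92) (nat_lit 5) (nat_lit 340) (nat_lit 294) (nat_lit 146)) (XT.nd (nat_lit 78) (nat_lit 456) (nat_lit 0) (XT.lf (nat_lit 0) (nat_lit 20998060573) (nat_lit 304) (nat_lit 1031238764) (nat_lit 380) (nat_lit 3197503764) (nat_lit 87) (nat_lit 5) (nat_lit 91) (nat_lit 5) (nat_lit 92) (nat_lit 5) (nat_lit 341) (nat_lit 294) (nat_lit 145)) (XT.lf (nat_lit 0) (nat_lit 530987404) (nat_lit 456) (nat_lit 18001369046) (nat_lit 76) (nat_lit 7188750398) (nat_lit 81) (nat_lit 5) (nat_lit 87) (nat_lit 5) (nat_lit 82) (nat_lit 5) (nat_lit 342) (nat_lit 294) (nat_lit 144)))) (XT.nd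 (nat_lit 156) (nat_lit 304) (nat_lit 0) (XT.nd (nat_lit 78) (nat_lit 304) (nat_lit 0) (XT.lf (nat_lit 0) (nat_lit 4354320549) (nat_lit 456) (nat_lit 6166133960) (nat_lit 76) (nat_lit 15707424357) (nat_lit 81) (nat_lit 5) (nat_lit 87) (nat_lit 5) (nat_lit 82) (nat_lit 5) (nat_lit 343) (nat_lit 294) (nat_lit 143)) (XT.lf (nat_lit 0) (nat_lit 6135890131) (nat_lit 304) (nat_lit 2209541424) (nat_lit 380) (nat_lit 18402836493) (nat_lit 77) (nat_lit 5) (nat_lit 81) (nat_lit 5) (nat_lit 82) (nat_lit 5) (nat_lit 344) (nat_lit 294) (nat_lit 142))) (XT.nd (nat_lit 78) (nat_lit 304) (nat_lit 0) (XT.lf (nat_lit 0) (nat_lit 12574376466) (nat_lit 380) (nat_lit 8418772576) (nat_lit 76) (nat_lit 6287583002) (nat_lit 77) (nat_lit 5) (nat_lit 82) (nat_lit 5) (nat_lit 78) (nat_lit 5) (nat_lit 345) (nat_lit 294) (nat_lit 141)) (XT.lf (nat_lit 0) (nat_lit 4192732015) (nat_lit 304) (nat_lit 12793978639) (nat_lit 380)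 (nat_lit 10840769653) (nat_lit 73) (nat_lit 5) (nat_lit 77) (nat_lit 5) (nat_lit 78) (nat_lit 5) (nat_lit 346) (nat_lit 294) (nat_lit 140))))))) (XT.nd (nat_lit 1014) (nat_lit 1292) (nat_lit 0) (XT.nd (nat_lit 468) (nat_lit 760) (nat_lit 0) (XT.nd (nat_lit 234) (nat_lit 304) (nat_lit 0) (XT.nd (nat_lit 78) (nat_lit 304) (nat_lit 0) (XT.lf (nat_lit 0) (nat_lit 17347387700) (nat_lit 304) (nat_lit 4263471566) (nat_lit 380) (nat_lit 6777394221) (nat_lit 73) (nat_lit 5) (nat_lit 77) (nat_lit 5) (nat_lit 78) (nat_lit 5) (nat_lit 347) (nat_lit 294) (nat_lit 139)) (XT.nd (nat_lit 78) (nat_lit 76) (nat_lit 0) (XT.lf (nat_lit 0) (nat_lit 1917073248) (nat_lit 228) (nat_lit 24513137485) (nat_lit 304) (nat_lit 2533950411) (nat_lit 70) (nat_lit 5) (nat_lit 73) (nat_lit 5) (nat_lit 74) (nat_lit 5) (nat_lit 348) (nat_lit 294) (nat_lit 138)) (XT.lf (nat_lit 0) (nat_lit 1950361302) (nat_lit 304) (nat_lit 14132625752)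 (nat_lit 76) (nat_lit 13469352378) (nat_lit 69) (nat_lit 5) (nat_lit 73) (nat_lit 5) (nat_lit 70) (nat_lit 5) (nat_lit 349) (nat_lit 294) (nat_lit 137)))) (XT.nd (nat_lit 78) (nat_lit 304) (nat_lit 0) (XT.lf (nat_lit 0) (nat_lit 6513029318) (nat_lit 304) (nat_lit 863322206) (nat_lit 76) (nat_lit 22781221337) (nat_lit 69) (nat_lit 5) (nat_lit 73) (nat_lit 5) (nat_lit 70) (nat_lit 5) (nat_lit 350) (nat_lit 294) (nat_lit 136)) (XT.nd (nat_lit 78) (nat_lit 0) (nat_lit 0) (XT.lf (nat_lit 0) (nat_lit 11349464889) (nat_lit 380) (nat_lit 17742420550) (nat_lit 76) (nat_lit 1684976233) (nat_lit 65) (nat_lit 5) (nat_lit 70) (nat_lit 5) (nat_lit 66) (nat_lit 5) (nat_lit 351) (nat_lit 294) (nat_lit 135)) (XT.lf (nat_lit 0) (nat_lit 16407798196) (nat_lit 380) (nat_lit 4128100395) (nat_lit 76) (nat_lit 10876531274) (nat_lit 65) (nat_lit 5) (nat_lit 70) (nat_lit 5) (nat_lit 66) (nat_lit 5) (nat_lit 352) (nat_lit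 294) (nat_lit 134))))) (XT.nd (nat_lit 234) (nat_lit 304) (nat_lit 0) (XT.nd (nat_lit 78) (nat_lit 228) (nat_lit 0) (XT.lf (nat_lit 0) (nat_lit 10084296430) (nat_lit 228) (nat_lit 11625635391) (nat_lit 304) (nat_lit 10354376491) (nat_lit 62) (nat_lit 5) (nat_lit 65) (nat_lit 5) (nat_lit 66) (nat_lit 5) (nat_lit 353) (nat_lit 294) (nat_lit 133)) (XT.nd (nat_lit 78) (nat_lit 228) (nat_lit 0) (XT.lf (nat_lit 0) (nat_lit 24800623233) (nat_lit 228) (nat_lit 2407380245) (nat_lit 304) (nat_lit 5526637993) (nat_lit 62) (nat_lit 5) (nat_lit 65) (nat_lit 5) (nat_lit 66) (nat_lit 5) (nat_lit 354) (nat_lit 294) (nat_lit 132)) (XT.lf (nat_lit 0) (nat_lit 6586776542) (nat_lit 228) (nat_lit 26410992940) (nat_lit 304) (nat_lit 423517022) (nat_lit 59) (nat_lit 5) (nat_lit 62) (nat_lit 5) (nat_lit 63) (nat_lit 5) (nat_lit 355) (nat_lit 294) (nat_lit 131)))) (XT.nd (nat_lit 156) (nat_lit 0) (nat_lit 0) (XT.nd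 (nat_lit 78) (nat_lit 228) (nat_lit 0) (XT.lf (nat_lit 0) (nat_lit 4838468617) (nat_lit 304) (nat_lit 12498386627) (nat_lit 76) (nat_lit 16787283961) (nat_lit 58) (nat_lit 5) (nat_lit 62) (nat_lit 5) (nat_lit 59) (nat_lit 5) (nat_lit 356) (nat_lit 294) (nat_lit 130)) (XT.lf (nat_lit 0) (nat_lit 2301736023) (nat_lit 228) (nat_lit 7965654967) (nat_lit 304) (nat_lit 24580037084) (nat_lit 55) (nat_lit 5) (nat_lit 58) (nat_lit 5) (nat_lit 59) (nat_lit 5) (nat_lit 357) (nat_lit 294) (nat_lit 129))) (XT.nd (nat_lit 78) (nat_lit 0) (nat_lit 0) (XT.lf (nat_lit 0) (nat_lit 15998362496) (nat_lit 304) (nat_lit 17810881087) (nat_lit 76) (nat_lit 1779000533) (nat_lit 55) (nat_lit 5) (nat_lit 59) (nat_lit 5) (nat_lit 56) (nat_lit 5) (nat_lit 358) (nat_lit 294) (nat_lit 128)) (XT.lf (nat_lit 0) (nat_lit 21975771070) (nat_lit 304) (nat_lit 2719549754) (nat_lit 76) (nat_lit 11653732413) (nat_lit 55) (nat_lit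 5) (nat_lit 59) (nat_lit 5) (nat_lit 56) (nat_lit 5) (nat_lit 359) (nat_lit 294) (nat_lit 127)))))) (XT.nd (nat_lit 468) (nat_lit 608) (nat_lit 0) (XT.nd (nat_lit 234) (nat_lit 228) (nat_lit 0) (XT.nd (nat_lit 78) (nat_lit 228) (nat_lit 0) (XT.lf (nat_lit 0) (nat_lit 13073163811) (nat_lit 228) (nat_lit 15180772380) (nat_lit 304) (nat_lit 8875111137) (nat_lit 52) (nat_lit 5) (nat_lit 55) (nat_lit 5) (nat_lit 56) (nat_lit 5) (nat_lit 360) (nat_lit 294) (nat_lit 126)) (XT.nd (nat_lit 78) (nat_lit 228) (nat_lit 0) (XT.lf (nat_lit 0) (nat_lit 29389008021) (nat_lit 228) (nat_lit 5354729185) (nat_lit 304) (nat_lit 3188008921) (nat_lit 52) (nat_lit 5) (nat_lit 55) (nat_lit 5) (nat_lit 56) (nat_lit 5) (nat_lit 361) (nat_lit 294) (nat_lit 125)) (XT.lf (nat_lit 0) (nat_lit 2732870433) (nat_lit 228) (nat_lit 31251278400) (nat_lit 76) (nat_lit 4770152790) (nat_lit 49) (nat_lit 5) (nat_lit 52) (nat_lit 5)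 (nat_lit 50) (nat_lit 5) (nat_lit 362) (nat_lit 294) (nat_lit 124)))) (XT.nd (nat_lit 78) (nat_lit 228) (nat_lit 0) (XT.lf (nat_lit 0) (nat_lit 8903381369) (nat_lit 228) (nat_lit 15485445147) (nat_lit 76) (nat_lit 15207681213) (nat_lit 49) (nat_lit 5) (nat_lit 52) (nat_lit 5) (nat_lit 50) (nat_lit 5) (nat_lit 363) (nat_lit 294) (nat_lit 123)) (XT.nd (nat_lit 78) (nat_lit 0) (nat_lit 0) (XT.lf (nat_lit 0) (nat_lit 762079864) (nat_lit 228) (nat_lit 14500316346) (nat_lit 304) (nat_lit 25201485362) (nat_lit 46) (nat_lit 5) (nat_lit 49) (nat_lit 5) (nat_lit 50) (nat_lit 5) (nat_lit 364) (nat_lit 294) (nat_lit 122)) (XT.lf (nat_lit 0) (nat_lit 17808373243) (nat_lit 228) (nat_lit 4156299979) (nat_lit 304) (nat_lit 19388031775) (nat_lit 46) (nat_lit 5) (nat_lit 49) (nat_lit 5) (nat_lit 50) (nat_lit 5) (nat_lit 365) (nat_lit 294) (nat_lit 121))))) (XT.nd (nat_lit 234) (nat_lit 456) (nat_lit 0) (XT.nd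 (nat_lit 78) (nat_lit 152) (nat_lit 0) (XT.lf (nat_lit 0) (nat_lit 28926693128) (nat_lit 304) (nat_lit 6970612556) (nat_lit 76) (nat_lit 6369130232) (nat_lit 46) (nat_lit 5) (nat_lit 50) (nat_lit 5) (nat_lit 47) (nat_lit 5) (nat_lit 366) (nat_lit 294) (nat_lit 120)) (XT.nd (nat_lit 78) (nat_lit 0) (nat_lit 0) (XT.lf (nat_lit 0) (nat_lit 10253411064) (nat_lit 152) (nat_lit 25980197931) (nat_lit 228) (nat_lit 6969891645) (nat_lit 44) (nat_lit 5) (nat_lit 46) (nat_lit 5) (nat_lit 47) (nat_lit 5) (nat_lit 367) (nat_lit 294) (nat_lit 119)) (XT.lf (nat_lit 0) (nat_lit 28131266691) (nat_lit 152) (nat_lit 15695228565) (nat_lit 228) (nat_lit 340182017) (nat_lit 44) (nat_lit 5) (nat_lit 46) (nat_lit 5) (nat_lit 47) (nat_lit 5) (nat_lit 368) (nat_lit 294) (nat_lit 118)))) (XT.nd (nat_lit 156) (nat_lit 152) (nat_lit 0) (XT.nd (nat_lit 78) (nat_lit 0) (nat_lit 0) (XT.lf (nat_lit 0) (nat_lit 1344897312) (nat_lit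 228) (nat_lit 5026278587) (nat_lit 304) (nat_lit 38785423793) (nat_lit 40) (nat_lit 5) (nat_lit 43) (nat_lit 5) (nat_lit 44) (nat_lit 5) (nat_lit 369) (nat_lit 294) (nat_lit 117)) (XT.lf (nat_lit 0) (nat_lit 13494354783) (nat_lit 304) (nat_lit 26664042610) (nat_lit 76) (nat_lit 6011204433) (nat_lit 40) (nat_lit 5) (nat_lit 44) (nat_lit 5) (nat_lit 41) (nat_lit 5) (nat_lit 370) (nat_lit 294) (nat_lit 116))) (XT.nd (nat_lit 78) (nat_lit 152) (nat_lit 0) (XT.lf (nat_lit 0) (nat_lit 20877567576) (nat_lit 304) (nat_lit 9057268063) (nat_lit 76) (nat_lit 17276770764) (nat_lit 40) (nat_lit 5) (nat_lit 44) (nat_lit 5) (nat_lit 41) (nat_lit 5) (nat_lit 371) (nat_lit 294) (nat_lit 115)) (XT.lf (nat_lit 0) (nat_lit 9252878470) (nat_lit 152) (nat_lit 19315015821) (nat_lit 228) (nat_lit 19714410761) (nat_lit 38) (nat_lit 5) (nat_lit 40) (nat_lit 5) (nat_lit 41) (nat_lit 5) (nat_lit 372) (nat_lit 294) (nat_lit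 114))))))))
noncomputable def xc189 : XT := (XT.nd (nat_lit 34710) (nat_lit 0) (nat_lit 8816) (XT.nd (nat_lit 1014) (nat_lit 532) (nat_lit 0) (XT.nd (nat_lit 468) (nat_lit 380) (nat_lit 0) (XT.nd (nat_lit 234) (nat_lit 152) (nat_lit 0) (XT.nd (nat_lit 78) (nat_lit 228) (nat_lit 0) (XT.lf (nat_lit 0) (nat_lit 28292659105) (nat_lit 152) (nat_lit 8284451174) (nat_lit 228) (nat_lit 12805371389) (nat_lit 38) (nat_lit 5) (nat_lit 40) (nat_lit 5) (nat_lit 41) (nat_lit 5) (nat_lit 373) (nat_lit 294) (nat_lit 113)) (XT.nd (nat_lit 78) (nat_lit 228) (nat_lit 0) (XT.lf (nat_lit 0) (nat_lit 44852976263) (nat_lit 228) (nat_lit 2646867448) (nat_lit 76) (nat_lit 3015030985) (nat_lit 38) (nat_lit 5) (nat_lit 41) (nat_lit 5) (nat_lit 39) (nat_lit 5) (nat_lit 374) (nat_lit 294) (nat_lit 112)) (XT.lf (nat_lit 0) (nat_lit 1903490286) (nat_lit 228) (nat_lit 35106855958) (nat_lit 76) (nat_lit 14663185275) (nat_lit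 35) (nat_lit 5) (nat_lit 38) (nat_lit 5) (nat_lit 36) (nat_lit 5) (nat_lit 375) (nat_lit 294) (nat_lit 111)))) (XT.nd (nat_lit 78) (nat_lit 152) (nat_lit 0) (XT.lf (nat_lit 0) (nat_lit 9605932977) (nat_lit 228) (nat_lit 16516705552) (nat_lit 76) (nat_lit 26741913165) (nat_lit 35) (nat_lit 5) (nat_lit 38) (nat_lit 5) (nat_lit 36) (nat_lit 5) (nat_lit 376) (nat_lit 294) (nat_lit 110)) (XT.nd (nat_lit 78) (nat_lit 0) (nat_lit 0) (XT.lf (nat_lit 0) (nat_lit 2678445222) (nat_lit 152) (nat_lit 14883738983) (nat_lit 228) (nat_lit 36528438273) (nat_lit 33) (nat_lit 5) (nat_lit 35) (nat_lit 5) (nat_lit 36) (nat_lit 5) (nat_lit 377) (nat_lit 294) (nat_lit 109)) (XT.lf (nat_lit 0) (nat_lit 22783105262) (nat_lit 152) (nat_lit 3137832857) (nat_lit 228) (nat_lit 29427624812) (nat_lit 33) (nat_lit 5) (nat_lit 35) (nat_lit 5) (nat_lit 36) (nat_lit 5) (nat_lit 378) (nat_lit 294) (nat_lit 108))))) (XT.nd (nat_lit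 234) (nat_lit 228) (nat_lit 0) (XT.nd (nat_lit 78) (nat_lit 152) (nat_lit 0) (XT.lf (nat_lit 0) (nat_lit 34613685132) (nat_lit 228) (nat_lit 13244318291) (nat_lit 76) (nat_lit 8783743205) (nat_lit 33) (nat_lit 5) (nat_lit 36) (nat_lit 5) (nat_lit 34) (nat_lit 5) (nat_lit 379) (nat_lit 294) (nat_lit 107)) (XT.nd (nat_lit 78) (nat_lit 0) (nat_lit 0) (XT.lf (nat_lit 0) (nat_lit 6752444890) (nat_lit 152) (nat_lit 36907927643) (nat_lit 228) (nat_lit 14310560450) (nat_lit 31) (nat_lit 5) (nat_lit 33) (nat_lit 5) (nat_lit 34) (nat_lit 5) (nat_lit 380) (nat_lit 294) (nat_lit 106)) (XT.lf (nat_lit 0) (nat_lit 27615945411) (nat_lit 152) (nat_lit 25493475771) (nat_lit 228) (nat_lit 6226646761) (nat_lit 31) (nat_lit 5) (nat_lit 33) (nat_lit 5) (nat_lit 34) (nat_lit 5) (nat_lit 381) (nat_lit 294) (nat_lit 105)))) (XT.nd (nat_lit 156) (nat_lit 0) (nat_lit 0) (XT.nd (nat_lit 78) (nat_lit 152) (nat_lit 0) (XT.lf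 (nat_lit 0) (nat_lit 2056081485) (nat_lit 228) (nat_lit 11661571781) (nat_lit 76) (nat_lit 47023981733) (nat_lit 30) (nat_lit 5) (nat_lit 33) (nat_lit 5) (nat_lit 31) (nat_lit 5) (nat_lit 382) (nat_lit 294) (nat_lit 104)) (XT.lf (nat_lit 0) (nat_lit 9110414598) (nat_lit 152) (nat_lit 1436653396) (nat_lit 228) (nat_lit 51637905475) (nat_lit 28) (nat_lit 5) (nat_lit 30) (nat_lit 5) (nat_lit 31) (nat_lit 5) (nat_lit 383) (nat_lit 294) (nat_lit 103))) (XT.nd (nat_lit 78) (nat_lit 0) (nat_lit 0) (XT.lf (nat_lit 0) (nat_lit 19516861691) (nat_lit 228) (nat_lit 33036885131) (nat_lit 76) (nat_lit 11111144571) (nat_lit 28) (nat_lit 5) (nat_lit 31) (nat_lit 5) (nat_lit 29) (nat_lit 5) (nat_lit 384) (nat_lit 294) (nat_lit 102)) (XT.lf (nat_lit 0) (nat_lit 28767418717) (nat_lit 228) (nat_lit 12416642525) (nat_lit 76) (nat_lit 24004797108) (nat_lit 28) (nat_lit 5) (nat_lit 31) (nat_lit 5) (nat_lit 29) (nat_lit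 5) (nat_lit 385) (nat_lit 294) (nat_lit 101)))))) (XT.nd (nat_lit 468) (nat_lit 228) (nat_lit 0) (XT.nd (nat_lit 234) (nat_lit 152) (nat_lit 0) (XT.nd (nat_lit 78) (nat_lit 0) (nat_lit 0) (XT.lf (nat_lit 0) (nat_lit 8993492047) (nat_lit 152) (nat_lit 29385970992) (nat_lit 228) (nat_lit 28376563693) (nat_lit 26) (nat_lit 5) (nat_lit 28) (nat_lit 5) (nat_lit 29) (nat_lit 5) (nat_lit 386) (nat_lit 294) (nat_lit 100)) (XT.nd (nat_lit 78) (nat_lit 0) (nat_lit 0) (XT.lf (nat_lit 0) (nat_lit 31296290204) (nat_lit 152) (nat_lit 17106514033) (nat_lit 228) (nat_lit 19963719351) (nat_lit 26) (nat_lit 5) (nat_lit 28) (nat_lit 5) (nat_lit 29) (nat_lit 5) (nat_lit 387) (nat_lit 294) (nat_lit 99)) (XT.lf (nat_lit 0) (nat_lit 54264124294) (nat_lit 152) (nat_lit 4460344486) (nat_lit 228) (nat_lit 11300939323) (nat_lit 26) (nat_lit 5) (nat_lit 28) (nat_lit 5) (nat_lit 29) (nat_lit 5) (nat_lit 388) (nat_lit 294)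 (nat_lit 98)))) (XT.nd (nat_lit 78) (nat_lit 76) (nat_lit 0) (XT.lf (nat_lit 0) (nat_lit 6222029268) (nat_lit 76) (nat_lit 63273574725) (nat_lit 152) (nat_lit 2234261941) (nat_lit 25) (nat_lit 5) (nat_lit 26) (nat_lit 5) (nat_lit 27) (nat_lit 4) (nat_lit 389) (nat_lit 294) (nat_lit 97)) (XT.nd (nat_lit 78) (nat_lit 0) (nat_lit 0) (XT.lf (nat_lit 0) (nat_lit 7168361165) (nat_lit 152) (nat_lit 44410773319) (nat_lit 76) (nat_lit 21898198237) (nat_lit 24) (nat_lit 5) (nat_lit 26) (nat_lit 5) (nat_lit 25) (nat_lit 5) (nat_lit 390) (nat_lit 294) (nat_lit 96)) (XT.lf (nat_lit 0) (nat_lit 16805906450) (nat_lit 152) (nat_lit 22706796683) (nat_lit 76) (nat_lit 35763925523) (nat_lit 24) (nat_lit 5) (nat_lit 26) (nat_lit 5) (nat_lit 25) (nat_lit 5) (nat_lit 391) (nat_lit 294) (nat_lit 95))))) (XT.nd (nat_lit 234) (nat_lit 76) (nat_lit 0) (XT.nd (nat_lit 78) (nat_lit 152) (nat_lit 0) (XT.lf (nat_lit 0) (nat_lit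 26730393564) (nat_lit 152) (nat_lit 355465028) (nat_lit 76) (nat_lit 50044111660) (nat_lit 24) (nat_lit 5) (nat_lit 26) (nat_lit 5) (nat_lit 25) (nat_lit 5) (nat_lit 392) (nat_lit 294) (nat_lit 94)) (XT.nd (nat_lit 78) (nat_lit 0) (nat_lit 0) (XT.lf (nat_lit 0) (nat_lit 23113785137) (nat_lit 152) (nat_lit 14058893096) (nat_lit 228) (nat_lit 41859633185) (nat_lit 22) (nat_lit 5) (nat_lit 24) (nat_lit 5) (nat_lit 25) (nat_lit 5) (nat_lit 393) (nat_lit 294) (nat_lit 93)) (XT.lf (nat_lit 0) (nat_lit 47290780682) (nat_lit 152) (nat_lit 638946347) (nat_lit 228) (nat_lit 33061952099) (nat_lit 22) (nat_lit 5) (nat_lit 24) (nat_lit 5) (nat_lit 25) (nat_lit 5) (nat_lit 394) (nat_lit 294) (nat_lit 92)))) (XT.nd (nat_lit 32838) (nat_lit 0) (nat_lit 12844) (XT.nd (nat_lit 78) (nat_lit 76) (nat_lit 0) (XT.lf (nat_lit 0) (nat_lit 59134168949) (nat_lit 228) (nat_lit 10947031899) (nat_lit 76) (nat_lit 12924887713)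 (nat_lit 22) (nat_lit 5) (nat_lit 25) (nat_lit 5) (nat_lit 23) (nat_lit 4) (nat_lit 395) (nat_lit 294) (nat_lit 91)) (XT.lf (nat_lit 0) (nat_lit 12728036705) (nat_lit 76) (nat_lit 58073395767) (nat_lit 152) (nat_lit 14275698263) (nat_lit 21) (nat_lit 5) (nat_lit 22) (nat_lit 5) (nat_lit 23) (nat_lit 4) (nat_lit 396) (nat_lit 294) (nat_lit 90))) (XT.nd (nat_lit 78) (nat_lit 0) (nat_lit 0) (XT.lf (nat_lit 0) (nat_lit 2234306785) (nat_lit 1140) (nat_lit 1847005037) (nat_lit 1140) (nat_lit 1847005037) (nat_lit 190) (nat_lit 3) (nat_lit 205) (nat_lit 3) (nat_lit 205) (nat_lit 5) (nat_lit 295) (nat_lit 295) (nat_lit 190)) (XT.lf (nat_lit 76) (nat_lit 1588371813) (nat_lit 0) (nat_lit 3417365089) (nat_lit 1140) (nat_lit 7013910034) (nat_lit 191) (nat_lit 5) (nat_lit 190) (nat_lit 3) (nat_lit 205) (nat_lit 5) (nat_lit 296) (nat_lit 295) (nat_lit 189))))))) (XT.nd (nat_lit 1014) (nat_lit 3268) (nat_lit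 0) (XT.nd (nat_lit 468) (nat_lit 836) (nat_lit 0) (XT.nd (nat_lit 234) (nat_lit 0) (nat_lit 76) (XT.nd (nat_lit 78) (nat_lit 0) (nat_lit 0) (XT.lf (nat_lit 0) (nat_lit 5593019865) (nat_lit 1064) (nat_lit 5105968667) (nat_lit 1140) (nat_lit 1487569265) (nat_lit 191) (nat_lit 5) (nat_lit 205) (nat_lit 5) (nat_lit 206) (nat_lit 5) (nat_lit 297) (nat_lit 295) (nat_lit 188)) (XT.nd (nat_lit 78) (nat_lit 0) (nat_lit 0) (XT.lf (nat_lit 76) (nat_lit 342247306) (nat_lit 0) (nat_lit 5875557829) (nat_lit 1140) (nat_lit 6140102125) (nat_lit 192) (nat_lit 5) (nat_lit 191) (nat_lit 5) (nat_lit 206) (nat_lit 5) (nat_lit 298) (nat_lit 295) (nat_lit 187)) (XT.lf (nat_lit 76) (nat_lit 6048979280) (nat_lit 0) (nat_lit 847083501) (nat_lit 1140) (nat_lit 5637319543) (nat_lit 192) (nat_lit 5) (nat_lit 191) (nat_lit 5) (nat_lit 206) (nat_lit 5) (nat_lit 299) (nat_lit 295) (nat_lit 186)))) (XT.nd (nat_lit 78) (nat_lit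 0) (nat_lit 0) (XT.lf (nat_lit 0) (nat_lit 7620038639) (nat_lit 1064) (nat_lit 838754839) (nat_lit 1140) (nat_lit 4254593245) (nat_lit 192) (nat_lit 5) (nat_lit 206) (nat_lit 5) (nat_lit 207) (nat_lit 5) (nat_lit 300) (nat_lit 295) (nat_lit 185)) (XT.nd (nat_lit 78) (nat_lit 0) (nat_lit 76) (XT.lf (nat_lit 76) (nat_lit 5056941176) (nat_lit 0) (nat_lit 3349990256) (nat_lit 1140) (nat_lit 4490649324) (nat_lit 193) (nat_lit 5) (nat_lit 192) (nat_lit 5) (nat_lit 207) (nat_lit 5) (nat_lit 301) (nat_lit 295) (nat_lit 184)) (XT.lf (nat_lit 0) (nat_lit 9228990488) (nat_lit 1064) (nat_lit 1968872710) (nat_lit 1140) (nat_lit 1889115320) (nat_lit 193) (nat_lit 5) (nat_lit 207) (nat_lit 5) (nat_lit 208) (nat_lit 5) (nat_lit 302) (nat_lit 295) (nat_lit 183))))) (XT.nd (nat_lit 234) (nat_lit 988) (nat_lit 0) (XT.nd (nat_lit 78) (nat_lit 0) (nat_lit 0) (XT.lf (nat_lit 76) (nat_lit 4116434532) (nat_lit 0) (nat_lit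 6017088268) (nat_lit 1140) (nat_lit 3146825041) (nat_lit 194) (nat_lit 5) (nat_lit 193) (nat_lit 5) (nat_lit 208) (nat_lit 5) (nat_lit 303) (nat_lit 295) (nat_lit 182)) (XT.nd (nat_lit 78) (nat_lit 0) (nat_lit 76) (XT.lf (nat_lit 76) (nat_lit 10414985869) (nat_lit 0) (nat_lit 655502293) (nat_lit 1140) (nat_lit 2408894444) (nat_lit 194) (nat_lit 5) (nat_lit 193) (nat_lit 5) (nat_lit 208) (nat_lit 5) (nat_lit 304) (nat_lit 295) (nat_lit 181)) (XT.lf (nat_lit 76) (nat_lit 3224353665) (nat_lit 0) (nat_lit 8874873141) (nat_lit 1140) (nat_lit 1583274275) (nat_lit 195) (nat_lit 5) (nat_lit 194) (nat_lit 5) (nat_lit 209) (nat_lit 5) (nat_lit 305) (nat_lit 295) (nat_lit 180)))) (XT.nd (nat_lit 156) (nat_lit 0) (nat_lit 0) (XT.nd (nat_lit 78) (nat_lit 1064) (nat_lit 0) (XT.lf (nat_lit 76) (nat_lit 9748174850) (nat_lit 0) (nat_lit 3434226579) (nat_lit 1140) (nat_lit 708626407) (nat_lit 195) (nat_lit 5)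 (nat_lit 194) (nat_lit 5) (nat_lit 209) (nat_lit 5) (nat_lit 306) (nat_lit 295) (nat_lit 179)) (XT.lf (nat_lit 0) (nat_lit 219140628) (nat_lit 1140) (nat_lit 11729597146) (nat_lit 1216) (nat_lit 2156118912) (nat_lit 180) (nat_lit 5) (nat_lit 195) (nat_lit 5) (nat_lit 196) (nat_lit 5) (nat_lit 307) (nat_lit 295) (nat_lit 178))) (XT.nd (nat_lit 78) (nat_lit 0) (nat_lit 0) (XT.lf (nat_lit 0) (nat_lit 1223535903) (nat_lit 1140) (nat_lit 5201588389) (nat_lit 1216) (nat_lit 7897894565) (nat_lit 180) (nat_lit 5) (nat_lit 195) (nat_lit 5) (nat_lit 196) (nat_lit 5) (nat_lit 308) (nat_lit 295) (nat_lit 177)) (XT.lf (nat_lit 76) (nat_lit 1542505769) (nat_lit 0) (nat_lit 717556405) (nat_lit 1216) (nat_lit 12287623237) (nat_lit 181) (nat_lit 5) (nat_lit 180) (nat_lit 5) (nat_lit 196) (nat_lit 5) (nat_lit 309) (nat_lit 295) (nat_lit 176)))))) (XT.nd (nat_lit 546) (nat_lit 1748) (nat_lit 0) (XT.nd (nat_lit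 234) (nat_lit 1596) (nat_lit 0) (XT.nd (nat_lit 78) (nat_lit 0) (nat_lit 0) (XT.lf (nat_lit 0) (nat_lit 3417821412) (nat_lit 1140) (nat_lit 6242279305) (nat_lit 1216) (nat_lit 5116306055) (nat_lit 181) (nat_lit 5) (nat_lit 196) (nat_lit 5) (nat_lit 197) (nat_lit 5) (nat_lit 310) (nat_lit 295) (nat_lit 175)) (XT.nd (nat_lit 78) (nat_lit 0) (nat_lit 76) (XT.lf (nat_lit 76) (nat_lit 720580871) (nat_lit 0) (nat_lit 3891606741) (nat_lit 1216) (nat_lit 10399764308) (nat_lit 182) (nat_lit 5) (nat_lit 181) (nat_lit 5) (nat_lit 197) (nat_lit 5) (nat_lit 311) (nat_lit 295) (nat_lit 174)) (XT.lf (nat_lit 0) (nat_lit 5913872281) (nat_lit 1140) (nat_lit 7262896237) (nat_lit 76) (nat_lit 2075668120) (nat_lit 182) (nat_lit 5) (nat_lit 197) (nat_lit 5) (nat_lit 183) (nat_lit 5) (nat_lit 312) (nat_lit 295) (nat_lit 173)))) (XT.nd (nat_lit 156) (nat_lit 532) (nat_lit 0) (XT.nd (nat_lit 78) (nat_lit 1140) (nat_lit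 0) (XT.lf (nat_lit 0) (nat_lit 7281607470) (nat_lit 1140) (nat_lit 71983290) (nat_lit 76) (nat_lit 8145752456) (nat_lit 182) (nat_lit 5) (nat_lit 197) (nat_lit 5) (nat_lit 183) (nat_lit 5) (nat_lit 313) (nat_lit 295) (nat_lit 172)) (XT.lf (nat_lit 0) (nat_lit 7470842665) (nat_lit 1140) (nat_lit 1280151427) (nat_lit 1216) (nat_lit 7000861132) (nat_lit 167) (nat_lit 5) (nat_lit 182) (nat_lit 5) (nat_lit 183) (nat_lit 5) (nat_lit 314) (nat_lit 295) (nat_lit 171))) (XT.nd (nat_lit 78) (nat_lit 532) (nat_lit 0) (XT.lf (nat_lit 0) (nat_lit 10302077651) (nat_lit 1216) (nat_lit 828188932) (nat_lit 76) (nat_lit 4880563873) (nat_lit 167) (nat_lit 5) (nat_lit 183) (nat_lit 5) (nat_lit 168) (nat_lit 5) (nat_lit 315) (nat_lit 295) (nat_lit 170)) (XT.lf (nat_lit 0) (nat_lit 6961819598) (nat_lit 532) (nat_lit 5006842763) (nat_lit 608) (nat_lit 4306859375) (nat_lit 160) (nat_lit 5) (nat_lit 167) (nat_lit 5)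 (nat_lit 168) (nat_lit 5) (nat_lit 316) (nat_lit 295) (nat_lit 169))))) (XT.nd (nat_lit 234) (nat_lit 1064) (nat_lit 0) (XT.nd (nat_lit 78) (nat_lit 684) (nat_lit 0) (XT.lf (nat_lit 0) (nat_lit 13695789543) (nat_lit 608) (nat_lit 1567797256) (nat_lit 76) (nat_lit 1284265994) (nat_lit 160) (nat_lit 5) (nat_lit 168) (nat_lit 5) (nat_lit 161) (nat_lit 5) (nat_lit 317) (nat_lit 295) (nat_lit 168)) (XT.nd (nat_lit 78) (nat_lit 76) (nat_lit 0) (XT.lf (nat_lit 0) (nat_lit 6477785033) (nat_lit 608) (nat_lit 9098689476) (nat_lit 684) (nat_lit 1248841893) (nat_lit 152) (nat_lit 5) (nat_lit 160) (nat_lit 5) (nat_lit 161) (nat_lit 5) (nat_lit 318) (nat_lit 295) (nat_lit 167)) (XT.lf (nat_lit 0) (nat_lit 400604793) (nat_lit 684) (nat_lit 2327433192) (nat_lit 76) (nat_lit 14382784477) (nat_lit 151) (nat_lit 5) (nat_lit 160) (nat_lit 5) (nat_lit 152) (nat_lit 5) (nat_lit 319) (nat_lit 295) (nat_lit 166))))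 (XT.nd (nat_lit 156) (nat_lit 532) (nat_lit 0) (XT.nd (nat_lit 78) (nat_lit 0) (nat_lit 0) (XT.lf (nat_lit 0) (nat_lit 2160227794) (nat_lit 608) (nat_lit 11411457285) (nat_lit 76) (nat_lit 3830277552) (nat_lit 144) (nat_lit 5) (nat_lit 152) (nat_lit 5) (nat_lit 145) (nat_lit 5) (nat_lit 320) (nat_lit 295) (nat_lit 165)) (XT.lf (nat_lit 0) (nat_lit 4013866509) (nat_lit 608) (nat_lit 3132262726) (nat_lit 76) (nat_lit 10554484232) (nat_lit 144) (nat_lit 5) (nat_lit 152) (nat_lit 5) (nat_lit 145) (nat_lit 5) (nat_lit 321) (nat_lit 295) (nat_lit 164))) (XT.nd (nat_lit 78) (nat_lit 0) (nat_lit 0) (XT.lf (nat_lit 0) (nat_lit 5493198829) (nat_lit 532) (nat_lit 473478319) (nat_lit 608) (nat_lit 12040252684) (nat_lit 137) (nat_lit 5) (nat_lit 144) (nat_lit 5) (nat_lit 145) (nat_lit 5) (nat_lit 322) (nat_lit 295) (nat_lit 163)) (XT.lf (nat_lit 0) (nat_lit 8062467445) (nat_lit 608) (nat_lit 3951174546)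 (nat_lit 76) (nat_lit 6306274348) (nat_lit 137) (nat_lit 5) (nat_lit 145) (nat_lit 5) (nat_lit 138) (nat_lit 5) (nat_lit 323) (nat_lit 295) (nat_lit 162))))))))
noncomputable def xc190 : XT := (XT.nd (nat_lit 2028) (nat_lit 2660) (nat_lit 0) (XT.nd (nat_lit 1014) (nat_lit 1976) (nat_lit 0) (XT.nd (nat_lit 468) (nat_lit 1672) (nat_lit 0) (XT.nd (nat_lit 234) (nat_lit 532) (nat_lit 0) (XT.nd (nat_lit 78) (nat_lit 456) (nat_lit 0) (XT.lf (nat_lit 0) (nat_lit 4950965713) (nat_lit 456) (nat_lit 5313647267) (nat_lit 532) (nat_lit 8376387163) (nat_lit 131) (nat_lit 5) (nat_lit 137) (nat_lit 5) (nat_lit 138) (nat_lit 5) (nat_lit 324) (nat_lit 295) (nat_lit 161)) (XT.nd (nat_lit 78) (nat_lit 456) (nat_lit 0) (XT.lf (nat_lit 0) (nat_lit 12579741269) (nat_lit 532) (nat_lit 4794399410) (nat_lit 76) (nat_lit 1596180023) (nat_lit 131) (nat_lit 5) (nat_lit 138) (nat_lit 5) (nat_lit 132) (nat_lit 5) (nat_lit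 325) (nat_lit 295) (nat_lit 160)) (XT.lf (nat_lit 0) (nat_lit 4392081451) (nat_lit 456) (nat_lit 10658688860) (nat_lit 532) (nat_lit 4256168609) (nat_lit 125) (nat_lit 5) (nat_lit 131) (nat_lit 5) (nat_lit 132) (nat_lit 5) (nat_lit 326) (nat_lit 295) (nat_lit 159)))) (XT.nd (nat_lit 78) (nat_lit 532) (nat_lit 0) (XT.lf (nat_lit 0) (nat_lit 13943408450) (nat_lit 456) (nat_lit 3692710341) (nat_lit 532) (nat_lit 2016342353) (nat_lit 125) (nat_lit 5) (nat_lit 131) (nat_lit 5) (nat_lit 132) (nat_lit 5) (nat_lit 327) (nat_lit 295) (nat_lit 158)) (XT.nd (nat_lit 78) (nat_lit 0) (nat_lit 0) (XT.lf (nat_lit 0) (nat_lit 347663394) (nat_lit 532) (nat_lit 16205219492) (nat_lit 76) (nat_lit 3453513095) (nat_lit 118) (nat_lit 5) (nat_lit 125) (nat_lit 5) (nat_lit 119) (nat_lit 5) (nat_lit 328) (nat_lit 295) (nat_lit 157)) (XT.lf (nat_lit 0) (nat_lit 2828911071) (nat_lit 532) (nat_lit 6721661326) (nat_lit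 76) (nat_lit 10817182278) (nat_lit 118) (nat_lit 5) (nat_lit 125) (nat_lit 5) (nat_lit 119) (nat_lit 5) (nat_lit 329) (nat_lit 295) (nat_lit 156))))) (XT.nd (nat_lit 234) (nat_lit 836) (nat_lit 0) (XT.nd (nat_lit 78) (nat_lit 380) (nat_lit 0) (XT.lf (nat_lit 0) (nat_lit 3098033658) (nat_lit 456) (nat_lit 2308639533) (nat_lit 532) (nat_lit 15332628505) (nat_lit 112) (nat_lit 5) (nat_lit 118) (nat_lit 5) (nat_lit 119) (nat_lit 5) (nat_lit 330) (nat_lit 295) (nat_lit 155)) (XT.nd (nat_lit 78) (nat_lit 380) (nat_lit 0) (XT.lf (nat_lit 0) (nat_lit 8172251965) (nat_lit 532) (nat_lit 7828996585) (nat_lit 76) (nat_lit 5117441652) (nat_lit 112) (nat_lit 5) (nat_lit 119) (nat_lit 5) (nat_lit 113) (nat_lit 5) (nat_lit 331) (nat_lit 295) (nat_lit 154)) (XT.lf (nat_lit 0) (nat_lit 2290785308) (nat_lit 380) (nat_lit 8767537550) (nat_lit 456) (nat_lit 10450021072) (nat_lit 107) (nat_lit 5) (nat_lit 112) (nat_lit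 5) (nat_lit 113) (nat_lit 5) (nat_lit 332) (nat_lit 295) (nat_lit 153)))) (XT.nd (nat_lit 156) (nat_lit 456) (nat_lit 0) (XT.nd (nat_lit 78) (nat_lit 380) (nat_lit 0) (XT.lf (nat_lit 0) (nat_lit 12866031362) (nat_lit 380) (nat_lit 1236779898) (nat_lit 456) (nat_lit 7804729988) (nat_lit 107) (nat_lit 5) (nat_lit 112) (nat_lit 5) (nat_lit 113) (nat_lit 5) (nat_lit 333) (nat_lit 295) (nat_lit 152)) (XT.lf (nat_lit 0) (nat_lit 1395813163) (nat_lit 380) (nat_lit 15911887043) (nat_lit 456) (nat_lit 5008951077) (nat_lit 102) (nat_lit 5) (nat_lit 107) (nat_lit 5) (nat_lit 108) (nat_lit 5) (nat_lit 334) (nat_lit 295) (nat_lit 151))) (XT.nd (nat_lit 78) (nat_lit 456) (nat_lit 0) (XT.lf (nat_lit 0) (nat_lit 12310621757) (nat_lit 380) (nat_lit 8394639111) (nat_lit 456) (nat_lit 2029886520) (nat_lit 102) (nat_lit 5) (nat_lit 107) (nat_lit 5) (nat_lit 108) (nat_lit 5) (nat_lit 335) (nat_lit 295) (nat_lit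 150)) (XT.lf (nat_lit 0) (nat_lit 375640291) (nat_lit 380) (nat_lit 639479515) (nat_lit 456) (nat_lit 22150882035) (nat_lit 96) (nat_lit 5) (nat_lit 101) (nat_lit 5) (nat_lit 102) (nat_lit 5) (nat_lit 336) (nat_lit 295) (nat_lit 149)))))) (XT.nd (nat_lit 468) (nat_lit 1292) (nat_lit 0) (XT.nd (nat_lit 234) (nat_lit 304) (nat_lit 0) (XT.nd (nat_lit 78) (nat_lit 380) (nat_lit 0) (XT.lf (nat_lit 0) (nat_lit 4280950376) (nat_lit 456) (nat_lit 11993389394) (nat_lit 76) (nat_lit 7329738836) (nat_lit 96) (nat_lit 5) (nat_lit 102) (nat_lit 5) (nat_lit 97) (nat_lit 5) (nat_lit 337) (nat_lit 295) (nat_lit 148)) (XT.nd (nat_lit 78) (nat_lit 380) (nat_lit 0) (XT.lf (nat_lit 0) (nat_lit 7644608267) (nat_lit 456) (nat_lit 887084605) (nat_lit 76) (nat_lit 15523616798) (nat_lit 96) (nat_lit 5) (nat_lit 102) (nat_lit 5) (nat_lit 97) (nat_lit 5) (nat_lit 338) (nat_lit 295) (nat_lit 147)) (XT.lf (nat_lit 0) (nat_lit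 10754258745) (nat_lit 380) (nat_lit 452003298) (nat_lit 456) (nat_lit 13310910387) (nat_lit 91) (nat_lit 5) (nat_lit 96) (nat_lit 5) (nat_lit 97) (nat_lit 5) (nat_lit 339) (nat_lit 295) (nat_lit 146)))) (XT.nd (nat_lit 78) (nat_lit 304) (nat_lit 0) (XT.lf (nat_lit 0) (nat_lit 14953263833) (nat_lit 456) (nat_lit 2313438570) (nat_lit 76) (nat_lit 7723840853) (nat_lit 91) (nat_lit 5) (nat_lit 97) (nat_lit 5) (nat_lit 92) (nat_lit 5) (nat_lit 340) (nat_lit 295) (nat_lit 145)) (XT.nd (nat_lit 78) (nat_lit 0) (nat_lit 0) (XT.lf (nat_lit 0) (nat_lit 9655594630) (nat_lit 304) (nat_lit 9248352295) (nat_lit 380) (nat_lit 6571437071) (nat_lit 87) (nat_lit 5) (nat_lit 91) (nat_lit 5) (nat_lit 92) (nat_lit 5) (nat_lit 341) (nat_lit 295) (nat_lit 144)) (XT.lf (nat_lit 0) (nat_lit 22023332854) (nat_lit 304) (nat_lit 967259787) (nat_lit 380) (nat_lit 2983660781) (nat_lit 87) (nat_lit 5) (nat_lit 91) (nat_lit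 5) (nat_lit 92) (nat_lit 5) (nat_lit 342) (nat_lit 295) (nat_lit 143))))) (XT.nd (nat_lit 234) (nat_lit 532) (nat_lit 0) (XT.nd (nat_lit 78) (nat_lit 304) (nat_lit 0) (XT.lf (nat_lit 0) (nat_lit 846570008) (nat_lit 456) (nat_lit 18135311390) (nat_lit 76) (nat_lit 7501547317) (nat_lit 81) (nat_lit 5) (nat_lit 87) (nat_lit 5) (nat_lit 82) (nat_lit 5) (nat_lit 343) (nat_lit 295) (nat_lit 142)) (XT.nd (nat_lit 78) (nat_lit 304) (nat_lit 0) (XT.lf (nat_lit 0) (nat_lit 4775875391) (nat_lit 456) (nat_lit 5956847370) (nat_lit 76) (nat_lit 16272952338) (nat_lit 81) (nat_lit 5) (nat_lit 87) (nat_lit 5) (nat_lit 82) (nat_lit 5) (nat_lit 344) (nat_lit 295) (nat_lit 141)) (XT.lf (nat_lit 0) (nat_lit 6710372046) (nat_lit 304) (nat_lit 2171626945) (nat_lit 380) (nat_lit 18659827686) (nat_lit 77) (nat_lit 5) (nat_lit 81) (nat_lit 5) (nat_lit 82) (nat_lit 5) (nat_lit 345) (nat_lit 295) (nat_lit 140)))) (XT.nd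 (nat_lit 156) (nat_lit 228) (nat_lit 0) (XT.nd (nat_lit 78) (nat_lit 304) (nat_lit 0) (XT.lf (nat_lit 0) (nat_lit 13230448663) (nat_lit 380) (nat_lit 8284643537) (nat_lit 76) (nat_lit 6575402134) (nat_lit 77) (nat_lit 5) (nat_lit 82) (nat_lit 5) (nat_lit 78) (nat_lit 5) (nat_lit 346) (nat_lit 295) (nat_lit 139)) (XT.lf (nat_lit 0) (nat_lit 4701415092) (nat_lit 304) (nat_lit 13069296884) (nat_lit 380) (nat_lit 10883074870) (nat_lit 73) (nat_lit 5) (nat_lit 77) (nat_lit 5) (nat_lit 78) (nat_lit 5) (nat_lit 347) (nat_lit 295) (nat_lit 138))) (XT.nd (nat_lit 78) (nat_lit 228) (nat_lit 0) (XT.lf (nat_lit 0) (nat_lit 18239557987) (nat_lit 304) (nat_lit 4286034826) (nat_lit 380) (nat_lit 6706038502) (nat_lit 73) (nat_lit 5) (nat_lit 77) (nat_lit 5) (nat_lit 78) (nat_lit 5) (nat_lit 348) (nat_lit 295) (nat_lit 137)) (XT.lf (nat_lit 0) (nat_lit 2349875533) (nat_lit 228) (nat_lit 25136480467) (nat_lit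 304) (nat_lit 2338563350) (nat_lit 70) (nat_lit 5) (nat_lit 73) (nat_lit 5) (nat_lit 74) (nat_lit 5) (nat_lit 349) (nat_lit 295) (nat_lit 136))))))) (XT.nd (nat_lit 1014) (nat_lit 1292) (nat_lit 0) (XT.nd (nat_lit 468) (nat_lit 760) (nat_lit 0) (XT.nd (nat_lit 234) (nat_lit 228) (nat_lit 0) (XT.nd (nat_lit 78) (nat_lit 304) (nat_lit 0) (XT.lf (nat_lit 0) (nat_lit 2267230853) (nat_lit 304) (nat_lit 14186849380) (nat_lit 76) (nat_lit 13976824630) (nat_lit 69) (nat_lit 5) (nat_lit 73) (nat_lit 5) (nat_lit 70) (nat_lit 5) (nat_lit 350) (nat_lit 295) (nat_lit 135)) (XT.nd (nat_lit 78) (nat_lit 304) (nat_lit 0) (XT.lf (nat_lit 0) (nat_lit 6959253899) (nat_lit 304) (nat_lit 530236295) (nat_lit 76) (nat_lit 23565038249) (nat_lit 69) (nat_lit 5) (nat_lit 73) (nat_lit 5) (nat_lit 70) (nat_lit 5) (nat_lit 351) (nat_lit 295) (nat_lit 134)) (XT.lf (nat_lit 0) (nat_lit 11937936831) (nat_lit 380) (nat_lit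 17912622473) (nat_lit 76) (nat_lit 1841929167) (nat_lit 65) (nat_lit 5) (nat_lit 70) (nat_lit 5) (nat_lit 66) (nat_lit 5) (nat_lit 352) (nat_lit 295) (nat_lit 133)))) (XT.nd (nat_lit 78) (nat_lit 228) (nat_lit 0) (XT.lf (nat_lit 0) (nat_lit 17140797185) (nat_lit 380) (nat_lit 3900418462) (nat_lit 76) (nat_lit 11306131724) (nat_lit 65) (nat_lit 5) (nat_lit 70) (nat_lit 5) (nat_lit 66) (nat_lit 5) (nat_lit 353) (nat_lit 295) (nat_lit 132)) (XT.nd (nat_lit 78) (nat_lit 0) (nat_lit 0) (XT.lf (nat_lit 0) (nat_lit 10734903945) (nat_lit 228) (nat_lit 11863424245) (nat_lit 304) (nat_lit 10420570751) (nat_lit 62) (nat_lit 5) (nat_lit 65) (nat_lit 5) (nat_lit 66) (nat_lit 5) (nat_lit 354) (nat_lit 295) (nat_lit 131)) (XT.lf (nat_lit 0) (nat_lit 25882582340) (nat_lit 228) (nat_lit 2371853878) (nat_lit 304) (nat_lit 5455119623) (nat_lit 62) (nat_lit 5) (nat_lit 65) (nat_lit 5) (nat_lit 66) (nat_lit 5) (nat_lit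 355) (nat_lit 295) (nat_lit 130))))) (XT.nd (nat_lit 234) (nat_lit 228) (nat_lit 0) (XT.nd (nat_lit 78) (nat_lit 304) (nat_lit 0) (XT.lf (nat_lit 0) (nat_lit 7125036546) (nat_lit 228) (nat_lit 27090434188) (nat_lit 304) (nat_lit 201408608) (nat_lit 59) (nat_lit 5) (nat_lit 62) (nat_lit 5) (nat_lit 63) (nat_lit 5) (nat_lit 356) (nat_lit 295) (nat_lit 129)) (XT.nd (nat_lit 78) (nat_lit 228) (nat_lit 0) (XT.lf (nat_lit 0) (nat_lit 5207148753) (nat_lit 304) (nat_lit 12537954448) (nat_lit 76) (nat_lit 17395853894) (nat_lit 58) (nat_lit 5) (nat_lit 62) (nat_lit 5) (nat_lit 59) (nat_lit 5) (nat_lit 357) (nat_lit 295) (nat_lit 128)) (XT.lf (nat_lit 0) (nat_lit 2702883805) (nat_lit 228) (nat_lit 8092736831) (nat_lit 304) (nat_lit 25090429380) (nat_lit 55) (nat_lit 5) (nat_lit 58) (nat_lit 5) (nat_lit 59) (nat_lit 5) (nat_lit 358) (nat_lit 295) (nat_lit 127)))) (XT.nd (nat_lit 156) (nat_lit 228) (nat_lit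 0) (XT.nd (nat_lit 78) (nat_lit 0) (nat_lit 0) (XT.lf (nat_lit 0) (nat_lit 16693151672) (nat_lit 304) (nat_lit 18017225901) (nat_lit 76) (nat_lit 1938879724) (nat_lit 55) (nat_lit 5) (nat_lit 59) (nat_lit 5) (nat_lit 56) (nat_lit 5) (nat_lit 359) (nat_lit 295) (nat_lit 126)) (XT.lf (nat_lit 0) (nat_lit 22843625077) (nat_lit 304) (nat_lit 2482707490) (nat_lit 76) (nat_lit 12106751353) (nat_lit 55) (nat_lit 5) (nat_lit 59) (nat_lit 5) (nat_lit 56) (nat_lit 5) (nat_lit 360) (nat_lit 295) (nat_lit 125))) (XT.nd (nat_lit 78) (nat_lit 0) (nat_lit 0) (XT.lf (nat_lit 0) (nat_lit 13780665631) (nat_lit 228) (nat_lit 15526425272) (nat_lit 304) (nat_lit 8929483602) (nat_lit 52) (nat_lit 5) (nat_lit 55) (nat_lit 5) (nat_lit 56) (nat_lit 5) (nat_lit 361) (nat_lit 295) (nat_lit 124)) (XT.lf (nat_lit 0) (nat_lit 30576801471) (nat_lit 228) (nat_lit 5408797974) (nat_lit 304) (nat_lit 3077939607) (nat_lit 52)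 (nat_lit 5) (nat_lit 55) (nat_lit 5) (nat_lit 56) (nat_lit 5) (nat_lit 362) (nat_lit 295) (nat_lit 123)))))) (XT.nd (nat_lit 546) (nat_lit 684) (nat_lit 0) (XT.nd (nat_lit 234) (nat_lit 152) (nat_lit 0) (XT.nd (nat_lit 78) (nat_lit 228) (nat_lit 0) (XT.lf (nat_lit 0) (nat_lit 3014673828) (nat_lit 228) (nat_lit 31876470297) (nat_lit 76) (nat_lit 5019629001) (nat_lit 49) (nat_lit 5) (nat_lit 52) (nat_lit 5) (nat_lit 50) (nat_lit 5) (nat_lit 363) (nat_lit 295) (nat_lit 122)) (XT.nd (nat_lit 78) (nat_lit 228) (nat_lit 0) (XT.lf (nat_lit 0) (nat_lit 9364480171) (nat_lit 228) (nat_lit 15646759516) (nat_lit 76) (nat_lit 15767185074) (nat_lit 49) (nat_lit 5) (nat_lit 52) (nat_lit 5) (nat_lit 50) (nat_lit 5) (nat_lit 364) (nat_lit 295) (nat_lit 121)) (XT.lf (nat_lit 0) (nat_lit 1085218216) (nat_lit 228) (nat_lit 14826283269) (nat_lit 304) (nat_lit 25760405863) (nat_lit 46) (nat_lit 5) (nat_lit 49) (nat_lit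 5) (nat_lit 50) (nat_lit 5) (nat_lit 365) (nat_lit 295) (nat_lit 120)))) (XT.nd (nat_lit 156) (nat_lit 152) (nat_lit 0) (XT.nd (nat_lit 78) (nat_lit 0) (nat_lit 0) (XT.lf (nat_lit 0) (nat_lit 18634154495) (nat_lit 228) (nat_lit 4175122409) (nat_lit 304) (nat_lit 19778290146) (nat_lit 46) (nat_lit 5) (nat_lit 49) (nat_lit 5) (nat_lit 50) (nat_lit 5) (nat_lit 366) (nat_lit 295) (nat_lit 119)) (XT.lf (nat_lit 0) (nat_lit 29975737745) (nat_lit 304) (nat_lit 6892127537) (nat_lit 76) (nat_lit 6660981549) (nat_lit 46) (nat_lit 5) (nat_lit 50) (nat_lit 5) (nat_lit 47) (nat_lit 5) (nat_lit 367) (nat_lit 295) (nat_lit 118))) (XT.nd (nat_lit 78) (nat_lit 0) (nat_lit 0) (XT.lf (nat_lit 0) (nat_lit 10845797150) (nat_lit 152) (nat_lit 26653522508) (nat_lit 228) (nat_lit 6994784301) (nat_lit 44) (nat_lit 5) (nat_lit 46) (nat_lit 5) (nat_lit 47) (nat_lit 5) (nat_lit 368) (nat_lit 295) (nat_lit 117)) (XT.lf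 (nat_lit 0) (nat_lit 29251693773) (nat_lit 152) (nat_lit 16063093809) (nat_lit 228) (nat_lit 171548552) (nat_lit 44) (nat_lit 5) (nat_lit 46) (nat_lit 5) (nat_lit 47) (nat_lit 5) (nat_lit 369) (nat_lit 295) (nat_lit 116))))) (XT.nd (nat_lit 234) (nat_lit 380) (nat_lit 0) (XT.nd (nat_lit 78) (nat_lit 0) (nat_lit 0) (XT.lf (nat_lit 0) (nat_lit 1662609471) (nat_lit 228) (nat_lit 5072609788) (nat_lit 304) (nat_lit 39770762487) (nat_lit 40) (nat_lit 5) (nat_lit 43) (nat_lit 5) (nat_lit 44) (nat_lit 5) (nat_lit 370) (nat_lit 295) (nat_lit 115)) (XT.nd (nat_lit 78) (nat_lit 0) (nat_lit 0) (XT.lf (nat_lit 0) (nat_lit 14068032211) (nat_lit 304) (nat_lit 27190491004) (nat_lit 76) (nat_lit 6290976315) (nat_lit 40) (nat_lit 5) (nat_lit 44) (nat_lit 5) (nat_lit 41) (nat_lit 5) (nat_lit 371) (nat_lit 295) (nat_lit 114)) (XT.lf (nat_lit 0) (nat_lit 21667823520) (nat_lit 304) (nat_lit 9063478450) (nat_lit 76)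 (nat_lit 17891613450) (nat_lit 40) (nat_lit 5) (nat_lit 44) (nat_lit 5) (nat_lit 41) (nat_lit 5) (nat_lit 372) (nat_lit 295) (nat_lit 113)))) (XT.nd (nat_lit 156) (nat_lit 228) (nat_lit 0) (XT.nd (nat_lit 78) (nat_lit 0) (nat_lit 0) (XT.lf (nat_lit 0) (nat_lit 9793369462) (nat_lit 152) (nat_lit 19793243147) (nat_lit 228) (nat_lit 20139193376) (nat_lit 38) (nat_lit 5) (nat_lit 40) (nat_lit 5) (nat_lit 41) (nat_lit 5) (nat_lit 373) (nat_lit 295) (nat_lit 112)) (XT.lf (nat_lit 0) (nat_lit 29396686100) (nat_lit 152) (nat_lit 8434709806) (nat_lit 228) (nat_lit 13027736698) (nat_lit 38) (nat_lit 5) (nat_lit 40) (nat_lit 5) (nat_lit 41) (nat_lit 5) (nat_lit 374) (nat_lit 295) (nat_lit 111))) (XT.nd (nat_lit 78) (nat_lit 228) (nat_lit 0) (XT.lf (nat_lit 0) (nat_lit 46351883025) (nat_lit 228) (nat_lit 2474694776) (nat_lit 76) (nat_lit 3199032599) (nat_lit 38) (nat_lit 5) (nat_lit 41) (nat_lit 5) (nat_lit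 39) (nat_lit 5) (nat_lit 375) (nat_lit 295) (nat_lit 110)) (XT.lf (nat_lit 0) (nat_lit 2113444698) (nat_lit 228) (nat_lit 35907802749) (nat_lit 76) (nat_lit 15197799886) (nat_lit 35) (nat_lit 5) (nat_lit 38) (nat_lit 5) (nat_lit 36) (nat_lit 5) (nat_lit 376) (nat_lit 295) (nat_lit 109))))))))
noncomputable def xc191 : XT := (XT.nd (nat_lit 34866) (nat_lit 0) (nat_lit 7296) (XT.nd (nat_lit 1014) (nat_lit 304) (nat_lit 0) (XT.nd (nat_lit 468) (nat_lit 380) (nat_lit 0) (XT.nd (nat_lit 234) (nat_lit 152) (nat_lit 0) (XT.nd (nat_lit 78) (nat_lit 152) (nat_lit 0) (XT.lf (nat_lit 0) (nat_lit 10042508736) (nat_lit 228) (nat_lit 16767295178) (nat_lit 76) (nat_lit 27636130805) (nat_lit 35) (nat_lit 5) (nat_lit 38) (nat_lit 5) (nat_lit 36) (nat_lit 5) (nat_lit 377) (nat_lit 295) (nat_lit 108)) (XT.nd (nat_lit 78) (nat_lit 0) (nat_lit 0) (XT.lf (nat_lit 0) (nat_lit 3001309026) (nat_lit 152) (nat_lit 15234147368)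 (nat_lit 228) (nat_lit 37473393924) (nat_lit 33) (nat_lit 5) (nat_lit 35) (nat_lit 5) (nat_lit 36) (nat_lit 5) (nat_lit 378) (nat_lit 295) (nat_lit 107)) (XT.lf (nat_lit 0) (nat_lit 23702045457) (nat_lit 152) (nat_lit 3138663198) (nat_lit 228) (nat_lit 30163951132) (nat_lit 33) (nat_lit 5) (nat_lit 35) (nat_lit 5) (nat_lit 36) (nat_lit 5) (nat_lit 379) (nat_lit 295) (nat_lit 106)))) (XT.nd (nat_lit 78) (nat_lit 152) (nat_lit 0) (XT.lf (nat_lit 0) (nat_lit 35790968785) (nat_lit 228) (nat_lit 13409696220) (nat_lit 76) (nat_lit 9136074856) (nat_lit 33) (nat_lit 5) (nat_lit 36) (nat_lit 5) (nat_lit 34) (nat_lit 5) (nat_lit 380) (nat_lit 295) (nat_lit 105)) (XT.nd (nat_lit 78) (nat_lit 0) (nat_lit 0) (XT.lf (nat_lit 0) (nat_lit 7184695821) (nat_lit 152) (nat_lit 37922523942) (nat_lit 228) (nat_lit 14598639864) (nat_lit 31) (nat_lit 5) (nat_lit 33) (nat_lit 5) (nat_lit 34) (nat_lit 5) (nat_lit 381)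 (nat_lit 295) (nat_lit 104)) (XT.lf (nat_lit 0) (nat_lit 28667411719) (nat_lit 152) (nat_lit 26168336810) (nat_lit 228) (nat_lit 6276322475) (nat_lit 31) (nat_lit 5) (nat_lit 33) (nat_lit 5) (nat_lit 34) (nat_lit 5) (nat_lit 382) (nat_lit 295) (nat_lit 103))))) (XT.nd (nat_lit 234) (nat_lit 152) (nat_lit 0) (XT.nd (nat_lit 78) (nat_lit 152) (nat_lit 0) (XT.lf (nat_lit 0) (nat_lit 2248295882) (nat_lit 228) (nat_lit 11792245337) (nat_lit 76) (nat_lit 48519344266) (nat_lit 30) (nat_lit 5) (nat_lit 33) (nat_lit 5) (nat_lit 31) (nat_lit 5) (nat_lit 383) (nat_lit 295) (nat_lit 102)) (XT.nd (nat_lit 78) (nat_lit 0) (nat_lit 0) (XT.lf (nat_lit 0) (nat_lit 9600751873) (nat_lit 152) (nat_lit 1391544388) (nat_lit 228) (nat_lit 53054281727) (nat_lit 28) (nat_lit 5) (nat_lit 30) (nat_lit 5) (nat_lit 31) (nat_lit 5) (nat_lit 384) (nat_lit 295) (nat_lit 101)) (XT.lf (nat_lit 0) (nat_lit 20228255059) (nat_lit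 228) (nat_lit 33814281387) (nat_lit 76) (nat_lit 11528447201) (nat_lit 28) (nat_lit 5) (nat_lit 31) (nat_lit 5) (nat_lit 29) (nat_lit 5) (nat_lit 385) (nat_lit 295) (nat_lit 100)))) (XT.nd (nat_lit 156) (nat_lit 0) (nat_lit 0) (XT.nd (nat_lit 78) (nat_lit 152) (nat_lit 0) (XT.lf (nat_lit 0) (nat_lit 29752662169) (nat_lit 228) (nat_lit 12581656074) (nat_lit 76) (nat_lit 24806463636) (nat_lit 28) (nat_lit 5) (nat_lit 31) (nat_lit 5) (nat_lit 29) (nat_lit 5) (nat_lit 386) (nat_lit 295) (nat_lit 99)) (XT.lf (nat_lit 0) (nat_lit 9468748361) (nat_lit 152) (nat_lit 30182734553) (nat_lit 228) (nat_lit 29103532147) (nat_lit 26) (nat_lit 5) (nat_lit 28) (nat_lit 5) (nat_lit 29) (nat_lit 5) (nat_lit 387) (nat_lit 295) (nat_lit 98))) (XT.nd (nat_lit 78) (nat_lit 0) (nat_lit 0) (XT.lf (nat_lit 0) (nat_lit 32434646437) (nat_lit 152) (nat_lit 17537364241) (nat_lit 228) (nat_lit 20441923692) (nat_lit 26) (nat_lit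 5) (nat_lit 28) (nat_lit 5) (nat_lit 29) (nat_lit 5) (nat_lit 388) (nat_lit 295) (nat_lit 97)) (XT.lf (nat_lit 0) (nat_lit 56085705816) (nat_lit 152) (nat_lit 4514208012) (nat_lit 228) (nat_lit 11522776008) (nat_lit 26) (nat_lit 5) (nat_lit 28) (nat_lit 5) (nat_lit 29) (nat_lit 5) (nat_lit 389) (nat_lit 295) (nat_lit 96)))))) (XT.nd (nat_lit 33306) (nat_lit 0) (nat_lit 12768) (XT.nd (nat_lit 234) (nat_lit 152) (nat_lit 0) (XT.nd (nat_lit 78) (nat_lit 76) (nat_lit 0) (XT.lf (nat_lit 0) (nat_lit 6603134757) (nat_lit 76) (nat_lit 65090351606) (nat_lit 152) (nat_lit 2184817957) (nat_lit 25) (nat_lit 5) (nat_lit 26) (nat_lit 5) (nat_lit 27) (nat_lit 4) (nat_lit 390) (nat_lit 295) (nat_lit 95)) (XT.nd (nat_lit 78) (nat_lit 0) (nat_lit 0) (XT.lf (nat_lit 0) (nat_lit 7494284871) (nat_lit 152) (nat_lit 45552045446) (nat_lit 76) (nat_lit 22631932890) (nat_lit 24) (nat_lit 5) (nat_lit 26) (nat_lit 5) (nat_lit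 25) (nat_lit 5) (nat_lit 391) (nat_lit 295) (nat_lit 94)) (XT.lf (nat_lit 0) (nat_lit 17417727207) (nat_lit 152) (nat_lit 23202514106) (nat_lit 76) (nat_lit 36911395430) (nat_lit 24) (nat_lit 5) (nat_lit 26) (nat_lit 5) (nat_lit 25) (nat_lit 5) (nat_lit 392) (nat_lit 295) (nat_lit 93)))) (XT.nd (nat_lit 78) (nat_lit 152) (nat_lit 0) (XT.lf (nat_lit 0) (nat_lit 27636813686) (nat_lit 152) (nat_lit 186045019) (nat_lit 76) (nat_lit 51617815730) (nat_lit 24) (nat_lit 5) (nat_lit 26) (nat_lit 5) (nat_lit 25) (nat_lit 5) (nat_lit 393) (nat_lit 295) (nat_lit 92)) (XT.nd (nat_lit 78) (nat_lit 0) (nat_lit 0) (XT.lf (nat_lit 0) (nat_lit 23985517121) (nat_lit 152) (nat_lit 14405519948) (nat_lit 228) (nat_lit 43009090400) (nat_lit 22) (nat_lit 5) (nat_lit 24) (nat_lit 5) (nat_lit 25) (nat_lit 5) (nat_lit 394) (nat_lit 295) (nat_lit 91)) (XT.lf (nat_lit 0) (nat_lit 48882628792) (nat_lit 152) (nat_lit 585163338)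 (nat_lit 228) (nat_lit 33950575923) (nat_lit 22) (nat_lit 5) (nat_lit 24) (nat_lit 5) (nat_lit 25) (nat_lit 5) (nat_lit 395) (nat_lit 295) (nat_lit 90))))) (XT.nd (nat_lit 234) (nat_lit 0) (nat_lit 76) (XT.nd (nat_lit 78) (nat_lit 0) (nat_lit 0) (XT.lf (nat_lit 0) (nat_lit 2751789652) (nat_lit 1140) (nat_lit 1670068344) (nat_lit 1140) (nat_lit 1670068344) (nat_lit 190) (nat_lit 3) (nat_lit 205) (nat_lit 3) (nat_lit 205) (nat_lit 5) (nat_lit 296) (nat_lit 296) (nat_lit 188)) (XT.nd (nat_lit 78) (nat_lit 0) (nat_lit 76) (XT.lf (nat_lit 76) (nat_lit 2096160834) (nat_lit 0) (nat_lit 3938838608) (nat_lit 1140) (nat_lit 6317453675) (nat_lit 191) (nat_lit 5) (nat_lit 190) (nat_lit 3) (nat_lit 205) (nat_lit 5) (nat_lit 297) (nat_lit 296) (nat_lit 187)) (XT.lf (nat_lit 0) (nat_lit 6610386389) (nat_lit 1064) (nat_lit 4781527996) (nat_lit 1140) (nat_lit 1133383437) (nat_lit 191) (nat_lit 5) (nat_lit 205)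 (nat_lit 5) (nat_lit 206) (nat_lit 5) (nat_lit 298) (nat_lit 296) (nat_lit 186)))) (XT.nd (nat_lit 156) (nat_lit 0) (nat_lit 76) (XT.nd (nat_lit 78) (nat_lit 0) (nat_lit 0) (XT.lf (nat_lit 76) (nat_lit 825451909) (nat_lit 0) (nat_lit 6408264540) (nat_lit 1140) (nat_lit 5468717170) (nat_lit 192) (nat_lit 5) (nat_lit 191) (nat_lit 5) (nat_lit 206) (nat_lit 5) (nat_lit 299) (nat_lit 296) (nat_lit 185)) (XT.lf (nat_lit 76) (nat_lit 6689610973) (nat_lit 0) (nat_lit 1218554235) (nat_lit 1140) (nat_lit 4975771150) (nat_lit 192) (nat_lit 5) (nat_lit 191) (nat_lit 5) (nat_lit 206) (nat_lit 5) (nat_lit 300) (nat_lit 296) (nat_lit 184))) (XT.nd (nat_lit 78) (nat_lit 0) (nat_lit 0) (XT.lf (nat_lit 0) (nat_lit 8627177681) (nat_lit 1064) (nat_lit 390192946) (nat_lit 1140) (nat_lit 4052808337) (nat_lit 192) (nat_lit 5) (nat_lit 206) (nat_lit 5) (nat_lit 207) (nat_lit 5) (nat_lit 301) (nat_lit 296) (nat_lit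 183)) (XT.lf (nat_lit 76) (nat_lit 5677729590) (nat_lit 0) (nat_lit 3741780892) (nat_lit 1140) (nat_lit 3840969841) (nat_lit 193) (nat_lit 5) (nat_lit 192) (nat_lit 5) (nat_lit 207) (nat_lit 5) (nat_lit 302) (nat_lit 296) (nat_lit 182))))))) (XT.nd (nat_lit 1014) (nat_lit 3724) (nat_lit 0) (XT.nd (nat_lit 468) (nat_lit 988) (nat_lit 0) (XT.nd (nat_lit 234) (nat_lit 988) (nat_lit 0) (XT.nd (nat_lit 78) (nat_lit 0) (nat_lit 0) (XT.lf (nat_lit 0) (nat_lit 10241366068) (nat_lit 1064) (nat_lit 1546474716) (nat_lit 1140) (nat_lit 1668500630) (nat_lit 193) (nat_lit 5) (nat_lit 207) (nat_lit 5) (nat_lit 208) (nat_lit 5) (nat_lit 303) (nat_lit 296) (nat_lit 181)) (XT.nd (nat_lit 78) (nat_lit 0) (nat_lit 0) (XT.lf (nat_lit 76) (nat_lit 4716671507) (nat_lit 0) (nat_lit 6439523096) (nat_lit 1140) (nat_lit 2499856813) (nat_lit 194) (nat_lit 5) (nat_lit 193) (nat_lit 5) (nat_lit 208) (nat_lit 5) (nat_lit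 304) (nat_lit 296) (nat_lit 180)) (XT.lf (nat_lit 76) (nat_lit 11190293638) (nat_lit 0) (nat_lit 910043265) (nat_lit 1140) (nat_lit 1761381686) (nat_lit 194) (nat_lit 5) (nat_lit 193) (nat_lit 5) (nat_lit 208) (nat_lit 5) (nat_lit 305) (nat_lit 296) (nat_lit 179)))) (XT.nd (nat_lit 78) (nat_lit 1064) (nat_lit 0) (XT.lf (nat_lit 76) (nat_lit 3803469641) (nat_lit 0) (nat_lit 9338590686) (nat_lit 1140) (nat_lit 929439044) (nat_lit 195) (nat_lit 5) (nat_lit 194) (nat_lit 5) (nat_lit 209) (nat_lit 5) (nat_lit 306) (nat_lit 296) (nat_lit 178)) (XT.nd (nat_lit 78) (nat_lit 1064) (nat_lit 0) (XT.lf (nat_lit 76) (nat_lit 10508955403) (nat_lit 0) (nat_lit 3728973134) (nat_lit 1140) (nat_lit 48978928) (nat_lit 195) (nat_lit 5) (nat_lit 194) (nat_lit 5) (nat_lit 209) (nat_lit 5) (nat_lit 307) (nat_lit 296) (nat_lit 177)) (XT.lf (nat_lit 0) (nat_lit 876802070) (nat_lit 1140) (nat_lit 11581322415) (nat_lit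 1216) (nat_lit 2049355978) (nat_lit 180) (nat_lit 5) (nat_lit 195) (nat_lit 5) (nat_lit 196) (nat_lit 5) (nat_lit 308) (nat_lit 296) (nat_lit 176))))) (XT.nd (nat_lit 234) (nat_lit 988) (nat_lit 0) (XT.nd (nat_lit 78) (nat_lit 0) (nat_lit 0) (XT.lf (nat_lit 0) (nat_lit 1892365499) (nat_lit 1140) (nat_lit 4872041239) (nat_lit 1216) (nat_lit 7968378488) (nat_lit 180) (nat_lit 5) (nat_lit 195) (nat_lit 5) (nat_lit 196) (nat_lit 5) (nat_lit 309) (nat_lit 296) (nat_lit 175)) (XT.nd (nat_lit 78) (nat_lit 0) (nat_lit 76) (XT.lf (nat_lit 76) (nat_lit 2069615010) (nat_lit 0) (nat_lit 876583254) (nat_lit 1216) (nat_lit 12018435167) (nat_lit 181) (nat_lit 5) (nat_lit 180) (nat_lit 5) (nat_lit 196) (nat_lit 5) (nat_lit 310) (nat_lit 296) (nat_lit 174)) (XT.lf (nat_lit 0) (nat_lit 4119397306) (nat_lit 1140) (nat_lit 5942520164) (nat_lit 1216) (nat_lit 5138904912) (nat_lit 181) (nat_lit 5) (nat_lit 196) (nat_lit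 5) (nat_lit 197) (nat_lit 5) (nat_lit 311) (nat_lit 296) (nat_lit 173)))) (XT.nd (nat_lit 156) (nat_lit 1064) (nat_lit 0) (XT.nd (nat_lit 78) (nat_lit 0) (nat_lit 76) (XT.lf (nat_lit 76) (nat_lit 1224451038) (nat_lit 0) (nat_lit 4112331359) (nat_lit 1216) (nat_lit 10107062221) (nat_lit 182) (nat_lit 5) (nat_lit 181) (nat_lit 5) (nat_lit 197) (nat_lit 5) (nat_lit 312) (nat_lit 296) (nat_lit 172)) (XT.lf (nat_lit 0) (nat_lit 6659472597) (nat_lit 1140) (nat_lit 6993678187) (nat_lit 76) (nat_lit 2038960045) (nat_lit 182) (nat_lit 5) (nat_lit 197) (nat_lit 5) (nat_lit 183) (nat_lit 5) (nat_lit 313) (nat_lit 296) (nat_lit 171))) (XT.nd (nat_lit 78) (nat_lit 0) (nat_lit 0) (XT.lf (nat_lit 0) (nat_lit 406711022) (nat_lit 1140) (nat_lit 7648889321) (nat_lit 1216) (nat_lit 7891228302) (nat_lit 167) (nat_lit 5) (nat_lit 182) (nat_lit 5) (nat_lit 183) (nat_lit 5) (nat_lit 314) (nat_lit 296) (nat_lit 170))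 (XT.lf (nat_lit 0) (nat_lit 8163248914) (nat_lit 1140) (nat_lit 1390344456) (nat_lit 1216) (nat_lit 6653811030) (nat_lit 167) (nat_lit 5) (nat_lit 182) (nat_lit 5) (nat_lit 183) (nat_lit 5) (nat_lit 315) (nat_lit 296) (nat_lit 169)))))) (XT.nd (nat_lit 546) (nat_lit 1976) (nat_lit 0) (XT.nd (nat_lit 234) (nat_lit 1216) (nat_lit 0) (XT.nd (nat_lit 78) (nat_lit 532) (nat_lit 0) (XT.lf (nat_lit 0) (nat_lit 11134809283) (nat_lit 1216) (nat_lit 381211761) (nat_lit 76) (nat_lit 4958643280) (nat_lit 167) (nat_lit 5) (nat_lit 183) (nat_lit 5) (nat_lit 168) (nat_lit 5) (nat_lit 316) (nat_lit 296) (nat_lit 168)) (XT.nd (nat_lit 78) (nat_lit 0) (nat_lit 0) (XT.lf (nat_lit 0) (nat_lit 7637871311) (nat_lit 532) (nat_lit 5202758703) (nat_lit 608) (nat_lit 3907011920) (nat_lit 160) (nat_lit 5) (nat_lit 167) (nat_lit 5) (nat_lit 168) (nat_lit 5) (nat_lit 317) (nat_lit 296) (nat_lit 167)) (XT.lf (nat_lit 0)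 (nat_lit 14604205350) (nat_lit 608) (nat_lit 1145139933) (nat_lit 76) (nat_lit 1279280694) (nat_lit 160) (nat_lit 5) (nat_lit 168) (nat_lit 5) (nat_lit 161) (nat_lit 5) (nat_lit 318) (nat_lit 296) (nat_lit 166)))) (XT.nd (nat_lit 156) (nat_lit 532) (nat_lit 0) (XT.nd (nat_lit 78) (nat_lit 76) (nat_lit 0) (XT.lf (nat_lit 0) (nat_lit 7137205009) (nat_lit 608) (nat_lit 9394085033) (nat_lit 684) (nat_lit 783445518) (nat_lit 152) (nat_lit 5) (nat_lit 160) (nat_lit 5) (nat_lit 161) (nat_lit 5) (nat_lit 319) (nat_lit 296) (nat_lit 165)) (XT.lf (nat_lit 0) (nat_lit 891311277) (nat_lit 684) (nat_lit 1935515465) (nat_lit 76) (nat_lit 14782286075) (nat_lit 151) (nat_lit 5) (nat_lit 160) (nat_lit 5) (nat_lit 152) (nat_lit 5) (nat_lit 320) (nat_lit 296) (nat_lit 164))) (XT.nd (nat_lit 78) (nat_lit 0) (nat_lit 0) (XT.lf (nat_lit 0) (nat_lit 2694060958) (nat_lit 608) (nat_lit 11281744222) (nat_lit 76) (nat_lit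 3933491493) (nat_lit 144) (nat_lit 5) (nat_lit 152) (nat_lit 5) (nat_lit 145) (nat_lit 5) (nat_lit 321) (nat_lit 296) (nat_lit 163)) (XT.lf (nat_lit 0) (nat_lit 4589647873) (nat_lit 608) (nat_lit 2767923052) (nat_lit 76) (nat_lit 10859764986) (nat_lit 144) (nat_lit 5) (nat_lit 152) (nat_lit 5) (nat_lit 145) (nat_lit 5) (nat_lit 322) (nat_lit 296) (nat_lit 162))))) (XT.nd (nat_lit 234) (nat_lit 988) (nat_lit 0) (XT.nd (nat_lit 78) (nat_lit 456) (nat_lit 0) (XT.lf (nat_lit 0) (nat_lit 6111809138) (nat_lit 532) (nat_lit 480332965) (nat_lit 608) (nat_lit 11940985182) (nat_lit 137) (nat_lit 5) (nat_lit 144) (nat_lit 5) (nat_lit 145) (nat_lit 5) (nat_lit 323) (nat_lit 296) (nat_lit 161)) (XT.nd (nat_lit 78) (nat_lit 456) (nat_lit 0) (XT.lf (nat_lit 0) (nat_lit 8737870876) (nat_lit 608) (nat_lit 3615579554) (nat_lit 76) (nat_lit 6502458971) (nat_lit 137) (nat_lit 5) (nat_lit 145) (nat_lit 5) (nat_lit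 138) (nat_lit 5) (nat_lit 324) (nat_lit 296) (nat_lit 160)) (XT.lf (nat_lit 0) (nat_lit 5549172656) (nat_lit 456) (nat_lit 5448603631) (nat_lit 532) (nat_lit 8189115999) (nat_lit 131) (nat_lit 5) (nat_lit 137) (nat_lit 5) (nat_lit 138) (nat_lit 5) (nat_lit 325) (nat_lit 296) (nat_lit 159)))) (XT.nd (nat_lit 156) (nat_lit 532) (nat_lit 0) (XT.nd (nat_lit 78) (nat_lit 456) (nat_lit 0) (XT.lf (nat_lit 0) (nat_lit 13370201445) (nat_lit 532) (nat_lit 4488929669) (nat_lit 76) (nat_lit 1667342983) (nat_lit 131) (nat_lit 5) (nat_lit 138) (nat_lit 5) (nat_lit 132) (nat_lit 5) (nat_lit 326) (nat_lit 296) (nat_lit 158)) (XT.lf (nat_lit 0) (nat_lit 4968740698) (nat_lit 456) (nat_lit 10938866175) (nat_lit 532) (nat_lit 3965833056) (nat_lit 125) (nat_lit 5) (nat_lit 131) (nat_lit 5) (nat_lit 132) (nat_lit 5) (nat_lit 327) (nat_lit 296) (nat_lit 157))) (XT.nd (nat_lit 78) (nat_lit 532) (nat_lit 0) (XT.lf (nat_lit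 0) (nat_lit 14793649348) (nat_lit 456) (nat_lit 3765061213) (nat_lit 532) (nat_lit 1670987370) (nat_lit 125) (nat_lit 5) (nat_lit 131) (nat_lit 5) (nat_lit 132) (nat_lit 5) (nat_lit 328) (nat_lit 296) (nat_lit 156)) (XT.lf (nat_lit 0) (nat_lit 749058283) (nat_lit 532) (nat_lit 16243539581) (nat_lit 76) (nat_lit 3601759774) (nat_lit 118) (nat_lit 5) (nat_lit 125) (nat_lit 5) (nat_lit 119) (nat_lit 5) (nat_lit 329) (nat_lit 296) (nat_lit 155))))))))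
noncomputable def xc192 : XT := (XT.nd (nat_lit 2028) (nat_lit 2204) (nat_lit 0) (XT.nd (nat_lit 1014) (nat_lit 1900) (nat_lit 0) (XT.nd (nat_lit 468) (nat_lit 1140) (nat_lit 0) (XT.nd (nat_lit 234) (nat_lit 760) (nat_lit 0) (XT.nd (nat_lit 78) (nat_lit 456) (nat_lit 0) (XT.lf (nat_lit 0) (nat_lit 3293356061) (nat_lit 532) (nat_lit 6488518452) (nat_lit 76) (nat_lit 11185038800) (nat_lit 118) (nat_lit 5) (nat_lit 125) (nat_lit 5) (nat_lit 119) (nat_lit 5) (nat_lit 330) (nat_lit 296) (nat_lit 154)) (XT.nd (nat_lit 78) (nat_lit 0) (nat_lit 0) (XT.lf (nat_lit 0) (nat_lit 3621504708) (nat_lit 456) (nat_lit 2320029194) (nat_lit 532) (nat_lit 15408294531) (nat_lit 112) (nat_lit 5) (nat_lit 118) (nat_lit 5) (nat_lit 119) (nat_lit 5) (nat_lit 331) (nat_lit 296) (nat_lit 153)) (XT.lf (nat_lit 0) (nat_lit 8779765925) (nat_lit 532) (nat_lit 7635103302) (nat_lit 76) (nat_lit 5326052554) (nat_lit 112) (nat_lit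 5) (nat_lit 119) (nat_lit 5) (nat_lit 113) (nat_lit 5) (nat_lit 332) (nat_lit 296) (nat_lit 152)))) (XT.nd (nat_lit 78) (nat_lit 380) (nat_lit 0) (XT.lf (nat_lit 0) (nat_lit 2784068487) (nat_lit 380) (nat_lit 8961877806) (nat_lit 456) (nat_lit 10396526368) (nat_lit 107) (nat_lit 5) (nat_lit 112) (nat_lit 5) (nat_lit 113) (nat_lit 5) (nat_lit 333) (nat_lit 296) (nat_lit 151)) (XT.nd (nat_lit 78) (nat_lit 380) (nat_lit 0) (XT.lf (nat_lit 0) (nat_lit 13664206109) (nat_lit 380) (nat_lit 1207197983) (nat_lit 456) (nat_lit 7682565737) (nat_lit 107) (nat_lit 5) (nat_lit 112) (nat_lit 5) (nat_lit 113) (nat_lit 5) (nat_lit 334) (nat_lit 296) (nat_lit 150)) (XT.lf (nat_lit 0) (nat_lit 1855897311) (nat_lit 380) (nat_lit 16311121479) (nat_lit 456) (nat_lit 4808509597) (nat_lit 102) (nat_lit 5) (nat_lit 107) (nat_lit 5) (nat_lit 108) (nat_lit 5) (nat_lit 335) (nat_lit 296) (nat_lit 149))))) (XT.nd (nat_lit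 234) (nat_lit 684) (nat_lit 0) (XT.nd (nat_lit 78) (nat_lit 456) (nat_lit 0) (XT.lf (nat_lit 0) (nat_lit 13085969296) (nat_lit 380) (nat_lit 8570631512) (nat_lit 456) (nat_lit 1750287958) (nat_lit 102) (nat_lit 5) (nat_lit 107) (nat_lit 5) (nat_lit 108) (nat_lit 5) (nat_lit 336) (nat_lit 296) (nat_lit 148)) (XT.nd (nat_lit 78) (nat_lit 0) (nat_lit 0) (XT.lf (nat_lit 0) (nat_lit 795928687) (nat_lit 380) (nat_lit 577703515) (nat_lit 456) (nat_lit 22477123746) (nat_lit 96) (nat_lit 5) (nat_lit 101) (nat_lit 5) (nat_lit 102) (nat_lit 5) (nat_lit 337) (nat_lit 296) (nat_lit 147)) (XT.lf (nat_lit 0) (nat_lit 4728638152) (nat_lit 456) (nat_lit 11946912536) (nat_lit 76) (nat_lit 7626699502) (nat_lit 96) (nat_lit 5) (nat_lit 102) (nat_lit 5) (nat_lit 97) (nat_lit 5) (nat_lit 338) (nat_lit 296) (nat_lit 146)))) (XT.nd (nat_lit 156) (nat_lit 304) (nat_lit 0) (XT.nd (nat_lit 78) (nat_lit 380) (nat_lit 0)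 (XT.lf (nat_lit 0) (nat_lit 8183906966) (nat_lit 456) (nat_lit 519251959) (nat_lit 76) (nat_lit 16064149090) (nat_lit 96) (nat_lit 5) (nat_lit 102) (nat_lit 5) (nat_lit 97) (nat_lit 5) (nat_lit 339) (nat_lit 296) (nat_lit 145)) (XT.lf (nat_lit 0) (nat_lit 11467464581) (nat_lit 380) (nat_lit 379672275) (nat_lit 456) (nat_lit 13396058555) (nat_lit 91) (nat_lit 5) (nat_lit 96) (nat_lit 5) (nat_lit 97) (nat_lit 5) (nat_lit 340) (nat_lit 296) (nat_lit 144))) (XT.nd (nat_lit 78) (nat_lit 304) (nat_lit 0) (XT.lf (nat_lit 0) (nat_lit 15698475914) (nat_lit 456) (nat_lit 1995225584) (nat_lit 76) (nat_lit 8037318288) (nat_lit 91) (nat_lit 5) (nat_lit 97) (nat_lit 5) (nat_lit 92) (nat_lit 5) (nat_lit 341) (nat_lit 296) (nat_lit 143)) (XT.lf (nat_lit 0) (nat_lit 10329078454) (nat_lit 304) (nat_lit 9433651271) (nat_lit 380) (nat_lit 6467834459) (nat_lit 87) (nat_lit 5) (nat_lit 91) (nat_lit 5) (nat_lit 92)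 (nat_lit 5) (nat_lit 342) (nat_lit 296) (nat_lit 142)))))) (XT.nd (nat_lit 468) (nat_lit 836) (nat_lit 0) (XT.nd (nat_lit 234) (nat_lit 608) (nat_lit 0) (XT.nd (nat_lit 78) (nat_lit 456) (nat_lit 0) (XT.lf (nat_lit 0) (nat_lit 23056669718) (nat_lit 304) (nat_lit 906810015) (nat_lit 380) (nat_lit 2781184464) (nat_lit 87) (nat_lit 5) (nat_lit 91) (nat_lit 5) (nat_lit 92) (nat_lit 5) (nat_lit 343) (nat_lit 296) (nat_lit 141)) (XT.nd (nat_lit 78) (nat_lit 0) (nat_lit 0) (XT.lf (nat_lit 0) (nat_lit 1154418784) (nat_lit 456) (nat_lit 18296583732) (nat_lit 76) (nat_lit 7818152232) (nat_lit 81) (nat_lit 5) (nat_lit 87) (nat_lit 5) (nat_lit 82) (nat_lit 5) (nat_lit 344) (nat_lit 296) (nat_lit 140)) (XT.lf (nat_lit 0) (nat_lit 5193376580) (nat_lit 456) (nat_lit 5763914928) (nat_lit 76) (nat_lit 16850032651) (nat_lit 81) (nat_lit 5) (nat_lit 87) (nat_lit 5) (nat_lit 82) (nat_lit 5) (nat_lit 345) (nat_lit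 296) (nat_lit 139)))) (XT.nd (nat_lit 78) (nat_lit 304) (nat_lit 0) (XT.lf (nat_lit 0) (nat_lit 7279677562) (nat_lit 304) (nat_lit 2138556579) (nat_lit 380) (nat_lit 18941468212) (nat_lit 77) (nat_lit 5) (nat_lit 81) (nat_lit 5) (nat_lit 82) (nat_lit 5) (nat_lit 346) (nat_lit 296) (nat_lit 138)) (XT.nd (nat_lit 78) (nat_lit 304) (nat_lit 0) (XT.lf (nat_lit 0) (nat_lit 13890196417) (nat_lit 380) (nat_lit 8168688341) (nat_lit 76) (nat_lit 6866161833) (nat_lit 77) (nat_lit 5) (nat_lit 82) (nat_lit 5) (nat_lit 78) (nat_lit 5) (nat_lit 347) (nat_lit 296) (nat_lit 137)) (XT.lf (nat_lit 0) (nat_lit 5203378571) (nat_lit 304) (nat_lit 13359103085) (nat_lit 380) (nat_lit 10942889888) (nat_lit 73) (nat_lit 5) (nat_lit 77) (nat_lit 5) (nat_lit 78) (nat_lit 5) (nat_lit 348) (nat_lit 296) (nat_lit 136))))) (XT.nd (nat_lit 234) (nat_lit 532) (nat_lit 0) (XT.nd (nat_lit 78) (nat_lit 304) (nat_lit 0) (XT.lf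 (nat_lit 0) (nat_lit 19137153490) (nat_lit 304) (nat_lit 4315321982) (nat_lit 380) (nat_lit 6648309727) (nat_lit 73) (nat_lit 5) (nat_lit 77) (nat_lit 5) (nat_lit 78) (nat_lit 5) (nat_lit 349) (nat_lit 296) (nat_lit 135)) (XT.nd (nat_lit 78) (nat_lit 76) (nat_lit 0) (XT.lf (nat_lit 0) (nat_lit 2774118701) (nat_lit 228) (nat_lit 25784955933) (nat_lit 304) (nat_lit 2152894467) (nat_lit 70) (nat_lit 5) (nat_lit 73) (nat_lit 5) (nat_lit 74) (nat_lit 5) (nat_lit 350) (nat_lit 296) (nat_lit 134)) (XT.lf (nat_lit 0) (nat_lit 2578775643) (nat_lit 304) (nat_lit 14263925175) (nat_lit 76) (nat_lit 14493585944) (nat_lit 69) (nat_lit 5) (nat_lit 73) (nat_lit 5) (nat_lit 70) (nat_lit 5) (nat_lit 351) (nat_lit 296) (nat_lit 133)))) (XT.nd (nat_lit 156) (nat_lit 228) (nat_lit 0) (XT.nd (nat_lit 78) (nat_lit 304) (nat_lit 0) (XT.lf (nat_lit 0) (nat_lit 7404466336) (nat_lit 304) (nat_lit 207765047) (nat_lit 76)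 (nat_lit 24366607431) (nat_lit 69) (nat_lit 5) (nat_lit 73) (nat_lit 5) (nat_lit 70) (nat_lit 5) (nat_lit 352) (nat_lit 296) (nat_lit 132)) (XT.lf (nat_lit 0) (nat_lit 12529827405) (nat_lit 380) (nat_lit 18108714793) (nat_lit 76) (nat_lit 1997482685) (nat_lit 65) (nat_lit 5) (nat_lit 70) (nat_lit 5) (nat_lit 66) (nat_lit 5) (nat_lit 353) (nat_lit 296) (nat_lit 131))) (XT.nd (nat_lit 78) (nat_lit 228) (nat_lit 0) (XT.lf (nat_lit 0) (nat_lit 17881965247) (nat_lit 380) (nat_lit 3686085041) (nat_lit 76) (nat_lit 11742690086) (nat_lit 65) (nat_lit 5) (nat_lit 70) (nat_lit 5) (nat_lit 66) (nat_lit 5) (nat_lit 354) (nat_lit 296) (nat_lit 130)) (XT.lf (nat_lit 0) (nat_lit 11385048548) (nat_lit 228) (nat_lit 12114717483) (nat_lit 304) (nat_lit 10502782525) (nat_lit 62) (nat_lit 5) (nat_lit 65) (nat_lit 5) (nat_lit 66) (nat_lit 5) (nat_lit 355) (nat_lit 296) (nat_lit 129))))))) (XT.nd (nat_lit 1014) (nat_lit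 988) (nat_lit 0) (XT.nd (nat_lit 468) (nat_lit 684) (nat_lit 0) (XT.nd (nat_lit 234) (nat_lit 228) (nat_lit 0) (XT.nd (nat_lit 78) (nat_lit 304) (nat_lit 0) (XT.lf (nat_lit 0) (nat_lit 26977601058) (nat_lit 228) (nat_lit 2341446883) (nat_lit 304) (nat_lit 5395078698) (nat_lit 62) (nat_lit 5) (nat_lit 65) (nat_lit 5) (nat_lit 66) (nat_lit 5) (nat_lit 356) (nat_lit 296) (nat_lit 128)) (XT.nd (nat_lit 78) (nat_lit 0) (nat_lit 0) (XT.lf (nat_lit 0) (nat_lit 13612856) (nat_lit 304) (nat_lit 27782988618) (nat_lit 76) (nat_lit 7646138941) (nat_lit 58) (nat_lit 5) (nat_lit 62) (nat_lit 5) (nat_lit 59) (nat_lit 5) (nat_lit 357) (nat_lit 296) (nat_lit 127)) (XT.lf (nat_lit 0) (nat_lit 5574057982) (nat_lit 304) (nat_lit 12597961705) (nat_lit 76) (nat_lit 18016656285) (nat_lit 58) (nat_lit 5) (nat_lit 62) (nat_lit 5) (nat_lit 59) (nat_lit 5) (nat_lit 358) (nat_lit 296) (nat_lit 126)))) (XT.nd (nat_lit 78)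 (nat_lit 0) (nat_lit 0) (XT.lf (nat_lit 0) (nat_lit 3097002369) (nat_lit 228) (nat_lit 8230053968) (nat_lit 304) (nat_lit 25629164679) (nat_lit 55) (nat_lit 5) (nat_lit 58) (nat_lit 5) (nat_lit 59) (nat_lit 5) (nat_lit 359) (nat_lit 296) (nat_lit 125)) (XT.nd (nat_lit 78) (nat_lit 0) (nat_lit 0) (XT.lf (nat_lit 0) (nat_lit 17396451926) (nat_lit 304) (nat_lit 18248588545) (nat_lit 76) (nat_lit 2097441230) (nat_lit 55) (nat_lit 5) (nat_lit 59) (nat_lit 5) (nat_lit 56) (nat_lit 5) (nat_lit 360) (nat_lit 296) (nat_lit 124)) (XT.lf (nat_lit 0) (nat_lit 23725541309) (nat_lit 304) (nat_lit 2257039072) (nat_lit 76) (nat_lit 12567424877) (nat_lit 55) (nat_lit 5) (nat_lit 59) (nat_lit 5) (nat_lit 56) (nat_lit 5) (nat_lit 361) (nat_lit 296) (nat_lit 123))))) (XT.nd (nat_lit 234) (nat_lit 228) (nat_lit 0) (XT.nd (nat_lit 78) (nat_lit 228) (nat_lit 0) (XT.lf (nat_lit 0) (nat_lit 14491292600) (nat_lit 228)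 (nat_lit 15888749014) (nat_lit 304) (nat_lit 8997650069) (nat_lit 52) (nat_lit 5) (nat_lit 55) (nat_lit 5) (nat_lit 56) (nat_lit 5) (nat_lit 362) (nat_lit 296) (nat_lit 122)) (XT.nd (nat_lit 78) (nat_lit 228) (nat_lit 0) (XT.lf (nat_lit 0) (nat_lit 31782656000) (nat_lit 228) (nat_lit 5470606558) (nat_lit 304) (nat_lit 2976376784) (nat_lit 52) (nat_lit 5) (nat_lit 55) (nat_lit 5) (nat_lit 56) (nat_lit 5) (nat_lit 363) (nat_lit 296) (nat_lit 121)) (XT.lf (nat_lit 0) (nat_lit 3293460995) (nat_lit 228) (nat_lit 32538347916) (nat_lit 76) (nat_lit 5270483332) (nat_lit 49) (nat_lit 5) (nat_lit 52) (nat_lit 5) (nat_lit 50) (nat_lit 5) (nat_lit 364) (nat_lit 296) (nat_lit 120)))) (XT.nd (nat_lit 156) (nat_lit 0) (nat_lit 0) (XT.nd (nat_lit 78) (nat_lit 228) (nat_lit 0) (XT.lf (nat_lit 0) (nat_lit 9828275695) (nat_lit 228) (nat_lit 15830321049) (nat_lit 76) (nat_lit 16337545733) (nat_lit 49) (nat_lit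 5) (nat_lit 52) (nat_lit 5) (nat_lit 50) (nat_lit 5) (nat_lit 365) (nat_lit 296) (nat_lit 119)) (XT.lf (nat_lit 0) (nat_lit 1400813650) (nat_lit 228) (nat_lit 15168288690) (nat_lit 304) (nat_lit 26347409708) (nat_lit 46) (nat_lit 5) (nat_lit 49) (nat_lit 5) (nat_lit 50) (nat_lit 5) (nat_lit 366) (nat_lit 296) (nat_lit 118))) (XT.nd (nat_lit 78) (nat_lit 0) (nat_lit 0) (XT.lf (nat_lit 0) (nat_lit 19467974166) (nat_lit 228) (nat_lit 4200586685) (nat_lit 304) (nat_lit 20191242412) (nat_lit 46) (nat_lit 5) (nat_lit 49) (nat_lit 5) (nat_lit 50) (nat_lit 5) (nat_lit 367) (nat_lit 296) (nat_lit 117)) (XT.lf (nat_lit 0) (nat_lit 31045849564) (nat_lit 304) (nat_lit 6827797579) (nat_lit 76) (nat_lit 6955803369) (nat_lit 46) (nat_lit 5) (nat_lit 50) (nat_lit 5) (nat_lit 47) (nat_lit 5) (nat_lit 368) (nat_lit 296) (nat_lit 116)))))) (XT.nd (nat_lit 468) (nat_lit 380) (nat_lit 0) (XT.nd (nat_lit 234) (nat_lit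 152) (nat_lit 0) (XT.nd (nat_lit 78) (nat_lit 304) (nat_lit 0) (XT.lf (nat_lit 0) (nat_lit 11439607067) (nat_lit 152) (nat_lit 27353136326) (nat_lit 228) (nat_lit 7030997805) (nat_lit 44) (nat_lit 5) (nat_lit 46) (nat_lit 5) (nat_lit 47) (nat_lit 5) (nat_lit 369) (nat_lit 296) (nat_lit 115)) (XT.nd (nat_lit 78) (nat_lit 304) (nat_lit 0) (XT.lf (nat_lit 0) (nat_lit 30389862064) (nat_lit 152) (nat_lit 16447907150) (nat_lit 228) (nat_lit 8122169) (nat_lit 44) (nat_lit 5) (nat_lit 46) (nat_lit 5) (nat_lit 47) (nat_lit 5) (nat_lit 370) (nat_lit 296) (nat_lit 114)) (XT.lf (nat_lit 0) (nat_lit 1973931094) (nat_lit 228) (nat_lit 5126327193) (nat_lit 304) (nat_lit 40795892130) (nat_lit 40) (nat_lit 5) (nat_lit 43) (nat_lit 5) (nat_lit 44) (nat_lit 5) (nat_lit 371) (nat_lit 296) (nat_lit 113)))) (XT.nd (nat_lit 78) (nat_lit 152) (nat_lit 0) (XT.lf (nat_lit 0) (nat_lit 14649227466) (nat_lit 304) (nat_lit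 27748431312) (nat_lit 76) (nat_lit 6573433335) (nat_lit 40) (nat_lit 5) (nat_lit 44) (nat_lit 5) (nat_lit 41) (nat_lit 5) (nat_lit 372) (nat_lit 296) (nat_lit 112)) (XT.nd (nat_lit 78) (nat_lit 152) (nat_lit 0) (XT.lf (nat_lit 0) (nat_lit 22472376952) (nat_lit 304) (nat_lit 9085116375) (nat_lit 76) (nat_lit 18519359649) (nat_lit 40) (nat_lit 5) (nat_lit 44) (nat_lit 5) (nat_lit 41) (nat_lit 5) (nat_lit 373) (nat_lit 296) (nat_lit 111)) (XT.lf (nat_lit 0) (nat_lit 10334983383) (nat_lit 152) (nat_lit 20291627915) (nat_lit 228) (nat_lit 20586285845) (nat_lit 38) (nat_lit 5) (nat_lit 40) (nat_lit 5) (nat_lit 41) (nat_lit 5) (nat_lit 374) (nat_lit 296) (nat_lit 110))))) (XT.nd (nat_lit 234) (nat_lit 152) (nat_lit 0) (XT.nd (nat_lit 78) (nat_lit 228) (nat_lit 0) (XT.lf (nat_lit 0) (nat_lit 30519181670) (nat_lit 152) (nat_lit 8595117580) (nat_lit 228) (nat_lit 13266060709) (nat_lit 38) (nat_lit 5)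 (nat_lit 40) (nat_lit 5) (nat_lit 41) (nat_lit 5) (nat_lit 375) (nat_lit 296) (nat_lit 109)) (XT.nd (nat_lit 78) (nat_lit 228) (nat_lit 0) (XT.lf (nat_lit 0) (nat_lit 47886955939) (nat_lit 228) (nat_lit 2311798570) (nat_lit 76) (nat_lit 3383184069) (nat_lit 38) (nat_lit 5) (nat_lit 41) (nat_lit 5) (nat_lit 39) (nat_lit 5) (nat_lit 376) (nat_lit 296) (nat_lit 108)) (XT.lf (nat_lit 0) (nat_lit 2320923543) (nat_lit 228) (nat_lit 36747258636) (nat_lit 76) (nat_lit 15743015675) (nat_lit 35) (nat_lit 5) (nat_lit 38) (nat_lit 5) (nat_lit 36) (nat_lit 5) (nat_lit 377) (nat_lit 296) (nat_lit 107)))) (XT.nd (nat_lit 156) (nat_lit 0) (nat_lit 0) (XT.nd (nat_lit 78) (nat_lit 152) (nat_lit 0) (XT.lf (nat_lit 0) (nat_lit 10483663128) (nat_lit 228) (nat_lit 17039461416) (nat_lit 76) (nat_lit 28551896081) (nat_lit 35) (nat_lit 5) (nat_lit 38) (nat_lit 5) (nat_lit 36) (nat_lit 5) (nat_lit 378) (nat_lit 296)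 (nat_lit 106)) (XT.lf (nat_lit 0) (nat_lit 3319937653) (nat_lit 152) (nat_lit 15600584754) (nat_lit 228) (nat_lit 38455360378) (nat_lit 33) (nat_lit 5) (nat_lit 35) (nat_lit 5) (nat_lit 36) (nat_lit 5) (nat_lit 379) (nat_lit 296) (nat_lit 105))) (XT.nd (nat_lit 78) (nat_lit 0) (nat_lit 0) (XT.lf (nat_lit 0) (nat_lit 24635038234) (nat_lit 152) (nat_lit 3144874517) (nat_lit 228) (nat_lit 30930777080) (nat_lit 33) (nat_lit 5) (nat_lit 35) (nat_lit 5) (nat_lit 36) (nat_lit 5) (nat_lit 380) (nat_lit 296) (nat_lit 104)) (XT.lf (nat_lit 0) (nat_lit 36995599065) (nat_lit 228) (nat_lit 13593350459) (nat_lit 76) (nat_lit 9493877863) (nat_lit 33) (nat_lit 5) (nat_lit 36) (nat_lit 5) (nat_lit 34) (nat_lit 5) (nat_lit 381) (nat_lit 296) (nat_lit 103))))))))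
noncomputable def xc193 : XT := (XT.nd (nat_lit 34944) (nat_lit 0) (nat_lit 6460) (XT.nd (nat_lit 1014) (nat_lit 152) (nat_lit 0) (XT.nd (nat_lit 468) (nat_lit 304) (nat_lit 0) (XT.nd (nat_lit 234) (nat_lit 152) (nat_lit 0) (XT.nd (nat_lit 78) (nat_lit 76) (nat_lit 0) (XT.lf (nat_lit 0) (nat_lit 7616729847) (nat_lit 152) (nat_lit 38972876133) (nat_lit 228) (nat_lit 14903469265) (nat_lit 31) (nat_lit 5) (nat_lit 33) (nat_lit 5) (nat_lit 34) (nat_lit 5) (nat_lit 382) (nat_lit 296) (nat_lit 102)) (XT.nd (nat_lit 78) (nat_lit 76) (nat_lit 0) (XT.lf (nat_lit 0) (nat_lit 29737621596) (nat_lit 152) (nat_lit 26868606790) (nat_lit 228) (nat_lit 6335359921) (nat_lit 31) (nat_lit 5) (nat_lit 33) (nat_lit 5) (nat_lit 34) (nat_lit 5) (nat_lit 383) (nat_lit 296) (nat_lit 101)) (XT.lf (nat_lit 0) (nat_lit 2438783644) (nat_lit 228) (nat_lit 11939420560) (nat_lit 76) (nat_lit 50054708817) (nat_lit 30) (nat_lit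 5) (nat_lit 33) (nat_lit 5) (nat_lit 31) (nat_lit 5) (nat_lit 384) (nat_lit 296) (nat_lit 100)))) (XT.nd (nat_lit 78) (nat_lit 0) (nat_lit 0) (XT.lf (nat_lit 0) (nat_lit 10093341152) (nat_lit 152) (nat_lit 1350145645) (nat_lit 228) (nat_lit 54520770286) (nat_lit 28) (nat_lit 5) (nat_lit 30) (nat_lit 5) (nat_lit 31) (nat_lit 5) (nat_lit 385) (nat_lit 296) (nat_lit 99)) (XT.nd (nat_lit 78) (nat_lit 0) (nat_lit 0) (XT.lf (nat_lit 0) (nat_lit 20953763769) (nat_lit 228) (nat_lit 34627267376) (nat_lit 76) (nat_lit 11953448787) (nat_lit 28) (nat_lit 5) (nat_lit 31) (nat_lit 5) (nat_lit 29) (nat_lit 5) (nat_lit 386) (nat_lit 296) (nat_lit 98)) (XT.lf (nat_lit 0) (nat_lit 30760446945) (nat_lit 228) (nat_lit 12763530560) (nat_lit 76) (nat_lit 25627500428) (nat_lit 28) (nat_lit 5) (nat_lit 31) (nat_lit 5) (nat_lit 29) (nat_lit 5) (nat_lit 387) (nat_lit 296) (nat_lit 97))))) (XT.nd (nat_lit 234) (nat_lit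 152) (nat_lit 0) (XT.nd (nat_lit 78) (nat_lit 0) (nat_lit 0) (XT.lf (nat_lit 0) (nat_lit 9946468605) (nat_lit 152) (nat_lit 31008269782) (nat_lit 228) (nat_lit 29859446616) (nat_lit 26) (nat_lit 5) (nat_lit 28) (nat_lit 5) (nat_lit 29) (nat_lit 5) (nat_lit 388) (nat_lit 296) (nat_lit 96)) (XT.nd (nat_lit 78) (nat_lit 0) (nat_lit 0) (XT.lf (nat_lit 0) (nat_lit 33595703105) (nat_lit 152) (nat_lit 17985866909) (nat_lit 228) (nat_lit 20941403253) (nat_lit 26) (nat_lit 5) (nat_lit 28) (nat_lit 5) (nat_lit 29) (nat_lit 5) (nat_lit 389) (nat_lit 296) (nat_lit 95)) (XT.lf (nat_lit 0) (nat_lit 57950818034) (nat_lit 152) (nat_lit 4574276719) (nat_lit 228) (nat_lit 11757995065) (nat_lit 26) (nat_lit 5) (nat_lit 28) (nat_lit 5) (nat_lit 29) (nat_lit 5) (nat_lit 390) (nat_lit 296) (nat_lit 94)))) (XT.nd (nat_lit 156) (nat_lit 0) (nat_lit 0) (XT.nd (nat_lit 78) (nat_lit 76) (nat_lit 0) (XT.lf (nat_lit 0)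 (nat_lit 6984511494) (nat_lit 76) (nat_lit 66966306229) (nat_lit 152) (nat_lit 2140576614) (nat_lit 25) (nat_lit 5) (nat_lit 26) (nat_lit 5) (nat_lit 27) (nat_lit 4) (nat_lit 391) (nat_lit 296) (nat_lit 93)) (XT.lf (nat_lit 0) (nat_lit 7823621732) (nat_lit 152) (nat_lit 46738522850) (nat_lit 76) (nat_lit 23383271597) (nat_lit 24) (nat_lit 5) (nat_lit 26) (nat_lit 5) (nat_lit 25) (nat_lit 5) (nat_lit 392) (nat_lit 296) (nat_lit 92))) (XT.nd (nat_lit 78) (nat_lit 0) (nat_lit 0) (XT.lf (nat_lit 0) (nat_lit 18041723406) (nat_lit 152) (nat_lit 23723750734) (nat_lit 76) (nat_lit 38089009837) (nat_lit 24) (nat_lit 5) (nat_lit 26) (nat_lit 5) (nat_lit 25) (nat_lit 5) (nat_lit 393) (nat_lit 296) (nat_lit 91)) (XT.lf (nat_lit 0) (nat_lit 28564427206) (nat_lit 152) (nat_lit 21879967) (nat_lit 76) (nat_lit 53234575973) (nat_lit 24) (nat_lit 5) (nat_lit 26) (nat_lit 5) (nat_lit 25) (nat_lit 5) (nat_lit 394)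 (nat_lit 296) (nat_lit 90)))))) (XT.nd (nat_lit 33384) (nat_lit 0) (nat_lit 11932) (XT.nd (nat_lit 33150) (nat_lit 0) (nat_lit 12844) (XT.nd (nat_lit 32994) (nat_lit 0) (nat_lit 12768) (XT.lf (nat_lit 0) (nat_lit 24873164858) (nat_lit 152) (nat_lit 14766858945) (nat_lit 228) (nat_lit 44199135211) (nat_lit 22) (nat_lit 5) (nat_lit 24) (nat_lit 5) (nat_lit 25) (nat_lit 5) (nat_lit 395) (nat_lit 296) (nat_lit 89)) (XT.nd (nat_lit 78) (nat_lit 0) (nat_lit 0) (XT.lf (nat_lit 0) (nat_lit 3258939122) (nat_lit 1140) (nat_lit 1501161210) (nat_lit 1140) (nat_lit 1501161210) (nat_lit 190) (nat_lit 3) (nat_lit 205) (nat_lit 3) (nat_lit 205) (nat_lit 5) (nat_lit 297) (nat_lit 297) (nat_lit 186)) (XT.lf (nat_lit 76) (nat_lit 2592769730) (nat_lit 0) (nat_lit 4451906742) (nat_lit 1140) (nat_lit 5652161882) (nat_lit 191) (nat_lit 5) (nat_lit 190) (nat_lit 3) (nat_lit 205) (nat_lit 5) (nat_lit 298) (nat_lit 297)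 (nat_lit 185)))) (XT.nd (nat_lit 78) (nat_lit 0) (nat_lit 0) (XT.lf (nat_lit 0) (nat_lit 7609504774) (nat_lit 1064) (nat_lit 4474771433) (nat_lit 1140) (nat_lit 791465526) (nat_lit 191) (nat_lit 5) (nat_lit 205) (nat_lit 5) (nat_lit 206) (nat_lit 5) (nat_lit 299) (nat_lit 297) (nat_lit 184)) (XT.nd (nat_lit 78) (nat_lit 0) (nat_lit 0) (XT.lf (nat_lit 76) (nat_lit 1296004121) (nat_lit 0) (nat_lit 6936491339) (nat_lit 1140) (nat_lit 4826304919) (nat_lit 192) (nat_lit 5) (nat_lit 191) (nat_lit 5) (nat_lit 206) (nat_lit 5) (nat_lit 300) (nat_lit 297) (nat_lit 183)) (XT.lf (nat_lit 76) (nat_lit 7323103822) (nat_lit 0) (nat_lit 1581303933) (nat_lit 1140) (nat_lit 4342060045) (nat_lit 192) (nat_lit 5) (nat_lit 191) (nat_lit 5) (nat_lit 206) (nat_lit 5) (nat_lit 301) (nat_lit 297) (nat_lit 182))))) (XT.nd (nat_lit 234) (nat_lit 988) (nat_lit 0) (XT.nd (nat_lit 78) (nat_lit 0) (nat_lit 0) (XT.lf (nat_lit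 76) (nat_lit 45520342) (nat_lit 0) (nat_lit 9574756863) (nat_lit 1140) (nat_lit 3818797320) (nat_lit 193) (nat_lit 5) (nat_lit 192) (nat_lit 5) (nat_lit 207) (nat_lit 5) (nat_lit 302) (nat_lit 297) (nat_lit 181)) (XT.nd (nat_lit 78) (nat_lit 0) (nat_lit 76) (XT.lf (nat_lit 76) (nat_lit 6290214536) (nat_lit 0) (nat_lit 4128603957) (nat_lit 1140) (nat_lit 3216827682) (nat_lit 193) (nat_lit 5) (nat_lit 192) (nat_lit 5) (nat_lit 207) (nat_lit 5) (nat_lit 303) (nat_lit 297) (nat_lit 180)) (XT.lf (nat_lit 0) (nat_lit 11241891870) (nat_lit 1064) (nat_lit 1139042795) (nat_lit 1140) (nat_lit 1457184974) (nat_lit 193) (nat_lit 5) (nat_lit 207) (nat_lit 5) (nat_lit 208) (nat_lit 5) (nat_lit 304) (nat_lit 297) (nat_lit 179)))) (XT.nd (nat_lit 156) (nat_lit 1064) (nat_lit 0) (XT.nd (nat_lit 78) (nat_lit 0) (nat_lit 0) (XT.lf (nat_lit 76) (nat_lit 5307548538) (nat_lit 0) (nat_lit 6860743647) (nat_lit 1140)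 (nat_lit 1876037380) (nat_lit 194) (nat_lit 5) (nat_lit 193) (nat_lit 5) (nat_lit 208) (nat_lit 5) (nat_lit 305) (nat_lit 297) (nat_lit 178)) (XT.lf (nat_lit 76) (nat_lit 11962290686) (nat_lit 0) (nat_lit 1158737629) (nat_lit 1140) (nat_lit 1135761838) (nat_lit 194) (nat_lit 5) (nat_lit 193) (nat_lit 5) (nat_lit 208) (nat_lit 5) (nat_lit 306) (nat_lit 297) (nat_lit 177))) (XT.nd (nat_lit 78) (nat_lit 1140) (nat_lit 0) (XT.lf (nat_lit 76) (nat_lit 4372268203) (nat_lit 0) (nat_lit 9804884094) (nat_lit 1140) (nat_lit 296248166) (nat_lit 195) (nat_lit 5) (nat_lit 194) (nat_lit 5) (nat_lit 209) (nat_lit 5) (nat_lit 307) (nat_lit 297) (nat_lit 176)) (XT.lf (nat_lit 0) (nat_lit 579831387) (nat_lit 1140) (nat_lit 3435870040) (nat_lit 1216) (nat_lit 10679988461) (nat_lit 179) (nat_lit 5) (nat_lit 194) (nat_lit 5) (nat_lit 195) (nat_lit 5) (nat_lit 308) (nat_lit 297) (nat_lit 175))))))) (XT.nd (nat_lit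 1014) (nat_lit 3344) (nat_lit 0) (XT.nd (nat_lit 468) (nat_lit 2204) (nat_lit 0) (XT.nd (nat_lit 234) (nat_lit 0) (nat_lit 76) (XT.nd (nat_lit 78) (nat_lit 0) (nat_lit 0) (XT.lf (nat_lit 0) (nat_lit 1516818286) (nat_lit 1140) (nat_lit 11457310825) (nat_lit 1216) (nat_lit 1949231886) (nat_lit 180) (nat_lit 5) (nat_lit 195) (nat_lit 5) (nat_lit 196) (nat_lit 5) (nat_lit 309) (nat_lit 297) (nat_lit 174)) (XT.nd (nat_lit 78) (nat_lit 0) (nat_lit 0) (XT.lf (nat_lit 0) (nat_lit 2544973506) (nat_lit 1140) (nat_lit 4560482804) (nat_lit 1216) (nat_lit 8050532007) (nat_lit 180) (nat_lit 5) (nat_lit 195) (nat_lit 5) (nat_lit 196) (nat_lit 5) (nat_lit 310) (nat_lit 297) (nat_lit 173)) (XT.lf (nat_lit 76) (nat_lit 2584935686) (nat_lit 0) (nat_lit 1032487838) (nat_lit 1216) (nat_lit 11777784746) (nat_lit 181) (nat_lit 5) (nat_lit 180) (nat_lit 5) (nat_lit 196) (nat_lit 5) (nat_lit 311) (nat_lit 297) (nat_lit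 172)))) (XT.nd (nat_lit 78) (nat_lit 0) (nat_lit 0) (XT.lf (nat_lit 0) (nat_lit 4807633058) (nat_lit 1140) (nat_lit 5661725621) (nat_lit 1216) (nat_lit 5169695376) (nat_lit 181) (nat_lit 5) (nat_lit 196) (nat_lit 5) (nat_lit 197) (nat_lit 5) (nat_lit 312) (nat_lit 297) (nat_lit 171)) (XT.nd (nat_lit 78) (nat_lit 0) (nat_lit 76) (XT.lf (nat_lit 76) (nat_lit 1715754029) (nat_lit 0) (nat_lit 4333709044) (nat_lit 1216) (nat_lit 9840291039) (nat_lit 182) (nat_lit 5) (nat_lit 181) (nat_lit 5) (nat_lit 197) (nat_lit 5) (nat_lit 313) (nat_lit 297) (nat_lit 170)) (XT.lf (nat_lit 0) (nat_lit 7394824827) (nat_lit 1140) (nat_lit 6744345411) (nat_lit 76) (nat_lit 2006832477) (nat_lit 182) (nat_lit 5) (nat_lit 197) (nat_lit 5) (nat_lit 183) (nat_lit 5) (nat_lit 314) (nat_lit 297) (nat_lit 169))))) (XT.nd (nat_lit 234) (nat_lit 684) (nat_lit 0) (XT.nd (nat_lit 78) (nat_lit 532) (nat_lit 0) (XT.lf (nat_lit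 0) (nat_lit 873554070) (nat_lit 1140) (nat_lit 7948053560) (nat_lit 1216) (nat_lit 7587114728) (nat_lit 167) (nat_lit 5) (nat_lit 182) (nat_lit 5) (nat_lit 183) (nat_lit 5) (nat_lit 315) (nat_lit 297) (nat_lit 168)) (XT.nd (nat_lit 78) (nat_lit 532) (nat_lit 0) (XT.lf (nat_lit 0) (nat_lit 8849546108) (nat_lit 1140) (nat_lit 1499722323) (nat_lit 1216) (nat_lit 6328327863) (nat_lit 167) (nat_lit 5) (nat_lit 182) (nat_lit 5) (nat_lit 183) (nat_lit 5) (nat_lit 316) (nat_lit 297) (nat_lit 167)) (XT.lf (nat_lit 0) (nat_lit 53126860) (nat_lit 532) (nat_lit 11909845931) (nat_lit 608) (nat_lit 4990371750) (nat_lit 160) (nat_lit 5) (nat_lit 167) (nat_lit 5) (nat_lit 168) (nat_lit 5) (nat_lit 317) (nat_lit 297) (nat_lit 166)))) (XT.nd (nat_lit 156) (nat_lit 684) (nat_lit 0) (XT.nd (nat_lit 78) (nat_lit 0) (nat_lit 0) (XT.lf (nat_lit 0) (nat_lit 8307385549) (nat_lit 532) (nat_lit 5401928143) (nat_lit 608)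 (nat_lit 3525538861) (nat_lit 160) (nat_lit 5) (nat_lit 167) (nat_lit 5) (nat_lit 168) (nat_lit 5) (nat_lit 318) (nat_lit 297) (nat_lit 165)) (XT.lf (nat_lit 0) (nat_lit 15511312677) (nat_lit 608) (nat_lit 736765089) (nat_lit 76) (nat_lit 1276643675) (nat_lit 160) (nat_lit 5) (nat_lit 168) (nat_lit 5) (nat_lit 161) (nat_lit 5) (nat_lit 319) (nat_lit 297) (nat_lit 164))) (XT.nd (nat_lit 78) (nat_lit 76) (nat_lit 0) (XT.lf (nat_lit 0) (nat_lit 7789709720) (nat_lit 608) (nat_lit 9697054604) (nat_lit 684) (nat_lit 332953566) (nat_lit 152) (nat_lit 5) (nat_lit 160) (nat_lit 5) (nat_lit 161) (nat_lit 5) (nat_lit 320) (nat_lit 297) (nat_lit 163)) (XT.lf (nat_lit 0) (nat_lit 1369260287) (nat_lit 684) (nat_lit 1558346011) (nat_lit 76) (nat_lit 15195608616) (nat_lit 151) (nat_lit 5) (nat_lit 160) (nat_lit 5) (nat_lit 152) (nat_lit 5) (nat_lit 321) (nat_lit 297) (nat_lit 162)))))) (XT.nd (nat_lit 546)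 (nat_lit 1368) (nat_lit 0) (XT.nd (nat_lit 234) (nat_lit 912) (nat_lit 0) (XT.nd (nat_lit 78) (nat_lit 532) (nat_lit 0) (XT.lf (nat_lit 0) (nat_lit 3216985086) (nat_lit 608) (nat_lit 11175237757) (nat_lit 76) (nat_lit 4040473158) (nat_lit 144) (nat_lit 5) (nat_lit 152) (nat_lit 5) (nat_lit 145) (nat_lit 5) (nat_lit 322) (nat_lit 297) (nat_lit 161)) (XT.nd (nat_lit 78) (nat_lit 532) (nat_lit 0) (XT.lf (nat_lit 0) (nat_lit 5156562843) (nat_lit 608) (nat_lit 2418961917) (nat_lit 76) (nat_lit 11174855917) (nat_lit 144) (nat_lit 5) (nat_lit 152) (nat_lit 5) (nat_lit 145) (nat_lit 5) (nat_lit 323) (nat_lit 297) (nat_lit 160)) (XT.lf (nat_lit 0) (nat_lit 6722926956) (nat_lit 532) (nat_lit 487815154) (nat_lit 608) (nat_lit 11865172808) (nat_lit 137) (nat_lit 5) (nat_lit 144) (nat_lit 5) (nat_lit 145) (nat_lit 5) (nat_lit 324) (nat_lit 297) (nat_lit 159)))) (XT.nd (nat_lit 156) (nat_lit 456) (nat_lit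 0) (XT.nd (nat_lit 78) (nat_lit 456) (nat_lit 0) (XT.lf (nat_lit 0) (nat_lit 9408650049) (nat_lit 608) (nat_lit 3295985644) (nat_lit 76) (nat_lit 6704127510) (nat_lit 137) (nat_lit 5) (nat_lit 145) (nat_lit 5) (nat_lit 138) (nat_lit 5) (nat_lit 325) (nat_lit 297) (nat_lit 158)) (XT.lf (nat_lit 0) (nat_lit 6139512453) (nat_lit 456) (nat_lit 5589012391) (nat_lit 532) (nat_lit 8021401998) (nat_lit 131) (nat_lit 5) (nat_lit 137) (nat_lit 5) (nat_lit 138) (nat_lit 5) (nat_lit 326) (nat_lit 297) (nat_lit 157))) (XT.nd (nat_lit 78) (nat_lit 456) (nat_lit 0) (XT.lf (nat_lit 0) (nat_lit 14160663636) (nat_lit 532) (nat_lit 4200087593) (nat_lit 76) (nat_lit 1739304606) (nat_lit 131) (nat_lit 5) (nat_lit 138) (nat_lit 5) (nat_lit 132) (nat_lit 5) (nat_lit 327) (nat_lit 297) (nat_lit 156)) (XT.lf (nat_lit 0) (nat_lit 5537160827) (nat_lit 456) (nat_lit 11229721055) (nat_lit 532) (nat_lit 3690783530) (nat_lit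 125) (nat_lit 5) (nat_lit 131) (nat_lit 5) (nat_lit 132) (nat_lit 5) (nat_lit 328) (nat_lit 297) (nat_lit 155))))) (XT.nd (nat_lit 234) (nat_lit 836) (nat_lit 0) (XT.nd (nat_lit 78) (nat_lit 532) (nat_lit 0) (XT.lf (nat_lit 0) (nat_lit 15644602428) (nat_lit 456) (nat_lit 3841788675) (nat_lit 532) (nat_lit 1338568916) (nat_lit 125) (nat_lit 5) (nat_lit 131) (nat_lit 5) (nat_lit 132) (nat_lit 5) (nat_lit 329) (nat_lit 297) (nat_lit 154)) (XT.nd (nat_lit 78) (nat_lit 0) (nat_lit 0) (XT.lf (nat_lit 0) (nat_lit 1140052029) (nat_lit 532) (nat_lit 16308716920) (nat_lit 76) (nat_lit 3751891260) (nat_lit 118) (nat_lit 5) (nat_lit 125) (nat_lit 5) (nat_lit 119) (nat_lit 5) (nat_lit 330) (nat_lit 297) (nat_lit 153)) (XT.lf (nat_lit 0) (nat_lit 3749945090) (nat_lit 532) (nat_lit 6273340172) (nat_lit 76) (nat_lit 11561443064) (nat_lit 118) (nat_lit 5) (nat_lit 125) (nat_lit 5) (nat_lit 119) (nat_lit 5) (nat_lit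 331) (nat_lit 297) (nat_lit 152)))) (XT.nd (nat_lit 156) (nat_lit 380) (nat_lit 0) (XT.nd (nat_lit 78) (nat_lit 0) (nat_lit 0) (XT.lf (nat_lit 0) (nat_lit 4135965703) (nat_lit 456) (nat_lit 2335082493) (nat_lit 532) (nat_lit 15508291666) (nat_lit 112) (nat_lit 5) (nat_lit 118) (nat_lit 5) (nat_lit 119) (nat_lit 5) (nat_lit 332) (nat_lit 297) (nat_lit 151)) (XT.lf (nat_lit 0) (nat_lit 9384705137) (nat_lit 532) (nat_lit 7460005980) (nat_lit 76) (nat_lit 5537759526) (nat_lit 112) (nat_lit 5) (nat_lit 119) (nat_lit 5) (nat_lit 113) (nat_lit 5) (nat_lit 333) (nat_lit 297) (nat_lit 150))) (XT.nd (nat_lit 78) (nat_lit 0) (nat_lit 0) (XT.lf (nat_lit 0) (nat_lit 3267778703) (nat_lit 380) (nat_lit 9165991119) (nat_lit 456) (nat_lit 10362493857) (nat_lit 107) (nat_lit 5) (nat_lit 112) (nat_lit 5) (nat_lit 113) (nat_lit 5) (nat_lit 334) (nat_lit 297) (nat_lit 149)) (XT.lf (nat_lit 0) (nat_lit 14462664487)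 (nat_lit 380) (nat_lit 1180556620) (nat_lit 456) (nat_lit 7577189988) (nat_lit 107) (nat_lit 5) (nat_lit 112) (nat_lit 5) (nat_lit 113) (nat_lit 5) (nat_lit 335) (nat_lit 297) (nat_lit 148))))))))
noncomputable def xc194 : XT := (XT.nd (nat_lit 2028) (nat_lit 2052) (nat_lit 0) (XT.nd (nat_lit 1014) (nat_lit 1672) (nat_lit 0) (XT.nd (nat_lit 468) (nat_lit 1064) (nat_lit 0) (XT.nd (nat_lit 234) (nat_lit 380) (nat_lit 0) (XT.nd (nat_lit 78) (nat_lit 456) (nat_lit 0) (XT.lf (nat_lit 0) (nat_lit 2305777033) (nat_lit 380) (nat_lit 16726817480) (nat_lit 456) (nat_lit 4622187061) (nat_lit 102) (nat_lit 5) (nat_lit 107) (nat_lit 5) (nat_lit 108) (nat_lit 5) (nat_lit 336) (nat_lit 297) (nat_lit 147)) (XT.nd (nat_lit 78) (nat_lit 456) (nat_lit 0) (XT.lf (nat_lit 0) (nat_lit 13861269542) (nat_lit 380) (nat_lit 8756257601) (nat_lit 456) (nat_lit 1481847253) (nat_lit 102) (nat_lit 5) (nat_lit 107) (nat_lit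 5) (nat_lit 108) (nat_lit 5) (nat_lit 337) (nat_lit 297) (nat_lit 146)) (XT.lf (nat_lit 0) (nat_lit 1205346361) (nat_lit 380) (nat_lit 518721692) (nat_lit 456) (nat_lit 22832571636) (nat_lit 96) (nat_lit 5) (nat_lit 101) (nat_lit 5) (nat_lit 102) (nat_lit 5) (nat_lit 338) (nat_lit 297) (nat_lit 145)))) (XT.nd (nat_lit 78) (nat_lit 380) (nat_lit 0) (XT.lf (nat_lit 0) (nat_lit 5171429774) (nat_lit 456) (nat_lit 11922363423) (nat_lit 76) (nat_lit 7928144942) (nat_lit 96) (nat_lit 5) (nat_lit 102) (nat_lit 5) (nat_lit 97) (nat_lit 5) (nat_lit 339) (nat_lit 297) (nat_lit 144)) (XT.nd (nat_lit 78) (nat_lit 380) (nat_lit 0) (XT.lf (nat_lit 0) (nat_lit 8721591629) (nat_lit 456) (nat_lit 163027101) (nat_lit 76) (nat_lit 16616602160) (nat_lit 96) (nat_lit 5) (nat_lit 102) (nat_lit 5) (nat_lit 97) (nat_lit 5) (nat_lit 340) (nat_lit 297) (nat_lit 143)) (XT.lf (nat_lit 0) (nat_lit 12179645813) (nat_lit 380)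 (nat_lit 310101824) (nat_lit 456) (nat_lit 13501796335) (nat_lit 91) (nat_lit 5) (nat_lit 96) (nat_lit 5) (nat_lit 97) (nat_lit 5) (nat_lit 341) (nat_lit 297) (nat_lit 142))))) (XT.nd (nat_lit 234) (nat_lit 760) (nat_lit 0) (XT.nd (nat_lit 78) (nat_lit 304) (nat_lit 0) (XT.lf (nat_lit 0) (nat_lit 16449017491) (nat_lit 456) (nat_lit 1689716961) (nat_lit 76) (nat_lit 8355506561) (nat_lit 91) (nat_lit 5) (nat_lit 97) (nat_lit 5) (nat_lit 92) (nat_lit 5) (nat_lit 342) (nat_lit 297) (nat_lit 141)) (XT.nd (nat_lit 78) (nat_lit 0) (nat_lit 0) (XT.lf (nat_lit 0) (nat_lit 11000734185) (nat_lit 304) (nat_lit 9629799095) (nat_lit 380) (nat_lit 6378387803) (nat_lit 87) (nat_lit 5) (nat_lit 91) (nat_lit 5) (nat_lit 92) (nat_lit 5) (nat_lit 343) (nat_lit 297) (nat_lit 140)) (XT.lf (nat_lit 0) (nat_lit 24099615807) (nat_lit 304) (nat_lit 849682553) (nat_lit 380) (nat_lit 2589395056) (nat_lit 87) (nat_lit 5)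 (nat_lit 91) (nat_lit 5) (nat_lit 92) (nat_lit 5) (nat_lit 344) (nat_lit 297) (nat_lit 139)))) (XT.nd (nat_lit 156) (nat_lit 304) (nat_lit 0) (XT.nd (nat_lit 78) (nat_lit 0) (nat_lit 0) (XT.lf (nat_lit 0) (nat_lit 1455289141) (nat_lit 456) (nat_lit 18484667785) (nat_lit 76) (nat_lit 8138999462) (nat_lit 81) (nat_lit 5) (nat_lit 87) (nat_lit 5) (nat_lit 82) (nat_lit 5) (nat_lit 345) (nat_lit 297) (nat_lit 138)) (XT.lf (nat_lit 0) (nat_lit 5607661172) (nat_lit 456) (nat_lit 5586528046) (nat_lit 76) (nat_lit 17439322623) (nat_lit 81) (nat_lit 5) (nat_lit 87) (nat_lit 5) (nat_lit 82) (nat_lit 5) (nat_lit 346) (nat_lit 297) (nat_lit 137))) (XT.nd (nat_lit 78) (nat_lit 0) (nat_lit 0) (XT.lf (nat_lit 0) (nat_lit 7844937862) (nat_lit 304) (nat_lit 2110132284) (nat_lit 380) (nat_lit 19247525149) (nat_lit 77) (nat_lit 5) (nat_lit 81) (nat_lit 5) (nat_lit 82) (nat_lit 5) (nat_lit 347) (nat_lit 297) (nat_lit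 136)) (XT.lf (nat_lit 0) (nat_lit 14554648840) (nat_lit 380) (nat_lit 8070177966) (nat_lit 76) (nat_lit 7160277177) (nat_lit 77) (nat_lit 5) (nat_lit 82) (nat_lit 5) (nat_lit 78) (nat_lit 5) (nat_lit 348) (nat_lit 297) (nat_lit 135)))))) (XT.nd (nat_lit 468) (nat_lit 760) (nat_lit 0) (XT.nd (nat_lit 234) (nat_lit 380) (nat_lit 0) (XT.nd (nat_lit 78) (nat_lit 228) (nat_lit 0) (XT.lf (nat_lit 0) (nat_lit 5699682610) (nat_lit 304) (nat_lit 13663474344) (nat_lit 380) (nat_lit 11019807719) (nat_lit 73) (nat_lit 5) (nat_lit 77) (nat_lit 5) (nat_lit 78) (nat_lit 5) (nat_lit 349) (nat_lit 297) (nat_lit 134)) (XT.nd (nat_lit 78) (nat_lit 228) (nat_lit 0) (XT.lf (nat_lit 0) (nat_lit 20041561961) (nat_lit 304) (nat_lit 4351187628) (nat_lit 380) (nat_lit 6603711577) (nat_lit 73) (nat_lit 5) (nat_lit 77) (nat_lit 5) (nat_lit 78) (nat_lit 5) (nat_lit 350) (nat_lit 297) (nat_lit 133)) (XT.lf (nat_lit 0) (nat_lit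 3190782644) (nat_lit 228) (nat_lit 26458948623) (nat_lit 304) (nat_lit 1976340964) (nat_lit 70) (nat_lit 5) (nat_lit 73) (nat_lit 5) (nat_lit 74) (nat_lit 5) (nat_lit 351) (nat_lit 297) (nat_lit 132)))) (XT.nd (nat_lit 78) (nat_lit 304) (nat_lit 0) (XT.lf (nat_lit 0) (nat_lit 2885687282) (nat_lit 304) (nat_lit 14363320273) (nat_lit 76) (nat_lit 15020255691) (nat_lit 69) (nat_lit 5) (nat_lit 73) (nat_lit 5) (nat_lit 70) (nat_lit 5) (nat_lit 352) (nat_lit 297) (nat_lit 131)) (XT.nd (nat_lit 78) (nat_lit 0) (nat_lit 0) (XT.lf (nat_lit 0) (nat_lit 107044867) (nat_lit 304) (nat_lit 7743446933) (nat_lit 380) (nat_lit 25080776339) (nat_lit 65) (nat_lit 5) (nat_lit 69) (nat_lit 5) (nat_lit 70) (nat_lit 5) (nat_lit 353) (nat_lit 297) (nat_lit 130)) (XT.lf (nat_lit 0) (nat_lit 13126056350) (nat_lit 380) (nat_lit 18330281116) (nat_lit 76) (nat_lit 2151945428) (nat_lit 65) (nat_lit 5) (nat_lit 70) (nat_lit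 5) (nat_lit 66) (nat_lit 5) (nat_lit 354) (nat_lit 297) (nat_lit 129))))) (XT.nd (nat_lit 234) (nat_lit 532) (nat_lit 0) (XT.nd (nat_lit 78) (nat_lit 228) (nat_lit 0) (XT.lf (nat_lit 0) (nat_lit 18632340827) (nat_lit 380) (nat_lit 3484342232) (nat_lit 76) (nat_lit 12186755509) (nat_lit 65) (nat_lit 5) (nat_lit 70) (nat_lit 5) (nat_lit 66) (nat_lit 5) (nat_lit 355) (nat_lit 297) (nat_lit 128)) (XT.nd (nat_lit 78) (nat_lit 0) (nat_lit 0) (XT.lf (nat_lit 0) (nat_lit 12035863352) (nat_lit 228) (nat_lit 12379554531) (nat_lit 304) (nat_lit 10600686861) (nat_lit 62) (nat_lit 5) (nat_lit 65) (nat_lit 5) (nat_lit 66) (nat_lit 5) (nat_lit 356) (nat_lit 297) (nat_lit 127)) (XT.lf (nat_lit 0) (nat_lit 28087184766) (nat_lit 228) (nat_lit 2315957788) (nat_lit 304) (nat_lit 5346077526) (nat_lit 62) (nat_lit 5) (nat_lit 65) (nat_lit 5) (nat_lit 66) (nat_lit 5) (nat_lit 357) (nat_lit 297) (nat_lit 126)))) (XT.nd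 (nat_lit 156) (nat_lit 228) (nat_lit 0) (XT.nd (nat_lit 78) (nat_lit 0) (nat_lit 0) (XT.lf (nat_lit 0) (nat_lit 218579267) (nat_lit 304) (nat_lit 28309554610) (nat_lit 76) (nat_lit 7971568522) (nat_lit 58) (nat_lit 5) (nat_lit 62) (nat_lit 5) (nat_lit 59) (nat_lit 5) (nat_lit 358) (nat_lit 297) (nat_lit 125)) (XT.lf (nat_lit 0) (nat_lit 5939879746) (nat_lit 304) (nat_lit 12677916414) (nat_lit 76) (nat_lit 18650403947) (nat_lit 58) (nat_lit 5) (nat_lit 62) (nat_lit 5) (nat_lit 59) (nat_lit 5) (nat_lit 359) (nat_lit 297) (nat_lit 124))) (XT.nd (nat_lit 78) (nat_lit 0) (nat_lit 0) (XT.lf (nat_lit 0) (nat_lit 3484975169) (nat_lit 228) (nat_lit 8377544739) (nat_lit 304) (nat_lit 26196345226) (nat_lit 55) (nat_lit 5) (nat_lit 58) (nat_lit 5) (nat_lit 59) (nat_lit 5) (nat_lit 360) (nat_lit 297) (nat_lit 123)) (XT.lf (nat_lit 0) (nat_lit 18109226532) (nat_lit 304) (nat_lit 18504638781) (nat_lit 76)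 (nat_lit 2254996490) (nat_lit 55) (nat_lit 5) (nat_lit 59) (nat_lit 5) (nat_lit 56) (nat_lit 5) (nat_lit 361) (nat_lit 297) (nat_lit 122))))))) (XT.nd (nat_lit 1014) (nat_lit 912) (nat_lit 0) (XT.nd (nat_lit 468) (nat_lit 456) (nat_lit 0) (XT.nd (nat_lit 234) (nat_lit 456) (nat_lit 0) (XT.nd (nat_lit 78) (nat_lit 228) (nat_lit 0) (XT.lf (nat_lit 0) (nat_lit 24622628954) (nat_lit 304) (nat_lit 2041830418) (nat_lit 76) (nat_lit 13036323374) (nat_lit 55) (nat_lit 5) (nat_lit 59) (nat_lit 5) (nat_lit 56) (nat_lit 5) (nat_lit 362) (nat_lit 297) (nat_lit 121)) (XT.nd (nat_lit 78) (nat_lit 0) (nat_lit 0) (XT.lf (nat_lit 0) (nat_lit 15206177479) (nat_lit 228) (nat_lit 16267882012) (nat_lit 304) (nat_lit 9079326163) (nat_lit 52) (nat_lit 5) (nat_lit 55) (nat_lit 5) (nat_lit 56) (nat_lit 5) (nat_lit 363) (nat_lit 297) (nat_lit 120)) (XT.lf (nat_lit 0) (nat_lit 33008122187) (nat_lit 228) (nat_lit 5540035947)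 (nat_lit 304) (nat_lit 2882897789) (nat_lit 52) (nat_lit 5) (nat_lit 55) (nat_lit 5) (nat_lit 56) (nat_lit 5) (nat_lit 364) (nat_lit 297) (nat_lit 119)))) (XT.nd (nat_lit 78) (nat_lit 228) (nat_lit 0) (XT.lf (nat_lit 0) (nat_lit 3569799892) (nat_lit 228) (nat_lit 33236982574) (nat_lit 76) (nat_lit 5523107645) (nat_lit 49) (nat_lit 5) (nat_lit 52) (nat_lit 5) (nat_lit 50) (nat_lit 5) (nat_lit 365) (nat_lit 297) (nat_lit 118)) (XT.nd (nat_lit 78) (nat_lit 228) (nat_lit 0) (XT.lf (nat_lit 0) (nat_lit 10295488108) (nat_lit 228) (nat_lit 16035797885) (nat_lit 76) (nat_lit 16919429205) (nat_lit 49) (nat_lit 5) (nat_lit 52) (nat_lit 5) (nat_lit 50) (nat_lit 5) (nat_lit 366) (nat_lit 297) (nat_lit 117)) (XT.lf (nat_lit 0) (nat_lit 1709629357) (nat_lit 228) (nat_lit 15526454442) (nat_lit 304) (nat_lit 26962689826) (nat_lit 46) (nat_lit 5) (nat_lit 49) (nat_lit 5) (nat_lit 50) (nat_lit 5) (nat_lit 367)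 (nat_lit 297) (nat_lit 116))))) (XT.nd (nat_lit 234) (nat_lit 304) (nat_lit 0) (XT.nd (nat_lit 78) (nat_lit 152) (nat_lit 0) (XT.lf (nat_lit 0) (nat_lit 20311034068) (nat_lit 228) (nat_lit 4232543209) (nat_lit 304) (nat_lit 20626938740) (nat_lit 46) (nat_lit 5) (nat_lit 49) (nat_lit 5) (nat_lit 50) (nat_lit 5) (nat_lit 368) (nat_lit 297) (nat_lit 115)) (XT.nd (nat_lit 78) (nat_lit 152) (nat_lit 0) (XT.lf (nat_lit 0) (nat_lit 32138257841) (nat_lit 304) (nat_lit 6777099615) (nat_lit 76) (nat_lit 7254016893) (nat_lit 46) (nat_lit 5) (nat_lit 50) (nat_lit 5) (nat_lit 47) (nat_lit 5) (nat_lit 369) (nat_lit 297) (nat_lit 114)) (XT.lf (nat_lit 0) (nat_lit 12035821956) (nat_lit 152) (nat_lit 28079478500) (nat_lit 228) (nat_lit 7078264788) (nat_lit 44) (nat_lit 5) (nat_lit 46) (nat_lit 5) (nat_lit 47) (nat_lit 5) (nat_lit 370) (nat_lit 297) (nat_lit 113)))) (XT.nd (nat_lit 156) (nat_lit 0) (nat_lit 0)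 (XT.nd (nat_lit 78) (nat_lit 228) (nat_lit 0) (XT.lf (nat_lit 0) (nat_lit 147592847) (nat_lit 228) (nat_lit 16700754405) (nat_lit 76) (nat_lit 31398131648) (nat_lit 43) (nat_lit 5) (nat_lit 46) (nat_lit 5) (nat_lit 44) (nat_lit 5) (nat_lit 371) (nat_lit 297) (nat_lit 112)) (XT.lf (nat_lit 0) (nat_lit 2279584449) (nat_lit 228) (nat_lit 5187308178) (nat_lit 304) (nat_lit 41861419161) (nat_lit 40) (nat_lit 5) (nat_lit 43) (nat_lit 5) (nat_lit 44) (nat_lit 5) (nat_lit 372) (nat_lit 297) (nat_lit 111))) (XT.nd (nat_lit 78) (nat_lit 0) (nat_lit 0) (XT.lf (nat_lit 0) (nat_lit 15238722471) (nat_lit 304) (nat_lit 28337907137) (nat_lit 76) (nat_lit 6858983710) (nat_lit 40) (nat_lit 5) (nat_lit 44) (nat_lit 5) (nat_lit 41) (nat_lit 5) (nat_lit 373) (nat_lit 297) (nat_lit 110)) (XT.lf (nat_lit 0) (nat_lit 23292196981) (nat_lit 304) (nat_lit 9121769754) (nat_lit 76) (nat_lit 19160714590) (nat_lit 40) (nat_lit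 5) (nat_lit 44) (nat_lit 5) (nat_lit 41) (nat_lit 5) (nat_lit 374) (nat_lit 297) (nat_lit 109)))))) (XT.nd (nat_lit 468) (nat_lit 380) (nat_lit 0) (XT.nd (nat_lit 234) (nat_lit 380) (nat_lit 0) (XT.nd (nat_lit 78) (nat_lit 0) (nat_lit 0) (XT.lf (nat_lit 0) (nat_lit 10878620250) (nat_lit 152) (nat_lit 20810441295) (nat_lit 228) (nat_lit 21055808313) (nat_lit 38) (nat_lit 5) (nat_lit 40) (nat_lit 5) (nat_lit 41) (nat_lit 5) (nat_lit 375) (nat_lit 297) (nat_lit 108)) (XT.nd (nat_lit 78) (nat_lit 0) (nat_lit 0) (XT.lf (nat_lit 0) (nat_lit 31661540970) (nat_lit 152) (nat_lit 8765655129) (nat_lit 228) (nat_lit 13520289028) (nat_lit 38) (nat_lit 5) (nat_lit 40) (nat_lit 5) (nat_lit 41) (nat_lit 5) (nat_lit 376) (nat_lit 297) (nat_lit 107)) (XT.lf (nat_lit 0) (nat_lit 49459785206) (nat_lit 228) (nat_lit 2157628114) (nat_lit 76) (nat_lit 3567798163) (nat_lit 38) (nat_lit 5) (nat_lit 41) (nat_lit 5) (nat_lit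 39) (nat_lit 5) (nat_lit 377) (nat_lit 297) (nat_lit 106)))) (XT.nd (nat_lit 78) (nat_lit 152) (nat_lit 0) (XT.lf (nat_lit 0) (nat_lit 2526356230) (nat_lit 228) (nat_lit 37625547641) (nat_lit 76) (nat_lit 16299462797) (nat_lit 35) (nat_lit 5) (nat_lit 38) (nat_lit 5) (nat_lit 36) (nat_lit 5) (nat_lit 378) (nat_lit 297) (nat_lit 105)) (XT.nd (nat_lit 78) (nat_lit 152) (nat_lit 0) (XT.lf (nat_lit 0) (nat_lit 10930022518) (nat_lit 228) (nat_lit 17333044526) (nat_lit 76) (nat_lit 29490158450) (nat_lit 35) (nat_lit 5) (nat_lit 38) (nat_lit 5) (nat_lit 36) (nat_lit 5) (nat_lit 379) (nat_lit 297) (nat_lit 104)) (XT.lf (nat_lit 0) (nat_lit 3635003174) (nat_lit 152) (nat_lit 15983215329) (nat_lit 228) (nat_lit 39474950718) (nat_lit 33) (nat_lit 5) (nat_lit 35) (nat_lit 5) (nat_lit 36) (nat_lit 5) (nat_lit 380) (nat_lit 297) (nat_lit 103))))) (XT.nd (nat_lit 234) (nat_lit 228) (nat_lit 0) (XT.nd (nat_lit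 78) (nat_lit 152) (nat_lit 0) (XT.lf (nat_lit 0) (nat_lit 25583281024) (nat_lit 152) (nat_lit 3156320784) (nat_lit 228) (nat_lit 31728534886) (nat_lit 33) (nat_lit 5) (nat_lit 35) (nat_lit 5) (nat_lit 36) (nat_lit 5) (nat_lit 381) (nat_lit 297) (nat_lit 102)) (XT.nd (nat_lit 78) (nat_lit 152) (nat_lit 0) (XT.lf (nat_lit 0) (nat_lit 38228853987) (nat_lit 228) (nat_lit 13795064963) (nat_lit 76) (nat_lit 9857609045) (nat_lit 33) (nat_lit 5) (nat_lit 36) (nat_lit 5) (nat_lit 34) (nat_lit 5) (nat_lit 382) (nat_lit 297) (nat_lit 101)) (XT.lf (nat_lit 0) (nat_lit 8049297301) (nat_lit 152) (nat_lit 40059751616) (nat_lit 228) (nat_lit 15225085743) (nat_lit 31) (nat_lit 5) (nat_lit 33) (nat_lit 5) (nat_lit 34) (nat_lit 5) (nat_lit 383) (nat_lit 297) (nat_lit 100)))) (XT.nd (nat_lit 156) (nat_lit 152) (nat_lit 0) (XT.nd (nat_lit 78) (nat_lit 76) (nat_lit 0) (XT.lf (nat_lit 0) (nat_lit 30827872146) (nat_lit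 152) (nat_lit 27594751596) (nat_lit 228) (nat_lit 6403588097) (nat_lit 31) (nat_lit 5) (nat_lit 33) (nat_lit 5) (nat_lit 34) (nat_lit 5) (nat_lit 384) (nat_lit 297) (nat_lit 99)) (XT.lf (nat_lit 0) (nat_lit 2627923103) (nat_lit 228) (nat_lit 12102870275) (nat_lit 76) (nat_lit 51631554363) (nat_lit 30) (nat_lit 5) (nat_lit 33) (nat_lit 5) (nat_lit 31) (nat_lit 5) (nat_lit 385) (nat_lit 297) (nat_lit 98))) (XT.nd (nat_lit 78) (nat_lit 0) (nat_lit 0) (XT.lf (nat_lit 0) (nat_lit 10588965143) (nat_lit 152) (nat_lit 1312277807) (nat_lit 228) (nat_lit 56038437043) (nat_lit 28) (nat_lit 5) (nat_lit 30) (nat_lit 5) (nat_lit 31) (nat_lit 5) (nat_lit 386) (nat_lit 297) (nat_lit 97)) (XT.lf (nat_lit 0) (nat_lit 21694226110) (nat_lit 228) (nat_lit 35476206565) (nat_lit 76) (nat_lit 12386656992) (nat_lit 28) (nat_lit 5) (nat_lit 31) (nat_lit 5) (nat_lit 29) (nat_lit 5) (nat_lit 387) (nat_lit 297) (nat_lit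 96))))))))
noncomputable def xc195 : XT := (XT.nd (nat_lit 35022) (nat_lit 0) (nat_lit 5244) (XT.nd (nat_lit 34008) (nat_lit 0) (nat_lit 11932) (XT.nd (nat_lit 468) (nat_lit 152) (nat_lit 0) (XT.nd (nat_lit 234) (nat_lit 152) (nat_lit 0) (XT.nd (nat_lit 78) (nat_lit 152) (nat_lit 0) (XT.lf (nat_lit 0) (nat_lit 31791852031) (nat_lit 228) (nat_lit 12962088096) (nat_lit 76) (nat_lit 26468757228) (nat_lit 28) (nat_lit 5) (nat_lit 31) (nat_lit 5) (nat_lit 29) (nat_lit 5) (nat_lit 388) (nat_lit 297) (nat_lit 95)) (XT.nd (nat_lit 78) (nat_lit 0) (nat_lit 0) (XT.lf (nat_lit 0) (nat_lit 10427403707) (nat_lit 152) (nat_lit 31863160341) (nat_lit 228) (nat_lit 30644765791) (nat_lit 26) (nat_lit 5) (nat_lit 28) (nat_lit 5) (nat_lit 29) (nat_lit 5) (nat_lit 389) (nat_lit 297) (nat_lit 94)) (XT.lf (nat_lit 0) (nat_lit 34780798512) (nat_lit 152) (nat_lit 18452280262) (nat_lit 228) (nat_lit 21462398531) (nat_lit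 26) (nat_lit 5) (nat_lit 28) (nat_lit 5) (nat_lit 29) (nat_lit 5) (nat_lit 390) (nat_lit 297) (nat_lit 93)))) (XT.nd (nat_lit 78) (nat_lit 152) (nat_lit 0) (XT.lf (nat_lit 0) (nat_lit 59861405016) (nat_lit 152) (nat_lit 4640473317) (nat_lit 228) (nat_lit 12006611791) (nat_lit 26) (nat_lit 5) (nat_lit 28) (nat_lit 5) (nat_lit 29) (nat_lit 5) (nat_lit 391) (nat_lit 297) (nat_lit 92)) (XT.nd (nat_lit 78) (nat_lit 76) (nat_lit 0) (XT.lf (nat_lit 0) (nat_lit 7366808357) (nat_lit 76) (nat_lit 68902945594) (nat_lit 152) (nat_lit 2101310190) (nat_lit 25) (nat_lit 5) (nat_lit 26) (nat_lit 5) (nat_lit 27) (nat_lit 4) (nat_lit 392) (nat_lit 297) (nat_lit 91)) (XT.lf (nat_lit 0) (nat_lit 8156839493) (nat_lit 152) (nat_lit 47970932133) (nat_lit 76) (nat_lit 24152995516) (nat_lit 24) (nat_lit 5) (nat_lit 26) (nat_lit 5) (nat_lit 25) (nat_lit 5) (nat_lit 393) (nat_lit 297) (nat_lit 90))))) (XT.nd (nat_lit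 33228) (nat_lit 0) (nat_lit 12768) (XT.nd (nat_lit 78) (nat_lit 152) (nat_lit 0) (XT.lf (nat_lit 0) (nat_lit 18678615021) (nat_lit 152) (nat_lit 24270660922) (nat_lit 76) (nat_lit 39297918745) (nat_lit 24) (nat_lit 5) (nat_lit 26) (nat_lit 5) (nat_lit 25) (nat_lit 5) (nat_lit 394) (nat_lit 297) (nat_lit 89)) (XT.nd (nat_lit 33072) (nat_lit 0) (nat_lit 12768) (XT.lf (nat_lit 0) (nat_lit 140201740) (nat_lit 152) (nat_lit 29375360270) (nat_lit 228) (nat_lit 54757068549) (nat_lit 22) (nat_lit 5) (nat_lit 24) (nat_lit 5) (nat_lit 25) (nat_lit 5) (nat_lit 395) (nat_lit 297) (nat_lit 88)) (XT.lf (nat_lit 0) (nat_lit 3756929541) (nat_lit 1140) (nat_lit 1339758885) (nat_lit 1140) (nat_lit 1339758885) (nat_lit 190) (nat_lit 3) (nat_lit 205) (nat_lit 3) (nat_lit 205) (nat_lit 5) (nat_lit 298) (nat_lit 298) (nat_lit 184)))) (XT.nd (nat_lit 156) (nat_lit 0) (nat_lit 76) (XT.nd (nat_lit 78) (nat_lit 0) (nat_lit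 76) (XT.lf (nat_lit 76) (nat_lit 3079379358) (nat_lit 0) (nat_lit 4957697874) (nat_lit 1140) (nat_lit 5015981237) (nat_lit 191) (nat_lit 5) (nat_lit 190) (nat_lit 3) (nat_lit 205) (nat_lit 5) (nat_lit 299) (nat_lit 298) (nat_lit 183)) (XT.lf (nat_lit 0) (nat_lit 8592627126) (nat_lit 1064) (nat_lit 4184655631) (nat_lit 1140) (nat_lit 460869390) (nat_lit 191) (nat_lit 5) (nat_lit 205) (nat_lit 5) (nat_lit 206) (nat_lit 5) (nat_lit 300) (nat_lit 298) (nat_lit 182))) (XT.nd (nat_lit 78) (nat_lit 0) (nat_lit 0) (XT.lf (nat_lit 76) (nat_lit 1755082807) (nat_lit 0) (nat_lit 7461278381) (nat_lit 1140) (nat_lit 4210915194) (nat_lit 192) (nat_lit 5) (nat_lit 191) (nat_lit 5) (nat_lit 206) (nat_lit 5) (nat_lit 301) (nat_lit 298) (nat_lit 181)) (XT.lf (nat_lit 76) (nat_lit 7950756706) (nat_lit 0) (nat_lit 1936211305) (nat_lit 1140) (nat_lit 3734284106) (nat_lit 192) (nat_lit 5) (nat_lit 191) (nat_lit 5)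 (nat_lit 206) (nat_lit 5) (nat_lit 302) (nat_lit 298) (nat_lit 180)))))) (XT.nd (nat_lit 468) (nat_lit 0) (nat_lit 0) (XT.nd (nat_lit 234) (nat_lit 988) (nat_lit 0) (XT.nd (nat_lit 78) (nat_lit 0) (nat_lit 0) (XT.lf (nat_lit 76) (nat_lit 476160766) (nat_lit 0) (nat_lit 10128572033) (nat_lit 1140) (nat_lit 3215525071) (nat_lit 193) (nat_lit 5) (nat_lit 192) (nat_lit 5) (nat_lit 207) (nat_lit 5) (nat_lit 303) (nat_lit 298) (nat_lit 179)) (XT.nd (nat_lit 78) (nat_lit 0) (nat_lit 76) (XT.lf (nat_lit 76) (nat_lit 6895692636) (nat_lit 0) (nat_lit 4511270293) (nat_lit 1140) (nat_lit 2616404194) (nat_lit 193) (nat_lit 5) (nat_lit 192) (nat_lit 5) (nat_lit 207) (nat_lit 5) (nat_lit 304) (nat_lit 298) (nat_lit 178)) (XT.lf (nat_lit 0) (nat_lit 12232636061) (nat_lit 1064) (nat_lit 745439395) (nat_lit 1140) (nat_lit 1254533594) (nat_lit 193) (nat_lit 5) (nat_lit 207) (nat_lit 5) (nat_lit 208) (nat_lit 5)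 (nat_lit 305) (nat_lit 298) (nat_lit 177)))) (XT.nd (nat_lit 78) (nat_lit 1064) (nat_lit 0) (XT.lf (nat_lit 76) (nat_lit 5890355808) (nat_lit 0) (nat_lit 7281510681) (nat_lit 1140) (nat_lit 1273618212) (nat_lit 194) (nat_lit 5) (nat_lit 193) (nat_lit 5) (nat_lit 208) (nat_lit 5) (nat_lit 306) (nat_lit 298) (nat_lit 176)) (XT.nd (nat_lit 78) (nat_lit 1064) (nat_lit 0) (XT.lf (nat_lit 76) (nat_lit 12732402916) (nat_lit 0) (nat_lit 1402183956) (nat_lit 1140) (nat_lit 530319849) (nat_lit 194) (nat_lit 5) (nat_lit 193) (nat_lit 5) (nat_lit 208) (nat_lit 5) (nat_lit 307) (nat_lit 298) (nat_lit 175)) (XT.lf (nat_lit 0) (nat_lit 311784951) (nat_lit 1140) (nat_lit 9959547986) (nat_lit 1216) (nat_lit 4617096031) (nat_lit 179) (nat_lit 5) (nat_lit 194) (nat_lit 5) (nat_lit 195) (nat_lit 5) (nat_lit 308) (nat_lit 298) (nat_lit 174))))) (XT.nd (nat_lit 234) (nat_lit 0) (nat_lit 76) (XT.nd (nat_lit 78) (nat_lit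 0) (nat_lit 76) (XT.lf (nat_lit 0) (nat_lit 1190397463) (nat_lit 1140) (nat_lit 3110125663) (nat_lit 1216) (nat_lit 10817336970) (nat_lit 179) (nat_lit 5) (nat_lit 194) (nat_lit 5) (nat_lit 195) (nat_lit 5) (nat_lit 309) (nat_lit 298) (nat_lit 173)) (XT.nd (nat_lit 78) (nat_lit 0) (nat_lit 0) (XT.lf (nat_lit 0) (nat_lit 2140805400) (nat_lit 1140) (nat_lit 11356642118) (nat_lit 1216) (nat_lit 1855380847) (nat_lit 180) (nat_lit 5) (nat_lit 195) (nat_lit 5) (nat_lit 196) (nat_lit 5) (nat_lit 310) (nat_lit 298) (nat_lit 172)) (XT.lf (nat_lit 0) (nat_lit 3182956270) (nat_lit 1140) (nat_lit 4265852597) (nat_lit 1216) (nat_lit 8144156709) (nat_lit 180) (nat_lit 5) (nat_lit 195) (nat_lit 5) (nat_lit 196) (nat_lit 5) (nat_lit 311) (nat_lit 298) (nat_lit 171)))) (XT.nd (nat_lit 156) (nat_lit 0) (nat_lit 76) (XT.nd (nat_lit 78) (nat_lit 0) (nat_lit 76) (XT.lf (nat_lit 76) (nat_lit 3089698597) (nat_lit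 0) (nat_lit 1185629582) (nat_lit 1216) (nat_lit 11564426352) (nat_lit 181) (nat_lit 5) (nat_lit 180) (nat_lit 5) (nat_lit 196) (nat_lit 5) (nat_lit 312) (nat_lit 298) (nat_lit 170)) (XT.lf (nat_lit 0) (nat_lit 5484102443) (nat_lit 1140) (nat_lit 5398859746) (nat_lit 1216) (nat_lit 5208491879) (nat_lit 181) (nat_lit 5) (nat_lit 196) (nat_lit 5) (nat_lit 197) (nat_lit 5) (nat_lit 313) (nat_lit 298) (nat_lit 169))) (XT.nd (nat_lit 78) (nat_lit 0) (nat_lit 76) (XT.lf (nat_lit 76) (nat_lit 2195701964) (nat_lit 0) (nat_lit 4556102015) (nat_lit 1216) (nat_lit 9598236080) (nat_lit 182) (nat_lit 5) (nat_lit 181) (nat_lit 5) (nat_lit 197) (nat_lit 5) (nat_lit 314) (nat_lit 298) (nat_lit 168)) (XT.lf (nat_lit 0) (nat_lit 8121493828) (nat_lit 1140) (nat_lit 6513889346) (nat_lit 76) (nat_lit 1979096676) (nat_lit 182) (nat_lit 5) (nat_lit 197) (nat_lit 5) (nat_lit 183) (nat_lit 5) (nat_lit 315) (nat_lit 298)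 (nat_lit 167))))))) (XT.nd (nat_lit 1014) (nat_lit 3040) (nat_lit 0) (XT.nd (nat_lit 468) (nat_lit 1520) (nat_lit 0) (XT.nd (nat_lit 234) (nat_lit 684) (nat_lit 0) (XT.nd (nat_lit 78) (nat_lit 532) (nat_lit 0) (XT.lf (nat_lit 0) (nat_lit 1328304116) (nat_lit 1140) (nat_lit 8252191801) (nat_lit 1216) (nat_lit 7304924773) (nat_lit 167) (nat_lit 5) (nat_lit 182) (nat_lit 5) (nat_lit 183) (nat_lit 5) (nat_lit 316) (nat_lit 298) (nat_lit 166)) (XT.nd (nat_lit 78) (nat_lit 532) (nat_lit 0) (XT.lf (nat_lit 0) (nat_lit 9531094067) (nat_lit 1140) (nat_lit 1608497133) (nat_lit 1216) (nat_lit 6023222945) (nat_lit 167) (nat_lit 5) (nat_lit 182) (nat_lit 5) (nat_lit 183) (nat_lit 5) (nat_lit 317) (nat_lit 298) (nat_lit 165)) (XT.lf (nat_lit 0) (nat_lit 482272218) (nat_lit 532) (nat_lit 12308973036) (nat_lit 608) (nat_lit 4655924246) (nat_lit 160) (nat_lit 5) (nat_lit 167) (nat_lit 5) (nat_lit 168) (nat_lit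 5) (nat_lit 318) (nat_lit 298) (nat_lit 164)))) (XT.nd (nat_lit 78) (nat_lit 684) (nat_lit 0) (XT.lf (nat_lit 0) (nat_lit 8971705710) (nat_lit 532) (nat_lit 5604599315) (nat_lit 608) (nat_lit 3161248078) (nat_lit 160) (nat_lit 5) (nat_lit 167) (nat_lit 5) (nat_lit 168) (nat_lit 5) (nat_lit 319) (nat_lit 298) (nat_lit 163)) (XT.nd (nat_lit 78) (nat_lit 684) (nat_lit 0) (XT.lf (nat_lit 0) (nat_lit 16418711787) (nat_lit 608) (nat_lit 341553458) (nat_lit 76) (nat_lit 1276282000) (nat_lit 160) (nat_lit 5) (nat_lit 168) (nat_lit 5) (nat_lit 161) (nat_lit 5) (nat_lit 320) (nat_lit 298) (nat_lit 162)) (XT.lf (nat_lit 0) (nat_lit 101817505) (nat_lit 684) (nat_lit 9905053674) (nat_lit 76) (nat_lit 8333778614) (nat_lit 151) (nat_lit 5) (nat_lit 160) (nat_lit 5) (nat_lit 152) (nat_lit 5) (nat_lit 321) (nat_lit 298) (nat_lit 161))))) (XT.nd (nat_lit 234) (nat_lit 988) (nat_lit 0) (XT.nd (nat_lit 78) (nat_lit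 532) (nat_lit 0) (XT.lf (nat_lit 0) (nat_lit 1835646485) (nat_lit 684) (nat_lit 1194845739) (nat_lit 76) (nat_lit 15623061339) (nat_lit 151) (nat_lit 5) (nat_lit 160) (nat_lit 5) (nat_lit 152) (nat_lit 5) (nat_lit 322) (nat_lit 298) (nat_lit 160)) (XT.nd (nat_lit 78) (nat_lit 0) (nat_lit 0) (XT.lf (nat_lit 0) (nat_lit 3730218457) (nat_lit 608) (nat_lit 11091078553) (nat_lit 76) (nat_lit 4151297043) (nat_lit 144) (nat_lit 5) (nat_lit 152) (nat_lit 5) (nat_lit 145) (nat_lit 5) (nat_lit 323) (nat_lit 298) (nat_lit 159)) (XT.lf (nat_lit 0) (nat_lit 5715845960) (nat_lit 608) (nat_lit 2084330448) (nat_lit 76) (nat_lit 11500013915) (nat_lit 144) (nat_lit 5) (nat_lit 152) (nat_lit 5) (nat_lit 145) (nat_lit 5) (nat_lit 324) (nat_lit 298) (nat_lit 158)))) (XT.nd (nat_lit 156) (nat_lit 456) (nat_lit 0) (XT.nd (nat_lit 78) (nat_lit 0) (nat_lit 0) (XT.lf (nat_lit 0) (nat_lit 7327822932) (nat_lit 532) (nat_lit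 495919492) (nat_lit 608) (nat_lit 11812001846) (nat_lit 137) (nat_lit 5) (nat_lit 144) (nat_lit 5) (nat_lit 145) (nat_lit 5) (nat_lit 325) (nat_lit 298) (nat_lit 157)) (XT.lf (nat_lit 0) (nat_lit 10076094815) (nat_lit 608) (nat_lit 2991376387) (nat_lit 76) (nat_lit 6911467540) (nat_lit 137) (nat_lit 5) (nat_lit 145) (nat_lit 5) (nat_lit 138) (nat_lit 5) (nat_lit 326) (nat_lit 298) (nat_lit 156))) (XT.nd (nat_lit 78) (nat_lit 0) (nat_lit 0) (XT.lf (nat_lit 0) (nat_lit 6723230880) (nat_lit 456) (nat_lit 5734956541) (nat_lit 532) (nat_lit 7872386710) (nat_lit 131) (nat_lit 5) (nat_lit 137) (nat_lit 5) (nat_lit 138) (nat_lit 5) (nat_lit 327) (nat_lit 298) (nat_lit 155)) (XT.lf (nat_lit 0) (nat_lit 14952489057) (nat_lit 532) (nat_lit 3926891460) (nat_lit 76) (nat_lit 1812165555) (nat_lit 131) (nat_lit 5) (nat_lit 138) (nat_lit 5) (nat_lit 132) (nat_lit 5) (nat_lit 328) (nat_lit 298) (nat_lit 154))))))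 (XT.nd (nat_lit 546) (nat_lit 1216) (nat_lit 0) (XT.nd (nat_lit 234) (nat_lit 836) (nat_lit 0) (XT.nd (nat_lit 78) (nat_lit 532) (nat_lit 0) (XT.lf (nat_lit 0) (nat_lit 6098560700) (nat_lit 456) (nat_lit 11531443392) (nat_lit 532) (nat_lit 3430101137) (nat_lit 125) (nat_lit 5) (nat_lit 131) (nat_lit 5) (nat_lit 132) (nat_lit 5) (nat_lit 329) (nat_lit 298) (nat_lit 153)) (XT.nd (nat_lit 78) (nat_lit 532) (nat_lit 0) (XT.lf (nat_lit 0) (nat_lit 16497712393) (nat_lit 456) (nat_lit 3922897389) (nat_lit 532) (nat_lit 1018137732) (nat_lit 125) (nat_lit 5) (nat_lit 131) (nat_lit 5) (nat_lit 132) (nat_lit 5) (nat_lit 330) (nat_lit 298) (nat_lit 152)) (XT.lf (nat_lit 0) (nat_lit 1521620917) (nat_lit 532) (nat_lit 16400081502) (nat_lit 76) (nat_lit 3904111201) (nat_lit 118) (nat_lit 5) (nat_lit 125) (nat_lit 5) (nat_lit 119) (nat_lit 5) (nat_lit 331) (nat_lit 298) (nat_lit 151)))) (XT.nd (nat_lit 156)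 (nat_lit 380) (nat_lit 0) (XT.nd (nat_lit 78) (nat_lit 456) (nat_lit 0) (XT.lf (nat_lit 0) (nat_lit 4199693275) (nat_lit 532) (nat_lit 6075232682) (nat_lit 76) (nat_lit 11946794321) (nat_lit 118) (nat_lit 5) (nat_lit 125) (nat_lit 5) (nat_lit 119) (nat_lit 5) (nat_lit 332) (nat_lit 298) (nat_lit 150)) (XT.lf (nat_lit 0) (nat_lit 4642565039) (nat_lit 456) (nat_lit 2353718645) (nat_lit 532) (nat_lit 15632083445) (nat_lit 112) (nat_lit 5) (nat_lit 118) (nat_lit 5) (nat_lit 119) (nat_lit 5) (nat_lit 333) (nat_lit 298) (nat_lit 149))) (XT.nd (nat_lit 78) (nat_lit 380) (nat_lit 0) (XT.lf (nat_lit 0) (nat_lit 9988186376) (nat_lit 532) (nat_lit 7302855627) (nat_lit 76) (nat_lit 5752836977) (nat_lit 112) (nat_lit 5) (nat_lit 119) (nat_lit 5) (nat_lit 113) (nat_lit 5) (nat_lit 334) (nat_lit 298) (nat_lit 148)) (XT.lf (nat_lit 0) (nat_lit 3743027788) (nat_lit 380) (nat_lit 9379944345) (nat_lit 456) (nat_lit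 10347298070) (nat_lit 107) (nat_lit 5) (nat_lit 112) (nat_lit 5) (nat_lit 113) (nat_lit 5) (nat_lit 335) (nat_lit 298) (nat_lit 147))))) (XT.nd (nat_lit 234) (nat_lit 836) (nat_lit 0) (XT.nd (nat_lit 78) (nat_lit 380) (nat_lit 0) (XT.lf (nat_lit 0) (nat_lit 15262773280) (nat_lit 380) (nat_lit 1156724283) (nat_lit 456) (nat_lit 7487932287) (nat_lit 107) (nat_lit 5) (nat_lit 112) (nat_lit 5) (nat_lit 113) (nat_lit 5) (nat_lit 336) (nat_lit 298) (nat_lit 146)) (XT.nd (nat_lit 78) (nat_lit 0) (nat_lit 0) (XT.lf (nat_lit 0) (nat_lit 2746524293) (nat_lit 380) (nat_lit 17159211464) (nat_lit 456) (nat_lit 4449251368) (nat_lit 102) (nat_lit 5) (nat_lit 107) (nat_lit 5) (nat_lit 108) (nat_lit 5) (nat_lit 337) (nat_lit 298) (nat_lit 145)) (XT.lf (nat_lit 0) (nat_lit 14637859035) (nat_lit 380) (nat_lit 8951556454) (nat_lit 456) (nat_lit 1223777132) (nat_lit 102) (nat_lit 5) (nat_lit 107) (nat_lit 5) (nat_lit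 108) (nat_lit 5) (nat_lit 338) (nat_lit 298) (nat_lit 144)))) (XT.nd (nat_lit 156) (nat_lit 380) (nat_lit 0) (XT.nd (nat_lit 78) (nat_lit 0) (nat_lit 0) (XT.lf (nat_lit 0) (nat_lit 1604915003) (nat_lit 380) (nat_lit 462351089) (nat_lit 456) (nat_lit 23216987166) (nat_lit 96) (nat_lit 5) (nat_lit 101) (nat_lit 5) (nat_lit 102) (nat_lit 5) (nat_lit 339) (nat_lit 298) (nat_lit 143)) (XT.lf (nat_lit 0) (nat_lit 5610230389) (nat_lit 456) (nat_lit 11919061106) (nat_lit 76) (nat_lit 8234463656) (nat_lit 96) (nat_lit 5) (nat_lit 102) (nat_lit 5) (nat_lit 97) (nat_lit 5) (nat_lit 340) (nat_lit 298) (nat_lit 142))) (XT.nd (nat_lit 78) (nat_lit 0) (nat_lit 0) (XT.lf (nat_lit 0) (nat_lit 186174456) (nat_lit 380) (nat_lit 9074250391) (nat_lit 456) (nat_lit 16997195358) (nat_lit 91) (nat_lit 5) (nat_lit 96) (nat_lit 5) (nat_lit 97) (nat_lit 5) (nat_lit 341) (nat_lit 298) (nat_lit 141)) (XT.lf (nat_lit 0)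 (nat_lit 12892058748) (nat_lit 380) (nat_lit 243091729) (nat_lit 456) (nat_lit 13627706125) (nat_lit 91) (nat_lit 5) (nat_lit 96) (nat_lit 5) (nat_lit 97) (nat_lit 5) (nat_lit 342) (nat_lit 298) (nat_lit 140))))))))
noncomputable def xc196 : XT := (XT.nd (nat_lit 2028) (nat_lit 1672) (nat_lit 0) (XT.nd (nat_lit 1014) (nat_lit 1444) (nat_lit 0) (XT.nd (nat_lit 468) (nat_lit 912) (nat_lit 0) (XT.nd (nat_lit 234) (nat_lit 760) (nat_lit 0) (XT.nd (nat_lit 78) (nat_lit 304) (nat_lit 0) (XT.lf (nat_lit 0) (nat_lit 17206025860) (nat_lit 456) (nat_lit 1396016547) (nat_lit 76) (nat_lit 8678816423) (nat_lit 91) (nat_lit 5) (nat_lit 97) (nat_lit 5) (nat_lit 92) (nat_lit 5) (nat_lit 343) (nat_lit 298) (nat_lit 139)) (XT.nd (nat_lit 78) (nat_lit 0) (nat_lit 0) (XT.lf (nat_lit 0) (nat_lit 11671771742) (nat_lit 304) (nat_lit 9836817571) (nat_lit 380) (nat_lit 6302530757) (nat_lit 87) (nat_lit 5) (nat_lit 91)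 (nat_lit 5) (nat_lit 92) (nat_lit 5) (nat_lit 344) (nat_lit 298) (nat_lit 138)) (XT.lf (nat_lit 0) (nat_lit 25153687322) (nat_lit 304) (nat_lit 795682257) (nat_lit 380) (nat_lit 2407651004) (nat_lit 87) (nat_lit 5) (nat_lit 91) (nat_lit 5) (nat_lit 92) (nat_lit 5) (nat_lit 345) (nat_lit 298) (nat_lit 137)))) (XT.nd (nat_lit 78) (nat_lit 304) (nat_lit 0) (XT.lf (nat_lit 0) (nat_lit 1749902470) (nat_lit 456) (nat_lit 18699106528) (nat_lit 76) (nat_lit 8464517983) (nat_lit 81) (nat_lit 5) (nat_lit 87) (nat_lit 5) (nat_lit 82) (nat_lit 5) (nat_lit 346) (nat_lit 298) (nat_lit 136)) (XT.nd (nat_lit 78) (nat_lit 304) (nat_lit 0) (XT.lf (nat_lit 0) (nat_lit 6019536303) (nat_lit 456) (nat_lit 5423928460) (nat_lit 76) (nat_lit 18041481464) (nat_lit 81) (nat_lit 5) (nat_lit 87) (nat_lit 5) (nat_lit 82) (nat_lit 5) (nat_lit 347) (nat_lit 298) (nat_lit 135)) (XT.lf (nat_lit 0) (nat_lit 8407244216) (nat_lit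 304) (nat_lit 2086169789) (nat_lit 380) (nat_lit 19577814406) (nat_lit 77) (nat_lit 5) (nat_lit 81) (nat_lit 5) (nat_lit 82) (nat_lit 5) (nat_lit 348) (nat_lit 298) (nat_lit 134))))) (XT.nd (nat_lit 234) (nat_lit 608) (nat_lit 0) (XT.nd (nat_lit 78) (nat_lit 304) (nat_lit 0) (XT.lf (nat_lit 0) (nat_lit 15224813171) (nat_lit 380) (nat_lit 7988434661) (nat_lit 76) (nat_lit 7458156930) (nat_lit 77) (nat_lit 5) (nat_lit 82) (nat_lit 5) (nat_lit 78) (nat_lit 5) (nat_lit 349) (nat_lit 298) (nat_lit 133)) (XT.nd (nat_lit 78) (nat_lit 0) (nat_lit 0) (XT.lf (nat_lit 0) (nat_lit 6191346745) (nat_lit 304) (nat_lit 13982510600) (nat_lit 380) (nat_lit 11113462687) (nat_lit 73) (nat_lit 5) (nat_lit 77) (nat_lit 5) (nat_lit 78) (nat_lit 5) (nat_lit 350) (nat_lit 298) (nat_lit 132)) (XT.lf (nat_lit 0) (nat_lit 20954142467) (nat_lit 304) (nat_lit 4393501922) (nat_lit 380) (nat_lit 6571784804) (nat_lit 73) (nat_lit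 5) (nat_lit 77) (nat_lit 5) (nat_lit 78) (nat_lit 5) (nat_lit 351) (nat_lit 298) (nat_lit 131)))) (XT.nd (nat_lit 156) (nat_lit 304) (nat_lit 0) (XT.nd (nat_lit 78) (nat_lit 76) (nat_lit 0) (XT.lf (nat_lit 0) (nat_lit 3600805664) (nat_lit 228) (nat_lit 27158876014) (nat_lit 304) (nat_lit 1808333299) (nat_lit 70) (nat_lit 5) (nat_lit 73) (nat_lit 5) (nat_lit 74) (nat_lit 5) (nat_lit 352) (nat_lit 298) (nat_lit 130)) (XT.lf (nat_lit 0) (nat_lit 3188629254) (nat_lit 304) (nat_lit 14484555769) (nat_lit 76) (nat_lit 15557452267) (nat_lit 69) (nat_lit 5) (nat_lit 73) (nat_lit 5) (nat_lit 70) (nat_lit 5) (nat_lit 353) (nat_lit 298) (nat_lit 129))) (XT.nd (nat_lit 78) (nat_lit 0) (nat_lit 0) (XT.lf (nat_lit 0) (nat_lit 416884403) (nat_lit 304) (nat_lit 7882138924) (nat_lit 380) (nat_lit 25613585835) (nat_lit 65) (nat_lit 5) (nat_lit 69) (nat_lit 5) (nat_lit 70) (nat_lit 5) (nat_lit 354) (nat_lit 298)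 (nat_lit 128)) (XT.lf (nat_lit 0) (nat_lit 13727524082) (nat_lit 380) (nat_lit 18576961044) (nat_lit 76) (nat_lit 2305615170) (nat_lit 65) (nat_lit 5) (nat_lit 70) (nat_lit 5) (nat_lit 66) (nat_lit 5) (nat_lit 355) (nat_lit 298) (nat_lit 127)))))) (XT.nd (nat_lit 468) (nat_lit 684) (nat_lit 0) (XT.nd (nat_lit 234) (nat_lit 532) (nat_lit 0) (XT.nd (nat_lit 78) (nat_lit 228) (nat_lit 0) (XT.lf (nat_lit 0) (nat_lit 19392947986) (nat_lit 380) (nat_lit 3294475892) (nat_lit 76) (nat_lit 12638874077) (nat_lit 65) (nat_lit 5) (nat_lit 70) (nat_lit 5) (nat_lit 66) (nat_lit 5) (nat_lit 356) (nat_lit 298) (nat_lit 126)) (XT.nd (nat_lit 78) (nat_lit 0) (nat_lit 0) (XT.lf (nat_lit 0) (nat_lit 12688449618) (nat_lit 228) (nat_lit 12657996990) (nat_lit 304) (nat_lit 10713995299) (nat_lit 62) (nat_lit 5) (nat_lit 65) (nat_lit 5) (nat_lit 66) (nat_lit 5) (nat_lit 357) (nat_lit 298) (nat_lit 125)) (XT.lf (nat_lit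 0) (nat_lit 29212820082) (nat_lit 228) (nat_lit 2295199457) (nat_lit 304) (nat_lit 5307710174) (nat_lit 62) (nat_lit 5) (nat_lit 65) (nat_lit 5) (nat_lit 66) (nat_lit 5) (nat_lit 358) (nat_lit 298) (nat_lit 124)))) (XT.nd (nat_lit 78) (nat_lit 228) (nat_lit 0) (XT.lf (nat_lit 0) (nat_lit 417952203) (nat_lit 304) (nat_lit 28869536256) (nat_lit 76) (nat_lit 8301247590) (nat_lit 58) (nat_lit 5) (nat_lit 62) (nat_lit 5) (nat_lit 59) (nat_lit 5) (nat_lit 359) (nat_lit 298) (nat_lit 123)) (XT.nd (nat_lit 78) (nat_lit 228) (nat_lit 0) (XT.lf (nat_lit 0) (nat_lit 6305275709) (nat_lit 304) (nat_lit 12777375273) (nat_lit 76) (nat_lit 19297811223) (nat_lit 58) (nat_lit 5) (nat_lit 62) (nat_lit 5) (nat_lit 59) (nat_lit 5) (nat_lit 360) (nat_lit 298) (nat_lit 122)) (XT.lf (nat_lit 0) (nat_lit 3867649345) (nat_lit 228) (nat_lit 8535166823) (nat_lit 304) (nat_lit 26792119273) (nat_lit 55) (nat_lit 5) (nat_lit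 58) (nat_lit 5) (nat_lit 59) (nat_lit 5) (nat_lit 361) (nat_lit 298) (nat_lit 121))))) (XT.nd (nat_lit 234) (nat_lit 456) (nat_lit 0) (XT.nd (nat_lit 78) (nat_lit 228) (nat_lit 0) (XT.lf (nat_lit 0) (nat_lit 18832427022) (nat_lit 304) (nat_lit 18785098502) (nat_lit 76) (nat_lit 2411846143) (nat_lit 55) (nat_lit 5) (nat_lit 59) (nat_lit 5) (nat_lit 56) (nat_lit 5) (nat_lit 362) (nat_lit 298) (nat_lit 120)) (XT.nd (nat_lit 78) (nat_lit 228) (nat_lit 0) (XT.lf (nat_lit 0) (nat_lit 25535991021) (nat_lit 304) (nat_lit 1836406260) (nat_lit 76) (nat_lit 13514014782) (nat_lit 55) (nat_lit 5) (nat_lit 59) (nat_lit 5) (nat_lit 56) (nat_lit 5) (nat_lit 363) (nat_lit 298) (nat_lit 119)) (XT.lf (nat_lit 0) (nat_lit 15926427374) (nat_lit 228) (nat_lit 16663987592) (nat_lit 304) (nat_lit 9174259055) (nat_lit 52) (nat_lit 5) (nat_lit 55) (nat_lit 5) (nat_lit 56) (nat_lit 5) (nat_lit 364) (nat_lit 298) (nat_lit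 118)))) (XT.nd (nat_lit 156) (nat_lit 228) (nat_lit 0) (XT.nd (nat_lit 78) (nat_lit 228) (nat_lit 0) (XT.lf (nat_lit 0) (nat_lit 34254739221) (nat_lit 228) (nat_lit 5616983743) (nat_lit 304) (nat_lit 2797106186) (nat_lit 52) (nat_lit 5) (nat_lit 55) (nat_lit 5) (nat_lit 56) (nat_lit 5) (nat_lit 365) (nat_lit 298) (nat_lit 117)) (XT.lf (nat_lit 0) (nat_lit 3844237717) (nat_lit 228) (nat_lit 33972506813) (nat_lit 76) (nat_lit 5777885437) (nat_lit 49) (nat_lit 5) (nat_lit 52) (nat_lit 5) (nat_lit 50) (nat_lit 5) (nat_lit 366) (nat_lit 298) (nat_lit 116))) (XT.nd (nat_lit 78) (nat_lit 228) (nat_lit 0) (XT.lf (nat_lit 0) (nat_lit 10766822488) (nat_lit 228) (nat_lit 16262905570) (nat_lit 76) (nat_lit 17513501949) (nat_lit 49) (nat_lit 5) (nat_lit 52) (nat_lit 5) (nat_lit 50) (nat_lit 5) (nat_lit 367) (nat_lit 298) (nat_lit 115)) (XT.lf (nat_lit 0) (nat_lit 2012394623) (nat_lit 228) (nat_lit 15900926642)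 (nat_lit 304) (nat_lit 27606482224) (nat_lit 46) (nat_lit 5) (nat_lit 49) (nat_lit 5) (nat_lit 50) (nat_lit 5) (nat_lit 368) (nat_lit 298) (nat_lit 114))))))) (XT.nd (nat_lit 1014) (nat_lit 684) (nat_lit 0) (XT.nd (nat_lit 468) (nat_lit 532) (nat_lit 0) (XT.nd (nat_lit 234) (nat_lit 304) (nat_lit 0) (XT.nd (nat_lit 78) (nat_lit 152) (nat_lit 0) (XT.lf (nat_lit 0) (nat_lit 21164516921) (nat_lit 228) (nat_lit 4270857920) (nat_lit 304) (nat_lit 21085467003) (nat_lit 46) (nat_lit 5) (nat_lit 49) (nat_lit 5) (nat_lit 50) (nat_lit 5) (nat_lit 369) (nat_lit 298) (nat_lit 113)) (XT.nd (nat_lit 78) (nat_lit 152) (nat_lit 0) (XT.lf (nat_lit 0) (nat_lit 33254194425) (nat_lit 304) (nat_lit 6739549288) (nat_lit 76) (nat_lit 7556036894) (nat_lit 46) (nat_lit 5) (nat_lit 50) (nat_lit 5) (nat_lit 47) (nat_lit 5) (nat_lit 370) (nat_lit 298) (nat_lit 112)) (XT.lf (nat_lit 0) (nat_lit 12635398526) (nat_lit 152)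 (nat_lit 28833021385) (nat_lit 228) (nat_lit 7136344704) (nat_lit 44) (nat_lit 5) (nat_lit 46) (nat_lit 5) (nat_lit 47) (nat_lit 5) (nat_lit 371) (nat_lit 298) (nat_lit 111)))) (XT.nd (nat_lit 78) (nat_lit 228) (nat_lit 0) (XT.lf (nat_lit 0) (nat_lit 298872772) (nat_lit 228) (nat_lit 16967188125) (nat_lit 76) (nat_lit 32423295793) (nat_lit 43) (nat_lit 5) (nat_lit 46) (nat_lit 5) (nat_lit 44) (nat_lit 5) (nat_lit 372) (nat_lit 298) (nat_lit 110)) (XT.nd (nat_lit 78) (nat_lit 0) (nat_lit 0) (XT.lf (nat_lit 0) (nat_lit 2580261004) (nat_lit 228) (nat_lit 5255446199) (nat_lit 304) (nat_lit 42968001925) (nat_lit 40) (nat_lit 5) (nat_lit 43) (nat_lit 5) (nat_lit 44) (nat_lit 5) (nat_lit 373) (nat_lit 298) (nat_lit 109)) (XT.lf (nat_lit 0) (nat_lit 15837290670) (nat_lit 304) (nat_lit 28959015116) (nat_lit 76) (nat_lit 7148029096) (nat_lit 40) (nat_lit 5) (nat_lit 44) (nat_lit 5) (nat_lit 41) (nat_lit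 5) (nat_lit 374) (nat_lit 298) (nat_lit 108))))) (XT.nd (nat_lit 234) (nat_lit 380) (nat_lit 0) (XT.nd (nat_lit 78) (nat_lit 152) (nat_lit 0) (XT.lf (nat_lit 0) (nat_lit 24128250777) (nat_lit 304) (nat_lit 9173064366) (nat_lit 76) (nat_lit 19816386391) (nat_lit 40) (nat_lit 5) (nat_lit 44) (nat_lit 5) (nat_lit 41) (nat_lit 5) (nat_lit 375) (nat_lit 298) (nat_lit 107)) (XT.nd (nat_lit 78) (nat_lit 0) (nat_lit 0) (XT.lf (nat_lit 0) (nat_lit 11425157353) (nat_lit 152) (nat_lit 21349981740) (nat_lit 228) (nat_lit 21547916056) (nat_lit 38) (nat_lit 5) (nat_lit 40) (nat_lit 5) (nat_lit 41) (nat_lit 5) (nat_lit 376) (nat_lit 298) (nat_lit 106)) (XT.lf (nat_lit 0) (nat_lit 32825152729) (nat_lit 152) (nat_lit 8946321100) (nat_lit 228) (nat_lit 13790396236) (nat_lit 38) (nat_lit 5) (nat_lit 40) (nat_lit 5) (nat_lit 41) (nat_lit 5) (nat_lit 377) (nat_lit 298) (nat_lit 105)))) (XT.nd (nat_lit 156) (nat_lit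 152) (nat_lit 0) (XT.nd (nat_lit 78) (nat_lit 228) (nat_lit 0) (XT.lf (nat_lit 0) (nat_lit 51071979733) (nat_lit 228) (nat_lit 2011663761) (nat_lit 76) (nat_lit 3753179333) (nat_lit 38) (nat_lit 5) (nat_lit 41) (nat_lit 5) (nat_lit 39) (nat_lit 5) (nat_lit 378) (nat_lit 298) (nat_lit 104)) (XT.lf (nat_lit 0) (nat_lit 2730156137) (nat_lit 228) (nat_lit 38543051224) (nat_lit 76) (nat_lit 16867772397) (nat_lit 35) (nat_lit 5) (nat_lit 38) (nat_lit 5) (nat_lit 36) (nat_lit 5) (nat_lit 379) (nat_lit 298) (nat_lit 103))) (XT.nd (nat_lit 78) (nat_lit 152) (nat_lit 0) (XT.lf (nat_lit 0) (nat_lit 11382203990) (nat_lit 228) (nat_lit 17647926302) (nat_lit 76) (nat_lit 30451878462) (nat_lit 35) (nat_lit 5) (nat_lit 38) (nat_lit 5) (nat_lit 36) (nat_lit 5) (nat_lit 380) (nat_lit 298) (nat_lit 102)) (XT.lf (nat_lit 0) (nat_lit 3947151952) (nat_lit 152) (nat_lit 16382226382) (nat_lit 228) (nat_lit 40532824961)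 (nat_lit 33) (nat_lit 5) (nat_lit 35) (nat_lit 5) (nat_lit 36) (nat_lit 5) (nat_lit 381) (nat_lit 298) (nat_lit 101)))))) (XT.nd (nat_lit 468) (nat_lit 304) (nat_lit 0) (XT.nd (nat_lit 234) (nat_lit 228) (nat_lit 0) (XT.nd (nat_lit 78) (nat_lit 152) (nat_lit 0) (XT.lf (nat_lit 0) (nat_lit 26547962641) (nat_lit 152) (nat_lit 3172869236) (nat_lit 228) (nat_lit 32557697458) (nat_lit 33) (nat_lit 5) (nat_lit 35) (nat_lit 5) (nat_lit 36) (nat_lit 5) (nat_lit 382) (nat_lit 298) (nat_lit 100)) (XT.nd (nat_lit 78) (nat_lit 152) (nat_lit 0) (XT.lf (nat_lit 0) (nat_lit 39492023641) (nat_lit 228) (nat_lit 14014661082) (nat_lit 76) (nat_lit 10227722128) (nat_lit 33) (nat_lit 5) (nat_lit 36) (nat_lit 5) (nat_lit 34) (nat_lit 5) (nat_lit 383) (nat_lit 298) (nat_lit 99)) (XT.lf (nat_lit 0) (nat_lit 8483127581) (nat_lit 152) (nat_lit 41183958342) (nat_lit 228) (nat_lit 15563554217) (nat_lit 31) (nat_lit 5)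 (nat_lit 33) (nat_lit 5) (nat_lit 34) (nat_lit 5) (nat_lit 384) (nat_lit 298) (nat_lit 98)))) (XT.nd (nat_lit 78) (nat_lit 228) (nat_lit 0) (XT.lf (nat_lit 0) (nat_lit 31939457204) (nat_lit 152) (nat_lit 28347268102) (nat_lit 228) (nat_lit 6480856810) (nat_lit 31) (nat_lit 5) (nat_lit 33) (nat_lit 5) (nat_lit 34) (nat_lit 5) (nat_lit 385) (nat_lit 298) (nat_lit 97)) (XT.nd (nat_lit 78) (nat_lit 152) (nat_lit 0) (XT.lf (nat_lit 0) (nat_lit 2816079252) (nat_lit 228) (nat_lit 12282401945) (nat_lit 76) (nat_lit 53251388242) (nat_lit 30) (nat_lit 5) (nat_lit 33) (nat_lit 5) (nat_lit 31) (nat_lit 5) (nat_lit 386) (nat_lit 298) (nat_lit 96)) (XT.lf (nat_lit 0) (nat_lit 11088388982) (nat_lit 152) (nat_lit 1277772820) (nat_lit 228) (nat_lit 57608404980) (nat_lit 28) (nat_lit 5) (nat_lit 30) (nat_lit 5) (nat_lit 31) (nat_lit 5) (nat_lit 387) (nat_lit 298) (nat_lit 95))))) (XT.nd (nat_lit 234) (nat_lit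 152) (nat_lit 0) (XT.nd (nat_lit 78) (nat_lit 152) (nat_lit 0) (XT.lf (nat_lit 0) (nat_lit 22450481706) (nat_lit 228) (nat_lit 36361513752) (nat_lit 76) (nat_lit 12828578826) (nat_lit 28) (nat_lit 5) (nat_lit 31) (nat_lit 5) (nat_lit 29) (nat_lit 5) (nat_lit 388) (nat_lit 298) (nat_lit 94)) (XT.nd (nat_lit 78) (nat_lit 152) (nat_lit 0) (XT.lf (nat_lit 0) (nat_lit 32847965663) (nat_lit 228) (nat_lit 13177184710) (nat_lit 76) (nat_lit 27331093852) (nat_lit 28) (nat_lit 5) (nat_lit 31) (nat_lit 5) (nat_lit 29) (nat_lit 5) (nat_lit 389) (nat_lit 298) (nat_lit 93)) (XT.lf (nat_lit 0) (nat_lit 10912288259) (nat_lit 152) (nat_lit 32748023449) (nat_lit 228) (nat_lit 31459985640) (nat_lit 26) (nat_lit 5) (nat_lit 28) (nat_lit 5) (nat_lit 29) (nat_lit 5) (nat_lit 390) (nat_lit 298) (nat_lit 92)))) (XT.nd (nat_lit 156) (nat_lit 152) (nat_lit 0) (XT.nd (nat_lit 78) (nat_lit 0) (nat_lit 0) (XT.lf (nat_lit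 0) (nat_lit 35991273381) (nat_lit 152) (nat_lit 18936885851) (nat_lit 228) (nat_lit 22005180074) (nat_lit 26) (nat_lit 5) (nat_lit 28) (nat_lit 5) (nat_lit 29) (nat_lit 5) (nat_lit 391) (nat_lit 298) (nat_lit 91)) (XT.lf (nat_lit 0) (nat_lit 61819432519) (nat_lit 152) (nat_lit 4712733324) (nat_lit 228) (nat_lit 12268664113) (nat_lit 26) (nat_lit 5) (nat_lit 28) (nat_lit 5) (nat_lit 29) (nat_lit 5) (nat_lit 392) (nat_lit 298) (nat_lit 90))) (XT.nd (nat_lit 78) (nat_lit 76) (nat_lit 0) (XT.lf (nat_lit 0) (nat_lit 7750656908) (nat_lit 76) (nat_lit 70901837317) (nat_lit 152) (nat_lit 2066806161) (nat_lit 25) (nat_lit 5) (nat_lit 26) (nat_lit 5) (nat_lit 27) (nat_lit 4) (nat_lit 393) (nat_lit 298) (nat_lit 89)) (XT.lf (nat_lit 0) (nat_lit 8494398962) (nat_lit 152) (nat_lit 49250057831) (nat_lit 76) (nat_lit 24941894714) (nat_lit 24) (nat_lit 5) (nat_lit 26) (nat_lit 5) (nat_lit 25) (nat_lit 5) (nat_lit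 394) (nat_lit 298) (nat_lit 88))))))))
noncomputable def xc197 : XT := (XT.nd (nat_lit 2028) (nat_lit 5396) (nat_lit 0) (XT.nd (nat_lit 1014) (nat_lit 2584) (nat_lit 0) (XT.nd (nat_lit 468) (nat_lit 912) (nat_lit 0) (XT.nd (nat_lit 234) (nat_lit 0) (nat_lit 76) (XT.nd (nat_lit 78) (nat_lit 0) (nat_lit 0) (XT.lf (nat_lit 0) (nat_lit 4246885278) (nat_lit 1140) (nat_lit 1185364828) (nat_lit 1140) (nat_lit 1185364828) (nat_lit 190) (nat_lit 3) (nat_lit 205) (nat_lit 3) (nat_lit 205) (nat_lit 5) (nat_lit 299) (nat_lit 299) (nat_lit 182)) (XT.nd (nat_lit 78) (nat_lit 0) (nat_lit 76) (XT.lf (nat_lit 76) (nat_lit 3557118958) (nat_lit 0) (nat_lit 5457294989) (nat_lit 1140) (nat_lit 4406968261) (nat_lit 191) (nat_lit 5) (nat_lit 190) (nat_lit 3) (nat_lit 205) (nat_lit 5) (nat_lit 300) (nat_lit 299) (nat_lit 181)) (XT.lf (nat_lit 0) (nat_lit 9561912404) (nat_lit 1064) (nat_lit 3910196296) (nat_lit 1140)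 (nat_lit 140695942) (nat_lit 191) (nat_lit 5) (nat_lit 205) (nat_lit 5) (nat_lit 206) (nat_lit 5) (nat_lit 301) (nat_lit 299) (nat_lit 180)))) (XT.nd (nat_lit 78) (nat_lit 0) (nat_lit 0) (XT.lf (nat_lit 76) (nat_lit 2203812737) (nat_lit 0) (nat_lit 7983629600) (nat_lit 1140) (nat_lit 3620701154) (nat_lit 192) (nat_lit 5) (nat_lit 191) (nat_lit 5) (nat_lit 206) (nat_lit 5) (nat_lit 302) (nat_lit 299) (nat_lit 179)) (XT.nd (nat_lit 78) (nat_lit 0) (nat_lit 76) (XT.lf (nat_lit 76) (nat_lit 8573820616) (nat_lit 0) (nat_lit 2284115962) (nat_lit 1140) (nat_lit 3150641274) (nat_lit 192) (nat_lit 5) (nat_lit 191) (nat_lit 5) (nat_lit 206) (nat_lit 5) (nat_lit 303) (nat_lit 299) (nat_lit 178)) (XT.lf (nat_lit 76) (nat_lit 895078272) (nat_lit 0) (nat_lit 10683699308) (nat_lit 1140) (nat_lit 2635361388) (nat_lit 193) (nat_lit 5) (nat_lit 192) (nat_lit 5) (nat_lit 207) (nat_lit 5) (nat_lit 304) (nat_lit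 299) (nat_lit 177))))) (XT.nd (nat_lit 234) (nat_lit 1064) (nat_lit 0) (XT.nd (nat_lit 78) (nat_lit 0) (nat_lit 76) (XT.lf (nat_lit 76) (nat_lit 7495410681) (nat_lit 0) (nat_lit 4890559969) (nat_lit 1140) (nat_lit 2037974538) (nat_lit 193) (nat_lit 5) (nat_lit 192) (nat_lit 5) (nat_lit 207) (nat_lit 5) (nat_lit 305) (nat_lit 299) (nat_lit 176)) (XT.nd (nat_lit 78) (nat_lit 0) (nat_lit 0) (XT.lf (nat_lit 0) (nat_lit 13215589726) (nat_lit 1064) (nat_lit 364583910) (nat_lit 1140) (nat_lit 1059945143) (nat_lit 193) (nat_lit 5) (nat_lit 207) (nat_lit 5) (nat_lit 208) (nat_lit 5) (nat_lit 306) (nat_lit 299) (nat_lit 175)) (XT.lf (nat_lit 76) (nat_lit 6466332026) (nat_lit 0) (nat_lit 7702562019) (nat_lit 1140) (nat_lit 690938559) (nat_lit 194) (nat_lit 5) (nat_lit 193) (nat_lit 5) (nat_lit 208) (nat_lit 5) (nat_lit 307) (nat_lit 299) (nat_lit 174)))) (XT.nd (nat_lit 156) (nat_lit 0) (nat_lit 76) (XT.nd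 (nat_lit 78) (nat_lit 0) (nat_lit 76) (XT.lf (nat_lit 0) (nat_lit 55470656) (nat_lit 1140) (nat_lit 1584923545) (nat_lit 1216) (nat_lit 13445980652) (nat_lit 178) (nat_lit 5) (nat_lit 193) (nat_lit 5) (nat_lit 194) (nat_lit 5) (nat_lit 308) (nat_lit 299) (nat_lit 173)) (XT.lf (nat_lit 0) (nat_lit 897032804) (nat_lit 1140) (nat_lit 9842003865) (nat_lit 1216) (nat_lit 4577889354) (nat_lit 179) (nat_lit 5) (nat_lit 194) (nat_lit 5) (nat_lit 195) (nat_lit 5) (nat_lit 309) (nat_lit 299) (nat_lit 172))) (XT.nd (nat_lit 78) (nat_lit 0) (nat_lit 76) (XT.lf (nat_lit 0) (nat_lit 1785230071) (nat_lit 1140) (nat_lit 2799225005) (nat_lit 1216) (nat_lit 10969313818) (nat_lit 179) (nat_lit 5) (nat_lit 194) (nat_lit 5) (nat_lit 195) (nat_lit 5) (nat_lit 310) (nat_lit 299) (nat_lit 171)) (XT.lf (nat_lit 0) (nat_lit 2750304862) (nat_lit 1140) (nat_lit 11278463040) (nat_lit 1216) (nat_lit 1767458527) (nat_lit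 180) (nat_lit 5) (nat_lit 195) (nat_lit 5) (nat_lit 196) (nat_lit 5) (nat_lit 311) (nat_lit 299) (nat_lit 170)))))) (XT.nd (nat_lit 468) (nat_lit 1748) (nat_lit 0) (XT.nd (nat_lit 234) (nat_lit 988) (nat_lit 0) (XT.nd (nat_lit 78) (nat_lit 0) (nat_lit 0) (XT.lf (nat_lit 0) (nat_lit 3807838452) (nat_lit 1140) (nat_lit 3987150174) (nat_lit 1216) (nat_lit 8249079715) (nat_lit 180) (nat_lit 5) (nat_lit 195) (nat_lit 5) (nat_lit 196) (nat_lit 5) (nat_lit 312) (nat_lit 299) (nat_lit 169)) (XT.nd (nat_lit 78) (nat_lit 0) (nat_lit 76) (XT.lf (nat_lit 76) (nat_lit 3585080517) (nat_lit 0) (nat_lit 1336352686) (nat_lit 1216) (nat_lit 11377197641) (nat_lit 181) (nat_lit 5) (nat_lit 180) (nat_lit 5) (nat_lit 196) (nat_lit 5) (nat_lit 313) (nat_lit 299) (nat_lit 168)) (XT.lf (nat_lit 0) (nat_lit 6150313134) (nat_lit 1140) (nat_lit 5152947658) (nat_lit 1216) (nat_lit 5255128050) (nat_lit 181) (nat_lit 5) (nat_lit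 196) (nat_lit 5) (nat_lit 197) (nat_lit 5) (nat_lit 314) (nat_lit 299) (nat_lit 167)))) (XT.nd (nat_lit 78) (nat_lit 1064) (nat_lit 0) (XT.lf (nat_lit 76) (nat_lit 2665452101) (nat_lit 0) (nat_lit 4779863687) (nat_lit 1216) (nat_lit 9379760606) (nat_lit 182) (nat_lit 5) (nat_lit 181) (nat_lit 5) (nat_lit 197) (nat_lit 5) (nat_lit 315) (nat_lit 299) (nat_lit 166)) (XT.nd (nat_lit 78) (nat_lit 1140) (nat_lit 0) (XT.lf (nat_lit 0) (nat_lit 8840983921) (nat_lit 1140) (nat_lit 6301363310) (nat_lit 76) (nat_lit 1955576960) (nat_lit 182) (nat_lit 5) (nat_lit 197) (nat_lit 5) (nat_lit 183) (nat_lit 5) (nat_lit 316) (nat_lit 299) (nat_lit 165)) (XT.lf (nat_lit 0) (nat_lit 1772096518) (nat_lit 1140) (nat_lit 8561682934) (nat_lit 1216) (nat_lit 7043533921) (nat_lit 167) (nat_lit 5) (nat_lit 182) (nat_lit 5) (nat_lit 183) (nat_lit 5) (nat_lit 317) (nat_lit 299) (nat_lit 164))))) (XT.nd (nat_lit 234) (nat_lit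 1216) (nat_lit 0) (XT.nd (nat_lit 78) (nat_lit 532) (nat_lit 0) (XT.lf (nat_lit 0) (nat_lit 10209204829) (nat_lit 1140) (nat_lit 1716873775) (nat_lit 1216) (nat_lit 5737377308) (nat_lit 167) (nat_lit 5) (nat_lit 182) (nat_lit 5) (nat_lit 183) (nat_lit 5) (nat_lit 318) (nat_lit 299) (nat_lit 163)) (XT.nd (nat_lit 78) (nat_lit 0) (nat_lit 0) (XT.lf (nat_lit 0) (nat_lit 899748728) (nat_lit 532) (nat_lit 12717672642) (nat_lit 608) (nat_lit 4339236004) (nat_lit 160) (nat_lit 5) (nat_lit 167) (nat_lit 5) (nat_lit 168) (nat_lit 5) (nat_lit 319) (nat_lit 299) (nat_lit 162)) (XT.lf (nat_lit 0) (nat_lit 9632127118) (nat_lit 532) (nat_lit 5811019250) (nat_lit 608) (nat_lit 2813011764) (nat_lit 160) (nat_lit 5) (nat_lit 167) (nat_lit 5) (nat_lit 168) (nat_lit 5) (nat_lit 320) (nat_lit 299) (nat_lit 161)))) (XT.nd (nat_lit 156) (nat_lit 532) (nat_lit 0) (XT.nd (nat_lit 78) (nat_lit 76) (nat_lit 0) (XT.lf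 (nat_lit 0) (nat_lit 42386061) (nat_lit 608) (nat_lit 17285978213) (nat_lit 684) (nat_lit 1236150152) (nat_lit 152) (nat_lit 5) (nat_lit 160) (nat_lit 5) (nat_lit 161) (nat_lit 5) (nat_lit 321) (nat_lit 299) (nat_lit 160)) (XT.lf (nat_lit 0) (nat_lit 517792797) (nat_lit 684) (nat_lit 9803903679) (nat_lit 76) (nat_lit 8556204073) (nat_lit 151) (nat_lit 5) (nat_lit 160) (nat_lit 5) (nat_lit 152) (nat_lit 5) (nat_lit 322) (nat_lit 299) (nat_lit 159))) (XT.nd (nat_lit 78) (nat_lit 532) (nat_lit 0) (XT.lf (nat_lit 0) (nat_lit 2291609829) (nat_lit 684) (nat_lit 843990525) (nat_lit 76) (nat_lit 16064968811) (nat_lit 151) (nat_lit 5) (nat_lit 160) (nat_lit 5) (nat_lit 152) (nat_lit 5) (nat_lit 323) (nat_lit 299) (nat_lit 158)) (XT.lf (nat_lit 0) (nat_lit 4234927178) (nat_lit 608) (nat_lit 11028470787) (nat_lit 76) (nat_lit 4266042091) (nat_lit 144) (nat_lit 5) (nat_lit 152) (nat_lit 5) (nat_lit 145)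 (nat_lit 5) (nat_lit 324) (nat_lit 299) (nat_lit 157))))))) (XT.nd (nat_lit 1014) (nat_lit 2584) (nat_lit 0) (XT.nd (nat_lit 468) (nat_lit 1368) (nat_lit 0) (XT.nd (nat_lit 234) (nat_lit 912) (nat_lit 0) (XT.nd (nat_lit 78) (nat_lit 532) (nat_lit 0) (XT.lf (nat_lit 0) (nat_lit 6268682666) (nat_lit 608) (nat_lit 1763035000) (nat_lit 76) (nat_lit 11835505727) (nat_lit 144) (nat_lit 5) (nat_lit 152) (nat_lit 5) (nat_lit 145) (nat_lit 5) (nat_lit 325) (nat_lit 299) (nat_lit 156)) (XT.nd (nat_lit 78) (nat_lit 0) (nat_lit 0) (XT.lf (nat_lit 0) (nat_lit 7927719988) (nat_lit 532) (nat_lit 504641816) (nat_lit 608) (nat_lit 11780721269) (nat_lit 137) (nat_lit 5) (nat_lit 144) (nat_lit 5) (nat_lit 145) (nat_lit 5) (nat_lit 326) (nat_lit 299) (nat_lit 155)) (XT.lf (nat_lit 0) (nat_lit 10741451713) (nat_lit 608) (nat_lit 2700790762) (nat_lit 76) (nat_lit 7124670934) (nat_lit 137) (nat_lit 5) (nat_lit 145)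 (nat_lit 5) (nat_lit 138) (nat_lit 5) (nat_lit 327) (nat_lit 299) (nat_lit 154)))) (XT.nd (nat_lit 78) (nat_lit 456) (nat_lit 0) (XT.lf (nat_lit 0) (nat_lit 7301526028) (nat_lit 456) (nat_lit 5886526190) (nat_lit 532) (nat_lit 7741268889) (nat_lit 131) (nat_lit 5) (nat_lit 137) (nat_lit 5) (nat_lit 138) (nat_lit 5) (nat_lit 328) (nat_lit 299) (nat_lit 153)) (XT.nd (nat_lit 78) (nat_lit 456) (nat_lit 0) (XT.lf (nat_lit 0) (nat_lit 15747001624) (nat_lit 532) (nat_lit 3668415084) (nat_lit 76) (nat_lit 1886025111) (nat_lit 131) (nat_lit 5) (nat_lit 138) (nat_lit 5) (nat_lit 132) (nat_lit 5) (nat_lit 329) (nat_lit 299) (nat_lit 152)) (XT.lf (nat_lit 0) (nat_lit 6654111590) (nat_lit 456) (nat_lit 11844236260) (nat_lit 532) (nat_lit 3182918491) (nat_lit 125) (nat_lit 5) (nat_lit 131) (nat_lit 5) (nat_lit 132) (nat_lit 5) (nat_lit 330) (nat_lit 299) (nat_lit 151))))) (XT.nd (nat_lit 234) (nat_lit 836)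 (nat_lit 0) (XT.nd (nat_lit 78) (nat_lit 532) (nat_lit 0) (XT.lf (nat_lit 0) (nat_lit 17354385579) (nat_lit 456) (nat_lit 4008399424) (nat_lit 532) (nat_lit 708792854) (nat_lit 125) (nat_lit 5) (nat_lit 131) (nat_lit 5) (nat_lit 132) (nat_lit 5) (nat_lit 331) (nat_lit 299) (nat_lit 150)) (XT.nd (nat_lit 78) (nat_lit 0) (nat_lit 0) (XT.lf (nat_lit 0) (nat_lit 1894696566) (nat_lit 532) (nat_lit 16517027933) (nat_lit 76) (nat_lit 4058620911) (nat_lit 118) (nat_lit 5) (nat_lit 125) (nat_lit 5) (nat_lit 119) (nat_lit 5) (nat_lit 332) (nat_lit 299) (nat_lit 149)) (XT.lf (nat_lit 0) (nat_lit 4643574385) (nat_lit 532) (nat_lit 5893357610) (nat_lit 76) (nat_lit 12341495600) (nat_lit 118) (nat_lit 5) (nat_lit 125) (nat_lit 5) (nat_lit 119) (nat_lit 5) (nat_lit 333) (nat_lit 299) (nat_lit 148)))) (XT.nd (nat_lit 156) (nat_lit 380) (nat_lit 0) (XT.nd (nat_lit 78) (nat_lit 0) (nat_lit 0) (XT.lf (nat_lit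 0) (nat_lit 5142404121) (nat_lit 456) (nat_lit 2375865388) (nat_lit 532) (nat_lit 15779190005) (nat_lit 112) (nat_lit 5) (nat_lit 118) (nat_lit 5) (nat_lit 119) (nat_lit 5) (nat_lit 334) (nat_lit 299) (nat_lit 147)) (XT.lf (nat_lit 0) (nat_lit 10591291373) (nat_lit 532) (nat_lit 7162858882) (nat_lit 76) (nat_lit 5971557128) (nat_lit 112) (nat_lit 5) (nat_lit 119) (nat_lit 5) (nat_lit 113) (nat_lit 5) (nat_lit 335) (nat_lit 299) (nat_lit 146))) (XT.nd (nat_lit 78) (nat_lit 0) (nat_lit 0) (XT.lf (nat_lit 0) (nat_lit 4210880620) (nat_lit 380) (nat_lit 9603819340) (nat_lit 456) (nat_lit 10350364196) (nat_lit 107) (nat_lit 5) (nat_lit 112) (nat_lit 5) (nat_lit 113) (nat_lit 5) (nat_lit 336) (nat_lit 299) (nat_lit 145)) (XT.lf (nat_lit 0) (nat_lit 16065862302) (nat_lit 380) (nat_lit 1135578112) (nat_lit 456) (nat_lit 7414169463) (nat_lit 107) (nat_lit 5) (nat_lit 112) (nat_lit 5) (nat_lit 113) (nat_lit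 5) (nat_lit 337) (nat_lit 299) (nat_lit 144)))))) (XT.nd (nat_lit 546) (nat_lit 1368) (nat_lit 0) (XT.nd (nat_lit 234) (nat_lit 380) (nat_lit 0) (XT.nd (nat_lit 78) (nat_lit 456) (nat_lit 0) (XT.lf (nat_lit 0) (nat_lit 3179164106) (nat_lit 380) (nat_lit 17608561716) (nat_lit 456) (nat_lit 4289014795) (nat_lit 102) (nat_lit 5) (nat_lit 107) (nat_lit 5) (nat_lit 108) (nat_lit 5) (nat_lit 338) (nat_lit 299) (nat_lit 143)) (XT.nd (nat_lit 78) (nat_lit 456) (nat_lit 0) (XT.lf (nat_lit 0) (nat_lit 15417037606) (nat_lit 380) (nat_lit 9156582670) (nat_lit 456) (nat_lit 975331112) (nat_lit 102) (nat_lit 5) (nat_lit 107) (nat_lit 5) (nat_lit 108) (nat_lit 5) (nat_lit 339) (nat_lit 299) (nat_lit 142)) (XT.lf (nat_lit 0) (nat_lit 1995609584) (nat_lit 380) (nat_lit 408418573) (nat_lit 456) (nat_lit 23630188629) (nat_lit 96) (nat_lit 5) (nat_lit 101) (nat_lit 5) (nat_lit 102) (nat_lit 5) (nat_lit 340) (nat_lit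 299) (nat_lit 141)))) (XT.nd (nat_lit 156) (nat_lit 0) (nat_lit 0) (XT.nd (nat_lit 78) (nat_lit 380) (nat_lit 0) (XT.lf (nat_lit 0) (nat_lit 6045911909) (nat_lit 456) (nat_lit 11936381059) (nat_lit 76) (nat_lit 8546041223) (nat_lit 96) (nat_lit 5) (nat_lit 102) (nat_lit 5) (nat_lit 97) (nat_lit 5) (nat_lit 341) (nat_lit 299) (nat_lit 140)) (XT.lf (nat_lit 0) (nat_lit 528675767) (nat_lit 380) (nat_lit 9272387467) (nat_lit 456) (nat_lit 17236097529) (nat_lit 91) (nat_lit 5) (nat_lit 96) (nat_lit 5) (nat_lit 97) (nat_lit 5) (nat_lit 342) (nat_lit 299) (nat_lit 139))) (XT.nd (nat_lit 78) (nat_lit 0) (nat_lit 0) (XT.lf (nat_lit 0) (nat_lit 13605923498) (nat_lit 380) (nat_lit 178452019) (nat_lit 456) (nat_lit 13773417222) (nat_lit 91) (nat_lit 5) (nat_lit 96) (nat_lit 5) (nat_lit 97) (nat_lit 5) (nat_lit 343) (nat_lit 299) (nat_lit 138)) (XT.lf (nat_lit 0) (nat_lit 17970616330) (nat_lit 456) (nat_lit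 1113274626) (nat_lit 76) (nat_lit 9007655479) (nat_lit 91) (nat_lit 5) (nat_lit 97) (nat_lit 5) (nat_lit 92) (nat_lit 5) (nat_lit 344) (nat_lit 299) (nat_lit 137))))) (XT.nd (nat_lit 234) (nat_lit 608) (nat_lit 0) (XT.nd (nat_lit 78) (nat_lit 456) (nat_lit 0) (XT.lf (nat_lit 0) (nat_lit 12343364739) (nat_lit 304) (nat_lit 10054746590) (nat_lit 380) (nat_lit 6239736870) (nat_lit 87) (nat_lit 5) (nat_lit 91) (nat_lit 5) (nat_lit 92) (nat_lit 5) (nat_lit 345) (nat_lit 299) (nat_lit 136)) (XT.nd (nat_lit 78) (nat_lit 456) (nat_lit 0) (XT.lf (nat_lit 0) (nat_lit 26220375461) (nat_lit 304) (nat_lit 744625047) (nat_lit 380) (nat_lit 2235346739) (nat_lit 87) (nat_lit 5) (nat_lit 91) (nat_lit 5) (nat_lit 92) (nat_lit 5) (nat_lit 346) (nat_lit 299) (nat_lit 135)) (XT.lf (nat_lit 0) (nat_lit 2038948375) (nat_lit 456) (nat_lit 18939501638) (nat_lit 76) (nat_lit 8795132321) (nat_lit 81) (nat_lit 5) (nat_lit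 87) (nat_lit 5) (nat_lit 82) (nat_lit 5) (nat_lit 347) (nat_lit 299) (nat_lit 134)))) (XT.nd (nat_lit 156) (nat_lit 304) (nat_lit 0) (XT.nd (nat_lit 78) (nat_lit 304) (nat_lit 0) (XT.lf (nat_lit 0) (nat_lit 6429781452) (nat_lit 456) (nat_lit 5275405454) (nat_lit 76) (nat_lit 18657171344) (nat_lit 81) (nat_lit 5) (nat_lit 87) (nat_lit 5) (nat_lit 82) (nat_lit 5) (nat_lit 348) (nat_lit 299) (nat_lit 133)) (XT.lf (nat_lit 0) (nat_lit 8967651021) (nat_lit 304) (nat_lit 2066497870) (nat_lit 380) (nat_lit 19932198987) (nat_lit 77) (nat_lit 5) (nat_lit 81) (nat_lit 5) (nat_lit 82) (nat_lit 5) (nat_lit 349) (nat_lit 299) (nat_lit 132))) (XT.nd (nat_lit 78) (nat_lit 304) (nat_lit 0) (XT.lf (nat_lit 0) (nat_lit 15901677150) (nat_lit 380) (nat_lit 7922829295) (nat_lit 76) (nat_lit 7760204436) (nat_lit 77) (nat_lit 5) (nat_lit 82) (nat_lit 5) (nat_lit 78) (nat_lit 5) (nat_lit 350) (nat_lit 299) (nat_lit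 131)) (XT.lf (nat_lit 0) (nat_lit 6679352825) (nat_lit 304) (nat_lit 14316334137) (nat_lit 380) (nat_lit 11223528587) (nat_lit 73) (nat_lit 5) (nat_lit 77) (nat_lit 5) (nat_lit 78) (nat_lit 5) (nat_lit 351) (nat_lit 299) (nat_lit 130))))))))
noncomputable def xc198 : XT := (XT.nd (nat_lit 2028) (nat_lit 988) (nat_lit 0) (XT.nd (nat_lit 1014) (nat_lit 1292) (nat_lit 0) (XT.nd (nat_lit 468) (nat_lit 760) (nat_lit 0) (XT.nd (nat_lit 234) (nat_lit 304) (nat_lit 0) (XT.nd (nat_lit 78) (nat_lit 304) (nat_lit 0) (XT.lf (nat_lit 0) (nat_lit 21876228564) (nat_lit 304) (nat_lit 4442149911) (nat_lit 380) (nat_lit 6552105357) (nat_lit 73) (nat_lit 5) (nat_lit 77) (nat_lit 5) (nat_lit 78) (nat_lit 5) (nat_lit 352) (nat_lit 299) (nat_lit 129)) (XT.nd (nat_lit 78) (nat_lit 76) (nat_lit 0) (XT.lf (nat_lit 0) (nat_lit 4005087295) (nat_lit 228) (nat_lit 27885188088) (nat_lit 304) (nat_lit 1648333232) (nat_lit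 70) (nat_lit 5) (nat_lit 73) (nat_lit 5) (nat_lit 74) (nat_lit 5) (nat_lit 353) (nat_lit 299) (nat_lit 128)) (XT.lf (nat_lit 0) (nat_lit 3488238884) (nat_lit 304) (nat_lit 14627204317) (nat_lit 76) (nat_lit 16105794182) (nat_lit 69) (nat_lit 5) (nat_lit 73) (nat_lit 5) (nat_lit 70) (nat_lit 5) (nat_lit 354) (nat_lit 299) (nat_lit 127)))) (XT.nd (nat_lit 78) (nat_lit 0) (nat_lit 0) (XT.lf (nat_lit 0) (nat_lit 718417412) (nat_lit 304) (nat_lit 8030365354) (nat_lit 380) (nat_lit 26174986346) (nat_lit 65) (nat_lit 5) (nat_lit 69) (nat_lit 5) (nat_lit 70) (nat_lit 5) (nat_lit 355) (nat_lit 299) (nat_lit 126)) (XT.nd (nat_lit 78) (nat_lit 0) (nat_lit 0) (XT.lf (nat_lit 0) (nat_lit 14335113818) (nat_lit 380) (nat_lit 18848447926) (nat_lit 76) (nat_lit 2458779647) (nat_lit 65) (nat_lit 5) (nat_lit 70) (nat_lit 5) (nat_lit 66) (nat_lit 5) (nat_lit 356) (nat_lit 299) (nat_lit 125)) (XT.lf (nat_lit 0)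 (nat_lit 20164798575) (nat_lit 380) (nat_lit 3115813131) (nat_lit 76) (nat_lit 13099589835) (nat_lit 65) (nat_lit 5) (nat_lit 70) (nat_lit 5) (nat_lit 66) (nat_lit 5) (nat_lit 357) (nat_lit 299) (nat_lit 124))))) (XT.nd (nat_lit 234) (nat_lit 228) (nat_lit 0) (XT.nd (nat_lit 78) (nat_lit 304) (nat_lit 0) (XT.lf (nat_lit 0) (nat_lit 13343879585) (nat_lit 228) (nat_lit 12950128099) (nat_lit 304) (nat_lit 10842454305) (nat_lit 62) (nat_lit 5) (nat_lit 65) (nat_lit 5) (nat_lit 66) (nat_lit 5) (nat_lit 358) (nat_lit 299) (nat_lit 123)) (XT.nd (nat_lit 78) (nat_lit 304) (nat_lit 0) (XT.lf (nat_lit 0) (nat_lit 30355977965) (nat_lit 228) (nat_lit 2278998353) (nat_lit 304) (nat_lit 5279600846) (nat_lit 62) (nat_lit 5) (nat_lit 65) (nat_lit 5) (nat_lit 66) (nat_lit 5) (nat_lit 359) (nat_lit 299) (nat_lit 122)) (XT.lf (nat_lit 0) (nat_lit 612237925) (nat_lit 304) (nat_lit 29462924641) (nat_lit 76) (nat_lit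 8635620122) (nat_lit 58) (nat_lit 5) (nat_lit 62) (nat_lit 5) (nat_lit 59) (nat_lit 5) (nat_lit 360) (nat_lit 299) (nat_lit 121)))) (XT.nd (nat_lit 156) (nat_lit 0) (nat_lit 0) (XT.nd (nat_lit 78) (nat_lit 228) (nat_lit 0) (XT.lf (nat_lit 0) (nat_lit 6670887530) (nat_lit 304) (nat_lit 12895941480) (nat_lit 76) (nat_lit 19959595175) (nat_lit 58) (nat_lit 5) (nat_lit 62) (nat_lit 5) (nat_lit 59) (nat_lit 5) (nat_lit 361) (nat_lit 299) (nat_lit 120)) (XT.lf (nat_lit 0) (nat_lit 4245838239) (nat_lit 228) (nat_lit 8702896577) (nat_lit 304) (nat_lit 27416679995) (nat_lit 55) (nat_lit 5) (nat_lit 58) (nat_lit 5) (nat_lit 59) (nat_lit 5) (nat_lit 362) (nat_lit 299) (nat_lit 119))) (XT.nd (nat_lit 78) (nat_lit 0) (nat_lit 0) (XT.lf (nat_lit 0) (nat_lit 19566995172) (nat_lit 304) (nat_lit 19089739739) (nat_lit 76) (nat_lit 2568280854) (nat_lit 55) (nat_lit 5) (nat_lit 59) (nat_lit 5) (nat_lit 56) (nat_lit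 5) (nat_lit 363) (nat_lit 299) (nat_lit 118)) (XT.lf (nat_lit 0) (nat_lit 26466726420) (nat_lit 304) (nat_lit 1640127847) (nat_lit 76) (nat_lit 14001065641) (nat_lit 55) (nat_lit 5) (nat_lit 59) (nat_lit 5) (nat_lit 56) (nat_lit 5) (nat_lit 364) (nat_lit 299) (nat_lit 117)))))) (XT.nd (nat_lit 468) (nat_lit 608) (nat_lit 0) (XT.nd (nat_lit 234) (nat_lit 228) (nat_lit 0) (XT.nd (nat_lit 78) (nat_lit 228) (nat_lit 0) (XT.lf (nat_lit 0) (nat_lit 16653126378) (nat_lit 228) (nat_lit 17077253548) (nat_lit 304) (nat_lit 9282226112) (nat_lit 52) (nat_lit 5) (nat_lit 55) (nat_lit 5) (nat_lit 56) (nat_lit 5) (nat_lit 365) (nat_lit 299) (nat_lit 116)) (XT.nd (nat_lit 78) (nat_lit 228) (nat_lit 0) (XT.lf (nat_lit 0) (nat_lit 35524037886) (nat_lit 228) (nat_lit 5701363477) (nat_lit 304) (nat_lit 2718630328) (nat_lit 52) (nat_lit 5) (nat_lit 55) (nat_lit 5) (nat_lit 56) (nat_lit 5) (nat_lit 366) (nat_lit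 299) (nat_lit 115)) (XT.lf (nat_lit 0) (nat_lit 4117302456) (nat_lit 228) (nat_lit 34745112842) (nat_lit 76) (nat_lit 6035192745) (nat_lit 49) (nat_lit 5) (nat_lit 52) (nat_lit 5) (nat_lit 50) (nat_lit 5) (nat_lit 367) (nat_lit 299) (nat_lit 114)))) (XT.nd (nat_lit 78) (nat_lit 228) (nat_lit 0) (XT.lf (nat_lit 0) (nat_lit 11242970470) (nat_lit 228) (nat_lit 16511405188) (nat_lit 76) (nat_lit 18120432002) (nat_lit 49) (nat_lit 5) (nat_lit 52) (nat_lit 5) (nat_lit 50) (nat_lit 5) (nat_lit 368) (nat_lit 299) (nat_lit 113)) (XT.nd (nat_lit 78) (nat_lit 0) (nat_lit 0) (XT.lf (nat_lit 0) (nat_lit 2309807075) (nat_lit 228) (nat_lit 16291875232) (nat_lit 304) (nat_lit 28279065138) (nat_lit 46) (nat_lit 5) (nat_lit 49) (nat_lit 5) (nat_lit 50) (nat_lit 5) (nat_lit 369) (nat_lit 299) (nat_lit 112)) (XT.lf (nat_lit 0) (nat_lit 22029588946) (nat_lit 228) (nat_lit 4315411610) (nat_lit 304) (nat_lit 21566951836)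 (nat_lit 46) (nat_lit 5) (nat_lit 49) (nat_lit 5) (nat_lit 50) (nat_lit 5) (nat_lit 370) (nat_lit 299) (nat_lit 111))))) (XT.nd (nat_lit 234) (nat_lit 380) (nat_lit 0) (XT.nd (nat_lit 78) (nat_lit 228) (nat_lit 0) (XT.lf (nat_lit 0) (nat_lit 34394895806) (nat_lit 304) (nat_lit 6714698990) (nat_lit 76) (nat_lit 7862272619) (nat_lit 46) (nat_lit 5) (nat_lit 50) (nat_lit 5) (nat_lit 47) (nat_lit 5) (nat_lit 371) (nat_lit 299) (nat_lit 110)) (XT.nd (nat_lit 78) (nat_lit 76) (nat_lit 0) (XT.lf (nat_lit 0) (nat_lit 13239271407) (nat_lit 152) (nat_lit 29614270420) (nat_lit 228) (nat_lit 7205022632) (nat_lit 44) (nat_lit 5) (nat_lit 46) (nat_lit 5) (nat_lit 47) (nat_lit 5) (nat_lit 372) (nat_lit 299) (nat_lit 109)) (XT.lf (nat_lit 0) (nat_lit 446261180) (nat_lit 228) (nat_lit 17255081220) (nat_lit 76) (nat_lit 33474437683) (nat_lit 43) (nat_lit 5) (nat_lit 46) (nat_lit 5) (nat_lit 44) (nat_lit 5) (nat_lit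 373) (nat_lit 299) (nat_lit 108)))) (XT.nd (nat_lit 156) (nat_lit 152) (nat_lit 0) (XT.nd (nat_lit 78) (nat_lit 0) (nat_lit 0) (XT.lf (nat_lit 0) (nat_lit 2876623515) (nat_lit 228) (nat_lit 5330650141) (nat_lit 304) (nat_lit 44116350296) (nat_lit 40) (nat_lit 5) (nat_lit 43) (nat_lit 5) (nat_lit 44) (nat_lit 5) (nat_lit 374) (nat_lit 299) (nat_lit 107)) (XT.lf (nat_lit 0) (nat_lit 16445698601) (nat_lit 304) (nat_lit 29611903549) (nat_lit 76) (nat_lit 7440965467) (nat_lit 40) (nat_lit 5) (nat_lit 44) (nat_lit 5) (nat_lit 41) (nat_lit 5) (nat_lit 375) (nat_lit 299) (nat_lit 106))) (XT.nd (nat_lit 78) (nat_lit 152) (nat_lit 0) (XT.lf (nat_lit 0) (nat_lit 24981505302) (nat_lit 304) (nat_lit 9238662103) (nat_lit 76) (nat_lit 20487087204) (nat_lit 40) (nat_lit 5) (nat_lit 44) (nat_lit 5) (nat_lit 41) (nat_lit 5) (nat_lit 376) (nat_lit 299) (nat_lit 105)) (XT.lf (nat_lit 0) (nat_lit 11975451422) (nat_lit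 152) (nat_lit 21910574703) (nat_lit 228) (nat_lit 22062798720) (nat_lit 38) (nat_lit 5) (nat_lit 40) (nat_lit 5) (nat_lit 41) (nat_lit 5) (nat_lit 377) (nat_lit 299) (nat_lit 104))))))) (XT.nd (nat_lit 1014) (nat_lit 228) (nat_lit 0) (XT.nd (nat_lit 468) (nat_lit 380) (nat_lit 0) (XT.nd (nat_lit 234) (nat_lit 152) (nat_lit 0) (XT.nd (nat_lit 78) (nat_lit 228) (nat_lit 0) (XT.lf (nat_lit 0) (nat_lit 34011401824) (nat_lit 152) (nat_lit 9137131617) (nat_lit 228) (nat_lit 14076384999) (nat_lit 38) (nat_lit 5) (nat_lit 40) (nat_lit 5) (nat_lit 41) (nat_lit 5) (nat_lit 378) (nat_lit 299) (nat_lit 103)) (XT.nd (nat_lit 78) (nat_lit 228) (nat_lit 0) (XT.lf (nat_lit 0) (nat_lit 52725169354) (nat_lit 228) (nat_lit 1873415128) (nat_lit 76) (nat_lit 3939624487) (nat_lit 38) (nat_lit 5) (nat_lit 41) (nat_lit 5) (nat_lit 39) (nat_lit 5) (nat_lit 379) (nat_lit 299) (nat_lit 102)) (XT.lf (nat_lit 0) (nat_lit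 2932721787) (nat_lit 228) (nat_lit 39500207265) (nat_lit 76) (nat_lit 17448577664) (nat_lit 35) (nat_lit 5) (nat_lit 38) (nat_lit 5) (nat_lit 36) (nat_lit 5) (nat_lit 380) (nat_lit 299) (nat_lit 101)))) (XT.nd (nat_lit 78) (nat_lit 152) (nat_lit 0) (XT.lf (nat_lit 0) (nat_lit 11840816679) (nat_lit 228) (nat_lit 17984028659) (nat_lit 76) (nat_lit 31438029082) (nat_lit 35) (nat_lit 5) (nat_lit 38) (nat_lit 5) (nat_lit 36) (nat_lit 5) (nat_lit 381) (nat_lit 299) (nat_lit 100)) (XT.nd (nat_lit 78) (nat_lit 0) (nat_lit 0) (XT.lf (nat_lit 0) (nat_lit 4257006497) (nat_lit 152) (nat_lit 16797827959) (nat_lit 228) (nat_lit 41629689832) (nat_lit 33) (nat_lit 5) (nat_lit 35) (nat_lit 5) (nat_lit 36) (nat_lit 5) (nat_lit 382) (nat_lit 299) (nat_lit 99)) (XT.lf (nat_lit 0) (nat_lit 27530265585) (nat_lit 152) (nat_lit 3194399764) (nat_lit 228) (nat_lit 33418778015) (nat_lit 33) (nat_lit 5) (nat_lit 35) (nat_lit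 5) (nat_lit 36) (nat_lit 5) (nat_lit 383) (nat_lit 299) (nat_lit 98))))) (XT.nd (nat_lit 234) (nat_lit 228) (nat_lit 0) (XT.nd (nat_lit 78) (nat_lit 152) (nat_lit 0) (XT.lf (nat_lit 0) (nat_lit 40786412058) (nat_lit 228) (nat_lit 14251996164) (nat_lit 76) (nat_lit 10604668611) (nat_lit 33) (nat_lit 5) (nat_lit 36) (nat_lit 5) (nat_lit 34) (nat_lit 5) (nat_lit 384) (nat_lit 299) (nat_lit 97)) (XT.nd (nat_lit 78) (nat_lit 0) (nat_lit 0) (XT.lf (nat_lit 0) (nat_lit 8918931015) (nat_lit 152) (nat_lit 42346345012) (nat_lit 228) (nat_lit 15918966736) (nat_lit 31) (nat_lit 5) (nat_lit 33) (nat_lit 5) (nat_lit 34) (nat_lit 5) (nat_lit 385) (nat_lit 299) (nat_lit 96)) (XT.lf (nat_lit 0) (nat_lit 33073669664) (nat_lit 152) (nat_lit 29126684126) (nat_lit 228) (nat_lit 6567035808) (nat_lit 31) (nat_lit 5) (nat_lit 33) (nat_lit 5) (nat_lit 34) (nat_lit 5) (nat_lit 386) (nat_lit 299) (nat_lit 95)))) (XT.nd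 (nat_lit 156) (nat_lit 0) (nat_lit 0) (XT.nd (nat_lit 78) (nat_lit 152) (nat_lit 0) (XT.lf (nat_lit 0) (nat_lit 3003604758) (nat_lit 228) (nat_lit 12477856342) (nat_lit 76) (nat_lit 54915747919) (nat_lit 30) (nat_lit 5) (nat_lit 33) (nat_lit 5) (nat_lit 31) (nat_lit 5) (nat_lit 387) (nat_lit 299) (nat_lit 94)) (XT.lf (nat_lit 0) (nat_lit 11592362062) (nat_lit 152) (nat_lit 1246473313) (nat_lit 228) (nat_lit 59231854440) (nat_lit 28) (nat_lit 5) (nat_lit 30) (nat_lit 5) (nat_lit 31) (nat_lit 5) (nat_lit 388) (nat_lit 299) (nat_lit 93))) (XT.nd (nat_lit 78) (nat_lit 0) (nat_lit 0) (XT.lf (nat_lit 0) (nat_lit 23223372926) (nat_lit 228) (nat_lit 37283654282) (nat_lit 76) (nat_lit 13279721537) (nat_lit 28) (nat_lit 5) (nat_lit 31) (nat_lit 5) (nat_lit 29) (nat_lit 5) (nat_lit 389) (nat_lit 299) (nat_lit 92)) (XT.lf (nat_lit 0) (nat_lit 33929886932) (nat_lit 228) (nat_lit 13408709103) (nat_lit 76)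 (nat_lit 28215381372) (nat_lit 28) (nat_lit 5) (nat_lit 31) (nat_lit 5) (nat_lit 29) (nat_lit 5) (nat_lit 390) (nat_lit 299) (nat_lit 91)))))) (XT.nd (nat_lit 33774) (nat_lit 0) (nat_lit 11628) (XT.nd (nat_lit 234) (nat_lit 76) (nat_lit 0) (XT.nd (nat_lit 78) (nat_lit 0) (nat_lit 0) (XT.lf (nat_lit 0) (nat_lit 11401842259) (nat_lit 152) (nat_lit 33663509959) (nat_lit 228) (nat_lit 32305639177) (nat_lit 26) (nat_lit 5) (nat_lit 28) (nat_lit 5) (nat_lit 29) (nat_lit 5) (nat_lit 391) (nat_lit 299) (nat_lit 90)) (XT.nd (nat_lit 78) (nat_lit 0) (nat_lit 0) (XT.lf (nat_lit 0) (nat_lit 37228473090) (nat_lit 152) (nat_lit 19439988356) (nat_lit 228) (nat_lit 22570048067) (nat_lit 26) (nat_lit 5) (nat_lit 28) (nat_lit 5) (nat_lit 29) (nat_lit 5) (nat_lit 392) (nat_lit 299) (nat_lit 89)) (XT.lf (nat_lit 0) (nat_lit 63826890745) (nat_lit 152) (nat_lit 4791004575) (nat_lit 228) (nat_lit 12544211989) (nat_lit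 26) (nat_lit 5) (nat_lit 28) (nat_lit 5) (nat_lit 29) (nat_lit 5) (nat_lit 393) (nat_lit 299) (nat_lit 88)))) (XT.nd (nat_lit 33384) (nat_lit 0) (nat_lit 12540) (XT.nd (nat_lit 33306) (nat_lit 0) (nat_lit 12540) (XT.lf (nat_lit 0) (nat_lit 8136672987) (nat_lit 76) (nat_lit 72964610557) (nat_lit 152) (nat_lit 2036866399) (nat_lit 25) (nat_lit 5) (nat_lit 26) (nat_lit 5) (nat_lit 27) (nat_lit 4) (nat_lit 394) (nat_lit 299) (nat_lit 87)) (XT.lf (nat_lit 0) (nat_lit 4729884118) (nat_lit 1140) (nat_lit 1037509028) (nat_lit 1140) (nat_lit 1037509028) (nat_lit 190) (nat_lit 3) (nat_lit 205) (nat_lit 3) (nat_lit 205) (nat_lit 5) (nat_lit 300) (nat_lit 300) (nat_lit 180))) (XT.nd (nat_lit 78) (nat_lit 0) (nat_lit 0) (XT.lf (nat_lit 76) (nat_lit 4027069608) (nat_lit 0) (nat_lit 5951738864) (nat_lit 1140) (nat_lit 3823282867) (nat_lit 191) (nat_lit 5) (nat_lit 190) (nat_lit 3) (nat_lit 205) (nat_lit 5)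 (nat_lit 301) (nat_lit 300) (nat_lit 179)) (XT.lf (nat_lit 76) (nat_lit 10347807333) (nat_lit 0) (nat_lit 173291307) (nat_lit 1140) (nat_lit 3478839233) (nat_lit 191) (nat_lit 5) (nat_lit 190) (nat_lit 3) (nat_lit 205) (nat_lit 5) (nat_lit 302) (nat_lit 300) (nat_lit 178))))) (XT.nd (nat_lit 234) (nat_lit 988) (nat_lit 0) (XT.nd (nat_lit 78) (nat_lit 0) (nat_lit 0) (XT.lf (nat_lit 76) (nat_lit 2643268099) (nat_lit 0) (nat_lit 8504515496) (nat_lit 1140) (nat_lit 3053913106) (nat_lit 192) (nat_lit 5) (nat_lit 191) (nat_lit 5) (nat_lit 206) (nat_lit 5) (nat_lit 303) (nat_lit 300) (nat_lit 177)) (XT.nd (nat_lit 78) (nat_lit 0) (nat_lit 76) (XT.lf (nat_lit 76) (nat_lit 9193502206) (nat_lit 0) (nat_lit 2625821003) (nat_lit 1140) (nat_lit 2589423539) (nat_lit 192) (nat_lit 5) (nat_lit 191) (nat_lit 5) (nat_lit 206) (nat_lit 5) (nat_lit 304) (nat_lit 300) (nat_lit 176)) (XT.lf (nat_lit 76) (nat_lit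 1303335732) (nat_lit 0) (nat_lit 11241056468) (nat_lit 1140) (nat_lit 2076634091) (nat_lit 193) (nat_lit 5) (nat_lit 192) (nat_lit 5) (nat_lit 207) (nat_lit 5) (nat_lit 305) (nat_lit 300) (nat_lit 175)))) (XT.nd (nat_lit 156) (nat_lit 1064) (nat_lit 0) (XT.nd (nat_lit 78) (nat_lit 0) (nat_lit 76) (XT.lf (nat_lit 76) (nat_lit 8090569227) (nat_lit 0) (nat_lit 5267224517) (nat_lit 1140) (nat_lit 1479901989) (nat_lit 193) (nat_lit 5) (nat_lit 192) (nat_lit 5) (nat_lit 207) (nat_lit 5) (nat_lit 306) (nat_lit 300) (nat_lit 174)) (XT.lf (nat_lit 76) (nat_lit 4641408) (nat_lit 0) (nat_lit 14188075748) (nat_lit 1140) (nat_lit 868252879) (nat_lit 194) (nat_lit 5) (nat_lit 193) (nat_lit 5) (nat_lit 208) (nat_lit 5) (nat_lit 307) (nat_lit 300) (nat_lit 173))) (XT.nd (nat_lit 78) (nat_lit 1140) (nat_lit 0) (XT.lf (nat_lit 76) (nat_lit 7036668054) (nat_lit 0) (nat_lit 8124614483) (nat_lit 1140) (nat_lit 126420040)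 (nat_lit 194) (nat_lit 5) (nat_lit 193) (nat_lit 5) (nat_lit 208) (nat_lit 5) (nat_lit 308) (nat_lit 300) (nat_lit 172)) (XT.lf (nat_lit 0) (nat_lit 614247790) (nat_lit 1140) (nat_lit 1255145695) (nat_lit 1216) (nat_lit 13652005839) (nat_lit 178) (nat_lit 5) (nat_lit 193) (nat_lit 5) (nat_lit 194) (nat_lit 5) (nat_lit 309) (nat_lit 300) (nat_lit 171))))))))
noncomputable def xc199 : XT := (XT.nd (nat_lit 2028) (nat_lit 4104) (nat_lit 0) (XT.nd (nat_lit 1014) (nat_lit 3040) (nat_lit 0) (XT.nd (nat_lit 468) (nat_lit 2052) (nat_lit 0) (XT.nd (nat_lit 234) (nat_lit 0) (nat_lit 76) (XT.nd (nat_lit 78) (nat_lit 0) (nat_lit 0) (XT.lf (nat_lit 0) (nat_lit 1466779404) (nat_lit 1140) (nat_lit 9744832497) (nat_lit 1216) (nat_lit 4547708305) (nat_lit 179) (nat_lit 5) (nat_lit 194) (nat_lit 5) (nat_lit 195) (nat_lit 5) (nat_lit 310) (nat_lit 300) (nat_lit 170)) (XT.nd (nat_lit 78) (nat_lit 0) (nat_lit 76)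 (XT.lf (nat_lit 0) (nat_lit 2365811843) (nat_lit 1140) (nat_lit 2502200315) (nat_lit 1216) (nat_lit 11135754661) (nat_lit 179) (nat_lit 5) (nat_lit 194) (nat_lit 5) (nat_lit 195) (nat_lit 5) (nat_lit 311) (nat_lit 300) (nat_lit 169)) (XT.lf (nat_lit 0) (nat_lit 3346788274) (nat_lit 1140) (nat_lit 11221983921) (nat_lit 1216) (nat_lit 1685140831) (nat_lit 180) (nat_lit 5) (nat_lit 195) (nat_lit 5) (nat_lit 196) (nat_lit 5) (nat_lit 312) (nat_lit 300) (nat_lit 168)))) (XT.nd (nat_lit 78) (nat_lit 0) (nat_lit 0) (XT.lf (nat_lit 0) (nat_lit 4421077749) (nat_lit 1140) (nat_lit 3723431659) (nat_lit 1216) (nat_lit 8365152640) (nat_lit 180) (nat_lit 5) (nat_lit 195) (nat_lit 5) (nat_lit 196) (nat_lit 5) (nat_lit 313) (nat_lit 300) (nat_lit 167)) (XT.nd (nat_lit 78) (nat_lit 0) (nat_lit 76) (XT.lf (nat_lit 76) (nat_lit 4072207786) (nat_lit 0) (nat_lit 1484987160) (nat_lit 1216) (nat_lit 11215015125) (nat_lit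 181) (nat_lit 5) (nat_lit 180) (nat_lit 5) (nat_lit 196) (nat_lit 5) (nat_lit 314) (nat_lit 300) (nat_lit 166)) (XT.lf (nat_lit 0) (nat_lit 6807711224) (nat_lit 1140) (nat_lit 4923072066) (nat_lit 1216) (nat_lit 5309455861) (nat_lit 181) (nat_lit 5) (nat_lit 196) (nat_lit 5) (nat_lit 197) (nat_lit 5) (nat_lit 315) (nat_lit 300) (nat_lit 165))))) (XT.nd (nat_lit 234) (nat_lit 1140) (nat_lit 0) (XT.nd (nat_lit 78) (nat_lit 1064) (nat_lit 0) (XT.lf (nat_lit 76) (nat_lit 3126110430) (nat_lit 0) (nat_lit 5005339540) (nat_lit 1216) (nat_lit 9183801594) (nat_lit 182) (nat_lit 5) (nat_lit 181) (nat_lit 5) (nat_lit 197) (nat_lit 5) (nat_lit 316) (nat_lit 300) (nat_lit 164)) (XT.nd (nat_lit 78) (nat_lit 1140) (nat_lit 0) (XT.lf (nat_lit 0) (nat_lit 9554743251) (nat_lit 1140) (nat_lit 6105879073) (nat_lit 76) (nat_lit 1936110028) (nat_lit 182) (nat_lit 5) (nat_lit 197) (nat_lit 5) (nat_lit 183) (nat_lit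 5) (nat_lit 317) (nat_lit 300) (nat_lit 163)) (XT.lf (nat_lit 0) (nat_lit 2206014695) (nat_lit 1140) (nat_lit 8876904031) (nat_lit 1216) (nat_lit 6801886224) (nat_lit 167) (nat_lit 5) (nat_lit 182) (nat_lit 5) (nat_lit 183) (nat_lit 5) (nat_lit 318) (nat_lit 300) (nat_lit 162)))) (XT.nd (nat_lit 156) (nat_lit 608) (nat_lit 0) (XT.nd (nat_lit 78) (nat_lit 532) (nat_lit 0) (XT.lf (nat_lit 0) (nat_lit 10885146296) (nat_lit 1140) (nat_lit 1825050482) (nat_lit 1216) (nat_lit 5469737739) (nat_lit 167) (nat_lit 5) (nat_lit 182) (nat_lit 5) (nat_lit 183) (nat_lit 5) (nat_lit 319) (nat_lit 300) (nat_lit 161)) (XT.lf (nat_lit 0) (nat_lit 1306615207) (nat_lit 532) (nat_lit 13136369769) (nat_lit 608) (nat_lit 4039244388) (nat_lit 160) (nat_lit 5) (nat_lit 167) (nat_lit 5) (nat_lit 168) (nat_lit 5) (nat_lit 320) (nat_lit 300) (nat_lit 160))) (XT.nd (nat_lit 78) (nat_lit 608) (nat_lit 0) (XT.lf (nat_lit 0)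 (nat_lit 10289900657) (nat_lit 532) (nat_lit 6021434243) (nat_lit 608) (nat_lit 2479762607) (nat_lit 160) (nat_lit 5) (nat_lit 167) (nat_lit 5) (nat_lit 168) (nat_lit 5) (nat_lit 321) (nat_lit 300) (nat_lit 159)) (XT.lf (nat_lit 0) (nat_lit 421815467) (nat_lit 608) (nat_lit 17822799164) (nat_lit 684) (nat_lit 864362133) (nat_lit 152) (nat_lit 5) (nat_lit 160) (nat_lit 5) (nat_lit 161) (nat_lit 5) (nat_lit 322) (nat_lit 300) (nat_lit 158)))))) (XT.nd (nat_lit 468) (nat_lit 1900) (nat_lit 0) (XT.nd (nat_lit 234) (nat_lit 532) (nat_lit 0) (XT.nd (nat_lit 78) (nat_lit 532) (nat_lit 0) (XT.lf (nat_lit 0) (nat_lit 922544007) (nat_lit 684) (nat_lit 9722583327) (nat_lit 76) (nat_lit 8786885955) (nat_lit 151) (nat_lit 5) (nat_lit 160) (nat_lit 5) (nat_lit 152) (nat_lit 5) (nat_lit 323) (nat_lit 300) (nat_lit 157)) (XT.nd (nat_lit 78) (nat_lit 532) (nat_lit 0) (XT.lf (nat_lit 0) (nat_lit 2738239119) (nat_lit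 684) (nat_lit 504807849) (nat_lit 76) (nat_lit 16521671040) (nat_lit 151) (nat_lit 5) (nat_lit 160) (nat_lit 5) (nat_lit 152) (nat_lit 5) (nat_lit 324) (nat_lit 300) (nat_lit 156)) (XT.lf (nat_lit 0) (nat_lit 4732228709) (nat_lit 608) (nat_lit 10986678928) (nat_lit 76) (nat_lit 4384791697) (nat_lit 144) (nat_lit 5) (nat_lit 152) (nat_lit 5) (nat_lit 145) (nat_lit 5) (nat_lit 325) (nat_lit 300) (nat_lit 155)))) (XT.nd (nat_lit 78) (nat_lit 532) (nat_lit 0) (XT.lf (nat_lit 0) (nat_lit 6816212773) (nat_lit 608) (nat_lit 1454133833) (nat_lit 76) (nat_lit 12181608126) (nat_lit 144) (nat_lit 5) (nat_lit 152) (nat_lit 5) (nat_lit 145) (nat_lit 5) (nat_lit 326) (nat_lit 300) (nat_lit 154)) (XT.nd (nat_lit 78) (nat_lit 0) (nat_lit 0) (XT.lf (nat_lit 0) (nat_lit 8523796821) (nat_lit 532) (nat_lit 513979147) (nat_lit 608) (nat_lit 11770639625) (nat_lit 137) (nat_lit 5) (nat_lit 144) (nat_lit 5) (nat_lit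 145) (nat_lit 5) (nat_lit 327) (nat_lit 300) (nat_lit 153)) (XT.lf (nat_lit 0) (nat_lit 11405927383) (nat_lit 608) (nat_lit 2423319888) (nat_lit 76) (nat_lit 7343934079) (nat_lit 137) (nat_lit 5) (nat_lit 145) (nat_lit 5) (nat_lit 138) (nat_lit 5) (nat_lit 328) (nat_lit 300) (nat_lit 152))))) (XT.nd (nat_lit 234) (nat_lit 988) (nat_lit 0) (XT.nd (nat_lit 78) (nat_lit 456) (nat_lit 0) (XT.lf (nat_lit 0) (nat_lit 7875551753) (nat_lit 456) (nat_lit 6043818509) (nat_lit 532) (nat_lit 7627301449) (nat_lit 131) (nat_lit 5) (nat_lit 137) (nat_lit 5) (nat_lit 138) (nat_lit 5) (nat_lit 329) (nat_lit 300) (nat_lit 151)) (XT.nd (nat_lit 78) (nat_lit 456) (nat_lit 0) (XT.lf (nat_lit 0) (nat_lit 16545491317) (nat_lit 532) (nat_lit 3423784607) (nat_lit 76) (nat_lit 1960981385) (nat_lit 131) (nat_lit 5) (nat_lit 138) (nat_lit 5) (nat_lit 132) (nat_lit 5) (nat_lit 330) (nat_lit 300) (nat_lit 150)) (XT.lf (nat_lit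 0) (nat_lit 7204940583) (nat_lit 456) (nat_lit 12168315885) (nat_lit 532) (nat_lit 2948416715) (nat_lit 125) (nat_lit 5) (nat_lit 131) (nat_lit 5) (nat_lit 132) (nat_lit 5) (nat_lit 331) (nat_lit 300) (nat_lit 149)))) (XT.nd (nat_lit 156) (nat_lit 456) (nat_lit 0) (XT.nd (nat_lit 78) (nat_lit 532) (nat_lit 0) (XT.lf (nat_lit 0) (nat_lit 18215993501) (nat_lit 456) (nat_lit 4098314064) (nat_lit 532) (nat_lit 409678649) (nat_lit 125) (nat_lit 5) (nat_lit 131) (nat_lit 5) (nat_lit 132) (nat_lit 5) (nat_lit 332) (nat_lit 300) (nat_lit 148)) (XT.lf (nat_lit 0) (nat_lit 2260168834) (nat_lit 532) (nat_lit 16659012506) (nat_lit 76) (nat_lit 4215619782) (nat_lit 118) (nat_lit 5) (nat_lit 125) (nat_lit 5) (nat_lit 119) (nat_lit 5) (nat_lit 333) (nat_lit 300) (nat_lit 147))) (XT.nd (nat_lit 78) (nat_lit 456) (nat_lit 0) (XT.lf (nat_lit 0) (nat_lit 5082523725) (nat_lit 532) (nat_lit 5726928955) (nat_lit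 76) (nat_lit 12745954297) (nat_lit 118) (nat_lit 5) (nat_lit 125) (nat_lit 5) (nat_lit 119) (nat_lit 5) (nat_lit 334) (nat_lit 300) (nat_lit 146)) (XT.lf (nat_lit 0) (nat_lit 5636540634) (nat_lit 456) (nat_lit 2401458613) (nat_lit 532) (nat_lit 15949185609) (nat_lit 112) (nat_lit 5) (nat_lit 118) (nat_lit 5) (nat_lit 119) (nat_lit 5) (nat_lit 335) (nat_lit 300) (nat_lit 145))))))) (XT.nd (nat_lit 1014) (nat_lit 1748) (nat_lit 0) (XT.nd (nat_lit 468) (nat_lit 1140) (nat_lit 0) (XT.nd (nat_lit 234) (nat_lit 836) (nat_lit 0) (XT.nd (nat_lit 78) (nat_lit 380) (nat_lit 0) (XT.lf (nat_lit 0) (nat_lit 11195069709) (nat_lit 532) (nat_lit 7039275034) (nat_lit 76) (nat_lit 6194190543) (nat_lit 112) (nat_lit 5) (nat_lit 119) (nat_lit 5) (nat_lit 113) (nat_lit 5) (nat_lit 336) (nat_lit 300) (nat_lit 144)) (XT.nd (nat_lit 78) (nat_lit 0) (nat_lit 0) (XT.lf (nat_lit 0) (nat_lit 4672358323) (nat_lit 380) (nat_lit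 9837712659) (nat_lit 456) (nat_lit 10371165614) (nat_lit 107) (nat_lit 5) (nat_lit 112) (nat_lit 5) (nat_lit 113) (nat_lit 5) (nat_lit 337) (nat_lit 300) (nat_lit 143)) (XT.lf (nat_lit 0) (nat_lit 16873227768) (nat_lit 380) (nat_lit 1117003455) (nat_lit 456) (nat_lit 7355323180) (nat_lit 107) (nat_lit 5) (nat_lit 112) (nat_lit 5) (nat_lit 113) (nat_lit 5) (nat_lit 338) (nat_lit 300) (nat_lit 142)))) (XT.nd (nat_lit 78) (nat_lit 456) (nat_lit 0) (XT.lf (nat_lit 0) (nat_lit 3604677670) (nat_lit 380) (nat_lit 18075148200) (nat_lit 456) (nat_lit 4140831516) (nat_lit 102) (nat_lit 5) (nat_lit 107) (nat_lit 5) (nat_lit 108) (nat_lit 5) (nat_lit 339) (nat_lit 300) (nat_lit 141)) (XT.nd (nat_lit 78) (nat_lit 456) (nat_lit 0) (XT.lf (nat_lit 0) (nat_lit 16200071687) (nat_lit 380) (nat_lit 9371406008) (nat_lit 456) (nat_lit 735801023) (nat_lit 102) (nat_lit 5) (nat_lit 107) (nat_lit 5) (nat_lit 108) (nat_lit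 5) (nat_lit 340) (nat_lit 300) (nat_lit 140)) (XT.lf (nat_lit 0) (nat_lit 2378361395) (nat_lit 380) (nat_lit 356760255) (nat_lit 456) (nat_lit 24072049182) (nat_lit 96) (nat_lit 5) (nat_lit 101) (nat_lit 5) (nat_lit 102) (nat_lit 5) (nat_lit 341) (nat_lit 300) (nat_lit 139))))) (XT.nd (nat_lit 234) (nat_lit 760) (nat_lit 0) (XT.nd (nat_lit 78) (nat_lit 380) (nat_lit 0) (XT.lf (nat_lit 0) (nat_lit 6479315479) (nat_lit 456) (nat_lit 11973752460) (nat_lit 76) (nat_lit 8863261047) (nat_lit 96) (nat_lit 5) (nat_lit 102) (nat_lit 5) (nat_lit 97) (nat_lit 5) (nat_lit 342) (nat_lit 300) (nat_lit 138)) (XT.nd (nat_lit 78) (nat_lit 0) (nat_lit 0) (XT.lf (nat_lit 0) (nat_lit 862111757) (nat_lit 380) (nat_lit 9480721749) (nat_lit 456) (nat_lit 17497724060) (nat_lit 91) (nat_lit 5) (nat_lit 96) (nat_lit 5) (nat_lit 97) (nat_lit 5) (nat_lit 343) (nat_lit 300) (nat_lit 137)) (XT.lf (nat_lit 0) (nat_lit 14322427142)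 (nat_lit 380) (nat_lit 116002336) (nat_lit 456) (nat_lit 13938603821) (nat_lit 91) (nat_lit 5) (nat_lit 96) (nat_lit 5) (nat_lit 97) (nat_lit 5) (nat_lit 344) (nat_lit 300) (nat_lit 136)))) (XT.nd (nat_lit 156) (nat_lit 456) (nat_lit 0) (XT.nd (nat_lit 78) (nat_lit 304) (nat_lit 0) (XT.lf (nat_lit 0) (nat_lit 18743884781) (nat_lit 456) (nat_lit 840685101) (nat_lit 76) (nat_lit 9342428987) (nat_lit 91) (nat_lit 5) (nat_lit 97) (nat_lit 5) (nat_lit 92) (nat_lit 5) (nat_lit 345) (nat_lit 300) (nat_lit 135)) (XT.lf (nat_lit 0) (nat_lit 13016653564) (nat_lit 304) (nat_lit 10283643670) (nat_lit 380) (nat_lit 6189517524) (nat_lit 87) (nat_lit 5) (nat_lit 91) (nat_lit 5) (nat_lit 92) (nat_lit 5) (nat_lit 346) (nat_lit 300) (nat_lit 134))) (XT.nd (nat_lit 78) (nat_lit 456) (nat_lit 0) (XT.lf (nat_lit 0) (nat_lit 27301149717) (nat_lit 304) (nat_lit 696337275) (nat_lit 380) (nat_lit 2071910586) (nat_lit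 87) (nat_lit 5) (nat_lit 91) (nat_lit 5) (nat_lit 92) (nat_lit 5) (nat_lit 347) (nat_lit 300) (nat_lit 133)) (XT.lf (nat_lit 0) (nat_lit 2323086787) (nat_lit 456) (nat_lit 19205511096) (nat_lit 76) (nat_lit 9131263412) (nat_lit 81) (nat_lit 5) (nat_lit 87) (nat_lit 5) (nat_lit 82) (nat_lit 5) (nat_lit 348) (nat_lit 300) (nat_lit 132)))))) (XT.nd (nat_lit 546) (nat_lit 836) (nat_lit 0) (XT.nd (nat_lit 234) (nat_lit 608) (nat_lit 0) (XT.nd (nat_lit 78) (nat_lit 304) (nat_lit 0) (XT.lf (nat_lit 0) (nat_lit 6839150585) (nat_lit 456) (nat_lit 5140293257) (nat_lit 76) (nat_lit 19287058447) (nat_lit 81) (nat_lit 5) (nat_lit 87) (nat_lit 5) (nat_lit 82) (nat_lit 5) (nat_lit 349) (nat_lit 300) (nat_lit 131)) (XT.nd (nat_lit 78) (nat_lit 0) (nat_lit 0) (XT.lf (nat_lit 0) (nat_lit 9527178693) (nat_lit 304) (nat_lit 2050957683) (nat_lit 380) (nat_lit 20310587380) (nat_lit 77) (nat_lit 5) (nat_lit 81) (nat_lit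 5) (nat_lit 82) (nat_lit 5) (nat_lit 350) (nat_lit 300) (nat_lit 130)) (XT.lf (nat_lit 0) (nat_lit 16586211284) (nat_lit 380) (nat_lit 7872778848) (nat_lit 76) (nat_lit 8066818466) (nat_lit 77) (nat_lit 5) (nat_lit 82) (nat_lit 5) (nat_lit 78) (nat_lit 5) (nat_lit 351) (nat_lit 300) (nat_lit 129)))) (XT.nd (nat_lit 156) (nat_lit 304) (nat_lit 0) (XT.nd (nat_lit 78) (nat_lit 0) (nat_lit 0) (XT.lf (nat_lit 0) (nat_lit 7164647800) (nat_lit 304) (nat_lit 14665089143) (nat_lit 380) (nat_lit 11349716978) (nat_lit 73) (nat_lit 5) (nat_lit 77) (nat_lit 5) (nat_lit 78) (nat_lit 5) (nat_lit 352) (nat_lit 300) (nat_lit 128)) (XT.lf (nat_lit 0) (nat_lit 22809131334) (nat_lit 304) (nat_lit 4497030896) (nat_lit 380) (nat_lit 6544282628) (nat_lit 73) (nat_lit 5) (nat_lit 77) (nat_lit 5) (nat_lit 78) (nat_lit 5) (nat_lit 353) (nat_lit 300) (nat_lit 127))) (XT.nd (nat_lit 78) (nat_lit 76) (nat_lit 0) (XT.lf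 (nat_lit 0) (nat_lit 4404490984) (nat_lit 228) (nat_lit 28638367158) (nat_lit 304) (nat_lit 1495831993) (nat_lit 70) (nat_lit 5) (nat_lit 73) (nat_lit 5) (nat_lit 74) (nat_lit 5) (nat_lit 354) (nat_lit 300) (nat_lit 126)) (XT.lf (nat_lit 0) (nat_lit 3785129196) (nat_lit 304) (nat_lit 14790887893) (nat_lit 76) (nat_lit 16665901128) (nat_lit 69) (nat_lit 5) (nat_lit 73) (nat_lit 5) (nat_lit 70) (nat_lit 5) (nat_lit 355) (nat_lit 300) (nat_lit 125))))) (XT.nd (nat_lit 234) (nat_lit 532) (nat_lit 0) (XT.nd (nat_lit 78) (nat_lit 0) (nat_lit 0) (XT.lf (nat_lit 0) (nat_lit 1012405110) (nat_lit 304) (nat_lit 8188103783) (nat_lit 380) (nat_lit 26765111925) (nat_lit 65) (nat_lit 5) (nat_lit 69) (nat_lit 5) (nat_lit 70) (nat_lit 5) (nat_lit 356) (nat_lit 300) (nat_lit 124)) (XT.nd (nat_lit 78) (nat_lit 0) (nat_lit 0) (XT.lf (nat_lit 0) (nat_lit 14949693591) (nat_lit 380) (nat_lit 19144486764) (nat_lit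 76) (nat_lit 2611717342) (nat_lit 65) (nat_lit 5) (nat_lit 70) (nat_lit 5) (nat_lit 66) (nat_lit 5) (nat_lit 357) (nat_lit 300) (nat_lit 123)) (XT.lf (nat_lit 0) (nat_lit 20948894336) (nat_lit 380) (nat_lit 2947719952) (nat_lit 76) (nat_lit 13569445788) (nat_lit 65) (nat_lit 5) (nat_lit 70) (nat_lit 5) (nat_lit 66) (nat_lit 5) (nat_lit 358) (nat_lit 300) (nat_lit 122)))) (XT.nd (nat_lit 156) (nat_lit 304) (nat_lit 0) (XT.nd (nat_lit 78) (nat_lit 0) (nat_lit 0) (XT.lf (nat_lit 0) (nat_lit 14003199157) (nat_lit 228) (nat_lit 13256052245) (nat_lit 304) (nat_lit 10985843824) (nat_lit 62) (nat_lit 5) (nat_lit 65) (nat_lit 5) (nat_lit 66) (nat_lit 5) (nat_lit 359) (nat_lit 300) (nat_lit 121)) (XT.lf (nat_lit 0) (nat_lit 31518116706) (nat_lit 228) (nat_lit 2267193840) (nat_lit 304) (nat_lit 5261402356) (nat_lit 62) (nat_lit 5) (nat_lit 65) (nat_lit 5) (nat_lit 66) (nat_lit 5) (nat_lit 360) (nat_lit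 300) (nat_lit 120))) (XT.nd (nat_lit 78) (nat_lit 0) (nat_lit 0) (XT.lf (nat_lit 0) (nat_lit 801919188) (nat_lit 304) (nat_lit 30089768642) (nat_lit 76) (nat_lit 8975125246) (nat_lit 58) (nat_lit 5) (nat_lit 62) (nat_lit 5) (nat_lit 59) (nat_lit 5) (nat_lit 361) (nat_lit 300) (nat_lit 119)) (XT.lf (nat_lit 0) (nat_lit 7037338550) (nat_lit 304) (nat_lit 13033262697) (nat_lit 76) (nat_lit 20636476740) (nat_lit 58) (nat_lit 5) (nat_lit 62) (nat_lit 5) (nat_lit 59) (nat_lit 5) (nat_lit 362) (nat_lit 300) (nat_lit 118))))))))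
noncomputable def xc200 : XT := (XT.nd (nat_lit 2028) (nat_lit 304) (nat_lit 0) (XT.nd (nat_lit 1014) (nat_lit 760) (nat_lit 0) (XT.nd (nat_lit 468) (nat_lit 684) (nat_lit 0) (XT.nd (nat_lit 234) (nat_lit 456) (nat_lit 0) (XT.nd (nat_lit 78) (nat_lit 0) (nat_lit 0) (XT.lf (nat_lit 0) (nat_lit 4620323776) (nat_lit 228) (nat_lit 8880728454) (nat_lit 304) (nat_lit 28070264516) (nat_lit 55) (nat_lit 5) (nat_lit 58) (nat_lit 5) (nat_lit 59) (nat_lit 5) (nat_lit 363) (nat_lit 300) (nat_lit 117)) (XT.nd (nat_lit 78) (nat_lit 0) (nat_lit 0) (XT.lf (nat_lit 0) (nat_lit 20313864899) (nat_lit 304) (nat_lit 19418382804) (nat_lit 76) (nat_lit 2724582109) (nat_lit 55) (nat_lit 5) (nat_lit 59) (nat_lit 5) (nat_lit 56) (nat_lit 5) (nat_lit 364) (nat_lit 300) (nat_lit 116)) (XT.lf (nat_lit 0) (nat_lit 27415931973) (nat_lit 304) (nat_lit 1452390783) (nat_lit 76) (nat_lit 14498042105) (nat_lit 55) (nat_lit 5)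 (nat_lit 59) (nat_lit 5) (nat_lit 56) (nat_lit 5) (nat_lit 365) (nat_lit 300) (nat_lit 115)))) (XT.nd (nat_lit 78) (nat_lit 228) (nat_lit 0) (XT.lf (nat_lit 0) (nat_lit 17387338119) (nat_lit 228) (nat_lit 17507891757) (nat_lit 304) (nat_lit 9403033630) (nat_lit 52) (nat_lit 5) (nat_lit 55) (nat_lit 5) (nat_lit 56) (nat_lit 5) (nat_lit 366) (nat_lit 300) (nat_lit 114)) (XT.nd (nat_lit 78) (nat_lit 228) (nat_lit 0) (XT.lf (nat_lit 0) (nat_lit 36817543440) (nat_lit 228) (nat_lit 5793103996) (nat_lit 304) (nat_lit 2647121990) (nat_lit 52) (nat_lit 5) (nat_lit 55) (nat_lit 5) (nat_lit 56) (nat_lit 5) (nat_lit 367) (nat_lit 300) (nat_lit 113)) (XT.lf (nat_lit 0) (nat_lit 4389504353) (nat_lit 228) (nat_lit 35555051131) (nat_lit 76) (nat_lit 6295399008) (nat_lit 49) (nat_lit 5) (nat_lit 52) (nat_lit 5) (nat_lit 50) (nat_lit 5) (nat_lit 368) (nat_lit 300) (nat_lit 112))))) (XT.nd (nat_lit 234) (nat_lit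 456) (nat_lit 0) (XT.nd (nat_lit 78) (nat_lit 228) (nat_lit 0) (XT.lf (nat_lit 0) (nat_lit 11724611840) (nat_lit 228) (nat_lit 16781101620) (nat_lit 76) (nat_lit 18740890089) (nat_lit 49) (nat_lit 5) (nat_lit 52) (nat_lit 5) (nat_lit 50) (nat_lit 5) (nat_lit 369) (nat_lit 300) (nat_lit 111)) (XT.nd (nat_lit 78) (nat_lit 0) (nat_lit 0) (XT.lf (nat_lit 0) (nat_lit 2602534798) (nat_lit 228) (nat_lit 16699493578) (nat_lit 304) (nat_lit 28980758280) (nat_lit 46) (nat_lit 5) (nat_lit 49) (nat_lit 5) (nat_lit 50) (nat_lit 5) (nat_lit 370) (nat_lit 300) (nat_lit 110)) (XT.lf (nat_lit 0) (nat_lit 22907402353) (nat_lit 228) (nat_lit 4366099287) (nat_lit 304) (nat_lit 22071553776) (nat_lit 46) (nat_lit 5) (nat_lit 49) (nat_lit 5) (nat_lit 50) (nat_lit 5) (nat_lit 371) (nat_lit 300) (nat_lit 109)))) (XT.nd (nat_lit 156) (nat_lit 304) (nat_lit 0) (XT.nd (nat_lit 78) (nat_lit 152) (nat_lit 0) (XT.lf (nat_lit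 0) (nat_lit 35561605107) (nat_lit 304) (nat_lit 6702136023) (nat_lit 76) (nat_lit 8173128654) (nat_lit 46) (nat_lit 5) (nat_lit 50) (nat_lit 5) (nat_lit 47) (nat_lit 5) (nat_lit 372) (nat_lit 300) (nat_lit 108)) (XT.lf (nat_lit 0) (nat_lit 13848355408) (nat_lit 152) (nat_lit 30423764037) (nat_lit 228) (nat_lit 7284108166) (nat_lit 44) (nat_lit 5) (nat_lit 46) (nat_lit 5) (nat_lit 47) (nat_lit 5) (nat_lit 373) (nat_lit 300) (nat_lit 107))) (XT.nd (nat_lit 78) (nat_lit 228) (nat_lit 0) (XT.lf (nat_lit 0) (nat_lit 590125240) (nat_lit 228) (nat_lit 17564304446) (nat_lit 76) (nat_lit 34552610879) (nat_lit 43) (nat_lit 5) (nat_lit 46) (nat_lit 5) (nat_lit 44) (nat_lit 5) (nat_lit 374) (nat_lit 300) (nat_lit 106)) (XT.lf (nat_lit 0) (nat_lit 3169308007) (nat_lit 228) (nat_lit 5412843710) (nat_lit 304) (nat_lit 45307225396) (nat_lit 40) (nat_lit 5) (nat_lit 43) (nat_lit 5) (nat_lit 44) (nat_lit 5) (nat_lit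 375) (nat_lit 300) (nat_lit 105)))))) (XT.nd (nat_lit 468) (nat_lit 380) (nat_lit 0) (XT.nd (nat_lit 234) (nat_lit 228) (nat_lit 0) (XT.nd (nat_lit 78) (nat_lit 152) (nat_lit 0) (XT.lf (nat_lit 0) (nat_lit 17064707424) (nat_lit 304) (nat_lit 30296771147) (nat_lit 76) (nat_lit 7738183967) (nat_lit 40) (nat_lit 5) (nat_lit 44) (nat_lit 5) (nat_lit 41) (nat_lit 5) (nat_lit 376) (nat_lit 300) (nat_lit 104)) (XT.nd (nat_lit 78) (nat_lit 152) (nat_lit 0) (XT.lf (nat_lit 0) (nat_lit 25852928970) (nat_lit 304) (nat_lit 9318259336) (nat_lit 76) (nat_lit 21173534321) (nat_lit 40) (nat_lit 5) (nat_lit 44) (nat_lit 5) (nat_lit 41) (nat_lit 5) (nat_lit 377) (nat_lit 300) (nat_lit 103)) (XT.lf (nat_lit 0) (nat_lit 12530340707) (nat_lit 152) (nat_lit 22492572415) (nat_lit 228) (nat_lit 22600679648) (nat_lit 38) (nat_lit 5) (nat_lit 40) (nat_lit 5) (nat_lit 41) (nat_lit 5) (nat_lit 378) (nat_lit 300) (nat_lit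 102)))) (XT.nd (nat_lit 78) (nat_lit 228) (nat_lit 0) (XT.lf (nat_lit 0) (nat_lit 35221671783) (nat_lit 152) (nat_lit 9338119809) (nat_lit 228) (nat_lit 14378285255) (nat_lit 38) (nat_lit 5) (nat_lit 40) (nat_lit 5) (nat_lit 41) (nat_lit 5) (nat_lit 379) (nat_lit 300) (nat_lit 101)) (XT.nd (nat_lit 78) (nat_lit 228) (nat_lit 0) (XT.lf (nat_lit 0) (nat_lit 54421007034) (nat_lit 228) (nat_lit 1742419405) (nat_lit 76) (nat_lit 4127423717) (nat_lit 38) (nat_lit 5) (nat_lit 41) (nat_lit 5) (nat_lit 39) (nat_lit 5) (nat_lit 380) (nat_lit 300) (nat_lit 100)) (XT.lf (nat_lit 0) (nat_lit 3134437975) (nat_lit 228) (nat_lit 40497509180) (nat_lit 76) (nat_lit 18042514864) (nat_lit 35) (nat_lit 5) (nat_lit 38) (nat_lit 5) (nat_lit 36) (nat_lit 5) (nat_lit 381) (nat_lit 300) (nat_lit 99))))) (XT.nd (nat_lit 234) (nat_lit 228) (nat_lit 0) (XT.nd (nat_lit 78) (nat_lit 152) (nat_lit 0) (XT.lf (nat_lit 0) (nat_lit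 12306463057) (nat_lit 228) (nat_lit 18341312331) (nat_lit 76) (nat_lit 32449597014) (nat_lit 35) (nat_lit 5) (nat_lit 38) (nat_lit 5) (nat_lit 36) (nat_lit 5) (nat_lit 382) (nat_lit 300) (nat_lit 98)) (XT.nd (nat_lit 78) (nat_lit 0) (nat_lit 0) (XT.lf (nat_lit 0) (nat_lit 4565167240) (nat_lit 152) (nat_lit 17230252556) (nat_lit 228) (nat_lit 42766298618) (nat_lit 33) (nat_lit 5) (nat_lit 35) (nat_lit 5) (nat_lit 36) (nat_lit 5) (nat_lit 383) (nat_lit 300) (nat_lit 97)) (XT.lf (nat_lit 0) (nat_lit 28531368260) (nat_lit 152) (nat_lit 3220804338) (nat_lit 228) (nat_lit 34312329793) (nat_lit 33) (nat_lit 5) (nat_lit 35) (nat_lit 5) (nat_lit 36) (nat_lit 5) (nat_lit 384) (nat_lit 300) (nat_lit 96)))) (XT.nd (nat_lit 156) (nat_lit 76) (nat_lit 0) (XT.nd (nat_lit 78) (nat_lit 152) (nat_lit 0) (XT.lf (nat_lit 0) (nat_lit 42113339048) (nat_lit 228) (nat_lit 14506962260) (nat_lit 76) (nat_lit 10988898610)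 (nat_lit 33) (nat_lit 5) (nat_lit 36) (nat_lit 5) (nat_lit 34) (nat_lit 5) (nat_lit 385) (nat_lit 300) (nat_lit 95)) (XT.lf (nat_lit 0) (nat_lit 9357400638) (nat_lit 152) (nat_lit 43547801363) (nat_lit 228) (nat_lit 16291441848) (nat_lit 31) (nat_lit 5) (nat_lit 33) (nat_lit 5) (nat_lit 34) (nat_lit 5) (nat_lit 386) (nat_lit 300) (nat_lit 94))) (XT.nd (nat_lit 78) (nat_lit 76) (nat_lit 0) (XT.lf (nat_lit 0) (nat_lit 34231803727) (nat_lit 152) (nat_lit 29933558437) (nat_lit 228) (nat_lit 6662013980) (nat_lit 31) (nat_lit 5) (nat_lit 33) (nat_lit 5) (nat_lit 34) (nat_lit 5) (nat_lit 387) (nat_lit 300) (nat_lit 93)) (XT.lf (nat_lit 0) (nat_lit 3190840933) (nat_lit 228) (nat_lit 12689106292) (nat_lit 76) (nat_lit 56626202759) (nat_lit 30) (nat_lit 5) (nat_lit 33) (nat_lit 5) (nat_lit 31) (nat_lit 5) (nat_lit 388) (nat_lit 300) (nat_lit 92))))))) (XT.nd (nat_lit 34320) (nat_lit 0) (nat_lit 10716)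 (XT.nd (nat_lit 33774) (nat_lit 0) (nat_lit 12464) (XT.nd (nat_lit 234) (nat_lit 152) (nat_lit 0) (XT.nd (nat_lit 78) (nat_lit 0) (nat_lit 0) (XT.lf (nat_lit 0) (nat_lit 12101619784) (nat_lit 152) (nat_lit 1218232023) (nat_lit 228) (nat_lit 60910023486) (nat_lit 28) (nat_lit 5) (nat_lit 30) (nat_lit 5) (nat_lit 31) (nat_lit 5) (nat_lit 389) (nat_lit 300) (nat_lit 91)) (XT.nd (nat_lit 78) (nat_lit 0) (nat_lit 0) (XT.lf (nat_lit 0) (nat_lit 24013746248) (nat_lit 228) (nat_lit 38243143378) (nat_lit 76) (nat_lit 13740593479) (nat_lit 28) (nat_lit 5) (nat_lit 31) (nat_lit 5) (nat_lit 29) (nat_lit 5) (nat_lit 390) (nat_lit 300) (nat_lit 90)) (XT.lf (nat_lit 0) (nat_lit 35038727360) (nat_lit 228) (nat_lit 13656581509) (nat_lit 76) (nat_lit 29122503295) (nat_lit 28) (nat_lit 5) (nat_lit 31) (nat_lit 5) (nat_lit 29) (nat_lit 5) (nat_lit 391) (nat_lit 300) (nat_lit 89)))) (XT.nd (nat_lit 78) (nat_lit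 0) (nat_lit 0) (XT.lf (nat_lit 0) (nat_lit 11896772777) (nat_lit 152) (nat_lit 34610304510) (nat_lit 228) (nat_lit 33182296304) (nat_lit 26) (nat_lit 5) (nat_lit 28) (nat_lit 5) (nat_lit 29) (nat_lit 5) (nat_lit 392) (nat_lit 300) (nat_lit 88)) (XT.nd (nat_lit 78) (nat_lit 0) (nat_lit 0) (XT.lf (nat_lit 0) (nat_lit 38493749856) (nat_lit 152) (nat_lit 19961915435) (nat_lit 228) (nat_lit 23157331987) (nat_lit 26) (nat_lit 5) (nat_lit 28) (nat_lit 5) (nat_lit 29) (nat_lit 5) (nat_lit 393) (nat_lit 300) (nat_lit 87)) (XT.lf (nat_lit 0) (nat_lit 65885797053) (nat_lit 152) (nat_lit 4875246779) (nat_lit 228) (nat_lit 12833336870) (nat_lit 26) (nat_lit 5) (nat_lit 28) (nat_lit 5) (nat_lit 29) (nat_lit 5) (nat_lit 394) (nat_lit 300) (nat_lit 86))))) (XT.nd (nat_lit 234) (nat_lit 0) (nat_lit 76) (XT.nd (nat_lit 78) (nat_lit 0) (nat_lit 0) (XT.lf (nat_lit 0) (nat_lit 5206960472) (nat_lit 1140) (nat_lit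 895746427) (nat_lit 1140) (nat_lit 895746427) (nat_lit 190) (nat_lit 3) (nat_lit 205) (nat_lit 3) (nat_lit 205) (nat_lit 5) (nat_lit 301) (nat_lit 301) (nat_lit 178)) (XT.nd (nat_lit 78) (nat_lit 0) (nat_lit 0) (XT.lf (nat_lit 76) (nat_lit 4490267484) (nat_lit 0) (nat_lit 6442031085) (nat_lit 1140) (nat_lit 3263182180) (nat_lit 191) (nat_lit 5) (nat_lit 190) (nat_lit 3) (nat_lit 205) (nat_lit 5) (nat_lit 302) (nat_lit 301) (nat_lit 177)) (XT.lf (nat_lit 76) (nat_lit 10990654939) (nat_lit 0) (nat_lit 481150295) (nat_lit 1140) (nat_lit 2928059583) (nat_lit 191) (nat_lit 5) (nat_lit 190) (nat_lit 3) (nat_lit 205) (nat_lit 5) (nat_lit 303) (nat_lit 301) (nat_lit 176)))) (XT.nd (nat_lit 156) (nat_lit 0) (nat_lit 76) (XT.nd (nat_lit 78) (nat_lit 0) (nat_lit 0) (XT.lf (nat_lit 76) (nat_lit 3074475823) (nat_lit 0) (nat_lit 9024875778) (nat_lit 1140) (nat_lit 2508892661) (nat_lit 192) (nat_lit 5) (nat_lit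 191) (nat_lit 5) (nat_lit 206) (nat_lit 5) (nat_lit 304) (nat_lit 301) (nat_lit 175)) (XT.lf (nat_lit 76) (nat_lit 9810967156) (nat_lit 0) (nat_lit 2962095455) (nat_lit 1140) (nat_lit 2049011257) (nat_lit 192) (nat_lit 5) (nat_lit 191) (nat_lit 5) (nat_lit 206) (nat_lit 5) (nat_lit 305) (nat_lit 301) (nat_lit 174))) (XT.nd (nat_lit 78) (nat_lit 0) (nat_lit 0) (XT.lf (nat_lit 76) (nat_lit 1701946703) (nat_lit 0) (nat_lit 11801538404) (nat_lit 1140) (nat_lit 1537756624) (nat_lit 193) (nat_lit 5) (nat_lit 192) (nat_lit 5) (nat_lit 207) (nat_lit 5) (nat_lit 306) (nat_lit 301) (nat_lit 173)) (XT.lf (nat_lit 76) (nat_lit 8682326011) (nat_lit 0) (nat_lit 5641989060) (nat_lit 1140) (nat_lit 940632554) (nat_lit 193) (nat_lit 5) (nat_lit 192) (nat_lit 5) (nat_lit 207) (nat_lit 5) (nat_lit 307) (nat_lit 301) (nat_lit 172)))))) (XT.nd (nat_lit 468) (nat_lit 836) (nat_lit 0) (XT.nd (nat_lit 234) (nat_lit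 0) (nat_lit 76) (XT.nd (nat_lit 78) (nat_lit 1140) (nat_lit 0) (XT.lf (nat_lit 76) (nat_lit 370165182) (nat_lit 0) (nat_lit 14799131227) (nat_lit 1140) (nat_lit 326099809) (nat_lit 194) (nat_lit 5) (nat_lit 193) (nat_lit 5) (nat_lit 208) (nat_lit 5) (nat_lit 308) (nat_lit 301) (nat_lit 171)) (XT.nd (nat_lit 78) (nat_lit 0) (nat_lit 0) (XT.lf (nat_lit 0) (nat_lit 413214697) (nat_lit 1140) (nat_lit 8130978384) (nat_lit 1216) (nat_lit 7185123003) (nat_lit 178) (nat_lit 5) (nat_lit 193) (nat_lit 5) (nat_lit 194) (nat_lit 5) (nat_lit 309) (nat_lit 301) (nat_lit 170)) (XT.lf (nat_lit 0) (nat_lit 1157807672) (nat_lit 1140) (nat_lit 937134539) (nat_lit 1216) (nat_lit 13875540722) (nat_lit 178) (nat_lit 5) (nat_lit 193) (nat_lit 5) (nat_lit 194) (nat_lit 5) (nat_lit 310) (nat_lit 301) (nat_lit 169)))) (XT.nd (nat_lit 78) (nat_lit 0) (nat_lit 0) (XT.lf (nat_lit 0) (nat_lit 2022457417) (nat_lit 1140) (nat_lit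 9667273161) (nat_lit 1216) (nat_lit 4526238029) (nat_lit 179) (nat_lit 5) (nat_lit 194) (nat_lit 5) (nat_lit 195) (nat_lit 5) (nat_lit 311) (nat_lit 301) (nat_lit 168)) (XT.nd (nat_lit 78) (nat_lit 0) (nat_lit 76) (XT.lf (nat_lit 0) (nat_lit 2933557685) (nat_lit 1140) (nat_lit 2218135925) (nat_lit 1216) (nat_lit 11316524849) (nat_lit 179) (nat_lit 5) (nat_lit 194) (nat_lit 5) (nat_lit 195) (nat_lit 5) (nat_lit 312) (nat_lit 301) (nat_lit 167)) (XT.lf (nat_lit 0) (nat_lit 3931661964) (nat_lit 1140) (nat_lit 11186475458) (nat_lit 1216) (nat_lit 1608122758) (nat_lit 180) (nat_lit 5) (nat_lit 195) (nat_lit 5) (nat_lit 196) (nat_lit 5) (nat_lit 313) (nat_lit 301) (nat_lit 166))))) (XT.nd (nat_lit 234) (nat_lit 988) (nat_lit 0) (XT.nd (nat_lit 78) (nat_lit 0) (nat_lit 0) (XT.lf (nat_lit 0) (nat_lit 5024069344) (nat_lit 1140) (nat_lit 3473806472) (nat_lit 1216) (nat_lit 8492250618) (nat_lit 180) (nat_lit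 5) (nat_lit 195) (nat_lit 5) (nat_lit 196) (nat_lit 5) (nat_lit 314) (nat_lit 301) (nat_lit 165)) (XT.nd (nat_lit 78) (nat_lit 0) (nat_lit 76) (XT.lf (nat_lit 76) (nat_lit 4552159723) (nat_lit 0) (nat_lit 1631849805) (nat_lit 1216) (nat_lit 11076870003) (nat_lit 181) (nat_lit 5) (nat_lit 180) (nat_lit 5) (nat_lit 196) (nat_lit 5) (nat_lit 315) (nat_lit 301) (nat_lit 164)) (XT.lf (nat_lit 0) (nat_lit 7457685511) (nat_lit 1140) (nat_lit 4708370014) (nat_lit 1216) (nat_lit 5371344843) (nat_lit 181) (nat_lit 5) (nat_lit 196) (nat_lit 5) (nat_lit 197) (nat_lit 5) (nat_lit 316) (nat_lit 301) (nat_lit 163)))) (XT.nd (nat_lit 156) (nat_lit 1064) (nat_lit 0) (XT.nd (nat_lit 78) (nat_lit 0) (nat_lit 76) (XT.lf (nat_lit 76) (nat_lit 3578735073) (nat_lit 0) (nat_lit 5232867945) (nat_lit 1216) (nat_lit 9009365759) (nat_lit 182) (nat_lit 5) (nat_lit 181) (nat_lit 5) (nat_lit 197) (nat_lit 5) (nat_lit 317)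 (nat_lit 301) (nat_lit 162)) (XT.lf (nat_lit 0) (nat_lit 10264167915) (nat_lit 1140) (nat_lit 5926603626) (nat_lit 76) (nat_lit 1920544314) (nat_lit 182) (nat_lit 5) (nat_lit 197) (nat_lit 5) (nat_lit 183) (nat_lit 5) (nat_lit 318) (nat_lit 301) (nat_lit 161))) (XT.nd (nat_lit 78) (nat_lit 0) (nat_lit 0) (XT.lf (nat_lit 0) (nat_lit 2631093506) (nat_lit 1140) (nat_lit 9198231049) (nat_lit 1216) (nat_lit 6578990492) (nat_lit 167) (nat_lit 5) (nat_lit 182) (nat_lit 5) (nat_lit 183) (nat_lit 5) (nat_lit 319) (nat_lit 301) (nat_lit 160)) (XT.lf (nat_lit 0) (nat_lit 11560145705) (nat_lit 1140) (nat_lit 1933219372) (nat_lit 1216) (nat_lit 5219313057) (nat_lit 167) (nat_lit 5) (nat_lit 182) (nat_lit 5) (nat_lit 183) (nat_lit 5) (nat_lit 320) (nat_lit 301) (nat_lit 159))))))))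
noncomputable def xc201 : XT := (XT.nd (nat_lit 2028) (nat_lit 3420) (nat_lit 0) (XT.nd (nat_lit 1014) (nat_lit 2584) (nat_lit 0) (XT.nd (nat_lit 468) (nat_lit 1444) (nat_lit 0) (XT.nd (nat_lit 234) (nat_lit 608) (nat_lit 0) (XT.nd (nat_lit 78) (nat_lit 608) (nat_lit 0) (XT.lf (nat_lit 0) (nat_lit 1703881357) (nat_lit 532) (nat_lit 13565494274) (nat_lit 608) (nat_lit 3754946467) (nat_lit 160) (nat_lit 5) (nat_lit 167) (nat_lit 5) (nat_lit 168) (nat_lit 5) (nat_lit 321) (nat_lit 301) (nat_lit 158)) (XT.nd (nat_lit 78) (nat_lit 608) (nat_lit 0) (XT.lf (nat_lit 0) (nat_lit 10946236214) (nat_lit 532) (nat_lit 6236090292) (nat_lit 608) (nat_lit 2160490191) (nat_lit 160) (nat_lit 5) (nat_lit 167) (nat_lit 5) (nat_lit 168) (nat_lit 5) (nat_lit 322) (nat_lit 301) (nat_lit 157)) (XT.lf (nat_lit 0) (nat_lit 790919949) (nat_lit 608) (nat_lit 18374677601) (nat_lit 684) (nat_lit 504891428) (nat_lit 152)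 (nat_lit 5) (nat_lit 160) (nat_lit 5) (nat_lit 161) (nat_lit 5) (nat_lit 323) (nat_lit 301) (nat_lit 156)))) (XT.nd (nat_lit 78) (nat_lit 532) (nat_lit 0) (XT.lf (nat_lit 0) (nat_lit 1317095080) (nat_lit 684) (nat_lit 9660375010) (nat_lit 76) (nat_lit 9025981043) (nat_lit 151) (nat_lit 5) (nat_lit 160) (nat_lit 5) (nat_lit 152) (nat_lit 5) (nat_lit 324) (nat_lit 301) (nat_lit 155)) (XT.nd (nat_lit 78) (nat_lit 532) (nat_lit 0) (XT.lf (nat_lit 0) (nat_lit 3176575374) (nat_lit 684) (nat_lit 176373622) (nat_lit 76) (nat_lit 16993523608) (nat_lit 151) (nat_lit 5) (nat_lit 160) (nat_lit 5) (nat_lit 152) (nat_lit 5) (nat_lit 325) (nat_lit 301) (nat_lit 154)) (XT.lf (nat_lit 0) (nat_lit 5223195208) (nat_lit 608) (nat_lit 10965024717) (nat_lit 76) (nat_lit 4507633727) (nat_lit 144) (nat_lit 5) (nat_lit 152) (nat_lit 5) (nat_lit 145) (nat_lit 5) (nat_lit 326) (nat_lit 301) (nat_lit 153))))) (XT.nd (nat_lit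 234) (nat_lit 912) (nat_lit 0) (XT.nd (nat_lit 78) (nat_lit 532) (nat_lit 0) (XT.lf (nat_lit 0) (nat_lit 7359533756) (nat_lit 608) (nat_lit 1156733985) (nat_lit 76) (nat_lit 12538608097) (nat_lit 144) (nat_lit 5) (nat_lit 152) (nat_lit 5) (nat_lit 145) (nat_lit 5) (nat_lit 327) (nat_lit 301) (nat_lit 152)) (XT.nd (nat_lit 78) (nat_lit 0) (nat_lit 0) (XT.lf (nat_lit 0) (nat_lit 9117191218) (nat_lit 532) (nat_lit 523929653) (nat_lit 608) (nat_lit 11781122106) (nat_lit 137) (nat_lit 5) (nat_lit 144) (nat_lit 5) (nat_lit 145) (nat_lit 5) (nat_lit 328) (nat_lit 301) (nat_lit 151)) (XT.lf (nat_lit 0) (nat_lit 12070691799) (nat_lit 608) (nat_lit 2158103945) (nat_lit 76) (nat_lit 7569458074) (nat_lit 137) (nat_lit 5) (nat_lit 145) (nat_lit 5) (nat_lit 138) (nat_lit 5) (nat_lit 329) (nat_lit 301) (nat_lit 150)))) (XT.nd (nat_lit 156) (nat_lit 456) (nat_lit 0) (XT.nd (nat_lit 78) (nat_lit 0) (nat_lit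 0) (XT.lf (nat_lit 0) (nat_lit 8446420948) (nat_lit 456) (nat_lit 6206937695) (nat_lit 532) (nat_lit 7529788598) (nat_lit 131) (nat_lit 5) (nat_lit 137) (nat_lit 5) (nat_lit 138) (nat_lit 5) (nat_lit 330) (nat_lit 301) (nat_lit 149)) (XT.lf (nat_lit 0) (nat_lit 17349217395) (nat_lit 532) (nat_lit 3192175468) (nat_lit 76) (nat_lit 2037131518) (nat_lit 131) (nat_lit 5) (nat_lit 138) (nat_lit 5) (nat_lit 132) (nat_lit 5) (nat_lit 331) (nat_lit 301) (nat_lit 148))) (XT.nd (nat_lit 78) (nat_lit 0) (nat_lit 0) (XT.lf (nat_lit 0) (nat_lit 7752133805) (nat_lit 456) (nat_lit 12503911631) (nat_lit 532) (nat_lit 2725822623) (nat_lit 125) (nat_lit 5) (nat_lit 131) (nat_lit 5) (nat_lit 132) (nat_lit 5) (nat_lit 332) (nat_lit 301) (nat_lit 147)) (XT.lf (nat_lit 0) (nat_lit 19083876224) (nat_lit 456) (nat_lit 4192667631) (nat_lit 532) (nat_lit 119982025) (nat_lit 125) (nat_lit 5) (nat_lit 131) (nat_lit 5)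 (nat_lit 132) (nat_lit 5) (nat_lit 333) (nat_lit 301) (nat_lit 146)))))) (XT.nd (nat_lit 468) (nat_lit 1216) (nat_lit 0) (XT.nd (nat_lit 234) (nat_lit 380) (nat_lit 0) (XT.nd (nat_lit 78) (nat_lit 456) (nat_lit 0) (XT.lf (nat_lit 0) (nat_lit 2618888567) (nat_lit 532) (nat_lit 16825550470) (nat_lit 76) (nat_lit 4375305684) (nat_lit 118) (nat_lit 5) (nat_lit 125) (nat_lit 5) (nat_lit 119) (nat_lit 5) (nat_lit 334) (nat_lit 301) (nat_lit 145)) (XT.nd (nat_lit 78) (nat_lit 456) (nat_lit 0) (XT.lf (nat_lit 0) (nat_lit 5517440861) (nat_lit 532) (nat_lit 5575210211) (nat_lit 76) (nat_lit 13160582740) (nat_lit 118) (nat_lit 5) (nat_lit 125) (nat_lit 5) (nat_lit 119) (nat_lit 5) (nat_lit 335) (nat_lit 301) (nat_lit 144)) (XT.lf (nat_lit 0) (nat_lit 6125991636) (nat_lit 456) (nat_lit 2430442010) (nat_lit 532) (nat_lit 16141696339) (nat_lit 112) (nat_lit 5) (nat_lit 118) (nat_lit 5) (nat_lit 119) (nat_lit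 5) (nat_lit 336) (nat_lit 301) (nat_lit 143)))) (XT.nd (nat_lit 78) (nat_lit 380) (nat_lit 0) (XT.lf (nat_lit 0) (nat_lit 11800541552) (nat_lit 532) (nat_lit 6931413211) (nat_lit 76) (nat_lit 6421006646) (nat_lit 112) (nat_lit 5) (nat_lit 119) (nat_lit 5) (nat_lit 113) (nat_lit 5) (nat_lit 337) (nat_lit 301) (nat_lit 142)) (XT.nd (nat_lit 78) (nat_lit 0) (nat_lit 0) (XT.lf (nat_lit 0) (nat_lit 5128441303) (nat_lit 380) (nat_lit 10081735300) (nat_lit 456) (nat_lit 10409221586) (nat_lit 107) (nat_lit 5) (nat_lit 112) (nat_lit 5) (nat_lit 113) (nat_lit 5) (nat_lit 338) (nat_lit 301) (nat_lit 141)) (XT.lf (nat_lit 0) (nat_lit 17686135504) (nat_lit 380) (nat_lit 1100893424) (nat_lit 456) (nat_lit 7310857637) (nat_lit 107) (nat_lit 5) (nat_lit 112) (nat_lit 5) (nat_lit 113) (nat_lit 5) (nat_lit 339) (nat_lit 301) (nat_lit 140))))) (XT.nd (nat_lit 234) (nat_lit 380) (nat_lit 0) (XT.nd (nat_lit 78)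 (nat_lit 456) (nat_lit 0) (XT.lf (nat_lit 0) (nat_lit 4024005332) (nat_lit 380) (nat_lit 18559272411) (nat_lit 456) (nat_lit 4004095275) (nat_lit 102) (nat_lit 5) (nat_lit 107) (nat_lit 5) (nat_lit 108) (nat_lit 5) (nat_lit 340) (nat_lit 301) (nat_lit 139)) (XT.nd (nat_lit 78) (nat_lit 456) (nat_lit 0) (XT.lf (nat_lit 0) (nat_lit 16988197461) (nat_lit 380) (nat_lit 9596111066) (nat_lit 456) (nat_lit 504514678) (nat_lit 102) (nat_lit 5) (nat_lit 107) (nat_lit 5) (nat_lit 108) (nat_lit 5) (nat_lit 341) (nat_lit 301) (nat_lit 138)) (XT.lf (nat_lit 0) (nat_lit 2754060926) (nat_lit 380) (nat_lit 307220932) (nat_lit 456) (nat_lit 24542495033) (nat_lit 96) (nat_lit 5) (nat_lit 101) (nat_lit 5) (nat_lit 102) (nat_lit 5) (nat_lit 342) (nat_lit 301) (nat_lit 137)))) (XT.nd (nat_lit 156) (nat_lit 0) (nat_lit 0) (XT.nd (nat_lit 78) (nat_lit 380) (nat_lit 0) (XT.lf (nat_lit 0) (nat_lit 6911253819) (nat_lit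 456) (nat_lit 12030655645) (nat_lit 76) (nat_lit 9186505081) (nat_lit 96) (nat_lit 5) (nat_lit 102) (nat_lit 5) (nat_lit 97) (nat_lit 5) (nat_lit 343) (nat_lit 301) (nat_lit 136)) (XT.lf (nat_lit 0) (nat_lit 1187320680) (nat_lit 380) (nat_lit 9699315009) (nat_lit 456) (nat_lit 17781863628) (nat_lit 91) (nat_lit 5) (nat_lit 96) (nat_lit 5) (nat_lit 97) (nat_lit 5) (nat_lit 344) (nat_lit 301) (nat_lit 135))) (XT.nd (nat_lit 78) (nat_lit 0) (nat_lit 0) (XT.lf (nat_lit 0) (nat_lit 15042726724) (nat_lit 380) (nat_lit 55571345) (nat_lit 456) (nat_lit 14122983147) (nat_lit 91) (nat_lit 5) (nat_lit 96) (nat_lit 5) (nat_lit 97) (nat_lit 5) (nat_lit 345) (nat_lit 301) (nat_lit 134)) (XT.lf (nat_lit 0) (nat_lit 19526910120) (nat_lit 456) (nat_lit 577482841) (nat_lit 76) (nat_lit 9683540620) (nat_lit 91) (nat_lit 5) (nat_lit 97) (nat_lit 5) (nat_lit 92) (nat_lit 5) (nat_lit 346) (nat_lit 301) (nat_lit 133)))))))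 (XT.nd (nat_lit 1014) (nat_lit 1444) (nat_lit 0) (XT.nd (nat_lit 468) (nat_lit 912) (nat_lit 0) (XT.nd (nat_lit 234) (nat_lit 304) (nat_lit 0) (XT.nd (nat_lit 78) (nat_lit 456) (nat_lit 0) (XT.lf (nat_lit 0) (nat_lit 13692748310) (nat_lit 304) (nat_lit 10523583541) (nat_lit 380) (nat_lit 6151419986) (nat_lit 87) (nat_lit 5) (nat_lit 91) (nat_lit 5) (nat_lit 92) (nat_lit 5) (nat_lit 347) (nat_lit 301) (nat_lit 132)) (XT.nd (nat_lit 78) (nat_lit 456) (nat_lit 0) (XT.lf (nat_lit 0) (nat_lit 28397461043) (nat_lit 304) (nat_lit 650655122) (nat_lit 380) (nat_lit 1916802793) (nat_lit 87) (nat_lit 5) (nat_lit 91) (nat_lit 5) (nat_lit 92) (nat_lit 5) (nat_lit 348) (nat_lit 301) (nat_lit 131)) (XT.lf (nat_lit 0) (nat_lit 2602949963) (nat_lit 456) (nat_lit 19496846952) (nat_lit 76) (nat_lit 9473329434) (nat_lit 81) (nat_lit 5) (nat_lit 87) (nat_lit 5) (nat_lit 82) (nat_lit 5) (nat_lit 349) (nat_lit 301)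 (nat_lit 130)))) (XT.nd (nat_lit 78) (nat_lit 304) (nat_lit 0) (XT.lf (nat_lit 0) (nat_lit 7248374203) (nat_lit 456) (nat_lit 5017968582) (nat_lit 76) (nat_lit 19931814005) (nat_lit 81) (nat_lit 5) (nat_lit 87) (nat_lit 5) (nat_lit 82) (nat_lit 5) (nat_lit 350) (nat_lit 301) (nat_lit 129)) (XT.nd (nat_lit 78) (nat_lit 0) (nat_lit 0) (XT.lf (nat_lit 0) (nat_lit 10086816414) (nat_lit 304) (nat_lit 2039402124) (nat_lit 380) (nat_lit 20712932076) (nat_lit 77) (nat_lit 5) (nat_lit 81) (nat_lit 5) (nat_lit 82) (nat_lit 5) (nat_lit 351) (nat_lit 301) (nat_lit 128)) (XT.lf (nat_lit 0) (nat_lit 17279371021) (nat_lit 380) (nat_lit 7837744073) (nat_lit 76) (nat_lit 8378394041) (nat_lit 77) (nat_lit 5) (nat_lit 82) (nat_lit 5) (nat_lit 78) (nat_lit 5) (nat_lit 352) (nat_lit 301) (nat_lit 127))))) (XT.nd (nat_lit 234) (nat_lit 380) (nat_lit 0) (XT.nd (nat_lit 78) (nat_lit 228) (nat_lit 0) (XT.lf (nat_lit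 0) (nat_lit 7648146373) (nat_lit 304) (nat_lit 15028941319) (nat_lit 380) (nat_lit 11491775584) (nat_lit 73) (nat_lit 5) (nat_lit 77) (nat_lit 5) (nat_lit 78) (nat_lit 5) (nat_lit 353) (nat_lit 301) (nat_lit 126)) (XT.nd (nat_lit 78) (nat_lit 228) (nat_lit 0) (XT.lf (nat_lit 0) (nat_lit 23754142302) (nat_lit 304) (nat_lit 4558057844) (nat_lit 380) (nat_lit 6547957802) (nat_lit 73) (nat_lit 5) (nat_lit 77) (nat_lit 5) (nat_lit 78) (nat_lit 5) (nat_lit 354) (nat_lit 301) (nat_lit 125)) (XT.lf (nat_lit 0) (nat_lit 4799846631) (nat_lit 228) (nat_lit 29418927756) (nat_lit 304) (nat_lit 1350348545) (nat_lit 70) (nat_lit 5) (nat_lit 73) (nat_lit 5) (nat_lit 74) (nat_lit 5) (nat_lit 355) (nat_lit 301) (nat_lit 124)))) (XT.nd (nat_lit 156) (nat_lit 0) (nat_lit 0) (XT.nd (nat_lit 78) (nat_lit 304) (nat_lit 0) (XT.lf (nat_lit 0) (nat_lit 4079890674) (nat_lit 304) (nat_lit 14975275711) (nat_lit 76) (nat_lit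 17238395007) (nat_lit 69) (nat_lit 5) (nat_lit 73) (nat_lit 5) (nat_lit 70) (nat_lit 5) (nat_lit 356) (nat_lit 301) (nat_lit 123)) (XT.lf (nat_lit 0) (nat_lit 1299573545) (nat_lit 304) (nat_lit 8355348809) (nat_lit 380) (nat_lit 27384142188) (nat_lit 65) (nat_lit 5) (nat_lit 69) (nat_lit 5) (nat_lit 70) (nat_lit 5) (nat_lit 357) (nat_lit 301) (nat_lit 122))) (XT.nd (nat_lit 78) (nat_lit 0) (nat_lit 0) (XT.lf (nat_lit 0) (nat_lit 15572118189) (nat_lit 380) (nat_lit 19464872268) (nat_lit 76) (nat_lit 2764698240) (nat_lit 65) (nat_lit 5) (nat_lit 70) (nat_lit 5) (nat_lit 66) (nat_lit 5) (nat_lit 358) (nat_lit 301) (nat_lit 121)) (XT.lf (nat_lit 0) (nat_lit 21746228924) (nat_lit 380) (nat_lit 2789599027) (nat_lit 76) (nat_lit 14048984868) (nat_lit 65) (nat_lit 5) (nat_lit 70) (nat_lit 5) (nat_lit 66) (nat_lit 5) (nat_lit 359) (nat_lit 301) (nat_lit 120)))))) (XT.nd (nat_lit 546) (nat_lit 684) (nat_lit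 0) (XT.nd (nat_lit 234) (nat_lit 228) (nat_lit 0) (XT.nd (nat_lit 78) (nat_lit 304) (nat_lit 0) (XT.lf (nat_lit 0) (nat_lit 14667430474) (nat_lit 228) (nat_lit 13575894528) (nat_lit 304) (nat_lit 11143975921) (nat_lit 62) (nat_lit 5) (nat_lit 65) (nat_lit 5) (nat_lit 66) (nat_lit 5) (nat_lit 360) (nat_lit 301) (nat_lit 119)) (XT.nd (nat_lit 78) (nat_lit 304) (nat_lit 0) (XT.lf (nat_lit 0) (nat_lit 32700684811) (nat_lit 228) (nat_lit 2259637535) (nat_lit 304) (nat_lit 5252794701) (nat_lit 62) (nat_lit 5) (nat_lit 65) (nat_lit 5) (nat_lit 66) (nat_lit 5) (nat_lit 361) (nat_lit 301) (nat_lit 118)) (XT.lf (nat_lit 0) (nat_lit 987456758) (nat_lit 304) (nat_lit 30750173324) (nat_lit 76) (nat_lit 9320198138) (nat_lit 58) (nat_lit 5) (nat_lit 62) (nat_lit 5) (nat_lit 59) (nat_lit 5) (nat_lit 362) (nat_lit 301) (nat_lit 117)))) (XT.nd (nat_lit 156) (nat_lit 0) (nat_lit 0) (XT.nd (nat_lit 78) (nat_lit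 228) (nat_lit 0) (XT.lf (nat_lit 0) (nat_lit 7405235400) (nat_lit 304) (nat_lit 13189029144) (nat_lit 76) (nat_lit 21329181853) (nat_lit 58) (nat_lit 5) (nat_lit 62) (nat_lit 5) (nat_lit 59) (nat_lit 5) (nat_lit 363) (nat_lit 301) (nat_lit 116)) (XT.lf (nat_lit 0) (nat_lit 4991858732) (nat_lit 228) (nat_lit 9068674467) (nat_lit 304) (nat_lit 28753153035) (nat_lit 55) (nat_lit 5) (nat_lit 58) (nat_lit 5) (nat_lit 59) (nat_lit 5) (nat_lit 364) (nat_lit 301) (nat_lit 115))) (XT.nd (nat_lit 78) (nat_lit 0) (nat_lit 0) (XT.lf (nat_lit 0) (nat_lit 21073964108) (nat_lit 304) (nat_lit 19770894579) (nat_lit 76) (nat_lit 2881022966) (nat_lit 55) (nat_lit 5) (nat_lit 59) (nat_lit 5) (nat_lit 56) (nat_lit 5) (nat_lit 365) (nat_lit 301) (nat_lit 114)) (XT.lf (nat_lit 0) (nat_lit 28384704361) (nat_lit 304) (nat_lit 1272622983) (nat_lit 76) (nat_lit 15005510934) (nat_lit 55) (nat_lit 5) (nat_lit 59) (nat_lit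 5) (nat_lit 56) (nat_lit 5) (nat_lit 366) (nat_lit 301) (nat_lit 113))))) (XT.nd (nat_lit 234) (nat_lit 228) (nat_lit 0) (XT.nd (nat_lit 78) (nat_lit 228) (nat_lit 0) (XT.lf (nat_lit 0) (nat_lit 18130108183) (nat_lit 228) (nat_lit 17956137845) (nat_lit 304) (nat_lit 9536515660) (nat_lit 52) (nat_lit 5) (nat_lit 55) (nat_lit 5) (nat_lit 56) (nat_lit 5) (nat_lit 367) (nat_lit 301) (nat_lit 112)) (XT.nd (nat_lit 78) (nat_lit 228) (nat_lit 0) (XT.lf (nat_lit 0) (nat_lit 38136778403) (nat_lit 228) (nat_lit 5892148897) (nat_lit 304) (nat_lit 2582255088) (nat_lit 52) (nat_lit 5) (nat_lit 55) (nat_lit 5) (nat_lit 56) (nat_lit 5) (nat_lit 368) (nat_lit 301) (nat_lit 111)) (XT.lf (nat_lit 0) (nat_lit 4661337305) (nat_lit 228) (nat_lit 36402629146) (nat_lit 76) (nat_lit 6558867897) (nat_lit 49) (nat_lit 5) (nat_lit 52) (nat_lit 5) (nat_lit 50) (nat_lit 5) (nat_lit 369) (nat_lit 301) (nat_lit 110)))) (XT.nd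 (nat_lit 156) (nat_lit 0) (nat_lit 0) (XT.nd (nat_lit 78) (nat_lit 228) (nat_lit 0) (XT.lf (nat_lit 0) (nat_lit 12212416042) (nat_lit 228) (nat_lit 17071841931) (nat_lit 76) (nat_lit 19375550693) (nat_lit 49) (nat_lit 5) (nat_lit 52) (nat_lit 5) (nat_lit 50) (nat_lit 5) (nat_lit 370) (nat_lit 301) (nat_lit 109)) (XT.lf (nat_lit 0) (nat_lit 2891218356) (nat_lit 228) (nat_lit 17123998123) (nat_lit 304) (nat_lit 29711922179) (nat_lit 46) (nat_lit 5) (nat_lit 49) (nat_lit 5) (nat_lit 50) (nat_lit 5) (nat_lit 371) (nat_lit 301) (nat_lit 108))) (XT.nd (nat_lit 78) (nat_lit 0) (nat_lit 0) (XT.lf (nat_lit 0) (nat_lit 23799097738) (nat_lit 228) (nat_lit 4422829584) (nat_lit 304) (nat_lit 22599468498) (nat_lit 46) (nat_lit 5) (nat_lit 49) (nat_lit 5) (nat_lit 50) (nat_lit 5) (nat_lit 372) (nat_lit 301) (nat_lit 107)) (XT.lf (nat_lit 0) (nat_lit 36755574031) (nat_lit 304) (nat_lit 6701480869) (nat_lit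 76) (nat_lit 8489005762) (nat_lit 46) (nat_lit 5) (nat_lit 50) (nat_lit 5) (nat_lit 47) (nat_lit 5) (nat_lit 373) (nat_lit 301) (nat_lit 106))))))))
noncomputable def xc202 : XT := (XT.nd (nat_lit 35490) (nat_lit 0) (nat_lit 7524) (XT.nd (nat_lit 1014) (nat_lit 532) (nat_lit 0) (XT.nd (nat_lit 468) (nat_lit 380) (nat_lit 0) (XT.nd (nat_lit 234) (nat_lit 152) (nat_lit 0) (XT.nd (nat_lit 78) (nat_lit 304) (nat_lit 0) (XT.lf (nat_lit 0) (nat_lit 14463547666) (nat_lit 152) (nat_lit 31262073626) (nat_lit 228) (nat_lit 7373434366) (nat_lit 44) (nat_lit 5) (nat_lit 46) (nat_lit 5) (nat_lit 47) (nat_lit 5) (nat_lit 374) (nat_lit 301) (nat_lit 105)) (XT.nd (nat_lit 78) (nat_lit 228) (nat_lit 0) (XT.lf (nat_lit 0) (nat_lit 730815351) (nat_lit 228) (nat_lit 17894769059) (nat_lit 76) (nat_lit 35658884809) (nat_lit 43) (nat_lit 5) (nat_lit 46) (nat_lit 5) (nat_lit 44) (nat_lit 5) (nat_lit 375) (nat_lit 301)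 (nat_lit 104)) (XT.lf (nat_lit 0) (nat_lit 3458925645) (nat_lit 228) (nat_lit 5501964873) (nat_lit 304) (nat_lit 46541439416) (nat_lit 40) (nat_lit 5) (nat_lit 43) (nat_lit 5) (nat_lit 44) (nat_lit 5) (nat_lit 376) (nat_lit 301) (nat_lit 103)))) (XT.nd (nat_lit 78) (nat_lit 152) (nat_lit 0) (XT.lf (nat_lit 0) (nat_lit 17695074384) (nat_lit 304) (nat_lit 31013865903) (nat_lit 76) (nat_lit 8040071720) (nat_lit 40) (nat_lit 5) (nat_lit 44) (nat_lit 5) (nat_lit 41) (nat_lit 5) (nat_lit 377) (nat_lit 301) (nat_lit 102)) (XT.nd (nat_lit 78) (nat_lit 152) (nat_lit 0) (XT.lf (nat_lit 0) (nat_lit 26743493284) (nat_lit 304) (nat_lit 9411585390) (nat_lit 76) (nat_lit 21876451257) (nat_lit 40) (nat_lit 5) (nat_lit 44) (nat_lit 5) (nat_lit 41) (nat_lit 5) (nat_lit 378) (nat_lit 301) (nat_lit 101)) (XT.lf (nat_lit 0) (nat_lit 13090646951) (nat_lit 152) (nat_lit 23096353707) (nat_lit 228) (nat_lit 23161815285)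 (nat_lit 38) (nat_lit 5) (nat_lit 40) (nat_lit 5) (nat_lit 41) (nat_lit 5) (nat_lit 379) (nat_lit 301) (nat_lit 100))))) (XT.nd (nat_lit 234) (nat_lit 152) (nat_lit 0) (XT.nd (nat_lit 78) (nat_lit 228) (nat_lit 0) (XT.lf (nat_lit 0) (nat_lit 36457347202) (nat_lit 152) (nat_lit 9549335364) (nat_lit 228) (nat_lit 14696153470) (nat_lit 38) (nat_lit 5) (nat_lit 40) (nat_lit 5) (nat_lit 41) (nat_lit 5) (nat_lit 380) (nat_lit 301) (nat_lit 99)) (XT.nd (nat_lit 78) (nat_lit 228) (nat_lit 0) (XT.lf (nat_lit 0) (nat_lit 56161171036) (nat_lit 228) (nat_lit 1618239752) (nat_lit 76) (nat_lit 4316860996) (nat_lit 38) (nat_lit 5) (nat_lit 41) (nat_lit 5) (nat_lit 39) (nat_lit 5) (nat_lit 381) (nat_lit 301) (nat_lit 98)) (XT.lf (nat_lit 0) (nat_lit 3335676820) (nat_lit 228) (nat_lit 41535505147) (nat_lit 76) (nat_lit 18650224348) (nat_lit 35) (nat_lit 5) (nat_lit 38) (nat_lit 5) (nat_lit 36) (nat_lit 5) (nat_lit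 382) (nat_lit 301) (nat_lit 97)))) (XT.nd (nat_lit 156) (nat_lit 0) (nat_lit 0) (XT.nd (nat_lit 78) (nat_lit 152) (nat_lit 0) (XT.lf (nat_lit 0) (nat_lit 12779740158) (nat_lit 228) (nat_lit 18719775673) (nat_lit 76) (nat_lit 33487583991) (nat_lit 35) (nat_lit 5) (nat_lit 38) (nat_lit 5) (nat_lit 36) (nat_lit 5) (nat_lit 383) (nat_lit 301) (nat_lit 96)) (XT.lf (nat_lit 0) (nat_lit 4872214206) (nat_lit 152) (nat_lit 17679754872) (nat_lit 228) (nat_lit 43943451108) (nat_lit 33) (nat_lit 5) (nat_lit 35) (nat_lit 5) (nat_lit 36) (nat_lit 5) (nat_lit 384) (nat_lit 301) (nat_lit 95))) (XT.nd (nat_lit 78) (nat_lit 0) (nat_lit 0) (XT.lf (nat_lit 0) (nat_lit 29552447122) (nat_lit 152) (nat_lit 3251986468) (nat_lit 228) (nat_lit 35238945834) (nat_lit 33) (nat_lit 5) (nat_lit 35) (nat_lit 5) (nat_lit 36) (nat_lit 5) (nat_lit 385) (nat_lit 301) (nat_lit 94)) (XT.lf (nat_lit 0) (nat_lit 43474142018) (nat_lit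 228) (nat_lit 14779484928) (nat_lit 76) (nat_lit 11380861677) (nat_lit 33) (nat_lit 5) (nat_lit 36) (nat_lit 5) (nat_lit 34) (nat_lit 5) (nat_lit 386) (nat_lit 301) (nat_lit 93)))))) (XT.nd (nat_lit 468) (nat_lit 152) (nat_lit 0) (XT.nd (nat_lit 234) (nat_lit 152) (nat_lit 0) (XT.nd (nat_lit 78) (nat_lit 76) (nat_lit 0) (XT.lf (nat_lit 0) (nat_lit 9799213893) (nat_lit 152) (nat_lit 44789258499) (nat_lit 228) (nat_lit 16681124034) (nat_lit 31) (nat_lit 5) (nat_lit 33) (nat_lit 5) (nat_lit 34) (nat_lit 5) (nat_lit 387) (nat_lit 301) (nat_lit 92)) (XT.nd (nat_lit 78) (nat_lit 76) (nat_lit 0) (XT.lf (nat_lit 0) (nat_lit 35415157098) (nat_lit 152) (nat_lit 30768480815) (nat_lit 228) (nat_lit 6765698603) (nat_lit 31) (nat_lit 5) (nat_lit 33) (nat_lit 5) (nat_lit 34) (nat_lit 5) (nat_lit 388) (nat_lit 301) (nat_lit 91)) (XT.lf (nat_lit 0) (nat_lit 3378118647) (nat_lit 228) (nat_lit 12916055529) (nat_lit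 76) (nat_lit 58384355796) (nat_lit 30) (nat_lit 5) (nat_lit 33) (nat_lit 5) (nat_lit 31) (nat_lit 5) (nat_lit 389) (nat_lit 301) (nat_lit 90)))) (XT.nd (nat_lit 78) (nat_lit 0) (nat_lit 0) (XT.lf (nat_lit 0) (nat_lit 12616885232) (nat_lit 152) (nat_lit 1192911239) (nat_lit 228) (nat_lit 62644208358) (nat_lit 28) (nat_lit 5) (nat_lit 30) (nat_lit 5) (nat_lit 31) (nat_lit 5) (nat_lit 390) (nat_lit 301) (nat_lit 89)) (XT.nd (nat_lit 78) (nat_lit 0) (nat_lit 0) (XT.lf (nat_lit 0) (nat_lit 24822453607) (nat_lit 228) (nat_lit 39240545576) (nat_lit 76) (nat_lit 14211704955) (nat_lit 28) (nat_lit 5) (nat_lit 31) (nat_lit 5) (nat_lit 29) (nat_lit 5) (nat_lit 391) (nat_lit 301) (nat_lit 88)) (XT.lf (nat_lit 0) (nat_lit 36175612454) (nat_lit 228) (nat_lit 13920752641) (nat_lit 76) (nat_lit 30053356716) (nat_lit 28) (nat_lit 5) (nat_lit 31) (nat_lit 5) (nat_lit 29) (nat_lit 5) (nat_lit 392) (nat_lit 301)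 (nat_lit 87))))) (XT.nd (nat_lit 33696) (nat_lit 0) (nat_lit 12464) (XT.nd (nat_lit 33540) (nat_lit 0) (nat_lit 12464) (XT.lf (nat_lit 0) (nat_lit 12397775546) (nat_lit 152) (nat_lit 35589125712) (nat_lit 228) (nat_lit 34090563715) (nat_lit 26) (nat_lit 5) (nat_lit 28) (nat_lit 5) (nat_lit 29) (nat_lit 5) (nat_lit 393) (nat_lit 301) (nat_lit 86)) (XT.nd (nat_lit 78) (nat_lit 0) (nat_lit 0) (XT.lf (nat_lit 0) (nat_lit 5679108422) (nat_lit 1140) (nat_lit 759655418) (nat_lit 1140) (nat_lit 759655418) (nat_lit 190) (nat_lit 3) (nat_lit 205) (nat_lit 3) (nat_lit 205) (nat_lit 5) (nat_lit 302) (nat_lit 302) (nat_lit 176)) (XT.lf (nat_lit 76) (nat_lit 4947706950) (nat_lit 0) (nat_lit 6929136919) (nat_lit 1140) (nat_lit 2725014706) (nat_lit 191) (nat_lit 5) (nat_lit 190) (nat_lit 3) (nat_lit 205) (nat_lit 5) (nat_lit 303) (nat_lit 302) (nat_lit 175)))) (XT.nd (nat_lit 156) (nat_lit 0) (nat_lit 76) (XT.nd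 (nat_lit 78) (nat_lit 0) (nat_lit 76) (XT.lf (nat_lit 76) (nat_lit 11633706084) (nat_lit 0) (nat_lit 780871115) (nat_lit 1140) (nat_lit 2398364536) (nat_lit 191) (nat_lit 5) (nat_lit 190) (nat_lit 3) (nat_lit 205) (nat_lit 5) (nat_lit 304) (nat_lit 302) (nat_lit 174)) (XT.lf (nat_lit 76) (nat_lit 3498418723) (nat_lit 0) (nat_lit 9545621879) (nat_lit 1140) (nat_lit 1984067219) (nat_lit 192) (nat_lit 5) (nat_lit 191) (nat_lit 5) (nat_lit 206) (nat_lit 5) (nat_lit 305) (nat_lit 302) (nat_lit 173))) (XT.nd (nat_lit 78) (nat_lit 0) (nat_lit 76) (XT.lf (nat_lit 76) (nat_lit 10427343380) (nat_lit 0) (nat_lit 3293676597) (nat_lit 1140) (nat_lit 1527867787) (nat_lit 192) (nat_lit 5) (nat_lit 191) (nat_lit 5) (nat_lit 206) (nat_lit 5) (nat_lit 306) (nat_lit 302) (nat_lit 172)) (XT.lf (nat_lit 76) (nat_lit 2091878606) (nat_lit 0) (nat_lit 12366019321) (nat_lit 1140) (nat_lit 1017222823) (nat_lit 193) (nat_lit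 5) (nat_lit 192) (nat_lit 5) (nat_lit 207) (nat_lit 5) (nat_lit 307) (nat_lit 302) (nat_lit 171))))))) (XT.nd (nat_lit 1014) (nat_lit 3192) (nat_lit 0) (XT.nd (nat_lit 468) (nat_lit 836) (nat_lit 0) (XT.nd (nat_lit 234) (nat_lit 0) (nat_lit 0) (XT.nd (nat_lit 78) (nat_lit 1064) (nat_lit 0) (XT.lf (nat_lit 76) (nat_lit 9271799191) (nat_lit 0) (nat_lit 6015554328) (nat_lit 1140) (nat_lit 418689880) (nat_lit 193) (nat_lit 5) (nat_lit 192) (nat_lit 5) (nat_lit 207) (nat_lit 5) (nat_lit 308) (nat_lit 302) (nat_lit 170)) (XT.nd (nat_lit 78) (nat_lit 0) (nat_lit 0) (XT.lf (nat_lit 0) (nat_lit 195803927) (nat_lit 1140) (nat_lit 15220093731) (nat_lit 1216) (nat_lit 527898938) (nat_lit 178) (nat_lit 5) (nat_lit 193) (nat_lit 5) (nat_lit 194) (nat_lit 5) (nat_lit 309) (nat_lit 302) (nat_lit 169)) (XT.lf (nat_lit 0) (nat_lit 935448467) (nat_lit 1140) (nat_lit 8029601399) (nat_lit 1216) (nat_lit 7220069613)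 (nat_lit 178) (nat_lit 5) (nat_lit 193) (nat_lit 5) (nat_lit 194) (nat_lit 5) (nat_lit 310) (nat_lit 302) (nat_lit 168)))) (XT.nd (nat_lit 78) (nat_lit 0) (nat_lit 76) (XT.lf (nat_lit 0) (nat_lit 1687529601) (nat_lit 1140) (nat_lit 629999706) (nat_lit 1216) (nat_lit 14116460264) (nat_lit 178) (nat_lit 5) (nat_lit 193) (nat_lit 5) (nat_lit 194) (nat_lit 5) (nat_lit 311) (nat_lit 302) (nat_lit 167)) (XT.nd (nat_lit 78) (nat_lit 0) (nat_lit 0) (XT.lf (nat_lit 0) (nat_lit 2565433554) (nat_lit 1140) (nat_lit 9608621065) (nat_lit 1216) (nat_lit 4513187837) (nat_lit 179) (nat_lit 5) (nat_lit 194) (nat_lit 5) (nat_lit 195) (nat_lit 5) (nat_lit 312) (nat_lit 302) (nat_lit 166)) (XT.lf (nat_lit 0) (nat_lit 3489819186) (nat_lit 1140) (nat_lit 1946165158) (nat_lit 1216) (nat_lit 11511518330) (nat_lit 179) (nat_lit 5) (nat_lit 194) (nat_lit 5) (nat_lit 195) (nat_lit 5) (nat_lit 313) (nat_lit 302) (nat_lit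 165))))) (XT.nd (nat_lit 234) (nat_lit 988) (nat_lit 0) (XT.nd (nat_lit 78) (nat_lit 0) (nat_lit 0) (XT.lf (nat_lit 0) (nat_lit 4506271302) (nat_lit 1140) (nat_lit 11171265706) (nat_lit 1216) (nat_lit 1536117314) (nat_lit 180) (nat_lit 5) (nat_lit 195) (nat_lit 5) (nat_lit 196) (nat_lit 5) (nat_lit 314) (nat_lit 302) (nat_lit 164)) (XT.nd (nat_lit 78) (nat_lit 0) (nat_lit 0) (XT.lf (nat_lit 0) (nat_lit 5618150142) (nat_lit 1140) (nat_lit 3237434243) (nat_lit 1216) (nat_lit 8630271412) (nat_lit 180) (nat_lit 5) (nat_lit 195) (nat_lit 5) (nat_lit 196) (nat_lit 5) (nat_lit 315) (nat_lit 302) (nat_lit 163)) (XT.lf (nat_lit 76) (nat_lit 5025971856) (nat_lit 0) (nat_lit 1777245143) (nat_lit 1216) (nat_lit 10961824256) (nat_lit 181) (nat_lit 5) (nat_lit 180) (nat_lit 5) (nat_lit 196) (nat_lit 5) (nat_lit 316) (nat_lit 302) (nat_lit 162)))) (XT.nd (nat_lit 156) (nat_lit 1064) (nat_lit 0) (XT.nd (nat_lit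 78) (nat_lit 0) (nat_lit 0) (XT.lf (nat_lit 0) (nat_lit 8101571557) (nat_lit 1140) (nat_lit 4508029811) (nat_lit 1216) (nat_lit 5440681348) (nat_lit 181) (nat_lit 5) (nat_lit 196) (nat_lit 5) (nat_lit 197) (nat_lit 5) (nat_lit 317) (nat_lit 302) (nat_lit 161)) (XT.lf (nat_lit 76) (nat_lit 4024339494) (nat_lit 0) (nat_lit 5462780950) (nat_lit 1216) (nat_lit 8855525814) (nat_lit 182) (nat_lit 5) (nat_lit 181) (nat_lit 5) (nat_lit 197) (nat_lit 5) (nat_lit 318) (nat_lit 302) (nat_lit 160))) (XT.nd (nat_lit 78) (nat_lit 1140) (nat_lit 0) (XT.lf (nat_lit 0) (nat_lit 10970605882) (nat_lit 1140) (nat_lit 5762756132) (nat_lit 76) (nat_lit 1908739383) (nat_lit 182) (nat_lit 5) (nat_lit 197) (nat_lit 5) (nat_lit 183) (nat_lit 5) (nat_lit 319) (nat_lit 302) (nat_lit 159)) (XT.lf (nat_lit 0) (nat_lit 3048322447) (nat_lit 1140) (nat_lit 9526039511) (nat_lit 1216) (nat_lit 6373916698) (nat_lit 167) (nat_lit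 5) (nat_lit 182) (nat_lit 5) (nat_lit 183) (nat_lit 5) (nat_lit 320) (nat_lit 302) (nat_lit 158)))))) (XT.nd (nat_lit 468) (nat_lit 1444) (nat_lit 0) (XT.nd (nat_lit 234) (nat_lit 1216) (nat_lit 0) (XT.nd (nat_lit 78) (nat_lit 532) (nat_lit 0) (XT.lf (nat_lit 0) (nat_lit 12235392926) (nat_lit 1140) (nat_lit 2041566953) (nat_lit 1216) (nat_lit 4985170596) (nat_lit 167) (nat_lit 5) (nat_lit 182) (nat_lit 5) (nat_lit 183) (nat_lit 5) (nat_lit 321) (nat_lit 302) (nat_lit 157)) (XT.nd (nat_lit 78) (nat_lit 0) (nat_lit 0) (XT.lf (nat_lit 0) (nat_lit 2092510941) (nat_lit 532) (nat_lit 14005481454) (nat_lit 608) (nat_lit 3485395546) (nat_lit 160) (nat_lit 5) (nat_lit 167) (nat_lit 5) (nat_lit 168) (nat_lit 5) (nat_lit 322) (nat_lit 302) (nat_lit 156)) (XT.lf (nat_lit 0) (nat_lit 11602305964) (nat_lit 532) (nat_lit 6455233537) (nat_lit 608) (nat_lit 1854237601) (nat_lit 160) (nat_lit 5) (nat_lit 167)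 (nat_lit 5) (nat_lit 168) (nat_lit 5) (nat_lit 323) (nat_lit 302) (nat_lit 155)))) (XT.nd (nat_lit 78) (nat_lit 608) (nat_lit 0) (XT.lf (nat_lit 0) (nat_lit 1150635876) (nat_lit 608) (nat_lit 18942125358) (nat_lit 684) (nat_lit 156760229) (nat_lit 152) (nat_lit 5) (nat_lit 160) (nat_lit 5) (nat_lit 161) (nat_lit 5) (nat_lit 324) (nat_lit 302) (nat_lit 154)) (XT.nd (nat_lit 78) (nat_lit 532) (nat_lit 0) (XT.lf (nat_lit 0) (nat_lit 1702422574) (nat_lit 684) (nat_lit 9616614937) (nat_lit 76) (nat_lit 9273656044) (nat_lit 151) (nat_lit 5) (nat_lit 160) (nat_lit 5) (nat_lit 152) (nat_lit 5) (nat_lit 325) (nat_lit 302) (nat_lit 153)) (XT.lf (nat_lit 0) (nat_lit 145020698) (nat_lit 532) (nat_lit 3463988335) (nat_lit 608) (nat_lit 17337271159) (nat_lit 144) (nat_lit 5) (nat_lit 151) (nat_lit 5) (nat_lit 152) (nat_lit 5) (nat_lit 326) (nat_lit 302) (nat_lit 152))))) (XT.nd (nat_lit 234) (nat_lit 912)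 (nat_lit 0) (XT.nd (nat_lit 78) (nat_lit 532) (nat_lit 0) (XT.lf (nat_lit 0) (nat_lit 5708856695) (nat_lit 608) (nat_lit 10962884329) (nat_lit 76) (nat_lit 4634660533) (nat_lit 144) (nat_lit 5) (nat_lit 152) (nat_lit 5) (nat_lit 145) (nat_lit 5) (nat_lit 327) (nat_lit 302) (nat_lit 151)) (XT.nd (nat_lit 78) (nat_lit 532) (nat_lit 0) (XT.lf (nat_lit 0) (nat_lit 7899703877) (nat_lit 608) (nat_lit 869988307) (nat_lit 76) (nat_lit 12906803032) (nat_lit 144) (nat_lit 5) (nat_lit 152) (nat_lit 5) (nat_lit 145) (nat_lit 5) (nat_lit 328) (nat_lit 302) (nat_lit 150)) (XT.lf (nat_lit 0) (nat_lit 9709003204) (nat_lit 532) (nat_lit 534492608) (nat_lit 608) (nat_lit 11811587811) (nat_lit 137) (nat_lit 5) (nat_lit 144) (nat_lit 5) (nat_lit 145) (nat_lit 5) (nat_lit 329) (nat_lit 302) (nat_lit 149)))) (XT.nd (nat_lit 156) (nat_lit 456) (nat_lit 0) (XT.nd (nat_lit 78) (nat_lit 456) (nat_lit 0) (XT.lf (nat_lit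 0) (nat_lit 12736881358) (nat_lit 608) (nat_lit 1904329258) (nat_lit 76) (nat_lit 7801448945) (nat_lit 137) (nat_lit 5) (nat_lit 145) (nat_lit 5) (nat_lit 138) (nat_lit 5) (nat_lit 330) (nat_lit 302) (nat_lit 148)) (XT.lf (nat_lit 0) (nat_lit 9015208658) (nat_lit 456) (nat_lit 6375994946) (nat_lit 532) (nat_lit 7448083147) (nat_lit 131) (nat_lit 5) (nat_lit 137) (nat_lit 5) (nat_lit 138) (nat_lit 5) (nat_lit 331) (nat_lit 302) (nat_lit 147))) (XT.nd (nat_lit 78) (nat_lit 456) (nat_lit 0) (XT.lf (nat_lit 0) (nat_lit 18159411457) (nat_lit 532) (nat_lit 2972809543) (nat_lit 76) (nat_lit 2114571876) (nat_lit 131) (nat_lit 5) (nat_lit 138) (nat_lit 5) (nat_lit 132) (nat_lit 5) (nat_lit 332) (nat_lit 302) (nat_lit 146)) (XT.lf (nat_lit 0) (nat_lit 8296739487) (nat_lit 456) (nat_lit 12851266013) (nat_lit 532) (nat_lit 2514406056) (nat_lit 125) (nat_lit 5) (nat_lit 131) (nat_lit 5) (nat_lit 132) (nat_lit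 5) (nat_lit 333) (nat_lit 302) (nat_lit 145))))))))
noncomputable def xc203 : XT := (XT.nd (nat_lit 2028) (nat_lit 2432) (nat_lit 0) (XT.nd (nat_lit 1014) (nat_lit 1976) (nat_lit 0) (XT.nd (nat_lit 468) (nat_lit 1216) (nat_lit 0) (XT.nd (nat_lit 234) (nat_lit 836) (nat_lit 0) (XT.nd (nat_lit 78) (nat_lit 456) (nat_lit 0) (XT.lf (nat_lit 0) (nat_lit 157927149) (nat_lit 532) (nat_lit 4131971419) (nat_lit 76) (nat_lit 19799823681) (nat_lit 124) (nat_lit 5) (nat_lit 131) (nat_lit 5) (nat_lit 125) (nat_lit 5) (nat_lit 334) (nat_lit 302) (nat_lit 144)) (XT.nd (nat_lit 78) (nat_lit 0) (nat_lit 0) (XT.lf (nat_lit 0) (nat_lit 2971670200) (nat_lit 532) (nat_lit 17016213477) (nat_lit 76) (nat_lit 4537875354) (nat_lit 118) (nat_lit 5) (nat_lit 125) (nat_lit 5) (nat_lit 119) (nat_lit 5) (nat_lit 335) (nat_lit 302) (nat_lit 143)) (XT.lf (nat_lit 0) (nat_lit 5949192219) (nat_lit 532) (nat_lit 5437511656) (nat_lit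 76) (nat_lit 13585798765) (nat_lit 118) (nat_lit 5) (nat_lit 125) (nat_lit 5) (nat_lit 119) (nat_lit 5) (nat_lit 336) (nat_lit 302) (nat_lit 142)))) (XT.nd (nat_lit 78) (nat_lit 380) (nat_lit 0) (XT.lf (nat_lit 0) (nat_lit 6611736493) (nat_lit 456) (nat_lit 2462766750) (nat_lit 532) (nat_lit 16356397944) (nat_lit 112) (nat_lit 5) (nat_lit 118) (nat_lit 5) (nat_lit 119) (nat_lit 5) (nat_lit 337) (nat_lit 302) (nat_lit 141)) (XT.nd (nat_lit 78) (nat_lit 380) (nat_lit 0) (XT.lf (nat_lit 0) (nat_lit 12408700274) (nat_lit 532) (nat_lit 6838629739) (nat_lit 76) (nat_lit 6652274216) (nat_lit 112) (nat_lit 5) (nat_lit 119) (nat_lit 5) (nat_lit 113) (nat_lit 5) (nat_lit 338) (nat_lit 302) (nat_lit 140)) (XT.lf (nat_lit 0) (nat_lit 5580072118) (nat_lit 380) (nat_lit 10336012470) (nat_lit 456) (nat_lit 10464095089) (nat_lit 107) (nat_lit 5) (nat_lit 112) (nat_lit 5) (nat_lit 113) (nat_lit 5) (nat_lit 339)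 (nat_lit 302) (nat_lit 139))))) (XT.nd (nat_lit 234) (nat_lit 836) (nat_lit 0) (XT.nd (nat_lit 78) (nat_lit 380) (nat_lit 0) (XT.lf (nat_lit 0) (nat_lit 18505824011) (nat_lit 380) (nat_lit 1087148490) (nat_lit 456) (nat_lit 7280277400) (nat_lit 107) (nat_lit 5) (nat_lit 112) (nat_lit 5) (nat_lit 113) (nat_lit 5) (nat_lit 340) (nat_lit 302) (nat_lit 138)) (XT.nd (nat_lit 78) (nat_lit 0) (nat_lit 0) (XT.lf (nat_lit 0) (nat_lit 4438049398) (nat_lit 380) (nat_lit 19061257261) (nat_lit 456) (nat_lit 3878237186) (nat_lit 102) (nat_lit 5) (nat_lit 107) (nat_lit 5) (nat_lit 108) (nat_lit 5) (nat_lit 341) (nat_lit 302) (nat_lit 137)) (XT.lf (nat_lit 0) (nat_lit 17782623876) (nat_lit 380) (nat_lit 9830796998) (nat_lit 456) (nat_lit 280833665) (nat_lit 102) (nat_lit 5) (nat_lit 107) (nat_lit 5) (nat_lit 108) (nat_lit 5) (nat_lit 342) (nat_lit 302) (nat_lit 136)))) (XT.nd (nat_lit 156) (nat_lit 380) (nat_lit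 0) (XT.nd (nat_lit 78) (nat_lit 0) (nat_lit 0) (XT.lf (nat_lit 0) (nat_lit 3123560583) (nat_lit 380) (nat_lit 259653574) (nat_lit 456) (nat_lit 25041503766) (nat_lit 96) (nat_lit 5) (nat_lit 101) (nat_lit 5) (nat_lit 102) (nat_lit 5) (nat_lit 343) (nat_lit 302) (nat_lit 135)) (XT.lf (nat_lit 0) (nat_lit 7342513459) (nat_lit 456) (nat_lit 12106619722) (nat_lit 76) (nat_lit 9516154530) (nat_lit 96) (nat_lit 5) (nat_lit 102) (nat_lit 5) (nat_lit 97) (nat_lit 5) (nat_lit 344) (nat_lit 302) (nat_lit 134))) (XT.nd (nat_lit 78) (nat_lit 0) (nat_lit 0) (XT.lf (nat_lit 0) (nat_lit 1505102212) (nat_lit 380) (nat_lit 9928244886) (nat_lit 456) (nat_lit 18088349839) (nat_lit 91) (nat_lit 5) (nat_lit 96) (nat_lit 5) (nat_lit 97) (nat_lit 5) (nat_lit 345) (nat_lit 302) (nat_lit 133)) (XT.lf (nat_lit 0) (nat_lit 15764977184) (nat_lit 456) (nat_lit 14323338767) (nat_lit 76) (nat_lit 2945203) (nat_lit 91) (nat_lit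 5) (nat_lit 97) (nat_lit 5) (nat_lit 92) (nat_lit 5) (nat_lit 346) (nat_lit 302) (nat_lit 132)))))) (XT.nd (nat_lit 468) (nat_lit 912) (nat_lit 0) (XT.nd (nat_lit 234) (nat_lit 760) (nat_lit 0) (XT.nd (nat_lit 78) (nat_lit 304) (nat_lit 0) (XT.lf (nat_lit 0) (nat_lit 20320756632) (nat_lit 456) (nat_lit 322941162) (nat_lit 76) (nat_lit 10031393207) (nat_lit 91) (nat_lit 5) (nat_lit 97) (nat_lit 5) (nat_lit 92) (nat_lit 5) (nat_lit 347) (nat_lit 302) (nat_lit 131)) (XT.nd (nat_lit 78) (nat_lit 0) (nat_lit 0) (XT.lf (nat_lit 0) (nat_lit 14372731568) (nat_lit 304) (nat_lit 10774657774) (nat_lit 380) (nat_lit 6125025585) (nat_lit 87) (nat_lit 5) (nat_lit 91) (nat_lit 5) (nat_lit 92) (nat_lit 5) (nat_lit 348) (nat_lit 302) (nat_lit 130)) (XT.lf (nat_lit 0) (nat_lit 29510744883) (nat_lit 304) (nat_lit 607424025) (nat_lit 380) (nat_lit 1769513673) (nat_lit 87) (nat_lit 5) (nat_lit 91) (nat_lit 5) (nat_lit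 92) (nat_lit 5) (nat_lit 349) (nat_lit 302) (nat_lit 129)))) (XT.nd (nat_lit 78) (nat_lit 304) (nat_lit 0) (XT.lf (nat_lit 0) (nat_lit 2879144384) (nat_lit 456) (nat_lit 19813273261) (nat_lit 76) (nat_lit 9821746603) (nat_lit 81) (nat_lit 5) (nat_lit 87) (nat_lit 5) (nat_lit 82) (nat_lit 5) (nat_lit 350) (nat_lit 302) (nat_lit 128)) (XT.nd (nat_lit 78) (nat_lit 304) (nat_lit 0) (XT.lf (nat_lit 0) (nat_lit 7658161275) (nat_lit 456) (nat_lit 4907848320) (nat_lit 76) (nat_lit 20592115305) (nat_lit 81) (nat_lit 5) (nat_lit 87) (nat_lit 5) (nat_lit 82) (nat_lit 5) (nat_lit 351) (nat_lit 302) (nat_lit 127)) (XT.lf (nat_lit 0) (nat_lit 10647524743) (nat_lit 304) (nat_lit 2031695235) (nat_lit 380) (nat_lit 21139228205) (nat_lit 77) (nat_lit 5) (nat_lit 81) (nat_lit 5) (nat_lit 82) (nat_lit 5) (nat_lit 352) (nat_lit 302) (nat_lit 126))))) (XT.nd (nat_lit 234) (nat_lit 608) (nat_lit 0) (XT.nd (nat_lit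 78) (nat_lit 304) (nat_lit 0) (XT.lf (nat_lit 0) (nat_lit 17982098838) (nat_lit 380) (nat_lit 7817227286) (nat_lit 76) (nat_lit 8695323223) (nat_lit 77) (nat_lit 5) (nat_lit 82) (nat_lit 5) (nat_lit 78) (nat_lit 5) (nat_lit 353) (nat_lit 302) (nat_lit 125)) (XT.nd (nat_lit 78) (nat_lit 0) (nat_lit 0) (XT.lf (nat_lit 0) (nat_lit 8130733510) (nat_lit 304) (nat_lit 15408077541) (nat_lit 380) (nat_lit 11649486809) (nat_lit 73) (nat_lit 5) (nat_lit 77) (nat_lit 5) (nat_lit 78) (nat_lit 5) (nat_lit 354) (nat_lit 302) (nat_lit 124)) (XT.lf (nat_lit 0) (nat_lit 24712536227) (nat_lit 304) (nat_lit 4625156843) (nat_lit 380) (nat_lit 6562802320) (nat_lit 73) (nat_lit 5) (nat_lit 77) (nat_lit 5) (nat_lit 78) (nat_lit 5) (nat_lit 355) (nat_lit 302) (nat_lit 123)))) (XT.nd (nat_lit 156) (nat_lit 304) (nat_lit 0) (XT.nd (nat_lit 78) (nat_lit 76) (nat_lit 0) (XT.lf (nat_lit 0) (nat_lit 5191952989) (nat_lit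 228) (nat_lit 30227416584) (nat_lit 304) (nat_lit 1211427944) (nat_lit 70) (nat_lit 5) (nat_lit 73) (nat_lit 5) (nat_lit 74) (nat_lit 5) (nat_lit 356) (nat_lit 302) (nat_lit 122)) (XT.lf (nat_lit 0) (nat_lit 4373092939) (nat_lit 304) (nat_lit 15180082272) (nat_lit 76) (nat_lit 17823900938) (nat_lit 69) (nat_lit 5) (nat_lit 73) (nat_lit 5) (nat_lit 70) (nat_lit 5) (nat_lit 357) (nat_lit 302) (nat_lit 121))) (XT.nd (nat_lit 78) (nat_lit 0) (nat_lit 0) (XT.lf (nat_lit 0) (nat_lit 1580615875) (nat_lit 304) (nat_lit 8532111556) (nat_lit 380) (nat_lit 28032301296) (nat_lit 65) (nat_lit 5) (nat_lit 69) (nat_lit 5) (nat_lit 70) (nat_lit 5) (nat_lit 358) (nat_lit 302) (nat_lit 120)) (XT.lf (nat_lit 0) (nat_lit 16203231014) (nat_lit 380) (nat_lit 19809447054) (nat_lit 76) (nat_lit 2917984533) (nat_lit 65) (nat_lit 5) (nat_lit 70) (nat_lit 5) (nat_lit 66) (nat_lit 5) (nat_lit 359) (nat_lit 302) (nat_lit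 119))))))) (XT.nd (nat_lit 1014) (nat_lit 988) (nat_lit 0) (XT.nd (nat_lit 468) (nat_lit 684) (nat_lit 0) (XT.nd (nat_lit 234) (nat_lit 532) (nat_lit 0) (XT.nd (nat_lit 78) (nat_lit 228) (nat_lit 0) (XT.lf (nat_lit 0) (nat_lit 22557789849) (nat_lit 380) (nat_lit 2640887598) (nat_lit 76) (nat_lit 14538750867) (nat_lit 65) (nat_lit 5) (nat_lit 70) (nat_lit 5) (nat_lit 66) (nat_lit 5) (nat_lit 360) (nat_lit 302) (nat_lit 118)) (XT.nd (nat_lit 78) (nat_lit 0) (nat_lit 0) (XT.lf (nat_lit 0) (nat_lit 15337574363) (nat_lit 228) (nat_lit 13909800373) (nat_lit 304) (nat_lit 11316693522) (nat_lit 62) (nat_lit 5) (nat_lit 65) (nat_lit 5) (nat_lit 66) (nat_lit 5) (nat_lit 361) (nat_lit 302) (nat_lit 117)) (XT.lf (nat_lit 0) (nat_lit 33905123778) (nat_lit 228) (nat_lit 2256192689) (nat_lit 304) (nat_lit 5253483711) (nat_lit 62) (nat_lit 5) (nat_lit 65) (nat_lit 5) (nat_lit 66) (nat_lit 5) (nat_lit 362) (nat_lit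 302) (nat_lit 116)))) (XT.nd (nat_lit 78) (nat_lit 228) (nat_lit 0) (XT.lf (nat_lit 0) (nat_lit 1169290843) (nat_lit 304) (nat_lit 31444298491) (nat_lit 76) (nat_lit 9671270889) (nat_lit 58) (nat_lit 5) (nat_lit 62) (nat_lit 5) (nat_lit 59) (nat_lit 5) (nat_lit 363) (nat_lit 302) (nat_lit 115)) (XT.nd (nat_lit 78) (nat_lit 228) (nat_lit 0) (XT.lf (nat_lit 0) (nat_lit 7775169532) (nat_lit 304) (nat_lit 13362971832) (nat_lit 76) (nat_lit 22038442557) (nat_lit 58) (nat_lit 5) (nat_lit 62) (nat_lit 5) (nat_lit 59) (nat_lit 5) (nat_lit 364) (nat_lit 302) (nat_lit 114)) (XT.lf (nat_lit 0) (nat_lit 5361168876) (nat_lit 228) (nat_lit 9266763694) (nat_lit 304) (nat_lit 29465668055) (nat_lit 55) (nat_lit 5) (nat_lit 58) (nat_lit 5) (nat_lit 59) (nat_lit 5) (nat_lit 365) (nat_lit 302) (nat_lit 113))))) (XT.nd (nat_lit 234) (nat_lit 456) (nat_lit 0) (XT.nd (nat_lit 78) (nat_lit 228) (nat_lit 0) (XT.lf (nat_lit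 0) (nat_lit 21848216457) (nat_lit 304) (nat_lit 20147186928) (nat_lit 76) (nat_lit 3037868768) (nat_lit 55) (nat_lit 5) (nat_lit 59) (nat_lit 5) (nat_lit 56) (nat_lit 5) (nat_lit 366) (nat_lit 302) (nat_lit 112)) (XT.nd (nat_lit 78) (nat_lit 228) (nat_lit 0) (XT.lf (nat_lit 0) (nat_lit 29374142022) (nat_lit 304) (nat_lit 1100282752) (nat_lit 76) (nat_lit 15524040449) (nat_lit 55) (nat_lit 5) (nat_lit 59) (nat_lit 5) (nat_lit 56) (nat_lit 5) (nat_lit 367) (nat_lit 302) (nat_lit 111)) (XT.lf (nat_lit 0) (nat_lit 18882466438) (nat_lit 228) (nat_lit 18422250894) (nat_lit 304) (nat_lit 9682532914) (nat_lit 52) (nat_lit 5) (nat_lit 55) (nat_lit 5) (nat_lit 56) (nat_lit 5) (nat_lit 368) (nat_lit 302) (nat_lit 110)))) (XT.nd (nat_lit 156) (nat_lit 228) (nat_lit 0) (XT.nd (nat_lit 78) (nat_lit 228) (nat_lit 0) (XT.lf (nat_lit 0) (nat_lit 39483265260) (nat_lit 228) (nat_lit 5998455999) (nat_lit 304) (nat_lit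 2523724473) (nat_lit 52) (nat_lit 5) (nat_lit 55) (nat_lit 5) (nat_lit 56) (nat_lit 5) (nat_lit 369) (nat_lit 302) (nat_lit 109)) (XT.lf (nat_lit 0) (nat_lit 4933280187) (nat_lit 228) (nat_lit 37288210217) (nat_lit 76) (nat_lit 6825958111) (nat_lit 49) (nat_lit 5) (nat_lit 52) (nat_lit 5) (nat_lit 50) (nat_lit 5) (nat_lit 370) (nat_lit 302) (nat_lit 108))) (XT.nd (nat_lit 78) (nat_lit 228) (nat_lit 0) (XT.lf (nat_lit 0) (nat_lit 12707043633) (nat_lit 228) (nat_lit 17383513886) (nat_lit 76) (nat_lit 20025093114) (nat_lit 49) (nat_lit 5) (nat_lit 52) (nat_lit 5) (nat_lit 50) (nat_lit 5) (nat_lit 371) (nat_lit 302) (nat_lit 107)) (XT.lf (nat_lit 0) (nat_lit 3176472688) (nat_lit 228) (nat_lit 17565628084) (nat_lit 304) (nat_lit 30472957619) (nat_lit 46) (nat_lit 5) (nat_lit 49) (nat_lit 5) (nat_lit 50) (nat_lit 5) (nat_lit 372) (nat_lit 302) (nat_lit 106)))))) (XT.nd (nat_lit 546) (nat_lit 532)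 (nat_lit 0) (XT.nd (nat_lit 234) (nat_lit 304) (nat_lit 0) (XT.nd (nat_lit 78) (nat_lit 152) (nat_lit 0) (XT.lf (nat_lit 0) (nat_lit 24705806380) (nat_lit 228) (nat_lit 4485524197) (nat_lit 304) (nat_lit 23150926120) (nat_lit 46) (nat_lit 5) (nat_lit 49) (nat_lit 5) (nat_lit 50) (nat_lit 5) (nat_lit 373) (nat_lit 302) (nat_lit 105)) (XT.nd (nat_lit 78) (nat_lit 152) (nat_lit 0) (XT.lf (nat_lit 0) (nat_lit 37978064771) (nat_lit 304) (nat_lit 6712385569) (nat_lit 76) (nat_lit 8810301674) (nat_lit 46) (nat_lit 5) (nat_lit 50) (nat_lit 5) (nat_lit 47) (nat_lit 5) (nat_lit 374) (nat_lit 302) (nat_lit 104)) (XT.lf (nat_lit 0) (nat_lit 15085729706) (nat_lit 152) (nat_lit 32129803558) (nat_lit 228) (nat_lit 7472856791) (nat_lit 44) (nat_lit 5) (nat_lit 46) (nat_lit 5) (nat_lit 47) (nat_lit 5) (nat_lit 375) (nat_lit 302) (nat_lit 103)))) (XT.nd (nat_lit 156) (nat_lit 0) (nat_lit 0) (XT.nd (nat_lit 78)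 (nat_lit 228) (nat_lit 0) (XT.lf (nat_lit 0) (nat_lit 868666247) (nat_lit 228) (nat_lit 18246425477) (nat_lit 76) (nat_lit 36794346144) (nat_lit 43) (nat_lit 5) (nat_lit 46) (nat_lit 5) (nat_lit 44) (nat_lit 5) (nat_lit 376) (nat_lit 302) (nat_lit 102)) (XT.lf (nat_lit 0) (nat_lit 3746064513) (nat_lit 228) (nat_lit 5597965333) (nat_lit 304) (nat_lit 47819855526) (nat_lit 40) (nat_lit 5) (nat_lit 43) (nat_lit 5) (nat_lit 44) (nat_lit 5) (nat_lit 377) (nat_lit 302) (nat_lit 101))) (XT.nd (nat_lit 78) (nat_lit 0) (nat_lit 0) (XT.lf (nat_lit 0) (nat_lit 18337554231) (nat_lit 304) (nat_lit 31763484087) (nat_lit 76) (nat_lit 8347012616) (nat_lit 40) (nat_lit 5) (nat_lit 44) (nat_lit 5) (nat_lit 41) (nat_lit 5) (nat_lit 378) (nat_lit 302) (nat_lit 100)) (XT.lf (nat_lit 0) (nat_lit 27654174408) (nat_lit 304) (nat_lit 9518401114) (nat_lit 76) (nat_lit 22596568819) (nat_lit 40) (nat_lit 5) (nat_lit 44)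 (nat_lit 5) (nat_lit 41) (nat_lit 5) (nat_lit 379) (nat_lit 302) (nat_lit 99))))) (XT.nd (nat_lit 234) (nat_lit 380) (nat_lit 0) (XT.nd (nat_lit 78) (nat_lit 0) (nat_lit 0) (XT.lf (nat_lit 0) (nat_lit 13657177297) (nat_lit 152) (nat_lit 23722323891) (nat_lit 228) (nat_lit 23746494655) (nat_lit 38) (nat_lit 5) (nat_lit 40) (nat_lit 5) (nat_lit 41) (nat_lit 5) (nat_lit 380) (nat_lit 302) (nat_lit 98)) (XT.nd (nat_lit 78) (nat_lit 0) (nat_lit 0) (XT.lf (nat_lit 0) (nat_lit 37719816102) (nat_lit 152) (nat_lit 9770844137) (nat_lit 228) (nat_lit 15030071969) (nat_lit 38) (nat_lit 5) (nat_lit 40) (nat_lit 5) (nat_lit 41) (nat_lit 5) (nat_lit 381) (nat_lit 302) (nat_lit 97)) (XT.lf (nat_lit 0) (nat_lit 57947367079) (nat_lit 228) (nat_lit 1500463789) (nat_lit 76) (nat_lit 4508214850) (nat_lit 38) (nat_lit 5) (nat_lit 41) (nat_lit 5) (nat_lit 39) (nat_lit 5) (nat_lit 382) (nat_lit 302) (nat_lit 96))))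 (XT.nd (nat_lit 156) (nat_lit 152) (nat_lit 0) (XT.nd (nat_lit 78) (nat_lit 0) (nat_lit 0) (XT.lf (nat_lit 0) (nat_lit 3536798785) (nat_lit 228) (nat_lit 42614797459) (nat_lit 76) (nat_lit 19272351531) (nat_lit 35) (nat_lit 5) (nat_lit 38) (nat_lit 5) (nat_lit 36) (nat_lit 5) (nat_lit 383) (nat_lit 302) (nat_lit 95)) (XT.lf (nat_lit 0) (nat_lit 13261240771) (nat_lit 228) (nat_lit 19119453563) (nat_lit 76) (nat_lit 34553008066) (nat_lit 35) (nat_lit 5) (nat_lit 38) (nat_lit 5) (nat_lit 36) (nat_lit 5) (nat_lit 384) (nat_lit 302) (nat_lit 94))) (XT.nd (nat_lit 78) (nat_lit 0) (nat_lit 0) (XT.lf (nat_lit 0) (nat_lit 5178708608) (nat_lit 152) (nat_lit 18146611595) (nat_lit 228) (nat_lit 45161993619) (nat_lit 33) (nat_lit 5) (nat_lit 35) (nat_lit 5) (nat_lit 36) (nat_lit 5) (nat_lit 385) (nat_lit 302) (nat_lit 93)) (XT.lf (nat_lit 0) (nat_lit 30594678764) (nat_lit 152) (nat_lit 3287860699) (nat_lit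 228) (nat_lit 36199258848) (nat_lit 33) (nat_lit 5) (nat_lit 35) (nat_lit 5) (nat_lit 36) (nat_lit 5) (nat_lit 386) (nat_lit 302) (nat_lit 92))))))))
noncomputable def xc204 : XT := (XT.nd (nat_lit 35568) (nat_lit 0) (nat_lit 4788) (XT.nd (nat_lit 34554) (nat_lit 0) (nat_lit 10564) (XT.nd (nat_lit 468) (nat_lit 0) (nat_lit 0) (XT.nd (nat_lit 234) (nat_lit 228) (nat_lit 0) (XT.nd (nat_lit 78) (nat_lit 152) (nat_lit 0) (XT.lf (nat_lit 0) (nat_lit 44870177757) (nat_lit 228) (nat_lit 15069522130) (nat_lit 76) (nat_lit 11781007585) (nat_lit 33) (nat_lit 5) (nat_lit 36) (nat_lit 5) (nat_lit 34) (nat_lit 5) (nat_lit 387) (nat_lit 302) (nat_lit 91)) (XT.nd (nat_lit 78) (nat_lit 0) (nat_lit 0) (XT.lf (nat_lit 0) (nat_lit 10245034251) (nat_lit 152) (nat_lit 46071689288) (nat_lit 228) (nat_lit 17088183195) (nat_lit 31) (nat_lit 5) (nat_lit 33) (nat_lit 5) (nat_lit 34) (nat_lit 5) (nat_lit 388) (nat_lit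 302) (nat_lit 90)) (XT.lf (nat_lit 0) (nat_lit 36625033112) (nat_lit 152) (nat_lit 31632072167) (nat_lit 228) (nat_lit 6878014649) (nat_lit 31) (nat_lit 5) (nat_lit 33) (nat_lit 5) (nat_lit 34) (nat_lit 5) (nat_lit 389) (nat_lit 302) (nat_lit 89)))) (XT.nd (nat_lit 78) (nat_lit 152) (nat_lit 0) (XT.lf (nat_lit 0) (nat_lit 3565759204) (nat_lit 228) (nat_lit 13158637627) (nat_lit 76) (nat_lit 60191845518) (nat_lit 30) (nat_lit 5) (nat_lit 33) (nat_lit 5) (nat_lit 31) (nat_lit 5) (nat_lit 390) (nat_lit 302) (nat_lit 88)) (XT.nd (nat_lit 78) (nat_lit 0) (nat_lit 0) (XT.lf (nat_lit 0) (nat_lit 13138870773) (nat_lit 152) (nat_lit 1170382294) (nat_lit 228) (nat_lit 64435764005) (nat_lit 28) (nat_lit 5) (nat_lit 30) (nat_lit 5) (nat_lit 31) (nat_lit 5) (nat_lit 391) (nat_lit 302) (nat_lit 87)) (XT.lf (nat_lit 0) (nat_lit 25650353694) (nat_lit 228) (nat_lit 40276474260) (nat_lit 76) (nat_lit 14693569037)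 (nat_lit 28) (nat_lit 5) (nat_lit 31) (nat_lit 5) (nat_lit 29) (nat_lit 5) (nat_lit 392) (nat_lit 302) (nat_lit 86))))) (XT.nd (nat_lit 33774) (nat_lit 0) (nat_lit 12312) (XT.nd (nat_lit 33618) (nat_lit 0) (nat_lit 12312) (XT.lf (nat_lit 0) (nat_lit 37341683234) (nat_lit 228) (nat_lit 14201202712) (nat_lit 76) (nat_lit 31008853470) (nat_lit 28) (nat_lit 5) (nat_lit 31) (nat_lit 5) (nat_lit 29) (nat_lit 5) (nat_lit 393) (nat_lit 302) (nat_lit 85)) (XT.nd (nat_lit 78) (nat_lit 0) (nat_lit 0) (XT.lf (nat_lit 0) (nat_lit 6147284612) (nat_lit 1140) (nat_lit 628836445) (nat_lit 1140) (nat_lit 628836445) (nat_lit 190) (nat_lit 3) (nat_lit 205) (nat_lit 3) (nat_lit 205) (nat_lit 5) (nat_lit 303) (nat_lit 303) (nat_lit 174)) (XT.lf (nat_lit 76) (nat_lit 5400343496) (nat_lit 0) (nat_lit 7413988028) (nat_lit 1140) (nat_lit 2207214823) (nat_lit 191) (nat_lit 5) (nat_lit 190) (nat_lit 3) (nat_lit 205) (nat_lit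 5) (nat_lit 304) (nat_lit 303) (nat_lit 173)))) (XT.nd (nat_lit 156) (nat_lit 0) (nat_lit 76) (XT.nd (nat_lit 78) (nat_lit 0) (nat_lit 76) (XT.lf (nat_lit 76) (nat_lit 12278062254) (nat_lit 0) (nat_lit 1073206959) (nat_lit 1140) (nat_lit 1888227778) (nat_lit 191) (nat_lit 5) (nat_lit 190) (nat_lit 3) (nat_lit 205) (nat_lit 5) (nat_lit 305) (nat_lit 303) (nat_lit 172)) (XT.lf (nat_lit 76) (nat_lit 3916038478) (nat_lit 0) (nat_lit 10067639350) (nat_lit 1140) (nat_lit 1477944762) (nat_lit 192) (nat_lit 5) (nat_lit 191) (nat_lit 5) (nat_lit 206) (nat_lit 5) (nat_lit 306) (nat_lit 303) (nat_lit 171))) (XT.nd (nat_lit 78) (nat_lit 0) (nat_lit 76) (XT.lf (nat_lit 76) (nat_lit 11043724063) (nat_lit 0) (nat_lit 3621272152) (nat_lit 1140) (nat_lit 1024534429) (nat_lit 192) (nat_lit 5) (nat_lit 191) (nat_lit 5) (nat_lit 206) (nat_lit 5) (nat_lit 307) (nat_lit 303) (nat_lit 170)) (XT.lf (nat_lit 76) (nat_lit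 2474055741) (nat_lit 0) (nat_lit 12935354849) (nat_lit 1140) (nat_lit 513601982) (nat_lit 193) (nat_lit 5) (nat_lit 192) (nat_lit 5) (nat_lit 207) (nat_lit 5) (nat_lit 308) (nat_lit 303) (nat_lit 169)))))) (XT.nd (nat_lit 468) (nat_lit 760) (nat_lit 0) (XT.nd (nat_lit 234) (nat_lit 0) (nat_lit 76) (XT.nd (nat_lit 78) (nat_lit 0) (nat_lit 76) (XT.lf (nat_lit 0) (nat_lit 85625430) (nat_lit 1140) (nat_lit 6302108498) (nat_lit 1216) (nat_lit 9773580346) (nat_lit 177) (nat_lit 5) (nat_lit 192) (nat_lit 5) (nat_lit 193) (nat_lit 5) (nat_lit 309) (nat_lit 303) (nat_lit 168)) (XT.nd (nat_lit 78) (nat_lit 0) (nat_lit 0) (XT.lf (nat_lit 0) (nat_lit 696665743) (nat_lit 1140) (nat_lit 15341447673) (nat_lit 1216) (nat_lit 368389227) (nat_lit 178) (nat_lit 5) (nat_lit 193) (nat_lit 5) (nat_lit 194) (nat_lit 5) (nat_lit 310) (nat_lit 303) (nat_lit 167)) (XT.lf (nat_lit 0) (nat_lit 1444082501) (nat_lit 1140)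 (nat_lit 7945005102) (nat_lit 1216) (nat_lit 7266432207) (nat_lit 178) (nat_lit 5) (nat_lit 193) (nat_lit 5) (nat_lit 194) (nat_lit 5) (nat_lit 311) (nat_lit 303) (nat_lit 166)))) (XT.nd (nat_lit 78) (nat_lit 0) (nat_lit 76) (XT.lf (nat_lit 0) (nat_lit 2204728868) (nat_lit 1140) (nat_lit 332895483) (nat_lit 1216) (nat_lit 14374673009) (nat_lit 178) (nat_lit 5) (nat_lit 193) (nat_lit 5) (nat_lit 194) (nat_lit 5) (nat_lit 312) (nat_lit 303) (nat_lit 165)) (XT.nd (nat_lit 78) (nat_lit 0) (nat_lit 0) (XT.lf (nat_lit 0) (nat_lit 3097012843) (nat_lit 1140) (nat_lit 9568224508) (nat_lit 1216) (nat_lit 4508290012) (nat_lit 179) (nat_lit 5) (nat_lit 194) (nat_lit 5) (nat_lit 195) (nat_lit 5) (nat_lit 313) (nat_lit 303) (nat_lit 164)) (XT.lf (nat_lit 0) (nat_lit 4035888793) (nat_lit 1140) (nat_lit 1685467404) (nat_lit 1216) (nat_lit 11720656636) (nat_lit 179) (nat_lit 5) (nat_lit 194) (nat_lit 5) (nat_lit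 195) (nat_lit 5) (nat_lit 314) (nat_lit 303) (nat_lit 163))))) (XT.nd (nat_lit 234) (nat_lit 988) (nat_lit 0) (XT.nd (nat_lit 78) (nat_lit 0) (nat_lit 0) (XT.lf (nat_lit 0) (nat_lit 5071904798) (nat_lit 1140) (nat_lit 11175737246) (nat_lit 1216) (nat_lit 1468854499) (nat_lit 180) (nat_lit 5) (nat_lit 195) (nat_lit 5) (nat_lit 196) (nat_lit 5) (nat_lit 315) (nat_lit 303) (nat_lit 162)) (XT.nd (nat_lit 78) (nat_lit 0) (nat_lit 0) (XT.lf (nat_lit 0) (nat_lit 6204602760) (nat_lit 1140) (nat_lit 3013521901) (nat_lit 1216) (nat_lit 8779134569) (nat_lit 180) (nat_lit 5) (nat_lit 195) (nat_lit 5) (nat_lit 196) (nat_lit 5) (nat_lit 316) (nat_lit 303) (nat_lit 161)) (XT.lf (nat_lit 76) (nat_lit 5494638975) (nat_lit 0) (nat_lit 1921466300) (nat_lit 1216) (nat_lit 10869006962) (nat_lit 181) (nat_lit 5) (nat_lit 180) (nat_lit 5) (nat_lit 196) (nat_lit 5) (nat_lit 317) (nat_lit 303) (nat_lit 160)))) (XT.nd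 (nat_lit 156) (nat_lit 1064) (nat_lit 0) (XT.nd (nat_lit 78) (nat_lit 0) (nat_lit 0) (XT.lf (nat_lit 0) (nat_lit 8740655542) (nat_lit 1140) (nat_lit 4321288140) (nat_lit 1216) (nat_lit 5517367865) (nat_lit 181) (nat_lit 5) (nat_lit 196) (nat_lit 5) (nat_lit 197) (nat_lit 5) (nat_lit 318) (nat_lit 303) (nat_lit 159)) (XT.lf (nat_lit 76) (nat_lit 4463895553) (nat_lit 0) (nat_lit 5695405038) (nat_lit 1216) (nat_lit 8721416946) (nat_lit 182) (nat_lit 5) (nat_lit 181) (nat_lit 5) (nat_lit 197) (nat_lit 5) (nat_lit 319) (nat_lit 303) (nat_lit 158))) (XT.nd (nat_lit 78) (nat_lit 1140) (nat_lit 0) (XT.lf (nat_lit 0) (nat_lit 11675360715) (nat_lit 1140) (nat_lit 5613605069) (nat_lit 76) (nat_lit 1900565368) (nat_lit 182) (nat_lit 5) (nat_lit 197) (nat_lit 5) (nat_lit 183) (nat_lit 5) (nat_lit 320) (nat_lit 303) (nat_lit 157)) (XT.lf (nat_lit 0) (nat_lit 3458648674) (nat_lit 1140) (nat_lit 9860705162)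 (nat_lit 1216) (nat_lit 6185792594) (nat_lit 167) (nat_lit 5) (nat_lit 182) (nat_lit 5) (nat_lit 183) (nat_lit 5) (nat_lit 321) (nat_lit 303) (nat_lit 156))))))) (XT.nd (nat_lit 1014) (nat_lit 2584) (nat_lit 0) (XT.nd (nat_lit 468) (nat_lit 1444) (nat_lit 0) (XT.nd (nat_lit 234) (nat_lit 1216) (nat_lit 0) (XT.nd (nat_lit 78) (nat_lit 532) (nat_lit 0) (XT.lf (nat_lit 0) (nat_lit 12912043601) (nat_lit 1140) (nat_lit 2150274608) (nat_lit 1216) (nat_lit 4766432893) (nat_lit 167) (nat_lit 5) (nat_lit 182) (nat_lit 5) (nat_lit 183) (nat_lit 5) (nat_lit 322) (nat_lit 303) (nat_lit 155)) (XT.nd (nat_lit 78) (nat_lit 0) (nat_lit 0) (XT.lf (nat_lit 0) (nat_lit 2473424778) (nat_lit 532) (nat_lit 14456772632) (nat_lit 608) (nat_lit 3229697902) (nat_lit 160) (nat_lit 5) (nat_lit 167) (nat_lit 5) (nat_lit 168) (nat_lit 5) (nat_lit 323) (nat_lit 303) (nat_lit 154)) (XT.lf (nat_lit 0) (nat_lit 12259247481)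 (nat_lit 532) (nat_lit 6679110673) (nat_lit 608) (nat_lit 1560098214) (nat_lit 160) (nat_lit 5) (nat_lit 167) (nat_lit 5) (nat_lit 168) (nat_lit 5) (nat_lit 324) (nat_lit 303) (nat_lit 153)))) (XT.nd (nat_lit 78) (nat_lit 532) (nat_lit 0) (XT.lf (nat_lit 0) (nat_lit 177430059) (nat_lit 684) (nat_lit 19346444420) (nat_lit 76) (nat_lit 1322634421) (nat_lit 151) (nat_lit 5) (nat_lit 160) (nat_lit 5) (nat_lit 152) (nat_lit 5) (nat_lit 325) (nat_lit 303) (nat_lit 152)) (XT.nd (nat_lit 78) (nat_lit 532) (nat_lit 0) (XT.lf (nat_lit 0) (nat_lit 2079458718) (nat_lit 684) (nat_lit 9590690421) (nat_lit 76) (nat_lit 9530087583) (nat_lit 151) (nat_lit 5) (nat_lit 160) (nat_lit 5) (nat_lit 152) (nat_lit 5) (nat_lit 326) (nat_lit 303) (nat_lit 151)) (XT.lf (nat_lit 0) (nat_lit 460711706) (nat_lit 532) (nat_lit 3576029778) (nat_lit 608) (nat_lit 17527897874) (nat_lit 144) (nat_lit 5) (nat_lit 151) (nat_lit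 5) (nat_lit 152) (nat_lit 5) (nat_lit 327) (nat_lit 303) (nat_lit 150))))) (XT.nd (nat_lit 234) (nat_lit 912) (nat_lit 0) (XT.nd (nat_lit 78) (nat_lit 532) (nat_lit 0) (XT.lf (nat_lit 0) (nat_lit 6190204054) (nat_lit 608) (nat_lit 10979685715) (nat_lit 76) (nat_lit 4765968982) (nat_lit 144) (nat_lit 5) (nat_lit 152) (nat_lit 5) (nat_lit 145) (nat_lit 5) (nat_lit 328) (nat_lit 303) (nat_lit 149)) (XT.nd (nat_lit 78) (nat_lit 532) (nat_lit 0) (XT.lf (nat_lit 0) (nat_lit 8437745146) (nat_lit 608) (nat_lit 593092671) (nat_lit 76) (nat_lit 13286500942) (nat_lit 144) (nat_lit 5) (nat_lit 152) (nat_lit 5) (nat_lit 145) (nat_lit 5) (nat_lit 329) (nat_lit 303) (nat_lit 148)) (XT.lf (nat_lit 0) (nat_lit 10300298044) (nat_lit 532) (nat_lit 545668367) (nat_lit 608) (nat_lit 11861507170) (nat_lit 137) (nat_lit 5) (nat_lit 144) (nat_lit 5) (nat_lit 145) (nat_lit 5) (nat_lit 330) (nat_lit 303) (nat_lit 147))))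 (XT.nd (nat_lit 156) (nat_lit 456) (nat_lit 0) (XT.nd (nat_lit 78) (nat_lit 456) (nat_lit 0) (XT.lf (nat_lit 0) (nat_lit 13405601810) (nat_lit 608) (nat_lit 1661225555) (nat_lit 76) (nat_lit 8040117853) (nat_lit 137) (nat_lit 5) (nat_lit 145) (nat_lit 5) (nat_lit 138) (nat_lit 5) (nat_lit 331) (nat_lit 303) (nat_lit 146)) (XT.lf (nat_lit 0) (nat_lit 9582955032) (nat_lit 456) (nat_lit 6551108445) (nat_lit 532) (nat_lit 7381583979) (nat_lit 131) (nat_lit 5) (nat_lit 137) (nat_lit 5) (nat_lit 138) (nat_lit 5) (nat_lit 332) (nat_lit 303) (nat_lit 145))) (XT.nd (nat_lit 78) (nat_lit 456) (nat_lit 0) (XT.lf (nat_lit 0) (nat_lit 18977280369) (nat_lit 532) (nat_lit 2764952460) (nat_lit 76) (nat_lit 2193398241) (nat_lit 131) (nat_lit 5) (nat_lit 138) (nat_lit 5) (nat_lit 132) (nat_lit 5) (nat_lit 333) (nat_lit 303) (nat_lit 144)) (XT.lf (nat_lit 0) (nat_lit 8839770870) (nat_lit 456) (nat_lit 13210634735)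 (nat_lit 532) (nat_lit 2313477369) (nat_lit 125) (nat_lit 5) (nat_lit 131) (nat_lit 5) (nat_lit 132) (nat_lit 5) (nat_lit 334) (nat_lit 303) (nat_lit 143)))))) (XT.nd (nat_lit 468) (nat_lit 1216) (nat_lit 0) (XT.nd (nat_lit 234) (nat_lit 836) (nat_lit 0) (XT.nd (nat_lit 78) (nat_lit 456) (nat_lit 0) (XT.lf (nat_lit 0) (nat_lit 425740763) (nat_lit 532) (nat_lit 3964791166) (nat_lit 76) (nat_lit 20413648372) (nat_lit 124) (nat_lit 5) (nat_lit 131) (nat_lit 5) (nat_lit 125) (nat_lit 5) (nat_lit 335) (nat_lit 303) (nat_lit 142)) (XT.nd (nat_lit 78) (nat_lit 0) (nat_lit 0) (XT.lf (nat_lit 0) (nat_lit 3319294220) (nat_lit 532) (nat_lit 17230627200) (nat_lit 76) (nat_lit 4703524763) (nat_lit 118) (nat_lit 5) (nat_lit 125) (nat_lit 5) (nat_lit 119) (nat_lit 5) (nat_lit 336) (nat_lit 303) (nat_lit 141)) (XT.lf (nat_lit 0) (nat_lit 6378613534) (nat_lit 532) (nat_lit 5313187800) (nat_lit 76) (nat_lit 14022026271)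 (nat_lit 118) (nat_lit 5) (nat_lit 125) (nat_lit 5) (nat_lit 119) (nat_lit 5) (nat_lit 337) (nat_lit 303) (nat_lit 140)))) (XT.nd (nat_lit 78) (nat_lit 380) (nat_lit 0) (XT.lf (nat_lit 0) (nat_lit 7094719663) (nat_lit 456) (nat_lit 2498391180) (nat_lit 532) (nat_lit 16593013828) (nat_lit 112) (nat_lit 5) (nat_lit 118) (nat_lit 5) (nat_lit 119) (nat_lit 5) (nat_lit 338) (nat_lit 303) (nat_lit 139)) (XT.nd (nat_lit 78) (nat_lit 380) (nat_lit 0) (XT.lf (nat_lit 0) (nat_lit 13020514940) (nat_lit 532) (nat_lit 6760325658) (nat_lit 76) (nat_lit 6888261871) (nat_lit 112) (nat_lit 5) (nat_lit 119) (nat_lit 5) (nat_lit 113) (nat_lit 5) (nat_lit 339) (nat_lit 303) (nat_lit 138)) (XT.lf (nat_lit 0) (nat_lit 6028158206) (nat_lit 380) (nat_lit 10600683392) (nat_lit 456) (nat_lit 10535390790) (nat_lit 107) (nat_lit 5) (nat_lit 112) (nat_lit 5) (nat_lit 113) (nat_lit 5) (nat_lit 340) (nat_lit 303) (nat_lit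 137))))) (XT.nd (nat_lit 234) (nat_lit 836) (nat_lit 0) (XT.nd (nat_lit 78) (nat_lit 380) (nat_lit 0) (XT.lf (nat_lit 0) (nat_lit 19333507396) (nat_lit 380) (nat_lit 1075676098) (nat_lit 456) (nat_lit 7263125381) (nat_lit 107) (nat_lit 5) (nat_lit 112) (nat_lit 5) (nat_lit 113) (nat_lit 5) (nat_lit 341) (nat_lit 303) (nat_lit 136)) (XT.nd (nat_lit 78) (nat_lit 0) (nat_lit 0) (XT.lf (nat_lit 0) (nat_lit 4847676795) (nat_lit 380) (nat_lit 19581447018) (nat_lit 456) (nat_lit 3762723667) (nat_lit 102) (nat_lit 5) (nat_lit 107) (nat_lit 5) (nat_lit 108) (nat_lit 5) (nat_lit 342) (nat_lit 303) (nat_lit 135)) (XT.lf (nat_lit 0) (nat_lit 18584535519) (nat_lit 380) (nat_lit 10075577256) (nat_lit 456) (nat_lit 64151263) (nat_lit 102) (nat_lit 5) (nat_lit 107) (nat_lit 5) (nat_lit 108) (nat_lit 5) (nat_lit 343) (nat_lit 303) (nat_lit 134)))) (XT.nd (nat_lit 156) (nat_lit 380) (nat_lit 0) (XT.nd (nat_lit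 78) (nat_lit 0) (nat_lit 0) (XT.lf (nat_lit 0) (nat_lit 3487677268) (nat_lit 380) (nat_lit 213918829) (nat_lit 456) (nat_lit 25569102807) (nat_lit 96) (nat_lit 5) (nat_lit 101) (nat_lit 5) (nat_lit 102) (nat_lit 5) (nat_lit 344) (nat_lit 303) (nat_lit 133)) (XT.lf (nat_lit 0) (nat_lit 7773856848) (nat_lit 456) (nat_lit 12201220337) (nat_lit 76) (nat_lit 9852590525) (nat_lit 96) (nat_lit 5) (nat_lit 102) (nat_lit 5) (nat_lit 97) (nat_lit 5) (nat_lit 345) (nat_lit 303) (nat_lit 132))) (XT.nd (nat_lit 78) (nat_lit 0) (nat_lit 0) (XT.lf (nat_lit 0) (nat_lit 1816219941) (nat_lit 380) (nat_lit 10167604558) (nat_lit 456) (nat_lit 18417059625) (nat_lit 91) (nat_lit 5) (nat_lit 96) (nat_lit 5) (nat_lit 97) (nat_lit 5) (nat_lit 346) (nat_lit 303) (nat_lit 131)) (XT.lf (nat_lit 0) (nat_lit 16439906314) (nat_lit 456) (nat_lit 14489091197) (nat_lit 76) (nat_lit 58709645) (nat_lit 91) (nat_lit 5) (nat_lit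 97) (nat_lit 5) (nat_lit 92) (nat_lit 5) (nat_lit 347) (nat_lit 303) (nat_lit 130))))))))
noncomputable def xc205 : XT := (XT.nd (nat_lit 2028) (nat_lit 1368) (nat_lit 0) (XT.nd (nat_lit 1014) (nat_lit 1444) (nat_lit 0) (XT.nd (nat_lit 468) (nat_lit 912) (nat_lit 0) (XT.nd (nat_lit 234) (nat_lit 760) (nat_lit 0) (XT.nd (nat_lit 78) (nat_lit 304) (nat_lit 0) (XT.lf (nat_lit 0) (nat_lit 21126476237) (nat_lit 456) (nat_lit 76369463) (nat_lit 76) (nat_lit 10386389456) (nat_lit 91) (nat_lit 5) (nat_lit 97) (nat_lit 5) (nat_lit 92) (nat_lit 5) (nat_lit 348) (nat_lit 303) (nat_lit 129)) (XT.nd (nat_lit 78) (nat_lit 0) (nat_lit 0) (XT.lf (nat_lit 0) (nat_lit 15057661097) (nat_lit 304) (nat_lit 11036974448) (nat_lit 380) (nat_lit 6109947999) (nat_lit 87) (nat_lit 5) (nat_lit 91) (nat_lit 5) (nat_lit 92) (nat_lit 5) (nat_lit 349) (nat_lit 303) (nat_lit 128)) (XT.lf (nat_lit 0) (nat_lit 30642424105) (nat_lit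 304) (nat_lit 566498145) (nat_lit 380) (nat_lit 1629561846) (nat_lit 87) (nat_lit 5) (nat_lit 91) (nat_lit 5) (nat_lit 92) (nat_lit 5) (nat_lit 350) (nat_lit 303) (nat_lit 127)))) (XT.nd (nat_lit 78) (nat_lit 304) (nat_lit 0) (XT.lf (nat_lit 0) (nat_lit 3152252548) (nat_lit 456) (nat_lit 20154604158) (nat_lit 76) (nat_lit 10176929953) (nat_lit 81) (nat_lit 5) (nat_lit 87) (nat_lit 5) (nat_lit 82) (nat_lit 5) (nat_lit 351) (nat_lit 303) (nat_lit 126)) (XT.nd (nat_lit 78) (nat_lit 304) (nat_lit 0) (XT.lf (nat_lit 0) (nat_lit 8069201096) (nat_lit 456) (nat_lit 4809387361) (nat_lit 76) (nat_lit 21268646679) (nat_lit 81) (nat_lit 5) (nat_lit 87) (nat_lit 5) (nat_lit 82) (nat_lit 5) (nat_lit 352) (nat_lit 303) (nat_lit 125)) (XT.lf (nat_lit 0) (nat_lit 11210238105) (nat_lit 304) (nat_lit 2027711647) (nat_lit 380) (nat_lit 21589512288) (nat_lit 77) (nat_lit 5) (nat_lit 81) (nat_lit 5) (nat_lit 82)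 (nat_lit 5) (nat_lit 353) (nat_lit 303) (nat_lit 124))))) (XT.nd (nat_lit 234) (nat_lit 608) (nat_lit 0) (XT.nd (nat_lit 78) (nat_lit 304) (nat_lit 0) (XT.lf (nat_lit 0) (nat_lit 18695326235) (nat_lit 380) (nat_lit 7810770300) (nat_lit 76) (nat_lit 9017995871) (nat_lit 77) (nat_lit 5) (nat_lit 82) (nat_lit 5) (nat_lit 78) (nat_lit 5) (nat_lit 354) (nat_lit 303) (nat_lit 123)) (XT.nd (nat_lit 78) (nat_lit 0) (nat_lit 0) (XT.lf (nat_lit 0) (nat_lit 8613266832) (nat_lit 304) (nat_lit 15802705560) (nat_lit 380) (nat_lit 11822666349) (nat_lit 73) (nat_lit 5) (nat_lit 77) (nat_lit 5) (nat_lit 78) (nat_lit 5) (nat_lit 355) (nat_lit 303) (nat_lit 122)) (XT.lf (nat_lit 0) (nat_lit 25685573787) (nat_lit 304) (nat_lit 4698266591) (nat_lit 380) (nat_lit 6588516425) (nat_lit 73) (nat_lit 5) (nat_lit 77) (nat_lit 5) (nat_lit 78) (nat_lit 5) (nat_lit 356) (nat_lit 303) (nat_lit 121)))) (XT.nd (nat_lit 156)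 (nat_lit 304) (nat_lit 0) (XT.nd (nat_lit 78) (nat_lit 76) (nat_lit 0) (XT.lf (nat_lit 0) (nat_lit 5581579954) (nat_lit 228) (nat_lit 31064412514) (nat_lit 304) (nat_lit 1078639802) (nat_lit 70) (nat_lit 5) (nat_lit 73) (nat_lit 5) (nat_lit 74) (nat_lit 5) (nat_lit 357) (nat_lit 303) (nat_lit 120)) (XT.lf (nat_lit 0) (nat_lit 4665286334) (nat_lit 304) (nat_lit 15405065559) (nat_lit 76) (nat_lit 18423048243) (nat_lit 69) (nat_lit 5) (nat_lit 73) (nat_lit 5) (nat_lit 70) (nat_lit 5) (nat_lit 358) (nat_lit 303) (nat_lit 119))) (XT.nd (nat_lit 78) (nat_lit 0) (nat_lit 0) (XT.lf (nat_lit 0) (nat_lit 1856194522) (nat_lit 304) (nat_lit 8718419218) (nat_lit 380) (nat_lit 28709857047) (nat_lit 65) (nat_lit 5) (nat_lit 69) (nat_lit 5) (nat_lit 70) (nat_lit 5) (nat_lit 359) (nat_lit 303) (nat_lit 118)) (XT.lf (nat_lit 0) (nat_lit 16843865865) (nat_lit 380) (nat_lit 20178099980) (nat_lit 76) (nat_lit 3071831304)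 (nat_lit 65) (nat_lit 5) (nat_lit 70) (nat_lit 5) (nat_lit 66) (nat_lit 5) (nat_lit 360) (nat_lit 303) (nat_lit 117)))))) (XT.nd (nat_lit 468) (nat_lit 684) (nat_lit 0) (XT.nd (nat_lit 234) (nat_lit 532) (nat_lit 0) (XT.nd (nat_lit 78) (nat_lit 228) (nat_lit 0) (XT.lf (nat_lit 0) (nat_lit 23384560361) (nat_lit 380) (nat_lit 2501055502) (nat_lit 76) (nat_lit 15039289349) (nat_lit 65) (nat_lit 5) (nat_lit 70) (nat_lit 5) (nat_lit 66) (nat_lit 5) (nat_lit 361) (nat_lit 303) (nat_lit 116)) (XT.nd (nat_lit 78) (nat_lit 0) (nat_lit 0) (XT.lf (nat_lit 0) (nat_lit 16014612684) (nat_lit 228) (nat_lit 14257935188) (nat_lit 304) (nat_lit 11503869249) (nat_lit 62) (nat_lit 5) (nat_lit 65) (nat_lit 5) (nat_lit 66) (nat_lit 5) (nat_lit 362) (nat_lit 303) (nat_lit 115)) (XT.lf (nat_lit 0) (nat_lit 35132870782) (nat_lit 228) (nat_lit 2256733619) (nat_lit 304) (nat_lit 5263199796) (nat_lit 62) (nat_lit 5) (nat_lit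 65) (nat_lit 5) (nat_lit 66) (nat_lit 5) (nat_lit 363) (nat_lit 303) (nat_lit 114)))) (XT.nd (nat_lit 78) (nat_lit 228) (nat_lit 0) (XT.lf (nat_lit 0) (nat_lit 1347842452) (nat_lit 304) (nat_lit 32172357362) (nat_lit 76) (nat_lit 10028773335) (nat_lit 58) (nat_lit 5) (nat_lit 62) (nat_lit 5) (nat_lit 59) (nat_lit 5) (nat_lit 364) (nat_lit 303) (nat_lit 113)) (XT.nd (nat_lit 78) (nat_lit 228) (nat_lit 0) (XT.lf (nat_lit 0) (nat_lit 8147718679) (nat_lit 304) (nat_lit 13554860905) (nat_lit 76) (nat_lit 22764998086) (nat_lit 58) (nat_lit 5) (nat_lit 62) (nat_lit 5) (nat_lit 59) (nat_lit 5) (nat_lit 365) (nat_lit 303) (nat_lit 112)) (XT.lf (nat_lit 0) (nat_lit 5728955004) (nat_lit 228) (nat_lit 9475041836) (nat_lit 304) (nat_lit 30208173708) (nat_lit 55) (nat_lit 5) (nat_lit 58) (nat_lit 5) (nat_lit 59) (nat_lit 5) (nat_lit 366) (nat_lit 303) (nat_lit 111))))) (XT.nd (nat_lit 234) (nat_lit 456) (nat_lit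 0) (XT.nd (nat_lit 78) (nat_lit 228) (nat_lit 0) (XT.lf (nat_lit 0) (nat_lit 22637543078) (nat_lit 304) (nat_lit 20547215235) (nat_lit 76) (nat_lit 3195377828) (nat_lit 55) (nat_lit 5) (nat_lit 59) (nat_lit 5) (nat_lit 56) (nat_lit 5) (nat_lit 367) (nat_lit 303) (nat_lit 110)) (XT.nd (nat_lit 78) (nat_lit 228) (nat_lit 0) (XT.lf (nat_lit 0) (nat_lit 30385346988) (nat_lit 304) (nat_lit 934856961) (nat_lit 76) (nat_lit 16054201466) (nat_lit 55) (nat_lit 5) (nat_lit 59) (nat_lit 5) (nat_lit 56) (nat_lit 5) (nat_lit 368) (nat_lit 303) (nat_lit 109)) (XT.lf (nat_lit 0) (nat_lit 19645429270) (nat_lit 228) (nat_lit 18906513212) (nat_lit 304) (nat_lit 9840971749) (nat_lit 52) (nat_lit 5) (nat_lit 55) (nat_lit 5) (nat_lit 56) (nat_lit 5) (nat_lit 369) (nat_lit 303) (nat_lit 108)))) (XT.nd (nat_lit 156) (nat_lit 228) (nat_lit 0) (XT.nd (nat_lit 78) (nat_lit 228) (nat_lit 0) (XT.lf (nat_lit 0) (nat_lit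 40858529081) (nat_lit 228) (nat_lit 6111996854) (nat_lit 304) (nat_lit 2471244796) (nat_lit 52) (nat_lit 5) (nat_lit 55) (nat_lit 5) (nat_lit 56) (nat_lit 5) (nat_lit 370) (nat_lit 303) (nat_lit 107)) (XT.lf (nat_lit 0) (nat_lit 5205798117) (nat_lit 228) (nat_lit 38212212540) (nat_lit 76) (nat_lit 7097024135) (nat_lit 49) (nat_lit 5) (nat_lit 52) (nat_lit 5) (nat_lit 50) (nat_lit 5) (nat_lit 371) (nat_lit 303) (nat_lit 106))) (XT.nd (nat_lit 78) (nat_lit 228) (nat_lit 0) (XT.lf (nat_lit 0) (nat_lit 13209147683) (nat_lit 228) (nat_lit 17716044561) (nat_lit 76) (nat_lit 20690202491) (nat_lit 49) (nat_lit 5) (nat_lit 52) (nat_lit 5) (nat_lit 50) (nat_lit 5) (nat_lit 372) (nat_lit 303) (nat_lit 105)) (XT.lf (nat_lit 0) (nat_lit 3458888917) (nat_lit 228) (nat_lit 18024645204) (nat_lit 304) (nat_lit 31264305151) (nat_lit 46) (nat_lit 5) (nat_lit 49) (nat_lit 5) (nat_lit 50) (nat_lit 5) (nat_lit 373)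 (nat_lit 303) (nat_lit 104))))))) (XT.nd (nat_lit 1014) (nat_lit 380) (nat_lit 0) (XT.nd (nat_lit 468) (nat_lit 532) (nat_lit 0) (XT.nd (nat_lit 234) (nat_lit 304) (nat_lit 0) (XT.nd (nat_lit 78) (nat_lit 152) (nat_lit 0) (XT.lf (nat_lit 0) (nat_lit 25628652463) (nat_lit 228) (nat_lit 4554117376) (nat_lit 304) (nat_lit 23726190606) (nat_lit 46) (nat_lit 5) (nat_lit 49) (nat_lit 5) (nat_lit 50) (nat_lit 5) (nat_lit 374) (nat_lit 303) (nat_lit 103)) (XT.nd (nat_lit 78) (nat_lit 152) (nat_lit 0) (XT.lf (nat_lit 0) (nat_lit 39230351873) (nat_lit 304) (nat_lit 6734532209) (nat_lit 76) (nat_lit 9137411875) (nat_lit 46) (nat_lit 5) (nat_lit 50) (nat_lit 5) (nat_lit 47) (nat_lit 5) (nat_lit 375) (nat_lit 303) (nat_lit 102)) (XT.lf (nat_lit 0) (nat_lit 15715769418) (nat_lit 152) (nat_lit 33027591267) (nat_lit 228) (nat_lit 7582252594) (nat_lit 44) (nat_lit 5) (nat_lit 46) (nat_lit 5) (nat_lit 47) (nat_lit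 5) (nat_lit 376) (nat_lit 303) (nat_lit 101)))) (XT.nd (nat_lit 78) (nat_lit 228) (nat_lit 0) (XT.lf (nat_lit 0) (nat_lit 1003998017) (nat_lit 228) (nat_lit 18619262059) (nat_lit 76) (nat_lit 37960100169) (nat_lit 43) (nat_lit 5) (nat_lit 46) (nat_lit 5) (nat_lit 44) (nat_lit 5) (nat_lit 377) (nat_lit 303) (nat_lit 100)) (XT.nd (nat_lit 78) (nat_lit 0) (nat_lit 0) (XT.lf (nat_lit 0) (nat_lit 4031291295) (nat_lit 228) (nat_lit 5700810047) (nat_lit 304) (nat_lit 49143387875) (nat_lit 40) (nat_lit 5) (nat_lit 43) (nat_lit 5) (nat_lit 44) (nat_lit 5) (nat_lit 378) (nat_lit 303) (nat_lit 99)) (XT.lf (nat_lit 0) (nat_lit 18992900592) (nat_lit 304) (nat_lit 32545969349) (nat_lit 76) (nat_lit 8659388065) (nat_lit 40) (nat_lit 5) (nat_lit 44) (nat_lit 5) (nat_lit 41) (nat_lit 5) (nat_lit 379) (nat_lit 303) (nat_lit 98))))) (XT.nd (nat_lit 234) (nat_lit 380) (nat_lit 0) (XT.nd (nat_lit 78) (nat_lit 152)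 (nat_lit 0) (XT.lf (nat_lit 0) (nat_lit 28585954722) (nat_lit 304) (nat_lit 9638497555) (nat_lit 76) (nat_lit 23334626147) (nat_lit 40) (nat_lit 5) (nat_lit 44) (nat_lit 5) (nat_lit 41) (nat_lit 5) (nat_lit 380) (nat_lit 303) (nat_lit 97)) (XT.nd (nat_lit 78) (nat_lit 0) (nat_lit 0) (XT.lf (nat_lit 0) (nat_lit 14230726095) (nat_lit 152) (nat_lit 24370914688) (nat_lit 228) (nat_lit 24355038906) (nat_lit 38) (nat_lit 5) (nat_lit 40) (nat_lit 5) (nat_lit 41) (nat_lit 5) (nat_lit 381) (nat_lit 303) (nat_lit 96)) (XT.lf (nat_lit 0) (nat_lit 39010472214) (nat_lit 152) (nat_lit 10002727791) (nat_lit 228) (nat_lit 15380148314) (nat_lit 38) (nat_lit 5) (nat_lit 40) (nat_lit 5) (nat_lit 41) (nat_lit 5) (nat_lit 382) (nat_lit 303) (nat_lit 95)))) (XT.nd (nat_lit 156) (nat_lit 152) (nat_lit 0) (XT.nd (nat_lit 78) (nat_lit 228) (nat_lit 0) (XT.lf (nat_lit 0) (nat_lit 59781330472) (nat_lit 228) (nat_lit 1388702177)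 (nat_lit 76) (nat_lit 4701758989) (nat_lit 38) (nat_lit 5) (nat_lit 41) (nat_lit 5) (nat_lit 39) (nat_lit 5) (nat_lit 383) (nat_lit 303) (nat_lit 94)) (XT.lf (nat_lit 0) (nat_lit 3738153629) (nat_lit 228) (nat_lit 43736041984) (nat_lit 76) (nat_lit 19909547860) (nat_lit 35) (nat_lit 5) (nat_lit 38) (nat_lit 5) (nat_lit 36) (nat_lit 5) (nat_lit 384) (nat_lit 303) (nat_lit 93))) (XT.nd (nat_lit 78) (nat_lit 152) (nat_lit 0) (XT.lf (nat_lit 0) (nat_lit 13751554578) (nat_lit 228) (nat_lit 19540416394) (nat_lit 76) (nat_lit 35646904893) (nat_lit 35) (nat_lit 5) (nat_lit 38) (nat_lit 5) (nat_lit 36) (nat_lit 5) (nat_lit 385) (nat_lit 303) (nat_lit 92)) (XT.lf (nat_lit 0) (nat_lit 5485194359) (nat_lit 152) (nat_lit 18631121242) (nat_lit 228) (nat_lit 46422819096) (nat_lit 33) (nat_lit 5) (nat_lit 35) (nat_lit 5) (nat_lit 36) (nat_lit 5) (nat_lit 386) (nat_lit 303) (nat_lit 91)))))) (XT.nd (nat_lit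 34164) (nat_lit 0) (nat_lit 11324) (XT.nd (nat_lit 234) (nat_lit 228) (nat_lit 0) (XT.nd (nat_lit 78) (nat_lit 152) (nat_lit 0) (XT.lf (nat_lit 0) (nat_lit 31659241936) (nat_lit 152) (nat_lit 3328352150) (nat_lit 228) (nat_lit 37193941146) (nat_lit 33) (nat_lit 5) (nat_lit 35) (nat_lit 5) (nat_lit 36) (nat_lit 5) (nat_lit 387) (nat_lit 303) (nat_lit 90)) (XT.nd (nat_lit 78) (nat_lit 152) (nat_lit 0) (XT.lf (nat_lit 0) (nat_lit 46302824215) (nat_lit 228) (nat_lit 15377063213) (nat_lit 76) (nat_lit 12189787098) (nat_lit 33) (nat_lit 5) (nat_lit 36) (nat_lit 5) (nat_lit 34) (nat_lit 5) (nat_lit 388) (nat_lit 303) (nat_lit 89)) (XT.lf (nat_lit 0) (nat_lit 10695512755) (nat_lit 152) (nat_lit 47396108828) (nat_lit 228) (nat_lit 17512814213) (nat_lit 31) (nat_lit 5) (nat_lit 33) (nat_lit 5) (nat_lit 34) (nat_lit 5) (nat_lit 389) (nat_lit 303) (nat_lit 88)))) (XT.nd (nat_lit 156) (nat_lit 152) (nat_lit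 0) (XT.nd (nat_lit 78) (nat_lit 76) (nat_lit 0) (XT.lf (nat_lit 0) (nat_lit 37862742821) (nat_lit 152) (nat_lit 32524984682) (nat_lit 228) (nat_lit 6998904139) (nat_lit 31) (nat_lit 5) (nat_lit 33) (nat_lit 5) (nat_lit 34) (nat_lit 5) (nat_lit 390) (nat_lit 303) (nat_lit 87)) (XT.lf (nat_lit 0) (nat_lit 3754075178) (nat_lit 228) (nat_lit 13416815016) (nat_lit 76) (nat_lit 62050347654) (nat_lit 30) (nat_lit 5) (nat_lit 33) (nat_lit 5) (nat_lit 31) (nat_lit 5) (nat_lit 391) (nat_lit 303) (nat_lit 86))) (XT.nd (nat_lit 78) (nat_lit 0) (nat_lit 0) (XT.lf (nat_lit 0) (nat_lit 13668279599) (nat_lit 152) (nat_lit 1150525073) (nat_lit 228) (nat_lit 66286104714) (nat_lit 28) (nat_lit 5) (nat_lit 30) (nat_lit 5) (nat_lit 31) (nat_lit 5) (nat_lit 392) (nat_lit 303) (nat_lit 85)) (XT.lf (nat_lit 0) (nat_lit 26498313244) (nat_lit 228) (nat_lit 41351591295) (nat_lit 76) (nat_lit 15186702373) (nat_lit 28)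 (nat_lit 5) (nat_lit 31) (nat_lit 5) (nat_lit 29) (nat_lit 5) (nat_lit 393) (nat_lit 303) (nat_lit 84))))) (XT.nd (nat_lit 234) (nat_lit 988) (nat_lit 0) (XT.nd (nat_lit 78) (nat_lit 0) (nat_lit 0) (XT.lf (nat_lit 0) (nat_lit 6612410981) (nat_lit 1140) (nat_lit 502910667) (nat_lit 1140) (nat_lit 502910667) (nat_lit 190) (nat_lit 3) (nat_lit 205) (nat_lit 3) (nat_lit 205) (nat_lit 5) (nat_lit 304) (nat_lit 304) (nat_lit 172)) (XT.nd (nat_lit 78) (nat_lit 0) (nat_lit 0) (XT.lf (nat_lit 76) (nat_lit 5849096507) (nat_lit 0) (nat_lit 7897485058) (nat_lit 1140) (nat_lit 1708297584) (nat_lit 191) (nat_lit 5) (nat_lit 190) (nat_lit 3) (nat_lit 205) (nat_lit 5) (nat_lit 305) (nat_lit 304) (nat_lit 171)) (XT.lf (nat_lit 76) (nat_lit 12924795099) (nat_lit 0) (nat_lit 1358876361) (nat_lit 1140) (nat_lit 1396201133) (nat_lit 191) (nat_lit 5) (nat_lit 190) (nat_lit 3) (nat_lit 205) (nat_lit 5) (nat_lit 306)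 (nat_lit 304) (nat_lit 170)))) (XT.nd (nat_lit 156) (nat_lit 1064) (nat_lit 0) (XT.nd (nat_lit 78) (nat_lit 0) (nat_lit 0) (XT.lf (nat_lit 76) (nat_lit 4328238449) (nat_lit 0) (nat_lit 10591790139) (nat_lit 1140) (nat_lit 989108938) (nat_lit 192) (nat_lit 5) (nat_lit 191) (nat_lit 5) (nat_lit 206) (nat_lit 5) (nat_lit 307) (nat_lit 304) (nat_lit 169)) (XT.lf (nat_lit 76) (nat_lit 11661170559) (nat_lit 0) (nat_lit 3945562364) (nat_lit 1140) (nat_lit 537625640) (nat_lit 192) (nat_lit 5) (nat_lit 191) (nat_lit 5) (nat_lit 206) (nat_lit 5) (nat_lit 308) (nat_lit 304) (nat_lit 168))) (XT.nd (nat_lit 78) (nat_lit 1140) (nat_lit 0) (XT.lf (nat_lit 76) (nat_lit 2849362130) (nat_lit 0) (nat_lit 13510384057) (nat_lit 1140) (nat_lit 25534196) (nat_lit 193) (nat_lit 5) (nat_lit 192) (nat_lit 5) (nat_lit 207) (nat_lit 5) (nat_lit 309) (nat_lit 304) (nat_lit 167)) (XT.lf (nat_lit 0) (nat_lit 567467221) (nat_lit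 1140) (nat_lit 6188581884) (nat_lit 1216) (nat_lit 9874990271) (nat_lit 177) (nat_lit 5) (nat_lit 192) (nat_lit 5) (nat_lit 193) (nat_lit 5) (nat_lit 310) (nat_lit 304) (nat_lit 166))))))))
noncomputable def xc206 : XT := (XT.nd (nat_lit 2028) (nat_lit 4712) (nat_lit 0) (XT.nd (nat_lit 1014) (nat_lit 3268) (nat_lit 0) (XT.nd (nat_lit 468) (nat_lit 836) (nat_lit 0) (XT.nd (nat_lit 234) (nat_lit 0) (nat_lit 76) (XT.nd (nat_lit 78) (nat_lit 0) (nat_lit 0) (XT.lf (nat_lit 0) (nat_lit 1184139094) (nat_lit 1140) (nat_lit 15485686890) (nat_lit 1216) (nat_lit 214159841) (nat_lit 178) (nat_lit 5) (nat_lit 193) (nat_lit 5) (nat_lit 194) (nat_lit 5) (nat_lit 311) (nat_lit 304) (nat_lit 165)) (XT.nd (nat_lit 78) (nat_lit 0) (nat_lit 0) (XT.lf (nat_lit 0) (nat_lit 1940388840) (nat_lit 1140) (nat_lit 7876555047) (nat_lit 1216) (nat_lit 7323958122) (nat_lit 178) (nat_lit 5) (nat_lit 193) (nat_lit 5) (nat_lit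 194) (nat_lit 5) (nat_lit 312) (nat_lit 304) (nat_lit 164)) (XT.lf (nat_lit 0) (nat_lit 2710660892) (nat_lit 1140) (nat_lit 45018069) (nat_lit 1216) (nat_lit 14650119946) (nat_lit 178) (nat_lit 5) (nat_lit 193) (nat_lit 5) (nat_lit 194) (nat_lit 5) (nat_lit 313) (nat_lit 304) (nat_lit 163)))) (XT.nd (nat_lit 78) (nat_lit 0) (nat_lit 0) (XT.lf (nat_lit 0) (nat_lit 3618442676) (nat_lit 1140) (nat_lit 9545482206) (nat_lit 1216) (nat_lit 4511298670) (nat_lit 179) (nat_lit 5) (nat_lit 194) (nat_lit 5) (nat_lit 195) (nat_lit 5) (nat_lit 314) (nat_lit 304) (nat_lit 162)) (XT.nd (nat_lit 78) (nat_lit 0) (nat_lit 76) (XT.lf (nat_lit 0) (nat_lit 4573003756) (nat_lit 1140) (nat_lit 1435265371) (nat_lit 1216) (nat_lit 11943887945) (nat_lit 179) (nat_lit 5) (nat_lit 194) (nat_lit 5) (nat_lit 195) (nat_lit 5) (nat_lit 315) (nat_lit 304) (nat_lit 161)) (XT.lf (nat_lit 0) (nat_lit 5629797974) (nat_lit 1140)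 (nat_lit 11199324539) (nat_lit 1216) (nat_lit 1406080343) (nat_lit 180) (nat_lit 5) (nat_lit 195) (nat_lit 5) (nat_lit 196) (nat_lit 5) (nat_lit 316) (nat_lit 304) (nat_lit 160))))) (XT.nd (nat_lit 234) (nat_lit 988) (nat_lit 0) (XT.nd (nat_lit 78) (nat_lit 0) (nat_lit 0) (XT.lf (nat_lit 0) (nat_lit 6784659321) (nat_lit 1140) (nat_lit 2801320932) (nat_lit 1216) (nat_lit 8938780654) (nat_lit 180) (nat_lit 5) (nat_lit 195) (nat_lit 5) (nat_lit 196) (nat_lit 5) (nat_lit 317) (nat_lit 304) (nat_lit 159)) (XT.nd (nat_lit 78) (nat_lit 0) (nat_lit 76) (XT.lf (nat_lit 76) (nat_lit 5959118039) (nat_lit 0) (nat_lit 2064795841) (nat_lit 1216) (nat_lit 10797610848) (nat_lit 181) (nat_lit 5) (nat_lit 180) (nat_lit 5) (nat_lit 196) (nat_lit 5) (nat_lit 318) (nat_lit 304) (nat_lit 158)) (XT.lf (nat_lit 0) (nat_lit 9376177911) (nat_lit 1140) (nat_lit 4147427335) (nat_lit 1216) (nat_lit 5601322378) (nat_lit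 181) (nat_lit 5) (nat_lit 196) (nat_lit 5) (nat_lit 197) (nat_lit 5) (nat_lit 319) (nat_lit 304) (nat_lit 157)))) (XT.nd (nat_lit 156) (nat_lit 1064) (nat_lit 0) (XT.nd (nat_lit 78) (nat_lit 0) (nat_lit 76) (XT.lf (nat_lit 76) (nat_lit 4898336383) (nat_lit 0) (nat_lit 5931061855) (nat_lit 1216) (nat_lit 8606233511) (nat_lit 182) (nat_lit 5) (nat_lit 181) (nat_lit 5) (nat_lit 197) (nat_lit 5) (nat_lit 320) (nat_lit 304) (nat_lit 156)) (XT.lf (nat_lit 0) (nat_lit 12379695112) (nat_lit 1140) (nat_lit 5478465528) (nat_lit 76) (nat_lit 1895902438) (nat_lit 182) (nat_lit 5) (nat_lit 197) (nat_lit 5) (nat_lit 183) (nat_lit 5) (nat_lit 321) (nat_lit 304) (nat_lit 155))) (XT.nd (nat_lit 78) (nat_lit 0) (nat_lit 0) (XT.lf (nat_lit 0) (nat_lit 3862979870) (nat_lit 1140) (nat_lit 10202604615) (nat_lit 1216) (nat_lit 6013800527) (nat_lit 167) (nat_lit 5) (nat_lit 182) (nat_lit 5) (nat_lit 183) (nat_lit 5)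 (nat_lit 322) (nat_lit 304) (nat_lit 154)) (XT.lf (nat_lit 0) (nat_lit 13591222128) (nat_lit 1140) (nat_lit 2259519058) (nat_lit 1216) (nat_lit 4562274575) (nat_lit 167) (nat_lit 5) (nat_lit 182) (nat_lit 5) (nat_lit 183) (nat_lit 5) (nat_lit 323) (nat_lit 304) (nat_lit 153)))))) (XT.nd (nat_lit 468) (nat_lit 1520) (nat_lit 0) (XT.nd (nat_lit 234) (nat_lit 532) (nat_lit 0) (XT.nd (nat_lit 78) (nat_lit 684) (nat_lit 0) (XT.lf (nat_lit 0) (nat_lit 2847503578) (nat_lit 532) (nat_lit 14919815742) (nat_lit 608) (nat_lit 2987009698) (nat_lit 160) (nat_lit 5) (nat_lit 167) (nat_lit 5) (nat_lit 168) (nat_lit 5) (nat_lit 324) (nat_lit 304) (nat_lit 152)) (XT.nd (nat_lit 78) (nat_lit 684) (nat_lit 0) (XT.lf (nat_lit 0) (nat_lit 12918166708) (nat_lit 532) (nat_lit 6907969363) (nat_lit 608) (nat_lit 1277212674) (nat_lit 160) (nat_lit 5) (nat_lit 167) (nat_lit 5) (nat_lit 168) (nat_lit 5) (nat_lit 325) (nat_lit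 304) (nat_lit 151)) (XT.lf (nat_lit 0) (nat_lit 499222346) (nat_lit 684) (nat_lit 19621572739) (nat_lit 76) (nat_lit 1341169626) (nat_lit 151) (nat_lit 5) (nat_lit 160) (nat_lit 5) (nat_lit 152) (nat_lit 5) (nat_lit 326) (nat_lit 304) (nat_lit 150)))) (XT.nd (nat_lit 78) (nat_lit 532) (nat_lit 0) (XT.lf (nat_lit 0) (nat_lit 2449094310) (nat_lit 684) (nat_lit 9582037334) (nat_lit 76) (nat_lit 9795462223) (nat_lit 151) (nat_lit 5) (nat_lit 160) (nat_lit 5) (nat_lit 152) (nat_lit 5) (nat_lit 327) (nat_lit 304) (nat_lit 149)) (XT.nd (nat_lit 78) (nat_lit 0) (nat_lit 0) (XT.lf (nat_lit 0) (nat_lit 768001231) (nat_lit 532) (nat_lit 3690966240) (nat_lit 608) (nat_lit 17743157547) (nat_lit 144) (nat_lit 5) (nat_lit 151) (nat_lit 5) (nat_lit 152) (nat_lit 5) (nat_lit 328) (nat_lit 304) (nat_lit 148)) (XT.lf (nat_lit 0) (nat_lit 6668191878) (nat_lit 608) (nat_lit 11014906107) (nat_lit 76) (nat_lit 4901660497)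 (nat_lit 144) (nat_lit 5) (nat_lit 152) (nat_lit 5) (nat_lit 145) (nat_lit 5) (nat_lit 329) (nat_lit 304) (nat_lit 147))))) (XT.nd (nat_lit 234) (nat_lit 988) (nat_lit 0) (XT.nd (nat_lit 78) (nat_lit 532) (nat_lit 0) (XT.lf (nat_lit 0) (nat_lit 8974646144) (nat_lit 608) (nat_lit 325283335) (nat_lit 76) (nat_lit 13678020675) (nat_lit 144) (nat_lit 5) (nat_lit 152) (nat_lit 5) (nat_lit 145) (nat_lit 5) (nat_lit 330) (nat_lit 304) (nat_lit 146)) (XT.nd (nat_lit 78) (nat_lit 0) (nat_lit 0) (XT.lf (nat_lit 0) (nat_lit 10892109081) (nat_lit 532) (nat_lit 557458326) (nat_lit 608) (nat_lit 11930399537) (nat_lit 137) (nat_lit 5) (nat_lit 144) (nat_lit 5) (nat_lit 145) (nat_lit 5) (nat_lit 331) (nat_lit 304) (nat_lit 145)) (XT.lf (nat_lit 0) (nat_lit 14077931058) (nat_lit 608) (nat_lit 1428063377) (nat_lit 76) (nat_lit 8285681309) (nat_lit 137) (nat_lit 5) (nat_lit 145) (nat_lit 5) (nat_lit 138) (nat_lit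 5) (nat_lit 332) (nat_lit 304) (nat_lit 144)))) (XT.nd (nat_lit 156) (nat_lit 532) (nat_lit 0) (XT.nd (nat_lit 78) (nat_lit 0) (nat_lit 0) (XT.lf (nat_lit 0) (nat_lit 10150668128) (nat_lit 456) (nat_lit 6732403364) (nat_lit 532) (nat_lit 7329733674) (nat_lit 131) (nat_lit 5) (nat_lit 137) (nat_lit 5) (nat_lit 138) (nat_lit 5) (nat_lit 333) (nat_lit 304) (nat_lit 143)) (XT.lf (nat_lit 0) (nat_lit 19804009063) (nat_lit 532) (nat_lit 2567911055) (nat_lit 76) (nat_lit 2273705994) (nat_lit 131) (nat_lit 5) (nat_lit 138) (nat_lit 5) (nat_lit 132) (nat_lit 5) (nat_lit 334) (nat_lit 304) (nat_lit 142))) (XT.nd (nat_lit 78) (nat_lit 76) (nat_lit 0) (XT.lf (nat_lit 0) (nat_lit 9382208976) (nat_lit 456) (nat_lit 13582286742) (nat_lit 532) (nat_lit 2122385065) (nat_lit 125) (nat_lit 5) (nat_lit 131) (nat_lit 5) (nat_lit 132) (nat_lit 5) (nat_lit 335) (nat_lit 304) (nat_lit 141)) (XT.lf (nat_lit 0) (nat_lit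 686487157) (nat_lit 532) (nat_lit 3809308098) (nat_lit 76) (nat_lit 21044749481) (nat_lit 124) (nat_lit 5) (nat_lit 131) (nat_lit 5) (nat_lit 125) (nat_lit 5) (nat_lit 336) (nat_lit 304) (nat_lit 140))))))) (XT.nd (nat_lit 1014) (nat_lit 1900) (nat_lit 0) (XT.nd (nat_lit 468) (nat_lit 1520) (nat_lit 0) (XT.nd (nat_lit 234) (nat_lit 380) (nat_lit 0) (XT.nd (nat_lit 78) (nat_lit 456) (nat_lit 0) (XT.lf (nat_lit 0) (nat_lit 3662509501) (nat_lit 532) (nat_lit 17468469118) (nat_lit 76) (nat_lit 4872449479) (nat_lit 118) (nat_lit 5) (nat_lit 125) (nat_lit 5) (nat_lit 119) (nat_lit 5) (nat_lit 337) (nat_lit 304) (nat_lit 139)) (XT.nd (nat_lit 78) (nat_lit 456) (nat_lit 0) (XT.lf (nat_lit 0) (nat_lit 6806512187) (nat_lit 532) (nat_lit 5201634990) (nat_lit 76) (nat_lit 14469695771) (nat_lit 118) (nat_lit 5) (nat_lit 125) (nat_lit 5) (nat_lit 119) (nat_lit 5) (nat_lit 338) (nat_lit 304) (nat_lit 138))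 (XT.lf (nat_lit 0) (nat_lit 7575853341) (nat_lit 456) (nat_lit 2537280541) (nat_lit 532) (nat_lit 16851313193) (nat_lit 112) (nat_lit 5) (nat_lit 118) (nat_lit 5) (nat_lit 119) (nat_lit 5) (nat_lit 339) (nat_lit 304) (nat_lit 137)))) (XT.nd (nat_lit 78) (nat_lit 380) (nat_lit 0) (XT.lf (nat_lit 0) (nat_lit 13636932686) (nat_lit 532) (nat_lit 6695944388) (nat_lit 76) (nat_lit 7129238530) (nat_lit 112) (nat_lit 5) (nat_lit 119) (nat_lit 5) (nat_lit 113) (nat_lit 5) (nat_lit 340) (nat_lit 304) (nat_lit 136)) (XT.nd (nat_lit 78) (nat_lit 0) (nat_lit 0) (XT.lf (nat_lit 0) (nat_lit 6473574471) (nat_lit 380) (nat_lit 10875901129) (nat_lit 456) (nat_lit 10622753154) (nat_lit 107) (nat_lit 5) (nat_lit 112) (nat_lit 5) (nat_lit 113) (nat_lit 5) (nat_lit 341) (nat_lit 304) (nat_lit 135)) (XT.lf (nat_lit 0) (nat_lit 20170378171) (nat_lit 380) (nat_lit 1066390299) (nat_lit 456) (nat_lit 7258980928) (nat_lit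 107) (nat_lit 5) (nat_lit 112) (nat_lit 5) (nat_lit 113) (nat_lit 5) (nat_lit 342) (nat_lit 304) (nat_lit 134))))) (XT.nd (nat_lit 234) (nat_lit 684) (nat_lit 0) (XT.nd (nat_lit 78) (nat_lit 456) (nat_lit 0) (XT.lf (nat_lit 0) (nat_lit 5253721590) (nat_lit 380) (nat_lit 20120207272) (nat_lit 456) (nat_lit 3657054492) (nat_lit 102) (nat_lit 5) (nat_lit 107) (nat_lit 5) (nat_lit 108) (nat_lit 5) (nat_lit 343) (nat_lit 304) (nat_lit 133)) (XT.nd (nat_lit 78) (nat_lit 380) (nat_lit 0) (XT.lf (nat_lit 0) (nat_lit 143258401) (nat_lit 456) (nat_lit 10185874343) (nat_lit 76) (nat_lit 19250390333) (nat_lit 101) (nat_lit 5) (nat_lit 107) (nat_lit 5) (nat_lit 102) (nat_lit 5) (nat_lit 344) (nat_lit 304) (nat_lit 132)) (XT.lf (nat_lit 0) (nat_lit 3847194822) (nat_lit 380) (nat_lit 169884558) (nat_lit 456) (nat_lit 26125368019) (nat_lit 96) (nat_lit 5) (nat_lit 101) (nat_lit 5) (nat_lit 102) (nat_lit 5)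 (nat_lit 345) (nat_lit 304) (nat_lit 131)))) (XT.nd (nat_lit 156) (nat_lit 304) (nat_lit 0) (XT.nd (nat_lit 78) (nat_lit 380) (nat_lit 0) (XT.lf (nat_lit 0) (nat_lit 8206024372) (nat_lit 456) (nat_lit 12314077593) (nat_lit 76) (nat_lit 10196194783) (nat_lit 96) (nat_lit 5) (nat_lit 102) (nat_lit 5) (nat_lit 97) (nat_lit 5) (nat_lit 346) (nat_lit 304) (nat_lit 130)) (XT.lf (nat_lit 0) (nat_lit 2121403742) (nat_lit 380) (nat_lit 10417502452) (nat_lit 456) (nat_lit 18767911777) (nat_lit 91) (nat_lit 5) (nat_lit 96) (nat_lit 5) (nat_lit 97) (nat_lit 5) (nat_lit 347) (nat_lit 304) (nat_lit 129))) (XT.nd (nat_lit 78) (nat_lit 304) (nat_lit 0) (XT.lf (nat_lit 0) (nat_lit 17123488849) (nat_lit 456) (nat_lit 14674967881) (nat_lit 76) (nat_lit 112950986) (nat_lit 91) (nat_lit 5) (nat_lit 97) (nat_lit 5) (nat_lit 92) (nat_lit 5) (nat_lit 348) (nat_lit 304) (nat_lit 128)) (XT.lf (nat_lit 0) (nat_lit 166130828)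 (nat_lit 304) (nat_lit 21780576788) (nat_lit 380) (nat_lit 10584398768) (nat_lit 87) (nat_lit 5) (nat_lit 91) (nat_lit 5) (nat_lit 92) (nat_lit 5) (nat_lit 349) (nat_lit 304) (nat_lit 127)))))) (XT.nd (nat_lit 546) (nat_lit 836) (nat_lit 0) (XT.nd (nat_lit 234) (nat_lit 608) (nat_lit 0) (XT.nd (nat_lit 78) (nat_lit 456) (nat_lit 0) (XT.lf (nat_lit 0) (nat_lit 15748572363) (nat_lit 304) (nat_lit 11310657856) (nat_lit 380) (nat_lit 6105831647) (nat_lit 87) (nat_lit 5) (nat_lit 91) (nat_lit 5) (nat_lit 92) (nat_lit 5) (nat_lit 350) (nat_lit 304) (nat_lit 126)) (XT.nd (nat_lit 78) (nat_lit 456) (nat_lit 0) (XT.lf (nat_lit 0) (nat_lit 31793911812) (nat_lit 304) (nat_lit 527739861) (nat_lit 380) (nat_lit 1496492593) (nat_lit 87) (nat_lit 5) (nat_lit 91) (nat_lit 5) (nat_lit 92) (nat_lit 5) (nat_lit 351) (nat_lit 304) (nat_lit 125)) (XT.lf (nat_lit 0) (nat_lit 3422834670) (nat_lit 456) (nat_lit 20520702080)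 (nat_lit 76) (nat_lit 10539294079) (nat_lit 81) (nat_lit 5) (nat_lit 87) (nat_lit 5) (nat_lit 82) (nat_lit 5) (nat_lit 352) (nat_lit 304) (nat_lit 124)))) (XT.nd (nat_lit 156) (nat_lit 304) (nat_lit 0) (XT.nd (nat_lit 78) (nat_lit 304) (nat_lit 0) (XT.lf (nat_lit 0) (nat_lit 8482165037) (nat_lit 456) (nat_lit 4722076552) (nat_lit 76) (nat_lit 21962100474) (nat_lit 81) (nat_lit 5) (nat_lit 87) (nat_lit 5) (nat_lit 82) (nat_lit 5) (nat_lit 353) (nat_lit 304) (nat_lit 123)) (XT.lf (nat_lit 0) (nat_lit 11775867164) (nat_lit 304) (nat_lit 2027336054) (nat_lit 380) (nat_lit 22063861090) (nat_lit 77) (nat_lit 5) (nat_lit 81) (nat_lit 5) (nat_lit 82) (nat_lit 5) (nat_lit 354) (nat_lit 304) (nat_lit 122))) (XT.nd (nat_lit 78) (nat_lit 304) (nat_lit 0) (XT.lf (nat_lit 0) (nat_lit 19419975665) (nat_lit 380) (nat_lit 7817952486) (nat_lit 76) (nat_lit 9346800383) (nat_lit 77) (nat_lit 5) (nat_lit 82) (nat_lit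 5) (nat_lit 78) (nat_lit 5) (nat_lit 355) (nat_lit 304) (nat_lit 121)) (XT.lf (nat_lit 0) (nat_lit 9096578888) (nat_lit 304) (nat_lit 16213053758) (nat_lit 380) (nat_lit 12011161907) (nat_lit 73) (nat_lit 5) (nat_lit 77) (nat_lit 5) (nat_lit 78) (nat_lit 5) (nat_lit 356) (nat_lit 304) (nat_lit 120))))) (XT.nd (nat_lit 234) (nat_lit 532) (nat_lit 0) (XT.nd (nat_lit 78) (nat_lit 304) (nat_lit 0) (XT.lf (nat_lit 0) (nat_lit 26674504156) (nat_lit 304) (nat_lit 4777337919) (nat_lit 380) (nat_lit 6624827808) (nat_lit 73) (nat_lit 5) (nat_lit 77) (nat_lit 5) (nat_lit 78) (nat_lit 5) (nat_lit 357) (nat_lit 304) (nat_lit 119)) (XT.nd (nat_lit 78) (nat_lit 76) (nat_lit 0) (XT.lf (nat_lit 0) (nat_lit 5969470727) (nat_lit 228) (nat_lit 31930526653) (nat_lit 304) (nat_lit 951576826) (nat_lit 70) (nat_lit 5) (nat_lit 73) (nat_lit 5) (nat_lit 74) (nat_lit 5) (nat_lit 358) (nat_lit 304) (nat_lit 118)) (XT.lf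 (nat_lit 0) (nat_lit 4957003438) (nat_lit 304) (nat_lit 15650025348) (nat_lit 76) (nat_lit 19036471406) (nat_lit 69) (nat_lit 5) (nat_lit 73) (nat_lit 5) (nat_lit 70) (nat_lit 5) (nat_lit 359) (nat_lit 304) (nat_lit 117)))) (XT.nd (nat_lit 156) (nat_lit 228) (nat_lit 0) (XT.nd (nat_lit 78) (nat_lit 0) (nat_lit 0) (XT.lf (nat_lit 0) (nat_lit 2126943200) (nat_lit 304) (nat_lit 8914314630) (nat_lit 380) (nat_lit 29417120062) (nat_lit 65) (nat_lit 5) (nat_lit 69) (nat_lit 5) (nat_lit 70) (nat_lit 5) (nat_lit 360) (nat_lit 304) (nat_lit 116)) (XT.lf (nat_lit 0) (nat_lit 17494848652) (nat_lit 380) (nat_lit 20570764606) (nat_lit 76) (nat_lit 3226487172) (nat_lit 65) (nat_lit 5) (nat_lit 70) (nat_lit 5) (nat_lit 66) (nat_lit 5) (nat_lit 361) (nat_lit 304) (nat_lit 115))) (XT.nd (nat_lit 78) (nat_lit 228) (nat_lit 0) (XT.lf (nat_lit 0) (nat_lit 24227521260) (nat_lit 380) (nat_lit 2369603310) (nat_lit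 76) (nat_lit 15551148543) (nat_lit 65) (nat_lit 5) (nat_lit 70) (nat_lit 5) (nat_lit 66) (nat_lit 5) (nat_lit 362) (nat_lit 304) (nat_lit 114)) (XT.lf (nat_lit 0) (nat_lit 16699510570) (nat_lit 228) (nat_lit 14620484068) (nat_lit 304) (nat_lit 11705404331) (nat_lit 62) (nat_lit 5) (nat_lit 65) (nat_lit 5) (nat_lit 66) (nat_lit 5) (nat_lit 363) (nat_lit 304) (nat_lit 113))))))))
noncomputable def xc207 : XT := (XT.nd (nat_lit 2028) (nat_lit 228) (nat_lit 0) (XT.nd (nat_lit 1014) (nat_lit 988) (nat_lit 0) (XT.nd (nat_lit 468) (nat_lit 684) (nat_lit 0) (XT.nd (nat_lit 234) (nat_lit 228) (nat_lit 0) (XT.nd (nat_lit 78) (nat_lit 304) (nat_lit 0) (XT.lf (nat_lit 0) (nat_lit 36385361280) (nat_lit 228) (nat_lit 2261145166) (nat_lit 304) (nat_lit 5281696764) (nat_lit 62) (nat_lit 5) (nat_lit 65) (nat_lit 5) (nat_lit 66) (nat_lit 5) (nat_lit 364) (nat_lit 304) (nat_lit 112)) (XT.nd (nat_lit 78) (nat_lit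 0) (nat_lit 0) (XT.lf (nat_lit 0) (nat_lit 1523514678) (nat_lit 304) (nat_lit 32934615382) (nat_lit 76) (nat_lit 10393133867) (nat_lit 58) (nat_lit 5) (nat_lit 62) (nat_lit 5) (nat_lit 59) (nat_lit 5) (nat_lit 365) (nat_lit 304) (nat_lit 111)) (XT.lf (nat_lit 0) (nat_lit 8523448252) (nat_lit 304) (nat_lit 13764504109) (nat_lit 76) (nat_lit 23509595924) (nat_lit 58) (nat_lit 5) (nat_lit 62) (nat_lit 5) (nat_lit 59) (nat_lit 5) (nat_lit 366) (nat_lit 304) (nat_lit 110)))) (XT.nd (nat_lit 78) (nat_lit 0) (nat_lit 0) (XT.lf (nat_lit 0) (nat_lit 6095894878) (nat_lit 228) (nat_lit 9693570810) (nat_lit 304) (nat_lit 30981075164) (nat_lit 55) (nat_lit 5) (nat_lit 58) (nat_lit 5) (nat_lit 59) (nat_lit 5) (nat_lit 367) (nat_lit 304) (nat_lit 109)) (XT.nd (nat_lit 78) (nat_lit 0) (nat_lit 0) (XT.lf (nat_lit 0) (nat_lit 23442864229) (nat_lit 304) (nat_lit 20970977057) (nat_lit 76) (nat_lit 3353802078) (nat_lit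 55) (nat_lit 5) (nat_lit 59) (nat_lit 5) (nat_lit 56) (nat_lit 5) (nat_lit 368) (nat_lit 304) (nat_lit 108)) (XT.lf (nat_lit 0) (nat_lit 31419426679) (nat_lit 304) (nat_lit 775859336) (nat_lit 76) (nat_lit 16596568204) (nat_lit 55) (nat_lit 5) (nat_lit 59) (nat_lit 5) (nat_lit 56) (nat_lit 5) (nat_lit 369) (nat_lit 304) (nat_lit 107))))) (XT.nd (nat_lit 234) (nat_lit 228) (nat_lit 0) (XT.nd (nat_lit 78) (nat_lit 228) (nat_lit 0) (XT.lf (nat_lit 0) (nat_lit 20420001725) (nat_lit 228) (nat_lit 19409230138) (nat_lit 304) (nat_lit 10011743221) (nat_lit 52) (nat_lit 5) (nat_lit 55) (nat_lit 5) (nat_lit 56) (nat_lit 5) (nat_lit 370) (nat_lit 304) (nat_lit 106)) (XT.nd (nat_lit 78) (nat_lit 228) (nat_lit 0) (XT.lf (nat_lit 0) (nat_lit 42264100076) (nat_lit 228) (nat_lit 6232756304) (nat_lit 304) (nat_lit 2424549441) (nat_lit 52) (nat_lit 5) (nat_lit 55) (nat_lit 5) (nat_lit 56) (nat_lit 5) (nat_lit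 371) (nat_lit 304) (nat_lit 105)) (XT.lf (nat_lit 0) (nat_lit 5479343654) (nat_lit 228) (nat_lit 39175108293) (nat_lit 76) (nat_lit 7372416979) (nat_lit 49) (nat_lit 5) (nat_lit 52) (nat_lit 5) (nat_lit 50) (nat_lit 5) (nat_lit 372) (nat_lit 304) (nat_lit 104)))) (XT.nd (nat_lit 156) (nat_lit 0) (nat_lit 0) (XT.nd (nat_lit 78) (nat_lit 228) (nat_lit 0) (XT.lf (nat_lit 0) (nat_lit 13719375118) (nat_lit 228) (nat_lit 18069399079) (nat_lit 76) (nat_lit 21371570818) (nat_lit 49) (nat_lit 5) (nat_lit 52) (nat_lit 5) (nat_lit 50) (nat_lit 5) (nat_lit 373) (nat_lit 304) (nat_lit 103)) (XT.lf (nat_lit 0) (nat_lit 3739036062) (nat_lit 228) (nat_lit 18501333544) (nat_lit 304) (nat_lit 32086444697) (nat_lit 46) (nat_lit 5) (nat_lit 49) (nat_lit 5) (nat_lit 50) (nat_lit 5) (nat_lit 374) (nat_lit 304) (nat_lit 102))) (XT.nd (nat_lit 78) (nat_lit 0) (nat_lit 0) (XT.lf (nat_lit 0) (nat_lit 26568755219) (nat_lit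 228) (nat_lit 4628555445) (nat_lit 304) (nat_lit 24325559228) (nat_lit 46) (nat_lit 5) (nat_lit 49) (nat_lit 5) (nat_lit 50) (nat_lit 5) (nat_lit 375) (nat_lit 304) (nat_lit 101)) (XT.lf (nat_lit 0) (nat_lit 40513724074) (nat_lit 304) (nat_lit 6767631491) (nat_lit 76) (nat_lit 9470730338) (nat_lit 46) (nat_lit 5) (nat_lit 50) (nat_lit 5) (nat_lit 47) (nat_lit 5) (nat_lit 376) (nat_lit 304) (nat_lit 100)))))) (XT.nd (nat_lit 468) (nat_lit 380) (nat_lit 0) (XT.nd (nat_lit 234) (nat_lit 152) (nat_lit 0) (XT.nd (nat_lit 78) (nat_lit 304) (nat_lit 0) (XT.lf (nat_lit 0) (nat_lit 16354522942) (nat_lit 152) (nat_lit 33956107386) (nat_lit 228) (nat_lit 7701519681) (nat_lit 44) (nat_lit 5) (nat_lit 46) (nat_lit 5) (nat_lit 47) (nat_lit 5) (nat_lit 377) (nat_lit 304) (nat_lit 99)) (XT.nd (nat_lit 78) (nat_lit 228) (nat_lit 0) (XT.lf (nat_lit 0) (nat_lit 1137117094) (nat_lit 228) (nat_lit 19013303977) (nat_lit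 76) (nat_lit 39157272145) (nat_lit 43) (nat_lit 5) (nat_lit 46) (nat_lit 5) (nat_lit 44) (nat_lit 5) (nat_lit 378) (nat_lit 304) (nat_lit 98)) (XT.lf (nat_lit 0) (nat_lit 4315152880) (nat_lit 228) (nat_lit 5810476777) (nat_lit 304) (nat_lit 50513001683) (nat_lit 40) (nat_lit 5) (nat_lit 43) (nat_lit 5) (nat_lit 44) (nat_lit 5) (nat_lit 379) (nat_lit 304) (nat_lit 97)))) (XT.nd (nat_lit 78) (nat_lit 152) (nat_lit 0) (XT.lf (nat_lit 0) (nat_lit 19661867301) (nat_lit 304) (nat_lit 33361711933) (nat_lit 76) (nat_lit 8977577730) (nat_lit 40) (nat_lit 5) (nat_lit 44) (nat_lit 5) (nat_lit 41) (nat_lit 5) (nat_lit 380) (nat_lit 304) (nat_lit 96)) (XT.nd (nat_lit 78) (nat_lit 152) (nat_lit 0) (XT.lf (nat_lit 0) (nat_lit 29539824326) (nat_lit 304) (nat_lit 9771694717) (nat_lit 76) (nat_lit 24091371749) (nat_lit 40) (nat_lit 5) (nat_lit 44) (nat_lit 5) (nat_lit 41) (nat_lit 5) (nat_lit 381) (nat_lit 304)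 (nat_lit 95)) (XT.lf (nat_lit 0) (nat_lit 14812076645) (nat_lit 152) (nat_lit 25042584197) (nat_lit 228) (nat_lit 24987800934) (nat_lit 38) (nat_lit 5) (nat_lit 40) (nat_lit 5) (nat_lit 41) (nat_lit 5) (nat_lit 382) (nat_lit 304) (nat_lit 94))))) (XT.nd (nat_lit 234) (nat_lit 152) (nat_lit 0) (XT.nd (nat_lit 78) (nat_lit 228) (nat_lit 0) (XT.lf (nat_lit 0) (nat_lit 40330717222) (nat_lit 152) (nat_lit 10245083477) (nat_lit 228) (nat_lit 15746514764) (nat_lit 38) (nat_lit 5) (nat_lit 40) (nat_lit 5) (nat_lit 41) (nat_lit 5) (nat_lit 383) (nat_lit 304) (nat_lit 93)) (XT.nd (nat_lit 78) (nat_lit 228) (nat_lit 0) (XT.lf (nat_lit 0) (nat_lit 61664828243) (nat_lit 228) (nat_lit 1282587274) (nat_lit 76) (nat_lit 4897762926) (nat_lit 38) (nat_lit 5) (nat_lit 41) (nat_lit 5) (nat_lit 39) (nat_lit 5) (nat_lit 384) (nat_lit 304) (nat_lit 92)) (XT.lf (nat_lit 0) (nat_lit 3940081329) (nat_lit 228) (nat_lit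 44899947733) (nat_lit 76) (nat_lit 20562471756) (nat_lit 35) (nat_lit 5) (nat_lit 38) (nat_lit 5) (nat_lit 36) (nat_lit 5) (nat_lit 385) (nat_lit 304) (nat_lit 91)))) (XT.nd (nat_lit 156) (nat_lit 0) (nat_lit 0) (XT.nd (nat_lit 78) (nat_lit 152) (nat_lit 0) (XT.lf (nat_lit 0) (nat_lit 14251269264) (nat_lit 228) (nat_lit 19982769167) (nat_lit 76) (nat_lit 36770328992) (nat_lit 35) (nat_lit 5) (nat_lit 38) (nat_lit 5) (nat_lit 36) (nat_lit 5) (nat_lit 386) (nat_lit 304) (nat_lit 90)) (XT.lf (nat_lit 0) (nat_lit 5792199519) (nat_lit 152) (nat_lit 19133604034) (nat_lit 228) (nat_lit 47726867293) (nat_lit 33) (nat_lit 5) (nat_lit 35) (nat_lit 5) (nat_lit 36) (nat_lit 5) (nat_lit 387) (nat_lit 304) (nat_lit 89))) (XT.nd (nat_lit 78) (nat_lit 0) (nat_lit 0) (XT.lf (nat_lit 0) (nat_lit 32747319514) (nat_lit 152) (nat_lit 3373396069) (nat_lit 228) (nat_lit 38223704646) (nat_lit 33) (nat_lit 5) (nat_lit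 35) (nat_lit 5) (nat_lit 36) (nat_lit 5) (nat_lit 388) (nat_lit 304) (nat_lit 88)) (XT.lf (nat_lit 0) (nat_lit 47773482251) (nat_lit 228) (nat_lit 15702127979) (nat_lit 76) (nat_lit 12607652721) (nat_lit 33) (nat_lit 5) (nat_lit 36) (nat_lit 5) (nat_lit 34) (nat_lit 5) (nat_lit 389) (nat_lit 304) (nat_lit 87))))))) (XT.nd (nat_lit 34788) (nat_lit 0) (nat_lit 9196) (XT.nd (nat_lit 34242) (nat_lit 0) (nat_lit 11172) (XT.nd (nat_lit 34008) (nat_lit 0) (nat_lit 12160) (XT.nd (nat_lit 78) (nat_lit 76) (nat_lit 0) (XT.lf (nat_lit 0) (nat_lit 11151289513) (nat_lit 152) (nat_lit 48763574957) (nat_lit 228) (nat_lit 17955236553) (nat_lit 31) (nat_lit 5) (nat_lit 33) (nat_lit 5) (nat_lit 34) (nat_lit 5) (nat_lit 390) (nat_lit 304) (nat_lit 86)) (XT.nd (nat_lit 78) (nat_lit 76) (nat_lit 0) (XT.lf (nat_lit 0) (nat_lit 39129607023) (nat_lit 152) (nat_lit 33447902052) (nat_lit 228) (nat_lit 7128325548) (nat_lit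 31) (nat_lit 5) (nat_lit 33) (nat_lit 5) (nat_lit 34) (nat_lit 5) (nat_lit 391) (nat_lit 304) (nat_lit 85)) (XT.lf (nat_lit 0) (nat_lit 3943371199) (nat_lit 228) (nat_lit 13690578077) (nat_lit 76) (nat_lit 63961576973) (nat_lit 30) (nat_lit 5) (nat_lit 33) (nat_lit 5) (nat_lit 31) (nat_lit 5) (nat_lit 392) (nat_lit 304) (nat_lit 84)))) (XT.nd (nat_lit 78) (nat_lit 0) (nat_lit 0) (XT.lf (nat_lit 0) (nat_lit 7075377364) (nat_lit 1140) (nat_lit 381518704) (nat_lit 1140) (nat_lit 381518704) (nat_lit 190) (nat_lit 3) (nat_lit 205) (nat_lit 3) (nat_lit 205) (nat_lit 5) (nat_lit 305) (nat_lit 305) (nat_lit 170)) (XT.nd (nat_lit 78) (nat_lit 0) (nat_lit 0) (XT.lf (nat_lit 76) (nat_lit 6294851904) (nat_lit 0) (nat_lit 8380500088) (nat_lit 1140) (nat_lit 1226853814) (nat_lit 191) (nat_lit 5) (nat_lit 190) (nat_lit 3) (nat_lit 205) (nat_lit 5) (nat_lit 306) (nat_lit 305) (nat_lit 169)) (XT.lf (nat_lit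 76) (nat_lit 13574949148) (nat_lit 0) (nat_lit 1638565446) (nat_lit 1140) (nat_lit 920909790) (nat_lit 191) (nat_lit 5) (nat_lit 190) (nat_lit 3) (nat_lit 205) (nat_lit 5) (nat_lit 307) (nat_lit 305) (nat_lit 168))))) (XT.nd (nat_lit 234) (nat_lit 0) (nat_lit 0) (XT.nd (nat_lit 78) (nat_lit 1064) (nat_lit 0) (XT.lf (nat_lit 76) (nat_lit 4735886354) (nat_lit 0) (nat_lit 11118914763) (nat_lit 1140) (nat_lit 516214418) (nat_lit 192) (nat_lit 5) (nat_lit 191) (nat_lit 5) (nat_lit 206) (nat_lit 5) (nat_lit 308) (nat_lit 305) (nat_lit 167)) (XT.nd (nat_lit 78) (nat_lit 1064) (nat_lit 0) (XT.lf (nat_lit 76) (nat_lit 12280715143) (nat_lit 0) (nat_lit 4267201972) (nat_lit 1140) (nat_lit 65824517) (nat_lit 192) (nat_lit 5) (nat_lit 191) (nat_lit 5) (nat_lit 206) (nat_lit 5) (nat_lit 309) (nat_lit 305) (nat_lit 166)) (XT.lf (nat_lit 0) (nat_lit 439526608) (nat_lit 1140) (nat_lit 13647966416) (nat_lit 1216)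 (nat_lit 2774679252) (nat_lit 177) (nat_lit 5) (nat_lit 192) (nat_lit 5) (nat_lit 193) (nat_lit 5) (nat_lit 310) (nat_lit 305) (nat_lit 165)))) (XT.nd (nat_lit 156) (nat_lit 0) (nat_lit 76) (XT.nd (nat_lit 78) (nat_lit 0) (nat_lit 76) (XT.lf (nat_lit 0) (nat_lit 1036252033) (nat_lit 1140) (nat_lit 6089019368) (nat_lit 1216) (nat_lit 9990452453) (nat_lit 177) (nat_lit 5) (nat_lit 192) (nat_lit 5) (nat_lit 193) (nat_lit 5) (nat_lit 311) (nat_lit 305) (nat_lit 164)) (XT.lf (nat_lit 0) (nat_lit 1659453426) (nat_lit 1140) (nat_lit 15652393218) (nat_lit 1216) (nat_lit 64791383) (nat_lit 178) (nat_lit 5) (nat_lit 193) (nat_lit 5) (nat_lit 194) (nat_lit 5) (nat_lit 312) (nat_lit 305) (nat_lit 163))) (XT.nd (nat_lit 78) (nat_lit 0) (nat_lit 0) (XT.lf (nat_lit 0) (nat_lit 2425581241) (nat_lit 1140) (nat_lit 7823663079) (nat_lit 1216) (nat_lit 7392421280) (nat_lit 178) (nat_lit 5) (nat_lit 193) (nat_lit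 5) (nat_lit 194) (nat_lit 5) (nat_lit 313) (nat_lit 305) (nat_lit 162)) (XT.lf (nat_lit 76) (nat_lit 239061999) (nat_lit 0) (nat_lit 2969761134) (nat_lit 1216) (nat_lit 14706009472) (nat_lit 179) (nat_lit 5) (nat_lit 178) (nat_lit 5) (nat_lit 194) (nat_lit 5) (nat_lit 314) (nat_lit 305) (nat_lit 161)))))) (XT.nd (nat_lit 546) (nat_lit 2128) (nat_lit 0) (XT.nd (nat_lit 234) (nat_lit 0) (nat_lit 76) (XT.nd (nat_lit 78) (nat_lit 0) (nat_lit 0) (XT.lf (nat_lit 0) (nat_lit 4130916635) (nat_lit 1140) (nat_lit 9539840793) (nat_lit 1216) (nat_lit 4521988708) (nat_lit 179) (nat_lit 5) (nat_lit 194) (nat_lit 5) (nat_lit 195) (nat_lit 5) (nat_lit 315) (nat_lit 305) (nat_lit 160)) (XT.nd (nat_lit 78) (nat_lit 0) (nat_lit 76) (XT.lf (nat_lit 0) (nat_lit 5102349867) (nat_lit 1140) (nat_lit 1194822479) (nat_lit 1216) (nat_lit 12181186212) (nat_lit 179) (nat_lit 5) (nat_lit 194) (nat_lit 5) (nat_lit 195) (nat_lit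 5) (nat_lit 316) (nat_lit 305) (nat_lit 159)) (XT.lf (nat_lit 0) (nat_lit 6181137037) (nat_lit 1140) (nat_lit 11241511435) (nat_lit 1216) (nat_lit 1347556003) (nat_lit 180) (nat_lit 5) (nat_lit 195) (nat_lit 5) (nat_lit 196) (nat_lit 5) (nat_lit 317) (nat_lit 305) (nat_lit 158)))) (XT.nd (nat_lit 156) (nat_lit 0) (nat_lit 76) (XT.nd (nat_lit 78) (nat_lit 0) (nat_lit 0) (XT.lf (nat_lit 0) (nat_lit 7359505046) (nat_lit 1140) (nat_lit 2600124793) (nat_lit 1216) (nat_lit 9109170529) (nat_lit 180) (nat_lit 5) (nat_lit 195) (nat_lit 5) (nat_lit 196) (nat_lit 5) (nat_lit 318) (nat_lit 305) (nat_lit 157)) (XT.lf (nat_lit 76) (nat_lit 6420330918) (nat_lit 0) (nat_lit 2207506567) (nat_lit 1216) (nat_lit 10746889044) (nat_lit 181) (nat_lit 5) (nat_lit 180) (nat_lit 5) (nat_lit 196) (nat_lit 5) (nat_lit 319) (nat_lit 305) (nat_lit 156))) (XT.nd (nat_lit 78) (nat_lit 0) (nat_lit 0) (XT.lf (nat_lit 0) (nat_lit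 10009336850) (nat_lit 1140) (nat_lit 3985772816) (nat_lit 1216) (nat_lit 5692477779) (nat_lit 181) (nat_lit 5) (nat_lit 196) (nat_lit 5) (nat_lit 197) (nat_lit 5) (nat_lit 320) (nat_lit 305) (nat_lit 155)) (XT.lf (nat_lit 76) (nat_lit 5328559134) (nat_lit 0) (nat_lit 6170068896) (nat_lit 1216) (nat_lit 8509225925) (nat_lit 182) (nat_lit 5) (nat_lit 181) (nat_lit 5) (nat_lit 197) (nat_lit 5) (nat_lit 321) (nat_lit 305) (nat_lit 154))))) (XT.nd (nat_lit 234) (nat_lit 1216) (nat_lit 0) (XT.nd (nat_lit 78) (nat_lit 1140) (nat_lit 0) (XT.lf (nat_lit 0) (nat_lit 13084834270) (nat_lit 1140) (nat_lit 5356696680) (nat_lit 76) (nat_lit 1894640298) (nat_lit 182) (nat_lit 5) (nat_lit 197) (nat_lit 5) (nat_lit 183) (nat_lit 5) (nat_lit 322) (nat_lit 305) (nat_lit 153)) (XT.nd (nat_lit 78) (nat_lit 0) (nat_lit 0) (XT.lf (nat_lit 0) (nat_lit 4262186954) (nat_lit 1140) (nat_lit 10552115968) (nat_lit 1216) (nat_lit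 5857174440) (nat_lit 167) (nat_lit 5) (nat_lit 182) (nat_lit 5) (nat_lit 183) (nat_lit 5) (nat_lit 323) (nat_lit 305) (nat_lit 152)) (XT.lf (nat_lit 0) (nat_lit 14274024508) (nat_lit 1140) (nat_lit 2369472799) (nat_lit 1216) (nat_lit 4371919411) (nat_lit 167) (nat_lit 5) (nat_lit 182) (nat_lit 5) (nat_lit 183) (nat_lit 5) (nat_lit 324) (nat_lit 305) (nat_lit 151)))) (XT.nd (nat_lit 156) (nat_lit 684) (nat_lit 0) (XT.nd (nat_lit 78) (nat_lit 0) (nat_lit 0) (XT.lf (nat_lit 0) (nat_lit 3215590629) (nat_lit 532) (nat_lit 15395065914) (nat_lit 608) (nat_lit 2756534080) (nat_lit 160) (nat_lit 5) (nat_lit 167) (nat_lit 5) (nat_lit 168) (nat_lit 5) (nat_lit 325) (nat_lit 305) (nat_lit 150)) (XT.lf (nat_lit 0) (nat_lit 13580140781) (nat_lit 532) (nat_lit 7142058638) (nat_lit 608) (nat_lit 1004766036) (nat_lit 160) (nat_lit 5) (nat_lit 167) (nat_lit 5) (nat_lit 168) (nat_lit 5) (nat_lit 326) (nat_lit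 305) (nat_lit 149))) (XT.nd (nat_lit 78) (nat_lit 0) (nat_lit 0) (XT.lf (nat_lit 0) (nat_lit 812501764) (nat_lit 684) (nat_lit 19922478367) (nat_lit 76) (nat_lit 1361474630) (nat_lit 151) (nat_lit 5) (nat_lit 160) (nat_lit 5) (nat_lit 152) (nat_lit 5) (nat_lit 327) (nat_lit 305) (nat_lit 148)) (XT.lf (nat_lit 0) (nat_lit 2812181457) (nat_lit 684) (nat_lit 9590137722) (nat_lit 76) (nat_lit 10069976493) (nat_lit 151) (nat_lit 5) (nat_lit 160) (nat_lit 5) (nat_lit 152) (nat_lit 5) (nat_lit 328) (nat_lit 305) (nat_lit 147))))))))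
noncomputable def xc208 : XT := (XT.nd (nat_lit 2028) (nat_lit 3116) (nat_lit 0) (XT.nd (nat_lit 1014) (nat_lit 2356) (nat_lit 0) (XT.nd (nat_lit 468) (nat_lit 1444) (nat_lit 0) (XT.nd (nat_lit 234) (nat_lit 988) (nat_lit 0) (XT.nd (nat_lit 78) (nat_lit 0) (nat_lit 0) (XT.lf (nat_lit 0) (nat_lit 1067663169) (nat_lit 532) (nat_lit 3808911335) (nat_lit 608) (nat_lit 17982703415) (nat_lit 144) (nat_lit 5) (nat_lit 151) (nat_lit 5) (nat_lit 152) (nat_lit 5) (nat_lit 329) (nat_lit 305) (nat_lit 146)) (XT.nd (nat_lit 78) (nat_lit 0) (nat_lit 0) (XT.lf (nat_lit 0) (nat_lit 7143741171) (nat_lit 608) (nat_lit 11068069682) (nat_lit 76) (nat_lit 5041841093) (nat_lit 144) (nat_lit 5) (nat_lit 152) (nat_lit 5) (nat_lit 145) (nat_lit 5) (nat_lit 330) (nat_lit 305) (nat_lit 145)) (XT.lf (nat_lit 0) (nat_lit 9511364690) (nat_lit 608) (nat_lit 65834448) (nat_lit 76) (nat_lit 14081692151) (nat_lit 144) (nat_lit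 5) (nat_lit 152) (nat_lit 5) (nat_lit 145) (nat_lit 5) (nat_lit 331) (nat_lit 305) (nat_lit 144)))) (XT.nd (nat_lit 78) (nat_lit 456) (nat_lit 0) (XT.lf (nat_lit 0) (nat_lit 11485440452) (nat_lit 532) (nat_lit 569864900) (nat_lit 608) (nat_lit 12017830943) (nat_lit 137) (nat_lit 5) (nat_lit 144) (nat_lit 5) (nat_lit 145) (nat_lit 5) (nat_lit 332) (nat_lit 305) (nat_lit 143)) (XT.nd (nat_lit 78) (nat_lit 456) (nat_lit 0) (XT.lf (nat_lit 0) (nat_lit 14754921827) (nat_lit 608) (nat_lit 1204151630) (nat_lit 76) (nat_lit 8538361391) (nat_lit 137) (nat_lit 5) (nat_lit 145) (nat_lit 5) (nat_lit 138) (nat_lit 5) (nat_lit 333) (nat_lit 305) (nat_lit 142)) (XT.lf (nat_lit 0) (nat_lit 10719326588) (nat_lit 456) (nat_lit 6920011873) (nat_lit 532) (nat_lit 7292016274) (nat_lit 131) (nat_lit 5) (nat_lit 137) (nat_lit 5) (nat_lit 138) (nat_lit 5) (nat_lit 334) (nat_lit 305) (nat_lit 141))))) (XT.nd (nat_lit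 234) (nat_lit 912) (nat_lit 0) (XT.nd (nat_lit 78) (nat_lit 532) (nat_lit 0) (XT.lf (nat_lit 0) (nat_lit 20640763214) (nat_lit 532) (nat_lit 2381030977) (nat_lit 76) (nat_lit 2355590288) (nat_lit 131) (nat_lit 5) (nat_lit 138) (nat_lit 5) (nat_lit 132) (nat_lit 5) (nat_lit 335) (nat_lit 305) (nat_lit 140)) (XT.nd (nat_lit 78) (nat_lit 76) (nat_lit 0) (XT.lf (nat_lit 0) (nat_lit 9925005229) (nat_lit 456) (nat_lit 13966504297) (nat_lit 532) (nat_lit 1940513564) (nat_lit 125) (nat_lit 5) (nat_lit 131) (nat_lit 5) (nat_lit 132) (nat_lit 5) (nat_lit 336) (nat_lit 305) (nat_lit 139)) (XT.lf (nat_lit 0) (nat_lit 940821212) (nat_lit 532) (nat_lit 3664913758) (nat_lit 76) (nat_lit 21693710646) (nat_lit 124) (nat_lit 5) (nat_lit 131) (nat_lit 5) (nat_lit 125) (nat_lit 5) (nat_lit 337) (nat_lit 305) (nat_lit 138)))) (XT.nd (nat_lit 156) (nat_lit 456) (nat_lit 0) (XT.nd (nat_lit 78) (nat_lit 0) (nat_lit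 0) (XT.lf (nat_lit 0) (nat_lit 4002035512) (nat_lit 532) (nat_lit 17729466449) (nat_lit 76) (nat_lit 5044845014) (nat_lit 118) (nat_lit 5) (nat_lit 125) (nat_lit 5) (nat_lit 119) (nat_lit 5) (nat_lit 338) (nat_lit 305) (nat_lit 137)) (XT.lf (nat_lit 0) (nat_lit 7233669422) (nat_lit 532) (nat_lit 5102289144) (nat_lit 76) (nat_lit 14929244945) (nat_lit 118) (nat_lit 5) (nat_lit 125) (nat_lit 5) (nat_lit 119) (nat_lit 5) (nat_lit 339) (nat_lit 305) (nat_lit 136))) (XT.nd (nat_lit 78) (nat_lit 0) (nat_lit 0) (XT.lf (nat_lit 0) (nat_lit 8056019965) (nat_lit 456) (nat_lit 2579406710) (nat_lit 532) (nat_lit 17131109306) (nat_lit 112) (nat_lit 5) (nat_lit 118) (nat_lit 5) (nat_lit 119) (nat_lit 5) (nat_lit 340) (nat_lit 305) (nat_lit 135)) (XT.lf (nat_lit 0) (nat_lit 14258880988) (nat_lit 532) (nat_lit 6644969540) (nat_lit 76) (nat_lit 7375473876) (nat_lit 112) (nat_lit 5) (nat_lit 119) (nat_lit 5)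 (nat_lit 113) (nat_lit 5) (nat_lit 341) (nat_lit 305) (nat_lit 134)))))) (XT.nd (nat_lit 468) (nat_lit 1140) (nat_lit 0) (XT.nd (nat_lit 234) (nat_lit 456) (nat_lit 0) (XT.nd (nat_lit 78) (nat_lit 380) (nat_lit 0) (XT.lf (nat_lit 0) (nat_lit 6917165737) (nat_lit 380) (nat_lit 11161832453) (nat_lit 456) (nat_lit 10725864667) (nat_lit 107) (nat_lit 5) (nat_lit 112) (nat_lit 5) (nat_lit 113) (nat_lit 5) (nat_lit 342) (nat_lit 305) (nat_lit 133)) (XT.nd (nat_lit 78) (nat_lit 380) (nat_lit 0) (XT.lf (nat_lit 0) (nat_lit 21017609935) (nat_lit 380) (nat_lit 1059211415) (nat_lit 456) (nat_lit 7267458044) (nat_lit 107) (nat_lit 5) (nat_lit 112) (nat_lit 5) (nat_lit 113) (nat_lit 5) (nat_lit 343) (nat_lit 305) (nat_lit 132)) (XT.lf (nat_lit 0) (nat_lit 5656987391) (nat_lit 380) (nat_lit 20677924945) (nat_lit 456) (nat_lit 3560760956) (nat_lit 102) (nat_lit 5) (nat_lit 107) (nat_lit 5) (nat_lit 108) (nat_lit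 5) (nat_lit 344) (nat_lit 305) (nat_lit 131)))) (XT.nd (nat_lit 78) (nat_lit 380) (nat_lit 0) (XT.lf (nat_lit 0) (nat_lit 343658354) (nat_lit 456) (nat_lit 10248816139) (nat_lit 76) (nat_lit 19868318772) (nat_lit 101) (nat_lit 5) (nat_lit 107) (nat_lit 5) (nat_lit 102) (nat_lit 5) (nat_lit 345) (nat_lit 305) (nat_lit 130)) (XT.nd (nat_lit 78) (nat_lit 0) (nat_lit 0) (XT.lf (nat_lit 0) (nat_lit 4202866332) (nat_lit 380) (nat_lit 127425401) (nat_lit 456) (nat_lit 26710422421) (nat_lit 96) (nat_lit 5) (nat_lit 101) (nat_lit 5) (nat_lit 102) (nat_lit 5) (nat_lit 346) (nat_lit 305) (nat_lit 129)) (XT.lf (nat_lit 0) (nat_lit 8639736274) (nat_lit 456) (nat_lit 12444854098) (nat_lit 76) (nat_lit 10547350249) (nat_lit 96) (nat_lit 5) (nat_lit 102) (nat_lit 5) (nat_lit 97) (nat_lit 5) (nat_lit 347) (nat_lit 305) (nat_lit 128))))) (XT.nd (nat_lit 234) (nat_lit 456) (nat_lit 0) (XT.nd (nat_lit 78) (nat_lit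 304) (nat_lit 0) (XT.lf (nat_lit 0) (nat_lit 2421352013) (nat_lit 380) (nat_lit 10678061985) (nat_lit 456) (nat_lit 19140865581) (nat_lit 91) (nat_lit 5) (nat_lit 96) (nat_lit 5) (nat_lit 97) (nat_lit 5) (nat_lit 348) (nat_lit 305) (nat_lit 127)) (XT.nd (nat_lit 78) (nat_lit 304) (nat_lit 0) (XT.lf (nat_lit 0) (nat_lit 17816649963) (nat_lit 456) (nat_lit 14880702776) (nat_lit 76) (nat_lit 165806997) (nat_lit 91) (nat_lit 5) (nat_lit 97) (nat_lit 5) (nat_lit 92) (nat_lit 5) (nat_lit 349) (nat_lit 305) (nat_lit 126)) (XT.lf (nat_lit 0) (nat_lit 403329736) (nat_lit 304) (nat_lit 22378240863) (nat_lit 380) (nat_lit 10719974622) (nat_lit 87) (nat_lit 5) (nat_lit 91) (nat_lit 5) (nat_lit 92) (nat_lit 5) (nat_lit 350) (nat_lit 305) (nat_lit 125)))) (XT.nd (nat_lit 156) (nat_lit 456) (nat_lit 0) (XT.nd (nat_lit 78) (nat_lit 0) (nat_lit 0) (XT.lf (nat_lit 0) (nat_lit 16446480973) (nat_lit 304) (nat_lit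 11595848243) (nat_lit 380) (nat_lit 6112350179) (nat_lit 87) (nat_lit 5) (nat_lit 91) (nat_lit 5) (nat_lit 92) (nat_lit 5) (nat_lit 351) (nat_lit 305) (nat_lit 124)) (XT.lf (nat_lit 0) (nat_lit 32966614059) (nat_lit 304) (nat_lit 491019291) (nat_lit 380) (nat_lit 1369876286) (nat_lit 87) (nat_lit 5) (nat_lit 91) (nat_lit 5) (nat_lit 92) (nat_lit 5) (nat_lit 352) (nat_lit 305) (nat_lit 123))) (XT.nd (nat_lit 78) (nat_lit 0) (nat_lit 0) (XT.lf (nat_lit 0) (nat_lit 3691430301) (nat_lit 456) (nat_lit 20911476123) (nat_lit 76) (nat_lit 10909253868) (nat_lit 81) (nat_lit 5) (nat_lit 87) (nat_lit 5) (nat_lit 82) (nat_lit 5) (nat_lit 353) (nat_lit 305) (nat_lit 122)) (XT.lf (nat_lit 0) (nat_lit 8897708232) (nat_lit 456) (nat_lit 4645440772) (nat_lit 76) (nat_lit 22673178019) (nat_lit 81) (nat_lit 5) (nat_lit 87) (nat_lit 5) (nat_lit 82) (nat_lit 5) (nat_lit 354) (nat_lit 305) (nat_lit 121))))))) (XT.nd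 (nat_lit 1014) (nat_lit 1368) (nat_lit 0) (XT.nd (nat_lit 468) (nat_lit 836) (nat_lit 0) (XT.nd (nat_lit 234) (nat_lit 304) (nat_lit 0) (XT.nd (nat_lit 78) (nat_lit 304) (nat_lit 0) (XT.lf (nat_lit 0) (nat_lit 12345301079) (nat_lit 304) (nat_lit 2030462722) (nat_lit 380) (nat_lit 22562390584) (nat_lit 77) (nat_lit 5) (nat_lit 81) (nat_lit 5) (nat_lit 82) (nat_lit 5) (nat_lit 355) (nat_lit 305) (nat_lit 120)) (XT.nd (nat_lit 78) (nat_lit 304) (nat_lit 0) (XT.lf (nat_lit 0) (nat_lit 20156962382) (nat_lit 380) (nat_lit 7838388956) (nat_lit 76) (nat_lit 9682124401) (nat_lit 77) (nat_lit 5) (nat_lit 82) (nat_lit 5) (nat_lit 78) (nat_lit 5) (nat_lit 356) (nat_lit 305) (nat_lit 119)) (XT.lf (nat_lit 0) (nat_lit 9581479319) (nat_lit 304) (nat_lit 16639370935) (nat_lit 380) (nat_lit 12214851998) (nat_lit 73) (nat_lit 5) (nat_lit 77) (nat_lit 5) (nat_lit 78) (nat_lit 5) (nat_lit 357) (nat_lit 305) (nat_lit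 118)))) (XT.nd (nat_lit 78) (nat_lit 304) (nat_lit 0) (XT.lf (nat_lit 0) (nat_lit 27680567499) (nat_lit 304) (nat_lit 4862333362) (nat_lit 380) (nat_lit 6671490345) (nat_lit 73) (nat_lit 5) (nat_lit 77) (nat_lit 5) (nat_lit 78) (nat_lit 5) (nat_lit 358) (nat_lit 305) (nat_lit 117)) (XT.nd (nat_lit 78) (nat_lit 76) (nat_lit 0) (XT.lf (nat_lit 0) (nat_lit 6356343871) (nat_lit 228) (nat_lit 32826402452) (nat_lit 304) (nat_lit 829853445) (nat_lit 70) (nat_lit 5) (nat_lit 73) (nat_lit 5) (nat_lit 74) (nat_lit 5) (nat_lit 359) (nat_lit 305) (nat_lit 116)) (XT.lf (nat_lit 0) (nat_lit 5248760496) (nat_lit 304) (nat_lit 15914801650) (nat_lit 76) (nat_lit 19664811015) (nat_lit 69) (nat_lit 5) (nat_lit 73) (nat_lit 5) (nat_lit 70) (nat_lit 5) (nat_lit 360) (nat_lit 305) (nat_lit 115))))) (XT.nd (nat_lit 234) (nat_lit 532) (nat_lit 0) (XT.nd (nat_lit 78) (nat_lit 0) (nat_lit 0) (XT.lf (nat_lit 0) (nat_lit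 2393468852) (nat_lit 304) (nat_lit 9119855894) (nat_lit 380) (nat_lit 30154443074) (nat_lit 65) (nat_lit 5) (nat_lit 69) (nat_lit 5) (nat_lit 70) (nat_lit 5) (nat_lit 361) (nat_lit 305) (nat_lit 114)) (XT.nd (nat_lit 78) (nat_lit 0) (nat_lit 0) (XT.lf (nat_lit 0) (nat_lit 18156999052) (nat_lit 380) (nat_lit 20987417780) (nat_lit 76) (nat_lit 3382194907) (nat_lit 65) (nat_lit 5) (nat_lit 70) (nat_lit 5) (nat_lit 66) (nat_lit 5) (nat_lit 362) (nat_lit 305) (nat_lit 113)) (XT.lf (nat_lit 0) (nat_lit 25087652665) (nat_lit 380) (nat_lit 2246060570) (nat_lit 76) (nat_lit 16074880203) (nat_lit 65) (nat_lit 5) (nat_lit 70) (nat_lit 5) (nat_lit 66) (nat_lit 5) (nat_lit 363) (nat_lit 305) (nat_lit 112)))) (XT.nd (nat_lit 156) (nat_lit 304) (nat_lit 0) (XT.nd (nat_lit 78) (nat_lit 0) (nat_lit 0) (XT.lf (nat_lit 0) (nat_lit 17393218580) (nat_lit 228) (nat_lit 14997651540) (nat_lit 304) (nat_lit 11921227601)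 (nat_lit 62) (nat_lit 5) (nat_lit 65) (nat_lit 5) (nat_lit 66) (nat_lit 5) (nat_lit 364) (nat_lit 305) (nat_lit 111)) (XT.lf (nat_lit 0) (nat_lit 37664031529) (nat_lit 228) (nat_lit 2269322191) (nat_lit 304) (nat_lit 5308750716) (nat_lit 62) (nat_lit 5) (nat_lit 65) (nat_lit 5) (nat_lit 66) (nat_lit 5) (nat_lit 365) (nat_lit 305) (nat_lit 110))) (XT.nd (nat_lit 78) (nat_lit 0) (nat_lit 0) (XT.lf (nat_lit 0) (nat_lit 1696693917) (nat_lit 304) (nat_lit 33731389161) (nat_lit 76) (nat_lit 10764780209) (nat_lit 58) (nat_lit 5) (nat_lit 62) (nat_lit 5) (nat_lit 59) (nat_lit 5) (nat_lit 366) (nat_lit 305) (nat_lit 109)) (XT.lf (nat_lit 0) (nat_lit 8902912669) (nat_lit 304) (nat_lit 13991745367) (nat_lit 76) (nat_lit 24272992855) (nat_lit 58) (nat_lit 5) (nat_lit 62) (nat_lit 5) (nat_lit 59) (nat_lit 5) (nat_lit 367) (nat_lit 305) (nat_lit 108)))))) (XT.nd (nat_lit 468) (nat_lit 684) (nat_lit 0) (XT.nd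 (nat_lit 234) (nat_lit 456) (nat_lit 0) (XT.nd (nat_lit 78) (nat_lit 0) (nat_lit 0) (XT.lf (nat_lit 0) (nat_lit 6462645062) (nat_lit 228) (nat_lit 9922428380) (nat_lit 304) (nat_lit 31784818142) (nat_lit 55) (nat_lit 5) (nat_lit 58) (nat_lit 5) (nat_lit 59) (nat_lit 5) (nat_lit 368) (nat_lit 305) (nat_lit 107)) (XT.nd (nat_lit 78) (nat_lit 0) (nat_lit 0) (XT.lf (nat_lit 0) (nat_lit 24265100915) (nat_lit 304) (nat_lit 21418510899) (nat_lit 76) (nat_lit 3513387689) (nat_lit 55) (nat_lit 5) (nat_lit 59) (nat_lit 5) (nat_lit 56) (nat_lit 5) (nat_lit 369) (nat_lit 305) (nat_lit 106)) (XT.lf (nat_lit 0) (nat_lit 32477495652) (nat_lit 304) (nat_lit 622828834) (nat_lit 76) (nat_lit 17151719181) (nat_lit 55) (nat_lit 5) (nat_lit 59) (nat_lit 5) (nat_lit 56) (nat_lit 5) (nat_lit 370) (nat_lit 305) (nat_lit 105)))) (XT.nd (nat_lit 78) (nat_lit 228) (nat_lit 0) (XT.lf (nat_lit 0) (nat_lit 21207179565) (nat_lit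 228) (nat_lit 19930729900) (nat_lit 304) (nat_lit 10194782218) (nat_lit 52) (nat_lit 5) (nat_lit 55) (nat_lit 5) (nat_lit 56) (nat_lit 5) (nat_lit 371) (nat_lit 305) (nat_lit 104)) (XT.nd (nat_lit 78) (nat_lit 228) (nat_lit 0) (XT.lf (nat_lit 0) (nat_lit 43701516078) (nat_lit 228) (nat_lit 6360732059) (nat_lit 304) (nat_lit 2383389516) (nat_lit 52) (nat_lit 5) (nat_lit 55) (nat_lit 5) (nat_lit 56) (nat_lit 5) (nat_lit 372) (nat_lit 305) (nat_lit 103)) (XT.lf (nat_lit 0) (nat_lit 5754357948) (nat_lit 228) (nat_lit 40177422883) (nat_lit 76) (nat_lit 7652484880) (nat_lit 49) (nat_lit 5) (nat_lit 52) (nat_lit 5) (nat_lit 50) (nat_lit 5) (nat_lit 373) (nat_lit 305) (nat_lit 102))))) (XT.nd (nat_lit 234) (nat_lit 456) (nat_lit 0) (XT.nd (nat_lit 78) (nat_lit 228) (nat_lit 0) (XT.lf (nat_lit 0) (nat_lit 14238368006) (nat_lit 228) (nat_lit 18443579441) (nat_lit 76) (nat_lit 22069897934) (nat_lit 49)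 (nat_lit 5) (nat_lit 52) (nat_lit 5) (nat_lit 50) (nat_lit 5) (nat_lit 374) (nat_lit 305) (nat_lit 101)) (XT.nd (nat_lit 78) (nat_lit 0) (nat_lit 0) (XT.lf (nat_lit 0) (nat_lit 4017462660) (nat_lit 228) (nat_lit 18995999325) (nat_lit 304) (nat_lit 32939895225) (nat_lit 46) (nat_lit 5) (nat_lit 49) (nat_lit 5) (nat_lit 50) (nat_lit 5) (nat_lit 375) (nat_lit 305) (nat_lit 100)) (XT.lf (nat_lit 0) (nat_lit 27527230998) (nat_lit 228) (nat_lit 4708796356) (nat_lit 304) (nat_lit 24949362109) (nat_lit 46) (nat_lit 5) (nat_lit 49) (nat_lit 5) (nat_lit 50) (nat_lit 5) (nat_lit 376) (nat_lit 305) (nat_lit 99)))) (XT.nd (nat_lit 156) (nat_lit 304) (nat_lit 0) (XT.nd (nat_lit 78) (nat_lit 152) (nat_lit 0) (XT.lf (nat_lit 0) (nat_lit 41829486107) (nat_lit 304) (nat_lit 6811421409) (nat_lit 76) (nat_lit 9810650256) (nat_lit 46) (nat_lit 5) (nat_lit 50) (nat_lit 5) (nat_lit 47) (nat_lit 5) (nat_lit 377) (nat_lit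 305) (nat_lit 98)) (XT.lf (nat_lit 0) (nat_lit 17002836491) (nat_lit 152) (nat_lit 34916055930) (nat_lit 228) (nat_lit 7830575931) (nat_lit 44) (nat_lit 5) (nat_lit 46) (nat_lit 5) (nat_lit 47) (nat_lit 5) (nat_lit 378) (nat_lit 305) (nat_lit 97))) (XT.nd (nat_lit 78) (nat_lit 228) (nat_lit 0) (XT.lf (nat_lit 0) (nat_lit 1268317171) (nat_lit 228) (nat_lit 19428612190) (nat_lit 76) (nat_lit 40387008662) (nat_lit 43) (nat_lit 5) (nat_lit 46) (nat_lit 5) (nat_lit 44) (nat_lit 5) (nat_lit 379) (nat_lit 305) (nat_lit 96)) (XT.lf (nat_lit 0) (nat_lit 4598177874) (nat_lit 228) (nat_lit 5926955686) (nat_lit 304) (nat_lit 51929713415) (nat_lit 40) (nat_lit 5) (nat_lit 43) (nat_lit 5) (nat_lit 44) (nat_lit 5) (nat_lit 380) (nat_lit 305) (nat_lit 95))))))))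
noncomputable def xc209 : XT := (XT.nd (nat_lit 35880) (nat_lit 0) (nat_lit 5320) (XT.nd (nat_lit 34866) (nat_lit 0) (nat_lit 11020) (XT.nd (nat_lit 468) (nat_lit 304) (nat_lit 0) (XT.nd (nat_lit 234) (nat_lit 228) (nat_lit 0) (XT.nd (nat_lit 78) (nat_lit 152) (nat_lit 0) (XT.lf (nat_lit 0) (nat_lit 20345209691) (nat_lit 304) (nat_lit 34211147985) (nat_lit 76) (nat_lit 9301960225) (nat_lit 40) (nat_lit 5) (nat_lit 44) (nat_lit 5) (nat_lit 41) (nat_lit 5) (nat_lit 381) (nat_lit 305) (nat_lit 94)) (XT.nd (nat_lit 78) (nat_lit 152) (nat_lit 0) (XT.lf (nat_lit 0) (nat_lit 30516782523) (nat_lit 304) (nat_lit 9917840408) (nat_lit 76) (nat_lit 24867564517) (nat_lit 40) (nat_lit 5) (nat_lit 44) (nat_lit 5) (nat_lit 41) (nat_lit 5) (nat_lit 382) (nat_lit 305) (nat_lit 93)) (XT.lf (nat_lit 0) (nat_lit 15402002868) (nat_lit 152) (nat_lit 25737816919) (nat_lit 228) (nat_lit 25645165059) (nat_lit 38) (nat_lit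 5) (nat_lit 40) (nat_lit 5) (nat_lit 41) (nat_lit 5) (nat_lit 383) (nat_lit 305) (nat_lit 92)))) (XT.nd (nat_lit 78) (nat_lit 228) (nat_lit 0) (XT.lf (nat_lit 0) (nat_lit 41681962937) (nat_lit 152) (nat_lit 10498023551) (nat_lit 228) (nat_lit 16129327777) (nat_lit 38) (nat_lit 5) (nat_lit 40) (nat_lit 5) (nat_lit 41) (nat_lit 5) (nat_lit 384) (nat_lit 305) (nat_lit 91)) (XT.nd (nat_lit 78) (nat_lit 228) (nat_lit 0) (XT.lf (nat_lit 0) (nat_lit 63599661258) (nat_lit 228) (nat_lit 1181771868) (nat_lit 76) (nat_lit 5096492560) (nat_lit 38) (nat_lit 5) (nat_lit 41) (nat_lit 5) (nat_lit 39) (nat_lit 5) (nat_lit 385) (nat_lit 305) (nat_lit 90)) (XT.lf (nat_lit 0) (nat_lit 4142912944) (nat_lit 228) (nat_lit 46107276536) (nat_lit 76) (nat_lit 21231789552) (nat_lit 35) (nat_lit 5) (nat_lit 38) (nat_lit 5) (nat_lit 36) (nat_lit 5) (nat_lit 386) (nat_lit 305) (nat_lit 89))))) (XT.nd (nat_lit 234) (nat_lit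 152) (nat_lit 0) (XT.nd (nat_lit 78) (nat_lit 152) (nat_lit 0) (XT.lf (nat_lit 0) (nat_lit 14760971589) (nat_lit 228) (nat_lit 20446650660) (nat_lit 76) (nat_lit 37924355020) (nat_lit 35) (nat_lit 5) (nat_lit 38) (nat_lit 5) (nat_lit 36) (nat_lit 5) (nat_lit 387) (nat_lit 305) (nat_lit 88)) (XT.nd (nat_lit 78) (nat_lit 0) (nat_lit 0) (XT.lf (nat_lit 0) (nat_lit 6100237660) (nat_lit 152) (nat_lit 19654401820) (nat_lit 228) (nat_lit 49075125026) (nat_lit 33) (nat_lit 5) (nat_lit 35) (nat_lit 5) (nat_lit 36) (nat_lit 5) (nat_lit 388) (nat_lit 305) (nat_lit 87)) (XT.lf (nat_lit 0) (nat_lit 33860100415) (nat_lit 152) (nat_lit 3422937431) (nat_lit 228) (nat_lit 39289300946) (nat_lit 33) (nat_lit 5) (nat_lit 35) (nat_lit 5) (nat_lit 36) (nat_lit 5) (nat_lit 389) (nat_lit 305) (nat_lit 86)))) (XT.nd (nat_lit 156) (nat_lit 0) (nat_lit 0) (XT.nd (nat_lit 78) (nat_lit 152) (nat_lit 0) (XT.lf (nat_lit 0)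 (nat_lit 49283577387) (nat_lit 228) (nat_lit 16044765831) (nat_lit 76) (nat_lit 13035059426) (nat_lit 33) (nat_lit 5) (nat_lit 36) (nat_lit 5) (nat_lit 34) (nat_lit 5) (nat_lit 390) (nat_lit 305) (nat_lit 85)) (XT.lf (nat_lit 0) (nat_lit 11612995108) (nat_lit 152) (nat_lit 50175188836) (nat_lit 228) (nat_lit 18415693926) (nat_lit 31) (nat_lit 5) (nat_lit 33) (nat_lit 5) (nat_lit 34) (nat_lit 5) (nat_lit 391) (nat_lit 305) (nat_lit 84))) (XT.nd (nat_lit 33930) (nat_lit 0) (nat_lit 12084) (XT.lf (nat_lit 0) (nat_lit 40426958253) (nat_lit 152) (nat_lit 34401539726) (nat_lit 228) (nat_lit 7266253252) (nat_lit 31) (nat_lit 5) (nat_lit 33) (nat_lit 5) (nat_lit 34) (nat_lit 5) (nat_lit 392) (nat_lit 305) (nat_lit 83)) (XT.lf (nat_lit 0) (nat_lit 7537043956) (nat_lit 1140) (nat_lit 264319451) (nat_lit 1140) (nat_lit 264319451) (nat_lit 190) (nat_lit 3) (nat_lit 205) (nat_lit 3) (nat_lit 205) (nat_lit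 5) (nat_lit 306) (nat_lit 306) (nat_lit 168)))))) (XT.nd (nat_lit 468) (nat_lit 0) (nat_lit 76) (XT.nd (nat_lit 234) (nat_lit 1064) (nat_lit 0) (XT.nd (nat_lit 78) (nat_lit 0) (nat_lit 0) (XT.lf (nat_lit 76) (nat_lit 6738464642) (nat_lit 0) (nat_lit 8863878969) (nat_lit 1140) (nat_lit 761545470) (nat_lit 191) (nat_lit 5) (nat_lit 190) (nat_lit 3) (nat_lit 205) (nat_lit 5) (nat_lit 307) (nat_lit 306) (nat_lit 167)) (XT.nd (nat_lit 78) (nat_lit 0) (nat_lit 76) (XT.lf (nat_lit 76) (nat_lit 14229544399) (nat_lit 0) (nat_lit 1912930059) (nat_lit 1140) (nat_lit 461047804) (nat_lit 191) (nat_lit 5) (nat_lit 190) (nat_lit 3) (nat_lit 205) (nat_lit 5) (nat_lit 308) (nat_lit 306) (nat_lit 166)) (XT.lf (nat_lit 76) (nat_lit 5139816797) (nat_lit 0) (nat_lit 11649834378) (nat_lit 1140) (nat_lit 57982509) (nat_lit 192) (nat_lit 5) (nat_lit 191) (nat_lit 5) (nat_lit 206) (nat_lit 5) (nat_lit 309) (nat_lit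 306) (nat_lit 165)))) (XT.nd (nat_lit 78) (nat_lit 0) (nat_lit 76) (XT.lf (nat_lit 0) (nat_lit 384469764) (nat_lit 1140) (nat_lit 4198469927) (nat_lit 1216) (nat_lit 12515011483) (nat_lit 176) (nat_lit 5) (nat_lit 191) (nat_lit 5) (nat_lit 192) (nat_lit 5) (nat_lit 310) (nat_lit 306) (nat_lit 164)) (XT.nd (nat_lit 78) (nat_lit 0) (nat_lit 0) (XT.lf (nat_lit 0) (nat_lit 891315120) (nat_lit 1140) (nat_lit 13780492813) (nat_lit 1216) (nat_lit 2682397760) (nat_lit 177) (nat_lit 5) (nat_lit 192) (nat_lit 5) (nat_lit 193) (nat_lit 5) (nat_lit 311) (nat_lit 306) (nat_lit 163)) (XT.lf (nat_lit 0) (nat_lit 1493167471) (nat_lit 1140) (nat_lit 6002842770) (nat_lit 1216) (nat_lit 10119756445) (nat_lit 177) (nat_lit 5) (nat_lit 192) (nat_lit 5) (nat_lit 193) (nat_lit 5) (nat_lit 312) (nat_lit 306) (nat_lit 162))))) (XT.nd (nat_lit 234) (nat_lit 0) (nat_lit 152) (XT.nd (nat_lit 78) (nat_lit 0) (nat_lit 76)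 (XT.lf (nat_lit 76) (nat_lit 2042857470) (nat_lit 0) (nat_lit 81709403) (nat_lit 1216) (nat_lit 15760275401) (nat_lit 178) (nat_lit 5) (nat_lit 177) (nat_lit 5) (nat_lit 193) (nat_lit 5) (nat_lit 313) (nat_lit 306) (nat_lit 161)) (XT.nd (nat_lit 78) (nat_lit 0) (nat_lit 0) (XT.lf (nat_lit 0) (nat_lit 2900818974) (nat_lit 1140) (nat_lit 7785784961) (nat_lit 1216) (nat_lit 7471621022) (nat_lit 178) (nat_lit 5) (nat_lit 193) (nat_lit 5) (nat_lit 194) (nat_lit 5) (nat_lit 314) (nat_lit 306) (nat_lit 160)) (XT.lf (nat_lit 76) (nat_lit 516149438) (nat_lit 0) (nat_lit 3182280842) (nat_lit 1216) (nat_lit 14741448483) (nat_lit 179) (nat_lit 5) (nat_lit 178) (nat_lit 5) (nat_lit 194) (nat_lit 5) (nat_lit 315) (nat_lit 306) (nat_lit 159)))) (XT.nd (nat_lit 156) (nat_lit 0) (nat_lit 76) (XT.nd (nat_lit 78) (nat_lit 0) (nat_lit 0) (XT.lf (nat_lit 0) (nat_lit 4635578113) (nat_lit 1140) (nat_lit 9550792470)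 (nat_lit 1216) (nat_lit 4540154804) (nat_lit 179) (nat_lit 5) (nat_lit 194) (nat_lit 5) (nat_lit 195) (nat_lit 5) (nat_lit 316) (nat_lit 306) (nat_lit 158)) (XT.lf (nat_lit 0) (nat_lit 5625065003) (nat_lit 1140) (nat_lit 963440409) (nat_lit 1216) (nat_lit 12432550377) (nat_lit 179) (nat_lit 5) (nat_lit 194) (nat_lit 5) (nat_lit 195) (nat_lit 5) (nat_lit 317) (nat_lit 306) (nat_lit 157))) (XT.nd (nat_lit 78) (nat_lit 0) (nat_lit 0) (XT.lf (nat_lit 0) (nat_lit 6727062358) (nat_lit 1140) (nat_lit 11301828848) (nat_lit 1216) (nat_lit 1293056912) (nat_lit 180) (nat_lit 5) (nat_lit 195) (nat_lit 5) (nat_lit 196) (nat_lit 5) (nat_lit 318) (nat_lit 306) (nat_lit 156)) (XT.lf (nat_lit 0) (nat_lit 7930281663) (nat_lit 1140) (nat_lit 2409266469) (nat_lit 1216) (nat_lit 9290284703) (nat_lit 180) (nat_lit 5) (nat_lit 195) (nat_lit 5) (nat_lit 196) (nat_lit 5) (nat_lit 319) (nat_lit 306) (nat_lit 155)))))))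 (XT.nd (nat_lit 1014) (nat_lit 2736) (nat_lit 0) (XT.nd (nat_lit 468) (nat_lit 2280) (nat_lit 0) (XT.nd (nat_lit 234) (nat_lit 988) (nat_lit 0) (XT.nd (nat_lit 78) (nat_lit 0) (nat_lit 76) (XT.lf (nat_lit 76) (nat_lit 6879167011) (nat_lit 0) (nat_lit 2349862267) (nat_lit 1216) (nat_lit 10716152036) (nat_lit 181) (nat_lit 5) (nat_lit 180) (nat_lit 5) (nat_lit 196) (nat_lit 5) (nat_lit 320) (nat_lit 306) (nat_lit 154)) (XT.nd (nat_lit 78) (nat_lit 0) (nat_lit 0) (XT.lf (nat_lit 0) (nat_lit 10641291572) (nat_lit 1140) (nat_lit 3835690671) (nat_lit 1216) (nat_lit 5790781314) (nat_lit 181) (nat_lit 5) (nat_lit 196) (nat_lit 5) (nat_lit 197) (nat_lit 5) (nat_lit 321) (nat_lit 306) (nat_lit 153)) (XT.lf (nat_lit 76) (nat_lit 5755427558) (nat_lit 0) (nat_lit 6412740184) (nat_lit 1216) (nat_lit 8429697733) (nat_lit 182) (nat_lit 5) (nat_lit 181) (nat_lit 5) (nat_lit 197) (nat_lit 5) (nat_lit 322) (nat_lit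 306) (nat_lit 152)))) (XT.nd (nat_lit 78) (nat_lit 1140) (nat_lit 0) (XT.lf (nat_lit 0) (nat_lit 13791969084) (nat_lit 1140) (nat_lit 5247699387) (nat_lit 76) (nat_lit 1896677723) (nat_lit 182) (nat_lit 5) (nat_lit 197) (nat_lit 5) (nat_lit 183) (nat_lit 5) (nat_lit 323) (nat_lit 306) (nat_lit 151)) (XT.nd (nat_lit 78) (nat_lit 0) (nat_lit 0) (XT.lf (nat_lit 0) (nat_lit 4657106656) (nat_lit 1140) (nat_lit 10909619418) (nat_lit 1216) (nat_lit 5715197052) (nat_lit 167) (nat_lit 5) (nat_lit 182) (nat_lit 5) (nat_lit 183) (nat_lit 5) (nat_lit 324) (nat_lit 306) (nat_lit 150)) (XT.lf (nat_lit 0) (nat_lit 14961521062) (nat_lit 1140) (nat_lit 2480304528) (nat_lit 1216) (nat_lit 4194637555) (nat_lit 167) (nat_lit 5) (nat_lit 182) (nat_lit 5) (nat_lit 183) (nat_lit 5) (nat_lit 325) (nat_lit 306) (nat_lit 149))))) (XT.nd (nat_lit 234) (nat_lit 1064) (nat_lit 0) (XT.nd (nat_lit 78) (nat_lit 684) (nat_lit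 0) (XT.lf (nat_lit 0) (nat_lit 3578494340) (nat_lit 532) (nat_lit 15882986041) (nat_lit 608) (nat_lit 2537518435) (nat_lit 160) (nat_lit 5) (nat_lit 167) (nat_lit 5) (nat_lit 168) (nat_lit 5) (nat_lit 326) (nat_lit 306) (nat_lit 148)) (XT.nd (nat_lit 78) (nat_lit 684) (nat_lit 0) (XT.lf (nat_lit 0) (nat_lit 14246220725) (nat_lit 532) (nat_lit 7381629280) (nat_lit 608) (nat_lit 741985067) (nat_lit 160) (nat_lit 5) (nat_lit 167) (nat_lit 5) (nat_lit 168) (nat_lit 5) (nat_lit 327) (nat_lit 306) (nat_lit 147)) (XT.lf (nat_lit 0) (nat_lit 1118055767) (nat_lit 684) (nat_lit 20248928707) (nat_lit 76) (nat_lit 1383532852) (nat_lit 151) (nat_lit 5) (nat_lit 160) (nat_lit 5) (nat_lit 152) (nat_lit 5) (nat_lit 328) (nat_lit 306) (nat_lit 146)))) (XT.nd (nat_lit 156) (nat_lit 532) (nat_lit 0) (XT.nd (nat_lit 78) (nat_lit 532) (nat_lit 0) (XT.lf (nat_lit 0) (nat_lit 3169536173) (nat_lit 684) (nat_lit 9614517571)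 (nat_lit 76) (nat_lit 10353836937) (nat_lit 151) (nat_lit 5) (nat_lit 160) (nat_lit 5) (nat_lit 152) (nat_lit 5) (nat_lit 329) (nat_lit 306) (nat_lit 145)) (XT.lf (nat_lit 0) (nat_lit 1360435736) (nat_lit 532) (nat_lit 3929980548) (nat_lit 608) (nat_lit 18246240641) (nat_lit 144) (nat_lit 5) (nat_lit 151) (nat_lit 5) (nat_lit 152) (nat_lit 5) (nat_lit 330) (nat_lit 306) (nat_lit 144))) (XT.nd (nat_lit 78) (nat_lit 532) (nat_lit 0) (XT.lf (nat_lit 0) (nat_lit 7617741913) (nat_lit 608) (nat_lit 11138745378) (nat_lit 76) (nat_lit 5186621428) (nat_lit 144) (nat_lit 5) (nat_lit 152) (nat_lit 5) (nat_lit 145) (nat_lit 5) (nat_lit 331) (nat_lit 306) (nat_lit 143)) (XT.lf (nat_lit 0) (nat_lit 189644955) (nat_lit 532) (nat_lit 9861008423) (nat_lit 608) (nat_lit 14310034635) (nat_lit 137) (nat_lit 5) (nat_lit 144) (nat_lit 5) (nat_lit 145) (nat_lit 5) (nat_lit 332) (nat_lit 306) (nat_lit 142)))))) (XT.nd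 (nat_lit 546) (nat_lit 1292) (nat_lit 0) (XT.nd (nat_lit 234) (nat_lit 988) (nat_lit 0) (XT.nd (nat_lit 78) (nat_lit 456) (nat_lit 0) (XT.lf (nat_lit 0) (nat_lit 12081269664) (nat_lit 532) (nat_lit 582891494) (nat_lit 608) (nat_lit 12123411982) (nat_lit 137) (nat_lit 5) (nat_lit 144) (nat_lit 5) (nat_lit 145) (nat_lit 5) (nat_lit 333) (nat_lit 306) (nat_lit 141)) (XT.nd (nat_lit 78) (nat_lit 456) (nat_lit 0) (XT.lf (nat_lit 0) (nat_lit 15437604204) (nat_lit 608) (nat_lit 988835282) (nat_lit 76) (nat_lit 8798385966) (nat_lit 137) (nat_lit 5) (nat_lit 145) (nat_lit 5) (nat_lit 138) (nat_lit 5) (nat_lit 334) (nat_lit 306) (nat_lit 140)) (XT.lf (nat_lit 0) (nat_lit 11289882176) (nat_lit 456) (nat_lit 7114073166) (nat_lit 532) (nat_lit 7267955185) (nat_lit 131) (nat_lit 5) (nat_lit 137) (nat_lit 5) (nat_lit 138) (nat_lit 5) (nat_lit 335) (nat_lit 306) (nat_lit 139)))) (XT.nd (nat_lit 156) (nat_lit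 532) (nat_lit 0) (XT.nd (nat_lit 78) (nat_lit 456) (nat_lit 0) (XT.lf (nat_lit 0) (nat_lit 21488691812) (nat_lit 532) (nat_lit 2203694436) (nat_lit 76) (nat_lit 2439146217) (nat_lit 131) (nat_lit 5) (nat_lit 138) (nat_lit 5) (nat_lit 132) (nat_lit 5) (nat_lit 336) (nat_lit 306) (nat_lit 138)) (XT.lf (nat_lit 0) (nat_lit 10469083959) (nat_lit 456) (nat_lit 14363583084) (nat_lit 532) (nat_lit 1767281094) (nat_lit 125) (nat_lit 5) (nat_lit 131) (nat_lit 5) (nat_lit 132) (nat_lit 5) (nat_lit 337) (nat_lit 306) (nat_lit 137))) (XT.nd (nat_lit 78) (nat_lit 456) (nat_lit 0) (XT.lf (nat_lit 0) (nat_lit 1189367689) (nat_lit 532) (nat_lit 3531036511) (nat_lit 76) (nat_lit 22361129262) (nat_lit 124) (nat_lit 5) (nat_lit 131) (nat_lit 5) (nat_lit 125) (nat_lit 5) (nat_lit 338) (nat_lit 306) (nat_lit 136)) (XT.lf (nat_lit 0) (nat_lit 4338564411) (nat_lit 532) (nat_lit 18013394233) (nat_lit 76) (nat_lit 5220907162)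 (nat_lit 118) (nat_lit 5) (nat_lit 125) (nat_lit 5) (nat_lit 119) (nat_lit 5) (nat_lit 339) (nat_lit 306) (nat_lit 135))))) (XT.nd (nat_lit 234) (nat_lit 836) (nat_lit 0) (XT.nd (nat_lit 78) (nat_lit 456) (nat_lit 0) (XT.lf (nat_lit 0) (nat_lit 7660842450) (nat_lit 532) (nat_lit 5014623634) (nat_lit 76) (nat_lit 15401119184) (nat_lit 118) (nat_lit 5) (nat_lit 125) (nat_lit 5) (nat_lit 119) (nat_lit 5) (nat_lit 340) (nat_lit 306) (nat_lit 134)) (XT.nd (nat_lit 78) (nat_lit 0) (nat_lit 0) (XT.lf (nat_lit 0) (nat_lit 8536074609) (nat_lit 456) (nat_lit 2624747959) (nat_lit 532) (nat_lit 17432257889) (nat_lit 112) (nat_lit 5) (nat_lit 118) (nat_lit 5) (nat_lit 119) (nat_lit 5) (nat_lit 341) (nat_lit 306) (nat_lit 133)) (XT.lf (nat_lit 0) (nat_lit 14887269835) (nat_lit 532) (nat_lit 6606922848) (nat_lit 76) (nat_lit 7627238790) (nat_lit 112) (nat_lit 5) (nat_lit 119) (nat_lit 5) (nat_lit 113) (nat_lit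 5) (nat_lit 342) (nat_lit 306) (nat_lit 132)))) (XT.nd (nat_lit 156) (nat_lit 456) (nat_lit 0) (XT.nd (nat_lit 78) (nat_lit 0) (nat_lit 0) (XT.lf (nat_lit 0) (nat_lit 7359749077) (nat_lit 380) (nat_lit 11458657725) (nat_lit 456) (nat_lit 10844444188) (nat_lit 107) (nat_lit 5) (nat_lit 112) (nat_lit 5) (nat_lit 113) (nat_lit 5) (nat_lit 343) (nat_lit 306) (nat_lit 131)) (XT.lf (nat_lit 0) (nat_lit 21876359950) (nat_lit 380) (nat_lit 1054065717) (nat_lit 456) (nat_lit 7288203708) (nat_lit 107) (nat_lit 5) (nat_lit 112) (nat_lit 5) (nat_lit 113) (nat_lit 5) (nat_lit 344) (nat_lit 306) (nat_lit 130))) (XT.nd (nat_lit 78) (nat_lit 76) (nat_lit 0) (XT.lf (nat_lit 0) (nat_lit 6058249614) (nat_lit 380) (nat_lit 21255008339) (nat_lit 456) (nat_lit 3473404154) (nat_lit 102) (nat_lit 5) (nat_lit 107) (nat_lit 5) (nat_lit 108) (nat_lit 5) (nat_lit 345) (nat_lit 306) (nat_lit 129)) (XT.lf (nat_lit 0) (nat_lit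 538813238) (nat_lit 456) (nat_lit 10327574398) (nat_lit 76) (nat_lit 20502464979) (nat_lit 101) (nat_lit 5) (nat_lit 107) (nat_lit 5) (nat_lit 102) (nat_lit 5) (nat_lit 346) (nat_lit 306) (nat_lit 128))))))))
noncomputable def xc210 : XT := (XT.nd (nat_lit 2028) (nat_lit 1596) (nat_lit 0) (XT.nd (nat_lit 1014) (nat_lit 1596) (nat_lit 0) (XT.nd (nat_lit 468) (nat_lit 1064) (nat_lit 0) (XT.nd (nat_lit 234) (nat_lit 304) (nat_lit 0) (XT.nd (nat_lit 78) (nat_lit 380) (nat_lit 0) (XT.lf (nat_lit 0) (nat_lit 4555416329) (nat_lit 380) (nat_lit 86422361) (nat_lit 456) (nat_lit 27324435029) (nat_lit 96) (nat_lit 5) (nat_lit 101) (nat_lit 5) (nat_lit 102) (nat_lit 5) (nat_lit 347) (nat_lit 306) (nat_lit 127)) (XT.nd (nat_lit 78) (nat_lit 380) (nat_lit 0) (XT.lf (nat_lit 0) (nat_lit 9075694477) (nat_lit 456) (nat_lit 12593253144) (nat_lit 76) (nat_lit 10906441718) (nat_lit 96) (nat_lit 5) (nat_lit 102)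 (nat_lit 5) (nat_lit 97) (nat_lit 5) (nat_lit 348) (nat_lit 306) (nat_lit 126)) (XT.lf (nat_lit 0) (nat_lit 2716733791) (nat_lit 380) (nat_lit 10949421338) (nat_lit 456) (nat_lit 19535919572) (nat_lit 91) (nat_lit 5) (nat_lit 96) (nat_lit 5) (nat_lit 97) (nat_lit 5) (nat_lit 349) (nat_lit 306) (nat_lit 125)))) (XT.nd (nat_lit 78) (nat_lit 304) (nat_lit 0) (XT.lf (nat_lit 0) (nat_lit 18520304376) (nat_lit 456) (nat_lit 15106071789) (nat_lit 76) (nat_lit 217409053) (nat_lit 91) (nat_lit 5) (nat_lit 97) (nat_lit 5) (nat_lit 92) (nat_lit 5) (nat_lit 350) (nat_lit 306) (nat_lit 124)) (XT.nd (nat_lit 78) (nat_lit 0) (nat_lit 0) (XT.lf (nat_lit 0) (nat_lit 634314521) (nat_lit 304) (nat_lit 22997035323) (nat_lit 380) (nat_lit 10870062777) (nat_lit 87) (nat_lit 5) (nat_lit 91) (nat_lit 5) (nat_lit 92) (nat_lit 5) (nat_lit 351) (nat_lit 306) (nat_lit 123)) (XT.lf (nat_lit 0) (nat_lit 17152385008) (nat_lit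 304) (nat_lit 11892701587) (nat_lit 380) (nat_lit 6129205069) (nat_lit 87) (nat_lit 5) (nat_lit 91) (nat_lit 5) (nat_lit 92) (nat_lit 5) (nat_lit 352) (nat_lit 306) (nat_lit 122))))) (XT.nd (nat_lit 234) (nat_lit 608) (nat_lit 0) (XT.nd (nat_lit 78) (nat_lit 456) (nat_lit 0) (XT.lf (nat_lit 0) (nat_lit 34161932485) (nat_lit 304) (nat_lit 456213848) (nat_lit 380) (nat_lit 1249306928) (nat_lit 87) (nat_lit 5) (nat_lit 91) (nat_lit 5) (nat_lit 92) (nat_lit 5) (nat_lit 353) (nat_lit 306) (nat_lit 121)) (XT.nd (nat_lit 78) (nat_lit 0) (nat_lit 0) (XT.lf (nat_lit 0) (nat_lit 3958559854) (nat_lit 456) (nat_lit 21326880527) (nat_lit 76) (nat_lit 11287225203) (nat_lit 81) (nat_lit 5) (nat_lit 87) (nat_lit 5) (nat_lit 82) (nat_lit 5) (nat_lit 354) (nat_lit 306) (nat_lit 120)) (XT.lf (nat_lit 0) (nat_lit 9316471172) (nat_lit 456) (nat_lit 4579037121) (nat_lit 76) (nat_lit 23402590562) (nat_lit 81) (nat_lit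 5) (nat_lit 87) (nat_lit 5) (nat_lit 82) (nat_lit 5) (nat_lit 355) (nat_lit 306) (nat_lit 119)))) (XT.nd (nat_lit 156) (nat_lit 304) (nat_lit 0) (XT.nd (nat_lit 78) (nat_lit 0) (nat_lit 0) (XT.lf (nat_lit 0) (nat_lit 12919409663) (nat_lit 304) (nat_lit 2036995028) (nat_lit 380) (nat_lit 23085255007) (nat_lit 77) (nat_lit 5) (nat_lit 81) (nat_lit 5) (nat_lit 82) (nat_lit 5) (nat_lit 356) (nat_lit 306) (nat_lit 118)) (XT.lf (nat_lit 0) (nat_lit 20907196229) (nat_lit 380) (nat_lit 7871728857) (nat_lit 76) (nat_lit 10024355507) (nat_lit 77) (nat_lit 5) (nat_lit 82) (nat_lit 5) (nat_lit 78) (nat_lit 5) (nat_lit 357) (nat_lit 306) (nat_lit 117))) (XT.nd (nat_lit 78) (nat_lit 0) (nat_lit 0) (XT.lf (nat_lit 0) (nat_lit 10068756920) (nat_lit 304) (nat_lit 17081926146) (nat_lit 380) (nat_lit 12433644842) (nat_lit 73) (nat_lit 5) (nat_lit 77) (nat_lit 5) (nat_lit 78) (nat_lit 5) (nat_lit 358) (nat_lit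 306) (nat_lit 116)) (XT.lf (nat_lit 0) (nat_lit 28704997360) (nat_lit 304) (nat_lit 4953226744) (nat_lit 380) (nat_lit 6728282904) (nat_lit 73) (nat_lit 5) (nat_lit 77) (nat_lit 5) (nat_lit 78) (nat_lit 5) (nat_lit 359) (nat_lit 306) (nat_lit 115)))))) (XT.nd (nat_lit 468) (nat_lit 760) (nat_lit 0) (XT.nd (nat_lit 234) (nat_lit 228) (nat_lit 0) (XT.nd (nat_lit 78) (nat_lit 380) (nat_lit 0) (XT.lf (nat_lit 0) (nat_lit 6742895270) (nat_lit 228) (nat_lit 33752715875) (nat_lit 304) (nat_lit 713104515) (nat_lit 70) (nat_lit 5) (nat_lit 73) (nat_lit 5) (nat_lit 74) (nat_lit 5) (nat_lit 360) (nat_lit 306) (nat_lit 114)) (XT.nd (nat_lit 78) (nat_lit 304) (nat_lit 0) (XT.lf (nat_lit 0) (nat_lit 5541058785) (nat_lit 304) (nat_lit 16199273262) (nat_lit 76) (nat_lit 20308714689) (nat_lit 69) (nat_lit 5) (nat_lit 73) (nat_lit 5) (nat_lit 70) (nat_lit 5) (nat_lit 361) (nat_lit 306) (nat_lit 113)) (XT.lf (nat_lit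 0) (nat_lit 2656353469) (nat_lit 304) (nat_lit 9335116031) (nat_lit 380) (nat_lit 30922220311) (nat_lit 65) (nat_lit 5) (nat_lit 69) (nat_lit 5) (nat_lit 70) (nat_lit 5) (nat_lit 362) (nat_lit 306) (nat_lit 112)))) (XT.nd (nat_lit 78) (nat_lit 228) (nat_lit 0) (XT.lf (nat_lit 0) (nat_lit 18831132099) (nat_lit 380) (nat_lit 21428078334) (nat_lit 76) (nat_lit 3539192020) (nat_lit 65) (nat_lit 5) (nat_lit 70) (nat_lit 5) (nat_lit 66) (nat_lit 5) (nat_lit 363) (nat_lit 306) (nat_lit 111)) (XT.nd (nat_lit 78) (nat_lit 228) (nat_lit 0) (XT.lf (nat_lit 0) (nat_lit 25965935716) (nat_lit 380) (nat_lit 2129984154) (nat_lit 76) (nat_lit 16611040459) (nat_lit 65) (nat_lit 5) (nat_lit 70) (nat_lit 5) (nat_lit 66) (nat_lit 5) (nat_lit 364) (nat_lit 306) (nat_lit 110)) (XT.lf (nat_lit 0) (nat_lit 18096674760) (nat_lit 228) (nat_lit 15389661349) (nat_lit 304) (nat_lit 12151294574) (nat_lit 62) (nat_lit 5) (nat_lit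 65) (nat_lit 5) (nat_lit 66) (nat_lit 5) (nat_lit 365) (nat_lit 306) (nat_lit 109))))) (XT.nd (nat_lit 234) (nat_lit 456) (nat_lit 0) (XT.nd (nat_lit 78) (nat_lit 304) (nat_lit 0) (XT.lf (nat_lit 0) (nat_lit 38970321041) (nat_lit 228) (nat_lit 2281169101) (nat_lit 304) (nat_lit 5344159009) (nat_lit 62) (nat_lit 5) (nat_lit 65) (nat_lit 5) (nat_lit 66) (nat_lit 5) (nat_lit 366) (nat_lit 306) (nat_lit 108)) (XT.nd (nat_lit 78) (nat_lit 0) (nat_lit 0) (XT.lf (nat_lit 0) (nat_lit 1867751016) (nat_lit 304) (nat_lit 34563045529) (nat_lit 76) (nat_lit 11144140172) (nat_lit 58) (nat_lit 5) (nat_lit 62) (nat_lit 5) (nat_lit 59) (nat_lit 5) (nat_lit 367) (nat_lit 306) (nat_lit 107)) (XT.lf (nat_lit 0) (nat_lit 9286656633) (nat_lit 304) (nat_lit 14236463450) (nat_lit 76) (nat_lit 25055955997) (nat_lit 58) (nat_lit 5) (nat_lit 62) (nat_lit 5) (nat_lit 59) (nat_lit 5) (nat_lit 368) (nat_lit 306) (nat_lit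 106)))) (XT.nd (nat_lit 156) (nat_lit 228) (nat_lit 0) (XT.nd (nat_lit 78) (nat_lit 0) (nat_lit 0) (XT.lf (nat_lit 0) (nat_lit 6829842670) (nat_lit 228) (nat_lit 10161707836) (nat_lit 304) (nat_lit 32619888487) (nat_lit 55) (nat_lit 5) (nat_lit 58) (nat_lit 5) (nat_lit 59) (nat_lit 5) (nat_lit 369) (nat_lit 306) (nat_lit 105)) (XT.lf (nat_lit 0) (nat_lit 25105176440) (nat_lit 304) (nat_lit 21889895078) (nat_lit 76) (nat_lit 3674375660) (nat_lit 55) (nat_lit 5) (nat_lit 59) (nat_lit 5) (nat_lit 56) (nat_lit 5) (nat_lit 370) (nat_lit 306) (nat_lit 104))) (XT.nd (nat_lit 78) (nat_lit 228) (nat_lit 0) (XT.lf (nat_lit 0) (nat_lit 33560677316) (nat_lit 304) (nat_lit 475328119) (nat_lit 76) (nat_lit 17720238077) (nat_lit 55) (nat_lit 5) (nat_lit 59) (nat_lit 5) (nat_lit 56) (nat_lit 5) (nat_lit 371) (nat_lit 306) (nat_lit 103)) (XT.lf (nat_lit 0) (nat_lit 22007951262) (nat_lit 228) (nat_lit 20471363511)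 (nat_lit 304) (nat_lit 10390046647) (nat_lit 52) (nat_lit 5) (nat_lit 55) (nat_lit 5) (nat_lit 56) (nat_lit 5) (nat_lit 372) (nat_lit 306) (nat_lit 102))))))) (XT.nd (nat_lit 1014) (nat_lit 532) (nat_lit 0) (XT.nd (nat_lit 468) (nat_lit 608) (nat_lit 0) (XT.nd (nat_lit 234) (nat_lit 228) (nat_lit 0) (XT.nd (nat_lit 78) (nat_lit 228) (nat_lit 0) (XT.lf (nat_lit 0) (nat_lit 45172324967) (nat_lit 228) (nat_lit 6495934326) (nat_lit 304) (nat_lit 2347532914) (nat_lit 52) (nat_lit 5) (nat_lit 55) (nat_lit 5) (nat_lit 56) (nat_lit 5) (nat_lit 373) (nat_lit 306) (nat_lit 101)) (XT.nd (nat_lit 78) (nat_lit 0) (nat_lit 0) (XT.lf (nat_lit 0) (nat_lit 6031271827) (nat_lit 228) (nat_lit 41219734297) (nat_lit 76) (nat_lit 7937573981) (nat_lit 49) (nat_lit 5) (nat_lit 52) (nat_lit 5) (nat_lit 50) (nat_lit 5) (nat_lit 374) (nat_lit 306) (nat_lit 100)) (XT.lf (nat_lit 0) (nat_lit 14766764815) (nat_lit 228) (nat_lit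 18838623453) (nat_lit 76) (nat_lit 22785892498) (nat_lit 49) (nat_lit 5) (nat_lit 52) (nat_lit 5) (nat_lit 50) (nat_lit 5) (nat_lit 375) (nat_lit 306) (nat_lit 99)))) (XT.nd (nat_lit 78) (nat_lit 0) (nat_lit 0) (XT.lf (nat_lit 0) (nat_lit 4294698309) (nat_lit 228) (nat_lit 19508970806) (nat_lit 304) (nat_lit 33825214514) (nat_lit 46) (nat_lit 5) (nat_lit 49) (nat_lit 5) (nat_lit 50) (nat_lit 5) (nat_lit 376) (nat_lit 306) (nat_lit 98)) (XT.nd (nat_lit 78) (nat_lit 0) (nat_lit 0) (XT.lf (nat_lit 0) (nat_lit 28505195277) (nat_lit 228) (nat_lit 4794809278) (nat_lit 304) (nat_lit 25597961839) (nat_lit 46) (nat_lit 5) (nat_lit 49) (nat_lit 5) (nat_lit 50) (nat_lit 5) (nat_lit 377) (nat_lit 306) (nat_lit 97)) (XT.lf (nat_lit 0) (nat_lit 43178960483) (nat_lit 304) (nat_lit 6865665996) (nat_lit 76) (nat_lit 10157564738) (nat_lit 46) (nat_lit 5) (nat_lit 50) (nat_lit 5) (nat_lit 47) (nat_lit 5) (nat_lit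 378) (nat_lit 306) (nat_lit 96))))) (XT.nd (nat_lit 234) (nat_lit 152) (nat_lit 0) (XT.nd (nat_lit 78) (nat_lit 304) (nat_lit 0) (XT.lf (nat_lit 0) (nat_lit 17661548091) (nat_lit 152) (nat_lit 35908174541) (nat_lit 228) (nat_lit 7969358473) (nat_lit 44) (nat_lit 5) (nat_lit 46) (nat_lit 5) (nat_lit 47) (nat_lit 5) (nat_lit 379) (nat_lit 306) (nat_lit 95)) (XT.nd (nat_lit 78) (nat_lit 228) (nat_lit 0) (XT.lf (nat_lit 0) (nat_lit 1397880084) (nat_lit 228) (nat_lit 19865282501) (nat_lit 76) (nat_lit 41650478996) (nat_lit 43) (nat_lit 5) (nat_lit 46) (nat_lit 5) (nat_lit 44) (nat_lit 5) (nat_lit 380) (nat_lit 306) (nat_lit 94)) (XT.lf (nat_lit 0) (nat_lit 4880878049) (nat_lit 228) (nat_lit 6050248949) (nat_lit 304) (nat_lit 53394591038) (nat_lit 40) (nat_lit 5) (nat_lit 43) (nat_lit 5) (nat_lit 44) (nat_lit 5) (nat_lit 381) (nat_lit 306) (nat_lit 93)))) (XT.nd (nat_lit 156) (nat_lit 152) (nat_lit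 0) (XT.nd (nat_lit 78) (nat_lit 0) (nat_lit 0) (XT.lf (nat_lit 0) (nat_lit 21043685852) (nat_lit 304) (nat_lit 35094758977) (nat_lit 76) (nat_lit 9632913804) (nat_lit 40) (nat_lit 5) (nat_lit 44) (nat_lit 5) (nat_lit 41) (nat_lit 5) (nat_lit 382) (nat_lit 306) (nat_lit 92)) (XT.lf (nat_lit 0) (nat_lit 31517839271) (nat_lit 304) (nat_lit 10076809166) (nat_lit 76) (nat_lit 25663974726) (nat_lit 40) (nat_lit 5) (nat_lit 44) (nat_lit 5) (nat_lit 41) (nat_lit 5) (nat_lit 383) (nat_lit 306) (nat_lit 91))) (XT.nd (nat_lit 78) (nat_lit 0) (nat_lit 0) (XT.lf (nat_lit 0) (nat_lit 16001270913) (nat_lit 152) (nat_lit 26457123824) (nat_lit 228) (nat_lit 26327546779) (nat_lit 38) (nat_lit 5) (nat_lit 40) (nat_lit 5) (nat_lit 41) (nat_lit 5) (nat_lit 384) (nat_lit 306) (nat_lit 90)) (XT.lf (nat_lit 0) (nat_lit 43065633436) (nat_lit 152) (nat_lit 10761675323) (nat_lit 228) (nat_lit 16528767579) (nat_lit 38)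 (nat_lit 5) (nat_lit 40) (nat_lit 5) (nat_lit 41) (nat_lit 5) (nat_lit 385) (nat_lit 306) (nat_lit 89)))))) (XT.nd (nat_lit 468) (nat_lit 152) (nat_lit 0) (XT.nd (nat_lit 234) (nat_lit 152) (nat_lit 0) (XT.nd (nat_lit 78) (nat_lit 228) (nat_lit 0) (XT.lf (nat_lit 0) (nat_lit 65587666335) (nat_lit 228) (nat_lit 1085927989) (nat_lit 76) (nat_lit 5298210737) (nat_lit 38) (nat_lit 5) (nat_lit 41) (nat_lit 5) (nat_lit 39) (nat_lit 5) (nat_lit 386) (nat_lit 306) (nat_lit 88)) (XT.nd (nat_lit 78) (nat_lit 0) (nat_lit 0) (XT.lf (nat_lit 0) (nat_lit 4346971446) (nat_lit 228) (nat_lit 47358842810) (nat_lit 76) (nat_lit 21918176402) (nat_lit 35) (nat_lit 5) (nat_lit 38) (nat_lit 5) (nat_lit 36) (nat_lit 5) (nat_lit 387) (nat_lit 306) (nat_lit 87)) (XT.lf (nat_lit 0) (nat_lit 15281248420) (nat_lit 228) (nat_lit 20932232683) (nat_lit 76) (nat_lit 39110079033) (nat_lit 35) (nat_lit 5) (nat_lit 38) (nat_lit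 5) (nat_lit 36) (nat_lit 5) (nat_lit 388) (nat_lit 306) (nat_lit 86)))) (XT.nd (nat_lit 78) (nat_lit 0) (nat_lit 0) (XT.lf (nat_lit 0) (nat_lit 6409809174) (nat_lit 152) (nat_lit 20193878030) (nat_lit 228) (nat_lit 50468626505) (nat_lit 33) (nat_lit 5) (nat_lit 35) (nat_lit 5) (nat_lit 36) (nat_lit 5) (nat_lit 389) (nat_lit 306) (nat_lit 85)) (XT.nd (nat_lit 78) (nat_lit 0) (nat_lit 0) (XT.lf (nat_lit 0) (nat_lit 34998781470) (nat_lit 152) (nat_lit 3476930560) (nat_lit 228) (nat_lit 40391521457) (nat_lit 33) (nat_lit 5) (nat_lit 35) (nat_lit 5) (nat_lit 36) (nat_lit 5) (nat_lit 390) (nat_lit 306) (nat_lit 84)) (XT.lf (nat_lit 0) (nat_lit 50834561538) (nat_lit 228) (nat_lit 16405054995) (nat_lit 76) (nat_lit 13472465364) (nat_lit 33) (nat_lit 5) (nat_lit 36) (nat_lit 5) (nat_lit 34) (nat_lit 5) (nat_lit 391) (nat_lit 306) (nat_lit 83))))) (XT.nd (nat_lit 34164) (nat_lit 0) (nat_lit 11020) (XT.nd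 (nat_lit 34008) (nat_lit 0) (nat_lit 12084) (XT.lf (nat_lit 0) (nat_lit 12081251970) (nat_lit 152) (nat_lit 51632095581) (nat_lit 228) (nat_lit 18894454004) (nat_lit 31) (nat_lit 5) (nat_lit 33) (nat_lit 5) (nat_lit 34) (nat_lit 5) (nat_lit 392) (nat_lit 306) (nat_lit 82)) (XT.nd (nat_lit 78) (nat_lit 0) (nat_lit 0) (XT.lf (nat_lit 0) (nat_lit 7998243664) (nat_lit 1140) (nat_lit 150988959) (nat_lit 1140) (nat_lit 150988959) (nat_lit 190) (nat_lit 3) (nat_lit 205) (nat_lit 3) (nat_lit 205) (nat_lit 5) (nat_lit 307) (nat_lit 307) (nat_lit 166)) (XT.lf (nat_lit 76) (nat_lit 7180761084) (nat_lit 0) (nat_lit 9348443541) (nat_lit 1140) (nat_lit 311101272) (nat_lit 191) (nat_lit 5) (nat_lit 190) (nat_lit 3) (nat_lit 205) (nat_lit 5) (nat_lit 308) (nat_lit 307) (nat_lit 165)))) (XT.nd (nat_lit 156) (nat_lit 0) (nat_lit 0) (XT.nd (nat_lit 78) (nat_lit 1064) (nat_lit 0) (XT.lf (nat_lit 76) (nat_lit 14889578792)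 (nat_lit 0) (nat_lit 2182597769) (nat_lit 1140) (nat_lit 15373837) (nat_lit 191) (nat_lit 5) (nat_lit 190) (nat_lit 3) (nat_lit 205) (nat_lit 5) (nat_lit 309) (nat_lit 307) (nat_lit 164)) (XT.lf (nat_lit 0) (nat_lit 379255066) (nat_lit 1140) (nat_lit 11802267961) (nat_lit 1216) (nat_lit 5157748871) (nat_lit 176) (nat_lit 5) (nat_lit 191) (nat_lit 5) (nat_lit 192) (nat_lit 5) (nat_lit 310) (nat_lit 307) (nat_lit 163))) (XT.nd (nat_lit 78) (nat_lit 0) (nat_lit 76) (XT.lf (nat_lit 0) (nat_lit 821063721) (nat_lit 1140) (nat_lit 4075677084) (nat_lit 1216) (nat_lit 12700743061) (nat_lit 176) (nat_lit 5) (nat_lit 191) (nat_lit 5) (nat_lit 192) (nat_lit 5) (nat_lit 311) (nat_lit 307) (nat_lit 162)) (XT.lf (nat_lit 0) (nat_lit 1331479698) (nat_lit 1140) (nat_lit 13932890918) (nat_lit 1216) (nat_lit 2597423496) (nat_lit 177) (nat_lit 5) (nat_lit 192) (nat_lit 5) (nat_lit 193) (nat_lit 5) (nat_lit 312)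 (nat_lit 307) (nat_lit 161))))))))
noncomputable def xc211 : XT := (XT.nd (nat_lit 2028) (nat_lit 4560) (nat_lit 0) (XT.nd (nat_lit 1014) (nat_lit 3192) (nat_lit 0) (XT.nd (nat_lit 468) (nat_lit 760) (nat_lit 0) (XT.nd (nat_lit 234) (nat_lit 0) (nat_lit 76) (XT.nd (nat_lit 78) (nat_lit 0) (nat_lit 0) (XT.lf (nat_lit 0) (nat_lit 1939346111) (nat_lit 1140) (nat_lit 5929513801) (nat_lit 1216) (nat_lit 10262721763) (nat_lit 177) (nat_lit 5) (nat_lit 192) (nat_lit 5) (nat_lit 193) (nat_lit 5) (nat_lit 313) (nat_lit 307) (nat_lit 160)) (XT.nd (nat_lit 78) (nat_lit 0) (nat_lit 76) (XT.lf (nat_lit 76) (nat_lit 2355072993) (nat_lit 0) (nat_lit 225335808) (nat_lit 1216) (nat_lit 15828617048) (nat_lit 178) (nat_lit 5) (nat_lit 177) (nat_lit 5) (nat_lit 193) (nat_lit 5) (nat_lit 314) (nat_lit 307) (nat_lit 159)) (XT.lf (nat_lit 0) (nat_lit 3367210397) (nat_lit 1140) (nat_lit 7762418166) (nat_lit 1216) (nat_lit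 7561381024) (nat_lit 178) (nat_lit 5) (nat_lit 193) (nat_lit 5) (nat_lit 194) (nat_lit 5) (nat_lit 315) (nat_lit 307) (nat_lit 158)))) (XT.nd (nat_lit 78) (nat_lit 0) (nat_lit 76) (XT.lf (nat_lit 76) (nat_lit 786055242) (nat_lit 0) (nat_lit 3394090934) (nat_lit 1216) (nat_lit 14801241873) (nat_lit 179) (nat_lit 5) (nat_lit 178) (nat_lit 5) (nat_lit 194) (nat_lit 5) (nat_lit 316) (nat_lit 307) (nat_lit 157)) (XT.nd (nat_lit 78) (nat_lit 0) (nat_lit 0) (XT.lf (nat_lit 0) (nat_lit 5133523748) (nat_lit 1140) (nat_lit 9577872803) (nat_lit 1216) (nat_lit 4565610495) (nat_lit 179) (nat_lit 5) (nat_lit 194) (nat_lit 5) (nat_lit 195) (nat_lit 5) (nat_lit 317) (nat_lit 307) (nat_lit 156)) (XT.lf (nat_lit 0) (nat_lit 6142242479) (nat_lit 1140) (nat_lit 740456785) (nat_lit 1216) (nat_lit 12698003632) (nat_lit 179) (nat_lit 5) (nat_lit 194) (nat_lit 5) (nat_lit 195) (nat_lit 5) (nat_lit 318) (nat_lit 307)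 (nat_lit 155))))) (XT.nd (nat_lit 234) (nat_lit 988) (nat_lit 0) (XT.nd (nat_lit 78) (nat_lit 0) (nat_lit 0) (XT.lf (nat_lit 0) (nat_lit 7268671768) (nat_lit 1140) (nat_lit 11379852580) (nat_lit 1216) (nat_lit 1242371976) (nat_lit 180) (nat_lit 5) (nat_lit 195) (nat_lit 5) (nat_lit 196) (nat_lit 5) (nat_lit 319) (nat_lit 307) (nat_lit 154)) (XT.nd (nat_lit 78) (nat_lit 0) (nat_lit 0) (XT.lf (nat_lit 0) (nat_lit 8498090637) (nat_lit 1140) (nat_lit 2228116178) (nat_lit 1216) (nat_lit 9482122716) (nat_lit 180) (nat_lit 5) (nat_lit 195) (nat_lit 5) (nat_lit 196) (nat_lit 5) (nat_lit 320) (nat_lit 307) (nat_lit 153)) (XT.lf (nat_lit 76) (nat_lit 7336485715) (nat_lit 0) (nat_lit 2492118436) (nat_lit 1216) (nat_lit 10704764809) (nat_lit 181) (nat_lit 5) (nat_lit 180) (nat_lit 5) (nat_lit 196) (nat_lit 5) (nat_lit 321) (nat_lit 307) (nat_lit 152)))) (XT.nd (nat_lit 156) (nat_lit 1064) (nat_lit 0) (XT.nd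 (nat_lit 78) (nat_lit 0) (nat_lit 0) (XT.lf (nat_lit 0) (nat_lit 11273165456) (nat_lit 1140) (nat_lit 3696585381) (nat_lit 1216) (nat_lit 5896194074) (nat_lit 181) (nat_lit 5) (nat_lit 196) (nat_lit 5) (nat_lit 197) (nat_lit 5) (nat_lit 322) (nat_lit 307) (nat_lit 151)) (XT.lf (nat_lit 76) (nat_lit 6179774473) (nat_lit 0) (nat_lit 6659386901) (nat_lit 1216) (nat_lit 8367002871) (nat_lit 182) (nat_lit 5) (nat_lit 181) (nat_lit 5) (nat_lit 197) (nat_lit 5) (nat_lit 323) (nat_lit 307) (nat_lit 150))) (XT.nd (nat_lit 78) (nat_lit 1140) (nat_lit 0) (XT.lf (nat_lit 0) (nat_lit 14502259202) (nat_lit 1140) (nat_lit 5150913955) (nat_lit 76) (nat_lit 1901922117) (nat_lit 182) (nat_lit 5) (nat_lit 197) (nat_lit 5) (nat_lit 183) (nat_lit 5) (nat_lit 324) (nat_lit 307) (nat_lit 149)) (XT.lf (nat_lit 0) (nat_lit 5048543952) (nat_lit 1140) (nat_lit 11275497849) (nat_lit 1216) (nat_lit 5587197197) (nat_lit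 167) (nat_lit 5) (nat_lit 182) (nat_lit 5) (nat_lit 183) (nat_lit 5) (nat_lit 325) (nat_lit 307) (nat_lit 148)))))) (XT.nd (nat_lit 468) (nat_lit 1444) (nat_lit 0) (XT.nd (nat_lit 234) (nat_lit 1216) (nat_lit 0) (XT.nd (nat_lit 78) (nat_lit 532) (nat_lit 0) (XT.lf (nat_lit 0) (nat_lit 15654759020) (nat_lit 1140) (nat_lit 2592179536) (nat_lit 1216) (nat_lit 4029742928) (nat_lit 167) (nat_lit 5) (nat_lit 182) (nat_lit 5) (nat_lit 183) (nat_lit 5) (nat_lit 326) (nat_lit 307) (nat_lit 147)) (XT.nd (nat_lit 78) (nat_lit 0) (nat_lit 0) (XT.lf (nat_lit 0) (nat_lit 3936990647) (nat_lit 532) (nat_lit 16384047353) (nat_lit 608) (nat_lit 2329251803) (nat_lit 160) (nat_lit 5) (nat_lit 167) (nat_lit 5) (nat_lit 168) (nat_lit 5) (nat_lit 327) (nat_lit 307) (nat_lit 146)) (XT.lf (nat_lit 0) (nat_lit 14917434023) (nat_lit 532) (nat_lit 7626934208) (nat_lit 608) (nat_lit 488135702) (nat_lit 160) (nat_lit 5)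 (nat_lit 167) (nat_lit 5) (nat_lit 168) (nat_lit 5) (nat_lit 328) (nat_lit 307) (nat_lit 145)))) (XT.nd (nat_lit 78) (nat_lit 532) (nat_lit 0) (XT.lf (nat_lit 0) (nat_lit 1416635568) (nat_lit 684) (nat_lit 20600741925) (nat_lit 76) (nat_lit 1407331216) (nat_lit 151) (nat_lit 5) (nat_lit 160) (nat_lit 5) (nat_lit 152) (nat_lit 5) (nat_lit 329) (nat_lit 307) (nat_lit 144)) (XT.nd (nat_lit 78) (nat_lit 532) (nat_lit 0) (XT.lf (nat_lit 0) (nat_lit 3521940828) (nat_lit 684) (nat_lit 9654744706) (nat_lit 76) (nat_lit 10647260179) (nat_lit 151) (nat_lit 5) (nat_lit 160) (nat_lit 5) (nat_lit 152) (nat_lit 5) (nat_lit 330) (nat_lit 307) (nat_lit 143)) (XT.lf (nat_lit 0) (nat_lit 1647023785) (nat_lit 532) (nat_lit 4054291383) (nat_lit 608) (nat_lit 18533524291) (nat_lit 144) (nat_lit 5) (nat_lit 151) (nat_lit 5) (nat_lit 152) (nat_lit 5) (nat_lit 331) (nat_lit 307) (nat_lit 142))))) (XT.nd (nat_lit 234)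 (nat_lit 912) (nat_lit 0) (XT.nd (nat_lit 78) (nat_lit 532) (nat_lit 0) (XT.lf (nat_lit 0) (nat_lit 8091055495) (nat_lit 608) (nat_lit 11226544845) (nat_lit 76) (nat_lit 5336116859) (nat_lit 144) (nat_lit 5) (nat_lit 152) (nat_lit 5) (nat_lit 145) (nat_lit 5) (nat_lit 332) (nat_lit 307) (nat_lit 141)) (XT.nd (nat_lit 78) (nat_lit 0) (nat_lit 0) (XT.lf (nat_lit 0) (nat_lit 439281875) (nat_lit 532) (nat_lit 10152887848) (nat_lit 608) (nat_lit 14491807627) (nat_lit 137) (nat_lit 5) (nat_lit 144) (nat_lit 5) (nat_lit 145) (nat_lit 5) (nat_lit 333) (nat_lit 307) (nat_lit 140)) (XT.lf (nat_lit 0) (nat_lit 12680550057) (nat_lit 532) (nat_lit 596542484) (nat_lit 608) (nat_lit 12246795849) (nat_lit 137) (nat_lit 5) (nat_lit 144) (nat_lit 5) (nat_lit 145) (nat_lit 5) (nat_lit 334) (nat_lit 307) (nat_lit 139)))) (XT.nd (nat_lit 156) (nat_lit 456) (nat_lit 0) (XT.nd (nat_lit 78) (nat_lit 456) (nat_lit 0)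 (XT.lf (nat_lit 0) (nat_lit 16126988077) (nat_lit 608) (nat_lit 781493180) (nat_lit 76) (nat_lit 9065988909) (nat_lit 137) (nat_lit 5) (nat_lit 145) (nat_lit 5) (nat_lit 138) (nat_lit 5) (nat_lit 335) (nat_lit 307) (nat_lit 138)) (XT.lf (nat_lit 0) (nat_lit 11863262203) (nat_lit 456) (nat_lit 7314733495) (nat_lit 532) (nat_lit 7257111215) (nat_lit 131) (nat_lit 5) (nat_lit 137) (nat_lit 5) (nat_lit 138) (nat_lit 5) (nat_lit 336) (nat_lit 307) (nat_lit 137))) (XT.nd (nat_lit 78) (nat_lit 456) (nat_lit 0) (XT.lf (nat_lit 0) (nat_lit 22348929625) (nat_lit 532) (nat_lit 2035318069) (nat_lit 76) (nat_lit 2524468987) (nat_lit 131) (nat_lit 5) (nat_lit 138) (nat_lit 5) (nat_lit 132) (nat_lit 5) (nat_lit 337) (nat_lit 307) (nat_lit 136)) (XT.lf (nat_lit 0) (nat_lit 11015344784) (nat_lit 456) (nat_lit 14773832322) (nat_lit 532) (nat_lit 1602137705) (nat_lit 125) (nat_lit 5) (nat_lit 131) (nat_lit 5)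 (nat_lit 132) (nat_lit 5) (nat_lit 338) (nat_lit 307) (nat_lit 135))))))) (XT.nd (nat_lit 1014) (nat_lit 1976) (nat_lit 0) (XT.nd (nat_lit 468) (nat_lit 1216) (nat_lit 0) (XT.nd (nat_lit 234) (nat_lit 836) (nat_lit 0) (XT.nd (nat_lit 78) (nat_lit 456) (nat_lit 0) (XT.lf (nat_lit 0) (nat_lit 1432723185) (nat_lit 532) (nat_lit 3407139478) (nat_lit 76) (nat_lit 23047617109) (nat_lit 124) (nat_lit 5) (nat_lit 131) (nat_lit 5) (nat_lit 125) (nat_lit 5) (nat_lit 339) (nat_lit 307) (nat_lit 134)) (XT.nd (nat_lit 78) (nat_lit 0) (nat_lit 0) (XT.lf (nat_lit 0) (nat_lit 4672763038) (nat_lit 532) (nat_lit 18320073552) (nat_lit 76) (nat_lit 5400832329) (nat_lit 118) (nat_lit 5) (nat_lit 125) (nat_lit 5) (nat_lit 119) (nat_lit 5) (nat_lit 340) (nat_lit 307) (nat_lit 133)) (XT.lf (nat_lit 0) (nat_lit 8088766456) (nat_lit 532) (nat_lit 4938147287) (nat_lit 76) (nat_lit 15885772130) (nat_lit 118) (nat_lit 5)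 (nat_lit 125) (nat_lit 5) (nat_lit 119) (nat_lit 5) (nat_lit 341) (nat_lit 307) (nat_lit 132)))) (XT.nd (nat_lit 78) (nat_lit 380) (nat_lit 0) (XT.lf (nat_lit 0) (nat_lit 9016847246) (nat_lit 456) (nat_lit 2673288727) (nat_lit 532) (nat_lit 17754655642) (nat_lit 112) (nat_lit 5) (nat_lit 118) (nat_lit 5) (nat_lit 119) (nat_lit 5) (nat_lit 342) (nat_lit 307) (nat_lit 131)) (XT.nd (nat_lit 78) (nat_lit 380) (nat_lit 0) (XT.lf (nat_lit 0) (nat_lit 15522993799) (nat_lit 532) (nat_lit 6581362245) (nat_lit 76) (nat_lit 7884805786) (nat_lit 112) (nat_lit 5) (nat_lit 119) (nat_lit 5) (nat_lit 113) (nat_lit 5) (nat_lit 343) (nat_lit 307) (nat_lit 130)) (XT.lf (nat_lit 0) (nat_lit 7802116031) (nat_lit 380) (nat_lit 11766570815) (nat_lit 456) (nat_lit 10978245399) (nat_lit 107) (nat_lit 5) (nat_lit 112) (nat_lit 5) (nat_lit 113) (nat_lit 5) (nat_lit 344) (nat_lit 307) (nat_lit 129))))) (XT.nd (nat_lit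 234) (nat_lit 760) (nat_lit 0) (XT.nd (nat_lit 78) (nat_lit 456) (nat_lit 0) (XT.lf (nat_lit 0) (nat_lit 22747771604) (nat_lit 380) (nat_lit 1050885125) (nat_lit 456) (nat_lit 7320896311) (nat_lit 107) (nat_lit 5) (nat_lit 112) (nat_lit 5) (nat_lit 113) (nat_lit 5) (nat_lit 345) (nat_lit 307) (nat_lit 128)) (XT.nd (nat_lit 78) (nat_lit 76) (nat_lit 0) (XT.lf (nat_lit 0) (nat_lit 6458257636) (nat_lit 380) (nat_lit 21851887212) (nat_lit 456) (nat_lit 3394573352) (nat_lit 102) (nat_lit 5) (nat_lit 107) (nat_lit 5) (nat_lit 108) (nat_lit 5) (nat_lit 346) (nat_lit 307) (nat_lit 127)) (XT.lf (nat_lit 0) (nat_lit 729211901) (nat_lit 456) (nat_lit 10421824078) (nat_lit 76) (nat_lit 21153448668) (nat_lit 101) (nat_lit 5) (nat_lit 107) (nat_lit 5) (nat_lit 102) (nat_lit 5) (nat_lit 347) (nat_lit 307) (nat_lit 126)))) (XT.nd (nat_lit 156) (nat_lit 380) (nat_lit 0) (XT.nd (nat_lit 78) (nat_lit 0) (nat_lit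 0) (XT.lf (nat_lit 0) (nat_lit 4905542866) (nat_lit 380) (nat_lit 46762413) (nat_lit 456) (nat_lit 27967619806) (nat_lit 96) (nat_lit 5) (nat_lit 101) (nat_lit 5) (nat_lit 102) (nat_lit 5) (nat_lit 348) (nat_lit 307) (nat_lit 125)) (XT.lf (nat_lit 0) (nat_lit 9514584327) (nat_lit 456) (nat_lit 12759017016) (nat_lit 76) (nat_lit 11273856442) (nat_lit 96) (nat_lit 5) (nat_lit 102) (nat_lit 5) (nat_lit 97) (nat_lit 5) (nat_lit 349) (nat_lit 307) (nat_lit 124))) (XT.nd (nat_lit 78) (nat_lit 0) (nat_lit 0) (XT.lf (nat_lit 0) (nat_lit 3008190766) (nat_lit 380) (nat_lit 11231733268) (nat_lit 456) (nat_lit 19953110388) (nat_lit 91) (nat_lit 5) (nat_lit 96) (nat_lit 5) (nat_lit 97) (nat_lit 5) (nat_lit 350) (nat_lit 307) (nat_lit 123)) (XT.lf (nat_lit 0) (nat_lit 19235358237) (nat_lit 456) (nat_lit 15350891166) (nat_lit 76) (nat_lit 267882542) (nat_lit 91) (nat_lit 5) (nat_lit 97) (nat_lit 5) (nat_lit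 92) (nat_lit 5) (nat_lit 351) (nat_lit 307) (nat_lit 122)))))) (XT.nd (nat_lit 546) (nat_lit 912) (nat_lit 0) (XT.nd (nat_lit 234) (nat_lit 760) (nat_lit 0) (XT.nd (nat_lit 78) (nat_lit 0) (nat_lit 0) (XT.lf (nat_lit 0) (nat_lit 859663962) (nat_lit 304) (nat_lit 23637410361) (nat_lit 380) (nat_lit 11034499013) (nat_lit 87) (nat_lit 5) (nat_lit 91) (nat_lit 5) (nat_lit 92) (nat_lit 5) (nat_lit 352) (nat_lit 307) (nat_lit 121)) (XT.nd (nat_lit 78) (nat_lit 0) (nat_lit 0) (XT.lf (nat_lit 0) (nat_lit 17867267242) (nat_lit 304) (nat_lit 12201389410) (nat_lit 380) (nat_lit 6156124283) (nat_lit 87) (nat_lit 5) (nat_lit 91) (nat_lit 5) (nat_lit 92) (nat_lit 5) (nat_lit 353) (nat_lit 307) (nat_lit 120)) (XT.lf (nat_lit 0) (nat_lit 35381266853) (nat_lit 304) (nat_lit 423207811) (nat_lit 380) (nat_lit 1134400759) (nat_lit 87) (nat_lit 5) (nat_lit 91) (nat_lit 5) (nat_lit 92) (nat_lit 5) (nat_lit 354) (nat_lit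 307) (nat_lit 119)))) (XT.nd (nat_lit 156) (nat_lit 304) (nat_lit 0) (XT.nd (nat_lit 78) (nat_lit 0) (nat_lit 0) (XT.lf (nat_lit 0) (nat_lit 4224726061) (nat_lit 456) (nat_lit 21766913278) (nat_lit 76) (nat_lit 11673625651) (nat_lit 81) (nat_lit 5) (nat_lit 87) (nat_lit 5) (nat_lit 82) (nat_lit 5) (nat_lit 355) (nat_lit 307) (nat_lit 118)) (XT.lf (nat_lit 0) (nat_lit 9739081241) (nat_lit 456) (nat_lit 4522453220) (nat_lit 76) (nat_lit 24151060213) (nat_lit 81) (nat_lit 5) (nat_lit 87) (nat_lit 5) (nat_lit 82) (nat_lit 5) (nat_lit 356) (nat_lit 307) (nat_lit 117))) (XT.nd (nat_lit 78) (nat_lit 0) (nat_lit 0) (XT.lf (nat_lit 0) (nat_lit 13499045447) (nat_lit 304) (nat_lit 2046845029) (nat_lit 380) (nat_lit 23632646011) (nat_lit 77) (nat_lit 5) (nat_lit 81) (nat_lit 5) (nat_lit 82) (nat_lit 5) (nat_lit 357) (nat_lit 307) (nat_lit 116)) (XT.lf (nat_lit 0) (nat_lit 21671583363) (nat_lit 380) (nat_lit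 7917653776) (nat_lit 76) (nat_lit 10373881887) (nat_lit 77) (nat_lit 5) (nat_lit 82) (nat_lit 5) (nat_lit 78) (nat_lit 5) (nat_lit 358) (nat_lit 307) (nat_lit 115))))) (XT.nd (nat_lit 234) (nat_lit 380) (nat_lit 0) (XT.nd (nat_lit 78) (nat_lit 228) (nat_lit 0) (XT.lf (nat_lit 0) (nat_lit 10559181604) (nat_lit 304) (nat_lit 17541008572) (nat_lit 380) (nat_lit 12667477342) (nat_lit 73) (nat_lit 5) (nat_lit 77) (nat_lit 5) (nat_lit 78) (nat_lit 5) (nat_lit 359) (nat_lit 307) (nat_lit 114)) (XT.nd (nat_lit 78) (nat_lit 228) (nat_lit 0) (XT.lf (nat_lit 0) (nat_lit 29749022986) (nat_lit 304) (nat_lit 5050002810) (nat_lit 380) (nat_lit 6795008240) (nat_lit 73) (nat_lit 5) (nat_lit 77) (nat_lit 5) (nat_lit 78) (nat_lit 5) (nat_lit 360) (nat_lit 307) (nat_lit 113)) (XT.lf (nat_lit 0) (nat_lit 7129799983) (nat_lit 228) (nat_lit 34710175614) (nat_lit 304) (nat_lit 600984093) (nat_lit 70) (nat_lit 5) (nat_lit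 73) (nat_lit 5) (nat_lit 74) (nat_lit 5) (nat_lit 361) (nat_lit 307) (nat_lit 112)))) (XT.nd (nat_lit 156) (nat_lit 0) (nat_lit 0) (XT.nd (nat_lit 78) (nat_lit 304) (nat_lit 0) (XT.lf (nat_lit 0) (nat_lit 5834385915) (nat_lit 304) (nat_lit 16503356430) (nat_lit 76) (nat_lit 20968837985) (nat_lit 69) (nat_lit 5) (nat_lit 73) (nat_lit 5) (nat_lit 70) (nat_lit 5) (nat_lit 362) (nat_lit 307) (nat_lit 111)) (XT.lf (nat_lit 0) (nat_lit 2916155818) (nat_lit 304) (nat_lit 9560182671) (nat_lit 380) (nat_lit 31720886962) (nat_lit 65) (nat_lit 5) (nat_lit 69) (nat_lit 5) (nat_lit 70) (nat_lit 5) (nat_lit 363) (nat_lit 307) (nat_lit 110))) (XT.nd (nat_lit 78) (nat_lit 0) (nat_lit 0) (XT.lf (nat_lit 0) (nat_lit 19518059723) (nat_lit 380) (nat_lit 21892805895) (nat_lit 76) (nat_lit 3697711324) (nat_lit 65) (nat_lit 5) (nat_lit 70) (nat_lit 5) (nat_lit 66) (nat_lit 5) (nat_lit 364) (nat_lit 307) (nat_lit 109))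 (XT.lf (nat_lit 0) (nat_lit 26863354235) (nat_lit 380) (nat_lit 2020956699) (nat_lit 76) (nat_lit 17160190647) (nat_lit 65) (nat_lit 5) (nat_lit 70) (nat_lit 5) (nat_lit 66) (nat_lit 5) (nat_lit 365) (nat_lit 307) (nat_lit 108))))))))
noncomputable def xc212 : XT := (XT.nd (nat_lit 36114) (nat_lit 0) (nat_lit 8436) (XT.nd (nat_lit 1014) (nat_lit 988) (nat_lit 0) (XT.nd (nat_lit 468) (nat_lit 684) (nat_lit 0) (XT.nd (nat_lit 234) (nat_lit 228) (nat_lit 0) (XT.nd (nat_lit 78) (nat_lit 304) (nat_lit 0) (XT.lf (nat_lit 0) (nat_lit 18810806620) (nat_lit 228) (nat_lit 15796756281) (nat_lit 304) (nat_lit 12395586587) (nat_lit 62) (nat_lit 5) (nat_lit 65) (nat_lit 5) (nat_lit 66) (nat_lit 5) (nat_lit 366) (nat_lit 307) (nat_lit 107)) (XT.nd (nat_lit 78) (nat_lit 304) (nat_lit 0) (XT.lf (nat_lit 0) (nat_lit 40305674960) (nat_lit 228) (nat_lit 2296599409) (nat_lit 304) (nat_lit 5387739291) (nat_lit 62)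 (nat_lit 5) (nat_lit 65) (nat_lit 5) (nat_lit 66) (nat_lit 5) (nat_lit 367) (nat_lit 307) (nat_lit 106)) (XT.lf (nat_lit 0) (nat_lit 2037042365) (nat_lit 304) (nat_lit 35430000703) (nat_lit 76) (nat_lit 11531642393) (nat_lit 58) (nat_lit 5) (nat_lit 62) (nat_lit 5) (nat_lit 59) (nat_lit 5) (nat_lit 368) (nat_lit 307) (nat_lit 105)))) (XT.nd (nat_lit 78) (nat_lit 228) (nat_lit 0) (XT.lf (nat_lit 0) (nat_lit 9675216350) (nat_lit 304) (nat_lit 14498570758) (nat_lit 76) (nat_lit 25859263819) (nat_lit 58) (nat_lit 5) (nat_lit 62) (nat_lit 5) (nat_lit 59) (nat_lit 5) (nat_lit 369) (nat_lit 307) (nat_lit 104)) (XT.nd (nat_lit 78) (nat_lit 0) (nat_lit 0) (XT.lf (nat_lit 0) (nat_lit 7198107029) (nat_lit 228) (nat_lit 10411517695) (nat_lit 304) (nat_lit 33486811846) (nat_lit 55) (nat_lit 5) (nat_lit 58) (nat_lit 5) (nat_lit 59) (nat_lit 5) (nat_lit 370) (nat_lit 307) (nat_lit 103)) (XT.lf (nat_lit 0)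 (nat_lit 25964017942) (nat_lit 304) (nat_lit 22385246707) (nat_lit 76) (nat_lit 3837002387) (nat_lit 55) (nat_lit 5) (nat_lit 59) (nat_lit 5) (nat_lit 56) (nat_lit 5) (nat_lit 371) (nat_lit 307) (nat_lit 102))))) (XT.nd (nat_lit 234) (nat_lit 456) (nat_lit 0) (XT.nd (nat_lit 78) (nat_lit 228) (nat_lit 0) (XT.lf (nat_lit 0) (nat_lit 34670105605) (nat_lit 304) (nat_lit 332942114) (nat_lit 76) (nat_lit 18302714595) (nat_lit 55) (nat_lit 5) (nat_lit 59) (nat_lit 5) (nat_lit 56) (nat_lit 5) (nat_lit 372) (nat_lit 307) (nat_lit 101)) (XT.nd (nat_lit 78) (nat_lit 0) (nat_lit 0) (XT.lf (nat_lit 0) (nat_lit 22823299904) (nat_lit 228) (nat_lit 21031504713) (nat_lit 304) (nat_lit 10597516699) (nat_lit 52) (nat_lit 5) (nat_lit 55) (nat_lit 5) (nat_lit 56) (nat_lit 5) (nat_lit 373) (nat_lit 307) (nat_lit 100)) (XT.lf (nat_lit 0) (nat_lit 46678087051) (nat_lit 228) (nat_lit 6638385459) (nat_lit 304) (nat_lit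 2316763418) (nat_lit 52) (nat_lit 5) (nat_lit 55) (nat_lit 5) (nat_lit 56) (nat_lit 5) (nat_lit 374) (nat_lit 307) (nat_lit 99)))) (XT.nd (nat_lit 156) (nat_lit 228) (nat_lit 0) (XT.nd (nat_lit 78) (nat_lit 0) (nat_lit 0) (XT.lf (nat_lit 0) (nat_lit 6310506844) (nat_lit 228) (nat_lit 42302672568) (nat_lit 76) (nat_lit 8228028992) (nat_lit 49) (nat_lit 5) (nat_lit 52) (nat_lit 5) (nat_lit 50) (nat_lit 5) (nat_lit 375) (nat_lit 307) (nat_lit 98)) (XT.lf (nat_lit 0) (nat_lit 15305201606) (nat_lit 228) (nat_lit 19254603750) (nat_lit 76) (nat_lit 23520272954) (nat_lit 49) (nat_lit 5) (nat_lit 52) (nat_lit 5) (nat_lit 50) (nat_lit 5) (nat_lit 376) (nat_lit 307) (nat_lit 97))) (XT.nd (nat_lit 78) (nat_lit 0) (nat_lit 0) (XT.lf (nat_lit 0) (nat_lit 4571255131) (nat_lit 228) (nat_lit 20040598213) (nat_lit 304) (nat_lit 34742998974) (nat_lit 46) (nat_lit 5) (nat_lit 49) (nat_lit 5) (nat_lit 50) (nat_lit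 5) (nat_lit 377) (nat_lit 307) (nat_lit 96)) (XT.lf (nat_lit 0) (nat_lit 29503764604) (nat_lit 228) (nat_lit 4886574219) (nat_lit 304) (nat_lit 26271753145) (nat_lit 46) (nat_lit 5) (nat_lit 49) (nat_lit 5) (nat_lit 50) (nat_lit 5) (nat_lit 378) (nat_lit 307) (nat_lit 95)))))) (XT.nd (nat_lit 468) (nat_lit 532) (nat_lit 0) (XT.nd (nat_lit 234) (nat_lit 228) (nat_lit 0) (XT.nd (nat_lit 78) (nat_lit 228) (nat_lit 0) (XT.lf (nat_lit 0) (nat_lit 44563489249) (nat_lit 304) (nat_lit 6930154163) (nat_lit 76) (nat_lit 10511867488) (nat_lit 46) (nat_lit 5) (nat_lit 50) (nat_lit 5) (nat_lit 47) (nat_lit 5) (nat_lit 379) (nat_lit 307) (nat_lit 94)) (XT.nd (nat_lit 78) (nat_lit 76) (nat_lit 0) (XT.lf (nat_lit 0) (nat_lit 18331489270) (nat_lit 152) (nat_lit 36933234776) (nat_lit 228) (nat_lit 8117823020) (nat_lit 44) (nat_lit 5) (nat_lit 46) (nat_lit 5) (nat_lit 47) (nat_lit 5) (nat_lit 380) (nat_lit 307)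 (nat_lit 93)) (XT.lf (nat_lit 0) (nat_lit 1526076641) (nat_lit 228) (nat_lit 20323444714) (nat_lit 76) (nat_lit 42948876460) (nat_lit 43) (nat_lit 5) (nat_lit 46) (nat_lit 5) (nat_lit 44) (nat_lit 5) (nat_lit 381) (nat_lit 307) (nat_lit 92)))) (XT.nd (nat_lit 78) (nat_lit 0) (nat_lit 0) (XT.lf (nat_lit 0) (nat_lit 5163749709) (nat_lit 228) (nat_lit 6180370418) (nat_lit 304) (nat_lit 54908754361) (nat_lit 40) (nat_lit 5) (nat_lit 43) (nat_lit 5) (nat_lit 44) (nat_lit 5) (nat_lit 382) (nat_lit 307) (nat_lit 91)) (XT.nd (nat_lit 78) (nat_lit 0) (nat_lit 0) (XT.lf (nat_lit 0) (nat_lit 21758057858) (nat_lit 304) (nat_lit 36013071209) (nat_lit 76) (nat_lit 9970817018) (nat_lit 40) (nat_lit 5) (nat_lit 44) (nat_lit 5) (nat_lit 41) (nat_lit 5) (nat_lit 383) (nat_lit 307) (nat_lit 90)) (XT.lf (nat_lit 0) (nat_lit 32544016614) (nat_lit 304) (nat_lit 10248501269) (nat_lit 76) (nat_lit 26481385035) (nat_lit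 40) (nat_lit 5) (nat_lit 44) (nat_lit 5) (nat_lit 41) (nat_lit 5) (nat_lit 384) (nat_lit 307) (nat_lit 89))))) (XT.nd (nat_lit 234) (nat_lit 380) (nat_lit 0) (XT.nd (nat_lit 78) (nat_lit 0) (nat_lit 0) (XT.lf (nat_lit 0) (nat_lit 16610640701) (nat_lit 152) (nat_lit 27201042457) (nat_lit 228) (nat_lit 27035392569) (nat_lit 38) (nat_lit 5) (nat_lit 40) (nat_lit 5) (nat_lit 41) (nat_lit 5) (nat_lit 385) (nat_lit 307) (nat_lit 88)) (XT.nd (nat_lit 78) (nat_lit 0) (nat_lit 0) (XT.lf (nat_lit 0) (nat_lit 44483167158) (nat_lit 152) (nat_lit 11036180843) (nat_lit 228) (nat_lit 16945037777) (nat_lit 38) (nat_lit 5) (nat_lit 40) (nat_lit 5) (nat_lit 41) (nat_lit 5) (nat_lit 386) (nat_lit 307) (nat_lit 87)) (XT.lf (nat_lit 0) (nat_lit 67630718363) (nat_lit 228) (nat_lit 994745781) (nat_lit 76) (nat_lit 5503177797) (nat_lit 38) (nat_lit 5) (nat_lit 41) (nat_lit 5) (nat_lit 39) (nat_lit 5) (nat_lit 387)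 (nat_lit 307) (nat_lit 86)))) (XT.nd (nat_lit 156) (nat_lit 152) (nat_lit 0) (XT.nd (nat_lit 78) (nat_lit 0) (nat_lit 0) (XT.lf (nat_lit 0) (nat_lit 4552572514) (nat_lit 228) (nat_lit 48655513437) (nat_lit 76) (nat_lit 22622317192) (nat_lit 35) (nat_lit 5) (nat_lit 38) (nat_lit 5) (nat_lit 36) (nat_lit 5) (nat_lit 388) (nat_lit 307) (nat_lit 85)) (XT.lf (nat_lit 0) (nat_lit 15812687742) (nat_lit 228) (nat_lit 21439719414) (nat_lit 76) (nat_lit 40328619752) (nat_lit 35) (nat_lit 5) (nat_lit 38) (nat_lit 5) (nat_lit 36) (nat_lit 5) (nat_lit 389) (nat_lit 307) (nat_lit 84))) (XT.nd (nat_lit 78) (nat_lit 0) (nat_lit 0) (XT.lf (nat_lit 0) (nat_lit 6721402520) (nat_lit 152) (nat_lit 20752417677) (nat_lit 228) (nat_lit 51908453731) (nat_lit 33) (nat_lit 5) (nat_lit 35) (nat_lit 5) (nat_lit 36) (nat_lit 5) (nat_lit 390) (nat_lit 307) (nat_lit 83)) (XT.lf (nat_lit 0) (nat_lit 36164569255) (nat_lit 152)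 (nat_lit 3535338774) (nat_lit 228) (nat_lit 41531197616) (nat_lit 33) (nat_lit 5) (nat_lit 35) (nat_lit 5) (nat_lit 36) (nat_lit 5) (nat_lit 391) (nat_lit 307) (nat_lit 82))))))) (XT.nd (nat_lit 1014) (nat_lit 2356) (nat_lit 0) (XT.nd (nat_lit 468) (nat_lit 0) (nat_lit 152) (XT.nd (nat_lit 234) (nat_lit 0) (nat_lit 76) (XT.nd (nat_lit 78) (nat_lit 1140) (nat_lit 0) (XT.lf (nat_lit 0) (nat_lit 8459784327) (nat_lit 1140) (nat_lit 41219377) (nat_lit 1140) (nat_lit 41219377) (nat_lit 190) (nat_lit 3) (nat_lit 205) (nat_lit 3) (nat_lit 205) (nat_lit 5) (nat_lit 308) (nat_lit 308) (nat_lit 164)) (XT.nd (nat_lit 78) (nat_lit 0) (nat_lit 0) (XT.lf (nat_lit 0) (nat_lit 123234823) (nat_lit 1140) (nat_lit 9710514496) (nat_lit 1216) (nat_lit 7498062003) (nat_lit 175) (nat_lit 5) (nat_lit 190) (nat_lit 3) (nat_lit 191) (nat_lit 5) (nat_lit 309) (nat_lit 308) (nat_lit 163)) (XT.lf (nat_lit 0) (nat_lit 409149971)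 (nat_lit 1140) (nat_lit 2034888198) (nat_lit 1216) (nat_lit 15142748980) (nat_lit 175) (nat_lit 5) (nat_lit 190) (nat_lit 3) (nat_lit 191) (nat_lit 5) (nat_lit 310) (nat_lit 308) (nat_lit 162)))) (XT.nd (nat_lit 78) (nat_lit 0) (nat_lit 0) (XT.lf (nat_lit 0) (nat_lit 803312198) (nat_lit 1140) (nat_lit 11914834115) (nat_lit 1216) (nat_lit 5128288360) (nat_lit 176) (nat_lit 5) (nat_lit 191) (nat_lit 5) (nat_lit 192) (nat_lit 5) (nat_lit 311) (nat_lit 308) (nat_lit 161)) (XT.nd (nat_lit 78) (nat_lit 0) (nat_lit 76) (XT.lf (nat_lit 0) (nat_lit 1246355322) (nat_lit 1140) (nat_lit 3963479548) (nat_lit 1216) (nat_lit 12902937219) (nat_lit 176) (nat_lit 5) (nat_lit 191) (nat_lit 5) (nat_lit 192) (nat_lit 5) (nat_lit 312) (nat_lit 308) (nat_lit 160)) (XT.lf (nat_lit 0) (nat_lit 1761116919) (nat_lit 1140) (nat_lit 14104844392) (nat_lit 1216) (nat_lit 2519397294) (nat_lit 177) (nat_lit 5) (nat_lit 192)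 (nat_lit 5) (nat_lit 193) (nat_lit 5) (nat_lit 313) (nat_lit 308) (nat_lit 159))))) (XT.nd (nat_lit 234) (nat_lit 0) (nat_lit 76) (XT.nd (nat_lit 78) (nat_lit 0) (nat_lit 0) (XT.lf (nat_lit 0) (nat_lit 2375869048) (nat_lit 1140) (nat_lit 5868531978) (nat_lit 1216) (nat_lit 10419196710) (nat_lit 177) (nat_lit 5) (nat_lit 192) (nat_lit 5) (nat_lit 193) (nat_lit 5) (nat_lit 314) (nat_lit 308) (nat_lit 158)) (XT.nd (nat_lit 78) (nat_lit 0) (nat_lit 76) (XT.lf (nat_lit 76) (nat_lit 2662250584) (nat_lit 0) (nat_lit 365166976) (nat_lit 1216) (nat_lit 15922226983) (nat_lit 178) (nat_lit 5) (nat_lit 177) (nat_lit 5) (nat_lit 193) (nat_lit 5) (nat_lit 315) (nat_lit 308) (nat_lit 157)) (XT.lf (nat_lit 0) (nat_lit 3825816354) (nat_lit 1140) (nat_lit 7753099794) (nat_lit 1216) (nat_lit 7661548282) (nat_lit 178) (nat_lit 5) (nat_lit 193) (nat_lit 5) (nat_lit 194) (nat_lit 5) (nat_lit 316) (nat_lit 308) (nat_lit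 156)))) (XT.nd (nat_lit 156) (nat_lit 0) (nat_lit 76) (XT.nd (nat_lit 78) (nat_lit 0) (nat_lit 76) (XT.lf (nat_lit 76) (nat_lit 1049453395) (nat_lit 0) (nat_lit 3605576842) (nat_lit 1216) (nat_lit 14884783263) (nat_lit 179) (nat_lit 5) (nat_lit 178) (nat_lit 5) (nat_lit 194) (nat_lit 5) (nat_lit 317) (nat_lit 308) (nat_lit 155)) (XT.lf (nat_lit 0) (nat_lit 5625806669) (nat_lit 1140) (nat_lit 9620658660) (nat_lit 1216) (nat_lit 4598187300) (nat_lit 179) (nat_lit 5) (nat_lit 194) (nat_lit 5) (nat_lit 195) (nat_lit 5) (nat_lit 318) (nat_lit 308) (nat_lit 154))) (XT.nd (nat_lit 78) (nat_lit 0) (nat_lit 76) (XT.lf (nat_lit 0) (nat_lit 6654934228) (nat_lit 1140) (nat_lit 525242987) (nat_lit 1216) (nat_lit 12977592760) (nat_lit 179) (nat_lit 5) (nat_lit 194) (nat_lit 5) (nat_lit 195) (nat_lit 5) (nat_lit 319) (nat_lit 308) (nat_lit 153)) (XT.lf (nat_lit 0) (nat_lit 7807023692) (nat_lit 1140) (nat_lit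 11475201278) (nat_lit 1216) (nat_lit 1195302817) (nat_lit 180) (nat_lit 5) (nat_lit 195) (nat_lit 5) (nat_lit 196) (nat_lit 5) (nat_lit 320) (nat_lit 308) (nat_lit 152)))))) (XT.nd (nat_lit 468) (nat_lit 1748) (nat_lit 0) (XT.nd (nat_lit 234) (nat_lit 988) (nat_lit 0) (XT.nd (nat_lit 78) (nat_lit 0) (nat_lit 0) (XT.lf (nat_lit 0) (nat_lit 9063996240) (nat_lit 1140) (nat_lit 2056079198) (nat_lit 1216) (nat_lit 9684702594) (nat_lit 180) (nat_lit 5) (nat_lit 195) (nat_lit 5) (nat_lit 196) (nat_lit 5) (nat_lit 321) (nat_lit 308) (nat_lit 151)) (XT.nd (nat_lit 78) (nat_lit 0) (nat_lit 76) (XT.lf (nat_lit 76) (nat_lit 7793118786) (nat_lit 0) (nat_lit 2634522955) (nat_lit 1216) (nat_lit 10712144168) (nat_lit 181) (nat_lit 5) (nat_lit 180) (nat_lit 5) (nat_lit 196) (nat_lit 5) (nat_lit 322) (nat_lit 308) (nat_lit 150)) (XT.lf (nat_lit 0) (nat_lit 11906049021) (nat_lit 1140) (nat_lit 3567897674) (nat_lit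 1216) (nat_lit 6008690530) (nat_lit 181) (nat_lit 5) (nat_lit 196) (nat_lit 5) (nat_lit 197) (nat_lit 5) (nat_lit 323) (nat_lit 308) (nat_lit 149)))) (XT.nd (nat_lit 78) (nat_lit 1064) (nat_lit 0) (XT.lf (nat_lit 76) (nat_lit 6602404100) (nat_lit 0) (nat_lit 6910318015) (nat_lit 1216) (nat_lit 8320543078) (nat_lit 182) (nat_lit 5) (nat_lit 181) (nat_lit 5) (nat_lit 197) (nat_lit 5) (nat_lit 324) (nat_lit 308) (nat_lit 148)) (XT.nd (nat_lit 78) (nat_lit 1140) (nat_lit 0) (XT.lf (nat_lit 0) (nat_lit 15216835929) (nat_lit 1140) (nat_lit 5065818022) (nat_lit 76) (nat_lit 1910289105) (nat_lit 182) (nat_lit 5) (nat_lit 197) (nat_lit 5) (nat_lit 183) (nat_lit 5) (nat_lit 325) (nat_lit 308) (nat_lit 147)) (XT.lf (nat_lit 0) (nat_lit 5437274373) (nat_lit 1140) (nat_lit 11650137418) (nat_lit 1216) (nat_lit 5472547333) (nat_lit 167) (nat_lit 5) (nat_lit 182) (nat_lit 5) (nat_lit 183) (nat_lit 5) (nat_lit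 326) (nat_lit 308) (nat_lit 146))))) (XT.nd (nat_lit 234) (nat_lit 1216) (nat_lit 0) (XT.nd (nat_lit 78) (nat_lit 532) (nat_lit 0) (XT.lf (nat_lit 0) (nat_lit 16354764998) (nat_lit 1140) (nat_lit 2705260101) (nat_lit 1216) (nat_lit 3876590769) (nat_lit 167) (nat_lit 5) (nat_lit 182) (nat_lit 5) (nat_lit 183) (nat_lit 5) (nat_lit 327) (nat_lit 308) (nat_lit 145)) (XT.nd (nat_lit 78) (nat_lit 0) (nat_lit 0) (XT.lf (nat_lit 0) (nat_lit 4291825294) (nat_lit 532) (nat_lit 16898729987) (nat_lit 608) (nat_lit 2131062448) (nat_lit 160) (nat_lit 5) (nat_lit 167) (nat_lit 5) (nat_lit 168) (nat_lit 5) (nat_lit 328) (nat_lit 308) (nat_lit 144)) (XT.lf (nat_lit 0) (nat_lit 15594787071) (nat_lit 532) (nat_lit 7878228849) (nat_lit 608) (nat_lit 242520638) (nat_lit 160) (nat_lit 5) (nat_lit 167) (nat_lit 5) (nat_lit 168) (nat_lit 5) (nat_lit 329) (nat_lit 308) (nat_lit 143)))) (XT.nd (nat_lit 156) (nat_lit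 532) (nat_lit 0) (XT.nd (nat_lit 78) (nat_lit 0) (nat_lit 0) (XT.lf (nat_lit 0) (nat_lit 1708958489) (nat_lit 684) (nat_lit 20977785162) (nat_lit 76) (nat_lit 1432860020) (nat_lit 151) (nat_lit 5) (nat_lit 160) (nat_lit 5) (nat_lit 152) (nat_lit 5) (nat_lit 330) (nat_lit 308) (nat_lit 142)) (XT.lf (nat_lit 0) (nat_lit 3870146485) (nat_lit 684) (nat_lit 9710426833) (nat_lit 76) (nat_lit 10950473001) (nat_lit 151) (nat_lit 5) (nat_lit 160) (nat_lit 5) (nat_lit 152) (nat_lit 5) (nat_lit 331) (nat_lit 308) (nat_lit 141))) (XT.nd (nat_lit 78) (nat_lit 0) (nat_lit 0) (XT.lf (nat_lit 0) (nat_lit 1928100985) (nat_lit 532) (nat_lit 4181963501) (nat_lit 608) (nat_lit 18844357459) (nat_lit 144) (nat_lit 5) (nat_lit 151) (nat_lit 5) (nat_lit 152) (nat_lit 5) (nat_lit 332) (nat_lit 308) (nat_lit 140)) (XT.lf (nat_lit 0) (nat_lit 8564517034) (nat_lit 608) (nat_lit 11331120533) (nat_lit 76) (nat_lit 5490447502)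 (nat_lit 144) (nat_lit 5) (nat_lit 152) (nat_lit 5) (nat_lit 145) (nat_lit 5) (nat_lit 333) (nat_lit 308) (nat_lit 139))))))))
noncomputable def xc213 : XT := (XT.nd (nat_lit 2028) (nat_lit 2964) (nat_lit 0) (XT.nd (nat_lit 1014) (nat_lit 2280) (nat_lit 0) (XT.nd (nat_lit 468) (nat_lit 1368) (nat_lit 0) (XT.nd (nat_lit 234) (nat_lit 912) (nat_lit 0) (XT.nd (nat_lit 78) (nat_lit 0) (nat_lit 0) (XT.lf (nat_lit 0) (nat_lit 682404315) (nat_lit 532) (nat_lit 10453750449) (nat_lit 608) (nat_lit 14693242931) (nat_lit 137) (nat_lit 5) (nat_lit 144) (nat_lit 5) (nat_lit 145) (nat_lit 5) (nat_lit 334) (nat_lit 308) (nat_lit 138)) (XT.nd (nat_lit 78) (nat_lit 0) (nat_lit 0) (XT.lf (nat_lit 0) (nat_lit 13284213144) (nat_lit 532) (nat_lit 610823192) (nat_lit 608) (nat_lit 12387676497) (nat_lit 137) (nat_lit 5) (nat_lit 144) (nat_lit 5) (nat_lit 145) (nat_lit 5) (nat_lit 335) (nat_lit 308) (nat_lit 137))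 (XT.lf (nat_lit 0) (nat_lit 16824065461) (nat_lit 608) (nat_lit 581535995) (nat_lit 76) (nat_lit 9341410338) (nat_lit 137) (nat_lit 5) (nat_lit 145) (nat_lit 5) (nat_lit 138) (nat_lit 5) (nat_lit 336) (nat_lit 308) (nat_lit 136)))) (XT.nd (nat_lit 78) (nat_lit 456) (nat_lit 0) (XT.lf (nat_lit 0) (nat_lit 12440371833) (nat_lit 456) (nat_lit 7522146218) (nat_lit 532) (nat_lit 7259080726) (nat_lit 131) (nat_lit 5) (nat_lit 137) (nat_lit 5) (nat_lit 138) (nat_lit 5) (nat_lit 337) (nat_lit 308) (nat_lit 135)) (XT.nd (nat_lit 78) (nat_lit 456) (nat_lit 0) (XT.lf (nat_lit 0) (nat_lit 23222599568) (nat_lit 532) (nat_lit 1875350936) (nat_lit 76) (nat_lit 2611654074) (nat_lit 131) (nat_lit 5) (nat_lit 138) (nat_lit 5) (nat_lit 132) (nat_lit 5) (nat_lit 338) (nat_lit 308) (nat_lit 134)) (XT.lf (nat_lit 0) (nat_lit 11564664874) (nat_lit 456) (nat_lit 15197574906) (nat_lit 532) (nat_lit 1444563395) (nat_lit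 125) (nat_lit 5) (nat_lit 131) (nat_lit 5) (nat_lit 132) (nat_lit 5) (nat_lit 339) (nat_lit 308) (nat_lit 133))))) (XT.nd (nat_lit 234) (nat_lit 836) (nat_lit 0) (XT.nd (nat_lit 78) (nat_lit 456) (nat_lit 0) (XT.lf (nat_lit 0) (nat_lit 1671457982) (nat_lit 532) (nat_lit 3292718610) (nat_lit 76) (nat_lit 23753800990) (nat_lit 124) (nat_lit 5) (nat_lit 131) (nat_lit 5) (nat_lit 125) (nat_lit 5) (nat_lit 340) (nat_lit 308) (nat_lit 132)) (XT.nd (nat_lit 78) (nat_lit 0) (nat_lit 0) (XT.lf (nat_lit 0) (nat_lit 5005274796) (nat_lit 532) (nat_lit 18649369878) (nat_lit 76) (nat_lit 5584817853) (nat_lit 118) (nat_lit 5) (nat_lit 125) (nat_lit 5) (nat_lit 119) (nat_lit 5) (nat_lit 341) (nat_lit 308) (nat_lit 131)) (XT.lf (nat_lit 0) (nat_lit 8518156505) (nat_lit 532) (nat_lit 4872402501) (nat_lit 76) (nat_lit 16383666221) (nat_lit 118) (nat_lit 5) (nat_lit 125) (nat_lit 5) (nat_lit 119) (nat_lit 5) (nat_lit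 342) (nat_lit 308) (nat_lit 130)))) (XT.nd (nat_lit 156) (nat_lit 380) (nat_lit 0) (XT.nd (nat_lit 78) (nat_lit 0) (nat_lit 0) (XT.lf (nat_lit 0) (nat_lit 9499144915) (nat_lit 456) (nat_lit 2725019417) (nat_lit 532) (nat_lit 18098238866) (nat_lit 112) (nat_lit 5) (nat_lit 118) (nat_lit 5) (nat_lit 119) (nat_lit 5) (nat_lit 343) (nat_lit 308) (nat_lit 129)) (XT.lf (nat_lit 0) (nat_lit 16166934032) (nat_lit 532) (nat_lit 6567880039) (nat_lit 76) (nat_lit 8148449434) (nat_lit 112) (nat_lit 5) (nat_lit 119) (nat_lit 5) (nat_lit 113) (nat_lit 5) (nat_lit 344) (nat_lit 308) (nat_lit 128))) (XT.nd (nat_lit 78) (nat_lit 0) (nat_lit 0) (XT.lf (nat_lit 0) (nat_lit 8245034713) (nat_lit 380) (nat_lit 12085779043) (nat_lit 456) (nat_lit 11127055375) (nat_lit 107) (nat_lit 5) (nat_lit 112) (nat_lit 5) (nat_lit 113) (nat_lit 5) (nat_lit 345) (nat_lit 308) (nat_lit 127)) (XT.lf (nat_lit 0) (nat_lit 23632976792)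 (nat_lit 380) (nat_lit 1049606924) (nat_lit 456) (nat_lit 7365244184) (nat_lit 107) (nat_lit 5) (nat_lit 112) (nat_lit 5) (nat_lit 113) (nat_lit 5) (nat_lit 346) (nat_lit 308) (nat_lit 126)))))) (XT.nd (nat_lit 468) (nat_lit 1064) (nat_lit 0) (XT.nd (nat_lit 234) (nat_lit 380) (nat_lit 0) (XT.nd (nat_lit 78) (nat_lit 456) (nat_lit 0) (XT.lf (nat_lit 0) (nat_lit 6857736851) (nat_lit 380) (nat_lit 22469012894) (nat_lit 456) (nat_lit 3323884466) (nat_lit 102) (nat_lit 5) (nat_lit 107) (nat_lit 5) (nat_lit 108) (nat_lit 5) (nat_lit 347) (nat_lit 308) (nat_lit 125)) (XT.nd (nat_lit 78) (nat_lit 380) (nat_lit 0) (XT.lf (nat_lit 0) (nat_lit 915320765) (nat_lit 456) (nat_lit 10531276281) (nat_lit 76) (nat_lit 21821900502) (nat_lit 101) (nat_lit 5) (nat_lit 107) (nat_lit 5) (nat_lit 102) (nat_lit 5) (nat_lit 348) (nat_lit 308) (nat_lit 124)) (XT.lf (nat_lit 0) (nat_lit 5253919489) (nat_lit 380) (nat_lit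 8338141) (nat_lit 456) (nat_lit 28640234719) (nat_lit 96) (nat_lit 5) (nat_lit 101) (nat_lit 5) (nat_lit 102) (nat_lit 5) (nat_lit 349) (nat_lit 308) (nat_lit 123)))) (XT.nd (nat_lit 78) (nat_lit 380) (nat_lit 0) (XT.lf (nat_lit 0) (nat_lit 9957076260) (nat_lit 456) (nat_lit 12941925407) (nat_lit 76) (nat_lit 11649984732) (nat_lit 96) (nat_lit 5) (nat_lit 102) (nat_lit 5) (nat_lit 97) (nat_lit 5) (nat_lit 350) (nat_lit 308) (nat_lit 122)) (XT.nd (nat_lit 78) (nat_lit 0) (nat_lit 0) (XT.lf (nat_lit 0) (nat_lit 3296339176) (nat_lit 380) (nat_lit 11525164944) (nat_lit 456) (nat_lit 20392511720) (nat_lit 91) (nat_lit 5) (nat_lit 96) (nat_lit 5) (nat_lit 97) (nat_lit 5) (nat_lit 351) (nat_lit 308) (nat_lit 121)) (XT.lf (nat_lit 0) (nat_lit 19962710934) (nat_lit 456) (nat_lit 15615015999) (nat_lit 76) (nat_lit 317347255) (nat_lit 91) (nat_lit 5) (nat_lit 97) (nat_lit 5) (nat_lit 92) (nat_lit 5) (nat_lit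 352) (nat_lit 308) (nat_lit 120))))) (XT.nd (nat_lit 234) (nat_lit 760) (nat_lit 0) (XT.nd (nat_lit 78) (nat_lit 0) (nat_lit 0) (XT.lf (nat_lit 0) (nat_lit 1079930273) (nat_lit 304) (nat_lit 24299840220) (nat_lit 380) (nat_lit 11213148607) (nat_lit 87) (nat_lit 5) (nat_lit 91) (nat_lit 5) (nat_lit 92) (nat_lit 5) (nat_lit 353) (nat_lit 308) (nat_lit 119)) (XT.nd (nat_lit 78) (nat_lit 0) (nat_lit 0) (XT.lf (nat_lit 0) (nat_lit 18592097291) (nat_lit 304) (nat_lit 12522098615) (nat_lit 380) (nat_lit 6192861043) (nat_lit 87) (nat_lit 5) (nat_lit 91) (nat_lit 5) (nat_lit 92) (nat_lit 5) (nat_lit 354) (nat_lit 308) (nat_lit 118)) (XT.lf (nat_lit 0) (nat_lit 36626017510) (nat_lit 304) (nat_lit 391891932) (nat_lit 380) (nat_lit 1024794949) (nat_lit 87) (nat_lit 5) (nat_lit 91) (nat_lit 5) (nat_lit 92) (nat_lit 5) (nat_lit 355) (nat_lit 308) (nat_lit 117)))) (XT.nd (nat_lit 156) (nat_lit 304) (nat_lit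 0) (XT.nd (nat_lit 78) (nat_lit 0) (nat_lit 0) (XT.lf (nat_lit 0) (nat_lit 4490415351) (nat_lit 456) (nat_lit 22231614838) (nat_lit 76) (nat_lit 12068875133) (nat_lit 81) (nat_lit 5) (nat_lit 87) (nat_lit 5) (nat_lit 82) (nat_lit 5) (nat_lit 356) (nat_lit 308) (nat_lit 116)) (XT.lf (nat_lit 0) (nat_lit 10166154171) (nat_lit 456) (nat_lit 4475305614) (nat_lit 76) (nat_lit 24919320867) (nat_lit 81) (nat_lit 5) (nat_lit 87) (nat_lit 5) (nat_lit 82) (nat_lit 5) (nat_lit 357) (nat_lit 308) (nat_lit 115))) (XT.nd (nat_lit 78) (nat_lit 0) (nat_lit 0) (XT.lf (nat_lit 0) (nat_lit 14085045648) (nat_lit 304) (nat_lit 2059933054) (nat_lit 380) (nat_lit 24204791905) (nat_lit 77) (nat_lit 5) (nat_lit 81) (nat_lit 5) (nat_lit 82) (nat_lit 5) (nat_lit 358) (nat_lit 308) (nat_lit 114)) (XT.lf (nat_lit 0) (nat_lit 22451027921) (nat_lit 380) (nat_lit 7975876247) (nat_lit 76) (nat_lit 10731092985) (nat_lit 77)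 (nat_lit 5) (nat_lit 82) (nat_lit 5) (nat_lit 78) (nat_lit 5) (nat_lit 359) (nat_lit 308) (nat_lit 113))))))) (XT.nd (nat_lit 1014) (nat_lit 1292) (nat_lit 0) (XT.nd (nat_lit 468) (nat_lit 760) (nat_lit 0) (XT.nd (nat_lit 234) (nat_lit 380) (nat_lit 0) (XT.nd (nat_lit 78) (nat_lit 228) (nat_lit 0) (XT.lf (nat_lit 0) (nat_lit 11053506281) (nat_lit 304) (nat_lit 18016927435) (nat_lit 380) (nat_lit 12916314136) (nat_lit 73) (nat_lit 5) (nat_lit 77) (nat_lit 5) (nat_lit 78) (nat_lit 5) (nat_lit 360) (nat_lit 308) (nat_lit 112)) (XT.nd (nat_lit 78) (nat_lit 228) (nat_lit 0) (XT.lf (nat_lit 0) (nat_lit 30813871568) (nat_lit 304) (nat_lit 5152656881) (nat_lit 380) (nat_lit 6871491958) (nat_lit 73) (nat_lit 5) (nat_lit 77) (nat_lit 5) (nat_lit 78) (nat_lit 5) (nat_lit 361) (nat_lit 308) (nat_lit 111)) (XT.lf (nat_lit 0) (nat_lit 7517714018) (nat_lit 228) (nat_lit 35699523359) (nat_lit 304) (nat_lit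 493164282) (nat_lit 70) (nat_lit 5) (nat_lit 73) (nat_lit 5) (nat_lit 74) (nat_lit 5) (nat_lit 362) (nat_lit 308) (nat_lit 110)))) (XT.nd (nat_lit 78) (nat_lit 304) (nat_lit 0) (XT.lf (nat_lit 0) (nat_lit 6129217065) (nat_lit 304) (nat_lit 16827003612) (nat_lit 76) (nat_lit 21645845302) (nat_lit 69) (nat_lit 5) (nat_lit 73) (nat_lit 5) (nat_lit 70) (nat_lit 5) (nat_lit 363) (nat_lit 308) (nat_lit 109)) (XT.nd (nat_lit 78) (nat_lit 0) (nat_lit 0) (XT.lf (nat_lit 0) (nat_lit 3173413087) (nat_lit 304) (nat_lit 9795157779) (nat_lit 380) (nat_lit 32550918737) (nat_lit 65) (nat_lit 5) (nat_lit 69) (nat_lit 5) (nat_lit 70) (nat_lit 5) (nat_lit 364) (nat_lit 308) (nat_lit 108)) (XT.lf (nat_lit 0) (nat_lit 20218592240) (nat_lit 380) (nat_lit 22381699801) (nat_lit 76) (nat_lit 3857981474) (nat_lit 65) (nat_lit 5) (nat_lit 70) (nat_lit 5) (nat_lit 66) (nat_lit 5) (nat_lit 365) (nat_lit 308) (nat_lit 107)))))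 (XT.nd (nat_lit 234) (nat_lit 532) (nat_lit 0) (XT.nd (nat_lit 78) (nat_lit 228) (nat_lit 0) (XT.lf (nat_lit 0) (nat_lit 27780896344) (nat_lit 380) (nat_lit 1918585137) (nat_lit 76) (nat_lit 17722898124) (nat_lit 65) (nat_lit 5) (nat_lit 70) (nat_lit 5) (nat_lit 66) (nat_lit 5) (nat_lit 366) (nat_lit 308) (nat_lit 106)) (XT.nd (nat_lit 78) (nat_lit 0) (nat_lit 0) (XT.lf (nat_lit 0) (nat_lit 19536533040) (nat_lit 228) (nat_lit 16219198033) (nat_lit 304) (nat_lit 12654110021) (nat_lit 62) (nat_lit 5) (nat_lit 65) (nat_lit 5) (nat_lit 66) (nat_lit 5) (nat_lit 367) (nat_lit 308) (nat_lit 105)) (XT.lf (nat_lit 0) (nat_lit 41671546395) (nat_lit 228) (nat_lit 2315535317) (nat_lit 304) (nat_lit 5439328591) (nat_lit 62) (nat_lit 5) (nat_lit 65) (nat_lit 5) (nat_lit 66) (nat_lit 5) (nat_lit 368) (nat_lit 308) (nat_lit 104)))) (XT.nd (nat_lit 156) (nat_lit 228) (nat_lit 0) (XT.nd (nat_lit 78) (nat_lit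 0) (nat_lit 0) (XT.lf (nat_lit 0) (nat_lit 2204910936) (nat_lit 304) (nat_lit 36332719564) (nat_lit 76) (nat_lit 11927717045) (nat_lit 58) (nat_lit 5) (nat_lit 62) (nat_lit 5) (nat_lit 59) (nat_lit 5) (nat_lit 369) (nat_lit 308) (nat_lit 103)) (XT.lf (nat_lit 0) (nat_lit 10069120704) (nat_lit 304) (nat_lit 14778012192) (nat_lit 76) (nat_lit 26683707151) (nat_lit 58) (nat_lit 5) (nat_lit 62) (nat_lit 5) (nat_lit 59) (nat_lit 5) (nat_lit 370) (nat_lit 308) (nat_lit 102))) (XT.nd (nat_lit 78) (nat_lit 0) (nat_lit 0) (XT.lf (nat_lit 0) (nat_lit 7568041265) (nat_lit 228) (nat_lit 10671981450) (nat_lit 304) (nat_lit 34386153410) (nat_lit 55) (nat_lit 5) (nat_lit 58) (nat_lit 5) (nat_lit 59) (nat_lit 5) (nat_lit 371) (nat_lit 308) (nat_lit 101)) (XT.lf (nat_lit 0) (nat_lit 26842557867) (nat_lit 304) (nat_lit 22904720761) (nat_lit 76) (nat_lit 4001500201) (nat_lit 55) (nat_lit 5) (nat_lit 59) (nat_lit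 5) (nat_lit 56) (nat_lit 5) (nat_lit 372) (nat_lit 308) (nat_lit 100)))))) (XT.nd (nat_lit 546) (nat_lit 608) (nat_lit 0) (XT.nd (nat_lit 234) (nat_lit 456) (nat_lit 0) (XT.nd (nat_lit 78) (nat_lit 228) (nat_lit 0) (XT.lf (nat_lit 0) (nat_lit 35806926625) (nat_lit 304) (nat_lit 195276643) (nat_lit 76) (nat_lit 18899745298) (nat_lit 55) (nat_lit 5) (nat_lit 59) (nat_lit 5) (nat_lit 56) (nat_lit 5) (nat_lit 373) (nat_lit 308) (nat_lit 99)) (XT.nd (nat_lit 78) (nat_lit 0) (nat_lit 0) (XT.lf (nat_lit 0) (nat_lit 23654205051) (nat_lit 228) (nat_lit 21611549954) (nat_lit 304) (nat_lit 10817194158) (nat_lit 52) (nat_lit 5) (nat_lit 55) (nat_lit 5) (nat_lit 56) (nat_lit 5) (nat_lit 374) (nat_lit 308) (nat_lit 98)) (XT.lf (nat_lit 0) (nat_lit 48220377380) (nat_lit 228) (nat_lit 6788119644) (nat_lit 304) (nat_lit 2290879872) (nat_lit 52) (nat_lit 5) (nat_lit 55) (nat_lit 5) (nat_lit 56) (nat_lit 5) (nat_lit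 375) (nat_lit 308) (nat_lit 97)))) (XT.nd (nat_lit 156) (nat_lit 228) (nat_lit 0) (XT.nd (nat_lit 78) (nat_lit 0) (nat_lit 0) (XT.lf (nat_lit 0) (nat_lit 6592476270) (nat_lit 228) (nat_lit 43426919340) (nat_lit 76) (nat_lit 8524193824) (nat_lit 49) (nat_lit 5) (nat_lit 52) (nat_lit 5) (nat_lit 50) (nat_lit 5) (nat_lit 376) (nat_lit 308) (nat_lit 96)) (XT.lf (nat_lit 0) (nat_lit 15854313207) (nat_lit 228) (nat_lit 19691626907) (nat_lit 76) (nat_lit 24273768485) (nat_lit 49) (nat_lit 5) (nat_lit 52) (nat_lit 5) (nat_lit 50) (nat_lit 5) (nat_lit 377) (nat_lit 308) (nat_lit 95))) (XT.nd (nat_lit 78) (nat_lit 0) (nat_lit 0) (XT.lf (nat_lit 0) (nat_lit 4847629163) (nat_lit 228) (nat_lit 20591253696) (nat_lit 304) (nat_lit 35693883557) (nat_lit 46) (nat_lit 5) (nat_lit 49) (nat_lit 5) (nat_lit 50) (nat_lit 5) (nat_lit 378) (nat_lit 308) (nat_lit 94)) (XT.lf (nat_lit 0) (nat_lit 30524058491) (nat_lit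 228) (nat_lit 4984081675) (nat_lit 304) (nat_lit 26971162646) (nat_lit 46) (nat_lit 5) (nat_lit 49) (nat_lit 5) (nat_lit 50) (nat_lit 5) (nat_lit 379) (nat_lit 308) (nat_lit 93))))) (XT.nd (nat_lit 234) (nat_lit 380) (nat_lit 0) (XT.nd (nat_lit 78) (nat_lit 228) (nat_lit 0) (XT.lf (nat_lit 0) (nat_lit 45984435732) (nat_lit 304) (nat_lit 7004698610) (nat_lit 76) (nat_lit 10873953466) (nat_lit 46) (nat_lit 5) (nat_lit 50) (nat_lit 5) (nat_lit 47) (nat_lit 5) (nat_lit 380) (nat_lit 308) (nat_lit 92)) (XT.nd (nat_lit 78) (nat_lit 76) (nat_lit 0) (XT.lf (nat_lit 0) (nat_lit 19013486674) (nat_lit 152) (nat_lit 37992042452) (nat_lit 228) (nat_lit 8275943243) (nat_lit 44) (nat_lit 5) (nat_lit 46) (nat_lit 5) (nat_lit 47) (nat_lit 5) (nat_lit 381) (nat_lit 308) (nat_lit 91)) (XT.lf (nat_lit 0) (nat_lit 1653167409) (nat_lit 228) (nat_lit 20803261863) (nat_lit 76) (nat_lit 44283419758) (nat_lit 43) (nat_lit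 5) (nat_lit 46) (nat_lit 5) (nat_lit 44) (nat_lit 5) (nat_lit 382) (nat_lit 308) (nat_lit 90)))) (XT.nd (nat_lit 156) (nat_lit 152) (nat_lit 0) (XT.nd (nat_lit 78) (nat_lit 0) (nat_lit 0) (XT.lf (nat_lit 0) (nat_lit 5447274999) (nat_lit 228) (nat_lit 6317345298) (nat_lit 304) (nat_lit 56473375454) (nat_lit 40) (nat_lit 5) (nat_lit 43) (nat_lit 5) (nat_lit 44) (nat_lit 5) (nat_lit 383) (nat_lit 308) (nat_lit 89)) (XT.lf (nat_lit 0) (nat_lit 22489092957) (nat_lit 304) (nat_lit 36966655411) (nat_lit 76) (nat_lit 10316049361) (nat_lit 40) (nat_lit 5) (nat_lit 44) (nat_lit 5) (nat_lit 41) (nat_lit 5) (nat_lit 384) (nat_lit 308) (nat_lit 88))) (XT.nd (nat_lit 78) (nat_lit 152) (nat_lit 0) (XT.lf (nat_lit 0) (nat_lit 33596350087) (nat_lit 304) (nat_lit 10432841808) (nat_lit 76) (nat_lit 27320591472) (nat_lit 40) (nat_lit 5) (nat_lit 44) (nat_lit 5) (nat_lit 41) (nat_lit 5) (nat_lit 385) (nat_lit 308)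 (nat_lit 87)) (XT.lf (nat_lit 0) (nat_lit 17230867417) (nat_lit 152) (nat_lit 27970137090) (nat_lit 228) (nat_lit 27769179755) (nat_lit 38) (nat_lit 5) (nat_lit 40) (nat_lit 5) (nat_lit 41) (nat_lit 5) (nat_lit 386) (nat_lit 308) (nat_lit 86))))))))
noncomputable def xc214 : XT := (XT.nd (nat_lit 36192) (nat_lit 0) (nat_lit 4104) (XT.nd (nat_lit 35178) (nat_lit 0) (nat_lit 9652) (XT.nd (nat_lit 34632) (nat_lit 0) (nat_lit 10792) (XT.nd (nat_lit 234) (nat_lit 152) (nat_lit 0) (XT.nd (nat_lit 78) (nat_lit 228) (nat_lit 0) (XT.lf (nat_lit 0) (nat_lit 45936018964) (nat_lit 152) (nat_lit 11321696714) (nat_lit 228) (nat_lit 17378365036) (nat_lit 38) (nat_lit 5) (nat_lit 40) (nat_lit 5) (nat_lit 41) (nat_lit 5) (nat_lit 387) (nat_lit 308) (nat_lit 85)) (XT.nd (nat_lit 78) (nat_lit 228) (nat_lit 0) (XT.lf (nat_lit 0) (nat_lit 69730732418) (nat_lit 228) (nat_lit 907932440) (nat_lit 76) (nat_lit 5711652090)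 (nat_lit 38) (nat_lit 5) (nat_lit 41) (nat_lit 5) (nat_lit 39) (nat_lit 5) (nat_lit 388) (nat_lit 308) (nat_lit 84)) (XT.lf (nat_lit 0) (nat_lit 4760025291) (nat_lit 228) (nat_lit 49998207724) (nat_lit 76) (nat_lit 23344907433) (nat_lit 35) (nat_lit 5) (nat_lit 38) (nat_lit 5) (nat_lit 36) (nat_lit 5) (nat_lit 389) (nat_lit 308) (nat_lit 83)))) (XT.nd (nat_lit 78) (nat_lit 152) (nat_lit 0) (XT.lf (nat_lit 0) (nat_lit 16355879637) (nat_lit 228) (nat_lit 21969346806) (nat_lit 76) (nat_lit 41581119825) (nat_lit 35) (nat_lit 5) (nat_lit 38) (nat_lit 5) (nat_lit 36) (nat_lit 5) (nat_lit 390) (nat_lit 308) (nat_lit 82)) (XT.nd (nat_lit 34242) (nat_lit 0) (nat_lit 10792) (XT.lf (nat_lit 0) (nat_lit 7035495411) (nat_lit 152) (nat_lit 21330427389) (nat_lit 228) (nat_lit 53395736969) (nat_lit 33) (nat_lit 5) (nat_lit 35) (nat_lit 5) (nat_lit 36) (nat_lit 5) (nat_lit 391) (nat_lit 308) (nat_lit 81)) (XT.lf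 (nat_lit 0) (nat_lit 64642027) (nat_lit 0) (nat_lit 64642027) (nat_lit 1140) (nat_lit 8662527011) (nat_lit 175) (nat_lit 5) (nat_lit 175) (nat_lit 3) (nat_lit 190) (nat_lit 3) (nat_lit 309) (nat_lit 309) (nat_lit 162))))) (XT.nd (nat_lit 234) (nat_lit 0) (nat_lit 76) (XT.nd (nat_lit 78) (nat_lit 0) (nat_lit 0) (XT.lf (nat_lit 0) (nat_lit 539238688) (nat_lit 1140) (nat_lit 9779625716) (nat_lit 1216) (nat_lit 7519897055) (nat_lit 175) (nat_lit 5) (nat_lit 190) (nat_lit 3) (nat_lit 191) (nat_lit 5) (nat_lit 310) (nat_lit 309) (nat_lit 161)) (XT.nd (nat_lit 78) (nat_lit 0) (nat_lit 76) (XT.lf (nat_lit 0) (nat_lit 821722354) (nat_lit 1140) (nat_lit 1880202596) (nat_lit 1216) (nat_lit 15399840373) (nat_lit 175) (nat_lit 5) (nat_lit 190) (nat_lit 3) (nat_lit 191) (nat_lit 5) (nat_lit 311) (nat_lit 309) (nat_lit 160)) (XT.lf (nat_lit 0) (nat_lit 1216401553) (nat_lit 1140) (nat_lit 12044640450) (nat_lit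 1216) (nat_lit 5108517464) (nat_lit 176) (nat_lit 5) (nat_lit 191) (nat_lit 5) (nat_lit 192) (nat_lit 5) (nat_lit 312) (nat_lit 309) (nat_lit 159)))) (XT.nd (nat_lit 156) (nat_lit 0) (nat_lit 76) (XT.nd (nat_lit 78) (nat_lit 0) (nat_lit 76) (XT.lf (nat_lit 0) (nat_lit 1661406166) (nat_lit 1140) (nat_lit 3861375499) (nat_lit 1216) (nat_lit 13121462669) (nat_lit 176) (nat_lit 5) (nat_lit 191) (nat_lit 5) (nat_lit 192) (nat_lit 5) (nat_lit 313) (nat_lit 309) (nat_lit 158)) (XT.lf (nat_lit 0) (nat_lit 2181273295) (nat_lit 1140) (nat_lit 14296079785) (nat_lit 1216) (nat_lit 2447982410) (nat_lit 177) (nat_lit 5) (nat_lit 192) (nat_lit 5) (nat_lit 193) (nat_lit 5) (nat_lit 314) (nat_lit 309) (nat_lit 157))) (XT.nd (nat_lit 78) (nat_lit 0) (nat_lit 0) (XT.lf (nat_lit 0) (nat_lit 2803769263) (nat_lit 1140) (nat_lit 5819432657) (nat_lit 1216) (nat_lit 10589057269) (nat_lit 177) (nat_lit 5) (nat_lit 192)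 (nat_lit 5) (nat_lit 193) (nat_lit 5) (nat_lit 315) (nat_lit 309) (nat_lit 156)) (XT.lf (nat_lit 76) (nat_lit 2965065977) (nat_lit 0) (nat_lit 501554253) (nat_lit 1216) (nat_lit 16040530444) (nat_lit 178) (nat_lit 5) (nat_lit 177) (nat_lit 5) (nat_lit 193) (nat_lit 5) (nat_lit 316) (nat_lit 309) (nat_lit 155)))))) (XT.nd (nat_lit 468) (nat_lit 1368) (nat_lit 0) (XT.nd (nat_lit 234) (nat_lit 0) (nat_lit 76) (XT.nd (nat_lit 78) (nat_lit 0) (nat_lit 0) (XT.lf (nat_lit 0) (nat_lit 4277653380) (nat_lit 1140) (nat_lit 7757404621) (nat_lit 1216) (nat_lit 7771992175) (nat_lit 178) (nat_lit 5) (nat_lit 193) (nat_lit 5) (nat_lit 194) (nat_lit 5) (nat_lit 317) (nat_lit 309) (nat_lit 154)) (XT.nd (nat_lit 78) (nat_lit 0) (nat_lit 76) (XT.lf (nat_lit 76) (nat_lit 1306987044) (nat_lit 0) (nat_lit 3817112211) (nat_lit 1216) (nat_lit 14991524833) (nat_lit 179) (nat_lit 5) (nat_lit 178) (nat_lit 5) (nat_lit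 194) (nat_lit 5) (nat_lit 318) (nat_lit 309) (nat_lit 153)) (XT.lf (nat_lit 0) (nat_lit 6113439583) (nat_lit 1140) (nat_lit 9678766283) (nat_lit 1216) (nat_lit 4637733908) (nat_lit 179) (nat_lit 5) (nat_lit 194) (nat_lit 5) (nat_lit 195) (nat_lit 5) (nat_lit 319) (nat_lit 309) (nat_lit 152)))) (XT.nd (nat_lit 78) (nat_lit 0) (nat_lit 76) (XT.lf (nat_lit 0) (nat_lit 7164153822) (nat_lit 1140) (nat_lit 317202085) (nat_lit 1216) (nat_lit 13271387523) (nat_lit 179) (nat_lit 5) (nat_lit 194) (nat_lit 5) (nat_lit 195) (nat_lit 5) (nat_lit 320) (nat_lit 309) (nat_lit 151)) (XT.nd (nat_lit 78) (nat_lit 0) (nat_lit 0) (XT.lf (nat_lit 0) (nat_lit 8343140116) (nat_lit 1140) (nat_lit 11587534536) (nat_lit 1216) (nat_lit 1151663063) (nat_lit 180) (nat_lit 5) (nat_lit 195) (nat_lit 5) (nat_lit 196) (nat_lit 5) (nat_lit 321) (nat_lit 309) (nat_lit 150)) (XT.lf (nat_lit 0) (nat_lit 9629028470) (nat_lit 1140)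 (nat_lit 1892593825) (nat_lit 1216) (nat_lit 9898060333) (nat_lit 180) (nat_lit 5) (nat_lit 195) (nat_lit 5) (nat_lit 196) (nat_lit 5) (nat_lit 322) (nat_lit 309) (nat_lit 149))))) (XT.nd (nat_lit 234) (nat_lit 1520) (nat_lit 0) (XT.nd (nat_lit 78) (nat_lit 0) (nat_lit 76) (XT.lf (nat_lit 76) (nat_lit 8249872572) (nat_lit 0) (nat_lit 2777316742) (nat_lit 1216) (nat_lit 10737756221) (nat_lit 181) (nat_lit 5) (nat_lit 180) (nat_lit 5) (nat_lit 196) (nat_lit 5) (nat_lit 323) (nat_lit 309) (nat_lit 148)) (XT.nd (nat_lit 78) (nat_lit 0) (nat_lit 0) (XT.lf (nat_lit 0) (nat_lit 12541002761) (nat_lit 1140) (nat_lit 3449102511) (nat_lit 1216) (nat_lit 6128258093) (nat_lit 181) (nat_lit 5) (nat_lit 196) (nat_lit 5) (nat_lit 197) (nat_lit 5) (nat_lit 324) (nat_lit 309) (nat_lit 147)) (XT.lf (nat_lit 76) (nat_lit 7024094276) (nat_lit 0) (nat_lit 7165840872) (nat_lit 1216) (nat_lit 8289765479) (nat_lit 182)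 (nat_lit 5) (nat_lit 181) (nat_lit 5) (nat_lit 197) (nat_lit 5) (nat_lit 325) (nat_lit 309) (nat_lit 146)))) (XT.nd (nat_lit 156) (nat_lit 532) (nat_lit 0) (XT.nd (nat_lit 78) (nat_lit 1140) (nat_lit 0) (XT.lf (nat_lit 0) (nat_lit 15936805000) (nat_lit 1140) (nat_lit 4991924571) (nat_lit 76) (nat_lit 1921702147) (nat_lit 182) (nat_lit 5) (nat_lit 197) (nat_lit 5) (nat_lit 183) (nat_lit 5) (nat_lit 326) (nat_lit 309) (nat_lit 145)) (XT.lf (nat_lit 0) (nat_lit 5824046204) (nat_lit 1140) (nat_lit 12033928121) (nat_lit 1216) (nat_lit 5370661184) (nat_lit 167) (nat_lit 5) (nat_lit 182) (nat_lit 5) (nat_lit 183) (nat_lit 5) (nat_lit 327) (nat_lit 309) (nat_lit 144))) (XT.nd (nat_lit 78) (nat_lit 532) (nat_lit 0) (XT.lf (nat_lit 0) (nat_lit 17062547365) (nat_lit 1140) (nat_lit 2819705846) (nat_lit 1216) (nat_lit 3734575318) (nat_lit 167) (nat_lit 5) (nat_lit 182) (nat_lit 5) (nat_lit 183) (nat_lit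 5) (nat_lit 328) (nat_lit 309) (nat_lit 143)) (XT.lf (nat_lit 0) (nat_lit 4643716002) (nat_lit 532) (nat_lit 17427523551) (nat_lit 608) (nat_lit 1942315549) (nat_lit 160) (nat_lit 5) (nat_lit 167) (nat_lit 5) (nat_lit 168) (nat_lit 5) (nat_lit 329) (nat_lit 309) (nat_lit 142))))))) (XT.nd (nat_lit 1014) (nat_lit 2356) (nat_lit 0) (XT.nd (nat_lit 468) (nat_lit 1444) (nat_lit 0) (XT.nd (nat_lit 234) (nat_lit 1064) (nat_lit 0) (XT.nd (nat_lit 78) (nat_lit 684) (nat_lit 0) (XT.lf (nat_lit 0) (nat_lit 16279267527) (nat_lit 532) (nat_lit 8135771505) (nat_lit 608) (nat_lit 4477061) (nat_lit 160) (nat_lit 5) (nat_lit 167) (nat_lit 5) (nat_lit 168) (nat_lit 5) (nat_lit 330) (nat_lit 309) (nat_lit 141)) (XT.nd (nat_lit 78) (nat_lit 0) (nat_lit 0) (XT.lf (nat_lit 0) (nat_lit 1995710188) (nat_lit 684) (nat_lit 21379972877) (nat_lit 76) (nat_lit 1460112827) (nat_lit 151) (nat_lit 5) (nat_lit 160) (nat_lit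 5) (nat_lit 152) (nat_lit 5) (nat_lit 331) (nat_lit 309) (nat_lit 140)) (XT.lf (nat_lit 0) (nat_lit 4214875097) (nat_lit 684) (nat_lit 9781209697) (nat_lit 76) (nat_lit 11263712440) (nat_lit 151) (nat_lit 5) (nat_lit 160) (nat_lit 5) (nat_lit 152) (nat_lit 5) (nat_lit 332) (nat_lit 309) (nat_lit 139)))) (XT.nd (nat_lit 78) (nat_lit 532) (nat_lit 0) (XT.lf (nat_lit 0) (nat_lit 2204311898) (nat_lit 532) (nat_lit 4313118868) (nat_lit 608) (nat_lit 19178589531) (nat_lit 144) (nat_lit 5) (nat_lit 151) (nat_lit 5) (nat_lit 152) (nat_lit 5) (nat_lit 333) (nat_lit 309) (nat_lit 138)) (XT.nd (nat_lit 78) (nat_lit 532) (nat_lit 0) (XT.lf (nat_lit 0) (nat_lit 9038937582) (nat_lit 608) (nat_lit 11452163909) (nat_lit 76) (nat_lit 5649738303) (nat_lit 144) (nat_lit 5) (nat_lit 152) (nat_lit 5) (nat_lit 145) (nat_lit 5) (nat_lit 334) (nat_lit 309) (nat_lit 137)) (XT.lf (nat_lit 0) (nat_lit 919620702) (nat_lit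 532) (nat_lit 10763852704) (nat_lit 608) (nat_lit 14914114755) (nat_lit 137) (nat_lit 5) (nat_lit 144) (nat_lit 5) (nat_lit 145) (nat_lit 5) (nat_lit 335) (nat_lit 309) (nat_lit 136))))) (XT.nd (nat_lit 234) (nat_lit 988) (nat_lit 0) (XT.nd (nat_lit 78) (nat_lit 456) (nat_lit 0) (XT.lf (nat_lit 0) (nat_lit 13893170857) (nat_lit 532) (nat_lit 625739869) (nat_lit 608) (nat_lit 12545786924) (nat_lit 137) (nat_lit 5) (nat_lit 144) (nat_lit 5) (nat_lit 145) (nat_lit 5) (nat_lit 336) (nat_lit 309) (nat_lit 135)) (XT.nd (nat_lit 78) (nat_lit 456) (nat_lit 0) (XT.lf (nat_lit 0) (nat_lit 17529812725) (nat_lit 608) (nat_lit 388404282) (nat_lit 76) (nat_lit 9624896838) (nat_lit 137) (nat_lit 5) (nat_lit 145) (nat_lit 5) (nat_lit 138) (nat_lit 5) (nat_lit 337) (nat_lit 309) (nat_lit 134)) (XT.lf (nat_lit 0) (nat_lit 13022096293) (nat_lit 456) (nat_lit 7736471852) (nat_lit 532) (nat_lit 7273493899) (nat_lit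 131) (nat_lit 5) (nat_lit 137) (nat_lit 5) (nat_lit 138) (nat_lit 5) (nat_lit 338) (nat_lit 309) (nat_lit 133)))) (XT.nd (nat_lit 156) (nat_lit 532) (nat_lit 0) (XT.nd (nat_lit 78) (nat_lit 456) (nat_lit 0) (XT.lf (nat_lit 0) (nat_lit 24110814980) (nat_lit 532) (nat_lit 1723272624) (nat_lit 76) (nat_lit 2700797378) (nat_lit 131) (nat_lit 5) (nat_lit 138) (nat_lit 5) (nat_lit 132) (nat_lit 5) (nat_lit 339) (nat_lit 309) (nat_lit 132)) (XT.lf (nat_lit 0) (nat_lit 12117901123) (nat_lit 456) (nat_lit 15635147562) (nat_lit 532) (nat_lit 1294066344) (nat_lit 125) (nat_lit 5) (nat_lit 131) (nat_lit 5) (nat_lit 132) (nat_lit 5) (nat_lit 340) (nat_lit 309) (nat_lit 131))) (XT.nd (nat_lit 78) (nat_lit 456) (nat_lit 0) (XT.lf (nat_lit 0) (nat_lit 1906117794) (nat_lit 532) (nat_lit 3187300854) (nat_lit 76) (nat_lit 24480323369) (nat_lit 124) (nat_lit 5) (nat_lit 131) (nat_lit 5) (nat_lit 125) (nat_lit 5)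 (nat_lit 341) (nat_lit 309) (nat_lit 130)) (XT.lf (nat_lit 0) (nat_lit 5336721443) (nat_lit 532) (nat_lit 19001191553) (nat_lit 76) (nat_lit 5773062317) (nat_lit 118) (nat_lit 5) (nat_lit 125) (nat_lit 5) (nat_lit 119) (nat_lit 5) (nat_lit 342) (nat_lit 309) (nat_lit 129)))))) (XT.nd (nat_lit 546) (nat_lit 1064) (nat_lit 0) (XT.nd (nat_lit 234) (nat_lit 836) (nat_lit 0) (XT.nd (nat_lit 78) (nat_lit 456) (nat_lit 0) (XT.lf (nat_lit 0) (nat_lit 8949709359) (nat_lit 532) (nat_lit 4816963487) (nat_lit 76) (nat_lit 16895273226) (nat_lit 118) (nat_lit 5) (nat_lit 125) (nat_lit 5) (nat_lit 119) (nat_lit 5) (nat_lit 343) (nat_lit 309) (nat_lit 128)) (XT.nd (nat_lit 78) (nat_lit 0) (nat_lit 0) (XT.lf (nat_lit 0) (nat_lit 9983753772) (nat_lit 456) (nat_lit 2779936206) (nat_lit 532) (nat_lit 18462982199) (nat_lit 112) (nat_lit 5) (nat_lit 118) (nat_lit 5) (nat_lit 119) (nat_lit 5) (nat_lit 344) (nat_lit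 309) (nat_lit 127)) (XT.lf (nat_lit 0) (nat_lit 16819960169) (nat_lit 532) (nat_lit 6566101214) (nat_lit 76) (nat_lit 8418446771) (nat_lit 112) (nat_lit 5) (nat_lit 119) (nat_lit 5) (nat_lit 113) (nat_lit 5) (nat_lit 345) (nat_lit 309) (nat_lit 126)))) (XT.nd (nat_lit 156) (nat_lit 456) (nat_lit 0) (XT.nd (nat_lit 78) (nat_lit 0) (nat_lit 0) (XT.lf (nat_lit 0) (nat_lit 8689251811) (nat_lit 380) (nat_lit 12416503138) (nat_lit 456) (nat_lit 11290693233) (nat_lit 107) (nat_lit 5) (nat_lit 112) (nat_lit 5) (nat_lit 113) (nat_lit 5) (nat_lit 346) (nat_lit 309) (nat_lit 125)) (XT.lf (nat_lit 0) (nat_lit 24533098190) (nat_lit 380) (nat_lit 1050173504) (nat_lit 456) (nat_lit 7420984225) (nat_lit 107) (nat_lit 5) (nat_lit 112) (nat_lit 5) (nat_lit 113) (nat_lit 5) (nat_lit 347) (nat_lit 309) (nat_lit 124))) (XT.nd (nat_lit 78) (nat_lit 76) (nat_lit 0) (XT.lf (nat_lit 0) (nat_lit 7257390614) (nat_lit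 380) (nat_lit 23106858440) (nat_lit 456) (nat_lit 3260978616) (nat_lit 102) (nat_lit 5) (nat_lit 107) (nat_lit 5) (nat_lit 108) (nat_lit 5) (nat_lit 348) (nat_lit 309) (nat_lit 123)) (XT.lf (nat_lit 0) (nat_lit 1097585277) (nat_lit 456) (nat_lit 10655676706) (nat_lit 76) (nat_lit 22508462857) (nat_lit 101) (nat_lit 5) (nat_lit 107) (nat_lit 5) (nat_lit 102) (nat_lit 5) (nat_lit 349) (nat_lit 309) (nat_lit 122))))) (XT.nd (nat_lit 234) (nat_lit 304) (nat_lit 0) (XT.nd (nat_lit 78) (nat_lit 380) (nat_lit 0) (XT.lf (nat_lit 0) (nat_lit 5572522807) (nat_lit 456) (nat_lit 29313906597) (nat_lit 76) (nat_lit 28387648) (nat_lit 96) (nat_lit 5) (nat_lit 102) (nat_lit 5) (nat_lit 97) (nat_lit 5) (nat_lit 350) (nat_lit 309) (nat_lit 121)) (XT.nd (nat_lit 78) (nat_lit 380) (nat_lit 0) (XT.lf (nat_lit 0) (nat_lit 10403827386) (nat_lit 456) (nat_lit 13141793952) (nat_lit 76) (nat_lit 12035220532) (nat_lit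 96) (nat_lit 5) (nat_lit 102) (nat_lit 5) (nat_lit 97) (nat_lit 5) (nat_lit 351) (nat_lit 309) (nat_lit 120)) (XT.lf (nat_lit 0) (nat_lit 3581771615) (nat_lit 380) (nat_lit 11829897814) (nat_lit 456) (nat_lit 20854233363) (nat_lit 91) (nat_lit 5) (nat_lit 96) (nat_lit 5) (nat_lit 97) (nat_lit 5) (nat_lit 352) (nat_lit 309) (nat_lit 119)))) (XT.nd (nat_lit 156) (nat_lit 0) (nat_lit 0) (XT.nd (nat_lit 78) (nat_lit 304) (nat_lit 0) (XT.lf (nat_lit 0) (nat_lit 20703256840) (nat_lit 456) (nat_lit 15898338851) (nat_lit 76) (nat_lit 365917759) (nat_lit 91) (nat_lit 5) (nat_lit 97) (nat_lit 5) (nat_lit 92) (nat_lit 5) (nat_lit 353) (nat_lit 309) (nat_lit 118)) (XT.lf (nat_lit 0) (nat_lit 1295640833) (nat_lit 304) (nat_lit 24984823313) (nat_lit 380) (nat_lit 11405905232) (nat_lit 87) (nat_lit 5) (nat_lit 91) (nat_lit 5) (nat_lit 92) (nat_lit 5) (nat_lit 354) (nat_lit 309) (nat_lit 117))) (XT.nd (nat_lit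 78) (nat_lit 0) (nat_lit 0) (XT.lf (nat_lit 0) (nat_lit 19327833658) (nat_lit 304) (nat_lit 12855031365) (nat_lit 380) (nat_lit 6239192668) (nat_lit 87) (nat_lit 5) (nat_lit 91) (nat_lit 5) (nat_lit 92) (nat_lit 5) (nat_lit 355) (nat_lit 309) (nat_lit 116)) (XT.lf (nat_lit 0) (nat_lit 37897587791) (nat_lit 304) (nat_lit 362163051) (nat_lit 380) (nat_lit 920146364) (nat_lit 87) (nat_lit 5) (nat_lit 91) (nat_lit 5) (nat_lit 92) (nat_lit 5) (nat_lit 356) (nat_lit 309) (nat_lit 115))))))))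
noncomputable def xc215 : XT := (XT.nd (nat_lit 2028) (nat_lit 684) (nat_lit 0) (XT.nd (nat_lit 1014) (nat_lit 1368) (nat_lit 0) (XT.nd (nat_lit 468) (nat_lit 836) (nat_lit 0) (XT.nd (nat_lit 234) (nat_lit 304) (nat_lit 0) (XT.nd (nat_lit 78) (nat_lit 304) (nat_lit 0) (XT.lf (nat_lit 0) (nat_lit 4756099164) (nat_lit 456) (nat_lit 22721066970) (nat_lit 76) (nat_lit 12473396578) (nat_lit 81) (nat_lit 5) (nat_lit 87) (nat_lit 5) (nat_lit 82) (nat_lit 5) (nat_lit 357) (nat_lit 309) (nat_lit 114)) (XT.nd (nat_lit 78) (nat_lit 304) (nat_lit 0) (XT.lf (nat_lit 0) (nat_lit 10598295449) (nat_lit 456) (nat_lit 4437238265) (nat_lit 76) (nat_lit 25708119125) (nat_lit 81) (nat_lit 5) (nat_lit 87) (nat_lit 5) (nat_lit 82) (nat_lit 5) (nat_lit 358) (nat_lit 309) (nat_lit 113)) (XT.lf (nat_lit 0) (nat_lit 14678234060) (nat_lit 304) (nat_lit 2076187332) (nat_lit 380) (nat_lit 24801956978) (nat_lit 77) (nat_lit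 5) (nat_lit 81) (nat_lit 5) (nat_lit 82) (nat_lit 5) (nat_lit 359) (nat_lit 309) (nat_lit 112)))) (XT.nd (nat_lit 78) (nat_lit 304) (nat_lit 0) (XT.lf (nat_lit 0) (nat_lit 23246433635) (nat_lit 380) (nat_lit 8046138356) (nat_lit 76) (nat_lit 11096380135) (nat_lit 77) (nat_lit 5) (nat_lit 82) (nat_lit 5) (nat_lit 78) (nat_lit 5) (nat_lit 360) (nat_lit 309) (nat_lit 111)) (XT.nd (nat_lit 78) (nat_lit 0) (nat_lit 0) (XT.lf (nat_lit 0) (nat_lit 11552468646) (nat_lit 304) (nat_lit 18510011944) (nat_lit 380) (nat_lit 13180146735) (nat_lit 73) (nat_lit 5) (nat_lit 77) (nat_lit 5) (nat_lit 78) (nat_lit 5) (nat_lit 361) (nat_lit 309) (nat_lit 110)) (XT.lf (nat_lit 0) (nat_lit 31900770411) (nat_lit 304) (nat_lit 5261194535) (nat_lit 380) (nat_lit 6957581547) (nat_lit 73) (nat_lit 5) (nat_lit 77) (nat_lit 5) (nat_lit 78) (nat_lit 5) (nat_lit 362) (nat_lit 309) (nat_lit 109))))) (XT.nd (nat_lit 234) (nat_lit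 228) (nat_lit 0) (XT.nd (nat_lit 78) (nat_lit 380) (nat_lit 0) (XT.lf (nat_lit 0) (nat_lit 7907276011) (nat_lit 228) (nat_lit 36721534110) (nat_lit 304) (nat_lit 389334144) (nat_lit 70) (nat_lit 5) (nat_lit 73) (nat_lit 5) (nat_lit 74) (nat_lit 5) (nat_lit 363) (nat_lit 309) (nat_lit 108)) (XT.nd (nat_lit 78) (nat_lit 304) (nat_lit 0) (XT.lf (nat_lit 0) (nat_lit 6426016164) (nat_lit 304) (nat_lit 17170202342) (nat_lit 76) (nat_lit 22340410761) (nat_lit 69) (nat_lit 5) (nat_lit 73) (nat_lit 5) (nat_lit 70) (nat_lit 5) (nat_lit 364) (nat_lit 309) (nat_lit 107)) (XT.lf (nat_lit 0) (nat_lit 3428642432) (nat_lit 304) (nat_lit 10040157416) (nat_lit 380) (nat_lit 33412831507) (nat_lit 65) (nat_lit 5) (nat_lit 69) (nat_lit 5) (nat_lit 70) (nat_lit 5) (nat_lit 365) (nat_lit 309) (nat_lit 106)))) (XT.nd (nat_lit 156) (nat_lit 228) (nat_lit 0) (XT.nd (nat_lit 78) (nat_lit 0) (nat_lit 0) (XT.lf (nat_lit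 0) (nat_lit 20933539795) (nat_lit 380) (nat_lit 22894898112) (nat_lit 76) (nat_lit 4020227479) (nat_lit 65) (nat_lit 5) (nat_lit 70) (nat_lit 5) (nat_lit 66) (nat_lit 5) (nat_lit 366) (nat_lit 309) (nat_lit 105)) (XT.lf (nat_lit 0) (nat_lit 28719556038) (nat_lit 380) (nat_lit 1822499309) (nat_lit 76) (nat_lit 18299737068) (nat_lit 65) (nat_lit 5) (nat_lit 70) (nat_lit 5) (nat_lit 66) (nat_lit 5) (nat_lit 367) (nat_lit 309) (nat_lit 104))) (XT.nd (nat_lit 78) (nat_lit 0) (nat_lit 0) (XT.lf (nat_lit 0) (nat_lit 20274766106) (nat_lit 228) (nat_lit 16657267105) (nat_lit 304) (nat_lit 12926895576) (nat_lit 62) (nat_lit 5) (nat_lit 65) (nat_lit 5) (nat_lit 66) (nat_lit 5) (nat_lit 368) (nat_lit 309) (nat_lit 103)) (XT.lf (nat_lit 0) (nat_lit 43069398684) (nat_lit 228) (nat_lit 2337907329) (nat_lit 304) (nat_lit 5498782483) (nat_lit 62) (nat_lit 5) (nat_lit 65) (nat_lit 5) (nat_lit 66) (nat_lit 5)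 (nat_lit 369) (nat_lit 309) (nat_lit 102)))))) (XT.nd (nat_lit 468) (nat_lit 608) (nat_lit 0) (XT.nd (nat_lit 234) (nat_lit 228) (nat_lit 0) (XT.nd (nat_lit 78) (nat_lit 228) (nat_lit 0) (XT.lf (nat_lit 0) (nat_lit 2371687257) (nat_lit 304) (nat_lit 37271715045) (nat_lit 76) (nat_lit 12332796535) (nat_lit 58) (nat_lit 5) (nat_lit 62) (nat_lit 5) (nat_lit 59) (nat_lit 5) (nat_lit 370) (nat_lit 309) (nat_lit 101)) (XT.nd (nat_lit 78) (nat_lit 228) (nat_lit 0) (XT.lf (nat_lit 0) (nat_lit 10468892378) (nat_lit 304) (nat_lit 15074764105) (nat_lit 76) (nat_lit 27530090189) (nat_lit 58) (nat_lit 5) (nat_lit 62) (nat_lit 5) (nat_lit 59) (nat_lit 5) (nat_lit 371) (nat_lit 309) (nat_lit 100)) (XT.lf (nat_lit 0) (nat_lit 7940233814) (nat_lit 228) (nat_lit 10943237344) (nat_lit 304) (nat_lit 35318517736) (nat_lit 55) (nat_lit 5) (nat_lit 58) (nat_lit 5) (nat_lit 59) (nat_lit 5) (nat_lit 372) (nat_lit 309)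 (nat_lit 99)))) (XT.nd (nat_lit 78) (nat_lit 228) (nat_lit 0) (XT.lf (nat_lit 0) (nat_lit 27741735430) (nat_lit 304) (nat_lit 23448509243) (nat_lit 76) (nat_lit 4168097892) (nat_lit 55) (nat_lit 5) (nat_lit 59) (nat_lit 5) (nat_lit 56) (nat_lit 5) (nat_lit 373) (nat_lit 309) (nat_lit 98)) (XT.nd (nat_lit 78) (nat_lit 228) (nat_lit 0) (XT.lf (nat_lit 0) (nat_lit 36972300275) (nat_lit 304) (nat_lit 61957135) (nat_lit 76) (nat_lit 19511934438) (nat_lit 55) (nat_lit 5) (nat_lit 59) (nat_lit 5) (nat_lit 56) (nat_lit 5) (nat_lit 374) (nat_lit 309) (nat_lit 97)) (XT.lf (nat_lit 0) (nat_lit 24501644521) (nat_lit 228) (nat_lit 22211918416) (nat_lit 304) (nat_lit 11049101780) (nat_lit 52) (nat_lit 5) (nat_lit 55) (nat_lit 5) (nat_lit 56) (nat_lit 5) (nat_lit 375) (nat_lit 309) (nat_lit 96))))) (XT.nd (nat_lit 234) (nat_lit 380) (nat_lit 0) (XT.nd (nat_lit 78) (nat_lit 228) (nat_lit 0) (XT.lf (nat_lit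 0) (nat_lit 49800788040) (nat_lit 228) (nat_lit 6945182615) (nat_lit 304) (nat_lit 2269695392) (nat_lit 52) (nat_lit 5) (nat_lit 55) (nat_lit 5) (nat_lit 56) (nat_lit 5) (nat_lit 376) (nat_lit 309) (nat_lit 95)) (XT.nd (nat_lit 78) (nat_lit 0) (nat_lit 0) (XT.lf (nat_lit 0) (nat_lit 6877586047) (nat_lit 228) (nat_lit 44593207546) (nat_lit 76) (nat_lit 8826412204) (nat_lit 49) (nat_lit 5) (nat_lit 52) (nat_lit 5) (nat_lit 50) (nat_lit 5) (nat_lit 377) (nat_lit 309) (nat_lit 94)) (XT.lf (nat_lit 0) (nat_lit 16414734340) (nat_lit 228) (nat_lit 20149832632) (nat_lit 76) (nat_lit 25047119953) (nat_lit 49) (nat_lit 5) (nat_lit 52) (nat_lit 5) (nat_lit 50) (nat_lit 5) (nat_lit 378) (nat_lit 309) (nat_lit 93)))) (XT.nd (nat_lit 156) (nat_lit 152) (nat_lit 0) (XT.nd (nat_lit 78) (nat_lit 0) (nat_lit 0) (XT.lf (nat_lit 0) (nat_lit 5124301677) (nat_lit 228) (nat_lit 21161331336) (nat_lit 304) (nat_lit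 36678541720) (nat_lit 46) (nat_lit 5) (nat_lit 49) (nat_lit 5) (nat_lit 50) (nat_lit 5) (nat_lit 379) (nat_lit 309) (nat_lit 92)) (XT.lf (nat_lit 0) (nat_lit 31567201256) (nat_lit 228) (nat_lit 5087332308) (nat_lit 304) (nat_lit 27696648648) (nat_lit 46) (nat_lit 5) (nat_lit 49) (nat_lit 5) (nat_lit 50) (nat_lit 5) (nat_lit 380) (nat_lit 309) (nat_lit 91))) (XT.nd (nat_lit 78) (nat_lit 152) (nat_lit 0) (XT.lf (nat_lit 0) (nat_lit 47443186266) (nat_lit 304) (nat_lit 7089134810) (nat_lit 76) (nat_lit 11244219533) (nat_lit 46) (nat_lit 5) (nat_lit 50) (nat_lit 5) (nat_lit 47) (nat_lit 5) (nat_lit 381) (nat_lit 309) (nat_lit 90)) (XT.lf (nat_lit 0) (nat_lit 19708363633) (nat_lit 152) (nat_lit 39085438028) (nat_lit 228) (nat_lit 8443710214) (nat_lit 44) (nat_lit 5) (nat_lit 46) (nat_lit 5) (nat_lit 47) (nat_lit 5) (nat_lit 382) (nat_lit 309) (nat_lit 89))))))) (XT.nd (nat_lit 35256) (nat_lit 0) (nat_lit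 10716) (XT.nd (nat_lit 468) (nat_lit 228) (nat_lit 0) (XT.nd (nat_lit 234) (nat_lit 152) (nat_lit 0) (XT.nd (nat_lit 78) (nat_lit 228) (nat_lit 0) (XT.lf (nat_lit 0) (nat_lit 1779403462) (nat_lit 228) (nat_lit 21304929524) (nat_lit 76) (nat_lit 45655354347) (nat_lit 43) (nat_lit 5) (nat_lit 46) (nat_lit 5) (nat_lit 44) (nat_lit 5) (nat_lit 383) (nat_lit 309) (nat_lit 88)) (XT.nd (nat_lit 78) (nat_lit 0) (nat_lit 0) (XT.lf (nat_lit 0) (nat_lit 5731923147) (nat_lit 228) (nat_lit 6461209862) (nat_lit 304) (nat_lit 58089679142) (nat_lit 40) (nat_lit 5) (nat_lit 43) (nat_lit 5) (nat_lit 44) (nat_lit 5) (nat_lit 384) (nat_lit 309) (nat_lit 87)) (XT.lf (nat_lit 0) (nat_lit 23237564750) (nat_lit 304) (nat_lit 37956126433) (nat_lit 76) (nat_lit 10668991896) (nat_lit 40) (nat_lit 5) (nat_lit 44) (nat_lit 5) (nat_lit 41) (nat_lit 5) (nat_lit 385) (nat_lit 309) (nat_lit 86)))) (XT.nd (nat_lit 78) (nat_lit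 152) (nat_lit 0) (XT.lf (nat_lit 0) (nat_lit 34675890108) (nat_lit 304) (nat_lit 10629779838) (nat_lit 76) (nat_lit 28182404415) (nat_lit 40) (nat_lit 5) (nat_lit 44) (nat_lit 5) (nat_lit 41) (nat_lit 5) (nat_lit 386) (nat_lit 309) (nat_lit 85)) (XT.nd (nat_lit 78) (nat_lit 0) (nat_lit 0) (XT.lf (nat_lit 0) (nat_lit 17862702945) (nat_lit 152) (nat_lit 28764998917) (nat_lit 228) (nat_lit 28529416434) (nat_lit 38) (nat_lit 5) (nat_lit 40) (nat_lit 5) (nat_lit 41) (nat_lit 5) (nat_lit 387) (nat_lit 309) (nat_lit 84)) (XT.lf (nat_lit 0) (nat_lit 47425662159) (nat_lit 152) (nat_lit 11618393940) (nat_lit 228) (nat_lit 17828998790) (nat_lit 38) (nat_lit 5) (nat_lit 40) (nat_lit 5) (nat_lit 41) (nat_lit 5) (nat_lit 388) (nat_lit 309) (nat_lit 83))))) (XT.nd (nat_lit 34476) (nat_lit 0) (nat_lit 10640) (XT.nd (nat_lit 78) (nat_lit 228) (nat_lit 0) (XT.lf (nat_lit 0) (nat_lit 71889665894) (nat_lit 228)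 (nat_lit 825211214) (nat_lit 76) (nat_lit 5923890482) (nat_lit 38) (nat_lit 5) (nat_lit 41) (nat_lit 5) (nat_lit 39) (nat_lit 5) (nat_lit 389) (nat_lit 309) (nat_lit 82)) (XT.nd (nat_lit 78) (nat_lit 0) (nat_lit 0) (XT.lf (nat_lit 0) (nat_lit 4969633101) (nat_lit 228) (nat_lit 51387897461) (nat_lit 76) (nat_lit 24086654152) (nat_lit 35) (nat_lit 5) (nat_lit 38) (nat_lit 5) (nat_lit 36) (nat_lit 5) (nat_lit 390) (nat_lit 309) (nat_lit 81)) (XT.lf (nat_lit 0) (nat_lit 16911417242) (nat_lit 228) (nat_lit 22521382069) (nat_lit 76) (nat_lit 42868747106) (nat_lit 35) (nat_lit 5) (nat_lit 38) (nat_lit 5) (nat_lit 36) (nat_lit 5) (nat_lit 391) (nat_lit 309) (nat_lit 80)))) (XT.nd (nat_lit 156) (nat_lit 0) (nat_lit 0) (XT.nd (nat_lit 78) (nat_lit 0) (nat_lit 0) (XT.lf (nat_lit 0) (nat_lit 167139071) (nat_lit 0) (nat_lit 167139071) (nat_lit 1140) (nat_lit 8714945538) (nat_lit 175) (nat_lit 5) (nat_lit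 175) (nat_lit 3) (nat_lit 190) (nat_lit 3) (nat_lit 310) (nat_lit 310) (nat_lit 160)) (XT.lf (nat_lit 0) (nat_lit 944054571) (nat_lit 1140) (nat_lit 9863565704) (nat_lit 1216) (nat_lit 7554046320) (nat_lit 175) (nat_lit 5) (nat_lit 190) (nat_lit 3) (nat_lit 191) (nat_lit 5) (nat_lit 311) (nat_lit 310) (nat_lit 159))) (XT.nd (nat_lit 78) (nat_lit 0) (nat_lit 76) (XT.lf (nat_lit 0) (nat_lit 1223693173) (nat_lit 1140) (nat_lit 1733260340) (nat_lit 1216) (nat_lit 15675964083) (nat_lit 175) (nat_lit 5) (nat_lit 190) (nat_lit 3) (nat_lit 191) (nat_lit 5) (nat_lit 312) (nat_lit 310) (nat_lit 158)) (XT.lf (nat_lit 0) (nat_lit 1619553973) (nat_lit 1140) (nat_lit 12191408367) (nat_lit 1216) (nat_lit 5098119913) (nat_lit 176) (nat_lit 5) (nat_lit 191) (nat_lit 5) (nat_lit 192) (nat_lit 5) (nat_lit 313) (nat_lit 310) (nat_lit 157)))))) (XT.nd (nat_lit 546) (nat_lit 0) (nat_lit 228) (XT.nd (nat_lit 234)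 (nat_lit 0) (nat_lit 76) (XT.nd (nat_lit 78) (nat_lit 0) (nat_lit 76) (XT.lf (nat_lit 0) (nat_lit 2067229295) (nat_lit 1140) (nat_lit 3768895117) (nat_lit 1216) (nat_lit 13356220068) (nat_lit 176) (nat_lit 5) (nat_lit 191) (nat_lit 5) (nat_lit 192) (nat_lit 5) (nat_lit 314) (nat_lit 310) (nat_lit 156)) (XT.nd (nat_lit 78) (nat_lit 0) (nat_lit 0) (XT.lf (nat_lit 0) (nat_lit 2592948526) (nat_lit 1140) (nat_lit 14506364819) (nat_lit 1216) (nat_lit 2382863298) (nat_lit 177) (nat_lit 5) (nat_lit 192) (nat_lit 5) (nat_lit 193) (nat_lit 5) (nat_lit 315) (nat_lit 310) (nat_lit 155)) (XT.lf (nat_lit 0) (nat_lit 3224034800) (nat_lit 1140) (nat_lit 5781785191) (nat_lit 1216) (nat_lit 10772206089) (nat_lit 177) (nat_lit 5) (nat_lit 192) (nat_lit 5) (nat_lit 193) (nat_lit 5) (nat_lit 316) (nat_lit 310) (nat_lit 154)))) (XT.nd (nat_lit 156) (nat_lit 0) (nat_lit 76) (XT.nd (nat_lit 78) (nat_lit 0) (nat_lit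 76) (XT.lf (nat_lit 76) (nat_lit 3264167712) (nat_lit 0) (nat_lit 634832824) (nat_lit 1216) (nat_lit 16183011934) (nat_lit 178) (nat_lit 5) (nat_lit 177) (nat_lit 5) (nat_lit 193) (nat_lit 5) (nat_lit 317) (nat_lit 310) (nat_lit 153)) (XT.lf (nat_lit 0) (nat_lit 4723696750) (nat_lit 1140) (nat_lit 7774943267) (nat_lit 1216) (nat_lit 7892603579) (nat_lit 178) (nat_lit 5) (nat_lit 193) (nat_lit 5) (nat_lit 194) (nat_lit 5) (nat_lit 318) (nat_lit 310) (nat_lit 152))) (XT.nd (nat_lit 78) (nat_lit 0) (nat_lit 76) (XT.lf (nat_lit 76) (nat_lit 1559270506) (nat_lit 0) (nat_lit 4029059892) (nat_lit 1216) (nat_lit 15120974670) (nat_lit 179) (nat_lit 5) (nat_lit 178) (nat_lit 5) (nat_lit 194) (nat_lit 5) (nat_lit 319) (nat_lit 310) (nat_lit 151)) (XT.lf (nat_lit 0) (nat_lit 6597397690) (nat_lit 1140) (nat_lit 9751849474) (nat_lit 1216) (nat_lit 4684115421) (nat_lit 179) (nat_lit 5) (nat_lit 194) (nat_lit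 5) (nat_lit 195) (nat_lit 5) (nat_lit 320) (nat_lit 310) (nat_lit 150))))) (XT.nd (nat_lit 234) (nat_lit 0) (nat_lit 76) (XT.nd (nat_lit 78) (nat_lit 0) (nat_lit 76) (XT.lf (nat_lit 0) (nat_lit 7670879329) (nat_lit 1140) (nat_lit 115766887) (nat_lit 1216) (nat_lit 13579480115) (nat_lit 179) (nat_lit 5) (nat_lit 194) (nat_lit 5) (nat_lit 195) (nat_lit 5) (nat_lit 321) (nat_lit 310) (nat_lit 149)) (XT.nd (nat_lit 78) (nat_lit 0) (nat_lit 0) (XT.lf (nat_lit 0) (nat_lit 8878009409) (nat_lit 1140) (nat_lit 11716551107) (nat_lit 1216) (nat_lit 1111277675) (nat_lit 180) (nat_lit 5) (nat_lit 195) (nat_lit 5) (nat_lit 196) (nat_lit 5) (nat_lit 322) (nat_lit 310) (nat_lit 148)) (XT.lf (nat_lit 0) (nat_lit 10194185819) (nat_lit 1140) (nat_lit 1737129441) (nat_lit 1216) (nat_lit 10122249444) (nat_lit 180) (nat_lit 5) (nat_lit 195) (nat_lit 5) (nat_lit 196) (nat_lit 5) (nat_lit 323) (nat_lit 310) (nat_lit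 147)))) (XT.nd (nat_lit 156) (nat_lit 0) (nat_lit 76) (XT.nd (nat_lit 78) (nat_lit 0) (nat_lit 76) (XT.lf (nat_lit 76) (nat_lit 8707530142) (nat_lit 0) (nat_lit 2920734366) (nat_lit 1216) (nat_lit 10781114026) (nat_lit 181) (nat_lit 5) (nat_lit 180) (nat_lit 5) (nat_lit 196) (nat_lit 5) (nat_lit 324) (nat_lit 310) (nat_lit 146)) (XT.lf (nat_lit 0) (nat_lit 13179059850) (nat_lit 1140) (nat_lit 3339707180) (nat_lit 1216) (nat_lit 6254896718) (nat_lit 181) (nat_lit 5) (nat_lit 196) (nat_lit 5) (nat_lit 197) (nat_lit 5) (nat_lit 325) (nat_lit 310) (nat_lit 145))) (XT.nd (nat_lit 78) (nat_lit 0) (nat_lit 76) (XT.lf (nat_lit 76) (nat_lit 7445598566) (nat_lit 0) (nat_lit 7426261772) (nat_lit 1216) (nat_lit 8274160309) (nat_lit 182) (nat_lit 5) (nat_lit 181) (nat_lit 5) (nat_lit 197) (nat_lit 5) (nat_lit 326) (nat_lit 310) (nat_lit 144)) (XT.lf (nat_lit 0) (nat_lit 16663249232) (nat_lit 1140) (nat_lit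 4928780064) (nat_lit 76) (nat_lit 1936092177) (nat_lit 182) (nat_lit 5) (nat_lit 197) (nat_lit 5) (nat_lit 183) (nat_lit 5) (nat_lit 327) (nat_lit 310) (nat_lit 143))))))))
noncomputable def xc216 : XT := (XT.nd (nat_lit 2028) (nat_lit 3192) (nat_lit 0) (XT.nd (nat_lit 1014) (nat_lit 3040) (nat_lit 0) (XT.nd (nat_lit 468) (nat_lit 1520) (nat_lit 0) (XT.nd (nat_lit 234) (nat_lit 684) (nat_lit 0) (XT.nd (nat_lit 78) (nat_lit 532) (nat_lit 0) (XT.lf (nat_lit 0) (nat_lit 6209582557) (nat_lit 1140) (nat_lit 12427264356) (nat_lit 1216) (nat_lit 5280991530) (nat_lit 167) (nat_lit 5) (nat_lit 182) (nat_lit 5) (nat_lit 183) (nat_lit 5) (nat_lit 328) (nat_lit 310) (nat_lit 142)) (XT.nd (nat_lit 78) (nat_lit 532) (nat_lit 0) (XT.lf (nat_lit 0) (nat_lit 17779098511) (nat_lit 1140) (nat_lit 2935674100) (nat_lit 1216) (nat_lit 3603127636) (nat_lit 167) (nat_lit 5) (nat_lit 182) (nat_lit 5) (nat_lit 183) (nat_lit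 5) (nat_lit 329) (nat_lit 310) (nat_lit 141)) (XT.lf (nat_lit 0) (nat_lit 4993354514) (nat_lit 532) (nat_lit 17970927695) (nat_lit 608) (nat_lit 1762411039) (nat_lit 160) (nat_lit 5) (nat_lit 167) (nat_lit 5) (nat_lit 168) (nat_lit 5) (nat_lit 330) (nat_lit 310) (nat_lit 140)))) (XT.nd (nat_lit 78) (nat_lit 608) (nat_lit 0) (XT.lf (nat_lit 0) (nat_lit 222203217) (nat_lit 608) (nat_lit 8175376681) (nat_lit 76) (nat_lit 16747399520) (nat_lit 159) (nat_lit 5) (nat_lit 167) (nat_lit 5) (nat_lit 160) (nat_lit 5) (nat_lit 331) (nat_lit 310) (nat_lit 139)) (XT.nd (nat_lit 78) (nat_lit 0) (nat_lit 0) (XT.lf (nat_lit 0) (nat_lit 2277546753) (nat_lit 684) (nat_lit 21807265324) (nat_lit 76) (nat_lit 1489086357) (nat_lit 151) (nat_lit 5) (nat_lit 160) (nat_lit 5) (nat_lit 152) (nat_lit 5) (nat_lit 332) (nat_lit 310) (nat_lit 138)) (XT.lf (nat_lit 0) (nat_lit 4556821602) (nat_lit 684) (nat_lit 9866775367)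 (nat_lit 76) (nat_lit 11587225896) (nat_lit 151) (nat_lit 5) (nat_lit 160) (nat_lit 5) (nat_lit 152) (nat_lit 5) (nat_lit 333) (nat_lit 310) (nat_lit 137))))) (XT.nd (nat_lit 234) (nat_lit 456) (nat_lit 0) (XT.nd (nat_lit 78) (nat_lit 532) (nat_lit 0) (XT.lf (nat_lit 0) (nat_lit 2476273928) (nat_lit 532) (nat_lit 4447881896) (nat_lit 608) (nat_lit 19536114573) (nat_lit 144) (nat_lit 5) (nat_lit 151) (nat_lit 5) (nat_lit 152) (nat_lit 5) (nat_lit 334) (nat_lit 310) (nat_lit 136)) (XT.nd (nat_lit 78) (nat_lit 532) (nat_lit 0) (XT.lf (nat_lit 0) (nat_lit 9515106214) (nat_lit 608) (nat_lit 11589403781) (nat_lit 76) (nat_lit 5814119108) (nat_lit 144) (nat_lit 5) (nat_lit 152) (nat_lit 5) (nat_lit 145) (nat_lit 5) (nat_lit 335) (nat_lit 310) (nat_lit 135)) (XT.lf (nat_lit 0) (nat_lit 1151511574) (nat_lit 532) (nat_lit 11083459529) (nat_lit 608) (nat_lit 15154237355) (nat_lit 137) (nat_lit 5) (nat_lit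 144) (nat_lit 5) (nat_lit 145) (nat_lit 5) (nat_lit 336) (nat_lit 310) (nat_lit 134)))) (XT.nd (nat_lit 156) (nat_lit 456) (nat_lit 0) (XT.nd (nat_lit 78) (nat_lit 0) (nat_lit 0) (XT.lf (nat_lit 0) (nat_lit 14508317683) (nat_lit 532) (nat_lit 641299681) (nat_lit 608) (nat_lit 12720897578) (nat_lit 137) (nat_lit 5) (nat_lit 144) (nat_lit 5) (nat_lit 145) (nat_lit 5) (nat_lit 337) (nat_lit 310) (nat_lit 133)) (XT.lf (nat_lit 0) (nat_lit 18245192733) (nat_lit 608) (nat_lit 201566644) (nat_lit 76) (nat_lit 9916701704) (nat_lit 137) (nat_lit 5) (nat_lit 145) (nat_lit 5) (nat_lit 138) (nat_lit 5) (nat_lit 338) (nat_lit 310) (nat_lit 132))) (XT.nd (nat_lit 78) (nat_lit 0) (nat_lit 0) (XT.lf (nat_lit 0) (nat_lit 13609302970) (nat_lit 456) (nat_lit 7957878146) (nat_lit 532) (nat_lit 7300013121) (nat_lit 131) (nat_lit 5) (nat_lit 137) (nat_lit 5) (nat_lit 138) (nat_lit 5) (nat_lit 339) (nat_lit 310) (nat_lit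 131)) (XT.lf (nat_lit 0) (nat_lit 25014681822) (nat_lit 532) (nat_lit 1578591465) (nat_lit 76) (nat_lit 2791995380) (nat_lit 131) (nat_lit 5) (nat_lit 138) (nat_lit 5) (nat_lit 132) (nat_lit 5) (nat_lit 340) (nat_lit 310) (nat_lit 130)))))) (XT.nd (nat_lit 468) (nat_lit 1596) (nat_lit 0) (XT.nd (nat_lit 234) (nat_lit 456) (nat_lit 0) (XT.nd (nat_lit 78) (nat_lit 532) (nat_lit 0) (XT.lf (nat_lit 0) (nat_lit 12675892207) (nat_lit 456) (nat_lit 16086901026) (nat_lit 532) (nat_lit 1150181243) (nat_lit 125) (nat_lit 5) (nat_lit 131) (nat_lit 5) (nat_lit 132) (nat_lit 5) (nat_lit 341) (nat_lit 310) (nat_lit 129)) (XT.nd (nat_lit 78) (nat_lit 456) (nat_lit 0) (XT.lf (nat_lit 0) (nat_lit 2137225423) (nat_lit 532) (nat_lit 3090442441) (nat_lit 76) (nat_lit 25227843023) (nat_lit 124) (nat_lit 5) (nat_lit 131) (nat_lit 5) (nat_lit 125) (nat_lit 5) (nat_lit 342) (nat_lit 310) (nat_lit 128)) (XT.lf (nat_lit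 0) (nat_lit 5667704794) (nat_lit 532) (nat_lit 19375488378) (nat_lit 76) (nat_lit 5965765855) (nat_lit 118) (nat_lit 5) (nat_lit 125) (nat_lit 5) (nat_lit 119) (nat_lit 5) (nat_lit 343) (nat_lit 310) (nat_lit 127)))) (XT.nd (nat_lit 78) (nat_lit 456) (nat_lit 0) (XT.lf (nat_lit 0) (nat_lit 9384105210) (nat_lit 532) (nat_lit 4771434604) (nat_lit 76) (nat_lit 17421074790) (nat_lit 118) (nat_lit 5) (nat_lit 125) (nat_lit 5) (nat_lit 119) (nat_lit 5) (nat_lit 344) (nat_lit 310) (nat_lit 126)) (XT.nd (nat_lit 78) (nat_lit 0) (nat_lit 0) (XT.lf (nat_lit 0) (nat_lit 10471441057) (nat_lit 456) (nat_lit 2838040868) (nat_lit 532) (nat_lit 18848897462) (nat_lit 112) (nat_lit 5) (nat_lit 118) (nat_lit 5) (nat_lit 119) (nat_lit 5) (nat_lit 345) (nat_lit 310) (nat_lit 125)) (XT.lf (nat_lit 0) (nat_lit 17482932162) (nat_lit 532) (nat_lit 6575681831) (nat_lit 76) (nat_lit 8695077706) (nat_lit 112) (nat_lit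 5) (nat_lit 119) (nat_lit 5) (nat_lit 113) (nat_lit 5) (nat_lit 346) (nat_lit 310) (nat_lit 124))))) (XT.nd (nat_lit 234) (nat_lit 836) (nat_lit 0) (XT.nd (nat_lit 78) (nat_lit 380) (nat_lit 0) (XT.lf (nat_lit 0) (nat_lit 9135494506) (nat_lit 380) (nat_lit 12758977234) (nat_lit 456) (nat_lit 11469008900) (nat_lit 107) (nat_lit 5) (nat_lit 112) (nat_lit 5) (nat_lit 113) (nat_lit 5) (nat_lit 347) (nat_lit 310) (nat_lit 123)) (XT.nd (nat_lit 78) (nat_lit 380) (nat_lit 0) (XT.lf (nat_lit 0) (nat_lit 25449251466) (nat_lit 380) (nat_lit 1052532109) (nat_lit 456) (nat_lit 7487880616) (nat_lit 107) (nat_lit 5) (nat_lit 112) (nat_lit 5) (nat_lit 113) (nat_lit 5) (nat_lit 348) (nat_lit 310) (nat_lit 122)) (XT.lf (nat_lit 0) (nat_lit 7657902094) (nat_lit 380) (nat_lit 23765918807) (nat_lit 456) (nat_lit 3205520780) (nat_lit 102) (nat_lit 5) (nat_lit 107) (nat_lit 5) (nat_lit 108) (nat_lit 5) (nat_lit 349)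 (nat_lit 310) (nat_lit 121)))) (XT.nd (nat_lit 156) (nat_lit 380) (nat_lit 0) (XT.nd (nat_lit 78) (nat_lit 380) (nat_lit 0) (XT.lf (nat_lit 0) (nat_lit 1276431290) (nat_lit 456) (nat_lit 10794804201) (nat_lit 76) (nat_lit 23213790585) (nat_lit 101) (nat_lit 5) (nat_lit 107) (nat_lit 5) (nat_lit 102) (nat_lit 5) (nat_lit 350) (nat_lit 310) (nat_lit 120)) (XT.lf (nat_lit 0) (nat_lit 5883425518) (nat_lit 456) (nat_lit 30010421643) (nat_lit 76) (nat_lit 63934674) (nat_lit 96) (nat_lit 5) (nat_lit 102) (nat_lit 5) (nat_lit 97) (nat_lit 5) (nat_lit 351) (nat_lit 310) (nat_lit 119))) (XT.nd (nat_lit 78) (nat_lit 380) (nat_lit 0) (XT.lf (nat_lit 0) (nat_lit 10855483011) (nat_lit 456) (nat_lit 13358472866) (nat_lit 76) (nat_lit 12429961998) (nat_lit 96) (nat_lit 5) (nat_lit 102) (nat_lit 5) (nat_lit 97) (nat_lit 5) (nat_lit 352) (nat_lit 310) (nat_lit 118)) (XT.lf (nat_lit 0) (nat_lit 3865058738) (nat_lit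 380) (nat_lit 12146127506) (nat_lit 456) (nat_lit 21338420351) (nat_lit 91) (nat_lit 5) (nat_lit 96) (nat_lit 5) (nat_lit 97) (nat_lit 5) (nat_lit 353) (nat_lit 310) (nat_lit 117))))))) (XT.nd (nat_lit 1014) (nat_lit 1216) (nat_lit 0) (XT.nd (nat_lit 468) (nat_lit 1216) (nat_lit 0) (XT.nd (nat_lit 234) (nat_lit 456) (nat_lit 0) (XT.nd (nat_lit 78) (nat_lit 304) (nat_lit 0) (XT.lf (nat_lit 0) (nat_lit 21457886996) (nat_lit 456) (nat_lit 16200788471) (nat_lit 76) (nat_lit 413703744) (nat_lit 91) (nat_lit 5) (nat_lit 97) (nat_lit 5) (nat_lit 92) (nat_lit 5) (nat_lit 354) (nat_lit 310) (nat_lit 116)) (XT.nd (nat_lit 78) (nat_lit 0) (nat_lit 0) (XT.lf (nat_lit 0) (nat_lit 1507299814) (nat_lit 304) (nat_lit 25692882373) (nat_lit 380) (nat_lit 11612689955) (nat_lit 87) (nat_lit 5) (nat_lit 91) (nat_lit 5) (nat_lit 92) (nat_lit 5) (nat_lit 355) (nat_lit 310) (nat_lit 115)) (XT.lf (nat_lit 0) (nat_lit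 20075425712) (nat_lit 304) (nat_lit 13200404987) (nat_lit 380) (nat_lit 6294919483) (nat_lit 87) (nat_lit 5) (nat_lit 91) (nat_lit 5) (nat_lit 92) (nat_lit 5) (nat_lit 356) (nat_lit 310) (nat_lit 114)))) (XT.nd (nat_lit 78) (nat_lit 456) (nat_lit 0) (XT.lf (nat_lit 0) (nat_lit 39197386342) (nat_lit 304) (nat_lit 333923750) (nat_lit 380) (nat_lit 820130400) (nat_lit 87) (nat_lit 5) (nat_lit 91) (nat_lit 5) (nat_lit 92) (nat_lit 5) (nat_lit 357) (nat_lit 310) (nat_lit 113)) (XT.nd (nat_lit 78) (nat_lit 0) (nat_lit 0) (XT.lf (nat_lit 0) (nat_lit 5022235200) (nat_lit 456) (nat_lit 23235391680) (nat_lit 76) (nat_lit 12887616566) (nat_lit 81) (nat_lit 5) (nat_lit 87) (nat_lit 5) (nat_lit 82) (nat_lit 5) (nat_lit 358) (nat_lit 310) (nat_lit 112)) (XT.lf (nat_lit 0) (nat_lit 11036101653) (nat_lit 456) (nat_lit 4407921143) (nat_lit 76) (nat_lit 26518215214) (nat_lit 81) (nat_lit 5) (nat_lit 87) (nat_lit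 5) (nat_lit 82) (nat_lit 5) (nat_lit 359) (nat_lit 310) (nat_lit 111))))) (XT.nd (nat_lit 234) (nat_lit 608) (nat_lit 0) (XT.nd (nat_lit 78) (nat_lit 304) (nat_lit 0) (XT.lf (nat_lit 0) (nat_lit 15279422859) (nat_lit 304) (nat_lit 2095543634) (nat_lit 380) (nat_lit 25424440907) (nat_lit 77) (nat_lit 5) (nat_lit 81) (nat_lit 5) (nat_lit 82) (nat_lit 5) (nat_lit 360) (nat_lit 310) (nat_lit 110)) (XT.nd (nat_lit 78) (nat_lit 304) (nat_lit 0) (XT.lf (nat_lit 0) (nat_lit 24058705404) (nat_lit 380) (nat_lit 8128210433) (nat_lit 76) (nat_lit 11470137182) (nat_lit 77) (nat_lit 5) (nat_lit 82) (nat_lit 5) (nat_lit 78) (nat_lit 5) (nat_lit 361) (nat_lit 310) (nat_lit 109)) (XT.lf (nat_lit 0) (nat_lit 12056792896) (nat_lit 304) (nat_lit 19020611280) (nat_lit 380) (nat_lit 13458992720) (nat_lit 73) (nat_lit 5) (nat_lit 77) (nat_lit 5) (nat_lit 78) (nat_lit 5) (nat_lit 362) (nat_lit 310) (nat_lit 108))))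 (XT.nd (nat_lit 156) (nat_lit 380) (nat_lit 0) (XT.nd (nat_lit 78) (nat_lit 228) (nat_lit 0) (XT.lf (nat_lit 0) (nat_lit 33010949048) (nat_lit 304) (nat_lit 5375631320) (nat_lit 380) (nat_lit 7053145481) (nat_lit 73) (nat_lit 5) (nat_lit 77) (nat_lit 5) (nat_lit 78) (nat_lit 5) (nat_lit 363) (nat_lit 310) (nat_lit 107)) (XT.lf (nat_lit 0) (nat_lit 8299108839) (nat_lit 228) (nat_lit 37777016547) (nat_lit 304) (nat_lit 289198666) (nat_lit 70) (nat_lit 5) (nat_lit 73) (nat_lit 5) (nat_lit 74) (nat_lit 5) (nat_lit 364) (nat_lit 310) (nat_lit 106))) (XT.nd (nat_lit 78) (nat_lit 304) (nat_lit 0) (XT.lf (nat_lit 0) (nat_lit 6725237017) (nat_lit 304) (nat_lit 17532974189) (nat_lit 76) (nat_lit 23053219087) (nat_lit 69) (nat_lit 5) (nat_lit 73) (nat_lit 5) (nat_lit 70) (nat_lit 5) (nat_lit 365) (nat_lit 310) (nat_lit 105)) (XT.lf (nat_lit 0) (nat_lit 3682342456) (nat_lit 304) (nat_lit 10295311525) (nat_lit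 380) (nat_lit 34307181018) (nat_lit 65) (nat_lit 5) (nat_lit 69) (nat_lit 5) (nat_lit 70) (nat_lit 5) (nat_lit 366) (nat_lit 310) (nat_lit 104)))))) (XT.nd (nat_lit 468) (nat_lit 684) (nat_lit 0) (XT.nd (nat_lit 234) (nat_lit 304) (nat_lit 0) (XT.nd (nat_lit 78) (nat_lit 228) (nat_lit 0) (XT.lf (nat_lit 0) (nat_lit 21663713760) (nat_lit 380) (nat_lit 23432576723) (nat_lit 76) (nat_lit 4184671197) (nat_lit 65) (nat_lit 5) (nat_lit 70) (nat_lit 5) (nat_lit 66) (nat_lit 5) (nat_lit 367) (nat_lit 310) (nat_lit 103)) (XT.nd (nat_lit 78) (nat_lit 228) (nat_lit 0) (XT.lf (nat_lit 0) (nat_lit 29680334729) (nat_lit 380) (nat_lit 1732350666) (nat_lit 76) (nat_lit 18891289271) (nat_lit 65) (nat_lit 5) (nat_lit 70) (nat_lit 5) (nat_lit 66) (nat_lit 5) (nat_lit 368) (nat_lit 310) (nat_lit 102)) (XT.lf (nat_lit 0) (nat_lit 21026412872) (nat_lit 228) (nat_lit 17111262742) (nat_lit 304) (nat_lit 13213997621)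 (nat_lit 62) (nat_lit 5) (nat_lit 65) (nat_lit 5) (nat_lit 66) (nat_lit 5) (nat_lit 369) (nat_lit 310) (nat_lit 101)))) (XT.nd (nat_lit 78) (nat_lit 304) (nat_lit 0) (XT.lf (nat_lit 0) (nat_lit 44500707619) (nat_lit 228) (nat_lit 2363653893) (nat_lit 304) (nat_lit 5565974286) (nat_lit 62) (nat_lit 5) (nat_lit 65) (nat_lit 5) (nat_lit 66) (nat_lit 5) (nat_lit 370) (nat_lit 310) (nat_lit 100)) (XT.nd (nat_lit 78) (nat_lit 0) (nat_lit 0) (XT.lf (nat_lit 0) (nat_lit 2537690353) (nat_lit 304) (nat_lit 38247547610) (nat_lit 76) (nat_lit 12747316182) (nat_lit 58) (nat_lit 5) (nat_lit 62) (nat_lit 5) (nat_lit 59) (nat_lit 5) (nat_lit 371) (nat_lit 310) (nat_lit 99)) (XT.lf (nat_lit 0) (nat_lit 10875048933) (nat_lit 304) (nat_lit 15388833353) (nat_lit 76) (nat_lit 28399231488) (nat_lit 58) (nat_lit 5) (nat_lit 62) (nat_lit 5) (nat_lit 59) (nat_lit 5) (nat_lit 372) (nat_lit 310) (nat_lit 98))))) (XT.nd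 (nat_lit 234) (nat_lit 228) (nat_lit 0) (XT.nd (nat_lit 78) (nat_lit 228) (nat_lit 0) (XT.lf (nat_lit 0) (nat_lit 8315259860) (nat_lit 228) (nat_lit 11225438178) (nat_lit 304) (nat_lit 36284548641) (nat_lit 55) (nat_lit 5) (nat_lit 58) (nat_lit 5) (nat_lit 59) (nat_lit 5) (nat_lit 373) (nat_lit 310) (nat_lit 97)) (XT.nd (nat_lit 78) (nat_lit 228) (nat_lit 0) (XT.lf (nat_lit 0) (nat_lit 28662498029) (nat_lit 304) (nat_lit 24016840436) (nat_lit 76) (nat_lit 4337021199) (nat_lit 55) (nat_lit 5) (nat_lit 59) (nat_lit 5) (nat_lit 56) (nat_lit 5) (nat_lit 374) (nat_lit 310) (nat_lit 96)) (XT.lf (nat_lit 0) (nat_lit 68713428) (nat_lit 228) (nat_lit 38099348929) (nat_lit 304) (nat_lit 20071841860) (nat_lit 52) (nat_lit 5) (nat_lit 55) (nat_lit 5) (nat_lit 56) (nat_lit 5) (nat_lit 375) (nat_lit 310) (nat_lit 95)))) (XT.nd (nat_lit 156) (nat_lit 228) (nat_lit 0) (XT.nd (nat_lit 78) (nat_lit 0) (nat_lit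 0) (XT.lf (nat_lit 0) (nat_lit 25366596127) (nat_lit 228) (nat_lit 22833052067) (nat_lit 304) (nat_lit 11293282721) (nat_lit 52) (nat_lit 5) (nat_lit 55) (nat_lit 5) (nat_lit 56) (nat_lit 5) (nat_lit 376) (nat_lit 310) (nat_lit 94)) (XT.lf (nat_lit 0) (nat_lit 51420930391) (nat_lit 228) (nat_lit 7109631392) (nat_lit 304) (nat_lit 2253036630) (nat_lit 52) (nat_lit 5) (nat_lit 55) (nat_lit 5) (nat_lit 56) (nat_lit 5) (nat_lit 377) (nat_lit 310) (nat_lit 93))) (XT.nd (nat_lit 78) (nat_lit 0) (nat_lit 0) (XT.lf (nat_lit 0) (nat_lit 7166235702) (nat_lit 228) (nat_lit 45802321169) (nat_lit 76) (nat_lit 9135028273) (nat_lit 49) (nat_lit 5) (nat_lit 52) (nat_lit 5) (nat_lit 50) (nat_lit 5) (nat_lit 378) (nat_lit 310) (nat_lit 92)) (XT.lf (nat_lit 0) (nat_lit 16987100715) (nat_lit 228) (nat_lit 20629393045) (nat_lit 76) (nat_lit 25841080835) (nat_lit 49) (nat_lit 5) (nat_lit 52) (nat_lit 5) (nat_lit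 50) (nat_lit 5) (nat_lit 379) (nat_lit 310) (nat_lit 91))))))))
noncomputable def xc217 : XT := (XT.nd (nat_lit 36426) (nat_lit 0) (nat_lit 4408) (XT.nd (nat_lit 35412) (nat_lit 0) (nat_lit 10412) (XT.nd (nat_lit 468) (nat_lit 152) (nat_lit 0) (XT.nd (nat_lit 234) (nat_lit 456) (nat_lit 0) (XT.nd (nat_lit 78) (nat_lit 0) (nat_lit 0) (XT.lf (nat_lit 0) (nat_lit 5401740446) (nat_lit 228) (nat_lit 21751247182) (nat_lit 304) (nat_lit 37697685469) (nat_lit 46) (nat_lit 5) (nat_lit 49) (nat_lit 5) (nat_lit 50) (nat_lit 5) (nat_lit 380) (nat_lit 310) (nat_lit 90)) (XT.nd (nat_lit 78) (nat_lit 0) (nat_lit 0) (XT.lf (nat_lit 0) (nat_lit 32634323816) (nat_lit 228) (nat_lit 5196336653) (nat_lit 304) (nat_lit 28448701017) (nat_lit 46) (nat_lit 5) (nat_lit 49) (nat_lit 5) (nat_lit 50) (nat_lit 5) (nat_lit 381) (nat_lit 310) (nat_lit 89)) (XT.lf (nat_lit 0) (nat_lit 48941151909) (nat_lit 304) (nat_lit 7183320063)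 (nat_lit 76) (nat_lit 11623065078) (nat_lit 46) (nat_lit 5) (nat_lit 50) (nat_lit 5) (nat_lit 47) (nat_lit 5) (nat_lit 382) (nat_lit 310) (nat_lit 88)))) (XT.nd (nat_lit 78) (nat_lit 304) (nat_lit 0) (XT.lf (nat_lit 0) (nat_lit 20416941678) (nat_lit 152) (nat_lit 40214297053) (nat_lit 228) (nat_lit 8621131873) (nat_lit 44) (nat_lit 5) (nat_lit 46) (nat_lit 5) (nat_lit 47) (nat_lit 5) (nat_lit 383) (nat_lit 310) (nat_lit 87)) (XT.nd (nat_lit 78) (nat_lit 228) (nat_lit 0) (XT.lf (nat_lit 0) (nat_lit 1905027087) (nat_lit 228) (nat_lit 21828675210) (nat_lit 76) (nat_lit 47065953799) (nat_lit 43) (nat_lit 5) (nat_lit 46) (nat_lit 5) (nat_lit 44) (nat_lit 5) (nat_lit 384) (nat_lit 310) (nat_lit 86)) (XT.lf (nat_lit 0) (nat_lit 6018151647) (nat_lit 228) (nat_lit 6612011192) (nat_lit 304) (nat_lit 59758943580) (nat_lit 40) (nat_lit 5) (nat_lit 43) (nat_lit 5) (nat_lit 44) (nat_lit 5) (nat_lit 385) (nat_lit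 310) (nat_lit 85))))) (XT.nd (nat_lit 234) (nat_lit 0) (nat_lit 0) (XT.nd (nat_lit 78) (nat_lit 152) (nat_lit 0) (XT.lf (nat_lit 0) (nat_lit 24004254333) (nat_lit 304) (nat_lit 38982143019) (nat_lit 76) (nat_lit 11030027865) (nat_lit 40) (nat_lit 5) (nat_lit 44) (nat_lit 5) (nat_lit 41) (nat_lit 5) (nat_lit 386) (nat_lit 310) (nat_lit 84)) (XT.nd (nat_lit 78) (nat_lit 152) (nat_lit 0) (XT.lf (nat_lit 0) (nat_lit 35783703355) (nat_lit 304) (nat_lit 10839287595) (nat_lit 76) (nat_lit 29067649568) (nat_lit 40) (nat_lit 5) (nat_lit 44) (nat_lit 5) (nat_lit 41) (nat_lit 5) (nat_lit 387) (nat_lit 310) (nat_lit 83)) (XT.lf (nat_lit 0) (nat_lit 18506897263) (nat_lit 152) (nat_lit 29586246287) (nat_lit 228) (nat_lit 29316641455) (nat_lit 38) (nat_lit 5) (nat_lit 40) (nat_lit 5) (nat_lit 41) (nat_lit 5) (nat_lit 388) (nat_lit 310) (nat_lit 82)))) (XT.nd (nat_lit 34554) (nat_lit 0) (nat_lit 10412) (XT.nd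 (nat_lit 78) (nat_lit 0) (nat_lit 0) (XT.lf (nat_lit 0) (nat_lit 48953590500) (nat_lit 152) (nat_lit 11926457800) (nat_lit 228) (nat_lit 18297211013) (nat_lit 38) (nat_lit 5) (nat_lit 40) (nat_lit 5) (nat_lit 41) (nat_lit 5) (nat_lit 389) (nat_lit 310) (nat_lit 81)) (XT.lf (nat_lit 0) (nat_lit 74109520640) (nat_lit 228) (nat_lit 746320459) (nat_lit 76) (nat_lit 6140148840) (nat_lit 38) (nat_lit 5) (nat_lit 41) (nat_lit 5) (nat_lit 39) (nat_lit 5) (nat_lit 390) (nat_lit 310) (nat_lit 80))) (XT.nd (nat_lit 78) (nat_lit 0) (nat_lit 0) (XT.lf (nat_lit 0) (nat_lit 266938597) (nat_lit 0) (nat_lit 266938597) (nat_lit 1140) (nat_lit 8780845517) (nat_lit 175) (nat_lit 5) (nat_lit 175) (nat_lit 3) (nat_lit 190) (nat_lit 3) (nat_lit 311) (nat_lit 311) (nat_lit 158)) (XT.lf (nat_lit 0) (nat_lit 1338705478) (nat_lit 1140) (nat_lit 9962047108) (nat_lit 1216) (nat_lit 7600209941) (nat_lit 175) (nat_lit 5)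 (nat_lit 190) (nat_lit 3) (nat_lit 191) (nat_lit 5) (nat_lit 312) (nat_lit 311) (nat_lit 157)))))) (XT.nd (nat_lit 468) (nat_lit 0) (nat_lit 228) (XT.nd (nat_lit 234) (nat_lit 0) (nat_lit 152) (XT.nd (nat_lit 78) (nat_lit 0) (nat_lit 76) (XT.lf (nat_lit 0) (nat_lit 1616063453) (nat_lit 1140) (nat_lit 1593582843) (nat_lit 1216) (nat_lit 15971041289) (nat_lit 175) (nat_lit 5) (nat_lit 190) (nat_lit 3) (nat_lit 191) (nat_lit 5) (nat_lit 313) (nat_lit 311) (nat_lit 156)) (XT.nd (nat_lit 78) (nat_lit 0) (nat_lit 0) (XT.lf (nat_lit 0) (nat_lit 2013753159) (nat_lit 1140) (nat_lit 12354896592) (nat_lit 1216) (nat_lit 5096804791) (nat_lit 176) (nat_lit 5) (nat_lit 191) (nat_lit 5) (nat_lit 192) (nat_lit 5) (nat_lit 314) (nat_lit 311) (nat_lit 155)) (XT.lf (nat_lit 0) (nat_lit 2464792356) (nat_lit 1140) (nat_lit 3685598838) (nat_lit 1216) (nat_lit 13607140924) (nat_lit 176) (nat_lit 5) (nat_lit 191) (nat_lit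 5) (nat_lit 192) (nat_lit 5) (nat_lit 315) (nat_lit 311) (nat_lit 154)))) (XT.nd (nat_lit 78) (nat_lit 0) (nat_lit 0) (XT.lf (nat_lit 0) (nat_lit 2997098593) (nat_lit 1140) (nat_lit 14735506787) (nat_lit 1216) (nat_lit 2323744441) (nat_lit 177) (nat_lit 5) (nat_lit 192) (nat_lit 5) (nat_lit 193) (nat_lit 5) (nat_lit 316) (nat_lit 311) (nat_lit 153)) (XT.nd (nat_lit 78) (nat_lit 0) (nat_lit 0) (XT.lf (nat_lit 0) (nat_lit 3637611776) (nat_lit 1140) (nat_lit 5755191196) (nat_lit 1216) (nat_lit 10968571539) (nat_lit 177) (nat_lit 5) (nat_lit 192) (nat_lit 5) (nat_lit 193) (nat_lit 5) (nat_lit 317) (nat_lit 311) (nat_lit 152)) (XT.lf (nat_lit 76) (nat_lit 3560179043) (nat_lit 0) (nat_lit 765322754) (nat_lit 1216) (nat_lit 16349212611) (nat_lit 178) (nat_lit 5) (nat_lit 177) (nat_lit 5) (nat_lit 193) (nat_lit 5) (nat_lit 318) (nat_lit 311) (nat_lit 151))))) (XT.nd (nat_lit 234) (nat_lit 0) (nat_lit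 76) (XT.nd (nat_lit 78) (nat_lit 0) (nat_lit 0) (XT.lf (nat_lit 0) (nat_lit 5164883350) (nat_lit 1140) (nat_lit 7805360485) (nat_lit 1216) (nat_lit 8023294061) (nat_lit 178) (nat_lit 5) (nat_lit 193) (nat_lit 5) (nat_lit 194) (nat_lit 5) (nat_lit 319) (nat_lit 311) (nat_lit 150)) (XT.nd (nat_lit 78) (nat_lit 0) (nat_lit 76) (XT.lf (nat_lit 76) (nat_lit 1806891161) (nat_lit 0) (nat_lit 4241772875) (nat_lit 1216) (nat_lit 15272694298) (nat_lit 179) (nat_lit 5) (nat_lit 178) (nat_lit 5) (nat_lit 194) (nat_lit 5) (nat_lit 320) (nat_lit 311) (nat_lit 149)) (XT.lf (nat_lit 0) (nat_lit 7078621457) (nat_lit 1140) (nat_lit 9839597910) (nat_lit 1216) (nat_lit 4737212637) (nat_lit 179) (nat_lit 5) (nat_lit 194) (nat_lit 5) (nat_lit 195) (nat_lit 5) (nat_lit 321) (nat_lit 311) (nat_lit 148)))) (XT.nd (nat_lit 156) (nat_lit 0) (nat_lit 76) (XT.nd (nat_lit 78) (nat_lit 0) (nat_lit 76) (XT.lf (nat_lit 76)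 (nat_lit 81186134) (nat_lit 0) (nat_lit 8095650313) (nat_lit 1216) (nat_lit 13821578944) (nat_lit 180) (nat_lit 5) (nat_lit 179) (nat_lit 5) (nat_lit 195) (nat_lit 5) (nat_lit 322) (nat_lit 311) (nat_lit 147)) (XT.lf (nat_lit 0) (nat_lit 9412589007) (nat_lit 1140) (nat_lit 11861987253) (nat_lit 1216) (nat_lit 1073982317) (nat_lit 180) (nat_lit 5) (nat_lit 195) (nat_lit 5) (nat_lit 196) (nat_lit 5) (nat_lit 323) (nat_lit 311) (nat_lit 146))) (XT.nd (nat_lit 78) (nat_lit 0) (nat_lit 0) (XT.lf (nat_lit 0) (nat_lit 10760437913) (nat_lit 1140) (nat_lit 1589184696) (nat_lit 1216) (nat_lit 10357340531) (nat_lit 180) (nat_lit 5) (nat_lit 195) (nat_lit 5) (nat_lit 196) (nat_lit 5) (nat_lit 324) (nat_lit 311) (nat_lit 145)) (XT.lf (nat_lit 76) (nat_lit 9166853316) (nat_lit 0) (nat_lit 3065004642) (nat_lit 1216) (nat_lit 10841775384) (nat_lit 181) (nat_lit 5) (nat_lit 180) (nat_lit 5) (nat_lit 196) (nat_lit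 5) (nat_lit 325) (nat_lit 311) (nat_lit 144))))))) (XT.nd (nat_lit 1014) (nat_lit 3116) (nat_lit 0) (XT.nd (nat_lit 468) (nat_lit 1748) (nat_lit 0) (XT.nd (nat_lit 234) (nat_lit 1596) (nat_lit 0) (XT.nd (nat_lit 78) (nat_lit 0) (nat_lit 0) (XT.lf (nat_lit 0) (nat_lit 13821228709) (nat_lit 1140) (nat_lit 3239249505) (nat_lit 1216) (nat_lit 6388618539) (nat_lit 181) (nat_lit 5) (nat_lit 196) (nat_lit 5) (nat_lit 197) (nat_lit 5) (nat_lit 326) (nat_lit 311) (nat_lit 143)) (XT.nd (nat_lit 78) (nat_lit 0) (nat_lit 76) (XT.lf (nat_lit 76) (nat_lit 7867648267) (nat_lit 0) (nat_lit 7691886532) (nat_lit 1216) (nat_lit 8273258778) (nat_lit 182) (nat_lit 5) (nat_lit 181) (nat_lit 5) (nat_lit 197) (nat_lit 5) (nat_lit 327) (nat_lit 311) (nat_lit 142)) (XT.lf (nat_lit 0) (nat_lit 17397231055) (nat_lit 1140) (nat_lit 4875962681) (nat_lit 76) (nat_lit 1953397268) (nat_lit 182) (nat_lit 5) (nat_lit 197) (nat_lit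 5) (nat_lit 183) (nat_lit 5) (nat_lit 328) (nat_lit 311) (nat_lit 141)))) (XT.nd (nat_lit 78) (nat_lit 532) (nat_lit 0) (XT.lf (nat_lit 0) (nat_lit 6594583360) (nat_lit 1140) (nat_lit 12830545470) (nat_lit 1216) (nat_lit 5203028129) (nat_lit 167) (nat_lit 5) (nat_lit 182) (nat_lit 5) (nat_lit 183) (nat_lit 5) (nat_lit 329) (nat_lit 311) (nat_lit 140)) (XT.nd (nat_lit 78) (nat_lit 532) (nat_lit 0) (XT.lf (nat_lit 0) (nat_lit 18505397026) (nat_lit 1140) (nat_lit 3053320229) (nat_lit 1216) (nat_lit 3481713556) (nat_lit 167) (nat_lit 5) (nat_lit 182) (nat_lit 5) (nat_lit 183) (nat_lit 5) (nat_lit 330) (nat_lit 311) (nat_lit 139)) (XT.lf (nat_lit 0) (nat_lit 5341408550) (nat_lit 532) (nat_lit 18529452677) (nat_lit 608) (nat_lit 1590781553) (nat_lit 160) (nat_lit 5) (nat_lit 167) (nat_lit 5) (nat_lit 168) (nat_lit 5) (nat_lit 331) (nat_lit 311) (nat_lit 138))))) (XT.nd (nat_lit 234) (nat_lit 1064)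 (nat_lit 0) (XT.nd (nat_lit 78) (nat_lit 608) (nat_lit 0) (XT.lf (nat_lit 0) (nat_lit 442579001) (nat_lit 608) (nat_lit 8223602432) (nat_lit 76) (nat_lit 17226432800) (nat_lit 159) (nat_lit 5) (nat_lit 167) (nat_lit 5) (nat_lit 160) (nat_lit 5) (nat_lit 332) (nat_lit 311) (nat_lit 137)) (XT.nd (nat_lit 78) (nat_lit 0) (nat_lit 0) (XT.lf (nat_lit 0) (nat_lit 2555096701) (nat_lit 684) (nat_lit 22259667148) (nat_lit 76) (nat_lit 1519780387) (nat_lit 151) (nat_lit 5) (nat_lit 160) (nat_lit 5) (nat_lit 152) (nat_lit 5) (nat_lit 333) (nat_lit 311) (nat_lit 136)) (XT.lf (nat_lit 0) (nat_lit 4896655906) (nat_lit 684) (nat_lit 9966840632) (nat_lit 76) (nat_lit 11921271255) (nat_lit 151) (nat_lit 5) (nat_lit 160) (nat_lit 5) (nat_lit 152) (nat_lit 5) (nat_lit 334) (nat_lit 311) (nat_lit 135)))) (XT.nd (nat_lit 156) (nat_lit 532) (nat_lit 0) (XT.nd (nat_lit 78) (nat_lit 0) (nat_lit 0) (XT.lf (nat_lit 0)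 (nat_lit 2744579181) (nat_lit 532) (nat_lit 4586379586) (nat_lit 608) (nat_lit 19916869851) (nat_lit 144) (nat_lit 5) (nat_lit 151) (nat_lit 5) (nat_lit 152) (nat_lit 5) (nat_lit 335) (nat_lit 311) (nat_lit 134)) (XT.lf (nat_lit 0) (nat_lit 9993792038) (nat_lit 608) (nat_lit 11742604750) (nat_lit 76) (nat_lit 5983724749) (nat_lit 144) (nat_lit 5) (nat_lit 152) (nat_lit 5) (nat_lit 145) (nat_lit 5) (nat_lit 336) (nat_lit 311) (nat_lit 133))) (XT.nd (nat_lit 78) (nat_lit 0) (nat_lit 0) (XT.lf (nat_lit 0) (nat_lit 1378631388) (nat_lit 532) (nat_lit 11412844495) (nat_lit 608) (nat_lit 15413463549) (nat_lit 137) (nat_lit 5) (nat_lit 144) (nat_lit 5) (nat_lit 145) (nat_lit 5) (nat_lit 337) (nat_lit 311) (nat_lit 132)) (XT.lf (nat_lit 0) (nat_lit 15130532714) (nat_lit 532) (nat_lit 657510691) (nat_lit 608) (nat_lit 12912814868) (nat_lit 137) (nat_lit 5) (nat_lit 144) (nat_lit 5) (nat_lit 145) (nat_lit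 5) (nat_lit 338) (nat_lit 311) (nat_lit 131)))))) (XT.nd (nat_lit 546) (nat_lit 1672) (nat_lit 0) (XT.nd (nat_lit 234) (nat_lit 988) (nat_lit 0) (XT.nd (nat_lit 78) (nat_lit 456) (nat_lit 0) (XT.lf (nat_lit 0) (nat_lit 18971156891) (nat_lit 608) (nat_lit 20518002) (nat_lit 76) (nat_lit 10217085176) (nat_lit 137) (nat_lit 5) (nat_lit 145) (nat_lit 5) (nat_lit 138) (nat_lit 5) (nat_lit 339) (nat_lit 311) (nat_lit 130)) (XT.nd (nat_lit 78) (nat_lit 0) (nat_lit 0) (XT.lf (nat_lit 0) (nat_lit 14202843429) (nat_lit 456) (nat_lit 8186540156) (nat_lit 532) (nat_lit 7338331457) (nat_lit 131) (nat_lit 5) (nat_lit 137) (nat_lit 5) (nat_lit 138) (nat_lit 5) (nat_lit 340) (nat_lit 311) (nat_lit 129)) (XT.lf (nat_lit 0) (nat_lit 25935300798) (nat_lit 532) (nat_lit 1440842848) (nat_lit 76) (nat_lit 2885345288) (nat_lit 131) (nat_lit 5) (nat_lit 138) (nat_lit 5) (nat_lit 132) (nat_lit 5) (nat_lit 341) (nat_lit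 311) (nat_lit 128)))) (XT.nd (nat_lit 156) (nat_lit 456) (nat_lit 0) (XT.nd (nat_lit 78) (nat_lit 76) (nat_lit 0) (XT.lf (nat_lit 0) (nat_lit 13239460566) (nat_lit 456) (nat_lit 16553200240) (nat_lit 532) (nat_lit 1012467723) (nat_lit 125) (nat_lit 5) (nat_lit 131) (nat_lit 5) (nat_lit 132) (nat_lit 5) (nat_lit 342) (nat_lit 311) (nat_lit 127)) (XT.lf (nat_lit 0) (nat_lit 2365282326) (nat_lit 532) (nat_lit 3001727268) (nat_lit 76) (nat_lit 25997035701) (nat_lit 124) (nat_lit 5) (nat_lit 131) (nat_lit 5) (nat_lit 125) (nat_lit 5) (nat_lit 343) (nat_lit 311) (nat_lit 126))) (XT.nd (nat_lit 78) (nat_lit 0) (nat_lit 0) (XT.lf (nat_lit 0) (nat_lit 5998808336) (nat_lit 532) (nat_lit 19772250323) (nat_lit 76) (nat_lit 6163130449) (nat_lit 118) (nat_lit 5) (nat_lit 125) (nat_lit 5) (nat_lit 119) (nat_lit 5) (nat_lit 344) (nat_lit 311) (nat_lit 125)) (XT.lf (nat_lit 0) (nat_lit 9822009335) (nat_lit 532)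 (nat_lit 4735448801) (nat_lit 76) (nat_lit 17961562974) (nat_lit 118) (nat_lit 5) (nat_lit 125) (nat_lit 5) (nat_lit 119) (nat_lit 5) (nat_lit 345) (nat_lit 311) (nat_lit 124))))) (XT.nd (nat_lit 234) (nat_lit 836) (nat_lit 0) (XT.nd (nat_lit 78) (nat_lit 380) (nat_lit 0) (XT.lf (nat_lit 0) (nat_lit 10962956965) (nat_lit 456) (nat_lit 2899340617) (nat_lit 532) (nat_lit 19256032588) (nat_lit 112) (nat_lit 5) (nat_lit 118) (nat_lit 5) (nat_lit 119) (nat_lit 5) (nat_lit 346) (nat_lit 311) (nat_lit 123)) (XT.nd (nat_lit 78) (nat_lit 380) (nat_lit 0) (XT.lf (nat_lit 0) (nat_lit 18156702046) (nat_lit 532) (nat_lit 6596307532) (nat_lit 76) (nat_lit 8978625421) (nat_lit 112) (nat_lit 5) (nat_lit 119) (nat_lit 5) (nat_lit 113) (nat_lit 5) (nat_lit 347) (nat_lit 311) (nat_lit 122)) (XT.lf (nat_lit 0) (nat_lit 9584472283) (nat_lit 380) (nat_lit 13113448882) (nat_lit 456) (nat_lit 11661881948) (nat_lit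 107) (nat_lit 5) (nat_lit 112) (nat_lit 5) (nat_lit 113) (nat_lit 5) (nat_lit 348) (nat_lit 311) (nat_lit 121)))) (XT.nd (nat_lit 156) (nat_lit 456) (nat_lit 0) (XT.nd (nat_lit 78) (nat_lit 380) (nat_lit 0) (XT.lf (nat_lit 0) (nat_lit 26382547401) (nat_lit 380) (nat_lit 1056634607) (nat_lit 456) (nat_lit 7565723618) (nat_lit 107) (nat_lit 5) (nat_lit 112) (nat_lit 5) (nat_lit 113) (nat_lit 5) (nat_lit 349) (nat_lit 311) (nat_lit 120)) (XT.lf (nat_lit 0) (nat_lit 8059936037) (nat_lit 380) (nat_lit 24446711069) (nat_lit 456) (nat_lit 3157198522) (nat_lit 102) (nat_lit 5) (nat_lit 107) (nat_lit 5) (nat_lit 108) (nat_lit 5) (nat_lit 350) (nat_lit 311) (nat_lit 119))) (XT.nd (nat_lit 78) (nat_lit 380) (nat_lit 0) (XT.lf (nat_lit 0) (nat_lit 1452266367) (nat_lit 456) (nat_lit 10948469417) (nat_lit 76) (nat_lit 23938551783) (nat_lit 101) (nat_lit 5) (nat_lit 107) (nat_lit 5) (nat_lit 102) (nat_lit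 5) (nat_lit 351) (nat_lit 311) (nat_lit 118)) (XT.lf (nat_lit 0) (nat_lit 6195404791) (nat_lit 456) (nat_lit 30738331472) (nat_lit 76) (nat_lit 98556452) (nat_lit 96) (nat_lit 5) (nat_lit 102) (nat_lit 5) (nat_lit 97) (nat_lit 5) (nat_lit 352) (nat_lit 311) (nat_lit 117))))))))
noncomputable def xc218 : XT := (XT.nd (nat_lit 2028) (nat_lit 1064) (nat_lit 0) (XT.nd (nat_lit 1014) (nat_lit 1368) (nat_lit 0) (XT.nd (nat_lit 468) (nat_lit 1292) (nat_lit 0) (XT.nd (nat_lit 234) (nat_lit 304) (nat_lit 0) (XT.nd (nat_lit 78) (nat_lit 380) (nat_lit 0) (XT.lf (nat_lit 0) (nat_lit 11312678091) (nat_lit 456) (nat_lit 13591845673) (nat_lit 76) (nat_lit 12834612061) (nat_lit 96) (nat_lit 5) (nat_lit 102) (nat_lit 5) (nat_lit 97) (nat_lit 5) (nat_lit 353) (nat_lit 311) (nat_lit 116)) (XT.nd (nat_lit 78) (nat_lit 0) (nat_lit 0) (XT.lf (nat_lit 0) (nat_lit 4146750885) (nat_lit 380) (nat_lit 12474063746) (nat_lit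 456) (nat_lit 21845252185) (nat_lit 91) (nat_lit 5) (nat_lit 96) (nat_lit 5) (nat_lit 97) (nat_lit 5) (nat_lit 354) (nat_lit 311) (nat_lit 115)) (XT.lf (nat_lit 0) (nat_lit 22227490748) (nat_lit 456) (nat_lit 16522328624) (nat_lit 76) (nat_lit 460810353) (nat_lit 91) (nat_lit 5) (nat_lit 97) (nat_lit 5) (nat_lit 92) (nat_lit 5) (nat_lit 355) (nat_lit 311) (nat_lit 114)))) (XT.nd (nat_lit 78) (nat_lit 0) (nat_lit 0) (XT.lf (nat_lit 0) (nat_lit 1715389726) (nat_lit 304) (nat_lit 26424564651) (nat_lit 380) (nat_lit 11833450300) (nat_lit 87) (nat_lit 5) (nat_lit 91) (nat_lit 5) (nat_lit 92) (nat_lit 5) (nat_lit 356) (nat_lit 311) (nat_lit 113)) (XT.nd (nat_lit 78) (nat_lit 0) (nat_lit 0) (XT.lf (nat_lit 0) (nat_lit 20835815588) (nat_lit 304) (nat_lit 13558451901) (nat_lit 380) (nat_lit 6359863811) (nat_lit 87) (nat_lit 5) (nat_lit 91) (nat_lit 5) (nat_lit 92) (nat_lit 5) (nat_lit 357) (nat_lit 311)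 (nat_lit 112)) (XT.lf (nat_lit 0) (nat_lit 40526829392) (nat_lit 304) (nat_lit 307082010) (nat_lit 380) (nat_lit 724439889) (nat_lit 87) (nat_lit 5) (nat_lit 91) (nat_lit 5) (nat_lit 92) (nat_lit 5) (nat_lit 358) (nat_lit 311) (nat_lit 111))))) (XT.nd (nat_lit 234) (nat_lit 532) (nat_lit 0) (XT.nd (nat_lit 78) (nat_lit 304) (nat_lit 0) (XT.lf (nat_lit 0) (nat_lit 5289268606) (nat_lit 456) (nat_lit 23774750256) (nat_lit 76) (nat_lit 13311965950) (nat_lit 81) (nat_lit 5) (nat_lit 87) (nat_lit 5) (nat_lit 82) (nat_lit 5) (nat_lit 359) (nat_lit 311) (nat_lit 110)) (XT.nd (nat_lit 78) (nat_lit 304) (nat_lit 0) (XT.lf (nat_lit 0) (nat_lit 11480161742) (nat_lit 456) (nat_lit 4387048898) (nat_lit 76) (nat_lit 27350383891) (nat_lit 81) (nat_lit 5) (nat_lit 87) (nat_lit 5) (nat_lit 82) (nat_lit 5) (nat_lit 360) (nat_lit 311) (nat_lit 109)) (XT.lf (nat_lit 0) (nat_lit 15889414347) (nat_lit 304) (nat_lit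 2117944944) (nat_lit 380) (nat_lit 26072578243) (nat_lit 77) (nat_lit 5) (nat_lit 81) (nat_lit 5) (nat_lit 82) (nat_lit 5) (nat_lit 361) (nat_lit 311) (nat_lit 108)))) (XT.nd (nat_lit 156) (nat_lit 228) (nat_lit 0) (XT.nd (nat_lit 78) (nat_lit 304) (nat_lit 0) (XT.lf (nat_lit 0) (nat_lit 24888750815) (nat_lit 380) (nat_lit 8221889838) (nat_lit 76) (nat_lit 11852761085) (nat_lit 77) (nat_lit 5) (nat_lit 82) (nat_lit 5) (nat_lit 78) (nat_lit 5) (nat_lit 362) (nat_lit 311) (nat_lit 107)) (XT.lf (nat_lit 0) (nat_lit 12567191366) (nat_lit 304) (nat_lit 19549094618) (nat_lit 380) (nat_lit 13752895015) (nat_lit 73) (nat_lit 5) (nat_lit 77) (nat_lit 5) (nat_lit 78) (nat_lit 5) (nat_lit 363) (nat_lit 311) (nat_lit 106))) (XT.nd (nat_lit 78) (nat_lit 228) (nat_lit 0) (XT.lf (nat_lit 0) (nat_lit 34145641290) (nat_lit 304) (nat_lit 5495992492) (nat_lit 380) (nat_lit 7158072382) (nat_lit 73) (nat_lit 5)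 (nat_lit 77) (nat_lit 5) (nat_lit 78) (nat_lit 5) (nat_lit 364) (nat_lit 311) (nat_lit 105)) (XT.lf (nat_lit 0) (nat_lit 8693821144) (nat_lit 228) (nat_lit 38866813435) (nat_lit 304) (nat_lit 192477790) (nat_lit 70) (nat_lit 5) (nat_lit 73) (nat_lit 5) (nat_lit 74) (nat_lit 5) (nat_lit 365) (nat_lit 311) (nat_lit 104)))))) (XT.nd (nat_lit 468) (nat_lit 760) (nat_lit 0) (XT.nd (nat_lit 234) (nat_lit 228) (nat_lit 0) (XT.nd (nat_lit 78) (nat_lit 304) (nat_lit 0) (XT.lf (nat_lit 0) (nat_lit 7027324383) (nat_lit 304) (nat_lit 17915373798) (nat_lit 76) (nat_lit 23784966479) (nat_lit 69) (nat_lit 5) (nat_lit 73) (nat_lit 5) (nat_lit 70) (nat_lit 5) (nat_lit 366) (nat_lit 311) (nat_lit 103)) (XT.nd (nat_lit 78) (nat_lit 0) (nat_lit 0) (XT.lf (nat_lit 0) (nat_lit 3934994604) (nat_lit 304) (nat_lit 10560763750) (nat_lit 380) (nat_lit 35234562690) (nat_lit 65) (nat_lit 5) (nat_lit 69) (nat_lit 5) (nat_lit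 70) (nat_lit 5) (nat_lit 367) (nat_lit 311) (nat_lit 102)) (XT.lf (nat_lit 0) (nat_lit 22409928095) (nat_lit 380) (nat_lit 23994948566) (nat_lit 76) (nat_lit 4351531810) (nat_lit 65) (nat_lit 5) (nat_lit 70) (nat_lit 5) (nat_lit 66) (nat_lit 5) (nat_lit 368) (nat_lit 311) (nat_lit 101)))) (XT.nd (nat_lit 78) (nat_lit 228) (nat_lit 0) (XT.lf (nat_lit 0) (nat_lit 30664242754) (nat_lit 380) (nat_lit 1647811031) (nat_lit 76) (nat_lit 19498144917) (nat_lit 65) (nat_lit 5) (nat_lit 70) (nat_lit 5) (nat_lit 66) (nat_lit 5) (nat_lit 369) (nat_lit 311) (nat_lit 100)) (XT.nd (nat_lit 78) (nat_lit 0) (nat_lit 0) (XT.lf (nat_lit 0) (nat_lit 21792377078) (nat_lit 228) (nat_lit 17581502900) (nat_lit 304) (nat_lit 13515493597) (nat_lit 62) (nat_lit 5) (nat_lit 65) (nat_lit 5) (nat_lit 66) (nat_lit 5) (nat_lit 370) (nat_lit 311) (nat_lit 99)) (XT.lf (nat_lit 0) (nat_lit 45966963624) (nat_lit 228) (nat_lit 2392721058)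 (nat_lit 304) (nat_lit 5640794336) (nat_lit 62) (nat_lit 5) (nat_lit 65) (nat_lit 5) (nat_lit 66) (nat_lit 5) (nat_lit 371) (nat_lit 311) (nat_lit 98))))) (XT.nd (nat_lit 234) (nat_lit 228) (nat_lit 0) (XT.nd (nat_lit 78) (nat_lit 228) (nat_lit 0) (XT.lf (nat_lit 0) (nat_lit 2703228621) (nat_lit 304) (nat_lit 39260824839) (nat_lit 76) (nat_lit 13171714884) (nat_lit 58) (nat_lit 5) (nat_lit 62) (nat_lit 5) (nat_lit 59) (nat_lit 5) (nat_lit 372) (nat_lit 311) (nat_lit 97)) (XT.nd (nat_lit 78) (nat_lit 228) (nat_lit 0) (XT.lf (nat_lit 0) (nat_lit 11288103855) (nat_lit 304) (nat_lit 15720256412) (nat_lit 76) (nat_lit 29291964954) (nat_lit 58) (nat_lit 5) (nat_lit 62) (nat_lit 5) (nat_lit 59) (nat_lit 5) (nat_lit 373) (nat_lit 311) (nat_lit 96)) (XT.lf (nat_lit 0) (nat_lit 8693682716) (nat_lit 228) (nat_lit 11518751153) (nat_lit 304) (nat_lit 37284929170) (nat_lit 55) (nat_lit 5) (nat_lit 58) (nat_lit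 5) (nat_lit 59) (nat_lit 5) (nat_lit 374) (nat_lit 311) (nat_lit 95)))) (XT.nd (nat_lit 156) (nat_lit 0) (nat_lit 0) (XT.nd (nat_lit 78) (nat_lit 228) (nat_lit 0) (XT.lf (nat_lit 0) (nat_lit 29605802638) (nat_lit 304) (nat_lit 24609978239) (nat_lit 76) (nat_lit 4508493293) (nat_lit 55) (nat_lit 5) (nat_lit 59) (nat_lit 5) (nat_lit 56) (nat_lit 5) (nat_lit 375) (nat_lit 311) (nat_lit 94)) (XT.lf (nat_lit 0) (nat_lit 196893540) (nat_lit 228) (nat_lit 39198422696) (nat_lit 304) (nat_lit 20589247492) (nat_lit 52) (nat_lit 5) (nat_lit 55) (nat_lit 5) (nat_lit 56) (nat_lit 5) (nat_lit 376) (nat_lit 311) (nat_lit 93))) (XT.nd (nat_lit 78) (nat_lit 0) (nat_lit 0) (XT.lf (nat_lit 0) (nat_lit 26250039360) (nat_lit 228) (nat_lit 23475415764) (nat_lit 304) (nat_lit 11549800014) (nat_lit 52) (nat_lit 5) (nat_lit 55) (nat_lit 5) (nat_lit 56) (nat_lit 5) (nat_lit 377) (nat_lit 311) (nat_lit 92)) (XT.lf (nat_lit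 0) (nat_lit 53082437282) (nat_lit 228) (nat_lit 7281534058) (nat_lit 304) (nat_lit 2240743080) (nat_lit 52) (nat_lit 5) (nat_lit 55) (nat_lit 5) (nat_lit 56) (nat_lit 5) (nat_lit 378) (nat_lit 311) (nat_lit 91))))))) (XT.nd (nat_lit 35490) (nat_lit 0) (nat_lit 10412) (XT.nd (nat_lit 468) (nat_lit 456) (nat_lit 0) (XT.nd (nat_lit 234) (nat_lit 152) (nat_lit 0) (XT.nd (nat_lit 78) (nat_lit 228) (nat_lit 0) (XT.lf (nat_lit 0) (nat_lit 7458819224) (nat_lit 228) (nat_lit 47055095108) (nat_lit 76) (nat_lit 9450387163) (nat_lit 49) (nat_lit 5) (nat_lit 52) (nat_lit 5) (nat_lit 50) (nat_lit 5) (nat_lit 379) (nat_lit 311) (nat_lit 90)) (XT.nd (nat_lit 78) (nat_lit 228) (nat_lit 0) (XT.lf (nat_lit 0) (nat_lit 17572050096) (nat_lit 228) (nat_lit 21130512025) (nat_lit 76) (nat_lit 26656418155) (nat_lit 49) (nat_lit 5) (nat_lit 52) (nat_lit 5) (nat_lit 50) (nat_lit 5) (nat_lit 380) (nat_lit 311) (nat_lit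 89)) (XT.lf (nat_lit 0) (nat_lit 5680400933) (nat_lit 228) (nat_lit 22361439330) (nat_lit 304) (nat_lit 38752065461) (nat_lit 46) (nat_lit 5) (nat_lit 49) (nat_lit 5) (nat_lit 50) (nat_lit 5) (nat_lit 381) (nat_lit 311) (nat_lit 88)))) (XT.nd (nat_lit 78) (nat_lit 152) (nat_lit 0) (XT.lf (nat_lit 0) (nat_lit 33726565447) (nat_lit 228) (nat_lit 5311114842) (nat_lit 304) (nat_lit 29227841104) (nat_lit 46) (nat_lit 5) (nat_lit 49) (nat_lit 5) (nat_lit 50) (nat_lit 5) (nat_lit 382) (nat_lit 311) (nat_lit 87)) (XT.nd (nat_lit 78) (nat_lit 152) (nat_lit 0) (XT.lf (nat_lit 0) (nat_lit 50479770156) (nat_lit 304) (nat_lit 7287132615) (nat_lit 76) (nat_lit 12010892630) (nat_lit 46) (nat_lit 5) (nat_lit 50) (nat_lit 5) (nat_lit 47) (nat_lit 5) (nat_lit 383) (nat_lit 311) (nat_lit 86)) (XT.lf (nat_lit 0) (nat_lit 21140042007) (nat_lit 152) (nat_lit 41379530643) (nat_lit 228) (nat_lit 8808232557) (nat_lit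 44) (nat_lit 5) (nat_lit 46) (nat_lit 5) (nat_lit 47) (nat_lit 5) (nat_lit 384) (nat_lit 311) (nat_lit 85))))) (XT.nd (nat_lit 234) (nat_lit 152) (nat_lit 0) (XT.nd (nat_lit 78) (nat_lit 228) (nat_lit 0) (XT.lf (nat_lit 0) (nat_lit 2030272463) (nat_lit 228) (nat_lit 22374757825) (nat_lit 76) (nat_lit 48516521179) (nat_lit 43) (nat_lit 5) (nat_lit 46) (nat_lit 5) (nat_lit 44) (nat_lit 5) (nat_lit 385) (nat_lit 311) (nat_lit 84)) (XT.nd (nat_lit 78) (nat_lit 0) (nat_lit 0) (XT.lf (nat_lit 0) (nat_lit 6306407391) (nat_lit 228) (nat_lit 6769806946) (nat_lit 304) (nat_lit 61482500900) (nat_lit 40) (nat_lit 5) (nat_lit 43) (nat_lit 5) (nat_lit 44) (nat_lit 5) (nat_lit 386) (nat_lit 311) (nat_lit 83)) (XT.lf (nat_lit 0) (nat_lit 24789951422) (nat_lit 304) (nat_lit 40045407661) (nat_lit 76) (nat_lit 11399543285) (nat_lit 40) (nat_lit 5) (nat_lit 44) (nat_lit 5) (nat_lit 41) (nat_lit 5) (nat_lit 387)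 (nat_lit 311) (nat_lit 82)))) (XT.nd (nat_lit 156) (nat_lit 0) (nat_lit 0) (XT.nd (nat_lit 78) (nat_lit 152) (nat_lit 0) (XT.lf (nat_lit 0) (nat_lit 36920874125) (nat_lit 304) (nat_lit 11061359768) (nat_lit 76) (nat_lit 29977168943) (nat_lit 40) (nat_lit 5) (nat_lit 44) (nat_lit 5) (nat_lit 41) (nat_lit 5) (nat_lit 388) (nat_lit 311) (nat_lit 81)) (XT.lf (nat_lit 0) (nat_lit 19164199788) (nat_lit 152) (nat_lit 30434524978) (nat_lit 228) (nat_lit 30131424445) (nat_lit 38) (nat_lit 5) (nat_lit 40) (nat_lit 5) (nat_lit 41) (nat_lit 5) (nat_lit 389) (nat_lit 311) (nat_lit 80))) (XT.nd (nat_lit 34554) (nat_lit 0) (nat_lit 10412) (XT.lf (nat_lit 0) (nat_lit 50521320164) (nat_lit 152) (nat_lit 12246087750) (nat_lit 228) (nat_lit 18783296030) (nat_lit 38) (nat_lit 5) (nat_lit 40) (nat_lit 5) (nat_lit 41) (nat_lit 5) (nat_lit 390) (nat_lit 311) (nat_lit 79)) (XT.lf (nat_lit 0) (nat_lit 364291042) (nat_lit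 0) (nat_lit 364291042) (nat_lit 1140) (nat_lit 8859947774) (nat_lit 175) (nat_lit 5) (nat_lit 175) (nat_lit 3) (nat_lit 190) (nat_lit 3) (nat_lit 312) (nat_lit 312) (nat_lit 156)))))) (XT.nd (nat_lit 468) (nat_lit 0) (nat_lit 152) (XT.nd (nat_lit 234) (nat_lit 0) (nat_lit 76) (XT.nd (nat_lit 78) (nat_lit 0) (nat_lit 0) (XT.lf (nat_lit 0) (nat_lit 1724167114) (nat_lit 1140) (nat_lit 10074815989) (nat_lit 1216) (nat_lit 7658117485) (nat_lit 175) (nat_lit 5) (nat_lit 190) (nat_lit 3) (nat_lit 191) (nat_lit 5) (nat_lit 313) (nat_lit 312) (nat_lit 155)) (XT.nd (nat_lit 78) (nat_lit 0) (nat_lit 76) (XT.lf (nat_lit 0) (nat_lit 1999788533) (nat_lit 1140) (nat_lit 1460717967) (nat_lit 1216) (nat_lit 16285028106) (nat_lit 175) (nat_lit 5) (nat_lit 190) (nat_lit 3) (nat_lit 191) (nat_lit 5) (nat_lit 314) (nat_lit 312) (nat_lit 154)) (XT.lf (nat_lit 0) (nat_lit 2399938746) (nat_lit 1140) (nat_lit 12534899672)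 (nat_lit 1216) (nat_lit 5104305298) (nat_lit 176) (nat_lit 5) (nat_lit 191) (nat_lit 5) (nat_lit 192) (nat_lit 5) (nat_lit 315) (nat_lit 312) (nat_lit 153)))) (XT.nd (nat_lit 78) (nat_lit 0) (nat_lit 76) (XT.lf (nat_lit 0) (nat_lit 2855020585) (nat_lit 1140) (nat_lit 3611075718) (nat_lit 1216) (nat_lit 13874186572) (nat_lit 176) (nat_lit 5) (nat_lit 191) (nat_lit 5) (nat_lit 192) (nat_lit 5) (nat_lit 316) (nat_lit 312) (nat_lit 152)) (XT.nd (nat_lit 78) (nat_lit 0) (nat_lit 0) (XT.lf (nat_lit 0) (nat_lit 3394638669) (nat_lit 1140) (nat_lit 14983351068) (nat_lit 1216) (nat_lit 2270349267) (nat_lit 177) (nat_lit 5) (nat_lit 192) (nat_lit 5) (nat_lit 193) (nat_lit 5) (nat_lit 317) (nat_lit 312) (nat_lit 151)) (XT.lf (nat_lit 0) (nat_lit 4045407235) (nat_lit 1140) (nat_lit 5739282929) (nat_lit 1216) (nat_lit 11178106833) (nat_lit 177) (nat_lit 5) (nat_lit 192) (nat_lit 5) (nat_lit 193) (nat_lit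 5) (nat_lit 318) (nat_lit 312) (nat_lit 150))))) (XT.nd (nat_lit 234) (nat_lit 0) (nat_lit 152) (XT.nd (nat_lit 78) (nat_lit 0) (nat_lit 76) (XT.lf (nat_lit 76) (nat_lit 3853699750) (nat_lit 0) (nat_lit 893329987) (nat_lit 1216) (nat_lit 16538727843) (nat_lit 178) (nat_lit 5) (nat_lit 177) (nat_lit 5) (nat_lit 193) (nat_lit 5) (nat_lit 319) (nat_lit 312) (nat_lit 149)) (XT.nd (nat_lit 78) (nat_lit 0) (nat_lit 0) (XT.lf (nat_lit 0) (nat_lit 5602114418) (nat_lit 1140) (nat_lit 7848333554) (nat_lit 1216) (nat_lit 8163995122) (nat_lit 178) (nat_lit 5) (nat_lit 193) (nat_lit 5) (nat_lit 194) (nat_lit 5) (nat_lit 320) (nat_lit 312) (nat_lit 148)) (XT.lf (nat_lit 76) (nat_lit 2050411253) (nat_lit 0) (nat_lit 4455595187) (nat_lit 1216) (nat_lit 15446296361) (nat_lit 179) (nat_lit 5) (nat_lit 178) (nat_lit 5) (nat_lit 194) (nat_lit 5) (nat_lit 321) (nat_lit 312) (nat_lit 147)))) (XT.nd (nat_lit 156)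 (nat_lit 0) (nat_lit 76) (XT.nd (nat_lit 78) (nat_lit 0) (nat_lit 0) (XT.lf (nat_lit 0) (nat_lit 7558019254) (nat_lit 1140) (nat_lit 9941735561) (nat_lit 1216) (nat_lit 4796921394) (nat_lit 179) (nat_lit 5) (nat_lit 194) (nat_lit 5) (nat_lit 195) (nat_lit 5) (nat_lit 322) (nat_lit 312) (nat_lit 146)) (XT.lf (nat_lit 76) (nat_lit 274779354) (nat_lit 0) (nat_lit 8408461023) (nat_lit 1216) (nat_lit 13966898801) (nat_lit 180) (nat_lit 5) (nat_lit 179) (nat_lit 5) (nat_lit 195) (nat_lit 5) (nat_lit 323) (nat_lit 312) (nat_lit 145))) (XT.nd (nat_lit 78) (nat_lit 0) (nat_lit 0) (XT.lf (nat_lit 0) (nat_lit 9947807958) (nat_lit 1140) (nat_lit 12023615192) (nat_lit 1216) (nat_lit 1039622760) (nat_lit 180) (nat_lit 5) (nat_lit 195) (nat_lit 5) (nat_lit 196) (nat_lit 5) (nat_lit 324) (nat_lit 312) (nat_lit 144)) (XT.lf (nat_lit 0) (nat_lit 11328728023) (nat_lit 1140) (nat_lit 1448285792) (nat_lit 1216)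 (nat_lit 10603420916) (nat_lit 180) (nat_lit 5) (nat_lit 195) (nat_lit 5) (nat_lit 196) (nat_lit 5) (nat_lit 325) (nat_lit 312) (nat_lit 143))))))))
noncomputable def xc219 : XT := (XT.nd (nat_lit 2028) (nat_lit 3800) (nat_lit 0) (XT.nd (nat_lit 1014) (nat_lit 2660) (nat_lit 0) (XT.nd (nat_lit 468) (nat_lit 2280) (nat_lit 0) (XT.nd (nat_lit 234) (nat_lit 988) (nat_lit 0) (XT.nd (nat_lit 78) (nat_lit 0) (nat_lit 76) (XT.lf (nat_lit 76) (nat_lit 9628584591) (nat_lit 0) (nat_lit 3210351184) (nat_lit 1216) (nat_lit 10919340773) (nat_lit 181) (nat_lit 5) (nat_lit 180) (nat_lit 5) (nat_lit 196) (nat_lit 5) (nat_lit 326) (nat_lit 312) (nat_lit 142)) (XT.nd (nat_lit 78) (nat_lit 0) (nat_lit 0) (XT.lf (nat_lit 0) (nat_lit 14468495473) (nat_lit 1140) (nat_lit 3147296168) (nat_lit 1216) (nat_lit 6529447535) (nat_lit 181) (nat_lit 5) (nat_lit 196) (nat_lit 5) (nat_lit 197) (nat_lit 5) (nat_lit 327) (nat_lit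 312) (nat_lit 141)) (XT.lf (nat_lit 76) (nat_lit 8290954314) (nat_lit 0) (nat_lit 7963021021) (nat_lit 1216) (nat_lit 8286631072) (nat_lit 182) (nat_lit 5) (nat_lit 181) (nat_lit 5) (nat_lit 197) (nat_lit 5) (nat_lit 328) (nat_lit 312) (nat_lit 140)))) (XT.nd (nat_lit 78) (nat_lit 1140) (nat_lit 0) (XT.lf (nat_lit 0) (nat_lit 18139794933) (nat_lit 1140) (nat_lit 4833080675) (nat_lit 76) (nat_lit 1973562317) (nat_lit 182) (nat_lit 5) (nat_lit 197) (nat_lit 5) (nat_lit 183) (nat_lit 5) (nat_lit 329) (nat_lit 312) (nat_lit 139)) (XT.nd (nat_lit 78) (nat_lit 0) (nat_lit 0) (XT.lf (nat_lit 0) (nat_lit 6979727229) (nat_lit 1140) (nat_lit 13244176305) (nat_lit 1216) (nat_lit 5136295760) (nat_lit 167) (nat_lit 5) (nat_lit 182) (nat_lit 5) (nat_lit 183) (nat_lit 5) (nat_lit 330) (nat_lit 312) (nat_lit 138)) (XT.lf (nat_lit 0) (nat_lit 19242409780) (nat_lit 1140) (nat_lit 3172797964) (nat_lit 1216) (nat_lit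 3369831746) (nat_lit 167) (nat_lit 5) (nat_lit 182) (nat_lit 5) (nat_lit 183) (nat_lit 5) (nat_lit 331) (nat_lit 312) (nat_lit 137))))) (XT.nd (nat_lit 234) (nat_lit 1064) (nat_lit 0) (XT.nd (nat_lit 78) (nat_lit 684) (nat_lit 0) (XT.lf (nat_lit 0) (nat_lit 5688523651) (nat_lit 532) (nat_lit 19103619933) (nat_lit 608) (nat_lit 1426890506) (nat_lit 160) (nat_lit 5) (nat_lit 167) (nat_lit 5) (nat_lit 168) (nat_lit 5) (nat_lit 332) (nat_lit 312) (nat_lit 136)) (XT.nd (nat_lit 78) (nat_lit 608) (nat_lit 0) (XT.lf (nat_lit 0) (nat_lit 657298247) (nat_lit 608) (nat_lit 8284585602) (nat_lit 76) (nat_lit 17721179685) (nat_lit 159) (nat_lit 5) (nat_lit 167) (nat_lit 5) (nat_lit 160) (nat_lit 5) (nat_lit 333) (nat_lit 312) (nat_lit 135)) (XT.lf (nat_lit 0) (nat_lit 2828962860) (nat_lit 684) (nat_lit 22737226098) (nat_lit 76) (nat_lit 1552197665) (nat_lit 151) (nat_lit 5) (nat_lit 160) (nat_lit 5) (nat_lit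 152) (nat_lit 5) (nat_lit 334) (nat_lit 312) (nat_lit 134)))) (XT.nd (nat_lit 156) (nat_lit 532) (nat_lit 0) (XT.nd (nat_lit 78) (nat_lit 532) (nat_lit 0) (XT.lf (nat_lit 0) (nat_lit 5235024765) (nat_lit 684) (nat_lit 10081155497) (nat_lit 76) (nat_lit 12266117030) (nat_lit 151) (nat_lit 5) (nat_lit 160) (nat_lit 5) (nat_lit 152) (nat_lit 5) (nat_lit 335) (nat_lit 312) (nat_lit 133)) (XT.lf (nat_lit 0) (nat_lit 3009796221) (nat_lit 532) (nat_lit 4728741671) (nat_lit 608) (nat_lit 20320834463) (nat_lit 144) (nat_lit 5) (nat_lit 151) (nat_lit 5) (nat_lit 152) (nat_lit 5) (nat_lit 336) (nat_lit 312) (nat_lit 132))) (XT.nd (nat_lit 78) (nat_lit 532) (nat_lit 0) (XT.lf (nat_lit 0) (nat_lit 10475746093) (nat_lit 608) (nat_lit 11911565762) (nat_lit 76) (nat_lit 6158695129) (nat_lit 144) (nat_lit 5) (nat_lit 152) (nat_lit 5) (nat_lit 145) (nat_lit 5) (nat_lit 337) (nat_lit 312) (nat_lit 131)) (XT.lf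 (nat_lit 0) (nat_lit 1601510233) (nat_lit 532) (nat_lit 11752290043) (nat_lit 608) (nat_lit 15691683342) (nat_lit 137) (nat_lit 5) (nat_lit 144) (nat_lit 5) (nat_lit 145) (nat_lit 5) (nat_lit 338) (nat_lit 312) (nat_lit 130)))))) (XT.nd (nat_lit 468) (nat_lit 1672) (nat_lit 0) (XT.nd (nat_lit 234) (nat_lit 532) (nat_lit 0) (XT.nd (nat_lit 78) (nat_lit 456) (nat_lit 0) (XT.lf (nat_lit 0) (nat_lit 15760681612) (nat_lit 532) (nat_lit 674381849) (nat_lit 608) (nat_lit 13121379786) (nat_lit 137) (nat_lit 5) (nat_lit 144) (nat_lit 5) (nat_lit 145) (nat_lit 5) (nat_lit 339) (nat_lit 312) (nat_lit 129)) (XT.nd (nat_lit 78) (nat_lit 0) (nat_lit 0) (XT.lf (nat_lit 0) (nat_lit 158311266) (nat_lit 456) (nat_lit 19551857641) (nat_lit 532) (nat_lit 10369525208) (nat_lit 131) (nat_lit 5) (nat_lit 137) (nat_lit 5) (nat_lit 138) (nat_lit 5) (nat_lit 340) (nat_lit 312) (nat_lit 128)) (XT.lf (nat_lit 0) (nat_lit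 14803555342) (nat_lit 456) (nat_lit 8422640335) (nat_lit 532) (nat_lit 7388171232) (nat_lit 131) (nat_lit 5) (nat_lit 137) (nat_lit 5) (nat_lit 138) (nat_lit 5) (nat_lit 341) (nat_lit 312) (nat_lit 127)))) (XT.nd (nat_lit 78) (nat_lit 532) (nat_lit 0) (XT.lf (nat_lit 0) (nat_lit 26873769399) (nat_lit 532) (nat_lit 1309587635) (nat_lit 76) (nat_lit 2980945185) (nat_lit 131) (nat_lit 5) (nat_lit 138) (nat_lit 5) (nat_lit 132) (nat_lit 5) (nat_lit 342) (nat_lit 312) (nat_lit 126)) (XT.nd (nat_lit 78) (nat_lit 76) (nat_lit 0) (XT.lf (nat_lit 0) (nat_lit 13809414288) (nat_lit 456) (nat_lit 17034424566) (nat_lit 532) (nat_lit 880508870) (nat_lit 125) (nat_lit 5) (nat_lit 131) (nat_lit 5) (nat_lit 132) (nat_lit 5) (nat_lit 343) (nat_lit 312) (nat_lit 125)) (XT.lf (nat_lit 0) (nat_lit 2590770101) (nat_lit 532) (nat_lit 2920765374) (nat_lit 76) (nat_lit 26788594796) (nat_lit 124) (nat_lit 5) (nat_lit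 131) (nat_lit 5) (nat_lit 125) (nat_lit 5) (nat_lit 344) (nat_lit 312) (nat_lit 124))))) (XT.nd (nat_lit 234) (nat_lit 760) (nat_lit 0) (XT.nd (nat_lit 78) (nat_lit 456) (nat_lit 0) (XT.lf (nat_lit 0) (nat_lit 6330598770) (nat_lit 532) (nat_lit 20191506336) (nat_lit 76) (nat_lit 6365360227) (nat_lit 118) (nat_lit 5) (nat_lit 125) (nat_lit 5) (nat_lit 119) (nat_lit 5) (nat_lit 345) (nat_lit 312) (nat_lit 123)) (XT.nd (nat_lit 78) (nat_lit 456) (nat_lit 0) (XT.lf (nat_lit 0) (nat_lit 10264073677) (nat_lit 532) (nat_lit 4708666152) (nat_lit 76) (nat_lit 18517240799) (nat_lit 118) (nat_lit 5) (nat_lit 125) (nat_lit 5) (nat_lit 119) (nat_lit 5) (nat_lit 346) (nat_lit 312) (nat_lit 122)) (XT.lf (nat_lit 0) (nat_lit 11459036433) (nat_lit 456) (nat_lit 2963847956) (nat_lit 532) (nat_lit 19684470662) (nat_lit 112) (nat_lit 5) (nat_lit 118) (nat_lit 5) (nat_lit 119) (nat_lit 5) (nat_lit 347) (nat_lit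 312) (nat_lit 121)))) (XT.nd (nat_lit 156) (nat_lit 380) (nat_lit 0) (XT.nd (nat_lit 78) (nat_lit 380) (nat_lit 0) (XT.lf (nat_lit 0) (nat_lit 18842115635) (nat_lit 532) (nat_lit 6627692136) (nat_lit 76) (nat_lit 9269376759) (nat_lit 112) (nat_lit 5) (nat_lit 119) (nat_lit 5) (nat_lit 113) (nat_lit 5) (nat_lit 348) (nat_lit 312) (nat_lit 120)) (XT.lf (nat_lit 0) (nat_lit 10036878676) (nat_lit 380) (nat_lit 13480179080) (nat_lit 456) (nat_lit 11869220526) (nat_lit 107) (nat_lit 5) (nat_lit 112) (nat_lit 5) (nat_lit 113) (nat_lit 5) (nat_lit 349) (nat_lit 312) (nat_lit 119))) (XT.nd (nat_lit 78) (nat_lit 380) (nat_lit 0) (XT.lf (nat_lit 0) (nat_lit 27334093943) (nat_lit 380) (nat_lit 1062437269) (nat_lit 456) (nat_lit 7654328452) (nat_lit 107) (nat_lit 5) (nat_lit 112) (nat_lit 5) (nat_lit 113) (nat_lit 5) (nat_lit 350) (nat_lit 312) (nat_lit 118)) (XT.lf (nat_lit 0) (nat_lit 8464140454) (nat_lit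 380) (nat_lit 25149774667) (nat_lit 456) (nat_lit 3115720791) (nat_lit 102) (nat_lit 5) (nat_lit 107) (nat_lit 5) (nat_lit 108) (nat_lit 5) (nat_lit 351) (nat_lit 312) (nat_lit 117))))))) (XT.nd (nat_lit 1014) (nat_lit 1596) (nat_lit 0) (XT.nd (nat_lit 468) (nat_lit 1064) (nat_lit 0) (XT.nd (nat_lit 234) (nat_lit 684) (nat_lit 0) (XT.nd (nat_lit 78) (nat_lit 380) (nat_lit 0) (XT.lf (nat_lit 0) (nat_lit 1625481016) (nat_lit 456) (nat_lit 11116513555) (nat_lit 76) (nat_lit 24683428555) (nat_lit 101) (nat_lit 5) (nat_lit 107) (nat_lit 5) (nat_lit 102) (nat_lit 5) (nat_lit 352) (nat_lit 312) (nat_lit 116)) (XT.nd (nat_lit 78) (nat_lit 0) (nat_lit 0) (XT.lf (nat_lit 0) (nat_lit 6508966537) (nat_lit 456) (nat_lit 31497975223) (nat_lit 76) (nat_lit 132339556) (nat_lit 96) (nat_lit 5) (nat_lit 102) (nat_lit 5) (nat_lit 97) (nat_lit 5) (nat_lit 353) (nat_lit 312) (nat_lit 115)) (XT.lf (nat_lit 0) (nat_lit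 11776038630) (nat_lit 456) (nat_lit 13841828040) (nat_lit 76) (nat_lit 13249578976) (nat_lit 96) (nat_lit 5) (nat_lit 102) (nat_lit 5) (nat_lit 97) (nat_lit 5) (nat_lit 354) (nat_lit 312) (nat_lit 114)))) (XT.nd (nat_lit 78) (nat_lit 304) (nat_lit 0) (XT.lf (nat_lit 0) (nat_lit 4427379620) (nat_lit 380) (nat_lit 12813930314) (nat_lit 456) (nat_lit 22374942132) (nat_lit 91) (nat_lit 5) (nat_lit 96) (nat_lit 5) (nat_lit 97) (nat_lit 5) (nat_lit 355) (nat_lit 312) (nat_lit 113)) (XT.nd (nat_lit 78) (nat_lit 304) (nat_lit 0) (XT.lf (nat_lit 0) (nat_lit 23012957324) (nat_lit 456) (nat_lit 16862957009) (nat_lit 76) (nat_lit 507338497) (nat_lit 91) (nat_lit 5) (nat_lit 97) (nat_lit 5) (nat_lit 92) (nat_lit 5) (nat_lit 356) (nat_lit 312) (nat_lit 112)) (XT.lf (nat_lit 0) (nat_lit 1920372878) (nat_lit 304) (nat_lit 27180442139) (nat_lit 380) (nat_lit 12068159385) (nat_lit 87) (nat_lit 5) (nat_lit 91)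 (nat_lit 5) (nat_lit 92) (nat_lit 5) (nat_lit 357) (nat_lit 312) (nat_lit 111))))) (XT.nd (nat_lit 234) (nat_lit 608) (nat_lit 0) (XT.nd (nat_lit 78) (nat_lit 456) (nat_lit 0) (XT.lf (nat_lit 0) (nat_lit 21609940017) (nat_lit 304) (nat_lit 13929419582) (nat_lit 380) (nat_lit 6433869023) (nat_lit 87) (nat_lit 5) (nat_lit 91) (nat_lit 5) (nat_lit 92) (nat_lit 5) (nat_lit 358) (nat_lit 312) (nat_lit 110)) (XT.nd (nat_lit 78) (nat_lit 456) (nat_lit 0) (XT.lf (nat_lit 0) (nat_lit 41887342974) (nat_lit 304) (nat_lit 281550901) (nat_lit 380) (nat_lit 632784054) (nat_lit 87) (nat_lit 5) (nat_lit 91) (nat_lit 5) (nat_lit 92) (nat_lit 5) (nat_lit 359) (nat_lit 312) (nat_lit 109)) (XT.lf (nat_lit 0) (nat_lit 5557633110) (nat_lit 456) (nat_lit 24339342395) (nat_lit 76) (nat_lit 13746880483) (nat_lit 81) (nat_lit 5) (nat_lit 87) (nat_lit 5) (nat_lit 82) (nat_lit 5) (nat_lit 360) (nat_lit 312) (nat_lit 108))))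 (XT.nd (nat_lit 156) (nat_lit 304) (nat_lit 0) (XT.nd (nat_lit 78) (nat_lit 304) (nat_lit 0) (XT.lf (nat_lit 0) (nat_lit 11931058289) (nat_lit 456) (nat_lit 4374339619) (nat_lit 76) (nat_lit 28205415364) (nat_lit 81) (nat_lit 5) (nat_lit 87) (nat_lit 5) (nat_lit 82) (nat_lit 5) (nat_lit 361) (nat_lit 312) (nat_lit 107)) (XT.lf (nat_lit 0) (nat_lit 16509002613) (nat_lit 304) (nat_lit 2143341150) (nat_lit 380) (nat_lit 26746737973) (nat_lit 77) (nat_lit 5) (nat_lit 81) (nat_lit 5) (nat_lit 82) (nat_lit 5) (nat_lit 362) (nat_lit 312) (nat_lit 106))) (XT.nd (nat_lit 78) (nat_lit 304) (nat_lit 0) (XT.lf (nat_lit 0) (nat_lit 25737481630) (nat_lit 380) (nat_lit 8326999820) (nat_lit 76) (nat_lit 12244652512) (nat_lit 77) (nat_lit 5) (nat_lit 82) (nat_lit 5) (nat_lit 78) (nat_lit 5) (nat_lit 363) (nat_lit 312) (nat_lit 105)) (XT.lf (nat_lit 0) (nat_lit 13084366108) (nat_lit 304) (nat_lit 20095851177)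 (nat_lit 380) (nat_lit 14061921221) (nat_lit 73) (nat_lit 5) (nat_lit 77) (nat_lit 5) (nat_lit 78) (nat_lit 5) (nat_lit 364) (nat_lit 312) (nat_lit 104)))))) (XT.nd (nat_lit 546) (nat_lit 760) (nat_lit 0) (XT.nd (nat_lit 234) (nat_lit 532) (nat_lit 0) (XT.nd (nat_lit 78) (nat_lit 304) (nat_lit 0) (XT.lf (nat_lit 0) (nat_lit 35306087228) (nat_lit 304) (nat_lit 5622312773) (nat_lit 380) (nat_lit 7272270239) (nat_lit 73) (nat_lit 5) (nat_lit 77) (nat_lit 5) (nat_lit 78) (nat_lit 5) (nat_lit 365) (nat_lit 312) (nat_lit 103)) (XT.nd (nat_lit 78) (nat_lit 76) (nat_lit 0) (XT.lf (nat_lit 0) (nat_lit 9092008801) (nat_lit 228) (nat_lit 39991802089) (nat_lit 304) (nat_lit 98905498) (nat_lit 70) (nat_lit 5) (nat_lit 73) (nat_lit 5) (nat_lit 74) (nat_lit 5) (nat_lit 366) (nat_lit 312) (nat_lit 102)) (XT.lf (nat_lit 0) (nat_lit 7332715003) (nat_lit 304) (nat_lit 18317488027) (nat_lit 76) (nat_lit 24536361470)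 (nat_lit 69) (nat_lit 5) (nat_lit 73) (nat_lit 5) (nat_lit 70) (nat_lit 5) (nat_lit 367) (nat_lit 312) (nat_lit 101)))) (XT.nd (nat_lit 156) (nat_lit 228) (nat_lit 0) (XT.nd (nat_lit 78) (nat_lit 0) (nat_lit 0) (XT.lf (nat_lit 0) (nat_lit 4187064496) (nat_lit 304) (nat_lit 10836671289) (nat_lit 380) (nat_lit 36195611487) (nat_lit 65) (nat_lit 5) (nat_lit 69) (nat_lit 5) (nat_lit 70) (nat_lit 5) (nat_lit 368) (nat_lit 312) (nat_lit 100)) (XT.lf (nat_lit 0) (nat_lit 23173000679) (nat_lit 380) (nat_lit 24582262892) (nat_lit 76) (nat_lit 4521026276) (nat_lit 65) (nat_lit 5) (nat_lit 70) (nat_lit 5) (nat_lit 66) (nat_lit 5) (nat_lit 369) (nat_lit 312) (nat_lit 99))) (XT.nd (nat_lit 78) (nat_lit 228) (nat_lit 0) (XT.lf (nat_lit 0) (nat_lit 31672300853) (nat_lit 380) (nat_lit 1568571449) (nat_lit 76) (nat_lit 20120903355) (nat_lit 65) (nat_lit 5) (nat_lit 70) (nat_lit 5) (nat_lit 66) (nat_lit 5) (nat_lit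 370) (nat_lit 312) (nat_lit 98)) (XT.lf (nat_lit 0) (nat_lit 22573560795) (nat_lit 228) (nat_lit 18068324248) (nat_lit 304) (nat_lit 13831483475) (nat_lit 62) (nat_lit 5) (nat_lit 65) (nat_lit 5) (nat_lit 66) (nat_lit 5) (nat_lit 371) (nat_lit 312) (nat_lit 97))))) (XT.nd (nat_lit 234) (nat_lit 456) (nat_lit 0) (XT.nd (nat_lit 78) (nat_lit 304) (nat_lit 0) (XT.lf (nat_lit 0) (nat_lit 47469673896) (nat_lit 228) (nat_lit 2425062167) (nat_lit 304) (nat_lit 5723149303) (nat_lit 62) (nat_lit 5) (nat_lit 65) (nat_lit 5) (nat_lit 66) (nat_lit 5) (nat_lit 372) (nat_lit 312) (nat_lit 96)) (XT.nd (nat_lit 78) (nat_lit 0) (nat_lit 0) (XT.lf (nat_lit 0) (nat_lit 2868600678) (nat_lit 304) (nat_lit 40312201097) (nat_lit 76) (nat_lit 13606435769) (nat_lit 58) (nat_lit 5) (nat_lit 62) (nat_lit 5) (nat_lit 59) (nat_lit 5) (nat_lit 373) (nat_lit 312) (nat_lit 95)) (XT.lf (nat_lit 0) (nat_lit 11708567552) (nat_lit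 304) (nat_lit 16069098583) (nat_lit 76) (nat_lit 30209140833) (nat_lit 58) (nat_lit 5) (nat_lit 62) (nat_lit 5) (nat_lit 59) (nat_lit 5) (nat_lit 374) (nat_lit 312) (nat_lit 94)))) (XT.nd (nat_lit 156) (nat_lit 228) (nat_lit 0) (XT.nd (nat_lit 78) (nat_lit 0) (nat_lit 0) (XT.lf (nat_lit 0) (nat_lit 9076055135) (nat_lit 228) (nat_lit 11823357734) (nat_lit 304) (nat_lit 38320381626) (nat_lit 55) (nat_lit 5) (nat_lit 58) (nat_lit 5) (nat_lit 59) (nat_lit 5) (nat_lit 375) (nat_lit 312) (nat_lit 93)) (XT.lf (nat_lit 0) (nat_lit 30572617182) (nat_lit 304) (nat_lit 25228221588) (nat_lit 76) (nat_lit 4682735232) (nat_lit 55) (nat_lit 5) (nat_lit 59) (nat_lit 5) (nat_lit 56) (nat_lit 5) (nat_lit 376) (nat_lit 312) (nat_lit 92))) (XT.nd (nat_lit 78) (nat_lit 0) (nat_lit 0) (XT.lf (nat_lit 0) (nat_lit 321679325) (nat_lit 228) (nat_lit 40332989100) (nat_lit 304) (nat_lit 21127040267) (nat_lit 52) (nat_lit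 5) (nat_lit 55) (nat_lit 5) (nat_lit 56) (nat_lit 5) (nat_lit 377) (nat_lit 312) (nat_lit 91)) (XT.lf (nat_lit 0) (nat_lit 27152957025) (nat_lit 228) (nat_lit 24139497386) (nat_lit 304) (nat_lit 11818736103) (nat_lit 52) (nat_lit 5) (nat_lit 55) (nat_lit 5) (nat_lit 56) (nat_lit 5) (nat_lit 378) (nat_lit 312) (nat_lit 90))))))))
noncomputable def xc220 : XT := (XT.nd (nat_lit 36660) (nat_lit 0) (nat_lit 4636) (XT.nd (nat_lit 35646) (nat_lit 0) (nat_lit 10260) (XT.nd (nat_lit 468) (nat_lit 456) (nat_lit 0) (XT.nd (nat_lit 234) (nat_lit 228) (nat_lit 0) (XT.nd (nat_lit 78) (nat_lit 228) (nat_lit 0) (XT.lf (nat_lit 0) (nat_lit 54786965240) (nat_lit 228) (nat_lit 7460969545) (nat_lit 304) (nat_lit 2232666429) (nat_lit 52) (nat_lit 5) (nat_lit 55) (nat_lit 5) (nat_lit 56) (nat_lit 5) (nat_lit 379) (nat_lit 312) (nat_lit 89)) (XT.nd (nat_lit 78) (nat_lit 0) (nat_lit 0) (XT.lf (nat_lit 0) (nat_lit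 7755725898) (nat_lit 228) (nat_lit 48352415135) (nat_lit 76) (nat_lit 9772835569) (nat_lit 49) (nat_lit 5) (nat_lit 52) (nat_lit 5) (nat_lit 50) (nat_lit 5) (nat_lit 380) (nat_lit 312) (nat_lit 88)) (XT.lf (nat_lit 0) (nat_lit 18170223343) (nat_lit 228) (nat_lit 21653424641) (nat_lit 76) (nat_lit 27493913410) (nat_lit 49) (nat_lit 5) (nat_lit 52) (nat_lit 5) (nat_lit 50) (nat_lit 5) (nat_lit 381) (nat_lit 312) (nat_lit 87)))) (XT.nd (nat_lit 78) (nat_lit 0) (nat_lit 0) (XT.lf (nat_lit 0) (nat_lit 5960727443) (nat_lit 228) (nat_lit 22992368035) (nat_lit 304) (nat_lit 39842471168) (nat_lit 46) (nat_lit 5) (nat_lit 49) (nat_lit 5) (nat_lit 50) (nat_lit 5) (nat_lit 382) (nat_lit 312) (nat_lit 86)) (XT.nd (nat_lit 78) (nat_lit 0) (nat_lit 0) (XT.lf (nat_lit 0) (nat_lit 34845075500) (nat_lit 228) (nat_lit 5431696370) (nat_lit 304) (nat_lit 30034621719) (nat_lit 46) (nat_lit 5) (nat_lit 49) (nat_lit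 5) (nat_lit 50) (nat_lit 5) (nat_lit 383) (nat_lit 312) (nat_lit 85)) (XT.lf (nat_lit 0) (nat_lit 52060506637) (nat_lit 304) (nat_lit 7400470838) (nat_lit 76) (nat_lit 12408108466) (nat_lit 46) (nat_lit 5) (nat_lit 50) (nat_lit 5) (nat_lit 47) (nat_lit 5) (nat_lit 384) (nat_lit 312) (nat_lit 84))))) (XT.nd (nat_lit 234) (nat_lit 0) (nat_lit 0) (XT.nd (nat_lit 78) (nat_lit 304) (nat_lit 0) (XT.lf (nat_lit 0) (nat_lit 21878486908) (nat_lit 152) (nat_lit 42582086021) (nat_lit 228) (nat_lit 9005052565) (nat_lit 44) (nat_lit 5) (nat_lit 46) (nat_lit 5) (nat_lit 47) (nat_lit 5) (nat_lit 385) (nat_lit 312) (nat_lit 83)) (XT.nd (nat_lit 78) (nat_lit 228) (nat_lit 0) (XT.lf (nat_lit 0) (nat_lit 2155366293) (nat_lit 228) (nat_lit 22943467199) (nat_lit 76) (nat_lit 50008390427) (nat_lit 43) (nat_lit 5) (nat_lit 46) (nat_lit 5) (nat_lit 44) (nat_lit 5) (nat_lit 386) (nat_lit 312) (nat_lit 82)) (XT.lf (nat_lit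 0) (nat_lit 6597127744) (nat_lit 228) (nat_lit 6934665144) (nat_lit 304) (nat_lit 63261737934) (nat_lit 40) (nat_lit 5) (nat_lit 43) (nat_lit 5) (nat_lit 44) (nat_lit 5) (nat_lit 387) (nat_lit 312) (nat_lit 81)))) (XT.nd (nat_lit 34788) (nat_lit 0) (nat_lit 10260) (XT.nd (nat_lit 78) (nat_lit 0) (nat_lit 0) (XT.lf (nat_lit 0) (nat_lit 25595455469) (nat_lit 304) (nat_lit 41146666536) (nat_lit 76) (nat_lit 11777927532) (nat_lit 40) (nat_lit 5) (nat_lit 44) (nat_lit 5) (nat_lit 41) (nat_lit 5) (nat_lit 388) (nat_lit 312) (nat_lit 80)) (XT.lf (nat_lit 0) (nat_lit 38088505693) (nat_lit 304) (nat_lit 11296012839) (nat_lit 76) (nat_lit 30911821825) (nat_lit 40) (nat_lit 5) (nat_lit 44) (nat_lit 5) (nat_lit 41) (nat_lit 5) (nat_lit 389) (nat_lit 312) (nat_lit 79))) (XT.nd (nat_lit 78) (nat_lit 0) (nat_lit 0) (XT.lf (nat_lit 0) (nat_lit 459435333) (nat_lit 0) (nat_lit 459435333) (nat_lit 1140) (nat_lit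 8952003998) (nat_lit 175) (nat_lit 5) (nat_lit 175) (nat_lit 3) (nat_lit 190) (nat_lit 3) (nat_lit 313) (nat_lit 313) (nat_lit 154)) (XT.lf (nat_lit 0) (nat_lit 2101370939) (nat_lit 1140) (nat_lit 10201650410) (nat_lit 1216) (nat_lit 7727526620) (nat_lit 175) (nat_lit 5) (nat_lit 190) (nat_lit 3) (nat_lit 191) (nat_lit 5) (nat_lit 314) (nat_lit 313) (nat_lit 153)))))) (XT.nd (nat_lit 468) (nat_lit 0) (nat_lit 228) (XT.nd (nat_lit 234) (nat_lit 0) (nat_lit 152) (XT.nd (nat_lit 78) (nat_lit 0) (nat_lit 76) (XT.lf (nat_lit 0) (nat_lit 2375781035) (nat_lit 1140) (nat_lit 1334238478) (nat_lit 1216) (nat_lit 16617914493) (nat_lit 175) (nat_lit 5) (nat_lit 190) (nat_lit 3) (nat_lit 191) (nat_lit 5) (nat_lit 315) (nat_lit 313) (nat_lit 152)) (XT.nd (nat_lit 78) (nat_lit 0) (nat_lit 0) (XT.lf (nat_lit 0) (nat_lit 2779009199) (nat_lit 1140) (nat_lit 12731246580) (nat_lit 1216) (nat_lit 5120377583) (nat_lit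 176) (nat_lit 5) (nat_lit 191) (nat_lit 5) (nat_lit 192) (nat_lit 5) (nat_lit 316) (nat_lit 313) (nat_lit 151)) (XT.lf (nat_lit 0) (nat_lit 3238799639) (nat_lit 1140) (nat_lit 3544941890) (nat_lit 1216) (nat_lit 14157347243) (nat_lit 176) (nat_lit 5) (nat_lit 191) (nat_lit 5) (nat_lit 192) (nat_lit 5) (nat_lit 317) (nat_lit 313) (nat_lit 150)))) (XT.nd (nat_lit 78) (nat_lit 0) (nat_lit 0) (XT.lf (nat_lit 0) (nat_lit 3786445893) (nat_lit 1140) (nat_lit 15249779753) (nat_lit 1216) (nat_lit 2222419112) (nat_lit 177) (nat_lit 5) (nat_lit 192) (nat_lit 5) (nat_lit 193) (nat_lit 5) (nat_lit 318) (nat_lit 313) (nat_lit 149)) (XT.nd (nat_lit 78) (nat_lit 0) (nat_lit 0) (XT.lf (nat_lit 0) (nat_lit 4448291845) (nat_lit 1140) (nat_lit 5733721760) (nat_lit 1216) (nat_lit 11400789229) (nat_lit 177) (nat_lit 5) (nat_lit 192) (nat_lit 5) (nat_lit 193) (nat_lit 5) (nat_lit 319) (nat_lit 313) (nat_lit 148))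 (XT.lf (nat_lit 76) (nat_lit 4145307854) (nat_lit 0) (nat_lit 1019147277) (nat_lit 1216) (nat_lit 16751204932) (nat_lit 178) (nat_lit 5) (nat_lit 177) (nat_lit 5) (nat_lit 193) (nat_lit 5) (nat_lit 320) (nat_lit 313) (nat_lit 147))))) (XT.nd (nat_lit 234) (nat_lit 0) (nat_lit 76) (XT.nd (nat_lit 78) (nat_lit 0) (nat_lit 0) (XT.lf (nat_lit 0) (nat_lit 6036258129) (nat_lit 1140) (nat_lit 7903570773) (nat_lit 1216) (nat_lit 8314657495) (nat_lit 178) (nat_lit 5) (nat_lit 193) (nat_lit 5) (nat_lit 194) (nat_lit 5) (nat_lit 321) (nat_lit 313) (nat_lit 146)) (XT.nd (nat_lit 78) (nat_lit 0) (nat_lit 76) (XT.lf (nat_lit 76) (nat_lit 2290369585) (nat_lit 0) (nat_lit 4670862747) (nat_lit 1216) (nat_lit 15641442472) (nat_lit 179) (nat_lit 5) (nat_lit 178) (nat_lit 5) (nat_lit 194) (nat_lit 5) (nat_lit 322) (nat_lit 313) (nat_lit 145)) (XT.lf (nat_lit 0) (nat_lit 8036469845) (nat_lit 1140) (nat_lit 10058019218)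 (nat_lit 1216) (nat_lit 4863151948) (nat_lit 179) (nat_lit 5) (nat_lit 194) (nat_lit 5) (nat_lit 195) (nat_lit 5) (nat_lit 323) (nat_lit 313) (nat_lit 144)))) (XT.nd (nat_lit 156) (nat_lit 0) (nat_lit 76) (XT.nd (nat_lit 78) (nat_lit 0) (nat_lit 76) (XT.lf (nat_lit 76) (nat_lit 463207140) (nat_lit 0) (nat_lit 8726641144) (nat_lit 1216) (nat_lit 14132038753) (nat_lit 180) (nat_lit 5) (nat_lit 179) (nat_lit 5) (nat_lit 195) (nat_lit 5) (nat_lit 324) (nat_lit 313) (nat_lit 143)) (XT.lf (nat_lit 0) (nat_lit 10484569355) (nat_lit 1140) (nat_lit 12201241662) (nat_lit 1216) (nat_lit 1008054326) (nat_lit 180) (nat_lit 5) (nat_lit 195) (nat_lit 5) (nat_lit 196) (nat_lit 5) (nat_lit 325) (nat_lit 313) (nat_lit 142))) (XT.nd (nat_lit 78) (nat_lit 0) (nat_lit 0) (XT.lf (nat_lit 0) (nat_lit 11899975454) (nat_lit 1140) (nat_lit 1313984865) (nat_lit 1216) (nat_lit 10860594303) (nat_lit 180) (nat_lit 5) (nat_lit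 195) (nat_lit 5) (nat_lit 196) (nat_lit 5) (nat_lit 326) (nat_lit 313) (nat_lit 141)) (XT.lf (nat_lit 76) (nat_lit 10093448987) (nat_lit 0) (nat_lit 3356992951) (nat_lit 1216) (nat_lit 11013451422) (nat_lit 181) (nat_lit 5) (nat_lit 180) (nat_lit 5) (nat_lit 196) (nat_lit 5) (nat_lit 327) (nat_lit 313) (nat_lit 140))))))) (XT.nd (nat_lit 1014) (nat_lit 2736) (nat_lit 0) (XT.nd (nat_lit 468) (nat_lit 1748) (nat_lit 0) (XT.nd (nat_lit 234) (nat_lit 1596) (nat_lit 0) (XT.nd (nat_lit 78) (nat_lit 0) (nat_lit 0) (XT.lf (nat_lit 0) (nat_lit 15121826332) (nat_lit 1140) (nat_lit 3063441113) (nat_lit 1216) (nat_lit 6677419226) (nat_lit 181) (nat_lit 5) (nat_lit 196) (nat_lit 5) (nat_lit 197) (nat_lit 5) (nat_lit 328) (nat_lit 313) (nat_lit 139)) (XT.nd (nat_lit 78) (nat_lit 0) (nat_lit 76) (XT.lf (nat_lit 76) (nat_lit 8716209100) (nat_lit 0) (nat_lit 8239971688) (nat_lit 1216) (nat_lit 8313884477) (nat_lit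 182) (nat_lit 5) (nat_lit 181) (nat_lit 5) (nat_lit 197) (nat_lit 5) (nat_lit 329) (nat_lit 313) (nat_lit 138)) (XT.lf (nat_lit 0) (nat_lit 18891969690) (nat_lit 1140) (nat_lit 4799770817) (nat_lit 76) (nat_lit 1996538751) (nat_lit 182) (nat_lit 5) (nat_lit 197) (nat_lit 5) (nat_lit 183) (nat_lit 5) (nat_lit 330) (nat_lit 313) (nat_lit 137)))) (XT.nd (nat_lit 78) (nat_lit 532) (nat_lit 0) (XT.lf (nat_lit 0) (nat_lit 7365673262) (nat_lit 1140) (nat_lit 13668567738) (nat_lit 1216) (nat_lit 5080352383) (nat_lit 167) (nat_lit 5) (nat_lit 182) (nat_lit 5) (nat_lit 183) (nat_lit 5) (nat_lit 331) (nat_lit 313) (nat_lit 136)) (XT.nd (nat_lit 78) (nat_lit 532) (nat_lit 0) (XT.lf (nat_lit 0) (nat_lit 19991093934) (nat_lit 1140) (nat_lit 3294259712) (nat_lit 1216) (nat_lit 3267011893) (nat_lit 167) (nat_lit 5) (nat_lit 182) (nat_lit 5) (nat_lit 183) (nat_lit 5) (nat_lit 332) (nat_lit 313) (nat_lit 135))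 (XT.lf (nat_lit 0) (nat_lit 6035324939) (nat_lit 532) (nat_lit 19693962649) (nat_lit 608) (nat_lit 1270230265) (nat_lit 160) (nat_lit 5) (nat_lit 167) (nat_lit 5) (nat_lit 168) (nat_lit 5) (nat_lit 333) (nat_lit 313) (nat_lit 134))))) (XT.nd (nat_lit 234) (nat_lit 1064) (nat_lit 0) (XT.nd (nat_lit 78) (nat_lit 608) (nat_lit 0) (XT.lf (nat_lit 0) (nat_lit 866895483) (nat_lit 608) (nat_lit 8358059636) (nat_lit 76) (nat_lit 18232034514) (nat_lit 159) (nat_lit 5) (nat_lit 167) (nat_lit 5) (nat_lit 160) (nat_lit 5) (nat_lit 334) (nat_lit 313) (nat_lit 133)) (XT.nd (nat_lit 78) (nat_lit 0) (nat_lit 0) (XT.lf (nat_lit 0) (nat_lit 3099724156) (nat_lit 684) (nat_lit 23240031857) (nat_lit 76) (nat_lit 1586343825) (nat_lit 151) (nat_lit 5) (nat_lit 160) (nat_lit 5) (nat_lit 152) (nat_lit 5) (nat_lit 335) (nat_lit 313) (nat_lit 132)) (XT.lf (nat_lit 0) (nat_lit 5572553576) (nat_lit 684) (nat_lit 10209501790)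 (nat_lit 76) (nat_lit 12622042511) (nat_lit 151) (nat_lit 5) (nat_lit 160) (nat_lit 5) (nat_lit 152) (nat_lit 5) (nat_lit 336) (nat_lit 313) (nat_lit 131)))) (XT.nd (nat_lit 156) (nat_lit 532) (nat_lit 0) (XT.nd (nat_lit 78) (nat_lit 0) (nat_lit 0) (XT.lf (nat_lit 0) (nat_lit 3272471731) (nat_lit 532) (nat_lit 4875100761) (nat_lit 608) (nat_lit 20748028087) (nat_lit 144) (nat_lit 5) (nat_lit 151) (nat_lit 5) (nat_lit 152) (nat_lit 5) (nat_lit 337) (nat_lit 313) (nat_lit 130)) (XT.lf (nat_lit 0) (nat_lit 10961703172) (nat_lit 608) (nat_lit 12096118758) (nat_lit 76) (nat_lit 6339175312) (nat_lit 144) (nat_lit 5) (nat_lit 152) (nat_lit 5) (nat_lit 145) (nat_lit 5) (nat_lit 338) (nat_lit 313) (nat_lit 129))) (XT.nd (nat_lit 78) (nat_lit 0) (nat_lit 0) (XT.lf (nat_lit 0) (nat_lit 1820655459) (nat_lit 532) (nat_lit 12102087713) (nat_lit 608) (nat_lit 15988822650) (nat_lit 137) (nat_lit 5) (nat_lit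 144) (nat_lit 5) (nat_lit 145) (nat_lit 5) (nat_lit 339) (nat_lit 313) (nat_lit 128)) (XT.lf (nat_lit 0) (nat_lit 16399618487) (nat_lit 532) (nat_lit 691922983) (nat_lit 608) (nat_lit 13346466624) (nat_lit 137) (nat_lit 5) (nat_lit 144) (nat_lit 5) (nat_lit 145) (nat_lit 5) (nat_lit 340) (nat_lit 313) (nat_lit 127)))))) (XT.nd (nat_lit 468) (nat_lit 1292) (nat_lit 0) (XT.nd (nat_lit 234) (nat_lit 988) (nat_lit 0) (XT.nd (nat_lit 78) (nat_lit 0) (nat_lit 0) (XT.lf (nat_lit 0) (nat_lit 332601002) (nat_lit 456) (nat_lit 20129193927) (nat_lit 532) (nat_lit 10515261285) (nat_lit 131) (nat_lit 5) (nat_lit 137) (nat_lit 5) (nat_lit 138) (nat_lit 5) (nat_lit 341) (nat_lit 313) (nat_lit 126)) (XT.nd (nat_lit 78) (nat_lit 0) (nat_lit 0) (XT.lf (nat_lit 0) (nat_lit 15412264331) (nat_lit 456) (nat_lit 8666368629) (nat_lit 532) (nat_lit 7449282701) (nat_lit 131) (nat_lit 5) (nat_lit 137) (nat_lit 5) (nat_lit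 138) (nat_lit 5) (nat_lit 342) (nat_lit 313) (nat_lit 125)) (XT.lf (nat_lit 0) (nat_lit 27831183893) (nat_lit 532) (nat_lit 1184410660) (nat_lit 76) (nat_lit 3078894173) (nat_lit 131) (nat_lit 5) (nat_lit 138) (nat_lit 5) (nat_lit 132) (nat_lit 5) (nat_lit 343) (nat_lit 313) (nat_lit 124)))) (XT.nd (nat_lit 78) (nat_lit 532) (nat_lit 0) (XT.lf (nat_lit 0) (nat_lit 14386548923) (nat_lit 456) (nat_lit 17530968019) (nat_lit 532) (nat_lit 753909824) (nat_lit 125) (nat_lit 5) (nat_lit 131) (nat_lit 5) (nat_lit 132) (nat_lit 5) (nat_lit 344) (nat_lit 313) (nat_lit 123)) (XT.nd (nat_lit 78) (nat_lit 456) (nat_lit 0) (XT.lf (nat_lit 0) (nat_lit 2814151896) (nat_lit 532) (nat_lit 2847191511) (nat_lit 76) (nat_lit 27603232019) (nat_lit 124) (nat_lit 5) (nat_lit 131) (nat_lit 5) (nat_lit 125) (nat_lit 5) (nat_lit 345) (nat_lit 313) (nat_lit 122)) (XT.lf (nat_lit 0) (nat_lit 6663627472) (nat_lit 532) (nat_lit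 20633323261) (nat_lit 76) (nat_lit 6572661748) (nat_lit 118) (nat_lit 5) (nat_lit 125) (nat_lit 5) (nat_lit 119) (nat_lit 5) (nat_lit 346) (nat_lit 313) (nat_lit 121))))) (XT.nd (nat_lit 234) (nat_lit 836) (nat_lit 0) (XT.nd (nat_lit 78) (nat_lit 456) (nat_lit 0) (XT.lf (nat_lit 0) (nat_lit 10710938353) (nat_lit 532) (nat_lit 4690772481) (nat_lit 76) (nat_lit 19088622795) (nat_lit 118) (nat_lit 5) (nat_lit 125) (nat_lit 5) (nat_lit 119) (nat_lit 5) (nat_lit 347) (nat_lit 313) (nat_lit 120)) (XT.nd (nat_lit 78) (nat_lit 0) (nat_lit 0) (XT.lf (nat_lit 0) (nat_lit 11960400852) (nat_lit 456) (nat_lit 3031580550) (nat_lit 532) (nat_lit 20134329031) (nat_lit 112) (nat_lit 5) (nat_lit 118) (nat_lit 5) (nat_lit 119) (nat_lit 5) (nat_lit 348) (nat_lit 313) (nat_lit 119)) (XT.lf (nat_lit 0) (nat_lit 19540014156) (nat_lit 532) (nat_lit 6669576325) (nat_lit 76) (nat_lit 9567622616) (nat_lit 112) (nat_lit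 5) (nat_lit 119) (nat_lit 5) (nat_lit 113) (nat_lit 5) (nat_lit 349) (nat_lit 313) (nat_lit 118)))) (XT.nd (nat_lit 156) (nat_lit 456) (nat_lit 0) (XT.nd (nat_lit 78) (nat_lit 0) (nat_lit 0) (XT.lf (nat_lit 0) (nat_lit 10493392920) (nat_lit 380) (nat_lit 13859442340) (nat_lit 456) (nat_lit 12090960371) (nat_lit 107) (nat_lit 5) (nat_lit 112) (nat_lit 5) (nat_lit 113) (nat_lit 5) (nat_lit 350) (nat_lit 313) (nat_lit 117)) (XT.lf (nat_lit 0) (nat_lit 28304998202) (nat_lit 380) (nat_lit 1069900569) (nat_lit 456) (nat_lit 7753534256) (nat_lit 107) (nat_lit 5) (nat_lit 112) (nat_lit 5) (nat_lit 113) (nat_lit 5) (nat_lit 351) (nat_lit 313) (nat_lit 116))) (XT.nd (nat_lit 78) (nat_lit 76) (nat_lit 0) (XT.lf (nat_lit 0) (nat_lit 8871148214) (nat_lit 380) (nat_lit 25875671684) (nat_lit 456) (nat_lit 3080816803) (nat_lit 102) (nat_lit 5) (nat_lit 107) (nat_lit 5) (nat_lit 108) (nat_lit 5) (nat_lit 352)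 (nat_lit 313) (nat_lit 115)) (XT.lf (nat_lit 0) (nat_lit 1796449855) (nat_lit 456) (nat_lit 11298807203) (nat_lit 76) (nat_lit 25449117781) (nat_lit 101) (nat_lit 5) (nat_lit 107) (nat_lit 5) (nat_lit 102) (nat_lit 5) (nat_lit 353) (nat_lit 313) (nat_lit 114))))))))
noncomputable def xc221 : XT := (XT.nd (nat_lit 2028) (nat_lit 912) (nat_lit 0) (XT.nd (nat_lit 1014) (nat_lit 1596) (nat_lit 0) (XT.nd (nat_lit 468) (nat_lit 1064) (nat_lit 0) (XT.nd (nat_lit 234) (nat_lit 304) (nat_lit 0) (XT.nd (nat_lit 78) (nat_lit 380) (nat_lit 0) (XT.lf (nat_lit 0) (nat_lit 6824604656) (nat_lit 456) (nat_lit 32289736807) (nat_lit 76) (nat_lit 165366591) (nat_lit 96) (nat_lit 5) (nat_lit 102) (nat_lit 5) (nat_lit 97) (nat_lit 5) (nat_lit 354) (nat_lit 313) (nat_lit 113)) (XT.nd (nat_lit 78) (nat_lit 380) (nat_lit 0) (XT.lf (nat_lit 0) (nat_lit 12246183015) (nat_lit 456) (nat_lit 14108366695) (nat_lit 76) (nat_lit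 13675276877) (nat_lit 96) (nat_lit 5) (nat_lit 102) (nat_lit 5) (nat_lit 97) (nat_lit 5) (nat_lit 355) (nat_lit 313) (nat_lit 112)) (XT.lf (nat_lit 0) (nat_lit 4707459194) (nat_lit 380) (nat_lit 13165965016) (nat_lit 456) (nat_lit 22927736612) (nat_lit 91) (nat_lit 5) (nat_lit 96) (nat_lit 5) (nat_lit 97) (nat_lit 5) (nat_lit 356) (nat_lit 313) (nat_lit 111)))) (XT.nd (nat_lit 78) (nat_lit 304) (nat_lit 0) (XT.lf (nat_lit 0) (nat_lit 23815177369) (nat_lit 456) (nat_lit 17222704259) (nat_lit 76) (nat_lit 553385151) (nat_lit 91) (nat_lit 5) (nat_lit 97) (nat_lit 5) (nat_lit 92) (nat_lit 5) (nat_lit 357) (nat_lit 313) (nat_lit 110)) (XT.nd (nat_lit 78) (nat_lit 0) (nat_lit 0) (XT.lf (nat_lit 0) (nat_lit 2122692764) (nat_lit 304) (nat_lit 27961111834) (nat_lit 380) (nat_lit 12316815135) (nat_lit 87) (nat_lit 5) (nat_lit 91) (nat_lit 5) (nat_lit 92) (nat_lit 5) (nat_lit 358) (nat_lit 313) (nat_lit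 109)) (XT.lf (nat_lit 0) (nat_lit 22398732101) (nat_lit 304) (nat_lit 14313570549) (nat_lit 380) (nat_lit 6516798655) (nat_lit 87) (nat_lit 5) (nat_lit 91) (nat_lit 5) (nat_lit 92) (nat_lit 5) (nat_lit 359) (nat_lit 313) (nat_lit 108))))) (XT.nd (nat_lit 234) (nat_lit 608) (nat_lit 0) (XT.nd (nat_lit 78) (nat_lit 456) (nat_lit 0) (XT.lf (nat_lit 0) (nat_lit 43280365092) (nat_lit 304) (nat_lit 257248282) (nat_lit 380) (nat_lit 544887538) (nat_lit 87) (nat_lit 5) (nat_lit 91) (nat_lit 5) (nat_lit 92) (nat_lit 5) (nat_lit 360) (nat_lit 313) (nat_lit 107)) (XT.nd (nat_lit 78) (nat_lit 0) (nat_lit 0) (XT.lf (nat_lit 0) (nat_lit 5827752098) (nat_lit 456) (nat_lit 24929405439) (nat_lit 76) (nat_lit 14192801418) (nat_lit 81) (nat_lit 5) (nat_lit 87) (nat_lit 5) (nat_lit 82) (nat_lit 5) (nat_lit 361) (nat_lit 313) (nat_lit 106)) (XT.lf (nat_lit 0) (nat_lit 12389368674) (nat_lit 456) (nat_lit 4369533664)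 (nat_lit 76) (nat_lit 29084116194) (nat_lit 81) (nat_lit 5) (nat_lit 87) (nat_lit 5) (nat_lit 82) (nat_lit 5) (nat_lit 362) (nat_lit 313) (nat_lit 105)))) (XT.nd (nat_lit 156) (nat_lit 304) (nat_lit 0) (XT.nd (nat_lit 78) (nat_lit 0) (nat_lit 0) (XT.lf (nat_lit 0) (nat_lit 17138975148) (nat_lit 304) (nat_lit 2171688756) (nat_lit 380) (nat_lit 27447323147) (nat_lit 77) (nat_lit 5) (nat_lit 81) (nat_lit 5) (nat_lit 82) (nat_lit 5) (nat_lit 363) (nat_lit 313) (nat_lit 104)) (XT.lf (nat_lit 0) (nat_lit 26605815232) (nat_lit 380) (nat_lit 8443388461) (nat_lit 76) (nat_lit 12646216420) (nat_lit 77) (nat_lit 5) (nat_lit 82) (nat_lit 5) (nat_lit 78) (nat_lit 5) (nat_lit 364) (nat_lit 313) (nat_lit 103))) (XT.nd (nat_lit 78) (nat_lit 0) (nat_lit 0) (XT.lf (nat_lit 0) (nat_lit 13609010392) (nat_lit 304) (nat_lit 20661290311) (nat_lit 380) (nat_lit 14386163018) (nat_lit 73) (nat_lit 5) (nat_lit 77) (nat_lit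 5) (nat_lit 78) (nat_lit 5) (nat_lit 365) (nat_lit 313) (nat_lit 102)) (XT.lf (nat_lit 0) (nat_lit 36493535186) (nat_lit 304) (nat_lit 5754636134) (nat_lit 380) (nat_lit 7395665686) (nat_lit 73) (nat_lit 5) (nat_lit 77) (nat_lit 5) (nat_lit 78) (nat_lit 5) (nat_lit 366) (nat_lit 313) (nat_lit 101)))))) (XT.nd (nat_lit 468) (nat_lit 760) (nat_lit 0) (XT.nd (nat_lit 234) (nat_lit 228) (nat_lit 0) (XT.nd (nat_lit 78) (nat_lit 380) (nat_lit 0) (XT.lf (nat_lit 0) (nat_lit 9494256314) (nat_lit 228) (nat_lit 41152894874) (nat_lit 304) (nat_lit 8228940) (nat_lit 70) (nat_lit 5) (nat_lit 73) (nat_lit 5) (nat_lit 74) (nat_lit 5) (nat_lit 367) (nat_lit 313) (nat_lit 100)) (XT.nd (nat_lit 78) (nat_lit 304) (nat_lit 0) (XT.lf (nat_lit 0) (nat_lit 7641838586) (nat_lit 304) (nat_lit 18739435154) (nat_lit 76) (nat_lit 25308125797) (nat_lit 69) (nat_lit 5) (nat_lit 73) (nat_lit 5) (nat_lit 70) (nat_lit 5) (nat_lit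 368) (nat_lit 313) (nat_lit 99)) (XT.lf (nat_lit 0) (nat_lit 4439003185) (nat_lit 304) (nat_lit 11123204763) (nat_lit 380) (nat_lit 37191001856) (nat_lit 65) (nat_lit 5) (nat_lit 69) (nat_lit 5) (nat_lit 70) (nat_lit 5) (nat_lit 369) (nat_lit 313) (nat_lit 98)))) (XT.nd (nat_lit 78) (nat_lit 228) (nat_lit 0) (XT.lf (nat_lit 0) (nat_lit 23953754599) (nat_lit 380) (nat_lit 25194804650) (nat_lit 76) (nat_lit 4693369773) (nat_lit 65) (nat_lit 5) (nat_lit 70) (nat_lit 5) (nat_lit 66) (nat_lit 5) (nat_lit 370) (nat_lit 313) (nat_lit 97)) (XT.nd (nat_lit 78) (nat_lit 228) (nat_lit 0) (XT.lf (nat_lit 0) (nat_lit 32705541626) (nat_lit 380) (nat_lit 1494341088) (nat_lit 76) (nat_lit 20760173861) (nat_lit 65) (nat_lit 5) (nat_lit 70) (nat_lit 5) (nat_lit 66) (nat_lit 5) (nat_lit 371) (nat_lit 313) (nat_lit 96)) (XT.lf (nat_lit 0) (nat_lit 23370866030) (nat_lit 228) (nat_lit 18572082205) (nat_lit 304) (nat_lit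 14162089276) (nat_lit 62) (nat_lit 5) (nat_lit 65) (nat_lit 5) (nat_lit 66) (nat_lit 5) (nat_lit 372) (nat_lit 313) (nat_lit 95))))) (XT.nd (nat_lit 234) (nat_lit 456) (nat_lit 0) (XT.nd (nat_lit 78) (nat_lit 304) (nat_lit 0) (XT.lf (nat_lit 0) (nat_lit 49010364512) (nat_lit 228) (nat_lit 2460637556) (nat_lit 304) (nat_lit 5812961546) (nat_lit 62) (nat_lit 5) (nat_lit 65) (nat_lit 5) (nat_lit 66) (nat_lit 5) (nat_lit 373) (nat_lit 313) (nat_lit 94)) (XT.nd (nat_lit 78) (nat_lit 0) (nat_lit 0) (XT.lf (nat_lit 0) (nat_lit 3034096155) (nat_lit 304) (nat_lit 41402377304) (nat_lit 76) (nat_lit 14051926832) (nat_lit 58) (nat_lit 5) (nat_lit 62) (nat_lit 5) (nat_lit 59) (nat_lit 5) (nat_lit 374) (nat_lit 313) (nat_lit 93)) (XT.lf (nat_lit 0) (nat_lit 12136948323) (nat_lit 304) (nat_lit 16435453263) (nat_lit 76) (nat_lit 31151626699) (nat_lit 58) (nat_lit 5) (nat_lit 62) (nat_lit 5) (nat_lit 59) (nat_lit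 5) (nat_lit 375) (nat_lit 313) (nat_lit 92)))) (XT.nd (nat_lit 156) (nat_lit 228) (nat_lit 0) (XT.nd (nat_lit 78) (nat_lit 0) (nat_lit 0) (XT.lf (nat_lit 0) (nat_lit 9462920574) (nat_lit 228) (nat_lit 12139453553) (nat_lit 304) (nat_lit 39391667672) (nat_lit 55) (nat_lit 5) (nat_lit 58) (nat_lit 5) (nat_lit 59) (nat_lit 5) (nat_lit 376) (nat_lit 313) (nat_lit 91)) (XT.lf (nat_lit 0) (nat_lit 31563921877) (nat_lit 304) (nat_lit 25871903942) (nat_lit 76) (nat_lit 4859966409) (nat_lit 55) (nat_lit 5) (nat_lit 59) (nat_lit 5) (nat_lit 56) (nat_lit 5) (nat_lit 377) (nat_lit 313) (nat_lit 90))) (XT.nd (nat_lit 78) (nat_lit 0) (nat_lit 0) (XT.lf (nat_lit 0) (nat_lit 443384545) (nat_lit 228) (nat_lit 41503968239) (nat_lit 304) (nat_lit 21685552532) (nat_lit 52) (nat_lit 5) (nat_lit 55) (nat_lit 5) (nat_lit 56) (nat_lit 5) (nat_lit 378) (nat_lit 313) (nat_lit 89)) (XT.lf (nat_lit 0) (nat_lit 28076336842)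 (nat_lit 228) (nat_lit 24825808002) (nat_lit 304) (nat_lit 12100192416) (nat_lit 52) (nat_lit 5) (nat_lit 55) (nat_lit 5) (nat_lit 56) (nat_lit 5) (nat_lit 379) (nat_lit 313) (nat_lit 88))))))) (XT.nd (nat_lit 35724) (nat_lit 0) (nat_lit 10336) (XT.nd (nat_lit 468) (nat_lit 456) (nat_lit 0) (XT.nd (nat_lit 234) (nat_lit 228) (nat_lit 0) (XT.nd (nat_lit 78) (nat_lit 228) (nat_lit 0) (XT.lf (nat_lit 0) (nat_lit 56536196630) (nat_lit 228) (nat_lit 7648027460) (nat_lit 304) (nat_lit 2228669946) (nat_lit 52) (nat_lit 5) (nat_lit 55) (nat_lit 5) (nat_lit 56) (nat_lit 5) (nat_lit 380) (nat_lit 313) (nat_lit 87)) (XT.nd (nat_lit 78) (nat_lit 0) (nat_lit 0) (XT.lf (nat_lit 0) (nat_lit 8057341116) (nat_lit 228) (nat_lit 49695217934) (nat_lit 76) (nat_lit 10102722297) (nat_lit 49) (nat_lit 5) (nat_lit 52) (nat_lit 5) (nat_lit 50) (nat_lit 5) (nat_lit 381) (nat_lit 313) (nat_lit 86)) (XT.lf (nat_lit 0)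 (nat_lit 18782265424) (nat_lit 228) (nat_lit 22198396648) (nat_lit 76) (nat_lit 28354363493) (nat_lit 49) (nat_lit 5) (nat_lit 52) (nat_lit 5) (nat_lit 50) (nat_lit 5) (nat_lit 382) (nat_lit 313) (nat_lit 85)))) (XT.nd (nat_lit 78) (nat_lit 0) (nat_lit 0) (XT.lf (nat_lit 0) (nat_lit 6243154208) (nat_lit 228) (nat_lit 23644515854) (nat_lit 304) (nat_lit 40969731111) (nat_lit 46) (nat_lit 5) (nat_lit 49) (nat_lit 5) (nat_lit 50) (nat_lit 5) (nat_lit 383) (nat_lit 313) (nat_lit 84)) (XT.nd (nat_lit 78) (nat_lit 0) (nat_lit 0) (XT.lf (nat_lit 0) (nat_lit 35991015086) (nat_lit 228) (nat_lit 5558119861) (nat_lit 304) (nat_lit 30869627174) (nat_lit 46) (nat_lit 5) (nat_lit 49) (nat_lit 5) (nat_lit 50) (nat_lit 5) (nat_lit 384) (nat_lit 313) (nat_lit 83)) (XT.lf (nat_lit 0) (nat_lit 53684856833) (nat_lit 304) (nat_lit 7523252466) (nat_lit 76) (nat_lit 12815123194) (nat_lit 46) (nat_lit 5) (nat_lit 50)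 (nat_lit 5) (nat_lit 47) (nat_lit 5) (nat_lit 385) (nat_lit 313) (nat_lit 82))))) (XT.nd (nat_lit 234) (nat_lit 0) (nat_lit 0) (XT.nd (nat_lit 78) (nat_lit 304) (nat_lit 0) (XT.lf (nat_lit 0) (nat_lit 22633101144) (nat_lit 152) (nat_lit 43822947093) (nat_lit 228) (nat_lit 9211647757) (nat_lit 44) (nat_lit 5) (nat_lit 46) (nat_lit 5) (nat_lit 47) (nat_lit 5) (nat_lit 386) (nat_lit 313) (nat_lit 81)) (XT.nd (nat_lit 78) (nat_lit 228) (nat_lit 0) (XT.lf (nat_lit 0) (nat_lit 2280528418) (nat_lit 228) (nat_lit 23535123689) (nat_lit 76) (nat_lit 51542927758) (nat_lit 43) (nat_lit 5) (nat_lit 46) (nat_lit 5) (nat_lit 44) (nat_lit 5) (nat_lit 387) (nat_lit 313) (nat_lit 80)) (XT.lf (nat_lit 0) (nat_lit 6890741577) (nat_lit 228) (nat_lit 7106663993) (nat_lit 304) (nat_lit 65098097006) (nat_lit 40) (nat_lit 5) (nat_lit 43) (nat_lit 5) (nat_lit 44) (nat_lit 5) (nat_lit 388) (nat_lit 313) (nat_lit 79))))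 (XT.nd (nat_lit 34866) (nat_lit 0) (nat_lit 10260) (XT.nd (nat_lit 34788) (nat_lit 0) (nat_lit 10260) (XT.lf (nat_lit 0) (nat_lit 26421576749) (nat_lit 304) (nat_lit 42286709520) (nat_lit 76) (nat_lit 12165573916) (nat_lit 40) (nat_lit 5) (nat_lit 44) (nat_lit 5) (nat_lit 41) (nat_lit 5) (nat_lit 389) (nat_lit 313) (nat_lit 78)) (XT.lf (nat_lit 0) (nat_lit 552599636) (nat_lit 0) (nat_lit 552599636) (nat_lit 1140) (nat_lit 9056795423) (nat_lit 175) (nat_lit 5) (nat_lit 175) (nat_lit 3) (nat_lit 190) (nat_lit 3) (nat_lit 314) (nat_lit 314) (nat_lit 152))) (XT.nd (nat_lit 78) (nat_lit 0) (nat_lit 0) (XT.lf (nat_lit 0) (nat_lit 2471207063) (nat_lit 1140) (nat_lit 10342359118) (nat_lit 1216) (nat_lit 7808221878) (nat_lit 175) (nat_lit 5) (nat_lit 190) (nat_lit 3) (nat_lit 191) (nat_lit 5) (nat_lit 315) (nat_lit 314) (nat_lit 151)) (XT.lf (nat_lit 0) (nat_lit 2744913686) (nat_lit 1140) (nat_lit 1213740580)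 (nat_lit 1216) (nat_lit 16969723248) (nat_lit 175) (nat_lit 5) (nat_lit 190) (nat_lit 3) (nat_lit 191) (nat_lit 5) (nat_lit 316) (nat_lit 314) (nat_lit 150)))))) (XT.nd (nat_lit 546) (nat_lit 0) (nat_lit 228) (XT.nd (nat_lit 234) (nat_lit 0) (nat_lit 76) (XT.nd (nat_lit 78) (nat_lit 0) (nat_lit 0) (XT.lf (nat_lit 0) (nat_lit 3151824559) (nat_lit 1140) (nat_lit 12943799414) (nat_lit 1216) (nat_lit 5144799662) (nat_lit 176) (nat_lit 5) (nat_lit 191) (nat_lit 5) (nat_lit 192) (nat_lit 5) (nat_lit 317) (nat_lit 314) (nat_lit 149)) (XT.nd (nat_lit 78) (nat_lit 0) (nat_lit 76) (XT.lf (nat_lit 0) (nat_lit 3616978273) (nat_lit 1140) (nat_lit 3486839115) (nat_lit 1216) (nat_lit 14456641205) (nat_lit 176) (nat_lit 5) (nat_lit 191) (nat_lit 5) (nat_lit 192) (nat_lit 5) (nat_lit 318) (nat_lit 314) (nat_lit 148)) (XT.lf (nat_lit 0) (nat_lit 4173361981) (nat_lit 1140) (nat_lit 15534710371) (nat_lit 1216)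 (nat_lit 2179712259) (nat_lit 177) (nat_lit 5) (nat_lit 192) (nat_lit 5) (nat_lit 193) (nat_lit 5) (nat_lit 319) (nat_lit 314) (nat_lit 147)))) (XT.nd (nat_lit 156) (nat_lit 0) (nat_lit 76) (XT.nd (nat_lit 78) (nat_lit 0) (nat_lit 0) (XT.lf (nat_lit 0) (nat_lit 4847102455) (nat_lit 1140) (nat_lit 5738196739) (nat_lit 1216) (nat_lit 11636619288) (nat_lit 177) (nat_lit 5) (nat_lit 192) (nat_lit 5) (nat_lit 193) (nat_lit 5) (nat_lit 320) (nat_lit 314) (nat_lit 146)) (XT.lf (nat_lit 76) (nat_lit 4435561248) (nat_lit 0) (nat_lit 1143055083) (nat_lit 1216) (nat_lit 16986340999) (nat_lit 178) (nat_lit 5) (nat_lit 177) (nat_lit 5) (nat_lit 193) (nat_lit 5) (nat_lit 321) (nat_lit 314) (nat_lit 145))) (XT.nd (nat_lit 78) (nat_lit 0) (nat_lit 0) (XT.lf (nat_lit 0) (nat_lit 6468152055) (nat_lit 1140) (nat_lit 7970810060) (nat_lit 1216) (nat_lit 8475250504) (nat_lit 178) (nat_lit 5) (nat_lit 193) (nat_lit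 5) (nat_lit 194) (nat_lit 5) (nat_lit 322) (nat_lit 314) (nat_lit 144)) (XT.lf (nat_lit 76) (nat_lit 2527283138) (nat_lit 0) (nat_lit 4887904177) (nat_lit 1216) (nat_lit 15857841199) (nat_lit 179) (nat_lit 5) (nat_lit 178) (nat_lit 5) (nat_lit 194) (nat_lit 5) (nat_lit 323) (nat_lit 314) (nat_lit 143))))) (XT.nd (nat_lit 234) (nat_lit 0) (nat_lit 76) (XT.nd (nat_lit 78) (nat_lit 0) (nat_lit 0) (XT.lf (nat_lit 0) (nat_lit 8514824768) (nat_lit 1140) (nat_lit 10188237116) (nat_lit 1216) (nat_lit 4935828402) (nat_lit 179) (nat_lit 5) (nat_lit 194) (nat_lit 5) (nat_lit 195) (nat_lit 5) (nat_lit 324) (nat_lit 314) (nat_lit 142)) (XT.nd (nat_lit 78) (nat_lit 0) (nat_lit 76) (XT.lf (nat_lit 76) (nat_lit 646944438) (nat_lit 0) (nat_lit 9050582230) (nat_lit 1216) (nat_lit 14316705910) (nat_lit 180) (nat_lit 5) (nat_lit 179) (nat_lit 5) (nat_lit 195) (nat_lit 5) (nat_lit 325) (nat_lit 314) (nat_lit 141))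 (XT.lf (nat_lit 0) (nat_lit 11023752639) (nat_lit 1140) (nat_lit 12394706582) (nat_lit 1216) (nat_lit 979141354) (nat_lit 180) (nat_lit 5) (nat_lit 195) (nat_lit 5) (nat_lit 196) (nat_lit 5) (nat_lit 326) (nat_lit 314) (nat_lit 140)))) (XT.nd (nat_lit 156) (nat_lit 0) (nat_lit 76) (XT.nd (nat_lit 78) (nat_lit 0) (nat_lit 0) (XT.lf (nat_lit 0) (nat_lit 12475077828) (nat_lit 1140) (nat_lit 1185858460) (nat_lit 1216) (nat_lit 11128980480) (nat_lit 180) (nat_lit 5) (nat_lit 195) (nat_lit 5) (nat_lit 196) (nat_lit 5) (nat_lit 327) (nat_lit 314) (nat_lit 139)) (XT.lf (nat_lit 76) (nat_lit 10562155801) (nat_lit 0) (nat_lit 3505144752) (nat_lit 1216) (nat_lit 11123787499) (nat_lit 181) (nat_lit 5) (nat_lit 180) (nat_lit 5) (nat_lit 196) (nat_lit 5) (nat_lit 328) (nat_lit 314) (nat_lit 138))) (XT.nd (nat_lit 78) (nat_lit 0) (nat_lit 0) (XT.lf (nat_lit 0) (nat_lit 15782169778) (nat_lit 1140) (nat_lit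 2987304060) (nat_lit 1216) (nat_lit 6832580397) (nat_lit 181) (nat_lit 5) (nat_lit 196) (nat_lit 5) (nat_lit 197) (nat_lit 5) (nat_lit 329) (nat_lit 314) (nat_lit 137)) (XT.lf (nat_lit 76) (nat_lit 9144088205) (nat_lit 0) (nat_lit 8523046074) (nat_lit 1216) (nat_lit 8354661624) (nat_lit 182) (nat_lit 5) (nat_lit 181) (nat_lit 5) (nat_lit 197) (nat_lit 5) (nat_lit 330) (nat_lit 314) (nat_lit 136))))))))
noncomputable def xc222 : XT := (XT.nd (nat_lit 2028) (nat_lit 3572) (nat_lit 0) (XT.nd (nat_lit 1014) (nat_lit 2660) (nat_lit 0) (XT.nd (nat_lit 468) (nat_lit 1520) (nat_lit 0) (XT.nd (nat_lit 234) (nat_lit 1216) (nat_lit 0) (XT.nd (nat_lit 78) (nat_lit 1140) (nat_lit 0) (XT.lf (nat_lit 0) (nat_lit 19654770735) (nat_lit 1140) (nat_lit 4775696944) (nat_lit 76) (nat_lit 2022284253) (nat_lit 182) (nat_lit 5) (nat_lit 197) (nat_lit 5) (nat_lit 183) (nat_lit 5) (nat_lit 331) (nat_lit 314) (nat_lit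 135)) (XT.nd (nat_lit 78) (nat_lit 0) (nat_lit 0) (XT.lf (nat_lit 0) (nat_lit 7753062742) (nat_lit 1140) (nat_lit 14104137207) (nat_lit 1216) (nat_lit 5034787416) (nat_lit 167) (nat_lit 5) (nat_lit 182) (nat_lit 5) (nat_lit 183) (nat_lit 5) (nat_lit 332) (nat_lit 314) (nat_lit 134)) (XT.lf (nat_lit 0) (nat_lit 20752398870) (nat_lit 1140) (nat_lit 3417856859) (nat_lit 1216) (nat_lit 3172812989) (nat_lit 167) (nat_lit 5) (nat_lit 182) (nat_lit 5) (nat_lit 183) (nat_lit 5) (nat_lit 333) (nat_lit 314) (nat_lit 133)))) (XT.nd (nat_lit 78) (nat_lit 684) (nat_lit 0) (XT.lf (nat_lit 0) (nat_lit 6382418789) (nat_lit 532) (nat_lit 20301026337) (nat_lit 608) (nat_lit 1120320436) (nat_lit 160) (nat_lit 5) (nat_lit 167) (nat_lit 5) (nat_lit 168) (nat_lit 5) (nat_lit 334) (nat_lit 314) (nat_lit 132)) (XT.nd (nat_lit 78) (nat_lit 608) (nat_lit 0) (XT.lf (nat_lit 0) (nat_lit 1071880846) (nat_lit 608) (nat_lit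 8443787254) (nat_lit 76) (nat_lit 18759407876) (nat_lit 159) (nat_lit 5) (nat_lit 167) (nat_lit 5) (nat_lit 160) (nat_lit 5) (nat_lit 335) (nat_lit 314) (nat_lit 131)) (XT.lf (nat_lit 0) (nat_lit 3367937306) (nat_lit 684) (nat_lit 23768214976) (nat_lit 76) (nat_lit 1622227315) (nat_lit 151) (nat_lit 5) (nat_lit 160) (nat_lit 5) (nat_lit 152) (nat_lit 5) (nat_lit 336) (nat_lit 314) (nat_lit 130))))) (XT.nd (nat_lit 234) (nat_lit 988) (nat_lit 0) (XT.nd (nat_lit 78) (nat_lit 532) (nat_lit 0) (XT.lf (nat_lit 0) (nat_lit 5909848073) (nat_lit 684) (nat_lit 10351691856) (nat_lit 76) (nat_lit 12989337938) (nat_lit 151) (nat_lit 5) (nat_lit 160) (nat_lit 5) (nat_lit 152) (nat_lit 5) (nat_lit 337) (nat_lit 314) (nat_lit 129)) (XT.nd (nat_lit 78) (nat_lit 0) (nat_lit 0) (XT.lf (nat_lit 0) (nat_lit 3533132096) (nat_lit 532) (nat_lit 5025592487) (nat_lit 608) (nat_lit 21198509829) (nat_lit 144) (nat_lit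 5) (nat_lit 151) (nat_lit 5) (nat_lit 152) (nat_lit 5) (nat_lit 338) (nat_lit 314) (nat_lit 128)) (XT.lf (nat_lit 0) (nat_lit 11452383559) (nat_lit 608) (nat_lit 12296127424) (nat_lit 76) (nat_lit 6525315630) (nat_lit 144) (nat_lit 5) (nat_lit 152) (nat_lit 5) (nat_lit 145) (nat_lit 5) (nat_lit 339) (nat_lit 314) (nat_lit 127)))) (XT.nd (nat_lit 156) (nat_lit 456) (nat_lit 0) (XT.nd (nat_lit 78) (nat_lit 0) (nat_lit 0) (XT.lf (nat_lit 0) (nat_lit 2036553206) (nat_lit 532) (nat_lit 12462538382) (nat_lit 608) (nat_lit 16304842131) (nat_lit 137) (nat_lit 5) (nat_lit 144) (nat_lit 5) (nat_lit 145) (nat_lit 5) (nat_lit 340) (nat_lit 314) (nat_lit 126)) (XT.lf (nat_lit 0) (nat_lit 17048187705) (nat_lit 532) (nat_lit 710144787) (nat_lit 608) (nat_lit 13587981789) (nat_lit 137) (nat_lit 5) (nat_lit 144) (nat_lit 5) (nat_lit 145) (nat_lit 5) (nat_lit 341) (nat_lit 314) (nat_lit 125))) (XT.nd (nat_lit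 78) (nat_lit 0) (nat_lit 0) (XT.lf (nat_lit 0) (nat_lit 502387118) (nat_lit 456) (nat_lit 20724379535) (nat_lit 532) (nat_lit 10674861194) (nat_lit 131) (nat_lit 5) (nat_lit 137) (nat_lit 5) (nat_lit 138) (nat_lit 5) (nat_lit 342) (nat_lit 314) (nat_lit 124)) (XT.lf (nat_lit 0) (nat_lit 16029785742) (nat_lit 456) (nat_lit 8917922591) (nat_lit 532) (nat_lit 7521442803) (nat_lit 131) (nat_lit 5) (nat_lit 137) (nat_lit 5) (nat_lit 138) (nat_lit 5) (nat_lit 343) (nat_lit 314) (nat_lit 123)))))) (XT.nd (nat_lit 468) (nat_lit 1216) (nat_lit 0) (XT.nd (nat_lit 234) (nat_lit 912) (nat_lit 0) (XT.nd (nat_lit 78) (nat_lit 532) (nat_lit 0) (XT.lf (nat_lit 0) (nat_lit 28808641242) (nat_lit 532) (nat_lit 1064919317) (nat_lit 76) (nat_lit 3179292511) (nat_lit 131) (nat_lit 5) (nat_lit 138) (nat_lit 5) (nat_lit 132) (nat_lit 5) (nat_lit 344) (nat_lit 314) (nat_lit 122)) (XT.nd (nat_lit 78) (nat_lit 76) (nat_lit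 0) (XT.lf (nat_lit 0) (nat_lit 14971649214) (nat_lit 456) (nat_lit 18043239520) (nat_lit 532) (nat_lit 632296454) (nat_lit 125) (nat_lit 5) (nat_lit 131) (nat_lit 5) (nat_lit 132) (nat_lit 5) (nat_lit 345) (nat_lit 314) (nat_lit 121)) (XT.lf (nat_lit 0) (nat_lit 3035873740) (nat_lit 532) (nat_lit 2780663789) (nat_lit 76) (nat_lit 28441678097) (nat_lit 124) (nat_lit 5) (nat_lit 131) (nat_lit 5) (nat_lit 125) (nat_lit 5) (nat_lit 346) (nat_lit 314) (nat_lit 120)))) (XT.nd (nat_lit 78) (nat_lit 456) (nat_lit 0) (XT.lf (nat_lit 0) (nat_lit 6998431894) (nat_lit 532) (nat_lit 21097804847) (nat_lit 76) (nat_lit 6785244292) (nat_lit 118) (nat_lit 5) (nat_lit 125) (nat_lit 5) (nat_lit 119) (nat_lit 5) (nat_lit 347) (nat_lit 314) (nat_lit 119)) (XT.nd (nat_lit 78) (nat_lit 456) (nat_lit 0) (XT.lf (nat_lit 0) (nat_lit 11163233103) (nat_lit 532) (nat_lit 4681478071) (nat_lit 76) (nat_lit 19676235547) (nat_lit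 118) (nat_lit 5) (nat_lit 125) (nat_lit 5) (nat_lit 119) (nat_lit 5) (nat_lit 348) (nat_lit 314) (nat_lit 118)) (XT.lf (nat_lit 0) (nat_lit 12467759701) (nat_lit 456) (nat_lit 3102561104) (nat_lit 532) (nat_lit 20605758514) (nat_lit 112) (nat_lit 5) (nat_lit 118) (nat_lit 5) (nat_lit 119) (nat_lit 5) (nat_lit 349) (nat_lit 314) (nat_lit 117))))) (XT.nd (nat_lit 234) (nat_lit 836) (nat_lit 0) (XT.nd (nat_lit 78) (nat_lit 380) (nat_lit 0) (XT.lf (nat_lit 0) (nat_lit 20251235838) (nat_lit 532) (nat_lit 6721726415) (nat_lit 76) (nat_lit 9873658320) (nat_lit 112) (nat_lit 5) (nat_lit 119) (nat_lit 5) (nat_lit 113) (nat_lit 5) (nat_lit 350) (nat_lit 314) (nat_lit 116)) (XT.nd (nat_lit 78) (nat_lit 0) (nat_lit 0) (XT.lf (nat_lit 0) (nat_lit 10954681543) (nat_lit 380) (nat_lit 14251526757) (nat_lit 456) (nat_lit 12327063891) (nat_lit 107) (nat_lit 5) (nat_lit 112) (nat_lit 5) (nat_lit 113) (nat_lit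 5) (nat_lit 351) (nat_lit 314) (nat_lit 115)) (XT.lf (nat_lit 0) (nat_lit 29296368376) (nat_lit 380) (nat_lit 1078988991) (nat_lit 456) (nat_lit 7863203109) (nat_lit 107) (nat_lit 5) (nat_lit 112) (nat_lit 5) (nat_lit 113) (nat_lit 5) (nat_lit 352) (nat_lit 314) (nat_lit 114)))) (XT.nd (nat_lit 156) (nat_lit 380) (nat_lit 0) (XT.nd (nat_lit 78) (nat_lit 76) (nat_lit 0) (XT.lf (nat_lit 0) (nat_lit 9281578586) (nat_lit 380) (nat_lit 26624987150) (nat_lit 456) (nat_lit 3052234981) (nat_lit 102) (nat_lit 5) (nat_lit 107) (nat_lit 5) (nat_lit 108) (nat_lit 5) (nat_lit 353) (nat_lit 314) (nat_lit 113)) (XT.lf (nat_lit 0) (nat_lit 1965532726) (nat_lit 456) (nat_lit 11495249261) (nat_lit 76) (nat_lit 26236331883) (nat_lit 101) (nat_lit 5) (nat_lit 107) (nat_lit 5) (nat_lit 102) (nat_lit 5) (nat_lit 354) (nat_lit 314) (nat_lit 112))) (XT.nd (nat_lit 78) (nat_lit 0) (nat_lit 0) (XT.lf (nat_lit 0) (nat_lit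 7142802238) (nat_lit 456) (nat_lit 33114044263) (nat_lit 76) (nat_lit 197716455) (nat_lit 96) (nat_lit 5) (nat_lit 102) (nat_lit 5) (nat_lit 97) (nat_lit 5) (nat_lit 355) (nat_lit 314) (nat_lit 111)) (XT.lf (nat_lit 0) (nat_lit 12723723304) (nat_lit 456) (nat_lit 14391438426) (nat_lit 76) (nat_lit 14112126316) (nat_lit 96) (nat_lit 5) (nat_lit 102) (nat_lit 5) (nat_lit 97) (nat_lit 5) (nat_lit 356) (nat_lit 314) (nat_lit 110))))))) (XT.nd (nat_lit 1014) (nat_lit 1520) (nat_lit 0) (XT.nd (nat_lit 468) (nat_lit 912) (nat_lit 0) (XT.nd (nat_lit 234) (nat_lit 456) (nat_lit 0) (XT.nd (nat_lit 78) (nat_lit 304) (nat_lit 0) (XT.lf (nat_lit 0) (nat_lit 4987487933) (nat_lit 380) (nat_lit 13530419688) (nat_lit 456) (nat_lit 23503914659) (nat_lit 91) (nat_lit 5) (nat_lit 96) (nat_lit 5) (nat_lit 97) (nat_lit 5) (nat_lit 357) (nat_lit 314) (nat_lit 109)) (XT.nd (nat_lit 78) (nat_lit 304) (nat_lit 0) (XT.lf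 (nat_lit 0) (nat_lit 24635044441) (nat_lit 456) (nat_lit 17601633045) (nat_lit 76) (nat_lit 599043637) (nat_lit 91) (nat_lit 5) (nat_lit 97) (nat_lit 5) (nat_lit 92) (nat_lit 5) (nat_lit 358) (nat_lit 314) (nat_lit 108)) (XT.lf (nat_lit 0) (nat_lit 2322775376) (nat_lit 304) (nat_lit 28767196042) (nat_lit 380) (nat_lit 12579439552) (nat_lit 87) (nat_lit 5) (nat_lit 91) (nat_lit 5) (nat_lit 92) (nat_lit 5) (nat_lit 359) (nat_lit 314) (nat_lit 107)))) (XT.nd (nat_lit 78) (nat_lit 456) (nat_lit 0) (XT.lf (nat_lit 0) (nat_lit 23203123024) (nat_lit 304) (nat_lit 14711182378) (nat_lit 380) (nat_lit 6608535588) (nat_lit 87) (nat_lit 5) (nat_lit 91) (nat_lit 5) (nat_lit 92) (nat_lit 5) (nat_lit 360) (nat_lit 314) (nat_lit 106)) (XT.nd (nat_lit 78) (nat_lit 456) (nat_lit 0) (XT.lf (nat_lit 0) (nat_lit 44707347851) (nat_lit 304) (nat_lit 234096519) (nat_lit 380) (nat_lit 460489478) (nat_lit 87) (nat_lit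 5) (nat_lit 91) (nat_lit 5) (nat_lit 92) (nat_lit 5) (nat_lit 361) (nat_lit 314) (nat_lit 105)) (XT.lf (nat_lit 0) (nat_lit 6100039648) (nat_lit 456) (nat_lit 25545213675) (nat_lit 76) (nat_lit 14650176110) (nat_lit 81) (nat_lit 5) (nat_lit 87) (nat_lit 5) (nat_lit 82) (nat_lit 5) (nat_lit 362) (nat_lit 314) (nat_lit 104))))) (XT.nd (nat_lit 234) (nat_lit 608) (nat_lit 0) (XT.nd (nat_lit 78) (nat_lit 304) (nat_lit 0) (XT.lf (nat_lit 0) (nat_lit 12855666226) (nat_lit 456) (nat_lit 4372392560) (nat_lit 76) (nat_lit 29987310213) (nat_lit 81) (nat_lit 5) (nat_lit 87) (nat_lit 5) (nat_lit 82) (nat_lit 5) (nat_lit 363) (nat_lit 314) (nat_lit 103)) (XT.nd (nat_lit 78) (nat_lit 0) (nat_lit 0) (XT.lf (nat_lit 0) (nat_lit 17780114387) (nat_lit 304) (nat_lit 2202950619) (nat_lit 380) (nat_lit 28174770587) (nat_lit 77) (nat_lit 5) (nat_lit 81) (nat_lit 5) (nat_lit 82) (nat_lit 5) (nat_lit 364) (nat_lit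 314) (nat_lit 102)) (XT.lf (nat_lit 0) (nat_lit 27494676043) (nat_lit 380) (nat_lit 8570927693) (nat_lit 76) (nat_lit 13057862629) (nat_lit 77) (nat_lit 5) (nat_lit 82) (nat_lit 5) (nat_lit 78) (nat_lit 5) (nat_lit 365) (nat_lit 314) (nat_lit 101)))) (XT.nd (nat_lit 156) (nat_lit 304) (nat_lit 0) (XT.nd (nat_lit 78) (nat_lit 0) (nat_lit 0) (XT.lf (nat_lit 0) (nat_lit 14141810161) (nat_lit 304) (nat_lit 21245841620) (nat_lit 380) (nat_lit 14725735618) (nat_lit 73) (nat_lit 5) (nat_lit 77) (nat_lit 5) (nat_lit 78) (nat_lit 5) (nat_lit 366) (nat_lit 314) (nat_lit 100)) (XT.lf (nat_lit 0) (nat_lit 37709243626) (nat_lit 304) (nat_lit 5893015607) (nat_lit 380) (nat_lit 7528203336) (nat_lit 73) (nat_lit 5) (nat_lit 77) (nat_lit 5) (nat_lit 78) (nat_lit 5) (nat_lit 367) (nat_lit 314) (nat_lit 99))) (XT.nd (nat_lit 78) (nat_lit 0) (nat_lit 0) (XT.lf (nat_lit 0) (nat_lit 78235344) (nat_lit 304) (nat_lit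 42272014390) (nat_lit 76) (nat_lit 9822112786) (nat_lit 69) (nat_lit 5) (nat_lit 73) (nat_lit 5) (nat_lit 70) (nat_lit 5) (nat_lit 368) (nat_lit 314) (nat_lit 98)) (XT.lf (nat_lit 0) (nat_lit 7955118754) (nat_lit 304) (nat_lit 19181364166) (nat_lit 76) (nat_lit 26100995249) (nat_lit 69) (nat_lit 5) (nat_lit 73) (nat_lit 5) (nat_lit 70) (nat_lit 5) (nat_lit 369) (nat_lit 314) (nat_lit 97)))))) (XT.nd (nat_lit 546) (nat_lit 684) (nat_lit 0) (XT.nd (nat_lit 234) (nat_lit 532) (nat_lit 0) (XT.nd (nat_lit 78) (nat_lit 0) (nat_lit 0) (XT.lf (nat_lit 0) (nat_lit 4691248363) (nat_lit 304) (nat_lit 11420548126) (nat_lit 380) (nat_lit 38221447742) (nat_lit 65) (nat_lit 5) (nat_lit 69) (nat_lit 5) (nat_lit 70) (nat_lit 5) (nat_lit 370) (nat_lit 314) (nat_lit 96)) (XT.nd (nat_lit 78) (nat_lit 0) (nat_lit 0) (XT.lf (nat_lit 0) (nat_lit 24753019418) (nat_lit 380) (nat_lit 25832893931) (nat_lit 76) (nat_lit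 4868776115) (nat_lit 65) (nat_lit 5) (nat_lit 70) (nat_lit 5) (nat_lit 66) (nat_lit 5) (nat_lit 371) (nat_lit 314) (nat_lit 95)) (XT.lf (nat_lit 0) (nat_lit 33765010964) (nat_lit 380) (nat_lit 1424846216) (nat_lit 76) (nat_lit 21416576406) (nat_lit 65) (nat_lit 5) (nat_lit 70) (nat_lit 5) (nat_lit 66) (nat_lit 5) (nat_lit 372) (nat_lit 314) (nat_lit 94)))) (XT.nd (nat_lit 156) (nat_lit 304) (nat_lit 0) (XT.nd (nat_lit 78) (nat_lit 0) (nat_lit 0) (XT.lf (nat_lit 0) (nat_lit 24185196282) (nat_lit 228) (nat_lit 19093151006) (nat_lit 304) (nat_lit 14507454638) (nat_lit 62) (nat_lit 5) (nat_lit 65) (nat_lit 5) (nat_lit 66) (nat_lit 5) (nat_lit 373) (nat_lit 314) (nat_lit 93)) (XT.lf (nat_lit 0) (nat_lit 50590582506) (nat_lit 228) (nat_lit 2499414289) (nat_lit 304) (nat_lit 5910168532) (nat_lit 62) (nat_lit 5) (nat_lit 65) (nat_lit 5) (nat_lit 66) (nat_lit 5) (nat_lit 374) (nat_lit 314) (nat_lit 92)))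 (XT.nd (nat_lit 78) (nat_lit 0) (nat_lit 0) (XT.lf (nat_lit 0) (nat_lit 3199996462) (nat_lit 304) (nat_lit 42532100780) (nat_lit 76) (nat_lit 14508641570) (nat_lit 58) (nat_lit 5) (nat_lit 62) (nat_lit 5) (nat_lit 59) (nat_lit 5) (nat_lit 375) (nat_lit 314) (nat_lit 91)) (XT.lf (nat_lit 0) (nat_lit 12573753298) (nat_lit 304) (nat_lit 16819441285) (nat_lit 76) (nat_lit 32120308445) (nat_lit 58) (nat_lit 5) (nat_lit 62) (nat_lit 5) (nat_lit 59) (nat_lit 5) (nat_lit 376) (nat_lit 314) (nat_lit 90))))) (XT.nd (nat_lit 234) (nat_lit 228) (nat_lit 0) (XT.nd (nat_lit 78) (nat_lit 228) (nat_lit 0) (XT.lf (nat_lit 0) (nat_lit 9854814398) (nat_lit 228) (nat_lit 12467248325) (nat_lit 304) (nat_lit 40499588498) (nat_lit 55) (nat_lit 5) (nat_lit 58) (nat_lit 5) (nat_lit 59) (nat_lit 5) (nat_lit 377) (nat_lit 314) (nat_lit 89)) (XT.nd (nat_lit 78) (nat_lit 228) (nat_lit 0) (XT.lf (nat_lit 0) (nat_lit 32580710568)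 (nat_lit 304) (nat_lit 26541392860) (nat_lit 76) (nat_lit 5040404970) (nat_lit 55) (nat_lit 5) (nat_lit 59) (nat_lit 5) (nat_lit 56) (nat_lit 5) (nat_lit 378) (nat_lit 314) (nat_lit 88)) (XT.lf (nat_lit 0) (nat_lit 562308515) (nat_lit 228) (nat_lit 42712316115) (nat_lit 304) (nat_lit 22265142632) (nat_lit 52) (nat_lit 5) (nat_lit 55) (nat_lit 5) (nat_lit 56) (nat_lit 5) (nat_lit 379) (nat_lit 314) (nat_lit 87)))) (XT.nd (nat_lit 156) (nat_lit 228) (nat_lit 0) (XT.nd (nat_lit 78) (nat_lit 0) (nat_lit 0) (XT.lf (nat_lit 0) (nat_lit 29021172999) (nat_lit 228) (nat_lit 25534882076) (nat_lit 304) (nat_lit 12394288988) (nat_lit 52) (nat_lit 5) (nat_lit 55) (nat_lit 5) (nat_lit 56) (nat_lit 5) (nat_lit 380) (nat_lit 314) (nat_lit 86)) (XT.lf (nat_lit 0) (nat_lit 58331841803) (nat_lit 228) (nat_lit 7842807929) (nat_lit 304) (nat_lit 2228627908) (nat_lit 52) (nat_lit 5) (nat_lit 55) (nat_lit 5) (nat_lit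 56) (nat_lit 5) (nat_lit 381) (nat_lit 314) (nat_lit 85))) (XT.nd (nat_lit 78) (nat_lit 0) (nat_lit 0) (XT.lf (nat_lit 0) (nat_lit 8364047155) (nat_lit 228) (nat_lit 51084491237) (nat_lit 76) (nat_lit 10440398801) (nat_lit 49) (nat_lit 5) (nat_lit 52) (nat_lit 5) (nat_lit 50) (nat_lit 5) (nat_lit 382) (nat_lit 314) (nat_lit 84)) (XT.lf (nat_lit 0) (nat_lit 19408826402) (nat_lit 228) (nat_lit 22765724046) (nat_lit 76) (nat_lit 29238581616) (nat_lit 49) (nat_lit 5) (nat_lit 52) (nat_lit 5) (nat_lit 50) (nat_lit 5) (nat_lit 383) (nat_lit 314) (nat_lit 83))))))))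
noncomputable def xc223 : XT := (XT.nd (nat_lit 36816) (nat_lit 0) (nat_lit 3572) (XT.nd (nat_lit 35802) (nat_lit 0) (nat_lit 9652) (XT.nd (nat_lit 35256) (nat_lit 0) (nat_lit 10260) (XT.nd (nat_lit 234) (nat_lit 456) (nat_lit 0) (XT.nd (nat_lit 78) (nat_lit 0) (nat_lit 0) (XT.lf (nat_lit 0) (nat_lit 6528106428) (nat_lit 228) (nat_lit 24318387835) (nat_lit 304) (nat_lit 42134713145) (nat_lit 46) (nat_lit 5) (nat_lit 49) (nat_lit 5) (nat_lit 50) (nat_lit 5) (nat_lit 384) (nat_lit 314) (nat_lit 82)) (XT.nd (nat_lit 78) (nat_lit 0) (nat_lit 0) (XT.lf (nat_lit 0) (nat_lit 37165558737) (nat_lit 228) (nat_lit 5690432880) (nat_lit 304) (nat_lit 31733473369) (nat_lit 46) (nat_lit 5) (nat_lit 49) (nat_lit 5) (nat_lit 50) (nat_lit 5) (nat_lit 385) (nat_lit 314) (nat_lit 81)) (XT.lf (nat_lit 0) (nat_lit 55354347769) (nat_lit 304) (nat_lit 7655413894) (nat_lit 76) (nat_lit 13232352339) (nat_lit 46) (nat_lit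 5) (nat_lit 50) (nat_lit 5) (nat_lit 47) (nat_lit 5) (nat_lit 386) (nat_lit 314) (nat_lit 80)))) (XT.nd (nat_lit 78) (nat_lit 304) (nat_lit 0) (XT.lf (nat_lit 0) (nat_lit 23404713303) (nat_lit 152) (nat_lit 45103135073) (nat_lit 228) (nat_lit 9428089201) (nat_lit 44) (nat_lit 5) (nat_lit 46) (nat_lit 5) (nat_lit 47) (nat_lit 5) (nat_lit 387) (nat_lit 314) (nat_lit 79)) (XT.nd (nat_lit 78) (nat_lit 228) (nat_lit 0) (XT.lf (nat_lit 0) (nat_lit 2405972395) (nat_lit 228) (nat_lit 24150077838) (nat_lit 76) (nat_lit 53121533075) (nat_lit 43) (nat_lit 5) (nat_lit 46) (nat_lit 5) (nat_lit 44) (nat_lit 5) (nat_lit 388) (nat_lit 314) (nat_lit 78)) (XT.lf (nat_lit 0) (nat_lit 7187670254) (nat_lit 228) (nat_lit 7285891713) (nat_lit 304) (nat_lit 66993076804) (nat_lit 40) (nat_lit 5) (nat_lit 43) (nat_lit 5) (nat_lit 44) (nat_lit 5) (nat_lit 389) (nat_lit 314) (nat_lit 77))))) (XT.nd (nat_lit 234) (nat_lit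 0) (nat_lit 76) (XT.nd (nat_lit 78) (nat_lit 0) (nat_lit 0) (XT.lf (nat_lit 0) (nat_lit 644002059) (nat_lit 0) (nat_lit 644002059) (nat_lit 1140) (nat_lit 9174131584) (nat_lit 175) (nat_lit 5) (nat_lit 175) (nat_lit 3) (nat_lit 190) (nat_lit 3) (nat_lit 315) (nat_lit 315) (nat_lit 150)) (XT.nd (nat_lit 78) (nat_lit 0) (nat_lit 0) (XT.lf (nat_lit 0) (nat_lit 2834526984) (nat_lit 1140) (nat_lit 10496780326) (nat_lit 1216) (nat_lit 7900013506) (nat_lit 175) (nat_lit 5) (nat_lit 190) (nat_lit 3) (nat_lit 191) (nat_lit 5) (nat_lit 316) (nat_lit 315) (nat_lit 149)) (XT.lf (nat_lit 0) (nat_lit 3108021979) (nat_lit 1140) (nat_lit 1098842539) (nat_lit 1216) (nat_lit 17340509092) (nat_lit 175) (nat_lit 5) (nat_lit 190) (nat_lit 3) (nat_lit 191) (nat_lit 5) (nat_lit 317) (nat_lit 315) (nat_lit 148)))) (XT.nd (nat_lit 156) (nat_lit 0) (nat_lit 76) (XT.nd (nat_lit 78) (nat_lit 0) (nat_lit 0) (XT.lf (nat_lit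 0) (nat_lit 3519209048) (nat_lit 1140) (nat_lit 13172452201) (nat_lit 1216) (nat_lit 5177370394) (nat_lit 176) (nat_lit 5) (nat_lit 191) (nat_lit 5) (nat_lit 192) (nat_lit 5) (nat_lit 318) (nat_lit 315) (nat_lit 147)) (XT.lf (nat_lit 0) (nat_lit 3990370876) (nat_lit 1140) (nat_lit 3436433418) (nat_lit 1216) (nat_lit 14772113978) (nat_lit 176) (nat_lit 5) (nat_lit 191) (nat_lit 5) (nat_lit 192) (nat_lit 5) (nat_lit 319) (nat_lit 315) (nat_lit 146))) (XT.nd (nat_lit 78) (nat_lit 0) (nat_lit 0) (XT.lf (nat_lit 0) (nat_lit 4556195709) (nat_lit 1140) (nat_lit 15838094717) (nat_lit 1216) (nat_lit 2142003027) (nat_lit 177) (nat_lit 5) (nat_lit 192) (nat_lit 5) (nat_lit 193) (nat_lit 5) (nat_lit 320) (nat_lit 315) (nat_lit 145)) (XT.lf (nat_lit 0) (nat_lit 5242644528) (nat_lit 1140) (nat_lit 5752423257) (nat_lit 1216) (nat_lit 11885620197) (nat_lit 177) (nat_lit 5) (nat_lit 192) (nat_lit 5) (nat_lit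 193) (nat_lit 5) (nat_lit 321) (nat_lit 315) (nat_lit 144)))))) (XT.nd (nat_lit 468) (nat_lit 760) (nat_lit 0) (XT.nd (nat_lit 234) (nat_lit 0) (nat_lit 152) (XT.nd (nat_lit 78) (nat_lit 0) (nat_lit 76) (XT.lf (nat_lit 76) (nat_lit 4724999239) (nat_lit 0) (nat_lit 1265322405) (nat_lit 1216) (nat_lit 17243881006) (nat_lit 178) (nat_lit 5) (nat_lit 177) (nat_lit 5) (nat_lit 193) (nat_lit 5) (nat_lit 322) (nat_lit 315) (nat_lit 143)) (XT.nd (nat_lit 78) (nat_lit 0) (nat_lit 0) (XT.lf (nat_lit 0) (nat_lit 6898605498) (nat_lit 1140) (nat_lit 8049817635) (nat_lit 1216) (nat_lit 8645761469) (nat_lit 178) (nat_lit 5) (nat_lit 193) (nat_lit 5) (nat_lit 194) (nat_lit 5) (nat_lit 323) (nat_lit 315) (nat_lit 142)) (XT.lf (nat_lit 76) (nat_lit 2761648588) (nat_lit 0) (nat_lit 5107041583) (nat_lit 1216) (nat_lit 16095246199) (nat_lit 179) (nat_lit 5) (nat_lit 178) (nat_lit 5) (nat_lit 194) (nat_lit 5) (nat_lit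 324) (nat_lit 315) (nat_lit 141)))) (XT.nd (nat_lit 78) (nat_lit 0) (nat_lit 0) (XT.lf (nat_lit 0) (nat_lit 8993910598) (nat_lit 1140) (nat_lit 10332207654) (nat_lit 1216) (nat_lit 5014888167) (nat_lit 179) (nat_lit 5) (nat_lit 194) (nat_lit 5) (nat_lit 195) (nat_lit 5) (nat_lit 325) (nat_lit 315) (nat_lit 140)) (XT.nd (nat_lit 78) (nat_lit 0) (nat_lit 76) (XT.lf (nat_lit 76) (nat_lit 826444282) (nat_lit 0) (nat_lit 9380674352) (nat_lit 1216) (nat_lit 14520649536) (nat_lit 180) (nat_lit 5) (nat_lit 179) (nat_lit 5) (nat_lit 195) (nat_lit 5) (nat_lit 326) (nat_lit 315) (nat_lit 139)) (XT.lf (nat_lit 0) (nat_lit 11566215811) (nat_lit 1140) (nat_lit 12603881807) (nat_lit 1216) (nat_lit 952756708) (nat_lit 180) (nat_lit 5) (nat_lit 195) (nat_lit 5) (nat_lit 196) (nat_lit 5) (nat_lit 327) (nat_lit 315) (nat_lit 138))))) (XT.nd (nat_lit 234) (nat_lit 988) (nat_lit 0) (XT.nd (nat_lit 78) (nat_lit 0)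 (nat_lit 0) (XT.lf (nat_lit 0) (nat_lit 13054913262) (nat_lit 1140) (nat_lit 1063506085) (nat_lit 1216) (nat_lit 11408715054) (nat_lit 180) (nat_lit 5) (nat_lit 195) (nat_lit 5) (nat_lit 196) (nat_lit 5) (nat_lit 328) (nat_lit 315) (nat_lit 137)) (XT.nd (nat_lit 78) (nat_lit 0) (nat_lit 76) (XT.lf (nat_lit 76) (nat_lit 11035400289) (nat_lit 0) (nat_lit 3655017742) (nat_lit 1216) (nat_lit 11250066431) (nat_lit 181) (nat_lit 5) (nat_lit 180) (nat_lit 5) (nat_lit 196) (nat_lit 5) (nat_lit 329) (nat_lit 315) (nat_lit 136)) (XT.lf (nat_lit 0) (nat_lit 16450458753) (nat_lit 1140) (nat_lit 2918529096) (nat_lit 1216) (nat_lit 6994988852) (nat_lit 181) (nat_lit 5) (nat_lit 196) (nat_lit 5) (nat_lit 197) (nat_lit 5) (nat_lit 330) (nat_lit 315) (nat_lit 135)))) (XT.nd (nat_lit 156) (nat_lit 1064) (nat_lit 0) (XT.nd (nat_lit 78) (nat_lit 0) (nat_lit 76) (XT.lf (nat_lit 76) (nat_lit 9575252055) (nat_lit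 0) (nat_lit 8812553306) (nat_lit 1216) (nat_lit 8408638839) (nat_lit 182) (nat_lit 5) (nat_lit 181) (nat_lit 5) (nat_lit 197) (nat_lit 5) (nat_lit 331) (nat_lit 315) (nat_lit 134)) (XT.lf (nat_lit 0) (nat_lit 20429202201) (nat_lit 1140) (nat_lit 4760548588) (nat_lit 76) (nat_lit 2050762508) (nat_lit 182) (nat_lit 5) (nat_lit 197) (nat_lit 5) (nat_lit 183) (nat_lit 5) (nat_lit 332) (nat_lit 315) (nat_lit 133))) (XT.nd (nat_lit 78) (nat_lit 0) (nat_lit 0) (XT.lf (nat_lit 0) (nat_lit 8142520759) (nat_lit 1140) (nat_lit 14551309241) (nat_lit 1216) (nat_lit 4999220105) (nat_lit 167) (nat_lit 5) (nat_lit 182) (nat_lit 5) (nat_lit 183) (nat_lit 5) (nat_lit 333) (nat_lit 315) (nat_lit 132)) (XT.lf (nat_lit 0) (nat_lit 21527268054) (nat_lit 1140) (nat_lit 3543740058) (nat_lit 1216) (nat_lit 3086821716) (nat_lit 167) (nat_lit 5) (nat_lit 182) (nat_lit 5) (nat_lit 183) (nat_lit 5) (nat_lit 334) (nat_lit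 315) (nat_lit 131))))))) (XT.nd (nat_lit 1014) (nat_lit 2812) (nat_lit 0) (XT.nd (nat_lit 468) (nat_lit 1520) (nat_lit 0) (XT.nd (nat_lit 234) (nat_lit 532) (nat_lit 0) (XT.nd (nat_lit 78) (nat_lit 684) (nat_lit 0) (XT.lf (nat_lit 0) (nat_lit 6730394418) (nat_lit 532) (nat_lit 20925369418) (nat_lit 608) (nat_lit 976706242) (nat_lit 160) (nat_lit 5) (nat_lit 167) (nat_lit 5) (nat_lit 168) (nat_lit 5) (nat_lit 335) (nat_lit 315) (nat_lit 130)) (XT.nd (nat_lit 78) (nat_lit 608) (nat_lit 0) (XT.lf (nat_lit 0) (nat_lit 1272741672) (nat_lit 608) (nat_lit 8541559189) (nat_lit 76) (nat_lit 19303726852) (nat_lit 159) (nat_lit 5) (nat_lit 167) (nat_lit 5) (nat_lit 160) (nat_lit 5) (nat_lit 336) (nat_lit 315) (nat_lit 129)) (XT.lf (nat_lit 0) (nat_lit 3634138424) (nat_lit 684) (nat_lit 24321945904) (nat_lit 76) (nat_lit 1659859330) (nat_lit 151) (nat_lit 5) (nat_lit 160) (nat_lit 5) (nat_lit 152) (nat_lit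 5) (nat_lit 337) (nat_lit 315) (nat_lit 128)))) (XT.nd (nat_lit 78) (nat_lit 532) (nat_lit 0) (XT.lf (nat_lit 0) (nat_lit 6247495941) (nat_lit 684) (nat_lit 10507567348) (nat_lit 76) (nat_lit 13368304673) (nat_lit 151) (nat_lit 5) (nat_lit 160) (nat_lit 5) (nat_lit 152) (nat_lit 5) (nat_lit 338) (nat_lit 315) (nat_lit 127)) (XT.nd (nat_lit 78) (nat_lit 0) (nat_lit 0) (XT.lf (nat_lit 0) (nat_lit 3792284898) (nat_lit 532) (nat_lit 5180355645) (nat_lit 608) (nat_lit 21672377179) (nat_lit 144) (nat_lit 5) (nat_lit 151) (nat_lit 5) (nat_lit 152) (nat_lit 5) (nat_lit 339) (nat_lit 315) (nat_lit 126)) (XT.lf (nat_lit 0) (nat_lit 11948494694) (nat_lit 608) (nat_lit 12511486036) (nat_lit 76) (nat_lit 6717271778) (nat_lit 144) (nat_lit 5) (nat_lit 152) (nat_lit 5) (nat_lit 145) (nat_lit 5) (nat_lit 340) (nat_lit 315) (nat_lit 125))))) (XT.nd (nat_lit 234) (nat_lit 532) (nat_lit 0) (XT.nd (nat_lit 78)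 (nat_lit 456) (nat_lit 0) (XT.lf (nat_lit 0) (nat_lit 2249669864) (nat_lit 532) (nat_lit 12833952509) (nat_lit 608) (nat_lit 16639736099) (nat_lit 137) (nat_lit 5) (nat_lit 144) (nat_lit 5) (nat_lit 145) (nat_lit 5) (nat_lit 341) (nat_lit 315) (nat_lit 124)) (XT.nd (nat_lit 78) (nat_lit 456) (nat_lit 0) (XT.lf (nat_lit 0) (nat_lit 17707225629) (nat_lit 532) (nat_lit 729058815) (nat_lit 608) (nat_lit 13845862703) (nat_lit 137) (nat_lit 5) (nat_lit 144) (nat_lit 5) (nat_lit 145) (nat_lit 5) (nat_lit 342) (nat_lit 315) (nat_lit 123)) (XT.lf (nat_lit 0) (nat_lit 668093179) (nat_lit 456) (nat_lit 21337919566) (nat_lit 532) (nat_lit 10848195982) (nat_lit 131) (nat_lit 5) (nat_lit 137) (nat_lit 5) (nat_lit 138) (nat_lit 5) (nat_lit 343) (nat_lit 315) (nat_lit 122)))) (XT.nd (nat_lit 156) (nat_lit 532) (nat_lit 0) (XT.nd (nat_lit 78) (nat_lit 0) (nat_lit 0) (XT.lf (nat_lit 0) (nat_lit 16656926351) (nat_lit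 456) (nat_lit 9177507496) (nat_lit 532) (nat_lit 7604454002) (nat_lit 131) (nat_lit 5) (nat_lit 137) (nat_lit 5) (nat_lit 138) (nat_lit 5) (nat_lit 344) (nat_lit 315) (nat_lit 121)) (XT.lf (nat_lit 0) (nat_lit 29807240975) (nat_lit 532) (nat_lit 950742226) (nat_lit 76) (nat_lit 3282241758) (nat_lit 131) (nat_lit 5) (nat_lit 138) (nat_lit 5) (nat_lit 132) (nat_lit 5) (nat_lit 345) (nat_lit 315) (nat_lit 120))) (XT.nd (nat_lit 78) (nat_lit 76) (nat_lit 0) (XT.lf (nat_lit 0) (nat_lit 15565490766) (nat_lit 456) (nat_lit 18571663165) (nat_lit 532) (nat_lit 515314112) (nat_lit 125) (nat_lit 5) (nat_lit 131) (nat_lit 5) (nat_lit 132) (nat_lit 5) (nat_lit 346) (nat_lit 315) (nat_lit 119)) (XT.lf (nat_lit 0) (nat_lit 3256365813) (nat_lit 532) (nat_lit 2720862412) (nat_lit 76) (nat_lit 29304683477) (nat_lit 124) (nat_lit 5) (nat_lit 131) (nat_lit 5) (nat_lit 125) (nat_lit 5) (nat_lit 347) (nat_lit 315)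 (nat_lit 118)))))) (XT.nd (nat_lit 546) (nat_lit 1140) (nat_lit 0) (XT.nd (nat_lit 234) (nat_lit 760) (nat_lit 0) (XT.nd (nat_lit 78) (nat_lit 456) (nat_lit 0) (XT.lf (nat_lit 0) (nat_lit 7335536889) (nat_lit 532) (nat_lit 21585090853) (nat_lit 76) (nat_lit 7003320134) (nat_lit 118) (nat_lit 5) (nat_lit 125) (nat_lit 5) (nat_lit 119) (nat_lit 5) (nat_lit 348) (nat_lit 315) (nat_lit 117)) (XT.nd (nat_lit 78) (nat_lit 456) (nat_lit 0) (XT.lf (nat_lit 0) (nat_lit 11621578677) (nat_lit 532) (nat_lit 4680516452) (nat_lit 76) (nat_lit 20280618258) (nat_lit 118) (nat_lit 5) (nat_lit 125) (nat_lit 5) (nat_lit 119) (nat_lit 5) (nat_lit 349) (nat_lit 315) (nat_lit 116)) (XT.lf (nat_lit 0) (nat_lit 12981812121) (nat_lit 456) (nat_lit 3176817254) (nat_lit 532) (nat_lit 21098942687) (nat_lit 112) (nat_lit 5) (nat_lit 118) (nat_lit 5) (nat_lit 119) (nat_lit 5) (nat_lit 350) (nat_lit 315) (nat_lit 115))))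 (XT.nd (nat_lit 156) (nat_lit 380) (nat_lit 0) (XT.nd (nat_lit 78) (nat_lit 380) (nat_lit 0) (XT.lf (nat_lit 0) (nat_lit 20976617439) (nat_lit 532) (nat_lit 6783933207) (nat_lit 76) (nat_lit 10187784015) (nat_lit 112) (nat_lit 5) (nat_lit 119) (nat_lit 5) (nat_lit 113) (nat_lit 5) (nat_lit 351) (nat_lit 315) (nat_lit 114)) (XT.lf (nat_lit 0) (nat_lit 11421399881) (nat_lit 380) (nat_lit 14656734119) (nat_lit 456) (nat_lit 12577519327) (nat_lit 107) (nat_lit 5) (nat_lit 112) (nat_lit 5) (nat_lit 113) (nat_lit 5) (nat_lit 352) (nat_lit 315) (nat_lit 113))) (XT.nd (nat_lit 78) (nat_lit 380) (nat_lit 0) (XT.lf (nat_lit 0) (nat_lit 30309315633) (nat_lit 380) (nat_lit 1089670853) (nat_lit 456) (nat_lit 7983219123) (nat_lit 107) (nat_lit 5) (nat_lit 112) (nat_lit 5) (nat_lit 113) (nat_lit 5) (nat_lit 353) (nat_lit 315) (nat_lit 112)) (XT.lf (nat_lit 0) (nat_lit 9696038692) (nat_lit 380) (nat_lit 27398329390)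 (nat_lit 456) (nat_lit 3029741963) (nat_lit 102) (nat_lit 5) (nat_lit 107) (nat_lit 5) (nat_lit 108) (nat_lit 5) (nat_lit 354) (nat_lit 315) (nat_lit 111))))) (XT.nd (nat_lit 234) (nat_lit 684) (nat_lit 0) (XT.nd (nat_lit 78) (nat_lit 380) (nat_lit 0) (XT.lf (nat_lit 0) (nat_lit 2133075742) (nat_lit 456) (nat_lit 11705765936) (nat_lit 76) (nat_lit 27045799603) (nat_lit 101) (nat_lit 5) (nat_lit 107) (nat_lit 5) (nat_lit 102) (nat_lit 5) (nat_lit 355) (nat_lit 315) (nat_lit 110)) (XT.nd (nat_lit 78) (nat_lit 0) (nat_lit 0) (XT.lf (nat_lit 0) (nat_lit 7464032711) (nat_lit 456) (nat_lit 33971369213) (nat_lit 76) (nat_lit 229464581) (nat_lit 96) (nat_lit 5) (nat_lit 102) (nat_lit 5) (nat_lit 97) (nat_lit 5) (nat_lit 356) (nat_lit 315) (nat_lit 109)) (XT.lf (nat_lit 0) (nat_lit 13209266465) (nat_lit 456) (nat_lit 14691049172) (nat_lit 76) (nat_lit 14560554797) (nat_lit 96) (nat_lit 5) (nat_lit 102)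 (nat_lit 5) (nat_lit 97) (nat_lit 5) (nat_lit 357) (nat_lit 315) (nat_lit 108)))) (XT.nd (nat_lit 156) (nat_lit 304) (nat_lit 0) (XT.nd (nat_lit 78) (nat_lit 0) (nat_lit 0) (XT.lf (nat_lit 0) (nat_lit 5267949561) (nat_lit 380) (nat_lit 13907560219) (nat_lit 456) (nat_lit 24103787446) (nat_lit 91) (nat_lit 5) (nat_lit 96) (nat_lit 5) (nat_lit 97) (nat_lit 5) (nat_lit 358) (nat_lit 315) (nat_lit 107)) (XT.lf (nat_lit 0) (nat_lit 25473456458) (nat_lit 456) (nat_lit 17999837242) (nat_lit 76) (nat_lit 644403892) (nat_lit 91) (nat_lit 5) (nat_lit 97) (nat_lit 5) (nat_lit 92) (nat_lit 5) (nat_lit 359) (nat_lit 315) (nat_lit 106))) (XT.nd (nat_lit 78) (nat_lit 0) (nat_lit 0) (XT.lf (nat_lit 0) (nat_lit 2521030443) (nat_lit 304) (nat_lit 29599342713) (nat_lit 380) (nat_lit 12856078052) (nat_lit 87) (nat_lit 5) (nat_lit 91) (nat_lit 5) (nat_lit 92) (nat_lit 5) (nat_lit 360) (nat_lit 315) (nat_lit 105))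 (XT.lf (nat_lit 0) (nat_lit 24024043711) (nat_lit 304) (nat_lit 15122547741) (nat_lit 380) (nat_lit 6708981281) (nat_lit 87) (nat_lit 5) (nat_lit 91) (nat_lit 5) (nat_lit 92) (nat_lit 5) (nat_lit 361) (nat_lit 315) (nat_lit 104))))))))
noncomputable def xc224 : XT := (XT.nd (nat_lit 2028) (nat_lit 152) (nat_lit 0) (XT.nd (nat_lit 1014) (nat_lit 1216) (nat_lit 0) (XT.nd (nat_lit 468) (nat_lit 836) (nat_lit 0) (XT.nd (nat_lit 234) (nat_lit 608) (nat_lit 0) (XT.nd (nat_lit 78) (nat_lit 456) (nat_lit 0) (XT.lf (nat_lit 0) (nat_lit 46169759545) (nat_lit 304) (nat_lit 212022222) (nat_lit 380) (nat_lit 379342633) (nat_lit 87) (nat_lit 5) (nat_lit 91) (nat_lit 5) (nat_lit 92) (nat_lit 5) (nat_lit 362) (nat_lit 315) (nat_lit 103)) (XT.nd (nat_lit 78) (nat_lit 0) (nat_lit 0) (XT.lf (nat_lit 0) (nat_lit 6374901509) (nat_lit 456) (nat_lit 26187077743) (nat_lit 76) (nat_lit 15119458611) (nat_lit 81) (nat_lit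 5) (nat_lit 87) (nat_lit 5) (nat_lit 82) (nat_lit 5) (nat_lit 363) (nat_lit 315) (nat_lit 102)) (XT.lf (nat_lit 0) (nat_lit 13330521331) (nat_lit 456) (nat_lit 4382697985) (nat_lit 76) (nat_lit 30915839439) (nat_lit 81) (nat_lit 5) (nat_lit 87) (nat_lit 5) (nat_lit 82) (nat_lit 5) (nat_lit 364) (nat_lit 315) (nat_lit 101)))) (XT.nd (nat_lit 78) (nat_lit 304) (nat_lit 0) (XT.lf (nat_lit 0) (nat_lit 18433199207) (nat_lit 304) (nat_lit 2237095694) (nat_lit 380) (nat_lit 28929550651) (nat_lit 77) (nat_lit 5) (nat_lit 81) (nat_lit 5) (nat_lit 82) (nat_lit 5) (nat_lit 365) (nat_lit 315) (nat_lit 100)) (XT.nd (nat_lit 78) (nat_lit 304) (nat_lit 0) (XT.lf (nat_lit 0) (nat_lit 28404996910) (nat_lit 380) (nat_lit 8709512380) (nat_lit 76) (nat_lit 13480006384) (nat_lit 77) (nat_lit 5) (nat_lit 82) (nat_lit 5) (nat_lit 78) (nat_lit 5) (nat_lit 366) (nat_lit 315) (nat_lit 99)) (XT.lf (nat_lit 0) (nat_lit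 14683445422) (nat_lit 304) (nat_lit 21849955110) (nat_lit 380) (nat_lit 15080777277) (nat_lit 73) (nat_lit 5) (nat_lit 77) (nat_lit 5) (nat_lit 78) (nat_lit 5) (nat_lit 367) (nat_lit 315) (nat_lit 98))))) (XT.nd (nat_lit 234) (nat_lit 532) (nat_lit 0) (XT.nd (nat_lit 78) (nat_lit 304) (nat_lit 0) (XT.lf (nat_lit 0) (nat_lit 38954483029) (nat_lit 304) (nat_lit 6037513106) (nat_lit 380) (nat_lit 7669845155) (nat_lit 73) (nat_lit 5) (nat_lit 77) (nat_lit 5) (nat_lit 78) (nat_lit 5) (nat_lit 368) (nat_lit 315) (nat_lit 97)) (XT.nd (nat_lit 78) (nat_lit 0) (nat_lit 0) (XT.lf (nat_lit 0) (nat_lit 162160084) (nat_lit 304) (nat_lit 43423423324) (nat_lit 76) (nat_lit 10149422459) (nat_lit 69) (nat_lit 5) (nat_lit 73) (nat_lit 5) (nat_lit 70) (nat_lit 5) (nat_lit 369) (nat_lit 315) (nat_lit 96)) (XT.lf (nat_lit 0) (nat_lit 8272973947) (nat_lit 304) (nat_lit 19643454122) (nat_lit 76) (nat_lit 26915720534)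 (nat_lit 69) (nat_lit 5) (nat_lit 73) (nat_lit 5) (nat_lit 70) (nat_lit 5) (nat_lit 370) (nat_lit 315) (nat_lit 95)))) (XT.nd (nat_lit 156) (nat_lit 228) (nat_lit 0) (XT.nd (nat_lit 78) (nat_lit 0) (nat_lit 0) (XT.lf (nat_lit 0) (nat_lit 4944225499) (nat_lit 304) (nat_lit 11728898588) (nat_lit 380) (nat_lit 39287702666) (nat_lit 65) (nat_lit 5) (nat_lit 69) (nat_lit 5) (nat_lit 70) (nat_lit 5) (nat_lit 371) (nat_lit 315) (nat_lit 94)) (XT.lf (nat_lit 0) (nat_lit 25571632417) (nat_lit 380) (nat_lit 26496885501) (nat_lit 76) (nat_lit 5047458164) (nat_lit 65) (nat_lit 5) (nat_lit 70) (nat_lit 5) (nat_lit 66) (nat_lit 5) (nat_lit 372) (nat_lit 315) (nat_lit 93))) (XT.nd (nat_lit 78) (nat_lit 228) (nat_lit 0) (XT.lf (nat_lit 0) (nat_lit 34851769464) (nat_lit 380) (nat_lit 1359829225) (nat_lit 76) (nat_lit 22090742403) (nat_lit 65) (nat_lit 5) (nat_lit 70) (nat_lit 5) (nat_lit 66) (nat_lit 5) (nat_lit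 373) (nat_lit 315) (nat_lit 92)) (XT.lf (nat_lit 0) (nat_lit 25017458053) (nat_lit 228) (nat_lit 19631923794) (nat_lit 304) (nat_lit 14867744432) (nat_lit 62) (nat_lit 5) (nat_lit 65) (nat_lit 5) (nat_lit 66) (nat_lit 5) (nat_lit 374) (nat_lit 315) (nat_lit 91)))))) (XT.nd (nat_lit 468) (nat_lit 456) (nat_lit 0) (XT.nd (nat_lit 234) (nat_lit 456) (nat_lit 0) (XT.nd (nat_lit 78) (nat_lit 304) (nat_lit 0) (XT.lf (nat_lit 0) (nat_lit 52211897926) (nat_lit 228) (nat_lit 2541365900) (nat_lit 304) (nat_lit 6014722282) (nat_lit 62) (nat_lit 5) (nat_lit 65) (nat_lit 5) (nat_lit 66) (nat_lit 5) (nat_lit 375) (nat_lit 315) (nat_lit 90)) (XT.nd (nat_lit 78) (nat_lit 0) (nat_lit 0) (XT.lf (nat_lit 0) (nat_lit 3366575507) (nat_lit 304) (nat_lit 43702165187) (nat_lit 76) (nat_lit 14977039599) (nat_lit 58) (nat_lit 5) (nat_lit 62) (nat_lit 5) (nat_lit 59) (nat_lit 5) (nat_lit 376) (nat_lit 315) (nat_lit 89))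 (XT.lf (nat_lit 0) (nat_lit 13019489346) (nat_lit 304) (nat_lit 17221210332) (nat_lit 76) (nat_lit 33116091272) (nat_lit 58) (nat_lit 5) (nat_lit 62) (nat_lit 5) (nat_lit 59) (nat_lit 5) (nat_lit 377) (nat_lit 315) (nat_lit 88)))) (XT.nd (nat_lit 78) (nat_lit 228) (nat_lit 0) (XT.lf (nat_lit 0) (nat_lit 10252265039) (nat_lit 228) (nat_lit 12806965809) (nat_lit 304) (nat_lit 41644985048) (nat_lit 55) (nat_lit 5) (nat_lit 58) (nat_lit 5) (nat_lit 59) (nat_lit 5) (nat_lit 378) (nat_lit 315) (nat_lit 87)) (XT.nd (nat_lit 78) (nat_lit 228) (nat_lit 0) (XT.lf (nat_lit 0) (nat_lit 33623992035) (nat_lit 304) (nat_lit 27237089637) (nat_lit 76) (nat_lit 5224268236) (nat_lit 55) (nat_lit 5) (nat_lit 59) (nat_lit 5) (nat_lit 56) (nat_lit 5) (nat_lit 379) (nat_lit 315) (nat_lit 86)) (XT.lf (nat_lit 0) (nat_lit 678737044) (nat_lit 228) (nat_lit 43959025244) (nat_lit 304) (nat_lit 22866194775) (nat_lit 52)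 (nat_lit 5) (nat_lit 55) (nat_lit 5) (nat_lit 56) (nat_lit 5) (nat_lit 380) (nat_lit 315) (nat_lit 85))))) (XT.nd (nat_lit 234) (nat_lit 228) (nat_lit 0) (XT.nd (nat_lit 78) (nat_lit 228) (nat_lit 0) (XT.lf (nat_lit 0) (nat_lit 29988467678) (nat_lit 228) (nat_lit 26267277709) (nat_lit 304) (nat_lit 12701164128) (nat_lit 52) (nat_lit 5) (nat_lit 55) (nat_lit 5) (nat_lit 56) (nat_lit 5) (nat_lit 381) (nat_lit 315) (nat_lit 84)) (XT.nd (nat_lit 78) (nat_lit 228) (nat_lit 0) (XT.lf (nat_lit 0) (nat_lit 60175641221) (nat_lit 228) (nat_lit 8045421458) (nat_lit 304) (nat_lit 2232425066) (nat_lit 52) (nat_lit 5) (nat_lit 55) (nat_lit 5) (nat_lit 56) (nat_lit 5) (nat_lit 382) (nat_lit 315) (nat_lit 83)) (XT.lf (nat_lit 0) (nat_lit 8676223925) (nat_lit 228) (nat_lit 52521274032) (nat_lit 76) (nat_lit 10786219715) (nat_lit 49) (nat_lit 5) (nat_lit 52) (nat_lit 5) (nat_lit 50) (nat_lit 5) (nat_lit 383)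 (nat_lit 315) (nat_lit 82)))) (XT.nd (nat_lit 156) (nat_lit 0) (nat_lit 0) (XT.nd (nat_lit 78) (nat_lit 228) (nat_lit 0) (XT.lf (nat_lit 0) (nat_lit 20050562412) (nat_lit 228) (nat_lit 23355732717) (nat_lit 76) (nat_lit 30147398239) (nat_lit 49) (nat_lit 5) (nat_lit 52) (nat_lit 5) (nat_lit 50) (nat_lit 5) (nat_lit 384) (nat_lit 315) (nat_lit 81)) (XT.lf (nat_lit 0) (nat_lit 6816001269) (nat_lit 228) (nat_lit 25014511726) (nat_lit 304) (nat_lit 43338324811) (nat_lit 46) (nat_lit 5) (nat_lit 49) (nat_lit 5) (nat_lit 50) (nat_lit 5) (nat_lit 385) (nat_lit 315) (nat_lit 80))) (XT.nd (nat_lit 78) (nat_lit 0) (nat_lit 0) (XT.lf (nat_lit 0) (nat_lit 38369896031) (nat_lit 228) (nat_lit 5828691745) (nat_lit 304) (nat_lit 32626807931) (nat_lit 46) (nat_lit 5) (nat_lit 49) (nat_lit 5) (nat_lit 50) (nat_lit 5) (nat_lit 386) (nat_lit 315) (nat_lit 79)) (XT.lf (nat_lit 0) (nat_lit 57070539736) (nat_lit 304)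 (nat_lit 7796909523) (nat_lit 76) (nat_lit 13660216913) (nat_lit 46) (nat_lit 5) (nat_lit 50) (nat_lit 5) (nat_lit 47) (nat_lit 5) (nat_lit 387) (nat_lit 315) (nat_lit 78))))))) (XT.nd (nat_lit 35958) (nat_lit 0) (nat_lit 7600) (XT.nd (nat_lit 35412) (nat_lit 0) (nat_lit 10108) (XT.nd (nat_lit 35178) (nat_lit 0) (nat_lit 9956) (XT.nd (nat_lit 35022) (nat_lit 0) (nat_lit 9956) (XT.lf (nat_lit 0) (nat_lit 24194157110) (nat_lit 152) (nat_lit 46423709158) (nat_lit 228) (nat_lit 9654462852) (nat_lit 44) (nat_lit 5) (nat_lit 46) (nat_lit 5) (nat_lit 47) (nat_lit 5) (nat_lit 388) (nat_lit 315) (nat_lit 77)) (XT.nd (nat_lit 78) (nat_lit 0) (nat_lit 0) (XT.lf (nat_lit 0) (nat_lit 733851326) (nat_lit 0) (nat_lit 733851326) (nat_lit 1140) (nat_lit 9303849167) (nat_lit 175) (nat_lit 5) (nat_lit 175) (nat_lit 3) (nat_lit 190) (nat_lit 3) (nat_lit 316) (nat_lit 316) (nat_lit 148)) (XT.lf (nat_lit 0) (nat_lit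 3192146174) (nat_lit 1140) (nat_lit 10664780573) (nat_lit 1216) (nat_lit 8002736384) (nat_lit 175) (nat_lit 5) (nat_lit 190) (nat_lit 3) (nat_lit 191) (nat_lit 5) (nat_lit 317) (nat_lit 316) (nat_lit 147)))) (XT.nd (nat_lit 78) (nat_lit 0) (nat_lit 76) (XT.lf (nat_lit 0) (nat_lit 3465906697) (nat_lit 1140) (nat_lit 989183386) (nat_lit 1216) (nat_lit 17730357833) (nat_lit 175) (nat_lit 5) (nat_lit 190) (nat_lit 3) (nat_lit 191) (nat_lit 5) (nat_lit 318) (nat_lit 316) (nat_lit 146)) (XT.nd (nat_lit 78) (nat_lit 0) (nat_lit 0) (XT.lf (nat_lit 0) (nat_lit 3881953527) (nat_lit 1140) (nat_lit 13417129776) (nat_lit 1216) (nat_lit 5217908532) (nat_lit 176) (nat_lit 5) (nat_lit 191) (nat_lit 5) (nat_lit 192) (nat_lit 5) (nat_lit 319) (nat_lit 316) (nat_lit 145)) (XT.lf (nat_lit 0) (nat_lit 4359759875) (nat_lit 1140) (nat_lit 3393413809) (nat_lit 1216) (nat_lit 15103837617) (nat_lit 176) (nat_lit 5) (nat_lit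 191) (nat_lit 5) (nat_lit 192) (nat_lit 5) (nat_lit 320) (nat_lit 316) (nat_lit 144))))) (XT.nd (nat_lit 234) (nat_lit 0) (nat_lit 76) (XT.nd (nat_lit 78) (nat_lit 0) (nat_lit 0) (XT.lf (nat_lit 0) (nat_lit 4935725269) (nat_lit 1140) (nat_lit 16159917769) (nat_lit 1216) (nat_lit 2109080914) (nat_lit 177) (nat_lit 5) (nat_lit 192) (nat_lit 5) (nat_lit 193) (nat_lit 5) (nat_lit 321) (nat_lit 316) (nat_lit 143)) (XT.nd (nat_lit 78) (nat_lit 0) (nat_lit 0) (XT.lf (nat_lit 0) (nat_lit 5635694435) (nat_lit 1140) (nat_lit 5776141790) (nat_lit 1216) (nat_lit 12147837149) (nat_lit 177) (nat_lit 5) (nat_lit 192) (nat_lit 5) (nat_lit 193) (nat_lit 5) (nat_lit 322) (nat_lit 316) (nat_lit 142)) (XT.lf (nat_lit 76) (nat_lit 5014144027) (nat_lit 0) (nat_lit 1386207583) (nat_lit 1216) (nat_lit 17523615928) (nat_lit 178) (nat_lit 5) (nat_lit 177) (nat_lit 5) (nat_lit 193) (nat_lit 5) (nat_lit 323) (nat_lit 316)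 (nat_lit 141)))) (XT.nd (nat_lit 156) (nat_lit 0) (nat_lit 76) (XT.nd (nat_lit 78) (nat_lit 0) (nat_lit 0) (XT.lf (nat_lit 0) (nat_lit 7328401707) (nat_lit 1140) (nat_lit 8140386792) (nat_lit 1216) (nat_lit 8826195157) (nat_lit 178) (nat_lit 5) (nat_lit 193) (nat_lit 5) (nat_lit 194) (nat_lit 5) (nat_lit 324) (nat_lit 316) (nat_lit 140)) (XT.lf (nat_lit 76) (nat_lit 2993943757) (nat_lit 0) (nat_lit 5328591298) (nat_lit 1216) (nat_lit 16353454479) (nat_lit 179) (nat_lit 5) (nat_lit 178) (nat_lit 5) (nat_lit 194) (nat_lit 5) (nat_lit 325) (nat_lit 316) (nat_lit 139))) (XT.nd (nat_lit 78) (nat_lit 0) (nat_lit 0) (XT.lf (nat_lit 0) (nat_lit 9474531089) (nat_lit 1140) (nat_lit 10489778205) (nat_lit 1216) (nat_lit 5100281475) (nat_lit 179) (nat_lit 5) (nat_lit 194) (nat_lit 5) (nat_lit 195) (nat_lit 5) (nat_lit 326) (nat_lit 316) (nat_lit 138)) (XT.lf (nat_lit 76) (nat_lit 1002139214) (nat_lit 0)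 (nat_lit 9717306813) (nat_lit 1216) (nat_lit 14743659396) (nat_lit 180) (nat_lit 5) (nat_lit 179) (nat_lit 5) (nat_lit 195) (nat_lit 5) (nat_lit 327) (nat_lit 316) (nat_lit 137)))))) (XT.nd (nat_lit 468) (nat_lit 2736) (nat_lit 0) (XT.nd (nat_lit 234) (nat_lit 0) (nat_lit 76) (XT.nd (nat_lit 78) (nat_lit 0) (nat_lit 0) (XT.lf (nat_lit 0) (nat_lit 12112797528) (nat_lit 1140) (nat_lit 12828669981) (nat_lit 1216) (nat_lit 928781312) (nat_lit 180) (nat_lit 5) (nat_lit 195) (nat_lit 5) (nat_lit 196) (nat_lit 5) (nat_lit 328) (nat_lit 316) (nat_lit 136)) (XT.nd (nat_lit 78) (nat_lit 0) (nat_lit 0) (XT.lf (nat_lit 0) (nat_lit 13640342449) (nat_lit 1140) (nat_lit 946548859) (nat_lit 1216) (nat_lit 11699949226) (nat_lit 180) (nat_lit 5) (nat_lit 195) (nat_lit 5) (nat_lit 196) (nat_lit 5) (nat_lit 329) (nat_lit 316) (nat_lit 135)) (XT.lf (nat_lit 76) (nat_lit 11513865270) (nat_lit 0) (nat_lit 3806819888)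 (nat_lit 1216) (nat_lit 11392041331) (nat_lit 181) (nat_lit 5) (nat_lit 180) (nat_lit 5) (nat_lit 196) (nat_lit 5) (nat_lit 330) (nat_lit 316) (nat_lit 134)))) (XT.nd (nat_lit 78) (nat_lit 0) (nat_lit 0) (XT.lf (nat_lit 0) (nat_lit 17127612709) (nat_lit 1140) (nat_lit 2856783351) (nat_lit 1216) (nat_lit 7164713193) (nat_lit 181) (nat_lit 5) (nat_lit 196) (nat_lit 5) (nat_lit 197) (nat_lit 5) (nat_lit 331) (nat_lit 316) (nat_lit 133)) (XT.nd (nat_lit 78) (nat_lit 0) (nat_lit 76) (XT.lf (nat_lit 76) (nat_lit 10010347493) (nat_lit 0) (nat_lit 9108804587) (nat_lit 1216) (nat_lit 8475524610) (nat_lit 182) (nat_lit 5) (nat_lit 181) (nat_lit 5) (nat_lit 197) (nat_lit 5) (nat_lit 332) (nat_lit 316) (nat_lit 132)) (XT.lf (nat_lit 0) (nat_lit 21216259004) (nat_lit 1140) (nat_lit 4754039695) (nat_lit 76) (nat_lit 2081942965) (nat_lit 182) (nat_lit 5) (nat_lit 197) (nat_lit 5) (nat_lit 183) (nat_lit 5)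 (nat_lit 333) (nat_lit 316) (nat_lit 131))))) (XT.nd (nat_lit 234) (nat_lit 1216) (nat_lit 0) (XT.nd (nat_lit 78) (nat_lit 532) (nat_lit 0) (XT.lf (nat_lit 0) (nat_lit 8534657759) (nat_lit 1140) (nat_lit 15010515987) (nat_lit 1216) (nat_lit 4973298006) (nat_lit 167) (nat_lit 5) (nat_lit 182) (nat_lit 5) (nat_lit 183) (nat_lit 5) (nat_lit 334) (nat_lit 316) (nat_lit 130)) (XT.nd (nat_lit 78) (nat_lit 532) (nat_lit 0) (XT.lf (nat_lit 0) (nat_lit 22316640831) (nat_lit 1140) (nat_lit 3672059511) (nat_lit 1216) (nat_lit 3008650928) (nat_lit 167) (nat_lit 5) (nat_lit 182) (nat_lit 5) (nat_lit 183) (nat_lit 5) (nat_lit 335) (nat_lit 316) (nat_lit 129)) (XT.lf (nat_lit 0) (nat_lit 7079825399) (nat_lit 532) (nat_lit 21567563802) (nat_lit 608) (nat_lit 838956994) (nat_lit 160) (nat_lit 5) (nat_lit 167) (nat_lit 5) (nat_lit 168) (nat_lit 5) (nat_lit 336) (nat_lit 316) (nat_lit 128)))) (XT.nd (nat_lit 156)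 (nat_lit 532) (nat_lit 0) (XT.nd (nat_lit 78) (nat_lit 608) (nat_lit 0) (XT.lf (nat_lit 0) (nat_lit 1469943999) (nat_lit 608) (nat_lit 8651193011) (nat_lit 76) (nat_lit 19865435264) (nat_lit 159) (nat_lit 5) (nat_lit 167) (nat_lit 5) (nat_lit 160) (nat_lit 5) (nat_lit 337) (nat_lit 316) (nat_lit 127)) (XT.lf (nat_lit 0) (nat_lit 3898844544) (nat_lit 684) (nat_lit 24901434122) (nat_lit 76) (nat_lit 1699253748) (nat_lit 151) (nat_lit 5) (nat_lit 160) (nat_lit 5) (nat_lit 152) (nat_lit 5) (nat_lit 338) (nat_lit 316) (nat_lit 126))) (XT.nd (nat_lit 78) (nat_lit 532) (nat_lit 0) (XT.lf (nat_lit 0) (nat_lit 6586068360) (nat_lit 684) (nat_lit 10676998098) (nat_lit 76) (nat_lit 13759255404) (nat_lit 151) (nat_lit 5) (nat_lit 160) (nat_lit 5) (nat_lit 152) (nat_lit 5) (nat_lit 339) (nat_lit 316) (nat_lit 125)) (XT.lf (nat_lit 0) (nat_lit 4050420341) (nat_lit 532) (nat_lit 5339532347) (nat_lit 608) (nat_lit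 22169765060) (nat_lit 144) (nat_lit 5) (nat_lit 151) (nat_lit 5) (nat_lit 152) (nat_lit 5) (nat_lit 340) (nat_lit 316) (nat_lit 124))))))))
noncomputable def xc225 : XT := (XT.nd (nat_lit 2028) (nat_lit 2356) (nat_lit 0) (XT.nd (nat_lit 1014) (nat_lit 2280) (nat_lit 0) (XT.nd (nat_lit 468) (nat_lit 1824) (nat_lit 0) (XT.nd (nat_lit 234) (nat_lit 456) (nat_lit 0) (XT.nd (nat_lit 78) (nat_lit 532) (nat_lit 0) (XT.lf (nat_lit 0) (nat_lit 12450732765) (nat_lit 608) (nat_lit 12742118381) (nat_lit 76) (nat_lit 6915204938) (nat_lit 144) (nat_lit 5) (nat_lit 152) (nat_lit 5) (nat_lit 145) (nat_lit 5) (nat_lit 341) (nat_lit 316) (nat_lit 123)) (XT.nd (nat_lit 78) (nat_lit 0) (nat_lit 0) (XT.lf (nat_lit 0) (nat_lit 2460453448) (nat_lit 532) (nat_lit 13216650389) (nat_lit 608) (nat_lit 16993531542) (nat_lit 137) (nat_lit 5) (nat_lit 144) (nat_lit 5) (nat_lit 145) (nat_lit 5) (nat_lit 342) (nat_lit 316)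 (nat_lit 122)) (XT.lf (nat_lit 0) (nat_lit 18377562289) (nat_lit 532) (nat_lit 748677478) (nat_lit 608) (nat_lit 14120076797) (nat_lit 137) (nat_lit 5) (nat_lit 144) (nat_lit 5) (nat_lit 145) (nat_lit 5) (nat_lit 343) (nat_lit 316) (nat_lit 121)))) (XT.nd (nat_lit 78) (nat_lit 0) (nat_lit 0) (XT.lf (nat_lit 0) (nat_lit 830123389) (nat_lit 456) (nat_lit 21970336014) (nat_lit 532) (nat_lit 11035164109) (nat_lit 131) (nat_lit 5) (nat_lit 137) (nat_lit 5) (nat_lit 138) (nat_lit 5) (nat_lit 344) (nat_lit 316) (nat_lit 120)) (XT.nd (nat_lit 78) (nat_lit 0) (nat_lit 0) (XT.lf (nat_lit 0) (nat_lit 17294485999) (nat_lit 456) (nat_lit 9445336470) (nat_lit 532) (nat_lit 7698143202) (nat_lit 131) (nat_lit 5) (nat_lit 137) (nat_lit 5) (nat_lit 138) (nat_lit 5) (nat_lit 345) (nat_lit 316) (nat_lit 119)) (XT.lf (nat_lit 0) (nat_lit 30828087007) (nat_lit 532) (nat_lit 841527976) (nat_lit 76) (nat_lit 3387844906)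 (nat_lit 131) (nat_lit 5) (nat_lit 138) (nat_lit 5) (nat_lit 132) (nat_lit 5) (nat_lit 346) (nat_lit 316) (nat_lit 118))))) (XT.nd (nat_lit 234) (nat_lit 836) (nat_lit 0) (XT.nd (nat_lit 78) (nat_lit 532) (nat_lit 0) (XT.lf (nat_lit 0) (nat_lit 16168841648) (nat_lit 456) (nat_lit 19116678512) (nat_lit 532) (nat_lit 402626458) (nat_lit 125) (nat_lit 5) (nat_lit 131) (nat_lit 5) (nat_lit 132) (nat_lit 5) (nat_lit 347) (nat_lit 316) (nat_lit 117)) (XT.nd (nat_lit 78) (nat_lit 456) (nat_lit 0) (XT.lf (nat_lit 0) (nat_lit 3476043648) (nat_lit 532) (nat_lit 2667488482) (nat_lit 76) (nat_lit 30193019038) (nat_lit 124) (nat_lit 5) (nat_lit 131) (nat_lit 5) (nat_lit 125) (nat_lit 5) (nat_lit 348) (nat_lit 316) (nat_lit 116)) (XT.lf (nat_lit 0) (nat_lit 7675455987) (nat_lit 532) (nat_lit 22095356237) (nat_lit 76) (nat_lit 7227104830) (nat_lit 118) (nat_lit 5) (nat_lit 125) (nat_lit 5) (nat_lit 119) (nat_lit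 5) (nat_lit 349) (nat_lit 316) (nat_lit 115)))) (XT.nd (nat_lit 156) (nat_lit 380) (nat_lit 0) (XT.nd (nat_lit 78) (nat_lit 456) (nat_lit 0) (XT.lf (nat_lit 0) (nat_lit 12086588165) (nat_lit 532) (nat_lit 4687643265) (nat_lit 76) (nat_lit 20902323302) (nat_lit 118) (nat_lit 5) (nat_lit 125) (nat_lit 5) (nat_lit 119) (nat_lit 5) (nat_lit 350) (nat_lit 316) (nat_lit 114)) (XT.lf (nat_lit 0) (nat_lit 13503248413) (nat_lit 456) (nat_lit 3254381473) (nat_lit 532) (nat_lit 21614097241) (nat_lit 112) (nat_lit 5) (nat_lit 118) (nat_lit 5) (nat_lit 119) (nat_lit 5) (nat_lit 351) (nat_lit 316) (nat_lit 113))) (XT.nd (nat_lit 78) (nat_lit 380) (nat_lit 0) (XT.lf (nat_lit 0) (nat_lit 21716995730) (nat_lit 532) (nat_lit 6856010917) (nat_lit 76) (nat_lit 10510305032) (nat_lit 112) (nat_lit 5) (nat_lit 119) (nat_lit 5) (nat_lit 113) (nat_lit 5) (nat_lit 352) (nat_lit 316) (nat_lit 112)) (XT.lf (nat_lit 0)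 (nat_lit 11894193533) (nat_lit 380) (nat_lit 15075380018) (nat_lit 456) (nat_lit 12842339976) (nat_lit 107) (nat_lit 5) (nat_lit 112) (nat_lit 5) (nat_lit 113) (nat_lit 5) (nat_lit 353) (nat_lit 316) (nat_lit 111)))))) (XT.nd (nat_lit 468) (nat_lit 1064) (nat_lit 0) (XT.nd (nat_lit 234) (nat_lit 760) (nat_lit 0) (XT.nd (nat_lit 78) (nat_lit 456) (nat_lit 0) (XT.lf (nat_lit 0) (nat_lit 31344955933) (nat_lit 380) (nat_lit 1101918140) (nat_lit 456) (nat_lit 8113487609) (nat_lit 107) (nat_lit 5) (nat_lit 112) (nat_lit 5) (nat_lit 113) (nat_lit 5) (nat_lit 354) (nat_lit 316) (nat_lit 110)) (XT.nd (nat_lit 78) (nat_lit 76) (nat_lit 0) (XT.lf (nat_lit 0) (nat_lit 10115124914) (nat_lit 380) (nat_lit 28196330385) (nat_lit 456) (nat_lit 3013121668) (nat_lit 102) (nat_lit 5) (nat_lit 107) (nat_lit 5) (nat_lit 108) (nat_lit 5) (nat_lit 355) (nat_lit 316) (nat_lit 109)) (XT.lf (nat_lit 0) (nat_lit 2299412283)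 (nat_lit 456) (nat_lit 11930309822) (nat_lit 76) (nat_lit 27878266779) (nat_lit 101) (nat_lit 5) (nat_lit 107) (nat_lit 5) (nat_lit 102) (nat_lit 5) (nat_lit 356) (nat_lit 316) (nat_lit 108)))) (XT.nd (nat_lit 78) (nat_lit 380) (nat_lit 0) (XT.lf (nat_lit 0) (nat_lit 7788760938) (nat_lit 456) (nat_lit 34862226400) (nat_lit 76) (nat_lit 260683172) (nat_lit 96) (nat_lit 5) (nat_lit 102) (nat_lit 5) (nat_lit 97) (nat_lit 5) (nat_lit 357) (nat_lit 316) (nat_lit 107)) (XT.nd (nat_lit 78) (nat_lit 380) (nat_lit 0) (XT.lf (nat_lit 0) (nat_lit 13703415571) (nat_lit 456) (nat_lit 15007233182) (nat_lit 76) (nat_lit 15020997318) (nat_lit 96) (nat_lit 5) (nat_lit 102) (nat_lit 5) (nat_lit 97) (nat_lit 5) (nat_lit 358) (nat_lit 316) (nat_lit 106)) (XT.lf (nat_lit 0) (nat_lit 5549314460) (nat_lit 380) (nat_lit 14297666599) (nat_lit 456) (nat_lit 24727697891) (nat_lit 91) (nat_lit 5) (nat_lit 96) (nat_lit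 5) (nat_lit 97) (nat_lit 5) (nat_lit 359) (nat_lit 316) (nat_lit 105))))) (XT.nd (nat_lit 234) (nat_lit 760) (nat_lit 0) (XT.nd (nat_lit 78) (nat_lit 304) (nat_lit 0) (XT.lf (nat_lit 0) (nat_lit 26331317126) (nat_lit 456) (nat_lit 18417441188) (nat_lit 76) (nat_lit 689552716) (nat_lit 91) (nat_lit 5) (nat_lit 97) (nat_lit 5) (nat_lit 92) (nat_lit 5) (nat_lit 360) (nat_lit 316) (nat_lit 104)) (XT.nd (nat_lit 78) (nat_lit 0) (nat_lit 0) (XT.lf (nat_lit 0) (nat_lit 2717852615) (nat_lit 304) (nat_lit 30458225802) (nat_lit 380) (nat_lit 13146798865) (nat_lit 87) (nat_lit 5) (nat_lit 91) (nat_lit 5) (nat_lit 92) (nat_lit 5) (nat_lit 361) (nat_lit 316) (nat_lit 103)) (XT.lf (nat_lit 0) (nat_lit 24862426438) (nat_lit 304) (nat_lit 15547974472) (nat_lit 380) (nat_lit 6818055060) (nat_lit 87) (nat_lit 5) (nat_lit 91) (nat_lit 5) (nat_lit 92) (nat_lit 5) (nat_lit 362) (nat_lit 316) (nat_lit 102)))) (XT.nd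 (nat_lit 156) (nat_lit 304) (nat_lit 0) (XT.nd (nat_lit 78) (nat_lit 456) (nat_lit 0) (XT.lf (nat_lit 0) (nat_lit 47669086715) (nat_lit 304) (nat_lit 190955995) (nat_lit 380) (nat_lit 301212564) (nat_lit 87) (nat_lit 5) (nat_lit 91) (nat_lit 5) (nat_lit 92) (nat_lit 5) (nat_lit 363) (nat_lit 316) (nat_lit 101)) (XT.lf (nat_lit 0) (nat_lit 6652736047) (nat_lit 456) (nat_lit 26855344102) (nat_lit 76) (nat_lit 15601110252) (nat_lit 81) (nat_lit 5) (nat_lit 87) (nat_lit 5) (nat_lit 82) (nat_lit 5) (nat_lit 364) (nat_lit 316) (nat_lit 100))) (XT.nd (nat_lit 78) (nat_lit 304) (nat_lit 0) (XT.lf (nat_lit 0) (nat_lit 13814502498) (nat_lit 456) (nat_lit 4400250795) (nat_lit 76) (nat_lit 31870564994) (nat_lit 81) (nat_lit 5) (nat_lit 87) (nat_lit 5) (nat_lit 82) (nat_lit 5) (nat_lit 365) (nat_lit 316) (nat_lit 99)) (XT.lf (nat_lit 0) (nat_lit 19099006370) (nat_lit 304) (nat_lit 2274098805) (nat_lit 380)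 (nat_lit 29712167065) (nat_lit 77) (nat_lit 5) (nat_lit 81) (nat_lit 5) (nat_lit 82) (nat_lit 5) (nat_lit 366) (nat_lit 316) (nat_lit 98))))))) (XT.nd (nat_lit 1014) (nat_lit 684) (nat_lit 0) (XT.nd (nat_lit 468) (nat_lit 760) (nat_lit 0) (XT.nd (nat_lit 234) (nat_lit 608) (nat_lit 0) (XT.nd (nat_lit 78) (nat_lit 304) (nat_lit 0) (XT.lf (nat_lit 0) (nat_lit 29337720468) (nat_lit 380) (nat_lit 8859059468) (nat_lit 76) (nat_lit 13913068915) (nat_lit 77) (nat_lit 5) (nat_lit 82) (nat_lit 5) (nat_lit 78) (nat_lit 5) (nat_lit 367) (nat_lit 316) (nat_lit 97)) (XT.nd (nat_lit 78) (nat_lit 0) (nat_lit 0) (XT.lf (nat_lit 0) (nat_lit 15234591594) (nat_lit 304) (nat_lit 22474101366) (nat_lit 380) (nat_lit 15451448867) (nat_lit 73) (nat_lit 5) (nat_lit 77) (nat_lit 5) (nat_lit 78) (nat_lit 5) (nat_lit 368) (nat_lit 316) (nat_lit 96)) (XT.lf (nat_lit 0) (nat_lit 40230537723) (nat_lit 304) (nat_lit 6188199278)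 (nat_lit 380) (nat_lit 7820569899) (nat_lit 73) (nat_lit 5) (nat_lit 77) (nat_lit 5) (nat_lit 78) (nat_lit 5) (nat_lit 369) (nat_lit 316) (nat_lit 95)))) (XT.nd (nat_lit 78) (nat_lit 304) (nat_lit 0) (XT.lf (nat_lit 0) (nat_lit 243919673) (nat_lit 304) (nat_lit 44616076539) (nat_lit 76) (nat_lit 10484677392) (nat_lit 69) (nat_lit 5) (nat_lit 73) (nat_lit 5) (nat_lit 70) (nat_lit 5) (nat_lit 370) (nat_lit 316) (nat_lit 94)) (XT.nd (nat_lit 78) (nat_lit 304) (nat_lit 0) (XT.lf (nat_lit 0) (nat_lit 8595818298) (nat_lit 304) (nat_lit 20125913586) (nat_lit 76) (nat_lit 27753068130) (nat_lit 69) (nat_lit 5) (nat_lit 73) (nat_lit 5) (nat_lit 70) (nat_lit 5) (nat_lit 371) (nat_lit 316) (nat_lit 93)) (XT.lf (nat_lit 0) (nat_lit 5198348931) (nat_lit 304) (nat_lit 12048466572) (nat_lit 380) (nat_lit 40390559866) (nat_lit 65) (nat_lit 5) (nat_lit 69) (nat_lit 5) (nat_lit 70) (nat_lit 5) (nat_lit 372) (nat_lit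 316) (nat_lit 92))))) (XT.nd (nat_lit 234) (nat_lit 532) (nat_lit 0) (XT.nd (nat_lit 78) (nat_lit 228) (nat_lit 0) (XT.lf (nat_lit 0) (nat_lit 26410439809) (nat_lit 380) (nat_lit 27187168399) (nat_lit 76) (nat_lit 5229628225) (nat_lit 65) (nat_lit 5) (nat_lit 70) (nat_lit 5) (nat_lit 66) (nat_lit 5) (nat_lit 373) (nat_lit 316) (nat_lit 91)) (XT.nd (nat_lit 78) (nat_lit 228) (nat_lit 0) (XT.lf (nat_lit 0) (nat_lit 35966893828) (nat_lit 380) (nat_lit 1299047727) (nat_lit 76) (nat_lit 22783315467) (nat_lit 65) (nat_lit 5) (nat_lit 70) (nat_lit 5) (nat_lit 66) (nat_lit 5) (nat_lit 374) (nat_lit 316) (nat_lit 90)) (XT.lf (nat_lit 0) (nat_lit 25868562323) (nat_lit 228) (nat_lit 20188812753) (nat_lit 304) (nat_lit 15243144430) (nat_lit 62) (nat_lit 5) (nat_lit 65) (nat_lit 5) (nat_lit 66) (nat_lit 5) (nat_lit 375) (nat_lit 316) (nat_lit 89)))) (XT.nd (nat_lit 156) (nat_lit 228) (nat_lit 0) (XT.nd (nat_lit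 78) (nat_lit 304) (nat_lit 0) (XT.lf (nat_lit 0) (nat_lit 53875905862) (nat_lit 228) (nat_lit 2586472164) (nat_lit 304) (nat_lit 6126588867) (nat_lit 62) (nat_lit 5) (nat_lit 65) (nat_lit 5) (nat_lit 66) (nat_lit 5) (nat_lit 376) (nat_lit 316) (nat_lit 88)) (XT.lf (nat_lit 0) (nat_lit 3534100392) (nat_lit 304) (nat_lit 44913410539) (nat_lit 76) (nat_lit 15457587267) (nat_lit 58) (nat_lit 5) (nat_lit 62) (nat_lit 5) (nat_lit 59) (nat_lit 5) (nat_lit 377) (nat_lit 316) (nat_lit 87))) (XT.nd (nat_lit 78) (nat_lit 228) (nat_lit 0) (XT.lf (nat_lit 0) (nat_lit 13474663948) (nat_lit 304) (nat_lit 17640934406) (nat_lit 76) (nat_lit 34139900690) (nat_lit 58) (nat_lit 5) (nat_lit 62) (nat_lit 5) (nat_lit 59) (nat_lit 5) (nat_lit 378) (nat_lit 316) (nat_lit 86)) (XT.lf (nat_lit 0) (nat_lit 10655795106) (nat_lit 228) (nat_lit 13158843776) (nat_lit 304) (nat_lit 42828738308) (nat_lit 55) (nat_lit 5) (nat_lit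 58) (nat_lit 5) (nat_lit 59) (nat_lit 5) (nat_lit 379) (nat_lit 316) (nat_lit 85)))))) (XT.nd (nat_lit 546) (nat_lit 0) (nat_lit 0) (XT.nd (nat_lit 234) (nat_lit 456) (nat_lit 0) (XT.nd (nat_lit 78) (nat_lit 228) (nat_lit 0) (XT.lf (nat_lit 0) (nat_lit 34694791305) (nat_lit 304) (nat_lit 27959429012) (nat_lit 76) (nat_lit 5411773092) (nat_lit 55) (nat_lit 5) (nat_lit 59) (nat_lit 5) (nat_lit 56) (nat_lit 5) (nat_lit 380) (nat_lit 316) (nat_lit 84)) (XT.nd (nat_lit 78) (nat_lit 0) (nat_lit 0) (XT.lf (nat_lit 0) (nat_lit 792943319) (nat_lit 228) (nat_lit 45245125292) (nat_lit 304) (nat_lit 23489118939) (nat_lit 52) (nat_lit 5) (nat_lit 55) (nat_lit 5) (nat_lit 56) (nat_lit 5) (nat_lit 381) (nat_lit 316) (nat_lit 83)) (XT.lf (nat_lit 0) (nat_lit 30979232548) (nat_lit 228) (nat_lit 27023576905) (nat_lit 304) (nat_lit 13020974120) (nat_lit 52) (nat_lit 5) (nat_lit 55) (nat_lit 5) (nat_lit 56) (nat_lit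 5) (nat_lit 382) (nat_lit 316) (nat_lit 82)))) (XT.nd (nat_lit 156) (nat_lit 228) (nat_lit 0) (XT.nd (nat_lit 78) (nat_lit 228) (nat_lit 0) (XT.lf (nat_lit 0) (nat_lit 62069367582) (nat_lit 228) (nat_lit 8255988826) (nat_lit 304) (nat_lit 2239956137) (nat_lit 52) (nat_lit 5) (nat_lit 55) (nat_lit 5) (nat_lit 56) (nat_lit 5) (nat_lit 383) (nat_lit 316) (nat_lit 81)) (XT.lf (nat_lit 0) (nat_lit 8994249689) (nat_lit 228) (nat_lit 54006656863) (nat_lit 76) (nat_lit 11140543369) (nat_lit 49) (nat_lit 5) (nat_lit 52) (nat_lit 5) (nat_lit 50) (nat_lit 5) (nat_lit 384) (nat_lit 316) (nat_lit 80))) (XT.nd (nat_lit 78) (nat_lit 228) (nat_lit 0) (XT.lf (nat_lit 0) (nat_lit 20708136611) (nat_lit 228) (nat_lit 23968778107) (nat_lit 76) (nat_lit 31081661995) (nat_lit 49) (nat_lit 5) (nat_lit 52) (nat_lit 5) (nat_lit 50) (nat_lit 5) (nat_lit 385) (nat_lit 316) (nat_lit 79)) (XT.lf (nat_lit 0) (nat_lit 7107248814)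 (nat_lit 228) (nat_lit 25733438222) (nat_lit 304) (nat_lit 44581513740) (nat_lit 46) (nat_lit 5) (nat_lit 49) (nat_lit 5) (nat_lit 50) (nat_lit 5) (nat_lit 386) (nat_lit 316) (nat_lit 78))))) (XT.nd (nat_lit 35256) (nat_lit 0) (nat_lit 9804) (XT.nd (nat_lit 78) (nat_lit 0) (nat_lit 0) (XT.lf (nat_lit 0) (nat_lit 39605233210) (nat_lit 228) (nat_lit 5972961376) (nat_lit 304) (nat_lit 33550310406) (nat_lit 46) (nat_lit 5) (nat_lit 49) (nat_lit 5) (nat_lit 50) (nat_lit 5) (nat_lit 387) (nat_lit 316) (nat_lit 77)) (XT.nd (nat_lit 35100) (nat_lit 0) (nat_lit 9804) (XT.lf (nat_lit 0) (nat_lit 58835028003) (nat_lit 304) (nat_lit 7947711154) (nat_lit 76) (nat_lit 14099143983) (nat_lit 46) (nat_lit 5) (nat_lit 50) (nat_lit 5) (nat_lit 47) (nat_lit 5) (nat_lit 388) (nat_lit 316) (nat_lit 76)) (XT.lf (nat_lit 0) (nat_lit 822347406) (nat_lit 0) (nat_lit 822347406) (nat_lit 1140) (nat_lit 9445810938) (nat_lit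 175) (nat_lit 5) (nat_lit 175) (nat_lit 3) (nat_lit 190) (nat_lit 3) (nat_lit 317) (nat_lit 317) (nat_lit 146)))) (XT.nd (nat_lit 156) (nat_lit 0) (nat_lit 76) (XT.nd (nat_lit 78) (nat_lit 0) (nat_lit 0) (XT.lf (nat_lit 0) (nat_lit 3544846539) (nat_lit 1140) (nat_lit 10846253670) (nat_lit 1216) (nat_lit 8116249027) (nat_lit 175) (nat_lit 5) (nat_lit 190) (nat_lit 3) (nat_lit 191) (nat_lit 5) (nat_lit 318) (nat_lit 317) (nat_lit 145)) (XT.lf (nat_lit 0) (nat_lit 3819336305) (nat_lit 1140) (nat_lit 884421683) (nat_lit 1216) (nat_lit 18139385609) (nat_lit 175) (nat_lit 5) (nat_lit 190) (nat_lit 3) (nat_lit 191) (nat_lit 5) (nat_lit 319) (nat_lit 317) (nat_lit 144))) (XT.nd (nat_lit 78) (nat_lit 0) (nat_lit 0) (XT.lf (nat_lit 0) (nat_lit 4240817834) (nat_lit 1140) (nat_lit 13677786765) (nat_lit 1216) (nat_lit 5266251826) (nat_lit 176) (nat_lit 5) (nat_lit 191) (nat_lit 5) (nat_lit 192) (nat_lit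 5) (nat_lit 320) (nat_lit 317) (nat_lit 143)) (XT.lf (nat_lit 0) (nat_lit 4725898012) (nat_lit 1140) (nat_lit 3357491073) (nat_lit 1216) (nat_lit 15451910064) (nat_lit 176) (nat_lit 5) (nat_lit 191) (nat_lit 5) (nat_lit 192) (nat_lit 5) (nat_lit 321) (nat_lit 317) (nat_lit 142))))))))
noncomputable def xc226 : XT := (XT.nd (nat_lit 2028) (nat_lit 5016) (nat_lit 0) (XT.nd (nat_lit 1014) (nat_lit 3496) (nat_lit 0) (XT.nd (nat_lit 468) (nat_lit 0) (nat_lit 152) (XT.nd (nat_lit 234) (nat_lit 0) (nat_lit 76) (XT.nd (nat_lit 78) (nat_lit 0) (nat_lit 0) (XT.lf (nat_lit 0) (nat_lit 5312700494) (nat_lit 1140) (nat_lit 16500196695) (nat_lit 1216) (nat_lit 2080749794) (nat_lit 177) (nat_lit 5) (nat_lit 192) (nat_lit 5) (nat_lit 193) (nat_lit 5) (nat_lit 322) (nat_lit 317) (nat_lit 141)) (XT.nd (nat_lit 78) (nat_lit 0) (nat_lit 0) (XT.lf (nat_lit 0) (nat_lit 6027001644) (nat_lit 1140) (nat_lit 5809116717)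 (nat_lit 1216) (nat_lit 12423336780) (nat_lit 177) (nat_lit 5) (nat_lit 192) (nat_lit 5) (nat_lit 193) (nat_lit 5) (nat_lit 323) (nat_lit 317) (nat_lit 140)) (XT.lf (nat_lit 76) (nat_lit 5303502093) (nat_lit 0) (nat_lit 1505959054) (nat_lit 1216) (nat_lit 17825381047) (nat_lit 178) (nat_lit 5) (nat_lit 177) (nat_lit 5) (nat_lit 193) (nat_lit 5) (nat_lit 324) (nat_lit 317) (nat_lit 139)))) (XT.nd (nat_lit 78) (nat_lit 0) (nat_lit 0) (XT.lf (nat_lit 0) (nat_lit 7758299987) (nat_lit 1140) (nat_lit 8242336757) (nat_lit 1216) (nat_lit 9016573286) (nat_lit 178) (nat_lit 5) (nat_lit 193) (nat_lit 5) (nat_lit 194) (nat_lit 5) (nat_lit 325) (nat_lit 317) (nat_lit 138)) (XT.nd (nat_lit 78) (nat_lit 0) (nat_lit 76) (XT.lf (nat_lit 76) (nat_lit 3224628986) (nat_lit 0) (nat_lit 5552864597) (nat_lit 1216) (nat_lit 16632304786) (nat_lit 179) (nat_lit 5) (nat_lit 178) (nat_lit 5) (nat_lit 194) (nat_lit 5) (nat_lit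 326) (nat_lit 317) (nat_lit 137)) (XT.lf (nat_lit 0) (nat_lit 9957469230) (nat_lit 1140) (nat_lit 10660824008) (nat_lit 1216) (nat_lit 5191970909) (nat_lit 179) (nat_lit 5) (nat_lit 194) (nat_lit 5) (nat_lit 195) (nat_lit 5) (nat_lit 327) (nat_lit 317) (nat_lit 136))))) (XT.nd (nat_lit 234) (nat_lit 0) (nat_lit 76) (XT.nd (nat_lit 78) (nat_lit 0) (nat_lit 76) (XT.lf (nat_lit 76) (nat_lit 1174442624) (nat_lit 0) (nat_lit 10060868840) (nat_lit 1216) (nat_lit 14985564215) (nat_lit 180) (nat_lit 5) (nat_lit 179) (nat_lit 5) (nat_lit 195) (nat_lit 5) (nat_lit 328) (nat_lit 317) (nat_lit 135)) (XT.nd (nat_lit 78) (nat_lit 0) (nat_lit 0) (XT.lf (nat_lit 0) (nat_lit 12664319112) (nat_lit 1140) (nat_lit 13069003470) (nat_lit 1216) (nat_lit 907103703) (nat_lit 180) (nat_lit 5) (nat_lit 195) (nat_lit 5) (nat_lit 196) (nat_lit 5) (nat_lit 329) (nat_lit 317) (nat_lit 134)) (XT.lf (nat_lit 0) (nat_lit 14232210644)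 (nat_lit 1140) (nat_lit 834628228) (nat_lit 1216) (nat_lit 12002849598) (nat_lit 180) (nat_lit 5) (nat_lit 195) (nat_lit 5) (nat_lit 196) (nat_lit 5) (nat_lit 330) (nat_lit 317) (nat_lit 133)))) (XT.nd (nat_lit 156) (nat_lit 0) (nat_lit 76) (XT.nd (nat_lit 78) (nat_lit 0) (nat_lit 76) (XT.lf (nat_lit 76) (nat_lit 11998222667) (nat_lit 0) (nat_lit 3960756423) (nat_lit 1216) (nat_lit 11549499532) (nat_lit 181) (nat_lit 5) (nat_lit 180) (nat_lit 5) (nat_lit 196) (nat_lit 5) (nat_lit 331) (nat_lit 317) (nat_lit 132)) (XT.lf (nat_lit 0) (nat_lit 17814539586) (nat_lit 1140) (nat_lit 2801755757) (nat_lit 1216) (nat_lit 7341832623) (nat_lit 181) (nat_lit 5) (nat_lit 196) (nat_lit 5) (nat_lit 197) (nat_lit 5) (nat_lit 332) (nat_lit 317) (nat_lit 131))) (XT.nd (nat_lit 78) (nat_lit 0) (nat_lit 76) (XT.lf (nat_lit 76) (nat_lit 10450009295) (nat_lit 0) (nat_lit 9412113669) (nat_lit 1216) (nat_lit 8555058146)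 (nat_lit 182) (nat_lit 5) (nat_lit 181) (nat_lit 5) (nat_lit 197) (nat_lit 5) (nat_lit 333) (nat_lit 317) (nat_lit 130)) (XT.lf (nat_lit 0) (nat_lit 22016928825) (nat_lit 1140) (nat_lit 4755907421) (nat_lit 76) (nat_lit 2115800613) (nat_lit 182) (nat_lit 5) (nat_lit 197) (nat_lit 5) (nat_lit 183) (nat_lit 5) (nat_lit 334) (nat_lit 317) (nat_lit 129)))))) (XT.nd (nat_lit 468) (nat_lit 1520) (nat_lit 0) (XT.nd (nat_lit 234) (nat_lit 684) (nat_lit 0) (XT.nd (nat_lit 78) (nat_lit 532) (nat_lit 0) (XT.lf (nat_lit 0) (nat_lit 8930071020) (nat_lit 1140) (nat_lit 15482197730) (nat_lit 1216) (nat_lit 4956695549) (nat_lit 167) (nat_lit 5) (nat_lit 182) (nat_lit 5) (nat_lit 183) (nat_lit 5) (nat_lit 335) (nat_lit 317) (nat_lit 128)) (XT.nd (nat_lit 78) (nat_lit 532) (nat_lit 0) (XT.lf (nat_lit 0) (nat_lit 23121454161) (nat_lit 1140) (nat_lit 3802965242) (nat_lit 1216) (nat_lit 2937938226) (nat_lit 167)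 (nat_lit 5) (nat_lit 182) (nat_lit 5) (nat_lit 183) (nat_lit 5) (nat_lit 336) (nat_lit 317) (nat_lit 127)) (XT.lf (nat_lit 0) (nat_lit 7431271108) (nat_lit 532) (nat_lit 22228195488) (nat_lit 608) (nat_lit 706664647) (nat_lit 160) (nat_lit 5) (nat_lit 167) (nat_lit 5) (nat_lit 168) (nat_lit 5) (nat_lit 337) (nat_lit 317) (nat_lit 126)))) (XT.nd (nat_lit 78) (nat_lit 608) (nat_lit 0) (XT.lf (nat_lit 0) (nat_lit 1663933994) (nat_lit 608) (nat_lit 8772532031) (nat_lit 76) (nat_lit 20444993954) (nat_lit 159) (nat_lit 5) (nat_lit 167) (nat_lit 5) (nat_lit 160) (nat_lit 5) (nat_lit 338) (nat_lit 317) (nat_lit 125)) (XT.nd (nat_lit 78) (nat_lit 0) (nat_lit 0) (XT.lf (nat_lit 0) (nat_lit 4162555065) (nat_lit 684) (nat_lit 25506927368) (nat_lit 76) (nat_lit 1740427079) (nat_lit 151) (nat_lit 5) (nat_lit 160) (nat_lit 5) (nat_lit 152) (nat_lit 5) (nat_lit 339) (nat_lit 317) (nat_lit 124)) (XT.lf (nat_lit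 0) (nat_lit 6926121464) (nat_lit 684) (nat_lit 10859881072) (nat_lit 76) (nat_lit 14162514346) (nat_lit 151) (nat_lit 5) (nat_lit 160) (nat_lit 5) (nat_lit 152) (nat_lit 5) (nat_lit 340) (nat_lit 317) (nat_lit 123))))) (XT.nd (nat_lit 234) (nat_lit 456) (nat_lit 0) (XT.nd (nat_lit 78) (nat_lit 532) (nat_lit 0) (XT.lf (nat_lit 0) (nat_lit 4308012596) (nat_lit 532) (nat_lit 5503268164) (nat_lit 608) (nat_lit 22690844972) (nat_lit 144) (nat_lit 5) (nat_lit 151) (nat_lit 5) (nat_lit 152) (nat_lit 5) (nat_lit 341) (nat_lit 317) (nat_lit 122)) (XT.nd (nat_lit 78) (nat_lit 532) (nat_lit 0) (XT.lf (nat_lit 0) (nat_lit 12959784232) (nat_lit 608) (nat_lit 12987976771) (nat_lit 76) (nat_lit 7119281886) (nat_lit 144) (nat_lit 5) (nat_lit 152) (nat_lit 5) (nat_lit 145) (nat_lit 5) (nat_lit 342) (nat_lit 317) (nat_lit 121)) (XT.lf (nat_lit 0) (nat_lit 2669334908) (nat_lit 532) (nat_lit 13610962423) (nat_lit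 608) (nat_lit 17366287210) (nat_lit 137) (nat_lit 5) (nat_lit 144) (nat_lit 5) (nat_lit 145) (nat_lit 5) (nat_lit 343) (nat_lit 317) (nat_lit 120)))) (XT.nd (nat_lit 156) (nat_lit 0) (nat_lit 0) (XT.nd (nat_lit 78) (nat_lit 456) (nat_lit 0) (XT.lf (nat_lit 0) (nat_lit 19060022999) (nat_lit 532) (nat_lit 769014038) (nat_lit 608) (nat_lit 14410620579) (nat_lit 137) (nat_lit 5) (nat_lit 144) (nat_lit 5) (nat_lit 145) (nat_lit 5) (nat_lit 344) (nat_lit 317) (nat_lit 119)) (XT.lf (nat_lit 0) (nat_lit 988863846) (nat_lit 456) (nat_lit 22622168181) (nat_lit 532) (nat_lit 11235690470) (nat_lit 131) (nat_lit 5) (nat_lit 137) (nat_lit 5) (nat_lit 138) (nat_lit 5) (nat_lit 345) (nat_lit 317) (nat_lit 118))) (XT.nd (nat_lit 78) (nat_lit 0) (nat_lit 0) (XT.lf (nat_lit 0) (nat_lit 17943259177) (nat_lit 456) (nat_lit 9721630629) (nat_lit 532) (nat_lit 7802360738) (nat_lit 131) (nat_lit 5) (nat_lit 137) (nat_lit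 5) (nat_lit 138) (nat_lit 5) (nat_lit 346) (nat_lit 317) (nat_lit 117)) (XT.lf (nat_lit 0) (nat_lit 31872289407) (nat_lit 532) (nat_lit 736943938) (nat_lit 76) (nat_lit 3496206518) (nat_lit 131) (nat_lit 5) (nat_lit 138) (nat_lit 5) (nat_lit 132) (nat_lit 5) (nat_lit 347) (nat_lit 317) (nat_lit 116))))))) (XT.nd (nat_lit 1014) (nat_lit 1976) (nat_lit 0) (XT.nd (nat_lit 468) (nat_lit 1596) (nat_lit 0) (XT.nd (nat_lit 234) (nat_lit 456) (nat_lit 0) (XT.nd (nat_lit 78) (nat_lit 532) (nat_lit 0) (XT.lf (nat_lit 0) (nat_lit 16782463933) (nat_lit 456) (nat_lit 19678740893) (nat_lit 532) (nat_lit 293914340) (nat_lit 125) (nat_lit 5) (nat_lit 131) (nat_lit 5) (nat_lit 132) (nat_lit 5) (nat_lit 348) (nat_lit 317) (nat_lit 115)) (XT.nd (nat_lit 78) (nat_lit 456) (nat_lit 0) (XT.lf (nat_lit 0) (nat_lit 3695309274) (nat_lit 532) (nat_lit 2620262874) (nat_lit 76) (nat_lit 31107476833) (nat_lit 124) (nat_lit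 5) (nat_lit 131) (nat_lit 5) (nat_lit 125) (nat_lit 5) (nat_lit 349) (nat_lit 317) (nat_lit 114)) (XT.lf (nat_lit 0) (nat_lit 8018692606) (nat_lit 532) (nat_lit 22628810438) (nat_lit 76) (nat_lit 7456817486) (nat_lit 118) (nat_lit 5) (nat_lit 125) (nat_lit 5) (nat_lit 119) (nat_lit 5) (nat_lit 350) (nat_lit 317) (nat_lit 113)))) (XT.nd (nat_lit 78) (nat_lit 456) (nat_lit 0) (XT.lf (nat_lit 0) (nat_lit 12558868276) (nat_lit 532) (nat_lit 4702635197) (nat_lit 76) (nat_lit 21541916799) (nat_lit 118) (nat_lit 5) (nat_lit 125) (nat_lit 5) (nat_lit 119) (nat_lit 5) (nat_lit 351) (nat_lit 317) (nat_lit 112)) (XT.nd (nat_lit 78) (nat_lit 0) (nat_lit 0) (XT.lf (nat_lit 0) (nat_lit 14032751492) (nat_lit 456) (nat_lit 3335290985) (nat_lit 532) (nat_lit 22151469421) (nat_lit 112) (nat_lit 5) (nat_lit 118) (nat_lit 5) (nat_lit 119) (nat_lit 5) (nat_lit 352) (nat_lit 317) (nat_lit 111)) (XT.lf (nat_lit 0)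 (nat_lit 22473208936) (nat_lit 532) (nat_lit 6937796169) (nat_lit 76) (nat_lit 10841532268) (nat_lit 112) (nat_lit 5) (nat_lit 119) (nat_lit 5) (nat_lit 113) (nat_lit 5) (nat_lit 353) (nat_lit 317) (nat_lit 110))))) (XT.nd (nat_lit 234) (nat_lit 836) (nat_lit 0) (XT.nd (nat_lit 78) (nat_lit 380) (nat_lit 0) (XT.lf (nat_lit 0) (nat_lit 12373699758) (nat_lit 380) (nat_lit 15507794003) (nat_lit 456) (nat_lit 13121563488) (nat_lit 107) (nat_lit 5) (nat_lit 112) (nat_lit 5) (nat_lit 113) (nat_lit 5) (nat_lit 354) (nat_lit 317) (nat_lit 109)) (XT.nd (nat_lit 78) (nat_lit 380) (nat_lit 0) (XT.lf (nat_lit 0) (nat_lit 32404411814) (nat_lit 380) (nat_lit 1115706349) (nat_lit 456) (nat_lit 8253934288) (nat_lit 107) (nat_lit 5) (nat_lit 112) (nat_lit 5) (nat_lit 113) (nat_lit 5) (nat_lit 355) (nat_lit 317) (nat_lit 108)) (XT.lf (nat_lit 0) (nat_lit 10539424227) (nat_lit 380) (nat_lit 29019646173) (nat_lit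 456) (nat_lit 3002174425) (nat_lit 102) (nat_lit 5) (nat_lit 107) (nat_lit 5) (nat_lit 108) (nat_lit 5) (nat_lit 356) (nat_lit 317) (nat_lit 107)))) (XT.nd (nat_lit 156) (nat_lit 380) (nat_lit 0) (XT.nd (nat_lit 78) (nat_lit 380) (nat_lit 0) (XT.lf (nat_lit 0) (nat_lit 2464863940) (nat_lit 456) (nat_lit 12168859053) (nat_lit 76) (nat_lit 28734497135) (nat_lit 101) (nat_lit 5) (nat_lit 107) (nat_lit 5) (nat_lit 102) (nat_lit 5) (nat_lit 357) (nat_lit 317) (nat_lit 106)) (XT.lf (nat_lit 0) (nat_lit 8117444263) (nat_lit 456) (nat_lit 35787173323) (nat_lit 76) (nat_lit 291441411) (nat_lit 96) (nat_lit 5) (nat_lit 102) (nat_lit 5) (nat_lit 97) (nat_lit 5) (nat_lit 358) (nat_lit 317) (nat_lit 105))) (XT.nd (nat_lit 78) (nat_lit 380) (nat_lit 0) (XT.lf (nat_lit 0) (nat_lit 14206770947) (nat_lit 456) (nat_lit 15340052246) (nat_lit 76) (nat_lit 15493896892) (nat_lit 96) (nat_lit 5) (nat_lit 102) (nat_lit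 5) (nat_lit 97) (nat_lit 5) (nat_lit 359) (nat_lit 317) (nat_lit 104)) (XT.lf (nat_lit 0) (nat_lit 5832040865) (nat_lit 380) (nat_lit 14701032994) (nat_lit 456) (nat_lit 25376020317) (nat_lit 91) (nat_lit 5) (nat_lit 96) (nat_lit 5) (nat_lit 97) (nat_lit 5) (nat_lit 360) (nat_lit 317) (nat_lit 103)))))) (XT.nd (nat_lit 468) (nat_lit 1216) (nat_lit 0) (XT.nd (nat_lit 234) (nat_lit 456) (nat_lit 0) (XT.nd (nat_lit 78) (nat_lit 304) (nat_lit 0) (XT.lf (nat_lit 0) (nat_lit 27209537321) (nat_lit 456) (nat_lit 18854599006) (nat_lit 76) (nat_lit 734574021) (nat_lit 91) (nat_lit 5) (nat_lit 97) (nat_lit 5) (nat_lit 92) (nat_lit 5) (nat_lit 361) (nat_lit 317) (nat_lit 102)) (XT.nd (nat_lit 78) (nat_lit 0) (nat_lit 0) (XT.lf (nat_lit 0) (nat_lit 2913622577) (nat_lit 304) (nat_lit 31344545681) (nat_lit 380) (nat_lit 13451692482) (nat_lit 87) (nat_lit 5) (nat_lit 91) (nat_lit 5) (nat_lit 92) (nat_lit 5)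 (nat_lit 362) (nat_lit 317) (nat_lit 101)) (XT.lf (nat_lit 0) (nat_lit 25719206400) (nat_lit 304) (nat_lit 15987785654) (nat_lit 380) (nat_lit 6935693461) (nat_lit 87) (nat_lit 5) (nat_lit 91) (nat_lit 5) (nat_lit 92) (nat_lit 5) (nat_lit 363) (nat_lit 317) (nat_lit 100)))) (XT.nd (nat_lit 78) (nat_lit 456) (nat_lit 0) (XT.lf (nat_lit 0) (nat_lit 49206836180) (nat_lit 304) (nat_lit 170832196) (nat_lit 380) (nat_lit 225876852) (nat_lit 87) (nat_lit 5) (nat_lit 91) (nat_lit 5) (nat_lit 92) (nat_lit 5) (nat_lit 364) (nat_lit 317) (nat_lit 99)) (XT.nd (nat_lit 78) (nat_lit 0) (nat_lit 0) (XT.lf (nat_lit 0) (nat_lit 6933935145) (nat_lit 456) (nat_lit 27550394591) (nat_lit 76) (nat_lit 16095600231) (nat_lit 81) (nat_lit 5) (nat_lit 87) (nat_lit 5) (nat_lit 82) (nat_lit 5) (nat_lit 365) (nat_lit 317) (nat_lit 98)) (XT.lf (nat_lit 0) (nat_lit 14308177395) (nat_lit 456) (nat_lit 4424870130) (nat_lit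 76) (nat_lit 32852368033) (nat_lit 81) (nat_lit 5) (nat_lit 87) (nat_lit 5) (nat_lit 82) (nat_lit 5) (nat_lit 366) (nat_lit 317) (nat_lit 97))))) (XT.nd (nat_lit 234) (nat_lit 608) (nat_lit 0) (XT.nd (nat_lit 78) (nat_lit 304) (nat_lit 0) (XT.lf (nat_lit 0) (nat_lit 19778311924) (nat_lit 304) (nat_lit 2313940432) (nat_lit 380) (nat_lit 30523156825) (nat_lit 77) (nat_lit 5) (nat_lit 81) (nat_lit 5) (nat_lit 82) (nat_lit 5) (nat_lit 367) (nat_lit 317) (nat_lit 96)) (XT.nd (nat_lit 78) (nat_lit 304) (nat_lit 0) (XT.lf (nat_lit 0) (nat_lit 30293800476) (nat_lit 380) (nat_lit 9019507204) (nat_lit 76) (nat_lit 14357477987) (nat_lit 77) (nat_lit 5) (nat_lit 82) (nat_lit 5) (nat_lit 78) (nat_lit 5) (nat_lit 368) (nat_lit 317) (nat_lit 95)) (XT.lf (nat_lit 0) (nat_lit 15795920802) (nat_lit 304) (nat_lit 23118771765) (nat_lit 380) (nat_lit 15837933488) (nat_lit 73) (nat_lit 5) (nat_lit 77) (nat_lit 5)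 (nat_lit 78) (nat_lit 5) (nat_lit 369) (nat_lit 317) (nat_lit 94)))) (XT.nd (nat_lit 156) (nat_lit 304) (nat_lit 0) (XT.nd (nat_lit 78) (nat_lit 304) (nat_lit 0) (XT.lf (nat_lit 0) (nat_lit 41538707699) (nat_lit 304) (nat_lit 6345153371) (nat_lit 380) (nat_lit 7980372584) (nat_lit 73) (nat_lit 5) (nat_lit 77) (nat_lit 5) (nat_lit 78) (nat_lit 5) (nat_lit 370) (nat_lit 317) (nat_lit 93)) (XT.lf (nat_lit 0) (nat_lit 323717975) (nat_lit 304) (nat_lit 45850826642) (nat_lit 76) (nat_lit 10828223520) (nat_lit 69) (nat_lit 5) (nat_lit 73) (nat_lit 5) (nat_lit 70) (nat_lit 5) (nat_lit 371) (nat_lit 317) (nat_lit 92))) (XT.nd (nat_lit 78) (nat_lit 304) (nat_lit 0) (XT.lf (nat_lit 0) (nat_lit 8924062470) (nat_lit 304) (nat_lit 20628980126) (nat_lit 76) (nat_lit 28613821150) (nat_lit 69) (nat_lit 5) (nat_lit 73) (nat_lit 5) (nat_lit 70) (nat_lit 5) (nat_lit 372) (nat_lit 317) (nat_lit 91)) (XT.lf (nat_lit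 0) (nat_lit 5454022906) (nat_lit 304) (nat_lit 12379475688) (nat_lit 380) (nat_lit 41530852512) (nat_lit 65) (nat_lit 5) (nat_lit 69) (nat_lit 5) (nat_lit 70) (nat_lit 5) (nat_lit 373) (nat_lit 317) (nat_lit 90))))))))
noncomputable def xc227 : XT := (XT.nd (nat_lit 37128) (nat_lit 0) (nat_lit 4636) (XT.nd (nat_lit 1014) (nat_lit 228) (nat_lit 0) (XT.nd (nat_lit 468) (nat_lit 684) (nat_lit 0) (XT.nd (nat_lit 234) (nat_lit 304) (nat_lit 0) (XT.nd (nat_lit 78) (nat_lit 228) (nat_lit 0) (XT.lf (nat_lit 0) (nat_lit 27270297935) (nat_lit 380) (nat_lit 27904165611) (nat_lit 76) (nat_lit 5415498422) (nat_lit 65) (nat_lit 5) (nat_lit 70) (nat_lit 5) (nat_lit 66) (nat_lit 5) (nat_lit 374) (nat_lit 317) (nat_lit 89)) (XT.nd (nat_lit 78) (nat_lit 228) (nat_lit 0) (XT.lf (nat_lit 0) (nat_lit 37111478247) (nat_lit 380) (nat_lit 1242273683) (nat_lit 76) (nat_lit 23494952165) (nat_lit 65) (nat_lit 5) (nat_lit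 70) (nat_lit 5) (nat_lit 66) (nat_lit 5) (nat_lit 375) (nat_lit 317) (nat_lit 88)) (XT.lf (nat_lit 0) (nat_lit 26739425987) (nat_lit 228) (nat_lit 20764249259) (nat_lit 304) (nat_lit 15633861012) (nat_lit 62) (nat_lit 5) (nat_lit 65) (nat_lit 5) (nat_lit 66) (nat_lit 5) (nat_lit 376) (nat_lit 317) (nat_lit 87)))) (XT.nd (nat_lit 78) (nat_lit 304) (nat_lit 0) (XT.lf (nat_lit 0) (nat_lit 55584228470) (nat_lit 228) (nat_lit 2634718876) (nat_lit 304) (nat_lit 6245747940) (nat_lit 62) (nat_lit 5) (nat_lit 65) (nat_lit 5) (nat_lit 66) (nat_lit 5) (nat_lit 377) (nat_lit 317) (nat_lit 86)) (XT.nd (nat_lit 78) (nat_lit 0) (nat_lit 0) (XT.lf (nat_lit 0) (nat_lit 3702832065) (nat_lit 304) (nat_lit 46166723306) (nat_lit 76) (nat_lit 15950758263) (nat_lit 58) (nat_lit 5) (nat_lit 62) (nat_lit 5) (nat_lit 59) (nat_lit 5) (nat_lit 378) (nat_lit 317) (nat_lit 85)) (XT.lf (nat_lit 0) (nat_lit 13939786062) (nat_lit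 304) (nat_lit 18078813361) (nat_lit 76) (nat_lit 35192683515) (nat_lit 58) (nat_lit 5) (nat_lit 62) (nat_lit 5) (nat_lit 59) (nat_lit 5) (nat_lit 379) (nat_lit 317) (nat_lit 84))))) (XT.nd (nat_lit 234) (nat_lit 228) (nat_lit 0) (XT.nd (nat_lit 78) (nat_lit 228) (nat_lit 0) (XT.lf (nat_lit 0) (nat_lit 11065922458) (nat_lit 228) (nat_lit 13523134014) (nat_lit 304) (nat_lit 44051769661) (nat_lit 55) (nat_lit 5) (nat_lit 58) (nat_lit 5) (nat_lit 59) (nat_lit 5) (nat_lit 380) (nat_lit 317) (nat_lit 83)) (XT.nd (nat_lit 78) (nat_lit 228) (nat_lit 0) (XT.lf (nat_lit 0) (nat_lit 35794150935) (nat_lit 304) (nat_lit 28708878944) (nat_lit 76) (nat_lit 5603136379) (nat_lit 55) (nat_lit 5) (nat_lit 59) (nat_lit 5) (nat_lit 56) (nat_lit 5) (nat_lit 381) (nat_lit 317) (nat_lit 82)) (XT.lf (nat_lit 0) (nat_lit 905188744) (nat_lit 228) (nat_lit 46571683775) (nat_lit 304) (nat_lit 24134350826) (nat_lit 52) (nat_lit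 5) (nat_lit 55) (nat_lit 5) (nat_lit 56) (nat_lit 5) (nat_lit 382) (nat_lit 317) (nat_lit 81)))) (XT.nd (nat_lit 156) (nat_lit 228) (nat_lit 0) (XT.nd (nat_lit 78) (nat_lit 0) (nat_lit 0) (XT.lf (nat_lit 0) (nat_lit 31994490228) (nat_lit 228) (nat_lit 27804385886) (nat_lit 304) (nat_lit 13353892974) (nat_lit 52) (nat_lit 5) (nat_lit 55) (nat_lit 5) (nat_lit 56) (nat_lit 5) (nat_lit 383) (nat_lit 317) (nat_lit 80)) (XT.lf (nat_lit 0) (nat_lit 64014827934) (nat_lit 228) (nat_lit 8474640989) (nat_lit 304) (nat_lit 2251125335) (nat_lit 52) (nat_lit 5) (nat_lit 55) (nat_lit 5) (nat_lit 56) (nat_lit 5) (nat_lit 384) (nat_lit 317) (nat_lit 79))) (XT.nd (nat_lit 78) (nat_lit 0) (nat_lit 0) (XT.lf (nat_lit 0) (nat_lit 9318501769) (nat_lit 228) (nat_lit 55541782209) (nat_lit 76) (nat_lit 11503732300) (nat_lit 49) (nat_lit 5) (nat_lit 52) (nat_lit 5) (nat_lit 50) (nat_lit 5) (nat_lit 385) (nat_lit 317)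 (nat_lit 78)) (XT.lf (nat_lit 0) (nat_lit 21382220117) (nat_lit 228) (nat_lit 24605244984) (nat_lit 76) (nat_lit 32042240621) (nat_lit 49) (nat_lit 5) (nat_lit 52) (nat_lit 5) (nat_lit 50) (nat_lit 5) (nat_lit 386) (nat_lit 317) (nat_lit 77)))))) (XT.nd (nat_lit 35568) (nat_lit 0) (nat_lit 9880) (XT.nd (nat_lit 35334) (nat_lit 0) (nat_lit 9804) (XT.nd (nat_lit 78) (nat_lit 0) (nat_lit 0) (XT.lf (nat_lit 0) (nat_lit 7402252976) (nat_lit 228) (nat_lit 26475741250) (nat_lit 304) (nat_lit 45865268121) (nat_lit 46) (nat_lit 5) (nat_lit 49) (nat_lit 5) (nat_lit 50) (nat_lit 5) (nat_lit 387) (nat_lit 317) (nat_lit 76)) (XT.nd (nat_lit 35178) (nat_lit 0) (nat_lit 9804) (XT.lf (nat_lit 0) (nat_lit 40872794767) (nat_lit 228) (nat_lit 6123315151) (nat_lit 304) (nat_lit 34504692504) (nat_lit 46) (nat_lit 5) (nat_lit 49) (nat_lit 5) (nat_lit 50) (nat_lit 5) (nat_lit 388) (nat_lit 317) (nat_lit 75)) (XT.lf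 (nat_lit 0) (nat_lit 909682114) (nat_lit 0) (nat_lit 909682114) (nat_lit 1140) (nat_lit 9599904746) (nat_lit 175) (nat_lit 5) (nat_lit 175) (nat_lit 3) (nat_lit 190) (nat_lit 3) (nat_lit 318) (nat_lit 318) (nat_lit 144)))) (XT.nd (nat_lit 78) (nat_lit 0) (nat_lit 0) (XT.lf (nat_lit 0) (nat_lit 3893378738) (nat_lit 1140) (nat_lit 11041119722) (nat_lit 1216) (nat_lit 8240432654) (nat_lit 175) (nat_lit 5) (nat_lit 190) (nat_lit 3) (nat_lit 191) (nat_lit 5) (nat_lit 319) (nat_lit 318) (nat_lit 143)) (XT.nd (nat_lit 78) (nat_lit 0) (nat_lit 76) (XT.lf (nat_lit 0) (nat_lit 4169049213) (nat_lit 1140) (nat_lit 784234375) (nat_lit 1216) (nat_lit 18567738203) (nat_lit 175) (nat_lit 5) (nat_lit 190) (nat_lit 3) (nat_lit 191) (nat_lit 5) (nat_lit 320) (nat_lit 318) (nat_lit 142)) (XT.lf (nat_lit 0) (nat_lit 4596532992) (nat_lit 1140) (nat_lit 13954406630) (nat_lit 1216) (nat_lit 5322256196) (nat_lit 176)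 (nat_lit 5) (nat_lit 191) (nat_lit 5) (nat_lit 192) (nat_lit 5) (nat_lit 321) (nat_lit 318) (nat_lit 141))))) (XT.nd (nat_lit 234) (nat_lit 0) (nat_lit 76) (XT.nd (nat_lit 78) (nat_lit 0) (nat_lit 76) (XT.lf (nat_lit 0) (nat_lit 5089510508) (nat_lit 1140) (nat_lit 3328396642) (nat_lit 1216) (nat_lit 15816454564) (nat_lit 176) (nat_lit 5) (nat_lit 191) (nat_lit 5) (nat_lit 192) (nat_lit 5) (nat_lit 322) (nat_lit 318) (nat_lit 140)) (XT.nd (nat_lit 78) (nat_lit 0) (nat_lit 0) (XT.lf (nat_lit 0) (nat_lit 5687844981) (nat_lit 1140) (nat_lit 16858979949) (nat_lit 1216) (nat_lit 2056827159) (nat_lit 177) (nat_lit 5) (nat_lit 192) (nat_lit 5) (nat_lit 193) (nat_lit 5) (nat_lit 323) (nat_lit 318) (nat_lit 139)) (XT.lf (nat_lit 0) (nat_lit 6417290792) (nat_lit 1140) (nat_lit 5851135221) (nat_lit 1216) (nat_lit 12712206661) (nat_lit 177) (nat_lit 5) (nat_lit 192) (nat_lit 5) (nat_lit 193) (nat_lit 5)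 (nat_lit 324) (nat_lit 318) (nat_lit 138)))) (XT.nd (nat_lit 156) (nat_lit 0) (nat_lit 76) (XT.nd (nat_lit 78) (nat_lit 0) (nat_lit 76) (XT.lf (nat_lit 76) (nat_lit 5593565536) (nat_lit 0) (nat_lit 1624816063) (nat_lit 1216) (nat_lit 18149054385) (nat_lit 178) (nat_lit 5) (nat_lit 177) (nat_lit 5) (nat_lit 193) (nat_lit 5) (nat_lit 325) (nat_lit 318) (nat_lit 137)) (XT.lf (nat_lit 0) (nat_lit 8189037703) (nat_lit 1140) (nat_lit 8355511621) (nat_lit 1216) (nat_lit 9216934067) (nat_lit 178) (nat_lit 5) (nat_lit 193) (nat_lit 5) (nat_lit 194) (nat_lit 5) (nat_lit 326) (nat_lit 318) (nat_lit 136))) (XT.nd (nat_lit 78) (nat_lit 0) (nat_lit 76) (XT.lf (nat_lit 76) (nat_lit 3454148435) (nat_lit 0) (nat_lit 5780168379) (nat_lit 1216) (nat_lit 16931676109) (nat_lit 179) (nat_lit 5) (nat_lit 178) (nat_lit 5) (nat_lit 194) (nat_lit 5) (nat_lit 327) (nat_lit 318) (nat_lit 135)) (XT.lf (nat_lit 0) (nat_lit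 10443489196) (nat_lit 1140) (nat_lit 10845247142) (nat_lit 1216) (nat_lit 5289930988) (nat_lit 179) (nat_lit 5) (nat_lit 194) (nat_lit 5) (nat_lit 195) (nat_lit 5) (nat_lit 328) (nat_lit 318) (nat_lit 134))))))) (XT.nd (nat_lit 1014) (nat_lit 3344) (nat_lit 0) (XT.nd (nat_lit 468) (nat_lit 2128) (nat_lit 0) (XT.nd (nat_lit 234) (nat_lit 0) (nat_lit 76) (XT.nd (nat_lit 78) (nat_lit 0) (nat_lit 76) (XT.lf (nat_lit 76) (nat_lit 1343750023) (nat_lit 0) (nat_lit 10411750256) (nat_lit 1216) (nat_lit 15246230244) (nat_lit 180) (nat_lit 5) (nat_lit 179) (nat_lit 5) (nat_lit 195) (nat_lit 5) (nat_lit 329) (nat_lit 318) (nat_lit 133)) (XT.nd (nat_lit 78) (nat_lit 0) (nat_lit 0) (XT.lf (nat_lit 0) (nat_lit 13221586473) (nat_lit 1140) (nat_lit 13324843383) (nat_lit 1216) (nat_lit 887619625) (nat_lit 180) (nat_lit 5) (nat_lit 195) (nat_lit 5) (nat_lit 196) (nat_lit 5) (nat_lit 330) (nat_lit 318) (nat_lit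 132)) (XT.lf (nat_lit 0) (nat_lit 14831349572) (nat_lit 1140) (nat_lit 727404753) (nat_lit 1216) (nat_lit 12317598009) (nat_lit 180) (nat_lit 5) (nat_lit 195) (nat_lit 5) (nat_lit 196) (nat_lit 5) (nat_lit 331) (nat_lit 318) (nat_lit 131)))) (XT.nd (nat_lit 78) (nat_lit 0) (nat_lit 76) (XT.lf (nat_lit 76) (nat_lit 12489134979) (nat_lit 0) (nat_lit 4117030279) (nat_lit 1216) (nat_lit 11722261229) (nat_lit 181) (nat_lit 5) (nat_lit 180) (nat_lit 5) (nat_lit 196) (nat_lit 5) (nat_lit 332) (nat_lit 318) (nat_lit 130)) (XT.nd (nat_lit 78) (nat_lit 0) (nat_lit 0) (XT.lf (nat_lit 0) (nat_lit 18512137707) (nat_lit 1140) (nat_lit 2753155876) (nat_lit 1216) (nat_lit 7526436770) (nat_lit 181) (nat_lit 5) (nat_lit 196) (nat_lit 5) (nat_lit 197) (nat_lit 5) (nat_lit 333) (nat_lit 318) (nat_lit 129)) (XT.lf (nat_lit 76) (nat_lit 10894861613) (nat_lit 0) (nat_lit 9722797321) (nat_lit 1216) (nat_lit 8647008031)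 (nat_lit 182) (nat_lit 5) (nat_lit 181) (nat_lit 5) (nat_lit 197) (nat_lit 5) (nat_lit 334) (nat_lit 318) (nat_lit 128))))) (XT.nd (nat_lit 234) (nat_lit 1216) (nat_lit 0) (XT.nd (nat_lit 78) (nat_lit 1140) (nat_lit 0) (XT.lf (nat_lit 0) (nat_lit 22832194018) (nat_lit 1140) (nat_lit 4765911003) (nat_lit 76) (nat_lit 2152315785) (nat_lit 182) (nat_lit 5) (nat_lit 197) (nat_lit 5) (nat_lit 183) (nat_lit 5) (nat_lit 335) (nat_lit 318) (nat_lit 127)) (XT.nd (nat_lit 78) (nat_lit 0) (nat_lit 0) (XT.lf (nat_lit 0) (nat_lit 9329346069) (nat_lit 1140) (nat_lit 15966803415) (nat_lit 1216) (nat_lit 4949112697) (nat_lit 167) (nat_lit 5) (nat_lit 182) (nat_lit 5) (nat_lit 183) (nat_lit 5) (nat_lit 336) (nat_lit 318) (nat_lit 126)) (XT.lf (nat_lit 0) (nat_lit 23942644308) (nat_lit 1140) (nat_lit 3936607357) (nat_lit 1216) (nat_lit 2874344607) (nat_lit 167) (nat_lit 5) (nat_lit 182) (nat_lit 5) (nat_lit 183)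 (nat_lit 5) (nat_lit 337) (nat_lit 318) (nat_lit 125)))) (XT.nd (nat_lit 156) (nat_lit 608) (nat_lit 0) (XT.nd (nat_lit 78) (nat_lit 76) (nat_lit 0) (XT.lf (nat_lit 0) (nat_lit 7785278094) (nat_lit 532) (nat_lit 22907865155) (nat_lit 608) (nat_lit 579442438) (nat_lit 160) (nat_lit 5) (nat_lit 167) (nat_lit 5) (nat_lit 168) (nat_lit 5) (nat_lit 338) (nat_lit 318) (nat_lit 124)) (XT.lf (nat_lit 0) (nat_lit 1855139293) (nat_lit 608) (nat_lit 8905444281) (nat_lit 76) (nat_lit 21042881082) (nat_lit 159) (nat_lit 5) (nat_lit 167) (nat_lit 5) (nat_lit 160) (nat_lit 5) (nat_lit 339) (nat_lit 318) (nat_lit 123))) (XT.nd (nat_lit 78) (nat_lit 0) (nat_lit 0) (XT.lf (nat_lit 0) (nat_lit 4425753129) (nat_lit 684) (nat_lit 26138710948) (nat_lit 76) (nat_lit 1783398416) (nat_lit 151) (nat_lit 5) (nat_lit 160) (nat_lit 5) (nat_lit 152) (nat_lit 5) (nat_lit 340) (nat_lit 318) (nat_lit 122)) (XT.lf (nat_lit 0)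 (nat_lit 7268197741) (nat_lit 684) (nat_lit 11056139406) (nat_lit 76) (nat_lit 14578417471) (nat_lit 151) (nat_lit 5) (nat_lit 160) (nat_lit 5) (nat_lit 152) (nat_lit 5) (nat_lit 341) (nat_lit 318) (nat_lit 121)))))) (XT.nd (nat_lit 546) (nat_lit 1824) (nat_lit 0) (XT.nd (nat_lit 234) (nat_lit 456) (nat_lit 0) (XT.nd (nat_lit 78) (nat_lit 532) (nat_lit 0) (XT.lf (nat_lit 0) (nat_lit 4565521091) (nat_lit 532) (nat_lit 5671712280) (nat_lit 608) (nat_lit 23235824219) (nat_lit 144) (nat_lit 5) (nat_lit 151) (nat_lit 5) (nat_lit 152) (nat_lit 5) (nat_lit 342) (nat_lit 318) (nat_lit 120)) (XT.nd (nat_lit 78) (nat_lit 532) (nat_lit 0) (XT.lf (nat_lit 0) (nat_lit 13476327297) (nat_lit 608) (nat_lit 13249041128) (nat_lit 76) (nat_lit 7329675122) (nat_lit 144) (nat_lit 5) (nat_lit 152) (nat_lit 5) (nat_lit 145) (nat_lit 5) (nat_lit 343) (nat_lit 318) (nat_lit 119)) (XT.lf (nat_lit 0) (nat_lit 2876729363)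 (nat_lit 532) (nat_lit 14017229389) (nat_lit 608) (nat_lit 17758092795) (nat_lit 137) (nat_lit 5) (nat_lit 144) (nat_lit 5) (nat_lit 145) (nat_lit 5) (nat_lit 344) (nat_lit 318) (nat_lit 118)))) (XT.nd (nat_lit 156) (nat_lit 0) (nat_lit 0) (XT.nd (nat_lit 78) (nat_lit 456) (nat_lit 0) (XT.lf (nat_lit 0) (nat_lit 19755429910) (nat_lit 532) (nat_lit 790082607) (nat_lit 608) (nat_lit 14717518777) (nat_lit 137) (nat_lit 5) (nat_lit 144) (nat_lit 5) (nat_lit 145) (nat_lit 5) (nat_lit 345) (nat_lit 318) (nat_lit 117)) (XT.lf (nat_lit 0) (nat_lit 1144683740) (nat_lit 456) (nat_lit 23293973095) (nat_lit 532) (nat_lit 11449725494) (nat_lit 131) (nat_lit 5) (nat_lit 137) (nat_lit 5) (nat_lit 138) (nat_lit 5) (nat_lit 346) (nat_lit 318) (nat_lit 116))) (XT.nd (nat_lit 78) (nat_lit 0) (nat_lit 0) (XT.lf (nat_lit 0) (nat_lit 18604036543) (nat_lit 456) (nat_lit 10006619226) (nat_lit 532) (nat_lit 7916979435)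 (nat_lit 131) (nat_lit 5) (nat_lit 137) (nat_lit 5) (nat_lit 138) (nat_lit 5) (nat_lit 347) (nat_lit 318) (nat_lit 115)) (XT.lf (nat_lit 0) (nat_lit 32940966140) (nat_lit 532) (nat_lit 636675145) (nat_lit 76) (nat_lit 3607432864) (nat_lit 131) (nat_lit 5) (nat_lit 138) (nat_lit 5) (nat_lit 132) (nat_lit 5) (nat_lit 348) (nat_lit 318) (nat_lit 114))))) (XT.nd (nat_lit 234) (nat_lit 836) (nat_lit 0) (XT.nd (nat_lit 78) (nat_lit 532) (nat_lit 0) (XT.lf (nat_lit 0) (nat_lit 17407115186) (nat_lit 456) (nat_lit 20258321732) (nat_lit 532) (nat_lit 188874751) (nat_lit 125) (nat_lit 5) (nat_lit 131) (nat_lit 5) (nat_lit 132) (nat_lit 5) (nat_lit 349) (nat_lit 318) (nat_lit 113)) (XT.nd (nat_lit 78) (nat_lit 456) (nat_lit 0) (XT.lf (nat_lit 0) (nat_lit 3914552298) (nat_lit 532) (nat_lit 2578925184) (nat_lit 76) (nat_lit 32048870827) (nat_lit 124) (nat_lit 5) (nat_lit 131) (nat_lit 5) (nat_lit 125) (nat_lit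 5) (nat_lit 350) (nat_lit 318) (nat_lit 112)) (XT.lf (nat_lit 0) (nat_lit 8365741215) (nat_lit 532) (nat_lit 23185696727) (nat_lit 76) (nat_lit 7692681037) (nat_lit 118) (nat_lit 5) (nat_lit 125) (nat_lit 5) (nat_lit 119) (nat_lit 5) (nat_lit 351) (nat_lit 318) (nat_lit 111)))) (XT.nd (nat_lit 156) (nat_lit 380) (nat_lit 0) (XT.nd (nat_lit 78) (nat_lit 456) (nat_lit 0) (XT.lf (nat_lit 0) (nat_lit 13039020567) (nat_lit 532) (nat_lit 4725288987) (nat_lit 76) (nat_lit 22199979183) (nat_lit 118) (nat_lit 5) (nat_lit 125) (nat_lit 5) (nat_lit 119) (nat_lit 5) (nat_lit 352) (nat_lit 318) (nat_lit 110)) (XT.lf (nat_lit 0) (nat_lit 14570998271) (nat_lit 456) (nat_lit 3419587689) (nat_lit 532) (nat_lit 22711337534) (nat_lit 112) (nat_lit 5) (nat_lit 118) (nat_lit 5) (nat_lit 119) (nat_lit 5) (nat_lit 353) (nat_lit 318) (nat_lit 109))) (XT.nd (nat_lit 78) (nat_lit 380) (nat_lit 0) (XT.lf (nat_lit 0) (nat_lit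 23246098140) (nat_lit 532) (nat_lit 7029147062) (nat_lit 76) (nat_lit 11181782558) (nat_lit 112) (nat_lit 5) (nat_lit 119) (nat_lit 5) (nat_lit 113) (nat_lit 5) (nat_lit 354) (nat_lit 318) (nat_lit 108)) (XT.lf (nat_lit 0) (nat_lit 12860548811) (nat_lit 380) (nat_lit 15954319730) (nat_lit 456) (nat_lit 13415251219) (nat_lit 107) (nat_lit 5) (nat_lit 112) (nat_lit 5) (nat_lit 113) (nat_lit 5) (nat_lit 355) (nat_lit 318) (nat_lit 107))))))))
noncomputable def xc228 : XT := (XT.nd (nat_lit 2028) (nat_lit 456) (nat_lit 0) (XT.nd (nat_lit 1014) (nat_lit 1672) (nat_lit 0) (XT.nd (nat_lit 468) (nat_lit 1064) (nat_lit 0) (XT.nd (nat_lit 234) (nat_lit 760) (nat_lit 0) (XT.nd (nat_lit 78) (nat_lit 456) (nat_lit 0) (XT.lf (nat_lit 0) (nat_lit 33488814130) (nat_lit 380) (nat_lit 1131014342) (nat_lit 456) (nat_lit 8404504575) (nat_lit 107) (nat_lit 5) (nat_lit 112) (nat_lit 5) (nat_lit 113) (nat_lit 5) (nat_lit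 356) (nat_lit 318) (nat_lit 106)) (XT.nd (nat_lit 78) (nat_lit 76) (nat_lit 0) (XT.lf (nat_lit 0) (nat_lit 10969515490) (nat_lit 380) (nat_lit 29868957282) (nat_lit 456) (nat_lit 2996716146) (nat_lit 102) (nat_lit 5) (nat_lit 107) (nat_lit 5) (nat_lit 108) (nat_lit 5) (nat_lit 357) (nat_lit 318) (nat_lit 105)) (XT.lf (nat_lit 0) (nat_lit 2629741416) (nat_lit 456) (nat_lit 12421416516) (nat_lit 76) (nat_lit 29615273073) (nat_lit 101) (nat_lit 5) (nat_lit 107) (nat_lit 5) (nat_lit 102) (nat_lit 5) (nat_lit 358) (nat_lit 318) (nat_lit 104)))) (XT.nd (nat_lit 78) (nat_lit 380) (nat_lit 0) (XT.lf (nat_lit 0) (nat_lit 8450533522) (nat_lit 456) (nat_lit 36746809948) (nat_lit 76) (nat_lit 321805677) (nat_lit 96) (nat_lit 5) (nat_lit 102) (nat_lit 5) (nat_lit 97) (nat_lit 5) (nat_lit 359) (nat_lit 318) (nat_lit 103)) (XT.nd (nat_lit 78) (nat_lit 380) (nat_lit 0) (XT.lf (nat_lit 0) (nat_lit 14719931291)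 (nat_lit 456) (nat_lit 15689595004) (nat_lit 76) (nat_lit 15979705084) (nat_lit 96) (nat_lit 5) (nat_lit 102) (nat_lit 5) (nat_lit 97) (nat_lit 5) (nat_lit 360) (nat_lit 318) (nat_lit 102)) (XT.lf (nat_lit 0) (nat_lit 6116576011) (nat_lit 380) (nat_lit 15117967837) (nat_lit 456) (nat_lit 26049160187) (nat_lit 91) (nat_lit 5) (nat_lit 96) (nat_lit 5) (nat_lit 97) (nat_lit 5) (nat_lit 361) (nat_lit 318) (nat_lit 101))))) (XT.nd (nat_lit 234) (nat_lit 760) (nat_lit 0) (XT.nd (nat_lit 78) (nat_lit 304) (nat_lit 0) (XT.lf (nat_lit 0) (nat_lit 28109036450) (nat_lit 456) (nat_lit 19311494005) (nat_lit 76) (nat_lit 779549052) (nat_lit 91) (nat_lit 5) (nat_lit 97) (nat_lit 5) (nat_lit 92) (nat_lit 5) (nat_lit 362) (nat_lit 318) (nat_lit 100)) (XT.nd (nat_lit 78) (nat_lit 0) (nat_lit 0) (XT.lf (nat_lit 0) (nat_lit 3108708118) (nat_lit 304) (nat_lit 32259029574) (nat_lit 380) (nat_lit 13770871168) (nat_lit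 87) (nat_lit 5) (nat_lit 91) (nat_lit 5) (nat_lit 92) (nat_lit 5) (nat_lit 363) (nat_lit 318) (nat_lit 99)) (XT.lf (nat_lit 0) (nat_lit 26595323236) (nat_lit 304) (nat_lit 16442319730) (nat_lit 380) (nat_lit 7061849616) (nat_lit 87) (nat_lit 5) (nat_lit 91) (nat_lit 5) (nat_lit 92) (nat_lit 5) (nat_lit 364) (nat_lit 318) (nat_lit 98)))) (XT.nd (nat_lit 156) (nat_lit 304) (nat_lit 0) (XT.nd (nat_lit 78) (nat_lit 456) (nat_lit 0) (XT.lf (nat_lit 0) (nat_lit 50784537036) (nat_lit 304) (nat_lit 151588722) (nat_lit 380) (nat_lit 153124372) (nat_lit 87) (nat_lit 5) (nat_lit 91) (nat_lit 5) (nat_lit 92) (nat_lit 5) (nat_lit 365) (nat_lit 318) (nat_lit 97)) (XT.lf (nat_lit 0) (nat_lit 7218885066) (nat_lit 456) (nat_lit 28272646051) (nat_lit 76) (nat_lit 16603406189) (nat_lit 81) (nat_lit 5) (nat_lit 87) (nat_lit 5) (nat_lit 82) (nat_lit 5) (nat_lit 366) (nat_lit 318) (nat_lit 96))) (XT.nd (nat_lit 78)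 (nat_lit 304) (nat_lit 0) (XT.lf (nat_lit 0) (nat_lit 14812113849) (nat_lit 456) (nat_lit 4456392567) (nat_lit 76) (nat_lit 33862150677) (nat_lit 81) (nat_lit 5) (nat_lit 87) (nat_lit 5) (nat_lit 82) (nat_lit 5) (nat_lit 367) (nat_lit 318) (nat_lit 95)) (XT.lf (nat_lit 0) (nat_lit 20471892560) (nat_lit 304) (nat_lit 2356606514) (nat_lit 380) (nat_lit 31363090146) (nat_lit 77) (nat_lit 5) (nat_lit 81) (nat_lit 5) (nat_lit 82) (nat_lit 5) (nat_lit 368) (nat_lit 318) (nat_lit 94)))))) (XT.nd (nat_lit 468) (nat_lit 760) (nat_lit 0) (XT.nd (nat_lit 234) (nat_lit 608) (nat_lit 0) (XT.nd (nat_lit 78) (nat_lit 304) (nat_lit 0) (XT.lf (nat_lit 0) (nat_lit 31274203136) (nat_lit 380) (nat_lit 9190814403) (nat_lit 76) (nat_lit 14813668444) (nat_lit 77) (nat_lit 5) (nat_lit 82) (nat_lit 5) (nat_lit 78) (nat_lit 5) (nat_lit 369) (nat_lit 318) (nat_lit 93)) (XT.nd (nat_lit 78) (nat_lit 0) (nat_lit 0) (XT.lf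 (nat_lit 0) (nat_lit 16368103129) (nat_lit 304) (nat_lit 23784478719) (nat_lit 380) (nat_lit 16240436140) (nat_lit 73) (nat_lit 5) (nat_lit 77) (nat_lit 5) (nat_lit 78) (nat_lit 5) (nat_lit 370) (nat_lit 318) (nat_lit 92)) (XT.lf (nat_lit 0) (nat_lit 42880310389) (nat_lit 304) (nat_lit 6508463119) (nat_lit 380) (nat_lit 8149264002) (nat_lit 73) (nat_lit 5) (nat_lit 77) (nat_lit 5) (nat_lit 78) (nat_lit 5) (nat_lit 371) (nat_lit 318) (nat_lit 91)))) (XT.nd (nat_lit 78) (nat_lit 304) (nat_lit 0) (XT.lf (nat_lit 0) (nat_lit 401749537) (nat_lit 304) (nat_lit 47128573899) (nat_lit 76) (nat_lit 11180410979) (nat_lit 69) (nat_lit 5) (nat_lit 73) (nat_lit 5) (nat_lit 70) (nat_lit 5) (nat_lit 372) (nat_lit 318) (nat_lit 90)) (XT.nd (nat_lit 78) (nat_lit 304) (nat_lit 0) (XT.lf (nat_lit 0) (nat_lit 9258114462) (nat_lit 304) (nat_lit 21152919877) (nat_lit 76) (nat_lit 29498780205) (nat_lit 69) (nat_lit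 5) (nat_lit 73) (nat_lit 5) (nat_lit 70) (nat_lit 5) (nat_lit 373) (nat_lit 318) (nat_lit 89)) (XT.lf (nat_lit 0) (nat_lit 5711642562) (nat_lit 304) (nat_lit 12722162739) (nat_lit 380) (nat_lit 42709453977) (nat_lit 65) (nat_lit 5) (nat_lit 69) (nat_lit 5) (nat_lit 70) (nat_lit 5) (nat_lit 374) (nat_lit 318) (nat_lit 88))))) (XT.nd (nat_lit 234) (nat_lit 532) (nat_lit 0) (XT.nd (nat_lit 78) (nat_lit 228) (nat_lit 0) (XT.lf (nat_lit 0) (nat_lit 28152074450) (nat_lit 380) (nat_lit 28648333807) (nat_lit 76) (nat_lit 5605281078) (nat_lit 65) (nat_lit 5) (nat_lit 70) (nat_lit 5) (nat_lit 66) (nat_lit 5) (nat_lit 375) (nat_lit 318) (nat_lit 87)) (XT.nd (nat_lit 78) (nat_lit 228) (nat_lit 0) (XT.lf (nat_lit 0) (nat_lit 38286635776) (nat_lit 380) (nat_lit 1189292600) (nat_lit 76) (nat_lit 24226322772) (nat_lit 65) (nat_lit 5) (nat_lit 70) (nat_lit 5) (nat_lit 66) (nat_lit 5) (nat_lit 376) (nat_lit 318)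 (nat_lit 86)) (XT.lf (nat_lit 0) (nat_lit 27630973264) (nat_lit 228) (nat_lit 21358684064) (nat_lit 304) (nat_lit 16040120926) (nat_lit 62) (nat_lit 5) (nat_lit 65) (nat_lit 5) (nat_lit 66) (nat_lit 5) (nat_lit 377) (nat_lit 318) (nat_lit 85)))) (XT.nd (nat_lit 156) (nat_lit 228) (nat_lit 0) (XT.nd (nat_lit 78) (nat_lit 304) (nat_lit 0) (XT.lf (nat_lit 0) (nat_lit 57338516971) (nat_lit 228) (nat_lit 2686097653) (nat_lit 304) (nat_lit 6372192305) (nat_lit 62) (nat_lit 5) (nat_lit 65) (nat_lit 5) (nat_lit 66) (nat_lit 5) (nat_lit 378) (nat_lit 318) (nat_lit 84)) (XT.lf (nat_lit 0) (nat_lit 3873025956) (nat_lit 304) (nat_lit 47463036581) (nat_lit 76) (nat_lit 16457034218) (nat_lit 58) (nat_lit 5) (nat_lit 62) (nat_lit 5) (nat_lit 59) (nat_lit 5) (nat_lit 379) (nat_lit 318) (nat_lit 83))) (XT.nd (nat_lit 78) (nat_lit 228) (nat_lit 0) (XT.lf (nat_lit 0) (nat_lit 14415366953) (nat_lit 304) (nat_lit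 18535072496) (nat_lit 76) (nat_lit 36275408882) (nat_lit 58) (nat_lit 5) (nat_lit 62) (nat_lit 5) (nat_lit 59) (nat_lit 5) (nat_lit 380) (nat_lit 318) (nat_lit 82)) (XT.lf (nat_lit 0) (nat_lit 11483161229) (nat_lit 228) (nat_lit 13900102353) (nat_lit 304) (nat_lit 45315041295) (nat_lit 55) (nat_lit 5) (nat_lit 58) (nat_lit 5) (nat_lit 59) (nat_lit 5) (nat_lit 381) (nat_lit 318) (nat_lit 81))))))) (XT.nd (nat_lit 36270) (nat_lit 0) (nat_lit 8968) (XT.nd (nat_lit 35724) (nat_lit 0) (nat_lit 9576) (XT.nd (nat_lit 234) (nat_lit 228) (nat_lit 0) (XT.nd (nat_lit 78) (nat_lit 228) (nat_lit 0) (XT.lf (nat_lit 0) (nat_lit 36923132303) (nat_lit 304) (nat_lit 29485940450) (nat_lit 76) (nat_lit 5798575266) (nat_lit 55) (nat_lit 5) (nat_lit 59) (nat_lit 5) (nat_lit 56) (nat_lit 5) (nat_lit 382) (nat_lit 318) (nat_lit 80)) (XT.nd (nat_lit 78) (nat_lit 0) (nat_lit 0) (XT.lf (nat_lit 0) (nat_lit 1015723730)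 (nat_lit 228) (nat_lit 47939806786) (nat_lit 304) (nat_lit 24802351865) (nat_lit 52) (nat_lit 5) (nat_lit 55) (nat_lit 5) (nat_lit 56) (nat_lit 5) (nat_lit 383) (nat_lit 318) (nat_lit 79)) (XT.lf (nat_lit 0) (nat_lit 33035275735) (nat_lit 228) (nat_lit 28610335422) (nat_lit 304) (nat_lit 13700112204) (nat_lit 52) (nat_lit 5) (nat_lit 55) (nat_lit 5) (nat_lit 56) (nat_lit 5) (nat_lit 384) (nat_lit 318) (nat_lit 78)))) (XT.nd (nat_lit 78) (nat_lit 228) (nat_lit 0) (XT.lf (nat_lit 0) (nat_lit 66013865782) (nat_lit 228) (nat_lit 8701519014) (nat_lit 304) (nat_lit 2265845932) (nat_lit 52) (nat_lit 5) (nat_lit 55) (nat_lit 5) (nat_lit 56) (nat_lit 5) (nat_lit 385) (nat_lit 318) (nat_lit 77)) (XT.nd (nat_lit 78) (nat_lit 0) (nat_lit 0) (XT.lf (nat_lit 0) (nat_lit 9649357218) (nat_lit 228) (nat_lit 57127844931) (nat_lit 76) (nat_lit 11876153751) (nat_lit 49) (nat_lit 5) (nat_lit 52) (nat_lit 5) (nat_lit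 50) (nat_lit 5) (nat_lit 386) (nat_lit 318) (nat_lit 76)) (XT.lf (nat_lit 0) (nat_lit 22073492929) (nat_lit 228) (nat_lit 25265547242) (nat_lit 76) (nat_lit 33030021900) (nat_lit 49) (nat_lit 5) (nat_lit 52) (nat_lit 5) (nat_lit 50) (nat_lit 5) (nat_lit 387) (nat_lit 318) (nat_lit 75))))) (XT.nd (nat_lit 234) (nat_lit 0) (nat_lit 76) (XT.nd (nat_lit 78) (nat_lit 0) (nat_lit 0) (XT.lf (nat_lit 0) (nat_lit 996039677) (nat_lit 0) (nat_lit 996039677) (nat_lit 1140) (nat_lit 9766042598) (nat_lit 175) (nat_lit 5) (nat_lit 175) (nat_lit 3) (nat_lit 190) (nat_lit 3) (nat_lit 319) (nat_lit 319) (nat_lit 142)) (XT.nd (nat_lit 78) (nat_lit 0) (nat_lit 0) (XT.lf (nat_lit 0) (nat_lit 4238464390) (nat_lit 1140) (nat_lit 11249324228) (nat_lit 1216) (nat_lit 8375190319) (nat_lit 175) (nat_lit 5) (nat_lit 190) (nat_lit 3) (nat_lit 191) (nat_lit 5) (nat_lit 320) (nat_lit 319) (nat_lit 141)) (XT.lf (nat_lit 0)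 (nat_lit 4515755922) (nat_lit 1140) (nat_lit 688315691) (nat_lit 1216) (nat_lit 19015590431) (nat_lit 175) (nat_lit 5) (nat_lit 190) (nat_lit 3) (nat_lit 191) (nat_lit 5) (nat_lit 321) (nat_lit 319) (nat_lit 140)))) (XT.nd (nat_lit 156) (nat_lit 0) (nat_lit 76) (XT.nd (nat_lit 78) (nat_lit 0) (nat_lit 0) (XT.lf (nat_lit 0) (nat_lit 4949803307) (nat_lit 1140) (nat_lit 14247000807) (nat_lit 1216) (nat_lit 5385794948) (nat_lit 176) (nat_lit 5) (nat_lit 191) (nat_lit 5) (nat_lit 192) (nat_lit 5) (nat_lit 322) (nat_lit 319) (nat_lit 139)) (XT.lf (nat_lit 0) (nat_lit 5451297110) (nat_lit 1140) (nat_lit 3305881529) (nat_lit 1216) (nat_lit 16197619139) (nat_lit 176) (nat_lit 5) (nat_lit 191) (nat_lit 5) (nat_lit 192) (nat_lit 5) (nat_lit 323) (nat_lit 319) (nat_lit 138))) (XT.nd (nat_lit 78) (nat_lit 0) (nat_lit 0) (XT.lf (nat_lit 0) (nat_lit 6061858096) (nat_lit 1140) (nat_lit 17236346437) (nat_lit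 1216) (nat_lit 2037143408) (nat_lit 177) (nat_lit 5) (nat_lit 192) (nat_lit 5) (nat_lit 193) (nat_lit 5) (nat_lit 324) (nat_lit 319) (nat_lit 137)) (XT.lf (nat_lit 0) (nat_lit 6807263658) (nat_lit 1140) (nat_lit 5902006258) (nat_lit 1216) (nat_lit 13014554837) (nat_lit 177) (nat_lit 5) (nat_lit 192) (nat_lit 5) (nat_lit 193) (nat_lit 5) (nat_lit 325) (nat_lit 319) (nat_lit 136)))))) (XT.nd (nat_lit 468) (nat_lit 760) (nat_lit 0) (XT.nd (nat_lit 234) (nat_lit 0) (nat_lit 152) (XT.nd (nat_lit 78) (nat_lit 0) (nat_lit 76) (XT.lf (nat_lit 76) (nat_lit 5884813335) (nat_lit 0) (nat_lit 1743009351) (nat_lit 1216) (nat_lit 18494555244) (nat_lit 178) (nat_lit 5) (nat_lit 177) (nat_lit 5) (nat_lit 193) (nat_lit 5) (nat_lit 326) (nat_lit 319) (nat_lit 135)) (XT.nd (nat_lit 78) (nat_lit 0) (nat_lit 0) (XT.lf (nat_lit 0) (nat_lit 8621332188) (nat_lit 1140) (nat_lit 8479779347) (nat_lit 1216) (nat_lit 9427331789)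 (nat_lit 178) (nat_lit 5) (nat_lit 193) (nat_lit 5) (nat_lit 194) (nat_lit 5) (nat_lit 327) (nat_lit 319) (nat_lit 134)) (XT.lf (nat_lit 76) (nat_lit 3682931319) (nat_lit 0) (nat_lit 6010805821) (nat_lit 1216) (nat_lit 17251486303) (nat_lit 179) (nat_lit 5) (nat_lit 178) (nat_lit 5) (nat_lit 194) (nat_lit 5) (nat_lit 328) (nat_lit 319) (nat_lit 133)))) (XT.nd (nat_lit 78) (nat_lit 0) (nat_lit 0) (XT.lf (nat_lit 0) (nat_lit 10933338211) (nat_lit 1140) (nat_lit 11042975575) (nat_lit 1216) (nat_lit 5394147771) (nat_lit 179) (nat_lit 5) (nat_lit 194) (nat_lit 5) (nat_lit 195) (nat_lit 5) (nat_lit 329) (nat_lit 319) (nat_lit 132)) (XT.nd (nat_lit 78) (nat_lit 0) (nat_lit 76) (XT.lf (nat_lit 76) (nat_lit 1510440241) (nat_lit 0) (nat_lit 10770342138) (nat_lit 1216) (nat_lit 15525559937) (nat_lit 180) (nat_lit 5) (nat_lit 179) (nat_lit 5) (nat_lit 195) (nat_lit 5) (nat_lit 330) (nat_lit 319) (nat_lit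 131)) (XT.lf (nat_lit 0) (nat_lit 13785391941) (nat_lit 1140) (nat_lit 13596178664) (nat_lit 1216) (nat_lit 870231634) (nat_lit 180) (nat_lit 5) (nat_lit 195) (nat_lit 5) (nat_lit 196) (nat_lit 5) (nat_lit 331) (nat_lit 319) (nat_lit 130))))) (XT.nd (nat_lit 234) (nat_lit 988) (nat_lit 0) (XT.nd (nat_lit 78) (nat_lit 0) (nat_lit 0) (XT.lf (nat_lit 0) (nat_lit 15438579257) (nat_lit 1140) (nat_lit 624556973) (nat_lit 1216) (nat_lit 12644391406) (nat_lit 180) (nat_lit 5) (nat_lit 195) (nat_lit 5) (nat_lit 196) (nat_lit 5) (nat_lit 332) (nat_lit 319) (nat_lit 129)) (XT.nd (nat_lit 78) (nat_lit 0) (nat_lit 76) (XT.lf (nat_lit 76) (nat_lit 12987256698) (nat_lit 0) (nat_lit 4275842500) (nat_lit 1216) (nat_lit 11910178203) (nat_lit 181) (nat_lit 5) (nat_lit 180) (nat_lit 5) (nat_lit 196) (nat_lit 5) (nat_lit 333) (nat_lit 319) (nat_lit 128)) (XT.lf (nat_lit 0) (nat_lit 19221297609) (nat_lit 1140) (nat_lit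 2710712798) (nat_lit 1216) (nat_lit 7718625546) (nat_lit 181) (nat_lit 5) (nat_lit 196) (nat_lit 5) (nat_lit 197) (nat_lit 5) (nat_lit 334) (nat_lit 319) (nat_lit 127)))) (XT.nd (nat_lit 156) (nat_lit 1064) (nat_lit 0) (XT.nd (nat_lit 78) (nat_lit 0) (nat_lit 76) (XT.lf (nat_lit 76) (nat_lit 11345519355) (nat_lit 0) (nat_lit 10041175785) (nat_lit 1216) (nat_lit 8751170972) (nat_lit 182) (nat_lit 5) (nat_lit 181) (nat_lit 5) (nat_lit 197) (nat_lit 5) (nat_lit 335) (nat_lit 319) (nat_lit 126)) (XT.lf (nat_lit 0) (nat_lit 23663033464) (nat_lit 1140) (nat_lit 4783830703) (nat_lit 76) (nat_lit 2191473960) (nat_lit 182) (nat_lit 5) (nat_lit 197) (nat_lit 5) (nat_lit 183) (nat_lit 5) (nat_lit 336) (nat_lit 319) (nat_lit 125))) (XT.nd (nat_lit 78) (nat_lit 0) (nat_lit 0) (XT.lf (nat_lit 0) (nat_lit 9733058026) (nat_lit 1140) (nat_lit 16464791166) (nat_lit 1216) (nat_lit 4950273685) (nat_lit 167) (nat_lit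 5) (nat_lit 182) (nat_lit 5) (nat_lit 183) (nat_lit 5) (nat_lit 337) (nat_lit 319) (nat_lit 124)) (XT.lf (nat_lit 0) (nat_lit 24781148468) (nat_lit 1140) (nat_lit 4073136304) (nat_lit 1216) (nat_lit 2817553204) (nat_lit 167) (nat_lit 5) (nat_lit 182) (nat_lit 5) (nat_lit 183) (nat_lit 5) (nat_lit 338) (nat_lit 319) (nat_lit 123))))))))
noncomputable def xc229 : XT := (XT.nd (nat_lit 2028) (nat_lit 2888) (nat_lit 0) (XT.nd (nat_lit 1014) (nat_lit 2812) (nat_lit 0) (XT.nd (nat_lit 468) (nat_lit 1520) (nat_lit 0) (XT.nd (nat_lit 234) (nat_lit 532) (nat_lit 0) (XT.nd (nat_lit 78) (nat_lit 684) (nat_lit 0) (XT.lf (nat_lit 0) (nat_lit 8142381402) (nat_lit 532) (nat_lit 23607188773) (nat_lit 608) (nat_lit 456923601) (nat_lit 160) (nat_lit 5) (nat_lit 167) (nat_lit 5) (nat_lit 168) (nat_lit 5) (nat_lit 339) (nat_lit 319) (nat_lit 122)) (XT.nd (nat_lit 78) (nat_lit 608) (nat_lit 0) (XT.lf (nat_lit 0)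 (nat_lit 2043970283) (nat_lit 608) (nat_lit 9049821569) (nat_lit 76) (nat_lit 21659592446) (nat_lit 159) (nat_lit 5) (nat_lit 167) (nat_lit 5) (nat_lit 160) (nat_lit 5) (nat_lit 340) (nat_lit 319) (nat_lit 121)) (XT.lf (nat_lit 0) (nat_lit 4688906919) (nat_lit 684) (nat_lit 26797107133) (nat_lit 76) (nat_lit 1828189392) (nat_lit 151) (nat_lit 5) (nat_lit 160) (nat_lit 5) (nat_lit 152) (nat_lit 5) (nat_lit 341) (nat_lit 319) (nat_lit 120)))) (XT.nd (nat_lit 78) (nat_lit 532) (nat_lit 0) (XT.lf (nat_lit 0) (nat_lit 7612827359) (nat_lit 684) (nat_lit 11265721507) (nat_lit 76) (nat_lit 15007312736) (nat_lit 151) (nat_lit 5) (nat_lit 160) (nat_lit 5) (nat_lit 152) (nat_lit 5) (nat_lit 342) (nat_lit 319) (nat_lit 119)) (XT.nd (nat_lit 78) (nat_lit 0) (nat_lit 0) (XT.lf (nat_lit 0) (nat_lit 4823391726) (nat_lit 532) (nat_lit 5845017642) (nat_lit 608) (nat_lit 23804945225) (nat_lit 144) (nat_lit 5)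 (nat_lit 151) (nat_lit 5) (nat_lit 152) (nat_lit 5) (nat_lit 343) (nat_lit 319) (nat_lit 118)) (XT.lf (nat_lit 0) (nat_lit 14001033307) (nat_lit 608) (nat_lit 13525318142) (nat_lit 76) (nat_lit 7546562999) (nat_lit 144) (nat_lit 5) (nat_lit 152) (nat_lit 5) (nat_lit 145) (nat_lit 5) (nat_lit 344) (nat_lit 319) (nat_lit 117))))) (XT.nd (nat_lit 234) (nat_lit 532) (nat_lit 0) (XT.nd (nat_lit 78) (nat_lit 456) (nat_lit 0) (XT.lf (nat_lit 0) (nat_lit 3083037285) (nat_lit 532) (nat_lit 14435802725) (nat_lit 608) (nat_lit 18169068181) (nat_lit 137) (nat_lit 5) (nat_lit 144) (nat_lit 5) (nat_lit 145) (nat_lit 5) (nat_lit 345) (nat_lit 319) (nat_lit 116)) (XT.nd (nat_lit 78) (nat_lit 456) (nat_lit 0) (XT.lf (nat_lit 0) (nat_lit 20464603527) (nat_lit 532) (nat_lit 811898148) (nat_lit 608) (nat_lit 15040823567) (nat_lit 137) (nat_lit 5) (nat_lit 144) (nat_lit 5) (nat_lit 145) (nat_lit 5) (nat_lit 346)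 (nat_lit 319) (nat_lit 115)) (XT.lf (nat_lit 0) (nat_lit 1297936476) (nat_lit 456) (nat_lit 23986325956) (nat_lit 532) (nat_lit 11677244322) (nat_lit 131) (nat_lit 5) (nat_lit 137) (nat_lit 5) (nat_lit 138) (nat_lit 5) (nat_lit 347) (nat_lit 319) (nat_lit 114)))) (XT.nd (nat_lit 156) (nat_lit 532) (nat_lit 0) (XT.nd (nat_lit 78) (nat_lit 0) (nat_lit 0) (XT.lf (nat_lit 0) (nat_lit 19277606401) (nat_lit 456) (nat_lit 10300539811) (nat_lit 532) (nat_lit 8041893733) (nat_lit 131) (nat_lit 5) (nat_lit 137) (nat_lit 5) (nat_lit 138) (nat_lit 5) (nat_lit 348) (nat_lit 319) (nat_lit 113)) (XT.lf (nat_lit 0) (nat_lit 34035244752) (nat_lit 532) (nat_lit 540423235) (nat_lit 76) (nat_lit 3721632050) (nat_lit 131) (nat_lit 5) (nat_lit 138) (nat_lit 5) (nat_lit 132) (nat_lit 5) (nat_lit 349) (nat_lit 319) (nat_lit 112))) (XT.nd (nat_lit 78) (nat_lit 76) (nat_lit 0) (XT.lf (nat_lit 0) (nat_lit 18043549902)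 (nat_lit 456) (nat_lit 20855908892) (nat_lit 532) (nat_lit 87219834) (nat_lit 125) (nat_lit 5) (nat_lit 131) (nat_lit 5) (nat_lit 132) (nat_lit 5) (nat_lit 350) (nat_lit 319) (nat_lit 111)) (XT.lf (nat_lit 0) (nat_lit 4134150942) (nat_lit 532) (nat_lit 2543232730) (nat_lit 76) (nat_lit 33018037667) (nat_lit 124) (nat_lit 5) (nat_lit 131) (nat_lit 5) (nat_lit 125) (nat_lit 5) (nat_lit 351) (nat_lit 319) (nat_lit 110)))))) (XT.nd (nat_lit 468) (nat_lit 1520) (nat_lit 0) (XT.nd (nat_lit 234) (nat_lit 380) (nat_lit 0) (XT.nd (nat_lit 78) (nat_lit 456) (nat_lit 0) (XT.lf (nat_lit 0) (nat_lit 8717088445) (nat_lit 532) (nat_lit 23766291642) (nat_lit 76) (nat_lit 7934922516) (nat_lit 118) (nat_lit 5) (nat_lit 125) (nat_lit 5) (nat_lit 119) (nat_lit 5) (nat_lit 352) (nat_lit 319) (nat_lit 109)) (XT.nd (nat_lit 78) (nat_lit 456) (nat_lit 0) (XT.lf (nat_lit 0) (nat_lit 13527642634) (nat_lit 532) (nat_lit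 4755420485) (nat_lit 76) (nat_lit 22877105790) (nat_lit 118) (nat_lit 5) (nat_lit 125) (nat_lit 5) (nat_lit 119) (nat_lit 5) (nat_lit 353) (nat_lit 319) (nat_lit 108)) (XT.lf (nat_lit 0) (nat_lit 15118661007) (nat_lit 456) (nat_lit 3507318098) (nat_lit 532) (nat_lit 23294010518) (nat_lit 112) (nat_lit 5) (nat_lit 118) (nat_lit 5) (nat_lit 119) (nat_lit 5) (nat_lit 354) (nat_lit 319) (nat_lit 107)))) (XT.nd (nat_lit 78) (nat_lit 380) (nat_lit 0) (XT.lf (nat_lit 0) (nat_lit 24036508641) (nat_lit 532) (nat_lit 7129942304) (nat_lit 76) (nat_lit 11531379048) (nat_lit 112) (nat_lit 5) (nat_lit 119) (nat_lit 5) (nat_lit 113) (nat_lit 5) (nat_lit 355) (nat_lit 319) (nat_lit 106)) (XT.nd (nat_lit 78) (nat_lit 0) (nat_lit 0) (XT.lf (nat_lit 0) (nat_lit 13355365238) (nat_lit 380) (nat_lit 16415315150) (nat_lit 456) (nat_lit 13723487647) (nat_lit 107) (nat_lit 5) (nat_lit 112) (nat_lit 5) (nat_lit 113)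 (nat_lit 5) (nat_lit 356) (nat_lit 319) (nat_lit 105)) (XT.lf (nat_lit 0) (nat_lit 34599303760) (nat_lit 380) (nat_lit 1147824217) (nat_lit 456) (nat_lit 8565162908) (nat_lit 107) (nat_lit 5) (nat_lit 112) (nat_lit 5) (nat_lit 113) (nat_lit 5) (nat_lit 357) (nat_lit 319) (nat_lit 104))))) (XT.nd (nat_lit 234) (nat_lit 684) (nat_lit 0) (XT.nd (nat_lit 78) (nat_lit 456) (nat_lit 0) (XT.lf (nat_lit 0) (nat_lit 11405970674) (nat_lit 380) (nat_lit 30744969185) (nat_lit 456) (nat_lit 2996577559) (nat_lit 102) (nat_lit 5) (nat_lit 107) (nat_lit 5) (nat_lit 108) (nat_lit 5) (nat_lit 358) (nat_lit 319) (nat_lit 103)) (XT.nd (nat_lit 78) (nat_lit 380) (nat_lit 0) (XT.lf (nat_lit 0) (nat_lit 2794345372) (nat_lit 456) (nat_lit 12688009141) (nat_lit 76) (nat_lit 30521396478) (nat_lit 101) (nat_lit 5) (nat_lit 107) (nat_lit 5) (nat_lit 102) (nat_lit 5) (nat_lit 359) (nat_lit 319) (nat_lit 102)) (XT.lf (nat_lit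 0) (nat_lit 8788474008) (nat_lit 456) (nat_lit 37741778509) (nat_lit 76) (nat_lit 351839736) (nat_lit 96) (nat_lit 5) (nat_lit 102) (nat_lit 5) (nat_lit 97) (nat_lit 5) (nat_lit 360) (nat_lit 319) (nat_lit 101)))) (XT.nd (nat_lit 156) (nat_lit 304) (nat_lit 0) (XT.nd (nat_lit 78) (nat_lit 380) (nat_lit 0) (XT.lf (nat_lit 0) (nat_lit 15243494745) (nat_lit 456) (nat_lit 16055976312) (nat_lit 76) (nat_lit 16478882536) (nat_lit 96) (nat_lit 5) (nat_lit 102) (nat_lit 5) (nat_lit 97) (nat_lit 5) (nat_lit 361) (nat_lit 319) (nat_lit 100)) (XT.lf (nat_lit 0) (nat_lit 6403357219) (nat_lit 380) (nat_lit 15548793942) (nat_lit 456) (nat_lit 26747553892) (nat_lit 91) (nat_lit 5) (nat_lit 96) (nat_lit 5) (nat_lit 97) (nat_lit 5) (nat_lit 362) (nat_lit 319) (nat_lit 99))) (XT.nd (nat_lit 78) (nat_lit 304) (nat_lit 0) (XT.lf (nat_lit 0) (nat_lit 29030743785) (nat_lit 456) (nat_lit 19788338146) (nat_lit 76)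 (nat_lit 824556610) (nat_lit 91) (nat_lit 5) (nat_lit 97) (nat_lit 5) (nat_lit 92) (nat_lit 5) (nat_lit 363) (nat_lit 319) (nat_lit 98)) (XT.lf (nat_lit 0) (nat_lit 3303465132) (nat_lit 304) (nat_lit 33202432020) (nat_lit 380) (nat_lit 14104468518) (nat_lit 87) (nat_lit 5) (nat_lit 91) (nat_lit 5) (nat_lit 92) (nat_lit 5) (nat_lit 364) (nat_lit 319) (nat_lit 97))))))) (XT.nd (nat_lit 1014) (nat_lit 1216) (nat_lit 0) (XT.nd (nat_lit 468) (nat_lit 912) (nat_lit 0) (XT.nd (nat_lit 234) (nat_lit 304) (nat_lit 0) (XT.nd (nat_lit 78) (nat_lit 456) (nat_lit 0) (XT.lf (nat_lit 0) (nat_lit 27491722516) (nat_lit 304) (nat_lit 16911930642) (nat_lit 380) (nat_lit 7196492691) (nat_lit 87) (nat_lit 5) (nat_lit 91) (nat_lit 5) (nat_lit 92) (nat_lit 5) (nat_lit 365) (nat_lit 319) (nat_lit 96)) (XT.nd (nat_lit 78) (nat_lit 456) (nat_lit 0) (XT.lf (nat_lit 0) (nat_lit 52403742646) (nat_lit 304) (nat_lit 133166791)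 (nat_lit 380) (nat_lit 82754595) (nat_lit 87) (nat_lit 5) (nat_lit 91) (nat_lit 5) (nat_lit 92) (nat_lit 5) (nat_lit 366) (nat_lit 319) (nat_lit 95)) (XT.lf (nat_lit 0) (nat_lit 7507967280) (nat_lit 456) (nat_lit 29022550028) (nat_lit 76) (nat_lit 17125014785) (nat_lit 81) (nat_lit 5) (nat_lit 87) (nat_lit 5) (nat_lit 82) (nat_lit 5) (nat_lit 367) (nat_lit 319) (nat_lit 94)))) (XT.nd (nat_lit 78) (nat_lit 304) (nat_lit 0) (XT.lf (nat_lit 0) (nat_lit 15326880820) (nat_lit 456) (nat_lit 4494671330) (nat_lit 76) (nat_lit 34900836954) (nat_lit 81) (nat_lit 5) (nat_lit 87) (nat_lit 5) (nat_lit 82) (nat_lit 5) (nat_lit 368) (nat_lit 319) (nat_lit 93)) (XT.nd (nat_lit 78) (nat_lit 0) (nat_lit 0) (XT.lf (nat_lit 0) (nat_lit 21180526930) (nat_lit 304) (nat_lit 2402088259) (nat_lit 380) (nat_lit 32232570480) (nat_lit 77) (nat_lit 5) (nat_lit 81) (nat_lit 5) (nat_lit 82) (nat_lit 5) (nat_lit 369) (nat_lit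 319) (nat_lit 92)) (XT.lf (nat_lit 0) (nat_lit 32279908394) (nat_lit 380) (nat_lit 9372959783) (nat_lit 76) (nat_lit 15282082756) (nat_lit 77) (nat_lit 5) (nat_lit 82) (nat_lit 5) (nat_lit 78) (nat_lit 5) (nat_lit 370) (nat_lit 319) (nat_lit 91))))) (XT.nd (nat_lit 234) (nat_lit 304) (nat_lit 0) (XT.nd (nat_lit 78) (nat_lit 304) (nat_lit 0) (XT.lf (nat_lit 0) (nat_lit 16951807834) (nat_lit 304) (nat_lit 24471755941) (nat_lit 380) (nat_lit 16659183439) (nat_lit 73) (nat_lit 5) (nat_lit 77) (nat_lit 5) (nat_lit 78) (nat_lit 5) (nat_lit 371) (nat_lit 319) (nat_lit 90)) (XT.nd (nat_lit 78) (nat_lit 304) (nat_lit 0) (XT.lf (nat_lit 0) (nat_lit 44256682430) (nat_lit 304) (nat_lit 6678224644) (nat_lit 380) (nat_lit 8327270285) (nat_lit 73) (nat_lit 5) (nat_lit 77) (nat_lit 5) (nat_lit 78) (nat_lit 5) (nat_lit 372) (nat_lit 319) (nat_lit 89)) (XT.lf (nat_lit 0) (nat_lit 478200196) (nat_lit 304) (nat_lit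 48450266406) (nat_lit 76) (nat_lit 11541594591) (nat_lit 69) (nat_lit 5) (nat_lit 73) (nat_lit 5) (nat_lit 70) (nat_lit 5) (nat_lit 373) (nat_lit 319) (nat_lit 88)))) (XT.nd (nat_lit 156) (nat_lit 0) (nat_lit 0) (XT.nd (nat_lit 78) (nat_lit 304) (nat_lit 0) (XT.lf (nat_lit 0) (nat_lit 9598380395) (nat_lit 304) (nat_lit 21698027172) (nat_lit 76) (nat_lit 30408764274) (nat_lit 69) (nat_lit 5) (nat_lit 73) (nat_lit 5) (nat_lit 70) (nat_lit 5) (nat_lit 374) (nat_lit 319) (nat_lit 87)) (XT.lf (nat_lit 0) (nat_lit 5971594883) (nat_lit 304) (nat_lit 13076777738) (nat_lit 380) (nat_lit 43927278165) (nat_lit 65) (nat_lit 5) (nat_lit 69) (nat_lit 5) (nat_lit 70) (nat_lit 5) (nat_lit 375) (nat_lit 319) (nat_lit 86))) (XT.nd (nat_lit 78) (nat_lit 0) (nat_lit 0) (XT.lf (nat_lit 0) (nat_lit 29056649481) (nat_lit 380) (nat_lit 29420163147) (nat_lit 76) (nat_lit 5799189065) (nat_lit 65) (nat_lit 5) (nat_lit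 70) (nat_lit 5) (nat_lit 66) (nat_lit 5) (nat_lit 376) (nat_lit 319) (nat_lit 85)) (XT.lf (nat_lit 0) (nat_lit 39493499701) (nat_lit 380) (nat_lit 1139902762) (nat_lit 76) (nat_lit 24978112023) (nat_lit 65) (nat_lit 5) (nat_lit 70) (nat_lit 5) (nat_lit 66) (nat_lit 5) (nat_lit 377) (nat_lit 319) (nat_lit 84)))))) (XT.nd (nat_lit 546) (nat_lit 228) (nat_lit 0) (XT.nd (nat_lit 234) (nat_lit 456) (nat_lit 0) (XT.nd (nat_lit 78) (nat_lit 304) (nat_lit 0) (XT.lf (nat_lit 0) (nat_lit 28544137071) (nat_lit 228) (nat_lit 21972587509) (nat_lit 304) (nat_lit 16462171085) (nat_lit 62) (nat_lit 5) (nat_lit 65) (nat_lit 5) (nat_lit 66) (nat_lit 5) (nat_lit 378) (nat_lit 319) (nat_lit 83)) (XT.nd (nat_lit 78) (nat_lit 304) (nat_lit 0) (XT.lf (nat_lit 0) (nat_lit 59140453655) (nat_lit 228) (nat_lit 2740605750) (nat_lit 304) (nat_lit 6505927521) (nat_lit 62) (nat_lit 5) (nat_lit 65) (nat_lit 5) (nat_lit 66)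 (nat_lit 5) (nat_lit 379) (nat_lit 319) (nat_lit 82)) (XT.lf (nat_lit 0) (nat_lit 4044932568) (nat_lit 304) (nat_lit 48803330332) (nat_lit 76) (nat_lit 16976905305) (nat_lit 58) (nat_lit 5) (nat_lit 62) (nat_lit 5) (nat_lit 59) (nat_lit 5) (nat_lit 380) (nat_lit 319) (nat_lit 81)))) (XT.nd (nat_lit 156) (nat_lit 228) (nat_lit 0) (XT.nd (nat_lit 78) (nat_lit 228) (nat_lit 0) (XT.lf (nat_lit 0) (nat_lit 14901921005) (nat_lit 304) (nat_lit 19009962199) (nat_lit 76) (nat_lit 37389069265) (nat_lit 58) (nat_lit 5) (nat_lit 62) (nat_lit 5) (nat_lit 59) (nat_lit 5) (nat_lit 381) (nat_lit 319) (nat_lit 80)) (XT.lf (nat_lit 0) (nat_lit 11908022827) (nat_lit 228) (nat_lit 14290028714) (nat_lit 304) (nat_lit 46619556673) (nat_lit 55) (nat_lit 5) (nat_lit 58) (nat_lit 5) (nat_lit 59) (nat_lit 5) (nat_lit 382) (nat_lit 319) (nat_lit 79))) (XT.nd (nat_lit 78) (nat_lit 228) (nat_lit 0) (XT.lf (nat_lit 0) (nat_lit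 38082816883) (nat_lit 304) (nat_lit 30291147505) (nat_lit 76) (nat_lit 5998307617) (nat_lit 55) (nat_lit 5) (nat_lit 59) (nat_lit 5) (nat_lit 56) (nat_lit 5) (nat_lit 383) (nat_lit 319) (nat_lit 78)) (XT.lf (nat_lit 0) (nat_lit 1124788452) (nat_lit 228) (nat_lit 49350639786) (nat_lit 304) (nat_lit 25493609257) (nat_lit 52) (nat_lit 5) (nat_lit 55) (nat_lit 5) (nat_lit 56) (nat_lit 5) (nat_lit 384) (nat_lit 319) (nat_lit 77))))) (XT.nd (nat_lit 35568) (nat_lit 0) (nat_lit 9576) (XT.nd (nat_lit 78) (nat_lit 228) (nat_lit 0) (XT.lf (nat_lit 0) (nat_lit 34102637900) (nat_lit 228) (nat_lit 29442081209) (nat_lit 304) (nat_lit 14059840654) (nat_lit 52) (nat_lit 5) (nat_lit 55) (nat_lit 5) (nat_lit 56) (nat_lit 5) (nat_lit 385) (nat_lit 319) (nat_lit 76)) (XT.nd (nat_lit 78) (nat_lit 228) (nat_lit 0) (XT.lf (nat_lit 0) (nat_lit 68068363205) (nat_lit 228) (nat_lit 8936774026) (nat_lit 304) (nat_lit 2284039837)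 (nat_lit 52) (nat_lit 5) (nat_lit 55) (nat_lit 5) (nat_lit 56) (nat_lit 5) (nat_lit 386) (nat_lit 319) (nat_lit 75)) (XT.lf (nat_lit 0) (nat_lit 9987193477) (nat_lit 228) (nat_lit 58766092811) (nat_lit 76) (nat_lit 12258180170) (nat_lit 49) (nat_lit 5) (nat_lit 52) (nat_lit 5) (nat_lit 50) (nat_lit 5) (nat_lit 387) (nat_lit 319) (nat_lit 74)))) (XT.nd (nat_lit 156) (nat_lit 0) (nat_lit 0) (XT.nd (nat_lit 78) (nat_lit 0) (nat_lit 0) (XT.lf (nat_lit 0) (nat_lit 1081597273) (nat_lit 0) (nat_lit 1081597273) (nat_lit 1140) (nat_lit 9944159809) (nat_lit 175) (nat_lit 5) (nat_lit 175) (nat_lit 3) (nat_lit 190) (nat_lit 3) (nat_lit 320) (nat_lit 320) (nat_lit 140)) (XT.lf (nat_lit 0) (nat_lit 4580798160) (nat_lit 1140) (nat_lit 11470837241) (nat_lit 1216) (nat_lit 8520446108) (nat_lit 175) (nat_lit 5) (nat_lit 190) (nat_lit 3) (nat_lit 191) (nat_lit 5) (nat_lit 321) (nat_lit 320) (nat_lit 139))) (XT.nd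 (nat_lit 78) (nat_lit 0) (nat_lit 76) (XT.lf (nat_lit 0) (nat_lit 4860141064) (nat_lit 1140) (nat_lit 596376120) (nat_lit 1216) (nat_lit 19483145600) (nat_lit 175) (nat_lit 5) (nat_lit 190) (nat_lit 3) (nat_lit 191) (nat_lit 5) (nat_lit 322) (nat_lit 320) (nat_lit 138)) (XT.lf (nat_lit 0) (nat_lit 5301308365) (nat_lit 1140) (nat_lit 14555607906) (nat_lit 1216) (nat_lit 5456758056) (nat_lit 176) (nat_lit 5) (nat_lit 191) (nat_lit 5) (nat_lit 192) (nat_lit 5) (nat_lit 323) (nat_lit 320) (nat_lit 137))))))))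
noncomputable def xc230 : XT := (XT.nd (nat_lit 2028) (nat_lit 5016) (nat_lit 0) (XT.nd (nat_lit 1014) (nat_lit 3420) (nat_lit 0) (XT.nd (nat_lit 468) (nat_lit 0) (nat_lit 228) (XT.nd (nat_lit 234) (nat_lit 0) (nat_lit 76) (XT.nd (nat_lit 78) (nat_lit 0) (nat_lit 76) (XT.lf (nat_lit 0) (nat_lit 5811934042) (nat_lit 1140) (nat_lit 3289715330) (nat_lit 1216) (nat_lit 16595576122) (nat_lit 176) (nat_lit 5) (nat_lit 191) (nat_lit 5) (nat_lit 192) (nat_lit 5) (nat_lit 324) (nat_lit 320) (nat_lit 136)) (XT.nd (nat_lit 78) (nat_lit 0) (nat_lit 0) (XT.lf (nat_lit 0) (nat_lit 6435416889) (nat_lit 1140) (nat_lit 17632404772) (nat_lit 1216) (nat_lit 2021541182) (nat_lit 177) (nat_lit 5) (nat_lit 192) (nat_lit 5) (nat_lit 193) (nat_lit 5) (nat_lit 325) (nat_lit 320) (nat_lit 135)) (XT.lf (nat_lit 0) (nat_lit 7197601033) (nat_lit 1140) (nat_lit 5961559594) (nat_lit 1216) (nat_lit 13330509415) (nat_lit 177)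 (nat_lit 5) (nat_lit 192) (nat_lit 5) (nat_lit 193) (nat_lit 5) (nat_lit 326) (nat_lit 320) (nat_lit 134)))) (XT.nd (nat_lit 78) (nat_lit 0) (nat_lit 76) (XT.lf (nat_lit 76) (nat_lit 6177712559) (nat_lit 0) (nat_lit 1860761792) (nat_lit 1216) (nat_lit 18861842864) (nat_lit 178) (nat_lit 5) (nat_lit 177) (nat_lit 5) (nat_lit 193) (nat_lit 5) (nat_lit 327) (nat_lit 320) (nat_lit 133)) (XT.nd (nat_lit 78) (nat_lit 0) (nat_lit 0) (XT.lf (nat_lit 0) (nat_lit 9055882564) (nat_lit 1140) (nat_lit 8615030845) (nat_lit 1216) (nat_lit 9647836444) (nat_lit 178) (nat_lit 5) (nat_lit 193) (nat_lit 5) (nat_lit 194) (nat_lit 5) (nat_lit 328) (nat_lit 320) (nat_lit 132)) (XT.lf (nat_lit 76) (nat_lit 3911393083) (nat_lit 0) (nat_lit 6245077013) (nat_lit 1216) (nat_lit 17591690814) (nat_lit 179) (nat_lit 5) (nat_lit 178) (nat_lit 5) (nat_lit 194) (nat_lit 5) (nat_lit 329) (nat_lit 320) (nat_lit 131))))) (XT.nd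 (nat_lit 234) (nat_lit 0) (nat_lit 76) (XT.nd (nat_lit 78) (nat_lit 0) (nat_lit 0) (XT.lf (nat_lit 0) (nat_lit 11427748328) (nat_lit 1140) (nat_lit 11253962286) (nat_lit 1216) (nat_lit 5504618498) (nat_lit 179) (nat_lit 5) (nat_lit 194) (nat_lit 5) (nat_lit 195) (nat_lit 5) (nat_lit 330) (nat_lit 320) (nat_lit 130)) (XT.nd (nat_lit 78) (nat_lit 0) (nat_lit 76) (XT.lf (nat_lit 76) (nat_lit 1674876567) (nat_lit 0) (nat_lit 11137037446) (nat_lit 1216) (nat_lit 15823490734) (nat_lit 180) (nat_lit 5) (nat_lit 179) (nat_lit 5) (nat_lit 195) (nat_lit 5) (nat_lit 331) (nat_lit 320) (nat_lit 129)) (XT.lf (nat_lit 0) (nat_lit 14356516027) (nat_lit 1140) (nat_lit 13883025264) (nat_lit 1216) (nat_lit 854848736) (nat_lit 180) (nat_lit 5) (nat_lit 195) (nat_lit 5) (nat_lit 196) (nat_lit 5) (nat_lit 332) (nat_lit 320) (nat_lit 128)))) (XT.nd (nat_lit 156) (nat_lit 0) (nat_lit 76) (XT.nd (nat_lit 78) (nat_lit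 0) (nat_lit 0) (XT.lf (nat_lit 0) (nat_lit 16054709768) (nat_lit 1140) (nat_lit 525780323) (nat_lit 1216) (nat_lit 12983441743) (nat_lit 180) (nat_lit 5) (nat_lit 195) (nat_lit 5) (nat_lit 196) (nat_lit 5) (nat_lit 333) (nat_lit 320) (nat_lit 127)) (XT.lf (nat_lit 76) (nat_lit 13493235666) (nat_lit 0) (nat_lit 4437392648) (nat_lit 1216) (nat_lit 12113132656) (nat_lit 181) (nat_lit 5) (nat_lit 180) (nat_lit 5) (nat_lit 196) (nat_lit 5) (nat_lit 334) (nat_lit 320) (nat_lit 126))) (XT.nd (nat_lit 78) (nat_lit 0) (nat_lit 0) (XT.lf (nat_lit 0) (nat_lit 19942903802) (nat_lit 1140) (nat_lit 2674174106) (nat_lit 1216) (nat_lit 7918509011) (nat_lit 181) (nat_lit 5) (nat_lit 196) (nat_lit 5) (nat_lit 197) (nat_lit 5) (nat_lit 335) (nat_lit 320) (nat_lit 125)) (XT.lf (nat_lit 76) (nat_lit 11802589521) (nat_lit 0) (nat_lit 10367573226) (nat_lit 1216) (nat_lit 8867370633) (nat_lit 182) (nat_lit 5) (nat_lit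 181) (nat_lit 5) (nat_lit 197) (nat_lit 5) (nat_lit 336) (nat_lit 320) (nat_lit 124)))))) (XT.nd (nat_lit 468) (nat_lit 1520) (nat_lit 0) (XT.nd (nat_lit 234) (nat_lit 1216) (nat_lit 0) (XT.nd (nat_lit 78) (nat_lit 1140) (nat_lit 0) (XT.lf (nat_lit 0) (nat_lit 24510424350) (nat_lit 1140) (nat_lit 4809466813) (nat_lit 76) (nat_lit 2233265593) (nat_lit 182) (nat_lit 5) (nat_lit 197) (nat_lit 5) (nat_lit 183) (nat_lit 5) (nat_lit 337) (nat_lit 320) (nat_lit 123)) (XT.nd (nat_lit 78) (nat_lit 0) (nat_lit 0) (XT.lf (nat_lit 0) (nat_lit 10141772903) (nat_lit 1140) (nat_lit 16976628810) (nat_lit 1216) (nat_lit 4959925835) (nat_lit 167) (nat_lit 5) (nat_lit 182) (nat_lit 5) (nat_lit 183) (nat_lit 5) (nat_lit 338) (nat_lit 320) (nat_lit 122)) (XT.lf (nat_lit 0) (nat_lit 25637906355) (nat_lit 1140) (nat_lit 4212703121) (nat_lit 1216) (nat_lit 2767268091) (nat_lit 167) (nat_lit 5) (nat_lit 182) (nat_lit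 5) (nat_lit 183) (nat_lit 5) (nat_lit 339) (nat_lit 320) (nat_lit 121)))) (XT.nd (nat_lit 78) (nat_lit 684) (nat_lit 0) (XT.lf (nat_lit 0) (nat_lit 8503105822) (nat_lit 532) (nat_lit 24326798218) (nat_lit 608) (nat_lit 338760153) (nat_lit 160) (nat_lit 5) (nat_lit 167) (nat_lit 5) (nat_lit 168) (nat_lit 5) (nat_lit 340) (nat_lit 320) (nat_lit 120)) (XT.nd (nat_lit 78) (nat_lit 608) (nat_lit 0) (XT.lf (nat_lit 0) (nat_lit 2230821309) (nat_lit 608) (nat_lit 9205578597) (nat_lit 76) (nat_lit 22295641820) (nat_lit 159) (nat_lit 5) (nat_lit 167) (nat_lit 5) (nat_lit 160) (nat_lit 5) (nat_lit 341) (nat_lit 320) (nat_lit 119)) (XT.lf (nat_lit 0) (nat_lit 4952470909) (nat_lit 684) (nat_lit 27482474636) (nat_lit 76) (nat_lit 1874824143) (nat_lit 151) (nat_lit 5) (nat_lit 160) (nat_lit 5) (nat_lit 152) (nat_lit 5) (nat_lit 342) (nat_lit 320) (nat_lit 118))))) (XT.nd (nat_lit 234) (nat_lit 988) (nat_lit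 0) (XT.nd (nat_lit 78) (nat_lit 532) (nat_lit 0) (XT.lf (nat_lit 0) (nat_lit 7960529444) (nat_lit 684) (nat_lit 11488600230) (nat_lit 76) (nat_lit 15449560340) (nat_lit 151) (nat_lit 5) (nat_lit 160) (nat_lit 5) (nat_lit 152) (nat_lit 5) (nat_lit 343) (nat_lit 320) (nat_lit 117)) (XT.nd (nat_lit 78) (nat_lit 0) (nat_lit 0) (XT.lf (nat_lit 0) (nat_lit 5082058038) (nat_lit 532) (nat_lit 6023341112) (nat_lit 608) (nat_lit 24398484929) (nat_lit 144) (nat_lit 5) (nat_lit 151) (nat_lit 5) (nat_lit 152) (nat_lit 5) (nat_lit 344) (nat_lit 320) (nat_lit 116)) (XT.lf (nat_lit 0) (nat_lit 14534568116) (nat_lit 608) (nat_lit 13816840511) (nat_lit 76) (nat_lit 7770129862) (nat_lit 144) (nat_lit 5) (nat_lit 152) (nat_lit 5) (nat_lit 145) (nat_lit 5) (nat_lit 345) (nat_lit 320) (nat_lit 115)))) (XT.nd (nat_lit 156) (nat_lit 456) (nat_lit 0) (XT.nd (nat_lit 78) (nat_lit 0) (nat_lit 0) (XT.lf (nat_lit 0) (nat_lit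 3288645606) (nat_lit 532) (nat_lit 14867044829) (nat_lit 608) (nat_lit 18599362776) (nat_lit 137) (nat_lit 5) (nat_lit 144) (nat_lit 5) (nat_lit 145) (nat_lit 5) (nat_lit 346) (nat_lit 320) (nat_lit 114)) (XT.lf (nat_lit 0) (nat_lit 21188364159) (nat_lit 532) (nat_lit 834476473) (nat_lit 608) (nat_lit 15380613856) (nat_lit 137) (nat_lit 5) (nat_lit 144) (nat_lit 5) (nat_lit 145) (nat_lit 5) (nat_lit 347) (nat_lit 320) (nat_lit 113))) (XT.nd (nat_lit 78) (nat_lit 0) (nat_lit 0) (XT.lf (nat_lit 0) (nat_lit 1448960746) (nat_lit 456) (nat_lit 24699820596) (nat_lit 532) (nat_lit 11918246035) (nat_lit 131) (nat_lit 5) (nat_lit 137) (nat_lit 5) (nat_lit 138) (nat_lit 5) (nat_lit 348) (nat_lit 320) (nat_lit 112)) (XT.lf (nat_lit 0) (nat_lit 19964756123) (nat_lit 456) (nat_lit 10603638395) (nat_lit 532) (nat_lit 8177018878) (nat_lit 131) (nat_lit 5) (nat_lit 137) (nat_lit 5) (nat_lit 138) (nat_lit 5)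 (nat_lit 349) (nat_lit 320) (nat_lit 111))))))) (XT.nd (nat_lit 1014) (nat_lit 2356) (nat_lit 0) (XT.nd (nat_lit 468) (nat_lit 1216) (nat_lit 0) (XT.nd (nat_lit 234) (nat_lit 912) (nat_lit 0) (XT.nd (nat_lit 78) (nat_lit 532) (nat_lit 0) (XT.lf (nat_lit 0) (nat_lit 35156264041) (nat_lit 532) (nat_lit 447905454) (nat_lit 76) (nat_lit 3838914153) (nat_lit 131) (nat_lit 5) (nat_lit 138) (nat_lit 5) (nat_lit 132) (nat_lit 5) (nat_lit 350) (nat_lit 320) (nat_lit 110)) (XT.nd (nat_lit 78) (nat_lit 0) (nat_lit 0) (XT.lf (nat_lit 0) (nat_lit 11103084) (nat_lit 532) (nat_lit 21460791832) (nat_lit 76) (nat_lit 18681305689) (nat_lit 124) (nat_lit 5) (nat_lit 131) (nat_lit 5) (nat_lit 125) (nat_lit 5) (nat_lit 351) (nat_lit 320) (nat_lit 109)) (XT.lf (nat_lit 0) (nat_lit 4354473025) (nat_lit 532) (nat_lit 2512959621) (nat_lit 76) (nat_lit 34015837461) (nat_lit 124) (nat_lit 5) (nat_lit 131) (nat_lit 5)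 (nat_lit 125) (nat_lit 5) (nat_lit 352) (nat_lit 320) (nat_lit 108)))) (XT.nd (nat_lit 78) (nat_lit 456) (nat_lit 0) (XT.lf (nat_lit 0) (nat_lit 9073214156) (nat_lit 532) (nat_lit 24370904496) (nat_lit 76) (nat_lit 8183773330) (nat_lit 118) (nat_lit 5) (nat_lit 125) (nat_lit 5) (nat_lit 119) (nat_lit 5) (nat_lit 353) (nat_lit 320) (nat_lit 107)) (XT.nd (nat_lit 78) (nat_lit 456) (nat_lit 0) (XT.lf (nat_lit 0) (nat_lit 14025329251) (nat_lit 532) (nat_lit 4792863784) (nat_lit 76) (nat_lit 23573907447) (nat_lit 118) (nat_lit 5) (nat_lit 125) (nat_lit 5) (nat_lit 119) (nat_lit 5) (nat_lit 354) (nat_lit 320) (nat_lit 106)) (XT.lf (nat_lit 0) (nat_lit 15676408591) (nat_lit 456) (nat_lit 3598533286) (nat_lit 532) (nat_lit 23899827590) (nat_lit 112) (nat_lit 5) (nat_lit 118) (nat_lit 5) (nat_lit 119) (nat_lit 5) (nat_lit 355) (nat_lit 320) (nat_lit 105))))) (XT.nd (nat_lit 234) (nat_lit 836) (nat_lit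 0) (XT.nd (nat_lit 78) (nat_lit 380) (nat_lit 0) (XT.lf (nat_lit 0) (nat_lit 24845291294) (nat_lit 532) (nat_lit 7240080397) (nat_lit 76) (nat_lit 11890651565) (nat_lit 112) (nat_lit 5) (nat_lit 119) (nat_lit 5) (nat_lit 113) (nat_lit 5) (nat_lit 356) (nat_lit 320) (nat_lit 104)) (XT.nd (nat_lit 78) (nat_lit 0) (nat_lit 0) (XT.lf (nat_lit 0) (nat_lit 13858769114) (nat_lit 380) (nat_lit 16891152706) (nat_lit 456) (nat_lit 14046379845) (nat_lit 107) (nat_lit 5) (nat_lit 112) (nat_lit 5) (nat_lit 113) (nat_lit 5) (nat_lit 357) (nat_lit 320) (nat_lit 103)) (XT.lf (nat_lit 0) (nat_lit 35737033280) (nat_lit 380) (nat_lit 1166121178) (nat_lit 456) (nat_lit 8735892134) (nat_lit 107) (nat_lit 5) (nat_lit 112) (nat_lit 5) (nat_lit 113) (nat_lit 5) (nat_lit 358) (nat_lit 320) (nat_lit 102)))) (XT.nd (nat_lit 156) (nat_lit 380) (nat_lit 0) (XT.nd (nat_lit 78) (nat_lit 76) (nat_lit 0) (XT.lf (nat_lit 0)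 (nat_lit 11849356053) (nat_lit 380) (nat_lit 31648412788) (nat_lit 456) (nat_lit 3001603483) (nat_lit 102) (nat_lit 5) (nat_lit 107) (nat_lit 5) (nat_lit 108) (nat_lit 5) (nat_lit 359) (nat_lit 320) (nat_lit 101)) (XT.lf (nat_lit 0) (nat_lit 2958967243) (nat_lit 456) (nat_lit 12968687241) (nat_lit 76) (nat_lit 31453689529) (nat_lit 101) (nat_lit 5) (nat_lit 107) (nat_lit 5) (nat_lit 102) (nat_lit 5) (nat_lit 360) (nat_lit 320) (nat_lit 100))) (XT.nd (nat_lit 78) (nat_lit 0) (nat_lit 0) (XT.lf (nat_lit 0) (nat_lit 9131706399) (nat_lit 456) (nat_lit 38772763377) (nat_lit 76) (nat_lit 381604928) (nat_lit 96) (nat_lit 5) (nat_lit 102) (nat_lit 5) (nat_lit 97) (nat_lit 5) (nat_lit 361) (nat_lit 320) (nat_lit 99)) (XT.lf (nat_lit 0) (nat_lit 15778059947) (nat_lit 456) (nat_lit 16439336682) (nat_lit 76) (nat_lit 16991899497) (nat_lit 96) (nat_lit 5) (nat_lit 102) (nat_lit 5) (nat_lit 97) (nat_lit 5)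 (nat_lit 362) (nat_lit 320) (nat_lit 98)))))) (XT.nd (nat_lit 546) (nat_lit 1216) (nat_lit 0) (XT.nd (nat_lit 234) (nat_lit 456) (nat_lit 0) (XT.nd (nat_lit 78) (nat_lit 304) (nat_lit 0) (XT.lf (nat_lit 0) (nat_lit 6692812944) (nat_lit 380) (nat_lit 15993848645) (nat_lit 456) (nat_lit 27471668604) (nat_lit 91) (nat_lit 5) (nat_lit 96) (nat_lit 5) (nat_lit 97) (nat_lit 5) (nat_lit 363) (nat_lit 320) (nat_lit 97)) (XT.nd (nat_lit 78) (nat_lit 304) (nat_lit 0) (XT.lf (nat_lit 0) (nat_lit 29975599779) (nat_lit 456) (nat_lit 20285371569) (nat_lit 76) (nat_lit 869673255) (nat_lit 91) (nat_lit 5) (nat_lit 97) (nat_lit 5) (nat_lit 92) (nat_lit 5) (nat_lit 364) (nat_lit 320) (nat_lit 96)) (XT.lf (nat_lit 0) (nat_lit 3498238585) (nat_lit 304) (nat_lit 34175535389) (nat_lit 380) (nat_lit 14452639065) (nat_lit 87) (nat_lit 5) (nat_lit 91) (nat_lit 5) (nat_lit 92) (nat_lit 5) (nat_lit 365) (nat_lit 320)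 (nat_lit 95)))) (XT.nd (nat_lit 156) (nat_lit 456) (nat_lit 0) (XT.nd (nat_lit 78) (nat_lit 0) (nat_lit 0) (XT.lf (nat_lit 0) (nat_lit 28409357200) (nat_lit 304) (nat_lit 17396987986) (nat_lit 380) (nat_lit 7339607367) (nat_lit 87) (nat_lit 5) (nat_lit 91) (nat_lit 5) (nat_lit 92) (nat_lit 5) (nat_lit 366) (nat_lit 320) (nat_lit 94)) (XT.lf (nat_lit 0) (nat_lit 54066032603) (nat_lit 304) (nat_lit 115510751) (nat_lit 380) (nat_lit 14576937) (nat_lit 87) (nat_lit 5) (nat_lit 91) (nat_lit 5) (nat_lit 92) (nat_lit 5) (nat_lit 367) (nat_lit 320) (nat_lit 93))) (XT.nd (nat_lit 78) (nat_lit 0) (nat_lit 0) (XT.lf (nat_lit 0) (nat_lit 7801559265) (nat_lit 456) (nat_lit 29800592534) (nat_lit 76) (nat_lit 17660922274) (nat_lit 81) (nat_lit 5) (nat_lit 87) (nat_lit 5) (nat_lit 82) (nat_lit 5) (nat_lit 368) (nat_lit 320) (nat_lit 92)) (XT.lf (nat_lit 0) (nat_lit 15853049348) (nat_lit 456) (nat_lit 4539575552)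 (nat_lit 76) (nat_lit 35969373758) (nat_lit 81) (nat_lit 5) (nat_lit 87) (nat_lit 5) (nat_lit 82) (nat_lit 5) (nat_lit 369) (nat_lit 320) (nat_lit 91))))) (XT.nd (nat_lit 234) (nat_lit 608) (nat_lit 0) (XT.nd (nat_lit 78) (nat_lit 304) (nat_lit 0) (XT.lf (nat_lit 0) (nat_lit 21904996931) (nat_lit 304) (nat_lit 2450381985) (nat_lit 380) (nat_lit 33132234586) (nat_lit 77) (nat_lit 5) (nat_lit 81) (nat_lit 5) (nat_lit 82) (nat_lit 5) (nat_lit 370) (nat_lit 320) (nat_lit 90)) (XT.nd (nat_lit 78) (nat_lit 304) (nat_lit 0) (XT.lf (nat_lit 0) (nat_lit 33311911230) (nat_lit 380) (nat_lit 9565941344) (nat_lit 76) (nat_lit 15763171554) (nat_lit 77) (nat_lit 5) (nat_lit 82) (nat_lit 5) (nat_lit 78) (nat_lit 5) (nat_lit 371) (nat_lit 320) (nat_lit 89)) (XT.lf (nat_lit 0) (nat_lit 17547704524) (nat_lit 304) (nat_lit 25181158748) (nat_lit 380) (nat_lit 17094423372) (nat_lit 73) (nat_lit 5) (nat_lit 77) (nat_lit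 5) (nat_lit 78) (nat_lit 5) (nat_lit 372) (nat_lit 320) (nat_lit 88)))) (XT.nd (nat_lit 156) (nat_lit 304) (nat_lit 0) (XT.nd (nat_lit 78) (nat_lit 304) (nat_lit 0) (XT.lf (nat_lit 0) (nat_lit 45669181404) (nat_lit 304) (nat_lit 6854542381) (nat_lit 380) (nat_lit 8514432501) (nat_lit 73) (nat_lit 5) (nat_lit 77) (nat_lit 5) (nat_lit 78) (nat_lit 5) (nat_lit 373) (nat_lit 320) (nat_lit 87)) (XT.lf (nat_lit 0) (nat_lit 553247657) (nat_lit 304) (nat_lit 49816900319) (nat_lit 76) (nat_lit 11912134335) (nat_lit 69) (nat_lit 5) (nat_lit 73) (nat_lit 5) (nat_lit 70) (nat_lit 5) (nat_lit 374) (nat_lit 320) (nat_lit 86))) (XT.nd (nat_lit 78) (nat_lit 304) (nat_lit 0) (XT.lf (nat_lit 0) (nat_lit 9945265258) (nat_lit 304) (nat_lit 22264624221) (nat_lit 76) (nat_lit 31344611577) (nat_lit 69) (nat_lit 5) (nat_lit 73) (nat_lit 5) (nat_lit 70) (nat_lit 5) (nat_lit 375) (nat_lit 320) (nat_lit 85)) (XT.lf (nat_lit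 0) (nat_lit 6234259596) (nat_lit 304) (nat_lit 13443583962) (nat_lit 380) (nat_lit 45185279909) (nat_lit 65) (nat_lit 5) (nat_lit 69) (nat_lit 5) (nat_lit 70) (nat_lit 5) (nat_lit 376) (nat_lit 320) (nat_lit 84))))))))
noncomputable def xc231 : XT := (XT.nd (nat_lit 37440) (nat_lit 0) (nat_lit 3344) (XT.nd (nat_lit 36426) (nat_lit 0) (nat_lit 9348) (XT.nd (nat_lit 468) (nat_lit 456) (nat_lit 0) (XT.nd (nat_lit 234) (nat_lit 304) (nat_lit 0) (XT.nd (nat_lit 78) (nat_lit 228) (nat_lit 0) (XT.lf (nat_lit 0) (nat_lit 29984916783) (nat_lit 380) (nat_lit 30220177153) (nat_lit 76) (nat_lit 5997436163) (nat_lit 65) (nat_lit 5) (nat_lit 70) (nat_lit 5) (nat_lit 66) (nat_lit 5) (nat_lit 377) (nat_lit 320) (nat_lit 83)) (XT.nd (nat_lit 78) (nat_lit 228) (nat_lit 0) (XT.lf (nat_lit 0) (nat_lit 40733224904) (nat_lit 380) (nat_lit 1093914517) (nat_lit 76) (nat_lit 25751019874) (nat_lit 65) (nat_lit 5) (nat_lit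 70) (nat_lit 5) (nat_lit 66) (nat_lit 5) (nat_lit 378) (nat_lit 320) (nat_lit 82)) (XT.lf (nat_lit 0) (nat_lit 29479860381) (nat_lit 228) (nat_lit 22606449763) (nat_lit 304) (nat_lit 16900278399) (nat_lit 62) (nat_lit 5) (nat_lit 65) (nat_lit 5) (nat_lit 66) (nat_lit 5) (nat_lit 379) (nat_lit 320) (nat_lit 81)))) (XT.nd (nat_lit 78) (nat_lit 304) (nat_lit 0) (XT.lf (nat_lit 0) (nat_lit 60991753864) (nat_lit 228) (nat_lit 2798245893) (nat_lit 304) (nat_lit 6646971543) (nat_lit 62) (nat_lit 5) (nat_lit 65) (nat_lit 5) (nat_lit 66) (nat_lit 5) (nat_lit 380) (nat_lit 320) (nat_lit 80)) (XT.nd (nat_lit 78) (nat_lit 0) (nat_lit 0) (XT.lf (nat_lit 0) (nat_lit 4218798063) (nat_lit 304) (nat_lit 50188631726) (nat_lit 76) (nat_lit 17510870830) (nat_lit 58) (nat_lit 5) (nat_lit 62) (nat_lit 5) (nat_lit 59) (nat_lit 5) (nat_lit 381) (nat_lit 320) (nat_lit 79)) (XT.lf (nat_lit 0) (nat_lit 15399966515) (nat_lit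 304) (nat_lit 19503757651) (nat_lit 76) (nat_lit 38534681504) (nat_lit 58) (nat_lit 5) (nat_lit 62) (nat_lit 5) (nat_lit 59) (nat_lit 5) (nat_lit 382) (nat_lit 320) (nat_lit 78))))) (XT.nd (nat_lit 234) (nat_lit 0) (nat_lit 0) (XT.nd (nat_lit 78) (nat_lit 228) (nat_lit 0) (XT.lf (nat_lit 0) (nat_lit 12341016892) (nat_lit 228) (nat_lit 14693207179) (nat_lit 304) (nat_lit 47966361055) (nat_lit 55) (nat_lit 5) (nat_lit 58) (nat_lit 5) (nat_lit 59) (nat_lit 5) (nat_lit 383) (nat_lit 320) (nat_lit 77)) (XT.nd (nat_lit 78) (nat_lit 228) (nat_lit 0) (XT.lf (nat_lit 0) (nat_lit 39274307527) (nat_lit 304) (nat_lit 31125067001) (nat_lit 76) (nat_lit 6202552343) (nat_lit 55) (nat_lit 5) (nat_lit 59) (nat_lit 5) (nat_lit 56) (nat_lit 5) (nat_lit 384) (nat_lit 320) (nat_lit 76)) (XT.lf (nat_lit 0) (nat_lit 1232613555) (nat_lit 228) (nat_lit 50805368420) (nat_lit 304) (nat_lit 26208636063) (nat_lit 52) (nat_lit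 5) (nat_lit 55) (nat_lit 5) (nat_lit 56) (nat_lit 5) (nat_lit 385) (nat_lit 320) (nat_lit 75)))) (XT.nd (nat_lit 35568) (nat_lit 0) (nat_lit 9348) (XT.nd (nat_lit 78) (nat_lit 0) (nat_lit 0) (XT.lf (nat_lit 0) (nat_lit 35197640775) (nat_lit 228) (nat_lit 30300304267) (nat_lit 304) (nat_lit 14433304348) (nat_lit 52) (nat_lit 5) (nat_lit 55) (nat_lit 5) (nat_lit 56) (nat_lit 5) (nat_lit 386) (nat_lit 320) (nat_lit 74)) (XT.lf (nat_lit 0) (nat_lit 70180242973) (nat_lit 228) (nat_lit 9180567171) (nat_lit 304) (nat_lit 2305637220) (nat_lit 52) (nat_lit 5) (nat_lit 55) (nat_lit 5) (nat_lit 56) (nat_lit 5) (nat_lit 387) (nat_lit 320) (nat_lit 73))) (XT.nd (nat_lit 78) (nat_lit 0) (nat_lit 0) (XT.lf (nat_lit 0) (nat_lit 1166525544) (nat_lit 0) (nat_lit 1166525544) (nat_lit 1140) (nat_lit 10134214202) (nat_lit 175) (nat_lit 5) (nat_lit 175) (nat_lit 3) (nat_lit 190) (nat_lit 3) (nat_lit 321) (nat_lit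 321) (nat_lit 138)) (XT.lf (nat_lit 0) (nat_lit 4921049739) (nat_lit 1140) (nat_lit 11705652609) (nat_lit 1216) (nat_lit 8676144400) (nat_lit 175) (nat_lit 5) (nat_lit 190) (nat_lit 3) (nat_lit 191) (nat_lit 5) (nat_lit 322) (nat_lit 321) (nat_lit 137)))))) (XT.nd (nat_lit 468) (nat_lit 0) (nat_lit 228) (XT.nd (nat_lit 234) (nat_lit 0) (nat_lit 152) (XT.nd (nat_lit 78) (nat_lit 0) (nat_lit 76) (XT.lf (nat_lit 0) (nat_lit 5202865329) (nat_lit 1140) (nat_lit 508141433) (nat_lit 1216) (nat_lit 19970635026) (nat_lit 175) (nat_lit 5) (nat_lit 190) (nat_lit 3) (nat_lit 191) (nat_lit 5) (nat_lit 323) (nat_lit 321) (nat_lit 136)) (XT.nd (nat_lit 78) (nat_lit 0) (nat_lit 0) (XT.lf (nat_lit 0) (nat_lit 5651704915) (nat_lit 1140) (nat_lit 14880292993) (nat_lit 1216) (nat_lit 5535051486) (nat_lit 176) (nat_lit 5) (nat_lit 191) (nat_lit 5) (nat_lit 192) (nat_lit 5) (nat_lit 324) (nat_lit 321) (nat_lit 135))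 (XT.lf (nat_lit 0) (nat_lit 6172075848) (nat_lit 1140) (nat_lit 3279685285) (nat_lit 1216) (nat_lit 17010521743) (nat_lit 176) (nat_lit 5) (nat_lit 191) (nat_lit 5) (nat_lit 192) (nat_lit 5) (nat_lit 325) (nat_lit 321) (nat_lit 134)))) (XT.nd (nat_lit 78) (nat_lit 0) (nat_lit 0) (XT.lf (nat_lit 0) (nat_lit 6809177907) (nat_lit 1140) (nat_lit 18047292593) (nat_lit 1216) (nat_lit 2009874731) (nat_lit 177) (nat_lit 5) (nat_lit 192) (nat_lit 5) (nat_lit 193) (nat_lit 5) (nat_lit 326) (nat_lit 321) (nat_lit 133)) (XT.nd (nat_lit 78) (nat_lit 0) (nat_lit 0) (XT.lf (nat_lit 0) (nat_lit 7588964512) (nat_lit 1140) (nat_lit 6029644903) (nat_lit 1216) (nat_lit 13660218206) (nat_lit 177) (nat_lit 5) (nat_lit 192) (nat_lit 5) (nat_lit 193) (nat_lit 5) (nat_lit 327) (nat_lit 321) (nat_lit 132)) (XT.lf (nat_lit 76) (nat_lit 6472719518) (nat_lit 0) (nat_lit 1978289010) (nat_lit 1216) (nat_lit 19250915195) (nat_lit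 178) (nat_lit 5) (nat_lit 177) (nat_lit 5) (nat_lit 193) (nat_lit 5) (nat_lit 328) (nat_lit 321) (nat_lit 131))))) (XT.nd (nat_lit 234) (nat_lit 0) (nat_lit 76) (XT.nd (nat_lit 78) (nat_lit 0) (nat_lit 0) (XT.lf (nat_lit 0) (nat_lit 9493371473) (nat_lit 1140) (nat_lit 8761179119) (nat_lit 1216) (nat_lit 9878533391) (nat_lit 178) (nat_lit 5) (nat_lit 193) (nat_lit 5) (nat_lit 194) (nat_lit 5) (nat_lit 329) (nat_lit 321) (nat_lit 130)) (XT.nd (nat_lit 78) (nat_lit 0) (nat_lit 76) (XT.lf (nat_lit 76) (nat_lit 4139936521) (nat_lit 0) (nat_lit 6483279562) (nat_lit 1216) (nat_lit 17952281506) (nat_lit 179) (nat_lit 5) (nat_lit 178) (nat_lit 5) (nat_lit 194) (nat_lit 5) (nat_lit 330) (nat_lit 321) (nat_lit 129)) (XT.lf (nat_lit 0) (nat_lit 11927438137) (nat_lit 1140) (nat_lit 11478184458) (nat_lit 1216) (nat_lit 5621351260) (nat_lit 179) (nat_lit 5) (nat_lit 194) (nat_lit 5) (nat_lit 195) (nat_lit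 5) (nat_lit 331) (nat_lit 321) (nat_lit 128)))) (XT.nd (nat_lit 156) (nat_lit 0) (nat_lit 76) (XT.nd (nat_lit 78) (nat_lit 0) (nat_lit 76) (XT.lf (nat_lit 76) (nat_lit 1837407828) (nat_lit 0) (nat_lit 11512231654) (nat_lit 1216) (nat_lit 16139993927) (nat_lit 180) (nat_lit 5) (nat_lit 179) (nat_lit 5) (nat_lit 195) (nat_lit 5) (nat_lit 332) (nat_lit 321) (nat_lit 127)) (XT.lf (nat_lit 0) (nat_lit 14935729113) (nat_lit 1140) (nat_lit 14185425381) (nat_lit 1216) (nat_lit 841386037) (nat_lit 180) (nat_lit 5) (nat_lit 195) (nat_lit 5) (nat_lit 196) (nat_lit 5) (nat_lit 333) (nat_lit 321) (nat_lit 126))) (XT.nd (nat_lit 78) (nat_lit 0) (nat_lit 0) (XT.lf (nat_lit 0) (nat_lit 16680542911) (nat_lit 1140) (nat_lit 430786120) (nat_lit 1216) (nat_lit 13334975907) (nat_lit 180) (nat_lit 5) (nat_lit 195) (nat_lit 5) (nat_lit 196) (nat_lit 5) (nat_lit 334) (nat_lit 321) (nat_lit 125)) (XT.lf (nat_lit 76)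 (nat_lit 14007714391) (nat_lit 0) (nat_lit 4601879187) (nat_lit 1216) (nat_lit 12331036116) (nat_lit 181) (nat_lit 5) (nat_lit 180) (nat_lit 5) (nat_lit 196) (nat_lit 5) (nat_lit 335) (nat_lit 321) (nat_lit 124))))))) (XT.nd (nat_lit 1014) (nat_lit 3116) (nat_lit 0) (XT.nd (nat_lit 468) (nat_lit 1748) (nat_lit 0) (XT.nd (nat_lit 234) (nat_lit 1596) (nat_lit 0) (XT.nd (nat_lit 78) (nat_lit 0) (nat_lit 0) (XT.lf (nat_lit 0) (nat_lit 20677836466) (nat_lit 1140) (nat_lit 2643304903) (nat_lit 1216) (nat_lit 8126207272) (nat_lit 181) (nat_lit 5) (nat_lit 196) (nat_lit 5) (nat_lit 197) (nat_lit 5) (nat_lit 336) (nat_lit 321) (nat_lit 123)) (XT.nd (nat_lit 78) (nat_lit 0) (nat_lit 76) (XT.lf (nat_lit 76) (nat_lit 12266672471) (nat_lit 0) (nat_lit 10702318180) (nat_lit 1216) (nat_lit 8995456537) (nat_lit 182) (nat_lit 5) (nat_lit 181) (nat_lit 5) (nat_lit 197) (nat_lit 5) (nat_lit 337) (nat_lit 321)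 (nat_lit 122)) (XT.lf (nat_lit 0) (nat_lit 25375343907) (nat_lit 1140) (nat_lit 4842638733) (nat_lit 76) (nat_lit 2277685952) (nat_lit 182) (nat_lit 5) (nat_lit 197) (nat_lit 5) (nat_lit 183) (nat_lit 5) (nat_lit 338) (nat_lit 321) (nat_lit 121)))) (XT.nd (nat_lit 78) (nat_lit 532) (nat_lit 0) (XT.lf (nat_lit 0) (nat_lit 10556048841) (nat_lit 1140) (nat_lit 17502794401) (nat_lit 1216) (nat_lit 4977838457) (nat_lit 167) (nat_lit 5) (nat_lit 182) (nat_lit 5) (nat_lit 183) (nat_lit 5) (nat_lit 339) (nat_lit 321) (nat_lit 120)) (XT.nd (nat_lit 78) (nat_lit 532) (nat_lit 0) (XT.lf (nat_lit 0) (nat_lit 26513861750) (nat_lit 1140) (nat_lit 4355459677) (nat_lit 1216) (nat_lit 2723213169) (nat_lit 167) (nat_lit 5) (nat_lit 182) (nat_lit 5) (nat_lit 183) (nat_lit 5) (nat_lit 340) (nat_lit 321) (nat_lit 119)) (XT.lf (nat_lit 0) (nat_lit 8867967098) (nat_lit 532) (nat_lit 25067341897) (nat_lit 608) (nat_lit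 224621745) (nat_lit 160) (nat_lit 5) (nat_lit 167) (nat_lit 5) (nat_lit 168) (nat_lit 5) (nat_lit 341) (nat_lit 321) (nat_lit 118))))) (XT.nd (nat_lit 234) (nat_lit 1064) (nat_lit 0) (XT.nd (nat_lit 78) (nat_lit 608) (nat_lit 0) (XT.lf (nat_lit 0) (nat_lit 2416071821) (nat_lit 608) (nat_lit 9372652148) (nat_lit 76) (nat_lit 22951561315) (nat_lit 159) (nat_lit 5) (nat_lit 167) (nat_lit 5) (nat_lit 160) (nat_lit 5) (nat_lit 342) (nat_lit 321) (nat_lit 117)) (XT.nd (nat_lit 78) (nat_lit 0) (nat_lit 0) (XT.lf (nat_lit 0) (nat_lit 5216887041) (nat_lit 684) (nat_lit 28195208174) (nat_lit 76) (nat_lit 1923329277) (nat_lit 151) (nat_lit 5) (nat_lit 160) (nat_lit 5) (nat_lit 152) (nat_lit 5) (nat_lit 343) (nat_lit 321) (nat_lit 116)) (XT.lf (nat_lit 0) (nat_lit 8311813292) (nat_lit 684) (nat_lit 11724772119) (nat_lit 76) (nat_lit 15905532985) (nat_lit 151) (nat_lit 5) (nat_lit 160) (nat_lit 5) (nat_lit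 152) (nat_lit 5) (nat_lit 344) (nat_lit 321) (nat_lit 115)))) (XT.nd (nat_lit 156) (nat_lit 532) (nat_lit 0) (XT.nd (nat_lit 78) (nat_lit 0) (nat_lit 0) (XT.lf (nat_lit 0) (nat_lit 5341942308) (nat_lit 532) (nat_lit 6206843627) (nat_lit 608) (nat_lit 25016754253) (nat_lit 144) (nat_lit 5) (nat_lit 151) (nat_lit 5) (nat_lit 152) (nat_lit 5) (nat_lit 345) (nat_lit 321) (nat_lit 114)) (XT.lf (nat_lit 0) (nat_lit 15077593386) (nat_lit 608) (nat_lit 14123666233) (nat_lit 76) (nat_lit 8000566186) (nat_lit 144) (nat_lit 5) (nat_lit 152) (nat_lit 5) (nat_lit 145) (nat_lit 5) (nat_lit 346) (nat_lit 321) (nat_lit 113))) (XT.nd (nat_lit 78) (nat_lit 0) (nat_lit 0) (XT.lf (nat_lit 0) (nat_lit 3493928787) (nat_lit 532) (nat_lit 15311329359) (nat_lit 608) (nat_lit 19049154904) (nat_lit 137) (nat_lit 5) (nat_lit 144) (nat_lit 5) (nat_lit 145) (nat_lit 5) (nat_lit 347) (nat_lit 321) (nat_lit 112)) (XT.lf (nat_lit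 0) (nat_lit 21927533349) (nat_lit 532) (nat_lit 857834248) (nat_lit 608) (nat_lit 15736994645) (nat_lit 137) (nat_lit 5) (nat_lit 144) (nat_lit 5) (nat_lit 145) (nat_lit 5) (nat_lit 348) (nat_lit 321) (nat_lit 111)))))) (XT.nd (nat_lit 546) (nat_lit 1672) (nat_lit 0) (XT.nd (nat_lit 234) (nat_lit 988) (nat_lit 0) (XT.nd (nat_lit 78) (nat_lit 0) (nat_lit 0) (XT.lf (nat_lit 0) (nat_lit 1598081539) (nat_lit 456) (nat_lit 25435069962) (nat_lit 532) (nat_lit 12172752963) (nat_lit 131) (nat_lit 5) (nat_lit 137) (nat_lit 5) (nat_lit 138) (nat_lit 5) (nat_lit 349) (nat_lit 321) (nat_lit 110)) (XT.nd (nat_lit 78) (nat_lit 0) (nat_lit 0) (XT.lf (nat_lit 0) (nat_lit 20666273536) (nat_lit 456) (nat_lit 10916169632) (nat_lit 532) (nat_lit 8322290170) (nat_lit 131) (nat_lit 5) (nat_lit 137) (nat_lit 5) (nat_lit 138) (nat_lit 5) (nat_lit 350) (nat_lit 321) (nat_lit 109)) (XT.lf (nat_lit 0) (nat_lit 36305175683)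 (nat_lit 532) (nat_lit 358853713) (nat_lit 76) (nat_lit 3959391354) (nat_lit 131) (nat_lit 5) (nat_lit 138) (nat_lit 5) (nat_lit 132) (nat_lit 5) (nat_lit 351) (nat_lit 321) (nat_lit 108)))) (XT.nd (nat_lit 156) (nat_lit 456) (nat_lit 0) (XT.nd (nat_lit 78) (nat_lit 0) (nat_lit 0) (XT.lf (nat_lit 0) (nat_lit 104928948) (nat_lit 532) (nat_lit 22001149479) (nat_lit 76) (nat_lit 19248792105) (nat_lit 124) (nat_lit 5) (nat_lit 131) (nat_lit 5) (nat_lit 125) (nat_lit 5) (nat_lit 352) (nat_lit 321) (nat_lit 107)) (XT.lf (nat_lit 0) (nat_lit 4575876897) (nat_lit 532) (nat_lit 2487895878) (nat_lit 76) (nat_lit 35043154570) (nat_lit 124) (nat_lit 5) (nat_lit 131) (nat_lit 5) (nat_lit 125) (nat_lit 5) (nat_lit 353) (nat_lit 321) (nat_lit 106))) (XT.nd (nat_lit 78) (nat_lit 0) (nat_lit 0) (XT.lf (nat_lit 0) (nat_lit 9434592462) (nat_lit 532) (nat_lit 24999876956) (nat_lit 76) (nat_lit 8439469523) (nat_lit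 118) (nat_lit 5) (nat_lit 125) (nat_lit 5) (nat_lit 119) (nat_lit 5) (nat_lit 354) (nat_lit 321) (nat_lit 105)) (XT.lf (nat_lit 0) (nat_lit 14532673479) (nat_lit 532) (nat_lit 4837470401) (nat_lit 76) (nat_lit 24291011071) (nat_lit 118) (nat_lit 5) (nat_lit 125) (nat_lit 5) (nat_lit 119) (nat_lit 5) (nat_lit 355) (nat_lit 321) (nat_lit 104))))) (XT.nd (nat_lit 234) (nat_lit 836) (nat_lit 0) (XT.nd (nat_lit 78) (nat_lit 380) (nat_lit 0) (XT.lf (nat_lit 0) (nat_lit 16244907799) (nat_lit 456) (nat_lit 3693288836) (nat_lit 532) (nat_lit 24529157941) (nat_lit 112) (nat_lit 5) (nat_lit 118) (nat_lit 5) (nat_lit 119) (nat_lit 5) (nat_lit 356) (nat_lit 321) (nat_lit 103)) (XT.nd (nat_lit 78) (nat_lit 380) (nat_lit 0) (XT.lf (nat_lit 0) (nat_lit 25673303813) (nat_lit 532) (nat_lit 7359478892) (nat_lit 76) (nat_lit 12259936995) (nat_lit 112) (nat_lit 5) (nat_lit 119) (nat_lit 5) (nat_lit 113) (nat_lit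 5) (nat_lit 357) (nat_lit 321) (nat_lit 102)) (XT.lf (nat_lit 0) (nat_lit 14371377243) (nat_lit 380) (nat_lit 17382219553) (nat_lit 456) (nat_lit 14384057006) (nat_lit 107) (nat_lit 5) (nat_lit 112) (nat_lit 5) (nat_lit 113) (nat_lit 5) (nat_lit 358) (nat_lit 321) (nat_lit 101)))) (XT.nd (nat_lit 156) (nat_lit 456) (nat_lit 0) (XT.nd (nat_lit 78) (nat_lit 380) (nat_lit 0) (XT.lf (nat_lit 0) (nat_lit 36903168604) (nat_lit 380) (nat_lit 1185893421) (nat_lit 456) (nat_lit 8916692942) (nat_lit 107) (nat_lit 5) (nat_lit 112) (nat_lit 5) (nat_lit 113) (nat_lit 5) (nat_lit 359) (nat_lit 321) (nat_lit 100)) (XT.lf (nat_lit 0) (nat_lit 12300233340) (nat_lit 380) (nat_lit 32580044950) (nat_lit 456) (nat_lit 3011652151) (nat_lit 102) (nat_lit 5) (nat_lit 107) (nat_lit 5) (nat_lit 108) (nat_lit 5) (nat_lit 360) (nat_lit 321) (nat_lit 99))) (XT.nd (nat_lit 78) (nat_lit 380) (nat_lit 0) (XT.lf (nat_lit 0)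 (nat_lit 3123890008) (nat_lit 456) (nat_lit 13263523922) (nat_lit 76) (nat_lit 32412995528) (nat_lit 101) (nat_lit 5) (nat_lit 107) (nat_lit 5) (nat_lit 102) (nat_lit 5) (nat_lit 361) (nat_lit 321) (nat_lit 98)) (XT.lf (nat_lit 0) (nat_lit 9480667648) (nat_lit 456) (nat_lit 39840491017) (nat_lit 76) (nat_lit 411160342) (nat_lit 96) (nat_lit 5) (nat_lit 102) (nat_lit 5) (nat_lit 97) (nat_lit 5) (nat_lit 362) (nat_lit 321) (nat_lit 97))))))))
noncomputable def xc232 : XT := (XT.nd (nat_lit 37518) (nat_lit 0) (nat_lit 6460) (XT.nd (nat_lit 1014) (nat_lit 1292) (nat_lit 0) (XT.nd (nat_lit 468) (nat_lit 1292) (nat_lit 0) (XT.nd (nat_lit 234) (nat_lit 380) (nat_lit 0) (XT.nd (nat_lit 78) (nat_lit 380) (nat_lit 0) (XT.lf (nat_lit 0) (nat_lit 16324227044) (nat_lit 456) (nat_lit 16839841772) (nat_lit 76) (nat_lit 17519236353) (nat_lit 96) (nat_lit 5) (nat_lit 102) (nat_lit 5) (nat_lit 97) (nat_lit 5)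 (nat_lit 363) (nat_lit 321) (nat_lit 96)) (XT.nd (nat_lit 78) (nat_lit 0) (nat_lit 0) (XT.lf (nat_lit 0) (nat_lit 6985363765) (nat_lit 380) (nat_lit 16453483961) (nat_lit 456) (nat_lit 28222002180) (nat_lit 91) (nat_lit 5) (nat_lit 96) (nat_lit 5) (nat_lit 97) (nat_lit 5) (nat_lit 364) (nat_lit 321) (nat_lit 95)) (XT.lf (nat_lit 0) (nat_lit 30944557358) (nat_lit 456) (nat_lit 20802862190) (nat_lit 76) (nat_lit 914973508) (nat_lit 91) (nat_lit 5) (nat_lit 97) (nat_lit 5) (nat_lit 92) (nat_lit 5) (nat_lit 365) (nat_lit 321) (nat_lit 94)))) (XT.nd (nat_lit 78) (nat_lit 76) (nat_lit 0) (XT.lf (nat_lit 0) (nat_lit 3693363420) (nat_lit 304) (nat_lit 35179150407) (nat_lit 380) (nat_lit 14815557941) (nat_lit 87) (nat_lit 5) (nat_lit 91) (nat_lit 5) (nat_lit 92) (nat_lit 5) (nat_lit 366) (nat_lit 321) (nat_lit 93)) (XT.nd (nat_lit 78) (nat_lit 76) (nat_lit 0) (XT.lf (nat_lit 0) (nat_lit 29349189060)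 (nat_lit 304) (nat_lit 17897877195) (nat_lit 380) (nat_lit 7491193359) (nat_lit 87) (nat_lit 5) (nat_lit 91) (nat_lit 5) (nat_lit 92) (nat_lit 5) (nat_lit 367) (nat_lit 321) (nat_lit 92)) (XT.lf (nat_lit 0) (nat_lit 50583155) (nat_lit 380) (nat_lit 47473942) (nat_lit 76) (nat_lit 55721920745) (nat_lit 86) (nat_lit 5) (nat_lit 91) (nat_lit 5) (nat_lit 87) (nat_lit 5) (nat_lit 368) (nat_lit 321) (nat_lit 91))))) (XT.nd (nat_lit 234) (nat_lit 608) (nat_lit 0) (XT.nd (nat_lit 78) (nat_lit 304) (nat_lit 0) (XT.lf (nat_lit 0) (nat_lit 8100035270) (nat_lit 456) (nat_lit 30607293885) (nat_lit 76) (nat_lit 18211635084) (nat_lit 81) (nat_lit 5) (nat_lit 87) (nat_lit 5) (nat_lit 82) (nat_lit 5) (nat_lit 369) (nat_lit 321) (nat_lit 90)) (XT.nd (nat_lit 78) (nat_lit 304) (nat_lit 0) (XT.lf (nat_lit 0) (nat_lit 16391193476) (nat_lit 456) (nat_lit 4590989591) (nat_lit 76) (nat_lit 37068731807) (nat_lit 81)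 (nat_lit 5) (nat_lit 87) (nat_lit 5) (nat_lit 82) (nat_lit 5) (nat_lit 370) (nat_lit 321) (nat_lit 89)) (XT.lf (nat_lit 0) (nat_lit 22646088956) (nat_lit 304) (nat_lit 2501488955) (nat_lit 380) (nat_lit 34062752658) (nat_lit 77) (nat_lit 5) (nat_lit 81) (nat_lit 5) (nat_lit 82) (nat_lit 5) (nat_lit 371) (nat_lit 321) (nat_lit 88)))) (XT.nd (nat_lit 156) (nat_lit 304) (nat_lit 0) (XT.nd (nat_lit 78) (nat_lit 304) (nat_lit 0) (XT.lf (nat_lit 0) (nat_lit 34371222930) (nat_lit 380) (nat_lit 9769775808) (nat_lit 76) (nat_lit 16257394173) (nat_lit 77) (nat_lit 5) (nat_lit 82) (nat_lit 5) (nat_lit 78) (nat_lit 5) (nat_lit 372) (nat_lit 321) (nat_lit 87)) (XT.lf (nat_lit 0) (nat_lit 18156464301) (nat_lit 304) (nat_lit 25913264382) (nat_lit 380) (nat_lit 17546425109) (nat_lit 73) (nat_lit 5) (nat_lit 77) (nat_lit 5) (nat_lit 78) (nat_lit 5) (nat_lit 373) (nat_lit 321) (nat_lit 86))) (XT.nd (nat_lit 78)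 (nat_lit 304) (nat_lit 0) (XT.lf (nat_lit 0) (nat_lit 47119187565) (nat_lit 304) (nat_lit 7037529014) (nat_lit 380) (nat_lit 8710806288) (nat_lit 73) (nat_lit 5) (nat_lit 77) (nat_lit 5) (nat_lit 78) (nat_lit 5) (nat_lit 374) (nat_lit 321) (nat_lit 85)) (XT.lf (nat_lit 0) (nat_lit 627062029) (nat_lit 304) (nat_lit 51229520177) (nat_lit 76) (nat_lit 12292395815) (nat_lit 69) (nat_lit 5) (nat_lit 73) (nat_lit 5) (nat_lit 70) (nat_lit 5) (nat_lit 375) (nat_lit 321) (nat_lit 84)))))) (XT.nd (nat_lit 468) (nat_lit 760) (nat_lit 0) (XT.nd (nat_lit 234) (nat_lit 228) (nat_lit 0) (XT.nd (nat_lit 78) (nat_lit 304) (nat_lit 0) (XT.lf (nat_lit 0) (nat_lit 10299173646) (nat_lit 304) (nat_lit 22853060859) (nat_lit 76) (nat_lit 32307180459) (nat_lit 69) (nat_lit 5) (nat_lit 73) (nat_lit 5) (nat_lit 70) (nat_lit 5) (nat_lit 376) (nat_lit 321) (nat_lit 83)) (XT.nd (nat_lit 78) (nat_lit 0) (nat_lit 0) (XT.lf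 (nat_lit 0) (nat_lit 6500010041) (nat_lit 304) (nat_lit 13822858011) (nat_lit 380) (nat_lit 46484455423) (nat_lit 65) (nat_lit 5) (nat_lit 69) (nat_lit 5) (nat_lit 70) (nat_lit 5) (nat_lit 377) (nat_lit 321) (nat_lit 82)) (XT.lf (nat_lit 0) (nat_lit 30937784880) (nat_lit 380) (nat_lit 31048932634) (nat_lit 76) (nat_lit 6200237394) (nat_lit 65) (nat_lit 5) (nat_lit 70) (nat_lit 5) (nat_lit 66) (nat_lit 5) (nat_lit 378) (nat_lit 321) (nat_lit 81)))) (XT.nd (nat_lit 78) (nat_lit 228) (nat_lit 0) (XT.lf (nat_lit 0) (nat_lit 42006989217) (nat_lit 380) (nat_lit 1051149589) (nat_lit 76) (nat_lit 26545762263) (nat_lit 65) (nat_lit 5) (nat_lit 70) (nat_lit 5) (nat_lit 66) (nat_lit 5) (nat_lit 379) (nat_lit 321) (nat_lit 80)) (XT.nd (nat_lit 78) (nat_lit 0) (nat_lit 0) (XT.lf (nat_lit 0) (nat_lit 30439097552) (nat_lit 228) (nat_lit 23260781091) (nat_lit 304) (nat_lit 17354729660) (nat_lit 62) (nat_lit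 5) (nat_lit 65) (nat_lit 5) (nat_lit 66) (nat_lit 5) (nat_lit 380) (nat_lit 321) (nat_lit 79)) (XT.lf (nat_lit 0) (nat_lit 62894167994) (nat_lit 228) (nat_lit 2859026119) (nat_lit 304) (nat_lit 6795354387) (nat_lit 62) (nat_lit 5) (nat_lit 65) (nat_lit 5) (nat_lit 66) (nat_lit 5) (nat_lit 381) (nat_lit 321) (nat_lit 78))))) (XT.nd (nat_lit 234) (nat_lit 228) (nat_lit 0) (XT.nd (nat_lit 78) (nat_lit 228) (nat_lit 0) (XT.lf (nat_lit 0) (nat_lit 4394864801) (nat_lit 304) (nat_lit 51620015518) (nat_lit 76) (nat_lit 18059439829) (nat_lit 58) (nat_lit 5) (nat_lit 62) (nat_lit 5) (nat_lit 59) (nat_lit 5) (nat_lit 382) (nat_lit 321) (nat_lit 77)) (XT.nd (nat_lit 78) (nat_lit 228) (nat_lit 0) (XT.lf (nat_lit 0) (nat_lit 15910026479) (nat_lit 304) (nat_lit 20016758575) (nat_lit 76) (nat_lit 39713287846) (nat_lit 58) (nat_lit 5) (nat_lit 62) (nat_lit 5) (nat_lit 59) (nat_lit 5) (nat_lit 383) (nat_lit 321)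 (nat_lit 76)) (XT.lf (nat_lit 0) (nat_lit 12782652226) (nat_lit 228) (nat_lit 15109946089) (nat_lit 304) (nat_lit 49356542085) (nat_lit 55) (nat_lit 5) (nat_lit 58) (nat_lit 5) (nat_lit 59) (nat_lit 5) (nat_lit 384) (nat_lit 321) (nat_lit 75)))) (XT.nd (nat_lit 156) (nat_lit 0) (nat_lit 0) (XT.nd (nat_lit 78) (nat_lit 228) (nat_lit 0) (XT.lf (nat_lit 0) (nat_lit 40498729738) (nat_lit 304) (nat_lit 31988298765) (nat_lit 76) (nat_lit 6411529749) (nat_lit 55) (nat_lit 5) (nat_lit 59) (nat_lit 5) (nat_lit 56) (nat_lit 5) (nat_lit 385) (nat_lit 321) (nat_lit 74)) (XT.lf (nat_lit 0) (nat_lit 1339420833) (nat_lit 228) (nat_lit 52305219397) (nat_lit 304) (nat_lit 26947971333) (nat_lit 52) (nat_lit 5) (nat_lit 55) (nat_lit 5) (nat_lit 56) (nat_lit 5) (nat_lit 386) (nat_lit 321) (nat_lit 73))) (XT.nd (nat_lit 35568) (nat_lit 0) (nat_lit 9348) (XT.lf (nat_lit 0) (nat_lit 36321365019) (nat_lit 228) (nat_lit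 31185711380) (nat_lit 304) (nat_lit 14820746379) (nat_lit 52) (nat_lit 5) (nat_lit 55) (nat_lit 5) (nat_lit 56) (nat_lit 5) (nat_lit 387) (nat_lit 321) (nat_lit 72)) (XT.lf (nat_lit 0) (nat_lit 1250989076) (nat_lit 0) (nat_lit 1250989076) (nat_lit 1140) (nat_lit 10336185392) (nat_lit 175) (nat_lit 5) (nat_lit 175) (nat_lit 3) (nat_lit 190) (nat_lit 3) (nat_lit 322) (nat_lit 322) (nat_lit 136))))))) (XT.nd (nat_lit 1014) (nat_lit 2888) (nat_lit 0) (XT.nd (nat_lit 468) (nat_lit 0) (nat_lit 152) (XT.nd (nat_lit 234) (nat_lit 0) (nat_lit 76) (XT.nd (nat_lit 78) (nat_lit 0) (nat_lit 0) (XT.lf (nat_lit 0) (nat_lit 5259865730) (nat_lit 1140) (nat_lit 11953787264) (nat_lit 1216) (nat_lit 8842249176) (nat_lit 175) (nat_lit 5) (nat_lit 190) (nat_lit 3) (nat_lit 191) (nat_lit 5) (nat_lit 323) (nat_lit 322) (nat_lit 135)) (XT.nd (nat_lit 78) (nat_lit 0) (nat_lit 76) (XT.lf (nat_lit 0) (nat_lit 5544567307)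 (nat_lit 1140) (nat_lit 423351770) (nat_lit 1216) (nat_lit 20478317614) (nat_lit 175) (nat_lit 5) (nat_lit 190) (nat_lit 3) (nat_lit 191) (nat_lit 5) (nat_lit 324) (nat_lit 322) (nat_lit 134)) (XT.lf (nat_lit 0) (nat_lit 6001628670) (nat_lit 1140) (nat_lit 15221146923) (nat_lit 1216) (nat_lit 5620596562) (nat_lit 176) (nat_lit 5) (nat_lit 191) (nat_lit 5) (nat_lit 192) (nat_lit 5) (nat_lit 325) (nat_lit 322) (nat_lit 133)))) (XT.nd (nat_lit 78) (nat_lit 0) (nat_lit 76) (XT.lf (nat_lit 0) (nat_lit 6532357160) (nat_lit 1140) (nat_lit 3275595397) (nat_lit 1216) (nat_lit 17442675775) (nat_lit 176) (nat_lit 5) (nat_lit 191) (nat_lit 5) (nat_lit 192) (nat_lit 5) (nat_lit 326) (nat_lit 322) (nat_lit 132)) (XT.nd (nat_lit 78) (nat_lit 0) (nat_lit 0) (XT.lf (nat_lit 0) (nat_lit 7183778921) (nat_lit 1140) (nat_lit 18481175955) (nat_lit 1216) (nat_lit 2002009331) (nat_lit 177) (nat_lit 5) (nat_lit 192)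 (nat_lit 5) (nat_lit 193) (nat_lit 5) (nat_lit 327) (nat_lit 322) (nat_lit 131)) (XT.lf (nat_lit 0) (nat_lit 7981998182) (nat_lit 1140) (nat_lit 6106130934) (nat_lit 1216) (nat_lit 14003848400) (nat_lit 177) (nat_lit 5) (nat_lit 192) (nat_lit 5) (nat_lit 193) (nat_lit 5) (nat_lit 328) (nat_lit 322) (nat_lit 130))))) (XT.nd (nat_lit 234) (nat_lit 0) (nat_lit 152) (XT.nd (nat_lit 78) (nat_lit 0) (nat_lit 76) (XT.lf (nat_lit 76) (nat_lit 6770280858) (nat_lit 0) (nat_lit 2095799962) (nat_lit 1216) (nat_lit 19661807761) (nat_lit 178) (nat_lit 5) (nat_lit 177) (nat_lit 5) (nat_lit 193) (nat_lit 5) (nat_lit 329) (nat_lit 322) (nat_lit 129)) (XT.nd (nat_lit 78) (nat_lit 0) (nat_lit 0) (XT.lf (nat_lit 0) (nat_lit 9934466738) (nat_lit 1140) (nat_lit 8918158473) (nat_lit 1216) (nat_lit 10119523057) (nat_lit 178) (nat_lit 5) (nat_lit 193) (nat_lit 5) (nat_lit 194) (nat_lit 5) (nat_lit 330) (nat_lit 322)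 (nat_lit 128)) (XT.lf (nat_lit 76) (nat_lit 4368952832) (nat_lit 0) (nat_lit 6725709175) (nat_lit 1216) (nat_lit 18333285589) (nat_lit 179) (nat_lit 5) (nat_lit 178) (nat_lit 5) (nat_lit 194) (nat_lit 5) (nat_lit 331) (nat_lit 322) (nat_lit 127)))) (XT.nd (nat_lit 156) (nat_lit 0) (nat_lit 76) (XT.nd (nat_lit 78) (nat_lit 0) (nat_lit 0) (XT.lf (nat_lit 0) (nat_lit 12433114385) (nat_lit 1140) (nat_lit 11715642729) (nat_lit 1216) (nat_lit 5744364696) (nat_lit 179) (nat_lit 5) (nat_lit 194) (nat_lit 5) (nat_lit 195) (nat_lit 5) (nat_lit 332) (nat_lit 322) (nat_lit 126)) (XT.lf (nat_lit 76) (nat_lit 1998369412) (nat_lit 0) (nat_lit 11896323351) (nat_lit 1216) (nat_lit 16475073632) (nat_lit 180) (nat_lit 5) (nat_lit 179) (nat_lit 5) (nat_lit 195) (nat_lit 5) (nat_lit 333) (nat_lit 322) (nat_lit 125))) (XT.nd (nat_lit 78) (nat_lit 0) (nat_lit 0) (XT.lf (nat_lit 0) (nat_lit 15523793073) (nat_lit 1140)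 (nat_lit 14503446772) (nat_lit 1216) (nat_lit 829764426) (nat_lit 180) (nat_lit 5) (nat_lit 195) (nat_lit 5) (nat_lit 196) (nat_lit 5) (nat_lit 334) (nat_lit 322) (nat_lit 124)) (XT.lf (nat_lit 0) (nat_lit 17316873846) (nat_lit 1140) (nat_lit 339300606) (nat_lit 1216) (nat_lit 13699235677) (nat_lit 180) (nat_lit 5) (nat_lit 195) (nat_lit 5) (nat_lit 196) (nat_lit 5) (nat_lit 335) (nat_lit 322) (nat_lit 123)))))) (XT.nd (nat_lit 468) (nat_lit 2280) (nat_lit 0) (XT.nd (nat_lit 234) (nat_lit 988) (nat_lit 0) (XT.nd (nat_lit 78) (nat_lit 0) (nat_lit 76) (XT.lf (nat_lit 76) (nat_lit 14531331303) (nat_lit 0) (nat_lit 4769499856) (nat_lit 1216) (nat_lit 12563828430) (nat_lit 181) (nat_lit 5) (nat_lit 180) (nat_lit 5) (nat_lit 196) (nat_lit 5) (nat_lit 336) (nat_lit 322) (nat_lit 122)) (XT.nd (nat_lit 78) (nat_lit 0) (nat_lit 0) (XT.lf (nat_lit 0) (nat_lit 21426973097) (nat_lit 1140) (nat_lit 2617886900)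 (nat_lit 1216) (nat_lit 8341850395) (nat_lit 181) (nat_lit 5) (nat_lit 196) (nat_lit 5) (nat_lit 197) (nat_lit 5) (nat_lit 337) (nat_lit 322) (nat_lit 121)) (XT.lf (nat_lit 76) (nat_lit 12738363157) (nat_lit 0) (nat_lit 11045743986) (nat_lit 1216) (nat_lit 9135303065) (nat_lit 182) (nat_lit 5) (nat_lit 181) (nat_lit 5) (nat_lit 197) (nat_lit 5) (nat_lit 338) (nat_lit 322) (nat_lit 120)))) (XT.nd (nat_lit 78) (nat_lit 1140) (nat_lit 0) (XT.lf (nat_lit 0) (nat_lit 26258771089) (nat_lit 1140) (nat_lit 4883184098) (nat_lit 76) (nat_lit 2324734968) (nat_lit 182) (nat_lit 5) (nat_lit 197) (nat_lit 5) (nat_lit 183) (nat_lit 5) (nat_lit 339) (nat_lit 322) (nat_lit 119)) (XT.nd (nat_lit 78) (nat_lit 0) (nat_lit 0) (XT.lf (nat_lit 0) (nat_lit 10976437301) (nat_lit 1140) (nat_lit 18043776739) (nat_lit 1216) (nat_lit 5003801800) (nat_lit 167) (nat_lit 5) (nat_lit 182) (nat_lit 5) (nat_lit 183) (nat_lit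 5) (nat_lit 340) (nat_lit 322) (nat_lit 118)) (XT.lf (nat_lit 0) (nat_lit 27409964005) (nat_lit 1140) (nat_lit 4501558911) (nat_lit 1216) (nat_lit 2685131107) (nat_lit 167) (nat_lit 5) (nat_lit 182) (nat_lit 5) (nat_lit 183) (nat_lit 5) (nat_lit 341) (nat_lit 322) (nat_lit 117))))) (XT.nd (nat_lit 234) (nat_lit 1064) (nat_lit 0) (XT.nd (nat_lit 78) (nat_lit 684) (nat_lit 0) (XT.lf (nat_lit 0) (nat_lit 9237473074) (nat_lit 532) (nat_lit 25829485382) (nat_lit 608) (nat_lit 114194583) (nat_lit 160) (nat_lit 5) (nat_lit 167) (nat_lit 5) (nat_lit 168) (nat_lit 5) (nat_lit 342) (nat_lit 322) (nat_lit 116)) (XT.nd (nat_lit 78) (nat_lit 608) (nat_lit 0) (XT.lf (nat_lit 0) (nat_lit 2600087458) (nat_lit 608) (nat_lit 9551000337) (nat_lit 76) (nat_lit 23627901765) (nat_lit 159) (nat_lit 5) (nat_lit 167) (nat_lit 5) (nat_lit 160) (nat_lit 5) (nat_lit 343) (nat_lit 322) (nat_lit 115)) (XT.lf (nat_lit 0)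 (nat_lit 5482585851) (nat_lit 684) (nat_lit 28935738091) (nat_lit 76) (nat_lit 1973733849) (nat_lit 151) (nat_lit 5) (nat_lit 160) (nat_lit 5) (nat_lit 152) (nat_lit 5) (nat_lit 344) (nat_lit 322) (nat_lit 114)))) (XT.nd (nat_lit 156) (nat_lit 532) (nat_lit 0) (XT.nd (nat_lit 78) (nat_lit 532) (nat_lit 0) (XT.lf (nat_lit 0) (nat_lit 8667179535) (nat_lit 684) (nat_lit 11974256711) (nat_lit 76) (nat_lit 16375616153) (nat_lit 151) (nat_lit 5) (nat_lit 160) (nat_lit 5) (nat_lit 152) (nat_lit 5) (nat_lit 345) (nat_lit 322) (nat_lit 113)) (XT.lf (nat_lit 0) (nat_lit 5603456613) (nat_lit 532) (nat_lit 6395690355) (nat_lit 608) (nat_lit 25660097654) (nat_lit 144) (nat_lit 5) (nat_lit 151) (nat_lit 5) (nat_lit 152) (nat_lit 5) (nat_lit 346) (nat_lit 322) (nat_lit 112))) (XT.nd (nat_lit 78) (nat_lit 532) (nat_lit 0) (XT.lf (nat_lit 0) (nat_lit 15630767852) (nat_lit 608) (nat_lit 14445877969) (nat_lit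 76) (nat_lit 8238068729) (nat_lit 144) (nat_lit 5) (nat_lit 152) (nat_lit 5) (nat_lit 145) (nat_lit 5) (nat_lit 347) (nat_lit 322) (nat_lit 111)) (XT.lf (nat_lit 0) (nat_lit 3699249820) (nat_lit 532) (nat_lit 15769041551) (nat_lit 608) (nat_lit 19518651274) (nat_lit 137) (nat_lit 5) (nat_lit 144) (nat_lit 5) (nat_lit 145) (nat_lit 5) (nat_lit 348) (nat_lit 322) (nat_lit 110))))))))
noncomputable def xc233 : XT := (XT.nd (nat_lit 2028) (nat_lit 1368) (nat_lit 0) (XT.nd (nat_lit 1014) (nat_lit 2204) (nat_lit 0) (XT.nd (nat_lit 468) (nat_lit 1672) (nat_lit 0) (XT.nd (nat_lit 234) (nat_lit 532) (nat_lit 0) (XT.nd (nat_lit 78) (nat_lit 456) (nat_lit 0) (XT.lf (nat_lit 0) (nat_lit 22682935242) (nat_lit 532) (nat_lit 881988995) (nat_lit 608) (nat_lit 16110096447) (nat_lit 137) (nat_lit 5) (nat_lit 144) (nat_lit 5) (nat_lit 145) (nat_lit 5) (nat_lit 349) (nat_lit 322) (nat_lit 109)) (XT.nd (nat_lit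 78) (nat_lit 0) (nat_lit 0) (XT.lf (nat_lit 0) (nat_lit 1745611101) (nat_lit 456) (nat_lit 26192706610) (nat_lit 532) (nat_lit 12440810042) (nat_lit 131) (nat_lit 5) (nat_lit 137) (nat_lit 5) (nat_lit 138) (nat_lit 5) (nat_lit 350) (nat_lit 322) (nat_lit 108)) (XT.lf (nat_lit 0) (nat_lit 21382948262) (nat_lit 456) (nat_lit 11238397002) (nat_lit 532) (nat_lit 8477662264) (nat_lit 131) (nat_lit 5) (nat_lit 137) (nat_lit 5) (nat_lit 138) (nat_lit 5) (nat_lit 351) (nat_lit 322) (nat_lit 107)))) (XT.nd (nat_lit 78) (nat_lit 532) (nat_lit 0) (XT.lf (nat_lit 0) (nat_lit 37483145847) (nat_lit 532) (nat_lit 273013703) (nat_lit 76) (nat_lit 4083178068) (nat_lit 131) (nat_lit 5) (nat_lit 138) (nat_lit 5) (nat_lit 132) (nat_lit 5) (nat_lit 352) (nat_lit 322) (nat_lit 106)) (XT.nd (nat_lit 78) (nat_lit 0) (nat_lit 0) (XT.lf (nat_lit 0) (nat_lit 196202720) (nat_lit 532) (nat_lit 22563657233) (nat_lit 76)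 (nat_lit 19832898574) (nat_lit 124) (nat_lit 5) (nat_lit 131) (nat_lit 5) (nat_lit 125) (nat_lit 5) (nat_lit 353) (nat_lit 322) (nat_lit 105)) (XT.lf (nat_lit 0) (nat_lit 4798712334) (nat_lit 532) (nat_lit 2467846609) (nat_lit 76) (nat_lit 36100898436) (nat_lit 124) (nat_lit 5) (nat_lit 131) (nat_lit 5) (nat_lit 125) (nat_lit 5) (nat_lit 354) (nat_lit 322) (nat_lit 104))))) (XT.nd (nat_lit 234) (nat_lit 760) (nat_lit 0) (XT.nd (nat_lit 78) (nat_lit 456) (nat_lit 0) (XT.lf (nat_lit 0) (nat_lit 9801692713) (nat_lit 532) (nat_lit 25653582685) (nat_lit 76) (nat_lit 8702252056) (nat_lit 118) (nat_lit 5) (nat_lit 125) (nat_lit 5) (nat_lit 119) (nat_lit 5) (nat_lit 355) (nat_lit 322) (nat_lit 103)) (XT.nd (nat_lit 78) (nat_lit 456) (nat_lit 0) (XT.lf (nat_lit 0) (nat_lit 15050267739) (nat_lit 532) (nat_lit 4889108514) (nat_lit 76) (nat_lit 25029060285) (nat_lit 118) (nat_lit 5) (nat_lit 125) (nat_lit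 5) (nat_lit 119) (nat_lit 5) (nat_lit 356) (nat_lit 322) (nat_lit 102)) (XT.lf (nat_lit 0) (nat_lit 16824824502) (nat_lit 456) (nat_lit 3791644813) (nat_lit 532) (nat_lit 25182400501) (nat_lit 112) (nat_lit 5) (nat_lit 118) (nat_lit 5) (nat_lit 119) (nat_lit 5) (nat_lit 357) (nat_lit 322) (nat_lit 101)))) (XT.nd (nat_lit 156) (nat_lit 380) (nat_lit 0) (XT.nd (nat_lit 78) (nat_lit 380) (nat_lit 0) (XT.lf (nat_lit 0) (nat_lit 26521412041) (nat_lit 532) (nat_lit 7488073687) (nat_lit 76) (nat_lit 12639579656) (nat_lit 112) (nat_lit 5) (nat_lit 119) (nat_lit 5) (nat_lit 113) (nat_lit 5) (nat_lit 358) (nat_lit 322) (nat_lit 100)) (XT.lf (nat_lit 0) (nat_lit 14893804313) (nat_lit 380) (nat_lit 17888917798) (nat_lit 456) (nat_lit 14736670021) (nat_lit 107) (nat_lit 5) (nat_lit 112) (nat_lit 5) (nat_lit 113) (nat_lit 5) (nat_lit 359) (nat_lit 322) (nat_lit 99))) (XT.nd (nat_lit 78) (nat_lit 380) (nat_lit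 0) (XT.lf (nat_lit 0) (nat_lit 38098890606) (nat_lit 380) (nat_lit 1207132028) (nat_lit 456) (nat_lit 9107583347) (nat_lit 107) (nat_lit 5) (nat_lit 112) (nat_lit 5) (nat_lit 113) (nat_lit 5) (nat_lit 360) (nat_lit 322) (nat_lit 98)) (XT.lf (nat_lit 0) (nat_lit 12759160791) (nat_lit 380) (nat_lit 33540649031) (nat_lit 456) (nat_lit 3026594573) (nat_lit 102) (nat_lit 5) (nat_lit 107) (nat_lit 5) (nat_lit 108) (nat_lit 5) (nat_lit 361) (nat_lit 322) (nat_lit 97)))))) (XT.nd (nat_lit 468) (nat_lit 1064) (nat_lit 0) (XT.nd (nat_lit 234) (nat_lit 684) (nat_lit 0) (XT.nd (nat_lit 78) (nat_lit 380) (nat_lit 0) (XT.lf (nat_lit 0) (nat_lit 3289388919) (nat_lit 456) (nat_lit 13572614542) (nat_lit 76) (nat_lit 33400179731) (nat_lit 101) (nat_lit 5) (nat_lit 107) (nat_lit 5) (nat_lit 102) (nat_lit 5) (nat_lit 362) (nat_lit 322) (nat_lit 96)) (XT.nd (nat_lit 78) (nat_lit 0) (nat_lit 0) (XT.lf (nat_lit 0)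 (nat_lit 9835791851) (nat_lit 456) (nat_lit 40945730009) (nat_lit 76) (nat_lit 440562989) (nat_lit 96) (nat_lit 5) (nat_lit 102) (nat_lit 5) (nat_lit 97) (nat_lit 5) (nat_lit 363) (nat_lit 322) (nat_lit 95)) (XT.lf (nat_lit 0) (nat_lit 16882598684) (nat_lit 456) (nat_lit 17257681939) (nat_lit 76) (nat_lit 18061384158) (nat_lit 96) (nat_lit 5) (nat_lit 102) (nat_lit 5) (nat_lit 97) (nat_lit 5) (nat_lit 364) (nat_lit 322) (nat_lit 94)))) (XT.nd (nat_lit 78) (nat_lit 304) (nat_lit 0) (XT.lf (nat_lit 0) (nat_lit 7281423342) (nat_lit 380) (nat_lit 16928066758) (nat_lit 456) (nat_lit 28999083132) (nat_lit 91) (nat_lit 5) (nat_lit 96) (nat_lit 5) (nat_lit 97) (nat_lit 5) (nat_lit 365) (nat_lit 322) (nat_lit 93)) (XT.nd (nat_lit 78) (nat_lit 304) (nat_lit 0) (XT.lf (nat_lit 0) (nat_lit 31938583196) (nat_lit 456) (nat_lit 21341105351) (nat_lit 76) (nat_lit 960530033) (nat_lit 91) (nat_lit 5) (nat_lit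 97) (nat_lit 5) (nat_lit 92) (nat_lit 5) (nat_lit 366) (nat_lit 322) (nat_lit 92)) (XT.lf (nat_lit 0) (nat_lit 3889165433) (nat_lit 304) (nat_lit 36214116734) (nat_lit 380) (nat_lit 15193420574) (nat_lit 87) (nat_lit 5) (nat_lit 91) (nat_lit 5) (nat_lit 92) (nat_lit 5) (nat_lit 367) (nat_lit 322) (nat_lit 91))))) (XT.nd (nat_lit 234) (nat_lit 608) (nat_lit 0) (XT.nd (nat_lit 78) (nat_lit 456) (nat_lit 0) (XT.lf (nat_lit 0) (nat_lit 30312190081) (nat_lit 304) (nat_lit 18414999739) (nat_lit 380) (nat_lit 7651264979) (nat_lit 87) (nat_lit 5) (nat_lit 91) (nat_lit 5) (nat_lit 92) (nat_lit 5) (nat_lit 368) (nat_lit 322) (nat_lit 90)) (XT.nd (nat_lit 78) (nat_lit 0) (nat_lit 0) (XT.lf (nat_lit 0) (nat_lit 33162909) (nat_lit 380) (nat_lit 80812202) (nat_lit 456) (nat_lit 57378678669) (nat_lit 81) (nat_lit 5) (nat_lit 86) (nat_lit 5) (nat_lit 87) (nat_lit 5) (nat_lit 369) (nat_lit 322) (nat_lit 89))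 (XT.lf (nat_lit 0) (nat_lit 8403767054) (nat_lit 456) (nat_lit 31443208597) (nat_lit 76) (nat_lit 18777670385) (nat_lit 81) (nat_lit 5) (nat_lit 87) (nat_lit 5) (nat_lit 82) (nat_lit 5) (nat_lit 370) (nat_lit 322) (nat_lit 88)))) (XT.nd (nat_lit 156) (nat_lit 304) (nat_lit 0) (XT.nd (nat_lit 78) (nat_lit 304) (nat_lit 0) (XT.lf (nat_lit 0) (nat_lit 16941891150) (nat_lit 456) (nat_lit 4648812381) (nat_lit 76) (nat_lit 38199906624) (nat_lit 81) (nat_lit 5) (nat_lit 87) (nat_lit 5) (nat_lit 82) (nat_lit 5) (nat_lit 371) (nat_lit 322) (nat_lit 87)) (XT.lf (nat_lit 0) (nat_lit 23404595122) (nat_lit 304) (nat_lit 2555415244) (nat_lit 380) (nat_lit 35024828502) (nat_lit 77) (nat_lit 5) (nat_lit 81) (nat_lit 5) (nat_lit 82) (nat_lit 5) (nat_lit 372) (nat_lit 322) (nat_lit 86))) (XT.nd (nat_lit 78) (nat_lit 304) (nat_lit 0) (XT.lf (nat_lit 0) (nat_lit 35458872356) (nat_lit 380) (nat_lit 9984498099) (nat_lit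 76) (nat_lit 16765219187) (nat_lit 77) (nat_lit 5) (nat_lit 82) (nat_lit 5) (nat_lit 78) (nat_lit 5) (nat_lit 373) (nat_lit 322) (nat_lit 85)) (XT.lf (nat_lit 0) (nat_lit 18778760871) (nat_lit 304) (nat_lit 26668672372) (nat_lit 380) (nat_lit 18015478845) (nat_lit 73) (nat_lit 5) (nat_lit 77) (nat_lit 5) (nat_lit 78) (nat_lit 5) (nat_lit 374) (nat_lit 322) (nat_lit 84))))))) (XT.nd (nat_lit 36660) (nat_lit 0) (nat_lit 9120) (XT.nd (nat_lit 468) (nat_lit 760) (nat_lit 0) (XT.nd (nat_lit 234) (nat_lit 304) (nat_lit 0) (XT.nd (nat_lit 78) (nat_lit 304) (nat_lit 0) (XT.lf (nat_lit 0) (nat_lit 48608105562) (nat_lit 304) (nat_lit 7227305427) (nat_lit 380) (nat_lit 8916461527) (nat_lit 73) (nat_lit 5) (nat_lit 77) (nat_lit 5) (nat_lit 78) (nat_lit 5) (nat_lit 375) (nat_lit 322) (nat_lit 83)) (XT.nd (nat_lit 78) (nat_lit 0) (nat_lit 0) (XT.lf (nat_lit 0) (nat_lit 699806347) (nat_lit 304) (nat_lit 52689219288)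 (nat_lit 76) (nat_lit 12682750733) (nat_lit 69) (nat_lit 5) (nat_lit 73) (nat_lit 5) (nat_lit 70) (nat_lit 5) (nat_lit 376) (nat_lit 322) (nat_lit 82)) (XT.lf (nat_lit 0) (nat_lit 10660510463) (nat_lit 304) (nat_lit 23463714340) (nat_lit 76) (nat_lit 33297350284) (nat_lit 69) (nat_lit 5) (nat_lit 73) (nat_lit 5) (nat_lit 70) (nat_lit 5) (nat_lit 377) (nat_lit 322) (nat_lit 81)))) (XT.nd (nat_lit 78) (nat_lit 0) (nat_lit 0) (XT.lf (nat_lit 0) (nat_lit 6769213996) (nat_lit 304) (nat_lit 14214889901) (nat_lit 380) (nat_lit 47825842811) (nat_lit 65) (nat_lit 5) (nat_lit 69) (nat_lit 5) (nat_lit 70) (nat_lit 5) (nat_lit 378) (nat_lit 322) (nat_lit 80)) (XT.nd (nat_lit 78) (nat_lit 0) (nat_lit 0) (XT.lf (nat_lit 0) (nat_lit 31916178200) (nat_lit 380) (nat_lit 31907019679) (nat_lit 76) (nat_lit 6407809363) (nat_lit 65) (nat_lit 5) (nat_lit 70) (nat_lit 5) (nat_lit 66) (nat_lit 5) (nat_lit 379) (nat_lit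 322) (nat_lit 79)) (XT.lf (nat_lit 0) (nat_lit 43315994790) (nat_lit 380) (nat_lit 1011440451) (nat_lit 76) (nat_lit 27363071875) (nat_lit 65) (nat_lit 5) (nat_lit 70) (nat_lit 5) (nat_lit 66) (nat_lit 5) (nat_lit 380) (nat_lit 322) (nat_lit 78))))) (XT.nd (nat_lit 234) (nat_lit 228) (nat_lit 0) (XT.nd (nat_lit 78) (nat_lit 304) (nat_lit 0) (XT.lf (nat_lit 0) (nat_lit 31422815637) (nat_lit 228) (nat_lit 23936112144) (nat_lit 304) (nat_lit 17825831451) (nat_lit 62) (nat_lit 5) (nat_lit 65) (nat_lit 5) (nat_lit 66) (nat_lit 5) (nat_lit 381) (nat_lit 322) (nat_lit 77)) (XT.nd (nat_lit 78) (nat_lit 304) (nat_lit 0) (XT.lf (nat_lit 0) (nat_lit 64849483479) (nat_lit 228) (nat_lit 2922959641) (nat_lit 304) (nat_lit 6951117835) (nat_lit 62) (nat_lit 5) (nat_lit 65) (nat_lit 5) (nat_lit 66) (nat_lit 5) (nat_lit 382) (nat_lit 322) (nat_lit 76)) (XT.lf (nat_lit 0) (nat_lit 4573371879) (nat_lit 304) (nat_lit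 53098604522) (nat_lit 76) (nat_lit 18623131662) (nat_lit 58) (nat_lit 5) (nat_lit 62) (nat_lit 5) (nat_lit 59) (nat_lit 5) (nat_lit 383) (nat_lit 322) (nat_lit 75)))) (XT.nd (nat_lit 156) (nat_lit 0) (nat_lit 0) (XT.nd (nat_lit 78) (nat_lit 228) (nat_lit 0) (XT.lf (nat_lit 0) (nat_lit 16432629345) (nat_lit 304) (nat_lit 20549289040) (nat_lit 76) (nat_lit 40925957005) (nat_lit 58) (nat_lit 5) (nat_lit 62) (nat_lit 5) (nat_lit 59) (nat_lit 5) (nat_lit 384) (nat_lit 322) (nat_lit 74)) (XT.lf (nat_lit 0) (nat_lit 13233437690) (nat_lit 228) (nat_lit 15540568153) (nat_lit 304) (nat_lit 50791230428) (nat_lit 55) (nat_lit 5) (nat_lit 58) (nat_lit 5) (nat_lit 59) (nat_lit 5) (nat_lit 385) (nat_lit 322) (nat_lit 73))) (XT.nd (nat_lit 35724) (nat_lit 0) (nat_lit 9120) (XT.lf (nat_lit 0) (nat_lit 41757232948) (nat_lit 304) (nat_lit 32881475632) (nat_lit 76) (nat_lit 6625461876) (nat_lit 55) (nat_lit 5)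 (nat_lit 59) (nat_lit 5) (nat_lit 56) (nat_lit 5) (nat_lit 386) (nat_lit 322) (nat_lit 72)) (XT.lf (nat_lit 0) (nat_lit 1335146862) (nat_lit 0) (nat_lit 1335146862) (nat_lit 1140) (nat_lit 10550074105) (nat_lit 175) (nat_lit 5) (nat_lit 175) (nat_lit 3) (nat_lit 190) (nat_lit 3) (nat_lit 323) (nat_lit 323) (nat_lit 134)))))) (XT.nd (nat_lit 546) (nat_lit 0) (nat_lit 228) (XT.nd (nat_lit 234) (nat_lit 0) (nat_lit 76) (XT.nd (nat_lit 78) (nat_lit 0) (nat_lit 0) (XT.lf (nat_lit 0) (nat_lit 5597871429) (nat_lit 1140) (nat_lit 12215280585) (nat_lit 1216) (nat_lit 9018743387) (nat_lit 175) (nat_lit 5) (nat_lit 190) (nat_lit 3) (nat_lit 191) (nat_lit 5) (nat_lit 324) (nat_lit 323) (nat_lit 133)) (XT.nd (nat_lit 78) (nat_lit 0) (nat_lit 76) (XT.lf (nat_lit 0) (nat_lit 5885865226) (nat_lit 1140) (nat_lit 341760773) (nat_lit 1216) (nat_lit 21006479507) (nat_lit 175) (nat_lit 5) (nat_lit 190) (nat_lit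 3) (nat_lit 191) (nat_lit 5) (nat_lit 325) (nat_lit 323) (nat_lit 132)) (XT.lf (nat_lit 0) (nat_lit 6351696011) (nat_lit 1140) (nat_lit 15578285752) (nat_lit 1216) (nat_lit 5713329391) (nat_lit 176) (nat_lit 5) (nat_lit 191) (nat_lit 5) (nat_lit 192) (nat_lit 5) (nat_lit 326) (nat_lit 323) (nat_lit 131)))) (XT.nd (nat_lit 156) (nat_lit 0) (nat_lit 76) (XT.nd (nat_lit 78) (nat_lit 0) (nat_lit 76) (XT.lf (nat_lit 0) (nat_lit 6893394362) (nat_lit 1140) (nat_lit 3277265610) (nat_lit 1216) (nat_lit 17892281225) (nat_lit 176) (nat_lit 5) (nat_lit 191) (nat_lit 5) (nat_lit 192) (nat_lit 5) (nat_lit 327) (nat_lit 323) (nat_lit 130)) (XT.lf (nat_lit 0) (nat_lit 7559840575) (nat_lit 1140) (nat_lit 18934248790) (nat_lit 1216) (nat_lit 1997820726) (nat_lit 177) (nat_lit 5) (nat_lit 192) (nat_lit 5) (nat_lit 193) (nat_lit 5) (nat_lit 328) (nat_lit 323) (nat_lit 129))) (XT.nd (nat_lit 78) (nat_lit 0) (nat_lit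 0) (XT.lf (nat_lit 0) (nat_lit 8377330251) (nat_lit 1140) (nat_lit 6190904723) (nat_lit 1216) (nat_lit 14361586294) (nat_lit 177) (nat_lit 5) (nat_lit 192) (nat_lit 5) (nat_lit 193) (nat_lit 5) (nat_lit 329) (nat_lit 323) (nat_lit 128)) (XT.lf (nat_lit 76) (nat_lit 7070834617) (nat_lit 0) (nat_lit 2213497489) (nat_lit 1216) (nat_lit 20094592628) (nat_lit 178) (nat_lit 5) (nat_lit 177) (nat_lit 5) (nat_lit 193) (nat_lit 5) (nat_lit 330) (nat_lit 323) (nat_lit 127))))) (XT.nd (nat_lit 234) (nat_lit 0) (nat_lit 76) (XT.nd (nat_lit 78) (nat_lit 0) (nat_lit 0) (XT.lf (nat_lit 0) (nat_lit 10379822940) (nat_lit 1140) (nat_lit 9085923776) (nat_lit 1216) (nat_lit 10370920668) (nat_lit 178) (nat_lit 5) (nat_lit 193) (nat_lit 5) (nat_lit 194) (nat_lit 5) (nat_lit 331) (nat_lit 323) (nat_lit 126)) (XT.nd (nat_lit 78) (nat_lit 0) (nat_lit 76) (XT.lf (nat_lit 76) (nat_lit 4598822638) (nat_lit 0) (nat_lit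 6972660228) (nat_lit 1216) (nat_lit 18734764633) (nat_lit 179) (nat_lit 5) (nat_lit 178) (nat_lit 5) (nat_lit 194) (nat_lit 5) (nat_lit 332) (nat_lit 323) (nat_lit 125)) (XT.lf (nat_lit 0) (nat_lit 12945473548) (nat_lit 1140) (nat_lit 11966360514) (nat_lit 1216) (nat_lit 5873687717) (nat_lit 179) (nat_lit 5) (nat_lit 194) (nat_lit 5) (nat_lit 195) (nat_lit 5) (nat_lit 333) (nat_lit 323) (nat_lit 124)))) (XT.nd (nat_lit 156) (nat_lit 0) (nat_lit 76) (XT.nd (nat_lit 78) (nat_lit 0) (nat_lit 76) (XT.lf (nat_lit 76) (nat_lit 2158084231) (nat_lit 0) (nat_lit 12289714840) (nat_lit 1216) (nat_lit 16828765832) (nat_lit 180) (nat_lit 5) (nat_lit 179) (nat_lit 5) (nat_lit 195) (nat_lit 5) (nat_lit 334) (nat_lit 323) (nat_lit 123)) (XT.lf (nat_lit 0) (nat_lit 16121462834) (nat_lit 1140) (nat_lit 14837182119) (nat_lit 1216) (nat_lit 819910264) (nat_lit 180) (nat_lit 5) (nat_lit 195) (nat_lit 5) (nat_lit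 196) (nat_lit 5) (nat_lit 335) (nat_lit 323) (nat_lit 122))) (XT.nd (nat_lit 78) (nat_lit 0) (nat_lit 0) (XT.lf (nat_lit 0) (nat_lit 17964492652) (nat_lit 1140) (nat_lit 251064035) (nat_lit 1216) (nat_lit 14076477704) (nat_lit 180) (nat_lit 5) (nat_lit 195) (nat_lit 5) (nat_lit 196) (nat_lit 5) (nat_lit 336) (nat_lit 323) (nat_lit 121)) (XT.lf (nat_lit 76) (nat_lit 15064721972) (nat_lit 0) (nat_lit 4940452035) (nat_lit 1216) (nat_lit 12811476840) (nat_lit 181) (nat_lit 5) (nat_lit 180) (nat_lit 5) (nat_lit 196) (nat_lit 5) (nat_lit 337) (nat_lit 323) (nat_lit 120))))))))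
noncomputable def xc234 : XT := (XT.nd (nat_lit 2028) (nat_lit 3496) (nat_lit 0) (XT.nd (nat_lit 1014) (nat_lit 2736) (nat_lit 0) (XT.nd (nat_lit 468) (nat_lit 1748) (nat_lit 0) (XT.nd (nat_lit 234) (nat_lit 1596) (nat_lit 0) (XT.nd (nat_lit 78) (nat_lit 0) (nat_lit 0) (XT.lf (nat_lit 0) (nat_lit 22191190092) (nat_lit 1140) (nat_lit 2597717549) (nat_lit 1216) (nat_lit 8565578340) (nat_lit 181) (nat_lit 5) (nat_lit 196) (nat_lit 5) (nat_lit 197) (nat_lit 5) (nat_lit 338) (nat_lit 323) (nat_lit 119)) (XT.nd (nat_lit 78) (nat_lit 0) (nat_lit 76) (XT.lf (nat_lit 76) (nat_lit 13218252304) (nat_lit 0) (nat_lit 11398189225) (nat_lit 1216) (nat_lit 9286808505) (nat_lit 182) (nat_lit 5) (nat_lit 181) (nat_lit 5) (nat_lit 197) (nat_lit 5) (nat_lit 339) (nat_lit 323) (nat_lit 118)) (XT.lf (nat_lit 0) (nat_lit 27161688209) (nat_lit 1140) (nat_lit 4930957973) (nat_lit 76) (nat_lit 2374417103) (nat_lit 182)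 (nat_lit 5) (nat_lit 197) (nat_lit 5) (nat_lit 183) (nat_lit 5) (nat_lit 340) (nat_lit 323) (nat_lit 117)))) (XT.nd (nat_lit 78) (nat_lit 532) (nat_lit 0) (XT.lf (nat_lit 0) (nat_lit 11403484209) (nat_lit 1140) (nat_lit 18600075909) (nat_lit 1216) (nat_lit 5037626090) (nat_lit 167) (nat_lit 5) (nat_lit 182) (nat_lit 5) (nat_lit 183) (nat_lit 5) (nat_lit 341) (nat_lit 323) (nat_lit 116)) (XT.nd (nat_lit 78) (nat_lit 532) (nat_lit 0) (XT.lf (nat_lit 0) (nat_lit 28327169517) (nat_lit 1140) (nat_lit 4651155064) (nat_lit 1216) (nat_lit 2652782357) (nat_lit 167) (nat_lit 5) (nat_lit 182) (nat_lit 5) (nat_lit 183) (nat_lit 5) (nat_lit 342) (nat_lit 323) (nat_lit 115)) (XT.lf (nat_lit 0) (nat_lit 9612124802) (nat_lit 532) (nat_lit 26613912056) (nat_lit 608) (nat_lit 7180403) (nat_lit 160) (nat_lit 5) (nat_lit 167) (nat_lit 5) (nat_lit 168) (nat_lit 5) (nat_lit 343) (nat_lit 323) (nat_lit 114))))) (XT.nd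 (nat_lit 234) (nat_lit 1064) (nat_lit 0) (XT.nd (nat_lit 78) (nat_lit 608) (nat_lit 0) (XT.lf (nat_lit 0) (nat_lit 2783221087) (nat_lit 608) (nat_lit 9740601913) (nat_lit 76) (nat_lit 24325233124) (nat_lit 159) (nat_lit 5) (nat_lit 167) (nat_lit 5) (nat_lit 160) (nat_lit 5) (nat_lit 344) (nat_lit 323) (nat_lit 113)) (XT.nd (nat_lit 78) (nat_lit 0) (nat_lit 0) (XT.lf (nat_lit 0) (nat_lit 5749987547) (nat_lit 684) (nat_lit 29704530068) (nat_lit 76) (nat_lit 2026069339) (nat_lit 151) (nat_lit 5) (nat_lit 160) (nat_lit 5) (nat_lit 152) (nat_lit 5) (nat_lit 345) (nat_lit 323) (nat_lit 112)) (XT.lf (nat_lit 0) (nat_lit 9027121252) (nat_lit 684) (nat_lit 12237095902) (nat_lit 76) (nat_lit 16860208400) (nat_lit 151) (nat_lit 5) (nat_lit 160) (nat_lit 5) (nat_lit 152) (nat_lit 5) (nat_lit 346) (nat_lit 323) (nat_lit 111)))) (XT.nd (nat_lit 156) (nat_lit 532) (nat_lit 0) (XT.nd (nat_lit 78) (nat_lit 0)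 (nat_lit 0) (XT.lf (nat_lit 0) (nat_lit 5867003837) (nat_lit 532) (nat_lit 6590050857) (nat_lit 608) (nat_lit 26328892735) (nat_lit 144) (nat_lit 5) (nat_lit 151) (nat_lit 5) (nat_lit 152) (nat_lit 5) (nat_lit 347) (nat_lit 323) (nat_lit 110)) (XT.lf (nat_lit 0) (nat_lit 16194748541) (nat_lit 608) (nat_lit 14783582473) (nat_lit 76) (nat_lit 8482840688) (nat_lit 144) (nat_lit 5) (nat_lit 152) (nat_lit 5) (nat_lit 145) (nat_lit 5) (nat_lit 348) (nat_lit 323) (nat_lit 109))) (XT.nd (nat_lit 78) (nat_lit 0) (nat_lit 0) (XT.lf (nat_lit 0) (nat_lit 3904961191) (nat_lit 532) (nat_lit 16240578545) (nat_lit 608) (nat_lit 20008086504) (nat_lit 137) (nat_lit 5) (nat_lit 144) (nat_lit 5) (nat_lit 145) (nat_lit 5) (nat_lit 349) (nat_lit 323) (nat_lit 108)) (XT.lf (nat_lit 0) (nat_lit 23455397937) (nat_lit 532) (nat_lit 906959099) (nat_lit 608) (nat_lit 16500074770) (nat_lit 137) (nat_lit 5) (nat_lit 144)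 (nat_lit 5) (nat_lit 145) (nat_lit 5) (nat_lit 350) (nat_lit 323) (nat_lit 107)))))) (XT.nd (nat_lit 468) (nat_lit 1292) (nat_lit 0) (XT.nd (nat_lit 234) (nat_lit 988) (nat_lit 0) (XT.nd (nat_lit 78) (nat_lit 0) (nat_lit 0) (XT.lf (nat_lit 0) (nat_lit 1891849842) (nat_lit 456) (nat_lit 26973383226) (nat_lit 532) (nat_lit 12722484236) (nat_lit 131) (nat_lit 5) (nat_lit 137) (nat_lit 5) (nat_lit 138) (nat_lit 5) (nat_lit 351) (nat_lit 323) (nat_lit 106)) (XT.nd (nat_lit 78) (nat_lit 0) (nat_lit 0) (XT.lf (nat_lit 0) (nat_lit 22115573028) (nat_lit 456) (nat_lit 11570593007) (nat_lit 532) (nat_lit 8643108532) (nat_lit 131) (nat_lit 5) (nat_lit 137) (nat_lit 5) (nat_lit 138) (nat_lit 5) (nat_lit 352) (nat_lit 323) (nat_lit 105)) (XT.lf (nat_lit 0) (nat_lit 38691356778) (nat_lit 532) (nat_lit 190144051) (nat_lit 76) (nat_lit 4210391078) (nat_lit 131) (nat_lit 5) (nat_lit 138) (nat_lit 5) (nat_lit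 132) (nat_lit 5) (nat_lit 353) (nat_lit 323) (nat_lit 104)))) (XT.nd (nat_lit 78) (nat_lit 456) (nat_lit 0) (XT.lf (nat_lit 0) (nat_lit 285155918) (nat_lit 532) (nat_lit 23148638654) (nat_lit 76) (nat_lit 20434146917) (nat_lit 124) (nat_lit 5) (nat_lit 131) (nat_lit 5) (nat_lit 125) (nat_lit 5) (nat_lit 354) (nat_lit 323) (nat_lit 103)) (XT.nd (nat_lit 78) (nat_lit 456) (nat_lit 0) (XT.lf (nat_lit 0) (nat_lit 5023321390) (nat_lit 532) (nat_lit 2452631234) (nat_lit 76) (nat_lit 37190004405) (nat_lit 124) (nat_lit 5) (nat_lit 131) (nat_lit 5) (nat_lit 125) (nat_lit 5) (nat_lit 355) (nat_lit 323) (nat_lit 102)) (XT.lf (nat_lit 0) (nat_lit 10174980441) (nat_lit 532) (nat_lit 26332427060) (nat_lit 76) (nat_lit 8972367075) (nat_lit 118) (nat_lit 5) (nat_lit 125) (nat_lit 5) (nat_lit 119) (nat_lit 5) (nat_lit 356) (nat_lit 323) (nat_lit 101))))) (XT.nd (nat_lit 234) (nat_lit 836) (nat_lit 0) (XT.nd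 (nat_lit 78) (nat_lit 456) (nat_lit 0) (XT.lf (nat_lit 0) (nat_lit 15578704845) (nat_lit 532) (nat_lit 4947662249) (nat_lit 76) (nat_lit 25788716033) (nat_lit 118) (nat_lit 5) (nat_lit 125) (nat_lit 5) (nat_lit 119) (nat_lit 5) (nat_lit 357) (nat_lit 323) (nat_lit 100)) (XT.nd (nat_lit 78) (nat_lit 0) (nat_lit 0) (XT.lf (nat_lit 0) (nat_lit 17416824841) (nat_lit 456) (nat_lit 3893665730) (nat_lit 532) (nat_lit 25859983764) (nat_lit 112) (nat_lit 5) (nat_lit 118) (nat_lit 5) (nat_lit 119) (nat_lit 5) (nat_lit 358) (nat_lit 323) (nat_lit 99)) (XT.lf (nat_lit 0) (nat_lit 27390491215) (nat_lit 532) (nat_lit 7625818384) (nat_lit 76) (nat_lit 13029931670) (nat_lit 112) (nat_lit 5) (nat_lit 119) (nat_lit 5) (nat_lit 113) (nat_lit 5) (nat_lit 359) (nat_lit 323) (nat_lit 98)))) (XT.nd (nat_lit 156) (nat_lit 456) (nat_lit 0) (XT.nd (nat_lit 78) (nat_lit 0) (nat_lit 0) (XT.lf (nat_lit 0) (nat_lit 15426664020)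 (nat_lit 380) (nat_lit 18411664754) (nat_lit 456) (nat_lit 15104391109) (nat_lit 107) (nat_lit 5) (nat_lit 112) (nat_lit 5) (nat_lit 113) (nat_lit 5) (nat_lit 360) (nat_lit 323) (nat_lit 97)) (XT.lf (nat_lit 0) (nat_lit 39325396720) (nat_lit 380) (nat_lit 1229830864) (nat_lit 456) (nat_lit 9308598213) (nat_lit 107) (nat_lit 5) (nat_lit 112) (nat_lit 5) (nat_lit 113) (nat_lit 5) (nat_lit 361) (nat_lit 323) (nat_lit 96))) (XT.nd (nat_lit 78) (nat_lit 76) (nat_lit 0) (XT.lf (nat_lit 0) (nat_lit 13226694263) (nat_lit 380) (nat_lit 34531035466) (nat_lit 456) (nat_lit 3046313947) (nat_lit 102) (nat_lit 5) (nat_lit 107) (nat_lit 5) (nat_lit 108) (nat_lit 5) (nat_lit 362) (nat_lit 323) (nat_lit 95)) (XT.lf (nat_lit 0) (nat_lit 3455732205) (nat_lit 456) (nat_lit 13896076231) (nat_lit 76) (nat_lit 34416130205) (nat_lit 101) (nat_lit 5) (nat_lit 107) (nat_lit 5) (nat_lit 102) (nat_lit 5) (nat_lit 363)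 (nat_lit 323) (nat_lit 94))))))) (XT.nd (nat_lit 1014) (nat_lit 1368) (nat_lit 0) (XT.nd (nat_lit 468) (nat_lit 1064) (nat_lit 0) (XT.nd (nat_lit 234) (nat_lit 304) (nat_lit 0) (XT.nd (nat_lit 78) (nat_lit 380) (nat_lit 0) (XT.lf (nat_lit 0) (nat_lit 10197511071) (nat_lit 456) (nat_lit 42089291145) (nat_lit 76) (nat_lit 469867950) (nat_lit 96) (nat_lit 5) (nat_lit 102) (nat_lit 5) (nat_lit 97) (nat_lit 5) (nat_lit 364) (nat_lit 323) (nat_lit 93)) (XT.nd (nat_lit 78) (nat_lit 380) (nat_lit 0) (XT.lf (nat_lit 0) (nat_lit 17453780979) (nat_lit 456) (nat_lit 17693071850) (nat_lit 76) (nat_lit 18618845170) (nat_lit 96) (nat_lit 5) (nat_lit 102) (nat_lit 5) (nat_lit 97) (nat_lit 5) (nat_lit 365) (nat_lit 323) (nat_lit 92)) (XT.lf (nat_lit 0) (nat_lit 7581399329) (nat_lit 380) (nat_lit 17417978964) (nat_lit 456) (nat_lit 29803470638) (nat_lit 91) (nat_lit 5) (nat_lit 96) (nat_lit 5) (nat_lit 97) (nat_lit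 5) (nat_lit 366) (nat_lit 323) (nat_lit 91)))) (XT.nd (nat_lit 78) (nat_lit 304) (nat_lit 0) (XT.lf (nat_lit 0) (nat_lit 32958658985) (nat_lit 456) (nat_lit 21900423528) (nat_lit 76) (nat_lit 1006413819) (nat_lit 91) (nat_lit 5) (nat_lit 97) (nat_lit 5) (nat_lit 92) (nat_lit 5) (nat_lit 367) (nat_lit 323) (nat_lit 90)) (XT.nd (nat_lit 78) (nat_lit 0) (nat_lit 0) (XT.lf (nat_lit 0) (nat_lit 4085962095) (nat_lit 304) (nat_lit 37281303564) (nat_lit 380) (nat_lit 15586442433) (nat_lit 87) (nat_lit 5) (nat_lit 91) (nat_lit 5) (nat_lit 92) (nat_lit 5) (nat_lit 368) (nat_lit 323) (nat_lit 89)) (XT.lf (nat_lit 0) (nat_lit 31299343841) (nat_lit 304) (nat_lit 18948773350) (nat_lit 380) (nat_lit 7819850737) (nat_lit 87) (nat_lit 5) (nat_lit 91) (nat_lit 5) (nat_lit 92) (nat_lit 5) (nat_lit 369) (nat_lit 323) (nat_lit 88))))) (XT.nd (nat_lit 234) (nat_lit 608) (nat_lit 0) (XT.nd (nat_lit 78) (nat_lit 0)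 (nat_lit 0) (XT.lf (nat_lit 0) (nat_lit 112425530) (nat_lit 380) (nat_lit 63743322) (nat_lit 456) (nat_lit 59039437996) (nat_lit 81) (nat_lit 5) (nat_lit 86) (nat_lit 5) (nat_lit 87) (nat_lit 5) (nat_lit 370) (nat_lit 323) (nat_lit 87)) (XT.nd (nat_lit 78) (nat_lit 0) (nat_lit 0) (XT.lf (nat_lit 0) (nat_lit 8713124599) (nat_lit 456) (nat_lit 32308925343) (nat_lit 76) (nat_lit 19359556673) (nat_lit 81) (nat_lit 5) (nat_lit 87) (nat_lit 5) (nat_lit 82) (nat_lit 5) (nat_lit 371) (nat_lit 323) (nat_lit 86)) (XT.lf (nat_lit 0) (nat_lit 17505725102) (nat_lit 456) (nat_lit 4712956838) (nat_lit 76) (nat_lit 39363919529) (nat_lit 81) (nat_lit 5) (nat_lit 87) (nat_lit 5) (nat_lit 82) (nat_lit 5) (nat_lit 372) (nat_lit 323) (nat_lit 85)))) (XT.nd (nat_lit 156) (nat_lit 304) (nat_lit 0) (XT.nd (nat_lit 78) (nat_lit 0) (nat_lit 0) (XT.lf (nat_lit 0) (nat_lit 24181314460) (nat_lit 304) (nat_lit 2612171603)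 (nat_lit 380) (nat_lit 36019199772) (nat_lit 77) (nat_lit 5) (nat_lit 81) (nat_lit 5) (nat_lit 82) (nat_lit 5) (nat_lit 373) (nat_lit 323) (nat_lit 84)) (XT.lf (nat_lit 0) (nat_lit 36575907202) (nat_lit 380) (nat_lit 10210160873) (nat_lit 76) (nat_lit 17287124946) (nat_lit 77) (nat_lit 5) (nat_lit 82) (nat_lit 5) (nat_lit 78) (nat_lit 5) (nat_lit 374) (nat_lit 323) (nat_lit 83))) (XT.nd (nat_lit 78) (nat_lit 0) (nat_lit 0) (XT.lf (nat_lit 0) (nat_lit 19415271628) (nat_lit 304) (nat_lit 27448004915) (nat_lit 380) (nat_lit 18501895687) (nat_lit 73) (nat_lit 5) (nat_lit 77) (nat_lit 5) (nat_lit 78) (nat_lit 5) (nat_lit 375) (nat_lit 323) (nat_lit 82)) (XT.lf (nat_lit 0) (nat_lit 50137366138) (nat_lit 304) (nat_lit 7424000679) (nat_lit 380) (nat_lit 9131482049) (nat_lit 73) (nat_lit 5) (nat_lit 77) (nat_lit 5) (nat_lit 78) (nat_lit 5) (nat_lit 376) (nat_lit 323) (nat_lit 81)))))) (XT.nd (nat_lit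 468) (nat_lit 532) (nat_lit 0) (XT.nd (nat_lit 234) (nat_lit 228) (nat_lit 0) (XT.nd (nat_lit 78) (nat_lit 304) (nat_lit 0) (XT.lf (nat_lit 0) (nat_lit 771637050) (nat_lit 304) (nat_lit 54197140193) (nat_lit 76) (nat_lit 13083577344) (nat_lit 69) (nat_lit 5) (nat_lit 73) (nat_lit 5) (nat_lit 70) (nat_lit 5) (nat_lit 377) (nat_lit 323) (nat_lit 80)) (XT.nd (nat_lit 78) (nat_lit 304) (nat_lit 0) (XT.lf (nat_lit 0) (nat_lit 11029681615) (nat_lit 304) (nat_lit 24096989194) (nat_lit 76) (nat_lit 34316022335) (nat_lit 69) (nat_lit 5) (nat_lit 73) (nat_lit 5) (nat_lit 70) (nat_lit 5) (nat_lit 378) (nat_lit 323) (nat_lit 79)) (XT.lf (nat_lit 0) (nat_lit 7042234477) (nat_lit 304) (nat_lit 14619983171) (nat_lit 380) (nat_lit 49210522634) (nat_lit 65) (nat_lit 5) (nat_lit 69) (nat_lit 5) (nat_lit 70) (nat_lit 5) (nat_lit 379) (nat_lit 323) (nat_lit 78)))) (XT.nd (nat_lit 78) (nat_lit 228) (nat_lit 0) (XT.lf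 (nat_lit 0) (nat_lit 32921038202) (nat_lit 380) (nat_lit 32795061700) (nat_lit 76) (nat_lit 6620370580) (nat_lit 65) (nat_lit 5) (nat_lit 70) (nat_lit 5) (nat_lit 66) (nat_lit 5) (nat_lit 380) (nat_lit 323) (nat_lit 77)) (XT.nd (nat_lit 78) (nat_lit 228) (nat_lit 0) (XT.lf (nat_lit 0) (nat_lit 44661469446) (nat_lit 380) (nat_lit 974629714) (nat_lit 76) (nat_lit 28203698921) (nat_lit 65) (nat_lit 5) (nat_lit 70) (nat_lit 5) (nat_lit 66) (nat_lit 5) (nat_lit 381) (nat_lit 323) (nat_lit 76)) (XT.lf (nat_lit 0) (nat_lit 32431995685) (nat_lit 228) (nat_lit 24632994284) (nat_lit 304) (nat_lit 18313910099) (nat_lit 62) (nat_lit 5) (nat_lit 65) (nat_lit 5) (nat_lit 66) (nat_lit 5) (nat_lit 382) (nat_lit 323) (nat_lit 75))))) (XT.nd (nat_lit 234) (nat_lit 228) (nat_lit 0) (XT.nd (nat_lit 78) (nat_lit 304) (nat_lit 0) (XT.lf (nat_lit 0) (nat_lit 66859526798) (nat_lit 228) (nat_lit 2990064717) (nat_lit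 304) (nat_lit 7114315161) (nat_lit 62) (nat_lit 5) (nat_lit 65) (nat_lit 5) (nat_lit 66) (nat_lit 5) (nat_lit 383) (nat_lit 323) (nat_lit 74)) (XT.nd (nat_lit 78) (nat_lit 0) (nat_lit 0) (XT.lf (nat_lit 0) (nat_lit 4754555630) (nat_lit 304) (nat_lit 54625570141) (nat_lit 76) (nat_lit 19202476605) (nat_lit 58) (nat_lit 5) (nat_lit 62) (nat_lit 5) (nat_lit 59) (nat_lit 5) (nat_lit 384) (nat_lit 323) (nat_lit 73)) (XT.lf (nat_lit 0) (nat_lit 16968309773) (nat_lit 304) (nat_lit 21101697306) (nat_lit 76) (nat_lit 42173785222) (nat_lit 58) (nat_lit 5) (nat_lit 62) (nat_lit 5) (nat_lit 59) (nat_lit 5) (nat_lit 385) (nat_lit 323) (nat_lit 72)))) (XT.nd (nat_lit 35880) (nat_lit 0) (nat_lit 9120) (XT.nd (nat_lit 35802) (nat_lit 0) (nat_lit 9120) (XT.lf (nat_lit 0) (nat_lit 13693883084) (nat_lit 228) (nat_lit 15985410593) (nat_lit 304) (nat_lit 52271600465) (nat_lit 55) (nat_lit 5) (nat_lit 58) (nat_lit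 5) (nat_lit 59) (nat_lit 5) (nat_lit 386) (nat_lit 323) (nat_lit 71)) (XT.lf (nat_lit 0) (nat_lit 1419152737) (nat_lit 0) (nat_lit 1419152737) (nat_lit 1140) (nat_lit 10775901573) (nat_lit 175) (nat_lit 5) (nat_lit 175) (nat_lit 3) (nat_lit 190) (nat_lit 3) (nat_lit 324) (nat_lit 324) (nat_lit 132))) (XT.nd (nat_lit 78) (nat_lit 0) (nat_lit 0) (XT.lf (nat_lit 0) (nat_lit 5935672523) (nat_lit 1140) (nat_lit 12490193809) (nat_lit 1216) (nat_lit 9205628373) (nat_lit 175) (nat_lit 5) (nat_lit 190) (nat_lit 3) (nat_lit 191) (nat_lit 5) (nat_lit 325) (nat_lit 324) (nat_lit 131)) (XT.lf (nat_lit 0) (nat_lit 6227358611) (nat_lit 1140) (nat_lit 263134767) (nat_lit 1216) (nat_lit 21555433780) (nat_lit 175) (nat_lit 5) (nat_lit 190) (nat_lit 3) (nat_lit 191) (nat_lit 5) (nat_lit 326) (nat_lit 324) (nat_lit 130))))))))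
noncomputable def xc235 : XT := (XT.nd (nat_lit 2028) (nat_lit 4712) (nat_lit 0) (XT.nd (nat_lit 1014) (nat_lit 3420) (nat_lit 0) (XT.nd (nat_lit 468) (nat_lit 0) (nat_lit 152) (XT.nd (nat_lit 234) (nat_lit 0) (nat_lit 76) (XT.nd (nat_lit 78) (nat_lit 0) (nat_lit 0) (XT.lf (nat_lit 0) (nat_lit 6702505617) (nat_lit 1140) (nat_lit 15951850199) (nat_lit 1216) (nat_lit 5813200318) (nat_lit 176) (nat_lit 5) (nat_lit 191) (nat_lit 5) (nat_lit 192) (nat_lit 5) (nat_lit 327) (nat_lit 324) (nat_lit 129)) (XT.nd (nat_lit 78) (nat_lit 0) (nat_lit 76) (XT.lf (nat_lit 0) (nat_lit 7255787188) (nat_lit 1140) (nat_lit 3284531029) (nat_lit 1216) (nat_lit 18359604075) (nat_lit 176) (nat_lit 5) (nat_lit 191) (nat_lit 5) (nat_lit 192) (nat_lit 5) (nat_lit 328) (nat_lit 324) (nat_lit 128)) (XT.lf (nat_lit 0) (nat_lit 7937967951) (nat_lit 1140) (nat_lit 19406732430) (nat_lit 1216) (nat_lit 1997194611) (nat_lit 177)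 (nat_lit 5) (nat_lit 192) (nat_lit 5) (nat_lit 193) (nat_lit 5) (nat_lit 329) (nat_lit 324) (nat_lit 127)))) (XT.nd (nat_lit 78) (nat_lit 0) (nat_lit 0) (XT.lf (nat_lit 0) (nat_lit 8775574583) (nat_lit 1140) (nat_lit 6283870870) (nat_lit 1216) (nat_lit 14733637051) (nat_lit 177) (nat_lit 5) (nat_lit 192) (nat_lit 5) (nat_lit 193) (nat_lit 5) (nat_lit 330) (nat_lit 324) (nat_lit 126)) (XT.nd (nat_lit 78) (nat_lit 0) (nat_lit 76) (XT.lf (nat_lit 76) (nat_lit 7374811228) (nat_lit 0) (nat_lit 2331578848) (nat_lit 1216) (nat_lit 20549377465) (nat_lit 178) (nat_lit 5) (nat_lit 177) (nat_lit 5) (nat_lit 193) (nat_lit 5) (nat_lit 331) (nat_lit 324) (nat_lit 125)) (XT.lf (nat_lit 0) (nat_lit 10830082930) (nat_lit 1140) (nat_lit 9264449788) (nat_lit 1216) (nat_lit 10632856015) (nat_lit 178) (nat_lit 5) (nat_lit 193) (nat_lit 5) (nat_lit 194) (nat_lit 5) (nat_lit 332) (nat_lit 324) (nat_lit 124))))) (XT.nd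 (nat_lit 234) (nat_lit 0) (nat_lit 152) (XT.nd (nat_lit 78) (nat_lit 0) (nat_lit 76) (XT.lf (nat_lit 76) (nat_lit 4829916944) (nat_lit 0) (nat_lit 7224426308) (nat_lit 1216) (nat_lit 19156813676) (nat_lit 179) (nat_lit 5) (nat_lit 178) (nat_lit 5) (nat_lit 194) (nat_lit 5) (nat_lit 333) (nat_lit 324) (nat_lit 123)) (XT.nd (nat_lit 78) (nat_lit 0) (nat_lit 0) (XT.lf (nat_lit 0) (nat_lit 13465203323) (nat_lit 1140) (nat_lit 12230383381) (nat_lit 1216) (nat_lit 6009359259) (nat_lit 179) (nat_lit 5) (nat_lit 194) (nat_lit 5) (nat_lit 195) (nat_lit 5) (nat_lit 334) (nat_lit 324) (nat_lit 122)) (XT.lf (nat_lit 76) (nat_lit 2316863648) (nat_lit 0) (nat_lit 12692812722) (nat_lit 1216) (nat_lit 17201137517) (nat_lit 180) (nat_lit 5) (nat_lit 179) (nat_lit 5) (nat_lit 195) (nat_lit 5) (nat_lit 335) (nat_lit 324) (nat_lit 121)))) (XT.nd (nat_lit 156) (nat_lit 0) (nat_lit 0) (XT.nd (nat_lit 78) (nat_lit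 0) (nat_lit 0) (XT.lf (nat_lit 0) (nat_lit 16729487875) (nat_lit 1140) (nat_lit 15186748467) (nat_lit 1216) (nat_lit 811755103) (nat_lit 180) (nat_lit 5) (nat_lit 195) (nat_lit 5) (nat_lit 196) (nat_lit 5) (nat_lit 336) (nat_lit 324) (nat_lit 120)) (XT.lf (nat_lit 0) (nat_lit 18624185836) (nat_lit 1140) (nat_lit 165829825) (nat_lit 1216) (nat_lit 14466973522) (nat_lit 180) (nat_lit 5) (nat_lit 195) (nat_lit 5) (nat_lit 196) (nat_lit 5) (nat_lit 337) (nat_lit 324) (nat_lit 119))) (XT.nd (nat_lit 78) (nat_lit 0) (nat_lit 76) (XT.lf (nat_lit 76) (nat_lit 15608520290) (nat_lit 0) (nat_lit 5114933088) (nat_lit 1216) (nat_lit 13073975125) (nat_lit 181) (nat_lit 5) (nat_lit 180) (nat_lit 5) (nat_lit 196) (nat_lit 5) (nat_lit 338) (nat_lit 324) (nat_lit 118)) (XT.lf (nat_lit 0) (nat_lit 22971364292) (nat_lit 1140) (nat_lit 2582609243) (nat_lit 1216) (nat_lit 8797540915) (nat_lit 181) (nat_lit 5) (nat_lit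 196) (nat_lit 5) (nat_lit 197) (nat_lit 5) (nat_lit 339) (nat_lit 324) (nat_lit 117)))))) (XT.nd (nat_lit 468) (nat_lit 2128) (nat_lit 0) (XT.nd (nat_lit 234) (nat_lit 608) (nat_lit 0) (XT.nd (nat_lit 78) (nat_lit 1064) (nat_lit 0) (XT.lf (nat_lit 76) (nat_lit 13706927550) (nat_lit 0) (nat_lit 11759998149) (nat_lit 1216) (nat_lit 9449894190) (nat_lit 182) (nat_lit 5) (nat_lit 181) (nat_lit 5) (nat_lit 197) (nat_lit 5) (nat_lit 340) (nat_lit 324) (nat_lit 116)) (XT.nd (nat_lit 78) (nat_lit 1140) (nat_lit 0) (XT.lf (nat_lit 0) (nat_lit 28085082532) (nat_lit 1140) (nat_lit 4985832091) (nat_lit 76) (nat_lit 2426741224) (nat_lit 182) (nat_lit 5) (nat_lit 197) (nat_lit 5) (nat_lit 183) (nat_lit 5) (nat_lit 341) (nat_lit 324) (nat_lit 115)) (XT.lf (nat_lit 0) (nat_lit 11837731056) (nat_lit 1140) (nat_lit 19172203804) (nat_lit 1216) (nat_lit 5079140617) (nat_lit 167) (nat_lit 5) (nat_lit 182) (nat_lit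 5) (nat_lit 183) (nat_lit 5) (nat_lit 342) (nat_lit 324) (nat_lit 114)))) (XT.nd (nat_lit 78) (nat_lit 608) (nat_lit 0) (XT.lf (nat_lit 0) (nat_lit 29266443167) (nat_lit 1140) (nat_lit 4804403907) (nat_lit 1216) (nat_lit 2625944220) (nat_lit 167) (nat_lit 5) (nat_lit 182) (nat_lit 5) (nat_lit 183) (nat_lit 5) (nat_lit 343) (nat_lit 324) (nat_lit 113)) (XT.nd (nat_lit 78) (nat_lit 0) (nat_lit 0) (XT.lf (nat_lit 0) (nat_lit 94817439) (nat_lit 608) (nat_lit 27325548865) (nat_lit 76) (nat_lit 9896642693) (nat_lit 159) (nat_lit 5) (nat_lit 167) (nat_lit 5) (nat_lit 160) (nat_lit 5) (nat_lit 344) (nat_lit 324) (nat_lit 112)) (XT.lf (nat_lit 0) (nat_lit 2965813774) (nat_lit 608) (nat_lit 9941455624) (nat_lit 76) (nat_lit 25044144898) (nat_lit 159) (nat_lit 5) (nat_lit 167) (nat_lit 5) (nat_lit 160) (nat_lit 5) (nat_lit 345) (nat_lit 324) (nat_lit 111))))) (XT.nd (nat_lit 234) (nat_lit 988) (nat_lit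 0) (XT.nd (nat_lit 78) (nat_lit 532) (nat_lit 0) (XT.lf (nat_lit 0) (nat_lit 6019503029) (nat_lit 684) (nat_lit 30502084892) (nat_lit 76) (nat_lit 2080369634) (nat_lit 151) (nat_lit 5) (nat_lit 160) (nat_lit 5) (nat_lit 152) (nat_lit 5) (nat_lit 346) (nat_lit 324) (nat_lit 110)) (XT.nd (nat_lit 78) (nat_lit 532) (nat_lit 0) (XT.lf (nat_lit 0) (nat_lit 9392125040) (nat_lit 684) (nat_lit 12513353363) (nat_lit 76) (nat_lit 17359721657) (nat_lit 151) (nat_lit 5) (nat_lit 160) (nat_lit 5) (nat_lit 152) (nat_lit 5) (nat_lit 347) (nat_lit 324) (nat_lit 109)) (XT.lf (nat_lit 0) (nat_lit 6132978628) (nat_lit 532) (nat_lit 6790099250) (nat_lit 608) (nat_lit 27023549932) (nat_lit 144) (nat_lit 5) (nat_lit 151) (nat_lit 5) (nat_lit 152) (nat_lit 5) (nat_lit 348) (nat_lit 324) (nat_lit 108)))) (XT.nd (nat_lit 156) (nat_lit 456) (nat_lit 0) (XT.nd (nat_lit 78) (nat_lit 532) (nat_lit 0) (XT.lf (nat_lit 0)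 (nat_lit 16770191952) (nat_lit 608) (nat_lit 15136910066) (nat_lit 76) (nat_lit 8735091859) (nat_lit 144) (nat_lit 5) (nat_lit 152) (nat_lit 5) (nat_lit 145) (nat_lit 5) (nat_lit 349) (nat_lit 324) (nat_lit 107)) (XT.lf (nat_lit 0) (nat_lit 4111405792) (nat_lit 532) (nat_lit 16726349721) (nat_lit 608) (nat_lit 20517722720) (nat_lit 137) (nat_lit 5) (nat_lit 144) (nat_lit 5) (nat_lit 145) (nat_lit 5) (nat_lit 350) (nat_lit 324) (nat_lit 106))) (XT.nd (nat_lit 78) (nat_lit 456) (nat_lit 0) (XT.lf (nat_lit 0) (nat_lit 24245754792) (nat_lit 532) (nat_lit 932763814) (nat_lit 608) (nat_lit 16907109655) (nat_lit 137) (nat_lit 5) (nat_lit 144) (nat_lit 5) (nat_lit 145) (nat_lit 5) (nat_lit 351) (nat_lit 324) (nat_lit 105)) (XT.lf (nat_lit 0) (nat_lit 2037087200) (nat_lit 456) (nat_lit 27777773164) (nat_lit 532) (nat_lit 13017864006) (nat_lit 131) (nat_lit 5) (nat_lit 137) (nat_lit 5) (nat_lit 138) (nat_lit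 5) (nat_lit 352) (nat_lit 324) (nat_lit 104))))))) (XT.nd (nat_lit 1014) (nat_lit 2052) (nat_lit 0) (XT.nd (nat_lit 468) (nat_lit 1672) (nat_lit 0) (XT.nd (nat_lit 234) (nat_lit 456) (nat_lit 0) (XT.nd (nat_lit 78) (nat_lit 532) (nat_lit 0) (XT.lf (nat_lit 0) (nat_lit 22864944939) (nat_lit 456) (nat_lit 11913039381) (nat_lit 532) (nat_lit 8818620471) (nat_lit 131) (nat_lit 5) (nat_lit 137) (nat_lit 5) (nat_lit 138) (nat_lit 5) (nat_lit 353) (nat_lit 324) (nat_lit 103)) (XT.nd (nat_lit 78) (nat_lit 532) (nat_lit 0) (XT.lf (nat_lit 0) (nat_lit 39931008365) (nat_lit 532) (nat_lit 110015529) (nat_lit 76) (nat_lit 4341149664) (nat_lit 131) (nat_lit 5) (nat_lit 138) (nat_lit 5) (nat_lit 132) (nat_lit 5) (nat_lit 354) (nat_lit 324) (nat_lit 102)) (XT.lf (nat_lit 0) (nat_lit 372009320) (nat_lit 532) (nat_lit 23756446577) (nat_lit 76) (nat_lit 21053073282) (nat_lit 124) (nat_lit 5) (nat_lit 131) (nat_lit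 5) (nat_lit 125) (nat_lit 5) (nat_lit 355) (nat_lit 324) (nat_lit 101)))) (XT.nd (nat_lit 78) (nat_lit 456) (nat_lit 0) (XT.lf (nat_lit 0) (nat_lit 5250039210) (nat_lit 532) (nat_lit 2442082757) (nat_lit 76) (nat_lit 38311434593) (nat_lit 124) (nat_lit 5) (nat_lit 131) (nat_lit 5) (nat_lit 125) (nat_lit 5) (nat_lit 356) (nat_lit 324) (nat_lit 100)) (XT.nd (nat_lit 78) (nat_lit 0) (nat_lit 0) (XT.lf (nat_lit 0) (nat_lit 10554918276) (nat_lit 532) (nat_lit 27036846940) (nat_lit 76) (nat_lit 9250066184) (nat_lit 118) (nat_lit 5) (nat_lit 125) (nat_lit 5) (nat_lit 119) (nat_lit 5) (nat_lit 357) (nat_lit 324) (nat_lit 99)) (XT.lf (nat_lit 0) (nat_lit 16118579022) (nat_lit 532) (nat_lit 5013031018) (nat_lit 76) (nat_lit 26570657219) (nat_lit 118) (nat_lit 5) (nat_lit 125) (nat_lit 5) (nat_lit 119) (nat_lit 5) (nat_lit 358) (nat_lit 324) (nat_lit 98))))) (XT.nd (nat_lit 234) (nat_lit 836) (nat_lit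 0) (XT.nd (nat_lit 78) (nat_lit 380) (nat_lit 0) (XT.lf (nat_lit 0) (nat_lit 18021576361) (nat_lit 456) (nat_lit 3999420534) (nat_lit 532) (nat_lit 26562365657) (nat_lit 112) (nat_lit 5) (nat_lit 118) (nat_lit 5) (nat_lit 119) (nat_lit 5) (nat_lit 359) (nat_lit 324) (nat_lit 97)) (XT.nd (nat_lit 78) (nat_lit 380) (nat_lit 0) (XT.lf (nat_lit 0) (nat_lit 28281427191) (nat_lit 532) (nat_lit 7772683694) (nat_lit 76) (nat_lit 13431353350) (nat_lit 112) (nat_lit 5) (nat_lit 119) (nat_lit 5) (nat_lit 113) (nat_lit 5) (nat_lit 360) (nat_lit 324) (nat_lit 96)) (XT.lf (nat_lit 0) (nat_lit 15970570149) (nat_lit 380) (nat_lit 18950893216) (nat_lit 456) (nat_lit 15487413489) (nat_lit 107) (nat_lit 5) (nat_lit 112) (nat_lit 5) (nat_lit 113) (nat_lit 5) (nat_lit 361) (nat_lit 324) (nat_lit 95)))) (XT.nd (nat_lit 156) (nat_lit 456) (nat_lit 0) (XT.nd (nat_lit 78) (nat_lit 380) (nat_lit 0) (XT.lf (nat_lit 0)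 (nat_lit 40583902514) (nat_lit 380) (nat_lit 1253986489) (nat_lit 456) (nat_lit 9519788826) (nat_lit 107) (nat_lit 5) (nat_lit 112) (nat_lit 5) (nat_lit 113) (nat_lit 5) (nat_lit 362) (nat_lit 324) (nat_lit 94)) (XT.lf (nat_lit 0) (nat_lit 13703388246) (nat_lit 380) (nat_lit 35552042375) (nat_lit 456) (nat_lit 3070705097) (nat_lit 102) (nat_lit 5) (nat_lit 107) (nat_lit 5) (nat_lit 108) (nat_lit 5) (nat_lit 363) (nat_lit 324) (nat_lit 93))) (XT.nd (nat_lit 78) (nat_lit 380) (nat_lit 0) (XT.lf (nat_lit 0) (nat_lit 3623181736) (nat_lit 456) (nat_lit 14234047454) (nat_lit 76) (nat_lit 35461758689) (nat_lit 101) (nat_lit 5) (nat_lit 107) (nat_lit 5) (nat_lit 102) (nat_lit 5) (nat_lit 364) (nat_lit 324) (nat_lit 92)) (XT.lf (nat_lit 0) (nat_lit 10566256146) (nat_lit 456) (nat_lit 43272027601) (nat_lit 76) (nat_lit 499128540) (nat_lit 96) (nat_lit 5) (nat_lit 102) (nat_lit 5) (nat_lit 97) (nat_lit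 5) (nat_lit 365) (nat_lit 324) (nat_lit 91)))))) (XT.nd (nat_lit 546) (nat_lit 912) (nat_lit 0) (XT.nd (nat_lit 234) (nat_lit 760) (nat_lit 0) (XT.nd (nat_lit 78) (nat_lit 380) (nat_lit 0) (XT.lf (nat_lit 0) (nat_lit 18038384449) (nat_lit 456) (nat_lit 18146250142) (nat_lit 76) (nat_lit 19192133390) (nat_lit 96) (nat_lit 5) (nat_lit 102) (nat_lit 5) (nat_lit 97) (nat_lit 5) (nat_lit 366) (nat_lit 324) (nat_lit 90)) (XT.nd (nat_lit 78) (nat_lit 0) (nat_lit 0) (XT.lf (nat_lit 0) (nat_lit 7885694252) (nat_lit 380) (nat_lit 17923617780) (nat_lit 456) (nat_lit 30635754616) (nat_lit 91) (nat_lit 5) (nat_lit 96) (nat_lit 5) (nat_lit 97) (nat_lit 5) (nat_lit 367) (nat_lit 324) (nat_lit 89)) (XT.lf (nat_lit 0) (nat_lit 34005782685) (nat_lit 456) (nat_lit 22481166102) (nat_lit 76) (nat_lit 1052694352) (nat_lit 91) (nat_lit 5) (nat_lit 97) (nat_lit 5) (nat_lit 92) (nat_lit 5) (nat_lit 368) (nat_lit 324)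 (nat_lit 88)))) (XT.nd (nat_lit 156) (nat_lit 456) (nat_lit 0) (XT.nd (nat_lit 78) (nat_lit 0) (nat_lit 0) (XT.lf (nat_lit 0) (nat_lit 4284063343) (nat_lit 304) (nat_lit 38381610263) (nat_lit 380) (nat_lit 15994858821) (nat_lit 87) (nat_lit 5) (nat_lit 91) (nat_lit 5) (nat_lit 92) (nat_lit 5) (nat_lit 369) (nat_lit 324) (nat_lit 87)) (XT.lf (nat_lit 0) (nat_lit 32311646860) (nat_lit 304) (nat_lit 19499632271) (nat_lit 380) (nat_lit 7996992972) (nat_lit 87) (nat_lit 5) (nat_lit 91) (nat_lit 5) (nat_lit 92) (nat_lit 5) (nat_lit 370) (nat_lit 324) (nat_lit 86))) (XT.nd (nat_lit 78) (nat_lit 0) (nat_lit 0) (XT.lf (nat_lit 0) (nat_lit 189573143) (nat_lit 380) (nat_lit 47281368) (nat_lit 456) (nat_lit 60753498851) (nat_lit 81) (nat_lit 5) (nat_lit 86) (nat_lit 5) (nat_lit 87) (nat_lit 5) (nat_lit 371) (nat_lit 324) (nat_lit 85)) (XT.lf (nat_lit 0) (nat_lit 9028476800) (nat_lit 456) (nat_lit 33205066972)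 (nat_lit 76) (nat_lit 19957834350) (nat_lit 81) (nat_lit 5) (nat_lit 87) (nat_lit 5) (nat_lit 82) (nat_lit 5) (nat_lit 372) (nat_lit 324) (nat_lit 84))))) (XT.nd (nat_lit 234) (nat_lit 608) (nat_lit 0) (XT.nd (nat_lit 78) (nat_lit 304) (nat_lit 0) (XT.lf (nat_lit 0) (nat_lit 18083283712) (nat_lit 456) (nat_lit 4783349299) (nat_lit 76) (nat_lit 40561818645) (nat_lit 81) (nat_lit 5) (nat_lit 87) (nat_lit 5) (nat_lit 82) (nat_lit 5) (nat_lit 373) (nat_lit 324) (nat_lit 83)) (XT.nd (nat_lit 78) (nat_lit 0) (nat_lit 0) (XT.lf (nat_lit 0) (nat_lit 24977054095) (nat_lit 304) (nat_lit 2671773344) (nat_lit 380) (nat_lit 37046638255) (nat_lit 77) (nat_lit 5) (nat_lit 81) (nat_lit 5) (nat_lit 82) (nat_lit 5) (nat_lit 374) (nat_lit 324) (nat_lit 82)) (XT.lf (nat_lit 0) (nat_lit 37723395253) (nat_lit 380) (nat_lit 10446834096) (nat_lit 76) (nat_lit 17823600116) (nat_lit 77) (nat_lit 5) (nat_lit 82) (nat_lit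 5) (nat_lit 78) (nat_lit 5) (nat_lit 375) (nat_lit 324) (nat_lit 81)))) (XT.nd (nat_lit 156) (nat_lit 304) (nat_lit 0) (XT.nd (nat_lit 78) (nat_lit 0) (nat_lit 0) (XT.lf (nat_lit 0) (nat_lit 20066678718) (nat_lit 304) (nat_lit 28251907285) (nat_lit 380) (nat_lit 19006007583) (nat_lit 73) (nat_lit 5) (nat_lit 77) (nat_lit 5) (nat_lit 78) (nat_lit 5) (nat_lit 376) (nat_lit 324) (nat_lit 80)) (XT.lf (nat_lit 0) (nat_lit 51708427841) (nat_lit 304) (nat_lit 7627751983) (nat_lit 380) (nat_lit 9355965370) (nat_lit 73) (nat_lit 5) (nat_lit 77) (nat_lit 5) (nat_lit 78) (nat_lit 5) (nat_lit 377) (nat_lit 324) (nat_lit 79))) (XT.nd (nat_lit 78) (nat_lit 0) (nat_lit 0) (XT.lf (nat_lit 0) (nat_lit 842704450) (nat_lit 304) (nat_lit 55754475198) (nat_lit 76) (nat_lit 13495260919) (nat_lit 69) (nat_lit 5) (nat_lit 73) (nat_lit 5) (nat_lit 70) (nat_lit 5) (nat_lit 378) (nat_lit 324) (nat_lit 78)) (XT.lf (nat_lit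 0) (nat_lit 11407094674) (nat_lit 304) (nat_lit 24753317122) (nat_lit 76) (nat_lit 35364120728) (nat_lit 69) (nat_lit 5) (nat_lit 73) (nat_lit 5) (nat_lit 70) (nat_lit 5) (nat_lit 379) (nat_lit 324) (nat_lit 77))))))))
noncomputable def xc236 : XT := (XT.nd (nat_lit 37830) (nat_lit 0) (nat_lit 2508) (XT.nd (nat_lit 36816) (nat_lit 0) (nat_lit 8284) (XT.nd (nat_lit 468) (nat_lit 0) (nat_lit 0) (XT.nd (nat_lit 234) (nat_lit 532) (nat_lit 0) (XT.nd (nat_lit 78) (nat_lit 0) (nat_lit 0) (XT.lf (nat_lit 0) (nat_lit 7319430497) (nat_lit 304) (nat_lit 15038455013) (nat_lit 380) (nat_lit 50639618536) (nat_lit 65) (nat_lit 5) (nat_lit 69) (nat_lit 5) (nat_lit 70) (nat_lit 5) (nat_lit 380) (nat_lit 324) (nat_lit 76)) (XT.nd (nat_lit 78) (nat_lit 0) (nat_lit 0) (XT.lf (nat_lit 0) (nat_lit 33953324506) (nat_lit 380) (nat_lit 33713715541) (nat_lit 76) (nat_lit 6838141785) (nat_lit 65) (nat_lit 5) (nat_lit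 70) (nat_lit 5) (nat_lit 66) (nat_lit 5) (nat_lit 381) (nat_lit 324) (nat_lit 75)) (XT.lf (nat_lit 0) (nat_lit 46044668051) (nat_lit 380) (nat_lit 940569567) (nat_lit 76) (nat_lit 29068411915) (nat_lit 65) (nat_lit 5) (nat_lit 70) (nat_lit 5) (nat_lit 66) (nat_lit 5) (nat_lit 382) (nat_lit 324) (nat_lit 74)))) (XT.nd (nat_lit 78) (nat_lit 304) (nat_lit 0) (XT.lf (nat_lit 0) (nat_lit 33467634015) (nat_lit 228) (nat_lit 25351999925) (nat_lit 304) (nat_lit 18819311666) (nat_lit 62) (nat_lit 5) (nat_lit 65) (nat_lit 5) (nat_lit 66) (nat_lit 5) (nat_lit 383) (nat_lit 324) (nat_lit 73)) (XT.nd (nat_lit 78) (nat_lit 304) (nat_lit 0) (XT.lf (nat_lit 0) (nat_lit 68926165476) (nat_lit 228) (nat_lit 3060364535) (nat_lit 304) (nat_lit 7285010891) (nat_lit 62) (nat_lit 5) (nat_lit 65) (nat_lit 5) (nat_lit 66) (nat_lit 5) (nat_lit 384) (nat_lit 324) (nat_lit 72)) (XT.lf (nat_lit 0) (nat_lit 4938650111) (nat_lit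 304) (nat_lit 56202132969) (nat_lit 76) (nat_lit 19798016445) (nat_lit 58) (nat_lit 5) (nat_lit 62) (nat_lit 5) (nat_lit 59) (nat_lit 5) (nat_lit 385) (nat_lit 324) (nat_lit 71))))) (XT.nd (nat_lit 36036) (nat_lit 0) (nat_lit 8892) (XT.nd (nat_lit 35880) (nat_lit 0) (nat_lit 8892) (XT.lf (nat_lit 0) (nat_lit 17517609370) (nat_lit 304) (nat_lit 21674355724) (nat_lit 76) (nat_lit 43457897363) (nat_lit 58) (nat_lit 5) (nat_lit 62) (nat_lit 5) (nat_lit 59) (nat_lit 5) (nat_lit 386) (nat_lit 324) (nat_lit 70)) (XT.nd (nat_lit 78) (nat_lit 0) (nat_lit 0) (XT.lf (nat_lit 0) (nat_lit 1503155794) (nat_lit 0) (nat_lit 1503155794) (nat_lit 1140) (nat_lit 11013708966) (nat_lit 175) (nat_lit 5) (nat_lit 175) (nat_lit 3) (nat_lit 190) (nat_lit 3) (nat_lit 325) (nat_lit 325) (nat_lit 130)) (XT.lf (nat_lit 0) (nat_lit 6273856706) (nat_lit 1140) (nat_lit 12778609497) (nat_lit 1216) (nat_lit 9402923329) (nat_lit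 175) (nat_lit 5) (nat_lit 190) (nat_lit 3) (nat_lit 191) (nat_lit 5) (nat_lit 326) (nat_lit 325) (nat_lit 129)))) (XT.nd (nat_lit 156) (nat_lit 0) (nat_lit 76) (XT.nd (nat_lit 78) (nat_lit 0) (nat_lit 76) (XT.lf (nat_lit 0) (nat_lit 6569629863) (nat_lit 1140) (nat_lit 187251988) (nat_lit 1216) (nat_lit 22125520196) (nat_lit 175) (nat_lit 5) (nat_lit 190) (nat_lit 3) (nat_lit 191) (nat_lit 5) (nat_lit 327) (nat_lit 325) (nat_lit 128)) (XT.lf (nat_lit 0) (nat_lit 7054640004) (nat_lit 1140) (nat_lit 16342005172) (nat_lit 1216) (nat_lit 5920173427) (nat_lit 176) (nat_lit 5) (nat_lit 191) (nat_lit 5) (nat_lit 192) (nat_lit 5) (nat_lit 328) (nat_lit 325) (nat_lit 127))) (XT.nd (nat_lit 78) (nat_lit 0) (nat_lit 76) (XT.lf (nat_lit 0) (nat_lit 7620120239) (nat_lit 1140) (nat_lit 3297241200) (nat_lit 1216) (nat_lit 18844933071) (nat_lit 176) (nat_lit 5) (nat_lit 191) (nat_lit 5) (nat_lit 192) (nat_lit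 5) (nat_lit 329) (nat_lit 325) (nat_lit 126)) (XT.lf (nat_lit 0) (nat_lit 8318752062) (nat_lit 1140) (nat_lit 19898875185) (nat_lit 1216) (nat_lit 2000026147) (nat_lit 177) (nat_lit 5) (nat_lit 192) (nat_lit 5) (nat_lit 193) (nat_lit 5) (nat_lit 330) (nat_lit 325) (nat_lit 125)))))) (XT.nd (nat_lit 468) (nat_lit 760) (nat_lit 0) (XT.nd (nat_lit 234) (nat_lit 0) (nat_lit 76) (XT.nd (nat_lit 78) (nat_lit 0) (nat_lit 0) (XT.lf (nat_lit 0) (nat_lit 9177332183) (nat_lit 1140) (nat_lit 6384950863) (nat_lit 1216) (nat_lit 15120224510) (nat_lit 177) (nat_lit 5) (nat_lit 192) (nat_lit 5) (nat_lit 193) (nat_lit 5) (nat_lit 331) (nat_lit 325) (nat_lit 124)) (XT.nd (nat_lit 78) (nat_lit 0) (nat_lit 76) (XT.lf (nat_lit 76) (nat_lit 7682634482) (nat_lit 0) (nat_lit 2450236208) (nat_lit 1216) (nat_lit 21026304692) (nat_lit 178) (nat_lit 5) (nat_lit 177) (nat_lit 5) (nat_lit 193) (nat_lit 5) (nat_lit 332) (nat_lit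 325) (nat_lit 123)) (XT.lf (nat_lit 0) (nat_lit 11285879283) (nat_lit 1140) (nat_lit 9453730531) (nat_lit 1216) (nat_lit 10905473261) (nat_lit 178) (nat_lit 5) (nat_lit 193) (nat_lit 5) (nat_lit 194) (nat_lit 5) (nat_lit 333) (nat_lit 325) (nat_lit 122)))) (XT.nd (nat_lit 78) (nat_lit 0) (nat_lit 76) (XT.lf (nat_lit 76) (nat_lit 5062598057) (nat_lit 0) (nat_lit 7481300745) (nat_lit 1216) (nat_lit 19599560413) (nat_lit 179) (nat_lit 5) (nat_lit 178) (nat_lit 5) (nat_lit 194) (nat_lit 5) (nat_lit 334) (nat_lit 325) (nat_lit 121)) (XT.nd (nat_lit 78) (nat_lit 0) (nat_lit 0) (XT.lf (nat_lit 0) (nat_lit 13992984069) (nat_lit 1140) (nat_lit 12507778483) (nat_lit 1216) (nat_lit 6151428057) (nat_lit 179) (nat_lit 5) (nat_lit 194) (nat_lit 5) (nat_lit 195) (nat_lit 5) (nat_lit 335) (nat_lit 325) (nat_lit 120)) (XT.lf (nat_lit 76) (nat_lit 2475008345) (nat_lit 0) (nat_lit 13106028470) (nat_lit 1216) (nat_lit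 17592285896) (nat_lit 180) (nat_lit 5) (nat_lit 179) (nat_lit 5) (nat_lit 195) (nat_lit 5) (nat_lit 336) (nat_lit 325) (nat_lit 119))))) (XT.nd (nat_lit 234) (nat_lit 988) (nat_lit 0) (XT.nd (nat_lit 78) (nat_lit 0) (nat_lit 0) (XT.lf (nat_lit 0) (nat_lit 17348613681) (nat_lit 1140) (nat_lit 15552286716) (nat_lit 1216) (nat_lit 805235413) (nat_lit 180) (nat_lit 5) (nat_lit 195) (nat_lit 5) (nat_lit 196) (nat_lit 5) (nat_lit 337) (nat_lit 325) (nat_lit 118)) (XT.nd (nat_lit 78) (nat_lit 0) (nat_lit 0) (XT.lf (nat_lit 0) (nat_lit 19296737789) (nat_lit 1140) (nat_lit 83363744) (nat_lit 1216) (nat_lit 14871009579) (nat_lit 180) (nat_lit 5) (nat_lit 195) (nat_lit 5) (nat_lit 196) (nat_lit 5) (nat_lit 338) (nat_lit 325) (nat_lit 117)) (XT.lf (nat_lit 76) (nat_lit 16163359610) (nat_lit 0) (nat_lit 5293140711) (nat_lit 1216) (nat_lit 13351342819) (nat_lit 181) (nat_lit 5) (nat_lit 180) (nat_lit 5) (nat_lit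 196) (nat_lit 5) (nat_lit 339) (nat_lit 325) (nat_lit 116)))) (XT.nd (nat_lit 156) (nat_lit 1064) (nat_lit 0) (XT.nd (nat_lit 78) (nat_lit 0) (nat_lit 0) (XT.lf (nat_lit 0) (nat_lit 23768374481) (nat_lit 1140) (nat_lit 2572388555) (nat_lit 1216) (nat_lit 9037897744) (nat_lit 181) (nat_lit 5) (nat_lit 196) (nat_lit 5) (nat_lit 197) (nat_lit 5) (nat_lit 340) (nat_lit 325) (nat_lit 115)) (XT.lf (nat_lit 76) (nat_lit 14204974548) (nat_lit 0) (nat_lit 12131521110) (nat_lit 1216) (nat_lit 9624503683) (nat_lit 182) (nat_lit 5) (nat_lit 181) (nat_lit 5) (nat_lit 197) (nat_lit 5) (nat_lit 341) (nat_lit 325) (nat_lit 114))) (XT.nd (nat_lit 78) (nat_lit 1140) (nat_lit 0) (XT.lf (nat_lit 0) (nat_lit 29029947834) (nat_lit 1140) (nat_lit 5047694148) (nat_lit 76) (nat_lit 2481720487) (nat_lit 182) (nat_lit 5) (nat_lit 197) (nat_lit 5) (nat_lit 183) (nat_lit 5) (nat_lit 342) (nat_lit 325) (nat_lit 113)) (XT.lf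 (nat_lit 0) (nat_lit 12279715964) (nat_lit 1140) (nat_lit 19760684667) (nat_lit 1216) (nat_lit 5128192886) (nat_lit 167) (nat_lit 5) (nat_lit 182) (nat_lit 5) (nat_lit 183) (nat_lit 5) (nat_lit 343) (nat_lit 325) (nat_lit 112))))))) (XT.nd (nat_lit 1014) (nat_lit 2508) (nat_lit 0) (XT.nd (nat_lit 468) (nat_lit 1520) (nat_lit 0) (XT.nd (nat_lit 234) (nat_lit 1140) (nat_lit 0) (XT.nd (nat_lit 78) (nat_lit 608) (nat_lit 0) (XT.lf (nat_lit 0) (nat_lit 30228759739) (nat_lit 1140) (nat_lit 4961462965) (nat_lit 1216) (nat_lit 2604409975) (nat_lit 167) (nat_lit 5) (nat_lit 182) (nat_lit 5) (nat_lit 183) (nat_lit 5) (nat_lit 344) (nat_lit 325) (nat_lit 111)) (XT.nd (nat_lit 78) (nat_lit 0) (nat_lit 0) (XT.lf (nat_lit 0) (nat_lit 193871725) (nat_lit 608) (nat_lit 28056612083) (nat_lit 76) (nat_lit 10183012634) (nat_lit 159) (nat_lit 5) (nat_lit 167) (nat_lit 5) (nat_lit 160) (nat_lit 5) (nat_lit 345)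 (nat_lit 325) (nat_lit 110)) (XT.lf (nat_lit 0) (nat_lit 3148195723) (nat_lit 608) (nat_lit 10153579635) (nat_lit 76) (nat_lit 25785246585) (nat_lit 159) (nat_lit 5) (nat_lit 167) (nat_lit 5) (nat_lit 160) (nat_lit 5) (nat_lit 346) (nat_lit 325) (nat_lit 109)))) (XT.nd (nat_lit 78) (nat_lit 532) (nat_lit 0) (XT.lf (nat_lit 0) (nat_lit 6291534867) (nat_lit 684) (nat_lit 31328938297) (nat_lit 76) (nat_lit 2136671020) (nat_lit 151) (nat_lit 5) (nat_lit 160) (nat_lit 5) (nat_lit 152) (nat_lit 5) (nat_lit 347) (nat_lit 325) (nat_lit 108)) (XT.nd (nat_lit 78) (nat_lit 532) (nat_lit 0) (XT.lf (nat_lit 0) (nat_lit 9762672041) (nat_lit 684) (nat_lit 12803114021) (nat_lit 76) (nat_lit 17874581555) (nat_lit 151) (nat_lit 5) (nat_lit 160) (nat_lit 5) (nat_lit 152) (nat_lit 5) (nat_lit 348) (nat_lit 325) (nat_lit 107)) (XT.lf (nat_lit 0) (nat_lit 6401768323) (nat_lit 532) (nat_lit 6996014374) (nat_lit 608)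 (nat_lit 27744512265) (nat_lit 144) (nat_lit 5) (nat_lit 151) (nat_lit 5) (nat_lit 152) (nat_lit 5) (nat_lit 349) (nat_lit 325) (nat_lit 106))))) (XT.nd (nat_lit 234) (nat_lit 988) (nat_lit 0) (XT.nd (nat_lit 78) (nat_lit 532) (nat_lit 0) (XT.lf (nat_lit 0) (nat_lit 17357755205) (nat_lit 608) (nat_lit 15506014181) (nat_lit 76) (nat_lit 8995038808) (nat_lit 144) (nat_lit 5) (nat_lit 152) (nat_lit 5) (nat_lit 145) (nat_lit 5) (nat_lit 350) (nat_lit 325) (nat_lit 105)) (XT.nd (nat_lit 78) (nat_lit 0) (nat_lit 0) (XT.lf (nat_lit 0) (nat_lit 4318917788) (nat_lit 532) (nat_lit 17226777049) (nat_lit 608) (nat_lit 21047849199) (nat_lit 137) (nat_lit 5) (nat_lit 144) (nat_lit 5) (nat_lit 145) (nat_lit 5) (nat_lit 351) (nat_lit 325) (nat_lit 104)) (XT.lf (nat_lit 0) (nat_lit 25054845710) (nat_lit 532) (nat_lit 959423268) (nat_lit 608) (nat_lit 17331405272) (nat_lit 137) (nat_lit 5) (nat_lit 144) (nat_lit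 5) (nat_lit 145) (nat_lit 5) (nat_lit 352) (nat_lit 325) (nat_lit 103)))) (XT.nd (nat_lit 156) (nat_lit 532) (nat_lit 0) (XT.nd (nat_lit 78) (nat_lit 0) (nat_lit 0) (XT.lf (nat_lit 0) (nat_lit 2181602457) (nat_lit 456) (nat_lit 28606571004) (nat_lit 532) (nat_lit 13327058841) (nat_lit 131) (nat_lit 5) (nat_lit 137) (nat_lit 5) (nat_lit 138) (nat_lit 5) (nat_lit 353) (nat_lit 325) (nat_lit 102)) (XT.lf (nat_lit 0) (nat_lit 23631866726) (nat_lit 456) (nat_lit 12266027305) (nat_lit 532) (nat_lit 9004207158) (nat_lit 131) (nat_lit 5) (nat_lit 137) (nat_lit 5) (nat_lit 138) (nat_lit 5) (nat_lit 354) (nat_lit 325) (nat_lit 101))) (XT.nd (nat_lit 78) (nat_lit 532) (nat_lit 0) (XT.lf (nat_lit 0) (nat_lit 41203319691) (nat_lit 532) (nat_lit 32410307) (nat_lit 76) (nat_lit 4475575741) (nat_lit 131) (nat_lit 5) (nat_lit 138) (nat_lit 5) (nat_lit 132) (nat_lit 5) (nat_lit 355) (nat_lit 325) (nat_lit 100))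 (XT.lf (nat_lit 0) (nat_lit 456973656) (nat_lit 532) (nat_lit 24387462873) (nat_lit 76) (nat_lit 21690228642) (nat_lit 124) (nat_lit 5) (nat_lit 131) (nat_lit 5) (nat_lit 125) (nat_lit 5) (nat_lit 356) (nat_lit 325) (nat_lit 99)))))) (XT.nd (nat_lit 468) (nat_lit 1216) (nat_lit 0) (XT.nd (nat_lit 234) (nat_lit 836) (nat_lit 0) (XT.nd (nat_lit 78) (nat_lit 456) (nat_lit 0) (XT.lf (nat_lit 0) (nat_lit 5479194811) (nat_lit 532) (nat_lit 2436047083) (nat_lit 76) (nat_lit 39466178758) (nat_lit 124) (nat_lit 5) (nat_lit 131) (nat_lit 5) (nat_lit 125) (nat_lit 5) (nat_lit 357) (nat_lit 325) (nat_lit 98)) (XT.nd (nat_lit 78) (nat_lit 0) (nat_lit 0) (XT.lf (nat_lit 0) (nat_lit 10941966825) (nat_lit 532) (nat_lit 27767310504) (nat_lit 76) (nat_lit 9535606719) (nat_lit 118) (nat_lit 5) (nat_lit 125) (nat_lit 5) (nat_lit 119) (nat_lit 5) (nat_lit 358) (nat_lit 325) (nat_lit 97)) (XT.lf (nat_lit 0) (nat_lit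 16670486879) (nat_lit 532) (nat_lit 5085128896) (nat_lit 76) (nat_lit 27375581352) (nat_lit 118) (nat_lit 5) (nat_lit 125) (nat_lit 5) (nat_lit 119) (nat_lit 5) (nat_lit 359) (nat_lit 325) (nat_lit 96)))) (XT.nd (nat_lit 78) (nat_lit 380) (nat_lit 0) (XT.lf (nat_lit 0) (nat_lit 18639749125) (nat_lit 456) (nat_lit 4108982595) (nat_lit 532) (nat_lit 27290033479) (nat_lit 112) (nat_lit 5) (nat_lit 118) (nat_lit 5) (nat_lit 119) (nat_lit 5) (nat_lit 360) (nat_lit 325) (nat_lit 95)) (XT.nd (nat_lit 78) (nat_lit 380) (nat_lit 0) (XT.lf (nat_lit 0) (nat_lit 29195117663) (nat_lit 532) (nat_lit 7928656890) (nat_lit 76) (nat_lit 13844213575) (nat_lit 112) (nat_lit 5) (nat_lit 119) (nat_lit 5) (nat_lit 113) (nat_lit 5) (nat_lit 361) (nat_lit 325) (nat_lit 94)) (XT.lf (nat_lit 0) (nat_lit 16526137635) (nat_lit 380) (nat_lit 19507051759) (nat_lit 456) (nat_lit 15885951104) (nat_lit 107) (nat_lit 5) (nat_lit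 112) (nat_lit 5) (nat_lit 113) (nat_lit 5) (nat_lit 362) (nat_lit 325) (nat_lit 93))))) (XT.nd (nat_lit 234) (nat_lit 760) (nat_lit 0) (XT.nd (nat_lit 78) (nat_lit 456) (nat_lit 0) (XT.lf (nat_lit 0) (nat_lit 41875643260) (nat_lit 380) (nat_lit 1279598071) (nat_lit 456) (nat_lit 9741222501) (nat_lit 107) (nat_lit 5) (nat_lit 112) (nat_lit 5) (nat_lit 113) (nat_lit 5) (nat_lit 363) (nat_lit 325) (nat_lit 92)) (XT.nd (nat_lit 78) (nat_lit 76) (nat_lit 0) (XT.lf (nat_lit 0) (nat_lit 14189796854) (nat_lit 380) (nat_lit 36604536199) (nat_lit 456) (nat_lit 3099673955) (nat_lit 102) (nat_lit 5) (nat_lit 107) (nat_lit 5) (nat_lit 108) (nat_lit 5) (nat_lit 364) (nat_lit 325) (nat_lit 91)) (XT.lf (nat_lit 0) (nat_lit 3791993659) (nat_lit 456) (nat_lit 14586687632) (nat_lit 76) (nat_lit 36538001474) (nat_lit 101) (nat_lit 5) (nat_lit 107) (nat_lit 5) (nat_lit 102) (nat_lit 5) (nat_lit 365) (nat_lit 325)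 (nat_lit 90)))) (XT.nd (nat_lit 156) (nat_lit 380) (nat_lit 0) (XT.nd (nat_lit 78) (nat_lit 0) (nat_lit 0) (XT.lf (nat_lit 0) (nat_lit 10942457463) (nat_lit 456) (nat_lit 44494835164) (nat_lit 76) (nat_lit 528396440) (nat_lit 96) (nat_lit 5) (nat_lit 102) (nat_lit 5) (nat_lit 97) (nat_lit 5) (nat_lit 366) (nat_lit 325) (nat_lit 89)) (XT.lf (nat_lit 0) (nat_lit 18637024946) (nat_lit 456) (nat_lit 18617479137) (nat_lit 76) (nat_lit 19781775105) (nat_lit 96) (nat_lit 5) (nat_lit 102) (nat_lit 5) (nat_lit 97) (nat_lit 5) (nat_lit 367) (nat_lit 325) (nat_lit 88))) (XT.nd (nat_lit 78) (nat_lit 0) (nat_lit 0) (XT.lf (nat_lit 0) (nat_lit 8194706349) (nat_lit 380) (nat_lit 18445395922) (nat_lit 456) (nat_lit 31496555842) (nat_lit 91) (nat_lit 5) (nat_lit 96) (nat_lit 5) (nat_lit 97) (nat_lit 5) (nat_lit 368) (nat_lit 325) (nat_lit 87)) (XT.lf (nat_lit 0) (nat_lit 35080969768) (nat_lit 456) (nat_lit 23083709171)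 (nat_lit 76) (nat_lit 1099439778) (nat_lit 91) (nat_lit 5) (nat_lit 97) (nat_lit 5) (nat_lit 92) (nat_lit 5) (nat_lit 369) (nat_lit 325) (nat_lit 86))))))))
noncomputable def xc237 : XT := (XT.nd (nat_lit 37986) (nat_lit 0) (nat_lit 3800) (XT.nd (nat_lit 1014) (nat_lit 228) (nat_lit 0) (XT.nd (nat_lit 468) (nat_lit 912) (nat_lit 0) (XT.nd (nat_lit 234) (nat_lit 304) (nat_lit 0) (XT.nd (nat_lit 78) (nat_lit 456) (nat_lit 0) (XT.lf (nat_lit 0) (nat_lit 4483772335) (nat_lit 304) (nat_lit 39515967037) (nat_lit 380) (nat_lit 16418924696) (nat_lit 87) (nat_lit 5) (nat_lit 91) (nat_lit 5) (nat_lit 92) (nat_lit 5) (nat_lit 370) (nat_lit 325) (nat_lit 85)) (XT.nd (nat_lit 78) (nat_lit 456) (nat_lit 0) (XT.lf (nat_lit 0) (nat_lit 33350109947) (nat_lit 304) (nat_lit 20068027517) (nat_lit 380) (nat_lit 8182747528) (nat_lit 87) (nat_lit 5) (nat_lit 91) (nat_lit 5) (nat_lit 92) (nat_lit 5) (nat_lit 371) (nat_lit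 325) (nat_lit 84)) (XT.lf (nat_lit 0) (nat_lit 264800205) (nat_lit 380) (nat_lit 31380312) (nat_lit 456) (nat_lit 62522260584) (nat_lit 81) (nat_lit 5) (nat_lit 86) (nat_lit 5) (nat_lit 87) (nat_lit 5) (nat_lit 372) (nat_lit 325) (nat_lit 83)))) (XT.nd (nat_lit 78) (nat_lit 304) (nat_lit 0) (XT.lf (nat_lit 0) (nat_lit 9350192131) (nat_lit 456) (nat_lit 34132290590) (nat_lit 76) (nat_lit 20573056304) (nat_lit 81) (nat_lit 5) (nat_lit 87) (nat_lit 5) (nat_lit 82) (nat_lit 5) (nat_lit 373) (nat_lit 325) (nat_lit 82)) (XT.nd (nat_lit 78) (nat_lit 304) (nat_lit 0) (XT.lf (nat_lit 0) (nat_lit 18675161861) (nat_lit 456) (nat_lit 4859929010) (nat_lit 76) (nat_lit 41794679926) (nat_lit 81) (nat_lit 5) (nat_lit 87) (nat_lit 5) (nat_lit 82) (nat_lit 5) (nat_lit 374) (nat_lit 325) (nat_lit 81)) (XT.lf (nat_lit 0) (nat_lit 25792630401) (nat_lit 304) (nat_lit 2734240234) (nat_lit 380) (nat_lit 38107950203)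 (nat_lit 77) (nat_lit 5) (nat_lit 81) (nat_lit 5) (nat_lit 82) (nat_lit 5) (nat_lit 375) (nat_lit 325) (nat_lit 80))))) (XT.nd (nat_lit 234) (nat_lit 608) (nat_lit 0) (XT.nd (nat_lit 78) (nat_lit 304) (nat_lit 0) (XT.lf (nat_lit 0) (nat_lit 38902425639) (nat_lit 380) (nat_lit 10694604654) (nat_lit 76) (nat_lit 18375144224) (nat_lit 77) (nat_lit 5) (nat_lit 82) (nat_lit 5) (nat_lit 78) (nat_lit 5) (nat_lit 376) (nat_lit 325) (nat_lit 79)) (XT.nd (nat_lit 78) (nat_lit 0) (nat_lit 0) (XT.lf (nat_lit 0) (nat_lit 20733670069) (nat_lit 304) (nat_lit 29081048275) (nat_lit 380) (nat_lit 19528167286) (nat_lit 73) (nat_lit 5) (nat_lit 77) (nat_lit 5) (nat_lit 78) (nat_lit 5) (nat_lit 377) (nat_lit 325) (nat_lit 78)) (XT.lf (nat_lit 0) (nat_lit 53322778725) (nat_lit 304) (nat_lit 7838704709) (nat_lit 380) (nat_lit 9590022463) (nat_lit 73) (nat_lit 5) (nat_lit 77) (nat_lit 5) (nat_lit 78) (nat_lit 5) (nat_lit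 378) (nat_lit 325) (nat_lit 77)))) (XT.nd (nat_lit 156) (nat_lit 304) (nat_lit 0) (XT.nd (nat_lit 78) (nat_lit 0) (nat_lit 0) (XT.lf (nat_lit 0) (nat_lit 913153167) (nat_lit 304) (nat_lit 57362466980) (nat_lit 76) (nat_lit 13918194206) (nat_lit 69) (nat_lit 5) (nat_lit 73) (nat_lit 5) (nat_lit 70) (nat_lit 5) (nat_lit 379) (nat_lit 325) (nat_lit 76)) (XT.lf (nat_lit 0) (nat_lit 11793159536) (nat_lit 304) (nat_lit 25433156953) (nat_lit 76) (nat_lit 36442593339) (nat_lit 69) (nat_lit 5) (nat_lit 73) (nat_lit 5) (nat_lit 70) (nat_lit 5) (nat_lit 380) (nat_lit 325) (nat_lit 75))) (XT.nd (nat_lit 78) (nat_lit 0) (nat_lit 0) (XT.lf (nat_lit 0) (nat_lit 7601157804) (nat_lit 304) (nat_lit 15470636420) (nat_lit 380) (nat_lit 52114297924) (nat_lit 65) (nat_lit 5) (nat_lit 69) (nat_lit 5) (nat_lit 70) (nat_lit 5) (nat_lit 381) (nat_lit 325) (nat_lit 74)) (XT.lf (nat_lit 0) (nat_lit 35014016010) (nat_lit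 380) (nat_lit 34663671630) (nat_lit 76) (nat_lit 7061346258) (nat_lit 65) (nat_lit 5) (nat_lit 70) (nat_lit 5) (nat_lit 66) (nat_lit 5) (nat_lit 382) (nat_lit 325) (nat_lit 73)))))) (XT.nd (nat_lit 36426) (nat_lit 0) (nat_lit 8664) (XT.nd (nat_lit 36192) (nat_lit 0) (nat_lit 8588) (XT.nd (nat_lit 78) (nat_lit 228) (nat_lit 0) (XT.lf (nat_lit 0) (nat_lit 47466873887) (nat_lit 380) (nat_lit 909121239) (nat_lit 76) (nat_lit 29957998467) (nat_lit 65) (nat_lit 5) (nat_lit 70) (nat_lit 5) (nat_lit 66) (nat_lit 5) (nat_lit 383) (nat_lit 325) (nat_lit 72)) (XT.nd (nat_lit 78) (nat_lit 0) (nat_lit 0) (XT.lf (nat_lit 0) (nat_lit 34530743496) (nat_lit 228) (nat_lit 26093722909) (nat_lit 304) (nat_lit 19342401962) (nat_lit 62) (nat_lit 5) (nat_lit 65) (nat_lit 5) (nat_lit 66) (nat_lit 5) (nat_lit 384) (nat_lit 325) (nat_lit 71)) (XT.lf (nat_lit 0) (nat_lit 71051310110) (nat_lit 228) (nat_lit 3133887108)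 (nat_lit 304) (nat_lit 7463280584) (nat_lit 62) (nat_lit 5) (nat_lit 65) (nat_lit 5) (nat_lit 66) (nat_lit 5) (nat_lit 385) (nat_lit 325) (nat_lit 70)))) (XT.nd (nat_lit 78) (nat_lit 0) (nat_lit 0) (XT.lf (nat_lit 0) (nat_lit 1587300778) (nat_lit 0) (nat_lit 1587300778) (nat_lit 1140) (nat_lit 11263556889) (nat_lit 175) (nat_lit 5) (nat_lit 175) (nat_lit 3) (nat_lit 190) (nat_lit 3) (nat_lit 326) (nat_lit 326) (nat_lit 128)) (XT.nd (nat_lit 78) (nat_lit 0) (nat_lit 0) (XT.lf (nat_lit 0) (nat_lit 6612995216) (nat_lit 1140) (nat_lit 13080631062) (nat_lit 1216) (nat_lit 9610664817) (nat_lit 175) (nat_lit 5) (nat_lit 190) (nat_lit 3) (nat_lit 191) (nat_lit 5) (nat_lit 327) (nat_lit 326) (nat_lit 127)) (XT.lf (nat_lit 0) (nat_lit 6913245757) (nat_lit 1140) (nat_lit 113901859) (nat_lit 1216) (nat_lit 22717105014) (nat_lit 175) (nat_lit 5) (nat_lit 190) (nat_lit 3) (nat_lit 191) (nat_lit 5) (nat_lit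 328) (nat_lit 326) (nat_lit 126))))) (XT.nd (nat_lit 234) (nat_lit 0) (nat_lit 76) (XT.nd (nat_lit 78) (nat_lit 0) (nat_lit 0) (XT.lf (nat_lit 0) (nat_lit 7408667006) (nat_lit 1140) (nat_lit 16748939346) (nat_lit 1216) (nat_lit 6034226080) (nat_lit 176) (nat_lit 5) (nat_lit 191) (nat_lit 5) (nat_lit 192) (nat_lit 5) (nat_lit 329) (nat_lit 326) (nat_lit 125)) (XT.nd (nat_lit 78) (nat_lit 0) (nat_lit 76) (XT.lf (nat_lit 0) (nat_lit 7986964431) (nat_lit 1140) (nat_lit 3315259425) (nat_lit 1216) (nat_lit 19348579558) (nat_lit 176) (nat_lit 5) (nat_lit 191) (nat_lit 5) (nat_lit 192) (nat_lit 5) (nat_lit 330) (nat_lit 326) (nat_lit 124)) (XT.lf (nat_lit 0) (nat_lit 8702771286) (nat_lit 1140) (nat_lit 20410951990) (nat_lit 1216) (nat_lit 2006219502) (nat_lit 177) (nat_lit 5) (nat_lit 192) (nat_lit 5) (nat_lit 193) (nat_lit 5) (nat_lit 331) (nat_lit 326) (nat_lit 123)))) (XT.nd (nat_lit 156) (nat_lit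 0) (nat_lit 76) (XT.nd (nat_lit 78) (nat_lit 0) (nat_lit 0) (XT.lf (nat_lit 0) (nat_lit 9583192597) (nat_lit 1140) (nat_lit 6494082447) (nat_lit 1216) (nat_lit 15521591022) (nat_lit 177) (nat_lit 5) (nat_lit 192) (nat_lit 5) (nat_lit 193) (nat_lit 5) (nat_lit 332) (nat_lit 326) (nat_lit 122)) (XT.lf (nat_lit 76) (nat_lit 7994722449) (nat_lit 0) (nat_lit 2569657137) (nat_lit 1216) (nat_lit 21525550712) (nat_lit 178) (nat_lit 5) (nat_lit 177) (nat_lit 5) (nat_lit 193) (nat_lit 5) (nat_lit 333) (nat_lit 326) (nat_lit 121))) (XT.nd (nat_lit 78) (nat_lit 0) (nat_lit 0) (XT.lf (nat_lit 0) (nat_lit 11747835684) (nat_lit 1140) (nat_lit 9653778728) (nat_lit 1216) (nat_lit 11188930762) (nat_lit 178) (nat_lit 5) (nat_lit 193) (nat_lit 5) (nat_lit 194) (nat_lit 5) (nat_lit 334) (nat_lit 326) (nat_lit 120)) (XT.lf (nat_lit 76) (nat_lit 5297220466) (nat_lit 0) (nat_lit 7743577120) (nat_lit 1216) (nat_lit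 20063164463) (nat_lit 179) (nat_lit 5) (nat_lit 178) (nat_lit 5) (nat_lit 194) (nat_lit 5) (nat_lit 335) (nat_lit 326) (nat_lit 119))))))) (XT.nd (nat_lit 1014) (nat_lit 2964) (nat_lit 0) (XT.nd (nat_lit 468) (nat_lit 2128) (nat_lit 0) (XT.nd (nat_lit 234) (nat_lit 0) (nat_lit 76) (XT.nd (nat_lit 78) (nat_lit 0) (nat_lit 0) (XT.lf (nat_lit 0) (nat_lit 14529490197) (nat_lit 1140) (nat_lit 12798634045) (nat_lit 1216) (nat_lit 6299952442) (nat_lit 179) (nat_lit 5) (nat_lit 194) (nat_lit 5) (nat_lit 195) (nat_lit 5) (nat_lit 336) (nat_lit 326) (nat_lit 118)) (XT.nd (nat_lit 78) (nat_lit 0) (nat_lit 76) (XT.lf (nat_lit 76) (nat_lit 2632809155) (nat_lit 0) (nat_lit 13529778997) (nat_lit 1216) (nat_lit 18002337678) (nat_lit 180) (nat_lit 5) (nat_lit 179) (nat_lit 5) (nat_lit 195) (nat_lit 5) (nat_lit 337) (nat_lit 326) (nat_lit 117)) (XT.lf (nat_lit 0) (nat_lit 17979583138) (nat_lit 1140) (nat_lit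 15933961166) (nat_lit 1216) (nat_lit 800292331) (nat_lit 180) (nat_lit 5) (nat_lit 195) (nat_lit 5) (nat_lit 196) (nat_lit 5) (nat_lit 338) (nat_lit 326) (nat_lit 116)))) (XT.nd (nat_lit 78) (nat_lit 0) (nat_lit 0) (XT.lf (nat_lit 0) (nat_lit 19982932201) (nat_lit 1140) (nat_lit 3443151) (nat_lit 1216) (nat_lit 15288887299) (nat_lit 180) (nat_lit 5) (nat_lit 195) (nat_lit 5) (nat_lit 196) (nat_lit 5) (nat_lit 339) (nat_lit 326) (nat_lit 115)) (XT.nd (nat_lit 78) (nat_lit 0) (nat_lit 76) (XT.lf (nat_lit 76) (nat_lit 16729873850) (nat_lit 0) (nat_lit 5475273259) (nat_lit 1216) (nat_lit 13643624493) (nat_lit 181) (nat_lit 5) (nat_lit 180) (nat_lit 5) (nat_lit 196) (nat_lit 5) (nat_lit 340) (nat_lit 326) (nat_lit 114)) (XT.lf (nat_lit 0) (nat_lit 24583102838) (nat_lit 1140) (nat_lit 2566895526) (nat_lit 1216) (nat_lit 9286818257) (nat_lit 181) (nat_lit 5) (nat_lit 196) (nat_lit 5) (nat_lit 197)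 (nat_lit 5) (nat_lit 341) (nat_lit 326) (nat_lit 113))))) (XT.nd (nat_lit 234) (nat_lit 1216) (nat_lit 0) (XT.nd (nat_lit 78) (nat_lit 1064) (nat_lit 0) (XT.lf (nat_lit 76) (nat_lit 14712978033) (nat_lit 0) (nat_lit 12513114982) (nat_lit 1216) (nat_lit 9810602040) (nat_lit 182) (nat_lit 5) (nat_lit 181) (nat_lit 5) (nat_lit 197) (nat_lit 5) (nat_lit 342) (nat_lit 326) (nat_lit 112)) (XT.nd (nat_lit 78) (nat_lit 1140) (nat_lit 0) (XT.lf (nat_lit 0) (nat_lit 29997285920) (nat_lit 1140) (nat_lit 5116447146) (nat_lit 76) (nat_lit 2539372240) (nat_lit 182) (nat_lit 5) (nat_lit 197) (nat_lit 5) (nat_lit 183) (nat_lit 5) (nat_lit 343) (nat_lit 326) (nat_lit 111)) (XT.lf (nat_lit 0) (nat_lit 12729974702) (nat_lit 1140) (nat_lit 20366055635) (nat_lit 1216) (nat_lit 5184647826) (nat_lit 167) (nat_lit 5) (nat_lit 182) (nat_lit 5) (nat_lit 183) (nat_lit 5) (nat_lit 344) (nat_lit 326) (nat_lit 110)))) (XT.nd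 (nat_lit 156) (nat_lit 608) (nat_lit 0) (XT.nd (nat_lit 78) (nat_lit 608) (nat_lit 0) (XT.lf (nat_lit 0) (nat_lit 31215105307) (nat_lit 1140) (nat_lit 5122491736) (nat_lit 1216) (nat_lit 2587988054) (nat_lit 167) (nat_lit 5) (nat_lit 182) (nat_lit 5) (nat_lit 183) (nat_lit 5) (nat_lit 345) (nat_lit 326) (nat_lit 109)) (XT.lf (nat_lit 0) (nat_lit 290374805) (nat_lit 608) (nat_lit 28814699126) (nat_lit 76) (nat_lit 10478578101) (nat_lit 159) (nat_lit 5) (nat_lit 167) (nat_lit 5) (nat_lit 160) (nat_lit 5) (nat_lit 346) (nat_lit 326) (nat_lit 108))) (XT.nd (nat_lit 78) (nat_lit 608) (nat_lit 0) (XT.lf (nat_lit 0) (nat_lit 3330687157) (nat_lit 608) (nat_lit 10377010986) (nat_lit 76) (nat_lit 26549168146) (nat_lit 159) (nat_lit 5) (nat_lit 167) (nat_lit 5) (nat_lit 160) (nat_lit 5) (nat_lit 347) (nat_lit 326) (nat_lit 107)) (XT.lf (nat_lit 0) (nat_lit 6566478244) (nat_lit 684) (nat_lit 32185660870)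 (nat_lit 76) (nat_lit 2195012168) (nat_lit 151) (nat_lit 5) (nat_lit 160) (nat_lit 5) (nat_lit 152) (nat_lit 5) (nat_lit 348) (nat_lit 326) (nat_lit 106)))))) (XT.nd (nat_lit 546) (nat_lit 1444) (nat_lit 0) (XT.nd (nat_lit 234) (nat_lit 988) (nat_lit 0) (XT.nd (nat_lit 78) (nat_lit 532) (nat_lit 0) (XT.lf (nat_lit 0) (nat_lit 10139238931) (nat_lit 684) (nat_lit 13106483581) (nat_lit 76) (nat_lit 18405227757) (nat_lit 151) (nat_lit 5) (nat_lit 160) (nat_lit 5) (nat_lit 152) (nat_lit 5) (nat_lit 349) (nat_lit 326) (nat_lit 105)) (XT.nd (nat_lit 78) (nat_lit 0) (nat_lit 0) (XT.lf (nat_lit 0) (nat_lit 6673753823) (nat_lit 532) (nat_lit 7207979967) (nat_lit 608) (nat_lit 28492255150) (nat_lit 144) (nat_lit 5) (nat_lit 151) (nat_lit 5) (nat_lit 152) (nat_lit 5) (nat_lit 350) (nat_lit 326) (nat_lit 104)) (XT.lf (nat_lit 0) (nat_lit 17958097149) (nat_lit 608) (nat_lit 15891070950) (nat_lit 76) (nat_lit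 9262905048) (nat_lit 144) (nat_lit 5) (nat_lit 152) (nat_lit 5) (nat_lit 145) (nat_lit 5) (nat_lit 351) (nat_lit 326) (nat_lit 103)))) (XT.nd (nat_lit 156) (nat_lit 456) (nat_lit 0) (XT.nd (nat_lit 78) (nat_lit 0) (nat_lit 0) (XT.lf (nat_lit 0) (nat_lit 4527823452) (nat_lit 532) (nat_lit 17742295448) (nat_lit 608) (nat_lit 21598782081) (nat_lit 137) (nat_lit 5) (nat_lit 144) (nat_lit 5) (nat_lit 145) (nat_lit 5) (nat_lit 352) (nat_lit 326) (nat_lit 102)) (XT.lf (nat_lit 0) (nat_lit 25883518392) (nat_lit 532) (nat_lit 986958479) (nat_lit 608) (nat_lit 17773189572) (nat_lit 137) (nat_lit 5) (nat_lit 144) (nat_lit 5) (nat_lit 145) (nat_lit 5) (nat_lit 353) (nat_lit 326) (nat_lit 101))) (XT.nd (nat_lit 78) (nat_lit 0) (nat_lit 0) (XT.lf (nat_lit 0) (nat_lit 2325665519) (nat_lit 456) (nat_lit 29460493127) (nat_lit 532) (nat_lit 13650198832) (nat_lit 131) (nat_lit 5) (nat_lit 137) (nat_lit 5) (nat_lit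 138) (nat_lit 5) (nat_lit 354) (nat_lit 326) (nat_lit 100)) (XT.lf (nat_lit 0) (nat_lit 24417147959) (nat_lit 456) (nat_lit 12629857632) (nat_lit 532) (nat_lit 9199894757) (nat_lit 131) (nat_lit 5) (nat_lit 137) (nat_lit 5) (nat_lit 138) (nat_lit 5) (nat_lit 355) (nat_lit 326) (nat_lit 99))))) (XT.nd (nat_lit 234) (nat_lit 912) (nat_lit 0) (XT.nd (nat_lit 78) (nat_lit 76) (nat_lit 0) (XT.lf (nat_lit 0) (nat_lit 43732124) (nat_lit 456) (nat_lit 42466218835) (nat_lit 532) (nat_lit 4570482241) (nat_lit 125) (nat_lit 5) (nat_lit 131) (nat_lit 5) (nat_lit 132) (nat_lit 5) (nat_lit 356) (nat_lit 326) (nat_lit 98)) (XT.nd (nat_lit 78) (nat_lit 0) (nat_lit 0) (XT.lf (nat_lit 0) (nat_lit 540250268) (nat_lit 532) (nat_lit 25042098258) (nat_lit 76) (nat_lit 22346179314) (nat_lit 124) (nat_lit 5) (nat_lit 131) (nat_lit 5) (nat_lit 125) (nat_lit 5) (nat_lit 357) (nat_lit 326) (nat_lit 97)) (XT.lf (nat_lit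 0) (nat_lit 5711111822) (nat_lit 532) (nat_lit 2434382378) (nat_lit 76) (nat_lit 40655255201) (nat_lit 124) (nat_lit 5) (nat_lit 131) (nat_lit 5) (nat_lit 125) (nat_lit 5) (nat_lit 358) (nat_lit 326) (nat_lit 96)))) (XT.nd (nat_lit 156) (nat_lit 456) (nat_lit 0) (XT.nd (nat_lit 78) (nat_lit 0) (nat_lit 0) (XT.lf (nat_lit 0) (nat_lit 11336585525) (nat_lit 532) (nat_lit 28524317147) (nat_lit 76) (nat_lit 9829252024) (nat_lit 118) (nat_lit 5) (nat_lit 125) (nat_lit 5) (nat_lit 119) (nat_lit 5) (nat_lit 359) (nat_lit 326) (nat_lit 95)) (XT.lf (nat_lit 0) (nat_lit 17235028374) (nat_lit 532) (nat_lit 5163884052) (nat_lit 76) (nat_lit 28204205204) (nat_lit 118) (nat_lit 5) (nat_lit 125) (nat_lit 5) (nat_lit 119) (nat_lit 5) (nat_lit 360) (nat_lit 326) (nat_lit 94))) (XT.nd (nat_lit 78) (nat_lit 0) (nat_lit 0) (XT.lf (nat_lit 0) (nat_lit 19272016793) (nat_lit 456) (nat_lit 4222429699) (nat_lit 532)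 (nat_lit 28043503880) (nat_lit 112) (nat_lit 5) (nat_lit 118) (nat_lit 5) (nat_lit 119) (nat_lit 5) (nat_lit 361) (nat_lit 326) (nat_lit 93)) (XT.lf (nat_lit 0) (nat_lit 30132473367) (nat_lit 532) (nat_lit 8093741297) (nat_lit 76) (nat_lit 14268890179) (nat_lit 112) (nat_lit 5) (nat_lit 119) (nat_lit 5) (nat_lit 113) (nat_lit 5) (nat_lit 362) (nat_lit 326) (nat_lit 92))))))))
noncomputable def xc238 : XT := (XT.nd (nat_lit 38064) (nat_lit 0) (nat_lit 5244) (XT.nd (nat_lit 1014) (nat_lit 1444) (nat_lit 0) (XT.nd (nat_lit 468) (nat_lit 1140) (nat_lit 0) (XT.nd (nat_lit 234) (nat_lit 456) (nat_lit 0) (XT.nd (nat_lit 78) (nat_lit 380) (nat_lit 0) (XT.lf (nat_lit 0) (nat_lit 17093983580) (nat_lit 380) (nat_lit 20080605047) (nat_lit 456) (nat_lit 16300238384) (nat_lit 107) (nat_lit 5) (nat_lit 112) (nat_lit 5) (nat_lit 113) (nat_lit 5) (nat_lit 363) (nat_lit 326) (nat_lit 91)) (XT.nd (nat_lit 78)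 (nat_lit 380) (nat_lit 0) (XT.lf (nat_lit 0) (nat_lit 43201875486) (nat_lit 380) (nat_lit 1306667309) (nat_lit 456) (nat_lit 9972982232) (nat_lit 107) (nat_lit 5) (nat_lit 112) (nat_lit 5) (nat_lit 113) (nat_lit 5) (nat_lit 364) (nat_lit 326) (nat_lit 90)) (XT.lf (nat_lit 0) (nat_lit 14686474794) (nat_lit 380) (nat_lit 37689412367) (nat_lit 456) (nat_lit 3133137080) (nat_lit 102) (nat_lit 5) (nat_lit 107) (nat_lit 5) (nat_lit 108) (nat_lit 5) (nat_lit 365) (nat_lit 326) (nat_lit 89)))) (XT.nd (nat_lit 78) (nat_lit 380) (nat_lit 0) (XT.lf (nat_lit 0) (nat_lit 3962419009) (nat_lit 456) (nat_lit 14954176804) (nat_lit 76) (nat_lit 37645820305) (nat_lit 101) (nat_lit 5) (nat_lit 107) (nat_lit 5) (nat_lit 102) (nat_lit 5) (nat_lit 366) (nat_lit 326) (nat_lit 88)) (XT.nd (nat_lit 78) (nat_lit 0) (nat_lit 0) (XT.lf (nat_lit 0) (nat_lit 11326545714) (nat_lit 456) (nat_lit 45758652540) (nat_lit 76) (nat_lit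 557721841) (nat_lit 96) (nat_lit 5) (nat_lit 102) (nat_lit 5) (nat_lit 97) (nat_lit 5) (nat_lit 367) (nat_lit 326) (nat_lit 87)) (XT.lf (nat_lit 0) (nat_lit 19250324556) (nat_lit 456) (nat_lit 19107044599) (nat_lit 76) (nat_lit 20388309433) (nat_lit 96) (nat_lit 5) (nat_lit 102) (nat_lit 5) (nat_lit 97) (nat_lit 5) (nat_lit 368) (nat_lit 326) (nat_lit 86))))) (XT.nd (nat_lit 234) (nat_lit 456) (nat_lit 0) (XT.nd (nat_lit 78) (nat_lit 304) (nat_lit 0) (XT.lf (nat_lit 0) (nat_lit 8508830383) (nat_lit 380) (nat_lit 18983741877) (nat_lit 456) (nat_lit 32386526122) (nat_lit 91) (nat_lit 5) (nat_lit 96) (nat_lit 5) (nat_lit 97) (nat_lit 5) (nat_lit 369) (nat_lit 326) (nat_lit 85)) (XT.nd (nat_lit 78) (nat_lit 304) (nat_lit 0) (XT.lf (nat_lit 0) (nat_lit 36185254457) (nat_lit 456) (nat_lit 23708455422) (nat_lit 76) (nat_lit 1146717056) (nat_lit 91) (nat_lit 5) (nat_lit 97) (nat_lit 5) (nat_lit 92)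 (nat_lit 5) (nat_lit 370) (nat_lit 326) (nat_lit 84)) (XT.lf (nat_lit 0) (nat_lit 4685386166) (nat_lit 304) (nat_lit 40685335638) (nat_lit 380) (nat_lit 16858914540) (nat_lit 87) (nat_lit 5) (nat_lit 91) (nat_lit 5) (nat_lit 92) (nat_lit 5) (nat_lit 371) (nat_lit 326) (nat_lit 83)))) (XT.nd (nat_lit 156) (nat_lit 0) (nat_lit 0) (XT.nd (nat_lit 78) (nat_lit 456) (nat_lit 0) (XT.lf (nat_lit 0) (nat_lit 34415759519) (nat_lit 304) (nat_lit 20654427168) (nat_lit 380) (nat_lit 8377183453) (nat_lit 87) (nat_lit 5) (nat_lit 91) (nat_lit 5) (nat_lit 92) (nat_lit 5) (nat_lit 372) (nat_lit 326) (nat_lit 82)) (XT.lf (nat_lit 0) (nat_lit 338292207) (nat_lit 380) (nat_lit 15996435) (nat_lit 456) (nat_lit 64347175990) (nat_lit 81) (nat_lit 5) (nat_lit 86) (nat_lit 5) (nat_lit 87) (nat_lit 5) (nat_lit 373) (nat_lit 326) (nat_lit 81))) (XT.nd (nat_lit 78) (nat_lit 0) (nat_lit 0) (XT.lf (nat_lit 0) (nat_lit 9678639290)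 (nat_lit 456) (nat_lit 35091287687) (nat_lit 76) (nat_lit 21205788499) (nat_lit 81) (nat_lit 5) (nat_lit 87) (nat_lit 5) (nat_lit 82) (nat_lit 5) (nat_lit 374) (nat_lit 326) (nat_lit 80)) (XT.lf (nat_lit 0) (nat_lit 19281961761) (nat_lit 456) (nat_lit 4942647637) (nat_lit 76) (nat_lit 43063608194) (nat_lit 81) (nat_lit 5) (nat_lit 87) (nat_lit 5) (nat_lit 82) (nat_lit 5) (nat_lit 375) (nat_lit 326) (nat_lit 79)))))) (XT.nd (nat_lit 468) (nat_lit 532) (nat_lit 0) (XT.nd (nat_lit 234) (nat_lit 304) (nat_lit 0) (XT.nd (nat_lit 78) (nat_lit 304) (nat_lit 0) (XT.lf (nat_lit 0) (nat_lit 26628870132) (nat_lit 304) (nat_lit 2799596397) (nat_lit 380) (nat_lit 39203976719) (nat_lit 77) (nat_lit 5) (nat_lit 81) (nat_lit 5) (nat_lit 82) (nat_lit 5) (nat_lit 376) (nat_lit 326) (nat_lit 78)) (XT.nd (nat_lit 78) (nat_lit 304) (nat_lit 0) (XT.lf (nat_lit 0) (nat_lit 40114110085) (nat_lit 380) (nat_lit 10953576016)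 (nat_lit 76) (nat_lit 18942268193) (nat_lit 77) (nat_lit 5) (nat_lit 82) (nat_lit 5) (nat_lit 78) (nat_lit 5) (nat_lit 377) (nat_lit 326) (nat_lit 77)) (XT.lf (nat_lit 0) (nat_lit 21416940412) (nat_lit 304) (nat_lit 29936120661) (nat_lit 380) (nat_lit 20068748354) (nat_lit 73) (nat_lit 5) (nat_lit 77) (nat_lit 5) (nat_lit 78) (nat_lit 5) (nat_lit 378) (nat_lit 326) (nat_lit 76)))) (XT.nd (nat_lit 78) (nat_lit 304) (nat_lit 0) (XT.lf (nat_lit 0) (nat_lit 54981938048) (nat_lit 304) (nat_lit 8057012391) (nat_lit 380) (nat_lit 9833777554) (nat_lit 73) (nat_lit 5) (nat_lit 77) (nat_lit 5) (nat_lit 78) (nat_lit 5) (nat_lit 379) (nat_lit 326) (nat_lit 75)) (XT.nd (nat_lit 78) (nat_lit 0) (nat_lit 0) (XT.lf (nat_lit 0) (nat_lit 983122541) (nat_lit 304) (nat_lit 59022409258) (nat_lit 76) (nat_lit 14352777886) (nat_lit 69) (nat_lit 5) (nat_lit 73) (nat_lit 5) (nat_lit 70) (nat_lit 5) (nat_lit 380) (nat_lit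 326) (nat_lit 74)) (XT.lf (nat_lit 0) (nat_lit 12188289059) (nat_lit 304) (nat_lit 26136994640) (nat_lit 76) (nat_lit 37552412745) (nat_lit 69) (nat_lit 5) (nat_lit 73) (nat_lit 5) (nat_lit 70) (nat_lit 5) (nat_lit 381) (nat_lit 326) (nat_lit 73))))) (XT.nd (nat_lit 234) (nat_lit 228) (nat_lit 0) (XT.nd (nat_lit 78) (nat_lit 0) (nat_lit 0) (XT.lf (nat_lit 0) (nat_lit 7887769588) (nat_lit 304) (nat_lit 15916872354) (nat_lit 380) (nat_lit 53635772702) (nat_lit 65) (nat_lit 5) (nat_lit 69) (nat_lit 5) (nat_lit 70) (nat_lit 5) (nat_lit 382) (nat_lit 326) (nat_lit 72)) (XT.nd (nat_lit 78) (nat_lit 0) (nat_lit 0) (XT.lf (nat_lit 0) (nat_lit 36104112019) (nat_lit 380) (nat_lit 35645654191) (nat_lit 76) (nat_lit 7290210135) (nat_lit 65) (nat_lit 5) (nat_lit 70) (nat_lit 5) (nat_lit 66) (nat_lit 5) (nat_lit 383) (nat_lit 326) (nat_lit 71)) (XT.lf (nat_lit 0) (nat_lit 48929400035) (nat_lit 380) (nat_lit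 880154500) (nat_lit 76) (nat_lit 30873266080) (nat_lit 65) (nat_lit 5) (nat_lit 70) (nat_lit 5) (nat_lit 66) (nat_lit 5) (nat_lit 384) (nat_lit 326) (nat_lit 70)))) (XT.nd (nat_lit 36192) (nat_lit 0) (nat_lit 8588) (XT.nd (nat_lit 36114) (nat_lit 0) (nat_lit 8588) (XT.lf (nat_lit 0) (nat_lit 35622354801) (nat_lit 228) (nat_lit 26858778904) (nat_lit 304) (nat_lit 19883566609) (nat_lit 62) (nat_lit 5) (nat_lit 65) (nat_lit 5) (nat_lit 66) (nat_lit 5) (nat_lit 385) (nat_lit 326) (nat_lit 69)) (XT.lf (nat_lit 0) (nat_lit 1671728465) (nat_lit 0) (nat_lit 1671728465) (nat_lit 1140) (nat_lit 11525524915) (nat_lit 175) (nat_lit 5) (nat_lit 175) (nat_lit 3) (nat_lit 190) (nat_lit 3) (nat_lit 327) (nat_lit 327) (nat_lit 126))) (XT.nd (nat_lit 78) (nat_lit 0) (nat_lit 0) (XT.lf (nat_lit 0) (nat_lit 6953644295) (nat_lit 1140) (nat_lit 13396382335) (nat_lit 1216) (nat_lit 9828906327) (nat_lit 175) (nat_lit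 5) (nat_lit 190) (nat_lit 3) (nat_lit 191) (nat_lit 5) (nat_lit 328) (nat_lit 327) (nat_lit 125)) (XT.lf (nat_lit 0) (nat_lit 7258758880) (nat_lit 1140) (nat_lit 42884294) (nat_lit 1216) (nat_lit 23330580850) (nat_lit 175) (nat_lit 5) (nat_lit 190) (nat_lit 3) (nat_lit 191) (nat_lit 5) (nat_lit 329) (nat_lit 327) (nat_lit 124))))))) (XT.nd (nat_lit 1014) (nat_lit 3420) (nat_lit 0) (XT.nd (nat_lit 468) (nat_lit 0) (nat_lit 152) (XT.nd (nat_lit 234) (nat_lit 0) (nat_lit 76) (XT.nd (nat_lit 78) (nat_lit 0) (nat_lit 0) (XT.lf (nat_lit 0) (nat_lit 7765141176) (nat_lit 1140) (nat_lit 17172864798) (nat_lit 1216) (nat_lit 6155348489) (nat_lit 176) (nat_lit 5) (nat_lit 191) (nat_lit 5) (nat_lit 192) (nat_lit 5) (nat_lit 330) (nat_lit 327) (nat_lit 123)) (XT.nd (nat_lit 78) (nat_lit 0) (nat_lit 76) (XT.lf (nat_lit 0) (nat_lit 8356878373) (nat_lit 1140) (nat_lit 3338462131) (nat_lit 1216) (nat_lit 19870877359)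 (nat_lit 176) (nat_lit 5) (nat_lit 191) (nat_lit 5) (nat_lit 192) (nat_lit 5) (nat_lit 331) (nat_lit 327) (nat_lit 122)) (XT.lf (nat_lit 0) (nat_lit 9090592725) (nat_lit 1140) (nat_lit 20943264101) (nat_lit 1216) (nat_lit 2015687424) (nat_lit 177) (nat_lit 5) (nat_lit 192) (nat_lit 5) (nat_lit 193) (nat_lit 5) (nat_lit 332) (nat_lit 327) (nat_lit 121)))) (XT.nd (nat_lit 78) (nat_lit 0) (nat_lit 0) (XT.lf (nat_lit 0) (nat_lit 9993735268) (nat_lit 1140) (nat_lit 6611219048) (nat_lit 1216) (nat_lit 15937997333) (nat_lit 177) (nat_lit 5) (nat_lit 192) (nat_lit 5) (nat_lit 193) (nat_lit 5) (nat_lit 333) (nat_lit 327) (nat_lit 120)) (XT.nd (nat_lit 78) (nat_lit 0) (nat_lit 76) (XT.lf (nat_lit 76) (nat_lit 8311488369) (nat_lit 0) (nat_lit 2690025050) (nat_lit 1216) (nat_lit 22047325226) (nat_lit 178) (nat_lit 5) (nat_lit 177) (nat_lit 5) (nat_lit 193) (nat_lit 5) (nat_lit 334) (nat_lit 327) (nat_lit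 119)) (XT.lf (nat_lit 0) (nat_lit 12216568259) (nat_lit 1140) (nat_lit 9864625270) (nat_lit 1216) (nat_lit 11483400932) (nat_lit 178) (nat_lit 5) (nat_lit 193) (nat_lit 5) (nat_lit 194) (nat_lit 5) (nat_lit 335) (nat_lit 327) (nat_lit 118))))) (XT.nd (nat_lit 234) (nat_lit 0) (nat_lit 152) (XT.nd (nat_lit 78) (nat_lit 0) (nat_lit 76) (XT.lf (nat_lit 76) (nat_lit 5534131676) (nat_lit 0) (nat_lit 8011549768) (nat_lit 1216) (nat_lit 20547816713) (nat_lit 179) (nat_lit 5) (nat_lit 178) (nat_lit 5) (nat_lit 194) (nat_lit 5) (nat_lit 336) (nat_lit 327) (nat_lit 117)) (XT.nd (nat_lit 78) (nat_lit 0) (nat_lit 0) (XT.lf (nat_lit 0) (nat_lit 15075391498) (nat_lit 1140) (nat_lit 13103058905) (nat_lit 1216) (nat_lit 6455000166) (nat_lit 179) (nat_lit 5) (nat_lit 194) (nat_lit 5) (nat_lit 195) (nat_lit 5) (nat_lit 337) (nat_lit 327) (nat_lit 116)) (XT.lf (nat_lit 76) (nat_lit 2790547844) (nat_lit 0) (nat_lit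 13964487216) (nat_lit 1216) (nat_lit 18431448439) (nat_lit 180) (nat_lit 5) (nat_lit 179) (nat_lit 5) (nat_lit 195) (nat_lit 5) (nat_lit 338) (nat_lit 327) (nat_lit 115)))) (XT.nd (nat_lit 156) (nat_lit 0) (nat_lit 0) (XT.nd (nat_lit 78) (nat_lit 0) (nat_lit 0) (XT.lf (nat_lit 0) (nat_lit 18623137892) (nat_lit 1140) (nat_lit 16331959122) (nat_lit 1216) (nat_lit 796871424) (nat_lit 180) (nat_lit 5) (nat_lit 195) (nat_lit 5) (nat_lit 196) (nat_lit 5) (nat_lit 339) (nat_lit 327) (nat_lit 114)) (XT.lf (nat_lit 76) (nat_lit 75619334) (nat_lit 0) (nat_lit 20608660994) (nat_lit 1216) (nat_lit 15646030728) (nat_lit 181) (nat_lit 5) (nat_lit 180) (nat_lit 5) (nat_lit 196) (nat_lit 5) (nat_lit 340) (nat_lit 327) (nat_lit 113))) (XT.nd (nat_lit 78) (nat_lit 0) (nat_lit 76) (XT.lf (nat_lit 76) (nat_lit 17308698572) (nat_lit 0) (nat_lit 5661530068) (nat_lit 1216) (nat_lit 13950889104) (nat_lit 181) (nat_lit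 5) (nat_lit 180) (nat_lit 5) (nat_lit 196) (nat_lit 5) (nat_lit 341) (nat_lit 327) (nat_lit 112)) (XT.lf (nat_lit 0) (nat_lit 25416436363) (nat_lit 1140) (nat_lit 2565982997) (nat_lit 1216) (nat_lit 9544481699) (nat_lit 181) (nat_lit 5) (nat_lit 196) (nat_lit 5) (nat_lit 197) (nat_lit 5) (nat_lit 342) (nat_lit 327) (nat_lit 111)))))) (XT.nd (nat_lit 546) (nat_lit 1520) (nat_lit 0) (XT.nd (nat_lit 234) (nat_lit 1216) (nat_lit 0) (XT.nd (nat_lit 78) (nat_lit 1064) (nat_lit 0) (XT.lf (nat_lit 76) (nat_lit 15231522853) (nat_lit 0) (nat_lit 12905143588) (nat_lit 1216) (nat_lit 10008175117) (nat_lit 182) (nat_lit 5) (nat_lit 181) (nat_lit 5) (nat_lit 197) (nat_lit 5) (nat_lit 343) (nat_lit 327) (nat_lit 110)) (XT.nd (nat_lit 78) (nat_lit 1140) (nat_lit 0) (XT.lf (nat_lit 0) (nat_lit 30988108118) (nat_lit 1140) (nat_lit 5192008780) (nat_lit 76) (nat_lit 2599717926) (nat_lit 182) (nat_lit 5) (nat_lit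 197) (nat_lit 5) (nat_lit 183) (nat_lit 5) (nat_lit 344) (nat_lit 327) (nat_lit 109)) (XT.lf (nat_lit 0) (nat_lit 13189041686) (nat_lit 1140) (nat_lit 20988867286) (nat_lit 1216) (nat_lit 5248387047) (nat_lit 167) (nat_lit 5) (nat_lit 182) (nat_lit 5) (nat_lit 183) (nat_lit 5) (nat_lit 345) (nat_lit 327) (nat_lit 108)))) (XT.nd (nat_lit 156) (nat_lit 608) (nat_lit 0) (XT.nd (nat_lit 78) (nat_lit 608) (nat_lit 0) (XT.lf (nat_lit 0) (nat_lit 32226478606) (nat_lit 1140) (nat_lit 5287651908) (nat_lit 1216) (nat_lit 2576501275) (nat_lit 167) (nat_lit 5) (nat_lit 182) (nat_lit 5) (nat_lit 183) (nat_lit 5) (nat_lit 346) (nat_lit 327) (nat_lit 107)) (XT.lf (nat_lit 0) (nat_lit 384567176) (nat_lit 608) (nat_lit 29600328413) (nat_lit 76) (nat_lit 10783580262) (nat_lit 159) (nat_lit 5) (nat_lit 167) (nat_lit 5) (nat_lit 160) (nat_lit 5) (nat_lit 347) (nat_lit 327) (nat_lit 106))) (XT.nd (nat_lit 78) (nat_lit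 608) (nat_lit 0) (XT.lf (nat_lit 0) (nat_lit 3513599157) (nat_lit 608) (nat_lit 10611805115) (nat_lit 76) (nat_lit 27336560489) (nat_lit 159) (nat_lit 5) (nat_lit 167) (nat_lit 5) (nat_lit 160) (nat_lit 5) (nat_lit 348) (nat_lit 327) (nat_lit 105)) (XT.lf (nat_lit 0) (nat_lit 6844721842) (nat_lit 684) (nat_lit 33072858016) (nat_lit 76) (nat_lit 2255434141) (nat_lit 151) (nat_lit 5) (nat_lit 160) (nat_lit 5) (nat_lit 152) (nat_lit 5) (nat_lit 349) (nat_lit 327) (nat_lit 104))))) (XT.nd (nat_lit 234) (nat_lit 988) (nat_lit 0) (XT.nd (nat_lit 78) (nat_lit 532) (nat_lit 0) (XT.lf (nat_lit 0) (nat_lit 10522298867) (nat_lit 684) (nat_lit 13423588108) (nat_lit 76) (nat_lit 18952114306) (nat_lit 151) (nat_lit 5) (nat_lit 160) (nat_lit 5) (nat_lit 152) (nat_lit 5) (nat_lit 350) (nat_lit 327) (nat_lit 103)) (XT.nd (nat_lit 78) (nat_lit 0) (nat_lit 0) (XT.lf (nat_lit 0) (nat_lit 6949310438) (nat_lit 532)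 (nat_lit 7426184830) (nat_lit 608) (nat_lit 29267286276) (nat_lit 144) (nat_lit 5) (nat_lit 151) (nat_lit 5) (nat_lit 152) (nat_lit 5) (nat_lit 351) (nat_lit 327) (nat_lit 102)) (XT.lf (nat_lit 0) (nat_lit 18571879453) (nat_lit 608) (nat_lit 16292278848) (nat_lit 76) (nat_lit 9538921218) (nat_lit 144) (nat_lit 5) (nat_lit 152) (nat_lit 5) (nat_lit 145) (nat_lit 5) (nat_lit 352) (nat_lit 327) (nat_lit 101)))) (XT.nd (nat_lit 156) (nat_lit 456) (nat_lit 0) (XT.nd (nat_lit 78) (nat_lit 0) (nat_lit 0) (XT.lf (nat_lit 0) (nat_lit 4738441952) (nat_lit 532) (nat_lit 18273353158) (nat_lit 608) (nat_lit 22170864127) (nat_lit 137) (nat_lit 5) (nat_lit 144) (nat_lit 5) (nat_lit 145) (nat_lit 5) (nat_lit 353) (nat_lit 327) (nat_lit 100)) (XT.lf (nat_lit 0) (nat_lit 26732629572) (nat_lit 532) (nat_lit 1015391356) (nat_lit 608) (nat_lit 18232713981) (nat_lit 137) (nat_lit 5) (nat_lit 144) (nat_lit 5) (nat_lit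 145) (nat_lit 5) (nat_lit 354) (nat_lit 327) (nat_lit 99))) (XT.nd (nat_lit 78) (nat_lit 0) (nat_lit 0) (XT.lf (nat_lit 0) (nat_lit 2469537652) (nat_lit 456) (nat_lit 30340278317) (nat_lit 532) (nat_lit 13987434297) (nat_lit 131) (nat_lit 5) (nat_lit 137) (nat_lit 5) (nat_lit 138) (nat_lit 5) (nat_lit 355) (nat_lit 327) (nat_lit 98)) (XT.lf (nat_lit 0) (nat_lit 25221606249) (nat_lit 456) (nat_lit 13004841124) (nat_lit 532) (nat_lit 9405726065) (nat_lit 131) (nat_lit 5) (nat_lit 137) (nat_lit 5) (nat_lit 138) (nat_lit 5) (nat_lit 356) (nat_lit 327) (nat_lit 97))))))))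
noncomputable def xc239 : XT := (XT.nd (nat_lit 2028) (nat_lit 304) (nat_lit 0) (XT.nd (nat_lit 1014) (nat_lit 2052) (nat_lit 0) (XT.nd (nat_lit 468) (nat_lit 1216) (nat_lit 0) (XT.nd (nat_lit 234) (nat_lit 912) (nat_lit 0) (XT.nd (nat_lit 78) (nat_lit 76) (nat_lit 0) (XT.lf (nat_lit 0) (nat_lit 118358368) (nat_lit 456) (nat_lit 43733682483) (nat_lit 532) (nat_lit 4638711339) (nat_lit 125) (nat_lit 5) (nat_lit 131) (nat_lit 5) (nat_lit 132) (nat_lit 5) (nat_lit 357) (nat_lit 327) (nat_lit 96)) (XT.nd (nat_lit 78) (nat_lit 0) (nat_lit 0) (XT.lf (nat_lit 0) (nat_lit 622031725) (nat_lit 532) (nat_lit 25720792160) (nat_lit 76) (nat_lit 23021507489) (nat_lit 124) (nat_lit 5) (nat_lit 131) (nat_lit 5) (nat_lit 125) (nat_lit 5) (nat_lit 358) (nat_lit 327) (nat_lit 95)) (XT.lf (nat_lit 0) (nat_lit 5946109205) (nat_lit 532) (nat_lit 2436958465) (nat_lit 76) (nat_lit 41879711688) (nat_lit 124) (nat_lit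 5) (nat_lit 131) (nat_lit 5) (nat_lit 125) (nat_lit 5) (nat_lit 359) (nat_lit 327) (nat_lit 94)))) (XT.nd (nat_lit 78) (nat_lit 456) (nat_lit 0) (XT.lf (nat_lit 0) (nat_lit 11739233469) (nat_lit 532) (nat_lit 29308397428) (nat_lit 76) (nat_lit 10131271731) (nat_lit 118) (nat_lit 5) (nat_lit 125) (nat_lit 5) (nat_lit 119) (nat_lit 5) (nat_lit 360) (nat_lit 327) (nat_lit 93)) (XT.nd (nat_lit 78) (nat_lit 456) (nat_lit 0) (XT.lf (nat_lit 0) (nat_lit 17812807747) (nat_lit 532) (nat_lit 5249238211) (nat_lit 76) (nat_lit 29057265483) (nat_lit 118) (nat_lit 5) (nat_lit 125) (nat_lit 5) (nat_lit 119) (nat_lit 5) (nat_lit 361) (nat_lit 327) (nat_lit 92)) (XT.lf (nat_lit 0) (nat_lit 19919057675) (nat_lit 456) (nat_lit 4339844061) (nat_lit 532) (nat_lit 28823322896) (nat_lit 112) (nat_lit 5) (nat_lit 118) (nat_lit 5) (nat_lit 119) (nat_lit 5) (nat_lit 362) (nat_lit 327) (nat_lit 91))))) (XT.nd (nat_lit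 234) (nat_lit 836) (nat_lit 0) (XT.nd (nat_lit 78) (nat_lit 380) (nat_lit 0) (XT.lf (nat_lit 0) (nat_lit 31094419266) (nat_lit 532) (nat_lit 8267955836) (nat_lit 76) (nat_lit 14705770342) (nat_lit 112) (nat_lit 5) (nat_lit 119) (nat_lit 5) (nat_lit 113) (nat_lit 5) (nat_lit 363) (nat_lit 327) (nat_lit 90)) (XT.nd (nat_lit 78) (nat_lit 0) (nat_lit 0) (XT.lf (nat_lit 0) (nat_lit 17674728261) (nat_lit 380) (nat_lit 20672034165) (nat_lit 456) (nat_lit 16730530056) (nat_lit 107) (nat_lit 5) (nat_lit 112) (nat_lit 5) (nat_lit 113) (nat_lit 5) (nat_lit 364) (nat_lit 327) (nat_lit 89)) (XT.lf (nat_lit 0) (nat_lit 44563878521) (nat_lit 380) (nat_lit 1335198364) (nat_lit 456) (nat_lit 10215166379) (nat_lit 107) (nat_lit 5) (nat_lit 112) (nat_lit 5) (nat_lit 113) (nat_lit 5) (nat_lit 365) (nat_lit 327) (nat_lit 88)))) (XT.nd (nat_lit 156) (nat_lit 380) (nat_lit 0) (XT.nd (nat_lit 78) (nat_lit 76) (nat_lit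 0) (XT.lf (nat_lit 0) (nat_lit 15193978297) (nat_lit 380) (nat_lit 38807595993) (nat_lit 456) (nat_lit 3171021197) (nat_lit 102) (nat_lit 5) (nat_lit 107) (nat_lit 5) (nat_lit 108) (nat_lit 5) (nat_lit 366) (nat_lit 327) (nat_lit 87)) (XT.lf (nat_lit 0) (nat_lit 4134704285) (nat_lit 456) (nat_lit 15336715334) (nat_lit 76) (nat_lit 38786203291) (nat_lit 101) (nat_lit 5) (nat_lit 107) (nat_lit 5) (nat_lit 102) (nat_lit 5) (nat_lit 367) (nat_lit 327) (nat_lit 86))) (XT.nd (nat_lit 78) (nat_lit 0) (nat_lit 0) (XT.lf (nat_lit 0) (nat_lit 11718952630) (nat_lit 456) (nat_lit 47064461716) (nat_lit 76) (nat_lit 587153569) (nat_lit 96) (nat_lit 5) (nat_lit 102) (nat_lit 5) (nat_lit 97) (nat_lit 5) (nat_lit 368) (nat_lit 327) (nat_lit 85)) (XT.lf (nat_lit 0) (nat_lit 19878912492) (nat_lit 456) (nat_lit 19615255549) (nat_lit 76) (nat_lit 21012288883) (nat_lit 96) (nat_lit 5) (nat_lit 102) (nat_lit 5) (nat_lit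 97) (nat_lit 5) (nat_lit 369) (nat_lit 327) (nat_lit 84)))))) (XT.nd (nat_lit 468) (nat_lit 912) (nat_lit 0) (XT.nd (nat_lit 234) (nat_lit 456) (nat_lit 0) (XT.nd (nat_lit 78) (nat_lit 304) (nat_lit 0) (XT.lf (nat_lit 0) (nat_lit 8828458424) (nat_lit 380) (nat_lit 19539100186) (nat_lit 456) (nat_lit 33306348511) (nat_lit 91) (nat_lit 5) (nat_lit 96) (nat_lit 5) (nat_lit 97) (nat_lit 5) (nat_lit 370) (nat_lit 327) (nat_lit 83)) (XT.nd (nat_lit 78) (nat_lit 304) (nat_lit 0) (XT.lf (nat_lit 0) (nat_lit 37319690963) (nat_lit 456) (nat_lit 24355834050) (nat_lit 76) (nat_lit 1194592114) (nat_lit 91) (nat_lit 5) (nat_lit 97) (nat_lit 5) (nat_lit 92) (nat_lit 5) (nat_lit 371) (nat_lit 327) (nat_lit 82)) (XT.lf (nat_lit 0) (nat_lit 4889196560) (nat_lit 304) (nat_lit 41890710101) (nat_lit 380) (nat_lit 17315122267) (nat_lit 87) (nat_lit 5) (nat_lit 91) (nat_lit 5) (nat_lit 92) (nat_lit 5) (nat_lit 372)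 (nat_lit 327) (nat_lit 81)))) (XT.nd (nat_lit 78) (nat_lit 456) (nat_lit 0) (XT.lf (nat_lit 0) (nat_lit 35509638915) (nat_lit 304) (nat_lit 21259316676) (nat_lit 380) (nat_lit 8580382734) (nat_lit 87) (nat_lit 5) (nat_lit 91) (nat_lit 5) (nat_lit 92) (nat_lit 5) (nat_lit 373) (nat_lit 327) (nat_lit 80)) (XT.nd (nat_lit 78) (nat_lit 0) (nat_lit 0) (XT.lf (nat_lit 0) (nat_lit 410226246) (nat_lit 380) (nat_lit 1088180) (nat_lit 456) (nat_lit 66229752255) (nat_lit 81) (nat_lit 5) (nat_lit 86) (nat_lit 5) (nat_lit 87) (nat_lit 5) (nat_lit 374) (nat_lit 327) (nat_lit 79)) (XT.lf (nat_lit 0) (nat_lit 10014187832) (nat_lit 456) (nat_lit 36082784334) (nat_lit 76) (nat_lit 21856610572) (nat_lit 81) (nat_lit 5) (nat_lit 87) (nat_lit 5) (nat_lit 82) (nat_lit 5) (nat_lit 375) (nat_lit 327) (nat_lit 78))))) (XT.nd (nat_lit 234) (nat_lit 608) (nat_lit 0) (XT.nd (nat_lit 78) (nat_lit 304) (nat_lit 0) (XT.lf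 (nat_lit 0) (nat_lit 19904293782) (nat_lit 456) (nat_lit 5031468830) (nat_lit 76) (nat_lit 44369738205) (nat_lit 81) (nat_lit 5) (nat_lit 87) (nat_lit 5) (nat_lit 82) (nat_lit 5) (nat_lit 376) (nat_lit 327) (nat_lit 77)) (XT.nd (nat_lit 78) (nat_lit 0) (nat_lit 0) (XT.lf (nat_lit 0) (nat_lit 27486611548) (nat_lit 304) (nat_lit 2867870231) (nat_lit 380) (nat_lit 40335594193) (nat_lit 77) (nat_lit 5) (nat_lit 81) (nat_lit 5) (nat_lit 82) (nat_lit 5) (nat_lit 377) (nat_lit 327) (nat_lit 76)) (XT.lf (nat_lit 0) (nat_lit 41359584171) (nat_lit 380) (nat_lit 11223867924) (nat_lit 76) (nat_lit 19525494899) (nat_lit 77) (nat_lit 5) (nat_lit 82) (nat_lit 5) (nat_lit 78) (nat_lit 5) (nat_lit 378) (nat_lit 327) (nat_lit 75)))) (XT.nd (nat_lit 156) (nat_lit 304) (nat_lit 0) (XT.nd (nat_lit 78) (nat_lit 0) (nat_lit 0) (XT.lf (nat_lit 0) (nat_lit 22117192277) (nat_lit 304) (nat_lit 30817841699) (nat_lit 380)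 (nat_lit 20628145191) (nat_lit 73) (nat_lit 5) (nat_lit 77) (nat_lit 5) (nat_lit 78) (nat_lit 5) (nat_lit 379) (nat_lit 327) (nat_lit 74)) (XT.lf (nat_lit 0) (nat_lit 56687457988) (nat_lit 304) (nat_lit 8282836762) (nat_lit 380) (nat_lit 10087367954) (nat_lit 73) (nat_lit 5) (nat_lit 77) (nat_lit 5) (nat_lit 78) (nat_lit 5) (nat_lit 380) (nat_lit 327) (nat_lit 73))) (XT.nd (nat_lit 78) (nat_lit 0) (nat_lit 0) (XT.lf (nat_lit 0) (nat_lit 1052747030) (nat_lit 304) (nat_lit 60735647535) (nat_lit 76) (nat_lit 14799421033) (nat_lit 69) (nat_lit 5) (nat_lit 73) (nat_lit 5) (nat_lit 70) (nat_lit 5) (nat_lit 381) (nat_lit 327) (nat_lit 72)) (XT.lf (nat_lit 0) (nat_lit 12592899685) (nat_lit 304) (nat_lit 26865343314) (nat_lit 76) (nat_lit 38694577177) (nat_lit 69) (nat_lit 5) (nat_lit 73) (nat_lit 5) (nat_lit 70) (nat_lit 5) (nat_lit 382) (nat_lit 327) (nat_lit 71))))))) (XT.nd (nat_lit 37128) (nat_lit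 0) (nat_lit 6536) (XT.nd (nat_lit 36582) (nat_lit 0) (nat_lit 8436) (XT.nd (nat_lit 36348) (nat_lit 0) (nat_lit 8360) (XT.nd (nat_lit 78) (nat_lit 0) (nat_lit 0) (XT.lf (nat_lit 0) (nat_lit 8179617163) (nat_lit 304) (nat_lit 16377521932) (nat_lit 380) (nat_lit 55205300063) (nat_lit 65) (nat_lit 5) (nat_lit 69) (nat_lit 5) (nat_lit 70) (nat_lit 5) (nat_lit 383) (nat_lit 327) (nat_lit 70)) (XT.nd (nat_lit 78) (nat_lit 0) (nat_lit 0) (XT.lf (nat_lit 0) (nat_lit 37224633371) (nat_lit 380) (nat_lit 36660421510) (nat_lit 76) (nat_lit 7524962711) (nat_lit 65) (nat_lit 5) (nat_lit 70) (nat_lit 5) (nat_lit 66) (nat_lit 5) (nat_lit 384) (nat_lit 327) (nat_lit 69)) (XT.lf (nat_lit 0) (nat_lit 50433590766) (nat_lit 380) (nat_lit 853547186) (nat_lit 76) (nat_lit 31815042967) (nat_lit 65) (nat_lit 5) (nat_lit 70) (nat_lit 5) (nat_lit 66) (nat_lit 5) (nat_lit 385) (nat_lit 327) (nat_lit 68)))) (XT.nd (nat_lit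 78) (nat_lit 0) (nat_lit 0) (XT.lf (nat_lit 0) (nat_lit 1756576015) (nat_lit 0) (nat_lit 1756576015) (nat_lit 1140) (nat_lit 11799711173) (nat_lit 175) (nat_lit 5) (nat_lit 175) (nat_lit 3) (nat_lit 190) (nat_lit 3) (nat_lit 328) (nat_lit 328) (nat_lit 124)) (XT.nd (nat_lit 78) (nat_lit 0) (nat_lit 0) (XT.lf (nat_lit 0) (nat_lit 7296346585) (nat_lit 1140) (nat_lit 13726007183) (nat_lit 1216) (nat_lit 10057717871) (nat_lit 175) (nat_lit 5) (nat_lit 190) (nat_lit 3) (nat_lit 191) (nat_lit 5) (nat_lit 329) (nat_lit 328) (nat_lit 123)) (XT.lf (nat_lit 76) (nat_lit 26508215) (nat_lit 0) (nat_lit 7580455584) (nat_lit 1216) (nat_lit 23940113178) (nat_lit 176) (nat_lit 5) (nat_lit 175) (nat_lit 5) (nat_lit 191) (nat_lit 5) (nat_lit 330) (nat_lit 328) (nat_lit 122))))) (XT.nd (nat_lit 234) (nat_lit 0) (nat_lit 76) (XT.nd (nat_lit 78) (nat_lit 0) (nat_lit 0) (XT.lf (nat_lit 0) (nat_lit 8124605129) (nat_lit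 1140) (nat_lit 17614016687) (nat_lit 1216) (nat_lit 6283543327) (nat_lit 176) (nat_lit 5) (nat_lit 191) (nat_lit 5) (nat_lit 192) (nat_lit 5) (nat_lit 331) (nat_lit 328) (nat_lit 121)) (XT.nd (nat_lit 78) (nat_lit 0) (nat_lit 76) (XT.lf (nat_lit 0) (nat_lit 8730409692) (nat_lit 1140) (nat_lit 3366738272) (nat_lit 1216) (nat_lit 20412182692) (nat_lit 176) (nat_lit 5) (nat_lit 191) (nat_lit 5) (nat_lit 192) (nat_lit 5) (nat_lit 332) (nat_lit 328) (nat_lit 120)) (XT.lf (nat_lit 0) (nat_lit 9482773510) (nat_lit 1140) (nat_lit 21496138847) (nat_lit 1216) (nat_lit 2028350842) (nat_lit 177) (nat_lit 5) (nat_lit 192) (nat_lit 5) (nat_lit 193) (nat_lit 5) (nat_lit 333) (nat_lit 328) (nat_lit 119)))) (XT.nd (nat_lit 156) (nat_lit 0) (nat_lit 76) (XT.nd (nat_lit 78) (nat_lit 0) (nat_lit 0) (XT.lf (nat_lit 0) (nat_lit 10409530825) (nat_lit 1140) (nat_lit 6736329233) (nat_lit 1216) (nat_lit 16369722491)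 (nat_lit 177) (nat_lit 5) (nat_lit 192) (nat_lit 5) (nat_lit 193) (nat_lit 5) (nat_lit 334) (nat_lit 328) (nat_lit 118)) (XT.lf (nat_lit 76) (nat_lit 8633341500) (nat_lit 0) (nat_lit 2811519656) (nat_lit 1216) (nat_lit 22591870623) (nat_lit 178) (nat_lit 5) (nat_lit 177) (nat_lit 5) (nat_lit 193) (nat_lit 5) (nat_lit 335) (nat_lit 328) (nat_lit 117))) (XT.nd (nat_lit 78) (nat_lit 0) (nat_lit 0) (XT.lf (nat_lit 0) (nat_lit 12692686858) (nat_lit 1140) (nat_lit 10086318746) (nat_lit 1216) (nat_lit 11789070126) (nat_lit 178) (nat_lit 5) (nat_lit 193) (nat_lit 5) (nat_lit 194) (nat_lit 5) (nat_lit 336) (nat_lit 328) (nat_lit 116)) (XT.lf (nat_lit 76) (nat_lit 5773673014) (nat_lit 0) (nat_lit 8285514258) (nat_lit 1216) (nat_lit 21053738741) (nat_lit 179) (nat_lit 5) (nat_lit 178) (nat_lit 5) (nat_lit 194) (nat_lit 5) (nat_lit 337) (nat_lit 328) (nat_lit 115)))))) (XT.nd (nat_lit 546) (nat_lit 2128)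 (nat_lit 0) (XT.nd (nat_lit 234) (nat_lit 0) (nat_lit 76) (XT.nd (nat_lit 78) (nat_lit 0) (nat_lit 0) (XT.lf (nat_lit 0) (nat_lit 15631354436) (nat_lit 1140) (nat_lit 13421182096) (nat_lit 1216) (nat_lit 6616648240) (nat_lit 179) (nat_lit 5) (nat_lit 194) (nat_lit 5) (nat_lit 195) (nat_lit 5) (nat_lit 338) (nat_lit 328) (nat_lit 114)) (XT.nd (nat_lit 78) (nat_lit 0) (nat_lit 76) (XT.lf (nat_lit 76) (nat_lit 2948497869) (nat_lit 0) (nat_lit 14410582591) (nat_lit 1216) (nat_lit 18879802045) (nat_lit 180) (nat_lit 5) (nat_lit 179) (nat_lit 5) (nat_lit 195) (nat_lit 5) (nat_lit 339) (nat_lit 328) (nat_lit 113)) (XT.lf (nat_lit 0) (nat_lit 19280019662) (nat_lit 1140) (nat_lit 16746490541) (nat_lit 1216) (nat_lit 794922465) (nat_lit 180) (nat_lit 5) (nat_lit 195) (nat_lit 5) (nat_lit 196) (nat_lit 5) (nat_lit 340) (nat_lit 328) (nat_lit 112)))) (XT.nd (nat_lit 156) (nat_lit 0) (nat_lit 76) (XT.nd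 (nat_lit 78) (nat_lit 0) (nat_lit 0) (XT.lf (nat_lit 76) (nat_lit 152575784) (nat_lit 0) (nat_lit 21248278699) (nat_lit 1216) (nat_lit 16016339685) (nat_lit 181) (nat_lit 5) (nat_lit 180) (nat_lit 5) (nat_lit 196) (nat_lit 5) (nat_lit 341) (nat_lit 328) (nat_lit 111)) (XT.lf (nat_lit 76) (nat_lit 17900472024) (nat_lit 0) (nat_lit 5852111771) (nat_lit 1216) (nat_lit 14273229404) (nat_lit 181) (nat_lit 5) (nat_lit 180) (nat_lit 5) (nat_lit 196) (nat_lit 5) (nat_lit 342) (nat_lit 328) (nat_lit 110))) (XT.nd (nat_lit 78) (nat_lit 0) (nat_lit 0) (XT.lf (nat_lit 0) (nat_lit 26269268260) (nat_lit 1140) (nat_lit 2569515984) (nat_lit 1216) (nat_lit 9811077149) (nat_lit 181) (nat_lit 5) (nat_lit 196) (nat_lit 5) (nat_lit 197) (nat_lit 5) (nat_lit 343) (nat_lit 328) (nat_lit 109)) (XT.lf (nat_lit 76) (nat_lit 15761194977) (nat_lit 0) (nat_lit 13307978127) (nat_lit 1216) (nat_lit 10217228945) (nat_lit 182)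 (nat_lit 5) (nat_lit 181) (nat_lit 5) (nat_lit 197) (nat_lit 5) (nat_lit 344) (nat_lit 328) (nat_lit 108))))) (XT.nd (nat_lit 234) (nat_lit 1216) (nat_lit 0) (XT.nd (nat_lit 78) (nat_lit 1140) (nat_lit 0) (XT.lf (nat_lit 0) (nat_lit 32003436742) (nat_lit 1140) (nat_lit 5274310865) (nat_lit 76) (nat_lit 2662783004) (nat_lit 182) (nat_lit 5) (nat_lit 197) (nat_lit 5) (nat_lit 183) (nat_lit 5) (nat_lit 345) (nat_lit 328) (nat_lit 107)) (XT.nd (nat_lit 78) (nat_lit 0) (nat_lit 0) (XT.lf (nat_lit 0) (nat_lit 13657450936) (nat_lit 1140) (nat_lit 21629684198) (nat_lit 1216) (nat_lit 5319308153) (nat_lit 167) (nat_lit 5) (nat_lit 182) (nat_lit 5) (nat_lit 183) (nat_lit 5) (nat_lit 346) (nat_lit 328) (nat_lit 106)) (XT.lf (nat_lit 0) (nat_lit 33263892381) (nat_lit 1140) (nat_lit 5457107574) (nat_lit 1216) (nat_lit 2569786113) (nat_lit 167) (nat_lit 5) (nat_lit 182) (nat_lit 5) (nat_lit 183) (nat_lit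 5) (nat_lit 347) (nat_lit 328) (nat_lit 105)))) (XT.nd (nat_lit 156) (nat_lit 608) (nat_lit 0) (XT.nd (nat_lit 78) (nat_lit 0) (nat_lit 0) (XT.lf (nat_lit 0) (nat_lit 476678353) (nat_lit 608) (nat_lit 30414050692) (nat_lit 76) (nat_lit 11098269514) (nat_lit 159) (nat_lit 5) (nat_lit 167) (nat_lit 5) (nat_lit 160) (nat_lit 5) (nat_lit 348) (nat_lit 328) (nat_lit 104)) (XT.lf (nat_lit 0) (nat_lit 3697234473) (nat_lit 608) (nat_lit 10858035410) (nat_lit 76) (nat_lit 28148095988) (nat_lit 159) (nat_lit 5) (nat_lit 167) (nat_lit 5) (nat_lit 160) (nat_lit 5) (nat_lit 349) (nat_lit 328) (nat_lit 103))) (XT.nd (nat_lit 78) (nat_lit 0) (nat_lit 0) (XT.lf (nat_lit 0) (nat_lit 7126648709) (nat_lit 684) (nat_lit 33991169989) (nat_lit 76) (nat_lit 2317980384) (nat_lit 151) (nat_lit 5) (nat_lit 160) (nat_lit 5) (nat_lit 152) (nat_lit 5) (nat_lit 350) (nat_lit 328) (nat_lit 102)) (XT.lf (nat_lit 0) (nat_lit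 10912322408) (nat_lit 684) (nat_lit 13754573647) (nat_lit 76) (nat_lit 19515709986) (nat_lit 151) (nat_lit 5) (nat_lit 160) (nat_lit 5) (nat_lit 152) (nat_lit 5) (nat_lit 351) (nat_lit 328) (nat_lit 101))))))))
noncomputable def xc240 : XT := (XT.nd (nat_lit 2028) (nat_lit 1216) (nat_lit 0) (XT.nd (nat_lit 1014) (nat_lit 2356) (nat_lit 0) (XT.nd (nat_lit 468) (nat_lit 1444) (nat_lit 0) (XT.nd (nat_lit 234) (nat_lit 456) (nat_lit 0) (XT.nd (nat_lit 78) (nat_lit 532) (nat_lit 0) (XT.lf (nat_lit 0) (nat_lit 7228808697) (nat_lit 532) (nat_lit 7650823013) (nat_lit 608) (nat_lit 30070145539) (nat_lit 144) (nat_lit 5) (nat_lit 151) (nat_lit 5) (nat_lit 152) (nat_lit 5) (nat_lit 352) (nat_lit 328) (nat_lit 100)) (XT.nd (nat_lit 78) (nat_lit 532) (nat_lit 0) (XT.lf (nat_lit 0) (nat_lit 19199767658) (nat_lit 608) (nat_lit 16709858383) (nat_lit 76) (nat_lit 9823325276) (nat_lit 144) (nat_lit 5) (nat_lit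 152) (nat_lit 5) (nat_lit 145) (nat_lit 5) (nat_lit 353) (nat_lit 328) (nat_lit 99)) (XT.lf (nat_lit 0) (nat_lit 4951086112) (nat_lit 532) (nat_lit 18820412125) (nat_lit 608) (nat_lit 22764464538) (nat_lit 137) (nat_lit 5) (nat_lit 144) (nat_lit 5) (nat_lit 145) (nat_lit 5) (nat_lit 354) (nat_lit 328) (nat_lit 98)))) (XT.nd (nat_lit 78) (nat_lit 456) (nat_lit 0) (XT.lf (nat_lit 0) (nat_lit 27603046227) (nat_lit 532) (nat_lit 1044744720) (nat_lit 608) (nat_lit 18710253156) (nat_lit 137) (nat_lit 5) (nat_lit 144) (nat_lit 5) (nat_lit 145) (nat_lit 5) (nat_lit 355) (nat_lit 328) (nat_lit 97)) (XT.nd (nat_lit 78) (nat_lit 0) (nat_lit 0) (XT.lf (nat_lit 0) (nat_lit 2613472180) (nat_lit 456) (nat_lit 31246688378) (nat_lit 532) (nat_lit 14338935447) (nat_lit 131) (nat_lit 5) (nat_lit 137) (nat_lit 5) (nat_lit 138) (nat_lit 5) (nat_lit 356) (nat_lit 328) (nat_lit 96)) (XT.lf (nat_lit 0) (nat_lit 26046068416)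 (nat_lit 456) (nat_lit 13391298699) (nat_lit 532) (nat_lit 9621760101) (nat_lit 131) (nat_lit 5) (nat_lit 137) (nat_lit 5) (nat_lit 138) (nat_lit 5) (nat_lit 357) (nat_lit 328) (nat_lit 95))))) (XT.nd (nat_lit 234) (nat_lit 912) (nat_lit 0) (XT.nd (nat_lit 78) (nat_lit 76) (nat_lit 0) (XT.lf (nat_lit 0) (nat_lit 191014860) (nat_lit 456) (nat_lit 45039544483) (nat_lit 532) (nat_lit 4712941612) (nat_lit 125) (nat_lit 5) (nat_lit 131) (nat_lit 5) (nat_lit 132) (nat_lit 5) (nat_lit 358) (nat_lit 328) (nat_lit 94)) (XT.nd (nat_lit 78) (nat_lit 0) (nat_lit 0) (XT.lf (nat_lit 0) (nat_lit 702502413) (nat_lit 532) (nat_lit 26424012639) (nat_lit 76) (nat_lit 23716811774) (nat_lit 124) (nat_lit 5) (nat_lit 131) (nat_lit 5) (nat_lit 125) (nat_lit 5) (nat_lit 359) (nat_lit 328) (nat_lit 93)) (XT.lf (nat_lit 0) (nat_lit 6184501934) (nat_lit 532) (nat_lit 2443656261) (nat_lit 76) (nat_lit 43140626398) (nat_lit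 124) (nat_lit 5) (nat_lit 131) (nat_lit 5) (nat_lit 125) (nat_lit 5) (nat_lit 360) (nat_lit 328) (nat_lit 92)))) (XT.nd (nat_lit 156) (nat_lit 456) (nat_lit 0) (XT.nd (nat_lit 78) (nat_lit 0) (nat_lit 0) (XT.lf (nat_lit 0) (nat_lit 12150370202) (nat_lit 532) (nat_lit 30120113076) (nat_lit 76) (nat_lit 10441942041) (nat_lit 118) (nat_lit 5) (nat_lit 125) (nat_lit 5) (nat_lit 119) (nat_lit 5) (nat_lit 361) (nat_lit 328) (nat_lit 91)) (XT.lf (nat_lit 0) (nat_lit 18404434435) (nat_lit 532) (nat_lit 5341146158) (nat_lit 76) (nat_lit 29935519523) (nat_lit 118) (nat_lit 5) (nat_lit 125) (nat_lit 5) (nat_lit 119) (nat_lit 5) (nat_lit 362) (nat_lit 328) (nat_lit 90))) (XT.nd (nat_lit 78) (nat_lit 0) (nat_lit 0) (XT.lf (nat_lit 0) (nat_lit 20581555769) (nat_lit 456) (nat_lit 4461312332) (nat_lit 532) (nat_lit 29630066036) (nat_lit 112) (nat_lit 5) (nat_lit 118) (nat_lit 5) (nat_lit 119) (nat_lit 5) (nat_lit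 363) (nat_lit 328) (nat_lit 89)) (XT.lf (nat_lit 0) (nat_lit 32081895729) (nat_lit 532) (nat_lit 8451334600) (nat_lit 76) (nat_lit 15155250982) (nat_lit 112) (nat_lit 5) (nat_lit 119) (nat_lit 5) (nat_lit 113) (nat_lit 5) (nat_lit 364) (nat_lit 328) (nat_lit 88)))))) (XT.nd (nat_lit 468) (nat_lit 1140) (nat_lit 0) (XT.nd (nat_lit 234) (nat_lit 456) (nat_lit 0) (XT.nd (nat_lit 78) (nat_lit 380) (nat_lit 0) (XT.lf (nat_lit 0) (nat_lit 18268996099) (nat_lit 380) (nat_lit 21281836973) (nat_lit 456) (nat_lit 17177100987) (nat_lit 107) (nat_lit 5) (nat_lit 112) (nat_lit 5) (nat_lit 113) (nat_lit 5) (nat_lit 365) (nat_lit 328) (nat_lit 87)) (XT.nd (nat_lit 78) (nat_lit 380) (nat_lit 0) (XT.lf (nat_lit 0) (nat_lit 45962956032) (nat_lit 380) (nat_lit 1365197793) (nat_lit 456) (nat_lit 10467888389) (nat_lit 107) (nat_lit 5) (nat_lit 112) (nat_lit 5) (nat_lit 113) (nat_lit 5) (nat_lit 366) (nat_lit 328)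 (nat_lit 86)) (XT.lf (nat_lit 0) (nat_lit 15712866041) (nat_lit 380) (nat_lit 39960042607) (nat_lit 456) (nat_lit 3213262780) (nat_lit 102) (nat_lit 5) (nat_lit 107) (nat_lit 5) (nat_lit 108) (nat_lit 5) (nat_lit 367) (nat_lit 328) (nat_lit 85)))) (XT.nd (nat_lit 78) (nat_lit 380) (nat_lit 0) (XT.lf (nat_lit 0) (nat_lit 4309092012) (nat_lit 456) (nat_lit 15734523672) (nat_lit 76) (nat_lit 39960165840) (nat_lit 101) (nat_lit 5) (nat_lit 107) (nat_lit 5) (nat_lit 102) (nat_lit 5) (nat_lit 368) (nat_lit 328) (nat_lit 84)) (XT.nd (nat_lit 78) (nat_lit 0) (nat_lit 0) (XT.lf (nat_lit 0) (nat_lit 12120111694) (nat_lit 456) (nat_lit 48413288395) (nat_lit 76) (nat_lit 616739212) (nat_lit 96) (nat_lit 5) (nat_lit 102) (nat_lit 5) (nat_lit 97) (nat_lit 5) (nat_lit 369) (nat_lit 328) (nat_lit 83)) (XT.lf (nat_lit 0) (nat_lit 20523425968) (nat_lit 456) (nat_lit 20142444116) (nat_lit 76) (nat_lit 21654279916)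 (nat_lit 96) (nat_lit 5) (nat_lit 102) (nat_lit 5) (nat_lit 97) (nat_lit 5) (nat_lit 370) (nat_lit 328) (nat_lit 82))))) (XT.nd (nat_lit 234) (nat_lit 456) (nat_lit 0) (XT.nd (nat_lit 78) (nat_lit 304) (nat_lit 0) (XT.lf (nat_lit 0) (nat_lit 9153980600) (nat_lit 380) (nat_lit 20111931739) (nat_lit 456) (nat_lit 34256737576) (nat_lit 91) (nat_lit 5) (nat_lit 96) (nat_lit 5) (nat_lit 97) (nat_lit 5) (nat_lit 371) (nat_lit 328) (nat_lit 81)) (XT.nd (nat_lit 78) (nat_lit 304) (nat_lit 0) (XT.lf (nat_lit 0) (nat_lit 38485354717) (nat_lit 456) (nat_lit 25026300725) (nat_lit 76) (nat_lit 1243129987) (nat_lit 91) (nat_lit 5) (nat_lit 97) (nat_lit 5) (nat_lit 92) (nat_lit 5) (nat_lit 372) (nat_lit 328) (nat_lit 80)) (XT.lf (nat_lit 0) (nat_lit 5095490525) (nat_lit 304) (nat_lit 43133117514) (nat_lit 380) (nat_lit 17787861155) (nat_lit 87) (nat_lit 5) (nat_lit 91) (nat_lit 5) (nat_lit 92) (nat_lit 5)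 (nat_lit 373) (nat_lit 328) (nat_lit 79)))) (XT.nd (nat_lit 156) (nat_lit 0) (nat_lit 0) (XT.nd (nat_lit 78) (nat_lit 456) (nat_lit 0) (XT.lf (nat_lit 0) (nat_lit 36632809702) (nat_lit 304) (nat_lit 21883199195) (nat_lit 380) (nat_lit 8792440061) (nat_lit 87) (nat_lit 5) (nat_lit 91) (nat_lit 5) (nat_lit 92) (nat_lit 5) (nat_lit 374) (nat_lit 328) (nat_lit 78)) (XT.lf (nat_lit 0) (nat_lit 467516253) (nat_lit 456) (nat_lit 68158296638) (nat_lit 76) (nat_lit 13122810) (nat_lit 81) (nat_lit 5) (nat_lit 87) (nat_lit 5) (nat_lit 82) (nat_lit 5) (nat_lit 375) (nat_lit 328) (nat_lit 77))) (XT.nd (nat_lit 78) (nat_lit 0) (nat_lit 0) (XT.lf (nat_lit 0) (nat_lit 10357208776) (nat_lit 456) (nat_lit 37107541421) (nat_lit 76) (nat_lit 22526116428) (nat_lit 81) (nat_lit 5) (nat_lit 87) (nat_lit 5) (nat_lit 82) (nat_lit 5) (nat_lit 376) (nat_lit 328) (nat_lit 76)) (XT.lf (nat_lit 0) (nat_lit 20542777265) (nat_lit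 456) (nat_lit 5126367805) (nat_lit 76) (nat_lit 45714235728) (nat_lit 81) (nat_lit 5) (nat_lit 87) (nat_lit 5) (nat_lit 82) (nat_lit 5) (nat_lit 377) (nat_lit 328) (nat_lit 75))))))) (XT.nd (nat_lit 37284) (nat_lit 0) (nat_lit 7752) (XT.nd (nat_lit 468) (nat_lit 304) (nat_lit 0) (XT.nd (nat_lit 234) (nat_lit 304) (nat_lit 0) (XT.nd (nat_lit 78) (nat_lit 304) (nat_lit 0) (XT.lf (nat_lit 0) (nat_lit 28366705524) (nat_lit 304) (nat_lit 2939094332) (nat_lit 380) (nat_lit 41503714777) (nat_lit 77) (nat_lit 5) (nat_lit 81) (nat_lit 5) (nat_lit 82) (nat_lit 5) (nat_lit 378) (nat_lit 328) (nat_lit 74)) (XT.nd (nat_lit 78) (nat_lit 304) (nat_lit 0) (XT.lf (nat_lit 0) (nat_lit 42640008594) (nat_lit 380) (nat_lit 11505616131) (nat_lit 76) (nat_lit 20125359718) (nat_lit 77) (nat_lit 5) (nat_lit 82) (nat_lit 5) (nat_lit 78) (nat_lit 5) (nat_lit 379) (nat_lit 328) (nat_lit 73)) (XT.lf (nat_lit 0) (nat_lit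 22835136976) (nat_lit 304) (nat_lit 31726953648) (nat_lit 380) (nat_lit 21206773113) (nat_lit 73) (nat_lit 5) (nat_lit 77) (nat_lit 5) (nat_lit 78) (nat_lit 5) (nat_lit 380) (nat_lit 328) (nat_lit 72)))) (XT.nd (nat_lit 78) (nat_lit 304) (nat_lit 0) (XT.lf (nat_lit 0) (nat_lit 58440925350) (nat_lit 304) (nat_lit 8516347785) (nat_lit 380) (nat_lit 10350943912) (nat_lit 73) (nat_lit 5) (nat_lit 77) (nat_lit 5) (nat_lit 78) (nat_lit 5) (nat_lit 381) (nat_lit 328) (nat_lit 71)) (XT.nd (nat_lit 78) (nat_lit 0) (nat_lit 0) (XT.lf (nat_lit 0) (nat_lit 1122156581) (nat_lit 304) (nat_lit 62503579907) (nat_lit 76) (nat_lit 15258541577) (nat_lit 69) (nat_lit 5) (nat_lit 73) (nat_lit 5) (nat_lit 70) (nat_lit 5) (nat_lit 382) (nat_lit 328) (nat_lit 70)) (XT.lf (nat_lit 0) (nat_lit 13007412054) (nat_lit 304) (nat_lit 27618743367) (nat_lit 76) (nat_lit 39870111495) (nat_lit 69) (nat_lit 5) (nat_lit 73) (nat_lit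 5) (nat_lit 70) (nat_lit 5) (nat_lit 383) (nat_lit 328) (nat_lit 69))))) (XT.nd (nat_lit 36504) (nat_lit 0) (nat_lit 8360) (XT.nd (nat_lit 36348) (nat_lit 0) (nat_lit 8360) (XT.lf (nat_lit 0) (nat_lit 8477050628) (nat_lit 304) (nat_lit 16852958635) (nat_lit 380) (nat_lit 56824183337) (nat_lit 65) (nat_lit 5) (nat_lit 69) (nat_lit 5) (nat_lit 70) (nat_lit 5) (nat_lit 384) (nat_lit 328) (nat_lit 68)) (XT.nd (nat_lit 78) (nat_lit 0) (nat_lit 0) (XT.lf (nat_lit 0) (nat_lit 1841977316) (nat_lit 0) (nat_lit 1841977316) (nat_lit 1140) (nat_lit 12086231974) (nat_lit 175) (nat_lit 5) (nat_lit 175) (nat_lit 3) (nat_lit 190) (nat_lit 3) (nat_lit 329) (nat_lit 329) (nat_lit 122)) (XT.lf (nat_lit 0) (nat_lit 7641632459) (nat_lit 1140) (nat_lit 14069669177) (nat_lit 1216) (nat_lit 10297185626) (nat_lit 175) (nat_lit 5) (nat_lit 190) (nat_lit 3) (nat_lit 191) (nat_lit 5) (nat_lit 330) (nat_lit 329) (nat_lit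 121)))) (XT.nd (nat_lit 156) (nat_lit 0) (nat_lit 76) (XT.nd (nat_lit 78) (nat_lit 0) (nat_lit 76) (XT.lf (nat_lit 76) (nat_lit 94753858) (nat_lit 0) (nat_lit 7863781285) (nat_lit 1216) (nat_lit 24531064278) (nat_lit 176) (nat_lit 5) (nat_lit 175) (nat_lit 5) (nat_lit 191) (nat_lit 5) (nat_lit 331) (nat_lit 329) (nat_lit 120)) (XT.lf (nat_lit 0) (nat_lit 8487590825) (nat_lit 1140) (nat_lit 18072652991) (nat_lit 1216) (nat_lit 6418825367) (nat_lit 176) (nat_lit 5) (nat_lit 191) (nat_lit 5) (nat_lit 192) (nat_lit 5) (nat_lit 332) (nat_lit 329) (nat_lit 119))) (XT.nd (nat_lit 78) (nat_lit 0) (nat_lit 76) (XT.lf (nat_lit 0) (nat_lit 9108096296) (nat_lit 1140) (nat_lit 3399988773) (nat_lit 1216) (nat_lit 20972874134) (nat_lit 176) (nat_lit 5) (nat_lit 191) (nat_lit 5) (nat_lit 192) (nat_lit 5) (nat_lit 333) (nat_lit 329) (nat_lit 118)) (XT.lf (nat_lit 0) (nat_lit 9879862053) (nat_lit 1140) (nat_lit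 22069929435) (nat_lit 1216) (nat_lit 2044138492) (nat_lit 177) (nat_lit 5) (nat_lit 192) (nat_lit 5) (nat_lit 193) (nat_lit 5) (nat_lit 334) (nat_lit 329) (nat_lit 117)))))) (XT.nd (nat_lit 468) (nat_lit 760) (nat_lit 0) (XT.nd (nat_lit 234) (nat_lit 0) (nat_lit 76) (XT.nd (nat_lit 78) (nat_lit 0) (nat_lit 0) (XT.lf (nat_lit 0) (nat_lit 10831142320) (nat_lit 1140) (nat_lit 6869396219) (nat_lit 1216) (nat_lit 16817063801) (nat_lit 177) (nat_lit 5) (nat_lit 192) (nat_lit 5) (nat_lit 193) (nat_lit 5) (nat_lit 335) (nat_lit 329) (nat_lit 116)) (XT.nd (nat_lit 78) (nat_lit 0) (nat_lit 76) (XT.lf (nat_lit 76) (nat_lit 8960687941) (nat_lit 0) (nat_lit 2934317365) (nat_lit 1216) (nat_lit 23159461449) (nat_lit 178) (nat_lit 5) (nat_lit 177) (nat_lit 5) (nat_lit 193) (nat_lit 5) (nat_lit 336) (nat_lit 329) (nat_lit 115)) (XT.lf (nat_lit 0) (nat_lit 13176796290) (nat_lit 1140) (nat_lit 10318925009) (nat_lit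 1216) (nat_lit 12106138559) (nat_lit 178) (nat_lit 5) (nat_lit 193) (nat_lit 5) (nat_lit 194) (nat_lit 5) (nat_lit 337) (nat_lit 329) (nat_lit 114)))) (XT.nd (nat_lit 78) (nat_lit 0) (nat_lit 76) (XT.lf (nat_lit 76) (nat_lit 6016180393) (nat_lit 0) (nat_lit 8565767873) (nat_lit 1216) (nat_lit 21581182298) (nat_lit 179) (nat_lit 5) (nat_lit 178) (nat_lit 5) (nat_lit 194) (nat_lit 5) (nat_lit 338) (nat_lit 329) (nat_lit 113)) (XT.nd (nat_lit 78) (nat_lit 0) (nat_lit 0) (XT.lf (nat_lit 0) (nat_lit 16198043389) (nat_lit 1140) (nat_lit 13753152487) (nat_lit 1216) (nat_lit 6784982797) (nat_lit 179) (nat_lit 5) (nat_lit 194) (nat_lit 5) (nat_lit 195) (nat_lit 5) (nat_lit 339) (nat_lit 329) (nat_lit 112)) (XT.lf (nat_lit 76) (nat_lit 3106925083) (nat_lit 0) (nat_lit 14868501689) (nat_lit 1216) (nat_lit 19347610144) (nat_lit 180) (nat_lit 5) (nat_lit 179) (nat_lit 5) (nat_lit 195) (nat_lit 5) (nat_lit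 340) (nat_lit 329) (nat_lit 111))))) (XT.nd (nat_lit 234) (nat_lit 988) (nat_lit 0) (XT.nd (nat_lit 78) (nat_lit 0) (nat_lit 0) (XT.lf (nat_lit 0) (nat_lit 19950971513) (nat_lit 1140) (nat_lit 17177787743) (nat_lit 1216) (nat_lit 794399227) (nat_lit 180) (nat_lit 5) (nat_lit 195) (nat_lit 5) (nat_lit 196) (nat_lit 5) (nat_lit 341) (nat_lit 329) (nat_lit 110)) (XT.nd (nat_lit 78) (nat_lit 0) (nat_lit 0) (XT.lf (nat_lit 76) (nat_lit 227553538) (nat_lit 0) (nat_lit 21905858905) (nat_lit 1216) (nat_lit 16403445047) (nat_lit 181) (nat_lit 5) (nat_lit 180) (nat_lit 5) (nat_lit 196) (nat_lit 5) (nat_lit 342) (nat_lit 329) (nat_lit 109)) (XT.lf (nat_lit 76) (nat_lit 18505836166) (nat_lit 0) (nat_lit 6047220605) (nat_lit 1216) (nat_lit 14610761404) (nat_lit 181) (nat_lit 5) (nat_lit 180) (nat_lit 5) (nat_lit 196) (nat_lit 5) (nat_lit 343) (nat_lit 329) (nat_lit 108)))) (XT.nd (nat_lit 156) (nat_lit 1064)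 (nat_lit 0) (XT.nd (nat_lit 78) (nat_lit 0) (nat_lit 0) (XT.lf (nat_lit 0) (nat_lit 27142499298) (nat_lit 1140) (nat_lit 2577371090) (nat_lit 1216) (nat_lit 10086803562) (nat_lit 181) (nat_lit 5) (nat_lit 196) (nat_lit 5) (nat_lit 197) (nat_lit 5) (nat_lit 344) (nat_lit 329) (nat_lit 107)) (XT.lf (nat_lit 76) (nat_lit 16302582471) (nat_lit 0) (nat_lit 13721997593) (nat_lit 1216) (nat_lit 10437789148) (nat_lit 182) (nat_lit 5) (nat_lit 181) (nat_lit 5) (nat_lit 197) (nat_lit 5) (nat_lit 345) (nat_lit 329) (nat_lit 106))) (XT.nd (nat_lit 78) (nat_lit 1140) (nat_lit 0) (XT.lf (nat_lit 0) (nat_lit 33044306534) (nat_lit 1140) (nat_lit 5363298813) (nat_lit 76) (nat_lit 2728596875) (nat_lit 182) (nat_lit 5) (nat_lit 197) (nat_lit 5) (nat_lit 183) (nat_lit 5) (nat_lit 346) (nat_lit 329) (nat_lit 105)) (XT.lf (nat_lit 0) (nat_lit 14135737005) (nat_lit 1140) (nat_lit 22289085509) (nat_lit 1216) (nat_lit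 5397324097) (nat_lit 167) (nat_lit 5) (nat_lit 182) (nat_lit 5) (nat_lit 183) (nat_lit 5) (nat_lit 347) (nat_lit 329) (nat_lit 104))))))))
noncomputable def xc241 : XT := (XT.nd (nat_lit 2028) (nat_lit 1672) (nat_lit 0) (XT.nd (nat_lit 1014) (nat_lit 2508) (nat_lit 0) (XT.nd (nat_lit 468) (nat_lit 1520) (nat_lit 0) (XT.nd (nat_lit 234) (nat_lit 1140) (nat_lit 0) (XT.nd (nat_lit 78) (nat_lit 608) (nat_lit 0) (XT.lf (nat_lit 0) (nat_lit 34328374726) (nat_lit 1140) (nat_lit 5631025448) (nat_lit 1216) (nat_lit 2567692026) (nat_lit 167) (nat_lit 5) (nat_lit 182) (nat_lit 5) (nat_lit 183) (nat_lit 5) (nat_lit 348) (nat_lit 329) (nat_lit 103)) (XT.nd (nat_lit 78) (nat_lit 0) (nat_lit 0) (XT.lf (nat_lit 0) (nat_lit 566927578) (nat_lit 608) (nat_lit 31256449049) (nat_lit 76) (nat_lit 11422905641) (nat_lit 159) (nat_lit 5) (nat_lit 167) (nat_lit 5) (nat_lit 160) (nat_lit 5) (nat_lit 349) (nat_lit 329)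 (nat_lit 102)) (XT.lf (nat_lit 0) (nat_lit 3881888278) (nat_lit 608) (nat_lit 11115792819) (nat_lit 76) (nat_lit 28984469005) (nat_lit 159) (nat_lit 5) (nat_lit 167) (nat_lit 5) (nat_lit 160) (nat_lit 5) (nat_lit 350) (nat_lit 329) (nat_lit 101)))) (XT.nd (nat_lit 78) (nat_lit 532) (nat_lit 0) (XT.lf (nat_lit 0) (nat_lit 7412637078) (nat_lit 684) (nat_lit 34941271978) (nat_lit 76) (nat_lit 2382696739) (nat_lit 151) (nat_lit 5) (nat_lit 160) (nat_lit 5) (nat_lit 152) (nat_lit 5) (nat_lit 351) (nat_lit 329) (nat_lit 100)) (XT.nd (nat_lit 78) (nat_lit 532) (nat_lit 0) (XT.lf (nat_lit 0) (nat_lit 11309778398) (nat_lit 684) (nat_lit 14099605895) (nat_lit 76) (nat_lit 20096498707) (nat_lit 151) (nat_lit 5) (nat_lit 160) (nat_lit 5) (nat_lit 152) (nat_lit 5) (nat_lit 352) (nat_lit 329) (nat_lit 99)) (XT.lf (nat_lit 0) (nat_lit 7512615127) (nat_lit 532) (nat_lit 7882093993) (nat_lit 608) (nat_lit 30901405033)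 (nat_lit 144) (nat_lit 5) (nat_lit 151) (nat_lit 5) (nat_lit 152) (nat_lit 5) (nat_lit 353) (nat_lit 329) (nat_lit 98))))) (XT.nd (nat_lit 234) (nat_lit 988) (nat_lit 0) (XT.nd (nat_lit 78) (nat_lit 532) (nat_lit 0) (XT.lf (nat_lit 0) (nat_lit 19842432213) (nat_lit 608) (nat_lit 17144051833) (nat_lit 76) (nat_lit 10116362691) (nat_lit 144) (nat_lit 5) (nat_lit 152) (nat_lit 5) (nat_lit 145) (nat_lit 5) (nat_lit 354) (nat_lit 329) (nat_lit 97)) (XT.nd (nat_lit 78) (nat_lit 0) (nat_lit 0) (XT.lf (nat_lit 0) (nat_lit 5166063130) (nat_lit 532) (nat_lit 19383948395) (nat_lit 608) (nat_lit 23379978819) (nat_lit 137) (nat_lit 5) (nat_lit 144) (nat_lit 5) (nat_lit 145) (nat_lit 5) (nat_lit 355) (nat_lit 329) (nat_lit 96)) (XT.lf (nat_lit 0) (nat_lit 28495646774) (nat_lit 532) (nat_lit 1075042310) (nat_lit 608) (nat_lit 19206104774) (nat_lit 137) (nat_lit 5) (nat_lit 144) (nat_lit 5) (nat_lit 145) (nat_lit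 5) (nat_lit 356) (nat_lit 329) (nat_lit 95)))) (XT.nd (nat_lit 156) (nat_lit 532) (nat_lit 0) (XT.nd (nat_lit 78) (nat_lit 0) (nat_lit 0) (XT.lf (nat_lit 0) (nat_lit 2757715161) (nat_lit 456) (nat_lit 32180508778) (nat_lit 532) (nat_lit 14704892107) (nat_lit 131) (nat_lit 5) (nat_lit 137) (nat_lit 5) (nat_lit 138) (nat_lit 5) (nat_lit 357) (nat_lit 329) (nat_lit 94)) (XT.lf (nat_lit 0) (nat_lit 26891371649) (nat_lit 456) (nat_lit 13789561688) (nat_lit 532) (nat_lit 9848071736) (nat_lit 131) (nat_lit 5) (nat_lit 137) (nat_lit 5) (nat_lit 138) (nat_lit 5) (nat_lit 358) (nat_lit 329) (nat_lit 93))) (XT.nd (nat_lit 78) (nat_lit 76) (nat_lit 0) (XT.lf (nat_lit 0) (nat_lit 261884095) (nat_lit 456) (nat_lit 46384935290) (nat_lit 532) (nat_lit 4793126103) (nat_lit 125) (nat_lit 5) (nat_lit 131) (nat_lit 5) (nat_lit 132) (nat_lit 5) (nat_lit 359) (nat_lit 329) (nat_lit 92)) (XT.lf (nat_lit 0) (nat_lit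 781839089) (nat_lit 532) (nat_lit 27152256360) (nat_lit 76) (nat_lit 24432707737) (nat_lit 124) (nat_lit 5) (nat_lit 131) (nat_lit 5) (nat_lit 125) (nat_lit 5) (nat_lit 360) (nat_lit 329) (nat_lit 91)))))) (XT.nd (nat_lit 468) (nat_lit 1216) (nat_lit 0) (XT.nd (nat_lit 234) (nat_lit 836) (nat_lit 0) (XT.nd (nat_lit 78) (nat_lit 456) (nat_lit 0) (XT.lf (nat_lit 0) (nat_lit 6426601656) (nat_lit 532) (nat_lit 2454367252) (nat_lit 76) (nat_lit 44439108889) (nat_lit 124) (nat_lit 5) (nat_lit 131) (nat_lit 5) (nat_lit 125) (nat_lit 5) (nat_lit 361) (nat_lit 329) (nat_lit 90)) (XT.nd (nat_lit 78) (nat_lit 0) (nat_lit 0) (XT.lf (nat_lit 0) (nat_lit 12570456509) (nat_lit 532) (nat_lit 30960057052) (nat_lit 76) (nat_lit 10761546007) (nat_lit 118) (nat_lit 5) (nat_lit 125) (nat_lit 5) (nat_lit 119) (nat_lit 5) (nat_lit 362) (nat_lit 329) (nat_lit 89)) (XT.lf (nat_lit 0) (nat_lit 19010523973) (nat_lit 532)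 (nat_lit 5439575285) (nat_lit 76) (nat_lit 30839745987) (nat_lit 118) (nat_lit 5) (nat_lit 125) (nat_lit 5) (nat_lit 119) (nat_lit 5) (nat_lit 363) (nat_lit 329) (nat_lit 88)))) (XT.nd (nat_lit 78) (nat_lit 380) (nat_lit 0) (XT.lf (nat_lit 0) (nat_lit 21260201767) (nat_lit 456) (nat_lit 4586925619) (nat_lit 532) (nat_lit 30464338413) (nat_lit 112) (nat_lit 5) (nat_lit 118) (nat_lit 5) (nat_lit 119) (nat_lit 5) (nat_lit 364) (nat_lit 329) (nat_lit 87)) (XT.nd (nat_lit 78) (nat_lit 380) (nat_lit 0) (XT.lf (nat_lit 0) (nat_lit 33095859704) (nat_lit 532) (nat_lit 8643926470) (nat_lit 76) (nat_lit 15617739155) (nat_lit 112) (nat_lit 5) (nat_lit 119) (nat_lit 5) (nat_lit 113) (nat_lit 5) (nat_lit 365) (nat_lit 329) (nat_lit 86)) (XT.lf (nat_lit 0) (nat_lit 18877416618) (nat_lit 380) (nat_lit 21910528468) (nat_lit 456) (nat_lit 17640246073) (nat_lit 107) (nat_lit 5) (nat_lit 112) (nat_lit 5) (nat_lit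 113) (nat_lit 5) (nat_lit 366) (nat_lit 329) (nat_lit 85))))) (XT.nd (nat_lit 234) (nat_lit 760) (nat_lit 0) (XT.nd (nat_lit 78) (nat_lit 456) (nat_lit 0) (XT.lf (nat_lit 0) (nat_lit 47400437564) (nat_lit 380) (nat_lit 1396674490) (nat_lit 456) (nat_lit 10731276552) (nat_lit 107) (nat_lit 5) (nat_lit 112) (nat_lit 5) (nat_lit 113) (nat_lit 5) (nat_lit 367) (nat_lit 329) (nat_lit 84)) (XT.nd (nat_lit 78) (nat_lit 76) (nat_lit 0) (XT.lf (nat_lit 0) (nat_lit 16243700033) (nat_lit 380) (nat_lit 41147738913) (nat_lit 456) (nat_lit 3259807659) (nat_lit 102) (nat_lit 5) (nat_lit 107) (nat_lit 5) (nat_lit 108) (nat_lit 5) (nat_lit 368) (nat_lit 329) (nat_lit 83)) (XT.lf (nat_lit 0) (nat_lit 4485821270) (nat_lit 456) (nat_lit 16147842140) (nat_lit 76) (nat_lit 41168751615) (nat_lit 101) (nat_lit 5) (nat_lit 107) (nat_lit 5) (nat_lit 102) (nat_lit 5) (nat_lit 369) (nat_lit 329) (nat_lit 82)))) (XT.nd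 (nat_lit 156) (nat_lit 380) (nat_lit 0) (XT.nd (nat_lit 78) (nat_lit 0) (nat_lit 0) (XT.lf (nat_lit 0) (nat_lit 12530458833) (nat_lit 456) (nat_lit 49806202484) (nat_lit 76) (nat_lit 646525239) (nat_lit 96) (nat_lit 5) (nat_lit 102) (nat_lit 5) (nat_lit 97) (nat_lit 5) (nat_lit 370) (nat_lit 329) (nat_lit 81)) (XT.lf (nat_lit 0) (nat_lit 21184511066) (nat_lit 456) (nat_lit 20688965436) (nat_lit 76) (nat_lit 22314863508) (nat_lit 96) (nat_lit 5) (nat_lit 102) (nat_lit 5) (nat_lit 97) (nat_lit 5) (nat_lit 371) (nat_lit 329) (nat_lit 80))) (XT.nd (nat_lit 78) (nat_lit 0) (nat_lit 0) (XT.lf (nat_lit 0) (nat_lit 9485785825) (nat_lit 380) (nat_lit 20702714093) (nat_lit 456) (nat_lit 35238439712) (nat_lit 91) (nat_lit 5) (nat_lit 96) (nat_lit 5) (nat_lit 97) (nat_lit 5) (nat_lit 372) (nat_lit 329) (nat_lit 79)) (XT.lf (nat_lit 0) (nat_lit 39683343604) (nat_lit 456) (nat_lit 25720337606) (nat_lit 76)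 (nat_lit 1292394958) (nat_lit 91) (nat_lit 5) (nat_lit 97) (nat_lit 5) (nat_lit 92) (nat_lit 5) (nat_lit 373) (nat_lit 329) (nat_lit 78))))))) (XT.nd (nat_lit 37440) (nat_lit 0) (nat_lit 8132) (XT.nd (nat_lit 468) (nat_lit 608) (nat_lit 0) (XT.nd (nat_lit 234) (nat_lit 304) (nat_lit 0) (XT.nd (nat_lit 78) (nat_lit 456) (nat_lit 0) (XT.lf (nat_lit 0) (nat_lit 5304550989) (nat_lit 304) (nat_lit 44413618824) (nat_lit 380) (nat_lit 18277463829) (nat_lit 87) (nat_lit 5) (nat_lit 91) (nat_lit 5) (nat_lit 92) (nat_lit 5) (nat_lit 374) (nat_lit 329) (nat_lit 77)) (XT.nd (nat_lit 78) (nat_lit 456) (nat_lit 0) (XT.lf (nat_lit 0) (nat_lit 37786352971) (nat_lit 304) (nat_lit 22526595934) (nat_lit 380) (nat_lit 9013462621) (nat_lit 87) (nat_lit 5) (nat_lit 91) (nat_lit 5) (nat_lit 92) (nat_lit 5) (nat_lit 375) (nat_lit 329) (nat_lit 76)) (XT.lf (nat_lit 0) (nat_lit 522896409) (nat_lit 456) (nat_lit 70147000447)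 (nat_lit 76) (nat_lit 26921872) (nat_lit 81) (nat_lit 5) (nat_lit 87) (nat_lit 5) (nat_lit 82) (nat_lit 5) (nat_lit 376) (nat_lit 329) (nat_lit 75)))) (XT.nd (nat_lit 78) (nat_lit 304) (nat_lit 0) (XT.lf (nat_lit 0) (nat_lit 10708075204) (nat_lit 456) (nat_lit 38166354955) (nat_lit 76) (nat_lit 23214914850) (nat_lit 81) (nat_lit 5) (nat_lit 87) (nat_lit 5) (nat_lit 82) (nat_lit 5) (nat_lit 377) (nat_lit 329) (nat_lit 74)) (XT.nd (nat_lit 78) (nat_lit 304) (nat_lit 0) (XT.lf (nat_lit 0) (nat_lit 21198041324) (nat_lit 456) (nat_lit 5227330966) (nat_lit 76) (nat_lit 47098298654) (nat_lit 81) (nat_lit 5) (nat_lit 87) (nat_lit 5) (nat_lit 82) (nat_lit 5) (nat_lit 378) (nat_lit 329) (nat_lit 73)) (XT.lf (nat_lit 0) (nat_lit 29270016642) (nat_lit 304) (nat_lit 3013305425) (nat_lit 380) (nat_lit 42709286922) (nat_lit 77) (nat_lit 5) (nat_lit 81) (nat_lit 5) (nat_lit 82) (nat_lit 5) (nat_lit 379) (nat_lit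 329) (nat_lit 72))))) (XT.nd (nat_lit 234) (nat_lit 304) (nat_lit 0) (XT.nd (nat_lit 78) (nat_lit 304) (nat_lit 0) (XT.lf (nat_lit 0) (nat_lit 43956570429) (nat_lit 380) (nat_lit 11798972162) (nat_lit 76) (nat_lit 20742411085) (nat_lit 77) (nat_lit 5) (nat_lit 82) (nat_lit 5) (nat_lit 78) (nat_lit 5) (nat_lit 380) (nat_lit 329) (nat_lit 71)) (XT.nd (nat_lit 78) (nat_lit 0) (nat_lit 0) (XT.lf (nat_lit 0) (nat_lit 23571495573) (nat_lit 304) (nat_lit 32664224316) (nat_lit 380) (nat_lit 21805068461) (nat_lit 73) (nat_lit 5) (nat_lit 77) (nat_lit 5) (nat_lit 78) (nat_lit 5) (nat_lit 381) (nat_lit 329) (nat_lit 70)) (XT.lf (nat_lit 0) (nat_lit 60243963293) (nat_lit 304) (nat_lit 8757723712) (nat_lit 380) (nat_lit 10624668496) (nat_lit 73) (nat_lit 5) (nat_lit 77) (nat_lit 5) (nat_lit 78) (nat_lit 5) (nat_lit 382) (nat_lit 329) (nat_lit 69)))) (XT.nd (nat_lit 36582) (nat_lit 0) (nat_lit 8056) (XT.nd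 (nat_lit 36504) (nat_lit 0) (nat_lit 8056) (XT.lf (nat_lit 0) (nat_lit 1191476985) (nat_lit 304) (nat_lit 64327657939) (nat_lit 76) (nat_lit 15730566759) (nat_lit 69) (nat_lit 5) (nat_lit 73) (nat_lit 5) (nat_lit 70) (nat_lit 5) (nat_lit 383) (nat_lit 329) (nat_lit 68)) (XT.lf (nat_lit 0) (nat_lit 1928063312) (nat_lit 0) (nat_lit 1928063312) (nat_lit 1140) (nat_lit 12385221484) (nat_lit 175) (nat_lit 5) (nat_lit 175) (nat_lit 3) (nat_lit 190) (nat_lit 3) (nat_lit 330) (nat_lit 330) (nat_lit 120))) (XT.nd (nat_lit 78) (nat_lit 0) (nat_lit 0) (XT.lf (nat_lit 0) (nat_lit 7990021291) (nat_lit 1140) (nat_lit 14427551295) (nat_lit 1216) (nat_lit 10547411609) (nat_lit 175) (nat_lit 5) (nat_lit 190) (nat_lit 3) (nat_lit 191) (nat_lit 5) (nat_lit 331) (nat_lit 330) (nat_lit 119)) (XT.lf (nat_lit 76) (nat_lit 161174942) (nat_lit 0) (nat_lit 8152397177) (nat_lit 1216) (nat_lit 25147048713) (nat_lit 176)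 (nat_lit 5) (nat_lit 175) (nat_lit 5) (nat_lit 191) (nat_lit 5) (nat_lit 332) (nat_lit 330) (nat_lit 118)))))) (XT.nd (nat_lit 546) (nat_lit 0) (nat_lit 228) (XT.nd (nat_lit 234) (nat_lit 0) (nat_lit 76) (XT.nd (nat_lit 78) (nat_lit 0) (nat_lit 0) (XT.lf (nat_lit 0) (nat_lit 8854620795) (nat_lit 1140) (nat_lit 18549054282) (nat_lit 1216) (nat_lit 6561221158) (nat_lit 176) (nat_lit 5) (nat_lit 191) (nat_lit 5) (nat_lit 192) (nat_lit 5) (nat_lit 333) (nat_lit 330) (nat_lit 117)) (XT.nd (nat_lit 78) (nat_lit 0) (nat_lit 76) (XT.lf (nat_lit 0) (nat_lit 9490467579) (nat_lit 1140) (nat_lit 3438126010) (nat_lit 1216) (nat_lit 21553352621) (nat_lit 176) (nat_lit 5) (nat_lit 191) (nat_lit 5) (nat_lit 192) (nat_lit 5) (nat_lit 334) (nat_lit 330) (nat_lit 116)) (XT.lf (nat_lit 0) (nat_lit 10282399245) (nat_lit 1140) (nat_lit 22665014802) (nat_lit 1216) (nat_lit 2062986564) (nat_lit 177) (nat_lit 5) (nat_lit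 192) (nat_lit 5) (nat_lit 193) (nat_lit 5) (nat_lit 335) (nat_lit 330) (nat_lit 115)))) (XT.nd (nat_lit 156) (nat_lit 0) (nat_lit 76) (XT.nd (nat_lit 78) (nat_lit 0) (nat_lit 0) (XT.lf (nat_lit 0) (nat_lit 11259126426) (nat_lit 1140) (nat_lit 7010417411) (nat_lit 1216) (nat_lit 17280336801) (nat_lit 177) (nat_lit 5) (nat_lit 192) (nat_lit 5) (nat_lit 193) (nat_lit 5) (nat_lit 336) (nat_lit 330) (nat_lit 114)) (XT.lf (nat_lit 76) (nat_lit 9293931424) (nat_lit 0) (nat_lit 3058591697) (nat_lit 1216) (nat_lit 23750403938) (nat_lit 178) (nat_lit 5) (nat_lit 177) (nat_lit 5) (nat_lit 193) (nat_lit 5) (nat_lit 337) (nat_lit 330) (nat_lit 113))) (XT.nd (nat_lit 78) (nat_lit 0) (nat_lit 0) (XT.lf (nat_lit 0) (nat_lit 13669497508) (nat_lit 1140) (nat_lit 10562526787) (nat_lit 1216) (nat_lit 12434820246) (nat_lit 178) (nat_lit 5) (nat_lit 193) (nat_lit 5) (nat_lit 194) (nat_lit 5) (nat_lit 338) (nat_lit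 330) (nat_lit 112)) (XT.lf (nat_lit 76) (nat_lit 6261985051) (nat_lit 0) (nat_lit 8852610065) (nat_lit 1216) (nat_lit 22130428865) (nat_lit 179) (nat_lit 5) (nat_lit 178) (nat_lit 5) (nat_lit 194) (nat_lit 5) (nat_lit 339) (nat_lit 330) (nat_lit 111))))) (XT.nd (nat_lit 234) (nat_lit 0) (nat_lit 76) (XT.nd (nat_lit 78) (nat_lit 0) (nat_lit 0) (XT.lf (nat_lit 0) (nat_lit 16776121857) (nat_lit 1140) (nat_lit 14099138453) (nat_lit 1216) (nat_lit 6960098979) (nat_lit 179) (nat_lit 5) (nat_lit 194) (nat_lit 5) (nat_lit 195) (nat_lit 5) (nat_lit 340) (nat_lit 330) (nat_lit 110)) (XT.nd (nat_lit 78) (nat_lit 0) (nat_lit 76) (XT.lf (nat_lit 76) (nat_lit 3266088418) (nat_lit 0) (nat_lit 15338688722) (nat_lit 1216) (nat_lit 19835111724) (nat_lit 180) (nat_lit 5) (nat_lit 179) (nat_lit 5) (nat_lit 195) (nat_lit 5) (nat_lit 341) (nat_lit 330) (nat_lit 109)) (XT.lf (nat_lit 0) (nat_lit 20636739099) (nat_lit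 1140) (nat_lit 17626105148) (nat_lit 1216) (nat_lit 795259281) (nat_lit 180) (nat_lit 5) (nat_lit 195) (nat_lit 5) (nat_lit 196) (nat_lit 5) (nat_lit 342) (nat_lit 330) (nat_lit 108)))) (XT.nd (nat_lit 156) (nat_lit 0) (nat_lit 76) (XT.nd (nat_lit 78) (nat_lit 0) (nat_lit 0) (XT.lf (nat_lit 76) (nat_lit 300739349) (nat_lit 0) (nat_lit 22582010867) (nat_lit 1216) (nat_lit 16807524241) (nat_lit 181) (nat_lit 5) (nat_lit 180) (nat_lit 5) (nat_lit 196) (nat_lit 5) (nat_lit 343) (nat_lit 330) (nat_lit 107)) (XT.lf (nat_lit 76) (nat_lit 19125437664) (nat_lit 0) (nat_lit 6247060714) (nat_lit 1216) (nat_lit 14963623899) (nat_lit 181) (nat_lit 5) (nat_lit 180) (nat_lit 5) (nat_lit 196) (nat_lit 5) (nat_lit 344) (nat_lit 330) (nat_lit 106))) (XT.nd (nat_lit 78) (nat_lit 0) (nat_lit 0) (XT.lf (nat_lit 0) (nat_lit 28037039136) (nat_lit 1140) (nat_lit 2589435957) (nat_lit 1216) (nat_lit 10371869823) (nat_lit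 181) (nat_lit 5) (nat_lit 196) (nat_lit 5) (nat_lit 197) (nat_lit 5) (nat_lit 345) (nat_lit 330) (nat_lit 105)) (XT.lf (nat_lit 76) (nat_lit 16856276444) (nat_lit 0) (nat_lit 14147589203) (nat_lit 1216) (nat_lit 10669900421) (nat_lit 182) (nat_lit 5) (nat_lit 181) (nat_lit 5) (nat_lit 197) (nat_lit 5) (nat_lit 346) (nat_lit 330) (nat_lit 104))))))))
noncomputable def xc242 : XT := (XT.nd (nat_lit 2028) (nat_lit 1748) (nat_lit 0) (XT.nd (nat_lit 1014) (nat_lit 2660) (nat_lit 0) (XT.nd (nat_lit 468) (nat_lit 1520) (nat_lit 0) (XT.nd (nat_lit 234) (nat_lit 1216) (nat_lit 0) (XT.nd (nat_lit 78) (nat_lit 1140) (nat_lit 0) (XT.lf (nat_lit 0) (nat_lit 34111766081) (nat_lit 1140) (nat_lit 5458931138) (nat_lit 76) (nat_lit 2797192815) (nat_lit 182) (nat_lit 5) (nat_lit 197) (nat_lit 5) (nat_lit 183) (nat_lit 5) (nat_lit 347) (nat_lit 330) (nat_lit 103)) (XT.nd (nat_lit 78) (nat_lit 0) (nat_lit 0) (XT.lf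 (nat_lit 0) (nat_lit 14624435886) (nat_lit 1140) (nat_lit 22967665499) (nat_lit 1216) (nat_lit 5482362586) (nat_lit 167) (nat_lit 5) (nat_lit 182) (nat_lit 5) (nat_lit 183) (nat_lit 5) (nat_lit 348) (nat_lit 330) (nat_lit 102)) (XT.lf (nat_lit 0) (nat_lit 35420970405) (nat_lit 1140) (nat_lit 5809575070) (nat_lit 1216) (nat_lit 2570080813) (nat_lit 167) (nat_lit 5) (nat_lit 182) (nat_lit 5) (nat_lit 183) (nat_lit 5) (nat_lit 349) (nat_lit 330) (nat_lit 101)))) (XT.nd (nat_lit 78) (nat_lit 608) (nat_lit 0) (XT.lf (nat_lit 0) (nat_lit 655524504) (nat_lit 608) (nat_lit 32128138974) (nat_lit 76) (nat_lit 11757757993) (nat_lit 159) (nat_lit 5) (nat_lit 167) (nat_lit 5) (nat_lit 160) (nat_lit 5) (nat_lit 350) (nat_lit 330) (nat_lit 100)) (XT.nd (nat_lit 78) (nat_lit 608) (nat_lit 0) (XT.lf (nat_lit 0) (nat_lit 4067848906) (nat_lit 608) (nat_lit 11385185489) (nat_lit 76) (nat_lit 29846396457) (nat_lit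 159) (nat_lit 5) (nat_lit 167) (nat_lit 5) (nat_lit 160) (nat_lit 5) (nat_lit 351) (nat_lit 330) (nat_lit 99)) (XT.lf (nat_lit 0) (nat_lit 7703061159) (nat_lit 684) (nat_lit 35923874252) (nat_lit 76) (nat_lit 2449631448) (nat_lit 151) (nat_lit 5) (nat_lit 160) (nat_lit 5) (nat_lit 152) (nat_lit 5) (nat_lit 352) (nat_lit 330) (nat_lit 98))))) (XT.nd (nat_lit 234) (nat_lit 988) (nat_lit 0) (XT.nd (nat_lit 78) (nat_lit 532) (nat_lit 0) (XT.lf (nat_lit 0) (nat_lit 11715134826) (nat_lit 684) (nat_lit 14458869911) (nat_lit 76) (nat_lit 20694979888) (nat_lit 151) (nat_lit 5) (nat_lit 160) (nat_lit 5) (nat_lit 152) (nat_lit 5) (nat_lit 353) (nat_lit 330) (nat_lit 97)) (XT.nd (nat_lit 78) (nat_lit 0) (nat_lit 0) (XT.lf (nat_lit 0) (nat_lit 7801092994) (nat_lit 532) (nat_lit 8120202858) (nat_lit 608) (nat_lit 31761669096) (nat_lit 144) (nat_lit 5) (nat_lit 151) (nat_lit 5) (nat_lit 152) (nat_lit 5) (nat_lit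 354) (nat_lit 330) (nat_lit 96)) (XT.lf (nat_lit 0) (nat_lit 20500549487) (nat_lit 608) (nat_lit 17595123034) (nat_lit 76) (nat_lit 10418286654) (nat_lit 144) (nat_lit 5) (nat_lit 152) (nat_lit 5) (nat_lit 145) (nat_lit 5) (nat_lit 355) (nat_lit 330) (nat_lit 95)))) (XT.nd (nat_lit 156) (nat_lit 456) (nat_lit 0) (XT.nd (nat_lit 78) (nat_lit 0) (nat_lit 0) (XT.lf (nat_lit 0) (nat_lit 5383675277) (nat_lit 532) (nat_lit 19964452525) (nat_lit 608) (nat_lit 24017828692) (nat_lit 137) (nat_lit 5) (nat_lit 144) (nat_lit 5) (nat_lit 145) (nat_lit 5) (nat_lit 356) (nat_lit 330) (nat_lit 94)) (XT.lf (nat_lit 0) (nat_lit 29411322248) (nat_lit 532) (nat_lit 1106308801) (nat_lit 608) (nat_lit 19720589382) (nat_lit 137) (nat_lit 5) (nat_lit 144) (nat_lit 5) (nat_lit 145) (nat_lit 5) (nat_lit 357) (nat_lit 330) (nat_lit 93))) (XT.nd (nat_lit 78) (nat_lit 0) (nat_lit 0) (XT.lf (nat_lit 0) (nat_lit 2902506014)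 (nat_lit 456) (nat_lit 33142549311) (nat_lit 532) (nat_lit 15085513464) (nat_lit 131) (nat_lit 5) (nat_lit 137) (nat_lit 5) (nat_lit 138) (nat_lit 5) (nat_lit 358) (nat_lit 330) (nat_lit 92)) (XT.lf (nat_lit 0) (nat_lit 27758364641) (nat_lit 456) (nat_lit 14199972101) (nat_lit 532) (nat_lit 10084751357) (nat_lit 131) (nat_lit 5) (nat_lit 137) (nat_lit 5) (nat_lit 138) (nat_lit 5) (nat_lit 359) (nat_lit 330) (nat_lit 91)))))) (XT.nd (nat_lit 468) (nat_lit 1216) (nat_lit 0) (XT.nd (nat_lit 234) (nat_lit 912) (nat_lit 0) (XT.nd (nat_lit 78) (nat_lit 76) (nat_lit 0) (XT.lf (nat_lit 0) (nat_lit 331140174) (nat_lit 456) (nat_lit 47771020508) (nat_lit 532) (nat_lit 4879229474) (nat_lit 125) (nat_lit 5) (nat_lit 131) (nat_lit 5) (nat_lit 132) (nat_lit 5) (nat_lit 360) (nat_lit 330) (nat_lit 90)) (XT.nd (nat_lit 78) (nat_lit 0) (nat_lit 0) (XT.lf (nat_lit 0) (nat_lit 860211412) (nat_lit 532) (nat_lit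 27906048617) (nat_lit 76) (nat_lit 25169828484) (nat_lit 124) (nat_lit 5) (nat_lit 131) (nat_lit 5) (nat_lit 125) (nat_lit 5) (nat_lit 361) (nat_lit 330) (nat_lit 89)) (XT.lf (nat_lit 0) (nat_lit 6672717327) (nat_lit 532) (nat_lit 2468992995) (nat_lit 76) (nat_lit 45776301101) (nat_lit 124) (nat_lit 5) (nat_lit 131) (nat_lit 5) (nat_lit 125) (nat_lit 5) (nat_lit 362) (nat_lit 330) (nat_lit 88)))) (XT.nd (nat_lit 78) (nat_lit 456) (nat_lit 0) (XT.lf (nat_lit 0) (nat_lit 12999955160) (nat_lit 532) (nat_lit 31828853658) (nat_lit 76) (nat_lit 11090373823) (nat_lit 118) (nat_lit 5) (nat_lit 125) (nat_lit 5) (nat_lit 119) (nat_lit 5) (nat_lit 363) (nat_lit 330) (nat_lit 87)) (XT.nd (nat_lit 78) (nat_lit 456) (nat_lit 0) (XT.lf (nat_lit 0) (nat_lit 19631698873) (nat_lit 532) (nat_lit 5544505159) (nat_lit 76) (nat_lit 31770745586) (nat_lit 118) (nat_lit 5) (nat_lit 125) (nat_lit 5) (nat_lit 119) (nat_lit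 5) (nat_lit 364) (nat_lit 330) (nat_lit 86)) (XT.lf (nat_lit 0) (nat_lit 21955694053) (nat_lit 456) (nat_lit 4716779515) (nat_lit 532) (nat_lit 31326774924) (nat_lit 112) (nat_lit 5) (nat_lit 118) (nat_lit 5) (nat_lit 119) (nat_lit 5) (nat_lit 365) (nat_lit 330) (nat_lit 85))))) (XT.nd (nat_lit 234) (nat_lit 836) (nat_lit 0) (XT.nd (nat_lit 78) (nat_lit 380) (nat_lit 0) (XT.lf (nat_lit 0) (nat_lit 34137285879) (nat_lit 532) (nat_lit 8845794771) (nat_lit 76) (nat_lit 16093652461) (nat_lit 112) (nat_lit 5) (nat_lit 119) (nat_lit 5) (nat_lit 113) (nat_lit 5) (nat_lit 366) (nat_lit 330) (nat_lit 84)) (XT.nd (nat_lit 78) (nat_lit 0) (nat_lit 0) (XT.lf (nat_lit 0) (nat_lit 19500625380) (nat_lit 380) (nat_lit 22558641180) (nat_lit 456) (nat_lit 18120280166) (nat_lit 107) (nat_lit 5) (nat_lit 112) (nat_lit 5) (nat_lit 113) (nat_lit 5) (nat_lit 367) (nat_lit 330) (nat_lit 83)) (XT.lf (nat_lit 0) (nat_lit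 48877680073) (nat_lit 380) (nat_lit 1429639635) (nat_lit 456) (nat_lit 11005473790) (nat_lit 107) (nat_lit 5) (nat_lit 112) (nat_lit 5) (nat_lit 113) (nat_lit 5) (nat_lit 368) (nat_lit 330) (nat_lit 82)))) (XT.nd (nat_lit 156) (nat_lit 380) (nat_lit 0) (XT.nd (nat_lit 78) (nat_lit 76) (nat_lit 0) (XT.lf (nat_lit 0) (nat_lit 16787046485) (nat_lit 380) (nat_lit 42371703578) (nat_lit 456) (nat_lit 3310610651) (nat_lit 102) (nat_lit 5) (nat_lit 107) (nat_lit 5) (nat_lit 108) (nat_lit 5) (nat_lit 369) (nat_lit 330) (nat_lit 81)) (XT.lf (nat_lit 0) (nat_lit 4665128209) (nat_lit 456) (nat_lit 16576930772) (nat_lit 76) (nat_lit 42413033506) (nat_lit 101) (nat_lit 5) (nat_lit 107) (nat_lit 5) (nat_lit 102) (nat_lit 5) (nat_lit 370) (nat_lit 330) (nat_lit 80))) (XT.nd (nat_lit 78) (nat_lit 0) (nat_lit 0) (XT.lf (nat_lit 0) (nat_lit 12950433101) (nat_lit 456) (nat_lit 51244318652) (nat_lit 76) (nat_lit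 676557107) (nat_lit 96) (nat_lit 5) (nat_lit 102) (nat_lit 5) (nat_lit 97) (nat_lit 5) (nat_lit 371) (nat_lit 330) (nat_lit 79)) (XT.lf (nat_lit 0) (nat_lit 21862823586) (nat_lit 456) (nat_lit 21255197597) (nat_lit 76) (nat_lit 22994635734) (nat_lit 96) (nat_lit 5) (nat_lit 102) (nat_lit 5) (nat_lit 97) (nat_lit 5) (nat_lit 372) (nat_lit 330) (nat_lit 78))))))) (XT.nd (nat_lit 37596) (nat_lit 0) (nat_lit 7828) (XT.nd (nat_lit 468) (nat_lit 608) (nat_lit 0) (XT.nd (nat_lit 234) (nat_lit 456) (nat_lit 0) (XT.nd (nat_lit 78) (nat_lit 304) (nat_lit 0) (XT.lf (nat_lit 0) (nat_lit 9824262507) (nat_lit 380) (nat_lit 21311941808) (nat_lit 456) (nat_lit 36252233500) (nat_lit 91) (nat_lit 5) (nat_lit 96) (nat_lit 5) (nat_lit 97) (nat_lit 5) (nat_lit 373) (nat_lit 330) (nat_lit 77)) (XT.nd (nat_lit 78) (nat_lit 304) (nat_lit 0) (XT.lf (nat_lit 0) (nat_lit 40914779199) (nat_lit 456) (nat_lit 26438453398)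 (nat_lit 76) (nat_lit 1342450689) (nat_lit 91) (nat_lit 5) (nat_lit 97) (nat_lit 5) (nat_lit 92) (nat_lit 5) (nat_lit 374) (nat_lit 330) (nat_lit 76)) (XT.lf (nat_lit 0) (nat_lit 5516657400) (nat_lit 304) (nat_lit 45733309683) (nat_lit 380) (nat_lit 18784282268) (nat_lit 87) (nat_lit 5) (nat_lit 91) (nat_lit 5) (nat_lit 92) (nat_lit 5) (nat_lit 375) (nat_lit 330) (nat_lit 75)))) (XT.nd (nat_lit 78) (nat_lit 456) (nat_lit 0) (XT.lf (nat_lit 0) (nat_lit 38971370630) (nat_lit 304) (nat_lit 23190046524) (nat_lit 380) (nat_lit 9243569921) (nat_lit 87) (nat_lit 5) (nat_lit 91) (nat_lit 5) (nat_lit 92) (nat_lit 5) (nat_lit 376) (nat_lit 330) (nat_lit 74)) (XT.nd (nat_lit 78) (nat_lit 0) (nat_lit 0) (XT.lf (nat_lit 0) (nat_lit 577564043) (nat_lit 456) (nat_lit 72198582588) (nat_lit 76) (nat_lit 40365382) (nat_lit 81) (nat_lit 5) (nat_lit 87) (nat_lit 5) (nat_lit 82) (nat_lit 5) (nat_lit 377) (nat_lit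 330) (nat_lit 73)) (XT.lf (nat_lit 0) (nat_lit 11067162840) (nat_lit 456) (nat_lit 39260056407) (nat_lit 76) (nat_lit 23923630115) (nat_lit 81) (nat_lit 5) (nat_lit 87) (nat_lit 5) (nat_lit 82) (nat_lit 5) (nat_lit 378) (nat_lit 330) (nat_lit 72))))) (XT.nd (nat_lit 234) (nat_lit 304) (nat_lit 0) (XT.nd (nat_lit 78) (nat_lit 304) (nat_lit 0) (XT.lf (nat_lit 0) (nat_lit 21870725652) (nat_lit 456) (nat_lit 5334355558) (nat_lit 76) (nat_lit 48523158118) (nat_lit 81) (nat_lit 5) (nat_lit 87) (nat_lit 5) (nat_lit 82) (nat_lit 5) (nat_lit 379) (nat_lit 330) (nat_lit 71)) (XT.nd (nat_lit 78) (nat_lit 0) (nat_lit 0) (XT.lf (nat_lit 0) (nat_lit 30197424288) (nat_lit 304) (nat_lit 3090544311) (nat_lit 380) (nat_lit 43953295949) (nat_lit 77) (nat_lit 5) (nat_lit 81) (nat_lit 5) (nat_lit 82) (nat_lit 5) (nat_lit 380) (nat_lit 330) (nat_lit 70)) (XT.lf (nat_lit 0) (nat_lit 45310484411) (nat_lit 380) (nat_lit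 12104103121) (nat_lit 76) (nat_lit 21377211060) (nat_lit 77) (nat_lit 5) (nat_lit 82) (nat_lit 5) (nat_lit 78) (nat_lit 5) (nat_lit 381) (nat_lit 330) (nat_lit 69)))) (XT.nd (nat_lit 36738) (nat_lit 0) (nat_lit 7752) (XT.nd (nat_lit 36660) (nat_lit 0) (nat_lit 7752) (XT.lf (nat_lit 0) (nat_lit 24326999840) (nat_lit 304) (nat_lit 33630447642) (nat_lit 380) (nat_lit 22423488735) (nat_lit 73) (nat_lit 5) (nat_lit 77) (nat_lit 5) (nat_lit 78) (nat_lit 5) (nat_lit 382) (nat_lit 330) (nat_lit 68)) (XT.lf (nat_lit 0) (nat_lit 2014962310) (nat_lit 0) (nat_lit 2014962310) (nat_lit 1140) (nat_lit 12696831433) (nat_lit 175) (nat_lit 5) (nat_lit 175) (nat_lit 3) (nat_lit 190) (nat_lit 3) (nat_lit 331) (nat_lit 331) (nat_lit 118))) (XT.nd (nat_lit 78) (nat_lit 0) (nat_lit 0) (XT.lf (nat_lit 0) (nat_lit 8342022674) (nat_lit 1140) (nat_lit 14799855675) (nat_lit 1216) (nat_lit 10808513394) (nat_lit 175) (nat_lit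 5) (nat_lit 190) (nat_lit 3) (nat_lit 191) (nat_lit 5) (nat_lit 332) (nat_lit 331) (nat_lit 117)) (XT.lf (nat_lit 76) (nat_lit 225938993) (nat_lit 0) (nat_lit 8446646209) (nat_lit 1216) (nat_lit 25788398159) (nat_lit 176) (nat_lit 5) (nat_lit 175) (nat_lit 5) (nat_lit 191) (nat_lit 5) (nat_lit 333) (nat_lit 331) (nat_lit 116)))))) (XT.nd (nat_lit 468) (nat_lit 0) (nat_lit 152) (XT.nd (nat_lit 234) (nat_lit 0) (nat_lit 76) (XT.nd (nat_lit 78) (nat_lit 0) (nat_lit 0) (XT.lf (nat_lit 0) (nat_lit 9226209316) (nat_lit 1140) (nat_lit 19043523555) (nat_lit 1216) (nat_lit 6710768727) (nat_lit 176) (nat_lit 5) (nat_lit 191) (nat_lit 5) (nat_lit 192) (nat_lit 5) (nat_lit 334) (nat_lit 331) (nat_lit 115)) (XT.nd (nat_lit 78) (nat_lit 0) (nat_lit 76) (XT.lf (nat_lit 0) (nat_lit 9878045584) (nat_lit 1140) (nat_lit 3481073329) (nat_lit 1216) (nat_lit 22154041486) (nat_lit 176) (nat_lit 5) (nat_lit 191) (nat_lit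 5) (nat_lit 192) (nat_lit 5) (nat_lit 335) (nat_lit 331) (nat_lit 114)) (XT.lf (nat_lit 0) (nat_lit 10690919607) (nat_lit 1140) (nat_lit 23281799522) (nat_lit 1216) (nat_lit 2084838380) (nat_lit 177) (nat_lit 5) (nat_lit 192) (nat_lit 5) (nat_lit 193) (nat_lit 5) (nat_lit 336) (nat_lit 331) (nat_lit 113)))) (XT.nd (nat_lit 78) (nat_lit 0) (nat_lit 0) (XT.lf (nat_lit 0) (nat_lit 11694034572) (nat_lit 1140) (nat_lit 7159403988) (nat_lit 1216) (nat_lit 17759875273) (nat_lit 177) (nat_lit 5) (nat_lit 192) (nat_lit 5) (nat_lit 193) (nat_lit 5) (nat_lit 337) (nat_lit 331) (nat_lit 112)) (XT.nd (nat_lit 78) (nat_lit 0) (nat_lit 76) (XT.lf (nat_lit 76) (nat_lit 9633474077) (nat_lit 0) (nat_lit 3184513659) (nat_lit 1216) (nat_lit 24365035620) (nat_lit 178) (nat_lit 5) (nat_lit 177) (nat_lit 5) (nat_lit 193) (nat_lit 5) (nat_lit 338) (nat_lit 331) (nat_lit 111)) (XT.lf (nat_lit 0) (nat_lit 14171388757)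 (nat_lit 1140) (nat_lit 10817223336) (nat_lit 1216) (nat_lit 12775342966) (nat_lit 178) (nat_lit 5) (nat_lit 193) (nat_lit 5) (nat_lit 194) (nat_lit 5) (nat_lit 339) (nat_lit 331) (nat_lit 110))))) (XT.nd (nat_lit 234) (nat_lit 0) (nat_lit 152) (XT.nd (nat_lit 78) (nat_lit 0) (nat_lit 76) (XT.lf (nat_lit 76) (nat_lit 6511414257) (nat_lit 0) (nat_lit 9146342911) (nat_lit 1216) (nat_lit 22701789274) (nat_lit 179) (nat_lit 5) (nat_lit 178) (nat_lit 5) (nat_lit 194) (nat_lit 5) (nat_lit 340) (nat_lit 331) (nat_lit 109)) (XT.nd (nat_lit 78) (nat_lit 0) (nat_lit 0) (XT.lf (nat_lit 0) (nat_lit 17366253629) (nat_lit 1140) (nat_lit 14459327605) (nat_lit 1216) (nat_lit 7142100835) (nat_lit 179) (nat_lit 5) (nat_lit 194) (nat_lit 5) (nat_lit 195) (nat_lit 5) (nat_lit 341) (nat_lit 331) (nat_lit 108)) (XT.lf (nat_lit 76) (nat_lit 3426240533) (nat_lit 0) (nat_lit 15821596091) (nat_lit 1216) (nat_lit 20342572725)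 (nat_lit 180) (nat_lit 5) (nat_lit 179) (nat_lit 5) (nat_lit 195) (nat_lit 5) (nat_lit 342) (nat_lit 331) (nat_lit 107)))) (XT.nd (nat_lit 156) (nat_lit 0) (nat_lit 0) (XT.nd (nat_lit 78) (nat_lit 0) (nat_lit 0) (XT.lf (nat_lit 0) (nat_lit 21338071869) (nat_lit 1140) (nat_lit 18091719081) (nat_lit 1216) (nat_lit 797463819) (nat_lit 180) (nat_lit 5) (nat_lit 195) (nat_lit 5) (nat_lit 196) (nat_lit 5) (nat_lit 343) (nat_lit 331) (nat_lit 106)) (XT.lf (nat_lit 76) (nat_lit 372311445) (nat_lit 0) (nat_lit 23277358077) (nat_lit 1216) (nat_lit 17228778758) (nat_lit 181) (nat_lit 5) (nat_lit 180) (nat_lit 5) (nat_lit 196) (nat_lit 5) (nat_lit 344) (nat_lit 331) (nat_lit 105))) (XT.nd (nat_lit 78) (nat_lit 0) (nat_lit 76) (XT.lf (nat_lit 76) (nat_lit 19759928867) (nat_lit 0) (nat_lit 6451838442) (nat_lit 1216) (nat_lit 15331978042) (nat_lit 181) (nat_lit 5) (nat_lit 180) (nat_lit 5) (nat_lit 196) (nat_lit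 5) (nat_lit 345) (nat_lit 331) (nat_lit 104)) (XT.lf (nat_lit 0) (nat_lit 28953807638) (nat_lit 1140) (nat_lit 2605608746) (nat_lit 1216) (nat_lit 10666494815) (nat_lit 181) (nat_lit 5) (nat_lit 196) (nat_lit 5) (nat_lit 197) (nat_lit 5) (nat_lit 346) (nat_lit 331) (nat_lit 103))))))))
noncomputable def xc243 : XT := (XT.nd (nat_lit 2028) (nat_lit 1444) (nat_lit 0) (XT.nd (nat_lit 1014) (nat_lit 2660) (nat_lit 0) (XT.nd (nat_lit 468) (nat_lit 2128) (nat_lit 0) (XT.nd (nat_lit 234) (nat_lit 608) (nat_lit 0) (XT.nd (nat_lit 78) (nat_lit 1064) (nat_lit 0) (XT.lf (nat_lit 76) (nat_lit 17422871985) (nat_lit 0) (nat_lit 14585148826) (nat_lit 1216) (nat_lit 10913626050) (nat_lit 182) (nat_lit 5) (nat_lit 181) (nat_lit 5) (nat_lit 197) (nat_lit 5) (nat_lit 347) (nat_lit 331) (nat_lit 102)) (XT.nd (nat_lit 78) (nat_lit 1140) (nat_lit 0) (XT.lf (nat_lit 0) (nat_lit 35206879221) (nat_lit 1140) (nat_lit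 5561179005) (nat_lit 76) (nat_lit 2868607924) (nat_lit 182) (nat_lit 5) (nat_lit 197) (nat_lit 5) (nat_lit 183) (nat_lit 5) (nat_lit 348) (nat_lit 331) (nat_lit 101)) (XT.lf (nat_lit 0) (nat_lit 15124085892) (nat_lit 1140) (nat_lit 23666034161) (nat_lit 1216) (nat_lit 5574365527) (nat_lit 167) (nat_lit 5) (nat_lit 182) (nat_lit 5) (nat_lit 183) (nat_lit 5) (nat_lit 349) (nat_lit 331) (nat_lit 100)))) (XT.nd (nat_lit 78) (nat_lit 608) (nat_lit 0) (XT.lf (nat_lit 0) (nat_lit 36542742167) (nat_lit 1140) (nat_lit 5992929018) (nat_lit 1216) (nat_lit 2576826017) (nat_lit 167) (nat_lit 5) (nat_lit 182) (nat_lit 5) (nat_lit 183) (nat_lit 5) (nat_lit 350) (nat_lit 331) (nat_lit 99)) (XT.nd (nat_lit 78) (nat_lit 0) (nat_lit 0) (XT.lf (nat_lit 0) (nat_lit 742669830) (nat_lit 608) (nat_lit 33029768469) (nat_lit 76) (nat_lit 12103105666) (nat_lit 159) (nat_lit 5) (nat_lit 167) (nat_lit 5) (nat_lit 160) (nat_lit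 5) (nat_lit 351) (nat_lit 331) (nat_lit 98)) (XT.lf (nat_lit 0) (nat_lit 4255398540) (nat_lit 608) (nat_lit 11666338458) (nat_lit 76) (nat_lit 30734618382) (nat_lit 159) (nat_lit 5) (nat_lit 167) (nat_lit 5) (nat_lit 160) (nat_lit 5) (nat_lit 352) (nat_lit 331) (nat_lit 97))))) (XT.nd (nat_lit 234) (nat_lit 988) (nat_lit 0) (XT.nd (nat_lit 78) (nat_lit 532) (nat_lit 0) (XT.lf (nat_lit 0) (nat_lit 7998291903) (nat_lit 684) (nat_lit 36939722362) (nat_lit 76) (nat_lit 2518835168) (nat_lit 151) (nat_lit 5) (nat_lit 160) (nat_lit 5) (nat_lit 152) (nat_lit 5) (nat_lit 353) (nat_lit 331) (nat_lit 96)) (XT.nd (nat_lit 78) (nat_lit 532) (nat_lit 0) (XT.lf (nat_lit 0) (nat_lit 12128859657) (nat_lit 684) (nat_lit 14832569875) (nat_lit 76) (nat_lit 21311668873) (nat_lit 151) (nat_lit 5) (nat_lit 160) (nat_lit 5) (nat_lit 152) (nat_lit 5) (nat_lit 354) (nat_lit 331) (nat_lit 95)) (XT.lf (nat_lit 0) (nat_lit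 8094603034) (nat_lit 532) (nat_lit 8365360499) (nat_lit 608) (nat_lit 32651574417) (nat_lit 144) (nat_lit 5) (nat_lit 151) (nat_lit 5) (nat_lit 152) (nat_lit 5) (nat_lit 355) (nat_lit 331) (nat_lit 94)))) (XT.nd (nat_lit 156) (nat_lit 456) (nat_lit 0) (XT.nd (nat_lit 78) (nat_lit 532) (nat_lit 0) (XT.lf (nat_lit 0) (nat_lit 21174802759) (nat_lit 608) (nat_lit 18063357200) (nat_lit 76) (nat_lit 10729358284) (nat_lit 144) (nat_lit 5) (nat_lit 152) (nat_lit 5) (nat_lit 145) (nat_lit 5) (nat_lit 356) (nat_lit 331) (nat_lit 93)) (XT.lf (nat_lit 0) (nat_lit 5604220555) (nat_lit 532) (nat_lit 20562430005) (nat_lit 608) (nat_lit 24678462062) (nat_lit 137) (nat_lit 5) (nat_lit 144) (nat_lit 5) (nat_lit 145) (nat_lit 5) (nat_lit 357) (nat_lit 331) (nat_lit 92))) (XT.nd (nat_lit 78) (nat_lit 456) (nat_lit 0) (XT.lf (nat_lit 0) (nat_lit 30350977469) (nat_lit 532) (nat_lit 1138569817) (nat_lit 608) (nat_lit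 20254050277) (nat_lit 137) (nat_lit 5) (nat_lit 144) (nat_lit 5) (nat_lit 145) (nat_lit 5) (nat_lit 358) (nat_lit 331) (nat_lit 91)) (XT.lf (nat_lit 0) (nat_lit 3048078129) (nat_lit 456) (nat_lit 34133644784) (nat_lit 532) (nat_lit 15481027868) (nat_lit 131) (nat_lit 5) (nat_lit 137) (nat_lit 5) (nat_lit 138) (nat_lit 5) (nat_lit 359) (nat_lit 331) (nat_lit 90)))))) (XT.nd (nat_lit 468) (nat_lit 1672) (nat_lit 0) (XT.nd (nat_lit 234) (nat_lit 456) (nat_lit 0) (XT.nd (nat_lit 78) (nat_lit 532) (nat_lit 0) (XT.lf (nat_lit 0) (nat_lit 28647908721) (nat_lit 456) (nat_lit 14622882908) (nat_lit 532) (nat_lit 10331904577) (nat_lit 131) (nat_lit 5) (nat_lit 137) (nat_lit 5) (nat_lit 138) (nat_lit 5) (nat_lit 360) (nat_lit 331) (nat_lit 89)) (XT.nd (nat_lit 78) (nat_lit 76) (nat_lit 0) (XT.lf (nat_lit 0) (nat_lit 398949350) (nat_lit 456) (nat_lit 49199001873) (nat_lit 532) (nat_lit 4971227612) (nat_lit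 125) (nat_lit 5) (nat_lit 131) (nat_lit 5) (nat_lit 132) (nat_lit 5) (nat_lit 361) (nat_lit 331) (nat_lit 88)) (XT.lf (nat_lit 0) (nat_lit 937782435) (nat_lit 532) (nat_lit 28685943401) (nat_lit 76) (nat_lit 25928825227) (nat_lit 124) (nat_lit 5) (nat_lit 131) (nat_lit 5) (nat_lit 125) (nat_lit 5) (nat_lit 362) (nat_lit 331) (nat_lit 87)))) (XT.nd (nat_lit 78) (nat_lit 456) (nat_lit 0) (XT.lf (nat_lit 0) (nat_lit 6923155818) (nat_lit 532) (nat_lit 2487444653) (nat_lit 76) (nat_lit 47153378376) (nat_lit 124) (nat_lit 5) (nat_lit 131) (nat_lit 5) (nat_lit 125) (nat_lit 5) (nat_lit 363) (nat_lit 331) (nat_lit 86)) (XT.nd (nat_lit 78) (nat_lit 0) (nat_lit 0) (XT.lf (nat_lit 0) (nat_lit 13439331661) (nat_lit 532) (nat_lit 32727158701) (nat_lit 76) (nat_lit 11428723114) (nat_lit 118) (nat_lit 5) (nat_lit 125) (nat_lit 5) (nat_lit 119) (nat_lit 5) (nat_lit 364) (nat_lit 331) (nat_lit 85)) (XT.lf (nat_lit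 0) (nat_lit 20268589495) (nat_lit 532) (nat_lit 5655927142) (nat_lit 76) (nat_lit 32729341814) (nat_lit 118) (nat_lit 5) (nat_lit 125) (nat_lit 5) (nat_lit 119) (nat_lit 5) (nat_lit 365) (nat_lit 331) (nat_lit 84))))) (XT.nd (nat_lit 234) (nat_lit 836) (nat_lit 0) (XT.nd (nat_lit 78) (nat_lit 380) (nat_lit 0) (XT.lf (nat_lit 0) (nat_lit 22668739682) (nat_lit 456) (nat_lit 4850974133) (nat_lit 532) (nat_lit 32218040476) (nat_lit 112) (nat_lit 5) (nat_lit 118) (nat_lit 5) (nat_lit 119) (nat_lit 5) (nat_lit 366) (nat_lit 331) (nat_lit 83)) (XT.nd (nat_lit 78) (nat_lit 380) (nat_lit 0) (XT.lf (nat_lit 0) (nat_lit 35207167849) (nat_lit 532) (nat_lit 9057016957) (nat_lit 76) (nat_lit 16583419460) (nat_lit 112) (nat_lit 5) (nat_lit 119) (nat_lit 5) (nat_lit 113) (nat_lit 5) (nat_lit 367) (nat_lit 331) (nat_lit 82)) (XT.lf (nat_lit 0) (nat_lit 20139264901) (nat_lit 380) (nat_lit 23226725571) (nat_lit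 456) (nat_lit 18617538029) (nat_lit 107) (nat_lit 5) (nat_lit 112) (nat_lit 5) (nat_lit 113) (nat_lit 5) (nat_lit 368) (nat_lit 331) (nat_lit 81)))) (XT.nd (nat_lit 156) (nat_lit 456) (nat_lit 0) (XT.nd (nat_lit 78) (nat_lit 380) (nat_lit 0) (XT.lf (nat_lit 0) (nat_lit 50396069465) (nat_lit 380) (nat_lit 1464106646) (nat_lit 456) (nat_lit 11290637478) (nat_lit 107) (nat_lit 5) (nat_lit 112) (nat_lit 5) (nat_lit 113) (nat_lit 5) (nat_lit 369) (nat_lit 331) (nat_lit 80)) (XT.lf (nat_lit 0) (nat_lit 17343476667) (nat_lit 380) (nat_lit 43632988061) (nat_lit 456) (nat_lit 3365635222) (nat_lit 102) (nat_lit 5) (nat_lit 107) (nat_lit 5) (nat_lit 108) (nat_lit 5) (nat_lit 370) (nat_lit 331) (nat_lit 79))) (XT.nd (nat_lit 78) (nat_lit 380) (nat_lit 0) (XT.lf (nat_lit 0) (nat_lit 4847246539) (nat_lit 456) (nat_lit 17022069186) (nat_lit 76) (nat_lit 43694114625) (nat_lit 101) (nat_lit 5) (nat_lit 107)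 (nat_lit 5) (nat_lit 102) (nat_lit 5) (nat_lit 371) (nat_lit 331) (nat_lit 78)) (XT.lf (nat_lit 0) (nat_lit 13380477345) (nat_lit 456) (nat_lit 52728796948) (nat_lit 76) (nat_lit 706879375) (nat_lit 96) (nat_lit 5) (nat_lit 102) (nat_lit 5) (nat_lit 97) (nat_lit 5) (nat_lit 372) (nat_lit 331) (nat_lit 77))))))) (XT.nd (nat_lit 37674) (nat_lit 0) (nat_lit 7524) (XT.nd (nat_lit 468) (nat_lit 304) (nat_lit 0) (XT.nd (nat_lit 234) (nat_lit 760) (nat_lit 0) (XT.nd (nat_lit 78) (nat_lit 380) (nat_lit 0) (XT.lf (nat_lit 0) (nat_lit 22559029895) (nat_lit 456) (nat_lit 21841541618) (nat_lit 76) (nat_lit 23694208354) (nat_lit 96) (nat_lit 5) (nat_lit 102) (nat_lit 5) (nat_lit 97) (nat_lit 5) (nat_lit 373) (nat_lit 331) (nat_lit 76)) (XT.nd (nat_lit 78) (nat_lit 0) (nat_lit 0) (XT.lf (nat_lit 0) (nat_lit 10169799231) (nat_lit 380) (nat_lit 21940126806) (nat_lit 456) (nat_lit 37298930109) (nat_lit 91) (nat_lit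 5) (nat_lit 96) (nat_lit 5) (nat_lit 97) (nat_lit 5) (nat_lit 374) (nat_lit 331) (nat_lit 75)) (XT.lf (nat_lit 0) (nat_lit 42180808008) (nat_lit 456) (nat_lit 27181183458) (nat_lit 76) (nat_lit 1393360352) (nat_lit 91) (nat_lit 5) (nat_lit 97) (nat_lit 5) (nat_lit 92) (nat_lit 5) (nat_lit 375) (nat_lit 331) (nat_lit 74)))) (XT.nd (nat_lit 78) (nat_lit 456) (nat_lit 0) (XT.lf (nat_lit 0) (nat_lit 5732086316) (nat_lit 304) (nat_lit 47093321315) (nat_lit 380) (nat_lit 19308687843) (nat_lit 87) (nat_lit 5) (nat_lit 91) (nat_lit 5) (nat_lit 92) (nat_lit 5) (nat_lit 376) (nat_lit 331) (nat_lit 73)) (XT.nd (nat_lit 78) (nat_lit 456) (nat_lit 0) (XT.lf (nat_lit 0) (nat_lit 40188986694) (nat_lit 304) (nat_lit 23874109417) (nat_lit 380) (nat_lit 9482893627) (nat_lit 87) (nat_lit 5) (nat_lit 91) (nat_lit 5) (nat_lit 92) (nat_lit 5) (nat_lit 377) (nat_lit 331) (nat_lit 72)) (XT.lf (nat_lit 0) (nat_lit 631634052)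 (nat_lit 456) (nat_lit 74314744728) (nat_lit 76) (nat_lit 53486847) (nat_lit 81) (nat_lit 5) (nat_lit 87) (nat_lit 5) (nat_lit 82) (nat_lit 5) (nat_lit 378) (nat_lit 331) (nat_lit 71))))) (XT.nd (nat_lit 234) (nat_lit 0) (nat_lit 0) (XT.nd (nat_lit 78) (nat_lit 304) (nat_lit 0) (XT.lf (nat_lit 0) (nat_lit 11434850626) (nat_lit 456) (nat_lit 40389513112) (nat_lit 76) (nat_lit 24652902615) (nat_lit 81) (nat_lit 5) (nat_lit 87) (nat_lit 5) (nat_lit 82) (nat_lit 5) (nat_lit 379) (nat_lit 331) (nat_lit 70)) (XT.nd (nat_lit 78) (nat_lit 304) (nat_lit 0) (XT.lf (nat_lit 0) (nat_lit 22561481306) (nat_lit 456) (nat_lit 5447449344) (nat_lit 76) (nat_lit 49990079653) (nat_lit 81) (nat_lit 5) (nat_lit 87) (nat_lit 5) (nat_lit 82) (nat_lit 5) (nat_lit 380) (nat_lit 331) (nat_lit 69)) (XT.lf (nat_lit 0) (nat_lit 31149823732) (nat_lit 304) (nat_lit 3170855818) (nat_lit 380) (nat_lit 45236764674) (nat_lit 77)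 (nat_lit 5) (nat_lit 81) (nat_lit 5) (nat_lit 82) (nat_lit 5) (nat_lit 381) (nat_lit 331) (nat_lit 68)))) (XT.nd (nat_lit 36816) (nat_lit 0) (nat_lit 7448) (XT.nd (nat_lit 36738) (nat_lit 0) (nat_lit 7448) (XT.lf (nat_lit 0) (nat_lit 46702994221) (nat_lit 380) (nat_lit 12421191522) (nat_lit 76) (nat_lit 22030335896) (nat_lit 77) (nat_lit 5) (nat_lit 82) (nat_lit 5) (nat_lit 78) (nat_lit 5) (nat_lit 382) (nat_lit 331) (nat_lit 67)) (XT.lf (nat_lit 0) (nat_lit 2102800281) (nat_lit 0) (nat_lit 2102800281) (nat_lit 1140) (nat_lit 13021230866) (nat_lit 175) (nat_lit 5) (nat_lit 175) (nat_lit 3) (nat_lit 190) (nat_lit 3) (nat_lit 332) (nat_lit 332) (nat_lit 116))) (XT.nd (nat_lit 78) (nat_lit 0) (nat_lit 0) (XT.lf (nat_lit 0) (nat_lit 8698137576) (nat_lit 1140) (nat_lit 15186803407) (nat_lit 1216) (nat_lit 11080623859) (nat_lit 175) (nat_lit 5) (nat_lit 190) (nat_lit 3) (nat_lit 191) (nat_lit 5) (nat_lit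 333) (nat_lit 332) (nat_lit 115)) (XT.lf (nat_lit 76) (nat_lit 289205808) (nat_lit 0) (nat_lit 8746871042) (nat_lit 1216) (nat_lit 26455478310) (nat_lit 176) (nat_lit 5) (nat_lit 175) (nat_lit 5) (nat_lit 191) (nat_lit 5) (nat_lit 334) (nat_lit 332) (nat_lit 114)))))) (XT.nd (nat_lit 546) (nat_lit 0) (nat_lit 228) (XT.nd (nat_lit 234) (nat_lit 0) (nat_lit 76) (XT.nd (nat_lit 78) (nat_lit 0) (nat_lit 0) (XT.lf (nat_lit 0) (nat_lit 9602863535) (nat_lit 1140) (nat_lit 19556386095) (nat_lit 1216) (nat_lit 6867517310) (nat_lit 176) (nat_lit 5) (nat_lit 191) (nat_lit 5) (nat_lit 192) (nat_lit 5) (nat_lit 335) (nat_lit 332) (nat_lit 113)) (XT.nd (nat_lit 78) (nat_lit 0) (nat_lit 76) (XT.lf (nat_lit 0) (nat_lit 10271346115) (nat_lit 1140) (nat_lit 3528764590) (nat_lit 1216) (nat_lit 22775386536) (nat_lit 176) (nat_lit 5) (nat_lit 191) (nat_lit 5) (nat_lit 192) (nat_lit 5) (nat_lit 336) (nat_lit 332)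 (nat_lit 112)) (XT.lf (nat_lit 0) (nat_lit 11105952393) (nat_lit 1140) (nat_lit 23920713756) (nat_lit 1216) (nat_lit 2109644083) (nat_lit 177) (nat_lit 5) (nat_lit 192) (nat_lit 5) (nat_lit 193) (nat_lit 5) (nat_lit 337) (nat_lit 332) (nat_lit 111)))) (XT.nd (nat_lit 156) (nat_lit 0) (nat_lit 76) (XT.nd (nat_lit 78) (nat_lit 0) (nat_lit 0) (XT.lf (nat_lit 0) (nat_lit 12136414054) (nat_lit 1140) (nat_lit 7316380523) (nat_lit 1216) (nat_lit 18256031289) (nat_lit 177) (nat_lit 5) (nat_lit 192) (nat_lit 5) (nat_lit 193) (nat_lit 5) (nat_lit 338) (nat_lit 332) (nat_lit 110)) (XT.lf (nat_lit 76) (nat_lit 9979717163) (nat_lit 0) (nat_lit 3312252114) (nat_lit 1216) (nat_lit 25003724990) (nat_lit 178) (nat_lit 5) (nat_lit 177) (nat_lit 5) (nat_lit 193) (nat_lit 5) (nat_lit 339) (nat_lit 332) (nat_lit 109))) (XT.nd (nat_lit 78) (nat_lit 0) (nat_lit 0) (XT.lf (nat_lit 0) (nat_lit 14683066685) (nat_lit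 1140) (nat_lit 11083130125) (nat_lit 1216) (nat_lit 13127948257) (nat_lit 178) (nat_lit 5) (nat_lit 193) (nat_lit 5) (nat_lit 194) (nat_lit 5) (nat_lit 340) (nat_lit 332) (nat_lit 108)) (XT.lf (nat_lit 76) (nat_lit 6764791989) (nat_lit 0) (nat_lit 9447271556) (nat_lit 1216) (nat_lit 23295603385) (nat_lit 179) (nat_lit 5) (nat_lit 178) (nat_lit 5) (nat_lit 194) (nat_lit 5) (nat_lit 341) (nat_lit 332) (nat_lit 107))))) (XT.nd (nat_lit 234) (nat_lit 0) (nat_lit 76) (XT.nd (nat_lit 78) (nat_lit 0) (nat_lit 0) (XT.lf (nat_lit 0) (nat_lit 17969103917) (nat_lit 1140) (nat_lit 14833926547) (nat_lit 1216) (nat_lit 7331101240) (nat_lit 179) (nat_lit 5) (nat_lit 194) (nat_lit 5) (nat_lit 195) (nat_lit 5) (nat_lit 342) (nat_lit 332) (nat_lit 106)) (XT.nd (nat_lit 78) (nat_lit 0) (nat_lit 76) (XT.lf (nat_lit 76) (nat_lit 3587628431) (nat_lit 0) (nat_lit 16317684928) (nat_lit 1216) (nat_lit 20870285716) (nat_lit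 180) (nat_lit 5) (nat_lit 179) (nat_lit 5) (nat_lit 195) (nat_lit 5) (nat_lit 343) (nat_lit 332) (nat_lit 105)) (XT.lf (nat_lit 0) (nat_lit 22055724250) (nat_lit 1140) (nat_lit 18574927604) (nat_lit 1216) (nat_lit 800977477) (nat_lit 180) (nat_lit 5) (nat_lit 195) (nat_lit 5) (nat_lit 196) (nat_lit 5) (nat_lit 344) (nat_lit 332) (nat_lit 104)))) (XT.nd (nat_lit 156) (nat_lit 0) (nat_lit 76) (XT.nd (nat_lit 78) (nat_lit 0) (nat_lit 0) (XT.lf (nat_lit 76) (nat_lit 442440083) (nat_lit 0) (nat_lit 23992538923) (nat_lit 1216) (nat_lit 17667433797) (nat_lit 181) (nat_lit 5) (nat_lit 180) (nat_lit 5) (nat_lit 196) (nat_lit 5) (nat_lit 345) (nat_lit 332) (nat_lit 103)) (XT.lf (nat_lit 76) (nat_lit 20409968766) (nat_lit 0) (nat_lit 6661762628) (nat_lit 1216) (nat_lit 15716006972) (nat_lit 181) (nat_lit 5) (nat_lit 180) (nat_lit 5) (nat_lit 196) (nat_lit 5) (nat_lit 346) (nat_lit 332) (nat_lit 102)))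 (XT.nd (nat_lit 78) (nat_lit 0) (nat_lit 0) (XT.lf (nat_lit 0) (nat_lit 29893736156) (nat_lit 1140) (nat_lit 2625797661) (nat_lit 1216) (nat_lit 10970907510) (nat_lit 181) (nat_lit 5) (nat_lit 196) (nat_lit 5) (nat_lit 197) (nat_lit 5) (nat_lit 347) (nat_lit 332) (nat_lit 101)) (XT.lf (nat_lit 76) (nat_lit 18002969067) (nat_lit 0) (nat_lit 15035081410) (nat_lit 1216) (nat_lit 11169047477) (nat_lit 182) (nat_lit 5) (nat_lit 181) (nat_lit 5) (nat_lit 197) (nat_lit 5) (nat_lit 348) (nat_lit 332) (nat_lit 100))))))))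
noncomputable def xc244 : XT := (XT.nd (nat_lit 2028) (nat_lit 1140) (nat_lit 0) (XT.nd (nat_lit 1014) (nat_lit 2660) (nat_lit 0) (XT.nd (nat_lit 468) (nat_lit 1520) (nat_lit 0) (XT.nd (nat_lit 234) (nat_lit 1216) (nat_lit 0) (XT.nd (nat_lit 78) (nat_lit 1140) (nat_lit 0) (XT.lf (nat_lit 0) (nat_lit 36330726428) (nat_lit 1140) (nat_lit 5670025812) (nat_lit 76) (nat_lit 2942883077) (nat_lit 182) (nat_lit 5) (nat_lit 197) (nat_lit 5) (nat_lit 183) (nat_lit 5) (nat_lit 349) (nat_lit 332) (nat_lit 99)) (XT.nd (nat_lit 78) (nat_lit 0) (nat_lit 0) (XT.lf (nat_lit 0) (nat_lit 15635228517) (nat_lit 1140) (nat_lit 24384817803) (nat_lit 1216) (nat_lit 5673288513) (nat_lit 167) (nat_lit 5) (nat_lit 182) (nat_lit 5) (nat_lit 183) (nat_lit 5) (nat_lit 350) (nat_lit 332) (nat_lit 98)) (XT.lf (nat_lit 0) (nat_lit 37694772052) (nat_lit 1140) (nat_lit 6181263119) (nat_lit 1216) (nat_lit 2587812370) (nat_lit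 167) (nat_lit 5) (nat_lit 182) (nat_lit 5) (nat_lit 183) (nat_lit 5) (nat_lit 351) (nat_lit 332) (nat_lit 97)))) (XT.nd (nat_lit 78) (nat_lit 608) (nat_lit 0) (XT.lf (nat_lit 0) (nat_lit 828555912) (nat_lit 608) (nat_lit 33962018226) (nat_lit 76) (nat_lit 12459237702) (nat_lit 159) (nat_lit 5) (nat_lit 167) (nat_lit 5) (nat_lit 160) (nat_lit 5) (nat_lit 352) (nat_lit 332) (nat_lit 96)) (XT.nd (nat_lit 78) (nat_lit 608) (nat_lit 0) (XT.lf (nat_lit 0) (nat_lit 4444813881) (nat_lit 608) (nat_lit 11959393373) (nat_lit 76) (nat_lit 31649898552) (nat_lit 159) (nat_lit 5) (nat_lit 167) (nat_lit 5) (nat_lit 160) (nat_lit 5) (nat_lit 353) (nat_lit 332) (nat_lit 95)) (XT.lf (nat_lit 0) (nat_lit 8298697733) (nat_lit 684) (nat_lit 37989597399) (nat_lit 76) (nat_lit 2590360989) (nat_lit 151) (nat_lit 5) (nat_lit 160) (nat_lit 5) (nat_lit 152) (nat_lit 5) (nat_lit 354) (nat_lit 332) (nat_lit 94))))) (XT.nd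 (nat_lit 234) (nat_lit 988) (nat_lit 0) (XT.nd (nat_lit 78) (nat_lit 532) (nat_lit 0) (XT.lf (nat_lit 0) (nat_lit 12551421634) (nat_lit 684) (nat_lit 15220928880) (nat_lit 76) (nat_lit 21947097353) (nat_lit 151) (nat_lit 5) (nat_lit 160) (nat_lit 5) (nat_lit 152) (nat_lit 5) (nat_lit 355) (nat_lit 332) (nat_lit 93)) (XT.nd (nat_lit 78) (nat_lit 0) (nat_lit 0) (XT.lf (nat_lit 0) (nat_lit 8393504137) (nat_lit 532) (nat_lit 8617783804) (nat_lit 608) (nat_lit 33571790184) (nat_lit 144) (nat_lit 5) (nat_lit 151) (nat_lit 5) (nat_lit 152) (nat_lit 5) (nat_lit 356) (nat_lit 332) (nat_lit 92)) (XT.lf (nat_lit 0) (nat_lit 21865883194) (nat_lit 608) (nat_lit 18549060796) (nat_lit 76) (nat_lit 11049846847) (nat_lit 144) (nat_lit 5) (nat_lit 152) (nat_lit 5) (nat_lit 145) (nat_lit 5) (nat_lit 357) (nat_lit 332) (nat_lit 91)))) (XT.nd (nat_lit 156) (nat_lit 456) (nat_lit 0) (XT.nd (nat_lit 78) (nat_lit 0)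 (nat_lit 0) (XT.lf (nat_lit 0) (nat_lit 5827993340) (nat_lit 532) (nat_lit 21178401693) (nat_lit 608) (nat_lit 25362353024) (nat_lit 137) (nat_lit 5) (nat_lit 144) (nat_lit 5) (nat_lit 145) (nat_lit 5) (nat_lit 358) (nat_lit 332) (nat_lit 90)) (XT.lf (nat_lit 0) (nat_lit 31315532199) (nat_lit 532) (nat_lit 1171851949) (nat_lit 608) (nat_lit 20806853435) (nat_lit 137) (nat_lit 5) (nat_lit 144) (nat_lit 5) (nat_lit 145) (nat_lit 5) (nat_lit 359) (nat_lit 332) (nat_lit 89))) (XT.nd (nat_lit 78) (nat_lit 0) (nat_lit 0) (XT.lf (nat_lit 0) (nat_lit 3194659444) (nat_lit 456) (nat_lit 35154655723) (nat_lit 532) (nat_lit 15891682664) (nat_lit 131) (nat_lit 5) (nat_lit 137) (nat_lit 5) (nat_lit 138) (nat_lit 5) (nat_lit 360) (nat_lit 332) (nat_lit 88)) (XT.lf (nat_lit 0) (nat_lit 29560878964) (nat_lit 456) (nat_lit 15058658324) (nat_lit 532) (nat_lit 10589651967) (nat_lit 131) (nat_lit 5) (nat_lit 137)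 (nat_lit 5) (nat_lit 138) (nat_lit 5) (nat_lit 361) (nat_lit 332) (nat_lit 87)))))) (XT.nd (nat_lit 468) (nat_lit 1216) (nat_lit 0) (XT.nd (nat_lit 234) (nat_lit 912) (nat_lit 0) (XT.nd (nat_lit 78) (nat_lit 76) (nat_lit 0) (XT.lf (nat_lit 0) (nat_lit 465470540) (nat_lit 456) (nat_lit 50670118266) (nat_lit 532) (nat_lit 5069107256) (nat_lit 125) (nat_lit 5) (nat_lit 131) (nat_lit 5) (nat_lit 132) (nat_lit 5) (nat_lit 362) (nat_lit 332) (nat_lit 86)) (XT.nd (nat_lit 78) (nat_lit 0) (nat_lit 0) (XT.lf (nat_lit 0) (nat_lit 1014709084) (nat_lit 532) (nat_lit 29492523517) (nat_lit 76) (nat_lit 26710367889) (nat_lit 124) (nat_lit 5) (nat_lit 131) (nat_lit 5) (nat_lit 125) (nat_lit 5) (nat_lit 363) (nat_lit 332) (nat_lit 85)) (XT.lf (nat_lit 0) (nat_lit 7178222508) (nat_lit 532) (nat_lit 2509642570) (nat_lit 76) (nat_lit 48571550509) (nat_lit 124) (nat_lit 5) (nat_lit 131) (nat_lit 5) (nat_lit 125)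 (nat_lit 5) (nat_lit 364) (nat_lit 332) (nat_lit 84)))) (XT.nd (nat_lit 78) (nat_lit 456) (nat_lit 0) (XT.lf (nat_lit 0) (nat_lit 13889054966) (nat_lit 532) (nat_lit 33655659703) (nat_lit 76) (nat_lit 11776899235) (nat_lit 118) (nat_lit 5) (nat_lit 125) (nat_lit 5) (nat_lit 119) (nat_lit 5) (nat_lit 365) (nat_lit 332) (nat_lit 83)) (XT.nd (nat_lit 78) (nat_lit 456) (nat_lit 0) (XT.lf (nat_lit 0) (nat_lit 20921834904) (nat_lit 532) (nat_lit 5773844026) (nat_lit 76) (nat_lit 33716381707) (nat_lit 118) (nat_lit 5) (nat_lit 125) (nat_lit 5) (nat_lit 119) (nat_lit 5) (nat_lit 366) (nat_lit 332) (nat_lit 82)) (XT.lf (nat_lit 0) (nat_lit 23400055343) (nat_lit 456) (nat_lit 4989614142) (nat_lit 532) (nat_lit 33138830257) (nat_lit 112) (nat_lit 5) (nat_lit 118) (nat_lit 5) (nat_lit 119) (nat_lit 5) (nat_lit 367) (nat_lit 332) (nat_lit 81))))) (XT.nd (nat_lit 234) (nat_lit 836) (nat_lit 0) (XT.nd (nat_lit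 78) (nat_lit 380) (nat_lit 0) (XT.lf (nat_lit 0) (nat_lit 36306519272) (nat_lit 532) (nat_lit 9277684334) (nat_lit 76) (nat_lit 17087480085) (nat_lit 112) (nat_lit 5) (nat_lit 119) (nat_lit 5) (nat_lit 113) (nat_lit 5) (nat_lit 368) (nat_lit 332) (nat_lit 80)) (XT.nd (nat_lit 78) (nat_lit 0) (nat_lit 0) (XT.lf (nat_lit 0) (nat_lit 20793985556) (nat_lit 380) (nat_lit 23915350466) (nat_lit 456) (nat_lit 19132374338) (nat_lit 107) (nat_lit 5) (nat_lit 112) (nat_lit 5) (nat_lit 113) (nat_lit 5) (nat_lit 369) (nat_lit 332) (nat_lit 79)) (XT.lf (nat_lit 0) (nat_lit 51957022139) (nat_lit 380) (nat_lit 1500091134) (nat_lit 456) (nat_lit 11586939290) (nat_lit 107) (nat_lit 5) (nat_lit 112) (nat_lit 5) (nat_lit 113) (nat_lit 5) (nat_lit 370) (nat_lit 332) (nat_lit 78)))) (XT.nd (nat_lit 156) (nat_lit 380) (nat_lit 0) (XT.nd (nat_lit 78) (nat_lit 76) (nat_lit 0) (XT.lf (nat_lit 0) (nat_lit 17913567740)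 (nat_lit 380) (nat_lit 44932677463) (nat_lit 456) (nat_lit 3424853173) (nat_lit 102) (nat_lit 5) (nat_lit 107) (nat_lit 5) (nat_lit 108) (nat_lit 5) (nat_lit 371) (nat_lit 332) (nat_lit 77)) (XT.lf (nat_lit 0) (nat_lit 5032408005) (nat_lit 456) (nat_lit 17483556496) (nat_lit 76) (nat_lit 45013129330) (nat_lit 101) (nat_lit 5) (nat_lit 107) (nat_lit 5) (nat_lit 102) (nat_lit 5) (nat_lit 372) (nat_lit 332) (nat_lit 76))) (XT.nd (nat_lit 78) (nat_lit 0) (nat_lit 0) (XT.lf (nat_lit 0) (nat_lit 13821038852) (nat_lit 456) (nat_lit 54260843471) (nat_lit 76) (nat_lit 737535803) (nat_lit 96) (nat_lit 5) (nat_lit 102) (nat_lit 5) (nat_lit 97) (nat_lit 5) (nat_lit 373) (nat_lit 332) (nat_lit 75)) (XT.lf (nat_lit 0) (nat_lit 23273807769) (nat_lit 456) (nat_lit 22448421474) (nat_lit 76) (nat_lit 24414209408) (nat_lit 96) (nat_lit 5) (nat_lit 102) (nat_lit 5) (nat_lit 97) (nat_lit 5) (nat_lit 374) (nat_lit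 332) (nat_lit 74))))))) (XT.nd (nat_lit 37830) (nat_lit 0) (nat_lit 6536) (XT.nd (nat_lit 468) (nat_lit 0) (nat_lit 0) (XT.nd (nat_lit 234) (nat_lit 456) (nat_lit 0) (XT.nd (nat_lit 78) (nat_lit 304) (nat_lit 0) (XT.lf (nat_lit 0) (nat_lit 10522785421) (nat_lit 380) (nat_lit 22587798744) (nat_lit 456) (nat_lit 38379373744) (nat_lit 91) (nat_lit 5) (nat_lit 96) (nat_lit 5) (nat_lit 97) (nat_lit 5) (nat_lit 375) (nat_lit 332) (nat_lit 73)) (XT.nd (nat_lit 78) (nat_lit 304) (nat_lit 0) (XT.lf (nat_lit 0) (nat_lit 43482602720) (nat_lit 456) (nat_lit 27949089937) (nat_lit 76) (nat_lit 1445186746) (nat_lit 91) (nat_lit 5) (nat_lit 97) (nat_lit 5) (nat_lit 92) (nat_lit 5) (nat_lit 376) (nat_lit 332) (nat_lit 72)) (XT.lf (nat_lit 0) (nat_lit 5951111959) (nat_lit 304) (nat_lit 48494821438) (nat_lit 380) (nat_lit 19851071400) (nat_lit 87) (nat_lit 5) (nat_lit 91) (nat_lit 5) (nat_lit 92) (nat_lit 5) (nat_lit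 377) (nat_lit 332) (nat_lit 71)))) (XT.nd (nat_lit 78) (nat_lit 456) (nat_lit 0) (XT.lf (nat_lit 0) (nat_lit 41440348580) (nat_lit 304) (nat_lit 24579362294) (nat_lit 380) (nat_lit 9731577447) (nat_lit 87) (nat_lit 5) (nat_lit 91) (nat_lit 5) (nat_lit 92) (nat_lit 5) (nat_lit 378) (nat_lit 332) (nat_lit 70)) (XT.nd (nat_lit 78) (nat_lit 0) (nat_lit 0) (XT.lf (nat_lit 0) (nat_lit 685216958) (nat_lit 456) (nat_lit 76497250189) (nat_lit 76) (nat_lit 66318245) (nat_lit 81) (nat_lit 5) (nat_lit 87) (nat_lit 5) (nat_lit 82) (nat_lit 5) (nat_lit 379) (nat_lit 332) (nat_lit 69)) (XT.lf (nat_lit 0) (nat_lit 11811521275) (nat_lit 456) (nat_lit 41555628718) (nat_lit 76) (nat_lit 25403389491) (nat_lit 81) (nat_lit 5) (nat_lit 87) (nat_lit 5) (nat_lit 82) (nat_lit 5) (nat_lit 380) (nat_lit 332) (nat_lit 68))))) (XT.nd (nat_lit 37050) (nat_lit 0) (nat_lit 7144) (XT.nd (nat_lit 36894) (nat_lit 0) (nat_lit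 7144) (XT.lf (nat_lit 0) (nat_lit 23270971502) (nat_lit 456) (nat_lit 5566630312) (nat_lit 76) (nat_lit 51500364372) (nat_lit 81) (nat_lit 5) (nat_lit 87) (nat_lit 5) (nat_lit 82) (nat_lit 5) (nat_lit 381) (nat_lit 332) (nat_lit 67)) (XT.nd (nat_lit 78) (nat_lit 0) (nat_lit 0) (XT.lf (nat_lit 0) (nat_lit 2191701146) (nat_lit 0) (nat_lit 2191701146) (nat_lit 1140) (nat_lit 13358605929) (nat_lit 175) (nat_lit 5) (nat_lit 175) (nat_lit 3) (nat_lit 190) (nat_lit 3) (nat_lit 333) (nat_lit 333) (nat_lit 114)) (XT.lf (nat_lit 0) (nat_lit 9058859459) (nat_lit 1140) (nat_lit 15588634356) (nat_lit 1216) (nat_lit 11363890971) (nat_lit 175) (nat_lit 5) (nat_lit 190) (nat_lit 3) (nat_lit 191) (nat_lit 5) (nat_lit 334) (nat_lit 333) (nat_lit 113)))) (XT.nd (nat_lit 156) (nat_lit 0) (nat_lit 76) (XT.nd (nat_lit 78) (nat_lit 0) (nat_lit 76) (XT.lf (nat_lit 76) (nat_lit 351127948) (nat_lit 0) (nat_lit 9053414649)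 (nat_lit 1216) (nat_lit 27148688522) (nat_lit 176) (nat_lit 5) (nat_lit 175) (nat_lit 5) (nat_lit 191) (nat_lit 5) (nat_lit 335) (nat_lit 333) (nat_lit 112)) (XT.lf (nat_lit 0) (nat_lit 9985084552) (nat_lit 1140) (nat_lit 20087989389) (nat_lit 1216) (nat_lit 7031527107) (nat_lit 176) (nat_lit 5) (nat_lit 191) (nat_lit 5) (nat_lit 192) (nat_lit 5) (nat_lit 336) (nat_lit 333) (nat_lit 111))) (XT.nd (nat_lit 78) (nat_lit 0) (nat_lit 76) (XT.lf (nat_lit 0) (nat_lit 10670879811) (nat_lit 1140) (nat_lit 3581143752) (nat_lit 1216) (nat_lit 23417856169) (nat_lit 176) (nat_lit 5) (nat_lit 191) (nat_lit 5) (nat_lit 192) (nat_lit 5) (nat_lit 337) (nat_lit 333) (nat_lit 110)) (XT.lf (nat_lit 0) (nat_lit 11528022658) (nat_lit 1140) (nat_lit 24582213241) (nat_lit 1216) (nat_lit 2137360356) (nat_lit 177) (nat_lit 5) (nat_lit 192) (nat_lit 5) (nat_lit 193) (nat_lit 5) (nat_lit 338) (nat_lit 333) (nat_lit 109))))))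 (XT.nd (nat_lit 468) (nat_lit 760) (nat_lit 0) (XT.nd (nat_lit 234) (nat_lit 0) (nat_lit 76) (XT.nd (nat_lit 78) (nat_lit 0) (nat_lit 0) (XT.lf (nat_lit 0) (nat_lit 12586809090) (nat_lit 1140) (nat_lit 7481384630) (nat_lit 1216) (nat_lit 18769175286) (nat_lit 177) (nat_lit 5) (nat_lit 192) (nat_lit 5) (nat_lit 193) (nat_lit 5) (nat_lit 339) (nat_lit 333) (nat_lit 108)) (XT.nd (nat_lit 78) (nat_lit 0) (nat_lit 76) (XT.lf (nat_lit 76) (nat_lit 10333061797) (nat_lit 0) (nat_lit 3441974136) (nat_lit 1216) (nat_lit 25666871241) (nat_lit 178) (nat_lit 5) (nat_lit 177) (nat_lit 5) (nat_lit 193) (nat_lit 5) (nat_lit 340) (nat_lit 333) (nat_lit 107)) (XT.lf (nat_lit 0) (nat_lit 15205127415) (nat_lit 1140) (nat_lit 11360378566) (nat_lit 1216) (nat_lit 13492891430) (nat_lit 178) (nat_lit 5) (nat_lit 193) (nat_lit 5) (nat_lit 194) (nat_lit 5) (nat_lit 341) (nat_lit 333) (nat_lit 106)))) (XT.nd (nat_lit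 78) (nat_lit 0) (nat_lit 76) (XT.lf (nat_lit 76) (nat_lit 7022439589) (nat_lit 0) (nat_lit 9755704651) (nat_lit 1216) (nat_lit 23912239827) (nat_lit 179) (nat_lit 5) (nat_lit 178) (nat_lit 5) (nat_lit 194) (nat_lit 5) (nat_lit 342) (nat_lit 333) (nat_lit 105)) (XT.nd (nat_lit 78) (nat_lit 0) (nat_lit 0) (XT.lf (nat_lit 0) (nat_lit 18585340461) (nat_lit 1140) (nat_lit 15223160683) (nat_lit 1216) (nat_lit 7527221834) (nat_lit 179) (nat_lit 5) (nat_lit 194) (nat_lit 5) (nat_lit 195) (nat_lit 5) (nat_lit 343) (nat_lit 333) (nat_lit 104)) (XT.lf (nat_lit 76) (nat_lit 3750494046) (nat_lit 0) (nat_lit 16827425631) (nat_lit 1216) (nat_lit 21418569618) (nat_lit 180) (nat_lit 5) (nat_lit 179) (nat_lit 5) (nat_lit 195) (nat_lit 5) (nat_lit 344) (nat_lit 333) (nat_lit 103))))) (XT.nd (nat_lit 234) (nat_lit 988) (nat_lit 0) (XT.nd (nat_lit 78) (nat_lit 0) (nat_lit 0) (XT.lf (nat_lit 0) (nat_lit 22790456798)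 (nat_lit 1140) (nat_lit 19076050397) (nat_lit 1216) (nat_lit 805768178) (nat_lit 180) (nat_lit 5) (nat_lit 195) (nat_lit 5) (nat_lit 196) (nat_lit 5) (nat_lit 345) (nat_lit 333) (nat_lit 102)) (XT.nd (nat_lit 78) (nat_lit 0) (nat_lit 0) (XT.lf (nat_lit 76) (nat_lit 511288075) (nat_lit 0) (nat_lit 24728207356) (nat_lit 1216) (nat_lit 18123737965) (nat_lit 181) (nat_lit 5) (nat_lit 180) (nat_lit 5) (nat_lit 196) (nat_lit 5) (nat_lit 346) (nat_lit 333) (nat_lit 101)) (XT.lf (nat_lit 76) (nat_lit 21076223936) (nat_lit 0) (nat_lit 6877044890) (nat_lit 1216) (nat_lit 16115915486) (nat_lit 181) (nat_lit 5) (nat_lit 180) (nat_lit 5) (nat_lit 196) (nat_lit 5) (nat_lit 347) (nat_lit 333) (nat_lit 100)))) (XT.nd (nat_lit 156) (nat_lit 1064) (nat_lit 0) (XT.nd (nat_lit 78) (nat_lit 0) (nat_lit 0) (XT.lf (nat_lit 0) (nat_lit 30857768797) (nat_lit 1140) (nat_lit 2649920495) (nat_lit 1216) (nat_lit 11285347065)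 (nat_lit 181) (nat_lit 5) (nat_lit 196) (nat_lit 5) (nat_lit 197) (nat_lit 5) (nat_lit 348) (nat_lit 333) (nat_lit 99)) (XT.lf (nat_lit 76) (nat_lit 18597173440) (nat_lit 0) (nat_lit 15497801417) (nat_lit 1216) (nat_lit 11436263916) (nat_lit 182) (nat_lit 5) (nat_lit 181) (nat_lit 5) (nat_lit 197) (nat_lit 5) (nat_lit 349) (nat_lit 333) (nat_lit 98))) (XT.nd (nat_lit 78) (nat_lit 1140) (nat_lit 0) (XT.lf (nat_lit 0) (nat_lit 37484406192) (nat_lit 1140) (nat_lit 5785466803) (nat_lit 76) (nat_lit 3020062881) (nat_lit 182) (nat_lit 5) (nat_lit 197) (nat_lit 5) (nat_lit 183) (nat_lit 5) (nat_lit 350) (nat_lit 333) (nat_lit 97)) (XT.lf (nat_lit 0) (nat_lit 16158409276) (nat_lit 1140) (nat_lit 25124659649) (nat_lit 1216) (nat_lit 5779100346) (nat_lit 167) (nat_lit 5) (nat_lit 182) (nat_lit 5) (nat_lit 183) (nat_lit 5) (nat_lit 351) (nat_lit 333) (nat_lit 96))))))))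
noncomputable def xc245 : XT := (XT.nd (nat_lit 2028) (nat_lit 760) (nat_lit 0) (XT.nd (nat_lit 1014) (nat_lit 2508) (nat_lit 0) (XT.nd (nat_lit 468) (nat_lit 1520) (nat_lit 0) (XT.nd (nat_lit 234) (nat_lit 1140) (nat_lit 0) (XT.nd (nat_lit 78) (nat_lit 608) (nat_lit 0) (XT.lf (nat_lit 0) (nat_lit 38878162692) (nat_lit 1140) (nat_lit 6374756655) (nat_lit 1216) (nat_lit 2602935263) (nat_lit 167) (nat_lit 5) (nat_lit 182) (nat_lit 5) (nat_lit 183) (nat_lit 5) (nat_lit 352) (nat_lit 333) (nat_lit 95)) (XT.nd (nat_lit 78) (nat_lit 0) (nat_lit 0) (XT.lf (nat_lit 0) (nat_lit 913367332) (nat_lit 608) (nat_lit 34925601842) (nat_lit 76) (nat_lit 12826453297) (nat_lit 159) (nat_lit 5) (nat_lit 167) (nat_lit 5) (nat_lit 160) (nat_lit 5) (nat_lit 353) (nat_lit 333) (nat_lit 94)) (XT.lf (nat_lit 0) (nat_lit 4636366786) (nat_lit 608) (nat_lit 12264508250) (nat_lit 76) (nat_lit 32593025085) (nat_lit 159) (nat_lit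 5) (nat_lit 167) (nat_lit 5) (nat_lit 160) (nat_lit 5) (nat_lit 354) (nat_lit 333) (nat_lit 93)))) (XT.nd (nat_lit 78) (nat_lit 532) (nat_lit 0) (XT.lf (nat_lit 0) (nat_lit 8604645255) (nat_lit 684) (nat_lit 39074316300) (nat_lit 76) (nat_lit 2664264453) (nat_lit 151) (nat_lit 5) (nat_lit 160) (nat_lit 5) (nat_lit 152) (nat_lit 5) (nat_lit 355) (nat_lit 333) (nat_lit 92)) (XT.nd (nat_lit 78) (nat_lit 532) (nat_lit 0) (XT.lf (nat_lit 0) (nat_lit 12983291069) (nat_lit 684) (nat_lit 15624188765) (nat_lit 76) (nat_lit 22601813803) (nat_lit 151) (nat_lit 5) (nat_lit 160) (nat_lit 5) (nat_lit 152) (nat_lit 5) (nat_lit 356) (nat_lit 333) (nat_lit 91)) (XT.lf (nat_lit 0) (nat_lit 8698154027) (nat_lit 532) (nat_lit 8877695855) (nat_lit 608) (nat_lit 34523018293) (nat_lit 144) (nat_lit 5) (nat_lit 151) (nat_lit 5) (nat_lit 152) (nat_lit 5) (nat_lit 357) (nat_lit 333) (nat_lit 90))))) (XT.nd (nat_lit 234)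 (nat_lit 988) (nat_lit 0) (XT.nd (nat_lit 78) (nat_lit 532) (nat_lit 0) (XT.lf (nat_lit 0) (nat_lit 22574490808) (nat_lit 608) (nat_lit 19052561444) (nat_lit 76) (nat_lit 11380029983) (nat_lit 144) (nat_lit 5) (nat_lit 152) (nat_lit 5) (nat_lit 145) (nat_lit 5) (nat_lit 358) (nat_lit 333) (nat_lit 89)) (XT.nd (nat_lit 78) (nat_lit 0) (nat_lit 0) (XT.lf (nat_lit 0) (nat_lit 6055284991) (nat_lit 532) (nat_lit 21812904266) (nat_lit 608) (nat_lit 26070001917) (nat_lit 137) (nat_lit 5) (nat_lit 144) (nat_lit 5) (nat_lit 145) (nat_lit 5) (nat_lit 359) (nat_lit 333) (nat_lit 88)) (XT.lf (nat_lit 0) (nat_lit 32305922292) (nat_lit 532) (nat_lit 1206182771) (nat_lit 608) (nat_lit 21379387486) (nat_lit 137) (nat_lit 5) (nat_lit 144) (nat_lit 5) (nat_lit 145) (nat_lit 5) (nat_lit 360) (nat_lit 333) (nat_lit 87)))) (XT.nd (nat_lit 156) (nat_lit 532) (nat_lit 0) (XT.nd (nat_lit 78) (nat_lit 0) (nat_lit 0)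 (XT.lf (nat_lit 0) (nat_lit 3342472996) (nat_lit 456) (nat_lit 36206469112) (nat_lit 532) (nat_lit 16317744069) (nat_lit 131) (nat_lit 5) (nat_lit 137) (nat_lit 5) (nat_lit 138) (nat_lit 5) (nat_lit 361) (nat_lit 333) (nat_lit 86)) (XT.lf (nat_lit 0) (nat_lit 30498165303) (nat_lit 456) (nat_lit 15507674109) (nat_lit 532) (nat_lit 10858128832) (nat_lit 131) (nat_lit 5) (nat_lit 137) (nat_lit 5) (nat_lit 138) (nat_lit 5) (nat_lit 362) (nat_lit 333) (nat_lit 85))) (XT.nd (nat_lit 78) (nat_lit 76) (nat_lit 0) (XT.lf (nat_lit 0) (nat_lit 530855818) (nat_lit 456) (nat_lit 52185646771) (nat_lit 532) (nat_lit 5172865662) (nat_lit 125) (nat_lit 5) (nat_lit 131) (nat_lit 5) (nat_lit 132) (nat_lit 5) (nat_lit 363) (nat_lit 333) (nat_lit 84)) (XT.lf (nat_lit 0) (nat_lit 1091142605) (nat_lit 532) (nat_lit 30326400753) (nat_lit 76) (nat_lit 27515145703) (nat_lit 124) (nat_lit 5) (nat_lit 131) (nat_lit 5)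 (nat_lit 125) (nat_lit 5) (nat_lit 364) (nat_lit 333) (nat_lit 83)))))) (XT.nd (nat_lit 468) (nat_lit 1216) (nat_lit 0) (XT.nd (nat_lit 234) (nat_lit 836) (nat_lit 0) (XT.nd (nat_lit 78) (nat_lit 456) (nat_lit 0) (XT.lf (nat_lit 0) (nat_lit 7438221852) (nat_lit 532) (nat_lit 2535515857) (nat_lit 76) (nat_lit 50032062828) (nat_lit 124) (nat_lit 5) (nat_lit 131) (nat_lit 5) (nat_lit 125) (nat_lit 5) (nat_lit 365) (nat_lit 333) (nat_lit 82)) (XT.nd (nat_lit 78) (nat_lit 0) (nat_lit 0) (XT.lf (nat_lit 0) (nat_lit 14349598191) (nat_lit 532) (nat_lit 34615076163) (nat_lit 76) (nat_lit 12135215570) (nat_lit 118) (nat_lit 5) (nat_lit 125) (nat_lit 5) (nat_lit 119) (nat_lit 5) (nat_lit 366) (nat_lit 333) (nat_lit 81)) (XT.lf (nat_lit 0) (nat_lit 21592083714) (nat_lit 532) (nat_lit 5898269705) (nat_lit 76) (nat_lit 34732736613) (nat_lit 118) (nat_lit 5) (nat_lit 125) (nat_lit 5) (nat_lit 119) (nat_lit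 5) (nat_lit 367) (nat_lit 333) (nat_lit 80)))) (XT.nd (nat_lit 78) (nat_lit 380) (nat_lit 0) (XT.lf (nat_lit 0) (nat_lit 24150368315) (nat_lit 456) (nat_lit 5132808820) (nat_lit 532) (nat_lit 34089870051) (nat_lit 112) (nat_lit 5) (nat_lit 118) (nat_lit 5) (nat_lit 119) (nat_lit 5) (nat_lit 368) (nat_lit 333) (nat_lit 79)) (XT.nd (nat_lit 78) (nat_lit 380) (nat_lit 0) (XT.lf (nat_lit 0) (nat_lit 37436375033) (nat_lit 532) (nat_lit 9507901818) (nat_lit 76) (nat_lit 17606286069) (nat_lit 112) (nat_lit 5) (nat_lit 119) (nat_lit 5) (nat_lit 113) (nat_lit 5) (nat_lit 369) (nat_lit 333) (nat_lit 78)) (XT.lf (nat_lit 0) (nat_lit 21465446472) (nat_lit 380) (nat_lit 24625103493) (nat_lit 456) (nat_lit 19665163713) (nat_lit 107) (nat_lit 5) (nat_lit 112) (nat_lit 5) (nat_lit 113) (nat_lit 5) (nat_lit 370) (nat_lit 333) (nat_lit 77))))) (XT.nd (nat_lit 234) (nat_lit 760) (nat_lit 0) (XT.nd (nat_lit 78)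 (nat_lit 456) (nat_lit 0) (XT.lf (nat_lit 0) (nat_lit 53561986541) (nat_lit 380) (nat_lit 1537610871) (nat_lit 456) (nat_lit 11894565085) (nat_lit 107) (nat_lit 5) (nat_lit 112) (nat_lit 5) (nat_lit 113) (nat_lit 5) (nat_lit 371) (nat_lit 333) (nat_lit 76)) (XT.nd (nat_lit 78) (nat_lit 76) (nat_lit 0) (XT.lf (nat_lit 0) (nat_lit 18497903581) (nat_lit 380) (nat_lit 46271891419) (nat_lit 456) (nat_lit 3488244346) (nat_lit 102) (nat_lit 5) (nat_lit 107) (nat_lit 5) (nat_lit 108) (nat_lit 5) (nat_lit 372) (nat_lit 333) (nat_lit 75)) (XT.lf (nat_lit 0) (nat_lit 5220842842) (nat_lit 456) (nat_lit 17961711257) (nat_lit 76) (nat_lit 46371244263) (nat_lit 101) (nat_lit 5) (nat_lit 107) (nat_lit 5) (nat_lit 102) (nat_lit 5) (nat_lit 373) (nat_lit 333) (nat_lit 74)))) (XT.nd (nat_lit 156) (nat_lit 380) (nat_lit 0) (XT.nd (nat_lit 78) (nat_lit 0) (nat_lit 0) (XT.lf (nat_lit 0) (nat_lit 14272569995) (nat_lit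 456) (nat_lit 55841711112) (nat_lit 76) (nat_lit 768569453) (nat_lit 96) (nat_lit 5) (nat_lit 102) (nat_lit 5) (nat_lit 97) (nat_lit 5) (nat_lit 374) (nat_lit 333) (nat_lit 73)) (XT.lf (nat_lit 0) (nat_lit 24007847224) (nat_lit 456) (nat_lit 23076284153) (nat_lit 76) (nat_lit 25155283822) (nat_lit 96) (nat_lit 5) (nat_lit 102) (nat_lit 5) (nat_lit 97) (nat_lit 5) (nat_lit 375) (nat_lit 333) (nat_lit 72))) (XT.nd (nat_lit 78) (nat_lit 0) (nat_lit 0) (XT.lf (nat_lit 0) (nat_lit 10883611988) (nat_lit 380) (nat_lit 23255505413) (nat_lit 456) (nat_lit 39494442139) (nat_lit 91) (nat_lit 5) (nat_lit 96) (nat_lit 5) (nat_lit 97) (nat_lit 5) (nat_lit 376) (nat_lit 333) (nat_lit 71)) (XT.lf (nat_lit 0) (nat_lit 44821363460) (nat_lit 456) (nat_lit 28742761971) (nat_lit 76) (nat_lit 1497992423) (nat_lit 91) (nat_lit 5) (nat_lit 97) (nat_lit 5) (nat_lit 92) (nat_lit 5) (nat_lit 377) (nat_lit 333) (nat_lit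 70))))))) (XT.nd (nat_lit 37986) (nat_lit 0) (nat_lit 5320) (XT.nd (nat_lit 37440) (nat_lit 0) (nat_lit 7220) (XT.nd (nat_lit 37206) (nat_lit 0) (nat_lit 7144) (XT.nd (nat_lit 78) (nat_lit 456) (nat_lit 0) (XT.lf (nat_lit 0) (nat_lit 6174006760) (nat_lit 304) (nat_lit 49939015202) (nat_lit 380) (nat_lit 20411843359) (nat_lit 87) (nat_lit 5) (nat_lit 91) (nat_lit 5) (nat_lit 92) (nat_lit 5) (nat_lit 378) (nat_lit 333) (nat_lit 69)) (XT.nd (nat_lit 78) (nat_lit 456) (nat_lit 0) (XT.lf (nat_lit 0) (nat_lit 42726628399) (nat_lit 304) (nat_lit 25306402504) (nat_lit 380) (nat_lit 9989777020) (nat_lit 87) (nat_lit 5) (nat_lit 91) (nat_lit 5) (nat_lit 92) (nat_lit 5) (nat_lit 379) (nat_lit 333) (nat_lit 68)) (XT.lf (nat_lit 0) (nat_lit 738419225) (nat_lit 456) (nat_lit 78747925183) (nat_lit 76) (nat_lit 78890121) (nat_lit 81) (nat_lit 5) (nat_lit 87) (nat_lit 5) (nat_lit 82) (nat_lit 5) (nat_lit 380)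 (nat_lit 333) (nat_lit 67)))) (XT.nd (nat_lit 78) (nat_lit 0) (nat_lit 0) (XT.lf (nat_lit 0) (nat_lit 2281787043) (nat_lit 0) (nat_lit 2281787043) (nat_lit 1140) (nat_lit 13709159694) (nat_lit 175) (nat_lit 5) (nat_lit 175) (nat_lit 3) (nat_lit 190) (nat_lit 3) (nat_lit 334) (nat_lit 334) (nat_lit 112)) (XT.nd (nat_lit 78) (nat_lit 0) (nat_lit 0) (XT.lf (nat_lit 0) (nat_lit 9424675348) (nat_lit 1140) (nat_lit 16005607032) (nat_lit 1216) (nat_lit 11658477599) (nat_lit 175) (nat_lit 5) (nat_lit 190) (nat_lit 3) (nat_lit 191) (nat_lit 5) (nat_lit 335) (nat_lit 334) (nat_lit 111)) (XT.lf (nat_lit 76) (nat_lit 411851216) (nat_lit 0) (nat_lit 9366620892) (nat_lit 1216) (nat_lit 27868461519) (nat_lit 176) (nat_lit 5) (nat_lit 175) (nat_lit 5) (nat_lit 191) (nat_lit 5) (nat_lit 336) (nat_lit 334) (nat_lit 110))))) (XT.nd (nat_lit 234) (nat_lit 0) (nat_lit 76) (XT.nd (nat_lit 78) (nat_lit 0) (nat_lit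 0) (XT.lf (nat_lit 0) (nat_lit 10373368459) (nat_lit 1140) (nat_lit 20638703074) (nat_lit 1216) (nat_lit 7202869072) (nat_lit 176) (nat_lit 5) (nat_lit 191) (nat_lit 5) (nat_lit 192) (nat_lit 5) (nat_lit 337) (nat_lit 334) (nat_lit 109)) (XT.nd (nat_lit 78) (nat_lit 0) (nat_lit 76) (XT.lf (nat_lit 0) (nat_lit 11077153167) (nat_lit 1140) (nat_lit 3638164476) (nat_lit 1216) (nat_lit 24081941516) (nat_lit 176) (nat_lit 5) (nat_lit 191) (nat_lit 5) (nat_lit 192) (nat_lit 5) (nat_lit 338) (nat_lit 334) (nat_lit 108)) (XT.lf (nat_lit 0) (nat_lit 11957652285) (nat_lit 1140) (nat_lit 25266779339) (nat_lit 1216) (nat_lit 2167950155) (nat_lit 177) (nat_lit 5) (nat_lit 192) (nat_lit 5) (nat_lit 193) (nat_lit 5) (nat_lit 339) (nat_lit 334) (nat_lit 107)))) (XT.nd (nat_lit 156) (nat_lit 0) (nat_lit 76) (XT.nd (nat_lit 78) (nat_lit 0) (nat_lit 0) (XT.lf (nat_lit 0) (nat_lit 13045761855) (nat_lit 1140) (nat_lit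 7654466656) (nat_lit 1216) (nat_lit 19299696165) (nat_lit 177) (nat_lit 5) (nat_lit 192) (nat_lit 5) (nat_lit 193) (nat_lit 5) (nat_lit 340) (nat_lit 334) (nat_lit 106)) (XT.lf (nat_lit 76) (nat_lit 10693909639) (nat_lit 0) (nat_lit 3573845348) (nat_lit 1216) (nat_lit 26354904054) (nat_lit 178) (nat_lit 5) (nat_lit 177) (nat_lit 5) (nat_lit 193) (nat_lit 5) (nat_lit 341) (nat_lit 334) (nat_lit 105))) (XT.nd (nat_lit 78) (nat_lit 0) (nat_lit 0) (XT.lf (nat_lit 0) (nat_lit 15738167588) (nat_lit 1140) (nat_lit 11649115776) (nat_lit 1216) (nat_lit 13870441604) (nat_lit 178) (nat_lit 5) (nat_lit 193) (nat_lit 5) (nat_lit 194) (nat_lit 5) (nat_lit 342) (nat_lit 334) (nat_lit 104)) (XT.lf (nat_lit 76) (nat_lit 7284676393) (nat_lit 0) (nat_lit 10071954777) (nat_lit 1216) (nat_lit 24552095796) (nat_lit 179) (nat_lit 5) (nat_lit 178) (nat_lit 5) (nat_lit 194) (nat_lit 5) (nat_lit 343) (nat_lit 334) (nat_lit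 103)))))) (XT.nd (nat_lit 546) (nat_lit 2128) (nat_lit 0) (XT.nd (nat_lit 234) (nat_lit 0) (nat_lit 76) (XT.nd (nat_lit 78) (nat_lit 0) (nat_lit 0) (XT.lf (nat_lit 0) (nat_lit 19215634605) (nat_lit 1140) (nat_lit 15627274053) (nat_lit 1216) (nat_lit 7730592978) (nat_lit 179) (nat_lit 5) (nat_lit 194) (nat_lit 5) (nat_lit 195) (nat_lit 5) (nat_lit 344) (nat_lit 334) (nat_lit 102)) (XT.nd (nat_lit 78) (nat_lit 0) (nat_lit 76) (XT.lf (nat_lit 76) (nat_lit 3915074813) (nat_lit 0) (nat_lit 17351298410) (nat_lit 1216) (nat_lit 21987769492) (nat_lit 180) (nat_lit 5) (nat_lit 179) (nat_lit 5) (nat_lit 195) (nat_lit 5) (nat_lit 345) (nat_lit 334) (nat_lit 101)) (XT.lf (nat_lit 0) (nat_lit 23543037332) (nat_lit 1140) (nat_lit 19595428681) (nat_lit 1216) (nat_lit 811806976) (nat_lit 180) (nat_lit 5) (nat_lit 195) (nat_lit 5) (nat_lit 196) (nat_lit 5) (nat_lit 346) (nat_lit 334) (nat_lit 100)))) (XT.nd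 (nat_lit 156) (nat_lit 0) (nat_lit 76) (XT.nd (nat_lit 78) (nat_lit 0) (nat_lit 0) (XT.lf (nat_lit 76) (nat_lit 579011286) (nat_lit 0) (nat_lit 25485033560) (nat_lit 1216) (nat_lit 18597963021) (nat_lit 181) (nat_lit 5) (nat_lit 180) (nat_lit 5) (nat_lit 196) (nat_lit 5) (nat_lit 347) (nat_lit 334) (nat_lit 99)) (XT.lf (nat_lit 76) (nat_lit 21759369459) (nat_lit 0) (nat_lit 7097899910) (nat_lit 1216) (nat_lit 16531929764) (nat_lit 181) (nat_lit 5) (nat_lit 180) (nat_lit 5) (nat_lit 196) (nat_lit 5) (nat_lit 348) (nat_lit 334) (nat_lit 98))) (XT.nd (nat_lit 78) (nat_lit 0) (nat_lit 0) (XT.lf (nat_lit 0) (nat_lit 31846863682) (nat_lit 1140) (nat_lit 2677904210) (nat_lit 1216) (nat_lit 11610062939) (nat_lit 181) (nat_lit 5) (nat_lit 196) (nat_lit 5) (nat_lit 197) (nat_lit 5) (nat_lit 349) (nat_lit 334) (nat_lit 97)) (XT.lf (nat_lit 76) (nat_lit 19206097504) (nat_lit 0) (nat_lit 15973733258) (nat_lit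 1216) (nat_lit 11715392002) (nat_lit 182) (nat_lit 5) (nat_lit 181) (nat_lit 5) (nat_lit 197) (nat_lit 5) (nat_lit 350) (nat_lit 334) (nat_lit 96))))) (XT.nd (nat_lit 234) (nat_lit 1216) (nat_lit 0) (XT.nd (nat_lit 78) (nat_lit 1140) (nat_lit 0) (XT.lf (nat_lit 0) (nat_lit 38669036379) (nat_lit 1140) (nat_lit 5907508719) (nat_lit 76) (nat_lit 3100195649) (nat_lit 182) (nat_lit 5) (nat_lit 197) (nat_lit 5) (nat_lit 183) (nat_lit 5) (nat_lit 351) (nat_lit 334) (nat_lit 95)) (XT.nd (nat_lit 78) (nat_lit 0) (nat_lit 0) (XT.lf (nat_lit 0) (nat_lit 16694178523) (nat_lit 1140) (nat_lit 25886220450) (nat_lit 1216) (nat_lit 5891782600) (nat_lit 167) (nat_lit 5) (nat_lit 182) (nat_lit 5) (nat_lit 183) (nat_lit 5) (nat_lit 352) (nat_lit 334) (nat_lit 94)) (XT.lf (nat_lit 0) (nat_lit 40094038611) (nat_lit 1140) (nat_lit 6573592570) (nat_lit 1216) (nat_lit 2622100257) (nat_lit 167) (nat_lit 5) (nat_lit 182)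 (nat_lit 5) (nat_lit 183) (nat_lit 5) (nat_lit 353) (nat_lit 334) (nat_lit 93)))) (XT.nd (nat_lit 156) (nat_lit 608) (nat_lit 0) (XT.nd (nat_lit 78) (nat_lit 0) (nat_lit 0) (XT.lf (nat_lit 0) (nat_lit 997281448) (nat_lit 608) (nat_lit 35921266087) (nat_lit 76) (nat_lit 13205062019) (nat_lit 159) (nat_lit 5) (nat_lit 167) (nat_lit 5) (nat_lit 160) (nat_lit 5) (nat_lit 354) (nat_lit 334) (nat_lit 92)) (XT.lf (nat_lit 0) (nat_lit 4830324872) (nat_lit 608) (nat_lit 12581857274) (nat_lit 76) (nat_lit 33564811102) (nat_lit 159) (nat_lit 5) (nat_lit 167) (nat_lit 5) (nat_lit 160) (nat_lit 5) (nat_lit 355) (nat_lit 334) (nat_lit 91))) (XT.nd (nat_lit 78) (nat_lit 0) (nat_lit 0) (XT.lf (nat_lit 0) (nat_lit 8916499939) (nat_lit 684) (nat_lit 40194732215) (nat_lit 76) (nat_lit 2740603579) (nat_lit 151) (nat_lit 5) (nat_lit 160) (nat_lit 5) (nat_lit 152) (nat_lit 5) (nat_lit 356) (nat_lit 334) (nat_lit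 90)) (XT.lf (nat_lit 0) (nat_lit 13424940604) (nat_lit 684) (nat_lit 16042609987) (nat_lit 76) (nat_lit 23276383938) (nat_lit 151) (nat_lit 5) (nat_lit 160) (nat_lit 5) (nat_lit 152) (nat_lit 5) (nat_lit 357) (nat_lit 334) (nat_lit 89))))))))
noncomputable def xc246 : XT := (XT.nd (nat_lit 39156) (nat_lit 0) (nat_lit 2888) (XT.nd (nat_lit 1014) (nat_lit 1900) (nat_lit 0) (XT.nd (nat_lit 468) (nat_lit 1444) (nat_lit 0) (XT.nd (nat_lit 234) (nat_lit 456) (nat_lit 0) (XT.nd (nat_lit 78) (nat_lit 532) (nat_lit 0) (XT.lf (nat_lit 0) (nat_lit 9008909908) (nat_lit 532) (nat_lit 9145326134) (nat_lit 608) (nat_lit 35505993603) (nat_lit 144) (nat_lit 5) (nat_lit 151) (nat_lit 5) (nat_lit 152) (nat_lit 5) (nat_lit 358) (nat_lit 334) (nat_lit 88)) (XT.nd (nat_lit 78) (nat_lit 532) (nat_lit 0) (XT.lf (nat_lit 0) (nat_lit 23301335409) (nat_lit 608) (nat_lit 19574207874) (nat_lit 76) (nat_lit 11720193944)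 (nat_lit 144) (nat_lit 5) (nat_lit 152) (nat_lit 5) (nat_lit 145) (nat_lit 5) (nat_lit 359) (nat_lit 334) (nat_lit 87)) (XT.lf (nat_lit 0) (nat_lit 6286384440) (nat_lit 532) (nat_lit 22466490679) (nat_lit 608) (nat_lit 26801935419) (nat_lit 137) (nat_lit 5) (nat_lit 144) (nat_lit 5) (nat_lit 145) (nat_lit 5) (nat_lit 360) (nat_lit 334) (nat_lit 86)))) (XT.nd (nat_lit 78) (nat_lit 456) (nat_lit 0) (XT.lf (nat_lit 0) (nat_lit 33323100834) (nat_lit 532) (nat_lit 1241590861) (nat_lit 608) (nat_lit 21972063717) (nat_lit 137) (nat_lit 5) (nat_lit 144) (nat_lit 5) (nat_lit 145) (nat_lit 5) (nat_lit 361) (nat_lit 334) (nat_lit 85)) (XT.nd (nat_lit 78) (nat_lit 0) (nat_lit 0) (XT.lf (nat_lit 0) (nat_lit 3491737448) (nat_lit 456) (nat_lit 37289999142) (nat_lit 532) (nat_lit 16759497076) (nat_lit 131) (nat_lit 5) (nat_lit 137) (nat_lit 5) (nat_lit 138) (nat_lit 5) (nat_lit 362) (nat_lit 334) (nat_lit 84))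 (XT.lf (nat_lit 0) (nat_lit 31460673623) (nat_lit 456) (nat_lit 15970317882) (nat_lit 532) (nat_lit 11137485013) (nat_lit 131) (nat_lit 5) (nat_lit 137) (nat_lit 5) (nat_lit 138) (nat_lit 5) (nat_lit 363) (nat_lit 334) (nat_lit 83))))) (XT.nd (nat_lit 234) (nat_lit 912) (nat_lit 0) (XT.nd (nat_lit 78) (nat_lit 76) (nat_lit 0) (XT.lf (nat_lit 0) (nat_lit 595250869) (nat_lit 456) (nat_lit 53746903758) (nat_lit 532) (nat_lit 5282510288) (nat_lit 125) (nat_lit 5) (nat_lit 131) (nat_lit 5) (nat_lit 132) (nat_lit 5) (nat_lit 364) (nat_lit 334) (nat_lit 82)) (XT.nd (nat_lit 78) (nat_lit 0) (nat_lit 0) (XT.lf (nat_lit 0) (nat_lit 1167228989) (nat_lit 532) (nat_lit 31188216087) (nat_lit 76) (nat_lit 28343867845) (nat_lit 124) (nat_lit 5) (nat_lit 131) (nat_lit 5) (nat_lit 125) (nat_lit 5) (nat_lit 365) (nat_lit 334) (nat_lit 81)) (XT.lf (nat_lit 0) (nat_lit 7703457930) (nat_lit 532) (nat_lit 2565002024)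 (nat_lit 76) (nat_lit 51536197306) (nat_lit 124) (nat_lit 5) (nat_lit 131) (nat_lit 5) (nat_lit 125) (nat_lit 5) (nat_lit 366) (nat_lit 334) (nat_lit 80)))) (XT.nd (nat_lit 156) (nat_lit 456) (nat_lit 0) (XT.nd (nat_lit 78) (nat_lit 0) (nat_lit 0) (XT.lf (nat_lit 0) (nat_lit 14821439305) (nat_lit 532) (nat_lit 35606159864) (nat_lit 76) (nat_lit 12503993837) (nat_lit 118) (nat_lit 5) (nat_lit 125) (nat_lit 5) (nat_lit 119) (nat_lit 5) (nat_lit 367) (nat_lit 334) (nat_lit 79)) (XT.lf (nat_lit 0) (nat_lit 22279994933) (nat_lit 532) (nat_lit 6029228879) (nat_lit 76) (nat_lit 35779302983) (nat_lit 118) (nat_lit 5) (nat_lit 125) (nat_lit 5) (nat_lit 119) (nat_lit 5) (nat_lit 368) (nat_lit 334) (nat_lit 78))) (XT.nd (nat_lit 78) (nat_lit 0) (nat_lit 0) (XT.lf (nat_lit 0) (nat_lit 24920417410) (nat_lit 456) (nat_lit 5280672106) (nat_lit 532) (nat_lit 35071916597) (nat_lit 112) (nat_lit 5) (nat_lit 118)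 (nat_lit 5) (nat_lit 119) (nat_lit 5) (nat_lit 369) (nat_lit 334) (nat_lit 77)) (XT.lf (nat_lit 0) (nat_lit 38597792406) (nat_lit 532) (nat_lit 9747787712) (nat_lit 76) (nat_lit 18140301385) (nat_lit 112) (nat_lit 5) (nat_lit 119) (nat_lit 5) (nat_lit 113) (nat_lit 5) (nat_lit 370) (nat_lit 334) (nat_lit 76)))))) (XT.nd (nat_lit 468) (nat_lit 684) (nat_lit 0) (XT.nd (nat_lit 234) (nat_lit 456) (nat_lit 0) (XT.nd (nat_lit 78) (nat_lit 380) (nat_lit 0) (XT.lf (nat_lit 0) (nat_lit 22154316408) (nat_lit 380) (nat_lit 25356591553) (nat_lit 456) (nat_lit 20216300775) (nat_lit 107) (nat_lit 5) (nat_lit 112) (nat_lit 5) (nat_lit 113) (nat_lit 5) (nat_lit 371) (nat_lit 334) (nat_lit 75)) (XT.nd (nat_lit 78) (nat_lit 380) (nat_lit 0) (XT.lf (nat_lit 0) (nat_lit 55212444721) (nat_lit 380) (nat_lit 1576685755) (nat_lit 456) (nat_lit 12213714805) (nat_lit 107) (nat_lit 5) (nat_lit 112) (nat_lit 5) (nat_lit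 113) (nat_lit 5) (nat_lit 372) (nat_lit 334) (nat_lit 74)) (XT.lf (nat_lit 0) (nat_lit 19097075592) (nat_lit 380) (nat_lit 47651785019) (nat_lit 456) (nat_lit 3555796359) (nat_lit 102) (nat_lit 5) (nat_lit 107) (nat_lit 5) (nat_lit 108) (nat_lit 5) (nat_lit 373) (nat_lit 334) (nat_lit 73)))) (XT.nd (nat_lit 78) (nat_lit 380) (nat_lit 0) (XT.lf (nat_lit 0) (nat_lit 5412780219) (nat_lit 456) (nat_lit 18456871453) (nat_lit 76) (nat_lit 47769659425) (nat_lit 101) (nat_lit 5) (nat_lit 107) (nat_lit 5) (nat_lit 102) (nat_lit 5) (nat_lit 374) (nat_lit 334) (nat_lit 72)) (XT.nd (nat_lit 78) (nat_lit 0) (nat_lit 0) (XT.lf (nat_lit 0) (nat_lit 14735528863) (nat_lit 456) (nat_lit 57472700344) (nat_lit 76) (nat_lit 800022781) (nat_lit 96) (nat_lit 5) (nat_lit 102) (nat_lit 5) (nat_lit 97) (nat_lit 5) (nat_lit 375) (nat_lit 334) (nat_lit 71)) (XT.lf (nat_lit 0) (nat_lit 24761851348) (nat_lit 456) (nat_lit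 23725599764) (nat_lit 76) (nat_lit 25918094030) (nat_lit 96) (nat_lit 5) (nat_lit 102) (nat_lit 5) (nat_lit 97) (nat_lit 5) (nat_lit 376) (nat_lit 334) (nat_lit 70))))) (XT.nd (nat_lit 37362) (nat_lit 0) (nat_lit 6688) (XT.nd (nat_lit 78) (nat_lit 304) (nat_lit 0) (XT.lf (nat_lit 0) (nat_lit 11252671958) (nat_lit 380) (nat_lit 23943813149) (nat_lit 456) (nat_lit 40645047090) (nat_lit 91) (nat_lit 5) (nat_lit 96) (nat_lit 5) (nat_lit 97) (nat_lit 5) (nat_lit 377) (nat_lit 334) (nat_lit 69)) (XT.nd (nat_lit 78) (nat_lit 304) (nat_lit 0) (XT.lf (nat_lit 0) (nat_lit 46198319057) (nat_lit 456) (nat_lit 29562815907) (nat_lit 76) (nat_lit 1551839797) (nat_lit 91) (nat_lit 5) (nat_lit 97) (nat_lit 5) (nat_lit 92) (nat_lit 5) (nat_lit 378) (nat_lit 334) (nat_lit 68)) (XT.lf (nat_lit 0) (nat_lit 6401041876) (nat_lit 304) (nat_lit 51427146183) (nat_lit 380) (nat_lit 20991433853) (nat_lit 87) (nat_lit 5)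 (nat_lit 91) (nat_lit 5) (nat_lit 92) (nat_lit 5) (nat_lit 379) (nat_lit 334) (nat_lit 67)))) (XT.nd (nat_lit 156) (nat_lit 0) (nat_lit 0) (XT.nd (nat_lit 78) (nat_lit 0) (nat_lit 0) (XT.lf (nat_lit 0) (nat_lit 2373178596) (nat_lit 0) (nat_lit 2373178596) (nat_lit 1140) (nat_lit 14073112009) (nat_lit 175) (nat_lit 5) (nat_lit 175) (nat_lit 3) (nat_lit 190) (nat_lit 3) (nat_lit 335) (nat_lit 335) (nat_lit 110)) (XT.lf (nat_lit 0) (nat_lit 9796066852) (nat_lit 1140) (nat_lit 16437998492) (nat_lit 1216) (nat_lit 11964561364) (nat_lit 175) (nat_lit 5) (nat_lit 190) (nat_lit 3) (nat_lit 191) (nat_lit 5) (nat_lit 336) (nat_lit 335) (nat_lit 109))) (XT.nd (nat_lit 78) (nat_lit 0) (nat_lit 76) (XT.lf (nat_lit 76) (nat_lit 471515104) (nat_lit 0) (nat_lit 9686835093) (nat_lit 1216) (nat_lit 28615263165) (nat_lit 176) (nat_lit 5) (nat_lit 175) (nat_lit 5) (nat_lit 191) (nat_lit 5) (nat_lit 337) (nat_lit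 335) (nat_lit 108)) (XT.lf (nat_lit 0) (nat_lit 10768207339) (nat_lit 1140) (nat_lit 21208918934) (nat_lit 1216) (nat_lit 7381624719) (nat_lit 176) (nat_lit 5) (nat_lit 191) (nat_lit 5) (nat_lit 192) (nat_lit 5) (nat_lit 338) (nat_lit 335) (nat_lit 107))))))) (XT.nd (nat_lit 1014) (nat_lit 3876) (nat_lit 0) (XT.nd (nat_lit 468) (nat_lit 0) (nat_lit 228) (XT.nd (nat_lit 234) (nat_lit 0) (nat_lit 76) (XT.nd (nat_lit 78) (nat_lit 0) (nat_lit 76) (XT.lf (nat_lit 0) (nat_lit 11490669535) (nat_lit 1140) (nat_lit 3699789767) (nat_lit 1216) (nat_lit 24768156631) (nat_lit 176) (nat_lit 5) (nat_lit 191) (nat_lit 5) (nat_lit 192) (nat_lit 5) (nat_lit 339) (nat_lit 335) (nat_lit 106)) (XT.nd (nat_lit 78) (nat_lit 0) (nat_lit 0) (XT.lf (nat_lit 0) (nat_lit 12395360972) (nat_lit 1140) (nat_lit 25974919114) (nat_lit 1216) (nat_lit 2201382466) (nat_lit 177) (nat_lit 5) (nat_lit 192) (nat_lit 5) (nat_lit 193)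 (nat_lit 5) (nat_lit 340) (nat_lit 335) (nat_lit 105)) (XT.lf (nat_lit 0) (nat_lit 13513813466) (nat_lit 1140) (nat_lit 7835689388) (nat_lit 1216) (nat_lit 19848001425) (nat_lit 177) (nat_lit 5) (nat_lit 192) (nat_lit 5) (nat_lit 193) (nat_lit 5) (nat_lit 341) (nat_lit 335) (nat_lit 104)))) (XT.nd (nat_lit 78) (nat_lit 0) (nat_lit 76) (XT.lf (nat_lit 76) (nat_lit 11062663576) (nat_lit 0) (nat_lit 3708030252) (nat_lit 1216) (nat_lit 27068283455) (nat_lit 178) (nat_lit 5) (nat_lit 177) (nat_lit 5) (nat_lit 193) (nat_lit 5) (nat_lit 342) (nat_lit 335) (nat_lit 103)) (XT.nd (nat_lit 78) (nat_lit 0) (nat_lit 0) (XT.lf (nat_lit 0) (nat_lit 16282785376) (nat_lit 1140) (nat_lit 11949504371) (nat_lit 1216) (nat_lit 14260881774) (nat_lit 178) (nat_lit 5) (nat_lit 193) (nat_lit 5) (nat_lit 194) (nat_lit 5) (nat_lit 343) (nat_lit 335) (nat_lit 102)) (XT.lf (nat_lit 76) (nat_lit 7551820339) (nat_lit 0) (nat_lit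 10396338878) (nat_lit 1216) (nat_lit 25215596906) (nat_lit 179) (nat_lit 5) (nat_lit 178) (nat_lit 5) (nat_lit 194) (nat_lit 5) (nat_lit 344) (nat_lit 335) (nat_lit 101))))) (XT.nd (nat_lit 234) (nat_lit 0) (nat_lit 76) (XT.nd (nat_lit 78) (nat_lit 0) (nat_lit 0) (XT.lf (nat_lit 0) (nat_lit 19860662348) (nat_lit 1140) (nat_lit 16046529214) (nat_lit 1216) (nat_lit 7941353721) (nat_lit 179) (nat_lit 5) (nat_lit 194) (nat_lit 5) (nat_lit 195) (nat_lit 5) (nat_lit 345) (nat_lit 335) (nat_lit 100)) (XT.nd (nat_lit 78) (nat_lit 0) (nat_lit 76) (XT.lf (nat_lit 76) (nat_lit 4081604205) (nat_lit 0) (nat_lit 17889793823) (nat_lit 1216) (nat_lit 22578256367) (nat_lit 180) (nat_lit 5) (nat_lit 179) (nat_lit 5) (nat_lit 195) (nat_lit 5) (nat_lit 346) (nat_lit 335) (nat_lit 99)) (XT.lf (nat_lit 0) (nat_lit 24314242045) (nat_lit 1140) (nat_lit 20133425174) (nat_lit 1216) (nat_lit 819067917) (nat_lit 180) (nat_lit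 5) (nat_lit 195) (nat_lit 5) (nat_lit 196) (nat_lit 5) (nat_lit 347) (nat_lit 335) (nat_lit 98)))) (XT.nd (nat_lit 156) (nat_lit 0) (nat_lit 76) (XT.nd (nat_lit 78) (nat_lit 0) (nat_lit 0) (XT.lf (nat_lit 76) (nat_lit 645759106) (nat_lit 0) (nat_lit 26263704639) (nat_lit 1216) (nat_lit 19090403672) (nat_lit 181) (nat_lit 5) (nat_lit 180) (nat_lit 5) (nat_lit 196) (nat_lit 5) (nat_lit 348) (nat_lit 335) (nat_lit 97)) (XT.lf (nat_lit 76) (nat_lit 22460089844) (nat_lit 0) (nat_lit 7324545715) (nat_lit 1216) (nat_lit 16964297132) (nat_lit 181) (nat_lit 5) (nat_lit 180) (nat_lit 5) (nat_lit 196) (nat_lit 5) (nat_lit 349) (nat_lit 335) (nat_lit 96))) (XT.nd (nat_lit 78) (nat_lit 0) (nat_lit 0) (XT.lf (nat_lit 0) (nat_lit 32861994186) (nat_lit 1140) (nat_lit 2709684546) (nat_lit 1216) (nat_lit 11945315022) (nat_lit 181) (nat_lit 5) (nat_lit 196) (nat_lit 5) (nat_lit 197) (nat_lit 5) (nat_lit 350) (nat_lit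 335) (nat_lit 95)) (XT.lf (nat_lit 76) (nat_lit 19830361173) (nat_lit 0) (nat_lit 16463311736) (nat_lit 1216) (nat_lit 12006565486) (nat_lit 182) (nat_lit 5) (nat_lit 181) (nat_lit 5) (nat_lit 197) (nat_lit 5) (nat_lit 351) (nat_lit 335) (nat_lit 94)))))) (XT.nd (nat_lit 546) (nat_lit 1976) (nat_lit 0) (XT.nd (nat_lit 234) (nat_lit 1216) (nat_lit 0) (XT.nd (nat_lit 78) (nat_lit 1140) (nat_lit 0) (XT.lf (nat_lit 0) (nat_lit 39885755602) (nat_lit 1140) (nat_lit 6036169471) (nat_lit 76) (nat_lit 3183333371) (nat_lit 182) (nat_lit 5) (nat_lit 197) (nat_lit 5) (nat_lit 183) (nat_lit 5) (nat_lit 352) (nat_lit 335) (nat_lit 93)) (XT.nd (nat_lit 78) (nat_lit 0) (nat_lit 0) (XT.lf (nat_lit 0) (nat_lit 17243092266) (nat_lit 1140) (nat_lit 26670179117) (nat_lit 1216) (nat_lit 6011329220) (nat_lit 167) (nat_lit 5) (nat_lit 182) (nat_lit 5) (nat_lit 183) (nat_lit 5) (nat_lit 353) (nat_lit 335) (nat_lit 92))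 (XT.lf (nat_lit 0) (nat_lit 41343547523) (nat_lit 1140) (nat_lit 6777957681) (nat_lit 1216) (nat_lit 2645222626) (nat_lit 167) (nat_lit 5) (nat_lit 182) (nat_lit 5) (nat_lit 183) (nat_lit 5) (nat_lit 354) (nat_lit 335) (nat_lit 91)))) (XT.nd (nat_lit 156) (nat_lit 608) (nat_lit 0) (XT.nd (nat_lit 78) (nat_lit 0) (nat_lit 0) (XT.lf (nat_lit 0) (nat_lit 1080468904) (nat_lit 608) (nat_lit 36949791232) (nat_lit 76) (nat_lit 13595384039) (nat_lit 159) (nat_lit 5) (nat_lit 167) (nat_lit 5) (nat_lit 160) (nat_lit 5) (nat_lit 355) (nat_lit 335) (nat_lit 90)) (XT.lf (nat_lit 0) (nat_lit 5026952106) (nat_lit 608) (nat_lit 12911630626) (nat_lit 76) (nat_lit 34566095396) (nat_lit 159) (nat_lit 5) (nat_lit 167) (nat_lit 5) (nat_lit 160) (nat_lit 5) (nat_lit 356) (nat_lit 335) (nat_lit 89))) (XT.nd (nat_lit 78) (nat_lit 0) (nat_lit 0) (XT.lf (nat_lit 0) (nat_lit 9234626785) (nat_lit 684) (nat_lit 41351734918)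 (nat_lit 76) (nat_lit 2819438892) (nat_lit 151) (nat_lit 5) (nat_lit 160) (nat_lit 5) (nat_lit 152) (nat_lit 5) (nat_lit 357) (nat_lit 335) (nat_lit 88)) (XT.lf (nat_lit 0) (nat_lit 13876845955) (nat_lit 684) (nat_lit 16476471526) (nat_lit 76) (nat_lit 23971391189) (nat_lit 151) (nat_lit 5) (nat_lit 160) (nat_lit 5) (nat_lit 152) (nat_lit 5) (nat_lit 358) (nat_lit 335) (nat_lit 87))))) (XT.nd (nat_lit 234) (nat_lit 912) (nat_lit 0) (XT.nd (nat_lit 78) (nat_lit 532) (nat_lit 0) (XT.lf (nat_lit 0) (nat_lit 9326129095) (nat_lit 532) (nat_lit 9420910731) (nat_lit 608) (nat_lit 36521484243) (nat_lit 144) (nat_lit 5) (nat_lit 151) (nat_lit 5) (nat_lit 152) (nat_lit 5) (nat_lit 359) (nat_lit 335) (nat_lit 86)) (XT.nd (nat_lit 78) (nat_lit 532) (nat_lit 0) (XT.lf (nat_lit 0) (nat_lit 24047137538) (nat_lit 608) (nat_lit 20114369906) (nat_lit 76) (nat_lit 12070633828) (nat_lit 144) (nat_lit 5) (nat_lit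 152) (nat_lit 5) (nat_lit 145) (nat_lit 5) (nat_lit 360) (nat_lit 335) (nat_lit 85)) (XT.lf (nat_lit 0) (nat_lit 6521578763) (nat_lit 532) (nat_lit 23139730648) (nat_lit 608) (nat_lit 27558706691) (nat_lit 137) (nat_lit 5) (nat_lit 144) (nat_lit 5) (nat_lit 145) (nat_lit 5) (nat_lit 361) (nat_lit 335) (nat_lit 84)))) (XT.nd (nat_lit 156) (nat_lit 456) (nat_lit 0) (XT.nd (nat_lit 78) (nat_lit 456) (nat_lit 0) (XT.lf (nat_lit 0) (nat_lit 34368039286) (nat_lit 532) (nat_lit 1278105819) (nat_lit 608) (nat_lit 22585316124) (nat_lit 137) (nat_lit 5) (nat_lit 144) (nat_lit 5) (nat_lit 145) (nat_lit 5) (nat_lit 362) (nat_lit 335) (nat_lit 83)) (XT.lf (nat_lit 0) (nat_lit 3642667592) (nat_lit 456) (nat_lit 38406188000) (nat_lit 532) (nat_lit 17217245402) (nat_lit 131) (nat_lit 5) (nat_lit 137) (nat_lit 5) (nat_lit 138) (nat_lit 5) (nat_lit 363) (nat_lit 335) (nat_lit 82))) (XT.nd (nat_lit 78) (nat_lit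 456) (nat_lit 0) (XT.lf (nat_lit 0) (nat_lit 32449326861) (nat_lit 456) (nat_lit 16446989442) (nat_lit 532) (nat_lit 11427884722) (nat_lit 131) (nat_lit 5) (nat_lit 137) (nat_lit 5) (nat_lit 138) (nat_lit 5) (nat_lit 364) (nat_lit 335) (nat_lit 81)) (XT.lf (nat_lit 0) (nat_lit 658795431) (nat_lit 456) (nat_lit 55355246004) (nat_lit 532) (nat_lit 5398058512) (nat_lit 125) (nat_lit 5) (nat_lit 131) (nat_lit 5) (nat_lit 132) (nat_lit 5) (nat_lit 365) (nat_lit 335) (nat_lit 80))))))))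
noncomputable def xc247 : XT := (XT.nd (nat_lit 39312) (nat_lit 0) (nat_lit 836) (XT.nd (nat_lit 38298) (nat_lit 0) (nat_lit 6384) (XT.nd (nat_lit 468) (nat_lit 1596) (nat_lit 0) (XT.nd (nat_lit 234) (nat_lit 456) (nat_lit 0) (XT.nd (nat_lit 78) (nat_lit 456) (nat_lit 0) (XT.lf (nat_lit 0) (nat_lit 1243109375) (nat_lit 532) (nat_lit 32078639940) (nat_lit 76) (nat_lit 29197264068) (nat_lit 124) (nat_lit 5) (nat_lit 131) (nat_lit 5) (nat_lit 125) (nat_lit 5) (nat_lit 366) (nat_lit 335) (nat_lit 79)) (XT.nd (nat_lit 78) (nat_lit 456) (nat_lit 0) (XT.lf (nat_lit 0) (nat_lit 7974234985) (nat_lit 532) (nat_lit 2598046618) (nat_lit 76) (nat_lit 53085273698) (nat_lit 124) (nat_lit 5) (nat_lit 131) (nat_lit 5) (nat_lit 125) (nat_lit 5) (nat_lit 367) (nat_lit 335) (nat_lit 78)) (XT.lf (nat_lit 0) (nat_lit 15305061811) (nat_lit 532) (nat_lit 36629695226) (nat_lit 76) (nat_lit 12883564402) (nat_lit 118)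 (nat_lit 5) (nat_lit 125) (nat_lit 5) (nat_lit 119) (nat_lit 5) (nat_lit 368) (nat_lit 335) (nat_lit 77)))) (XT.nd (nat_lit 78) (nat_lit 456) (nat_lit 0) (XT.lf (nat_lit 0) (nat_lit 22986238787) (nat_lit 532) (nat_lit 6166756781) (nat_lit 76) (nat_lit 36857003189) (nat_lit 118) (nat_lit 5) (nat_lit 125) (nat_lit 5) (nat_lit 119) (nat_lit 5) (nat_lit 369) (nat_lit 335) (nat_lit 76)) (XT.nd (nat_lit 78) (nat_lit 0) (nat_lit 0) (XT.lf (nat_lit 0) (nat_lit 25710953907) (nat_lit 456) (nat_lit 5433322661) (nat_lit 532) (nat_lit 36085757990) (nat_lit 112) (nat_lit 5) (nat_lit 118) (nat_lit 5) (nat_lit 119) (nat_lit 5) (nat_lit 370) (nat_lit 335) (nat_lit 75)) (XT.lf (nat_lit 0) (nat_lit 39791852224) (nat_lit 532) (nat_lit 9997473525) (nat_lit 76) (nat_lit 18690002682) (nat_lit 112) (nat_lit 5) (nat_lit 119) (nat_lit 5) (nat_lit 113) (nat_lit 5) (nat_lit 371) (nat_lit 335) (nat_lit 74))))) (XT.nd (nat_lit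 234) (nat_lit 836) (nat_lit 0) (XT.nd (nat_lit 78) (nat_lit 380) (nat_lit 0) (XT.lf (nat_lit 0) (nat_lit 22861274622) (nat_lit 380) (nat_lit 26110441297) (nat_lit 456) (nat_lit 20786200252) (nat_lit 107) (nat_lit 5) (nat_lit 112) (nat_lit 5) (nat_lit 113) (nat_lit 5) (nat_lit 372) (nat_lit 335) (nat_lit 73)) (XT.nd (nat_lit 78) (nat_lit 380) (nat_lit 0) (XT.lf (nat_lit 0) (nat_lit 56909913910) (nat_lit 380) (nat_lit 1617337782) (nat_lit 456) (nat_lit 12544602418) (nat_lit 107) (nat_lit 5) (nat_lit 112) (nat_lit 5) (nat_lit 113) (nat_lit 5) (nat_lit 373) (nat_lit 335) (nat_lit 72)) (XT.lf (nat_lit 0) (nat_lit 19711683498) (nat_lit 380) (nat_lit 49073549765) (nat_lit 456) (nat_lit 3627504356) (nat_lit 102) (nat_lit 5) (nat_lit 107) (nat_lit 5) (nat_lit 108) (nat_lit 5) (nat_lit 374) (nat_lit 335) (nat_lit 71)))) (XT.nd (nat_lit 156) (nat_lit 380) (nat_lit 0) (XT.nd (nat_lit 78) (nat_lit 380) (nat_lit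 0) (XT.lf (nat_lit 0) (nat_lit 5608448658) (nat_lit 456) (nat_lit 18969394504) (nat_lit 76) (nat_lit 49209609264) (nat_lit 101) (nat_lit 5) (nat_lit 107) (nat_lit 5) (nat_lit 102) (nat_lit 5) (nat_lit 375) (nat_lit 335) (nat_lit 70)) (XT.lf (nat_lit 0) (nat_lit 15210379881) (nat_lit 456) (nat_lit 59155160078) (nat_lit 76) (nat_lit 831937729) (nat_lit 96) (nat_lit 5) (nat_lit 102) (nat_lit 5) (nat_lit 97) (nat_lit 5) (nat_lit 376) (nat_lit 335) (nat_lit 69))) (XT.nd (nat_lit 78) (nat_lit 380) (nat_lit 0) (XT.lf (nat_lit 0) (nat_lit 25536537133) (nat_lit 456) (nat_lit 24396861664) (nat_lit 76) (nat_lit 26703320604) (nat_lit 96) (nat_lit 5) (nat_lit 102) (nat_lit 5) (nat_lit 97) (nat_lit 5) (nat_lit 377) (nat_lit 335) (nat_lit 68)) (XT.lf (nat_lit 0) (nat_lit 11630361091) (nat_lit 380) (nat_lit 24653307271) (nat_lit 456) (nat_lit 41832135034) (nat_lit 91) (nat_lit 5) (nat_lit 96) (nat_lit 5) (nat_lit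 97) (nat_lit 5) (nat_lit 378) (nat_lit 335) (nat_lit 67)))))) (XT.nd (nat_lit 468) (nat_lit 0) (nat_lit 152) (XT.nd (nat_lit 234) (nat_lit 0) (nat_lit 76) (XT.nd (nat_lit 78) (nat_lit 0) (nat_lit 0) (XT.lf (nat_lit 0) (nat_lit 2465995165) (nat_lit 0) (nat_lit 2465995165) (nat_lit 1140) (nat_lit 14450699398) (nat_lit 175) (nat_lit 5) (nat_lit 175) (nat_lit 3) (nat_lit 190) (nat_lit 3) (nat_lit 336) (nat_lit 336) (nat_lit 108)) (XT.nd (nat_lit 78) (nat_lit 0) (nat_lit 0) (XT.lf (nat_lit 0) (nat_lit 10173511158) (nat_lit 1140) (nat_lit 16886104278) (nat_lit 1216) (nat_lit 12282334510) (nat_lit 175) (nat_lit 5) (nat_lit 190) (nat_lit 3) (nat_lit 191) (nat_lit 5) (nat_lit 337) (nat_lit 336) (nat_lit 107)) (XT.lf (nat_lit 76) (nat_lit 530253215) (nat_lit 0) (nat_lit 10014404587) (nat_lit 1216) (nat_lit 29389592302) (nat_lit 176) (nat_lit 5) (nat_lit 175) (nat_lit 5) (nat_lit 191) (nat_lit 5) (nat_lit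 338) (nat_lit 336) (nat_lit 106)))) (XT.nd (nat_lit 78) (nat_lit 0) (nat_lit 0) (XT.lf (nat_lit 0) (nat_lit 11170090233) (nat_lit 1140) (nat_lit 21799050927) (nat_lit 1216) (nat_lit 7567885955) (nat_lit 176) (nat_lit 5) (nat_lit 191) (nat_lit 5) (nat_lit 192) (nat_lit 5) (nat_lit 339) (nat_lit 336) (nat_lit 105)) (XT.nd (nat_lit 78) (nat_lit 0) (nat_lit 76) (XT.lf (nat_lit 0) (nat_lit 11911930081) (nat_lit 1140) (nat_lit 3765991640) (nat_lit 1216) (nat_lit 25477038703) (nat_lit 176) (nat_lit 5) (nat_lit 191) (nat_lit 5) (nat_lit 192) (nat_lit 5) (nat_lit 340) (nat_lit 336) (nat_lit 104)) (XT.lf (nat_lit 0) (nat_lit 12841667195) (nat_lit 1140) (nat_lit 26707165457) (nat_lit 1216) (nat_lit 2237632070) (nat_lit 177) (nat_lit 5) (nat_lit 192) (nat_lit 5) (nat_lit 193) (nat_lit 5) (nat_lit 341) (nat_lit 336) (nat_lit 103))))) (XT.nd (nat_lit 234) (nat_lit 0) (nat_lit 76) (XT.nd (nat_lit 78) (nat_lit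 0) (nat_lit 0) (XT.lf (nat_lit 0) (nat_lit 13991504952) (nat_lit 1140) (nat_lit 8025127807) (nat_lit 1216) (nat_lit 20414517323) (nat_lit 177) (nat_lit 5) (nat_lit 192) (nat_lit 5) (nat_lit 193) (nat_lit 5) (nat_lit 342) (nat_lit 336) (nat_lit 102)) (XT.nd (nat_lit 78) (nat_lit 0) (nat_lit 76) (XT.lf (nat_lit 76) (nat_lit 11439728370) (nat_lit 0) (nat_lit 3844692541) (nat_lit 1216) (nat_lit 27807499722) (nat_lit 178) (nat_lit 5) (nat_lit 177) (nat_lit 5) (nat_lit 193) (nat_lit 5) (nat_lit 343) (nat_lit 336) (nat_lit 101)) (XT.lf (nat_lit 0) (nat_lit 16839581464) (nat_lit 1140) (nat_lit 12261722297) (nat_lit 1216) (nat_lit 14664508889) (nat_lit 178) (nat_lit 5) (nat_lit 193) (nat_lit 5) (nat_lit 194) (nat_lit 5) (nat_lit 344) (nat_lit 336) (nat_lit 100)))) (XT.nd (nat_lit 156) (nat_lit 0) (nat_lit 76) (XT.nd (nat_lit 78) (nat_lit 0) (nat_lit 76) (XT.lf (nat_lit 76) (nat_lit 7824188555) (nat_lit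 0) (nat_lit 10729178669) (nat_lit 1216) (nat_lit 25903197093) (nat_lit 179) (nat_lit 5) (nat_lit 178) (nat_lit 5) (nat_lit 194) (nat_lit 5) (nat_lit 345) (nat_lit 336) (nat_lit 99)) (XT.lf (nat_lit 0) (nat_lit 20521105373) (nat_lit 1140) (nat_lit 16481207153) (nat_lit 1216) (nat_lit 8159651787) (nat_lit 179) (nat_lit 5) (nat_lit 194) (nat_lit 5) (nat_lit 195) (nat_lit 5) (nat_lit 346) (nat_lit 336) (nat_lit 98))) (XT.nd (nat_lit 78) (nat_lit 0) (nat_lit 76) (XT.lf (nat_lit 76) (nat_lit 4250312250) (nat_lit 0) (nat_lit 18443413325) (nat_lit 1216) (nat_lit 23190427123) (nat_lit 180) (nat_lit 5) (nat_lit 179) (nat_lit 5) (nat_lit 195) (nat_lit 5) (nat_lit 347) (nat_lit 336) (nat_lit 97)) (XT.lf (nat_lit 0) (nat_lit 25104856593) (nat_lit 1140) (nat_lit 20690424096) (nat_lit 1216) (nat_lit 827527910) (nat_lit 180) (nat_lit 5) (nat_lit 195) (nat_lit 5) (nat_lit 196) (nat_lit 5) (nat_lit 348) (nat_lit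 336) (nat_lit 96))))))) (XT.nd (nat_lit 1014) (nat_lit 3192) (nat_lit 0) (XT.nd (nat_lit 468) (nat_lit 1748) (nat_lit 0) (XT.nd (nat_lit 234) (nat_lit 988) (nat_lit 0) (XT.nd (nat_lit 78) (nat_lit 0) (nat_lit 0) (XT.lf (nat_lit 76) (nat_lit 711674890) (nat_lit 0) (nat_lit 27064925299) (nat_lit 1216) (nat_lit 19601377409) (nat_lit 181) (nat_lit 5) (nat_lit 180) (nat_lit 5) (nat_lit 196) (nat_lit 5) (nat_lit 349) (nat_lit 336) (nat_lit 95)) (XT.nd (nat_lit 78) (nat_lit 0) (nat_lit 76) (XT.lf (nat_lit 76) (nat_lit 23179079929) (nat_lit 0) (nat_lit 7557203952) (nat_lit 1216) (nat_lit 17413285878) (nat_lit 181) (nat_lit 5) (nat_lit 180) (nat_lit 5) (nat_lit 196) (nat_lit 5) (nat_lit 350) (nat_lit 336) (nat_lit 94)) (XT.lf (nat_lit 0) (nat_lit 33904150169) (nat_lit 1140) (nat_lit 2745205650) (nat_lit 1216) (nat_lit 12291373780) (nat_lit 181) (nat_lit 5) (nat_lit 196) (nat_lit 5) (nat_lit 197) (nat_lit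 5) (nat_lit 351) (nat_lit 336) (nat_lit 93)))) (XT.nd (nat_lit 78) (nat_lit 1064) (nat_lit 0) (XT.lf (nat_lit 76) (nat_lit 20470592720) (nat_lit 0) (nat_lit 16966982490) (nat_lit 1216) (nat_lit 12309934969) (nat_lit 182) (nat_lit 5) (nat_lit 181) (nat_lit 5) (nat_lit 197) (nat_lit 5) (nat_lit 352) (nat_lit 336) (nat_lit 92)) (XT.nd (nat_lit 78) (nat_lit 1140) (nat_lit 0) (XT.lf (nat_lit 0) (nat_lit 41135724566) (nat_lit 1140) (nat_lit 6171477848) (nat_lit 76) (nat_lit 3269531696) (nat_lit 182) (nat_lit 5) (nat_lit 197) (nat_lit 5) (nat_lit 183) (nat_lit 5) (nat_lit 353) (nat_lit 336) (nat_lit 91)) (XT.lf (nat_lit 0) (nat_lit 17805712950) (nat_lit 1140) (nat_lit 27477233359) (nat_lit 1216) (nat_lit 6137746146) (nat_lit 167) (nat_lit 5) (nat_lit 182) (nat_lit 5) (nat_lit 183) (nat_lit 5) (nat_lit 354) (nat_lit 336) (nat_lit 90))))) (XT.nd (nat_lit 234) (nat_lit 1140) (nat_lit 0) (XT.nd (nat_lit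 78) (nat_lit 608) (nat_lit 0) (XT.lf (nat_lit 0) (nat_lit 42627861635) (nat_lit 1140) (nat_lit 6988042885) (nat_lit 1216) (nat_lit 2672226926) (nat_lit 167) (nat_lit 5) (nat_lit 182) (nat_lit 5) (nat_lit 183) (nat_lit 5) (nat_lit 355) (nat_lit 336) (nat_lit 89)) (XT.nd (nat_lit 78) (nat_lit 0) (nat_lit 0) (XT.lf (nat_lit 0) (nat_lit 1163094124) (nat_lit 608) (nat_lit 38011991409) (nat_lit 76) (nat_lit 13997750377) (nat_lit 159) (nat_lit 5) (nat_lit 167) (nat_lit 5) (nat_lit 160) (nat_lit 5) (nat_lit 356) (nat_lit 336) (nat_lit 88)) (XT.lf (nat_lit 0) (nat_lit 5226509362) (nat_lit 608) (nat_lit 13254034341) (nat_lit 76) (nat_lit 35597743129) (nat_lit 159) (nat_lit 5) (nat_lit 167) (nat_lit 5) (nat_lit 160) (nat_lit 5) (nat_lit 357) (nat_lit 336) (nat_lit 87)))) (XT.nd (nat_lit 156) (nat_lit 532) (nat_lit 0) (XT.nd (nat_lit 78) (nat_lit 0) (nat_lit 0) (XT.lf (nat_lit 0) (nat_lit 9559390960) (nat_lit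 684) (nat_lit 42546251276) (nat_lit 76) (nat_lit 2900833450) (nat_lit 151) (nat_lit 5) (nat_lit 160) (nat_lit 5) (nat_lit 152) (nat_lit 5) (nat_lit 358) (nat_lit 336) (nat_lit 86)) (XT.lf (nat_lit 0) (nat_lit 14339486647) (nat_lit 684) (nat_lit 16926070828) (nat_lit 76) (nat_lit 24687437188) (nat_lit 151) (nat_lit 5) (nat_lit 160) (nat_lit 5) (nat_lit 152) (nat_lit 5) (nat_lit 359) (nat_lit 336) (nat_lit 85))) (XT.nd (nat_lit 78) (nat_lit 0) (nat_lit 0) (XT.lf (nat_lit 0) (nat_lit 9650169627) (nat_lit 532) (nat_lit 9704692556) (nat_lit 608) (nat_lit 37570291964) (nat_lit 144) (nat_lit 5) (nat_lit 151) (nat_lit 5) (nat_lit 152) (nat_lit 5) (nat_lit 360) (nat_lit 336) (nat_lit 84)) (XT.lf (nat_lit 0) (nat_lit 24812629397) (nat_lit 608) (nat_lit 20673438478) (nat_lit 76) (nat_lit 12431653839) (nat_lit 144) (nat_lit 5) (nat_lit 152) (nat_lit 5) (nat_lit 145) (nat_lit 5) (nat_lit 361) (nat_lit 336)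 (nat_lit 83)))))) (XT.nd (nat_lit 546) (nat_lit 1672) (nat_lit 0) (XT.nd (nat_lit 234) (nat_lit 532) (nat_lit 0) (XT.nd (nat_lit 78) (nat_lit 456) (nat_lit 0) (XT.lf (nat_lit 0) (nat_lit 6761153725) (nat_lit 532) (nat_lit 23833211143) (nat_lit 608) (nat_lit 28340895558) (nat_lit 137) (nat_lit 5) (nat_lit 144) (nat_lit 5) (nat_lit 145) (nat_lit 5) (nat_lit 362) (nat_lit 336) (nat_lit 82)) (XT.nd (nat_lit 78) (nat_lit 456) (nat_lit 0) (XT.lf (nat_lit 0) (nat_lit 35441728619) (nat_lit 532) (nat_lit 1315758290) (nat_lit 608) (nat_lit 23219601497) (nat_lit 137) (nat_lit 5) (nat_lit 144) (nat_lit 5) (nat_lit 145) (nat_lit 5) (nat_lit 363) (nat_lit 336) (nat_lit 81)) (XT.lf (nat_lit 0) (nat_lit 3795474833) (nat_lit 456) (nat_lit 39556006672) (nat_lit 532) (nat_lit 17691311462) (nat_lit 131) (nat_lit 5) (nat_lit 137) (nat_lit 5) (nat_lit 138) (nat_lit 5) (nat_lit 364) (nat_lit 336) (nat_lit 80)))) (XT.nd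 (nat_lit 156) (nat_lit 76) (nat_lit 0) (XT.nd (nat_lit 78) (nat_lit 456) (nat_lit 0) (XT.lf (nat_lit 0) (nat_lit 33465066097) (nat_lit 456) (nat_lit 16938101098) (nat_lit 532) (nat_lit 11729506407) (nat_lit 131) (nat_lit 5) (nat_lit 137) (nat_lit 5) (nat_lit 138) (nat_lit 5) (nat_lit 365) (nat_lit 336) (nat_lit 79)) (XT.lf (nat_lit 0) (nat_lit 721623707) (nat_lit 456) (nat_lit 57012071858) (nat_lit 532) (nat_lit 5519537373) (nat_lit 125) (nat_lit 5) (nat_lit 131) (nat_lit 5) (nat_lit 132) (nat_lit 5) (nat_lit 366) (nat_lit 336) (nat_lit 78))) (XT.nd (nat_lit 78) (nat_lit 0) (nat_lit 0) (XT.lf (nat_lit 0) (nat_lit 1318920440) (nat_lit 532) (nat_lit 32998372471) (nat_lit 76) (nat_lit 30076085362) (nat_lit 124) (nat_lit 5) (nat_lit 131) (nat_lit 5) (nat_lit 125) (nat_lit 5) (nat_lit 367) (nat_lit 336) (nat_lit 77)) (XT.lf (nat_lit 0) (nat_lit 8250857942) (nat_lit 532) (nat_lit 2634602904) (nat_lit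 76) (nat_lit 54680650717) (nat_lit 124) (nat_lit 5) (nat_lit 131) (nat_lit 5) (nat_lit 125) (nat_lit 5) (nat_lit 368) (nat_lit 336) (nat_lit 76))))) (XT.nd (nat_lit 234) (nat_lit 760) (nat_lit 0) (XT.nd (nat_lit 78) (nat_lit 456) (nat_lit 0) (XT.lf (nat_lit 0) (nat_lit 15800955420) (nat_lit 532) (nat_lit 37686499709) (nat_lit 76) (nat_lit 13274266593) (nat_lit 118) (nat_lit 5) (nat_lit 125) (nat_lit 5) (nat_lit 119) (nat_lit 5) (nat_lit 369) (nat_lit 336) (nat_lit 75)) (XT.nd (nat_lit 78) (nat_lit 456) (nat_lit 0) (XT.lf (nat_lit 0) (nat_lit 23711497557) (nat_lit 532) (nat_lit 6310898927) (nat_lit 76) (nat_lit 37966786351) (nat_lit 118) (nat_lit 5) (nat_lit 125) (nat_lit 5) (nat_lit 119) (nat_lit 5) (nat_lit 370) (nat_lit 336) (nat_lit 74)) (XT.lf (nat_lit 0) (nat_lit 26522742487) (nat_lit 456) (nat_lit 5590883930) (nat_lit 532) (nat_lit 37132214126) (nat_lit 112) (nat_lit 5) (nat_lit 118) (nat_lit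 5) (nat_lit 119) (nat_lit 5) (nat_lit 371) (nat_lit 336) (nat_lit 73)))) (XT.nd (nat_lit 156) (nat_lit 380) (nat_lit 0) (XT.nd (nat_lit 78) (nat_lit 380) (nat_lit 0) (XT.lf (nat_lit 0) (nat_lit 41019660053) (nat_lit 532) (nat_lit 10257103812) (nat_lit 76) (nat_lit 19255879740) (nat_lit 112) (nat_lit 5) (nat_lit 119) (nat_lit 5) (nat_lit 113) (nat_lit 5) (nat_lit 372) (nat_lit 336) (nat_lit 72)) (XT.lf (nat_lit 0) (nat_lit 23587011742) (nat_lit 380) (nat_lit 26887299637) (nat_lit 456) (nat_lit 21375297104) (nat_lit 107) (nat_lit 5) (nat_lit 112) (nat_lit 5) (nat_lit 113) (nat_lit 5) (nat_lit 373) (nat_lit 336) (nat_lit 71))) (XT.nd (nat_lit 78) (nat_lit 380) (nat_lit 0) (XT.lf (nat_lit 0) (nat_lit 58655948104) (nat_lit 380) (nat_lit 1659591023) (nat_lit 456) (nat_lit 12887455873) (nat_lit 107) (nat_lit 5) (nat_lit 112) (nat_lit 5) (nat_lit 113) (nat_lit 5) (nat_lit 374) (nat_lit 336) (nat_lit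 70)) (XT.lf (nat_lit 0) (nat_lit 20342336141) (nat_lit 380) (nat_lit 50538414563) (nat_lit 456) (nat_lit 3703370778) (nat_lit 102) (nat_lit 5) (nat_lit 107) (nat_lit 5) (nat_lit 108) (nat_lit 5) (nat_lit 375) (nat_lit 336) (nat_lit 69))))))))
noncomputable def xc248 : XT := (XT.nd (nat_lit 39468) (nat_lit 0) (nat_lit 456) (XT.nd (nat_lit 38454) (nat_lit 0) (nat_lit 4180) (XT.nd (nat_lit 37908) (nat_lit 0) (nat_lit 6080) (XT.nd (nat_lit 37674) (nat_lit 0) (nat_lit 6004) (XT.nd (nat_lit 78) (nat_lit 380) (nat_lit 0) (XT.lf (nat_lit 0) (nat_lit 5808076453) (nat_lit 456) (nat_lit 19499657325) (nat_lit 76) (nat_lit 50692363803) (nat_lit 101) (nat_lit 5) (nat_lit 107) (nat_lit 5) (nat_lit 102) (nat_lit 5) (nat_lit 376) (nat_lit 336) (nat_lit 68)) (XT.nd (nat_lit 37518) (nat_lit 0) (nat_lit 6004) (XT.lf (nat_lit 0) (nat_lit 15697594428) (nat_lit 456) (nat_lit 60890488577) (nat_lit 76) (nat_lit 864355816)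 (nat_lit 96) (nat_lit 5) (nat_lit 102) (nat_lit 5) (nat_lit 97) (nat_lit 5) (nat_lit 377) (nat_lit 336) (nat_lit 67)) (XT.lf (nat_lit 0) (nat_lit 2560355084) (nat_lit 0) (nat_lit 2560355084) (nat_lit 1140) (nat_lit 14842174974) (nat_lit 175) (nat_lit 5) (nat_lit 175) (nat_lit 3) (nat_lit 190) (nat_lit 3) (nat_lit 337) (nat_lit 337) (nat_lit 106)))) (XT.nd (nat_lit 78) (nat_lit 0) (nat_lit 0) (XT.lf (nat_lit 0) (nat_lit 10557481975) (nat_lit 1140) (nat_lit 17350238382) (nat_lit 1216) (nat_lit 12612003815) (nat_lit 175) (nat_lit 5) (nat_lit 190) (nat_lit 3) (nat_lit 191) (nat_lit 5) (nat_lit 338) (nat_lit 337) (nat_lit 105)) (XT.nd (nat_lit 78) (nat_lit 0) (nat_lit 76) (XT.lf (nat_lit 76) (nat_lit 588193669) (nat_lit 0) (nat_lit 10349679255) (nat_lit 1216) (nat_lit 30191980648) (nat_lit 176) (nat_lit 5) (nat_lit 175) (nat_lit 5) (nat_lit 191) (nat_lit 5) (nat_lit 339) (nat_lit 337) (nat_lit 104))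 (XT.lf (nat_lit 0) (nat_lit 11579504066) (nat_lit 1140) (nat_lit 22409535250) (nat_lit 1216) (nat_lit 7761754934) (nat_lit 176) (nat_lit 5) (nat_lit 191) (nat_lit 5) (nat_lit 192) (nat_lit 5) (nat_lit 340) (nat_lit 337) (nat_lit 103))))) (XT.nd (nat_lit 234) (nat_lit 0) (nat_lit 76) (XT.nd (nat_lit 78) (nat_lit 0) (nat_lit 76) (XT.lf (nat_lit 0) (nat_lit 12341434708) (nat_lit 1140) (nat_lit 3836750802) (nat_lit 1216) (nat_lit 26209148311) (nat_lit 176) (nat_lit 5) (nat_lit 191) (nat_lit 5) (nat_lit 192) (nat_lit 5) (nat_lit 341) (nat_lit 337) (nat_lit 102)) (XT.nd (nat_lit 78) (nat_lit 0) (nat_lit 0) (XT.lf (nat_lit 0) (nat_lit 13297089135) (nat_lit 1140) (nat_lit 27464077254) (nat_lit 1216) (nat_lit 2276679338) (nat_lit 177) (nat_lit 5) (nat_lit 192) (nat_lit 5) (nat_lit 193) (nat_lit 5) (nat_lit 342) (nat_lit 337) (nat_lit 101)) (XT.lf (nat_lit 0) (nat_lit 14479378182) (nat_lit 1140) (nat_lit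 8222868858) (nat_lit 1216) (nat_lit 20999689062) (nat_lit 177) (nat_lit 5) (nat_lit 192) (nat_lit 5) (nat_lit 193) (nat_lit 5) (nat_lit 343) (nat_lit 337) (nat_lit 100)))) (XT.nd (nat_lit 156) (nat_lit 0) (nat_lit 76) (XT.nd (nat_lit 78) (nat_lit 0) (nat_lit 76) (XT.lf (nat_lit 76) (nat_lit 11825511312) (nat_lit 0) (nat_lit 3983995407) (nat_lit 1216) (nat_lit 28573073346) (nat_lit 178) (nat_lit 5) (nat_lit 177) (nat_lit 5) (nat_lit 193) (nat_lit 5) (nat_lit 344) (nat_lit 337) (nat_lit 99)) (XT.lf (nat_lit 0) (nat_lit 17409160016) (nat_lit 1140) (nat_lit 12585962687) (nat_lit 1216) (nat_lit 15081633959) (nat_lit 178) (nat_lit 5) (nat_lit 193) (nat_lit 5) (nat_lit 194) (nat_lit 5) (nat_lit 345) (nat_lit 337) (nat_lit 98))) (XT.nd (nat_lit 78) (nat_lit 0) (nat_lit 76) (XT.lf (nat_lit 76) (nat_lit 8102097928) (nat_lit 0) (nat_lit 11070801059) (nat_lit 1216) (nat_lit 26615378575) (nat_lit 179) (nat_lit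 5) (nat_lit 178) (nat_lit 5) (nat_lit 194) (nat_lit 5) (nat_lit 346) (nat_lit 337) (nat_lit 97)) (XT.lf (nat_lit 0) (nat_lit 21197652055) (nat_lit 1140) (nat_lit 16931607230) (nat_lit 1216) (nat_lit 8385643578) (nat_lit 179) (nat_lit 5) (nat_lit 194) (nat_lit 5) (nat_lit 195) (nat_lit 5) (nat_lit 347) (nat_lit 337) (nat_lit 96)))))) (XT.nd (nat_lit 468) (nat_lit 2128) (nat_lit 0) (XT.nd (nat_lit 234) (nat_lit 0) (nat_lit 76) (XT.nd (nat_lit 78) (nat_lit 0) (nat_lit 76) (XT.lf (nat_lit 76) (nat_lit 4421426028) (nat_lit 0) (nat_lit 19012669808) (nat_lit 1216) (nat_lit 23824704424) (nat_lit 180) (nat_lit 5) (nat_lit 179) (nat_lit 5) (nat_lit 195) (nat_lit 5) (nat_lit 348) (nat_lit 337) (nat_lit 95)) (XT.nd (nat_lit 78) (nat_lit 0) (nat_lit 0) (XT.lf (nat_lit 0) (nat_lit 25915677178) (nat_lit 1140) (nat_lit 21266831198) (nat_lit 1216) (nat_lit 837166600) (nat_lit 180) (nat_lit 5) (nat_lit 195) (nat_lit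 5) (nat_lit 196) (nat_lit 5) (nat_lit 349) (nat_lit 337) (nat_lit 94)) (XT.lf (nat_lit 76) (nat_lit 776896389) (nat_lit 0) (nat_lit 27889418559) (nat_lit 1216) (nat_lit 20131224393) (nat_lit 181) (nat_lit 5) (nat_lit 180) (nat_lit 5) (nat_lit 196) (nat_lit 5) (nat_lit 350) (nat_lit 337) (nat_lit 93)))) (XT.nd (nat_lit 78) (nat_lit 0) (nat_lit 76) (XT.lf (nat_lit 76) (nat_lit 23917045776) (nat_lit 0) (nat_lit 7796100168) (nat_lit 1216) (nat_lit 17879185098) (nat_lit 181) (nat_lit 5) (nat_lit 180) (nat_lit 5) (nat_lit 196) (nat_lit 5) (nat_lit 351) (nat_lit 337) (nat_lit 92)) (XT.nd (nat_lit 78) (nat_lit 0) (nat_lit 0) (XT.lf (nat_lit 0) (nat_lit 34974339202) (nat_lit 1140) (nat_lit 2784419740) (nat_lit 1216) (nat_lit 12648520411) (nat_lit 181) (nat_lit 5) (nat_lit 196) (nat_lit 5) (nat_lit 197) (nat_lit 5) (nat_lit 352) (nat_lit 337) (nat_lit 91)) (XT.lf (nat_lit 76) (nat_lit 21127429620) (nat_lit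 0) (nat_lit 17485202448) (nat_lit 1216) (nat_lit 12625667666) (nat_lit 182) (nat_lit 5) (nat_lit 181) (nat_lit 5) (nat_lit 197) (nat_lit 5) (nat_lit 353) (nat_lit 337) (nat_lit 90))))) (XT.nd (nat_lit 234) (nat_lit 1216) (nat_lit 0) (XT.nd (nat_lit 78) (nat_lit 1140) (nat_lit 0) (XT.lf (nat_lit 0) (nat_lit 42420127434) (nat_lit 1140) (nat_lit 6313473246) (nat_lit 76) (nat_lit 3358849925) (nat_lit 182) (nat_lit 5) (nat_lit 197) (nat_lit 5) (nat_lit 183) (nat_lit 5) (nat_lit 354) (nat_lit 337) (nat_lit 89)) (XT.nd (nat_lit 78) (nat_lit 0) (nat_lit 0) (XT.lf (nat_lit 0) (nat_lit 18382610247) (nat_lit 1140) (nat_lit 28308100334) (nat_lit 1216) (nat_lit 6271050978) (nat_lit 167) (nat_lit 5) (nat_lit 182) (nat_lit 5) (nat_lit 183) (nat_lit 5) (nat_lit 355) (nat_lit 337) (nat_lit 88)) (XT.lf (nat_lit 0) (nat_lit 43948178949) (nat_lit 1140) (nat_lit 7204043370) (nat_lit 1216) (nat_lit 2703046595) (nat_lit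 167) (nat_lit 5) (nat_lit 182) (nat_lit 5) (nat_lit 183) (nat_lit 5) (nat_lit 356) (nat_lit 337) (nat_lit 87)))) (XT.nd (nat_lit 156) (nat_lit 608) (nat_lit 0) (XT.nd (nat_lit 78) (nat_lit 0) (nat_lit 0) (XT.lf (nat_lit 0) (nat_lit 1245315776) (nat_lit 608) (nat_lit 39108715031) (nat_lit 76) (nat_lit 14412503151) (nat_lit 159) (nat_lit 5) (nat_lit 167) (nat_lit 5) (nat_lit 160) (nat_lit 5) (nat_lit 357) (nat_lit 337) (nat_lit 86)) (XT.lf (nat_lit 0) (nat_lit 5429254961) (nat_lit 608) (nat_lit 13609290206) (nat_lit 76) (nat_lit 36660646551) (nat_lit 159) (nat_lit 5) (nat_lit 167) (nat_lit 5) (nat_lit 160) (nat_lit 5) (nat_lit 358) (nat_lit 337) (nat_lit 85))) (XT.nd (nat_lit 78) (nat_lit 0) (nat_lit 0) (XT.lf (nat_lit 0) (nat_lit 9891158430) (nat_lit 684) (nat_lit 43779245762) (nat_lit 76) (nat_lit 2984852884) (nat_lit 151) (nat_lit 5) (nat_lit 160) (nat_lit 5) (nat_lit 152) (nat_lit 5) (nat_lit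 359) (nat_lit 337) (nat_lit 84)) (XT.lf (nat_lit 0) (nat_lit 14813346722) (nat_lit 684) (nat_lit 17391723776) (nat_lit 76) (nat_lit 25425142275) (nat_lit 151) (nat_lit 5) (nat_lit 160) (nat_lit 5) (nat_lit 152) (nat_lit 5) (nat_lit 360) (nat_lit 337) (nat_lit 83))))))) (XT.nd (nat_lit 1014) (nat_lit 760) (nat_lit 0) (XT.nd (nat_lit 468) (nat_lit 1444) (nat_lit 0) (XT.nd (nat_lit 234) (nat_lit 456) (nat_lit 0) (XT.nd (nat_lit 78) (nat_lit 532) (nat_lit 0) (XT.lf (nat_lit 0) (nat_lit 9981390862) (nat_lit 532) (nat_lit 9996921562) (nat_lit 608) (nat_lit 38653252540) (nat_lit 144) (nat_lit 5) (nat_lit 151) (nat_lit 5) (nat_lit 152) (nat_lit 5) (nat_lit 361) (nat_lit 337) (nat_lit 82)) (XT.nd (nat_lit 78) (nat_lit 532) (nat_lit 0) (XT.lf (nat_lit 0) (nat_lit 25598555769) (nat_lit 608) (nat_lit 21251825697) (nat_lit 76) (nat_lit 12803567537) (nat_lit 144) (nat_lit 5) (nat_lit 152) (nat_lit 5) (nat_lit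 145) (nat_lit 5) (nat_lit 362) (nat_lit 337) (nat_lit 81)) (XT.lf (nat_lit 0) (nat_lit 7005394312) (nat_lit 532) (nat_lit 24547536891) (nat_lit 608) (nat_lit 29149108724) (nat_lit 137) (nat_lit 5) (nat_lit 144) (nat_lit 5) (nat_lit 145) (nat_lit 5) (nat_lit 363) (nat_lit 337) (nat_lit 80)))) (XT.nd (nat_lit 78) (nat_lit 456) (nat_lit 0) (XT.lf (nat_lit 0) (nat_lit 36545180454) (nat_lit 532) (nat_lit 1354579984) (nat_lit 608) (nat_lit 23875399541) (nat_lit 137) (nat_lit 5) (nat_lit 144) (nat_lit 5) (nat_lit 145) (nat_lit 5) (nat_lit 364) (nat_lit 337) (nat_lit 79)) (XT.nd (nat_lit 78) (nat_lit 0) (nat_lit 0) (XT.lf (nat_lit 0) (nat_lit 3950367651) (nat_lit 456) (nat_lit 40740455778) (nat_lit 532) (nat_lit 18182036382) (nat_lit 131) (nat_lit 5) (nat_lit 137) (nat_lit 5) (nat_lit 138) (nat_lit 5) (nat_lit 365) (nat_lit 337) (nat_lit 78)) (XT.lf (nat_lit 0) (nat_lit 34508851646) (nat_lit 456) (nat_lit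 17444078020) (nat_lit 532) (nat_lit 12042542644) (nat_lit 131) (nat_lit 5) (nat_lit 137) (nat_lit 5) (nat_lit 138) (nat_lit 5) (nat_lit 366) (nat_lit 337) (nat_lit 77))))) (XT.nd (nat_lit 234) (nat_lit 912) (nat_lit 0) (XT.nd (nat_lit 78) (nat_lit 76) (nat_lit 0) (XT.lf (nat_lit 0) (nat_lit 783864758) (nat_lit 456) (nat_lit 58718822433) (nat_lit 532) (nat_lit 5646983336) (nat_lit 125) (nat_lit 5) (nat_lit 131) (nat_lit 5) (nat_lit 132) (nat_lit 5) (nat_lit 367) (nat_lit 337) (nat_lit 76)) (XT.nd (nat_lit 78) (nat_lit 0) (nat_lit 0) (XT.lf (nat_lit 0) (nat_lit 1394794759) (nat_lit 532) (nat_lit 33948143924) (nat_lit 76) (nat_lit 30981104629) (nat_lit 124) (nat_lit 5) (nat_lit 131) (nat_lit 5) (nat_lit 125) (nat_lit 5) (nat_lit 368) (nat_lit 337) (nat_lit 75)) (XT.lf (nat_lit 0) (nat_lit 8533632909) (nat_lit 532) (nat_lit 2674631553) (nat_lit 76) (nat_lit 56323727235) (nat_lit 124) (nat_lit 5)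 (nat_lit 131) (nat_lit 5) (nat_lit 125) (nat_lit 5) (nat_lit 369) (nat_lit 337) (nat_lit 74)))) (XT.nd (nat_lit 156) (nat_lit 456) (nat_lit 0) (XT.nd (nat_lit 78) (nat_lit 0) (nat_lit 0) (XT.lf (nat_lit 0) (nat_lit 16309616710) (nat_lit 532) (nat_lit 38777424257) (nat_lit 76) (nat_lit 13676449024) (nat_lit 118) (nat_lit 5) (nat_lit 125) (nat_lit 5) (nat_lit 119) (nat_lit 5) (nat_lit 370) (nat_lit 337) (nat_lit 73)) (XT.lf (nat_lit 0) (nat_lit 24456466394) (nat_lit 532) (nat_lit 6461710901) (nat_lit 76) (nat_lit 39109629197) (nat_lit 118) (nat_lit 5) (nat_lit 125) (nat_lit 5) (nat_lit 119) (nat_lit 5) (nat_lit 371) (nat_lit 337) (nat_lit 72))) (XT.nd (nat_lit 78) (nat_lit 0) (nat_lit 0) (XT.lf (nat_lit 0) (nat_lit 27356562158) (nat_lit 456) (nat_lit 5753484225) (nat_lit 532) (nat_lit 38212137186) (nat_lit 112) (nat_lit 5) (nat_lit 118) (nat_lit 5) (nat_lit 119) (nat_lit 5) (nat_lit 372) (nat_lit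 337) (nat_lit 71)) (XT.lf (nat_lit 0) (nat_lit 42282347378) (nat_lit 532) (nat_lit 10526836043) (nat_lit 76) (nat_lit 19838435930) (nat_lit 112) (nat_lit 5) (nat_lit 119) (nat_lit 5) (nat_lit 113) (nat_lit 5) (nat_lit 373) (nat_lit 337) (nat_lit 70)))))) (XT.nd (nat_lit 38064) (nat_lit 0) (nat_lit 5624) (XT.nd (nat_lit 37830) (nat_lit 0) (nat_lit 5548) (XT.nd (nat_lit 78) (nat_lit 380) (nat_lit 0) (XT.lf (nat_lit 0) (nat_lit 24332230615) (nat_lit 380) (nat_lit 27687834265) (nat_lit 456) (nat_lit 21984046679) (nat_lit 107) (nat_lit 5) (nat_lit 112) (nat_lit 5) (nat_lit 113) (nat_lit 5) (nat_lit 374) (nat_lit 337) (nat_lit 69)) (XT.nd (nat_lit 78) (nat_lit 380) (nat_lit 0) (XT.lf (nat_lit 0) (nat_lit 60452139675) (nat_lit 380) (nat_lit 1703471607) (nat_lit 456) (nat_lit 13242517086) (nat_lit 107) (nat_lit 5) (nat_lit 112) (nat_lit 5) (nat_lit 113) (nat_lit 5) (nat_lit 375) (nat_lit 337) (nat_lit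 68)) (XT.lf (nat_lit 0) (nat_lit 20989652260) (nat_lit 380) (nat_lit 52047646748) (nat_lit 456) (nat_lit 3783405157) (nat_lit 102) (nat_lit 5) (nat_lit 107) (nat_lit 5) (nat_lit 108) (nat_lit 5) (nat_lit 376) (nat_lit 337) (nat_lit 67)))) (XT.nd (nat_lit 78) (nat_lit 0) (nat_lit 0) (XT.lf (nat_lit 0) (nat_lit 2656375902) (nat_lit 0) (nat_lit 2656375902) (nat_lit 1140) (nat_lit 15247808395) (nat_lit 175) (nat_lit 5) (nat_lit 175) (nat_lit 3) (nat_lit 190) (nat_lit 3) (nat_lit 338) (nat_lit 338) (nat_lit 104)) (XT.nd (nat_lit 78) (nat_lit 0) (nat_lit 0) (XT.lf (nat_lit 0) (nat_lit 10948450455) (nat_lit 1140) (nat_lit 17830733257) (nat_lit 1216) (nat_lit 12953790520) (nat_lit 175) (nat_lit 5) (nat_lit 190) (nat_lit 3) (nat_lit 191) (nat_lit 5) (nat_lit 339) (nat_lit 338) (nat_lit 103)) (XT.lf (nat_lit 76) (nat_lit 645459478) (nat_lit 0) (nat_lit 10693012059) (nat_lit 1216) (nat_lit 31022992755)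 (nat_lit 176) (nat_lit 5) (nat_lit 175) (nat_lit 5) (nat_lit 191) (nat_lit 5) (nat_lit 340) (nat_lit 338) (nat_lit 102))))) (XT.nd (nat_lit 234) (nat_lit 0) (nat_lit 76) (XT.nd (nat_lit 78) (nat_lit 0) (nat_lit 0) (XT.lf (nat_lit 0) (nat_lit 11996934551) (nat_lit 1140) (nat_lit 23040830447) (nat_lit 1216) (nat_lit 7963343939) (nat_lit 176) (nat_lit 5) (nat_lit 191) (nat_lit 5) (nat_lit 192) (nat_lit 5) (nat_lit 341) (nat_lit 338) (nat_lit 101)) (XT.nd (nat_lit 78) (nat_lit 0) (nat_lit 76) (XT.lf (nat_lit 0) (nat_lit 12779682956) (nat_lit 1140) (nat_lit 3912056374) (nat_lit 1216) (nat_lit 26965069709) (nat_lit 176) (nat_lit 5) (nat_lit 191) (nat_lit 5) (nat_lit 192) (nat_lit 5) (nat_lit 342) (nat_lit 338) (nat_lit 100)) (XT.lf (nat_lit 0) (nat_lit 13762145577) (nat_lit 1140) (nat_lit 28246239587) (nat_lit 1216) (nat_lit 2318510028) (nat_lit 177) (nat_lit 5) (nat_lit 192) (nat_lit 5) (nat_lit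 193) (nat_lit 5) (nat_lit 343) (nat_lit 338) (nat_lit 99)))) (XT.nd (nat_lit 156) (nat_lit 0) (nat_lit 76) (XT.nd (nat_lit 78) (nat_lit 0) (nat_lit 0) (XT.lf (nat_lit 0) (nat_lit 14977976778) (nat_lit 1140) (nat_lit 8429011249) (nat_lit 1216) (nat_lit 21603981005) (nat_lit 177) (nat_lit 5) (nat_lit 192) (nat_lit 5) (nat_lit 193) (nat_lit 5) (nat_lit 344) (nat_lit 338) (nat_lit 98)) (XT.lf (nat_lit 76) (nat_lit 12220422838) (nat_lit 0) (nat_lit 4126101837) (nat_lit 1216) (nat_lit 29365555047) (nat_lit 178) (nat_lit 5) (nat_lit 177) (nat_lit 5) (nat_lit 193) (nat_lit 5) (nat_lit 345) (nat_lit 338) (nat_lit 97))) (XT.nd (nat_lit 78) (nat_lit 0) (nat_lit 0) (XT.lf (nat_lit 0) (nat_lit 17992129612) (nat_lit 1140) (nat_lit 12922433755) (nat_lit 1216) (nat_lit 15512582179) (nat_lit 178) (nat_lit 5) (nat_lit 193) (nat_lit 5) (nat_lit 194) (nat_lit 5) (nat_lit 346) (nat_lit 338) (nat_lit 96)) (XT.lf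 (nat_lit 76) (nat_lit 8385865661) (nat_lit 0) (nat_lit 11421538561) (nat_lit 1216) (nat_lit 27352651855) (nat_lit 179) (nat_lit 5) (nat_lit 178) (nat_lit 5) (nat_lit 194) (nat_lit 5) (nat_lit 347) (nat_lit 338) (nat_lit 95))))))))
noncomputable def xc249 : XT := (XT.nd (nat_lit 2028) (nat_lit 380) (nat_lit 0) (XT.nd (nat_lit 1014) (nat_lit 2964) (nat_lit 0) (XT.nd (nat_lit 468) (nat_lit 2128) (nat_lit 0) (XT.nd (nat_lit 234) (nat_lit 0) (nat_lit 76) (XT.nd (nat_lit 78) (nat_lit 0) (nat_lit 0) (XT.lf (nat_lit 0) (nat_lit 21890998453) (nat_lit 1140) (nat_lit 17398047165) (nat_lit 1216) (nat_lit 8619494192) (nat_lit 179) (nat_lit 5) (nat_lit 194) (nat_lit 5) (nat_lit 195) (nat_lit 5) (nat_lit 348) (nat_lit 338) (nat_lit 94)) (XT.nd (nat_lit 78) (nat_lit 0) (nat_lit 76) (XT.lf (nat_lit 76) (nat_lit 4595170147) (nat_lit 0) (nat_lit 19598088155) (nat_lit 1216) (nat_lit 24481536694) (nat_lit 180) (nat_lit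 5) (nat_lit 179) (nat_lit 5) (nat_lit 195) (nat_lit 5) (nat_lit 349) (nat_lit 338) (nat_lit 93)) (XT.lf (nat_lit 0) (nat_lit 26747511605) (nat_lit 1140) (nat_lit 21863073837) (nat_lit 1216) (nat_lit 847966255) (nat_lit 180) (nat_lit 5) (nat_lit 195) (nat_lit 5) (nat_lit 196) (nat_lit 5) (nat_lit 350) (nat_lit 338) (nat_lit 92)))) (XT.nd (nat_lit 78) (nat_lit 0) (nat_lit 0) (XT.lf (nat_lit 76) (nat_lit 841556143) (nat_lit 0) (nat_lit 28737926453) (nat_lit 1216) (nat_lit 20680307380) (nat_lit 181) (nat_lit 5) (nat_lit 180) (nat_lit 5) (nat_lit 196) (nat_lit 5) (nat_lit 351) (nat_lit 338) (nat_lit 91)) (XT.nd (nat_lit 78) (nat_lit 0) (nat_lit 76) (XT.lf (nat_lit 76) (nat_lit 24674705560) (nat_lit 0) (nat_lit 8041464083) (nat_lit 1216) (nat_lit 18362304588) (nat_lit 181) (nat_lit 5) (nat_lit 180) (nat_lit 5) (nat_lit 196) (nat_lit 5) (nat_lit 352) (nat_lit 338) (nat_lit 90)) (XT.lf (nat_lit 0) (nat_lit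 36073587785) (nat_lit 1140) (nat_lit 2827286784) (nat_lit 1216) (nat_lit 13017047018) (nat_lit 181) (nat_lit 5) (nat_lit 196) (nat_lit 5) (nat_lit 197) (nat_lit 5) (nat_lit 353) (nat_lit 338) (nat_lit 89))))) (XT.nd (nat_lit 234) (nat_lit 1216) (nat_lit 0) (XT.nd (nat_lit 78) (nat_lit 1064) (nat_lit 0) (XT.lf (nat_lit 76) (nat_lit 21801519375) (nat_lit 0) (nat_lit 18018440285) (nat_lit 1216) (nat_lit 12953947214) (nat_lit 182) (nat_lit 5) (nat_lit 181) (nat_lit 5) (nat_lit 197) (nat_lit 5) (nat_lit 354) (nat_lit 338) (nat_lit 88)) (XT.nd (nat_lit 78) (nat_lit 1140) (nat_lit 0) (XT.lf (nat_lit 0) (nat_lit 43740173175) (nat_lit 1140) (nat_lit 6462205431) (nat_lit 76) (nat_lit 3451351004) (nat_lit 182) (nat_lit 5) (nat_lit 197) (nat_lit 5) (nat_lit 183) (nat_lit 5) (nat_lit 355) (nat_lit 338) (nat_lit 87)) (XT.lf (nat_lit 0) (nat_lit 18974361821) (nat_lit 1140) (nat_lit 29163517323) (nat_lit 1216)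 (nat_lit 6411272665) (nat_lit 167) (nat_lit 5) (nat_lit 182) (nat_lit 5) (nat_lit 183) (nat_lit 5) (nat_lit 356) (nat_lit 338) (nat_lit 86)))) (XT.nd (nat_lit 156) (nat_lit 608) (nat_lit 0) (XT.nd (nat_lit 78) (nat_lit 608) (nat_lit 0) (XT.lf (nat_lit 0) (nat_lit 45305724576) (nat_lit 1140) (nat_lit 7426158825) (nat_lit 1216) (nat_lit 2737623582) (nat_lit 167) (nat_lit 5) (nat_lit 182) (nat_lit 5) (nat_lit 183) (nat_lit 5) (nat_lit 357) (nat_lit 338) (nat_lit 85)) (XT.lf (nat_lit 0) (nat_lit 1327287209) (nat_lit 608) (nat_lit 40240845254) (nat_lit 76) (nat_lit 14839995847) (nat_lit 159) (nat_lit 5) (nat_lit 167) (nat_lit 5) (nat_lit 160) (nat_lit 5) (nat_lit 358) (nat_lit 338) (nat_lit 84))) (XT.nd (nat_lit 78) (nat_lit 608) (nat_lit 0) (XT.lf (nat_lit 0) (nat_lit 5635445192) (nat_lit 608) (nat_lit 13977635680) (nat_lit 76) (nat_lit 37755725755) (nat_lit 159) (nat_lit 5) (nat_lit 167) (nat_lit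 5) (nat_lit 160) (nat_lit 5) (nat_lit 359) (nat_lit 338) (nat_lit 83)) (XT.lf (nat_lit 0) (nat_lit 10230296557) (nat_lit 684) (nat_lit 45051721021) (nat_lit 76) (nat_lit 3071565433) (nat_lit 151) (nat_lit 5) (nat_lit 160) (nat_lit 5) (nat_lit 152) (nat_lit 5) (nat_lit 360) (nat_lit 338) (nat_lit 82)))))) (XT.nd (nat_lit 468) (nat_lit 1444) (nat_lit 0) (XT.nd (nat_lit 234) (nat_lit 988) (nat_lit 0) (XT.nd (nat_lit 78) (nat_lit 532) (nat_lit 0) (XT.lf (nat_lit 0) (nat_lit 15298915449) (nat_lit 684) (nat_lit 17873764699) (nat_lit 76) (nat_lit 26185146022) (nat_lit 151) (nat_lit 5) (nat_lit 160) (nat_lit 5) (nat_lit 152) (nat_lit 5) (nat_lit 361) (nat_lit 338) (nat_lit 81)) (XT.nd (nat_lit 78) (nat_lit 0) (nat_lit 0) (XT.lf (nat_lit 0) (nat_lit 10320154057) (nat_lit 532) (nat_lit 10297854970) (nat_lit 608) (nat_lit 39771236220) (nat_lit 144) (nat_lit 5) (nat_lit 151) (nat_lit 5) (nat_lit 152) (nat_lit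 5) (nat_lit 362) (nat_lit 338) (nat_lit 80)) (XT.lf (nat_lit 0) (nat_lit 26405674937) (nat_lit 608) (nat_lit 21849964938) (nat_lit 76) (nat_lit 13186698112) (nat_lit 144) (nat_lit 5) (nat_lit 152) (nat_lit 5) (nat_lit 145) (nat_lit 5) (nat_lit 363) (nat_lit 338) (nat_lit 79)))) (XT.nd (nat_lit 78) (nat_lit 456) (nat_lit 0) (XT.lf (nat_lit 0) (nat_lit 7254585244) (nat_lit 532) (nat_lit 25283330906) (nat_lit 608) (nat_lit 29983980044) (nat_lit 137) (nat_lit 5) (nat_lit 144) (nat_lit 5) (nat_lit 145) (nat_lit 5) (nat_lit 364) (nat_lit 338) (nat_lit 78)) (XT.nd (nat_lit 78) (nat_lit 456) (nat_lit 0) (XT.lf (nat_lit 0) (nat_lit 37679428200) (nat_lit 532) (nat_lit 1394603702) (nat_lit 608) (nat_lit 24553213040) (nat_lit 137) (nat_lit 5) (nat_lit 144) (nat_lit 5) (nat_lit 145) (nat_lit 5) (nat_lit 365) (nat_lit 338) (nat_lit 77)) (XT.lf (nat_lit 0) (nat_lit 4107552045) (nat_lit 456) (nat_lit 41960566431)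 (nat_lit 532) (nat_lit 18689780041) (nat_lit 131) (nat_lit 5) (nat_lit 137) (nat_lit 5) (nat_lit 138) (nat_lit 5) (nat_lit 366) (nat_lit 338) (nat_lit 76))))) (XT.nd (nat_lit 234) (nat_lit 912) (nat_lit 0) (XT.nd (nat_lit 78) (nat_lit 532) (nat_lit 0) (XT.lf (nat_lit 0) (nat_lit 35581664152) (nat_lit 456) (nat_lit 17965358594) (nat_lit 532) (nat_lit 12367200057) (nat_lit 131) (nat_lit 5) (nat_lit 137) (nat_lit 5) (nat_lit 138) (nat_lit 5) (nat_lit 367) (nat_lit 338) (nat_lit 75)) (XT.nd (nat_lit 78) (nat_lit 76) (nat_lit 0) (XT.lf (nat_lit 0) (nat_lit 845642875) (nat_lit 456) (nat_lit 60476982844) (nat_lit 532) (nat_lit 5780442079) (nat_lit 125) (nat_lit 5) (nat_lit 131) (nat_lit 5) (nat_lit 132) (nat_lit 5) (nat_lit 368) (nat_lit 338) (nat_lit 74)) (XT.lf (nat_lit 0) (nat_lit 1470861154) (nat_lit 532) (nat_lit 34928715001) (nat_lit 76) (nat_lit 31913117376) (nat_lit 124) (nat_lit 5) (nat_lit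 131) (nat_lit 5) (nat_lit 125) (nat_lit 5) (nat_lit 369) (nat_lit 338) (nat_lit 73)))) (XT.nd (nat_lit 156) (nat_lit 456) (nat_lit 0) (XT.nd (nat_lit 78) (nat_lit 456) (nat_lit 0) (XT.lf (nat_lit 0) (nat_lit 8822867675) (nat_lit 532) (nat_lit 2718100362) (nat_lit 76) (nat_lit 58015943526) (nat_lit 124) (nat_lit 5) (nat_lit 131) (nat_lit 5) (nat_lit 125) (nat_lit 5) (nat_lit 370) (nat_lit 338) (nat_lit 72)) (XT.lf (nat_lit 0) (nat_lit 16831549784) (nat_lit 532) (nat_lit 39903353787) (nat_lit 76) (nat_lit 14090469927) (nat_lit 118) (nat_lit 5) (nat_lit 125) (nat_lit 5) (nat_lit 119) (nat_lit 5) (nat_lit 371) (nat_lit 338) (nat_lit 71))) (XT.nd (nat_lit 78) (nat_lit 456) (nat_lit 0) (XT.lf (nat_lit 0) (nat_lit 25221854146) (nat_lit 532) (nat_lit 6619258153) (nat_lit 76) (nat_lit 40286536940) (nat_lit 118) (nat_lit 5) (nat_lit 125) (nat_lit 5) (nat_lit 119) (nat_lit 5) (nat_lit 372) (nat_lit 338)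 (nat_lit 70)) (XT.lf (nat_lit 0) (nat_lit 28213207176) (nat_lit 456) (nat_lit 5921256796) (nat_lit 532) (nat_lit 39326412167) (nat_lit 112) (nat_lit 5) (nat_lit 118) (nat_lit 5) (nat_lit 119) (nat_lit 5) (nat_lit 373) (nat_lit 338) (nat_lit 69))))))) (XT.nd (nat_lit 38766) (nat_lit 0) (nat_lit 2812) (XT.nd (nat_lit 38220) (nat_lit 0) (nat_lit 5244) (XT.nd (nat_lit 37986) (nat_lit 0) (nat_lit 5168) (XT.nd (nat_lit 78) (nat_lit 380) (nat_lit 0) (XT.lf (nat_lit 0) (nat_lit 43581072794) (nat_lit 532) (nat_lit 10806840499) (nat_lit 76) (nat_lit 20438188686) (nat_lit 112) (nat_lit 5) (nat_lit 119) (nat_lit 5) (nat_lit 113) (nat_lit 5) (nat_lit 374) (nat_lit 338) (nat_lit 68)) (XT.nd (nat_lit 37830) (nat_lit 0) (nat_lit 5168) (XT.lf (nat_lit 0) (nat_lit 25097647172) (nat_lit 380) (nat_lit 28512734199) (nat_lit 456) (nat_lit 22612924911) (nat_lit 107) (nat_lit 5) (nat_lit 112) (nat_lit 5) (nat_lit 113)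 (nat_lit 5) (nat_lit 375) (nat_lit 338) (nat_lit 67)) (XT.lf (nat_lit 0) (nat_lit 2754174603) (nat_lit 0) (nat_lit 2754174603) (nat_lit 1140) (nat_lit 15667885848) (nat_lit 175) (nat_lit 5) (nat_lit 175) (nat_lit 3) (nat_lit 190) (nat_lit 3) (nat_lit 339) (nat_lit 339) (nat_lit 102)))) (XT.nd (nat_lit 78) (nat_lit 0) (nat_lit 0) (XT.lf (nat_lit 0) (nat_lit 11346886080) (nat_lit 1140) (nat_lit 18327939847) (nat_lit 1216) (nat_lit 13307930290) (nat_lit 175) (nat_lit 5) (nat_lit 190) (nat_lit 3) (nat_lit 191) (nat_lit 5) (nat_lit 340) (nat_lit 339) (nat_lit 101)) (XT.nd (nat_lit 78) (nat_lit 0) (nat_lit 76) (XT.lf (nat_lit 76) (nat_lit 702168911) (nat_lit 0) (nat_lit 11044759557) (nat_lit 1216) (nat_lit 31883226027) (nat_lit 176) (nat_lit 5) (nat_lit 175) (nat_lit 5) (nat_lit 191) (nat_lit 5) (nat_lit 341) (nat_lit 339) (nat_lit 100)) (XT.lf (nat_lit 0) (nat_lit 12422867061) (nat_lit 1140) (nat_lit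 23693417542) (nat_lit 1216) (nat_lit 8172775275) (nat_lit 176) (nat_lit 5) (nat_lit 191) (nat_lit 5) (nat_lit 192) (nat_lit 5) (nat_lit 342) (nat_lit 339) (nat_lit 99))))) (XT.nd (nat_lit 234) (nat_lit 0) (nat_lit 76) (XT.nd (nat_lit 78) (nat_lit 0) (nat_lit 76) (XT.lf (nat_lit 0) (nat_lit 13227174875) (nat_lit 1140) (nat_lit 3991905620) (nat_lit 1216) (nat_lit 27745411138) (nat_lit 176) (nat_lit 5) (nat_lit 191) (nat_lit 5) (nat_lit 192) (nat_lit 5) (nat_lit 343) (nat_lit 339) (nat_lit 98)) (XT.nd (nat_lit 78) (nat_lit 0) (nat_lit 0) (XT.lf (nat_lit 0) (nat_lit 14237356790) (nat_lit 1140) (nat_lit 29054263984) (nat_lit 1216) (nat_lit 2363115108) (nat_lit 177) (nat_lit 5) (nat_lit 192) (nat_lit 5) (nat_lit 193) (nat_lit 5) (nat_lit 344) (nat_lit 339) (nat_lit 97)) (XT.lf (nat_lit 0) (nat_lit 15487846999) (nat_lit 1140) (nat_lit 8643665285) (nat_lit 1216) (nat_lit 22227876919) (nat_lit 177) (nat_lit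 5) (nat_lit 192) (nat_lit 5) (nat_lit 193) (nat_lit 5) (nat_lit 345) (nat_lit 339) (nat_lit 96)))) (XT.nd (nat_lit 156) (nat_lit 0) (nat_lit 76) (XT.nd (nat_lit 78) (nat_lit 0) (nat_lit 76) (XT.lf (nat_lit 76) (nat_lit 12624877155) (nat_lit 0) (nat_lit 4271174898) (nat_lit 1216) (nat_lit 30185525847) (nat_lit 178) (nat_lit 5) (nat_lit 177) (nat_lit 5) (nat_lit 193) (nat_lit 5) (nat_lit 346) (nat_lit 339) (nat_lit 95)) (XT.lf (nat_lit 0) (nat_lit 18589104166) (nat_lit 1140) (nat_lit 13271358712) (nat_lit 1216) (nat_lit 15957693079) (nat_lit 178) (nat_lit 5) (nat_lit 193) (nat_lit 5) (nat_lit 194) (nat_lit 5) (nat_lit 347) (nat_lit 339) (nat_lit 94))) (XT.nd (nat_lit 78) (nat_lit 0) (nat_lit 76) (XT.lf (nat_lit 76) (nat_lit 8675809804) (nat_lit 0) (nat_lit 11781729699) (nat_lit 1216) (nat_lit 28115555779) (nat_lit 179) (nat_lit 5) (nat_lit 178) (nat_lit 5) (nat_lit 194) (nat_lit 5) (nat_lit 348)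 (nat_lit 339) (nat_lit 93)) (XT.lf (nat_lit 0) (nat_lit 22601849282) (nat_lit 1140) (nat_lit 17880863042) (nat_lit 1216) (nat_lit 8861377450) (nat_lit 179) (nat_lit 5) (nat_lit 194) (nat_lit 5) (nat_lit 195) (nat_lit 5) (nat_lit 349) (nat_lit 339) (nat_lit 92)))))) (XT.nd (nat_lit 546) (nat_lit 2660) (nat_lit 0) (XT.nd (nat_lit 234) (nat_lit 0) (nat_lit 76) (XT.nd (nat_lit 78) (nat_lit 0) (nat_lit 76) (XT.lf (nat_lit 76) (nat_lit 4771767206) (nat_lit 0) (nat_lit 20200205796) (nat_lit 1216) (nat_lit 25161398138) (nat_lit 180) (nat_lit 5) (nat_lit 179) (nat_lit 5) (nat_lit 195) (nat_lit 5) (nat_lit 350) (nat_lit 339) (nat_lit 91)) (XT.nd (nat_lit 78) (nat_lit 0) (nat_lit 0) (XT.lf (nat_lit 0) (nat_lit 27601180343) (nat_lit 1140) (nat_lit 22479601082) (nat_lit 1216) (nat_lit 859911660) (nat_lit 180) (nat_lit 5) (nat_lit 195) (nat_lit 5) (nat_lit 196) (nat_lit 5) (nat_lit 351) (nat_lit 339) (nat_lit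 90)) (XT.lf (nat_lit 76) (nat_lit 905781867) (nat_lit 0) (nat_lit 29611210761) (nat_lit 1216) (nat_lit 21249011686) (nat_lit 181) (nat_lit 5) (nat_lit 180) (nat_lit 5) (nat_lit 196) (nat_lit 5) (nat_lit 352) (nat_lit 339) (nat_lit 89)))) (XT.nd (nat_lit 156) (nat_lit 0) (nat_lit 76) (XT.nd (nat_lit 78) (nat_lit 0) (nat_lit 76) (XT.lf (nat_lit 76) (nat_lit 25452790454) (nat_lit 0) (nat_lit 8293529865) (nat_lit 1216) (nat_lit 18862974778) (nat_lit 181) (nat_lit 5) (nat_lit 180) (nat_lit 5) (nat_lit 196) (nat_lit 5) (nat_lit 353) (nat_lit 339) (nat_lit 88)) (XT.lf (nat_lit 0) (nat_lit 37202942564) (nat_lit 1140) (nat_lit 2873774209) (nat_lit 1216) (nat_lit 13397256792) (nat_lit 181) (nat_lit 5) (nat_lit 196) (nat_lit 5) (nat_lit 197) (nat_lit 5) (nat_lit 354) (nat_lit 339) (nat_lit 87))) (XT.nd (nat_lit 78) (nat_lit 0) (nat_lit 76) (XT.lf (nat_lit 76) (nat_lit 22493520339) (nat_lit 0) (nat_lit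 18567176889) (nat_lit 1216) (nat_lit 13294973509) (nat_lit 182) (nat_lit 5) (nat_lit 181) (nat_lit 5) (nat_lit 197) (nat_lit 5) (nat_lit 355) (nat_lit 339) (nat_lit 86)) (XT.lf (nat_lit 0) (nat_lit 45097096928) (nat_lit 1140) (nat_lit 6617734322) (nat_lit 76) (nat_lit 3547101526) (nat_lit 182) (nat_lit 5) (nat_lit 197) (nat_lit 5) (nat_lit 183) (nat_lit 5) (nat_lit 356) (nat_lit 339) (nat_lit 85))))) (XT.nd (nat_lit 234) (nat_lit 1140) (nat_lit 0) (XT.nd (nat_lit 78) (nat_lit 608) (nat_lit 0) (XT.lf (nat_lit 0) (nat_lit 19581554093) (nat_lit 1140) (nat_lit 30044242410) (nat_lit 1216) (nat_lit 6558451223) (nat_lit 167) (nat_lit 5) (nat_lit 182) (nat_lit 5) (nat_lit 183) (nat_lit 5) (nat_lit 357) (nat_lit 339) (nat_lit 84)) (XT.nd (nat_lit 78) (nat_lit 608) (nat_lit 0) (XT.lf (nat_lit 0) (nat_lit 46701752058) (nat_lit 1140) (nat_lit 7654593655) (nat_lit 1216) (nat_lit 2775907997) (nat_lit 167)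 (nat_lit 5) (nat_lit 182) (nat_lit 5) (nat_lit 183) (nat_lit 5) (nat_lit 358) (nat_lit 339) (nat_lit 83)) (XT.lf (nat_lit 0) (nat_lit 1409156875) (nat_lit 608) (nat_lit 41409300483) (nat_lit 76) (nat_lit 15280593593) (nat_lit 159) (nat_lit 5) (nat_lit 167) (nat_lit 5) (nat_lit 160) (nat_lit 5) (nat_lit 359) (nat_lit 339) (nat_lit 82)))) (XT.nd (nat_lit 156) (nat_lit 532) (nat_lit 0) (XT.nd (nat_lit 78) (nat_lit 608) (nat_lit 0) (XT.lf (nat_lit 0) (nat_lit 5845334811) (nat_lit 608) (nat_lit 14359323850) (nat_lit 76) (nat_lit 38883929440) (nat_lit 159) (nat_lit 5) (nat_lit 167) (nat_lit 5) (nat_lit 160) (nat_lit 5) (nat_lit 360) (nat_lit 339) (nat_lit 81)) (XT.lf (nat_lit 0) (nat_lit 10577174702) (nat_lit 684) (nat_lit 46364718487) (nat_lit 76) (nat_lit 3161041987) (nat_lit 151) (nat_lit 5) (nat_lit 160) (nat_lit 5) (nat_lit 152) (nat_lit 5) (nat_lit 361) (nat_lit 339) (nat_lit 80))) (XT.nd (nat_lit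 78) (nat_lit 532) (nat_lit 0) (XT.lf (nat_lit 0) (nat_lit 15796688007) (nat_lit 684) (nat_lit 18372546411) (nat_lit 76) (nat_lit 26968107772) (nat_lit 151) (nat_lit 5) (nat_lit 160) (nat_lit 5) (nat_lit 152) (nat_lit 5) (nat_lit 362) (nat_lit 339) (nat_lit 79)) (XT.lf (nat_lit 0) (nat_lit 10666822934) (nat_lit 532) (nat_lit 10607757497) (nat_lit 608) (nat_lit 40925148218) (nat_lit 144) (nat_lit 5) (nat_lit 151) (nat_lit 5) (nat_lit 152) (nat_lit 5) (nat_lit 363) (nat_lit 339) (nat_lit 78))))))))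
noncomputable def xc250 : XT := (XT.nd (nat_lit 39936) (nat_lit 0) (nat_lit 456) (XT.nd (nat_lit 38922) (nat_lit 0) (nat_lit 4788) (XT.nd (nat_lit 468) (nat_lit 988) (nat_lit 0) (XT.nd (nat_lit 234) (nat_lit 912) (nat_lit 0) (XT.nd (nat_lit 78) (nat_lit 532) (nat_lit 0) (XT.lf (nat_lit 0) (nat_lit 27234759592) (nat_lit 608) (nat_lit 22468310969) (nat_lit 76) (nat_lit 13581378656) (nat_lit 144) (nat_lit 5) (nat_lit 152) (nat_lit 5) (nat_lit 145) (nat_lit 5) (nat_lit 364) (nat_lit 339) (nat_lit 77)) (XT.nd (nat_lit 78) (nat_lit 0) (nat_lit 0) (XT.lf (nat_lit 0) (nat_lit 7509011474) (nat_lit 532) (nat_lit 26041235026) (nat_lit 608) (nat_lit 30846170816) (nat_lit 137) (nat_lit 5) (nat_lit 144) (nat_lit 5) (nat_lit 145) (nat_lit 5) (nat_lit 365) (nat_lit 339) (nat_lit 76)) (XT.lf (nat_lit 0) (nat_lit 38845528204) (nat_lit 532) (nat_lit 1435863360) (nat_lit 608) (nat_lit 25253568044) (nat_lit 137)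 (nat_lit 5) (nat_lit 144) (nat_lit 5) (nat_lit 145) (nat_lit 5) (nat_lit 366) (nat_lit 339) (nat_lit 75)))) (XT.nd (nat_lit 78) (nat_lit 456) (nat_lit 0) (XT.lf (nat_lit 0) (nat_lit 4267231963) (nat_lit 456) (nat_lit 43217401126) (nat_lit 532) (nat_lit 19214921145) (nat_lit 131) (nat_lit 5) (nat_lit 137) (nat_lit 5) (nat_lit 138) (nat_lit 5) (nat_lit 367) (nat_lit 339) (nat_lit 74)) (XT.nd (nat_lit 78) (nat_lit 456) (nat_lit 0) (XT.lf (nat_lit 0) (nat_lit 36684505684) (nat_lit 456) (nat_lit 18502394790) (nat_lit 532) (nat_lit 12703699265) (nat_lit 131) (nat_lit 5) (nat_lit 137) (nat_lit 5) (nat_lit 138) (nat_lit 5) (nat_lit 368) (nat_lit 339) (nat_lit 73)) (XT.lf (nat_lit 0) (nat_lit 907077929) (nat_lit 456) (nat_lit 62288083487) (nat_lit 532) (nat_lit 5919968304) (nat_lit 125) (nat_lit 5) (nat_lit 131) (nat_lit 5) (nat_lit 132) (nat_lit 5) (nat_lit 369) (nat_lit 339) (nat_lit 72))))) (XT.nd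 (nat_lit 234) (nat_lit 456) (nat_lit 0) (XT.nd (nat_lit 78) (nat_lit 456) (nat_lit 0) (XT.lf (nat_lit 0) (nat_lit 1547245026) (nat_lit 532) (nat_lit 35940877289) (nat_lit 76) (nat_lit 32872942426) (nat_lit 124) (nat_lit 5) (nat_lit 131) (nat_lit 5) (nat_lit 125) (nat_lit 5) (nat_lit 370) (nat_lit 339) (nat_lit 71)) (XT.nd (nat_lit 78) (nat_lit 456) (nat_lit 0) (XT.lf (nat_lit 0) (nat_lit 9118872188) (nat_lit 532) (nat_lit 2764983992) (nat_lit 76) (nat_lit 59758782539) (nat_lit 124) (nat_lit 5) (nat_lit 131) (nat_lit 5) (nat_lit 125) (nat_lit 5) (nat_lit 371) (nat_lit 339) (nat_lit 70)) (XT.lf (nat_lit 0) (nat_lit 17367266918) (nat_lit 532) (nat_lit 41065207725) (nat_lit 76) (nat_lit 14516697488) (nat_lit 118) (nat_lit 5) (nat_lit 125) (nat_lit 5) (nat_lit 119) (nat_lit 5) (nat_lit 372) (nat_lit 339) (nat_lit 69)))) (XT.nd (nat_lit 38064) (nat_lit 0) (nat_lit 4788) (XT.nd (nat_lit 78) (nat_lit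 456) (nat_lit 0) (XT.lf (nat_lit 0) (nat_lit 26008384179) (nat_lit 532) (nat_lit 6783615824) (nat_lit 76) (nat_lit 41498544177) (nat_lit 118) (nat_lit 5) (nat_lit 125) (nat_lit 5) (nat_lit 119) (nat_lit 5) (nat_lit 373) (nat_lit 339) (nat_lit 68)) (XT.lf (nat_lit 0) (nat_lit 29093487973) (nat_lit 456) (nat_lit 6094339917) (nat_lit 532) (nat_lit 40475957445) (nat_lit 112) (nat_lit 5) (nat_lit 118) (nat_lit 5) (nat_lit 119) (nat_lit 5) (nat_lit 374) (nat_lit 339) (nat_lit 67))) (XT.nd (nat_lit 78) (nat_lit 0) (nat_lit 0) (XT.lf (nat_lit 0) (nat_lit 2853867824) (nat_lit 0) (nat_lit 2853867824) (nat_lit 1140) (nat_lit 16102710058) (nat_lit 175) (nat_lit 5) (nat_lit 175) (nat_lit 3) (nat_lit 190) (nat_lit 3) (nat_lit 340) (nat_lit 340) (nat_lit 100)) (XT.lf (nat_lit 0) (nat_lit 11753257513) (nat_lit 1140) (nat_lit 18842227653) (nat_lit 1216) (nat_lit 13674673198) (nat_lit 175) (nat_lit 5) (nat_lit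 190) (nat_lit 3) (nat_lit 191) (nat_lit 5) (nat_lit 341) (nat_lit 340) (nat_lit 99)))))) (XT.nd (nat_lit 468) (nat_lit 0) (nat_lit 228) (XT.nd (nat_lit 234) (nat_lit 0) (nat_lit 152) (XT.nd (nat_lit 78) (nat_lit 0) (nat_lit 76) (XT.lf (nat_lit 76) (nat_lit 758435835) (nat_lit 0) (nat_lit 11405282415) (nat_lit 1216) (nat_lit 32773310790) (nat_lit 176) (nat_lit 5) (nat_lit 175) (nat_lit 5) (nat_lit 191) (nat_lit 5) (nat_lit 342) (nat_lit 340) (nat_lit 98)) (XT.nd (nat_lit 78) (nat_lit 0) (nat_lit 0) (XT.lf (nat_lit 0) (nat_lit 12857787471) (nat_lit 1140) (nat_lit 24367800219) (nat_lit 1216) (nat_lit 8390181191) (nat_lit 176) (nat_lit 5) (nat_lit 191) (nat_lit 5) (nat_lit 192) (nat_lit 5) (nat_lit 343) (nat_lit 340) (nat_lit 97)) (XT.lf (nat_lit 0) (nat_lit 13684411867) (nat_lit 1140) (nat_lit 4076303712) (nat_lit 1216) (nat_lit 28550805179) (nat_lit 176) (nat_lit 5) (nat_lit 191) (nat_lit 5) (nat_lit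 192) (nat_lit 5) (nat_lit 344) (nat_lit 340) (nat_lit 96)))) (XT.nd (nat_lit 78) (nat_lit 0) (nat_lit 0) (XT.lf (nat_lit 0) (nat_lit 14723245375) (nat_lit 1140) (nat_lit 29888788698) (nat_lit 1216) (nat_lit 2410490584) (nat_lit 177) (nat_lit 5) (nat_lit 192) (nat_lit 5) (nat_lit 193) (nat_lit 5) (nat_lit 345) (nat_lit 340) (nat_lit 95)) (XT.nd (nat_lit 78) (nat_lit 0) (nat_lit 0) (XT.lf (nat_lit 0) (nat_lit 16009538605) (nat_lit 1140) (nat_lit 8866952714) (nat_lit 1216) (nat_lit 22871880240) (nat_lit 177) (nat_lit 5) (nat_lit 192) (nat_lit 5) (nat_lit 193) (nat_lit 5) (nat_lit 346) (nat_lit 340) (nat_lit 94)) (XT.lf (nat_lit 76) (nat_lit 13039292837) (nat_lit 0) (nat_lit 4419378018) (nat_lit 1216) (nat_lit 31033597182) (nat_lit 178) (nat_lit 5) (nat_lit 177) (nat_lit 5) (nat_lit 193) (nat_lit 5) (nat_lit 347) (nat_lit 340) (nat_lit 93))))) (XT.nd (nat_lit 234) (nat_lit 0) (nat_lit 76) (XT.nd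 (nat_lit 78) (nat_lit 0) (nat_lit 0) (XT.lf (nat_lit 0) (nat_lit 19200703831) (nat_lit 1140) (nat_lit 13632975714) (nat_lit 1216) (nat_lit 16417320691) (nat_lit 178) (nat_lit 5) (nat_lit 193) (nat_lit 5) (nat_lit 194) (nat_lit 5) (nat_lit 348) (nat_lit 340) (nat_lit 92)) (XT.nd (nat_lit 78) (nat_lit 0) (nat_lit 76) (XT.lf (nat_lit 76) (nat_lit 8972249781) (nat_lit 0) (nat_lit 12151719418) (nat_lit 1216) (nat_lit 28904657639) (nat_lit 179) (nat_lit 5) (nat_lit 178) (nat_lit 5) (nat_lit 194) (nat_lit 5) (nat_lit 349) (nat_lit 340) (nat_lit 91)) (XT.lf (nat_lit 0) (nat_lit 23330918875) (nat_lit 1140) (nat_lit 18380409362) (nat_lit 1216) (nat_lit 9111475943) (nat_lit 179) (nat_lit 5) (nat_lit 194) (nat_lit 5) (nat_lit 195) (nat_lit 5) (nat_lit 350) (nat_lit 340) (nat_lit 90)))) (XT.nd (nat_lit 156) (nat_lit 0) (nat_lit 76) (XT.nd (nat_lit 78) (nat_lit 0) (nat_lit 76) (XT.lf (nat_lit 76) (nat_lit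 4951438229) (nat_lit 0) (nat_lit 20819573264) (nat_lit 1216) (nat_lit 25864788808) (nat_lit 180) (nat_lit 5) (nat_lit 179) (nat_lit 5) (nat_lit 195) (nat_lit 5) (nat_lit 351) (nat_lit 340) (nat_lit 89)) (XT.lf (nat_lit 0) (nat_lit 28477517562) (nat_lit 1140) (nat_lit 23116883855) (nat_lit 1216) (nat_lit 872990013) (nat_lit 180) (nat_lit 5) (nat_lit 195) (nat_lit 5) (nat_lit 196) (nat_lit 5) (nat_lit 352) (nat_lit 340) (nat_lit 88))) (XT.nd (nat_lit 78) (nat_lit 0) (nat_lit 0) (XT.lf (nat_lit 76) (nat_lit 969696806) (nat_lit 0) (nat_lit 30510053743) (nat_lit 1216) (nat_lit 21837745195) (nat_lit 181) (nat_lit 5) (nat_lit 180) (nat_lit 5) (nat_lit 196) (nat_lit 5) (nat_lit 353) (nat_lit 340) (nat_lit 87)) (XT.lf (nat_lit 76) (nat_lit 26252045510) (nat_lit 0) (nat_lit 8552536400) (nat_lit 1216) (nat_lit 19381546700) (nat_lit 181) (nat_lit 5) (nat_lit 180) (nat_lit 5) (nat_lit 196) (nat_lit 5) (nat_lit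 354) (nat_lit 340) (nat_lit 86))))))) (XT.nd (nat_lit 1014) (nat_lit 1444) (nat_lit 0) (XT.nd (nat_lit 468) (nat_lit 1672) (nat_lit 0) (XT.nd (nat_lit 234) (nat_lit 1672) (nat_lit 0) (XT.nd (nat_lit 78) (nat_lit 0) (nat_lit 0) (XT.lf (nat_lit 0) (nat_lit 38363471548) (nat_lit 1140) (nat_lit 2923856622) (nat_lit 1216) (nat_lit 13789464215) (nat_lit 181) (nat_lit 5) (nat_lit 196) (nat_lit 5) (nat_lit 197) (nat_lit 5) (nat_lit 355) (nat_lit 340) (nat_lit 85)) (XT.nd (nat_lit 78) (nat_lit 0) (nat_lit 76) (XT.lf (nat_lit 76) (nat_lit 23204102538) (nat_lit 0) (nat_lit 19131905830) (nat_lit 1216) (nat_lit 13648962575) (nat_lit 182) (nat_lit 5) (nat_lit 181) (nat_lit 5) (nat_lit 197) (nat_lit 5) (nat_lit 356) (nat_lit 340) (nat_lit 84)) (XT.lf (nat_lit 0) (nat_lit 46492161365) (nat_lit 1140) (nat_lit 6780129796) (nat_lit 76) (nat_lit 3646171743) (nat_lit 182) (nat_lit 5) (nat_lit 197) (nat_lit 5) (nat_lit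 183) (nat_lit 5) (nat_lit 357) (nat_lit 340) (nat_lit 83)))) (XT.nd (nat_lit 78) (nat_lit 608) (nat_lit 0) (XT.lf (nat_lit 0) (nat_lit 20204782991) (nat_lit 1140) (nat_lit 30951055182) (nat_lit 1216) (nat_lit 6712637484) (nat_lit 167) (nat_lit 5) (nat_lit 182) (nat_lit 5) (nat_lit 183) (nat_lit 5) (nat_lit 358) (nat_lit 340) (nat_lit 82)) (XT.nd (nat_lit 78) (nat_lit 608) (nat_lit 0) (XT.lf (nat_lit 0) (nat_lit 48137544693) (nat_lit 1140) (nat_lit 7889557194) (nat_lit 1216) (nat_lit 2817857785) (nat_lit 167) (nat_lit 5) (nat_lit 182) (nat_lit 5) (nat_lit 183) (nat_lit 5) (nat_lit 359) (nat_lit 340) (nat_lit 81)) (XT.lf (nat_lit 0) (nat_lit 1491068730) (nat_lit 608) (nat_lit 42615034934) (nat_lit 76) (nat_lit 15734673452) (nat_lit 159) (nat_lit 5) (nat_lit 167) (nat_lit 5) (nat_lit 160) (nat_lit 5) (nat_lit 360) (nat_lit 340) (nat_lit 80))))) (XT.nd (nat_lit 234) (nat_lit 1064) (nat_lit 0) (XT.nd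 (nat_lit 78) (nat_lit 608) (nat_lit 0) (XT.lf (nat_lit 0) (nat_lit 6059177523) (nat_lit 608) (nat_lit 14754623407) (nat_lit 76) (nat_lit 40046235723) (nat_lit 159) (nat_lit 5) (nat_lit 167) (nat_lit 5) (nat_lit 160) (nat_lit 5) (nat_lit 361) (nat_lit 340) (nat_lit 79)) (XT.nd (nat_lit 78) (nat_lit 0) (nat_lit 0) (XT.lf (nat_lit 0) (nat_lit 10932164792) (nat_lit 684) (nat_lit 47719319043) (nat_lit 76) (nat_lit 3253356129) (nat_lit 151) (nat_lit 5) (nat_lit 160) (nat_lit 5) (nat_lit 152) (nat_lit 5) (nat_lit 362) (nat_lit 340) (nat_lit 78)) (XT.lf (nat_lit 0) (nat_lit 16307166171) (nat_lit 684) (nat_lit 18888440281) (nat_lit 76) (nat_lit 27774707202) (nat_lit 151) (nat_lit 5) (nat_lit 160) (nat_lit 5) (nat_lit 152) (nat_lit 5) (nat_lit 363) (nat_lit 340) (nat_lit 77)))) (XT.nd (nat_lit 156) (nat_lit 532) (nat_lit 0) (XT.nd (nat_lit 78) (nat_lit 0) (nat_lit 0) (XT.lf (nat_lit 0) (nat_lit 11021764238)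 (nat_lit 532) (nat_lit 10926901598) (nat_lit 608) (nat_lit 42115929257) (nat_lit 144) (nat_lit 5) (nat_lit 151) (nat_lit 5) (nat_lit 152) (nat_lit 5) (nat_lit 364) (nat_lit 340) (nat_lit 76)) (XT.lf (nat_lit 0) (nat_lit 28086597749) (nat_lit 608) (nat_lit 23107340111) (nat_lit 76) (nat_lit 13987952452) (nat_lit 144) (nat_lit 5) (nat_lit 152) (nat_lit 5) (nat_lit 145) (nat_lit 5) (nat_lit 365) (nat_lit 340) (nat_lit 75))) (XT.nd (nat_lit 78) (nat_lit 0) (nat_lit 0) (XT.lf (nat_lit 0) (nat_lit 7768958671) (nat_lit 532) (nat_lit 26821910472) (nat_lit 608) (nat_lit 31736370128) (nat_lit 137) (nat_lit 5) (nat_lit 144) (nat_lit 5) (nat_lit 145) (nat_lit 5) (nat_lit 366) (nat_lit 340) (nat_lit 74)) (XT.lf (nat_lit 0) (nat_lit 40044560897) (nat_lit 532) (nat_lit 1478394012) (nat_lit 608) (nat_lit 25977014103) (nat_lit 137) (nat_lit 5) (nat_lit 144) (nat_lit 5) (nat_lit 145) (nat_lit 5) (nat_lit 367)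 (nat_lit 340) (nat_lit 73)))))) (XT.nd (nat_lit 38610) (nat_lit 0) (nat_lit 4332) (XT.nd (nat_lit 234) (nat_lit 532) (nat_lit 0) (XT.nd (nat_lit 78) (nat_lit 456) (nat_lit 0) (XT.lf (nat_lit 0) (nat_lit 4429609705) (nat_lit 456) (nat_lit 44512054653) (nat_lit 532) (nat_lit 19757857329) (nat_lit 131) (nat_lit 5) (nat_lit 137) (nat_lit 5) (nat_lit 138) (nat_lit 5) (nat_lit 368) (nat_lit 340) (nat_lit 72)) (XT.nd (nat_lit 78) (nat_lit 456) (nat_lit 0) (XT.lf (nat_lit 0) (nat_lit 37818400839) (nat_lit 456) (nat_lit 19055652550) (nat_lit 532) (nat_lit 13052274855) (nat_lit 131) (nat_lit 5) (nat_lit 137) (nat_lit 5) (nat_lit 138) (nat_lit 5) (nat_lit 369) (nat_lit 340) (nat_lit 71)) (XT.lf (nat_lit 0) (nat_lit 968285712) (nat_lit 456) (nat_lit 64153701349) (nat_lit 532) (nat_lit 6065625571) (nat_lit 125) (nat_lit 5) (nat_lit 131) (nat_lit 5) (nat_lit 132) (nat_lit 5) (nat_lit 370) (nat_lit 340) (nat_lit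 70)))) (XT.nd (nat_lit 156) (nat_lit 456) (nat_lit 0) (XT.nd (nat_lit 78) (nat_lit 0) (nat_lit 0) (XT.lf (nat_lit 0) (nat_lit 1624068671) (nat_lit 532) (nat_lit 36985453723) (nat_lit 76) (nat_lit 33861422647) (nat_lit 124) (nat_lit 5) (nat_lit 131) (nat_lit 5) (nat_lit 125) (nat_lit 5) (nat_lit 371) (nat_lit 340) (nat_lit 69)) (XT.lf (nat_lit 0) (nat_lit 9421959028) (nat_lit 532) (nat_lit 2815263722) (nat_lit 76) (nat_lit 61553771208) (nat_lit 124) (nat_lit 5) (nat_lit 131) (nat_lit 5) (nat_lit 125) (nat_lit 5) (nat_lit 372) (nat_lit 340) (nat_lit 68))) (XT.nd (nat_lit 38142) (nat_lit 0) (nat_lit 4332) (XT.lf (nat_lit 0) (nat_lit 17917289206) (nat_lit 532) (nat_lit 42263940585) (nat_lit 76) (nat_lit 14955510188) (nat_lit 118) (nat_lit 5) (nat_lit 125) (nat_lit 5) (nat_lit 119) (nat_lit 5) (nat_lit 373) (nat_lit 340) (nat_lit 67)) (XT.lf (nat_lit 0) (nat_lit 2955572070) (nat_lit 0) (nat_lit 2955572070)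 (nat_lit 1140) (nat_lit 16552600328) (nat_lit 175) (nat_lit 5) (nat_lit 175) (nat_lit 3) (nat_lit 190) (nat_lit 3) (nat_lit 341) (nat_lit 341) (nat_lit 98))))) (XT.nd (nat_lit 234) (nat_lit 0) (nat_lit 76) (XT.nd (nat_lit 78) (nat_lit 0) (nat_lit 0) (XT.lf (nat_lit 0) (nat_lit 12168033438) (nat_lit 1140) (nat_lit 19373984831) (nat_lit 1216) (nat_lit 14054283739) (nat_lit 175) (nat_lit 5) (nat_lit 190) (nat_lit 3) (nat_lit 191) (nat_lit 5) (nat_lit 342) (nat_lit 341) (nat_lit 97)) (XT.nd (nat_lit 78) (nat_lit 0) (nat_lit 76) (XT.lf (nat_lit 76) (nat_lit 814370035) (nat_lit 0) (nat_lit 11774945902) (nat_lit 1216) (nat_lit 33693910416) (nat_lit 176) (nat_lit 5) (nat_lit 175) (nat_lit 5) (nat_lit 191) (nat_lit 5) (nat_lit 343) (nat_lit 341) (nat_lit 96)) (XT.lf (nat_lit 0) (nat_lit 13302182984) (nat_lit 1140) (nat_lit 25064505025) (nat_lit 1216) (nat_lit 8615703818) (nat_lit 176) (nat_lit 5) (nat_lit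 191) (nat_lit 5) (nat_lit 192) (nat_lit 5) (nat_lit 344) (nat_lit 341) (nat_lit 95)))) (XT.nd (nat_lit 156) (nat_lit 0) (nat_lit 76) (XT.nd (nat_lit 78) (nat_lit 0) (nat_lit 76) (XT.lf (nat_lit 0) (nat_lit 14151897513) (nat_lit 1140) (nat_lit 4165263502) (nat_lit 1216) (nat_lit 29381909131) (nat_lit 176) (nat_lit 5) (nat_lit 191) (nat_lit 5) (nat_lit 192) (nat_lit 5) (nat_lit 345) (nat_lit 341) (nat_lit 94)) (XT.lf (nat_lit 0) (nat_lit 15220337101) (nat_lit 1140) (nat_lit 30750479030) (nat_lit 1216) (nat_lit 2460637353) (nat_lit 177) (nat_lit 5) (nat_lit 192) (nat_lit 5) (nat_lit 193) (nat_lit 5) (nat_lit 346) (nat_lit 341) (nat_lit 93))) (XT.nd (nat_lit 78) (nat_lit 0) (nat_lit 0) (XT.lf (nat_lit 0) (nat_lit 16543605699) (nat_lit 1140) (nat_lit 9099006607) (nat_lit 1216) (nat_lit 23536514367) (nat_lit 177) (nat_lit 5) (nat_lit 192) (nat_lit 5) (nat_lit 193) (nat_lit 5) (nat_lit 347) (nat_lit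 341) (nat_lit 92)) (XT.lf (nat_lit 76) (nat_lit 13464093422) (nat_lit 0) (nat_lit 4570875254) (nat_lit 1216) (nat_lit 31910411073) (nat_lit 178) (nat_lit 5) (nat_lit 177) (nat_lit 5) (nat_lit 193) (nat_lit 5) (nat_lit 348) (nat_lit 341) (nat_lit 91))))))))
noncomputable def xc251 : XT := (XT.nd (nat_lit 40248) (nat_lit 0) (nat_lit 532) (XT.nd (nat_lit 1014) (nat_lit 2660) (nat_lit 0) (XT.nd (nat_lit 468) (nat_lit 1444) (nat_lit 0) (XT.nd (nat_lit 234) (nat_lit 0) (nat_lit 76) (XT.nd (nat_lit 78) (nat_lit 0) (nat_lit 0) (XT.lf (nat_lit 0) (nat_lit 19827555881) (nat_lit 1140) (nat_lit 14007537839) (nat_lit 1216) (nat_lit 16891833731) (nat_lit 178) (nat_lit 5) (nat_lit 193) (nat_lit 5) (nat_lit 194) (nat_lit 5) (nat_lit 349) (nat_lit 341) (nat_lit 90)) (XT.nd (nat_lit 78) (nat_lit 0) (nat_lit 76) (XT.lf (nat_lit 76) (nat_lit 9275506899) (nat_lit 0) (nat_lit 12531859488) (nat_lit 1216) (nat_lit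 29720553316) (nat_lit 179) (nat_lit 5) (nat_lit 178) (nat_lit 5) (nat_lit 194) (nat_lit 5) (nat_lit 350) (nat_lit 341) (nat_lit 89)) (XT.lf (nat_lit 0) (nat_lit 24078932138) (nat_lit 1140) (nat_lit 18897059110) (nat_lit 1216) (nat_lit 9369981095) (nat_lit 179) (nat_lit 5) (nat_lit 194) (nat_lit 5) (nat_lit 195) (nat_lit 5) (nat_lit 351) (nat_lit 341) (nat_lit 88)))) (XT.nd (nat_lit 78) (nat_lit 0) (nat_lit 76) (XT.lf (nat_lit 76) (nat_lit 5134403100) (nat_lit 0) (nat_lit 21456754762) (nat_lit 1216) (nat_lit 26592234711) (nat_lit 180) (nat_lit 5) (nat_lit 179) (nat_lit 5) (nat_lit 195) (nat_lit 5) (nat_lit 352) (nat_lit 341) (nat_lit 87)) (XT.nd (nat_lit 78) (nat_lit 0) (nat_lit 0) (XT.lf (nat_lit 0) (nat_lit 29377372177) (nat_lit 1140) (nat_lit 23775415104) (nat_lit 1216) (nat_lit 887190839) (nat_lit 180) (nat_lit 5) (nat_lit 195) (nat_lit 5) (nat_lit 196) (nat_lit 5) (nat_lit 353) (nat_lit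 341) (nat_lit 86)) (XT.lf (nat_lit 76) (nat_lit 1033420082) (nat_lit 0) (nat_lit 31435258890) (nat_lit 1216) (nat_lit 22446938403) (nat_lit 181) (nat_lit 5) (nat_lit 180) (nat_lit 5) (nat_lit 196) (nat_lit 5) (nat_lit 354) (nat_lit 341) (nat_lit 85))))) (XT.nd (nat_lit 234) (nat_lit 1596) (nat_lit 0) (XT.nd (nat_lit 78) (nat_lit 0) (nat_lit 76) (XT.lf (nat_lit 76) (nat_lit 27073230537) (nat_lit 0) (nat_lit 8818727574) (nat_lit 1216) (nat_lit 19918391986) (nat_lit 181) (nat_lit 5) (nat_lit 180) (nat_lit 5) (nat_lit 196) (nat_lit 5) (nat_lit 355) (nat_lit 341) (nat_lit 84)) (XT.nd (nat_lit 78) (nat_lit 0) (nat_lit 0) (XT.lf (nat_lit 0) (nat_lit 39556265323) (nat_lit 1140) (nat_lit 2977515565) (nat_lit 1216) (nat_lit 14193995271) (nat_lit 181) (nat_lit 5) (nat_lit 196) (nat_lit 5) (nat_lit 197) (nat_lit 5) (nat_lit 356) (nat_lit 341) (nat_lit 83)) (XT.lf (nat_lit 76) (nat_lit 23933948481) (nat_lit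 0) (nat_lit 19713133846) (nat_lit 1216) (nat_lit 14016146469) (nat_lit 182) (nat_lit 5) (nat_lit 181) (nat_lit 5) (nat_lit 197) (nat_lit 5) (nat_lit 357) (nat_lit 341) (nat_lit 82)))) (XT.nd (nat_lit 156) (nat_lit 608) (nat_lit 0) (XT.nd (nat_lit 78) (nat_lit 1140) (nat_lit 0) (XT.lf (nat_lit 0) (nat_lit 47926658066) (nat_lit 1140) (nat_lit 6949471520) (nat_lit 76) (nat_lit 3748635575) (nat_lit 182) (nat_lit 5) (nat_lit 197) (nat_lit 5) (nat_lit 183) (nat_lit 5) (nat_lit 358) (nat_lit 341) (nat_lit 81)) (XT.lf (nat_lit 0) (nat_lit 20844654708) (nat_lit 1140) (nat_lit 31884757448) (nat_lit 1216) (nat_lit 6873892870) (nat_lit 167) (nat_lit 5) (nat_lit 182) (nat_lit 5) (nat_lit 183) (nat_lit 5) (nat_lit 359) (nat_lit 341) (nat_lit 80))) (XT.nd (nat_lit 78) (nat_lit 608) (nat_lit 0) (XT.lf (nat_lit 0) (nat_lit 49614416885) (nat_lit 1140) (nat_lit 8131263919) (nat_lit 1216) (nat_lit 2863438432) (nat_lit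 167) (nat_lit 5) (nat_lit 182) (nat_lit 5) (nat_lit 183) (nat_lit 5) (nat_lit 360) (nat_lit 341) (nat_lit 79)) (XT.lf (nat_lit 0) (nat_lit 1573162605) (nat_lit 608) (nat_lit 43859039226) (nat_lit 76) (nat_lit 16202624723) (nat_lit 159) (nat_lit 5) (nat_lit 167) (nat_lit 5) (nat_lit 160) (nat_lit 5) (nat_lit 361) (nat_lit 341) (nat_lit 78)))))) (XT.nd (nat_lit 468) (nat_lit 988) (nat_lit 0) (XT.nd (nat_lit 234) (nat_lit 1064) (nat_lit 0) (XT.nd (nat_lit 78) (nat_lit 608) (nat_lit 0) (XT.lf (nat_lit 0) (nat_lit 6277226454) (nat_lit 608) (nat_lit 15163818656) (nat_lit 76) (nat_lit 41243652958) (nat_lit 159) (nat_lit 5) (nat_lit 167) (nat_lit 5) (nat_lit 160) (nat_lit 5) (nat_lit 362) (nat_lit 341) (nat_lit 77)) (XT.nd (nat_lit 78) (nat_lit 0) (nat_lit 0) (XT.lf (nat_lit 0) (nat_lit 11295641895) (nat_lit 684) (nat_lit 49116643738) (nat_lit 76) (nat_lit 3348584189) (nat_lit 151) (nat_lit 5) (nat_lit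 160) (nat_lit 5) (nat_lit 152) (nat_lit 5) (nat_lit 363) (nat_lit 341) (nat_lit 76)) (XT.lf (nat_lit 0) (nat_lit 16830858980) (nat_lit 684) (nat_lit 19421836328) (nat_lit 76) (nat_lit 28605644899) (nat_lit 151) (nat_lit 5) (nat_lit 160) (nat_lit 5) (nat_lit 152) (nat_lit 5) (nat_lit 364) (nat_lit 341) (nat_lit 75)))) (XT.nd (nat_lit 78) (nat_lit 532) (nat_lit 0) (XT.lf (nat_lit 0) (nat_lit 11385348276) (nat_lit 532) (nat_lit 11255567704) (nat_lit 608) (nat_lit 43344556152) (nat_lit 144) (nat_lit 5) (nat_lit 151) (nat_lit 5) (nat_lit 152) (nat_lit 5) (nat_lit 365) (nat_lit 341) (nat_lit 74)) (XT.nd (nat_lit 78) (nat_lit 532) (nat_lit 0) (XT.lf (nat_lit 0) (nat_lit 28961993654) (nat_lit 608) (nat_lit 23767550429) (nat_lit 76) (nat_lit 14406773263) (nat_lit 144) (nat_lit 5) (nat_lit 152) (nat_lit 5) (nat_lit 145) (nat_lit 5) (nat_lit 366) (nat_lit 341) (nat_lit 73)) (XT.lf (nat_lit 0) (nat_lit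 8034713690) (nat_lit 532) (nat_lit 27626038419) (nat_lit 608) (nat_lit 32655295229) (nat_lit 137) (nat_lit 5) (nat_lit 144) (nat_lit 5) (nat_lit 145) (nat_lit 5) (nat_lit 367) (nat_lit 341) (nat_lit 72))))) (XT.nd (nat_lit 234) (nat_lit 532) (nat_lit 0) (XT.nd (nat_lit 78) (nat_lit 456) (nat_lit 0) (XT.lf (nat_lit 0) (nat_lit 41277631956) (nat_lit 532) (nat_lit 1522231884) (nat_lit 608) (nat_lit 26724124523) (nat_lit 137) (nat_lit 5) (nat_lit 144) (nat_lit 5) (nat_lit 145) (nat_lit 5) (nat_lit 368) (nat_lit 341) (nat_lit 71)) (XT.nd (nat_lit 78) (nat_lit 0) (nat_lit 0) (XT.lf (nat_lit 0) (nat_lit 4594886331) (nat_lit 456) (nat_lit 45845655047) (nat_lit 532) (nat_lit 20319005293) (nat_lit 131) (nat_lit 5) (nat_lit 137) (nat_lit 5) (nat_lit 138) (nat_lit 5) (nat_lit 369) (nat_lit 341) (nat_lit 70)) (XT.lf (nat_lit 0) (nat_lit 38984397849) (nat_lit 456) (nat_lit 19625612179) (nat_lit 532) (nat_lit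 13413175377) (nat_lit 131) (nat_lit 5) (nat_lit 137) (nat_lit 5) (nat_lit 138) (nat_lit 5) (nat_lit 370) (nat_lit 341) (nat_lit 69)))) (XT.nd (nat_lit 38376) (nat_lit 0) (nat_lit 3876) (XT.nd (nat_lit 78) (nat_lit 76) (nat_lit 0) (XT.lf (nat_lit 0) (nat_lit 1029378252) (nat_lit 456) (nat_lit 66075461374) (nat_lit 532) (nat_lit 6217486145) (nat_lit 125) (nat_lit 5) (nat_lit 131) (nat_lit 5) (nat_lit 132) (nat_lit 5) (nat_lit 371) (nat_lit 341) (nat_lit 68)) (XT.lf (nat_lit 0) (nat_lit 1701451580) (nat_lit 532) (nat_lit 38063299092) (nat_lit 76) (nat_lit 34879425708) (nat_lit 124) (nat_lit 5) (nat_lit 131) (nat_lit 5) (nat_lit 125) (nat_lit 5) (nat_lit 372) (nat_lit 341) (nat_lit 67))) (XT.nd (nat_lit 78) (nat_lit 0) (nat_lit 0) (XT.lf (nat_lit 0) (nat_lit 3059403914) (nat_lit 0) (nat_lit 3059403914) (nat_lit 1140) (nat_lit 17017892607) (nat_lit 175) (nat_lit 5) (nat_lit 175) (nat_lit 3) (nat_lit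 190) (nat_lit 3) (nat_lit 342) (nat_lit 342) (nat_lit 96)) (XT.lf (nat_lit 0) (nat_lit 12591683357) (nat_lit 1140) (nat_lit 19923618316) (nat_lit 1216) (nat_lit 14447040864) (nat_lit 175) (nat_lit 5) (nat_lit 190) (nat_lit 3) (nat_lit 191) (nat_lit 5) (nat_lit 343) (nat_lit 342) (nat_lit 95))))))) (XT.nd (nat_lit 1014) (nat_lit 3344) (nat_lit 0) (XT.nd (nat_lit 468) (nat_lit 0) (nat_lit 228) (XT.nd (nat_lit 234) (nat_lit 0) (nat_lit 152) (XT.nd (nat_lit 78) (nat_lit 0) (nat_lit 76) (XT.lf (nat_lit 76) (nat_lit 870077529) (nat_lit 0) (nat_lit 12154120394) (nat_lit 1216) (nat_lit 34645721510) (nat_lit 176) (nat_lit 5) (nat_lit 175) (nat_lit 5) (nat_lit 191) (nat_lit 5) (nat_lit 344) (nat_lit 342) (nat_lit 94)) (XT.nd (nat_lit 78) (nat_lit 0) (nat_lit 0) (XT.lf (nat_lit 0) (nat_lit 13756542930) (nat_lit 1140) (nat_lit 25784081611) (nat_lit 1216) (nat_lit 8849495124) (nat_lit 176) (nat_lit 5) (nat_lit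 191) (nat_lit 5) (nat_lit 192) (nat_lit 5) (nat_lit 345) (nat_lit 342) (nat_lit 93)) (XT.lf (nat_lit 0) (nat_lit 14630138377) (nat_lit 1140) (nat_lit 4258805325) (nat_lit 1216) (nat_lit 30239405426) (nat_lit 176) (nat_lit 5) (nat_lit 191) (nat_lit 5) (nat_lit 192) (nat_lit 5) (nat_lit 346) (nat_lit 342) (nat_lit 92)))) (XT.nd (nat_lit 78) (nat_lit 0) (nat_lit 0) (XT.lf (nat_lit 0) (nat_lit 15729161715) (nat_lit 1140) (nat_lit 31640027683) (nat_lit 1216) (nat_lit 2513561056) (nat_lit 177) (nat_lit 5) (nat_lit 192) (nat_lit 5) (nat_lit 193) (nat_lit 5) (nat_lit 347) (nat_lit 342) (nat_lit 91)) (XT.nd (nat_lit 78) (nat_lit 0) (nat_lit 0) (XT.lf (nat_lit 0) (nat_lit 17090607561) (nat_lit 1140) (nat_lit 9339971254) (nat_lit 1216) (nat_lit 24222322985) (nat_lit 177) (nat_lit 5) (nat_lit 192) (nat_lit 5) (nat_lit 193) (nat_lit 5) (nat_lit 348) (nat_lit 342) (nat_lit 90)) (XT.lf (nat_lit 76) (nat_lit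 13899707996) (nat_lit 0) (nat_lit 4725831557) (nat_lit 1216) (nat_lit 32816640340) (nat_lit 178) (nat_lit 5) (nat_lit 177) (nat_lit 5) (nat_lit 193) (nat_lit 5) (nat_lit 349) (nat_lit 342) (nat_lit 89))))) (XT.nd (nat_lit 234) (nat_lit 0) (nat_lit 76) (XT.nd (nat_lit 78) (nat_lit 0) (nat_lit 0) (XT.lf (nat_lit 0) (nat_lit 20470295590) (nat_lit 1140) (nat_lit 14395313088) (nat_lit 1216) (nat_lit 17381615814) (nat_lit 178) (nat_lit 5) (nat_lit 193) (nat_lit 5) (nat_lit 194) (nat_lit 5) (nat_lit 350) (nat_lit 342) (nat_lit 88)) (XT.nd (nat_lit 78) (nat_lit 0) (nat_lit 76) (XT.lf (nat_lit 76) (nat_lit 9585904847) (nat_lit 0) (nat_lit 12922508918) (nat_lit 1216) (nat_lit 30563867483) (nat_lit 179) (nat_lit 5) (nat_lit 178) (nat_lit 5) (nat_lit 194) (nat_lit 5) (nat_lit 351) (nat_lit 342) (nat_lit 87)) (XT.lf (nat_lit 0) (nat_lit 24846625482) (nat_lit 1140) (nat_lit 19431203862) (nat_lit 1216) (nat_lit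 9637093227) (nat_lit 179) (nat_lit 5) (nat_lit 194) (nat_lit 5) (nat_lit 195) (nat_lit 5) (nat_lit 352) (nat_lit 342) (nat_lit 86)))) (XT.nd (nat_lit 156) (nat_lit 0) (nat_lit 76) (XT.nd (nat_lit 78) (nat_lit 0) (nat_lit 76) (XT.lf (nat_lit 76) (nat_lit 5320880969) (nat_lit 0) (nat_lit 22112328741) (nat_lit 1216) (nat_lit 27344287962) (nat_lit 180) (nat_lit 5) (nat_lit 179) (nat_lit 5) (nat_lit 195) (nat_lit 5) (nat_lit 353) (nat_lit 342) (nat_lit 85)) (XT.lf (nat_lit 0) (nat_lit 30301608874) (nat_lit 1140) (nat_lit 24455710014) (nat_lit 1216) (nat_lit 902505900) (nat_lit 180) (nat_lit 5) (nat_lit 195) (nat_lit 5) (nat_lit 196) (nat_lit 5) (nat_lit 354) (nat_lit 342) (nat_lit 84))) (XT.nd (nat_lit 78) (nat_lit 0) (nat_lit 0) (XT.lf (nat_lit 76) (nat_lit 1097067016) (nat_lit 0) (nat_lit 32387651687) (nat_lit 1216) (nat_lit 23077044503) (nat_lit 181) (nat_lit 5) (nat_lit 180) (nat_lit 5) (nat_lit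 196) (nat_lit 5) (nat_lit 355) (nat_lit 342) (nat_lit 83)) (XT.lf (nat_lit 76) (nat_lit 27917120979) (nat_lit 0) (nat_lit 9092352538) (nat_lit 1216) (nat_lit 20473902918) (nat_lit 181) (nat_lit 5) (nat_lit 180) (nat_lit 5) (nat_lit 196) (nat_lit 5) (nat_lit 356) (nat_lit 342) (nat_lit 82)))))) (XT.nd (nat_lit 546) (nat_lit 2128) (nat_lit 0) (XT.nd (nat_lit 234) (nat_lit 1672) (nat_lit 0) (XT.nd (nat_lit 78) (nat_lit 0) (nat_lit 0) (XT.lf (nat_lit 0) (nat_lit 40782438275) (nat_lit 1140) (nat_lit 3034739273) (nat_lit 1216) (nat_lit 14611187671) (nat_lit 181) (nat_lit 5) (nat_lit 196) (nat_lit 5) (nat_lit 197) (nat_lit 5) (nat_lit 357) (nat_lit 342) (nat_lit 81)) (XT.nd (nat_lit 78) (nat_lit 0) (nat_lit 76) (XT.lf (nat_lit 76) (nat_lit 24683753971) (nat_lit 0) (nat_lit 20311381326) (nat_lit 1216) (nat_lit 14396773211) (nat_lit 182) (nat_lit 5) (nat_lit 181) (nat_lit 5) (nat_lit 197) (nat_lit 5)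 (nat_lit 358) (nat_lit 342) (nat_lit 80)) (XT.lf (nat_lit 0) (nat_lit 49401908896) (nat_lit 1140) (nat_lit 7125848804) (nat_lit 76) (nat_lit 3854570633) (nat_lit 182) (nat_lit 5) (nat_lit 197) (nat_lit 5) (nat_lit 183) (nat_lit 5) (nat_lit 359) (nat_lit 342) (nat_lit 79)))) (XT.nd (nat_lit 156) (nat_lit 608) (nat_lit 0) (XT.nd (nat_lit 78) (nat_lit 0) (nat_lit 0) (XT.lf (nat_lit 0) (nat_lit 21501786438) (nat_lit 1140) (nat_lit 32846173967) (nat_lit 1216) (nat_lit 7042289183) (nat_lit 167) (nat_lit 5) (nat_lit 182) (nat_lit 5) (nat_lit 183) (nat_lit 5) (nat_lit 360) (nat_lit 342) (nat_lit 78)) (XT.lf (nat_lit 0) (nat_lit 51133715497) (nat_lit 1140) (nat_lit 8379933678) (nat_lit 1216) (nat_lit 2912622680) (nat_lit 167) (nat_lit 5) (nat_lit 182) (nat_lit 5) (nat_lit 183) (nat_lit 5) (nat_lit 361) (nat_lit 342) (nat_lit 77))) (XT.nd (nat_lit 78) (nat_lit 0) (nat_lit 0) (XT.lf (nat_lit 0) (nat_lit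 1655574576) (nat_lit 608) (nat_lit 45142341031) (nat_lit 76) (nat_lit 16684849254) (nat_lit 159) (nat_lit 5) (nat_lit 167) (nat_lit 5) (nat_lit 160) (nat_lit 5) (nat_lit 362) (nat_lit 342) (nat_lit 76)) (XT.lf (nat_lit 0) (nat_lit 6499734600) (nat_lit 608) (nat_lit 15587209554) (nat_lit 76) (nat_lit 42477220594) (nat_lit 159) (nat_lit 5) (nat_lit 167) (nat_lit 5) (nat_lit 160) (nat_lit 5) (nat_lit 363) (nat_lit 342) (nat_lit 75))))) (XT.nd (nat_lit 234) (nat_lit 988) (nat_lit 0) (XT.nd (nat_lit 78) (nat_lit 532) (nat_lit 0) (XT.lf (nat_lit 0) (nat_lit 11667984767) (nat_lit 684) (nat_lit 50557854543) (nat_lit 76) (nat_lit 3446805288) (nat_lit 151) (nat_lit 5) (nat_lit 160) (nat_lit 5) (nat_lit 152) (nat_lit 5) (nat_lit 364) (nat_lit 342) (nat_lit 74)) (XT.nd (nat_lit 78) (nat_lit 532) (nat_lit 0) (XT.lf (nat_lit 0) (nat_lit 17368283406) (nat_lit 684) (nat_lit 19973143353) (nat_lit 76) (nat_lit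 29461642959) (nat_lit 151) (nat_lit 5) (nat_lit 160) (nat_lit 5) (nat_lit 152) (nat_lit 5) (nat_lit 365) (nat_lit 342) (nat_lit 73)) (XT.lf (nat_lit 0) (nat_lit 11757949455) (nat_lit 532) (nat_lit 11594044480) (nat_lit 608) (nat_lit 44612042442) (nat_lit 144) (nat_lit 5) (nat_lit 151) (nat_lit 5) (nat_lit 152) (nat_lit 5) (nat_lit 366) (nat_lit 342) (nat_lit 72)))) (XT.nd (nat_lit 156) (nat_lit 456) (nat_lit 0) (XT.nd (nat_lit 78) (nat_lit 532) (nat_lit 0) (XT.lf (nat_lit 0) (nat_lit 29861768699) (nat_lit 608) (nat_lit 24449461959) (nat_lit 76) (nat_lit 14838205641) (nat_lit 144) (nat_lit 5) (nat_lit 152) (nat_lit 5) (nat_lit 145) (nat_lit 5) (nat_lit 367) (nat_lit 342) (nat_lit 71)) (XT.lf (nat_lit 0) (nat_lit 8306565035) (nat_lit 532) (nat_lit 28454320592) (nat_lit 608) (nat_lit 33603691947) (nat_lit 137) (nat_lit 5) (nat_lit 144) (nat_lit 5) (nat_lit 145) (nat_lit 5) (nat_lit 368) (nat_lit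 342) (nat_lit 70))) (XT.nd (nat_lit 78) (nat_lit 456) (nat_lit 0) (XT.lf (nat_lit 0) (nat_lit 42545873472) (nat_lit 532) (nat_lit 1567414395) (nat_lit 608) (nat_lit 27495496667) (nat_lit 137) (nat_lit 5) (nat_lit 144) (nat_lit 5) (nat_lit 145) (nat_lit 5) (nat_lit 369) (nat_lit 342) (nat_lit 69)) (XT.lf (nat_lit 0) (nat_lit 4763262032) (nat_lit 456) (nat_lit 47219364554) (nat_lit 532) (nat_lit 20898800963) (nat_lit 131) (nat_lit 5) (nat_lit 137) (nat_lit 5) (nat_lit 138) (nat_lit 5) (nat_lit 370) (nat_lit 342) (nat_lit 68))))))))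
noncomputable def xc252 : XT := (XT.nd (nat_lit 40404) (nat_lit 0) (nat_lit 456) (XT.nd (nat_lit 39390) (nat_lit 0) (nat_lit 988) (XT.nd (nat_lit 38844) (nat_lit 0) (nat_lit 3496) (XT.nd (nat_lit 38610) (nat_lit 0) (nat_lit 3344) (XT.nd (nat_lit 38454) (nat_lit 0) (nat_lit 3344) (XT.lf (nat_lit 0) (nat_lit 40183569698) (nat_lit 456) (nat_lit 20212768754) (nat_lit 532) (nat_lit 13786663367) (nat_lit 131) (nat_lit 5) (nat_lit 137) (nat_lit 5) (nat_lit 138) (nat_lit 5) (nat_lit 371) (nat_lit 342) (nat_lit 67)) (XT.nd (nat_lit 78) (nat_lit 0) (nat_lit 0) (XT.lf (nat_lit 0) (nat_lit 3165480198) (nat_lit 0) (nat_lit 3165480198) (nat_lit 1140) (nat_lit 17498939583) (nat_lit 175) (nat_lit 5) (nat_lit 175) (nat_lit 3) (nat_lit 190) (nat_lit 3) (nat_lit 343) (nat_lit 343) (nat_lit 94)) (XT.lf (nat_lit 0) (nat_lit 13024678382) (nat_lit 1140) (nat_lit 20491553974) (nat_lit 1216) (nat_lit 14853238038) (nat_lit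 175) (nat_lit 5) (nat_lit 190) (nat_lit 3) (nat_lit 191) (nat_lit 5) (nat_lit 344) (nat_lit 343) (nat_lit 93)))) (XT.nd (nat_lit 78) (nat_lit 0) (nat_lit 76) (XT.lf (nat_lit 76) (nat_lit 925660856) (nat_lit 0) (nat_lit 12543181856) (nat_lit 1216) (nat_lit 35629474136) (nat_lit 176) (nat_lit 5) (nat_lit 175) (nat_lit 5) (nat_lit 191) (nat_lit 5) (nat_lit 345) (nat_lit 343) (nat_lit 92)) (XT.nd (nat_lit 78) (nat_lit 0) (nat_lit 0) (XT.lf (nat_lit 0) (nat_lit 14221359547) (nat_lit 1140) (nat_lit 26527103009) (nat_lit 1216) (nat_lit 9091716891) (nat_lit 176) (nat_lit 5) (nat_lit 191) (nat_lit 5) (nat_lit 192) (nat_lit 5) (nat_lit 346) (nat_lit 343) (nat_lit 91)) (XT.lf (nat_lit 0) (nat_lit 15119644789) (nat_lit 1140) (nat_lit 4356956815) (nat_lit 1216) (nat_lit 31124002068) (nat_lit 176) (nat_lit 5) (nat_lit 191) (nat_lit 5) (nat_lit 192) (nat_lit 5) (nat_lit 347) (nat_lit 343) (nat_lit 90)))))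 (XT.nd (nat_lit 234) (nat_lit 0) (nat_lit 76) (XT.nd (nat_lit 78) (nat_lit 0) (nat_lit 0) (XT.lf (nat_lit 0) (nat_lit 16250253742) (nat_lit 1140) (nat_lit 32558155163) (nat_lit 1216) (nat_lit 2569271953) (nat_lit 177) (nat_lit 5) (nat_lit 192) (nat_lit 5) (nat_lit 193) (nat_lit 5) (nat_lit 348) (nat_lit 343) (nat_lit 89)) (XT.nd (nat_lit 78) (nat_lit 0) (nat_lit 0) (XT.lf (nat_lit 0) (nat_lit 17651109454) (nat_lit 1140) (nat_lit 9590002091) (nat_lit 1216) (nat_lit 24929870407) (nat_lit 177) (nat_lit 5) (nat_lit 192) (nat_lit 5) (nat_lit 193) (nat_lit 5) (nat_lit 349) (nat_lit 343) (nat_lit 88)) (XT.lf (nat_lit 76) (nat_lit 14346571769) (nat_lit 0) (nat_lit 4884413031) (nat_lit 1216) (nat_lit 33752988862) (nat_lit 178) (nat_lit 5) (nat_lit 177) (nat_lit 5) (nat_lit 193) (nat_lit 5) (nat_lit 350) (nat_lit 343) (nat_lit 87)))) (XT.nd (nat_lit 156) (nat_lit 0) (nat_lit 76) (XT.nd (nat_lit 78) (nat_lit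 0) (nat_lit 0) (XT.lf (nat_lit 0) (nat_lit 21129567085) (nat_lit 1140) (nat_lit 14796584407) (nat_lit 1216) (nat_lit 17887065675) (nat_lit 178) (nat_lit 5) (nat_lit 193) (nat_lit 5) (nat_lit 194) (nat_lit 5) (nat_lit 351) (nat_lit 343) (nat_lit 86)) (XT.lf (nat_lit 76) (nat_lit 9903770183) (nat_lit 0) (nat_lit 13324034356) (nat_lit 1216) (nat_lit 31435253831) (nat_lit 179) (nat_lit 5) (nat_lit 178) (nat_lit 5) (nat_lit 194) (nat_lit 5) (nat_lit 352) (nat_lit 343) (nat_lit 85))) (XT.nd (nat_lit 78) (nat_lit 0) (nat_lit 0) (XT.lf (nat_lit 0) (nat_lit 25634747765) (nat_lit 1140) (nat_lit 19983253917) (nat_lit 1216) (nat_lit 9913021652) (nat_lit 179) (nat_lit 5) (nat_lit 194) (nat_lit 5) (nat_lit 195) (nat_lit 5) (nat_lit 353) (nat_lit 343) (nat_lit 84)) (XT.lf (nat_lit 76) (nat_lit 5511090654) (nat_lit 0) (nat_lit 22786888477) (nat_lit 1216) (nat_lit 28121526968) (nat_lit 180) (nat_lit 5) (nat_lit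 179) (nat_lit 5) (nat_lit 195) (nat_lit 5) (nat_lit 354) (nat_lit 343) (nat_lit 83)))))) (XT.nd (nat_lit 468) (nat_lit 2736) (nat_lit 0) (XT.nd (nat_lit 234) (nat_lit 0) (nat_lit 76) (XT.nd (nat_lit 78) (nat_lit 0) (nat_lit 0) (XT.lf (nat_lit 0) (nat_lit 31251109145) (nat_lit 1140) (nat_lit 25158306244) (nat_lit 1216) (nat_lit 918929118) (nat_lit 180) (nat_lit 5) (nat_lit 195) (nat_lit 5) (nat_lit 196) (nat_lit 5) (nat_lit 355) (nat_lit 343) (nat_lit 82)) (XT.nd (nat_lit 78) (nat_lit 0) (nat_lit 0) (XT.lf (nat_lit 76) (nat_lit 1160749440) (nat_lit 0) (nat_lit 33368080399) (nat_lit 1216) (nat_lit 23728539500) (nat_lit 181) (nat_lit 5) (nat_lit 180) (nat_lit 5) (nat_lit 196) (nat_lit 5) (nat_lit 356) (nat_lit 343) (nat_lit 81)) (XT.lf (nat_lit 76) (nat_lit 28784508796) (nat_lit 0) (nat_lit 9373665989) (nat_lit 1216) (nat_lit 21048492493) (nat_lit 181) (nat_lit 5) (nat_lit 180) (nat_lit 5) (nat_lit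 196) (nat_lit 5) (nat_lit 357) (nat_lit 343) (nat_lit 80)))) (XT.nd (nat_lit 78) (nat_lit 0) (nat_lit 0) (XT.lf (nat_lit 0) (nat_lit 42043129815) (nat_lit 1140) (nat_lit 3095522465) (nat_lit 1216) (nat_lit 15041391094) (nat_lit 181) (nat_lit 5) (nat_lit 196) (nat_lit 5) (nat_lit 197) (nat_lit 5) (nat_lit 358) (nat_lit 343) (nat_lit 79)) (XT.nd (nat_lit 78) (nat_lit 0) (nat_lit 76) (XT.lf (nat_lit 76) (nat_lit 25454228920) (nat_lit 0) (nat_lit 20927182813) (nat_lit 1216) (nat_lit 14791106747) (nat_lit 182) (nat_lit 5) (nat_lit 181) (nat_lit 5) (nat_lit 197) (nat_lit 5) (nat_lit 359) (nat_lit 343) (nat_lit 78)) (XT.lf (nat_lit 0) (nat_lit 50919267405) (nat_lit 1140) (nat_lit 7309360472) (nat_lit 76) (nat_lit 3964058249) (nat_lit 182) (nat_lit 5) (nat_lit 197) (nat_lit 5) (nat_lit 183) (nat_lit 5) (nat_lit 360) (nat_lit 343) (nat_lit 77))))) (XT.nd (nat_lit 234) (nat_lit 1140) (nat_lit 0) (XT.nd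 (nat_lit 78) (nat_lit 608) (nat_lit 0) (XT.lf (nat_lit 0) (nat_lit 22176807124) (nat_lit 1140) (nat_lit 33836153207) (nat_lit 1216) (nat_lit 7217908436) (nat_lit 167) (nat_lit 5) (nat_lit 182) (nat_lit 5) (nat_lit 183) (nat_lit 5) (nat_lit 361) (nat_lit 343) (nat_lit 76)) (XT.nd (nat_lit 78) (nat_lit 608) (nat_lit 0) (XT.lf (nat_lit 0) (nat_lit 52696821227) (nat_lit 1140) (nat_lit 8635791902) (nat_lit 1216) (nat_lit 2965390270) (nat_lit 167) (nat_lit 5) (nat_lit 182) (nat_lit 5) (nat_lit 183) (nat_lit 5) (nat_lit 362) (nat_lit 343) (nat_lit 75)) (XT.lf (nat_lit 0) (nat_lit 1738437301) (nat_lit 608) (nat_lit 46466005765) (nat_lit 76) (nat_lit 17181761768) (nat_lit 159) (nat_lit 5) (nat_lit 167) (nat_lit 5) (nat_lit 160) (nat_lit 5) (nat_lit 363) (nat_lit 343) (nat_lit 74)))) (XT.nd (nat_lit 156) (nat_lit 532) (nat_lit 0) (XT.nd (nat_lit 78) (nat_lit 608) (nat_lit 0) (XT.lf (nat_lit 0) (nat_lit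 6726955267) (nat_lit 608) (nat_lit 16025111766) (nat_lit 76) (nat_lit 43748010063) (nat_lit 159) (nat_lit 5) (nat_lit 167) (nat_lit 5) (nat_lit 160) (nat_lit 5) (nat_lit 364) (nat_lit 343) (nat_lit 73)) (XT.lf (nat_lit 0) (nat_lit 12049576404) (nat_lit 684) (nat_lit 52044155166) (nat_lit 76) (nat_lit 3548101401) (nat_lit 151) (nat_lit 5) (nat_lit 160) (nat_lit 5) (nat_lit 152) (nat_lit 5) (nat_lit 365) (nat_lit 343) (nat_lit 72))) (XT.nd (nat_lit 78) (nat_lit 532) (nat_lit 0) (XT.lf (nat_lit 0) (nat_lit 17919965008) (nat_lit 684) (nat_lit 20542789097) (nat_lit 76) (nat_lit 30343445601) (nat_lit 151) (nat_lit 5) (nat_lit 160) (nat_lit 5) (nat_lit 152) (nat_lit 5) (nat_lit 366) (nat_lit 343) (nat_lit 71)) (XT.lf (nat_lit 0) (nat_lit 12139946804) (nat_lit 532) (nat_lit 11942629077) (nat_lit 608) (nat_lit 45919439069) (nat_lit 144) (nat_lit 5) (nat_lit 151) (nat_lit 5) (nat_lit 152) (nat_lit 5)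 (nat_lit 367) (nat_lit 343) (nat_lit 70))))))) (XT.nd (nat_lit 39546) (nat_lit 0) (nat_lit 1064) (XT.nd (nat_lit 39000) (nat_lit 0) (nat_lit 2964) (XT.nd (nat_lit 38766) (nat_lit 0) (nat_lit 2888) (XT.nd (nat_lit 78) (nat_lit 532) (nat_lit 0) (XT.lf (nat_lit 0) (nat_lit 30786762334) (nat_lit 608) (nat_lit 25153616962) (nat_lit 76) (nat_lit 15282625239) (nat_lit 144) (nat_lit 5) (nat_lit 152) (nat_lit 5) (nat_lit 145) (nat_lit 5) (nat_lit 368) (nat_lit 343) (nat_lit 69)) (XT.nd (nat_lit 78) (nat_lit 0) (nat_lit 0) (XT.lf (nat_lit 0) (nat_lit 8584803304) (nat_lit 532) (nat_lit 29307479874) (nat_lit 608) (nat_lit 34582335142) (nat_lit 137) (nat_lit 5) (nat_lit 144) (nat_lit 5) (nat_lit 145) (nat_lit 5) (nat_lit 369) (nat_lit 343) (nat_lit 68)) (XT.lf (nat_lit 0) (nat_lit 43850445131) (nat_lit 532) (nat_lit 1613980191) (nat_lit 608) (nat_lit 28291752282) (nat_lit 137) (nat_lit 5) (nat_lit 144) (nat_lit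 5) (nat_lit 145) (nat_lit 5) (nat_lit 370) (nat_lit 343) (nat_lit 67)))) (XT.nd (nat_lit 78) (nat_lit 0) (nat_lit 0) (XT.lf (nat_lit 0) (nat_lit 3273918228) (nat_lit 0) (nat_lit 3273918228) (nat_lit 1140) (nat_lit 17996110804) (nat_lit 175) (nat_lit 5) (nat_lit 175) (nat_lit 3) (nat_lit 190) (nat_lit 3) (nat_lit 344) (nat_lit 344) (nat_lit 92)) (XT.nd (nat_lit 78) (nat_lit 0) (nat_lit 0) (XT.lf (nat_lit 0) (nat_lit 13467491996) (nat_lit 1140) (nat_lit 21078236787) (nat_lit 1216) (nat_lit 15273183326) (nat_lit 175) (nat_lit 5) (nat_lit 190) (nat_lit 3) (nat_lit 191) (nat_lit 5) (nat_lit 345) (nat_lit 344) (nat_lit 91)) (XT.lf (nat_lit 76) (nat_lit 981219351) (nat_lit 0) (nat_lit 12942512329) (nat_lit 1216) (nat_lit 36645932099) (nat_lit 176) (nat_lit 5) (nat_lit 175) (nat_lit 5) (nat_lit 191) (nat_lit 5) (nat_lit 346) (nat_lit 344) (nat_lit 90))))) (XT.nd (nat_lit 234) (nat_lit 0) (nat_lit 76)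 (XT.nd (nat_lit 78) (nat_lit 0) (nat_lit 0) (XT.lf (nat_lit 0) (nat_lit 14697128742) (nat_lit 1140) (nat_lit 27294165934) (nat_lit 1216) (nat_lit 9342540707) (nat_lit 176) (nat_lit 5) (nat_lit 191) (nat_lit 5) (nat_lit 192) (nat_lit 5) (nat_lit 347) (nat_lit 344) (nat_lit 89)) (XT.nd (nat_lit 78) (nat_lit 0) (nat_lit 76) (XT.lf (nat_lit 0) (nat_lit 15620931617) (nat_lit 1140) (nat_lit 4459752738) (nat_lit 1216) (nat_lit 32036433110) (nat_lit 176) (nat_lit 5) (nat_lit 191) (nat_lit 5) (nat_lit 192) (nat_lit 5) (nat_lit 348) (nat_lit 344) (nat_lit 88)) (XT.lf (nat_lit 0) (nat_lit 16784153263) (nat_lit 1140) (nat_lit 33505610205) (nat_lit 1216) (nat_lit 2627784803) (nat_lit 177) (nat_lit 5) (nat_lit 192) (nat_lit 5) (nat_lit 193) (nat_lit 5) (nat_lit 349) (nat_lit 344) (nat_lit 87)))) (XT.nd (nat_lit 156) (nat_lit 0) (nat_lit 76) (XT.nd (nat_lit 78) (nat_lit 0) (nat_lit 0) (XT.lf (nat_lit 0) (nat_lit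 18225683425) (nat_lit 1140) (nat_lit 9849265636) (nat_lit 1216) (nat_lit 25659741948) (nat_lit 177) (nat_lit 5) (nat_lit 192) (nat_lit 5) (nat_lit 193) (nat_lit 5) (nat_lit 350) (nat_lit 344) (nat_lit 86)) (XT.lf (nat_lit 76) (nat_lit 14805126650) (nat_lit 0) (nat_lit 5046787186) (nat_lit 1216) (nat_lit 34720191886) (nat_lit 178) (nat_lit 5) (nat_lit 177) (nat_lit 5) (nat_lit 193) (nat_lit 5) (nat_lit 351) (nat_lit 344) (nat_lit 85))) (XT.nd (nat_lit 78) (nat_lit 0) (nat_lit 0) (XT.lf (nat_lit 0) (nat_lit 21806024206) (nat_lit 1140) (nat_lit 15211649747) (nat_lit 1216) (nat_lit 18408597418) (nat_lit 178) (nat_lit 5) (nat_lit 193) (nat_lit 5) (nat_lit 194) (nat_lit 5) (nat_lit 352) (nat_lit 344) (nat_lit 84)) (XT.lf (nat_lit 76) (nat_lit 10229432813) (nat_lit 0) (nat_lit 13736810500) (nat_lit 1216) (nat_lit 32335395360) (nat_lit 179) (nat_lit 5) (nat_lit 178) (nat_lit 5) (nat_lit 194) (nat_lit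 5) (nat_lit 353) (nat_lit 344) (nat_lit 83)))))) (XT.nd (nat_lit 468) (nat_lit 2128) (nat_lit 0) (XT.nd (nat_lit 234) (nat_lit 0) (nat_lit 76) (XT.nd (nat_lit 78) (nat_lit 0) (nat_lit 0) (XT.lf (nat_lit 0) (nat_lit 26444061212) (nat_lit 1140) (nat_lit 20553638460) (nat_lit 1216) (nat_lit 10197984766) (nat_lit 179) (nat_lit 5) (nat_lit 194) (nat_lit 5) (nat_lit 195) (nat_lit 5) (nat_lit 354) (nat_lit 344) (nat_lit 82)) (XT.nd (nat_lit 78) (nat_lit 0) (nat_lit 76) (XT.lf (nat_lit 76) (nat_lit 5705251026) (nat_lit 0) (nat_lit 23481042659) (nat_lit 1216) (nat_lit 28924556666) (nat_lit 180) (nat_lit 5) (nat_lit 179) (nat_lit 5) (nat_lit 195) (nat_lit 5) (nat_lit 355) (nat_lit 344) (nat_lit 81)) (XT.lf (nat_lit 0) (nat_lit 32226772314) (nat_lit 1140) (nat_lit 25883764196) (nat_lit 1216) (nat_lit 936456498) (nat_lit 180) (nat_lit 5) (nat_lit 195) (nat_lit 5) (nat_lit 196) (nat_lit 5) (nat_lit 356)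 (nat_lit 344) (nat_lit 80)))) (XT.nd (nat_lit 78) (nat_lit 0) (nat_lit 0) (XT.lf (nat_lit 76) (nat_lit 1224575989) (nat_lit 0) (nat_lit 34377416865) (nat_lit 1216) (nat_lit 24401922372) (nat_lit 181) (nat_lit 5) (nat_lit 180) (nat_lit 5) (nat_lit 196) (nat_lit 5) (nat_lit 357) (nat_lit 344) (nat_lit 79)) (XT.nd (nat_lit 78) (nat_lit 0) (nat_lit 76) (XT.lf (nat_lit 76) (nat_lit 29676203348) (nat_lit 0) (nat_lit 9662928448) (nat_lit 1216) (nat_lit 21642594537) (nat_lit 181) (nat_lit 5) (nat_lit 180) (nat_lit 5) (nat_lit 196) (nat_lit 5) (nat_lit 358) (nat_lit 344) (nat_lit 78)) (XT.lf (nat_lit 0) (nat_lit 43339505614) (nat_lit 1140) (nat_lit 3159866142) (nat_lit 1216) (nat_lit 15484967442) (nat_lit 181) (nat_lit 5) (nat_lit 196) (nat_lit 5) (nat_lit 197) (nat_lit 5) (nat_lit 359) (nat_lit 344) (nat_lit 77))))) (XT.nd (nat_lit 234) (nat_lit 1216) (nat_lit 0) (XT.nd (nat_lit 78) (nat_lit 1064) (nat_lit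 0) (XT.lf (nat_lit 76) (nat_lit 26246098157) (nat_lit 0) (nat_lit 21561087512) (nat_lit 1216) (nat_lit 15199426941) (nat_lit 182) (nat_lit 5) (nat_lit 181) (nat_lit 5) (nat_lit 197) (nat_lit 5) (nat_lit 360) (nat_lit 344) (nat_lit 76)) (XT.nd (nat_lit 78) (nat_lit 1140) (nat_lit 0) (XT.lf (nat_lit 0) (nat_lit 52480120234) (nat_lit 1140) (nat_lit 7500114755) (nat_lit 76) (nat_lit 4077183499) (nat_lit 182) (nat_lit 5) (nat_lit 197) (nat_lit 5) (nat_lit 183) (nat_lit 5) (nat_lit 361) (nat_lit 344) (nat_lit 75)) (XT.lf (nat_lit 0) (nat_lit 22870358196) (nat_lit 1140) (nat_lit 34855568108) (nat_lit 1216) (nat_lit 7400842689) (nat_lit 167) (nat_lit 5) (nat_lit 182) (nat_lit 5) (nat_lit 183) (nat_lit 5) (nat_lit 362) (nat_lit 344) (nat_lit 74)))) (XT.nd (nat_lit 156) (nat_lit 608) (nat_lit 0) (XT.nd (nat_lit 78) (nat_lit 608) (nat_lit 0) (XT.lf (nat_lit 0) (nat_lit 54305149999) (nat_lit 1140) (nat_lit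 8899069838) (nat_lit 1216) (nat_lit 3021727706) (nat_lit 167) (nat_lit 5) (nat_lit 182) (nat_lit 5) (nat_lit 183) (nat_lit 5) (nat_lit 363) (nat_lit 344) (nat_lit 73)) (XT.lf (nat_lit 0) (nat_lit 1821880351) (nat_lit 608) (nat_lit 47831137322) (nat_lit 76) (nat_lit 17693790204) (nat_lit 159) (nat_lit 5) (nat_lit 167) (nat_lit 5) (nat_lit 160) (nat_lit 5) (nat_lit 364) (nat_lit 344) (nat_lit 72))) (XT.nd (nat_lit 78) (nat_lit 608) (nat_lit 0) (XT.lf (nat_lit 0) (nat_lit 6959142498) (nat_lit 608) (nat_lit 16477856754) (nat_lit 76) (nat_lit 45057125688) (nat_lit 159) (nat_lit 5) (nat_lit 167) (nat_lit 5) (nat_lit 160) (nat_lit 5) (nat_lit 365) (nat_lit 344) (nat_lit 71)) (XT.lf (nat_lit 0) (nat_lit 12440804570) (nat_lit 684) (nat_lit 53576791901) (nat_lit 76) (nat_lit 3652557408) (nat_lit 151) (nat_lit 5) (nat_lit 160) (nat_lit 5) (nat_lit 152) (nat_lit 5) (nat_lit 366) (nat_lit 344) (nat_lit 70))))))))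
noncomputable def xc253 : XT := (XT.nd (nat_lit 40716) (nat_lit 0) (nat_lit 532) (XT.nd (nat_lit 39702) (nat_lit 0) (nat_lit 532) (XT.nd (nat_lit 39156) (nat_lit 0) (nat_lit 2432) (XT.nd (nat_lit 38922) (nat_lit 0) (nat_lit 2356) (XT.nd (nat_lit 78) (nat_lit 532) (nat_lit 0) (XT.lf (nat_lit 0) (nat_lit 18486438593) (nat_lit 684) (nat_lit 21131220420) (nat_lit 76) (nat_lit 31251819809) (nat_lit 151) (nat_lit 5) (nat_lit 160) (nat_lit 5) (nat_lit 152) (nat_lit 5) (nat_lit 367) (nat_lit 344) (nat_lit 69)) (XT.nd (nat_lit 78) (nat_lit 0) (nat_lit 0) (XT.lf (nat_lit 0) (nat_lit 12531724495) (nat_lit 532) (nat_lit 12301627398) (nat_lit 608) (nat_lit 47267835091) (nat_lit 144) (nat_lit 5) (nat_lit 151) (nat_lit 5) (nat_lit 152) (nat_lit 5) (nat_lit 368) (nat_lit 344) (nat_lit 68)) (XT.lf (nat_lit 0) (nat_lit 31737832990) (nat_lit 608) (nat_lit 25880580211) (nat_lit 76) (nat_lit 15740419133) (nat_lit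 144) (nat_lit 5) (nat_lit 152) (nat_lit 5) (nat_lit 145) (nat_lit 5) (nat_lit 369) (nat_lit 344) (nat_lit 67)))) (XT.nd (nat_lit 78) (nat_lit 0) (nat_lit 0) (XT.lf (nat_lit 0) (nat_lit 3384835957) (nat_lit 0) (nat_lit 3384835957) (nat_lit 1140) (nat_lit 18509792821) (nat_lit 175) (nat_lit 5) (nat_lit 175) (nat_lit 3) (nat_lit 190) (nat_lit 3) (nat_lit 345) (nat_lit 345) (nat_lit 90)) (XT.nd (nat_lit 78) (nat_lit 0) (nat_lit 0) (XT.lf (nat_lit 0) (nat_lit 13920600800) (nat_lit 1140) (nat_lit 21684131063) (nat_lit 1216) (nat_lit 15707199494) (nat_lit 175) (nat_lit 5) (nat_lit 190) (nat_lit 3) (nat_lit 191) (nat_lit 5) (nat_lit 346) (nat_lit 345) (nat_lit 89)) (XT.lf (nat_lit 76) (nat_lit 1036849419) (nat_lit 0) (nat_lit 13352500412) (nat_lit 1216) (nat_lit 37695893283) (nat_lit 176) (nat_lit 5) (nat_lit 175) (nat_lit 5) (nat_lit 191) (nat_lit 5) (nat_lit 347) (nat_lit 345) (nat_lit 88))))) (XT.nd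 (nat_lit 234) (nat_lit 0) (nat_lit 76) (XT.nd (nat_lit 78) (nat_lit 0) (nat_lit 0) (XT.lf (nat_lit 0) (nat_lit 15184350841) (nat_lit 1140) (nat_lit 28085891124) (nat_lit 1216) (nat_lit 9602147977) (nat_lit 176) (nat_lit 5) (nat_lit 191) (nat_lit 5) (nat_lit 192) (nat_lit 5) (nat_lit 348) (nat_lit 345) (nat_lit 87)) (XT.nd (nat_lit 78) (nat_lit 0) (nat_lit 76) (XT.lf (nat_lit 0) (nat_lit 16134519019) (nat_lit 1140) (nat_lit 4567234846) (nat_lit 1216) (nat_lit 32977459160) (nat_lit 176) (nat_lit 5) (nat_lit 191) (nat_lit 5) (nat_lit 192) (nat_lit 5) (nat_lit 349) (nat_lit 345) (nat_lit 86)) (XT.lf (nat_lit 0) (nat_lit 17331406683) (nat_lit 1140) (nat_lit 34483170242) (nat_lit 1216) (nat_lit 2689118764) (nat_lit 177) (nat_lit 5) (nat_lit 192) (nat_lit 5) (nat_lit 193) (nat_lit 5) (nat_lit 350) (nat_lit 345) (nat_lit 85)))) (XT.nd (nat_lit 156) (nat_lit 0) (nat_lit 76) (XT.nd (nat_lit 78) (nat_lit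 0) (nat_lit 0) (XT.lf (nat_lit 0) (nat_lit 18814909095) (nat_lit 1140) (nat_lit 10117939460) (nat_lit 1216) (nat_lit 26412544320) (nat_lit 177) (nat_lit 5) (nat_lit 192) (nat_lit 5) (nat_lit 193) (nat_lit 5) (nat_lit 351) (nat_lit 345) (nat_lit 84)) (XT.lf (nat_lit 76) (nat_lit 15275821809) (nat_lit 0) (nat_lit 5213123184) (nat_lit 1216) (nat_lit 35719016379) (nat_lit 178) (nat_lit 5) (nat_lit 177) (nat_lit 5) (nat_lit 193) (nat_lit 5) (nat_lit 352) (nat_lit 345) (nat_lit 83))) (XT.nd (nat_lit 78) (nat_lit 0) (nat_lit 0) (XT.lf (nat_lit 0) (nat_lit 22500331342) (nat_lit 1140) (nat_lit 15640822132) (nat_lit 1216) (nat_lit 18946640779) (nat_lit 178) (nat_lit 5) (nat_lit 193) (nat_lit 5) (nat_lit 194) (nat_lit 5) (nat_lit 353) (nat_lit 345) (nat_lit 82)) (XT.lf (nat_lit 76) (nat_lit 10563226462) (nat_lit 0) (nat_lit 14161220512) (nat_lit 1216) (nat_lit 33265004693) (nat_lit 179) (nat_lit 5) (nat_lit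 178) (nat_lit 5) (nat_lit 194) (nat_lit 5) (nat_lit 354) (nat_lit 345) (nat_lit 81)))))) (XT.nd (nat_lit 468) (nat_lit 2128) (nat_lit 0) (XT.nd (nat_lit 234) (nat_lit 0) (nat_lit 76) (XT.nd (nat_lit 78) (nat_lit 0) (nat_lit 0) (XT.lf (nat_lit 0) (nat_lit 27275342341) (nat_lit 1140) (nat_lit 21142805749) (nat_lit 1216) (nat_lit 10492210165) (nat_lit 179) (nat_lit 5) (nat_lit 194) (nat_lit 5) (nat_lit 195) (nat_lit 5) (nat_lit 355) (nat_lit 345) (nat_lit 80)) (XT.nd (nat_lit 78) (nat_lit 0) (nat_lit 76) (XT.lf (nat_lit 76) (nat_lit 5903581383) (nat_lit 0) (nat_lit 24195415996) (nat_lit 1216) (nat_lit 29754008786) (nat_lit 180) (nat_lit 5) (nat_lit 179) (nat_lit 5) (nat_lit 195) (nat_lit 5) (nat_lit 356) (nat_lit 345) (nat_lit 79)) (XT.lf (nat_lit 0) (nat_lit 33229516566) (nat_lit 1140) (nat_lit 26632667324) (nat_lit 1216) (nat_lit 955086065) (nat_lit 180) (nat_lit 5) (nat_lit 195) (nat_lit 5)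 (nat_lit 196) (nat_lit 5) (nat_lit 357) (nat_lit 345) (nat_lit 78)))) (XT.nd (nat_lit 78) (nat_lit 0) (nat_lit 0) (XT.lf (nat_lit 76) (nat_lit 1288652382) (nat_lit 0) (nat_lit 35416557312) (nat_lit 1216) (nat_lit 25097715256) (nat_lit 181) (nat_lit 5) (nat_lit 180) (nat_lit 5) (nat_lit 196) (nat_lit 5) (nat_lit 358) (nat_lit 345) (nat_lit 77)) (XT.nd (nat_lit 78) (nat_lit 0) (nat_lit 76) (XT.lf (nat_lit 76) (nat_lit 30593032277) (nat_lit 0) (nat_lit 9960406536) (nat_lit 1216) (nat_lit 22256663842) (nat_lit 181) (nat_lit 5) (nat_lit 180) (nat_lit 5) (nat_lit 196) (nat_lit 5) (nat_lit 359) (nat_lit 345) (nat_lit 76)) (XT.lf (nat_lit 0) (nat_lit 44672758842) (nat_lit 1140) (nat_lit 3227777408) (nat_lit 1216) (nat_lit 15942291105) (nat_lit 181) (nat_lit 5) (nat_lit 196) (nat_lit 5) (nat_lit 197) (nat_lit 5) (nat_lit 360) (nat_lit 345) (nat_lit 75))))) (XT.nd (nat_lit 234) (nat_lit 1216) (nat_lit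 0) (XT.nd (nat_lit 78) (nat_lit 1064) (nat_lit 0) (XT.lf (nat_lit 76) (nat_lit 27060102244) (nat_lit 0) (nat_lit 22213659806) (nat_lit 1216) (nat_lit 15622029593) (nat_lit 182) (nat_lit 5) (nat_lit 181) (nat_lit 5) (nat_lit 197) (nat_lit 5) (nat_lit 361) (nat_lit 345) (nat_lit 74)) (XT.nd (nat_lit 78) (nat_lit 1140) (nat_lit 0) (XT.lf (nat_lit 0) (nat_lit 54085888537) (nat_lit 1140) (nat_lit 7698229206) (nat_lit 76) (nat_lit 4194035250) (nat_lit 182) (nat_lit 5) (nat_lit 197) (nat_lit 5) (nat_lit 183) (nat_lit 5) (nat_lit 362) (nat_lit 345) (nat_lit 73)) (XT.lf (nat_lit 0) (nat_lit 23583094316) (nat_lit 1140) (nat_lit 35905316878) (nat_lit 1216) (nat_lit 7591193920) (nat_lit 167) (nat_lit 5) (nat_lit 182) (nat_lit 5) (nat_lit 183) (nat_lit 5) (nat_lit 363) (nat_lit 345) (nat_lit 72)))) (XT.nd (nat_lit 156) (nat_lit 608) (nat_lit 0) (XT.nd (nat_lit 78) (nat_lit 608) (nat_lit 0) (XT.lf (nat_lit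 0) (nat_lit 55960154376) (nat_lit 1140) (nat_lit 9170004775) (nat_lit 1216) (nat_lit 3081628032) (nat_lit 167) (nat_lit 5) (nat_lit 182) (nat_lit 5) (nat_lit 183) (nat_lit 5) (nat_lit 364) (nat_lit 345) (nat_lit 71)) (XT.lf (nat_lit 0) (nat_lit 1906030522) (nat_lit 608) (nat_lit 49238878854) (nat_lit 76) (nat_lit 18221376070) (nat_lit 159) (nat_lit 5) (nat_lit 167) (nat_lit 5) (nat_lit 160) (nat_lit 5) (nat_lit 365) (nat_lit 345) (nat_lit 70))) (XT.nd (nat_lit 78) (nat_lit 608) (nat_lit 0) (XT.lf (nat_lit 0) (nat_lit 7196551492) (nat_lit 608) (nat_lit 16945791886) (nat_lit 76) (nat_lit 46405705633) (nat_lit 159) (nat_lit 5) (nat_lit 167) (nat_lit 5) (nat_lit 160) (nat_lit 5) (nat_lit 366) (nat_lit 345) (nat_lit 69)) (XT.lf (nat_lit 0) (nat_lit 12842062333) (nat_lit 684) (nat_lit 55157054542) (nat_lit 76) (nat_lit 3760261158) (nat_lit 151) (nat_lit 5) (nat_lit 160) (nat_lit 5) (nat_lit 152) (nat_lit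 5) (nat_lit 367) (nat_lit 345) (nat_lit 68))))))) (XT.nd (nat_lit 39858) (nat_lit 0) (nat_lit 608) (XT.nd (nat_lit 39312) (nat_lit 0) (nat_lit 1976) (XT.nd (nat_lit 39078) (nat_lit 0) (nat_lit 1824) (XT.nd (nat_lit 38922) (nat_lit 0) (nat_lit 1824) (XT.lf (nat_lit 0) (nat_lit 19068248864) (nat_lit 684) (nat_lit 21738903522) (nat_lit 76) (nat_lit 32187555984) (nat_lit 151) (nat_lit 5) (nat_lit 160) (nat_lit 5) (nat_lit 152) (nat_lit 5) (nat_lit 368) (nat_lit 345) (nat_lit 67)) (XT.nd (nat_lit 78) (nat_lit 0) (nat_lit 0) (XT.lf (nat_lit 0) (nat_lit 3498352176) (nat_lit 0) (nat_lit 3498352176) (nat_lit 1140) (nat_lit 19040389361) (nat_lit 175) (nat_lit 5) (nat_lit 175) (nat_lit 3) (nat_lit 190) (nat_lit 3) (nat_lit 346) (nat_lit 346) (nat_lit 88)) (XT.lf (nat_lit 0) (nat_lit 14384485244) (nat_lit 1140) (nat_lit 22309720667) (nat_lit 1216) (nat_lit 16155624139) (nat_lit 175) (nat_lit 5) (nat_lit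 190) (nat_lit 3) (nat_lit 191) (nat_lit 5) (nat_lit 347) (nat_lit 346) (nat_lit 87)))) (XT.nd (nat_lit 78) (nat_lit 0) (nat_lit 76) (XT.lf (nat_lit 76) (nat_lit 1092644775) (nat_lit 0) (nat_lit 13773541739) (nat_lit 1216) (nat_lit 38780190028) (nat_lit 176) (nat_lit 5) (nat_lit 175) (nat_lit 5) (nat_lit 191) (nat_lit 5) (nat_lit 348) (nat_lit 346) (nat_lit 86)) (XT.nd (nat_lit 78) (nat_lit 0) (nat_lit 0) (XT.lf (nat_lit 0) (nat_lit 15683531321) (nat_lit 1140) (nat_lit 28902923709) (nat_lit 1216) (nat_lit 9870729948) (nat_lit 176) (nat_lit 5) (nat_lit 191) (nat_lit 5) (nat_lit 192) (nat_lit 5) (nat_lit 349) (nat_lit 346) (nat_lit 85)) (XT.lf (nat_lit 0) (nat_lit 16660933186) (nat_lit 1140) (nat_lit 4679451746) (nat_lit 1216) (nat_lit 33947867917) (nat_lit 176) (nat_lit 5) (nat_lit 191) (nat_lit 5) (nat_lit 192) (nat_lit 5) (nat_lit 350) (nat_lit 346) (nat_lit 84))))) (XT.nd (nat_lit 234) (nat_lit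 0) (nat_lit 76) (XT.nd (nat_lit 78) (nat_lit 0) (nat_lit 0) (XT.lf (nat_lit 0) (nat_lit 17892567494) (nat_lit 1140) (nat_lit 35491641908) (nat_lit 1216) (nat_lit 2753297291) (nat_lit 177) (nat_lit 5) (nat_lit 192) (nat_lit 5) (nat_lit 193) (nat_lit 5) (nat_lit 351) (nat_lit 346) (nat_lit 83)) (XT.nd (nat_lit 78) (nat_lit 0) (nat_lit 0) (XT.lf (nat_lit 0) (nat_lit 19419374436) (nat_lit 1140) (nat_lit 10396212167) (nat_lit 1216) (nat_lit 27188906052) (nat_lit 177) (nat_lit 5) (nat_lit 192) (nat_lit 5) (nat_lit 193) (nat_lit 5) (nat_lit 352) (nat_lit 346) (nat_lit 82)) (XT.lf (nat_lit 76) (nat_lit 15759114240) (nat_lit 0) (nat_lit 5383592082) (nat_lit 1216) (nat_lit 36750261427) (nat_lit 178) (nat_lit 5) (nat_lit 177) (nat_lit 5) (nat_lit 193) (nat_lit 5) (nat_lit 353) (nat_lit 346) (nat_lit 81)))) (XT.nd (nat_lit 156) (nat_lit 0) (nat_lit 76) (XT.nd (nat_lit 78) (nat_lit 0) (nat_lit 0) (XT.lf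 (nat_lit 0) (nat_lit 23213164272) (nat_lit 1140) (nat_lit 16084429766) (nat_lit 1216) (nat_lit 19501641416) (nat_lit 178) (nat_lit 5) (nat_lit 193) (nat_lit 5) (nat_lit 194) (nat_lit 5) (nat_lit 354) (nat_lit 346) (nat_lit 80)) (XT.lf (nat_lit 76) (nat_lit 10905489138) (nat_lit 0) (nat_lit 14597656426) (nat_lit 1216) (nat_lit 34224824447) (nat_lit 179) (nat_lit 5) (nat_lit 178) (nat_lit 5) (nat_lit 194) (nat_lit 5) (nat_lit 355) (nat_lit 346) (nat_lit 79))) (XT.nd (nat_lit 78) (nat_lit 0) (nat_lit 0) (XT.lf (nat_lit 0) (nat_lit 28129382885) (nat_lit 1140) (nat_lit 21751223332) (nat_lit 1216) (nat_lit 10795934766) (nat_lit 179) (nat_lit 5) (nat_lit 194) (nat_lit 5) (nat_lit 195) (nat_lit 5) (nat_lit 356) (nat_lit 346) (nat_lit 78)) (XT.lf (nat_lit 76) (nat_lit 6106301820) (nat_lit 0) (nat_lit 24930649819) (nat_lit 1216) (nat_lit 30610542161) (nat_lit 180) (nat_lit 5) (nat_lit 179) (nat_lit 5)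 (nat_lit 195) (nat_lit 5) (nat_lit 357) (nat_lit 346) (nat_lit 77)))))) (XT.nd (nat_lit 546) (nat_lit 608) (nat_lit 0) (XT.nd (nat_lit 234) (nat_lit 988) (nat_lit 0) (XT.nd (nat_lit 78) (nat_lit 0) (nat_lit 0) (XT.lf (nat_lit 0) (nat_lit 34260279980) (nat_lit 1140) (nat_lit 27405622461) (nat_lit 1216) (nat_lit 974817799) (nat_lit 180) (nat_lit 5) (nat_lit 195) (nat_lit 5) (nat_lit 196) (nat_lit 5) (nat_lit 358) (nat_lit 346) (nat_lit 76)) (XT.nd (nat_lit 78) (nat_lit 0) (nat_lit 0) (XT.lf (nat_lit 76) (nat_lit 1353081691) (nat_lit 0) (nat_lit 36486423191) (nat_lit 1216) (nat_lit 25816463674) (nat_lit 181) (nat_lit 5) (nat_lit 180) (nat_lit 5) (nat_lit 196) (nat_lit 5) (nat_lit 359) (nat_lit 346) (nat_lit 75)) (XT.lf (nat_lit 76) (nat_lit 31535842407) (nat_lit 0) (nat_lit 10266373256) (nat_lit 1216) (nat_lit 22891176340) (nat_lit 181) (nat_lit 5) (nat_lit 180) (nat_lit 5) (nat_lit 196) (nat_lit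 5) (nat_lit 360) (nat_lit 346) (nat_lit 74)))) (XT.nd (nat_lit 156) (nat_lit 1064) (nat_lit 0) (XT.nd (nat_lit 78) (nat_lit 0) (nat_lit 0) (XT.lf (nat_lit 0) (nat_lit 46044111424) (nat_lit 1140) (nat_lit 3299269305) (nat_lit 1216) (nat_lit 16413749242) (nat_lit 181) (nat_lit 5) (nat_lit 196) (nat_lit 5) (nat_lit 197) (nat_lit 5) (nat_lit 361) (nat_lit 346) (nat_lit 73)) (XT.lf (nat_lit 76) (nat_lit 27896998291) (nat_lit 0) (nat_lit 22885479788) (nat_lit 1216) (nat_lit 16059226482) (nat_lit 182) (nat_lit 5) (nat_lit 181) (nat_lit 5) (nat_lit 197) (nat_lit 5) (nat_lit 362) (nat_lit 346) (nat_lit 72))) (XT.nd (nat_lit 78) (nat_lit 1140) (nat_lit 0) (XT.lf (nat_lit 0) (nat_lit 55738029428) (nat_lit 1140) (nat_lit 7903830629) (nat_lit 76) (nat_lit 4314706195) (nat_lit 182) (nat_lit 5) (nat_lit 197) (nat_lit 5) (nat_lit 183) (nat_lit 5) (nat_lit 363) (nat_lit 346) (nat_lit 71)) (XT.lf (nat_lit 0)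 (nat_lit 24315684114) (nat_lit 1140) (nat_lit 36986323804) (nat_lit 1216) (nat_lit 7789073907) (nat_lit 167) (nat_lit 5) (nat_lit 182) (nat_lit 5) (nat_lit 183) (nat_lit 5) (nat_lit 364) (nat_lit 346) (nat_lit 70))))) (XT.nd (nat_lit 39234) (nat_lit 0) (nat_lit 1216) (XT.nd (nat_lit 78) (nat_lit 608) (nat_lit 0) (XT.lf (nat_lit 0) (nat_lit 57663324996) (nat_lit 1140) (nat_lit 9448840278) (nat_lit 1216) (nat_lit 3145090630) (nat_lit 167) (nat_lit 5) (nat_lit 182) (nat_lit 5) (nat_lit 183) (nat_lit 5) (nat_lit 365) (nat_lit 346) (nat_lit 69)) (XT.nd (nat_lit 78) (nat_lit 0) (nat_lit 0) (XT.lf (nat_lit 0) (nat_lit 1991012136) (nat_lit 608) (nat_lit 50690413598) (nat_lit 76) (nat_lit 18764974802) (nat_lit 159) (nat_lit 5) (nat_lit 167) (nat_lit 5) (nat_lit 160) (nat_lit 5) (nat_lit 366) (nat_lit 346) (nat_lit 68)) (XT.lf (nat_lit 0) (nat_lit 7439439006) (nat_lit 608) (nat_lit 17429280573) (nat_lit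 76) (nat_lit 47794922870) (nat_lit 159) (nat_lit 5) (nat_lit 167) (nat_lit 5) (nat_lit 160) (nat_lit 5) (nat_lit 367) (nat_lit 346) (nat_lit 67)))) (XT.nd (nat_lit 156) (nat_lit 0) (nat_lit 0) (XT.nd (nat_lit 78) (nat_lit 0) (nat_lit 0) (XT.lf (nat_lit 0) (nat_lit 3614586689) (nat_lit 0) (nat_lit 3614586689) (nat_lit 1140) (nat_lit 19588321520) (nat_lit 175) (nat_lit 5) (nat_lit 175) (nat_lit 3) (nat_lit 190) (nat_lit 3) (nat_lit 347) (nat_lit 347) (nat_lit 86)) (XT.lf (nat_lit 0) (nat_lit 14859630339) (nat_lit 1140) (nat_lit 22955509291) (nat_lit 1216) (nat_lit 16618809839) (nat_lit 175) (nat_lit 5) (nat_lit 190) (nat_lit 3) (nat_lit 191) (nat_lit 5) (nat_lit 348) (nat_lit 347) (nat_lit 85))) (XT.nd (nat_lit 78) (nat_lit 0) (nat_lit 76) (XT.lf (nat_lit 76) (nat_lit 1148696692) (nat_lit 0) (nat_lit 14206039455) (nat_lit 1216) (nat_lit 39899689561) (nat_lit 176) (nat_lit 5) (nat_lit 175) (nat_lit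 5) (nat_lit 191) (nat_lit 5) (nat_lit 349) (nat_lit 347) (nat_lit 84)) (XT.lf (nat_lit 0) (nat_lit 16195181529) (nat_lit 1140) (nat_lit 29745933609) (nat_lit 1216) (nat_lit 10148487751) (nat_lit 176) (nat_lit 5) (nat_lit 191) (nat_lit 5) (nat_lit 192) (nat_lit 5) (nat_lit 350) (nat_lit 347) (nat_lit 83))))))))
noncomputable def xc254 : XT := (XT.nd (nat_lit 41184) (nat_lit 0) (nat_lit 608) (XT.nd (nat_lit 1014) (nat_lit 684) (nat_lit 0) (XT.nd (nat_lit 468) (nat_lit 0) (nat_lit 228) (XT.nd (nat_lit 234) (nat_lit 0) (nat_lit 76) (XT.nd (nat_lit 78) (nat_lit 0) (nat_lit 76) (XT.lf (nat_lit 0) (nat_lit 17200707074) (nat_lit 1140) (nat_lit 4796458783) (nat_lit 1216) (nat_lit 34948474735) (nat_lit 176) (nat_lit 5) (nat_lit 191) (nat_lit 5) (nat_lit 192) (nat_lit 5) (nat_lit 351) (nat_lit 347) (nat_lit 82)) (XT.nd (nat_lit 78) (nat_lit 0) (nat_lit 0) (XT.lf (nat_lit 0) (nat_lit 18468197011) (nat_lit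 1140) (nat_lit 36531861575) (nat_lit 1216) (nat_lit 2820348057) (nat_lit 177) (nat_lit 5) (nat_lit 192) (nat_lit 5) (nat_lit 193) (nat_lit 5) (nat_lit 352) (nat_lit 347) (nat_lit 81)) (XT.lf (nat_lit 0) (nat_lit 20039676536) (nat_lit 1140) (nat_lit 10684283396) (nat_lit 1216) (nat_lit 27989477939) (nat_lit 177) (nat_lit 5) (nat_lit 192) (nat_lit 5) (nat_lit 193) (nat_lit 5) (nat_lit 353) (nat_lit 347) (nat_lit 80)))) (XT.nd (nat_lit 78) (nat_lit 0) (nat_lit 76) (XT.lf (nat_lit 76) (nat_lit 16255469321) (nat_lit 0) (nat_lit 5558367073) (nat_lit 1216) (nat_lit 37814758671) (nat_lit 178) (nat_lit 5) (nat_lit 177) (nat_lit 5) (nat_lit 193) (nat_lit 5) (nat_lit 354) (nat_lit 347) (nat_lit 79)) (XT.nd (nat_lit 78) (nat_lit 0) (nat_lit 0) (XT.lf (nat_lit 0) (nat_lit 23945210996) (nat_lit 1140) (nat_lit 16542816152) (nat_lit 1216) (nat_lit 20074061205) (nat_lit 178) (nat_lit 5) (nat_lit 193) (nat_lit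 5) (nat_lit 194) (nat_lit 5) (nat_lit 355) (nat_lit 347) (nat_lit 78)) (XT.lf (nat_lit 76) (nat_lit 11256563589) (nat_lit 0) (nat_lit 15046519571) (nat_lit 1216) (nat_lit 35215627634) (nat_lit 179) (nat_lit 5) (nat_lit 178) (nat_lit 5) (nat_lit 194) (nat_lit 5) (nat_lit 356) (nat_lit 347) (nat_lit 77))))) (XT.nd (nat_lit 234) (nat_lit 0) (nat_lit 76) (XT.nd (nat_lit 78) (nat_lit 0) (nat_lit 0) (XT.lf (nat_lit 0) (nat_lit 29006990711) (nat_lit 1140) (nat_lit 22379378291) (nat_lit 1216) (nat_lit 11109404944) (nat_lit 179) (nat_lit 5) (nat_lit 194) (nat_lit 5) (nat_lit 195) (nat_lit 5) (nat_lit 357) (nat_lit 347) (nat_lit 76)) (XT.nd (nat_lit 78) (nat_lit 0) (nat_lit 76) (XT.lf (nat_lit 76) (nat_lit 6313633579) (nat_lit 0) (nat_lit 25687402702) (nat_lit 1216) (nat_lit 31494843072) (nat_lit 180) (nat_lit 5) (nat_lit 179) (nat_lit 5) (nat_lit 195) (nat_lit 5) (nat_lit 358) (nat_lit 347) (nat_lit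 75)) (XT.lf (nat_lit 0) (nat_lit 35320021566) (nat_lit 1140) (nat_lit 28203260186) (nat_lit 1216) (nat_lit 995653577) (nat_lit 180) (nat_lit 5) (nat_lit 195) (nat_lit 5) (nat_lit 196) (nat_lit 5) (nat_lit 359) (nat_lit 347) (nat_lit 74)))) (XT.nd (nat_lit 156) (nat_lit 0) (nat_lit 76) (XT.nd (nat_lit 78) (nat_lit 0) (nat_lit 0) (XT.lf (nat_lit 76) (nat_lit 1417964590) (nat_lit 0) (nat_lit 37587962026) (nat_lit 1216) (nat_lit 26558736790) (nat_lit 181) (nat_lit 5) (nat_lit 180) (nat_lit 5) (nat_lit 196) (nat_lit 5) (nat_lit 360) (nat_lit 347) (nat_lit 73)) (XT.lf (nat_lit 76) (nat_lit 32505500639) (nat_lit 0) (nat_lit 10581108278) (nat_lit 1216) (nat_lit 23546629306) (nat_lit 181) (nat_lit 5) (nat_lit 180) (nat_lit 5) (nat_lit 196) (nat_lit 5) (nat_lit 361) (nat_lit 347) (nat_lit 72))) (XT.nd (nat_lit 78) (nat_lit 0) (nat_lit 0) (XT.lf (nat_lit 0) (nat_lit 47454815310) (nat_lit 1140) (nat_lit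 3374360661) (nat_lit 1216) (nat_lit 16899742081) (nat_lit 181) (nat_lit 5) (nat_lit 196) (nat_lit 5) (nat_lit 197) (nat_lit 5) (nat_lit 362) (nat_lit 347) (nat_lit 71)) (XT.lf (nat_lit 76) (nat_lit 28757560780) (nat_lit 0) (nat_lit 23577143803) (nat_lit 1216) (nat_lit 16511345440) (nat_lit 182) (nat_lit 5) (nat_lit 181) (nat_lit 5) (nat_lit 197) (nat_lit 5) (nat_lit 363) (nat_lit 347) (nat_lit 70)))))) (XT.nd (nat_lit 39624) (nat_lit 0) (nat_lit 684) (XT.nd (nat_lit 39390) (nat_lit 0) (nat_lit 608) (XT.nd (nat_lit 78) (nat_lit 1140) (nat_lit 0) (XT.lf (nat_lit 0) (nat_lit 57438037438) (nat_lit 1140) (nat_lit 8117055028) (nat_lit 76) (nat_lit 4439292905) (nat_lit 182) (nat_lit 5) (nat_lit 197) (nat_lit 5) (nat_lit 183) (nat_lit 5) (nat_lit 364) (nat_lit 347) (nat_lit 69)) (XT.nd (nat_lit 78) (nat_lit 0) (nat_lit 0) (XT.lf (nat_lit 0) (nat_lit 25068810937) (nat_lit 1140) (nat_lit 38099540080)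 (nat_lit 1216) (nat_lit 7994604141) (nat_lit 167) (nat_lit 5) (nat_lit 182) (nat_lit 5) (nat_lit 183) (nat_lit 5) (nat_lit 365) (nat_lit 347) (nat_lit 68)) (XT.lf (nat_lit 0) (nat_lit 59416192027) (nat_lit 1140) (nat_lit 9735826420) (nat_lit 1216) (nat_lit 3212121035) (nat_lit 167) (nat_lit 5) (nat_lit 182) (nat_lit 5) (nat_lit 183) (nat_lit 5) (nat_lit 366) (nat_lit 347) (nat_lit 67)))) (XT.nd (nat_lit 78) (nat_lit 0) (nat_lit 0) (XT.lf (nat_lit 0) (nat_lit 3733660492) (nat_lit 0) (nat_lit 3733660492) (nat_lit 1140) (nat_lit 20154027983) (nat_lit 175) (nat_lit 5) (nat_lit 175) (nat_lit 3) (nat_lit 190) (nat_lit 3) (nat_lit 348) (nat_lit 348) (nat_lit 84)) (XT.nd (nat_lit 78) (nat_lit 0) (nat_lit 0) (XT.lf (nat_lit 0) (nat_lit 15346526364) (nat_lit 1140) (nat_lit 23622020743) (nat_lit 1216) (nat_lit 17097124325) (nat_lit 175) (nat_lit 5) (nat_lit 190) (nat_lit 3) (nat_lit 191) (nat_lit 5) (nat_lit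 349) (nat_lit 348) (nat_lit 83)) (XT.lf (nat_lit 76) (nat_lit 1205094226) (nat_lit 0) (nat_lit 14650404694) (nat_lit 1216) (nat_lit 41055294473) (nat_lit 176) (nat_lit 5) (nat_lit 175) (nat_lit 5) (nat_lit 191) (nat_lit 5) (nat_lit 350) (nat_lit 348) (nat_lit 82))))) (XT.nd (nat_lit 234) (nat_lit 0) (nat_lit 76) (XT.nd (nat_lit 78) (nat_lit 0) (nat_lit 0) (XT.lf (nat_lit 0) (nat_lit 16719819394) (nat_lit 1140) (nat_lit 30615615972) (nat_lit 1216) (nat_lit 10435632462) (nat_lit 176) (nat_lit 5) (nat_lit 191) (nat_lit 5) (nat_lit 192) (nat_lit 5) (nat_lit 351) (nat_lit 348) (nat_lit 81)) (XT.nd (nat_lit 78) (nat_lit 0) (nat_lit 76) (XT.lf (nat_lit 0) (nat_lit 17754381120) (nat_lit 1140) (nat_lit 4918317939) (nat_lit 1216) (nat_lit 35980123229) (nat_lit 176) (nat_lit 5) (nat_lit 191) (nat_lit 5) (nat_lit 192) (nat_lit 5) (nat_lit 352) (nat_lit 348) (nat_lit 80)) (XT.lf (nat_lit 0) (nat_lit 19058865122)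 (nat_lit 1140) (nat_lit 37604695932) (nat_lit 1216) (nat_lit 2890302873) (nat_lit 177) (nat_lit 5) (nat_lit 192) (nat_lit 5) (nat_lit 193) (nat_lit 5) (nat_lit 353) (nat_lit 348) (nat_lit 79)))) (XT.nd (nat_lit 156) (nat_lit 0) (nat_lit 76) (XT.nd (nat_lit 78) (nat_lit 0) (nat_lit 0) (XT.lf (nat_lit 0) (nat_lit 20676422367) (nat_lit 1140) (nat_lit 10982363849) (nat_lit 1216) (nat_lit 28814933515) (nat_lit 177) (nat_lit 5) (nat_lit 192) (nat_lit 5) (nat_lit 193) (nat_lit 5) (nat_lit 354) (nat_lit 348) (nat_lit 78)) (XT.lf (nat_lit 76) (nat_lit 16765361371) (nat_lit 0) (nat_lit 5737623720) (nat_lit 1216) (nat_lit 38913372797) (nat_lit 178) (nat_lit 5) (nat_lit 177) (nat_lit 5) (nat_lit 193) (nat_lit 5) (nat_lit 355) (nat_lit 348) (nat_lit 77))) (XT.nd (nat_lit 78) (nat_lit 0) (nat_lit 0) (XT.lf (nat_lit 0) (nat_lit 24697172563) (nat_lit 1140) (nat_lit 17016340237) (nat_lit 1216) (nat_lit 20664378570)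 (nat_lit 178) (nat_lit 5) (nat_lit 193) (nat_lit 5) (nat_lit 194) (nat_lit 5) (nat_lit 356) (nat_lit 348) (nat_lit 76)) (XT.lf (nat_lit 76) (nat_lit 11616797755) (nat_lit 0) (nat_lit 15508220986) (nat_lit 1216) (nat_lit 36238218108) (nat_lit 179) (nat_lit 5) (nat_lit 178) (nat_lit 5) (nat_lit 194) (nat_lit 5) (nat_lit 357) (nat_lit 348) (nat_lit 75))))))) (XT.nd (nat_lit 40326) (nat_lit 0) (nat_lit 0) (XT.nd (nat_lit 468) (nat_lit 304) (nat_lit 0) (XT.nd (nat_lit 234) (nat_lit 0) (nat_lit 76) (XT.nd (nat_lit 78) (nat_lit 0) (nat_lit 0) (XT.lf (nat_lit 0) (nat_lit 29908990743) (nat_lit 1140) (nat_lit 23027777510) (nat_lit 1216) (nat_lit 11432876682) (nat_lit 179) (nat_lit 5) (nat_lit 194) (nat_lit 5) (nat_lit 195) (nat_lit 5) (nat_lit 358) (nat_lit 348) (nat_lit 74)) (XT.nd (nat_lit 78) (nat_lit 0) (nat_lit 76) (XT.lf (nat_lit 76) (nat_lit 6525799401) (nat_lit 0) (nat_lit 26466351100) (nat_lit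 1216) (nat_lit 32407625631) (nat_lit 180) (nat_lit 5) (nat_lit 179) (nat_lit 5) (nat_lit 195) (nat_lit 5) (nat_lit 359) (nat_lit 348) (nat_lit 73)) (XT.lf (nat_lit 0) (nat_lit 36409722303) (nat_lit 1140) (nat_lit 29026235221) (nat_lit 1216) (nat_lit 1017597126) (nat_lit 180) (nat_lit 5) (nat_lit 195) (nat_lit 5) (nat_lit 196) (nat_lit 5) (nat_lit 360) (nat_lit 348) (nat_lit 72)))) (XT.nd (nat_lit 78) (nat_lit 0) (nat_lit 0) (XT.lf (nat_lit 76) (nat_lit 1483399605) (nat_lit 0) (nat_lit 38722148290) (nat_lit 1216) (nat_lit 27325127705) (nat_lit 181) (nat_lit 5) (nat_lit 180) (nat_lit 5) (nat_lit 196) (nat_lit 5) (nat_lit 361) (nat_lit 348) (nat_lit 71)) (XT.nd (nat_lit 78) (nat_lit 0) (nat_lit 76) (XT.lf (nat_lit 76) (nat_lit 33502894860) (nat_lit 0) (nat_lit 10904898228) (nat_lit 1216) (nat_lit 24223541594) (nat_lit 181) (nat_lit 5) (nat_lit 180) (nat_lit 5) (nat_lit 196) (nat_lit 5) (nat_lit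 362) (nat_lit 348) (nat_lit 70)) (XT.lf (nat_lit 0) (nat_lit 48906153748) (nat_lit 1140) (nat_lit 3453075953) (nat_lit 1216) (nat_lit 17400683217) (nat_lit 181) (nat_lit 5) (nat_lit 196) (nat_lit 5) (nat_lit 197) (nat_lit 5) (nat_lit 363) (nat_lit 348) (nat_lit 69))))) (XT.nd (nat_lit 39546) (nat_lit 0) (nat_lit 0) (XT.nd (nat_lit 78) (nat_lit 456) (nat_lit 0) (XT.lf (nat_lit 76) (nat_lit 29642582390) (nat_lit 0) (nat_lit 24289265000) (nat_lit 1216) (nat_lit 16978730447) (nat_lit 182) (nat_lit 5) (nat_lit 181) (nat_lit 5) (nat_lit 197) (nat_lit 5) (nat_lit 364) (nat_lit 348) (nat_lit 68)) (XT.nd (nat_lit 39390) (nat_lit 532) (nat_lit 0) (XT.lf (nat_lit 0) (nat_lit 59187446000) (nat_lit 1140) (nat_lit 8338047572) (nat_lit 76) (nat_lit 4567895884) (nat_lit 182) (nat_lit 5) (nat_lit 197) (nat_lit 5) (nat_lit 183) (nat_lit 5) (nat_lit 365) (nat_lit 348) (nat_lit 67)) (XT.lf (nat_lit 0) (nat_lit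 3855695948) (nat_lit 0) (nat_lit 3855695948) (nat_lit 1140) (nat_lit 20737965269) (nat_lit 175) (nat_lit 5) (nat_lit 175) (nat_lit 3) (nat_lit 190) (nat_lit 3) (nat_lit 349) (nat_lit 349) (nat_lit 82)))) (XT.nd (nat_lit 156) (nat_lit 0) (nat_lit 76) (XT.nd (nat_lit 78) (nat_lit 0) (nat_lit 0) (XT.lf (nat_lit 0) (nat_lit 15845669553) (nat_lit 1140) (nat_lit 24309799258) (nat_lit 1216) (nat_lit 17590950666) (nat_lit 175) (nat_lit 5) (nat_lit 190) (nat_lit 3) (nat_lit 191) (nat_lit 5) (nat_lit 350) (nat_lit 349) (nat_lit 81)) (XT.lf (nat_lit 76) (nat_lit 1261924433) (nat_lit 0) (nat_lit 15107057051) (nat_lit 1216) (nat_lit 42247943246) (nat_lit 176) (nat_lit 5) (nat_lit 175) (nat_lit 5) (nat_lit 191) (nat_lit 5) (nat_lit 351) (nat_lit 349) (nat_lit 80))) (XT.nd (nat_lit 78) (nat_lit 0) (nat_lit 0) (XT.lf (nat_lit 0) (nat_lit 17257970126) (nat_lit 1140) (nat_lit 31512691628) (nat_lit 1216) (nat_lit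 10732385175) (nat_lit 176) (nat_lit 5) (nat_lit 191) (nat_lit 5) (nat_lit 192) (nat_lit 5) (nat_lit 352) (nat_lit 349) (nat_lit 79)) (XT.lf (nat_lit 0) (nat_lit 18322503961) (nat_lit 1140) (nat_lit 5045097746) (nat_lit 1216) (nat_lit 37043685895) (nat_lit 176) (nat_lit 5) (nat_lit 191) (nat_lit 5) (nat_lit 192) (nat_lit 5) (nat_lit 353) (nat_lit 349) (nat_lit 78)))))) (XT.nd (nat_lit 546) (nat_lit 152) (nat_lit 0) (XT.nd (nat_lit 234) (nat_lit 0) (nat_lit 76) (XT.nd (nat_lit 78) (nat_lit 0) (nat_lit 0) (XT.lf (nat_lit 0) (nat_lit 19665151013) (nat_lit 1140) (nat_lit 38711042587) (nat_lit 1216) (nat_lit 2963197626) (nat_lit 177) (nat_lit 5) (nat_lit 192) (nat_lit 5) (nat_lit 193) (nat_lit 5) (nat_lit 354) (nat_lit 349) (nat_lit 77)) (XT.nd (nat_lit 78) (nat_lit 0) (nat_lit 0) (XT.lf (nat_lit 0) (nat_lit 21330229539) (nat_lit 1140) (nat_lit 11290675325) (nat_lit 1216) (nat_lit 29665969546) (nat_lit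 177) (nat_lit 5) (nat_lit 192) (nat_lit 5) (nat_lit 193) (nat_lit 5) (nat_lit 355) (nat_lit 349) (nat_lit 76)) (XT.lf (nat_lit 76) (nat_lit 17289274206) (nat_lit 0) (nat_lit 5921540192) (nat_lit 1216) (nat_lit 40047002057) (nat_lit 178) (nat_lit 5) (nat_lit 177) (nat_lit 5) (nat_lit 193) (nat_lit 5) (nat_lit 356) (nat_lit 349) (nat_lit 75)))) (XT.nd (nat_lit 156) (nat_lit 0) (nat_lit 76) (XT.nd (nat_lit 78) (nat_lit 0) (nat_lit 0) (XT.lf (nat_lit 0) (nat_lit 25469763898) (nat_lit 1140) (nat_lit 17505376585) (nat_lit 1216) (nat_lit 21273088822) (nat_lit 178) (nat_lit 5) (nat_lit 193) (nat_lit 5) (nat_lit 194) (nat_lit 5) (nat_lit 357) (nat_lit 349) (nat_lit 74)) (XT.lf (nat_lit 76) (nat_lit 11986545215) (nat_lit 0) (nat_lit 15983181846) (nat_lit 1216) (nat_lit 37293431053) (nat_lit 179) (nat_lit 5) (nat_lit 178) (nat_lit 5) (nat_lit 194) (nat_lit 5) (nat_lit 358) (nat_lit 349) (nat_lit 73)))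 (XT.nd (nat_lit 78) (nat_lit 0) (nat_lit 0) (XT.lf (nat_lit 0) (nat_lit 30836225881) (nat_lit 1140) (nat_lit 23696947974) (nat_lit 1216) (nat_lit 11766615729) (nat_lit 179) (nat_lit 5) (nat_lit 194) (nat_lit 5) (nat_lit 195) (nat_lit 5) (nat_lit 359) (nat_lit 349) (nat_lit 72)) (XT.lf (nat_lit 76) (nat_lit 6743023864) (nat_lit 0) (nat_lit 27268189985) (nat_lit 1216) (nat_lit 33349632199) (nat_lit 180) (nat_lit 5) (nat_lit 179) (nat_lit 5) (nat_lit 195) (nat_lit 5) (nat_lit 360) (nat_lit 349) (nat_lit 71))))) (XT.nd (nat_lit 234) (nat_lit 380) (nat_lit 0) (XT.nd (nat_lit 78) (nat_lit 0) (nat_lit 0) (XT.lf (nat_lit 0) (nat_lit 37530386195) (nat_lit 1140) (nat_lit 29875226848) (nat_lit 1216) (nat_lit 1040653970) (nat_lit 180) (nat_lit 5) (nat_lit 195) (nat_lit 5) (nat_lit 196) (nat_lit 5) (nat_lit 361) (nat_lit 349) (nat_lit 70)) (XT.nd (nat_lit 78) (nat_lit 0) (nat_lit 0) (XT.lf (nat_lit 76) (nat_lit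 1549483342) (nat_lit 0) (nat_lit 39889984293) (nat_lit 1216) (nat_lit 28116253778) (nat_lit 181) (nat_lit 5) (nat_lit 180) (nat_lit 5) (nat_lit 196) (nat_lit 5) (nat_lit 362) (nat_lit 349) (nat_lit 69)) (XT.lf (nat_lit 76) (nat_lit 34528934860) (nat_lit 0) (nat_lit 11238036976) (nat_lit 1216) (nat_lit 24922453902) (nat_lit 181) (nat_lit 5) (nat_lit 180) (nat_lit 5) (nat_lit 196) (nat_lit 5) (nat_lit 363) (nat_lit 349) (nat_lit 68)))) (XT.nd (nat_lit 39624) (nat_lit 0) (nat_lit 0) (XT.nd (nat_lit 39546) (nat_lit 456) (nat_lit 0) (XT.lf (nat_lit 0) (nat_lit 50399442592) (nat_lit 1140) (nat_lit 3535445187) (nat_lit 1216) (nat_lit 17916999947) (nat_lit 181) (nat_lit 5) (nat_lit 196) (nat_lit 5) (nat_lit 197) (nat_lit 5) (nat_lit 364) (nat_lit 349) (nat_lit 67)) (XT.lf (nat_lit 0) (nat_lit 3980816955) (nat_lit 0) (nat_lit 3980816955) (nat_lit 1140) (nat_lit 21340607994) (nat_lit 175) (nat_lit 5)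 (nat_lit 175) (nat_lit 3) (nat_lit 190) (nat_lit 3) (nat_lit 350) (nat_lit 350) (nat_lit 80))) (XT.nd (nat_lit 78) (nat_lit 0) (nat_lit 0) (XT.lf (nat_lit 0) (nat_lit 16357562778) (nat_lit 1140) (nat_lit 25019409847) (nat_lit 1216) (nat_lit 18100687492) (nat_lit 175) (nat_lit 5) (nat_lit 190) (nat_lit 3) (nat_lit 191) (nat_lit 5) (nat_lit 351) (nat_lit 350) (nat_lit 79)) (XT.lf (nat_lit 76) (nat_lit 1319272580) (nat_lit 0) (nat_lit 15576425060) (nat_lit 1216) (nat_lit 43478610819) (nat_lit 176) (nat_lit 5) (nat_lit 175) (nat_lit 5) (nat_lit 191) (nat_lit 5) (nat_lit 352) (nat_lit 350) (nat_lit 78))))))))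
noncomputable def xc255 : XT := (XT.nd (nat_lit 81432) (nat_lit 0) (nat_lit 0) (XT.nd (nat_lit 40638) (nat_lit 0) (nat_lit 0) (XT.nd (nat_lit 468) (nat_lit 76) (nat_lit 0) (XT.nd (nat_lit 234) (nat_lit 0) (nat_lit 76) (XT.nd (nat_lit 78) (nat_lit 0) (nat_lit 0) (XT.lf (nat_lit 0) (nat_lit 17810166907) (nat_lit 1140) (nat_lit 32437907589) (nat_lit 1216) (nat_lit 11038977089) (nat_lit 176) (nat_lit 5) (nat_lit 191) (nat_lit 5) (nat_lit 192) (nat_lit 5) (nat_lit 353) (nat_lit 350) (nat_lit 77)) (XT.nd (nat_lit 78) (nat_lit 0) (nat_lit 76) (XT.lf (nat_lit 0) (nat_lit 18905633136) (nat_lit 1140) (nat_lit 5176873215) (nat_lit 1216) (nat_lit 38140064782) (nat_lit 176) (nat_lit 5) (nat_lit 191) (nat_lit 5) (nat_lit 192) (nat_lit 5) (nat_lit 354) (nat_lit 350) (nat_lit 76)) (XT.lf (nat_lit 0) (nat_lit 20287643894) (nat_lit 1140) (nat_lit 39851830719) (nat_lit 1216) (nat_lit 3039072222) (nat_lit 177)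 (nat_lit 5) (nat_lit 192) (nat_lit 5) (nat_lit 193) (nat_lit 5) (nat_lit 355) (nat_lit 350) (nat_lit 75)))) (XT.nd (nat_lit 78) (nat_lit 0) (nat_lit 0) (XT.lf (nat_lit 0) (nat_lit 22001727058) (nat_lit 1140) (nat_lit 11609450783) (nat_lit 1216) (nat_lit 30543306562) (nat_lit 177) (nat_lit 5) (nat_lit 192) (nat_lit 5) (nat_lit 193) (nat_lit 5) (nat_lit 356) (nat_lit 350) (nat_lit 74)) (XT.nd (nat_lit 78) (nat_lit 0) (nat_lit 76) (XT.lf (nat_lit 76) (nat_lit 17827701696) (nat_lit 0) (nat_lit 6110297493) (nat_lit 1216) (nat_lit 41216578841) (nat_lit 178) (nat_lit 5) (nat_lit 177) (nat_lit 5) (nat_lit 193) (nat_lit 5) (nat_lit 357) (nat_lit 350) (nat_lit 73)) (XT.lf (nat_lit 0) (nat_lit 26263714632) (nat_lit 1140) (nat_lit 18010315563) (nat_lit 1216) (nat_lit 21900704518) (nat_lit 178) (nat_lit 5) (nat_lit 193) (nat_lit 5) (nat_lit 194) (nat_lit 5) (nat_lit 358) (nat_lit 350) (nat_lit 72))))) (XT.nd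 (nat_lit 234) (nat_lit 228) (nat_lit 0) (XT.nd (nat_lit 78) (nat_lit 0) (nat_lit 76) (XT.lf (nat_lit 76) (nat_lit 12366165633) (nat_lit 0) (nat_lit 16471833895) (nat_lit 1216) (nat_lit 38382133505) (nat_lit 179) (nat_lit 5) (nat_lit 178) (nat_lit 5) (nat_lit 194) (nat_lit 5) (nat_lit 359) (nat_lit 350) (nat_lit 71)) (XT.nd (nat_lit 78) (nat_lit 0) (nat_lit 0) (XT.lf (nat_lit 0) (nat_lit 31789557936) (nat_lit 1140) (nat_lit 24387437089) (nat_lit 1216) (nat_lit 12110897777) (nat_lit 179) (nat_lit 5) (nat_lit 194) (nat_lit 5) (nat_lit 195) (nat_lit 5) (nat_lit 360) (nat_lit 350) (nat_lit 70)) (XT.lf (nat_lit 76) (nat_lit 6965533715) (nat_lit 0) (nat_lit 28093633508) (nat_lit 1216) (nat_lit 34321633842) (nat_lit 180) (nat_lit 5) (nat_lit 179) (nat_lit 5) (nat_lit 195) (nat_lit 5) (nat_lit 361) (nat_lit 350) (nat_lit 69)))) (XT.nd (nat_lit 39780) (nat_lit 380) (nat_lit 0) (XT.nd (nat_lit 78) (nat_lit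 0) (nat_lit 0) (XT.lf (nat_lit 0) (nat_lit 38683041321) (nat_lit 1140) (nat_lit 30750939370) (nat_lit 1216) (nat_lit 1064831389) (nat_lit 180) (nat_lit 5) (nat_lit 195) (nat_lit 5) (nat_lit 196) (nat_lit 5) (nat_lit 362) (nat_lit 350) (nat_lit 68)) (XT.lf (nat_lit 76) (nat_lit 1616310711) (nat_lit 0) (nat_lit 41092501105) (nat_lit 1216) (nat_lit 28932756984) (nat_lit 181) (nat_lit 5) (nat_lit 180) (nat_lit 5) (nat_lit 196) (nat_lit 5) (nat_lit 363) (nat_lit 350) (nat_lit 67))) (XT.nd (nat_lit 78) (nat_lit 0) (nat_lit 0) (XT.lf (nat_lit 0) (nat_lit 4109149116) (nat_lit 0) (nat_lit 4109149116) (nat_lit 1140) (nat_lit 21962449164) (nat_lit 175) (nat_lit 5) (nat_lit 175) (nat_lit 3) (nat_lit 190) (nat_lit 3) (nat_lit 351) (nat_lit 351) (nat_lit 78)) (XT.lf (nat_lit 0) (nat_lit 16882716222) (nat_lit 1140) (nat_lit 25751438661) (nat_lit 1216) (nat_lit 18626749220) (nat_lit 175) (nat_lit 5) (nat_lit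 190) (nat_lit 3) (nat_lit 191) (nat_lit 5) (nat_lit 352) (nat_lit 351) (nat_lit 77)))))) (XT.nd (nat_lit 468) (nat_lit 0) (nat_lit 0) (XT.nd (nat_lit 234) (nat_lit 0) (nat_lit 152) (XT.nd (nat_lit 78) (nat_lit 0) (nat_lit 76) (XT.lf (nat_lit 76) (nat_lit 1377222342) (nat_lit 0) (nat_lit 16058946672) (nat_lit 1216) (nat_lit 44748309209) (nat_lit 176) (nat_lit 5) (nat_lit 175) (nat_lit 5) (nat_lit 191) (nat_lit 5) (nat_lit 353) (nat_lit 351) (nat_lit 76)) (XT.nd (nat_lit 78) (nat_lit 0) (nat_lit 0) (XT.lf (nat_lit 0) (nat_lit 18376951580) (nat_lit 1140) (nat_lit 33392037571) (nat_lit 1216) (nat_lit 11355649616) (nat_lit 176) (nat_lit 5) (nat_lit 191) (nat_lit 5) (nat_lit 192) (nat_lit 5) (nat_lit 354) (nat_lit 351) (nat_lit 75)) (XT.lf (nat_lit 0) (nat_lit 19504335786) (nat_lit 1140) (nat_lit 5313725774) (nat_lit 1216) (nat_lit 39270192176) (nat_lit 176) (nat_lit 5) (nat_lit 191) (nat_lit 5) (nat_lit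 192) (nat_lit 5) (nat_lit 355) (nat_lit 351) (nat_lit 74)))) (XT.nd (nat_lit 78) (nat_lit 0) (nat_lit 0) (XT.lf (nat_lit 0) (nat_lit 20926943728) (nat_lit 1140) (nat_lit 41028021756) (nat_lit 1216) (nat_lit 3117970533) (nat_lit 177) (nat_lit 5) (nat_lit 192) (nat_lit 5) (nat_lit 193) (nat_lit 5) (nat_lit 356) (nat_lit 351) (nat_lit 73)) (XT.nd (nat_lit 78) (nat_lit 0) (nat_lit 0) (XT.lf (nat_lit 0) (nat_lit 22691556070) (nat_lit 1140) (nat_lit 11938934419) (nat_lit 1216) (nat_lit 31447689394) (nat_lit 177) (nat_lit 5) (nat_lit 192) (nat_lit 5) (nat_lit 193) (nat_lit 5) (nat_lit 357) (nat_lit 351) (nat_lit 72)) (XT.lf (nat_lit 76) (nat_lit 18381148323) (nat_lit 0) (nat_lit 6304079690) (nat_lit 1216) (nat_lit 42423070289) (nat_lit 178) (nat_lit 5) (nat_lit 177) (nat_lit 5) (nat_lit 193) (nat_lit 5) (nat_lit 358) (nat_lit 351) (nat_lit 71))))) (XT.nd (nat_lit 234) (nat_lit 228) (nat_lit 0) (XT.nd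 (nat_lit 78) (nat_lit 0) (nat_lit 0) (XT.lf (nat_lit 0) (nat_lit 27079769928) (nat_lit 1140) (nat_lit 18531563554) (nat_lit 1216) (nat_lit 22547755847) (nat_lit 178) (nat_lit 5) (nat_lit 193) (nat_lit 5) (nat_lit 194) (nat_lit 5) (nat_lit 359) (nat_lit 351) (nat_lit 70)) (XT.nd (nat_lit 78) (nat_lit 0) (nat_lit 76) (XT.lf (nat_lit 76) (nat_lit 12756025201) (nat_lit 0) (nat_lit 16974619880) (nat_lit 1216) (nat_lit 39505224921) (nat_lit 179) (nat_lit 5) (nat_lit 178) (nat_lit 5) (nat_lit 194) (nat_lit 5) (nat_lit 360) (nat_lit 351) (nat_lit 69)) (XT.lf (nat_lit 0) (nat_lit 32769868558) (nat_lit 1140) (nat_lit 25099813030) (nat_lit 1216) (nat_lit 12466008646) (nat_lit 179) (nat_lit 5) (nat_lit 194) (nat_lit 5) (nat_lit 195) (nat_lit 5) (nat_lit 361) (nat_lit 351) (nat_lit 68)))) (XT.nd (nat_lit 39936) (nat_lit 0) (nat_lit 0) (XT.nd (nat_lit 39858) (nat_lit 304) (nat_lit 0) (XT.lf (nat_lit 76) (nat_lit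 7193558200) (nat_lit 0) (nat_lit 28943415673) (nat_lit 1216) (nat_lit 35324430823) (nat_lit 180) (nat_lit 5) (nat_lit 179) (nat_lit 5) (nat_lit 195) (nat_lit 5) (nat_lit 362) (nat_lit 351) (nat_lit 67)) (XT.lf (nat_lit 0) (nat_lit 4240819906) (nat_lit 0) (nat_lit 4240819906) (nat_lit 1140) (nat_lit 22604000488) (nat_lit 175) (nat_lit 5) (nat_lit 175) (nat_lit 3) (nat_lit 190) (nat_lit 3) (nat_lit 352) (nat_lit 352) (nat_lit 76))) (XT.nd (nat_lit 78) (nat_lit 0) (nat_lit 0) (XT.lf (nat_lit 0) (nat_lit 17421648045) (nat_lit 1140) (nat_lit 26506493385) (nat_lit 1216) (nat_lit 19169566309) (nat_lit 175) (nat_lit 5) (nat_lit 190) (nat_lit 3) (nat_lit 191) (nat_lit 5) (nat_lit 353) (nat_lit 352) (nat_lit 75)) (XT.lf (nat_lit 76) (nat_lit 1435855993) (nat_lit 0) (nat_lit 16555069733) (nat_lit 1216) (nat_lit 46058088173) (nat_lit 176) (nat_lit 5) (nat_lit 175) (nat_lit 5) (nat_lit 191) (nat_lit 5) (nat_lit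 354) (nat_lit 352) (nat_lit 74))))))) (XT.nd (nat_lit 40950) (nat_lit 0) (nat_lit 0) (XT.nd (nat_lit 468) (nat_lit 76) (nat_lit 0) (XT.nd (nat_lit 234) (nat_lit 0) (nat_lit 76) (XT.nd (nat_lit 78) (nat_lit 0) (nat_lit 0) (XT.lf (nat_lit 0) (nat_lit 18958875327) (nat_lit 1140) (nat_lit 34375882545) (nat_lit 1216) (nat_lit 11682654492) (nat_lit 176) (nat_lit 5) (nat_lit 191) (nat_lit 5) (nat_lit 192) (nat_lit 5) (nat_lit 355) (nat_lit 352) (nat_lit 73)) (XT.nd (nat_lit 78) (nat_lit 0) (nat_lit 76) (XT.lf (nat_lit 0) (nat_lit 20119189355) (nat_lit 1140) (nat_lit 5455743225) (nat_lit 1216) (nat_lit 40435031328) (nat_lit 176) (nat_lit 5) (nat_lit 191) (nat_lit 5) (nat_lit 192) (nat_lit 5) (nat_lit 356) (nat_lit 352) (nat_lit 72)) (XT.lf (nat_lit 0) (nat_lit 21583661943) (nat_lit 1140) (nat_lit 42240610091) (nat_lit 1216) (nat_lit 3199940362) (nat_lit 177) (nat_lit 5) (nat_lit 192) (nat_lit 5) (nat_lit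 193) (nat_lit 5) (nat_lit 357) (nat_lit 352) (nat_lit 71)))) (XT.nd (nat_lit 78) (nat_lit 0) (nat_lit 0) (XT.lf (nat_lit 0) (nat_lit 23400370619) (nat_lit 1140) (nat_lit 12279381754) (nat_lit 1216) (nat_lit 32379887759) (nat_lit 177) (nat_lit 5) (nat_lit 192) (nat_lit 5) (nat_lit 193) (nat_lit 5) (nat_lit 358) (nat_lit 352) (nat_lit 70)) (XT.nd (nat_lit 78) (nat_lit 0) (nat_lit 76) (XT.lf (nat_lit 76) (nat_lit 18950129737) (nat_lit 0) (nat_lit 6503074144) (nat_lit 1216) (nat_lit 43667478943) (nat_lit 178) (nat_lit 5) (nat_lit 177) (nat_lit 5) (nat_lit 193) (nat_lit 5) (nat_lit 359) (nat_lit 352) (nat_lit 69)) (XT.lf (nat_lit 0) (nat_lit 27918691310) (nat_lit 1140) (nat_lit 19069543191) (nat_lit 1216) (nat_lit 23214791023) (nat_lit 178) (nat_lit 5) (nat_lit 193) (nat_lit 5) (nat_lit 194) (nat_lit 5) (nat_lit 360) (nat_lit 352) (nat_lit 68))))) (XT.nd (nat_lit 40170) (nat_lit 0) (nat_lit 0) (XT.nd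 (nat_lit 40014) (nat_lit 228) (nat_lit 0) (XT.lf (nat_lit 76) (nat_lit 13156497076) (nat_lit 0) (nat_lit 17491993992) (nat_lit 1216) (nat_lit 40663637783) (nat_lit 179) (nat_lit 5) (nat_lit 178) (nat_lit 5) (nat_lit 194) (nat_lit 5) (nat_lit 361) (nat_lit 352) (nat_lit 67)) (XT.nd (nat_lit 78) (nat_lit 0) (nat_lit 0) (XT.lf (nat_lit 0) (nat_lit 4375958837) (nat_lit 0) (nat_lit 4375958837) (nat_lit 1140) (nat_lit 23265792715) (nat_lit 175) (nat_lit 5) (nat_lit 175) (nat_lit 3) (nat_lit 190) (nat_lit 3) (nat_lit 353) (nat_lit 353) (nat_lit 74)) (XT.lf (nat_lit 0) (nat_lit 17974885040) (nat_lit 1140) (nat_lit 27285203659) (nat_lit 1216) (nat_lit 19729585538) (nat_lit 175) (nat_lit 5) (nat_lit 190) (nat_lit 3) (nat_lit 191) (nat_lit 5) (nat_lit 354) (nat_lit 353) (nat_lit 73)))) (XT.nd (nat_lit 156) (nat_lit 0) (nat_lit 76) (XT.nd (nat_lit 78) (nat_lit 0) (nat_lit 76) (XT.lf (nat_lit 76) (nat_lit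 1495254588) (nat_lit 0) (nat_lit 17065252470) (nat_lit 1216) (nat_lit 47409035915) (nat_lit 176) (nat_lit 5) (nat_lit 175) (nat_lit 5) (nat_lit 191) (nat_lit 5) (nat_lit 355) (nat_lit 353) (nat_lit 72)) (XT.lf (nat_lit 0) (nat_lit 19556499349) (nat_lit 1140) (nat_lit 35390271330) (nat_lit 1216) (nat_lit 12020253920) (nat_lit 176) (nat_lit 5) (nat_lit 191) (nat_lit 5) (nat_lit 192) (nat_lit 5) (nat_lit 356) (nat_lit 353) (nat_lit 71))) (XT.nd (nat_lit 78) (nat_lit 0) (nat_lit 76) (XT.lf (nat_lit 0) (nat_lit 20750782280) (nat_lit 1140) (nat_lit 5603019704) (nat_lit 1216) (nat_lit 41635577212) (nat_lit 176) (nat_lit 5) (nat_lit 191) (nat_lit 5) (nat_lit 192) (nat_lit 5) (nat_lit 357) (nat_lit 353) (nat_lit 70)) (XT.lf (nat_lit 0) (nat_lit 22258422158) (nat_lit 1140) (nat_lit 43490623833) (nat_lit 1216) (nat_lit 3285033412) (nat_lit 177) (nat_lit 5) (nat_lit 192) (nat_lit 5) (nat_lit 193) (nat_lit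 5) (nat_lit 358) (nat_lit 353) (nat_lit 69)))))) (XT.nd (nat_lit 40638) (nat_lit 0) (nat_lit 0) (XT.nd (nat_lit 40326) (nat_lit 0) (nat_lit 0) (XT.nd (nat_lit 78) (nat_lit 152) (nat_lit 0) (XT.lf (nat_lit 0) (nat_lit 24128838395) (nat_lit 1140) (nat_lit 12631059749) (nat_lit 1216) (nat_lit 33340696856) (nat_lit 177) (nat_lit 5) (nat_lit 192) (nat_lit 5) (nat_lit 193) (nat_lit 5) (nat_lit 359) (nat_lit 353) (nat_lit 68)) (XT.nd (nat_lit 40170) (nat_lit 152) (nat_lit 0) (XT.lf (nat_lit 76) (nat_lit 19535173327) (nat_lit 0) (nat_lit 6707471736) (nat_lit 1216) (nat_lit 44950843443) (nat_lit 178) (nat_lit 5) (nat_lit 177) (nat_lit 5) (nat_lit 193) (nat_lit 5) (nat_lit 360) (nat_lit 353) (nat_lit 67)) (XT.lf (nat_lit 0) (nat_lit 4514697621) (nat_lit 0) (nat_lit 4514697621) (nat_lit 1140) (nat_lit 23948375990) (nat_lit 175) (nat_lit 5) (nat_lit 175) (nat_lit 3) (nat_lit 190) (nat_lit 3) (nat_lit 354)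 (nat_lit 354) (nat_lit 72)))) (XT.nd (nat_lit 156) (nat_lit 0) (nat_lit 76) (XT.nd (nat_lit 78) (nat_lit 0) (nat_lit 0) (XT.lf (nat_lit 0) (nat_lit 18542963294) (nat_lit 1140) (nat_lit 28088221520) (nat_lit 1216) (nat_lit 20307270295) (nat_lit 175) (nat_lit 5) (nat_lit 190) (nat_lit 3) (nat_lit 191) (nat_lit 5) (nat_lit 355) (nat_lit 354) (nat_lit 71)) (XT.lf (nat_lit 76) (nat_lit 1555498139) (nat_lit 0) (nat_lit 17589963975) (nat_lit 1216) (nat_lit 48802279843) (nat_lit 176) (nat_lit 5) (nat_lit 175) (nat_lit 5) (nat_lit 191) (nat_lit 5) (nat_lit 356) (nat_lit 354) (nat_lit 70))) (XT.nd (nat_lit 78) (nat_lit 0) (nat_lit 0) (XT.lf (nat_lit 0) (nat_lit 20170395538) (nat_lit 1140) (nat_lit 36436061200) (nat_lit 1216) (nat_lit 12368720707) (nat_lit 176) (nat_lit 5) (nat_lit 191) (nat_lit 5) (nat_lit 192) (nat_lit 5) (nat_lit 357) (nat_lit 354) (nat_lit 69)) (XT.lf (nat_lit 0) (nat_lit 21399714689)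 (nat_lit 1140) (nat_lit 5755655665) (nat_lit 1216) (nat_lit 42872857314) (nat_lit 176) (nat_lit 5) (nat_lit 191) (nat_lit 5) (nat_lit 192) (nat_lit 5) (nat_lit 358) (nat_lit 354) (nat_lit 68))))) (XT.nd (nat_lit 40482) (nat_lit 0) (nat_lit 0) (XT.nd (nat_lit 40326) (nat_lit 152) (nat_lit 0) (XT.lf (nat_lit 0) (nat_lit 22951860898) (nat_lit 1140) (nat_lit 44779125599) (nat_lit 1216) (nat_lit 3373305253) (nat_lit 177) (nat_lit 5) (nat_lit 192) (nat_lit 5) (nat_lit 193) (nat_lit 5) (nat_lit 359) (nat_lit 354) (nat_lit 67)) (XT.nd (nat_lit 78) (nat_lit 0) (nat_lit 0) (XT.lf (nat_lit 0) (nat_lit 4657170333) (nat_lit 0) (nat_lit 4657170333) (nat_lit 1140) (nat_lit 24652320241) (nat_lit 175) (nat_lit 5) (nat_lit 175) (nat_lit 3) (nat_lit 190) (nat_lit 3) (nat_lit 355) (nat_lit 355) (nat_lit 70)) (XT.lf (nat_lit 0) (nat_lit 19126428838) (nat_lit 1140) (nat_lit 28916221876) (nat_lit 1216) (nat_lit 20903100894)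 (nat_lit 175) (nat_lit 5) (nat_lit 190) (nat_lit 3) (nat_lit 191) (nat_lit 5) (nat_lit 356) (nat_lit 355) (nat_lit 69)))) (XT.nd (nat_lit 40560) (nat_lit 0) (nat_lit 0) (XT.nd (nat_lit 78) (nat_lit 0) (nat_lit 76) (XT.lf (nat_lit 76) (nat_lit 1616665782) (nat_lit 0) (nat_lit 18129684697) (nat_lit 1216) (nat_lit 50238987366) (nat_lit 176) (nat_lit 5) (nat_lit 175) (nat_lit 5) (nat_lit 191) (nat_lit 5) (nat_lit 357) (nat_lit 355) (nat_lit 68)) (XT.lf (nat_lit 0) (nat_lit 20801147152) (nat_lit 1140) (nat_lit 37514138540) (nat_lit 1216) (nat_lit 12728338431) (nat_lit 176) (nat_lit 5) (nat_lit 191) (nat_lit 5) (nat_lit 192) (nat_lit 5) (nat_lit 358) (nat_lit 355) (nat_lit 67))) (XT.nd (nat_lit 78) (nat_lit 0) (nat_lit 0) (XT.lf (nat_lit 0) (nat_lit 4803513573) (nat_lit 0) (nat_lit 4803513573) (nat_lit 1140) (nat_lit 25378215583) (nat_lit 175) (nat_lit 5) (nat_lit 175) (nat_lit 3) (nat_lit 190) (nat_lit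 3) (nat_lit 356) (nat_lit 356) (nat_lit 68)) (XT.lf (nat_lit 0) (nat_lit 19725838298) (nat_lit 1140) (nat_lit 29769902999) (nat_lit 1216) (nat_lit 21517574909) (nat_lit 175) (nat_lit 5) (nat_lit 190) (nat_lit 3) (nat_lit 191) (nat_lit 5) (nat_lit 357) (nat_lit 356) (nat_lit 67))))))))

set_option maxRecDepth 10000000 in
noncomputable def Tp : PT := (PT.nd (nat_lit 5494866) (PT.nd (nat_lit 4887012) (PT.nd (nat_lit 4318938) (PT.nd (nat_lit 3831594) (PT.nd (nat_lit 3425526) pc0 pc1) (PT.nd (nat_lit 284154) pc2 pc3)) (PT.nd (nat_lit 324636) (PT.nd (nat_lit 202254) pc4 pc5) (PT.nd (nat_lit 122070) pc6 pc7))) (PT.nd (nat_lit 325650) (PT.nd (nat_lit 163410) (PT.nd (nat_lit 81822) pc8 pc9) (PT.nd (nat_lit 81276) pc10 pc11)) (PT.nd (nat_lit 160758) (PT.nd (nat_lit 80652) pc12 pc13) (PT.nd (nat_lit 41964) pc14 pc15)))) (PT.nd (nat_lit 365196) (PT.nd (nat_lit 202410) (PT.nd (nat_lit 82992) (PT.nd (nat_lit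 41496) pc16 pc17) (PT.nd (nat_lit 41340) pc18 pc19)) (PT.nd (nat_lit 81666) (PT.nd (nat_lit 40872) pc20 pc21) (PT.nd (nat_lit 40638) pc22 pc23))) (PT.nd (nat_lit 166218) (PT.nd (nat_lit 80496) (PT.nd (nat_lit 40326) pc24 pc25) (PT.nd (nat_lit 41340) pc26 pc27)) (PT.nd (nat_lit 203112) (PT.nd (nat_lit 81432) pc28 pc29) (PT.nd (nat_lit 156780) pc30 pc31)))))

set_option maxRecDepth 10000000 in
noncomputable def Tx : XT := (XT.nd (nat_lit 7590492) (nat_lit 0) (nat_lit 228) XT.nil (XT.nd (nat_lit 6904560) (nat_lit 0) (nat_lit 0) (XT.nd (nat_lit 3324282) (nat_lit 0) (nat_lit 380) (XT.nd (nat_lit 2311608) (nat_lit 0) (nat_lit 76) (XT.nd (nat_lit 1620606) (nat_lit 0) (nat_lit 0) (XT.nd (nat_lit 1133730) (nat_lit 0) (nat_lit 0) (XT.nd (nat_lit 770874) (nat_lit 0) (nat_lit 0) (XT.nd (nat_lit 527436) (nat_lit 0) (nat_lit 0) (XT.nd (nat_lit 364806) (nat_lit 0) (nat_lit 0) (XT.nd (nat_lit 243204) (nat_lit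 0) (nat_lit 0) xc0 xc1) (XT.nd (nat_lit 81588) (nat_lit 0) (nat_lit 0) xc2 xc3)) (XT.nd (nat_lit 122382) (nat_lit 0) (nat_lit 0) (XT.nd (nat_lit 80340) (nat_lit 0) (nat_lit 0) xc4 xc5) (XT.nd (nat_lit 79482) (nat_lit 0) (nat_lit 0) xc6 xc7))) (XT.nd (nat_lit 201240) (nat_lit 0) (nat_lit 0) (XT.nd (nat_lit 82602) (nat_lit 0) (nat_lit 0) (XT.nd (nat_lit 41340) (nat_lit 0) (nat_lit 0) xc8 xc9) (XT.nd (nat_lit 77844) (nat_lit 0) (nat_lit 0) xc10 xc11)) (XT.nd (nat_lit 81042) (nat_lit 0) (nat_lit 0) (XT.nd (nat_lit 40560) (nat_lit 0) (nat_lit 0) xc12 xc13) (XT.nd (nat_lit 40326) (nat_lit 0) (nat_lit 0) xc14 xc15)))) (XT.nd (nat_lit 246246) (nat_lit 0) (nat_lit 0) (XT.nd (nat_lit 123786) (nat_lit 0) (nat_lit 0) (XT.nd (nat_lit 44148) (nat_lit 0) (nat_lit 0) (XT.nd (nat_lit 4056) (nat_lit 0) (nat_lit 0) xc16 xc17) (XT.nd (nat_lit 39858) (nat_lit 0) (nat_lit 0) xc18 xc19)) (XT.nd (nat_lit 79014) (nat_lit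 0) (nat_lit 0) (XT.nd (nat_lit 39546) (nat_lit 0) (nat_lit 0) xc20 xc21) (XT.nd (nat_lit 4134) (nat_lit 76) (nat_lit 0) xc22 xc23))) (XT.nd (nat_lit 120978) (nat_lit 0) (nat_lit 0) (XT.nd (nat_lit 78078) (nat_lit 0) (nat_lit 0) (XT.nd (nat_lit 39078) (nat_lit 0) (nat_lit 0) xc24 xc25) (XT.nd (nat_lit 4056) (nat_lit 76) (nat_lit 0) xc26 xc27)) (XT.nd (nat_lit 42744) (nat_lit 0) (nat_lit 0) (XT.nd (nat_lit 38610) (nat_lit 0) (nat_lit 76) xc28 xc29) (XT.nd (nat_lit 38532) (nat_lit 0) (nat_lit 0) xc30 xc31))))) (XT.nd (nat_lit 367536) (nat_lit 0) (nat_lit 76) (XT.nd (nat_lit 202098) (nat_lit 0) (nat_lit 76) (XT.nd (nat_lit 84552) (nat_lit 0) (nat_lit 76) (XT.nd (nat_lit 42354) (nat_lit 0) (nat_lit 0) (XT.nd (nat_lit 4056) (nat_lit 76) (nat_lit 0) xc32 xc33) (XT.nd (nat_lit 38064) (nat_lit 0) (nat_lit 228) xc34 xc35)) (XT.nd (nat_lit 42042) (nat_lit 0) (nat_lit 0) (XT.nd (nat_lit 37908) (nat_lit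 0) (nat_lit 0) xc36 xc37) (XT.nd (nat_lit 37830) (nat_lit 0) (nat_lit 0) xc38 xc39))) (XT.nd (nat_lit 82992) (nat_lit 0) (nat_lit 0) (XT.nd (nat_lit 41574) (nat_lit 0) (nat_lit 0) (XT.nd (nat_lit 4056) (nat_lit 228) (nat_lit 0) xc40 xc41) (XT.nd (nat_lit 4056) (nat_lit 76) (nat_lit 0) xc42 xc43)) (XT.nd (nat_lit 41262) (nat_lit 0) (nat_lit 0) (XT.nd (nat_lit 4056) (nat_lit 0) (nat_lit 0) xc44 xc45) (XT.nd (nat_lit 37050) (nat_lit 0) (nat_lit 532) xc46 xc47)))) (XT.nd (nat_lit 162942) (nat_lit 0) (nat_lit 0) (XT.nd (nat_lit 81744) (nat_lit 0) (nat_lit 0) (XT.nd (nat_lit 40950) (nat_lit 0) (nat_lit 0) (XT.nd (nat_lit 36816) (nat_lit 0) (nat_lit 456) xc48 xc49) (XT.nd (nat_lit 36660) (nat_lit 0) (nat_lit 456) xc50 xc51)) (XT.nd (nat_lit 40638) (nat_lit 0) (nat_lit 0) (XT.nd (nat_lit 36504) (nat_lit 0) (nat_lit 456) xc52 xc53) (XT.nd (nat_lit 36426) (nat_lit 0) (nat_lit 456) xc54 xc55))) (XT.nd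 (nat_lit 80574) (nat_lit 0) (nat_lit 0) (XT.nd (nat_lit 40326) (nat_lit 0) (nat_lit 0) (XT.nd (nat_lit 36192) (nat_lit 0) (nat_lit 608) xc56 xc57) (XT.nd (nat_lit 36114) (nat_lit 0) (nat_lit 760) xc58 xc59)) (XT.nd (nat_lit 40014) (nat_lit 0) (nat_lit 0) (XT.nd (nat_lit 35880) (nat_lit 0) (nat_lit 1064) xc60 xc61) (XT.nd (nat_lit 35802) (nat_lit 0) (nat_lit 1596) xc62 xc63)))))) (XT.nd (nat_lit 528840) (nat_lit 0) (nat_lit 152) (XT.nd (nat_lit 282984) (nat_lit 0) (nat_lit 152) (XT.nd (nat_lit 157950) (nat_lit 0) (nat_lit 76) (XT.nd (nat_lit 79248) (nat_lit 0) (nat_lit 0) (XT.nd (nat_lit 39702) (nat_lit 0) (nat_lit 0) (XT.nd (nat_lit 4056) (nat_lit 152) (nat_lit 0) xc64 xc65) (XT.nd (nat_lit 4056) (nat_lit 304) (nat_lit 0) xc66 xc67)) (XT.nd (nat_lit 39390) (nat_lit 0) (nat_lit 76) (XT.nd (nat_lit 4056) (nat_lit 608) (nat_lit 0) xc68 xc69) (XT.nd (nat_lit 4134) (nat_lit 988) (nat_lit 0) xc70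 xc71))) (XT.nd (nat_lit 47268) (nat_lit 0) (nat_lit 0) (XT.nd (nat_lit 8190) (nat_lit 152) (nat_lit 0) (XT.nd (nat_lit 4056) (nat_lit 1824) (nat_lit 0) xc72 xc73) (XT.nd (nat_lit 34944) (nat_lit 0) (nat_lit 608) xc74 xc75)) (XT.nd (nat_lit 38922) (nat_lit 0) (nat_lit 76) (XT.nd (nat_lit 34788) (nat_lit 0) (nat_lit 1444) xc76 xc77) (XT.nd (nat_lit 4134) (nat_lit 0) (nat_lit 0) xc78 xc79)))) (XT.nd (nat_lit 123630) (nat_lit 0) (nat_lit 0) (XT.nd (nat_lit 46800) (nat_lit 0) (nat_lit 0) (XT.nd (nat_lit 38610) (nat_lit 0) (nat_lit 0) (XT.nd (nat_lit 4056) (nat_lit 380) (nat_lit 0) xc80 xc81) (XT.nd (nat_lit 4056) (nat_lit 1216) (nat_lit 0) xc82 xc83)) (XT.nd (nat_lit 38454) (nat_lit 0) (nat_lit 0) (XT.nd (nat_lit 34320) (nat_lit 0) (nat_lit 380) xc84 xc85) (XT.nd (nat_lit 34242) (nat_lit 0) (nat_lit 1520) xc86 xc87))) (XT.nd (nat_lit 76128) (nat_lit 0) (nat_lit 0) (XT.nd (nat_lit 38142) (nat_lit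 0) (nat_lit 0) (XT.nd (nat_lit 4056) (nat_lit 76) (nat_lit 0) xc88 xc89) (XT.nd (nat_lit 4056) (nat_lit 684) (nat_lit 0) xc90 xc91)) (XT.nd (nat_lit 8190) (nat_lit 304) (nat_lit 0) (XT.nd (nat_lit 4056) (nat_lit 2356) (nat_lit 0) xc92 xc93) (XT.nd (nat_lit 33774) (nat_lit 0) (nat_lit 1520) xc94 xc95))))) (XT.nd (nat_lit 240942) (nat_lit 0) (nat_lit 76) (XT.nd (nat_lit 120822) (nat_lit 0) (nat_lit 76) (XT.nd (nat_lit 75192) (nat_lit 0) (nat_lit 76) (XT.nd (nat_lit 37674) (nat_lit 0) (nat_lit 76) (XT.nd (nat_lit 4056) (nat_lit 76) (nat_lit 0) xc96 xc97) (XT.nd (nat_lit 4056) (nat_lit 836) (nat_lit 0) xc98 xc99)) (XT.nd (nat_lit 8190) (nat_lit 456) (nat_lit 0) (XT.nd (nat_lit 4056) (nat_lit 3268) (nat_lit 0) xc100 xc101) (XT.nd (nat_lit 33306) (nat_lit 0) (nat_lit 2508) xc102 xc103))) (XT.nd (nat_lit 45396) (nat_lit 0) (nat_lit 0) (XT.nd (nat_lit 37206) (nat_lit 0) (nat_lit 76) (XT.nd (nat_lit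 4056) (nat_lit 228) (nat_lit 0) xc104 xc105) (XT.nd (nat_lit 4056) (nat_lit 1900) (nat_lit 0) xc106 xc107)) (XT.nd (nat_lit 37284) (nat_lit 0) (nat_lit 0) (XT.nd (nat_lit 33150) (nat_lit 0) (nat_lit 1444) xc108 xc109) (XT.nd (nat_lit 33306) (nat_lit 0) (nat_lit 5700) xc110 xc111)))) (XT.nd (nat_lit 121056) (nat_lit 0) (nat_lit 76) (XT.nd (nat_lit 45708) (nat_lit 0) (nat_lit 0) (XT.nd (nat_lit 37518) (nat_lit 0) (nat_lit 532) (XT.nd (nat_lit 4056) (nat_lit 988) (nat_lit 0) xc112 xc113) (XT.nd (nat_lit 4056) (nat_lit 3420) (nat_lit 0) xc114 xc115)) (XT.nd (nat_lit 37596) (nat_lit 0) (nat_lit 0) (XT.nd (nat_lit 33462) (nat_lit 0) (nat_lit 2508) xc116 xc117) (XT.nd (nat_lit 4134) (nat_lit 228) (nat_lit 0) xc118 xc119))) (XT.nd (nat_lit 46020) (nat_lit 0) (nat_lit 0) (XT.nd (nat_lit 37752) (nat_lit 0) (nat_lit 760) (XT.nd (nat_lit 4056) (nat_lit 1520) (nat_lit 0) xc120 xc121) (XT.nd (nat_lit 4134)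 (nat_lit 4256) (nat_lit 0) xc122 xc123)) (XT.nd (nat_lit 37830) (nat_lit 0) (nat_lit 0) (XT.nd (nat_lit 33696) (nat_lit 0) (nat_lit 3116) xc124 xc125) (XT.nd (nat_lit 4134) (nat_lit 304) (nat_lit 0) xc126 xc127))))))) (XT.nd (nat_lit 1139814) (nat_lit 0) (nat_lit 1064) (XT.nd (nat_lit 527826) (nat_lit 0) (nat_lit 380) (XT.nd (nat_lit 246090) (nat_lit 0) (nat_lit 152) (XT.nd (nat_lit 122460) (nat_lit 0) (nat_lit 76) (XT.nd (nat_lit 46176) (nat_lit 0) (nat_lit 0) (XT.nd (nat_lit 37986) (nat_lit 0) (nat_lit 760) (XT.nd (nat_lit 4056) (nat_lit 1748) (nat_lit 0) xc128 xc129) (XT.nd (nat_lit 4056) (nat_lit 4560) (nat_lit 0) xc130 xc131)) (XT.nd (nat_lit 38064) (nat_lit 0) (nat_lit 76) (XT.nd (nat_lit 33930) (nat_lit 0) (nat_lit 2888) xc132 xc133) (XT.nd (nat_lit 4134) (nat_lit 152) (nat_lit 0) xc134 xc135))) (XT.nd (nat_lit 46488) (nat_lit 0) (nat_lit 0) (XT.nd (nat_lit 38298) (nat_lit 0) (nat_lit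 380) (XT.nd (nat_lit 4056) (nat_lit 1444) (nat_lit 0) xc136 xc137) (XT.nd (nat_lit 4056) (nat_lit 3648) (nat_lit 0) xc138 xc139)) (XT.nd (nat_lit 38454) (nat_lit 0) (nat_lit 76) (XT.nd (nat_lit 34320) (nat_lit 0) (nat_lit 1824) xc140 xc141) (XT.nd (nat_lit 34554) (nat_lit 0) (nat_lit 4180) xc142 xc143)))) (XT.nd (nat_lit 124800) (nat_lit 0) (nat_lit 76) (XT.nd (nat_lit 77610) (nat_lit 0) (nat_lit 76) (XT.nd (nat_lit 38766) (nat_lit 0) (nat_lit 76) (XT.nd (nat_lit 4056) (nat_lit 532) (nat_lit 0) xc144 xc145) (XT.nd (nat_lit 4056) (nat_lit 1672) (nat_lit 0) xc146 xc147)) (XT.nd (nat_lit 8190) (nat_lit 228) (nat_lit 0) (XT.nd (nat_lit 4056) (nat_lit 3420) (nat_lit 0) xc148 xc149) (XT.nd (nat_lit 34866) (nat_lit 0) (nat_lit 1140) xc150 xc151))) (XT.nd (nat_lit 78234) (nat_lit 0) (nat_lit 76) (XT.nd (nat_lit 39078) (nat_lit 0) (nat_lit 0) (XT.nd (nat_lit 34944) (nat_lit 0) (nat_lit 2660) xc152 xc153)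 (XT.nd (nat_lit 35022) (nat_lit 0) (nat_lit 5016) xc154 xc155)) (XT.nd (nat_lit 39234) (nat_lit 0) (nat_lit 76) (XT.nd (nat_lit 4056) (nat_lit 608) (nat_lit 0) xc156 xc157) (XT.nd (nat_lit 4134) (nat_lit 1368) (nat_lit 0) xc158 xc159))))) (XT.nd (nat_lit 286806) (nat_lit 0) (nat_lit 304) (XT.nd (nat_lit 126984) (nat_lit 0) (nat_lit 76) (XT.nd (nat_lit 47658) (nat_lit 0) (nat_lit 0) (XT.nd (nat_lit 39468) (nat_lit 0) (nat_lit 380) (XT.nd (nat_lit 4056) (nat_lit 2736) (nat_lit 0) xc160 xc161) (XT.nd (nat_lit 4056) (nat_lit 4180) (nat_lit 0) xc162 xc163)) (XT.nd (nat_lit 39546) (nat_lit 0) (nat_lit 76) (XT.nd (nat_lit 35412) (nat_lit 0) (nat_lit 1140) xc164 xc165) (XT.nd (nat_lit 35646) (nat_lit 0) (nat_lit 1824) xc166 xc167))) (XT.nd (nat_lit 79638) (nat_lit 0) (nat_lit 152) (XT.nd (nat_lit 39780) (nat_lit 0) (nat_lit 0) (XT.nd (nat_lit 35646) (nat_lit 0) (nat_lit 2888) xc168 xc169) (XT.nd (nat_lit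 35724) (nat_lit 0) (nat_lit 4180) xc170 xc171)) (XT.nd (nat_lit 40014) (nat_lit 0) (nat_lit 76) (XT.nd (nat_lit 4056) (nat_lit 152) (nat_lit 0) xc172 xc173) (XT.nd (nat_lit 4134) (nat_lit 380) (nat_lit 0) xc174 xc175)))) (XT.nd (nat_lit 161694) (nat_lit 0) (nat_lit 228) (XT.nd (nat_lit 80574) (nat_lit 0) (nat_lit 76) (XT.nd (nat_lit 40248) (nat_lit 0) (nat_lit 76) (XT.nd (nat_lit 4056) (nat_lit 684) (nat_lit 0) xc176 xc177) (XT.nd (nat_lit 4056) (nat_lit 988) (nat_lit 0) xc178 xc179)) (XT.nd (nat_lit 40482) (nat_lit 0) (nat_lit 0) (XT.nd (nat_lit 4056) (nat_lit 1292) (nat_lit 0) xc180 xc181) (XT.nd (nat_lit 4134) (nat_lit 1520) (nat_lit 0) xc182 xc183))) (XT.nd (nat_lit 81510) (nat_lit 0) (nat_lit 76) (XT.nd (nat_lit 40638) (nat_lit 0) (nat_lit 76) (XT.nd (nat_lit 4056) (nat_lit 1520) (nat_lit 0) xc184 xc185) (XT.nd (nat_lit 4134) (nat_lit 1444) (nat_lit 0) xc186 xc187)) (XT.nd (nat_lit 40872)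 (nat_lit 0) (nat_lit 76) (XT.nd (nat_lit 4056) (nat_lit 1292) (nat_lit 0) xc188 xc189) (XT.nd (nat_lit 4134) (nat_lit 988) (nat_lit 0) xc190 xc191)))))) (XT.nd (nat_lit 774618) (nat_lit 0) (nat_lit 1672) (XT.nd (nat_lit 365664) (nat_lit 0) (nat_lit 684) (XT.nd (nat_lit 165126) (nat_lit 0) (nat_lit 304) (XT.nd (nat_lit 82290) (nat_lit 0) (nat_lit 152) (XT.nd (nat_lit 41106) (nat_lit 0) (nat_lit 0) (XT.nd (nat_lit 4056) (nat_lit 836) (nat_lit 0) xc192 xc193) (XT.nd (nat_lit 4056) (nat_lit 456) (nat_lit 0) xc194 xc195)) (XT.nd (nat_lit 41340) (nat_lit 0) (nat_lit 76) (XT.nd (nat_lit 37206) (nat_lit 0) (nat_lit 3724) xc196 xc197) (XT.nd (nat_lit 37362) (nat_lit 0) (nat_lit 2508) xc198 xc199))) (XT.nd (nat_lit 83148) (nat_lit 0) (nat_lit 152) (XT.nd (nat_lit 41496) (nat_lit 0) (nat_lit 0) (XT.nd (nat_lit 37362) (nat_lit 0) (nat_lit 1520) xc200 xc201) (XT.nd (nat_lit 37518) (nat_lit 0) (nat_lit 532)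 xc202 xc203)) (XT.nd (nat_lit 75348) (nat_lit 0) (nat_lit 152) (XT.nd (nat_lit 37596) (nat_lit 0) (nat_lit 0) xc204 xc205) (XT.nd (nat_lit 4134) (nat_lit 2432) (nat_lit 0) xc206 xc207)))) (XT.nd (nat_lit 203112) (nat_lit 0) (nat_lit 532) (XT.nd (nat_lit 84162) (nat_lit 0) (nat_lit 152) (XT.nd (nat_lit 42042) (nat_lit 0) (nat_lit 0) (XT.nd (nat_lit 4056) (nat_lit 684) (nat_lit 0) xc208 xc209) (XT.nd (nat_lit 37986) (nat_lit 0) (nat_lit 2584) xc210 xc211)) (XT.nd (nat_lit 42276) (nat_lit 0) (nat_lit 0) (XT.nd (nat_lit 38142) (nat_lit 0) (nat_lit 380) xc212 xc213) (XT.nd (nat_lit 38298) (nat_lit 0) (nat_lit 152) xc214 xc215))) (XT.nd (nat_lit 85254) (nat_lit 0) (nat_lit 152) (XT.nd (nat_lit 42588) (nat_lit 0) (nat_lit 0) (XT.nd (nat_lit 4056) (nat_lit 836) (nat_lit 0) xc216 xc217) (XT.nd (nat_lit 38532) (nat_lit 0) (nat_lit 1064) xc218 xc219)) (XT.nd (nat_lit 77532) (nat_lit 0) (nat_lit 0) (XT.nd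 (nat_lit 38688) (nat_lit 0) (nat_lit 0) xc220 xc221) (XT.nd (nat_lit 4134) (nat_lit 684) (nat_lit 0) xc222 xc223))))) (XT.nd (nat_lit 527514) (nat_lit 0) (nat_lit 1596) (XT.nd (nat_lit 243906) (nat_lit 0) (nat_lit 608) (XT.nd (nat_lit 121446) (nat_lit 0) (nat_lit 380) (XT.nd (nat_lit 78156) (nat_lit 0) (nat_lit 152) (XT.nd (nat_lit 39000) (nat_lit 0) (nat_lit 152) xc224 xc225) (XT.nd (nat_lit 4056) (nat_lit 1444) (nat_lit 0) xc226 xc227)) (XT.nd (nat_lit 78780) (nat_lit 0) (nat_lit 228) (XT.nd (nat_lit 39312) (nat_lit 0) (nat_lit 0) xc228 xc229) (XT.nd (nat_lit 4134) (nat_lit 988) (nat_lit 0) xc230 xc231))) (XT.nd (nat_lit 123240) (nat_lit 0) (nat_lit 456) (XT.nd (nat_lit 79326) (nat_lit 0) (nat_lit 228) (XT.nd (nat_lit 39546) (nat_lit 0) (nat_lit 228) xc232 xc233) (XT.nd (nat_lit 39780) (nat_lit 0) (nat_lit 1064) xc234 xc235)) (XT.nd (nat_lit 79950) (nat_lit 0) (nat_lit 304) (XT.nd (nat_lit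 39858) (nat_lit 0) (nat_lit 304) xc236 xc237) (XT.nd (nat_lit 40170) (nat_lit 0) (nat_lit 228) xc238 xc239)))) (XT.nd (nat_lit 326976) (nat_lit 0) (nat_lit 2356) (XT.nd (nat_lit 162318) (nat_lit 0) (nat_lit 1216) (XT.nd (nat_lit 80886) (nat_lit 0) (nat_lit 608) (XT.nd (nat_lit 40326) (nat_lit 0) (nat_lit 304) xc240 xc241) (XT.nd (nat_lit 40638) (nat_lit 0) (nat_lit 304) xc242 xc243)) (XT.nd (nat_lit 81978) (nat_lit 0) (nat_lit 456) (XT.nd (nat_lit 40872) (nat_lit 0) (nat_lit 0) xc244 xc245) (XT.nd (nat_lit 41262) (nat_lit 0) (nat_lit 304) xc246 xc247))) (XT.nd (nat_lit 243438) (nat_lit 0) (nat_lit 2660) (XT.nd (nat_lit 120978) (nat_lit 0) (nat_lit 1216) (XT.nd (nat_lit 79092) (nat_lit 0) (nat_lit 836) xc248 xc249) (XT.nd (nat_lit 80106) (nat_lit 0) (nat_lit 912) xc250 xc251)) (XT.nd (nat_lit 201630) (nat_lit 0) (nat_lit 2736) (XT.nd (nat_lit 80964) (nat_lit 0) (nat_lit 988) xc252 xc253) (XT.nd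 (nat_lit 122070) (nat_lit 0) (nat_lit 608) xc254 xc255)))))))) XT.nil))

set_option maxRecDepth 10000000 in
noncomputable def Te : XT := XT.nil

set_option maxRecDepth 10000000 in
noncomputable def Tz : ZL := (ZL.cons (nat_lit 76) (nat_lit 6) (nat_lit 192971128647140023798) (ZL.cons (nat_lit 152) (nat_lit 6) (nat_lit 190456543038808449926) (ZL.cons (nat_lit 228) (nat_lit 3) (nat_lit 95187973938759045042) (ZL.cons (nat_lit 304) (nat_lit 6) (nat_lit 187866519862226928838) (ZL.cons (nat_lit 380) (nat_lit 6) (nat_lit 185440651897175508952) (ZL.cons (nat_lit 456) (nat_lit 3) (nat_lit 92681202083883696299) (ZL.cons (nat_lit 532) (nat_lit 6) (nat_lit 182942007893172546468) (ZL.cons (nat_lit 608) (nat_lit 6) (nat_lit 180603216129076239606) (ZL.cons (nat_lit 684) (nat_lit 3) (nat_lit 90263623729873985653) (ZL.cons (nat_lit 760) (nat_lit 6) (nat_lit 178194260612057043540) (ZL.cons (nat_lit 836) (nat_lit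 6) (nat_lit 175941008817902751688) (ZL.cons (nat_lit 912) (nat_lit 3) (nat_lit 87933626414131828123) (ZL.cons (nat_lit 988) (nat_lit 6) (nat_lit 173620159469923831076) (ZL.cons (nat_lit 1064) (nat_lit 6) (nat_lit 171451017057404067214) (ZL.cons (nat_lit 1140) (nat_lit 3) (nat_lit 85689704650236453296) (ZL.cons (nat_lit 1216) (nat_lit 6) (nat_lit 169357930223547793990) (ZL.cons (nat_lit 1292) (nat_lit 6) (nat_lit 169216800372508710436) (ZL.cons (nat_lit 1368) (nat_lit 6) (nat_lit 167130443027744671946) (ZL.cons (nat_lit 1444) (nat_lit 3) (nat_lit 83530460466818374507) (ZL.cons (nat_lit 1520) (nat_lit 6) (nat_lit 165118514235491191480) (ZL.cons (nat_lit 1596) (nat_lit 6) (nat_lit 164981494962637712304) (ZL.cons (nat_lit 1672) (nat_lit 6) (nat_lit 162976705485362183670) (ZL.cons (nat_lit 1748) (nat_lit 3) (nat_lit 81454604153308313713) (ZL.cons (nat_lit 1824) (nat_lit 6) (nat_lit 161044800744014485468)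 (ZL.cons (nat_lit 1900) (nat_lit 6) (nat_lit 160911772323768389178) (ZL.cons (nat_lit 1976) (nat_lit 6) (nat_lit 158987441681680800076) (ZL.cons (nat_lit 2052) (nat_lit 3) (nat_lit 79460955220090130015) (ZL.cons (nat_lit 2128) (nat_lit 6) (nat_lit 157134534926394754456) (ZL.cons (nat_lit 2204) (nat_lit 6) (nat_lit 157005381120330583298) (ZL.cons (nat_lit 2280) (nat_lit 6) (nat_lit 155351433013172623734) (ZL.cons (nat_lit 2356) (nat_lit 6) (nat_lit 155160509726949587420) (ZL.cons (nat_lit 2432) (nat_lit 3) (nat_lit 77548443581192978154) (ZL.cons (nat_lit 2508) (nat_lit 6) (nat_lit 153385684236489657934) (ZL.cons (nat_lit 2584) (nat_lit 6) (nat_lit 153260292191767161666) (ZL.cons (nat_lit 2660) (nat_lit 6) (nat_lit 151679353830561072568) (ZL.cons (nat_lit 2736) (nat_lit 6) (nat_lit 151493991416752299450) (ZL.cons (nat_lit 2812) (nat_lit 3) (nat_lit 75716110968296717147) (ZL.cons (nat_lit 2888)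 (nat_lit 6) (nat_lit 149796441467732133376) (ZL.cons (nat_lit 2964) (nat_lit 6) (nat_lit 149674701618486991370) (ZL.cons (nat_lit 3040) (nat_lit 6) (nat_lit 148166159048634704074) (ZL.cons (nat_lit 3116) (nat_lit 6) (nat_lit 147986195540082497164) (ZL.cons (nat_lit 3192) (nat_lit 3) (nat_lit 73963112585498110157) (ZL.cons (nat_lit 3268) (nat_lit 6) (nat_lit 146601719640841382722) (ZL.cons (nat_lit 3344) (nat_lit 6) (nat_lit 146365228307719209886) (ZL.cons (nat_lit 3420) (nat_lit 6) (nat_lit 146247034279325868132) (ZL.cons (nat_lit 3496) (nat_lit 6) (nat_lit 144810383542262054820) (ZL.cons (nat_lit 3572) (nat_lit 6) (nat_lit 144635661689298747140) (ZL.cons (nat_lit 3648) (nat_lit 3) (nat_lit 72288719014995841118) (ZL.cons (nat_lit 3724) (nat_lit 6) (nat_lit 143320302641488787850) (ZL.cons (nat_lit 3800) (nat_lit 6) (nat_lit 143090699405447843348) (ZL.cons (nat_lit 3876) (nat_lit 6) (nat_lit 142975947921570812518)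 (ZL.cons (nat_lit 3952) (nat_lit 6) (nat_lit 141610797460729015190) (ZL.cons (nat_lit 4028) (nat_lit 6) (nat_lit 141441164593774347538) (ZL.cons (nat_lit 4104) (nat_lit 3) (nat_lit 70692318384602190806) (ZL.cons (nat_lit 4180) (nat_lit 6) (nat_lit 140194662736938139420) (ZL.cons (nat_lit 4256) (nat_lit 6) (nat_lit 139971746973791591358) (ZL.cons (nat_lit 4332) (nat_lit 6) (nat_lit 139860337766143988610) (ZL.cons (nat_lit 4408) (nat_lit 6) (nat_lit 138841057834802000704) (ZL.cons (nat_lit 4484) (nat_lit 6) (nat_lit 138566411104478869722) (ZL.cons (nat_lit 4560) (nat_lit 6) (nat_lit 138401719000639386564) (ZL.cons (nat_lit 4636) (nat_lit 3) (nat_lit 69173418808780874871) (ZL.cons (nat_lit 4712) (nat_lit 6) (nat_lit 137223929022455229766) (ZL.cons (nat_lit 4788) (nat_lit 6) (nat_lit 137007505951439163688) (ZL.cons (nat_lit 4864) (nat_lit 6) (nat_lit 136899341672169646456) (ZL.cons (nat_lit 4940)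 (nat_lit 6) (nat_lit 135943127685124728506) (ZL.cons (nat_lit 5016) (nat_lit 6) (nat_lit 135676480374131397456) (ZL.cons (nat_lit 5092) (nat_lit 6) (nat_lit 135516585127685297304) (ZL.cons (nat_lit 5168) (nat_lit 3) (nat_lit 67731651115746708447) (ZL.cons (nat_lit 5244) (nat_lit 6) (nat_lit 134722887945687756764) (ZL.cons (nat_lit 5320) (nat_lit 6) (nat_lit 134407479236658246130) (ZL.cons (nat_lit 5396) (nat_lit 6) (nat_lit 134197359750234881006) (ZL.cons (nat_lit 5472) (nat_lit 6) (nat_lit 134092345886866417676) (ZL.cons (nat_lit 5548) (nat_lit 6) (nat_lit 133199393703074344820) (ZL.cons (nat_lit 5624) (nat_lit 6) (nat_lit 132940512818614800112) (ZL.cons (nat_lit 5700) (nat_lit 6) (nat_lit 132785274715269071810) (ZL.cons (nat_lit 5776) (nat_lit 3) (nat_lit 66366771874046244445) (ZL.cons (nat_lit 5852) (nat_lit 6) (nat_lit 132051168164661027984) (ZL.cons (nat_lit 5928) (nat_lit 6) (nat_lit 131744946117059561348)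 (ZL.cons (nat_lit 6004) (nat_lit 6) (nat_lit 131540946615677653462) (ZL.cons (nat_lit 6080) (nat_lit 6) (nat_lit 131438991408523805570) (ZL.cons (nat_lit 6156) (nat_lit 6) (nat_lit 130961799317549779132) (ZL.cons (nat_lit 6232) (nat_lit 6) (nat_lit 130609614975635766934) (ZL.cons (nat_lit 6308) (nat_lit 6) (nat_lit 130358274311111937120) (ZL.cons (nat_lit 6384) (nat_lit 6) (nat_lit 130207557705921909644) (ZL.cons (nat_lit 6460) (nat_lit 3) (nat_lit 65078666732972322336) (ZL.cons (nat_lit 6536) (nat_lit 6) (nat_lit 129930335286048947652) (ZL.cons (nat_lit 6612) (nat_lit 6) (nat_lit 129533527357423726176) (ZL.cons (nat_lit 6688) (nat_lit 6) (nat_lit 129236224398587350800) (ZL.cons (nat_lit 6764) (nat_lit 6) (nat_lit 129038166630255401396) (ZL.cons (nat_lit 6840) (nat_lit 6) (nat_lit 128939180992241956840) (ZL.cons (nat_lit 6916) (nat_lit 6) (nat_lit 128515742991689079034) (ZL.cons (nat_lit 6992)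 (nat_lit 6) (nat_lit 128173816446141494380) (ZL.cons (nat_lit 7068) (nat_lit 6) (nat_lit 127929796383496999414) (ZL.cons (nat_lit 7144) (nat_lit 6) (nat_lit 127783469582341632930) (ZL.cons (nat_lit 7220) (nat_lit 3) (nat_lit 63867354092152726673) (ZL.cons (nat_lit 7296) (nat_lit 6) (nat_lit 127555372552287008832) (ZL.cons (nat_lit 7372) (nat_lit 6) (nat_lit 127170122136146017106) (ZL.cons (nat_lit 7448) (nat_lit 6) (nat_lit 126881478486790312862) (ZL.cons (nat_lit 7524) (nat_lit 6) (nat_lit 126689189391322400816) (ZL.cons (nat_lit 7600) (nat_lit 6) (nat_lit 126593086830144299304) (ZL.cons (nat_lit 7676) (nat_lit 6) (nat_lit 126651576880581144824) (ZL.cons (nat_lit 7752) (nat_lit 6) (nat_lit 126224264454155291866) (ZL.cons (nat_lit 7828) (nat_lit 6) (nat_lit 125892296934206180550) (ZL.cons (nat_lit 7904) (nat_lit 6) (nat_lit 125655384252027059226) (ZL.cons (nat_lit 7980) (nat_lit 6) (nat_lit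 125513319396536412152) (ZL.cons (nat_lit 8056) (nat_lit 3) (nat_lit 62732989116697245112) (ZL.cons (nat_lit 8132) (nat_lit 6) (nat_lit 125335416922583113172) (ZL.cons (nat_lit 8208) (nat_lit 6) (nat_lit 124961387392349140624) (ZL.cons (nat_lit 8284) (nat_lit 6) (nat_lit 124681150839576612228) (ZL.cons (nat_lit 8360) (nat_lit 6) (nat_lit 124494462397374755876) (ZL.cons (nat_lit 8436) (nat_lit 6) (nat_lit 124401158939920288386) (ZL.cons (nat_lit 8512) (nat_lit 6) (nat_lit 124502802878537816010) (ZL.cons (nat_lit 8588) (nat_lit 6) (nat_lit 124087936445114657800) (ZL.cons (nat_lit 8664) (nat_lit 6) (nat_lit 123765637882057268172) (ZL.cons (nat_lit 8740) (nat_lit 6) (nat_lit 123535625569262004748) (ZL.cons (nat_lit 8816) (nat_lit 6) (nat_lit 123397698525096327980) (ZL.cons (nat_lit 8892) (nat_lit 3) (nat_lit 61675868115391891209) (ZL.cons (nat_lit 8968) (nat_lit 6) (nat_lit 123725694795184797698)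 (ZL.cons (nat_lit 9044) (nat_lit 6) (nat_lit 123271180882937187386) (ZL.cons (nat_lit 9120) (nat_lit 6) (nat_lit 122908045416690612096) (ZL.cons (nat_lit 9196) (nat_lit 6) (nat_lit 122635971093610487440) (ZL.cons (nat_lit 9272) (nat_lit 6) (nat_lit 122454720178851403600) (ZL.cons (nat_lit 9348) (nat_lit 6) (nat_lit 122364134297827648760) (ZL.cons (nat_lit 9424) (nat_lit 6) (nat_lit 123003413646043458508) (ZL.cons (nat_lit 9500) (nat_lit 6) (nat_lit 122510407035908030626) (ZL.cons (nat_lit 9576) (nat_lit 6) (nat_lit 122107624090837003234) (ZL.cons (nat_lit 9652) (nat_lit 6) (nat_lit 121794712864567692916) (ZL.cons (nat_lit 9728) (nat_lit 6) (nat_lit 121571399939523747844) (ZL.cons (nat_lit 9804) (nat_lit 6) (nat_lit 121437490187906585932) (ZL.cons (nat_lit 9880) (nat_lit 3) (nat_lit 60696433300597688327) (ZL.cons (nat_lit 9956) (nat_lit 6) (nat_lit 121804950150180268830) (ZL.cons (nat_lit 10032)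 (nat_lit 6) (nat_lit 121363674507221423868) (ZL.cons (nat_lit 10108) (nat_lit 6) (nat_lit 121011115802127661448) (ZL.cons (nat_lit 10184) (nat_lit 6) (nat_lit 120746965973894530714) (ZL.cons (nat_lit 10260) (nat_lit 6) (nat_lit 120570994211992507570) (ZL.cons (nat_lit 10336) (nat_lit 6) (nat_lit 120483046754687891220) (ZL.cons (nat_lit 10412) (nat_lit 6) (nat_lit 121154193807115887458) (ZL.cons (nat_lit 10488) (nat_lit 6) (nat_lit 120675546612809646794) (ZL.cons (nat_lit 10564) (nat_lit 6) (nat_lit 120284495209828066804) (ZL.cons (nat_lit 10640) (nat_lit 6) (nat_lit 119980697902770483968) (ZL.cons (nat_lit 10716) (nat_lit 6) (nat_lit 119763889237679275162) (ZL.cons (nat_lit 10792) (nat_lit 6) (nat_lit 119633879770089797580) (ZL.cons (nat_lit 10868) (nat_lit 3) (nat_lit 59795277949748195254) (ZL.cons (nat_lit 10944) (nat_lit 6) (nat_lit 120557569384667548696) (ZL.cons (nat_lit 11020) (nat_lit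 6) (nat_lit 120042639130800729680) (ZL.cons (nat_lit 11096) (nat_lit 6) (nat_lit 119614216176471753988) (ZL.cons (nat_lit 11172) (nat_lit 6) (nat_lit 119271926171526353582) (ZL.cons (nat_lit 11248) (nat_lit 6) (nat_lit 119015470027610692674) (ZL.cons (nat_lit 11324) (nat_lit 6) (nat_lit 118844623656832029430) (ZL.cons (nat_lit 11400) (nat_lit 6) (nat_lit 118759237775953761126) (ZL.cons (nat_lit 11476) (nat_lit 6) (nat_lit 120014555560524375358) (ZL.cons (nat_lit 11552) (nat_lit 6) (nat_lit 119464399035239519108) (ZL.cons (nat_lit 11628) (nat_lit 6) (nat_lit 118999693021349965064) (ZL.cons (nat_lit 11704) (nat_lit 6) (nat_lit 118620031465057168956) (ZL.cons (nat_lit 11780) (nat_lit 6) (nat_lit 118325082623253690478) (ZL.cons (nat_lit 11856) (nat_lit 6) (nat_lit 118114588773650575132) (ZL.cons (nat_lit 11932) (nat_lit 6) (nat_lit 117988365989583121166) (ZL.cons (nat_lit 12008) (nat_lit 3) (nat_lit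 58973151989649129967) (ZL.cons (nat_lit 12084) (nat_lit 6) (nat_lit 119524677856587601560) (ZL.cons (nat_lit 12160) (nat_lit 6) (nat_lit 118940321067790087802) (ZL.cons (nat_lit 12236) (nat_lit 6) (nat_lit 118440388782482496524) (ZL.cons (nat_lit 12312) (nat_lit 6) (nat_lit 118024444166629122064) (ZL.cons (nat_lit 12388) (nat_lit 6) (nat_lit 117692123773478247884) (ZL.cons (nat_lit 12464) (nat_lit 6) (nat_lit 117443137225987314968) (ZL.cons (nat_lit 12540) (nat_lit 6) (nat_lit 117277266963095408900) (ZL.cons (nat_lit 12616) (nat_lit 6) (nat_lit 117194368049621362006) (ZL.cons (nat_lit 12692) (nat_lit 6) (nat_lit 118469947296247868300) (ZL.cons (nat_lit 12768) (nat_lit 6) (nat_lit 117935814747427619514) (ZL.cons (nat_lit 12844) (nat_lit 6) (nat_lit 117484643860156207820) (ZL.cons (nat_lit 12920) (nat_lit 6) (nat_lit 117116040407444755288) (ZL.cons (nat_lit 12996) (nat_lit 6) (nat_lit 116829682308606426670)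 (ZL.cons (nat_lit 13072) (nat_lit 6) (nat_lit 116625319347826703032) (ZL.cons (nat_lit 13148) (nat_lit 6) (nat_lit 116502772955528204036) (ZL.cons (nat_lit 13224) (nat_lit 3) (nat_lit 58230968026169509187) (ZL.cons (nat_lit 13300) (nat_lit 6) (nat_lit 116600694684562950272) (ZL.cons (nat_lit 13376) (nat_lit 6) (nat_lit 116652354546737245160) (ZL.cons (nat_lit 13452) (nat_lit 6) (nat_lit 116755719410771229948) (ZL.cons (nat_lit 13528) (nat_lit 6) (nat_lit 116910879595478138218) (ZL.cons (nat_lit 13604) (nat_lit 6) (nat_lit 117117970677718393482) (ZL.cons (nat_lit 13680) (nat_lit 6) (nat_lit 117377173610864827030) (ZL.cons (nat_lit 13756) (nat_lit 6) (nat_lit 117688714882917275552) (ZL.cons (nat_lit 13832) (nat_lit 6) (nat_lit 118052866714404716914) (ZL.cons (nat_lit 13908) (nat_lit 6) (nat_lit 117485530026251790934) (ZL.cons (nat_lit 13984) (nat_lit 6) (nat_lit 117000158875467721732) (ZL.cons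 (nat_lit 14060) (nat_lit 6) (nat_lit 116596329151338231966) (ZL.cons (nat_lit 14136) (nat_lit 6) (nat_lit 116273687992939324996) (ZL.cons (nat_lit 14212) (nat_lit 6) (nat_lit 116031953480812205656) (ZL.cons (nat_lit 14288) (nat_lit 6) (nat_lit 115870914390625889090) (ZL.cons (nat_lit 14364) (nat_lit 6) (nat_lit 115790430008612251326) (ZL.cons (nat_lit 14440) (nat_lit 3) (nat_lit 57900137579438091228) (ZL.cons (nat_lit 14516) (nat_lit 6) (nat_lit 115826486813082844396) (ZL.cons (nat_lit 14592) (nat_lit 6) (nat_lit 115905144679090001078) (ZL.cons (nat_lit 14668) (nat_lit 6) (nat_lit 116036317487071833516) (ZL.cons (nat_lit 14744) (nat_lit 6) (nat_lit 116220119854045024868) (ZL.cons (nat_lit 14820) (nat_lit 6) (nat_lit 116456712384019551702) (ZL.cons (nat_lit 14896) (nat_lit 6) (nat_lit 116746301808332284968) (ZL.cons (nat_lit 14972) (nat_lit 6) (nat_lit 117089141166286022202) (ZL.cons (nat_lit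 15048) (nat_lit 6) (nat_lit 116570565876169275806) (ZL.cons (nat_lit 15124) (nat_lit 6) (nat_lit 116132535888527128532) (ZL.cons (nat_lit 15200) (nat_lit 6) (nat_lit 115774668458710184328) (ZL.cons (nat_lit 15276) (nat_lit 6) (nat_lit 115496650887022486636) (ZL.cons (nat_lit 15352) (nat_lit 6) (nat_lit 115298240245488774368) (ZL.cons (nat_lit 15428) (nat_lit 6) (nat_lit 115179263165587319034) (ZL.cons (nat_lit 15504) (nat_lit 3) (nat_lit 57569807843381433466) (ZL.cons (nat_lit 15580) (nat_lit 6) (nat_lit 115074828685432256164) (ZL.cons (nat_lit 15656) (nat_lit 6) (nat_lit 115128038343471779898) (ZL.cons (nat_lit 15732) (nat_lit 6) (nat_lit 115234504153426784230) (ZL.cons (nat_lit 15808) (nat_lit 6) (nat_lit 115394319143674899750) (ZL.cons (nat_lit 15884) (nat_lit 6) (nat_lit 115607622958382362672) (ZL.cons (nat_lit 15960) (nat_lit 6) (nat_lit 115874601979523189224) (ZL.cons (nat_lit 16036) (nat_lit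 6) (nat_lit 116195489489737211202) (ZL.cons (nat_lit 16112) (nat_lit 6) (nat_lit 115724255362762386734) (ZL.cons (nat_lit 16188) (nat_lit 6) (nat_lit 115332187669432785022) (ZL.cons (nat_lit 16264) (nat_lit 6) (nat_lit 115018943826327050096) (ZL.cons (nat_lit 16340) (nat_lit 6) (nat_lit 114784250125232759476) (ZL.cons (nat_lit 16416) (nat_lit 6) (nat_lit 114627901493983908440) (ZL.cons (nat_lit 16492) (nat_lit 6) (nat_lit 114549761317271638768) (ZL.cons (nat_lit 16568) (nat_lit 3) (nat_lit 57198361687565125900) (ZL.cons (nat_lit 16644) (nat_lit 6) (nat_lit 114423721378963113594) (ZL.cons (nat_lit 16720) (nat_lit 6) (nat_lit 114504738980950484978) (ZL.cons (nat_lit 16796) (nat_lit 6) (nat_lit 114639846973171772392) (ZL.cons (nat_lit 16872) (nat_lit 6) (nat_lit 114829163411154159482) (ZL.cons (nat_lit 16948) (nat_lit 6) (nat_lit 115072853717027922122) (ZL.cons (nat_lit 17024) (nat_lit 6) (nat_lit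 115371130824070037386) (ZL.cons (nat_lit 17100) (nat_lit 6) (nat_lit 114945858991407758480) (ZL.cons (nat_lit 17176) (nat_lit 6) (nat_lit 114598414884789366046) (ZL.cons (nat_lit 17252) (nat_lit 6) (nat_lit 114328494912277038192) (ZL.cons (nat_lit 17328) (nat_lit 6) (nat_lit 114135863221467608804) (ZL.cons (nat_lit 17404) (nat_lit 6) (nat_lit 114020351493407943430) (ZL.cons (nat_lit 17480) (nat_lit 3) (nat_lit 56990929397760062930) (ZL.cons (nat_lit 17556) (nat_lit 6) (nat_lit 113791578362973654792) (ZL.cons (nat_lit 17632) (nat_lit 6) (nat_lit 113846384310754364236) (ZL.cons (nat_lit 17708) (nat_lit 6) (nat_lit 113956044095008018702) (ZL.cons (nat_lit 17784) (nat_lit 6) (nat_lit 114120653534963577686) (ZL.cons (nat_lit 17860) (nat_lit 6) (nat_lit 114340356464112264494) (ZL.cons (nat_lit 17936) (nat_lit 6) (nat_lit 114615344855887315846) (ZL.cons (nat_lit 18012) (nat_lit 6) (nat_lit 114234696609936246218)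 (ZL.cons (nat_lit 18088) (nat_lit 6) (nat_lit 113930576373911260856) (ZL.cons (nat_lit 18164) (nat_lit 6) (nat_lit 113702718411683794234) (ZL.cons (nat_lit 18240) (nat_lit 6) (nat_lit 113550923624063550508) (ZL.cons (nat_lit 18316) (nat_lit 6) (nat_lit 113475059374828337236) (ZL.cons (nat_lit 18392) (nat_lit 3) (nat_lit 56615528468764133531) (ZL.cons (nat_lit 18468) (nat_lit 6) (nat_lit 113258864881476114712) (ZL.cons (nat_lit 18544) (nat_lit 6) (nat_lit 113342313011523107238) (ZL.cons (nat_lit 18620) (nat_lit 6) (nat_lit 113481474243511033274) (ZL.cons (nat_lit 18696) (nat_lit 6) (nat_lit 113676470174632891976) (ZL.cons (nat_lit 18772) (nat_lit 6) (nat_lit 113927471189682867496) (ZL.cons (nat_lit 18848) (nat_lit 6) (nat_lit 113590146814325204940) (ZL.cons (nat_lit 18924) (nat_lit 6) (nat_lit 113328088588585080810) (ZL.cons (nat_lit 19000) (nat_lit 6) (nat_lit 113141067529546799850) (ZL.cons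 (nat_lit 19076) (nat_lit 6) (nat_lit 113028920220751008226) (ZL.cons (nat_lit 19152) (nat_lit 3) (nat_lit 56495774334701806262) (ZL.cons (nat_lit 19228) (nat_lit 6) (nat_lit 112741667326624134054) (ZL.cons (nat_lit 19304) (nat_lit 6) (nat_lit 112798117452838264786) (ZL.cons (nat_lit 19380) (nat_lit 6) (nat_lit 112911067030619528882) (ZL.cons (nat_lit 19456) (nat_lit 6) (nat_lit 113080614753773754636) (ZL.cons (nat_lit 19532) (nat_lit 6) (nat_lit 113306908770796902050) (ZL.cons (nat_lit 19608) (nat_lit 6) (nat_lit 113011646405724100726) (ZL.cons (nat_lit 19684) (nat_lit 6) (nat_lit 112790425083173162258) (ZL.cons (nat_lit 19760) (nat_lit 6) (nat_lit 112643051502959333400) (ZL.cons (nat_lit 19836) (nat_lit 6) (nat_lit 112569396892051359346) (ZL.cons (nat_lit 19912) (nat_lit 3) (nat_lit 56147169863002431139) (ZL.cons (nat_lit 19988) (nat_lit 6) (nat_lit 112322981908271145360) (ZL.cons (nat_lit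 20064) (nat_lit 6) (nat_lit 112408933482219547662) (ZL.cons (nat_lit 20140) (nat_lit 6) (nat_lit 112552269551167111476) (ZL.cons (nat_lit 20216) (nat_lit 6) (nat_lit 112753115360222625942) (ZL.cons (nat_lit 20292) (nat_lit 6) (nat_lit 112498689898339010280) (ZL.cons (nat_lit 20368) (nat_lit 6) (nat_lit 112317116054612523914) (ZL.cons (nat_lit 20444) (nat_lit 6) (nat_lit 112208235172286512626) (ZL.cons (nat_lit 20520) (nat_lit 3) (nat_lit 56085976056362967137) (ZL.cons (nat_lit 20596) (nat_lit 6) (nat_lit 111916491210841059246) (ZL.cons (nat_lit 20672) (nat_lit 6) (nat_lit 111974634840841613898) (ZL.cons (nat_lit 20748) (nat_lit 6) (nat_lit 112090972905956315918) (ZL.cons (nat_lit 20824) (nat_lit 6) (nat_lit 112265607060805168444) (ZL.cons (nat_lit 20900) (nat_lit 6) (nat_lit 112050829077746004884) (ZL.cons (nat_lit 20976) (nat_lit 6) (nat_lit 111907747931907336088) (ZL.cons (nat_lit 21052) (nat_lit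 6) (nat_lit 111836238600928720502) (ZL.cons (nat_lit 21128) (nat_lit 3) (nat_lit 55789145087250854158) (ZL.cons (nat_lit 21204) (nat_lit 6) (nat_lit 111607791622235979886) (ZL.cons (nat_lit 21280) (nat_lit 6) (nat_lit 111696321743402834256) (ZL.cons (nat_lit 21356) (nat_lit 6) (nat_lit 111843957894418824988) (ZL.cons (nat_lit 21432) (nat_lit 6) (nat_lit 111667672609247478998) (ZL.cons (nat_lit 21508) (nat_lit 6) (nat_lit 111561963014756205904) (ZL.cons (nat_lit 21584) (nat_lit 3) (nat_lit 55763368371669084335) (ZL.cons (nat_lit 21660) (nat_lit 6) (nat_lit 111308083283784446526) (ZL.cons (nat_lit 21736) (nat_lit 6) (nat_lit 111367971222685017814) (ZL.cons (nat_lit 21812) (nat_lit 6) (nat_lit 111487799429753160896) (ZL.cons (nat_lit 21888) (nat_lit 6) (nat_lit 111348885695929210608) (ZL.cons (nat_lit 21964) (nat_lit 6) (nat_lit 111279459160998515866) (ZL.cons (nat_lit 22040) (nat_lit 3) (nat_lit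 55537623972207290219) (ZL.cons (nat_lit 22116) (nat_lit 6) (nat_lit 111105634435580880156) (ZL.cons (nat_lit 22192) (nat_lit 6) (nat_lit 111196820460382740156) (ZL.cons (nat_lit 22268) (nat_lit 6) (nat_lit 111094189786119368220) (ZL.cons (nat_lit 22344) (nat_lit 3) (nat_lit 55529994761303355356) (ZL.cons (nat_lit 22420) (nat_lit 6) (nat_lit 110909082155771592420) (ZL.cons (nat_lit 22496) (nat_lit 6) (nat_lit 110970766732839180850) (ZL.cons (nat_lit 22572) (nat_lit 6) (nat_lit 110903362329993846148) (ZL.cons (nat_lit 22648) (nat_lit 3) (nat_lit 55389071319273320818) (ZL.cons (nat_lit 22724) (nat_lit 6) (nat_lit 110809440724447930348) (ZL.cons (nat_lit 22800) (nat_lit 3) (nat_lit 55388118292557626577) (ZL.cons (nat_lit 22876) (nat_lit 6) (nat_lit 110712701470735637072) (ZL.cons (nat_lit 22952) (nat_lit 1) (nat_lit 18446744073709551617) ZL.nil))))))))))))))))))))))))))))))))))))))))))))))))))))))))))))))))))))))))))))))))))))))))))))))))))))))))))))))))))))))))))))))))))))))))))))))))))))))))))))))))))))))))))))))))))))))))))))))))))))))))))))))))))))))))))))))))))))))))))))))))))))))))))))))))))))))))))))))))))))))))))))))))))))))))))))))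

noncomputable def vl : XL := ⟨(nat_lit 0), (nat_lit 76), (nat_lit 236583411), (nat_lit 228), (nat_lit 144633332), (nat_lit 76), (nat_lit 236583411), (nat_lit 1), (nat_lit 5), (nat_lit 3), (nat_lit 4), (nat_lit 1), (nat_lit 4), (nat_lit 0), (nat_lit 0), (nat_lit 0)⟩

noncomputable def cp0 : Nat := (nat_lit 4971336766762393989782311021822245419881139432028011327776337016686759669349374129976788773567242306896023586631876707367729653206600366338484764899483571710774855739612658283341933707161550885047018848052947134529576991781554156271278253696080525797846535491091025447804563238230003640875683313438739178353207077940733305887098770275914751282817873615331440414178546045722051982941083165018782504962699108417596639583734723392014652854949923315695599259343482060573353433527424054343165635289991933037984404422369936258276569983352366681377206721876801952858416846134565298361493472535472465212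7050270121290399727539321355415868264539237507450687335943724523645694700178250156036961758937248974586952476583976691526838567197317308002681334970293774517482855992940156083320338834201030428820083547867060494404589753179075140327959216168552287846123676428678643658111576149510457030127993502344732363595952462632353812064025723591203906814558873818163987791378731108088263051489690780567555763850878524416001334963612364322339977766581718259287792127405250116033784692426394167609341812122580329469082020272270010517985359612160915326155772007361593296544208227795055632597922681100528715852249395647437266701408929962333701411006075554059516258746491474846432417952884581659844604068225167142844944078003308923030813579019933666779304247624831303566685359620513999521595401517877705380557747071219262493835900880254858456034413306381875643458078071677132104450740354112310632856940206219286208436644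0011145499793403767924870879355163656579728855325982308432160472535835454063288186489090329073305728241504436935579133871026627938975366121272479758985154323021531345926084813064990647137817032836675501758555293925748990458711391949305275865100289005862510671026921131046278001861946766154467543725965540833397515500330613490771854363467972319028603962730807766569779291158217363069942539422487456896404959762654148222110212735088274476079399623099950229271699648759393375812272561927641099685604962929126264037169835378917647482098195344433769022308019521925075234393375018379950438002561609644426749574510408093403020131719456173573500085516463479542733436693584170274866180405400072751351990016900779244325624423123026070081938963404280771172041153340191338820074134624575775384304719099147014934436877207997690015059644610239604328156077591570814415699401749148969173695102415000999161689757331231835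3400098114047362875960955499074799080190717753695896673041737166014950635992081311408529690095158424026280671729755163282937042402845697606748097311442728030672386133645683993253292052445626707873006576701684068569753637179197854589768312493256684628162674865317216400084860415355432198537964636316001120650702809458522254341367222710504485118987032657346092609254485608386747363087789419197999978677287613073887742056769467868538371992811780091603032625677945799227273755665010657062472717432060972066465797202410517331997034661903451686801685570293854327280441957670565047255743850692154296115294585865330883337831489850933666642150395472168073200259554516396398387492909047103128604479190630050067721479763547828325925467943845063314303389203998989047472263730925833527329489700237739929326687316745381262914892247963712393113014868669910681818298869266178610899096676338703451293511083368783535364946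8285711746809785266677606189444518482550511023191684223735530699654155658848022353094611903000627369838274346286928510221700976779021892282007467944580896649767352827127070515706694595583871489233206318346889910583553003489005675779991051751081032325097226865185556944186508150733387107510185632054768615230950701767289579220244254515701748274105720817422932360814086689255222504167009300478407641877304254556506380575687747064809153600682493809279445504648920482592856084443581964330632284909068516219214437530179628887302953395403604966517404114637197262478754059718588675567587224101899781353768978727843156132285066628580335919844420468933907875339987291073272273352033378080457386037487472063045134452037008098558288569813978233742443603676150075578193988699535290336038115959681982547074958445700754133702276009788213433408479345824809432285659779631757020494495316986915502253594125514084804276481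6456220967896661577683598535364610525010154210543877476425667780698133322540089212139498952872640340301445836101027822904308777138570013843686504290679692418891334517358653978156805438384297274194359237304873059937217935522111300414458870179629823671923506625093511283357205943051846863142251990935290401836799037558322257421131500584848907483878994687876751403549930977528694088675385994774262108266459451952368707462021358979721192755976700258697343713319426035548174959806576523342376300361331141984908277425259738237245966603132915569399262079991652158057741978086602723420607680249166778184374744740820147980118975318787561117394830430711583585632077232076345132074232707645592170674629967974109074824335181601142859152384142006323088536797714229477894968145793380804284067426762231528258839037954233906756666707347394348907105900037367702255849831795763894650030871365661815824171437213008086929904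5598767780379253930937801255974941520021416316809550821170533851295923013810686513908974538052737968979729906529770979838212600753551688926959116435333244909865325643117123711303804823345262130208979812528086466197294362837193700976341772556554887536536212683326188095229917348078307584904072123521155472618969711478859859092798579348297139602444733352963186745549979995117648653533840158378174622282035453969410860692889117951675404862236795874314993148477493089410918348183835185867904799238964905811848237989640088138001332431558156519632278392407976127766054299757081169454882125348034126403556440683924820238348633708661766837878099312113757365757862971094198467114057680061523292731341360274911412392649625662999848293951190405493671976009063427161323919692175471029259434153076044956138318219302127587227717113557123615999549879639399595102593171419657615284062013457120379234214215534481774639140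343788483345076922942472714757513513886770733876840008705200185628805538701847564836016043264279909730252550333242916804744232915990590942332886456525963463524948989713398295529091318646877625686857642517123027699665701584579513772747317053599599886393482307194178856554686594117301115629456597327850272544080292327435656948399481672589017230153148514226779211591107486160599756076727293094660122959788181128798249731458605714786265979676304325867386633764949210464718986833057784140891957128059288579010309075124880747650600204312128714438708666149565667200999780154580495620790946962689936844704512534309615096380339632593028712565073303048516508282979877832702218877812200774702457831184183127422895557262652103778727850996029546608893146028164667108804184039538420870010350488923102222613026279496018524595010966537125425563779947453728770622933478010540032501513053995236519405545166477058076084824702976)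

noncomputable def cp1 : Nat := (nat_lit 6634231373590236597570090747628528626240508106522490388031280801563130782577786657482722404612338881244722497602764305198714550402763877483868740991055271173898446668486237246950792863432243886453531503008741074405893799521116569661840648510728486054803355412122583064067267653798063832251224342152623360264508882280509142817397056986701308407927761429234934423587406886855484722974050230934932789805567171906090008217101454053429781339395979051980201926680070725451899020403560150583927954062553751263212727144591841486883491311819639844310743161326198407738961928085271082892147236868464011766112422541610987698160092352598670609685899502439374661535821896085400496281632547065414739547795322494583401177866080608762231252595045004712918604586183779390950279910591485448498381304366939310419787014370779907704327870577762689969293527339375596438624386714655270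6128286399309379626996646364875947963753802774264406438067918874994189327661415033354360906136934894484288190030486455841337281923136308321709482855356502372318025473544058272354706395185830568119014098060618294110243683221856086815432744255330809555962839884675461590262035925422762308312117588591917195651521236395659030627749365265776728444631468119409609445097688555028777867111811469308672451986083947462479915991204127400451092486386629951737131303126460776534237813311271678955230312385801549369091665807520188413931630719935487049510726362641408525239775890472855854805054586768171041289700489199499029029793343375193789239511995215726594285032157702025624439593524391033523436346835891444262031613665645746611514810472087356929857776352749729972548110219548474682298130839491986836235795771884241649075100862274003628069048138159060757539047520801461002921195399916405412455879189514288585571006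0673888644421499808602986375564400119087156872247853850834693756560951246593589838172997157775553662921451863102235483851113865769875662898562688280576674720158628600567337163811217319889720056628633177905877804418923963591422012345274670505469373327839518957275178125744408107049503767181946826945755301216831544747344992497457278973590447153780358442808797018584619256439095902004562162340026549635697880072379351683539469027273100777985342925759388689366630241926118902209457229087070407446326861704342122218234728644383758251662435739273918826516541966601447363014577397287328947300166804745374619780094201850393887877702178901861266888731072391172691499211661662861109107414721340378041089107962214799908230798021791718634992807527755441182255693884324316191819951716862929469030060892998863022394713023661571437530507021246246915775630511493686027685001268250007903620996598072350462801851130648211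1032111771650549910246684663022123421823037843672462138022316861757002400746442477416588884235652290413856826477907751116498987315172027198253874362708418057769942023811887961276239902838615347009829041065115067382775830869805598721285344922450766975604487781297548838762061159392657410188668905028954437406016484062152310926282355706336657937773216685164859782539822490884584062764391420914514918382036927266865478629412681042599461990315021667160901338607281216309206855367026454597843967801814476746516098934655797966933458245141271699837823374205460065292297315214352310123976515386857512331970452796825279195624992392622041411209236104721378167918783515379046632279805289761889975741839241430346370982897282037705999327585730284874522857113110430932925677242698849625122064629020804111472711817047734070855690825735969878539114415984451619587791115395433823879037899945693540368996621833509459320703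6072139095864406909237328449087105525698401213172309206646620200991472809401701940981447381560078455541760836032791587295318001595113754793159134040725371740962916864231553893539070537496680518572615300106066204720625613905758660416238231161551702003161830133170181224170665225822729997241072764447578457774212337821767610725653921513963757125162389388165995518818513732234918280936671874194667385302970711552084354218672446059961923869624040016580021318692873199948192496831535814961992526935659524521868749321000188221503521937429545126593921945547969372729625993440719775039308728986464208945496691595051561625537729833608314879777494701579482375148958110187900013427991012559329250251911543636145830898087105422611657896186793949026273117638203396105341933172069417379270885916124838623914383579715599639264117226930165915695291600367719957062738637799902865445647409469466218486055302357780681468602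0921026873939313833914093472751979540286807442936554942500090081203604608142246277243148339675268666471006305592929119587044833137951205075562307553541334343679668401767469123081835454311343754941388574782106925706375152712876830352285139592622002961089683896367354731567458491983830173989790968264334402812729528143943370983706557082352049649553368697561929535988786071387859938015767574113742517376864745754610160238460513943631895375103508190791932467465736501932113461154866487967780781614843839916360491623683550707168539570981517663942309924785421611982870871429276512133865340886188724313541469192379837226715236327285897970096047934343515109516316088250170773270359587398338710452176267312549486774450617925348976567552045763864188346868883338156366679319318401724864095352743005975464231244110980996250696614678253770966729854641342656711097368321794891549936376665495255463517669228374686320537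1546091702796653599622141049304807354919648595930130408919216558770773783575636047024857949085146164639020009853414138838797971057194159968059192089577770337238181472078804672591145925389376263419606477925375344152594266487180760600949967099216302843162555446315257618630741610818814350439398200126116569469853310830436358242892402194168032559079747179259514037123797729119589977141774289057252328131281153239602809295509364972489776850019384608969940394609965508222886838262736727557177092487411405928373774449884773821513061883195017037556464124021905197419875121237246056893620233314419565481609982281049826978643565793173754260475487538348489120137835569507084255252319895816515075187803895369815987156056233800131371603697970045558952060482238261247023910010054904900356159342869952513019795147078993274362601712795505171770519831024012278713551290000431678077995746790499976881808383424585138103368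500365460198400375989171271339077549157174517192039467635753386074007564256308107443508614929414297526327517606719191340128731705293823578645085010523544335025188735819966069071795293640906252333719377882508392180564328959598121131046624759441807574888401250610961920547705789965850464221510304388393298888883492457661414589239265781695822738341256295583320558075883095853215068873126541274943794249869543895205850245068241740843539241269544236858343842554813740980585899178150067524201121057657617563534600548414949547107529487495232760647770965214574179141645663126920397262718672404245758147561903934230739841744516801142404040246102589440)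

noncomputable def rc0 : Nat := (nat_lit 4946636142775548272426577857813443328969169848043723704348794657035563458841151203354501721463780722199344735254886053931221212578742131128017677794227628760681297207948911353844921316801144345712797558849424526231639260563514670800493722494575336267220845605067603652292800358329205615944677418497203313444556345448288705989524944737652550544345748623264306466420112624767881366776096625132639545355300061755504154253461047212242516778628106704528117686105517644739604402300149143712815215578573324785220261942583930910460054808251036925005830408317026469192702929990305458409978102546122067349268948047178859701884893172024101949736801889705302648055424953787721463657906384242513429385304655181710113879385137645533389611485756985009333357321967465507744098140315067731744255918252011197275248323939130122315359139301404100945379121901986505923102649735483126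6710870344938180284571566225714358730578536197873573609479867010241036390026183921153771174841324538472614503945233939020768540456023666753684955138072088630316012102531684398404081021823608275418068062235570360097854613716529010905718264060968312955818224040844539250278298207200483795737860388699959259002629727907494530271786401032185299754672575766283529820601301744511451393934635330870482067634941974697255864496695270039700722496791541040738710289501263024675814097413421114659054216741732038204577459066996979117023099297222621324381111620217804016770026005708660614203263379655860973584979013341822119090442611361470188650599098132142975471937727764140009399556882689793022136176933207193482465253871062751397402110095975268230569115996244219771055056883080065062718723445265898541985873980031788652432837373742869942420188861120191291151390165797744556182196179593109489782622977758434033951725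1441658849326323485387710831105750627345398787796398121910260109906057987098277347419395152127930953491815383808003708849286245436617549797388252597349120785345991699659591633365740763810088993719641458524776167101092318931094772340801649402020892885376150079694464582540967059921122055050687379705392763220150710615618464810060642314776447688100101941656844073602139385919413324610719830051576819246725534122849950901438390946262910909666870335626506694176645583381710239126880800751714944453412671224703551529461653508033531990173811308479290686061475095334823766030220821393188005208894553111361188654553294090328136537631101599283180375576228060771456680818830097617212149791796238420201732093548875804131376750090248973734866532856856314665348309632159064038661857991701415757146676880286724728581011776671036378674172346670038101982649248997166029833059360047512935462374558018524992625433028428303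5174871453043435040341408120946670788005511756897965801839016493881786284551430160048311522620070064436939574391232374318333229466011879427297746501693287259845920997701902063339172794113730670621501159651139109947404054568880592983406240887484983186009439560782471480573147889107671769007461754318993274937740457402507992236289711076338914760311934900213523345555207877325751523226268591799150751618502769858559849494717262538997581077120767205043898036581404109424507206585716334001933515381159402146748977505244354751890432316887313134343973916528957429255007362420722638335249295342648239044375006191899813714324053573194618591262047063533486499864149903699691882891914140669708025053001254813106715095633280887190066053057121737003420424744415290056863379490806958567335143740022299424053971753398727039213904416659024063157270198628043737451082325842226617844787964237269597448697613726771259176380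4666601584748765397747815246255730460989000830569193740184777826539215161218792254249086508869798387131221512059158966936413621556726260068891236367685027121638618646651095860174810287138318891436328307631190952071208031640113626652455301237443805452235606248896714001760541819758515297665539998274238415387612214862592383883822351624493014317704744072346229510326489681776216074545519336338153658492384599101076101015517013096074624004113443899749064088649277987120943828789670757822197660411791135769412243453621674130131145170823603694462556711093752488168666214869020053256693478361348238416084266784639867906725995119446758843374333297650009421655062510119752514662079154052130791224232101089712883722954989268305646256974423970389270709199874575711539887116517165703920252972164188017097824072519525965587367575937900449724762906127360909640537711334141127377846049108788727066556220421985560735399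1384636434768928305953679254262775751503214621466150623091345639920292965901809735920508904981705091245348082602941345563152238282876466793038371999791699296407982970787615372361615114843677864036241345672784167658960221550093839394434201073010842067434082922127788106136444618281935671899383737042032153899208104738604343949238274597422931046449532812113409724136662971475976273595801719869373371740392128536710317288191701755595825817775219548902547215691975755020108220113834338099457051446263065722632970007882891784577084726385922658879650509229226895710849807169836675659265073902169620205626911970808060601308192420891222999432995682776960947700308899700884523367278701237307816666015623068067311526978794700019247567170312609015051885829691436965851807307479868687110269506508790984678952687809266605576603597090289057461805853954262953168993129261628589087478715582767617154575453645689074942005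7362305228975758882992844507919849065553630888582758978324940296109427390646292458571544977908676824647901441125337325226261644488027021795955603932212653725310549578256618397860380707085253410601881942915687138133373874513463312286125167968962599115215389910016348953429137517577793641850869055470787642822180088942862765125340032373130758494980324516778993962591928495137477752802079777842371598804063436690160994374817945851534280730819658258729128779228592469858458128795980300669547954785312817674732894205321999326768498194444041316557207589688291718063434848508203222506359875947441386867679162868383691721090341383289155583615853987701049856562493922483393410901983428564164861647059431984212304650030587725672652566233705889324258468815104747113339539018539580236273041794264054699371298205685180701373374567750483325647409731331762432525736285819234890011078124591027838548719724587176044368756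996229141079189723030068082761474107416580352256973125134118141889543740889671542695402195356442637403599360886031031295822256991080350337392666973077700820735150900542356337938322889177257115768270496764434258484620016464673036221119945864563394888758955580256072008491464153386710788009802792487628812959485292828639024144530180217214496639363080708506486760420747679088021147810478181434396878616333759843204329790250195365049496790621655930014841046982024249754886500495139789897550050151714927235377262015294513295458390647856779760205720757863415437751230235424009184150127345798150806768647034238713462853129363333715069623350230777856)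

noncomputable def rc1 : Nat := (nat_lit 5078000582869812707988375107863684438101174990664240838614958673464740042150764671772004961525771320463735426003888768645376383106718556580097691319767923857547406047933591425285303479210319632413893055569947907025158041746699316196057442832977687507452130334974194986542587220127221376105521248311146310579146493898015003155125777137629230054004190702366575473264434535021835437558641604349921534230287425998178087239880412324966038626971387598357865356308369451656403629611123382526254746473031217936539047445925589275537161008317376468843575206277219636924305702211741857206198434353928664968060704792024983297065921418029084826993016593376541298746551431044056918919998790733977397746346340400393727876044075628611652111482471873239676366685095880425263543562649075663827850146412020407457610173830806016508572916005299471380194228036817249187923752995838846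1438598707746450484093491718172857043646775352699869783660489734938602093301536258760124016431516471466858234169139496842070174199839015925220627128313589150418643391378280118052389263731320696306129099989627881727926844997334107383526262054973342550174733542550636948855971921378002008820884180959389356124628355238844643285028771961367575254661781933091057187265950792458307615389033082445628927708492161836144605070407167416366272265736304392156120695614870379197836286510145998144340844314981988758722330671085800430527482710397541876253400062629790119713901653410022649227836594552692026632789235431939768249184965856014428794748527885534651922039665058975897020235616755297518988275232992152606186784364620624089341549590114418622361969298617905859937110705329013292630388789257521175834326227191043169506102462807385016651151129252799882037790330812825473083024847781387917469771965376748189817062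6627026412990475930342658773976322449384140571956192599778706149315866628237839370553235106318524760063696927399539909334300154377768870091971660048671712248252474798435770299095766831476326867164149641896024018430647637648100410505529149439299730461094230140015301128547034815239119569479992318579848718815383736896973284858647800846939483156654418175886501298918199568627853978502832098296689699282239198081510859213956345725818270014889415149104094435829275894067093496642057386087541796739784717605311764051617369617498946380278781194892243730203573214310206229044842322395320238614379089531762373861226979161564665112155478249454174246502617826590008534537604633837379788036760161197380651354111790587914731026851136593486483229929061548200992131276497858573599123063118024384275830168025129226154395075113730958366999808195518985184341658305902646276567686216200530931622177235891463906594647912506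4468976967939658332374383349913102956715730554723665231524014108938515175887935378314034229414811005016474670458739803188516075324052913876530682807460735359519661172523459523074096525298146707140938555400751019286240251747903794459615289859188709393290201857565100456529793314104064525054963001348084085362137687781866349283174653982555376749349602084721595185048672292086041687106318814093174427763529493714790626035545749814273775000075566556188845869651868523077780649703533263772543930174931802933461727793352237808518202243065481912018969239364895975043221008982718319809925510281624441332263256448825286727624538123809296832982813203811469480226166413320610485337293016684557532007202196298607132877419081548154128471523012463730547812601833125506946686277280804194828767138094487187262221544423325059755919592517943353394264967455718696713828186421007949753496649646067035342792980252998043650198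6398206754069589373558093312659908299902206636915982305630427303725929216069683987181174604621912845354274521470038173058436707648261131455178558050308157798712083200816772234899414507932413184123543513846987312129421570041522664432599538562380374864434048299699165280777431112037609436825885081708251162473400294362335676041237712353269719848958676652964140753526492124442378841184340311550088563826964869679147569425906791733725043436322439608637208265196470415169170797955933186951168873206571007890138021388817851301931810930705193552257984484298229176101039189937570698702927078087285692263791152521720516671716771504424411708371473128878066706886092262289928270252835699307547336120521719533789133681506954030351800213969343019903145303390006426342858402918930856570431909589209082533300260452662235643949793923661805779803873264623275197687989109215651663839301503745407657570099794671898459315845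9552945426368538149810035691921601593560445573778744072719221203579951800665695641161009950556567690375923555833241569804316198694942257447941356664805881858752406836146414600860380794334839019561951588578692586776526533755982150260872649457797119672798707819970424910494864491999345326393626878038622553660400594348454556960772995556626563103862982791042282882116824124167636109515508098532383397777832479438708484421801815236388303311818891655760554460665654555340363039154510483548332006459341726225261364952785377285541006840346956542188196040999133929537164571346837120567271459566174373217134915738418774633370369658277192983370757199857440697159587360013378777051667039020934344074374169162280162406439707072293934796888709622183537310164076816107567522111584190012893725259007588835185365503972366657408242067006417019109217002585482034915047642519501434589008873812611318181542210659049181492047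3135127529746460720039407705378152278827698729012226831151256777389162943716965199398852206688639934083171574131512143269756588244700152174730346938241305977302653892476960657770071822221168245393984777736428222421872812571104589541906879983591026628330879275530267572347816361346659946078641949483521151705428008472555142268056828026909376253446791634814923615821260565223334990558774602248567502782112971243958636038002396409093474142075640905015491334724447990262695873310566189753103442616839729119125644885913142873454987385085610633634247692121573801994895257090311967236356476280968946328749425033652770873239084435786223021887666696326746920435691030247635526122224799293405256443320798547277909112494240400180322094675192785756512176400638493313406224081482967722451770750156735275252837244161284974454911577833823917480782229158533837816414875977471232096882690963761473637625789055983261026865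234358222698575643376561841453311387149010856317844926298309008801120133213638244608459453372139769419375561748881045985817833441467548009951229128707599602149172686321340109629660035631629292531138615235434237999847179200573495850699717525364180122277004682554661809415846131846908126053183860165074822972668485388835395681383654272624142542815839829408447340827684515783529729391638039013023273699022208233908222317565024456792718302113914658965509129785723280709568377019958921427710888489940011812455045974478690049324052780510407907556564552551034080332650714716070355866421959636032205855411721454940758908096567408697560064993198604288)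

noncomputable def rc2 : Nat := (nat_lit 5215599352411212487133683158182901094242110600328473218993783459349825365948789359439494411275216152402155677771992201104891992142973187806908271072080066943391964924877389683449325543456771444587778300987069333572571628617459048512175240495302961918260689102258001267557065747308812909192069661668443201746513256196082298573581083097500450660615365820112965094351810597027958335236044378045721033273926244832407321534488089368313890599803888142479917227577370849375187055267826224307740473745362591472880124093982472456702644170171450139878144634458981441639189601323988890970843149845870099712464455391145934289113288325985036676929213725592244279494102177680352666392559757880083196391606844086711809589952018361590737945014233741425745575449703378882621155674165443010229802951307666267103788359114392925140066804124052582412057057301216983300186322214420942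2426373111572122360909562352698123165405461652516733894675957539615733425725252259234706818843545590093706834673668764921187422476661763427793232469055048976512681176925954580288492045833996473005689828894110124738402589998527115017799885458161386479184106046150812259426330952552236640475742104616898960323710146323105234739128639254033491255043366019090332538275461130839891978521193228132179752244243213470141899800944477537722366217679882944200528915388622369098157417523401411535208562977698834316702174571394109615901932974151316343782324706622086388037155074688170245859027239978787547044761156498109847568888294131128098312427814454042301433372012118343178102338574321453957116166564377882413589084437830750838104609528674763153835419035179990365448531141251711212191140269067909827291788808912740329040713445083098657854388561801154442757063851870366921458033455176271300614727590646142551272155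5989616297466564143316705336400888137255164648722229576736317063095387012812091973222368225493604163798257123823105420155059597740225121951841681365353266184781863937516006458049777832708980098351155045264763966861194959399719781374545549648758282187156463700845256026559341893737337952534513851615263554595515126153534326935657420827091578366055408493658475872814947003613144423861279043604963589368335567381559366712943508960313968215530084395588228360637856848501248019169429457399175782433025587099986304450794581356696652337664606399628085899069473073821953557371206358662539131659287586793977046825993384008643860154222348437797071135224116030720609182075997131712233186452227107504408780861783474852378777601781622845041858890529127739109741992149804457385786178740984942238679911263223261945364186814757808950695828480908388071483788523437969205660279356236287378759011781825709142025926343407752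1659195358159629597987449292787780232164244967462000105359855355664356384052372394486971274329205102250468518106252512262621715871943120574012035096638574286081598022045601905962537911159710917459972286187159201869064550048213525128991017514656377445883459154519189435709357852847064807858004517930817205956971449964150075204660005684619851521711380884031086112890816863138575790520229890089397730370371197621859465785913092260759523884740041331570529374405010712601831439512835609514145107343926671480048532112216585308154870103659384378569708023410375660515659279274487147744629612201473819322706583780333632091686441164778792579053742593407495071592699043297064866660525327020266992038489889632168287971532155539566977328446002855687301392549746017491992832239297638479676149032611934882708995384817767416057423046954545465488178241671365853090302892065519537675821159528894228625122982243634557195069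3226360470997663728496501456972207453401371737500690104704954135435823899177274789993018308236320203371701679330936948544093130392260218699890770836398693364478798007304384915028904971071549705180212734886730522515136307564697351263901436921484162334467605382291017990885332661179172961544495064294583265225218182529194766535155727193784692991099013005746199910249694111374558811796148448711975529204436186810058764189037344819744527982521449360715815356045365181214488791865600543409907513359419592904845057926641676719796385374022632783453443065411988491323274466536260128690139543261637246884854953608673536564179251378731443158431280294343948127337506254506072045557667351209742033418723504245118285962365162096158910884126395705716878951708914118302368261483264861813795951205491688551194027718664752322310488279611387588273155464948386755828582734674059690021603209847652954861978306421901047162883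5046203075105301209127031732996801817989010604275781409031120955931061788531782252136061779336738428081136044003469980981838397870758365269423232615154951971832988835046959876078315809716575334583836672870010005830407775611393813960043134281267568156260617050808280223003429008793762929395200209243563426195223265017478461177604792996583412683394600802629952296567298218525885137542514255811549066438374639530197133380724159361112907830943247989430421611746912497527788407767839246459679903843347574618772815499059895110014088281794757203840291974035185548283992084514048549168885974218921882854937826690246394847765957512877902589613624466860460787521314688589054004143049391445415053942527166109222632850920377821380264713439206106343407324816196421709580670800900458133974172467248323525278122646462454513831385010081551362271767343850272935537051370349594621895413086210216642664900715012233256668539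7756098529495836831969145109633155274828244007013840127280080861438686877709625894066356643319341461765261321829440576736135094181905802986943114695853334929258970985558533751323338680038618864610073122441175092102406590379546418319150531407511034792653869866362926639970868151130762609250418501254362627976611957905231363388921910929067288072996987132575652837841735447069221707258529048150648193512003813628145847331396637436013948227349390710838005218252876821002602724973788068076826631062692355084608110012747076201801365141854518388870874951968299588371908613534556065431818191747887368030128868308746468347054861439493570728619468686347709060504609238234676406061410088048867022415244394126644353879267676998303030860644458141451571387698519986052985509377812521932489749925153988688464011856060306779945970479726140494783102582611954183033993466860915450325875968686348818655976353100608241799193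888803562930865229435535190092684133906268333981748433133165914366846070602076626623363656044495978042080567983379705733965189608060694948890363878732246507225992217454052118343599793455817304489927852124301248484512280468222019463139327019587813136088196331305764528008953046663186416627785505196823471906195241607112020607311640228638770153059120454834198452136573650237102731549215356376945127357223810641178546768068115813980755168233977841405850976483147999386713607900722016257143819505097665439959789193733156280009771687996796694622810044017136412083109814029022488839593367958493747686316331348651435350428720617498953261757736419328)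

noncomputable def rc3 : Nat := (nat_lit 5376619924169911544801310376374693826402583295862976876110804644445297129532210096038635601817048312726506877806663094264133195326961180889047246546861499873742338775406166560352063049365807732024720032852881059763767445151241718650305886333256363725624368221642138273334878506546683798396373034864450775606024085080853042565275589464651779639505533293379800776929760783509921616253644761214985879112927097970881974704716057020513052315595457801957427816911076828924670593382919657195052641728311997025370035580662232841619148781228863293828951501270519331667172385035319753209397550419877828953614220937151112597210991410304909352652697530820317554217385378802678082581355108045910020560115373729211899823513945576773701110267284768370402279570764423319783705532105759830533636395546152555251295120458413837792903031823704117650203857319862148003396192494471328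2016186399768562404301122072346468560081116203993776545663946209582692769121845075060763319214993983315384921959943625215141943650149507862001133443785812515972047605886941617169053770066649013756453811509462216588009161171197653236978761923065802281646211245169942198555187919956083590763297633635787621320934695084171384065389809855694674912087056866491997774856284297221519176302426468186073039687108436929338179097232491891171729300637416037270724034573608876310144638864825511351517029221429885031672729394403011743135991949722941940682503316644664360020073788566757844585473925465813357749687678351361505604986713750424123813378815826535274404815952647904193301640696686349740575759640595115327135028363905568938915576618020767810913911356145929442120354291499718062120356651122328886003812033846840103025716743249359388516788961355323100746810160876648896667723428955877033463752102636978953822854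7383167648115860759911464639231431021461121974135300333852659656170524737243495413342815307019510978346458216606589791687094550337397095020567492652419663897158576384943640585889701967255396654224018155585456498480257591849665273023550841071747524786258111567723337060071106104564132335070193682839341160778394615734226905838869697135633906677710302977021070552795430994785458335787453709469353766716075720372489718371994261034198530437597548753020077605785986407964001382054554026120896754687674214016422608297406455411546976689241665589803155408179730623241473978601384515181686389001162452757506404472091314887712140746570981130595928460782016709652247352331213465700269577317810777046464934915780084062431788460105458573352722792931057988428341866925438385244134599034248682540520729468971378225886140520221883671192186897693708112625733983430701422551944907196364816215373531352630220930150172225558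0427061177647110080234245820324863312826238082517299888257511426187495819003418299756036705399137068788198902502683733637073504296154333846998851662176491654587036652098322321782290176657528927313496524743663662138332076227415126830014474864921477504705807667914339062424011354177115384742001542650717861463617787438487937993165851653299778876844174742050848836928224910069238589199778279097262487664778269287421290285150402752475090843589936885467702079796212123970198690541096858867175991322701779392575256203972537974363271393061180794777897404364470169575989235331310170881022032335788914593413159363641291911334244877190289432310301819093858413436113820903874437084544629159835335572310468791032856407222077015768223470302884104156528133926451514412122025955529305667558722079304643193438113680891163143871476600502403974399116869539837769932015690310990641275631200476238013630277307453526771285035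5957918752766131018718109107725938177162642672800876395935876200656778652187006223155506677173335816294399980054429243809539145126749333987399000665471687031871267037081508331862900783169370879354508991718283612609618374113748466908662047322456150899788335155651545672471783030909942612434291083209822981419018231188411369939073548560724740597322953991228711884321302347579849144808231926517177861147456100667973030388452571635714193443127961414009328224603444787060775951476060008444161971808016859386232671368247457594690448338999483774491032122514959143933263952794070217168437292680596338103636763031875962045029811650443406075608804557138053107070568407323327151311926492402356222632927180763541899651341937524967209502375542905666616988258191243637354533084925087747872850432485099075386416115990845696053724527160798669549590298910752582237223104659545322113724123447648096806832279765813777091423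0386511775997071768792523915246853359118887702154691888512149572702402435327403702905552177346930006500175237920375270301569860918192548842594016050970774172379707399045043481047012041877197860759380577984210594349836056005795104551395902099030291430214383647779068074194350684080757301311017561562817431637728606642337461865118228518597030025596991022590346753115345012752927037650358922671833671372174700832170345573801485774968600131934619331075042470035757265926793921238692873411964300253243660503707388618557951673192665924441059718297459968338754572790081111500904334884936241030330830426175516764087591450209549854802522422010339028946251276953787907574725935434703137873641813592029294932304239498098258989383554233326634554761391735703393602704754232112057877531380638675658768785569737577892576733299581163927920668266735654689469321334960287009986760942527476898815095959584807723088435780634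7262233030833245184525471709310975405293167556463914800752219169911828192414347579016480246813696317501543720712189400815283654526169623985582261297656074785289923401471691606006920416284695421730596022097994041299465672740349059468188783781855131474212691623630192555326859026134003191576435710571196871898080942316424492151245908173201120433244933097878296159488092736712380710866355147150654757015546772608807726895853309271424581916071970852593634829959438632954646689100083080627963852984852504035874851357815128526342625773433211010793648613455680507190272506056631250505867961866258356230615393789519735409213140894300196994138261661405048217340056552819543185103269802827858940366080240937842881899603133635333309847995650755808361478900391268410370924783059634748745095437710344123677543847504663962454445530860076472655874940551337954825603485993445251425832977335936322133102901828431133210861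850578798521455355631050653855878342006667081596094736700303953872527176090787841008627939512774191191877471137458856262074854761953284911690243001331736536913514618730535003399463652077309692066276606734192561277734519175249921437719298782183671264540365539189833343250751436572940848176662644368168123205698930109349233874842649187449611749357804938529945873937406780589767638921299520164649161537353004527496748657773010076001730865638568313390844994313052157245199203724157483481566357879456966004558609114744410896865788075485110991490174073298757465334071299198715208859877428991982550441658079499457189079764720308042224077865935175680)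

noncomputable def rc4 : Nat := (nat_lit 5618495576538516203485698583781823759567097313752013368063255756603741663801716375531064195091935063280579772686852341355192686897004361944659154155410263468634868442631569969181796797863643918646438146582869780909884412480194028706517646360645447104082843786361212567446433230714339626851857688206635020117727929209451772727605486388909351288994829851647913102706105016969349558480288487695899973306873226234109120040676474037262892178438400490056973711118851254506199619242312677733207701148449235603573073144929187765631836263166132411161027413674699191324704455495539893762872455893533487444415109954920196719551180256980168410945436578513494591204992089280054730458839807110654164072331158348027058660447857752216032201825377128329523324533105790905084654580987060633138117201035214571021149430136542085786113850398996231336128937974732262512005205050988475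1289052491987830077475661092060958571777154702456113545134037152627801706027891964687986587251901387488805979442426799177948788264251060809834634069330797034243426713578204190632869721864144300658035918393605741608372062589162355068038742597494028863444174190454858747684499647346500633459638861969519328820498836943298935847005929213068837153708004204411899840971294070362089304431662747651072528740401408746973164006095647635565548516295757258817778170507549470003376248497663280122251142464072505700548363668553018279151170221297904293807251062954336716693690272457172247533200067499019072777778559932802326868651115892198592981027444682132556784112017098136714073405426053187799942558698617713727669782680540137706830883568601668595606350493618807059866149195603352256115895533199918129172786422718463357324124628715973488719930268779279008271312385829996173609477545283879681082669078545910164799676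3677875169966133726176617659452900910904182190899146147624315117433528267461361272845317757173613267690832102453182685123609443742891437085155077226130047544216363438119049082388388802147964529273194057040231428017924499013367877684310423114307129412341124850293988229366316424472783155422974732728268974187964215778375666145833867090601319996889328335702030252172867021468609055440786074147771835496123877662445151168274392934356431402527137615156993617490142575161330856570909222798561380436232899238578937970214500211826353370193410402710233568247061180371496953033145188837252095849017029756936068843395546876413586136134061207145029450996524350156429211987398464504884859355874874935228086813757757262520172122152784321759525473014050789440572533142797386501563951679953186355740530631432610017416060873573536568078862259436835808573657888034166752983387148187225794340139046041642989057064886953402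8537925945788722242371584726907912217118945468300453799063284030025172234756411124194285709240189884734104383883136351519727716166947211956699395897900689696039389663683835421303181008709777368207712766096453809977516334580924587903683546275325037291921552541598903283273648498582389766358911937059576061988505109975945490679283063373814031667550585306310302698504951798308343118827240274065443173760324718996504114340606865751090601413617132421230497810655105368955472888748215253780284350181205659295484178961597279107248006494831732845813694624010176282586503477799518731267197953986573612277205414937506212176246910239148852660170843717573687951575412898154929303981805404531466677558446062754415170402624053944258281396970477944503818034918109765808405917362104721803871057992017786662568507392810045013908864784453789373169344598374645977774584292772260786779082427897062554060620784880978486577310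3386063423772110515018731500365986417827861850485512061926657127752982213537783023594548285520211544598594093034566529747587528754264976659470890526453870642683673807905401401779322352731330266979334301658471919422760974798926992375862289228060602269074762362110756100148919947545429348221810005178205147286528645281365487268073077368324915962005231929062879182409917880978711385226503219054958757235404023028735670032312879519528711035186382564427966288325539198919814780151261893461406097579500641293496039882625409738213709370341748860976392598649292002991037223007154504931388842111163906916203778914151801697083658686552806373270796114162758239983004017170925565497177181926203785233175261794924878637485413418673760704145569596709774671487631677305515486373597004138009394121003325603641799988579985154539311242082022579241761208523361652426793613111980944864712832717883649654699454714600900581026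7132580135253626668180621652362012791964651433367265615039031960127483285237962857533457024050423695211983800675634110193117831421008341544575474246036966737186853804277920866776844797237024694053659020684579878490673086673853247632980301466860902431798207856745353593166999610803002489708290281393760928421612236399963498239637268591443408341333150953304719113038431259496903555236745108630341028797506129922260833549590719406673208947817991334547974077867935099320323848868724785717860047433974802549873492370508656186734673192352928099380726695705125528962872379924379251172168297873772050985155581788495664606919748850912835400644307630578368956147984644848737827907276836572734005934426429363826849685961189924876260557798141607264414976285487783964712648027030448212209999020903096820256074888631653081033404343183147840907068646989467815173275357716739230805794418706697405197830916768402675042271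6005948753699626412654061406837827079027415293332177716939907706368374283402594325603846287294188370196730476269316771410712859392640057826074688326815670631060189872444673531624681143618424503386667325399538948396309422707361250056579457856092525191005430685641322043035816213863745209069274440258793329226375974591526795487353720495115213586985824010375811085394522732062392244148998492646031932404867088453239052461764554282694061672864119860742036391469500968168776764013006013154001584774442323443897275066369349317544590816179234958204338576689317444077032192015185549887216985206065439936728194114832201830602702145584944373107781267899066367886243080881338306927705588339443807976682342310166095783918145304173742589640686696862989884352246511424223408829798049043027017646570791210048918673775970238333603779830621208557296683079047779653017539846274407372945686583274053528095465333009225126681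948774867430998157592600401418588331690006092733819431345048008954299011342920600109225482168931678285853762996931950133822662734935189022696668128559914478524223811033062933361058767299436090238757007802504828891287555552893918803134243475339924757345960444720276833477892437361370931762931765613984583279116896037316500275053027006686718593633181497076656741028860351815981183871735572903269374398052307106451648881823151110683797948752713263261572356379983728464891819653007072284073616864052338210294800712888289012669696520710123611927977983997332501321100076128059221964646939878085875453087935997286519657810526332560952319568074768384)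

noncomputable def rc5 : Nat := (nat_lit 5874517166327303659891881533111913724335107629068720634225463696017497728371178997687538758311328675815449727417500089489690235150566663705590741493905408143999004070817229543283582310520873313266845711925545915707832206189539978452848741472697852358856141202851510933526482636737289578891212673398801093932416395214400411811949461827680317741778662574669577339720375254255863505707344603092964584732204755985202614971405115536770785056387020621610101879840013265565350976287250983437903389051656361721577980223346718255408592722638296343949334809239996464572374055426859434003151636594452198596681694769581530579513662723741021632218218602024520983200328818396107662735756789429399251112521585688088936922647927634389165084579349831547318860510085990725973014659474962526889880559087324939933987949307519288657977280301532631817169761042708164279428947622468017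2224911633370797710338649147941982160810341827858894709299263777072556893972468832021950996654162959536497248855840229286835181072370586478372221580418689707265144572698962356424802525436677548569453476349551429640377470652330939840195315267832116603299347223547475085268301717950229711561149420628213846830801456655722044545824774519704181507325576799230777460935533780997014449312005522127494518771539773993758554882849344164463096874515863504020054895262155140275157484224945347323394903178303395050986777554369829421019995799457719664499914680587991385212429963728992491933025741377106692428211653426542285192723289280222105730519219566118899220830304311740936731757271967135641671796746781012848272791693006077997791669061299820543852046430717234676431024214224175567318886252727818862360506216169233300076911034774047892348960156274590713408921587091336368328783582785778951665066833022478507286323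8780505899685317292310560163409295698927514018429975797517652094109776222980358852774595123040476307862842420974974562794160851378758613984039805814923585771011301238977144190343497101735637410966095957526951798342945103310263697868918649242309725234645624247169564438961812787368828070910710582995169254806408171291757122834703542049538357238423253485101506301813084237276919356950668142707648788681037600019431124602960639988778515093491726024439968929437717668968745879779109763396175272676524588156054866589491904607323475538042758170364006583308851578343571621218027972233098909023581932713426117399423331837091843156352428666436901120239955485057681320860486769504460274445735249226878804068236044536201940197482182960702033688441203447234733354324431883116420732721019370285835440870811700767319622200238993548554203171180693791024383544679839746411147446033675922826786611235235054700491746768505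7120033849584076234725223972466485214842638594530387690612828688369442793159860510409995042156828268884950043044258357564675381873583372171712599943908591629127397841919391912153305432425374272623699682184150878472347069077264023859543630882153115283578185427430034749708780252491798321448150092849487592933473313701806018529079900426518415015126413601070783393023291464351348241498116883085391695298014806862628018966071319965977443937154481911645709282398286238196522856096788151299063895749757432930012514524460020757875918382412096105585659112027498189587010436114770266020599673865631340313508786049860019775395287951348802426327817002554626599243772812900822090699964506015416582476148859278385416173237926022075399509239522903600628779253408234073027997085351407834134778757706344976097158702750819198565001925410181659286227043981717504135520211066907842167672027218436024830122348883660909243391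5900901548211686366694630943423485881865069091393987100137645169638065336833180962679897516213770681763977626397987168882000135173295685071368624485506011261140972578361745333725250377279904189441772735978470323959705689534516113982622658509455615666208946554706630792048989120560280477416404235662697039487015702569241245149764408796377874825641851491208071078034187210837482717152631201845813146582102738062520492917396676422841399277081935484157811293103189445766023025827936702937416408372302021723754515319059386899742775303541181278383186912936743484321723491243153559578890072741090945347272695399704494404260251371862229829648172453057755994489599178278938088395357879705726609087102705326630553974953286263718396966635622779257255954850623910262220070193552741228497087245039729345123322627310728953106495079121008033779725523075976578407668367163620498608537683542937034278834968166471293469881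4167927436242590476378545911942503789538829395331720910352222583879278479039328267585526182935099351007483481444615995244933699238212309780987969481718916716681966900403989148433900137146586227252557352734099760581378984284411407704905475621115928405012284849020953792080064098557237754517660924964377134547455125384904145786718211911672863472564108821625476290774362431811135842085399697349410122585356262638744365633560887966123450391758379475509469241012187441168059304579527630390491130749997903921461307690767331209317475394607364428925761322726006680966003298204243429164278079778323035937453395317417448837292253901658878031954506376082947897583309831112100602894393730028309122404148814004060822520007882443766574297329985341881325788001153047854351937815478432245676397822956972559264753215626349027638039127844500565256998016840636499055098085120500565444051752614529228525720141334461994396193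9755374792534790737243927870654557632337432383590679253583686679785637742985874425282849557937806869302680974792375608243795526230190991566123844866435661182623194897296747558852289356564093630185263346978183820223667280744671518807858210027991750249085014328180864448947814704970026952053431819999073236348989956611090208797437044032954318293516292113193324731104299448548358168257431060721082312317359677010644502840038205579018233505912813737942605478415637840721013329751609114296358702175719422899403719547907256002316893653299046975242556332354706899039672592994991320526560413635330613658247668207022442454191230525902330692117404993887521975289432952432369129541012890974612892292330828874913349286339685394194147778388263340462684878064915187186936856086873469251555348897917981726779409024403009691053737664381118400638509665589969925445762731735137748150229531799866682491986928397277734444711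856377796386526105969059632053796461062362304462897747961163732682623523763109627457472501722811838977977008039178906712821168509891216722554674463531695323424753637265380613452481103965351563567751574305079467358261808291239828210507911392478565025278090260618100852615245895234746725824889456094100765617547715967408783393290131893523779743855065016542359920219951541745181289582743192328132787985659369685757445631953949692413123520913958663640924043535268159919333878233991379999996145468376022252158912559547927716395706793024253527708083107316692388965045739291874588364172549078050399791952522452551518913047610140336705269072396288000)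

noncomputable def rc6 : Nat := (nat_lit 6132760131040030544483441071034953865579316636160737456035763830831716145036299499945509174890904991944943588303461455678419242408667325571480842041224475741032812471516820606008717745700733574798649938052681726892598344095696522268456072525889919222670817658558643686859518185656147117261015671303436995251034762769743531732372377548751394832543905701253549975347359889672970108308183663119580027405087276637041074989526647534221739314475690385449486285836685461465027627871656314210142391220266816521030241373871323994763486651376494275785669904441757994298651706725401261042425307312121230736693830773053273533385462583509888887682472244411103274687109262226959535144393483283047526058595169921138169701576367063227265757099279562853003609551173251490088949426262641166262209044338966002279116527825092280989648518145679361608303684846971335762815201768786705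2467125439348376887451717821764647129312619245373262465321289884887533889483255959951348766305370981378308905095615096937878071133291024107615130868263475611812761954182779240943266143416662237308821176375762591030141866985615615065371486903326099448100802888730847067731646306173232897937945145324144795155877474476139397151144242953701540769956356531974598655971782118866044312934999597383366744822773606664081980910726987510102465811297039010437682736318201344160387893884409140273431816672499367297040660771455593186577082357470611772619206081730365358965306902315694617919587213873286562522838810660526728764226855903972730019993057321539804626636768878062638641981044573762361919208627141098066846895025799423731536988022937328148650864041909033834004407623529153495857572937687126774470810024844853409782542462298759866756680035542014383476731484308510994076592489187381057204341402823011584635883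5464540055824181402290053381351500902300072195434960580455364713722282901562734569331336991365550619064407404329108643685012333285870274705966538446833053106854542315026481013354950797038061245655699377501387412791197223709249793026281663391799357040852307376938359034736133131608519357468060057277093151302066045023291744809570664065086070721704310240757724984588392665792712487091429576120562308388723528435761390423176371933121929553966464699332794130986503514519849591678118242985061338322736551389608369550908145780953563550984677427092711604236640397683764254822764694986988199688923042394673526666615153758760486439081006480163820218315431373581158450302148478223603925816118292818669512949277301200062102513087919707668495945561067719071687735829270727022405931011572295505567642697122405092143026885870239573261495611735902766215243017541120137667227114292783870136714816843960720606158246415658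9196116448995779673548941160769582281250266478996042431918467507549947472437825107127559855419284520566767580012239408094734593777760723156060773482897034774007862184387642202090526741258240744352090454917627601227724277196397273746005798405205053135772448342043071376867485819907451098583060357964322282961032886935953893408738513415547047784461245151524086766167918070084024585992679859910383581695713773979993018110272882695944403644627381081542836385859829339563475322375464578560281860325349694327418133954799415431553522213894452169592437618810169151717302618535069520882042688515671521725602063179080338554764692449332143189801247719543531613025016042521646410827389847123075562010337920175930797323327977898064545174866209073602285984739187915109707954163562081242122517369793801955670658002651324892470730347803487303496931903665727313011431679400030909692305182074522789364339414277817684513859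7427851770598430512122198160013024760430276759420574218766099924443909872034430532226509244155337482257643219806322449674113489967824674203432564924565361088707660641200026171256455191289373605556995971435684279241407715177899392261637245537489622344526305180596204729587466290642354359468268366808204228679068085982267810808200204844422395005375941362807694764760509731432559417209282013200799845250753664266473288756307420917400036161257034572836768897533742371873059419906776009751498078506477510311106892855850562082666069587363379031967984749639767516747632650637301155789485235956369801279095957613246111509856959567830591384047091743776947860385232913826916895763055931197135937478894052058961366152674899617839248386736260775298289124870743634191002195985549923600776466531419097258776093204369972197022767024258213570989034425861092508293957606879522068595589295147102758469591276497243928373779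0639027567562706448048095352724938090621371196201931476097058337155136012592077132729170777753037530716505339148556932826127071962832885149021978079027998653783469069294500996520451965106308688168927450929462211543678415078929490376487382053771696381532040013348055869797176217413605739450916293611032383192681665969780605473857691248272118544627066031855667694210375619017418467111135396895220556640742097405176335494872989110802114453111037675512816435384351601165327942804612043482737087591603458877382951229157250770160738179677274598806442905638506623549243759512262904856411736937590069394147333943455004699331314307457492571173203906818782790573890189168376782402926862670578781101520468595238513715452689900610230419152391994743683257465821354679905350024578818520503303653275352004635118874713457766252244444275165723464052606954470961611763189023129546558706763082748664048763652663474686770116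0771347125125753002138746023886300958002853480908735993958095347598529530060243993537045950783726263649039257519446605027989200271519187385390733969441036497877106322075851619291293457047040401329213280838199377958312732954788173499360242531972069666554338405108228579416983741698004785984406143403006596760232449338231646073130126352863287650712091886793188067235899180061040541320860877798112371591841738192077680727927847398543733490023270823667422032715531174171033403539951423574104308924102677642009191483482069611297722315886643454151874435644967965909769692112141763124061370148803716575428278296443193570665541118185885979616008566105335951989895123233278051571938294070727302256599136010317330122372588472837871207281124055217437318679252057631488769329469507961447002575108791323119535427401219678843233145595342753748829751671353242012854618526520771980276024729397922663246629349375803494731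017681172937353096842865591897205839823786221116512783751086478797949812209914047001040650636944780049549361164647933498650059606190753291706443846893207689034905116223144719835414370789664294509528100265585387718757193262472322786914501918437984555137832838337569626993598854048049908072334418605206329838036161210762212029182936269564139831858002280711908804524640927011207625590422097212643588514404423795924400246312755631247114773181905010088771632373798231240125672491229065820750429298042067544980120550118687223418862100151810855989462973172811624909937840161151727102326621183384041237057264589538082117181748010371403931039914000384)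

noncomputable def rc7 : Nat := (nat_lit 6387107305553552188422879288969946513701806070804309506239330840067730190804083912515787920741623672740085274076971759283264626757464585497278234828302097898197485988319207165015754935656688273435066818906995419541922900584802565725297498487608143277110970433231279330113739015865384752801835935064428971581736225533768943813110283109950528223269208482137651939726829525635342976565787816081569590111958042160069442648818284183082180118422184090003862002352921603605993682981219008005080168682155844190789025168857909642379577110288235395587952407254419719973610443692589585076802474285632252281848951972692711745519192375853448875957841556892738909387646369090249602378160009937071869237348535583306351887673353296121932266142085206530577105296723306987210968457583249841770536173342692200923252558324882638414113492637627223504321665493985916154632188904064036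7707205270456269260003046486743614734575795558354451491701373379185178165059055781100199386938942166994507793493303403827164712145809881920674136305945502091578208907751814497981091304492609895514356557465432754987496611903310454315849805264197038951464878925485305317584306173161271955164158785019625698930720721449962585251799609890996746495917843114660532336543797029501836277584305479615817119228087027243974080905055525869758293482327251980085690434546520831713771921391966343388165031876601686333894150639483964113659924722536858828862982195912133159526100390410163936852891096718071873040711277821811380966451627977332994339642275965765825958726406456934420017396487591594441023099148974216936112810784871015240403731225026071314524525045989711358703628024550197322843599194058551134844978322627577115003327448138399260325039103793422470646825877190993832419960730500548429383792079803201891122211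9764364726585586414251716594680106181026266265448026119515709400082265119786862326531811162871263362722846423659560178063244485243589156092364133043028938583301639249343210779541512548036681256022102031425121283073382306702707929798344731851848827144079911394011398292832086512798366435684673063399685213209309519581227769726627472849157449064864408710440366464942582555893046689734001165368948873024793156611331599277649939286008102446096915585685041237494375849203469761243970960728412380229130436604747067399120971964088813645876629690868980825518206903484005205208162409659205131471866974026265428074135782932590478136636600384993132278779139353855128972192271477869812352973772729344105092571361075417393379073947402011953481631101172508984579930832405087298405044438397209850379277432111245775709043548031761199736325979644365466033167411542857745285588450605748521174536494386134545047795291238979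6601621874222217681808473751963770756753611379147057259742064406002800831957916401300717783570151897934280701905193393361197615582950533300410417987953931758612164510914922926588871984063998716019102110720482993787523474968580670138867647651393521642054869367189047215929017989493329591984962721275970570831562354752722871449845847280048321821598430916795039121080529852737374280032206258405974391273410740142231851485775993541589292114733695713657450323299644224953105220865077306262163108188522051318650806965179815650939294790212540905086739985320236467320088138833417916585508118698082469525465513762467477903665996024382558502897546811296504679247764414397264680735602369448272046183038182997254528867592071571993732904017716251588964120286831408644819716870773595896177662082543720135075608678927253683467566646806178572433201340530969842321381508412297822447028062412051514849449787942611582265565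3687558743753513500272741666994769385759803748028779811573243920480957974538257133935388652474110628986012655384328369289018702215767548685306767991953558180917772497795322317191009800648457080479673728147214413119252973740743268172196007554551009816518058114909419840681563972110722036667294398831197959407609017514619810150367399118006395499369594340964988626216721764354448845971478441521074393987038944061665183148969703723101135025227038313888037374594386098343504997554469319904051063624402434290769783291666566809057950917019978060386911360167285995631523503968903920020067599335512520659188215960554922062173291559742200005863816591293918120119088672402279697003573343413049477090195459806438302252329345774379315179615647572146414375961073769723049187140457931175878009789860910774944730536076695836204762233567898390156622048130086085008529204969884189611378475696465228063781773678548780560948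2853193531047657217647095408510472695585237588488609682359302736275116819193906770342658119496322400588530162146238822422895643710005944021722044494987125795406224315968901019613761558566106803828687696828518905501295789388684076614828726087319157649534567977396123943749561345700629505081591502805048391359452071869051420131154259527814089932037598830570720188495243357244960792546844923958530787303411561502853497851258268242473711291748279190240142198949517352848126405918146234613227327944574239230651162572199536914153927945765051640915557494344064719468943631479060544038232004885024971092742550491589336327139420983613107611678997818763170227712715559411594832503629496642165026124514965279635465576732151362499161291264439948826077372706732603671467372575474567115410373710073622259931724886960801270989360898894646418181760597472380378355463056150188875004106367322036526280740846540713424094743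9586549440224346998602639126231220628462413482423327974053362800393574648293511702661913216988691284119336946005630204745817621441117342932943806199097290214166049501531015181756025803312295826821490125102567851752835538272461422372968215369167336809546235085109408276369024316248680475851253707722731267986376940687828811398936871068919010944495059334823743620529776396971405101260005281065950906760194423408682560170684294386873975953763193374077029700518813372557985963081069203425621703871843580855415597711760401654616807969315159885576966551407094837831213078697012475707524424737155845529055652583966107787620986442674801522245022865853775611147228439441536576166405509738865723744855645721456732563960258242792554808664446286972349939138606140653415024015072928340405611352063022301531870747706450550300797105576788722697855646237419830008259361449995800322381210623807202231613469891007751407717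578495651079123066982264379615486643212489372675312883878095038860052869934132510905942122285485447009886561432972184400575413905272084321805436624968304811456836000765349280085932554601321361887628874530823331559168265404171508576456838716875389742430667311529246828724919168797263434803055113032961527349945707135738069573997323784198545644326636638203054967780639717477397116257084665345702750108172199057569108998327297312136450761433173331452486349433164326085252326178304141796407529469358571096425537757556725096163586295379519712988624965765676098406895448240212568962680811287415710194373436700079764277788359593174886929392728014848)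

noncomputable def rc8 : Nat := (nat_lit 6634231373590236597570090747628528626240508106522490388031280801563130782577786657482722404612338881244722497602764305198714550402763877483868740991055271173898446668486237246950792863432243886453531503008741074405893799521116569661840648510728486054803355412122583064067267653798063832251224342152623360264508882280509142817397056986701308407927761429234934423587406886855484722974050230934932789805567171906090008217101454053429781339395979051980201926680070725451899020403560150583927954062553751263212727144591841486883491311819639844310743161326198407738961928085271082892147236868464011766112422541610987698160092352598670609685899502439374661535821896085400496281632547065414739547795322494583401177866080608762231252595045004712918604586183779390950279910591485448498381304366939310419787014370779907704327870577762689969293527339375596438624386714655270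6128286399309379626996646364875947963753802774264406438067918874994189327661415033354360906136934894484288190030486455841337281923136308321709482855356502372318025473544058272354706395185830568119014098060618294110243683221856086815432744255330809555962839884675461590262035925422762308312117588591917195651521236395659030627749365265776728444631468119409609445097688555028777867111811469308672451986083947462479915991204127400451092486386629951737131303126460776534237813311271678955230312385801549369091665807520188413931630719935487049510726362641408525239775890472855854805054586768171041289700489199499029029793343375193789239511995215726594285032157702025624439593524391033523436346835891444262031613665645746611514810472087356929857776352749729972548110219548474682298130839491986836235795771884241649075100862274003628069048138159060757539047520801461002921195399916405412455879189514288585571006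0673888644421499808602986375564400119087156872247853850834693756560951246593589838172997157775553662921451863102235483851113865769875662898562688280576674720158628600567337163811217319889720056628633177905877804418923963591422012345274670505469373327839518957275178125744408107049503767181946826945755301216831544747344992497457278973590447153780358442808797018584619256439095902004562162340026549635697880072379351683539469027273100777985342925759388689366630241926118902209457229087070407446326861704342122218234728644383758251662435739273918826516541966601447363014577397287328947300166804745374619780094201850393887877702178901861266888731072391172691499211661662861109107414721340378041089107962214799908230798021791718634992807527755441182255693884324316191819951716862929469030060892998863022394713023661571437530507021246246915775630511493686027685001268250007903620996598072350462801851130648211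1032111771650549910246684663022123421823037843672462138022316861757002400746442477416588884235652290413856826477907751116498987315172027198253874362708418057769942023811887961276239902838615347009829041065115067382775830869805598721285344922450766975604487781297548838762061159392657410188668905028954437406016484062152310926282355706336657937773216685164859782539822490884584062764391420914514918382036927266865478629412681042599461990315021667160901338607281216309206855367026454597843967801814476746516098934655797966933458245141271699837823374205460065292297315214352310123976515386857512331970452796825279195624992392622041411209236104721378167918783515379046632279805289761889975741839241430346370982897282037705999327585730284874522857113110430932925677242698849625122064629020804111472711817047734070855690825735969878539114415984451619587791115395433823879037899945693540368996621833509459320703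6072139095864406909237328449087105525698401213172309206646620200991472809401701940981447381560078455541760836032791587295318001595113754793159134040725371740962916864231553893539070537496680518572615300106066204720625613905758660416238231161551702003161830133170181224170665225822729997241072764447578457774212337821767610725653921513963757125162389388165995518818513732234918280936671874194667385302970711552084354218672446059961923869624040016580021318692873199948192496831535814961992526935659524521868749321000188221503521937429545126593921945547969372729625993440719775039308728986464208945496691595051561625537729833608314879777494701579482375148958110187900013427991012559329250251911543636145830898087105422611657896186793949026273117638203396105341933172069417379270885916124838623914383579715599639264117226930165915695291600367719957062738637799902865445647409469466218486055302357780681468602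0921026873939313833914093472751979540286807442936554942500090081203604608142246277243148339675268666471006305592929119587044833137951205075562307553541334343679668401767469123081835454311343754941388574782106925706375152712876830352285139592622002961089683896367354731567458491983830173989790968264334402812729528143943370983706557082352049649553368697561929535988786071387859938015767574113742517376864745754610160238460513943631895375103508190791932467465736501932113461154866487967780781614843839916360491623683550707168539570981517663942309924785421611982870871429276512133865340886188724313541469192379837226715236327285897970096047934343515109516316088250170773270359587398338710452176267312549486774450617925348976567552045763864188346868883338156366679319318401724864095352743005975464231244110980996250696614678253770966729854641342656711097368321794891549936376665495255463517669228374686320537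1546091702796653599622141049304807354919648595930130408919216558770773783575636047024857949085146164639020009853414138838797971057194159968059192089577770337238181472078804672591145925389376263419606477925375344152594266487180760600949967099216302843162555446315257618630741610818814350439398200126116569469853310830436358242892402194168032559079747179259514037123797729119589977141774289057252328131281153239602809295509364972489776850019384608969940394609965508222886838262736727557177092487411405928373774449884773821513061883195017037556464124021905197419875121237246056893620233314419565481609982281049826978643565793173754260475487538348489120137835569507084255252319895816515075187803895369815987156056233800131371603697970045558952060482238261247023910010054904900356159342869952513019795147078993274362601712795505171770519831024012278713551290000431678077995746790499976881808383424585138103368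500365460198400375989171271339077549157174517192039467635753386074007564256308107443508614929414297526327517606719191340128731705293823578645085010523544335025188735819966069071795293640906252333719377882508392180564328959598121131046624759441807574888401250610961920547705789965850464221510304388393298888883492457661414589239265781695822738341256295583320558075883095853215068873126541274943794249869543895205850245068241740843539241269544236858343842554813740980585899178150067524201121057657617563534600548414949547107529487495232760647770965214574179141645663126920397262718672404245758147561903934230739841744516801142404040246102589440)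

end Vale.Agent.Lib.P154.PChain.BQ.S6
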