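import Vale.Agent.Lib.P154.PChain.BQ.R6_1

set_option linter.all false

namespace Vale.Agent.Lib.P154.PChain.BQ.S7

open Vale.Agent.Lib.P154.Chain

noncomputable def pc0 : PT := (PT.nd (nat_lit 3303612) (PT.nd (nat_lit 3100812) (PT.nd (nat_lit 3019536) (PT.nd (nat_lit 2978898) (PT.nd (nat_lit 2735382) (PT.nd (nat_lit 2735304) PT.nil (PT.lf (nat_lit 76) (nat_lit 6) (nat_lit 1) (nat_lit 3) (nat_lit 161) (nat_lit 67) (nat_lit 162))) (PT.nd (nat_lit 40560) (PT.lf (nat_lit 76) (nat_lit 6) (nat_lit 1) (nat_lit 1) (nat_lit 162) (nat_lit 67) (nat_lit 161)) (PT.lf (nat_lit 228) (nat_lit 3) (nat_lit 3) (nat_lit 1) (nat_lit 161) (nat_lit 68) (nat_lit 161)))) (PT.nd (nat_lit 78) (PT.lf (nat_lit 760) (nat_lit 6) (nat_lit 10) (nat_lit 3) (nat_lit 158) (nat_lit 73) (nat_lit 159)) (PT.nd (nat_lit 40482) (PT.lf (nat_lit 760) (nat_lit 6) (nat_lit 10) (nat_lit 1) (nat_lit 159) (nat_lit 73) (nat_lit 158)) (PT.lf (nat_lit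 836) (nat_lit 6) (nat_lit 11) (nat_lit 3) (nat_lit 157) (nat_lit 74) (nat_lit 159))))) (PT.nd (nat_lit 40638) (PT.nd (nat_lit 78) (PT.lf (nat_lit 912) (nat_lit 3) (nat_lit 12) (nat_lit 1) (nat_lit 158) (nat_lit 74) (nat_lit 158)) (PT.nd (nat_lit 40482) (PT.lf (nat_lit 836) (nat_lit 6) (nat_lit 11) (nat_lit 1) (nat_lit 159) (nat_lit 74) (nat_lit 157)) (PT.lf (nat_lit 988) (nat_lit 6) (nat_lit 13) (nat_lit 3) (nat_lit 157) (nat_lit 75) (nat_lit 158)))) (PT.nd (nat_lit 40482) (PT.lf (nat_lit 988) (nat_lit 6) (nat_lit 13) (nat_lit 1) (nat_lit 158) (nat_lit 75) (nat_lit 157)) (PT.nd (nat_lit 78) (PT.lf (nat_lit 1064) (nat_lit 6) (nat_lit 14) (nat_lit 3) (nat_lit 156) (nat_lit 76) (nat_lit 158)) (PT.lf (nat_lit 1140) (nat_lit 3) (nat_lit 15) (nat_lit 1) (nat_lit 157) (nat_lit 76) (nat_lit 157)))))) (PT.nd (nat_lit 121602) (PT.nd (nat_lit 81042) (PT.nd (nat_lit 40482) (PT.lf (nat_lit 1064) (nat_lit 6)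 (nat_lit 14) (nat_lit 1) (nat_lit 158) (nat_lit 76) (nat_lit 156)) (PT.nd (nat_lit 78) (PT.lf (nat_lit 1292) (nat_lit 6) (nat_lit 17) (nat_lit 3) (nat_lit 156) (nat_lit 77) (nat_lit 157)) (PT.lf (nat_lit 1292) (nat_lit 6) (nat_lit 17) (nat_lit 1) (nat_lit 157) (nat_lit 77) (nat_lit 156)))) (PT.nd (nat_lit 78) (PT.lf (nat_lit 1368) (nat_lit 6) (nat_lit 18) (nat_lit 3) (nat_lit 155) (nat_lit 78) (nat_lit 157)) (PT.nd (nat_lit 78) (PT.lf (nat_lit 1444) (nat_lit 3) (nat_lit 19) (nat_lit 1) (nat_lit 156) (nat_lit 78) (nat_lit 156)) (PT.lf (nat_lit 1368) (nat_lit 6) (nat_lit 18) (nat_lit 1) (nat_lit 157) (nat_lit 78) (nat_lit 155))))) (PT.nd (nat_lit 234) (PT.nd (nat_lit 78) (PT.lf (nat_lit 1520) (nat_lit 6) (nat_lit 20) (nat_lit 3) (nat_lit 154) (nat_lit 79) (nat_lit 157)) (PT.nd (nat_lit 78) (PT.lf (nat_lit 1596) (nat_lit 6) (nat_lit 21) (nat_lit 3) (nat_lit 155) (nat_lit 79) (nat_lit 156)) (PT.lf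 (nat_lit 1596) (nat_lit 6) (nat_lit 21) (nat_lit 1) (nat_lit 156) (nat_lit 79) (nat_lit 155)))) (PT.nd (nat_lit 40482) (PT.nd (nat_lit 40404) (PT.lf (nat_lit 1520) (nat_lit 6) (nat_lit 20) (nat_lit 1) (nat_lit 157) (nat_lit 79) (nat_lit 154)) (PT.lf (nat_lit 1672) (nat_lit 6) (nat_lit 22) (nat_lit 3) (nat_lit 154) (nat_lit 80) (nat_lit 156))) (PT.nd (nat_lit 78) (PT.lf (nat_lit 1748) (nat_lit 3) (nat_lit 23) (nat_lit 1) (nat_lit 155) (nat_lit 80) (nat_lit 155)) (PT.lf (nat_lit 1672) (nat_lit 6) (nat_lit 22) (nat_lit 1) (nat_lit 156) (nat_lit 80) (nat_lit 154))))))) (PT.nd (nat_lit 121914) (PT.nd (nat_lit 40794) (PT.nd (nat_lit 234) (PT.nd (nat_lit 78) (PT.lf (nat_lit 1824) (nat_lit 6) (nat_lit 24) (nat_lit 3) (nat_lit 153) (nat_lit 81) (nat_lit 156)) (PT.nd (nat_lit 78) (PT.lf (nat_lit 1900) (nat_lit 6) (nat_lit 25) (nat_lit 3) (nat_lit 154) (nat_lit 81) (nat_lit 155)) (PT.lf (nat_lit 1900) (nat_lit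 6) (nat_lit 25) (nat_lit 1) (nat_lit 155) (nat_lit 81) (nat_lit 154)))) (PT.nd (nat_lit 40404) (PT.lf (nat_lit 1824) (nat_lit 6) (nat_lit 24) (nat_lit 1) (nat_lit 156) (nat_lit 81) (nat_lit 153)) (PT.nd (nat_lit 78) (PT.lf (nat_lit 1976) (nat_lit 6) (nat_lit 26) (nat_lit 3) (nat_lit 153) (nat_lit 82) (nat_lit 155)) (PT.lf (nat_lit 2052) (nat_lit 3) (nat_lit 27) (nat_lit 1) (nat_lit 154) (nat_lit 82) (nat_lit 154))))) (PT.nd (nat_lit 40560) (PT.nd (nat_lit 40404) (PT.lf (nat_lit 1976) (nat_lit 6) (nat_lit 26) (nat_lit 1) (nat_lit 155) (nat_lit 82) (nat_lit 153)) (PT.nd (nat_lit 78) (PT.lf (nat_lit 2128) (nat_lit 6) (nat_lit 28) (nat_lit 3) (nat_lit 152) (nat_lit 83) (nat_lit 155)) (PT.lf (nat_lit 2204) (nat_lit 6) (nat_lit 29) (nat_lit 3) (nat_lit 153) (nat_lit 83) (nat_lit 154)))) (PT.nd (nat_lit 40404) (PT.nd (nat_lit 78) (PT.lf (nat_lit 2204) (nat_lit 6) (nat_lit 29) (nat_lit 1) (nat_lit 154)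 (nat_lit 83) (nat_lit 153)) (PT.lf (nat_lit 2128) (nat_lit 6) (nat_lit 28) (nat_lit 1) (nat_lit 155) (nat_lit 83) (nat_lit 152))) (PT.nd (nat_lit 78) (PT.lf (nat_lit 2280) (nat_lit 6) (nat_lit 30) (nat_lit 3) (nat_lit 151) (nat_lit 84) (nat_lit 155)) (PT.lf (nat_lit 2356) (nat_lit 6) (nat_lit 31) (nat_lit 3) (nat_lit 152) (nat_lit 84) (nat_lit 154)))))) (PT.nd (nat_lit 40716) (PT.nd (nat_lit 40482) (PT.nd (nat_lit 78) (PT.lf (nat_lit 2432) (nat_lit 3) (nat_lit 32) (nat_lit 1) (nat_lit 153) (nat_lit 84) (nat_lit 153)) (PT.nd (nat_lit 78) (PT.lf (nat_lit 2356) (nat_lit 6) (nat_lit 31) (nat_lit 1) (nat_lit 154) (nat_lit 84) (nat_lit 152)) (PT.lf (nat_lit 2280) (nat_lit 6) (nat_lit 30) (nat_lit 1) (nat_lit 155) (nat_lit 84) (nat_lit 151)))) (PT.nd (nat_lit 78) (PT.lf (nat_lit 2508) (nat_lit 6) (nat_lit 33) (nat_lit 3) (nat_lit 151) (nat_lit 85) (nat_lit 154)) (PT.nd (nat_lit 78) (PT.lf (nat_lit 2584)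 (nat_lit 6) (nat_lit 34) (nat_lit 3) (nat_lit 152) (nat_lit 85) (nat_lit 153)) (PT.lf (nat_lit 2584) (nat_lit 6) (nat_lit 34) (nat_lit 1) (nat_lit 153) (nat_lit 85) (nat_lit 152))))) (PT.nd (nat_lit 40482) (PT.nd (nat_lit 40326) (PT.lf (nat_lit 2508) (nat_lit 6) (nat_lit 33) (nat_lit 1) (nat_lit 154) (nat_lit 85) (nat_lit 151)) (PT.nd (nat_lit 78) (PT.lf (nat_lit 2660) (nat_lit 6) (nat_lit 35) (nat_lit 3) (nat_lit 150) (nat_lit 86) (nat_lit 154)) (PT.lf (nat_lit 2736) (nat_lit 6) (nat_lit 36) (nat_lit 3) (nat_lit 151) (nat_lit 86) (nat_lit 153)))) (PT.nd (nat_lit 156) (PT.nd (nat_lit 78) (PT.lf (nat_lit 2812) (nat_lit 3) (nat_lit 37) (nat_lit 1) (nat_lit 152) (nat_lit 86) (nat_lit 152)) (PT.lf (nat_lit 2736) (nat_lit 6) (nat_lit 36) (nat_lit 1) (nat_lit 153) (nat_lit 86) (nat_lit 151))) (PT.nd (nat_lit 40326) (PT.lf (nat_lit 2660) (nat_lit 6) (nat_lit 35) (nat_lit 1) (nat_lit 154) (nat_lit 86)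 (nat_lit 150)) (PT.lf (nat_lit 2888) (nat_lit 6) (nat_lit 38) (nat_lit 3) (nat_lit 150) (nat_lit 87) (nat_lit 153))))))))
noncomputable def pc1 : PT := (PT.nd (nat_lit 202878) (PT.nd (nat_lit 81354) (PT.nd (nat_lit 40716) (PT.nd (nat_lit 40482) (PT.nd (nat_lit 78) (PT.lf (nat_lit 2964) (nat_lit 6) (nat_lit 39) (nat_lit 3) (nat_lit 151) (nat_lit 87) (nat_lit 152)) (PT.nd (nat_lit 78) (PT.lf (nat_lit 2964) (nat_lit 6) (nat_lit 39) (nat_lit 1) (nat_lit 152) (nat_lit 87) (nat_lit 151)) (PT.lf (nat_lit 2888) (nat_lit 6) (nat_lit 38) (nat_lit 1) (nat_lit 153) (nat_lit 87) (nat_lit 150)))) (PT.nd (nat_lit 78) (PT.lf (nat_lit 3040) (nat_lit 6) (nat_lit 40) (nat_lit 3) (nat_lit 149) (nat_lit 88) (nat_lit 153)) (PT.nd (nat_lit 78) (PT.lf (nat_lit 3116) (nat_lit 6) (nat_lit 41) (nat_lit 3) (nat_lit 150) (nat_lit 88) (nat_lit 152)) (PT.lf (nat_lit 3192) (nat_lit 3) (nat_lit 42) (nat_lit 1) (nat_lit 151) (nat_lit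 88) (nat_lit 151))))) (PT.nd (nat_lit 40404) (PT.nd (nat_lit 78) (PT.lf (nat_lit 3116) (nat_lit 6) (nat_lit 41) (nat_lit 1) (nat_lit 152) (nat_lit 88) (nat_lit 150)) (PT.nd (nat_lit 40248) (PT.lf (nat_lit 3040) (nat_lit 6) (nat_lit 40) (nat_lit 1) (nat_lit 153) (nat_lit 88) (nat_lit 149)) (PT.lf (nat_lit 3268) (nat_lit 6) (nat_lit 43) (nat_lit 3) (nat_lit 148) (nat_lit 89) (nat_lit 153)))) (PT.nd (nat_lit 78) (PT.lf (nat_lit 3344) (nat_lit 6) (nat_lit 44) (nat_lit 3) (nat_lit 149) (nat_lit 89) (nat_lit 152)) (PT.nd (nat_lit 78) (PT.lf (nat_lit 3420) (nat_lit 6) (nat_lit 45) (nat_lit 3) (nat_lit 150) (nat_lit 89) (nat_lit 151)) (PT.lf (nat_lit 3420) (nat_lit 6) (nat_lit 45) (nat_lit 1) (nat_lit 151) (nat_lit 89) (nat_lit 150)))))) (PT.nd (nat_lit 40638) (PT.nd (nat_lit 40404) (PT.nd (nat_lit 78) (PT.lf (nat_lit 3344) (nat_lit 6) (nat_lit 44) (nat_lit 1) (nat_lit 152) (nat_lit 89) (nat_lit 149))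 (PT.nd (nat_lit 40248) (PT.lf (nat_lit 3268) (nat_lit 6) (nat_lit 43) (nat_lit 1) (nat_lit 153) (nat_lit 89) (nat_lit 148)) (PT.lf (nat_lit 3496) (nat_lit 6) (nat_lit 46) (nat_lit 3) (nat_lit 148) (nat_lit 90) (nat_lit 152)))) (PT.nd (nat_lit 78) (PT.lf (nat_lit 3572) (nat_lit 6) (nat_lit 47) (nat_lit 3) (nat_lit 149) (nat_lit 90) (nat_lit 151)) (PT.nd (nat_lit 78) (PT.lf (nat_lit 3648) (nat_lit 3) (nat_lit 48) (nat_lit 1) (nat_lit 150) (nat_lit 90) (nat_lit 150)) (PT.lf (nat_lit 3572) (nat_lit 6) (nat_lit 47) (nat_lit 1) (nat_lit 151) (nat_lit 90) (nat_lit 149))))) (PT.nd (nat_lit 40404) (PT.nd (nat_lit 40248) (PT.lf (nat_lit 3496) (nat_lit 6) (nat_lit 46) (nat_lit 1) (nat_lit 152) (nat_lit 90) (nat_lit 148)) (PT.nd (nat_lit 78) (PT.lf (nat_lit 3724) (nat_lit 6) (nat_lit 49) (nat_lit 3) (nat_lit 147) (nat_lit 91) (nat_lit 152)) (PT.lf (nat_lit 3800) (nat_lit 6) (nat_lit 50) (nat_lit 3) (nat_lit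 148) (nat_lit 91) (nat_lit 151)))) (PT.nd (nat_lit 156) (PT.nd (nat_lit 78) (PT.lf (nat_lit 3876) (nat_lit 6) (nat_lit 51) (nat_lit 3) (nat_lit 149) (nat_lit 91) (nat_lit 150)) (PT.lf (nat_lit 3876) (nat_lit 6) (nat_lit 51) (nat_lit 1) (nat_lit 150) (nat_lit 91) (nat_lit 149))) (PT.nd (nat_lit 78) (PT.lf (nat_lit 3800) (nat_lit 6) (nat_lit 50) (nat_lit 1) (nat_lit 151) (nat_lit 91) (nat_lit 148)) (PT.lf (nat_lit 3724) (nat_lit 6) (nat_lit 49) (nat_lit 1) (nat_lit 152) (nat_lit 91) (nat_lit 147))))))) (PT.nd (nat_lit 81276) (PT.nd (nat_lit 40638) (PT.nd (nat_lit 234) (PT.nd (nat_lit 78) (PT.lf (nat_lit 3952) (nat_lit 6) (nat_lit 52) (nat_lit 3) (nat_lit 147) (nat_lit 92) (nat_lit 151)) (PT.nd (nat_lit 78) (PT.lf (nat_lit 4028) (nat_lit 6) (nat_lit 53) (nat_lit 3) (nat_lit 148) (nat_lit 92) (nat_lit 150)) (PT.lf (nat_lit 4104) (nat_lit 3) (nat_lit 54) (nat_lit 1) (nat_lit 149) (nat_lit 92) (nat_lit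 149)))) (PT.nd (nat_lit 78) (PT.lf (nat_lit 4028) (nat_lit 6) (nat_lit 53) (nat_lit 1) (nat_lit 150) (nat_lit 92) (nat_lit 148)) (PT.nd (nat_lit 40248) (PT.lf (nat_lit 3952) (nat_lit 6) (nat_lit 52) (nat_lit 1) (nat_lit 151) (nat_lit 92) (nat_lit 147)) (PT.lf (nat_lit 4180) (nat_lit 6) (nat_lit 55) (nat_lit 3) (nat_lit 146) (nat_lit 93) (nat_lit 151))))) (PT.nd (nat_lit 234) (PT.nd (nat_lit 78) (PT.lf (nat_lit 4256) (nat_lit 6) (nat_lit 56) (nat_lit 3) (nat_lit 147) (nat_lit 93) (nat_lit 150)) (PT.nd (nat_lit 78) (PT.lf (nat_lit 4332) (nat_lit 6) (nat_lit 57) (nat_lit 3) (nat_lit 148) (nat_lit 93) (nat_lit 149)) (PT.lf (nat_lit 4332) (nat_lit 6) (nat_lit 57) (nat_lit 1) (nat_lit 149) (nat_lit 93) (nat_lit 148)))) (PT.nd (nat_lit 40248) (PT.nd (nat_lit 78) (PT.lf (nat_lit 4256) (nat_lit 6) (nat_lit 56) (nat_lit 1) (nat_lit 150) (nat_lit 93) (nat_lit 147)) (PT.lf (nat_lit 4180) (nat_lit 6) (nat_lit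 55) (nat_lit 1) (nat_lit 151) (nat_lit 93) (nat_lit 146))) (PT.nd (nat_lit 78) (PT.lf (nat_lit 4408) (nat_lit 6) (nat_lit 58) (nat_lit 3) (nat_lit 145) (nat_lit 94) (nat_lit 151)) (PT.lf (nat_lit 4484) (nat_lit 6) (nat_lit 59) (nat_lit 3) (nat_lit 146) (nat_lit 94) (nat_lit 150)))))) (PT.nd (nat_lit 40560) (PT.nd (nat_lit 234) (PT.nd (nat_lit 78) (PT.lf (nat_lit 4560) (nat_lit 6) (nat_lit 60) (nat_lit 3) (nat_lit 147) (nat_lit 94) (nat_lit 149)) (PT.nd (nat_lit 78) (PT.lf (nat_lit 4636) (nat_lit 3) (nat_lit 61) (nat_lit 1) (nat_lit 148) (nat_lit 94) (nat_lit 148)) (PT.lf (nat_lit 4560) (nat_lit 6) (nat_lit 60) (nat_lit 1) (nat_lit 149) (nat_lit 94) (nat_lit 147)))) (PT.nd (nat_lit 78) (PT.lf (nat_lit 4484) (nat_lit 6) (nat_lit 59) (nat_lit 1) (nat_lit 150) (nat_lit 94) (nat_lit 146)) (PT.nd (nat_lit 40170) (PT.lf (nat_lit 4408) (nat_lit 6) (nat_lit 58) (nat_lit 1) (nat_lit 151) (nat_lit 94) (nat_lit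 145)) (PT.lf (nat_lit 4712) (nat_lit 6) (nat_lit 62) (nat_lit 3) (nat_lit 145) (nat_lit 95) (nat_lit 150))))) (PT.nd (nat_lit 234) (PT.nd (nat_lit 78) (PT.lf (nat_lit 4788) (nat_lit 6) (nat_lit 63) (nat_lit 3) (nat_lit 146) (nat_lit 95) (nat_lit 149)) (PT.nd (nat_lit 78) (PT.lf (nat_lit 4864) (nat_lit 6) (nat_lit 64) (nat_lit 3) (nat_lit 147) (nat_lit 95) (nat_lit 148)) (PT.lf (nat_lit 4864) (nat_lit 6) (nat_lit 64) (nat_lit 1) (nat_lit 148) (nat_lit 95) (nat_lit 147)))) (PT.nd (nat_lit 40248) (PT.nd (nat_lit 78) (PT.lf (nat_lit 4788) (nat_lit 6) (nat_lit 63) (nat_lit 1) (nat_lit 149) (nat_lit 95) (nat_lit 146)) (PT.lf (nat_lit 4712) (nat_lit 6) (nat_lit 62) (nat_lit 1) (nat_lit 150) (nat_lit 95) (nat_lit 145))) (PT.nd (nat_lit 78) (PT.lf (nat_lit 4940) (nat_lit 6) (nat_lit 65) (nat_lit 3) (nat_lit 144) (nat_lit 96) (nat_lit 150)) (PT.lf (nat_lit 5016) (nat_lit 6) (nat_lit 66) (nat_lit 3) (nat_lit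 145) (nat_lit 96) (nat_lit 149))))))))
noncomputable def pc2 : PT := (PT.nd (nat_lit 121992) (PT.nd (nat_lit 40950) (PT.nd (nat_lit 40482) (PT.nd (nat_lit 234) (PT.nd (nat_lit 78) (PT.lf (nat_lit 5092) (nat_lit 6) (nat_lit 67) (nat_lit 3) (nat_lit 146) (nat_lit 96) (nat_lit 148)) (PT.nd (nat_lit 78) (PT.lf (nat_lit 5168) (nat_lit 3) (nat_lit 68) (nat_lit 1) (nat_lit 147) (nat_lit 96) (nat_lit 147)) (PT.lf (nat_lit 5092) (nat_lit 6) (nat_lit 67) (nat_lit 1) (nat_lit 148) (nat_lit 96) (nat_lit 146)))) (PT.nd (nat_lit 78) (PT.lf (nat_lit 5016) (nat_lit 6) (nat_lit 66) (nat_lit 1) (nat_lit 149) (nat_lit 96) (nat_lit 145)) (PT.nd (nat_lit 40092) (PT.lf (nat_lit 4940) (nat_lit 6) (nat_lit 65) (nat_lit 1) (nat_lit 150) (nat_lit 96) (nat_lit 144)) (PT.lf (nat_lit 5244) (nat_lit 6) (nat_lit 69) (nat_lit 3) (nat_lit 143) (nat_lit 97) (nat_lit 150))))) (PT.nd (nat_lit 234) (PT.nd (nat_lit 78) (PT.lf (nat_lit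 5320) (nat_lit 6) (nat_lit 70) (nat_lit 3) (nat_lit 144) (nat_lit 97) (nat_lit 149)) (PT.nd (nat_lit 78) (PT.lf (nat_lit 5396) (nat_lit 6) (nat_lit 71) (nat_lit 3) (nat_lit 145) (nat_lit 97) (nat_lit 148)) (PT.lf (nat_lit 5472) (nat_lit 6) (nat_lit 72) (nat_lit 3) (nat_lit 146) (nat_lit 97) (nat_lit 147)))) (PT.nd (nat_lit 78) (PT.lf (nat_lit 5472) (nat_lit 6) (nat_lit 72) (nat_lit 1) (nat_lit 147) (nat_lit 97) (nat_lit 146)) (PT.nd (nat_lit 78) (PT.lf (nat_lit 5396) (nat_lit 6) (nat_lit 71) (nat_lit 1) (nat_lit 148) (nat_lit 97) (nat_lit 145)) (PT.lf (nat_lit 5320) (nat_lit 6) (nat_lit 70) (nat_lit 1) (nat_lit 149) (nat_lit 97) (nat_lit 144)))))) (PT.nd (nat_lit 40482) (PT.nd (nat_lit 40248) (PT.nd (nat_lit 40092) (PT.lf (nat_lit 5244) (nat_lit 6) (nat_lit 69) (nat_lit 1) (nat_lit 150) (nat_lit 97) (nat_lit 143)) (PT.nd (nat_lit 78) (PT.lf (nat_lit 5548) (nat_lit 6) (nat_lit 73) (nat_lit 3) (nat_lit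 143) (nat_lit 98) (nat_lit 149)) (PT.lf (nat_lit 5624) (nat_lit 6) (nat_lit 74) (nat_lit 3) (nat_lit 144) (nat_lit 98) (nat_lit 148)))) (PT.nd (nat_lit 78) (PT.lf (nat_lit 5700) (nat_lit 6) (nat_lit 75) (nat_lit 3) (nat_lit 145) (nat_lit 98) (nat_lit 147)) (PT.nd (nat_lit 78) (PT.lf (nat_lit 5776) (nat_lit 3) (nat_lit 76) (nat_lit 1) (nat_lit 146) (nat_lit 98) (nat_lit 146)) (PT.lf (nat_lit 5700) (nat_lit 6) (nat_lit 75) (nat_lit 1) (nat_lit 147) (nat_lit 98) (nat_lit 145))))) (PT.nd (nat_lit 40248) (PT.nd (nat_lit 78) (PT.lf (nat_lit 5624) (nat_lit 6) (nat_lit 74) (nat_lit 1) (nat_lit 148) (nat_lit 98) (nat_lit 144)) (PT.nd (nat_lit 40092) (PT.lf (nat_lit 5548) (nat_lit 6) (nat_lit 73) (nat_lit 1) (nat_lit 149) (nat_lit 98) (nat_lit 143)) (PT.lf (nat_lit 5852) (nat_lit 6) (nat_lit 77) (nat_lit 3) (nat_lit 142) (nat_lit 99) (nat_lit 149)))) (PT.nd (nat_lit 156) (PT.nd (nat_lit 78) (PT.lf (nat_lit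 5928) (nat_lit 6) (nat_lit 78) (nat_lit 3) (nat_lit 143) (nat_lit 99) (nat_lit 148)) (PT.lf (nat_lit 6004) (nat_lit 6) (nat_lit 79) (nat_lit 3) (nat_lit 144) (nat_lit 99) (nat_lit 147))) (PT.nd (nat_lit 78) (PT.lf (nat_lit 6080) (nat_lit 6) (nat_lit 80) (nat_lit 3) (nat_lit 145) (nat_lit 99) (nat_lit 146)) (PT.lf (nat_lit 6080) (nat_lit 6) (nat_lit 80) (nat_lit 1) (nat_lit 146) (nat_lit 99) (nat_lit 145))))))) (PT.nd (nat_lit 80886) (PT.nd (nat_lit 40404) (PT.nd (nat_lit 40170) (PT.nd (nat_lit 78) (PT.lf (nat_lit 6004) (nat_lit 6) (nat_lit 79) (nat_lit 1) (nat_lit 147) (nat_lit 99) (nat_lit 144)) (PT.nd (nat_lit 78) (PT.lf (nat_lit 5928) (nat_lit 6) (nat_lit 78) (nat_lit 1) (nat_lit 148) (nat_lit 99) (nat_lit 143)) (PT.lf (nat_lit 5852) (nat_lit 6) (nat_lit 77) (nat_lit 1) (nat_lit 149) (nat_lit 99) (nat_lit 142)))) (PT.nd (nat_lit 78) (PT.lf (nat_lit 6156) (nat_lit 6) (nat_lit 81) (nat_lit 3)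 (nat_lit 141) (nat_lit 100) (nat_lit 149)) (PT.nd (nat_lit 78) (PT.lf (nat_lit 6232) (nat_lit 6) (nat_lit 82) (nat_lit 3) (nat_lit 142) (nat_lit 100) (nat_lit 148)) (PT.lf (nat_lit 6308) (nat_lit 6) (nat_lit 83) (nat_lit 3) (nat_lit 143) (nat_lit 100) (nat_lit 147))))) (PT.nd (nat_lit 234) (PT.nd (nat_lit 78) (PT.lf (nat_lit 6384) (nat_lit 6) (nat_lit 84) (nat_lit 3) (nat_lit 144) (nat_lit 100) (nat_lit 146)) (PT.nd (nat_lit 78) (PT.lf (nat_lit 6460) (nat_lit 3) (nat_lit 85) (nat_lit 1) (nat_lit 145) (nat_lit 100) (nat_lit 145)) (PT.lf (nat_lit 6384) (nat_lit 6) (nat_lit 84) (nat_lit 1) (nat_lit 146) (nat_lit 100) (nat_lit 144)))) (PT.nd (nat_lit 156) (PT.nd (nat_lit 78) (PT.lf (nat_lit 6308) (nat_lit 6) (nat_lit 83) (nat_lit 1) (nat_lit 147) (nat_lit 100) (nat_lit 143)) (PT.lf (nat_lit 6232) (nat_lit 6) (nat_lit 82) (nat_lit 1) (nat_lit 148) (nat_lit 100) (nat_lit 142))) (PT.nd (nat_lit 40014)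 (PT.lf (nat_lit 6156) (nat_lit 6) (nat_lit 81) (nat_lit 1) (nat_lit 149) (nat_lit 100) (nat_lit 141)) (PT.lf (nat_lit 6612) (nat_lit 6) (nat_lit 87) (nat_lit 3) (nat_lit 141) (nat_lit 101) (nat_lit 148)))))) (PT.nd (nat_lit 468) (PT.nd (nat_lit 234) (PT.nd (nat_lit 78) (PT.lf (nat_lit 6688) (nat_lit 6) (nat_lit 88) (nat_lit 3) (nat_lit 142) (nat_lit 101) (nat_lit 147)) (PT.nd (nat_lit 78) (PT.lf (nat_lit 6764) (nat_lit 6) (nat_lit 89) (nat_lit 3) (nat_lit 143) (nat_lit 101) (nat_lit 146)) (PT.lf (nat_lit 6840) (nat_lit 6) (nat_lit 90) (nat_lit 3) (nat_lit 144) (nat_lit 101) (nat_lit 145)))) (PT.nd (nat_lit 78) (PT.lf (nat_lit 6840) (nat_lit 6) (nat_lit 90) (nat_lit 1) (nat_lit 145) (nat_lit 101) (nat_lit 144)) (PT.nd (nat_lit 78) (PT.lf (nat_lit 6764) (nat_lit 6) (nat_lit 89) (nat_lit 1) (nat_lit 146) (nat_lit 101) (nat_lit 143)) (PT.lf (nat_lit 6688) (nat_lit 6) (nat_lit 88) (nat_lit 1) (nat_lit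 147) (nat_lit 101) (nat_lit 142))))) (PT.nd (nat_lit 40170) (PT.nd (nat_lit 40014) (PT.lf (nat_lit 6612) (nat_lit 6) (nat_lit 87) (nat_lit 1) (nat_lit 148) (nat_lit 101) (nat_lit 141)) (PT.nd (nat_lit 78) (PT.lf (nat_lit 6916) (nat_lit 6) (nat_lit 91) (nat_lit 3) (nat_lit 140) (nat_lit 102) (nat_lit 148)) (PT.lf (nat_lit 6992) (nat_lit 6) (nat_lit 92) (nat_lit 3) (nat_lit 141) (nat_lit 102) (nat_lit 147)))) (PT.nd (nat_lit 156) (PT.nd (nat_lit 78) (PT.lf (nat_lit 7068) (nat_lit 6) (nat_lit 93) (nat_lit 3) (nat_lit 142) (nat_lit 102) (nat_lit 146)) (PT.lf (nat_lit 7144) (nat_lit 6) (nat_lit 94) (nat_lit 3) (nat_lit 143) (nat_lit 102) (nat_lit 145))) (PT.nd (nat_lit 78) (PT.lf (nat_lit 7220) (nat_lit 3) (nat_lit 95) (nat_lit 1) (nat_lit 144) (nat_lit 102) (nat_lit 144)) (PT.lf (nat_lit 7144) (nat_lit 6) (nat_lit 94) (nat_lit 1) (nat_lit 145) (nat_lit 102) (nat_lit 143))))))))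
noncomputable def pc3 : PT := (PT.nd (nat_lit 121446) (PT.nd (nat_lit 80652) (PT.nd (nat_lit 40326) (PT.nd (nat_lit 40092) (PT.nd (nat_lit 78) (PT.lf (nat_lit 7068) (nat_lit 6) (nat_lit 93) (nat_lit 1) (nat_lit 146) (nat_lit 102) (nat_lit 142)) (PT.nd (nat_lit 78) (PT.lf (nat_lit 6992) (nat_lit 6) (nat_lit 92) (nat_lit 1) (nat_lit 147) (nat_lit 102) (nat_lit 141)) (PT.lf (nat_lit 6916) (nat_lit 6) (nat_lit 91) (nat_lit 1) (nat_lit 148) (nat_lit 102) (nat_lit 140)))) (PT.nd (nat_lit 78) (PT.lf (nat_lit 7296) (nat_lit 6) (nat_lit 96) (nat_lit 3) (nat_lit 139) (nat_lit 103) (nat_lit 148)) (PT.nd (nat_lit 78) (PT.lf (nat_lit 7372) (nat_lit 6) (nat_lit 97) (nat_lit 3) (nat_lit 140) (nat_lit 103) (nat_lit 147)) (PT.lf (nat_lit 7448) (nat_lit 6) (nat_lit 98) (nat_lit 3) (nat_lit 141) (nat_lit 103) (nat_lit 146))))) (PT.nd (nat_lit 234) (PT.nd (nat_lit 78) (PT.lf (nat_lit 7524) (nat_lit 6) (nat_lit 99)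 (nat_lit 3) (nat_lit 142) (nat_lit 103) (nat_lit 145)) (PT.nd (nat_lit 78) (PT.lf (nat_lit 7600) (nat_lit 6) (nat_lit 100) (nat_lit 3) (nat_lit 143) (nat_lit 103) (nat_lit 144)) (PT.lf (nat_lit 7600) (nat_lit 6) (nat_lit 100) (nat_lit 1) (nat_lit 144) (nat_lit 103) (nat_lit 143)))) (PT.nd (nat_lit 156) (PT.nd (nat_lit 78) (PT.lf (nat_lit 7524) (nat_lit 6) (nat_lit 99) (nat_lit 1) (nat_lit 145) (nat_lit 103) (nat_lit 142)) (PT.lf (nat_lit 7448) (nat_lit 6) (nat_lit 98) (nat_lit 1) (nat_lit 146) (nat_lit 103) (nat_lit 141))) (PT.nd (nat_lit 78) (PT.lf (nat_lit 7372) (nat_lit 6) (nat_lit 97) (nat_lit 1) (nat_lit 147) (nat_lit 103) (nat_lit 140)) (PT.lf (nat_lit 7296) (nat_lit 6) (nat_lit 96) (nat_lit 1) (nat_lit 148) (nat_lit 103) (nat_lit 139)))))) (PT.nd (nat_lit 468) (PT.nd (nat_lit 234) (PT.nd (nat_lit 78) (PT.lf (nat_lit 7676) (nat_lit 6) (nat_lit 101) (nat_lit 3) (nat_lit 138) (nat_lit 104)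 (nat_lit 148)) (PT.nd (nat_lit 78) (PT.lf (nat_lit 7752) (nat_lit 6) (nat_lit 102) (nat_lit 3) (nat_lit 139) (nat_lit 104) (nat_lit 147)) (PT.lf (nat_lit 7828) (nat_lit 6) (nat_lit 103) (nat_lit 3) (nat_lit 140) (nat_lit 104) (nat_lit 146)))) (PT.nd (nat_lit 78) (PT.lf (nat_lit 7904) (nat_lit 6) (nat_lit 104) (nat_lit 3) (nat_lit 141) (nat_lit 104) (nat_lit 145)) (PT.nd (nat_lit 78) (PT.lf (nat_lit 7980) (nat_lit 6) (nat_lit 105) (nat_lit 3) (nat_lit 142) (nat_lit 104) (nat_lit 144)) (PT.lf (nat_lit 8056) (nat_lit 3) (nat_lit 106) (nat_lit 1) (nat_lit 143) (nat_lit 104) (nat_lit 143))))) (PT.nd (nat_lit 234) (PT.nd (nat_lit 78) (PT.lf (nat_lit 7980) (nat_lit 6) (nat_lit 105) (nat_lit 1) (nat_lit 144) (nat_lit 104) (nat_lit 142)) (PT.nd (nat_lit 78) (PT.lf (nat_lit 7904) (nat_lit 6) (nat_lit 104) (nat_lit 1) (nat_lit 145) (nat_lit 104) (nat_lit 141)) (PT.lf (nat_lit 7828) (nat_lit 6) (nat_lit 103)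 (nat_lit 1) (nat_lit 146) (nat_lit 104) (nat_lit 140)))) (PT.nd (nat_lit 39936) (PT.nd (nat_lit 78) (PT.lf (nat_lit 7752) (nat_lit 6) (nat_lit 102) (nat_lit 1) (nat_lit 147) (nat_lit 104) (nat_lit 139)) (PT.lf (nat_lit 7676) (nat_lit 6) (nat_lit 101) (nat_lit 1) (nat_lit 148) (nat_lit 104) (nat_lit 138))) (PT.nd (nat_lit 78) (PT.lf (nat_lit 8132) (nat_lit 6) (nat_lit 107) (nat_lit 3) (nat_lit 138) (nat_lit 105) (nat_lit 147)) (PT.lf (nat_lit 8208) (nat_lit 6) (nat_lit 108) (nat_lit 3) (nat_lit 139) (nat_lit 105) (nat_lit 146))))))) (PT.nd (nat_lit 40794) (PT.nd (nat_lit 468) (PT.nd (nat_lit 234) (PT.nd (nat_lit 78) (PT.lf (nat_lit 8284) (nat_lit 6) (nat_lit 109) (nat_lit 3) (nat_lit 140) (nat_lit 105) (nat_lit 145)) (PT.nd (nat_lit 78) (PT.lf (nat_lit 8360) (nat_lit 6) (nat_lit 110) (nat_lit 3) (nat_lit 141) (nat_lit 105) (nat_lit 144)) (PT.lf (nat_lit 8436) (nat_lit 6) (nat_lit 111) (nat_lit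 3) (nat_lit 142) (nat_lit 105) (nat_lit 143)))) (PT.nd (nat_lit 78) (PT.lf (nat_lit 8436) (nat_lit 6) (nat_lit 111) (nat_lit 1) (nat_lit 143) (nat_lit 105) (nat_lit 142)) (PT.nd (nat_lit 78) (PT.lf (nat_lit 8360) (nat_lit 6) (nat_lit 110) (nat_lit 1) (nat_lit 144) (nat_lit 105) (nat_lit 141)) (PT.lf (nat_lit 8284) (nat_lit 6) (nat_lit 109) (nat_lit 1) (nat_lit 145) (nat_lit 105) (nat_lit 140))))) (PT.nd (nat_lit 40014) (PT.nd (nat_lit 78) (PT.lf (nat_lit 8208) (nat_lit 6) (nat_lit 108) (nat_lit 1) (nat_lit 146) (nat_lit 105) (nat_lit 139)) (PT.nd (nat_lit 39858) (PT.lf (nat_lit 8132) (nat_lit 6) (nat_lit 107) (nat_lit 1) (nat_lit 147) (nat_lit 105) (nat_lit 138)) (PT.lf (nat_lit 8512) (nat_lit 6) (nat_lit 112) (nat_lit 3) (nat_lit 137) (nat_lit 106) (nat_lit 147)))) (PT.nd (nat_lit 156) (PT.nd (nat_lit 78) (PT.lf (nat_lit 8588) (nat_lit 6) (nat_lit 113) (nat_lit 3) (nat_lit 138) (nat_lit 106)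 (nat_lit 146)) (PT.lf (nat_lit 8664) (nat_lit 6) (nat_lit 114) (nat_lit 3) (nat_lit 139) (nat_lit 106) (nat_lit 145))) (PT.nd (nat_lit 78) (PT.lf (nat_lit 8740) (nat_lit 6) (nat_lit 115) (nat_lit 3) (nat_lit 140) (nat_lit 106) (nat_lit 144)) (PT.lf (nat_lit 8816) (nat_lit 6) (nat_lit 116) (nat_lit 3) (nat_lit 141) (nat_lit 106) (nat_lit 143)))))) (PT.nd (nat_lit 40170) (PT.nd (nat_lit 234) (PT.nd (nat_lit 78) (PT.lf (nat_lit 8892) (nat_lit 3) (nat_lit 117) (nat_lit 1) (nat_lit 142) (nat_lit 106) (nat_lit 142)) (PT.nd (nat_lit 78) (PT.lf (nat_lit 8816) (nat_lit 6) (nat_lit 116) (nat_lit 1) (nat_lit 143) (nat_lit 106) (nat_lit 141)) (PT.lf (nat_lit 8740) (nat_lit 6) (nat_lit 115) (nat_lit 1) (nat_lit 144) (nat_lit 106) (nat_lit 140)))) (PT.nd (nat_lit 78) (PT.lf (nat_lit 8664) (nat_lit 6) (nat_lit 114) (nat_lit 1) (nat_lit 145) (nat_lit 106) (nat_lit 139)) (PT.nd (nat_lit 78) (PT.lf (nat_lit 8588)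 (nat_lit 6) (nat_lit 113) (nat_lit 1) (nat_lit 146) (nat_lit 106) (nat_lit 138)) (PT.lf (nat_lit 8512) (nat_lit 6) (nat_lit 112) (nat_lit 1) (nat_lit 147) (nat_lit 106) (nat_lit 137))))) (PT.nd (nat_lit 234) (PT.nd (nat_lit 78) (PT.lf (nat_lit 8968) (nat_lit 6) (nat_lit 118) (nat_lit 3) (nat_lit 136) (nat_lit 107) (nat_lit 147)) (PT.nd (nat_lit 78) (PT.lf (nat_lit 9044) (nat_lit 6) (nat_lit 119) (nat_lit 3) (nat_lit 137) (nat_lit 107) (nat_lit 146)) (PT.lf (nat_lit 9120) (nat_lit 6) (nat_lit 120) (nat_lit 3) (nat_lit 138) (nat_lit 107) (nat_lit 145)))) (PT.nd (nat_lit 156) (PT.nd (nat_lit 78) (PT.lf (nat_lit 9196) (nat_lit 6) (nat_lit 121) (nat_lit 3) (nat_lit 139) (nat_lit 107) (nat_lit 144)) (PT.lf (nat_lit 9272) (nat_lit 6) (nat_lit 122) (nat_lit 3) (nat_lit 140) (nat_lit 107) (nat_lit 143))) (PT.nd (nat_lit 78) (PT.lf (nat_lit 9348) (nat_lit 6) (nat_lit 123) (nat_lit 3) (nat_lit 141) (nat_lit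 107) (nat_lit 142)) (PT.lf (nat_lit 9348) (nat_lit 6) (nat_lit 123) (nat_lit 1) (nat_lit 142) (nat_lit 107) (nat_lit 141))))))))
noncomputable def pc4 : PT := (PT.nd (nat_lit 81198) (PT.nd (nat_lit 40560) (PT.nd (nat_lit 40092) (PT.nd (nat_lit 234) (PT.nd (nat_lit 78) (PT.lf (nat_lit 9272) (nat_lit 6) (nat_lit 122) (nat_lit 1) (nat_lit 143) (nat_lit 107) (nat_lit 140)) (PT.nd (nat_lit 78) (PT.lf (nat_lit 9196) (nat_lit 6) (nat_lit 121) (nat_lit 1) (nat_lit 144) (nat_lit 107) (nat_lit 139)) (PT.lf (nat_lit 9120) (nat_lit 6) (nat_lit 120) (nat_lit 1) (nat_lit 145) (nat_lit 107) (nat_lit 138)))) (PT.nd (nat_lit 78) (PT.lf (nat_lit 9044) (nat_lit 6) (nat_lit 119) (nat_lit 1) (nat_lit 146) (nat_lit 107) (nat_lit 137)) (PT.nd (nat_lit 39702) (PT.lf (nat_lit 8968) (nat_lit 6) (nat_lit 118) (nat_lit 1) (nat_lit 147) (nat_lit 107) (nat_lit 136)) (PT.lf (nat_lit 9424) (nat_lit 6) (nat_lit 124) (nat_lit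 3) (nat_lit 135) (nat_lit 108) (nat_lit 147))))) (PT.nd (nat_lit 234) (PT.nd (nat_lit 78) (PT.lf (nat_lit 9500) (nat_lit 6) (nat_lit 125) (nat_lit 3) (nat_lit 136) (nat_lit 108) (nat_lit 146)) (PT.nd (nat_lit 78) (PT.lf (nat_lit 9576) (nat_lit 6) (nat_lit 126) (nat_lit 3) (nat_lit 137) (nat_lit 108) (nat_lit 145)) (PT.lf (nat_lit 9652) (nat_lit 6) (nat_lit 127) (nat_lit 3) (nat_lit 138) (nat_lit 108) (nat_lit 144)))) (PT.nd (nat_lit 78) (PT.lf (nat_lit 9728) (nat_lit 6) (nat_lit 128) (nat_lit 3) (nat_lit 139) (nat_lit 108) (nat_lit 143)) (PT.nd (nat_lit 78) (PT.lf (nat_lit 9804) (nat_lit 6) (nat_lit 129) (nat_lit 3) (nat_lit 140) (nat_lit 108) (nat_lit 142)) (PT.lf (nat_lit 9880) (nat_lit 3) (nat_lit 130) (nat_lit 1) (nat_lit 141) (nat_lit 108) (nat_lit 141)))))) (PT.nd (nat_lit 40092) (PT.nd (nat_lit 234) (PT.nd (nat_lit 78) (PT.lf (nat_lit 9804) (nat_lit 6) (nat_lit 129) (nat_lit 1) (nat_lit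 142) (nat_lit 108) (nat_lit 140)) (PT.nd (nat_lit 78) (PT.lf (nat_lit 9728) (nat_lit 6) (nat_lit 128) (nat_lit 1) (nat_lit 143) (nat_lit 108) (nat_lit 139)) (PT.lf (nat_lit 9652) (nat_lit 6) (nat_lit 127) (nat_lit 1) (nat_lit 144) (nat_lit 108) (nat_lit 138)))) (PT.nd (nat_lit 78) (PT.lf (nat_lit 9576) (nat_lit 6) (nat_lit 126) (nat_lit 1) (nat_lit 145) (nat_lit 108) (nat_lit 137)) (PT.nd (nat_lit 78) (PT.lf (nat_lit 9500) (nat_lit 6) (nat_lit 125) (nat_lit 1) (nat_lit 146) (nat_lit 108) (nat_lit 136)) (PT.lf (nat_lit 9424) (nat_lit 6) (nat_lit 124) (nat_lit 1) (nat_lit 147) (nat_lit 108) (nat_lit 135))))) (PT.nd (nat_lit 234) (PT.nd (nat_lit 78) (PT.lf (nat_lit 9956) (nat_lit 6) (nat_lit 131) (nat_lit 3) (nat_lit 135) (nat_lit 109) (nat_lit 146)) (PT.nd (nat_lit 78) (PT.lf (nat_lit 10032) (nat_lit 6) (nat_lit 132) (nat_lit 3) (nat_lit 136) (nat_lit 109) (nat_lit 145)) (PT.lf (nat_lit 10108) (nat_lit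 6) (nat_lit 133) (nat_lit 3) (nat_lit 137) (nat_lit 109) (nat_lit 144)))) (PT.nd (nat_lit 156) (PT.nd (nat_lit 78) (PT.lf (nat_lit 10184) (nat_lit 6) (nat_lit 134) (nat_lit 3) (nat_lit 138) (nat_lit 109) (nat_lit 143)) (PT.lf (nat_lit 10260) (nat_lit 6) (nat_lit 135) (nat_lit 3) (nat_lit 139) (nat_lit 109) (nat_lit 142))) (PT.nd (nat_lit 78) (PT.lf (nat_lit 10336) (nat_lit 6) (nat_lit 136) (nat_lit 3) (nat_lit 140) (nat_lit 109) (nat_lit 141)) (PT.lf (nat_lit 10336) (nat_lit 6) (nat_lit 136) (nat_lit 1) (nat_lit 141) (nat_lit 109) (nat_lit 140))))))) (PT.nd (nat_lit 40638) (PT.nd (nat_lit 40092) (PT.nd (nat_lit 234) (PT.nd (nat_lit 78) (PT.lf (nat_lit 10260) (nat_lit 6) (nat_lit 135) (nat_lit 1) (nat_lit 142) (nat_lit 109) (nat_lit 139)) (PT.nd (nat_lit 78) (PT.lf (nat_lit 10184) (nat_lit 6) (nat_lit 134) (nat_lit 1) (nat_lit 143) (nat_lit 109) (nat_lit 138)) (PT.lf (nat_lit 10108) (nat_lit 6)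 (nat_lit 133) (nat_lit 1) (nat_lit 144) (nat_lit 109) (nat_lit 137)))) (PT.nd (nat_lit 78) (PT.lf (nat_lit 10032) (nat_lit 6) (nat_lit 132) (nat_lit 1) (nat_lit 145) (nat_lit 109) (nat_lit 136)) (PT.nd (nat_lit 39702) (PT.lf (nat_lit 9956) (nat_lit 6) (nat_lit 131) (nat_lit 1) (nat_lit 146) (nat_lit 109) (nat_lit 135)) (PT.lf (nat_lit 10412) (nat_lit 6) (nat_lit 137) (nat_lit 3) (nat_lit 134) (nat_lit 110) (nat_lit 146))))) (PT.nd (nat_lit 234) (PT.nd (nat_lit 78) (PT.lf (nat_lit 10488) (nat_lit 6) (nat_lit 138) (nat_lit 3) (nat_lit 135) (nat_lit 110) (nat_lit 145)) (PT.nd (nat_lit 78) (PT.lf (nat_lit 10564) (nat_lit 6) (nat_lit 139) (nat_lit 3) (nat_lit 136) (nat_lit 110) (nat_lit 144)) (PT.lf (nat_lit 10640) (nat_lit 6) (nat_lit 140) (nat_lit 3) (nat_lit 137) (nat_lit 110) (nat_lit 143)))) (PT.nd (nat_lit 156) (PT.nd (nat_lit 78) (PT.lf (nat_lit 10716) (nat_lit 6) (nat_lit 141) (nat_lit 3) (nat_lit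 138) (nat_lit 110) (nat_lit 142)) (PT.lf (nat_lit 10792) (nat_lit 6) (nat_lit 142) (nat_lit 3) (nat_lit 139) (nat_lit 110) (nat_lit 141))) (PT.nd (nat_lit 78) (PT.lf (nat_lit 10868) (nat_lit 3) (nat_lit 143) (nat_lit 1) (nat_lit 140) (nat_lit 110) (nat_lit 140)) (PT.lf (nat_lit 10792) (nat_lit 6) (nat_lit 142) (nat_lit 1) (nat_lit 141) (nat_lit 110) (nat_lit 139)))))) (PT.nd (nat_lit 40014) (PT.nd (nat_lit 234) (PT.nd (nat_lit 78) (PT.lf (nat_lit 10716) (nat_lit 6) (nat_lit 141) (nat_lit 1) (nat_lit 142) (nat_lit 110) (nat_lit 138)) (PT.nd (nat_lit 78) (PT.lf (nat_lit 10640) (nat_lit 6) (nat_lit 140) (nat_lit 1) (nat_lit 143) (nat_lit 110) (nat_lit 137)) (PT.lf (nat_lit 10564) (nat_lit 6) (nat_lit 139) (nat_lit 1) (nat_lit 144) (nat_lit 110) (nat_lit 136)))) (PT.nd (nat_lit 78) (PT.lf (nat_lit 10488) (nat_lit 6) (nat_lit 138) (nat_lit 1) (nat_lit 145) (nat_lit 110) (nat_lit 135)) (PT.nd (nat_lit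 39624) (PT.lf (nat_lit 10412) (nat_lit 6) (nat_lit 137) (nat_lit 1) (nat_lit 146) (nat_lit 110) (nat_lit 134)) (PT.lf (nat_lit 10944) (nat_lit 6) (nat_lit 144) (nat_lit 3) (nat_lit 133) (nat_lit 111) (nat_lit 146))))) (PT.nd (nat_lit 234) (PT.nd (nat_lit 78) (PT.lf (nat_lit 11020) (nat_lit 6) (nat_lit 145) (nat_lit 3) (nat_lit 134) (nat_lit 111) (nat_lit 145)) (PT.nd (nat_lit 78) (PT.lf (nat_lit 11096) (nat_lit 6) (nat_lit 146) (nat_lit 3) (nat_lit 135) (nat_lit 111) (nat_lit 144)) (PT.lf (nat_lit 11172) (nat_lit 6) (nat_lit 147) (nat_lit 3) (nat_lit 136) (nat_lit 111) (nat_lit 143)))) (PT.nd (nat_lit 156) (PT.nd (nat_lit 78) (PT.lf (nat_lit 11248) (nat_lit 6) (nat_lit 148) (nat_lit 3) (nat_lit 137) (nat_lit 111) (nat_lit 142)) (PT.lf (nat_lit 11324) (nat_lit 6) (nat_lit 149) (nat_lit 3) (nat_lit 138) (nat_lit 111) (nat_lit 141))) (PT.nd (nat_lit 78) (PT.lf (nat_lit 11400) (nat_lit 6) (nat_lit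 150) (nat_lit 3) (nat_lit 139) (nat_lit 111) (nat_lit 140)) (PT.lf (nat_lit 11400) (nat_lit 6) (nat_lit 150) (nat_lit 1) (nat_lit 140) (nat_lit 111) (nat_lit 139))))))))
noncomputable def pc5 : PT := (PT.nd (nat_lit 80886) (PT.nd (nat_lit 40482) (PT.nd (nat_lit 39936) (PT.nd (nat_lit 234) (PT.nd (nat_lit 78) (PT.lf (nat_lit 11324) (nat_lit 6) (nat_lit 149) (nat_lit 1) (nat_lit 141) (nat_lit 111) (nat_lit 138)) (PT.nd (nat_lit 78) (PT.lf (nat_lit 11248) (nat_lit 6) (nat_lit 148) (nat_lit 1) (nat_lit 142) (nat_lit 111) (nat_lit 137)) (PT.lf (nat_lit 11172) (nat_lit 6) (nat_lit 147) (nat_lit 1) (nat_lit 143) (nat_lit 111) (nat_lit 136)))) (PT.nd (nat_lit 78) (PT.lf (nat_lit 11096) (nat_lit 6) (nat_lit 146) (nat_lit 1) (nat_lit 144) (nat_lit 111) (nat_lit 135)) (PT.nd (nat_lit 78) (PT.lf (nat_lit 11020) (nat_lit 6) (nat_lit 145) (nat_lit 1) (nat_lit 145) (nat_lit 111) (nat_lit 134)) (PT.lf (nat_lit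 10944) (nat_lit 6) (nat_lit 144) (nat_lit 1) (nat_lit 146) (nat_lit 111) (nat_lit 133))))) (PT.nd (nat_lit 234) (PT.nd (nat_lit 78) (PT.lf (nat_lit 11476) (nat_lit 6) (nat_lit 151) (nat_lit 3) (nat_lit 132) (nat_lit 112) (nat_lit 146)) (PT.nd (nat_lit 78) (PT.lf (nat_lit 11552) (nat_lit 6) (nat_lit 152) (nat_lit 3) (nat_lit 133) (nat_lit 112) (nat_lit 145)) (PT.lf (nat_lit 11628) (nat_lit 6) (nat_lit 153) (nat_lit 3) (nat_lit 134) (nat_lit 112) (nat_lit 144)))) (PT.nd (nat_lit 156) (PT.nd (nat_lit 78) (PT.lf (nat_lit 11704) (nat_lit 6) (nat_lit 154) (nat_lit 3) (nat_lit 135) (nat_lit 112) (nat_lit 143)) (PT.lf (nat_lit 11780) (nat_lit 6) (nat_lit 155) (nat_lit 3) (nat_lit 136) (nat_lit 112) (nat_lit 142))) (PT.nd (nat_lit 78) (PT.lf (nat_lit 11856) (nat_lit 6) (nat_lit 156) (nat_lit 3) (nat_lit 137) (nat_lit 112) (nat_lit 141)) (PT.lf (nat_lit 11932) (nat_lit 6) (nat_lit 157) (nat_lit 3) (nat_lit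 138) (nat_lit 112) (nat_lit 140)))))) (PT.nd (nat_lit 468) (PT.nd (nat_lit 234) (PT.nd (nat_lit 78) (PT.lf (nat_lit 12008) (nat_lit 3) (nat_lit 158) (nat_lit 1) (nat_lit 139) (nat_lit 112) (nat_lit 139)) (PT.nd (nat_lit 78) (PT.lf (nat_lit 11932) (nat_lit 6) (nat_lit 157) (nat_lit 1) (nat_lit 140) (nat_lit 112) (nat_lit 138)) (PT.lf (nat_lit 11856) (nat_lit 6) (nat_lit 156) (nat_lit 1) (nat_lit 141) (nat_lit 112) (nat_lit 137)))) (PT.nd (nat_lit 78) (PT.lf (nat_lit 11780) (nat_lit 6) (nat_lit 155) (nat_lit 1) (nat_lit 142) (nat_lit 112) (nat_lit 136)) (PT.nd (nat_lit 78) (PT.lf (nat_lit 11704) (nat_lit 6) (nat_lit 154) (nat_lit 1) (nat_lit 143) (nat_lit 112) (nat_lit 135)) (PT.lf (nat_lit 11628) (nat_lit 6) (nat_lit 153) (nat_lit 1) (nat_lit 144) (nat_lit 112) (nat_lit 134))))) (PT.nd (nat_lit 39624) (PT.nd (nat_lit 78) (PT.lf (nat_lit 11552) (nat_lit 6) (nat_lit 152) (nat_lit 1) (nat_lit 145)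 (nat_lit 112) (nat_lit 133)) (PT.nd (nat_lit 39468) (PT.lf (nat_lit 11476) (nat_lit 6) (nat_lit 151) (nat_lit 1) (nat_lit 146) (nat_lit 112) (nat_lit 132)) (PT.lf (nat_lit 12084) (nat_lit 6) (nat_lit 159) (nat_lit 3) (nat_lit 131) (nat_lit 113) (nat_lit 146)))) (PT.nd (nat_lit 156) (PT.nd (nat_lit 78) (PT.lf (nat_lit 12160) (nat_lit 6) (nat_lit 160) (nat_lit 3) (nat_lit 132) (nat_lit 113) (nat_lit 145)) (PT.lf (nat_lit 12236) (nat_lit 6) (nat_lit 161) (nat_lit 3) (nat_lit 133) (nat_lit 113) (nat_lit 144))) (PT.nd (nat_lit 78) (PT.lf (nat_lit 12312) (nat_lit 6) (nat_lit 162) (nat_lit 3) (nat_lit 134) (nat_lit 113) (nat_lit 143)) (PT.lf (nat_lit 12388) (nat_lit 6) (nat_lit 163) (nat_lit 3) (nat_lit 135) (nat_lit 113) (nat_lit 142))))))) (PT.nd (nat_lit 40404) (PT.nd (nat_lit 468) (PT.nd (nat_lit 234) (PT.nd (nat_lit 78) (PT.lf (nat_lit 12464) (nat_lit 6) (nat_lit 164) (nat_lit 3) (nat_lit 136) (nat_lit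 113) (nat_lit 141)) (PT.nd (nat_lit 78) (PT.lf (nat_lit 12540) (nat_lit 6) (nat_lit 165) (nat_lit 3) (nat_lit 137) (nat_lit 113) (nat_lit 140)) (PT.lf (nat_lit 12616) (nat_lit 6) (nat_lit 166) (nat_lit 3) (nat_lit 138) (nat_lit 113) (nat_lit 139)))) (PT.nd (nat_lit 78) (PT.lf (nat_lit 12616) (nat_lit 6) (nat_lit 166) (nat_lit 1) (nat_lit 139) (nat_lit 113) (nat_lit 138)) (PT.nd (nat_lit 78) (PT.lf (nat_lit 12540) (nat_lit 6) (nat_lit 165) (nat_lit 1) (nat_lit 140) (nat_lit 113) (nat_lit 137)) (PT.lf (nat_lit 12464) (nat_lit 6) (nat_lit 164) (nat_lit 1) (nat_lit 141) (nat_lit 113) (nat_lit 136))))) (PT.nd (nat_lit 234) (PT.nd (nat_lit 78) (PT.lf (nat_lit 12388) (nat_lit 6) (nat_lit 163) (nat_lit 1) (nat_lit 142) (nat_lit 113) (nat_lit 135)) (PT.nd (nat_lit 78) (PT.lf (nat_lit 12312) (nat_lit 6) (nat_lit 162) (nat_lit 1) (nat_lit 143) (nat_lit 113) (nat_lit 134)) (PT.lf (nat_lit 12236) (nat_lit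 6) (nat_lit 161) (nat_lit 1) (nat_lit 144) (nat_lit 113) (nat_lit 133)))) (PT.nd (nat_lit 39546) (PT.nd (nat_lit 78) (PT.lf (nat_lit 12160) (nat_lit 6) (nat_lit 160) (nat_lit 1) (nat_lit 145) (nat_lit 113) (nat_lit 132)) (PT.lf (nat_lit 12084) (nat_lit 6) (nat_lit 159) (nat_lit 1) (nat_lit 146) (nat_lit 113) (nat_lit 131))) (PT.nd (nat_lit 78) (PT.lf (nat_lit 12692) (nat_lit 6) (nat_lit 167) (nat_lit 3) (nat_lit 131) (nat_lit 114) (nat_lit 145)) (PT.lf (nat_lit 12768) (nat_lit 6) (nat_lit 168) (nat_lit 3) (nat_lit 132) (nat_lit 114) (nat_lit 144)))))) (PT.nd (nat_lit 468) (PT.nd (nat_lit 234) (PT.nd (nat_lit 78) (PT.lf (nat_lit 12844) (nat_lit 6) (nat_lit 169) (nat_lit 3) (nat_lit 133) (nat_lit 114) (nat_lit 143)) (PT.nd (nat_lit 78) (PT.lf (nat_lit 12920) (nat_lit 6) (nat_lit 170) (nat_lit 3) (nat_lit 134) (nat_lit 114) (nat_lit 142)) (PT.lf (nat_lit 12996) (nat_lit 6) (nat_lit 171) (nat_lit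 3) (nat_lit 135) (nat_lit 114) (nat_lit 141)))) (PT.nd (nat_lit 78) (PT.lf (nat_lit 13072) (nat_lit 6) (nat_lit 172) (nat_lit 3) (nat_lit 136) (nat_lit 114) (nat_lit 140)) (PT.nd (nat_lit 78) (PT.lf (nat_lit 13148) (nat_lit 6) (nat_lit 173) (nat_lit 3) (nat_lit 137) (nat_lit 114) (nat_lit 139)) (PT.lf (nat_lit 13224) (nat_lit 3) (nat_lit 174) (nat_lit 1) (nat_lit 138) (nat_lit 114) (nat_lit 138))))) (PT.nd (nat_lit 234) (PT.nd (nat_lit 78) (PT.lf (nat_lit 13148) (nat_lit 6) (nat_lit 173) (nat_lit 1) (nat_lit 139) (nat_lit 114) (nat_lit 137)) (PT.nd (nat_lit 78) (PT.lf (nat_lit 13072) (nat_lit 6) (nat_lit 172) (nat_lit 1) (nat_lit 140) (nat_lit 114) (nat_lit 136)) (PT.lf (nat_lit 12996) (nat_lit 6) (nat_lit 171) (nat_lit 1) (nat_lit 141) (nat_lit 114) (nat_lit 135)))) (PT.nd (nat_lit 156) (PT.nd (nat_lit 78) (PT.lf (nat_lit 12920) (nat_lit 6) (nat_lit 170) (nat_lit 1) (nat_lit 142) (nat_lit 114)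 (nat_lit 134)) (PT.lf (nat_lit 12844) (nat_lit 6) (nat_lit 169) (nat_lit 1) (nat_lit 143) (nat_lit 114) (nat_lit 133))) (PT.nd (nat_lit 78) (PT.lf (nat_lit 12768) (nat_lit 6) (nat_lit 168) (nat_lit 1) (nat_lit 144) (nat_lit 114) (nat_lit 132)) (PT.lf (nat_lit 12692) (nat_lit 6) (nat_lit 167) (nat_lit 1) (nat_lit 145) (nat_lit 114) (nat_lit 131))))))))
noncomputable def pc6 : PT := (PT.nd (nat_lit 41262) (PT.nd (nat_lit 936) (PT.nd (nat_lit 468) (PT.nd (nat_lit 234) (PT.nd (nat_lit 78) (PT.lf (nat_lit 13832) (nat_lit 6) (nat_lit 182) (nat_lit 3) (nat_lit 130) (nat_lit 115) (nat_lit 145)) (PT.nd (nat_lit 78) (PT.lf (nat_lit 13908) (nat_lit 6) (nat_lit 183) (nat_lit 3) (nat_lit 131) (nat_lit 115) (nat_lit 144)) (PT.lf (nat_lit 13984) (nat_lit 6) (nat_lit 184) (nat_lit 3) (nat_lit 132) (nat_lit 115) (nat_lit 143)))) (PT.nd (nat_lit 78) (PT.lf (nat_lit 14060) (nat_lit 6) (nat_lit 185) (nat_lit 3) (nat_lit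 133) (nat_lit 115) (nat_lit 142)) (PT.nd (nat_lit 78) (PT.lf (nat_lit 14136) (nat_lit 6) (nat_lit 186) (nat_lit 3) (nat_lit 134) (nat_lit 115) (nat_lit 141)) (PT.lf (nat_lit 14212) (nat_lit 6) (nat_lit 187) (nat_lit 3) (nat_lit 135) (nat_lit 115) (nat_lit 140))))) (PT.nd (nat_lit 234) (PT.nd (nat_lit 78) (PT.lf (nat_lit 14288) (nat_lit 6) (nat_lit 188) (nat_lit 3) (nat_lit 136) (nat_lit 115) (nat_lit 139)) (PT.nd (nat_lit 78) (PT.lf (nat_lit 14364) (nat_lit 6) (nat_lit 189) (nat_lit 3) (nat_lit 137) (nat_lit 115) (nat_lit 138)) (PT.lf (nat_lit 14364) (nat_lit 6) (nat_lit 189) (nat_lit 1) (nat_lit 138) (nat_lit 115) (nat_lit 137)))) (PT.nd (nat_lit 78) (PT.lf (nat_lit 14288) (nat_lit 6) (nat_lit 188) (nat_lit 1) (nat_lit 139) (nat_lit 115) (nat_lit 136)) (PT.nd (nat_lit 78) (PT.lf (nat_lit 14212) (nat_lit 6) (nat_lit 187) (nat_lit 1) (nat_lit 140) (nat_lit 115) (nat_lit 135)) (PT.lf (nat_lit 14136)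 (nat_lit 6) (nat_lit 186) (nat_lit 1) (nat_lit 141) (nat_lit 115) (nat_lit 134)))))) (PT.nd (nat_lit 39780) (PT.nd (nat_lit 234) (PT.nd (nat_lit 78) (PT.lf (nat_lit 14060) (nat_lit 6) (nat_lit 185) (nat_lit 1) (nat_lit 142) (nat_lit 115) (nat_lit 133)) (PT.nd (nat_lit 78) (PT.lf (nat_lit 13984) (nat_lit 6) (nat_lit 184) (nat_lit 1) (nat_lit 143) (nat_lit 115) (nat_lit 132)) (PT.lf (nat_lit 13908) (nat_lit 6) (nat_lit 183) (nat_lit 1) (nat_lit 144) (nat_lit 115) (nat_lit 131)))) (PT.nd (nat_lit 39390) (PT.lf (nat_lit 13832) (nat_lit 6) (nat_lit 182) (nat_lit 1) (nat_lit 145) (nat_lit 115) (nat_lit 130)) (PT.nd (nat_lit 78) (PT.lf (nat_lit 13756) (nat_lit 6) (nat_lit 181) (nat_lit 3) (nat_lit 129) (nat_lit 116) (nat_lit 145)) (PT.lf (nat_lit 14972) (nat_lit 6) (nat_lit 197) (nat_lit 3) (nat_lit 130) (nat_lit 116) (nat_lit 144))))) (PT.nd (nat_lit 234) (PT.nd (nat_lit 78) (PT.lf (nat_lit 15048) (nat_lit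 6) (nat_lit 198) (nat_lit 3) (nat_lit 131) (nat_lit 116) (nat_lit 143)) (PT.nd (nat_lit 78) (PT.lf (nat_lit 15124) (nat_lit 6) (nat_lit 199) (nat_lit 3) (nat_lit 132) (nat_lit 116) (nat_lit 142)) (PT.lf (nat_lit 15200) (nat_lit 6) (nat_lit 200) (nat_lit 3) (nat_lit 133) (nat_lit 116) (nat_lit 141)))) (PT.nd (nat_lit 156) (PT.nd (nat_lit 78) (PT.lf (nat_lit 15276) (nat_lit 6) (nat_lit 201) (nat_lit 3) (nat_lit 134) (nat_lit 116) (nat_lit 140)) (PT.lf (nat_lit 15352) (nat_lit 6) (nat_lit 202) (nat_lit 3) (nat_lit 135) (nat_lit 116) (nat_lit 139))) (PT.nd (nat_lit 78) (PT.lf (nat_lit 15428) (nat_lit 6) (nat_lit 203) (nat_lit 3) (nat_lit 136) (nat_lit 116) (nat_lit 138)) (PT.lf (nat_lit 15504) (nat_lit 3) (nat_lit 204) (nat_lit 1) (nat_lit 137) (nat_lit 116) (nat_lit 137))))))) (PT.nd (nat_lit 40248) (PT.nd (nat_lit 468) (PT.nd (nat_lit 234) (PT.nd (nat_lit 78) (PT.lf (nat_lit 15428) (nat_lit 6) (nat_lit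 203) (nat_lit 1) (nat_lit 138) (nat_lit 116) (nat_lit 136)) (PT.nd (nat_lit 78) (PT.lf (nat_lit 15352) (nat_lit 6) (nat_lit 202) (nat_lit 1) (nat_lit 139) (nat_lit 116) (nat_lit 135)) (PT.lf (nat_lit 15276) (nat_lit 6) (nat_lit 201) (nat_lit 1) (nat_lit 140) (nat_lit 116) (nat_lit 134)))) (PT.nd (nat_lit 78) (PT.lf (nat_lit 15200) (nat_lit 6) (nat_lit 200) (nat_lit 1) (nat_lit 141) (nat_lit 116) (nat_lit 133)) (PT.nd (nat_lit 78) (PT.lf (nat_lit 15124) (nat_lit 6) (nat_lit 199) (nat_lit 1) (nat_lit 142) (nat_lit 116) (nat_lit 132)) (PT.lf (nat_lit 15048) (nat_lit 6) (nat_lit 198) (nat_lit 1) (nat_lit 143) (nat_lit 116) (nat_lit 131))))) (PT.nd (nat_lit 39468) (PT.nd (nat_lit 78) (PT.lf (nat_lit 14972) (nat_lit 6) (nat_lit 197) (nat_lit 1) (nat_lit 144) (nat_lit 116) (nat_lit 130)) (PT.nd (nat_lit 39312) (PT.lf (nat_lit 13756) (nat_lit 6) (nat_lit 181) (nat_lit 1) (nat_lit 145) (nat_lit 116) (nat_lit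 129)) (PT.lf (nat_lit 13680) (nat_lit 6) (nat_lit 180) (nat_lit 3) (nat_lit 128) (nat_lit 117) (nat_lit 145)))) (PT.nd (nat_lit 156) (PT.nd (nat_lit 78) (PT.lf (nat_lit 14896) (nat_lit 6) (nat_lit 196) (nat_lit 3) (nat_lit 129) (nat_lit 117) (nat_lit 144)) (PT.lf (nat_lit 16036) (nat_lit 6) (nat_lit 211) (nat_lit 3) (nat_lit 130) (nat_lit 117) (nat_lit 143))) (PT.nd (nat_lit 78) (PT.lf (nat_lit 16112) (nat_lit 6) (nat_lit 212) (nat_lit 3) (nat_lit 131) (nat_lit 117) (nat_lit 142)) (PT.lf (nat_lit 16188) (nat_lit 6) (nat_lit 213) (nat_lit 3) (nat_lit 132) (nat_lit 117) (nat_lit 141)))))) (PT.nd (nat_lit 468) (PT.nd (nat_lit 234) (PT.nd (nat_lit 78) (PT.lf (nat_lit 16264) (nat_lit 6) (nat_lit 214) (nat_lit 3) (nat_lit 133) (nat_lit 117) (nat_lit 140)) (PT.nd (nat_lit 78) (PT.lf (nat_lit 16340) (nat_lit 6) (nat_lit 215) (nat_lit 3) (nat_lit 134) (nat_lit 117) (nat_lit 139)) (PT.lf (nat_lit 16416)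 (nat_lit 6) (nat_lit 216) (nat_lit 3) (nat_lit 135) (nat_lit 117) (nat_lit 138)))) (PT.nd (nat_lit 78) (PT.lf (nat_lit 16492) (nat_lit 6) (nat_lit 217) (nat_lit 3) (nat_lit 136) (nat_lit 117) (nat_lit 137)) (PT.nd (nat_lit 78) (PT.lf (nat_lit 16492) (nat_lit 6) (nat_lit 217) (nat_lit 1) (nat_lit 137) (nat_lit 117) (nat_lit 136)) (PT.lf (nat_lit 16416) (nat_lit 6) (nat_lit 216) (nat_lit 1) (nat_lit 138) (nat_lit 117) (nat_lit 135))))) (PT.nd (nat_lit 234) (PT.nd (nat_lit 78) (PT.lf (nat_lit 16340) (nat_lit 6) (nat_lit 215) (nat_lit 1) (nat_lit 139) (nat_lit 117) (nat_lit 134)) (PT.nd (nat_lit 78) (PT.lf (nat_lit 16264) (nat_lit 6) (nat_lit 214) (nat_lit 1) (nat_lit 140) (nat_lit 117) (nat_lit 133)) (PT.lf (nat_lit 16188) (nat_lit 6) (nat_lit 213) (nat_lit 1) (nat_lit 141) (nat_lit 117) (nat_lit 132)))) (PT.nd (nat_lit 156) (PT.nd (nat_lit 78) (PT.lf (nat_lit 16112) (nat_lit 6) (nat_lit 212) (nat_lit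 1) (nat_lit 142) (nat_lit 117) (nat_lit 131)) (PT.lf (nat_lit 16036) (nat_lit 6) (nat_lit 211) (nat_lit 1) (nat_lit 143) (nat_lit 117) (nat_lit 130))) (PT.nd (nat_lit 78) (PT.lf (nat_lit 14896) (nat_lit 6) (nat_lit 196) (nat_lit 1) (nat_lit 144) (nat_lit 117) (nat_lit 129)) (PT.lf (nat_lit 13680) (nat_lit 6) (nat_lit 180) (nat_lit 1) (nat_lit 145) (nat_lit 117) (nat_lit 128))))))))
noncomputable def pc7 : PT := (PT.nd (nat_lit 41106) (PT.nd (nat_lit 1014) (PT.nd (nat_lit 468) (PT.nd (nat_lit 234) (PT.nd (nat_lit 78) (PT.lf (nat_lit 13604) (nat_lit 6) (nat_lit 179) (nat_lit 3) (nat_lit 127) (nat_lit 118) (nat_lit 145)) (PT.nd (nat_lit 78) (PT.lf (nat_lit 14820) (nat_lit 6) (nat_lit 195) (nat_lit 3) (nat_lit 128) (nat_lit 118) (nat_lit 144)) (PT.lf (nat_lit 15960) (nat_lit 6) (nat_lit 210) (nat_lit 3) (nat_lit 129) (nat_lit 118) (nat_lit 143)))) (PT.nd (nat_lit 78) (PT.lf (nat_lit 17024) (nat_lit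 6) (nat_lit 224) (nat_lit 3) (nat_lit 130) (nat_lit 118) (nat_lit 142)) (PT.nd (nat_lit 78) (PT.lf (nat_lit 17100) (nat_lit 6) (nat_lit 225) (nat_lit 3) (nat_lit 131) (nat_lit 118) (nat_lit 141)) (PT.lf (nat_lit 17176) (nat_lit 6) (nat_lit 226) (nat_lit 3) (nat_lit 132) (nat_lit 118) (nat_lit 140))))) (PT.nd (nat_lit 234) (PT.nd (nat_lit 78) (PT.lf (nat_lit 17252) (nat_lit 6) (nat_lit 227) (nat_lit 3) (nat_lit 133) (nat_lit 118) (nat_lit 139)) (PT.nd (nat_lit 78) (PT.lf (nat_lit 17328) (nat_lit 6) (nat_lit 228) (nat_lit 3) (nat_lit 134) (nat_lit 118) (nat_lit 138)) (PT.lf (nat_lit 17404) (nat_lit 6) (nat_lit 229) (nat_lit 3) (nat_lit 135) (nat_lit 118) (nat_lit 137)))) (PT.nd (nat_lit 156) (PT.nd (nat_lit 78) (PT.lf (nat_lit 17480) (nat_lit 3) (nat_lit 230) (nat_lit 1) (nat_lit 136) (nat_lit 118) (nat_lit 136)) (PT.lf (nat_lit 17404) (nat_lit 6) (nat_lit 229) (nat_lit 1) (nat_lit 137) (nat_lit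 118) (nat_lit 135))) (PT.nd (nat_lit 78) (PT.lf (nat_lit 17328) (nat_lit 6) (nat_lit 228) (nat_lit 1) (nat_lit 138) (nat_lit 118) (nat_lit 134)) (PT.lf (nat_lit 17252) (nat_lit 6) (nat_lit 227) (nat_lit 1) (nat_lit 139) (nat_lit 118) (nat_lit 133)))))) (PT.nd (nat_lit 39546) (PT.nd (nat_lit 234) (PT.nd (nat_lit 78) (PT.lf (nat_lit 17176) (nat_lit 6) (nat_lit 226) (nat_lit 1) (nat_lit 140) (nat_lit 118) (nat_lit 132)) (PT.nd (nat_lit 78) (PT.lf (nat_lit 17100) (nat_lit 6) (nat_lit 225) (nat_lit 1) (nat_lit 141) (nat_lit 118) (nat_lit 131)) (PT.lf (nat_lit 17024) (nat_lit 6) (nat_lit 224) (nat_lit 1) (nat_lit 142) (nat_lit 118) (nat_lit 130)))) (PT.nd (nat_lit 78) (PT.lf (nat_lit 15960) (nat_lit 6) (nat_lit 210) (nat_lit 1) (nat_lit 143) (nat_lit 118) (nat_lit 129)) (PT.nd (nat_lit 78) (PT.lf (nat_lit 14820) (nat_lit 6) (nat_lit 195) (nat_lit 1) (nat_lit 144) (nat_lit 118) (nat_lit 128)) (PT.lf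 (nat_lit 13604) (nat_lit 6) (nat_lit 179) (nat_lit 1) (nat_lit 145) (nat_lit 118) (nat_lit 127))))) (PT.nd (nat_lit 234) (PT.nd (nat_lit 78) (PT.lf (nat_lit 13528) (nat_lit 6) (nat_lit 178) (nat_lit 3) (nat_lit 126) (nat_lit 119) (nat_lit 145)) (PT.nd (nat_lit 78) (PT.lf (nat_lit 14744) (nat_lit 6) (nat_lit 194) (nat_lit 3) (nat_lit 127) (nat_lit 119) (nat_lit 144)) (PT.lf (nat_lit 15884) (nat_lit 6) (nat_lit 209) (nat_lit 3) (nat_lit 128) (nat_lit 119) (nat_lit 143)))) (PT.nd (nat_lit 156) (PT.nd (nat_lit 78) (PT.lf (nat_lit 16948) (nat_lit 6) (nat_lit 223) (nat_lit 3) (nat_lit 129) (nat_lit 119) (nat_lit 142)) (PT.lf (nat_lit 17936) (nat_lit 6) (nat_lit 236) (nat_lit 3) (nat_lit 130) (nat_lit 119) (nat_lit 141))) (PT.nd (nat_lit 78) (PT.lf (nat_lit 18012) (nat_lit 6) (nat_lit 237) (nat_lit 3) (nat_lit 131) (nat_lit 119) (nat_lit 140)) (PT.lf (nat_lit 18088) (nat_lit 6) (nat_lit 238) (nat_lit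 3) (nat_lit 132) (nat_lit 119) (nat_lit 139))))))) (PT.nd (nat_lit 40014) (PT.nd (nat_lit 468) (PT.nd (nat_lit 234) (PT.nd (nat_lit 78) (PT.lf (nat_lit 18164) (nat_lit 6) (nat_lit 239) (nat_lit 3) (nat_lit 133) (nat_lit 119) (nat_lit 138)) (PT.nd (nat_lit 78) (PT.lf (nat_lit 18240) (nat_lit 6) (nat_lit 240) (nat_lit 3) (nat_lit 134) (nat_lit 119) (nat_lit 137)) (PT.lf (nat_lit 18316) (nat_lit 6) (nat_lit 241) (nat_lit 3) (nat_lit 135) (nat_lit 119) (nat_lit 136)))) (PT.nd (nat_lit 78) (PT.lf (nat_lit 18316) (nat_lit 6) (nat_lit 241) (nat_lit 1) (nat_lit 136) (nat_lit 119) (nat_lit 135)) (PT.nd (nat_lit 78) (PT.lf (nat_lit 18240) (nat_lit 6) (nat_lit 240) (nat_lit 1) (nat_lit 137) (nat_lit 119) (nat_lit 134)) (PT.lf (nat_lit 18164) (nat_lit 6) (nat_lit 239) (nat_lit 1) (nat_lit 138) (nat_lit 119) (nat_lit 133))))) (PT.nd (nat_lit 234) (PT.nd (nat_lit 78) (PT.lf (nat_lit 18088) (nat_lit 6) (nat_lit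 238) (nat_lit 1) (nat_lit 139) (nat_lit 119) (nat_lit 132)) (PT.nd (nat_lit 78) (PT.lf (nat_lit 18012) (nat_lit 6) (nat_lit 237) (nat_lit 1) (nat_lit 140) (nat_lit 119) (nat_lit 131)) (PT.lf (nat_lit 17936) (nat_lit 6) (nat_lit 236) (nat_lit 1) (nat_lit 141) (nat_lit 119) (nat_lit 130)))) (PT.nd (nat_lit 156) (PT.nd (nat_lit 78) (PT.lf (nat_lit 16948) (nat_lit 6) (nat_lit 223) (nat_lit 1) (nat_lit 142) (nat_lit 119) (nat_lit 129)) (PT.lf (nat_lit 15884) (nat_lit 6) (nat_lit 209) (nat_lit 1) (nat_lit 143) (nat_lit 119) (nat_lit 128))) (PT.nd (nat_lit 78) (PT.lf (nat_lit 14744) (nat_lit 6) (nat_lit 194) (nat_lit 1) (nat_lit 144) (nat_lit 119) (nat_lit 127)) (PT.lf (nat_lit 13528) (nat_lit 6) (nat_lit 178) (nat_lit 1) (nat_lit 145) (nat_lit 119) (nat_lit 126)))))) (PT.nd (nat_lit 468) (PT.nd (nat_lit 234) (PT.nd (nat_lit 78) (PT.lf (nat_lit 13452) (nat_lit 6) (nat_lit 177) (nat_lit 3) (nat_lit 125)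 (nat_lit 120) (nat_lit 145)) (PT.nd (nat_lit 78) (PT.lf (nat_lit 14668) (nat_lit 6) (nat_lit 193) (nat_lit 3) (nat_lit 126) (nat_lit 120) (nat_lit 144)) (PT.lf (nat_lit 15808) (nat_lit 6) (nat_lit 208) (nat_lit 3) (nat_lit 127) (nat_lit 120) (nat_lit 143)))) (PT.nd (nat_lit 78) (PT.lf (nat_lit 16872) (nat_lit 6) (nat_lit 222) (nat_lit 3) (nat_lit 128) (nat_lit 120) (nat_lit 142)) (PT.nd (nat_lit 78) (PT.lf (nat_lit 17860) (nat_lit 6) (nat_lit 235) (nat_lit 3) (nat_lit 129) (nat_lit 120) (nat_lit 141)) (PT.lf (nat_lit 18772) (nat_lit 6) (nat_lit 247) (nat_lit 3) (nat_lit 130) (nat_lit 120) (nat_lit 140))))) (PT.nd (nat_lit 234) (PT.nd (nat_lit 78) (PT.lf (nat_lit 18848) (nat_lit 6) (nat_lit 248) (nat_lit 3) (nat_lit 131) (nat_lit 120) (nat_lit 139)) (PT.nd (nat_lit 78) (PT.lf (nat_lit 18924) (nat_lit 6) (nat_lit 249) (nat_lit 3) (nat_lit 132) (nat_lit 120) (nat_lit 138)) (PT.lf (nat_lit 19000)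 (nat_lit 6) (nat_lit 250) (nat_lit 3) (nat_lit 133) (nat_lit 120) (nat_lit 137)))) (PT.nd (nat_lit 156) (PT.nd (nat_lit 78) (PT.lf (nat_lit 19076) (nat_lit 6) (nat_lit 251) (nat_lit 3) (nat_lit 134) (nat_lit 120) (nat_lit 136)) (PT.lf (nat_lit 19152) (nat_lit 3) (nat_lit 252) (nat_lit 1) (nat_lit 135) (nat_lit 120) (nat_lit 135))) (PT.nd (nat_lit 78) (PT.lf (nat_lit 19076) (nat_lit 6) (nat_lit 251) (nat_lit 1) (nat_lit 136) (nat_lit 120) (nat_lit 134)) (PT.lf (nat_lit 19000) (nat_lit 6) (nat_lit 250) (nat_lit 1) (nat_lit 137) (nat_lit 120) (nat_lit 133))))))))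
noncomputable def pc8 : PT := (PT.nd (nat_lit 40872) (PT.nd (nat_lit 39858) (PT.nd (nat_lit 468) (PT.nd (nat_lit 234) (PT.nd (nat_lit 78) (PT.lf (nat_lit 18924) (nat_lit 6) (nat_lit 249) (nat_lit 1) (nat_lit 138) (nat_lit 120) (nat_lit 132)) (PT.nd (nat_lit 78) (PT.lf (nat_lit 18848) (nat_lit 6) (nat_lit 248) (nat_lit 1) (nat_lit 139) (nat_lit 120) (nat_lit 131)) (PT.lf (nat_lit 18772) (nat_lit 6) (nat_lit 247) (nat_lit 1) (nat_lit 140) (nat_lit 120) (nat_lit 130)))) (PT.nd (nat_lit 78) (PT.lf (nat_lit 17860) (nat_lit 6) (nat_lit 235) (nat_lit 1) (nat_lit 141) (nat_lit 120) (nat_lit 129)) (PT.nd (nat_lit 78) (PT.lf (nat_lit 16872) (nat_lit 6) (nat_lit 222) (nat_lit 1) (nat_lit 142) (nat_lit 120) (nat_lit 128)) (PT.lf (nat_lit 15808) (nat_lit 6) (nat_lit 208) (nat_lit 1) (nat_lit 143) (nat_lit 120) (nat_lit 127))))) (PT.nd (nat_lit 39156) (PT.nd (nat_lit 78) (PT.lf (nat_lit 14668) (nat_lit 6) (nat_lit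 193) (nat_lit 1) (nat_lit 144) (nat_lit 120) (nat_lit 126)) (PT.nd (nat_lit 39000) (PT.lf (nat_lit 13452) (nat_lit 6) (nat_lit 177) (nat_lit 1) (nat_lit 145) (nat_lit 120) (nat_lit 125)) (PT.lf (nat_lit 13376) (nat_lit 6) (nat_lit 176) (nat_lit 3) (nat_lit 124) (nat_lit 121) (nat_lit 145)))) (PT.nd (nat_lit 78) (PT.lf (nat_lit 14592) (nat_lit 6) (nat_lit 192) (nat_lit 3) (nat_lit 125) (nat_lit 121) (nat_lit 144)) (PT.nd (nat_lit 78) (PT.lf (nat_lit 15732) (nat_lit 6) (nat_lit 207) (nat_lit 3) (nat_lit 126) (nat_lit 121) (nat_lit 143)) (PT.lf (nat_lit 16796) (nat_lit 6) (nat_lit 221) (nat_lit 3) (nat_lit 127) (nat_lit 121) (nat_lit 142)))))) (PT.nd (nat_lit 468) (PT.nd (nat_lit 234) (PT.nd (nat_lit 78) (PT.lf (nat_lit 17784) (nat_lit 6) (nat_lit 234) (nat_lit 3) (nat_lit 128) (nat_lit 121) (nat_lit 141)) (PT.nd (nat_lit 78) (PT.lf (nat_lit 18696) (nat_lit 6) (nat_lit 246) (nat_lit 3) (nat_lit 129)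 (nat_lit 121) (nat_lit 140)) (PT.lf (nat_lit 19532) (nat_lit 6) (nat_lit 257) (nat_lit 3) (nat_lit 130) (nat_lit 121) (nat_lit 139)))) (PT.nd (nat_lit 78) (PT.lf (nat_lit 19608) (nat_lit 6) (nat_lit 258) (nat_lit 3) (nat_lit 131) (nat_lit 121) (nat_lit 138)) (PT.nd (nat_lit 78) (PT.lf (nat_lit 19684) (nat_lit 6) (nat_lit 259) (nat_lit 3) (nat_lit 132) (nat_lit 121) (nat_lit 137)) (PT.lf (nat_lit 19760) (nat_lit 6) (nat_lit 260) (nat_lit 3) (nat_lit 133) (nat_lit 121) (nat_lit 136))))) (PT.nd (nat_lit 234) (PT.nd (nat_lit 78) (PT.lf (nat_lit 19836) (nat_lit 6) (nat_lit 261) (nat_lit 3) (nat_lit 134) (nat_lit 121) (nat_lit 135)) (PT.nd (nat_lit 78) (PT.lf (nat_lit 19836) (nat_lit 6) (nat_lit 261) (nat_lit 1) (nat_lit 135) (nat_lit 121) (nat_lit 134)) (PT.lf (nat_lit 19760) (nat_lit 6) (nat_lit 260) (nat_lit 1) (nat_lit 136) (nat_lit 121) (nat_lit 133)))) (PT.nd (nat_lit 156) (PT.nd (nat_lit 78)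 (PT.lf (nat_lit 19684) (nat_lit 6) (nat_lit 259) (nat_lit 1) (nat_lit 137) (nat_lit 121) (nat_lit 132)) (PT.lf (nat_lit 19608) (nat_lit 6) (nat_lit 258) (nat_lit 1) (nat_lit 138) (nat_lit 121) (nat_lit 131))) (PT.nd (nat_lit 78) (PT.lf (nat_lit 19532) (nat_lit 6) (nat_lit 257) (nat_lit 1) (nat_lit 139) (nat_lit 121) (nat_lit 130)) (PT.lf (nat_lit 18696) (nat_lit 6) (nat_lit 246) (nat_lit 1) (nat_lit 140) (nat_lit 121) (nat_lit 129))))))) (PT.nd (nat_lit 39858) (PT.nd (nat_lit 39312) (PT.nd (nat_lit 234) (PT.nd (nat_lit 78) (PT.lf (nat_lit 17784) (nat_lit 6) (nat_lit 234) (nat_lit 1) (nat_lit 141) (nat_lit 121) (nat_lit 128)) (PT.nd (nat_lit 78) (PT.lf (nat_lit 16796) (nat_lit 6) (nat_lit 221) (nat_lit 1) (nat_lit 142) (nat_lit 121) (nat_lit 127)) (PT.lf (nat_lit 15732) (nat_lit 6) (nat_lit 207) (nat_lit 1) (nat_lit 143) (nat_lit 121) (nat_lit 126)))) (PT.nd (nat_lit 78) (PT.lf (nat_lit 14592)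 (nat_lit 6) (nat_lit 192) (nat_lit 1) (nat_lit 144) (nat_lit 121) (nat_lit 125)) (PT.nd (nat_lit 38922) (PT.lf (nat_lit 13376) (nat_lit 6) (nat_lit 176) (nat_lit 1) (nat_lit 145) (nat_lit 121) (nat_lit 124)) (PT.lf (nat_lit 13300) (nat_lit 6) (nat_lit 175) (nat_lit 3) (nat_lit 123) (nat_lit 122) (nat_lit 145))))) (PT.nd (nat_lit 234) (PT.nd (nat_lit 78) (PT.lf (nat_lit 14516) (nat_lit 6) (nat_lit 191) (nat_lit 3) (nat_lit 124) (nat_lit 122) (nat_lit 144)) (PT.nd (nat_lit 78) (PT.lf (nat_lit 15656) (nat_lit 6) (nat_lit 206) (nat_lit 3) (nat_lit 125) (nat_lit 122) (nat_lit 143)) (PT.lf (nat_lit 16720) (nat_lit 6) (nat_lit 220) (nat_lit 3) (nat_lit 126) (nat_lit 122) (nat_lit 142)))) (PT.nd (nat_lit 156) (PT.nd (nat_lit 78) (PT.lf (nat_lit 17708) (nat_lit 6) (nat_lit 233) (nat_lit 3) (nat_lit 127) (nat_lit 122) (nat_lit 141)) (PT.lf (nat_lit 18620) (nat_lit 6) (nat_lit 245) (nat_lit 3) (nat_lit 128)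 (nat_lit 122) (nat_lit 140))) (PT.nd (nat_lit 78) (PT.lf (nat_lit 19456) (nat_lit 6) (nat_lit 256) (nat_lit 3) (nat_lit 129) (nat_lit 122) (nat_lit 139)) (PT.lf (nat_lit 20216) (nat_lit 6) (nat_lit 266) (nat_lit 3) (nat_lit 130) (nat_lit 122) (nat_lit 138)))))) (PT.nd (nat_lit 468) (PT.nd (nat_lit 234) (PT.nd (nat_lit 78) (PT.lf (nat_lit 20292) (nat_lit 6) (nat_lit 267) (nat_lit 3) (nat_lit 131) (nat_lit 122) (nat_lit 137)) (PT.nd (nat_lit 78) (PT.lf (nat_lit 20368) (nat_lit 6) (nat_lit 268) (nat_lit 3) (nat_lit 132) (nat_lit 122) (nat_lit 136)) (PT.lf (nat_lit 20444) (nat_lit 6) (nat_lit 269) (nat_lit 3) (nat_lit 133) (nat_lit 122) (nat_lit 135)))) (PT.nd (nat_lit 78) (PT.lf (nat_lit 20520) (nat_lit 3) (nat_lit 270) (nat_lit 1) (nat_lit 134) (nat_lit 122) (nat_lit 134)) (PT.nd (nat_lit 78) (PT.lf (nat_lit 20444) (nat_lit 6) (nat_lit 269) (nat_lit 1) (nat_lit 135) (nat_lit 122) (nat_lit 133))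 (PT.lf (nat_lit 20368) (nat_lit 6) (nat_lit 268) (nat_lit 1) (nat_lit 136) (nat_lit 122) (nat_lit 132))))) (PT.nd (nat_lit 234) (PT.nd (nat_lit 78) (PT.lf (nat_lit 20292) (nat_lit 6) (nat_lit 267) (nat_lit 1) (nat_lit 137) (nat_lit 122) (nat_lit 131)) (PT.nd (nat_lit 78) (PT.lf (nat_lit 20216) (nat_lit 6) (nat_lit 266) (nat_lit 1) (nat_lit 138) (nat_lit 122) (nat_lit 130)) (PT.lf (nat_lit 19456) (nat_lit 6) (nat_lit 256) (nat_lit 1) (nat_lit 139) (nat_lit 122) (nat_lit 129)))) (PT.nd (nat_lit 156) (PT.nd (nat_lit 78) (PT.lf (nat_lit 18620) (nat_lit 6) (nat_lit 245) (nat_lit 1) (nat_lit 140) (nat_lit 122) (nat_lit 128)) (PT.lf (nat_lit 17708) (nat_lit 6) (nat_lit 233) (nat_lit 1) (nat_lit 141) (nat_lit 122) (nat_lit 127))) (PT.nd (nat_lit 78) (PT.lf (nat_lit 16720) (nat_lit 6) (nat_lit 220) (nat_lit 1) (nat_lit 142) (nat_lit 122) (nat_lit 126)) (PT.lf (nat_lit 15656) (nat_lit 6) (nat_lit 206) (nat_lit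 1) (nat_lit 143) (nat_lit 122) (nat_lit 125))))))))
noncomputable def pc9 : PT := (PT.nd (nat_lit 40716) (PT.nd (nat_lit 39702) (PT.nd (nat_lit 39234) (PT.nd (nat_lit 39000) (PT.nd (nat_lit 78) (PT.lf (nat_lit 14516) (nat_lit 6) (nat_lit 191) (nat_lit 1) (nat_lit 144) (nat_lit 122) (nat_lit 124)) (PT.nd (nat_lit 38844) (PT.lf (nat_lit 13300) (nat_lit 6) (nat_lit 175) (nat_lit 1) (nat_lit 145) (nat_lit 122) (nat_lit 123)) (PT.lf (nat_lit 13300) (nat_lit 6) (nat_lit 175) (nat_lit 5) (nat_lit 122) (nat_lit 123) (nat_lit 145)))) (PT.nd (nat_lit 78) (PT.lf (nat_lit 14440) (nat_lit 3) (nat_lit 190) (nat_lit 3) (nat_lit 123) (nat_lit 123) (nat_lit 144)) (PT.nd (nat_lit 78) (PT.lf (nat_lit 15580) (nat_lit 6) (nat_lit 205) (nat_lit 3) (nat_lit 124) (nat_lit 123) (nat_lit 143)) (PT.lf (nat_lit 16644) (nat_lit 6) (nat_lit 219) (nat_lit 3) (nat_lit 125) (nat_lit 123) (nat_lit 142))))) (PT.nd (nat_lit 234)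 (PT.nd (nat_lit 78) (PT.lf (nat_lit 17632) (nat_lit 6) (nat_lit 232) (nat_lit 3) (nat_lit 126) (nat_lit 123) (nat_lit 141)) (PT.nd (nat_lit 78) (PT.lf (nat_lit 18544) (nat_lit 6) (nat_lit 244) (nat_lit 3) (nat_lit 127) (nat_lit 123) (nat_lit 140)) (PT.lf (nat_lit 19380) (nat_lit 6) (nat_lit 255) (nat_lit 3) (nat_lit 128) (nat_lit 123) (nat_lit 139)))) (PT.nd (nat_lit 78) (PT.lf (nat_lit 20140) (nat_lit 6) (nat_lit 265) (nat_lit 3) (nat_lit 129) (nat_lit 123) (nat_lit 138)) (PT.nd (nat_lit 78) (PT.lf (nat_lit 20824) (nat_lit 6) (nat_lit 274) (nat_lit 3) (nat_lit 130) (nat_lit 123) (nat_lit 137)) (PT.lf (nat_lit 20900) (nat_lit 6) (nat_lit 275) (nat_lit 3) (nat_lit 131) (nat_lit 123) (nat_lit 136)))))) (PT.nd (nat_lit 468) (PT.nd (nat_lit 234) (PT.nd (nat_lit 78) (PT.lf (nat_lit 20976) (nat_lit 6) (nat_lit 276) (nat_lit 3) (nat_lit 132) (nat_lit 123) (nat_lit 135)) (PT.nd (nat_lit 78) (PT.lf (nat_lit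 21052) (nat_lit 6) (nat_lit 277) (nat_lit 3) (nat_lit 133) (nat_lit 123) (nat_lit 134)) (PT.lf (nat_lit 21052) (nat_lit 6) (nat_lit 277) (nat_lit 1) (nat_lit 134) (nat_lit 123) (nat_lit 133)))) (PT.nd (nat_lit 78) (PT.lf (nat_lit 20976) (nat_lit 6) (nat_lit 276) (nat_lit 1) (nat_lit 135) (nat_lit 123) (nat_lit 132)) (PT.nd (nat_lit 78) (PT.lf (nat_lit 20900) (nat_lit 6) (nat_lit 275) (nat_lit 1) (nat_lit 136) (nat_lit 123) (nat_lit 131)) (PT.lf (nat_lit 20824) (nat_lit 6) (nat_lit 274) (nat_lit 1) (nat_lit 137) (nat_lit 123) (nat_lit 130))))) (PT.nd (nat_lit 234) (PT.nd (nat_lit 78) (PT.lf (nat_lit 20140) (nat_lit 6) (nat_lit 265) (nat_lit 1) (nat_lit 138) (nat_lit 123) (nat_lit 129)) (PT.nd (nat_lit 78) (PT.lf (nat_lit 19380) (nat_lit 6) (nat_lit 255) (nat_lit 1) (nat_lit 139) (nat_lit 123) (nat_lit 128)) (PT.lf (nat_lit 18544) (nat_lit 6) (nat_lit 244) (nat_lit 1) (nat_lit 140) (nat_lit 123)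 (nat_lit 127)))) (PT.nd (nat_lit 156) (PT.nd (nat_lit 78) (PT.lf (nat_lit 17632) (nat_lit 6) (nat_lit 232) (nat_lit 1) (nat_lit 141) (nat_lit 123) (nat_lit 126)) (PT.lf (nat_lit 16644) (nat_lit 6) (nat_lit 219) (nat_lit 1) (nat_lit 142) (nat_lit 123) (nat_lit 125))) (PT.nd (nat_lit 78) (PT.lf (nat_lit 15580) (nat_lit 6) (nat_lit 205) (nat_lit 1) (nat_lit 143) (nat_lit 123) (nat_lit 124)) (PT.lf (nat_lit 14440) (nat_lit 3) (nat_lit 190) (nat_lit 0) (nat_lit 144) (nat_lit 123) (nat_lit 123))))))) (PT.nd (nat_lit 39702) (PT.nd (nat_lit 39156) (PT.nd (nat_lit 38922) (PT.nd (nat_lit 38766) (PT.lf (nat_lit 13300) (nat_lit 6) (nat_lit 175) (nat_lit 0) (nat_lit 145) (nat_lit 123) (nat_lit 122)) (PT.nd (nat_lit 78) (PT.lf (nat_lit 13376) (nat_lit 6) (nat_lit 176) (nat_lit 5) (nat_lit 121) (nat_lit 124) (nat_lit 145)) (PT.lf (nat_lit 14516) (nat_lit 6) (nat_lit 191) (nat_lit 5) (nat_lit 122) (nat_lit 124)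 (nat_lit 144)))) (PT.nd (nat_lit 78) (PT.lf (nat_lit 15580) (nat_lit 6) (nat_lit 205) (nat_lit 5) (nat_lit 123) (nat_lit 124) (nat_lit 143)) (PT.nd (nat_lit 78) (PT.lf (nat_lit 16568) (nat_lit 3) (nat_lit 218) (nat_lit 3) (nat_lit 124) (nat_lit 124) (nat_lit 142)) (PT.lf (nat_lit 17556) (nat_lit 6) (nat_lit 231) (nat_lit 3) (nat_lit 125) (nat_lit 124) (nat_lit 141))))) (PT.nd (nat_lit 234) (PT.nd (nat_lit 78) (PT.lf (nat_lit 18468) (nat_lit 6) (nat_lit 243) (nat_lit 3) (nat_lit 126) (nat_lit 124) (nat_lit 140)) (PT.nd (nat_lit 78) (PT.lf (nat_lit 19304) (nat_lit 6) (nat_lit 254) (nat_lit 3) (nat_lit 127) (nat_lit 124) (nat_lit 139)) (PT.lf (nat_lit 20064) (nat_lit 6) (nat_lit 264) (nat_lit 3) (nat_lit 128) (nat_lit 124) (nat_lit 138)))) (PT.nd (nat_lit 156) (PT.nd (nat_lit 78) (PT.lf (nat_lit 20748) (nat_lit 6) (nat_lit 273) (nat_lit 3) (nat_lit 129) (nat_lit 124) (nat_lit 137)) (PT.lf (nat_lit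 21356) (nat_lit 6) (nat_lit 281) (nat_lit 3) (nat_lit 130) (nat_lit 124) (nat_lit 136))) (PT.nd (nat_lit 78) (PT.lf (nat_lit 21432) (nat_lit 6) (nat_lit 282) (nat_lit 3) (nat_lit 131) (nat_lit 124) (nat_lit 135)) (PT.lf (nat_lit 21508) (nat_lit 6) (nat_lit 283) (nat_lit 3) (nat_lit 132) (nat_lit 124) (nat_lit 134)))))) (PT.nd (nat_lit 468) (PT.nd (nat_lit 234) (PT.nd (nat_lit 78) (PT.lf (nat_lit 21584) (nat_lit 3) (nat_lit 284) (nat_lit 1) (nat_lit 133) (nat_lit 124) (nat_lit 133)) (PT.nd (nat_lit 78) (PT.lf (nat_lit 21508) (nat_lit 6) (nat_lit 283) (nat_lit 1) (nat_lit 134) (nat_lit 124) (nat_lit 132)) (PT.lf (nat_lit 21432) (nat_lit 6) (nat_lit 282) (nat_lit 1) (nat_lit 135) (nat_lit 124) (nat_lit 131)))) (PT.nd (nat_lit 78) (PT.lf (nat_lit 21356) (nat_lit 6) (nat_lit 281) (nat_lit 1) (nat_lit 136) (nat_lit 124) (nat_lit 130)) (PT.nd (nat_lit 78) (PT.lf (nat_lit 20748) (nat_lit 6) (nat_lit 273)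 (nat_lit 1) (nat_lit 137) (nat_lit 124) (nat_lit 129)) (PT.lf (nat_lit 20064) (nat_lit 6) (nat_lit 264) (nat_lit 1) (nat_lit 138) (nat_lit 124) (nat_lit 128))))) (PT.nd (nat_lit 234) (PT.nd (nat_lit 78) (PT.lf (nat_lit 19304) (nat_lit 6) (nat_lit 254) (nat_lit 1) (nat_lit 139) (nat_lit 124) (nat_lit 127)) (PT.nd (nat_lit 78) (PT.lf (nat_lit 18468) (nat_lit 6) (nat_lit 243) (nat_lit 1) (nat_lit 140) (nat_lit 124) (nat_lit 126)) (PT.lf (nat_lit 17556) (nat_lit 6) (nat_lit 231) (nat_lit 1) (nat_lit 141) (nat_lit 124) (nat_lit 125)))) (PT.nd (nat_lit 156) (PT.nd (nat_lit 78) (PT.lf (nat_lit 16568) (nat_lit 3) (nat_lit 218) (nat_lit 0) (nat_lit 142) (nat_lit 124) (nat_lit 124)) (PT.lf (nat_lit 15580) (nat_lit 6) (nat_lit 205) (nat_lit 0) (nat_lit 143) (nat_lit 124) (nat_lit 123))) (PT.nd (nat_lit 78) (PT.lf (nat_lit 14516) (nat_lit 6) (nat_lit 191) (nat_lit 0) (nat_lit 144) (nat_lit 124) (nat_lit 122))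 (PT.lf (nat_lit 13376) (nat_lit 6) (nat_lit 176) (nat_lit 0) (nat_lit 145) (nat_lit 124) (nat_lit 121))))))))
noncomputable def pc10 : PT := (PT.nd (nat_lit 1950) (PT.nd (nat_lit 936) (PT.nd (nat_lit 468) (PT.nd (nat_lit 234) (PT.nd (nat_lit 78) (PT.lf (nat_lit 13452) (nat_lit 6) (nat_lit 177) (nat_lit 5) (nat_lit 120) (nat_lit 125) (nat_lit 145)) (PT.nd (nat_lit 78) (PT.lf (nat_lit 14592) (nat_lit 6) (nat_lit 192) (nat_lit 5) (nat_lit 121) (nat_lit 125) (nat_lit 144)) (PT.lf (nat_lit 15656) (nat_lit 6) (nat_lit 206) (nat_lit 5) (nat_lit 122) (nat_lit 125) (nat_lit 143)))) (PT.nd (nat_lit 78) (PT.lf (nat_lit 16644) (nat_lit 6) (nat_lit 219) (nat_lit 5) (nat_lit 123) (nat_lit 125) (nat_lit 142)) (PT.nd (nat_lit 78) (PT.lf (nat_lit 17556) (nat_lit 6) (nat_lit 231) (nat_lit 5) (nat_lit 124) (nat_lit 125) (nat_lit 141)) (PT.lf (nat_lit 18392) (nat_lit 3) (nat_lit 242) (nat_lit 3) (nat_lit 125) (nat_lit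 125) (nat_lit 140))))) (PT.nd (nat_lit 234) (PT.nd (nat_lit 78) (PT.lf (nat_lit 19228) (nat_lit 6) (nat_lit 253) (nat_lit 3) (nat_lit 126) (nat_lit 125) (nat_lit 139)) (PT.nd (nat_lit 78) (PT.lf (nat_lit 19988) (nat_lit 6) (nat_lit 263) (nat_lit 3) (nat_lit 127) (nat_lit 125) (nat_lit 138)) (PT.lf (nat_lit 20672) (nat_lit 6) (nat_lit 272) (nat_lit 3) (nat_lit 128) (nat_lit 125) (nat_lit 137)))) (PT.nd (nat_lit 78) (PT.lf (nat_lit 21280) (nat_lit 6) (nat_lit 280) (nat_lit 3) (nat_lit 129) (nat_lit 125) (nat_lit 136)) (PT.nd (nat_lit 78) (PT.lf (nat_lit 21812) (nat_lit 6) (nat_lit 287) (nat_lit 3) (nat_lit 130) (nat_lit 125) (nat_lit 135)) (PT.lf (nat_lit 21888) (nat_lit 6) (nat_lit 288) (nat_lit 3) (nat_lit 131) (nat_lit 125) (nat_lit 134)))))) (PT.nd (nat_lit 468) (PT.nd (nat_lit 234) (PT.nd (nat_lit 78) (PT.lf (nat_lit 21964) (nat_lit 6) (nat_lit 289) (nat_lit 3) (nat_lit 132) (nat_lit 125) (nat_lit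 133)) (PT.nd (nat_lit 78) (PT.lf (nat_lit 21964) (nat_lit 6) (nat_lit 289) (nat_lit 1) (nat_lit 133) (nat_lit 125) (nat_lit 132)) (PT.lf (nat_lit 21888) (nat_lit 6) (nat_lit 288) (nat_lit 1) (nat_lit 134) (nat_lit 125) (nat_lit 131)))) (PT.nd (nat_lit 78) (PT.lf (nat_lit 21812) (nat_lit 6) (nat_lit 287) (nat_lit 1) (nat_lit 135) (nat_lit 125) (nat_lit 130)) (PT.nd (nat_lit 78) (PT.lf (nat_lit 21280) (nat_lit 6) (nat_lit 280) (nat_lit 1) (nat_lit 136) (nat_lit 125) (nat_lit 129)) (PT.lf (nat_lit 20672) (nat_lit 6) (nat_lit 272) (nat_lit 1) (nat_lit 137) (nat_lit 125) (nat_lit 128))))) (PT.nd (nat_lit 234) (PT.nd (nat_lit 78) (PT.lf (nat_lit 19988) (nat_lit 6) (nat_lit 263) (nat_lit 1) (nat_lit 138) (nat_lit 125) (nat_lit 127)) (PT.nd (nat_lit 78) (PT.lf (nat_lit 19228) (nat_lit 6) (nat_lit 253) (nat_lit 1) (nat_lit 139) (nat_lit 125) (nat_lit 126)) (PT.lf (nat_lit 18392) (nat_lit 3) (nat_lit 242)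 (nat_lit 0) (nat_lit 140) (nat_lit 125) (nat_lit 125)))) (PT.nd (nat_lit 156) (PT.nd (nat_lit 78) (PT.lf (nat_lit 17556) (nat_lit 6) (nat_lit 231) (nat_lit 0) (nat_lit 141) (nat_lit 125) (nat_lit 124)) (PT.lf (nat_lit 16644) (nat_lit 6) (nat_lit 219) (nat_lit 0) (nat_lit 142) (nat_lit 125) (nat_lit 123))) (PT.nd (nat_lit 78) (PT.lf (nat_lit 15656) (nat_lit 6) (nat_lit 206) (nat_lit 0) (nat_lit 143) (nat_lit 125) (nat_lit 122)) (PT.lf (nat_lit 14592) (nat_lit 6) (nat_lit 192) (nat_lit 0) (nat_lit 144) (nat_lit 125) (nat_lit 121))))))) (PT.nd (nat_lit 39546) (PT.nd (nat_lit 39000) (PT.nd (nat_lit 38766) (PT.nd (nat_lit 38610) (PT.lf (nat_lit 13452) (nat_lit 6) (nat_lit 177) (nat_lit 0) (nat_lit 145) (nat_lit 125) (nat_lit 120)) (PT.nd (nat_lit 78) (PT.lf (nat_lit 13528) (nat_lit 6) (nat_lit 178) (nat_lit 5) (nat_lit 119) (nat_lit 126) (nat_lit 145)) (PT.lf (nat_lit 14668) (nat_lit 6) (nat_lit 193)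 (nat_lit 5) (nat_lit 120) (nat_lit 126) (nat_lit 144)))) (PT.nd (nat_lit 78) (PT.lf (nat_lit 15732) (nat_lit 6) (nat_lit 207) (nat_lit 5) (nat_lit 121) (nat_lit 126) (nat_lit 143)) (PT.nd (nat_lit 78) (PT.lf (nat_lit 16720) (nat_lit 6) (nat_lit 220) (nat_lit 5) (nat_lit 122) (nat_lit 126) (nat_lit 142)) (PT.lf (nat_lit 17632) (nat_lit 6) (nat_lit 232) (nat_lit 5) (nat_lit 123) (nat_lit 126) (nat_lit 141))))) (PT.nd (nat_lit 234) (PT.nd (nat_lit 78) (PT.lf (nat_lit 18468) (nat_lit 6) (nat_lit 243) (nat_lit 5) (nat_lit 124) (nat_lit 126) (nat_lit 140)) (PT.nd (nat_lit 78) (PT.lf (nat_lit 19228) (nat_lit 6) (nat_lit 253) (nat_lit 5) (nat_lit 125) (nat_lit 126) (nat_lit 139)) (PT.lf (nat_lit 19912) (nat_lit 3) (nat_lit 262) (nat_lit 3) (nat_lit 126) (nat_lit 126) (nat_lit 138)))) (PT.nd (nat_lit 156) (PT.nd (nat_lit 78) (PT.lf (nat_lit 20596) (nat_lit 6) (nat_lit 271) (nat_lit 3) (nat_lit 127) (nat_lit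 126) (nat_lit 137)) (PT.lf (nat_lit 21204) (nat_lit 6) (nat_lit 279) (nat_lit 3) (nat_lit 128) (nat_lit 126) (nat_lit 136))) (PT.nd (nat_lit 78) (PT.lf (nat_lit 21736) (nat_lit 6) (nat_lit 286) (nat_lit 3) (nat_lit 129) (nat_lit 126) (nat_lit 135)) (PT.lf (nat_lit 22192) (nat_lit 6) (nat_lit 292) (nat_lit 3) (nat_lit 130) (nat_lit 126) (nat_lit 134)))))) (PT.nd (nat_lit 468) (PT.nd (nat_lit 234) (PT.nd (nat_lit 78) (PT.lf (nat_lit 22268) (nat_lit 6) (nat_lit 293) (nat_lit 3) (nat_lit 131) (nat_lit 126) (nat_lit 133)) (PT.nd (nat_lit 78) (PT.lf (nat_lit 22344) (nat_lit 3) (nat_lit 294) (nat_lit 1) (nat_lit 132) (nat_lit 126) (nat_lit 132)) (PT.lf (nat_lit 22268) (nat_lit 6) (nat_lit 293) (nat_lit 1) (nat_lit 133) (nat_lit 126) (nat_lit 131)))) (PT.nd (nat_lit 78) (PT.lf (nat_lit 22192) (nat_lit 6) (nat_lit 292) (nat_lit 1) (nat_lit 134) (nat_lit 126) (nat_lit 130)) (PT.nd (nat_lit 78) (PT.lf (nat_lit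 21736) (nat_lit 6) (nat_lit 286) (nat_lit 1) (nat_lit 135) (nat_lit 126) (nat_lit 129)) (PT.lf (nat_lit 21204) (nat_lit 6) (nat_lit 279) (nat_lit 1) (nat_lit 136) (nat_lit 126) (nat_lit 128))))) (PT.nd (nat_lit 234) (PT.nd (nat_lit 78) (PT.lf (nat_lit 20596) (nat_lit 6) (nat_lit 271) (nat_lit 1) (nat_lit 137) (nat_lit 126) (nat_lit 127)) (PT.nd (nat_lit 78) (PT.lf (nat_lit 19912) (nat_lit 3) (nat_lit 262) (nat_lit 0) (nat_lit 138) (nat_lit 126) (nat_lit 126)) (PT.lf (nat_lit 19228) (nat_lit 6) (nat_lit 253) (nat_lit 0) (nat_lit 139) (nat_lit 126) (nat_lit 125)))) (PT.nd (nat_lit 156) (PT.nd (nat_lit 78) (PT.lf (nat_lit 18468) (nat_lit 6) (nat_lit 243) (nat_lit 0) (nat_lit 140) (nat_lit 126) (nat_lit 124)) (PT.lf (nat_lit 17632) (nat_lit 6) (nat_lit 232) (nat_lit 0) (nat_lit 141) (nat_lit 126) (nat_lit 123))) (PT.nd (nat_lit 78) (PT.lf (nat_lit 16720) (nat_lit 6) (nat_lit 220) (nat_lit 0) (nat_lit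 142) (nat_lit 126) (nat_lit 122)) (PT.lf (nat_lit 15732) (nat_lit 6) (nat_lit 207) (nat_lit 0) (nat_lit 143) (nat_lit 126) (nat_lit 121))))))))
noncomputable def pc11 : PT := (PT.nd (nat_lit 40482) (PT.nd (nat_lit 39468) (PT.nd (nat_lit 38922) (PT.nd (nat_lit 38688) (PT.nd (nat_lit 78) (PT.lf (nat_lit 14668) (nat_lit 6) (nat_lit 193) (nat_lit 0) (nat_lit 144) (nat_lit 126) (nat_lit 120)) (PT.nd (nat_lit 38532) (PT.lf (nat_lit 13528) (nat_lit 6) (nat_lit 178) (nat_lit 0) (nat_lit 145) (nat_lit 126) (nat_lit 119)) (PT.lf (nat_lit 13604) (nat_lit 6) (nat_lit 179) (nat_lit 5) (nat_lit 118) (nat_lit 127) (nat_lit 145)))) (PT.nd (nat_lit 78) (PT.lf (nat_lit 14744) (nat_lit 6) (nat_lit 194) (nat_lit 5) (nat_lit 119) (nat_lit 127) (nat_lit 144)) (PT.nd (nat_lit 78) (PT.lf (nat_lit 15808) (nat_lit 6) (nat_lit 208) (nat_lit 5) (nat_lit 120) (nat_lit 127) (nat_lit 143)) (PT.lf (nat_lit 16796) (nat_lit 6)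 (nat_lit 221) (nat_lit 5) (nat_lit 121) (nat_lit 127) (nat_lit 142))))) (PT.nd (nat_lit 234) (PT.nd (nat_lit 78) (PT.lf (nat_lit 17708) (nat_lit 6) (nat_lit 233) (nat_lit 5) (nat_lit 122) (nat_lit 127) (nat_lit 141)) (PT.nd (nat_lit 78) (PT.lf (nat_lit 18544) (nat_lit 6) (nat_lit 244) (nat_lit 5) (nat_lit 123) (nat_lit 127) (nat_lit 140)) (PT.lf (nat_lit 19304) (nat_lit 6) (nat_lit 254) (nat_lit 5) (nat_lit 124) (nat_lit 127) (nat_lit 139)))) (PT.nd (nat_lit 156) (PT.nd (nat_lit 78) (PT.lf (nat_lit 19988) (nat_lit 6) (nat_lit 263) (nat_lit 5) (nat_lit 125) (nat_lit 127) (nat_lit 138)) (PT.lf (nat_lit 20596) (nat_lit 6) (nat_lit 271) (nat_lit 5) (nat_lit 126) (nat_lit 127) (nat_lit 137))) (PT.nd (nat_lit 78) (PT.lf (nat_lit 21128) (nat_lit 3) (nat_lit 278) (nat_lit 3) (nat_lit 127) (nat_lit 127) (nat_lit 136)) (PT.lf (nat_lit 21660) (nat_lit 6) (nat_lit 285) (nat_lit 3) (nat_lit 128) (nat_lit 127)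 (nat_lit 135)))))) (PT.nd (nat_lit 468) (PT.nd (nat_lit 234) (PT.nd (nat_lit 78) (PT.lf (nat_lit 22116) (nat_lit 6) (nat_lit 291) (nat_lit 3) (nat_lit 129) (nat_lit 127) (nat_lit 134)) (PT.nd (nat_lit 78) (PT.lf (nat_lit 22496) (nat_lit 6) (nat_lit 296) (nat_lit 3) (nat_lit 130) (nat_lit 127) (nat_lit 133)) (PT.lf (nat_lit 22572) (nat_lit 6) (nat_lit 297) (nat_lit 3) (nat_lit 131) (nat_lit 127) (nat_lit 132)))) (PT.nd (nat_lit 78) (PT.lf (nat_lit 22572) (nat_lit 6) (nat_lit 297) (nat_lit 1) (nat_lit 132) (nat_lit 127) (nat_lit 131)) (PT.nd (nat_lit 78) (PT.lf (nat_lit 22496) (nat_lit 6) (nat_lit 296) (nat_lit 1) (nat_lit 133) (nat_lit 127) (nat_lit 130)) (PT.lf (nat_lit 22116) (nat_lit 6) (nat_lit 291) (nat_lit 1) (nat_lit 134) (nat_lit 127) (nat_lit 129))))) (PT.nd (nat_lit 234) (PT.nd (nat_lit 78) (PT.lf (nat_lit 21660) (nat_lit 6) (nat_lit 285) (nat_lit 1) (nat_lit 135) (nat_lit 127) (nat_lit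 128)) (PT.nd (nat_lit 78) (PT.lf (nat_lit 21128) (nat_lit 3) (nat_lit 278) (nat_lit 0) (nat_lit 136) (nat_lit 127) (nat_lit 127)) (PT.lf (nat_lit 20596) (nat_lit 6) (nat_lit 271) (nat_lit 0) (nat_lit 137) (nat_lit 127) (nat_lit 126)))) (PT.nd (nat_lit 156) (PT.nd (nat_lit 78) (PT.lf (nat_lit 19988) (nat_lit 6) (nat_lit 263) (nat_lit 0) (nat_lit 138) (nat_lit 127) (nat_lit 125)) (PT.lf (nat_lit 19304) (nat_lit 6) (nat_lit 254) (nat_lit 0) (nat_lit 139) (nat_lit 127) (nat_lit 124))) (PT.nd (nat_lit 78) (PT.lf (nat_lit 18544) (nat_lit 6) (nat_lit 244) (nat_lit 0) (nat_lit 140) (nat_lit 127) (nat_lit 123)) (PT.lf (nat_lit 17708) (nat_lit 6) (nat_lit 233) (nat_lit 0) (nat_lit 141) (nat_lit 127) (nat_lit 122))))))) (PT.nd (nat_lit 39390) (PT.nd (nat_lit 38844) (PT.nd (nat_lit 234) (PT.nd (nat_lit 78) (PT.lf (nat_lit 16796) (nat_lit 6) (nat_lit 221) (nat_lit 0) (nat_lit 142) (nat_lit 127) (nat_lit 121))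 (PT.nd (nat_lit 78) (PT.lf (nat_lit 15808) (nat_lit 6) (nat_lit 208) (nat_lit 0) (nat_lit 143) (nat_lit 127) (nat_lit 120)) (PT.lf (nat_lit 14744) (nat_lit 6) (nat_lit 194) (nat_lit 0) (nat_lit 144) (nat_lit 127) (nat_lit 119)))) (PT.nd (nat_lit 38454) (PT.lf (nat_lit 13604) (nat_lit 6) (nat_lit 179) (nat_lit 0) (nat_lit 145) (nat_lit 127) (nat_lit 118)) (PT.nd (nat_lit 78) (PT.lf (nat_lit 13680) (nat_lit 6) (nat_lit 180) (nat_lit 5) (nat_lit 117) (nat_lit 128) (nat_lit 145)) (PT.lf (nat_lit 14820) (nat_lit 6) (nat_lit 195) (nat_lit 5) (nat_lit 118) (nat_lit 128) (nat_lit 144))))) (PT.nd (nat_lit 234) (PT.nd (nat_lit 78) (PT.lf (nat_lit 15884) (nat_lit 6) (nat_lit 209) (nat_lit 5) (nat_lit 119) (nat_lit 128) (nat_lit 143)) (PT.nd (nat_lit 78) (PT.lf (nat_lit 16872) (nat_lit 6) (nat_lit 222) (nat_lit 5) (nat_lit 120) (nat_lit 128) (nat_lit 142)) (PT.lf (nat_lit 17784) (nat_lit 6) (nat_lit 234)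 (nat_lit 5) (nat_lit 121) (nat_lit 128) (nat_lit 141)))) (PT.nd (nat_lit 156) (PT.nd (nat_lit 78) (PT.lf (nat_lit 18620) (nat_lit 6) (nat_lit 245) (nat_lit 5) (nat_lit 122) (nat_lit 128) (nat_lit 140)) (PT.lf (nat_lit 19380) (nat_lit 6) (nat_lit 255) (nat_lit 5) (nat_lit 123) (nat_lit 128) (nat_lit 139))) (PT.nd (nat_lit 78) (PT.lf (nat_lit 20064) (nat_lit 6) (nat_lit 264) (nat_lit 5) (nat_lit 124) (nat_lit 128) (nat_lit 138)) (PT.lf (nat_lit 20672) (nat_lit 6) (nat_lit 272) (nat_lit 5) (nat_lit 125) (nat_lit 128) (nat_lit 137)))))) (PT.nd (nat_lit 468) (PT.nd (nat_lit 234) (PT.nd (nat_lit 78) (PT.lf (nat_lit 21204) (nat_lit 6) (nat_lit 279) (nat_lit 5) (nat_lit 126) (nat_lit 128) (nat_lit 136)) (PT.nd (nat_lit 78) (PT.lf (nat_lit 21660) (nat_lit 6) (nat_lit 285) (nat_lit 5) (nat_lit 127) (nat_lit 128) (nat_lit 135)) (PT.lf (nat_lit 22040) (nat_lit 3) (nat_lit 290) (nat_lit 3) (nat_lit 128) (nat_lit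 128) (nat_lit 134)))) (PT.nd (nat_lit 78) (PT.lf (nat_lit 22420) (nat_lit 6) (nat_lit 295) (nat_lit 3) (nat_lit 129) (nat_lit 128) (nat_lit 133)) (PT.nd (nat_lit 78) (PT.lf (nat_lit 22724) (nat_lit 6) (nat_lit 299) (nat_lit 3) (nat_lit 130) (nat_lit 128) (nat_lit 132)) (PT.lf (nat_lit 22800) (nat_lit 3) (nat_lit 300) (nat_lit 1) (nat_lit 131) (nat_lit 128) (nat_lit 131))))) (PT.nd (nat_lit 234) (PT.nd (nat_lit 78) (PT.lf (nat_lit 22724) (nat_lit 6) (nat_lit 299) (nat_lit 1) (nat_lit 132) (nat_lit 128) (nat_lit 130)) (PT.nd (nat_lit 78) (PT.lf (nat_lit 22420) (nat_lit 6) (nat_lit 295) (nat_lit 1) (nat_lit 133) (nat_lit 128) (nat_lit 129)) (PT.lf (nat_lit 22040) (nat_lit 3) (nat_lit 290) (nat_lit 0) (nat_lit 134) (nat_lit 128) (nat_lit 128)))) (PT.nd (nat_lit 156) (PT.nd (nat_lit 78) (PT.lf (nat_lit 21660) (nat_lit 6) (nat_lit 285) (nat_lit 0) (nat_lit 135) (nat_lit 128) (nat_lit 127)) (PT.lf (nat_lit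 21204) (nat_lit 6) (nat_lit 279) (nat_lit 0) (nat_lit 136) (nat_lit 128) (nat_lit 126))) (PT.nd (nat_lit 78) (PT.lf (nat_lit 20672) (nat_lit 6) (nat_lit 272) (nat_lit 0) (nat_lit 137) (nat_lit 128) (nat_lit 125)) (PT.lf (nat_lit 20064) (nat_lit 6) (nat_lit 264) (nat_lit 0) (nat_lit 138) (nat_lit 128) (nat_lit 124))))))))
noncomputable def pc12 : PT := (PT.nd (nat_lit 40248) (PT.nd (nat_lit 39234) (PT.nd (nat_lit 468) (PT.nd (nat_lit 234) (PT.nd (nat_lit 78) (PT.lf (nat_lit 19380) (nat_lit 6) (nat_lit 255) (nat_lit 0) (nat_lit 139) (nat_lit 128) (nat_lit 123)) (PT.nd (nat_lit 78) (PT.lf (nat_lit 18620) (nat_lit 6) (nat_lit 245) (nat_lit 0) (nat_lit 140) (nat_lit 128) (nat_lit 122)) (PT.lf (nat_lit 17784) (nat_lit 6) (nat_lit 234) (nat_lit 0) (nat_lit 141) (nat_lit 128) (nat_lit 121)))) (PT.nd (nat_lit 78) (PT.lf (nat_lit 16872) (nat_lit 6) (nat_lit 222) (nat_lit 0) (nat_lit 142) (nat_lit 128) (nat_lit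 120)) (PT.nd (nat_lit 78) (PT.lf (nat_lit 15884) (nat_lit 6) (nat_lit 209) (nat_lit 0) (nat_lit 143) (nat_lit 128) (nat_lit 119)) (PT.lf (nat_lit 14820) (nat_lit 6) (nat_lit 195) (nat_lit 0) (nat_lit 144) (nat_lit 128) (nat_lit 118))))) (PT.nd (nat_lit 38532) (PT.nd (nat_lit 38376) (PT.lf (nat_lit 13680) (nat_lit 6) (nat_lit 180) (nat_lit 0) (nat_lit 145) (nat_lit 128) (nat_lit 117)) (PT.nd (nat_lit 78) (PT.lf (nat_lit 13756) (nat_lit 6) (nat_lit 181) (nat_lit 5) (nat_lit 116) (nat_lit 129) (nat_lit 145)) (PT.lf (nat_lit 14896) (nat_lit 6) (nat_lit 196) (nat_lit 5) (nat_lit 117) (nat_lit 129) (nat_lit 144)))) (PT.nd (nat_lit 78) (PT.lf (nat_lit 15960) (nat_lit 6) (nat_lit 210) (nat_lit 5) (nat_lit 118) (nat_lit 129) (nat_lit 143)) (PT.nd (nat_lit 78) (PT.lf (nat_lit 16948) (nat_lit 6) (nat_lit 223) (nat_lit 5) (nat_lit 119) (nat_lit 129) (nat_lit 142)) (PT.lf (nat_lit 17860) (nat_lit 6) (nat_lit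 235) (nat_lit 5) (nat_lit 120) (nat_lit 129) (nat_lit 141)))))) (PT.nd (nat_lit 468) (PT.nd (nat_lit 234) (PT.nd (nat_lit 78) (PT.lf (nat_lit 18696) (nat_lit 6) (nat_lit 246) (nat_lit 5) (nat_lit 121) (nat_lit 129) (nat_lit 140)) (PT.nd (nat_lit 78) (PT.lf (nat_lit 19456) (nat_lit 6) (nat_lit 256) (nat_lit 5) (nat_lit 122) (nat_lit 129) (nat_lit 139)) (PT.lf (nat_lit 20140) (nat_lit 6) (nat_lit 265) (nat_lit 5) (nat_lit 123) (nat_lit 129) (nat_lit 138)))) (PT.nd (nat_lit 78) (PT.lf (nat_lit 20748) (nat_lit 6) (nat_lit 273) (nat_lit 5) (nat_lit 124) (nat_lit 129) (nat_lit 137)) (PT.nd (nat_lit 78) (PT.lf (nat_lit 21280) (nat_lit 6) (nat_lit 280) (nat_lit 5) (nat_lit 125) (nat_lit 129) (nat_lit 136)) (PT.lf (nat_lit 21736) (nat_lit 6) (nat_lit 286) (nat_lit 5) (nat_lit 126) (nat_lit 129) (nat_lit 135))))) (PT.nd (nat_lit 234) (PT.nd (nat_lit 78) (PT.lf (nat_lit 22116) (nat_lit 6) (nat_lit 291) (nat_lit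 5) (nat_lit 127) (nat_lit 129) (nat_lit 134)) (PT.nd (nat_lit 78) (PT.lf (nat_lit 22420) (nat_lit 6) (nat_lit 295) (nat_lit 5) (nat_lit 128) (nat_lit 129) (nat_lit 133)) (PT.lf (nat_lit 22648) (nat_lit 3) (nat_lit 298) (nat_lit 3) (nat_lit 129) (nat_lit 129) (nat_lit 132)))) (PT.nd (nat_lit 156) (PT.nd (nat_lit 78) (PT.lf (nat_lit 22876) (nat_lit 6) (nat_lit 301) (nat_lit 3) (nat_lit 130) (nat_lit 129) (nat_lit 131)) (PT.lf (nat_lit 22876) (nat_lit 6) (nat_lit 301) (nat_lit 1) (nat_lit 131) (nat_lit 129) (nat_lit 130))) (PT.nd (nat_lit 78) (PT.lf (nat_lit 22648) (nat_lit 3) (nat_lit 298) (nat_lit 0) (nat_lit 132) (nat_lit 129) (nat_lit 129)) (PT.lf (nat_lit 22420) (nat_lit 6) (nat_lit 295) (nat_lit 0) (nat_lit 133) (nat_lit 129) (nat_lit 128))))))) (PT.nd (nat_lit 39234) (PT.nd (nat_lit 468) (PT.nd (nat_lit 234) (PT.nd (nat_lit 78) (PT.lf (nat_lit 22116) (nat_lit 6) (nat_lit 291) (nat_lit 0) (nat_lit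 134) (nat_lit 129) (nat_lit 127)) (PT.nd (nat_lit 78) (PT.lf (nat_lit 21736) (nat_lit 6) (nat_lit 286) (nat_lit 0) (nat_lit 135) (nat_lit 129) (nat_lit 126)) (PT.lf (nat_lit 21280) (nat_lit 6) (nat_lit 280) (nat_lit 0) (nat_lit 136) (nat_lit 129) (nat_lit 125)))) (PT.nd (nat_lit 78) (PT.lf (nat_lit 20748) (nat_lit 6) (nat_lit 273) (nat_lit 0) (nat_lit 137) (nat_lit 129) (nat_lit 124)) (PT.nd (nat_lit 78) (PT.lf (nat_lit 20140) (nat_lit 6) (nat_lit 265) (nat_lit 0) (nat_lit 138) (nat_lit 129) (nat_lit 123)) (PT.lf (nat_lit 19456) (nat_lit 6) (nat_lit 256) (nat_lit 0) (nat_lit 139) (nat_lit 129) (nat_lit 122))))) (PT.nd (nat_lit 234) (PT.nd (nat_lit 78) (PT.lf (nat_lit 18696) (nat_lit 6) (nat_lit 246) (nat_lit 0) (nat_lit 140) (nat_lit 129) (nat_lit 121)) (PT.nd (nat_lit 78) (PT.lf (nat_lit 17860) (nat_lit 6) (nat_lit 235) (nat_lit 0) (nat_lit 141) (nat_lit 129) (nat_lit 120)) (PT.lf (nat_lit 16948)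 (nat_lit 6) (nat_lit 223) (nat_lit 0) (nat_lit 142) (nat_lit 129) (nat_lit 119)))) (PT.nd (nat_lit 156) (PT.nd (nat_lit 78) (PT.lf (nat_lit 15960) (nat_lit 6) (nat_lit 210) (nat_lit 0) (nat_lit 143) (nat_lit 129) (nat_lit 118)) (PT.lf (nat_lit 14896) (nat_lit 6) (nat_lit 196) (nat_lit 0) (nat_lit 144) (nat_lit 129) (nat_lit 117))) (PT.nd (nat_lit 38298) (PT.lf (nat_lit 13756) (nat_lit 6) (nat_lit 181) (nat_lit 0) (nat_lit 145) (nat_lit 129) (nat_lit 116)) (PT.lf (nat_lit 13832) (nat_lit 6) (nat_lit 182) (nat_lit 5) (nat_lit 115) (nat_lit 130) (nat_lit 145)))))) (PT.nd (nat_lit 468) (PT.nd (nat_lit 234) (PT.nd (nat_lit 78) (PT.lf (nat_lit 14972) (nat_lit 6) (nat_lit 197) (nat_lit 5) (nat_lit 116) (nat_lit 130) (nat_lit 144)) (PT.nd (nat_lit 78) (PT.lf (nat_lit 16036) (nat_lit 6) (nat_lit 211) (nat_lit 5) (nat_lit 117) (nat_lit 130) (nat_lit 143)) (PT.lf (nat_lit 17024) (nat_lit 6) (nat_lit 224)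 (nat_lit 5) (nat_lit 118) (nat_lit 130) (nat_lit 142)))) (PT.nd (nat_lit 78) (PT.lf (nat_lit 17936) (nat_lit 6) (nat_lit 236) (nat_lit 5) (nat_lit 119) (nat_lit 130) (nat_lit 141)) (PT.nd (nat_lit 78) (PT.lf (nat_lit 18772) (nat_lit 6) (nat_lit 247) (nat_lit 5) (nat_lit 120) (nat_lit 130) (nat_lit 140)) (PT.lf (nat_lit 19532) (nat_lit 6) (nat_lit 257) (nat_lit 5) (nat_lit 121) (nat_lit 130) (nat_lit 139))))) (PT.nd (nat_lit 234) (PT.nd (nat_lit 78) (PT.lf (nat_lit 20216) (nat_lit 6) (nat_lit 266) (nat_lit 5) (nat_lit 122) (nat_lit 130) (nat_lit 138)) (PT.nd (nat_lit 78) (PT.lf (nat_lit 20824) (nat_lit 6) (nat_lit 274) (nat_lit 5) (nat_lit 123) (nat_lit 130) (nat_lit 137)) (PT.lf (nat_lit 21356) (nat_lit 6) (nat_lit 281) (nat_lit 5) (nat_lit 124) (nat_lit 130) (nat_lit 136)))) (PT.nd (nat_lit 156) (PT.nd (nat_lit 78) (PT.lf (nat_lit 21812) (nat_lit 6) (nat_lit 287) (nat_lit 5) (nat_lit 125) (nat_lit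 130) (nat_lit 135)) (PT.lf (nat_lit 22192) (nat_lit 6) (nat_lit 292) (nat_lit 5) (nat_lit 126) (nat_lit 130) (nat_lit 134))) (PT.nd (nat_lit 78) (PT.lf (nat_lit 22496) (nat_lit 6) (nat_lit 296) (nat_lit 5) (nat_lit 127) (nat_lit 130) (nat_lit 133)) (PT.lf (nat_lit 22724) (nat_lit 6) (nat_lit 299) (nat_lit 5) (nat_lit 128) (nat_lit 130) (nat_lit 132))))))))
noncomputable def pc13 : PT := (PT.nd (nat_lit 40092) (PT.nd (nat_lit 1014) (PT.nd (nat_lit 468) (PT.nd (nat_lit 234) (PT.nd (nat_lit 78) (PT.lf (nat_lit 22876) (nat_lit 6) (nat_lit 301) (nat_lit 5) (nat_lit 129) (nat_lit 130) (nat_lit 131)) (PT.nd (nat_lit 78) (PT.lf (nat_lit 22952) (nat_lit 1) (nat_lit 302) (nat_lit 0) (nat_lit 130) (nat_lit 130) (nat_lit 130)) (PT.lf (nat_lit 22876) (nat_lit 6) (nat_lit 301) (nat_lit 0) (nat_lit 131) (nat_lit 130) (nat_lit 129)))) (PT.nd (nat_lit 78) (PT.lf (nat_lit 22724) (nat_lit 6) (nat_lit 299) (nat_lit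 0) (nat_lit 132) (nat_lit 130) (nat_lit 128)) (PT.nd (nat_lit 78) (PT.lf (nat_lit 22496) (nat_lit 6) (nat_lit 296) (nat_lit 0) (nat_lit 133) (nat_lit 130) (nat_lit 127)) (PT.lf (nat_lit 22192) (nat_lit 6) (nat_lit 292) (nat_lit 0) (nat_lit 134) (nat_lit 130) (nat_lit 126))))) (PT.nd (nat_lit 234) (PT.nd (nat_lit 78) (PT.lf (nat_lit 21812) (nat_lit 6) (nat_lit 287) (nat_lit 0) (nat_lit 135) (nat_lit 130) (nat_lit 125)) (PT.nd (nat_lit 78) (PT.lf (nat_lit 21356) (nat_lit 6) (nat_lit 281) (nat_lit 0) (nat_lit 136) (nat_lit 130) (nat_lit 124)) (PT.lf (nat_lit 20824) (nat_lit 6) (nat_lit 274) (nat_lit 0) (nat_lit 137) (nat_lit 130) (nat_lit 123)))) (PT.nd (nat_lit 156) (PT.nd (nat_lit 78) (PT.lf (nat_lit 20216) (nat_lit 6) (nat_lit 266) (nat_lit 0) (nat_lit 138) (nat_lit 130) (nat_lit 122)) (PT.lf (nat_lit 19532) (nat_lit 6) (nat_lit 257) (nat_lit 0) (nat_lit 139) (nat_lit 130) (nat_lit 121))) (PT.nd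 (nat_lit 78) (PT.lf (nat_lit 18772) (nat_lit 6) (nat_lit 247) (nat_lit 0) (nat_lit 140) (nat_lit 130) (nat_lit 120)) (PT.lf (nat_lit 17936) (nat_lit 6) (nat_lit 236) (nat_lit 0) (nat_lit 141) (nat_lit 130) (nat_lit 119)))))) (PT.nd (nat_lit 38532) (PT.nd (nat_lit 234) (PT.nd (nat_lit 78) (PT.lf (nat_lit 17024) (nat_lit 6) (nat_lit 224) (nat_lit 0) (nat_lit 142) (nat_lit 130) (nat_lit 118)) (PT.nd (nat_lit 78) (PT.lf (nat_lit 16036) (nat_lit 6) (nat_lit 211) (nat_lit 0) (nat_lit 143) (nat_lit 130) (nat_lit 117)) (PT.lf (nat_lit 14972) (nat_lit 6) (nat_lit 197) (nat_lit 0) (nat_lit 144) (nat_lit 130) (nat_lit 116)))) (PT.nd (nat_lit 38142) (PT.lf (nat_lit 13832) (nat_lit 6) (nat_lit 182) (nat_lit 0) (nat_lit 145) (nat_lit 130) (nat_lit 115)) (PT.nd (nat_lit 78) (PT.lf (nat_lit 12084) (nat_lit 6) (nat_lit 159) (nat_lit 5) (nat_lit 113) (nat_lit 131) (nat_lit 146)) (PT.lf (nat_lit 12692) (nat_lit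 6) (nat_lit 167) (nat_lit 5) (nat_lit 114) (nat_lit 131) (nat_lit 145))))) (PT.nd (nat_lit 234) (PT.nd (nat_lit 78) (PT.lf (nat_lit 13908) (nat_lit 6) (nat_lit 183) (nat_lit 5) (nat_lit 115) (nat_lit 131) (nat_lit 144)) (PT.nd (nat_lit 78) (PT.lf (nat_lit 15048) (nat_lit 6) (nat_lit 198) (nat_lit 5) (nat_lit 116) (nat_lit 131) (nat_lit 143)) (PT.lf (nat_lit 16112) (nat_lit 6) (nat_lit 212) (nat_lit 5) (nat_lit 117) (nat_lit 131) (nat_lit 142)))) (PT.nd (nat_lit 156) (PT.nd (nat_lit 78) (PT.lf (nat_lit 17100) (nat_lit 6) (nat_lit 225) (nat_lit 5) (nat_lit 118) (nat_lit 131) (nat_lit 141)) (PT.lf (nat_lit 18012) (nat_lit 6) (nat_lit 237) (nat_lit 5) (nat_lit 119) (nat_lit 131) (nat_lit 140))) (PT.nd (nat_lit 78) (PT.lf (nat_lit 18848) (nat_lit 6) (nat_lit 248) (nat_lit 5) (nat_lit 120) (nat_lit 131) (nat_lit 139)) (PT.lf (nat_lit 19608) (nat_lit 6) (nat_lit 258) (nat_lit 5) (nat_lit 121) (nat_lit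 131) (nat_lit 138))))))) (PT.nd (nat_lit 1014) (PT.nd (nat_lit 468) (PT.nd (nat_lit 234) (PT.nd (nat_lit 78) (PT.lf (nat_lit 20292) (nat_lit 6) (nat_lit 267) (nat_lit 5) (nat_lit 122) (nat_lit 131) (nat_lit 137)) (PT.nd (nat_lit 78) (PT.lf (nat_lit 20900) (nat_lit 6) (nat_lit 275) (nat_lit 5) (nat_lit 123) (nat_lit 131) (nat_lit 136)) (PT.lf (nat_lit 21432) (nat_lit 6) (nat_lit 282) (nat_lit 5) (nat_lit 124) (nat_lit 131) (nat_lit 135)))) (PT.nd (nat_lit 78) (PT.lf (nat_lit 21888) (nat_lit 6) (nat_lit 288) (nat_lit 5) (nat_lit 125) (nat_lit 131) (nat_lit 134)) (PT.nd (nat_lit 78) (PT.lf (nat_lit 22268) (nat_lit 6) (nat_lit 293) (nat_lit 5) (nat_lit 126) (nat_lit 131) (nat_lit 133)) (PT.lf (nat_lit 22572) (nat_lit 6) (nat_lit 297) (nat_lit 5) (nat_lit 127) (nat_lit 131) (nat_lit 132))))) (PT.nd (nat_lit 234) (PT.nd (nat_lit 78) (PT.lf (nat_lit 22800) (nat_lit 3) (nat_lit 300) (nat_lit 4) (nat_lit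 128) (nat_lit 131) (nat_lit 131)) (PT.nd (nat_lit 78) (PT.lf (nat_lit 22876) (nat_lit 6) (nat_lit 301) (nat_lit 4) (nat_lit 129) (nat_lit 131) (nat_lit 130)) (PT.lf (nat_lit 22876) (nat_lit 6) (nat_lit 301) (nat_lit 2) (nat_lit 130) (nat_lit 131) (nat_lit 129)))) (PT.nd (nat_lit 156) (PT.nd (nat_lit 78) (PT.lf (nat_lit 22800) (nat_lit 3) (nat_lit 300) (nat_lit 0) (nat_lit 131) (nat_lit 131) (nat_lit 128)) (PT.lf (nat_lit 22572) (nat_lit 6) (nat_lit 297) (nat_lit 0) (nat_lit 132) (nat_lit 131) (nat_lit 127))) (PT.nd (nat_lit 78) (PT.lf (nat_lit 22268) (nat_lit 6) (nat_lit 293) (nat_lit 0) (nat_lit 133) (nat_lit 131) (nat_lit 126)) (PT.lf (nat_lit 21888) (nat_lit 6) (nat_lit 288) (nat_lit 0) (nat_lit 134) (nat_lit 131) (nat_lit 125)))))) (PT.nd (nat_lit 468) (PT.nd (nat_lit 234) (PT.nd (nat_lit 78) (PT.lf (nat_lit 21432) (nat_lit 6) (nat_lit 282) (nat_lit 0) (nat_lit 135) (nat_lit 131) (nat_lit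 124)) (PT.nd (nat_lit 78) (PT.lf (nat_lit 20900) (nat_lit 6) (nat_lit 275) (nat_lit 0) (nat_lit 136) (nat_lit 131) (nat_lit 123)) (PT.lf (nat_lit 20292) (nat_lit 6) (nat_lit 267) (nat_lit 0) (nat_lit 137) (nat_lit 131) (nat_lit 122)))) (PT.nd (nat_lit 78) (PT.lf (nat_lit 19608) (nat_lit 6) (nat_lit 258) (nat_lit 0) (nat_lit 138) (nat_lit 131) (nat_lit 121)) (PT.nd (nat_lit 78) (PT.lf (nat_lit 18848) (nat_lit 6) (nat_lit 248) (nat_lit 0) (nat_lit 139) (nat_lit 131) (nat_lit 120)) (PT.lf (nat_lit 18012) (nat_lit 6) (nat_lit 237) (nat_lit 0) (nat_lit 140) (nat_lit 131) (nat_lit 119))))) (PT.nd (nat_lit 234) (PT.nd (nat_lit 78) (PT.lf (nat_lit 17100) (nat_lit 6) (nat_lit 225) (nat_lit 0) (nat_lit 141) (nat_lit 131) (nat_lit 118)) (PT.nd (nat_lit 78) (PT.lf (nat_lit 16112) (nat_lit 6) (nat_lit 212) (nat_lit 0) (nat_lit 142) (nat_lit 131) (nat_lit 117)) (PT.lf (nat_lit 15048) (nat_lit 6) (nat_lit 198)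 (nat_lit 0) (nat_lit 143) (nat_lit 131) (nat_lit 116)))) (PT.nd (nat_lit 156) (PT.nd (nat_lit 78) (PT.lf (nat_lit 13908) (nat_lit 6) (nat_lit 183) (nat_lit 0) (nat_lit 144) (nat_lit 131) (nat_lit 115)) (PT.lf (nat_lit 12692) (nat_lit 6) (nat_lit 167) (nat_lit 0) (nat_lit 145) (nat_lit 131) (nat_lit 114))) (PT.nd (nat_lit 37986) (PT.lf (nat_lit 12084) (nat_lit 6) (nat_lit 159) (nat_lit 0) (nat_lit 146) (nat_lit 131) (nat_lit 113)) (PT.lf (nat_lit 11476) (nat_lit 6) (nat_lit 151) (nat_lit 5) (nat_lit 112) (nat_lit 132) (nat_lit 146))))))))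
noncomputable def pc14 : PT := (PT.nd (nat_lit 1950) (PT.nd (nat_lit 936) (PT.nd (nat_lit 468) (PT.nd (nat_lit 234) (PT.nd (nat_lit 78) (PT.lf (nat_lit 12160) (nat_lit 6) (nat_lit 160) (nat_lit 5) (nat_lit 113) (nat_lit 132) (nat_lit 145)) (PT.nd (nat_lit 78) (PT.lf (nat_lit 12768) (nat_lit 6) (nat_lit 168) (nat_lit 5) (nat_lit 114) (nat_lit 132) (nat_lit 144)) (PT.lf (nat_lit 13984) (nat_lit 6) (nat_lit 184) (nat_lit 5) (nat_lit 115) (nat_lit 132) (nat_lit 143)))) (PT.nd (nat_lit 78) (PT.lf (nat_lit 15124) (nat_lit 6) (nat_lit 199) (nat_lit 5) (nat_lit 116) (nat_lit 132) (nat_lit 142)) (PT.nd (nat_lit 78) (PT.lf (nat_lit 16188) (nat_lit 6) (nat_lit 213) (nat_lit 5) (nat_lit 117) (nat_lit 132) (nat_lit 141)) (PT.lf (nat_lit 17176) (nat_lit 6) (nat_lit 226) (nat_lit 5) (nat_lit 118) (nat_lit 132) (nat_lit 140))))) (PT.nd (nat_lit 234) (PT.nd (nat_lit 78) (PT.lf (nat_lit 18088) (nat_lit 6) (nat_lit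 238) (nat_lit 5) (nat_lit 119) (nat_lit 132) (nat_lit 139)) (PT.nd (nat_lit 78) (PT.lf (nat_lit 18924) (nat_lit 6) (nat_lit 249) (nat_lit 5) (nat_lit 120) (nat_lit 132) (nat_lit 138)) (PT.lf (nat_lit 19684) (nat_lit 6) (nat_lit 259) (nat_lit 5) (nat_lit 121) (nat_lit 132) (nat_lit 137)))) (PT.nd (nat_lit 78) (PT.lf (nat_lit 20368) (nat_lit 6) (nat_lit 268) (nat_lit 5) (nat_lit 122) (nat_lit 132) (nat_lit 136)) (PT.nd (nat_lit 78) (PT.lf (nat_lit 20976) (nat_lit 6) (nat_lit 276) (nat_lit 5) (nat_lit 123) (nat_lit 132) (nat_lit 135)) (PT.lf (nat_lit 21508) (nat_lit 6) (nat_lit 283) (nat_lit 5) (nat_lit 124) (nat_lit 132) (nat_lit 134)))))) (PT.nd (nat_lit 468) (PT.nd (nat_lit 234) (PT.nd (nat_lit 78) (PT.lf (nat_lit 21964) (nat_lit 6) (nat_lit 289) (nat_lit 5) (nat_lit 125) (nat_lit 132) (nat_lit 133)) (PT.nd (nat_lit 78) (PT.lf (nat_lit 22344) (nat_lit 3) (nat_lit 294) (nat_lit 4) (nat_lit 126)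 (nat_lit 132) (nat_lit 132)) (PT.lf (nat_lit 22572) (nat_lit 6) (nat_lit 297) (nat_lit 4) (nat_lit 127) (nat_lit 132) (nat_lit 131)))) (PT.nd (nat_lit 78) (PT.lf (nat_lit 22724) (nat_lit 6) (nat_lit 299) (nat_lit 4) (nat_lit 128) (nat_lit 132) (nat_lit 130)) (PT.nd (nat_lit 78) (PT.lf (nat_lit 22648) (nat_lit 3) (nat_lit 298) (nat_lit 2) (nat_lit 129) (nat_lit 132) (nat_lit 129)) (PT.lf (nat_lit 22724) (nat_lit 6) (nat_lit 299) (nat_lit 2) (nat_lit 130) (nat_lit 132) (nat_lit 128))))) (PT.nd (nat_lit 234) (PT.nd (nat_lit 78) (PT.lf (nat_lit 22572) (nat_lit 6) (nat_lit 297) (nat_lit 2) (nat_lit 131) (nat_lit 132) (nat_lit 127)) (PT.nd (nat_lit 78) (PT.lf (nat_lit 22344) (nat_lit 3) (nat_lit 294) (nat_lit 0) (nat_lit 132) (nat_lit 132) (nat_lit 126)) (PT.lf (nat_lit 21964) (nat_lit 6) (nat_lit 289) (nat_lit 0) (nat_lit 133) (nat_lit 132) (nat_lit 125)))) (PT.nd (nat_lit 156) (PT.nd (nat_lit 78)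 (PT.lf (nat_lit 21508) (nat_lit 6) (nat_lit 283) (nat_lit 0) (nat_lit 134) (nat_lit 132) (nat_lit 124)) (PT.lf (nat_lit 20976) (nat_lit 6) (nat_lit 276) (nat_lit 0) (nat_lit 135) (nat_lit 132) (nat_lit 123))) (PT.nd (nat_lit 78) (PT.lf (nat_lit 20368) (nat_lit 6) (nat_lit 268) (nat_lit 0) (nat_lit 136) (nat_lit 132) (nat_lit 122)) (PT.lf (nat_lit 19684) (nat_lit 6) (nat_lit 259) (nat_lit 0) (nat_lit 137) (nat_lit 132) (nat_lit 121))))))) (PT.nd (nat_lit 38844) (PT.nd (nat_lit 468) (PT.nd (nat_lit 234) (PT.nd (nat_lit 78) (PT.lf (nat_lit 18924) (nat_lit 6) (nat_lit 249) (nat_lit 0) (nat_lit 138) (nat_lit 132) (nat_lit 120)) (PT.nd (nat_lit 78) (PT.lf (nat_lit 18088) (nat_lit 6) (nat_lit 238) (nat_lit 0) (nat_lit 139) (nat_lit 132) (nat_lit 119)) (PT.lf (nat_lit 17176) (nat_lit 6) (nat_lit 226) (nat_lit 0) (nat_lit 140) (nat_lit 132) (nat_lit 118)))) (PT.nd (nat_lit 78) (PT.lf (nat_lit 16188) (nat_lit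 6) (nat_lit 213) (nat_lit 0) (nat_lit 141) (nat_lit 132) (nat_lit 117)) (PT.nd (nat_lit 78) (PT.lf (nat_lit 15124) (nat_lit 6) (nat_lit 199) (nat_lit 0) (nat_lit 142) (nat_lit 132) (nat_lit 116)) (PT.lf (nat_lit 13984) (nat_lit 6) (nat_lit 184) (nat_lit 0) (nat_lit 143) (nat_lit 132) (nat_lit 115))))) (PT.nd (nat_lit 38064) (PT.nd (nat_lit 78) (PT.lf (nat_lit 12768) (nat_lit 6) (nat_lit 168) (nat_lit 0) (nat_lit 144) (nat_lit 132) (nat_lit 114)) (PT.nd (nat_lit 78) (PT.lf (nat_lit 12160) (nat_lit 6) (nat_lit 160) (nat_lit 0) (nat_lit 145) (nat_lit 132) (nat_lit 113)) (PT.lf (nat_lit 11476) (nat_lit 6) (nat_lit 151) (nat_lit 0) (nat_lit 146) (nat_lit 132) (nat_lit 112)))) (PT.nd (nat_lit 156) (PT.nd (nat_lit 78) (PT.lf (nat_lit 10944) (nat_lit 6) (nat_lit 144) (nat_lit 5) (nat_lit 111) (nat_lit 133) (nat_lit 146)) (PT.lf (nat_lit 11552) (nat_lit 6) (nat_lit 152) (nat_lit 5) (nat_lit 112) (nat_lit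 133) (nat_lit 145))) (PT.nd (nat_lit 78) (PT.lf (nat_lit 12236) (nat_lit 6) (nat_lit 161) (nat_lit 5) (nat_lit 113) (nat_lit 133) (nat_lit 144)) (PT.lf (nat_lit 12844) (nat_lit 6) (nat_lit 169) (nat_lit 5) (nat_lit 114) (nat_lit 133) (nat_lit 143)))))) (PT.nd (nat_lit 468) (PT.nd (nat_lit 234) (PT.nd (nat_lit 78) (PT.lf (nat_lit 14060) (nat_lit 6) (nat_lit 185) (nat_lit 5) (nat_lit 115) (nat_lit 133) (nat_lit 142)) (PT.nd (nat_lit 78) (PT.lf (nat_lit 15200) (nat_lit 6) (nat_lit 200) (nat_lit 5) (nat_lit 116) (nat_lit 133) (nat_lit 141)) (PT.lf (nat_lit 16264) (nat_lit 6) (nat_lit 214) (nat_lit 5) (nat_lit 117) (nat_lit 133) (nat_lit 140)))) (PT.nd (nat_lit 78) (PT.lf (nat_lit 17252) (nat_lit 6) (nat_lit 227) (nat_lit 5) (nat_lit 118) (nat_lit 133) (nat_lit 139)) (PT.nd (nat_lit 78) (PT.lf (nat_lit 18164) (nat_lit 6) (nat_lit 239) (nat_lit 5) (nat_lit 119) (nat_lit 133) (nat_lit 138)) (PT.lf (nat_lit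 19000) (nat_lit 6) (nat_lit 250) (nat_lit 5) (nat_lit 120) (nat_lit 133) (nat_lit 137))))) (PT.nd (nat_lit 234) (PT.nd (nat_lit 78) (PT.lf (nat_lit 19760) (nat_lit 6) (nat_lit 260) (nat_lit 5) (nat_lit 121) (nat_lit 133) (nat_lit 136)) (PT.nd (nat_lit 78) (PT.lf (nat_lit 20444) (nat_lit 6) (nat_lit 269) (nat_lit 5) (nat_lit 122) (nat_lit 133) (nat_lit 135)) (PT.lf (nat_lit 21052) (nat_lit 6) (nat_lit 277) (nat_lit 5) (nat_lit 123) (nat_lit 133) (nat_lit 134)))) (PT.nd (nat_lit 156) (PT.nd (nat_lit 78) (PT.lf (nat_lit 21584) (nat_lit 3) (nat_lit 284) (nat_lit 4) (nat_lit 124) (nat_lit 133) (nat_lit 133)) (PT.lf (nat_lit 21964) (nat_lit 6) (nat_lit 289) (nat_lit 4) (nat_lit 125) (nat_lit 133) (nat_lit 132))) (PT.nd (nat_lit 78) (PT.lf (nat_lit 22268) (nat_lit 6) (nat_lit 293) (nat_lit 4) (nat_lit 126) (nat_lit 133) (nat_lit 131)) (PT.lf (nat_lit 22496) (nat_lit 6) (nat_lit 296) (nat_lit 4) (nat_lit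 127) (nat_lit 133) (nat_lit 130))))))))
noncomputable def pc15 : PT := (PT.nd (nat_lit 39780) (PT.nd (nat_lit 1014) (PT.nd (nat_lit 468) (PT.nd (nat_lit 234) (PT.nd (nat_lit 78) (PT.lf (nat_lit 22420) (nat_lit 6) (nat_lit 295) (nat_lit 4) (nat_lit 128) (nat_lit 133) (nat_lit 129)) (PT.nd (nat_lit 78) (PT.lf (nat_lit 22420) (nat_lit 6) (nat_lit 295) (nat_lit 2) (nat_lit 129) (nat_lit 133) (nat_lit 128)) (PT.lf (nat_lit 22496) (nat_lit 6) (nat_lit 296) (nat_lit 2) (nat_lit 130) (nat_lit 133) (nat_lit 127)))) (PT.nd (nat_lit 78) (PT.lf (nat_lit 22268) (nat_lit 6) (nat_lit 293) (nat_lit 2) (nat_lit 131) (nat_lit 133) (nat_lit 126)) (PT.nd (nat_lit 78) (PT.lf (nat_lit 21964) (nat_lit 6) (nat_lit 289) (nat_lit 2) (nat_lit 132) (nat_lit 133) (nat_lit 125)) (PT.lf (nat_lit 21584) (nat_lit 3) (nat_lit 284) (nat_lit 0) (nat_lit 133) (nat_lit 133) (nat_lit 124))))) (PT.nd (nat_lit 234) (PT.nd (nat_lit 78)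 (PT.lf (nat_lit 21052) (nat_lit 6) (nat_lit 277) (nat_lit 0) (nat_lit 134) (nat_lit 133) (nat_lit 123)) (PT.nd (nat_lit 78) (PT.lf (nat_lit 20444) (nat_lit 6) (nat_lit 269) (nat_lit 0) (nat_lit 135) (nat_lit 133) (nat_lit 122)) (PT.lf (nat_lit 19760) (nat_lit 6) (nat_lit 260) (nat_lit 0) (nat_lit 136) (nat_lit 133) (nat_lit 121)))) (PT.nd (nat_lit 156) (PT.nd (nat_lit 78) (PT.lf (nat_lit 19000) (nat_lit 6) (nat_lit 250) (nat_lit 0) (nat_lit 137) (nat_lit 133) (nat_lit 120)) (PT.lf (nat_lit 18164) (nat_lit 6) (nat_lit 239) (nat_lit 0) (nat_lit 138) (nat_lit 133) (nat_lit 119))) (PT.nd (nat_lit 78) (PT.lf (nat_lit 17252) (nat_lit 6) (nat_lit 227) (nat_lit 0) (nat_lit 139) (nat_lit 133) (nat_lit 118)) (PT.lf (nat_lit 16264) (nat_lit 6) (nat_lit 214) (nat_lit 0) (nat_lit 140) (nat_lit 133) (nat_lit 117)))))) (PT.nd (nat_lit 38220) (PT.nd (nat_lit 234) (PT.nd (nat_lit 78) (PT.lf (nat_lit 15200) (nat_lit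 6) (nat_lit 200) (nat_lit 0) (nat_lit 141) (nat_lit 133) (nat_lit 116)) (PT.nd (nat_lit 78) (PT.lf (nat_lit 14060) (nat_lit 6) (nat_lit 185) (nat_lit 0) (nat_lit 142) (nat_lit 133) (nat_lit 115)) (PT.lf (nat_lit 12844) (nat_lit 6) (nat_lit 169) (nat_lit 0) (nat_lit 143) (nat_lit 133) (nat_lit 114)))) (PT.nd (nat_lit 78) (PT.lf (nat_lit 12236) (nat_lit 6) (nat_lit 161) (nat_lit 0) (nat_lit 144) (nat_lit 133) (nat_lit 113)) (PT.nd (nat_lit 78) (PT.lf (nat_lit 11552) (nat_lit 6) (nat_lit 152) (nat_lit 0) (nat_lit 145) (nat_lit 133) (nat_lit 112)) (PT.lf (nat_lit 10944) (nat_lit 6) (nat_lit 144) (nat_lit 0) (nat_lit 146) (nat_lit 133) (nat_lit 111))))) (PT.nd (nat_lit 234) (PT.nd (nat_lit 78) (PT.lf (nat_lit 10412) (nat_lit 6) (nat_lit 137) (nat_lit 5) (nat_lit 110) (nat_lit 134) (nat_lit 146)) (PT.nd (nat_lit 78) (PT.lf (nat_lit 11020) (nat_lit 6) (nat_lit 145) (nat_lit 5) (nat_lit 111) (nat_lit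 134) (nat_lit 145)) (PT.lf (nat_lit 11628) (nat_lit 6) (nat_lit 153) (nat_lit 5) (nat_lit 112) (nat_lit 134) (nat_lit 144)))) (PT.nd (nat_lit 156) (PT.nd (nat_lit 78) (PT.lf (nat_lit 12312) (nat_lit 6) (nat_lit 162) (nat_lit 5) (nat_lit 113) (nat_lit 134) (nat_lit 143)) (PT.lf (nat_lit 12920) (nat_lit 6) (nat_lit 170) (nat_lit 5) (nat_lit 114) (nat_lit 134) (nat_lit 142))) (PT.nd (nat_lit 78) (PT.lf (nat_lit 14136) (nat_lit 6) (nat_lit 186) (nat_lit 5) (nat_lit 115) (nat_lit 134) (nat_lit 141)) (PT.lf (nat_lit 15276) (nat_lit 6) (nat_lit 201) (nat_lit 5) (nat_lit 116) (nat_lit 134) (nat_lit 140))))))) (PT.nd (nat_lit 1014) (PT.nd (nat_lit 468) (PT.nd (nat_lit 234) (PT.nd (nat_lit 78) (PT.lf (nat_lit 16340) (nat_lit 6) (nat_lit 215) (nat_lit 5) (nat_lit 117) (nat_lit 134) (nat_lit 139)) (PT.nd (nat_lit 78) (PT.lf (nat_lit 17328) (nat_lit 6) (nat_lit 228) (nat_lit 5) (nat_lit 118) (nat_lit 134)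 (nat_lit 138)) (PT.lf (nat_lit 18240) (nat_lit 6) (nat_lit 240) (nat_lit 5) (nat_lit 119) (nat_lit 134) (nat_lit 137)))) (PT.nd (nat_lit 78) (PT.lf (nat_lit 19076) (nat_lit 6) (nat_lit 251) (nat_lit 5) (nat_lit 120) (nat_lit 134) (nat_lit 136)) (PT.nd (nat_lit 78) (PT.lf (nat_lit 19836) (nat_lit 6) (nat_lit 261) (nat_lit 5) (nat_lit 121) (nat_lit 134) (nat_lit 135)) (PT.lf (nat_lit 20520) (nat_lit 3) (nat_lit 270) (nat_lit 4) (nat_lit 122) (nat_lit 134) (nat_lit 134))))) (PT.nd (nat_lit 234) (PT.nd (nat_lit 78) (PT.lf (nat_lit 21052) (nat_lit 6) (nat_lit 277) (nat_lit 4) (nat_lit 123) (nat_lit 134) (nat_lit 133)) (PT.nd (nat_lit 78) (PT.lf (nat_lit 21508) (nat_lit 6) (nat_lit 283) (nat_lit 4) (nat_lit 124) (nat_lit 134) (nat_lit 132)) (PT.lf (nat_lit 21888) (nat_lit 6) (nat_lit 288) (nat_lit 4) (nat_lit 125) (nat_lit 134) (nat_lit 131)))) (PT.nd (nat_lit 156) (PT.nd (nat_lit 78) (PT.lf (nat_lit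 22192) (nat_lit 6) (nat_lit 292) (nat_lit 4) (nat_lit 126) (nat_lit 134) (nat_lit 130)) (PT.lf (nat_lit 22116) (nat_lit 6) (nat_lit 291) (nat_lit 4) (nat_lit 127) (nat_lit 134) (nat_lit 129))) (PT.nd (nat_lit 78) (PT.lf (nat_lit 22040) (nat_lit 3) (nat_lit 290) (nat_lit 2) (nat_lit 128) (nat_lit 134) (nat_lit 128)) (PT.lf (nat_lit 22116) (nat_lit 6) (nat_lit 291) (nat_lit 2) (nat_lit 129) (nat_lit 134) (nat_lit 127)))))) (PT.nd (nat_lit 468) (PT.nd (nat_lit 234) (PT.nd (nat_lit 78) (PT.lf (nat_lit 22192) (nat_lit 6) (nat_lit 292) (nat_lit 2) (nat_lit 130) (nat_lit 134) (nat_lit 126)) (PT.nd (nat_lit 78) (PT.lf (nat_lit 21888) (nat_lit 6) (nat_lit 288) (nat_lit 2) (nat_lit 131) (nat_lit 134) (nat_lit 125)) (PT.lf (nat_lit 21508) (nat_lit 6) (nat_lit 283) (nat_lit 2) (nat_lit 132) (nat_lit 134) (nat_lit 124)))) (PT.nd (nat_lit 78) (PT.lf (nat_lit 21052) (nat_lit 6) (nat_lit 277) (nat_lit 2) (nat_lit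 133) (nat_lit 134) (nat_lit 123)) (PT.nd (nat_lit 78) (PT.lf (nat_lit 20520) (nat_lit 3) (nat_lit 270) (nat_lit 0) (nat_lit 134) (nat_lit 134) (nat_lit 122)) (PT.lf (nat_lit 19836) (nat_lit 6) (nat_lit 261) (nat_lit 0) (nat_lit 135) (nat_lit 134) (nat_lit 121))))) (PT.nd (nat_lit 234) (PT.nd (nat_lit 78) (PT.lf (nat_lit 19076) (nat_lit 6) (nat_lit 251) (nat_lit 0) (nat_lit 136) (nat_lit 134) (nat_lit 120)) (PT.nd (nat_lit 78) (PT.lf (nat_lit 18240) (nat_lit 6) (nat_lit 240) (nat_lit 0) (nat_lit 137) (nat_lit 134) (nat_lit 119)) (PT.lf (nat_lit 17328) (nat_lit 6) (nat_lit 228) (nat_lit 0) (nat_lit 138) (nat_lit 134) (nat_lit 118)))) (PT.nd (nat_lit 156) (PT.nd (nat_lit 78) (PT.lf (nat_lit 16340) (nat_lit 6) (nat_lit 215) (nat_lit 0) (nat_lit 139) (nat_lit 134) (nat_lit 117)) (PT.lf (nat_lit 15276) (nat_lit 6) (nat_lit 201) (nat_lit 0) (nat_lit 140) (nat_lit 134) (nat_lit 116))) (PT.nd (nat_lit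 78) (PT.lf (nat_lit 14136) (nat_lit 6) (nat_lit 186) (nat_lit 0) (nat_lit 141) (nat_lit 134) (nat_lit 115)) (PT.lf (nat_lit 12920) (nat_lit 6) (nat_lit 170) (nat_lit 0) (nat_lit 142) (nat_lit 134) (nat_lit 114))))))))
noncomputable def pc16 : PT := (PT.nd (nat_lit 39546) (PT.nd (nat_lit 38532) (PT.nd (nat_lit 38064) (PT.nd (nat_lit 234) (PT.nd (nat_lit 78) (PT.lf (nat_lit 12312) (nat_lit 6) (nat_lit 162) (nat_lit 0) (nat_lit 143) (nat_lit 134) (nat_lit 113)) (PT.nd (nat_lit 78) (PT.lf (nat_lit 11628) (nat_lit 6) (nat_lit 153) (nat_lit 0) (nat_lit 144) (nat_lit 134) (nat_lit 112)) (PT.lf (nat_lit 11020) (nat_lit 6) (nat_lit 145) (nat_lit 0) (nat_lit 145) (nat_lit 134) (nat_lit 111)))) (PT.nd (nat_lit 37674) (PT.lf (nat_lit 10412) (nat_lit 6) (nat_lit 137) (nat_lit 0) (nat_lit 146) (nat_lit 134) (nat_lit 110)) (PT.nd (nat_lit 78) (PT.lf (nat_lit 9424) (nat_lit 6) (nat_lit 124) (nat_lit 5) (nat_lit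 108) (nat_lit 135) (nat_lit 147)) (PT.lf (nat_lit 9956) (nat_lit 6) (nat_lit 131) (nat_lit 5) (nat_lit 109) (nat_lit 135) (nat_lit 146))))) (PT.nd (nat_lit 234) (PT.nd (nat_lit 78) (PT.lf (nat_lit 10488) (nat_lit 6) (nat_lit 138) (nat_lit 5) (nat_lit 110) (nat_lit 135) (nat_lit 145)) (PT.nd (nat_lit 78) (PT.lf (nat_lit 11096) (nat_lit 6) (nat_lit 146) (nat_lit 5) (nat_lit 111) (nat_lit 135) (nat_lit 144)) (PT.lf (nat_lit 11704) (nat_lit 6) (nat_lit 154) (nat_lit 5) (nat_lit 112) (nat_lit 135) (nat_lit 143)))) (PT.nd (nat_lit 78) (PT.lf (nat_lit 12388) (nat_lit 6) (nat_lit 163) (nat_lit 5) (nat_lit 113) (nat_lit 135) (nat_lit 142)) (PT.nd (nat_lit 78) (PT.lf (nat_lit 12996) (nat_lit 6) (nat_lit 171) (nat_lit 5) (nat_lit 114) (nat_lit 135) (nat_lit 141)) (PT.lf (nat_lit 14212) (nat_lit 6) (nat_lit 187) (nat_lit 5) (nat_lit 115) (nat_lit 135) (nat_lit 140)))))) (PT.nd (nat_lit 468) (PT.nd (nat_lit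 234) (PT.nd (nat_lit 78) (PT.lf (nat_lit 15352) (nat_lit 6) (nat_lit 202) (nat_lit 5) (nat_lit 116) (nat_lit 135) (nat_lit 139)) (PT.nd (nat_lit 78) (PT.lf (nat_lit 16416) (nat_lit 6) (nat_lit 216) (nat_lit 5) (nat_lit 117) (nat_lit 135) (nat_lit 138)) (PT.lf (nat_lit 17404) (nat_lit 6) (nat_lit 229) (nat_lit 5) (nat_lit 118) (nat_lit 135) (nat_lit 137)))) (PT.nd (nat_lit 78) (PT.lf (nat_lit 18316) (nat_lit 6) (nat_lit 241) (nat_lit 5) (nat_lit 119) (nat_lit 135) (nat_lit 136)) (PT.nd (nat_lit 78) (PT.lf (nat_lit 19152) (nat_lit 3) (nat_lit 252) (nat_lit 4) (nat_lit 120) (nat_lit 135) (nat_lit 135)) (PT.lf (nat_lit 19836) (nat_lit 6) (nat_lit 261) (nat_lit 4) (nat_lit 121) (nat_lit 135) (nat_lit 134))))) (PT.nd (nat_lit 234) (PT.nd (nat_lit 78) (PT.lf (nat_lit 20444) (nat_lit 6) (nat_lit 269) (nat_lit 4) (nat_lit 122) (nat_lit 135) (nat_lit 133)) (PT.nd (nat_lit 78) (PT.lf (nat_lit 20976) (nat_lit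 6) (nat_lit 276) (nat_lit 4) (nat_lit 123) (nat_lit 135) (nat_lit 132)) (PT.lf (nat_lit 21432) (nat_lit 6) (nat_lit 282) (nat_lit 4) (nat_lit 124) (nat_lit 135) (nat_lit 131)))) (PT.nd (nat_lit 156) (PT.nd (nat_lit 78) (PT.lf (nat_lit 21812) (nat_lit 6) (nat_lit 287) (nat_lit 4) (nat_lit 125) (nat_lit 135) (nat_lit 130)) (PT.lf (nat_lit 21736) (nat_lit 6) (nat_lit 286) (nat_lit 4) (nat_lit 126) (nat_lit 135) (nat_lit 129))) (PT.nd (nat_lit 78) (PT.lf (nat_lit 21660) (nat_lit 6) (nat_lit 285) (nat_lit 4) (nat_lit 127) (nat_lit 135) (nat_lit 128)) (PT.lf (nat_lit 21660) (nat_lit 6) (nat_lit 285) (nat_lit 2) (nat_lit 128) (nat_lit 135) (nat_lit 127))))))) (PT.nd (nat_lit 1014) (PT.nd (nat_lit 468) (PT.nd (nat_lit 234) (PT.nd (nat_lit 78) (PT.lf (nat_lit 21736) (nat_lit 6) (nat_lit 286) (nat_lit 2) (nat_lit 129) (nat_lit 135) (nat_lit 126)) (PT.nd (nat_lit 78) (PT.lf (nat_lit 21812) (nat_lit 6) (nat_lit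 287) (nat_lit 2) (nat_lit 130) (nat_lit 135) (nat_lit 125)) (PT.lf (nat_lit 21432) (nat_lit 6) (nat_lit 282) (nat_lit 2) (nat_lit 131) (nat_lit 135) (nat_lit 124)))) (PT.nd (nat_lit 78) (PT.lf (nat_lit 20976) (nat_lit 6) (nat_lit 276) (nat_lit 2) (nat_lit 132) (nat_lit 135) (nat_lit 123)) (PT.nd (nat_lit 78) (PT.lf (nat_lit 20444) (nat_lit 6) (nat_lit 269) (nat_lit 2) (nat_lit 133) (nat_lit 135) (nat_lit 122)) (PT.lf (nat_lit 19836) (nat_lit 6) (nat_lit 261) (nat_lit 2) (nat_lit 134) (nat_lit 135) (nat_lit 121))))) (PT.nd (nat_lit 234) (PT.nd (nat_lit 78) (PT.lf (nat_lit 19152) (nat_lit 3) (nat_lit 252) (nat_lit 0) (nat_lit 135) (nat_lit 135) (nat_lit 120)) (PT.nd (nat_lit 78) (PT.lf (nat_lit 18316) (nat_lit 6) (nat_lit 241) (nat_lit 0) (nat_lit 136) (nat_lit 135) (nat_lit 119)) (PT.lf (nat_lit 17404) (nat_lit 6) (nat_lit 229) (nat_lit 0) (nat_lit 137) (nat_lit 135) (nat_lit 118)))) (PT.nd (nat_lit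 156) (PT.nd (nat_lit 78) (PT.lf (nat_lit 16416) (nat_lit 6) (nat_lit 216) (nat_lit 0) (nat_lit 138) (nat_lit 135) (nat_lit 117)) (PT.lf (nat_lit 15352) (nat_lit 6) (nat_lit 202) (nat_lit 0) (nat_lit 139) (nat_lit 135) (nat_lit 116))) (PT.nd (nat_lit 78) (PT.lf (nat_lit 14212) (nat_lit 6) (nat_lit 187) (nat_lit 0) (nat_lit 140) (nat_lit 135) (nat_lit 115)) (PT.lf (nat_lit 12996) (nat_lit 6) (nat_lit 171) (nat_lit 0) (nat_lit 141) (nat_lit 135) (nat_lit 114)))))) (PT.nd (nat_lit 37908) (PT.nd (nat_lit 234) (PT.nd (nat_lit 78) (PT.lf (nat_lit 12388) (nat_lit 6) (nat_lit 163) (nat_lit 0) (nat_lit 142) (nat_lit 135) (nat_lit 113)) (PT.nd (nat_lit 78) (PT.lf (nat_lit 11704) (nat_lit 6) (nat_lit 154) (nat_lit 0) (nat_lit 143) (nat_lit 135) (nat_lit 112)) (PT.lf (nat_lit 11096) (nat_lit 6) (nat_lit 146) (nat_lit 0) (nat_lit 144) (nat_lit 135) (nat_lit 111)))) (PT.nd (nat_lit 78) (PT.lf (nat_lit 10488)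 (nat_lit 6) (nat_lit 138) (nat_lit 0) (nat_lit 145) (nat_lit 135) (nat_lit 110)) (PT.nd (nat_lit 78) (PT.lf (nat_lit 9956) (nat_lit 6) (nat_lit 131) (nat_lit 0) (nat_lit 146) (nat_lit 135) (nat_lit 109)) (PT.lf (nat_lit 9424) (nat_lit 6) (nat_lit 124) (nat_lit 0) (nat_lit 147) (nat_lit 135) (nat_lit 108))))) (PT.nd (nat_lit 234) (PT.nd (nat_lit 78) (PT.lf (nat_lit 8968) (nat_lit 6) (nat_lit 118) (nat_lit 5) (nat_lit 107) (nat_lit 136) (nat_lit 147)) (PT.nd (nat_lit 78) (PT.lf (nat_lit 9500) (nat_lit 6) (nat_lit 125) (nat_lit 5) (nat_lit 108) (nat_lit 136) (nat_lit 146)) (PT.lf (nat_lit 10032) (nat_lit 6) (nat_lit 132) (nat_lit 5) (nat_lit 109) (nat_lit 136) (nat_lit 145)))) (PT.nd (nat_lit 156) (PT.nd (nat_lit 78) (PT.lf (nat_lit 10564) (nat_lit 6) (nat_lit 139) (nat_lit 5) (nat_lit 110) (nat_lit 136) (nat_lit 144)) (PT.lf (nat_lit 11172) (nat_lit 6) (nat_lit 147) (nat_lit 5) (nat_lit 111) (nat_lit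 136) (nat_lit 143))) (PT.nd (nat_lit 78) (PT.lf (nat_lit 11780) (nat_lit 6) (nat_lit 155) (nat_lit 5) (nat_lit 112) (nat_lit 136) (nat_lit 142)) (PT.lf (nat_lit 12464) (nat_lit 6) (nat_lit 164) (nat_lit 5) (nat_lit 113) (nat_lit 136) (nat_lit 141))))))))
noncomputable def pc17 : PT := (PT.nd (nat_lit 1950) (PT.nd (nat_lit 936) (PT.nd (nat_lit 468) (PT.nd (nat_lit 234) (PT.nd (nat_lit 78) (PT.lf (nat_lit 13072) (nat_lit 6) (nat_lit 172) (nat_lit 5) (nat_lit 114) (nat_lit 136) (nat_lit 140)) (PT.nd (nat_lit 78) (PT.lf (nat_lit 14288) (nat_lit 6) (nat_lit 188) (nat_lit 5) (nat_lit 115) (nat_lit 136) (nat_lit 139)) (PT.lf (nat_lit 15428) (nat_lit 6) (nat_lit 203) (nat_lit 5) (nat_lit 116) (nat_lit 136) (nat_lit 138)))) (PT.nd (nat_lit 78) (PT.lf (nat_lit 16492) (nat_lit 6) (nat_lit 217) (nat_lit 5) (nat_lit 117) (nat_lit 136) (nat_lit 137)) (PT.nd (nat_lit 78) (PT.lf (nat_lit 17480) (nat_lit 3) (nat_lit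 230) (nat_lit 4) (nat_lit 118) (nat_lit 136) (nat_lit 136)) (PT.lf (nat_lit 18316) (nat_lit 6) (nat_lit 241) (nat_lit 4) (nat_lit 119) (nat_lit 136) (nat_lit 135))))) (PT.nd (nat_lit 234) (PT.nd (nat_lit 78) (PT.lf (nat_lit 19076) (nat_lit 6) (nat_lit 251) (nat_lit 4) (nat_lit 120) (nat_lit 136) (nat_lit 134)) (PT.nd (nat_lit 78) (PT.lf (nat_lit 19760) (nat_lit 6) (nat_lit 260) (nat_lit 4) (nat_lit 121) (nat_lit 136) (nat_lit 133)) (PT.lf (nat_lit 20368) (nat_lit 6) (nat_lit 268) (nat_lit 4) (nat_lit 122) (nat_lit 136) (nat_lit 132)))) (PT.nd (nat_lit 78) (PT.lf (nat_lit 20900) (nat_lit 6) (nat_lit 275) (nat_lit 4) (nat_lit 123) (nat_lit 136) (nat_lit 131)) (PT.nd (nat_lit 78) (PT.lf (nat_lit 21356) (nat_lit 6) (nat_lit 281) (nat_lit 4) (nat_lit 124) (nat_lit 136) (nat_lit 130)) (PT.lf (nat_lit 21280) (nat_lit 6) (nat_lit 280) (nat_lit 4) (nat_lit 125) (nat_lit 136) (nat_lit 129)))))) (PT.nd (nat_lit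 468) (PT.nd (nat_lit 234) (PT.nd (nat_lit 78) (PT.lf (nat_lit 21204) (nat_lit 6) (nat_lit 279) (nat_lit 4) (nat_lit 126) (nat_lit 136) (nat_lit 128)) (PT.nd (nat_lit 78) (PT.lf (nat_lit 21128) (nat_lit 3) (nat_lit 278) (nat_lit 2) (nat_lit 127) (nat_lit 136) (nat_lit 127)) (PT.lf (nat_lit 21204) (nat_lit 6) (nat_lit 279) (nat_lit 2) (nat_lit 128) (nat_lit 136) (nat_lit 126)))) (PT.nd (nat_lit 78) (PT.lf (nat_lit 21280) (nat_lit 6) (nat_lit 280) (nat_lit 2) (nat_lit 129) (nat_lit 136) (nat_lit 125)) (PT.nd (nat_lit 78) (PT.lf (nat_lit 21356) (nat_lit 6) (nat_lit 281) (nat_lit 2) (nat_lit 130) (nat_lit 136) (nat_lit 124)) (PT.lf (nat_lit 20900) (nat_lit 6) (nat_lit 275) (nat_lit 2) (nat_lit 131) (nat_lit 136) (nat_lit 123))))) (PT.nd (nat_lit 234) (PT.nd (nat_lit 78) (PT.lf (nat_lit 20368) (nat_lit 6) (nat_lit 268) (nat_lit 2) (nat_lit 132) (nat_lit 136) (nat_lit 122)) (PT.nd (nat_lit 78) (PT.lf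 (nat_lit 19760) (nat_lit 6) (nat_lit 260) (nat_lit 2) (nat_lit 133) (nat_lit 136) (nat_lit 121)) (PT.lf (nat_lit 19076) (nat_lit 6) (nat_lit 251) (nat_lit 2) (nat_lit 134) (nat_lit 136) (nat_lit 120)))) (PT.nd (nat_lit 156) (PT.nd (nat_lit 78) (PT.lf (nat_lit 18316) (nat_lit 6) (nat_lit 241) (nat_lit 2) (nat_lit 135) (nat_lit 136) (nat_lit 119)) (PT.lf (nat_lit 17480) (nat_lit 3) (nat_lit 230) (nat_lit 0) (nat_lit 136) (nat_lit 136) (nat_lit 118))) (PT.nd (nat_lit 78) (PT.lf (nat_lit 16492) (nat_lit 6) (nat_lit 217) (nat_lit 0) (nat_lit 137) (nat_lit 136) (nat_lit 117)) (PT.lf (nat_lit 15428) (nat_lit 6) (nat_lit 203) (nat_lit 0) (nat_lit 138) (nat_lit 136) (nat_lit 116))))))) (PT.nd (nat_lit 38376) (PT.nd (nat_lit 468) (PT.nd (nat_lit 234) (PT.nd (nat_lit 78) (PT.lf (nat_lit 14288) (nat_lit 6) (nat_lit 188) (nat_lit 0) (nat_lit 139) (nat_lit 136) (nat_lit 115)) (PT.nd (nat_lit 78) (PT.lf (nat_lit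 13072) (nat_lit 6) (nat_lit 172) (nat_lit 0) (nat_lit 140) (nat_lit 136) (nat_lit 114)) (PT.lf (nat_lit 12464) (nat_lit 6) (nat_lit 164) (nat_lit 0) (nat_lit 141) (nat_lit 136) (nat_lit 113)))) (PT.nd (nat_lit 78) (PT.lf (nat_lit 11780) (nat_lit 6) (nat_lit 155) (nat_lit 0) (nat_lit 142) (nat_lit 136) (nat_lit 112)) (PT.nd (nat_lit 78) (PT.lf (nat_lit 11172) (nat_lit 6) (nat_lit 147) (nat_lit 0) (nat_lit 143) (nat_lit 136) (nat_lit 111)) (PT.lf (nat_lit 10564) (nat_lit 6) (nat_lit 139) (nat_lit 0) (nat_lit 144) (nat_lit 136) (nat_lit 110))))) (PT.nd (nat_lit 37596) (PT.nd (nat_lit 78) (PT.lf (nat_lit 10032) (nat_lit 6) (nat_lit 132) (nat_lit 0) (nat_lit 145) (nat_lit 136) (nat_lit 109)) (PT.nd (nat_lit 78) (PT.lf (nat_lit 9500) (nat_lit 6) (nat_lit 125) (nat_lit 0) (nat_lit 146) (nat_lit 136) (nat_lit 108)) (PT.lf (nat_lit 8968) (nat_lit 6) (nat_lit 118) (nat_lit 0) (nat_lit 147) (nat_lit 136)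 (nat_lit 107)))) (PT.nd (nat_lit 156) (PT.nd (nat_lit 78) (PT.lf (nat_lit 8512) (nat_lit 6) (nat_lit 112) (nat_lit 5) (nat_lit 106) (nat_lit 137) (nat_lit 147)) (PT.lf (nat_lit 9044) (nat_lit 6) (nat_lit 119) (nat_lit 5) (nat_lit 107) (nat_lit 137) (nat_lit 146))) (PT.nd (nat_lit 78) (PT.lf (nat_lit 9576) (nat_lit 6) (nat_lit 126) (nat_lit 5) (nat_lit 108) (nat_lit 137) (nat_lit 145)) (PT.lf (nat_lit 10108) (nat_lit 6) (nat_lit 133) (nat_lit 5) (nat_lit 109) (nat_lit 137) (nat_lit 144)))))) (PT.nd (nat_lit 468) (PT.nd (nat_lit 234) (PT.nd (nat_lit 78) (PT.lf (nat_lit 10640) (nat_lit 6) (nat_lit 140) (nat_lit 5) (nat_lit 110) (nat_lit 137) (nat_lit 143)) (PT.nd (nat_lit 78) (PT.lf (nat_lit 11248) (nat_lit 6) (nat_lit 148) (nat_lit 5) (nat_lit 111) (nat_lit 137) (nat_lit 142)) (PT.lf (nat_lit 11856) (nat_lit 6) (nat_lit 156) (nat_lit 5) (nat_lit 112) (nat_lit 137) (nat_lit 141)))) (PT.nd (nat_lit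 78) (PT.lf (nat_lit 12540) (nat_lit 6) (nat_lit 165) (nat_lit 5) (nat_lit 113) (nat_lit 137) (nat_lit 140)) (PT.nd (nat_lit 78) (PT.lf (nat_lit 13148) (nat_lit 6) (nat_lit 173) (nat_lit 5) (nat_lit 114) (nat_lit 137) (nat_lit 139)) (PT.lf (nat_lit 14364) (nat_lit 6) (nat_lit 189) (nat_lit 5) (nat_lit 115) (nat_lit 137) (nat_lit 138))))) (PT.nd (nat_lit 234) (PT.nd (nat_lit 78) (PT.lf (nat_lit 15504) (nat_lit 3) (nat_lit 204) (nat_lit 4) (nat_lit 116) (nat_lit 137) (nat_lit 137)) (PT.nd (nat_lit 78) (PT.lf (nat_lit 16492) (nat_lit 6) (nat_lit 217) (nat_lit 4) (nat_lit 117) (nat_lit 137) (nat_lit 136)) (PT.lf (nat_lit 17404) (nat_lit 6) (nat_lit 229) (nat_lit 4) (nat_lit 118) (nat_lit 137) (nat_lit 135)))) (PT.nd (nat_lit 156) (PT.nd (nat_lit 78) (PT.lf (nat_lit 18240) (nat_lit 6) (nat_lit 240) (nat_lit 4) (nat_lit 119) (nat_lit 137) (nat_lit 134)) (PT.lf (nat_lit 19000) (nat_lit 6) (nat_lit 250)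 (nat_lit 4) (nat_lit 120) (nat_lit 137) (nat_lit 133))) (PT.nd (nat_lit 78) (PT.lf (nat_lit 19684) (nat_lit 6) (nat_lit 259) (nat_lit 4) (nat_lit 121) (nat_lit 137) (nat_lit 132)) (PT.lf (nat_lit 20292) (nat_lit 6) (nat_lit 267) (nat_lit 4) (nat_lit 122) (nat_lit 137) (nat_lit 131))))))))
noncomputable def pc18 : PT := (PT.nd (nat_lit 39156) (PT.nd (nat_lit 936) (PT.nd (nat_lit 468) (PT.nd (nat_lit 234) (PT.nd (nat_lit 78) (PT.lf (nat_lit 20824) (nat_lit 6) (nat_lit 274) (nat_lit 4) (nat_lit 123) (nat_lit 137) (nat_lit 130)) (PT.nd (nat_lit 78) (PT.lf (nat_lit 20748) (nat_lit 6) (nat_lit 273) (nat_lit 4) (nat_lit 124) (nat_lit 137) (nat_lit 129)) (PT.lf (nat_lit 20672) (nat_lit 6) (nat_lit 272) (nat_lit 4) (nat_lit 125) (nat_lit 137) (nat_lit 128)))) (PT.nd (nat_lit 78) (PT.lf (nat_lit 20596) (nat_lit 6) (nat_lit 271) (nat_lit 4) (nat_lit 126) (nat_lit 137) (nat_lit 127)) (PT.nd (nat_lit 78) (PT.lf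 (nat_lit 20596) (nat_lit 6) (nat_lit 271) (nat_lit 2) (nat_lit 127) (nat_lit 137) (nat_lit 126)) (PT.lf (nat_lit 20672) (nat_lit 6) (nat_lit 272) (nat_lit 2) (nat_lit 128) (nat_lit 137) (nat_lit 125))))) (PT.nd (nat_lit 234) (PT.nd (nat_lit 78) (PT.lf (nat_lit 20748) (nat_lit 6) (nat_lit 273) (nat_lit 2) (nat_lit 129) (nat_lit 137) (nat_lit 124)) (PT.nd (nat_lit 78) (PT.lf (nat_lit 20824) (nat_lit 6) (nat_lit 274) (nat_lit 2) (nat_lit 130) (nat_lit 137) (nat_lit 123)) (PT.lf (nat_lit 20292) (nat_lit 6) (nat_lit 267) (nat_lit 2) (nat_lit 131) (nat_lit 137) (nat_lit 122)))) (PT.nd (nat_lit 78) (PT.lf (nat_lit 19684) (nat_lit 6) (nat_lit 259) (nat_lit 2) (nat_lit 132) (nat_lit 137) (nat_lit 121)) (PT.nd (nat_lit 78) (PT.lf (nat_lit 19000) (nat_lit 6) (nat_lit 250) (nat_lit 2) (nat_lit 133) (nat_lit 137) (nat_lit 120)) (PT.lf (nat_lit 18240) (nat_lit 6) (nat_lit 240) (nat_lit 2) (nat_lit 134) (nat_lit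 137) (nat_lit 119)))))) (PT.nd (nat_lit 468) (PT.nd (nat_lit 234) (PT.nd (nat_lit 78) (PT.lf (nat_lit 17404) (nat_lit 6) (nat_lit 229) (nat_lit 2) (nat_lit 135) (nat_lit 137) (nat_lit 118)) (PT.nd (nat_lit 78) (PT.lf (nat_lit 16492) (nat_lit 6) (nat_lit 217) (nat_lit 2) (nat_lit 136) (nat_lit 137) (nat_lit 117)) (PT.lf (nat_lit 15504) (nat_lit 3) (nat_lit 204) (nat_lit 0) (nat_lit 137) (nat_lit 137) (nat_lit 116)))) (PT.nd (nat_lit 78) (PT.lf (nat_lit 14364) (nat_lit 6) (nat_lit 189) (nat_lit 0) (nat_lit 138) (nat_lit 137) (nat_lit 115)) (PT.nd (nat_lit 78) (PT.lf (nat_lit 13148) (nat_lit 6) (nat_lit 173) (nat_lit 0) (nat_lit 139) (nat_lit 137) (nat_lit 114)) (PT.lf (nat_lit 12540) (nat_lit 6) (nat_lit 165) (nat_lit 0) (nat_lit 140) (nat_lit 137) (nat_lit 113))))) (PT.nd (nat_lit 234) (PT.nd (nat_lit 78) (PT.lf (nat_lit 11856) (nat_lit 6) (nat_lit 156) (nat_lit 0) (nat_lit 141) (nat_lit 137) (nat_lit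 112)) (PT.nd (nat_lit 78) (PT.lf (nat_lit 11248) (nat_lit 6) (nat_lit 148) (nat_lit 0) (nat_lit 142) (nat_lit 137) (nat_lit 111)) (PT.lf (nat_lit 10640) (nat_lit 6) (nat_lit 140) (nat_lit 0) (nat_lit 143) (nat_lit 137) (nat_lit 110)))) (PT.nd (nat_lit 156) (PT.nd (nat_lit 78) (PT.lf (nat_lit 10108) (nat_lit 6) (nat_lit 133) (nat_lit 0) (nat_lit 144) (nat_lit 137) (nat_lit 109)) (PT.lf (nat_lit 9576) (nat_lit 6) (nat_lit 126) (nat_lit 0) (nat_lit 145) (nat_lit 137) (nat_lit 108))) (PT.nd (nat_lit 78) (PT.lf (nat_lit 9044) (nat_lit 6) (nat_lit 119) (nat_lit 0) (nat_lit 146) (nat_lit 137) (nat_lit 107)) (PT.lf (nat_lit 8512) (nat_lit 6) (nat_lit 112) (nat_lit 0) (nat_lit 147) (nat_lit 137) (nat_lit 106))))))) (PT.nd (nat_lit 1014) (PT.nd (nat_lit 468) (PT.nd (nat_lit 234) (PT.nd (nat_lit 78) (PT.lf (nat_lit 7676) (nat_lit 6) (nat_lit 101) (nat_lit 5) (nat_lit 104) (nat_lit 138) (nat_lit 148)) (PT.nd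 (nat_lit 78) (PT.lf (nat_lit 8132) (nat_lit 6) (nat_lit 107) (nat_lit 5) (nat_lit 105) (nat_lit 138) (nat_lit 147)) (PT.lf (nat_lit 8588) (nat_lit 6) (nat_lit 113) (nat_lit 5) (nat_lit 106) (nat_lit 138) (nat_lit 146)))) (PT.nd (nat_lit 78) (PT.lf (nat_lit 9120) (nat_lit 6) (nat_lit 120) (nat_lit 5) (nat_lit 107) (nat_lit 138) (nat_lit 145)) (PT.nd (nat_lit 78) (PT.lf (nat_lit 9652) (nat_lit 6) (nat_lit 127) (nat_lit 5) (nat_lit 108) (nat_lit 138) (nat_lit 144)) (PT.lf (nat_lit 10184) (nat_lit 6) (nat_lit 134) (nat_lit 5) (nat_lit 109) (nat_lit 138) (nat_lit 143))))) (PT.nd (nat_lit 234) (PT.nd (nat_lit 78) (PT.lf (nat_lit 10716) (nat_lit 6) (nat_lit 141) (nat_lit 5) (nat_lit 110) (nat_lit 138) (nat_lit 142)) (PT.nd (nat_lit 78) (PT.lf (nat_lit 11324) (nat_lit 6) (nat_lit 149) (nat_lit 5) (nat_lit 111) (nat_lit 138) (nat_lit 141)) (PT.lf (nat_lit 11932) (nat_lit 6) (nat_lit 157) (nat_lit 5) (nat_lit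 112) (nat_lit 138) (nat_lit 140)))) (PT.nd (nat_lit 156) (PT.nd (nat_lit 78) (PT.lf (nat_lit 12616) (nat_lit 6) (nat_lit 166) (nat_lit 5) (nat_lit 113) (nat_lit 138) (nat_lit 139)) (PT.lf (nat_lit 13224) (nat_lit 3) (nat_lit 174) (nat_lit 4) (nat_lit 114) (nat_lit 138) (nat_lit 138))) (PT.nd (nat_lit 78) (PT.lf (nat_lit 14364) (nat_lit 6) (nat_lit 189) (nat_lit 4) (nat_lit 115) (nat_lit 138) (nat_lit 137)) (PT.lf (nat_lit 15428) (nat_lit 6) (nat_lit 203) (nat_lit 4) (nat_lit 116) (nat_lit 138) (nat_lit 136)))))) (PT.nd (nat_lit 468) (PT.nd (nat_lit 234) (PT.nd (nat_lit 78) (PT.lf (nat_lit 16416) (nat_lit 6) (nat_lit 216) (nat_lit 4) (nat_lit 117) (nat_lit 138) (nat_lit 135)) (PT.nd (nat_lit 78) (PT.lf (nat_lit 17328) (nat_lit 6) (nat_lit 228) (nat_lit 4) (nat_lit 118) (nat_lit 138) (nat_lit 134)) (PT.lf (nat_lit 18164) (nat_lit 6) (nat_lit 239) (nat_lit 4) (nat_lit 119) (nat_lit 138) (nat_lit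 133)))) (PT.nd (nat_lit 78) (PT.lf (nat_lit 18924) (nat_lit 6) (nat_lit 249) (nat_lit 4) (nat_lit 120) (nat_lit 138) (nat_lit 132)) (PT.nd (nat_lit 78) (PT.lf (nat_lit 19608) (nat_lit 6) (nat_lit 258) (nat_lit 4) (nat_lit 121) (nat_lit 138) (nat_lit 131)) (PT.lf (nat_lit 20216) (nat_lit 6) (nat_lit 266) (nat_lit 4) (nat_lit 122) (nat_lit 138) (nat_lit 130))))) (PT.nd (nat_lit 234) (PT.nd (nat_lit 78) (PT.lf (nat_lit 20140) (nat_lit 6) (nat_lit 265) (nat_lit 4) (nat_lit 123) (nat_lit 138) (nat_lit 129)) (PT.nd (nat_lit 78) (PT.lf (nat_lit 20064) (nat_lit 6) (nat_lit 264) (nat_lit 4) (nat_lit 124) (nat_lit 138) (nat_lit 128)) (PT.lf (nat_lit 19988) (nat_lit 6) (nat_lit 263) (nat_lit 4) (nat_lit 125) (nat_lit 138) (nat_lit 127)))) (PT.nd (nat_lit 156) (PT.nd (nat_lit 78) (PT.lf (nat_lit 19912) (nat_lit 3) (nat_lit 262) (nat_lit 2) (nat_lit 126) (nat_lit 138) (nat_lit 126)) (PT.lf (nat_lit 19988)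 (nat_lit 6) (nat_lit 263) (nat_lit 2) (nat_lit 127) (nat_lit 138) (nat_lit 125))) (PT.nd (nat_lit 78) (PT.lf (nat_lit 20064) (nat_lit 6) (nat_lit 264) (nat_lit 2) (nat_lit 128) (nat_lit 138) (nat_lit 124)) (PT.lf (nat_lit 20140) (nat_lit 6) (nat_lit 265) (nat_lit 2) (nat_lit 129) (nat_lit 138) (nat_lit 123))))))))
noncomputable def pc19 : PT := (PT.nd (nat_lit 39078) (PT.nd (nat_lit 1014) (PT.nd (nat_lit 468) (PT.nd (nat_lit 234) (PT.nd (nat_lit 78) (PT.lf (nat_lit 20216) (nat_lit 6) (nat_lit 266) (nat_lit 2) (nat_lit 130) (nat_lit 138) (nat_lit 122)) (PT.nd (nat_lit 78) (PT.lf (nat_lit 19608) (nat_lit 6) (nat_lit 258) (nat_lit 2) (nat_lit 131) (nat_lit 138) (nat_lit 121)) (PT.lf (nat_lit 18924) (nat_lit 6) (nat_lit 249) (nat_lit 2) (nat_lit 132) (nat_lit 138) (nat_lit 120)))) (PT.nd (nat_lit 78) (PT.lf (nat_lit 18164) (nat_lit 6) (nat_lit 239) (nat_lit 2) (nat_lit 133) (nat_lit 138) (nat_lit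 119)) (PT.nd (nat_lit 78) (PT.lf (nat_lit 17328) (nat_lit 6) (nat_lit 228) (nat_lit 2) (nat_lit 134) (nat_lit 138) (nat_lit 118)) (PT.lf (nat_lit 16416) (nat_lit 6) (nat_lit 216) (nat_lit 2) (nat_lit 135) (nat_lit 138) (nat_lit 117))))) (PT.nd (nat_lit 234) (PT.nd (nat_lit 78) (PT.lf (nat_lit 15428) (nat_lit 6) (nat_lit 203) (nat_lit 2) (nat_lit 136) (nat_lit 138) (nat_lit 116)) (PT.nd (nat_lit 78) (PT.lf (nat_lit 14364) (nat_lit 6) (nat_lit 189) (nat_lit 2) (nat_lit 137) (nat_lit 138) (nat_lit 115)) (PT.lf (nat_lit 13224) (nat_lit 3) (nat_lit 174) (nat_lit 0) (nat_lit 138) (nat_lit 138) (nat_lit 114)))) (PT.nd (nat_lit 156) (PT.nd (nat_lit 78) (PT.lf (nat_lit 12616) (nat_lit 6) (nat_lit 166) (nat_lit 0) (nat_lit 139) (nat_lit 138) (nat_lit 113)) (PT.lf (nat_lit 11932) (nat_lit 6) (nat_lit 157) (nat_lit 0) (nat_lit 140) (nat_lit 138) (nat_lit 112))) (PT.nd (nat_lit 78) (PT.lf (nat_lit 11324) (nat_lit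 6) (nat_lit 149) (nat_lit 0) (nat_lit 141) (nat_lit 138) (nat_lit 111)) (PT.lf (nat_lit 10716) (nat_lit 6) (nat_lit 141) (nat_lit 0) (nat_lit 142) (nat_lit 138) (nat_lit 110)))))) (PT.nd (nat_lit 37518) (PT.nd (nat_lit 234) (PT.nd (nat_lit 78) (PT.lf (nat_lit 10184) (nat_lit 6) (nat_lit 134) (nat_lit 0) (nat_lit 143) (nat_lit 138) (nat_lit 109)) (PT.nd (nat_lit 78) (PT.lf (nat_lit 9652) (nat_lit 6) (nat_lit 127) (nat_lit 0) (nat_lit 144) (nat_lit 138) (nat_lit 108)) (PT.lf (nat_lit 9120) (nat_lit 6) (nat_lit 120) (nat_lit 0) (nat_lit 145) (nat_lit 138) (nat_lit 107)))) (PT.nd (nat_lit 78) (PT.lf (nat_lit 8588) (nat_lit 6) (nat_lit 113) (nat_lit 0) (nat_lit 146) (nat_lit 138) (nat_lit 106)) (PT.nd (nat_lit 78) (PT.lf (nat_lit 8132) (nat_lit 6) (nat_lit 107) (nat_lit 0) (nat_lit 147) (nat_lit 138) (nat_lit 105)) (PT.lf (nat_lit 7676) (nat_lit 6) (nat_lit 101) (nat_lit 0) (nat_lit 148) (nat_lit 138)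 (nat_lit 104))))) (PT.nd (nat_lit 234) (PT.nd (nat_lit 78) (PT.lf (nat_lit 7296) (nat_lit 6) (nat_lit 96) (nat_lit 5) (nat_lit 103) (nat_lit 139) (nat_lit 148)) (PT.nd (nat_lit 78) (PT.lf (nat_lit 7752) (nat_lit 6) (nat_lit 102) (nat_lit 5) (nat_lit 104) (nat_lit 139) (nat_lit 147)) (PT.lf (nat_lit 8208) (nat_lit 6) (nat_lit 108) (nat_lit 5) (nat_lit 105) (nat_lit 139) (nat_lit 146)))) (PT.nd (nat_lit 156) (PT.nd (nat_lit 78) (PT.lf (nat_lit 8664) (nat_lit 6) (nat_lit 114) (nat_lit 5) (nat_lit 106) (nat_lit 139) (nat_lit 145)) (PT.lf (nat_lit 9196) (nat_lit 6) (nat_lit 121) (nat_lit 5) (nat_lit 107) (nat_lit 139) (nat_lit 144))) (PT.nd (nat_lit 78) (PT.lf (nat_lit 9728) (nat_lit 6) (nat_lit 128) (nat_lit 5) (nat_lit 108) (nat_lit 139) (nat_lit 143)) (PT.lf (nat_lit 10260) (nat_lit 6) (nat_lit 135) (nat_lit 5) (nat_lit 109) (nat_lit 139) (nat_lit 142))))))) (PT.nd (nat_lit 1014) (PT.nd (nat_lit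 468) (PT.nd (nat_lit 234) (PT.nd (nat_lit 78) (PT.lf (nat_lit 10792) (nat_lit 6) (nat_lit 142) (nat_lit 5) (nat_lit 110) (nat_lit 139) (nat_lit 141)) (PT.nd (nat_lit 78) (PT.lf (nat_lit 11400) (nat_lit 6) (nat_lit 150) (nat_lit 5) (nat_lit 111) (nat_lit 139) (nat_lit 140)) (PT.lf (nat_lit 12008) (nat_lit 3) (nat_lit 158) (nat_lit 4) (nat_lit 112) (nat_lit 139) (nat_lit 139)))) (PT.nd (nat_lit 78) (PT.lf (nat_lit 12616) (nat_lit 6) (nat_lit 166) (nat_lit 4) (nat_lit 113) (nat_lit 139) (nat_lit 138)) (PT.nd (nat_lit 78) (PT.lf (nat_lit 13148) (nat_lit 6) (nat_lit 173) (nat_lit 4) (nat_lit 114) (nat_lit 139) (nat_lit 137)) (PT.lf (nat_lit 14288) (nat_lit 6) (nat_lit 188) (nat_lit 4) (nat_lit 115) (nat_lit 139) (nat_lit 136))))) (PT.nd (nat_lit 234) (PT.nd (nat_lit 78) (PT.lf (nat_lit 15352) (nat_lit 6) (nat_lit 202) (nat_lit 4) (nat_lit 116) (nat_lit 139) (nat_lit 135)) (PT.nd (nat_lit 78) (PT.lf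 (nat_lit 16340) (nat_lit 6) (nat_lit 215) (nat_lit 4) (nat_lit 117) (nat_lit 139) (nat_lit 134)) (PT.lf (nat_lit 17252) (nat_lit 6) (nat_lit 227) (nat_lit 4) (nat_lit 118) (nat_lit 139) (nat_lit 133)))) (PT.nd (nat_lit 156) (PT.nd (nat_lit 78) (PT.lf (nat_lit 18088) (nat_lit 6) (nat_lit 238) (nat_lit 4) (nat_lit 119) (nat_lit 139) (nat_lit 132)) (PT.lf (nat_lit 18848) (nat_lit 6) (nat_lit 248) (nat_lit 4) (nat_lit 120) (nat_lit 139) (nat_lit 131))) (PT.nd (nat_lit 78) (PT.lf (nat_lit 19532) (nat_lit 6) (nat_lit 257) (nat_lit 4) (nat_lit 121) (nat_lit 139) (nat_lit 130)) (PT.lf (nat_lit 19456) (nat_lit 6) (nat_lit 256) (nat_lit 4) (nat_lit 122) (nat_lit 139) (nat_lit 129)))))) (PT.nd (nat_lit 468) (PT.nd (nat_lit 234) (PT.nd (nat_lit 78) (PT.lf (nat_lit 19380) (nat_lit 6) (nat_lit 255) (nat_lit 4) (nat_lit 123) (nat_lit 139) (nat_lit 128)) (PT.nd (nat_lit 78) (PT.lf (nat_lit 19304) (nat_lit 6)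 (nat_lit 254) (nat_lit 4) (nat_lit 124) (nat_lit 139) (nat_lit 127)) (PT.lf (nat_lit 19228) (nat_lit 6) (nat_lit 253) (nat_lit 4) (nat_lit 125) (nat_lit 139) (nat_lit 126)))) (PT.nd (nat_lit 78) (PT.lf (nat_lit 19228) (nat_lit 6) (nat_lit 253) (nat_lit 2) (nat_lit 126) (nat_lit 139) (nat_lit 125)) (PT.nd (nat_lit 78) (PT.lf (nat_lit 19304) (nat_lit 6) (nat_lit 254) (nat_lit 2) (nat_lit 127) (nat_lit 139) (nat_lit 124)) (PT.lf (nat_lit 19380) (nat_lit 6) (nat_lit 255) (nat_lit 2) (nat_lit 128) (nat_lit 139) (nat_lit 123))))) (PT.nd (nat_lit 234) (PT.nd (nat_lit 78) (PT.lf (nat_lit 19456) (nat_lit 6) (nat_lit 256) (nat_lit 2) (nat_lit 129) (nat_lit 139) (nat_lit 122)) (PT.nd (nat_lit 78) (PT.lf (nat_lit 19532) (nat_lit 6) (nat_lit 257) (nat_lit 2) (nat_lit 130) (nat_lit 139) (nat_lit 121)) (PT.lf (nat_lit 18848) (nat_lit 6) (nat_lit 248) (nat_lit 2) (nat_lit 131) (nat_lit 139) (nat_lit 120)))) (PT.nd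 (nat_lit 156) (PT.nd (nat_lit 78) (PT.lf (nat_lit 18088) (nat_lit 6) (nat_lit 238) (nat_lit 2) (nat_lit 132) (nat_lit 139) (nat_lit 119)) (PT.lf (nat_lit 17252) (nat_lit 6) (nat_lit 227) (nat_lit 2) (nat_lit 133) (nat_lit 139) (nat_lit 118))) (PT.nd (nat_lit 78) (PT.lf (nat_lit 16340) (nat_lit 6) (nat_lit 215) (nat_lit 2) (nat_lit 134) (nat_lit 139) (nat_lit 117)) (PT.lf (nat_lit 15352) (nat_lit 6) (nat_lit 202) (nat_lit 2) (nat_lit 135) (nat_lit 139) (nat_lit 116))))))))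
noncomputable def pc20 : PT := (PT.nd (nat_lit 38922) (PT.nd (nat_lit 936) (PT.nd (nat_lit 468) (PT.nd (nat_lit 234) (PT.nd (nat_lit 78) (PT.lf (nat_lit 14288) (nat_lit 6) (nat_lit 188) (nat_lit 2) (nat_lit 136) (nat_lit 139) (nat_lit 115)) (PT.nd (nat_lit 78) (PT.lf (nat_lit 13148) (nat_lit 6) (nat_lit 173) (nat_lit 2) (nat_lit 137) (nat_lit 139) (nat_lit 114)) (PT.lf (nat_lit 12616) (nat_lit 6) (nat_lit 166) (nat_lit 2) (nat_lit 138) (nat_lit 139) (nat_lit 113)))) (PT.nd (nat_lit 78) (PT.lf (nat_lit 12008) (nat_lit 3) (nat_lit 158) (nat_lit 0) (nat_lit 139) (nat_lit 139) (nat_lit 112)) (PT.nd (nat_lit 78) (PT.lf (nat_lit 11400) (nat_lit 6) (nat_lit 150) (nat_lit 0) (nat_lit 140) (nat_lit 139) (nat_lit 111)) (PT.lf (nat_lit 10792) (nat_lit 6) (nat_lit 142) (nat_lit 0) (nat_lit 141) (nat_lit 139) (nat_lit 110))))) (PT.nd (nat_lit 234) (PT.nd (nat_lit 78) (PT.lf (nat_lit 10260) (nat_lit 6) (nat_lit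 135) (nat_lit 0) (nat_lit 142) (nat_lit 139) (nat_lit 109)) (PT.nd (nat_lit 78) (PT.lf (nat_lit 9728) (nat_lit 6) (nat_lit 128) (nat_lit 0) (nat_lit 143) (nat_lit 139) (nat_lit 108)) (PT.lf (nat_lit 9196) (nat_lit 6) (nat_lit 121) (nat_lit 0) (nat_lit 144) (nat_lit 139) (nat_lit 107)))) (PT.nd (nat_lit 78) (PT.lf (nat_lit 8664) (nat_lit 6) (nat_lit 114) (nat_lit 0) (nat_lit 145) (nat_lit 139) (nat_lit 106)) (PT.nd (nat_lit 78) (PT.lf (nat_lit 8208) (nat_lit 6) (nat_lit 108) (nat_lit 0) (nat_lit 146) (nat_lit 139) (nat_lit 105)) (PT.lf (nat_lit 7752) (nat_lit 6) (nat_lit 102) (nat_lit 0) (nat_lit 147) (nat_lit 139) (nat_lit 104)))))) (PT.nd (nat_lit 37440) (PT.nd (nat_lit 37206) (PT.nd (nat_lit 37050) (PT.lf (nat_lit 7296) (nat_lit 6) (nat_lit 96) (nat_lit 0) (nat_lit 148) (nat_lit 139) (nat_lit 103)) (PT.nd (nat_lit 78) (PT.lf (nat_lit 6916) (nat_lit 6) (nat_lit 91) (nat_lit 5) (nat_lit 102) (nat_lit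 140) (nat_lit 148)) (PT.lf (nat_lit 7372) (nat_lit 6) (nat_lit 97) (nat_lit 5) (nat_lit 103) (nat_lit 140) (nat_lit 147)))) (PT.nd (nat_lit 78) (PT.lf (nat_lit 7828) (nat_lit 6) (nat_lit 103) (nat_lit 5) (nat_lit 104) (nat_lit 140) (nat_lit 146)) (PT.nd (nat_lit 78) (PT.lf (nat_lit 8284) (nat_lit 6) (nat_lit 109) (nat_lit 5) (nat_lit 105) (nat_lit 140) (nat_lit 145)) (PT.lf (nat_lit 8740) (nat_lit 6) (nat_lit 115) (nat_lit 5) (nat_lit 106) (nat_lit 140) (nat_lit 144))))) (PT.nd (nat_lit 234) (PT.nd (nat_lit 78) (PT.lf (nat_lit 9272) (nat_lit 6) (nat_lit 122) (nat_lit 5) (nat_lit 107) (nat_lit 140) (nat_lit 143)) (PT.nd (nat_lit 78) (PT.lf (nat_lit 9804) (nat_lit 6) (nat_lit 129) (nat_lit 5) (nat_lit 108) (nat_lit 140) (nat_lit 142)) (PT.lf (nat_lit 10336) (nat_lit 6) (nat_lit 136) (nat_lit 5) (nat_lit 109) (nat_lit 140) (nat_lit 141)))) (PT.nd (nat_lit 156) (PT.nd (nat_lit 78) (PT.lf (nat_lit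 10868) (nat_lit 3) (nat_lit 143) (nat_lit 4) (nat_lit 110) (nat_lit 140) (nat_lit 140)) (PT.lf (nat_lit 11400) (nat_lit 6) (nat_lit 150) (nat_lit 4) (nat_lit 111) (nat_lit 140) (nat_lit 139))) (PT.nd (nat_lit 78) (PT.lf (nat_lit 11932) (nat_lit 6) (nat_lit 157) (nat_lit 4) (nat_lit 112) (nat_lit 140) (nat_lit 138)) (PT.lf (nat_lit 12540) (nat_lit 6) (nat_lit 165) (nat_lit 4) (nat_lit 113) (nat_lit 140) (nat_lit 137))))))) (PT.nd (nat_lit 1014) (PT.nd (nat_lit 468) (PT.nd (nat_lit 234) (PT.nd (nat_lit 78) (PT.lf (nat_lit 13072) (nat_lit 6) (nat_lit 172) (nat_lit 4) (nat_lit 114) (nat_lit 140) (nat_lit 136)) (PT.nd (nat_lit 78) (PT.lf (nat_lit 14212) (nat_lit 6) (nat_lit 187) (nat_lit 4) (nat_lit 115) (nat_lit 140) (nat_lit 135)) (PT.lf (nat_lit 15276) (nat_lit 6) (nat_lit 201) (nat_lit 4) (nat_lit 116) (nat_lit 140) (nat_lit 134)))) (PT.nd (nat_lit 78) (PT.lf (nat_lit 16264) (nat_lit 6) (nat_lit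 214) (nat_lit 4) (nat_lit 117) (nat_lit 140) (nat_lit 133)) (PT.nd (nat_lit 78) (PT.lf (nat_lit 17176) (nat_lit 6) (nat_lit 226) (nat_lit 4) (nat_lit 118) (nat_lit 140) (nat_lit 132)) (PT.lf (nat_lit 18012) (nat_lit 6) (nat_lit 237) (nat_lit 4) (nat_lit 119) (nat_lit 140) (nat_lit 131))))) (PT.nd (nat_lit 234) (PT.nd (nat_lit 78) (PT.lf (nat_lit 18772) (nat_lit 6) (nat_lit 247) (nat_lit 4) (nat_lit 120) (nat_lit 140) (nat_lit 130)) (PT.nd (nat_lit 78) (PT.lf (nat_lit 18696) (nat_lit 6) (nat_lit 246) (nat_lit 4) (nat_lit 121) (nat_lit 140) (nat_lit 129)) (PT.lf (nat_lit 18620) (nat_lit 6) (nat_lit 245) (nat_lit 4) (nat_lit 122) (nat_lit 140) (nat_lit 128)))) (PT.nd (nat_lit 156) (PT.nd (nat_lit 78) (PT.lf (nat_lit 18544) (nat_lit 6) (nat_lit 244) (nat_lit 4) (nat_lit 123) (nat_lit 140) (nat_lit 127)) (PT.lf (nat_lit 18468) (nat_lit 6) (nat_lit 243) (nat_lit 4) (nat_lit 124) (nat_lit 140) (nat_lit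 126))) (PT.nd (nat_lit 78) (PT.lf (nat_lit 18392) (nat_lit 3) (nat_lit 242) (nat_lit 2) (nat_lit 125) (nat_lit 140) (nat_lit 125)) (PT.lf (nat_lit 18468) (nat_lit 6) (nat_lit 243) (nat_lit 2) (nat_lit 126) (nat_lit 140) (nat_lit 124)))))) (PT.nd (nat_lit 468) (PT.nd (nat_lit 234) (PT.nd (nat_lit 78) (PT.lf (nat_lit 18544) (nat_lit 6) (nat_lit 244) (nat_lit 2) (nat_lit 127) (nat_lit 140) (nat_lit 123)) (PT.nd (nat_lit 78) (PT.lf (nat_lit 18620) (nat_lit 6) (nat_lit 245) (nat_lit 2) (nat_lit 128) (nat_lit 140) (nat_lit 122)) (PT.lf (nat_lit 18696) (nat_lit 6) (nat_lit 246) (nat_lit 2) (nat_lit 129) (nat_lit 140) (nat_lit 121)))) (PT.nd (nat_lit 78) (PT.lf (nat_lit 18772) (nat_lit 6) (nat_lit 247) (nat_lit 2) (nat_lit 130) (nat_lit 140) (nat_lit 120)) (PT.nd (nat_lit 78) (PT.lf (nat_lit 18012) (nat_lit 6) (nat_lit 237) (nat_lit 2) (nat_lit 131) (nat_lit 140) (nat_lit 119)) (PT.lf (nat_lit 17176)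 (nat_lit 6) (nat_lit 226) (nat_lit 2) (nat_lit 132) (nat_lit 140) (nat_lit 118))))) (PT.nd (nat_lit 234) (PT.nd (nat_lit 78) (PT.lf (nat_lit 16264) (nat_lit 6) (nat_lit 214) (nat_lit 2) (nat_lit 133) (nat_lit 140) (nat_lit 117)) (PT.nd (nat_lit 78) (PT.lf (nat_lit 15276) (nat_lit 6) (nat_lit 201) (nat_lit 2) (nat_lit 134) (nat_lit 140) (nat_lit 116)) (PT.lf (nat_lit 14212) (nat_lit 6) (nat_lit 187) (nat_lit 2) (nat_lit 135) (nat_lit 140) (nat_lit 115)))) (PT.nd (nat_lit 156) (PT.nd (nat_lit 78) (PT.lf (nat_lit 13072) (nat_lit 6) (nat_lit 172) (nat_lit 2) (nat_lit 136) (nat_lit 140) (nat_lit 114)) (PT.lf (nat_lit 12540) (nat_lit 6) (nat_lit 165) (nat_lit 2) (nat_lit 137) (nat_lit 140) (nat_lit 113))) (PT.nd (nat_lit 78) (PT.lf (nat_lit 11932) (nat_lit 6) (nat_lit 157) (nat_lit 2) (nat_lit 138) (nat_lit 140) (nat_lit 112)) (PT.lf (nat_lit 11400) (nat_lit 6) (nat_lit 150) (nat_lit 2) (nat_lit 139)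 (nat_lit 140) (nat_lit 111))))))))
noncomputable def pc21 : PT := (PT.nd (nat_lit 38844) (PT.nd (nat_lit 37830) (PT.nd (nat_lit 468) (PT.nd (nat_lit 234) (PT.nd (nat_lit 78) (PT.lf (nat_lit 10868) (nat_lit 3) (nat_lit 143) (nat_lit 0) (nat_lit 140) (nat_lit 140) (nat_lit 110)) (PT.nd (nat_lit 78) (PT.lf (nat_lit 10336) (nat_lit 6) (nat_lit 136) (nat_lit 0) (nat_lit 141) (nat_lit 140) (nat_lit 109)) (PT.lf (nat_lit 9804) (nat_lit 6) (nat_lit 129) (nat_lit 0) (nat_lit 142) (nat_lit 140) (nat_lit 108)))) (PT.nd (nat_lit 78) (PT.lf (nat_lit 9272) (nat_lit 6) (nat_lit 122) (nat_lit 0) (nat_lit 143) (nat_lit 140) (nat_lit 107)) (PT.nd (nat_lit 78) (PT.lf (nat_lit 8740) (nat_lit 6) (nat_lit 115) (nat_lit 0) (nat_lit 144) (nat_lit 140) (nat_lit 106)) (PT.lf (nat_lit 8284) (nat_lit 6) (nat_lit 109) (nat_lit 0) (nat_lit 145) (nat_lit 140) (nat_lit 105))))) (PT.nd (nat_lit 37050) (PT.nd (nat_lit 78) (PT.lf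 (nat_lit 7828) (nat_lit 6) (nat_lit 103) (nat_lit 0) (nat_lit 146) (nat_lit 140) (nat_lit 104)) (PT.nd (nat_lit 78) (PT.lf (nat_lit 7372) (nat_lit 6) (nat_lit 97) (nat_lit 0) (nat_lit 147) (nat_lit 140) (nat_lit 103)) (PT.lf (nat_lit 6916) (nat_lit 6) (nat_lit 91) (nat_lit 0) (nat_lit 148) (nat_lit 140) (nat_lit 102)))) (PT.nd (nat_lit 156) (PT.nd (nat_lit 78) (PT.lf (nat_lit 6156) (nat_lit 6) (nat_lit 81) (nat_lit 5) (nat_lit 100) (nat_lit 141) (nat_lit 149)) (PT.lf (nat_lit 6612) (nat_lit 6) (nat_lit 87) (nat_lit 5) (nat_lit 101) (nat_lit 141) (nat_lit 148))) (PT.nd (nat_lit 78) (PT.lf (nat_lit 6992) (nat_lit 6) (nat_lit 92) (nat_lit 5) (nat_lit 102) (nat_lit 141) (nat_lit 147)) (PT.lf (nat_lit 7448) (nat_lit 6) (nat_lit 98) (nat_lit 5) (nat_lit 103) (nat_lit 141) (nat_lit 146)))))) (PT.nd (nat_lit 468) (PT.nd (nat_lit 234) (PT.nd (nat_lit 78) (PT.lf (nat_lit 7904) (nat_lit 6) (nat_lit 104)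 (nat_lit 5) (nat_lit 104) (nat_lit 141) (nat_lit 145)) (PT.nd (nat_lit 78) (PT.lf (nat_lit 8360) (nat_lit 6) (nat_lit 110) (nat_lit 5) (nat_lit 105) (nat_lit 141) (nat_lit 144)) (PT.lf (nat_lit 8816) (nat_lit 6) (nat_lit 116) (nat_lit 5) (nat_lit 106) (nat_lit 141) (nat_lit 143)))) (PT.nd (nat_lit 78) (PT.lf (nat_lit 9348) (nat_lit 6) (nat_lit 123) (nat_lit 5) (nat_lit 107) (nat_lit 141) (nat_lit 142)) (PT.nd (nat_lit 78) (PT.lf (nat_lit 9880) (nat_lit 3) (nat_lit 130) (nat_lit 4) (nat_lit 108) (nat_lit 141) (nat_lit 141)) (PT.lf (nat_lit 10336) (nat_lit 6) (nat_lit 136) (nat_lit 4) (nat_lit 109) (nat_lit 141) (nat_lit 140))))) (PT.nd (nat_lit 234) (PT.nd (nat_lit 78) (PT.lf (nat_lit 10792) (nat_lit 6) (nat_lit 142) (nat_lit 4) (nat_lit 110) (nat_lit 141) (nat_lit 139)) (PT.nd (nat_lit 78) (PT.lf (nat_lit 11324) (nat_lit 6) (nat_lit 149) (nat_lit 4) (nat_lit 111) (nat_lit 141) (nat_lit 138)) (PT.lf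 (nat_lit 11856) (nat_lit 6) (nat_lit 156) (nat_lit 4) (nat_lit 112) (nat_lit 141) (nat_lit 137)))) (PT.nd (nat_lit 156) (PT.nd (nat_lit 78) (PT.lf (nat_lit 12464) (nat_lit 6) (nat_lit 164) (nat_lit 4) (nat_lit 113) (nat_lit 141) (nat_lit 136)) (PT.lf (nat_lit 12996) (nat_lit 6) (nat_lit 171) (nat_lit 4) (nat_lit 114) (nat_lit 141) (nat_lit 135))) (PT.nd (nat_lit 78) (PT.lf (nat_lit 14136) (nat_lit 6) (nat_lit 186) (nat_lit 4) (nat_lit 115) (nat_lit 141) (nat_lit 134)) (PT.lf (nat_lit 15200) (nat_lit 6) (nat_lit 200) (nat_lit 4) (nat_lit 116) (nat_lit 141) (nat_lit 133))))))) (PT.nd (nat_lit 1014) (PT.nd (nat_lit 468) (PT.nd (nat_lit 234) (PT.nd (nat_lit 78) (PT.lf (nat_lit 16188) (nat_lit 6) (nat_lit 213) (nat_lit 4) (nat_lit 117) (nat_lit 141) (nat_lit 132)) (PT.nd (nat_lit 78) (PT.lf (nat_lit 17100) (nat_lit 6) (nat_lit 225) (nat_lit 4) (nat_lit 118) (nat_lit 141) (nat_lit 131)) (PT.lf (nat_lit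 17936) (nat_lit 6) (nat_lit 236) (nat_lit 4) (nat_lit 119) (nat_lit 141) (nat_lit 130)))) (PT.nd (nat_lit 78) (PT.lf (nat_lit 17860) (nat_lit 6) (nat_lit 235) (nat_lit 4) (nat_lit 120) (nat_lit 141) (nat_lit 129)) (PT.nd (nat_lit 78) (PT.lf (nat_lit 17784) (nat_lit 6) (nat_lit 234) (nat_lit 4) (nat_lit 121) (nat_lit 141) (nat_lit 128)) (PT.lf (nat_lit 17708) (nat_lit 6) (nat_lit 233) (nat_lit 4) (nat_lit 122) (nat_lit 141) (nat_lit 127))))) (PT.nd (nat_lit 234) (PT.nd (nat_lit 78) (PT.lf (nat_lit 17632) (nat_lit 6) (nat_lit 232) (nat_lit 4) (nat_lit 123) (nat_lit 141) (nat_lit 126)) (PT.nd (nat_lit 78) (PT.lf (nat_lit 17556) (nat_lit 6) (nat_lit 231) (nat_lit 4) (nat_lit 124) (nat_lit 141) (nat_lit 125)) (PT.lf (nat_lit 17556) (nat_lit 6) (nat_lit 231) (nat_lit 2) (nat_lit 125) (nat_lit 141) (nat_lit 124)))) (PT.nd (nat_lit 156) (PT.nd (nat_lit 78) (PT.lf (nat_lit 17632) (nat_lit 6) (nat_lit 232)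 (nat_lit 2) (nat_lit 126) (nat_lit 141) (nat_lit 123)) (PT.lf (nat_lit 17708) (nat_lit 6) (nat_lit 233) (nat_lit 2) (nat_lit 127) (nat_lit 141) (nat_lit 122))) (PT.nd (nat_lit 78) (PT.lf (nat_lit 17784) (nat_lit 6) (nat_lit 234) (nat_lit 2) (nat_lit 128) (nat_lit 141) (nat_lit 121)) (PT.lf (nat_lit 17860) (nat_lit 6) (nat_lit 235) (nat_lit 2) (nat_lit 129) (nat_lit 141) (nat_lit 120)))))) (PT.nd (nat_lit 468) (PT.nd (nat_lit 234) (PT.nd (nat_lit 78) (PT.lf (nat_lit 17936) (nat_lit 6) (nat_lit 236) (nat_lit 2) (nat_lit 130) (nat_lit 141) (nat_lit 119)) (PT.nd (nat_lit 78) (PT.lf (nat_lit 17100) (nat_lit 6) (nat_lit 225) (nat_lit 2) (nat_lit 131) (nat_lit 141) (nat_lit 118)) (PT.lf (nat_lit 16188) (nat_lit 6) (nat_lit 213) (nat_lit 2) (nat_lit 132) (nat_lit 141) (nat_lit 117)))) (PT.nd (nat_lit 78) (PT.lf (nat_lit 15200) (nat_lit 6) (nat_lit 200) (nat_lit 2) (nat_lit 133) (nat_lit 141) (nat_lit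 116)) (PT.nd (nat_lit 78) (PT.lf (nat_lit 14136) (nat_lit 6) (nat_lit 186) (nat_lit 2) (nat_lit 134) (nat_lit 141) (nat_lit 115)) (PT.lf (nat_lit 12996) (nat_lit 6) (nat_lit 171) (nat_lit 2) (nat_lit 135) (nat_lit 141) (nat_lit 114))))) (PT.nd (nat_lit 234) (PT.nd (nat_lit 78) (PT.lf (nat_lit 12464) (nat_lit 6) (nat_lit 164) (nat_lit 2) (nat_lit 136) (nat_lit 141) (nat_lit 113)) (PT.nd (nat_lit 78) (PT.lf (nat_lit 11856) (nat_lit 6) (nat_lit 156) (nat_lit 2) (nat_lit 137) (nat_lit 141) (nat_lit 112)) (PT.lf (nat_lit 11324) (nat_lit 6) (nat_lit 149) (nat_lit 2) (nat_lit 138) (nat_lit 141) (nat_lit 111)))) (PT.nd (nat_lit 156) (PT.nd (nat_lit 78) (PT.lf (nat_lit 10792) (nat_lit 6) (nat_lit 142) (nat_lit 2) (nat_lit 139) (nat_lit 141) (nat_lit 110)) (PT.lf (nat_lit 10336) (nat_lit 6) (nat_lit 136) (nat_lit 2) (nat_lit 140) (nat_lit 141) (nat_lit 109))) (PT.nd (nat_lit 78) (PT.lf (nat_lit 9880) (nat_lit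 3) (nat_lit 130) (nat_lit 0) (nat_lit 141) (nat_lit 141) (nat_lit 108)) (PT.lf (nat_lit 9348) (nat_lit 6) (nat_lit 123) (nat_lit 0) (nat_lit 142) (nat_lit 141) (nat_lit 107))))))))
noncomputable def pc22 : PT := (PT.nd (nat_lit 38610) (PT.nd (nat_lit 37596) (PT.nd (nat_lit 468) (PT.nd (nat_lit 234) (PT.nd (nat_lit 78) (PT.lf (nat_lit 8816) (nat_lit 6) (nat_lit 116) (nat_lit 0) (nat_lit 143) (nat_lit 141) (nat_lit 106)) (PT.nd (nat_lit 78) (PT.lf (nat_lit 8360) (nat_lit 6) (nat_lit 110) (nat_lit 0) (nat_lit 144) (nat_lit 141) (nat_lit 105)) (PT.lf (nat_lit 7904) (nat_lit 6) (nat_lit 104) (nat_lit 0) (nat_lit 145) (nat_lit 141) (nat_lit 104)))) (PT.nd (nat_lit 78) (PT.lf (nat_lit 7448) (nat_lit 6) (nat_lit 98) (nat_lit 0) (nat_lit 146) (nat_lit 141) (nat_lit 103)) (PT.nd (nat_lit 78) (PT.lf (nat_lit 6992) (nat_lit 6) (nat_lit 92) (nat_lit 0) (nat_lit 147) (nat_lit 141) (nat_lit 102)) (PT.lf (nat_lit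 6612) (nat_lit 6) (nat_lit 87) (nat_lit 0) (nat_lit 148) (nat_lit 141) (nat_lit 101))))) (PT.nd (nat_lit 36894) (PT.nd (nat_lit 36738) (PT.lf (nat_lit 6156) (nat_lit 6) (nat_lit 81) (nat_lit 0) (nat_lit 149) (nat_lit 141) (nat_lit 100)) (PT.nd (nat_lit 78) (PT.lf (nat_lit 5852) (nat_lit 6) (nat_lit 77) (nat_lit 5) (nat_lit 99) (nat_lit 142) (nat_lit 149)) (PT.lf (nat_lit 6232) (nat_lit 6) (nat_lit 82) (nat_lit 5) (nat_lit 100) (nat_lit 142) (nat_lit 148)))) (PT.nd (nat_lit 78) (PT.lf (nat_lit 6688) (nat_lit 6) (nat_lit 88) (nat_lit 5) (nat_lit 101) (nat_lit 142) (nat_lit 147)) (PT.nd (nat_lit 78) (PT.lf (nat_lit 7068) (nat_lit 6) (nat_lit 93) (nat_lit 5) (nat_lit 102) (nat_lit 142) (nat_lit 146)) (PT.lf (nat_lit 7524) (nat_lit 6) (nat_lit 99) (nat_lit 5) (nat_lit 103) (nat_lit 142) (nat_lit 145)))))) (PT.nd (nat_lit 468) (PT.nd (nat_lit 234) (PT.nd (nat_lit 78) (PT.lf (nat_lit 7980) (nat_lit 6)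 (nat_lit 105) (nat_lit 5) (nat_lit 104) (nat_lit 142) (nat_lit 144)) (PT.nd (nat_lit 78) (PT.lf (nat_lit 8436) (nat_lit 6) (nat_lit 111) (nat_lit 5) (nat_lit 105) (nat_lit 142) (nat_lit 143)) (PT.lf (nat_lit 8892) (nat_lit 3) (nat_lit 117) (nat_lit 4) (nat_lit 106) (nat_lit 142) (nat_lit 142)))) (PT.nd (nat_lit 78) (PT.lf (nat_lit 9348) (nat_lit 6) (nat_lit 123) (nat_lit 4) (nat_lit 107) (nat_lit 142) (nat_lit 141)) (PT.nd (nat_lit 78) (PT.lf (nat_lit 9804) (nat_lit 6) (nat_lit 129) (nat_lit 4) (nat_lit 108) (nat_lit 142) (nat_lit 140)) (PT.lf (nat_lit 10260) (nat_lit 6) (nat_lit 135) (nat_lit 4) (nat_lit 109) (nat_lit 142) (nat_lit 139))))) (PT.nd (nat_lit 234) (PT.nd (nat_lit 78) (PT.lf (nat_lit 10716) (nat_lit 6) (nat_lit 141) (nat_lit 4) (nat_lit 110) (nat_lit 142) (nat_lit 138)) (PT.nd (nat_lit 78) (PT.lf (nat_lit 11248) (nat_lit 6) (nat_lit 148) (nat_lit 4) (nat_lit 111) (nat_lit 142) (nat_lit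 137)) (PT.lf (nat_lit 11780) (nat_lit 6) (nat_lit 155) (nat_lit 4) (nat_lit 112) (nat_lit 142) (nat_lit 136)))) (PT.nd (nat_lit 156) (PT.nd (nat_lit 78) (PT.lf (nat_lit 12388) (nat_lit 6) (nat_lit 163) (nat_lit 4) (nat_lit 113) (nat_lit 142) (nat_lit 135)) (PT.lf (nat_lit 12920) (nat_lit 6) (nat_lit 170) (nat_lit 4) (nat_lit 114) (nat_lit 142) (nat_lit 134))) (PT.nd (nat_lit 78) (PT.lf (nat_lit 14060) (nat_lit 6) (nat_lit 185) (nat_lit 4) (nat_lit 115) (nat_lit 142) (nat_lit 133)) (PT.lf (nat_lit 15124) (nat_lit 6) (nat_lit 199) (nat_lit 4) (nat_lit 116) (nat_lit 142) (nat_lit 132))))))) (PT.nd (nat_lit 1014) (PT.nd (nat_lit 468) (PT.nd (nat_lit 234) (PT.nd (nat_lit 78) (PT.lf (nat_lit 16112) (nat_lit 6) (nat_lit 212) (nat_lit 4) (nat_lit 117) (nat_lit 142) (nat_lit 131)) (PT.nd (nat_lit 78) (PT.lf (nat_lit 17024) (nat_lit 6) (nat_lit 224) (nat_lit 4) (nat_lit 118) (nat_lit 142) (nat_lit 130))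 (PT.lf (nat_lit 16948) (nat_lit 6) (nat_lit 223) (nat_lit 4) (nat_lit 119) (nat_lit 142) (nat_lit 129)))) (PT.nd (nat_lit 78) (PT.lf (nat_lit 16872) (nat_lit 6) (nat_lit 222) (nat_lit 4) (nat_lit 120) (nat_lit 142) (nat_lit 128)) (PT.nd (nat_lit 78) (PT.lf (nat_lit 16796) (nat_lit 6) (nat_lit 221) (nat_lit 4) (nat_lit 121) (nat_lit 142) (nat_lit 127)) (PT.lf (nat_lit 16720) (nat_lit 6) (nat_lit 220) (nat_lit 4) (nat_lit 122) (nat_lit 142) (nat_lit 126))))) (PT.nd (nat_lit 234) (PT.nd (nat_lit 78) (PT.lf (nat_lit 16644) (nat_lit 6) (nat_lit 219) (nat_lit 4) (nat_lit 123) (nat_lit 142) (nat_lit 125)) (PT.nd (nat_lit 78) (PT.lf (nat_lit 16568) (nat_lit 3) (nat_lit 218) (nat_lit 2) (nat_lit 124) (nat_lit 142) (nat_lit 124)) (PT.lf (nat_lit 16644) (nat_lit 6) (nat_lit 219) (nat_lit 2) (nat_lit 125) (nat_lit 142) (nat_lit 123)))) (PT.nd (nat_lit 156) (PT.nd (nat_lit 78) (PT.lf (nat_lit 16720) (nat_lit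 6) (nat_lit 220) (nat_lit 2) (nat_lit 126) (nat_lit 142) (nat_lit 122)) (PT.lf (nat_lit 16796) (nat_lit 6) (nat_lit 221) (nat_lit 2) (nat_lit 127) (nat_lit 142) (nat_lit 121))) (PT.nd (nat_lit 78) (PT.lf (nat_lit 16872) (nat_lit 6) (nat_lit 222) (nat_lit 2) (nat_lit 128) (nat_lit 142) (nat_lit 120)) (PT.lf (nat_lit 16948) (nat_lit 6) (nat_lit 223) (nat_lit 2) (nat_lit 129) (nat_lit 142) (nat_lit 119)))))) (PT.nd (nat_lit 468) (PT.nd (nat_lit 234) (PT.nd (nat_lit 78) (PT.lf (nat_lit 17024) (nat_lit 6) (nat_lit 224) (nat_lit 2) (nat_lit 130) (nat_lit 142) (nat_lit 118)) (PT.nd (nat_lit 78) (PT.lf (nat_lit 16112) (nat_lit 6) (nat_lit 212) (nat_lit 2) (nat_lit 131) (nat_lit 142) (nat_lit 117)) (PT.lf (nat_lit 15124) (nat_lit 6) (nat_lit 199) (nat_lit 2) (nat_lit 132) (nat_lit 142) (nat_lit 116)))) (PT.nd (nat_lit 78) (PT.lf (nat_lit 14060) (nat_lit 6) (nat_lit 185) (nat_lit 2) (nat_lit 133) (nat_lit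 142) (nat_lit 115)) (PT.nd (nat_lit 78) (PT.lf (nat_lit 12920) (nat_lit 6) (nat_lit 170) (nat_lit 2) (nat_lit 134) (nat_lit 142) (nat_lit 114)) (PT.lf (nat_lit 12388) (nat_lit 6) (nat_lit 163) (nat_lit 2) (nat_lit 135) (nat_lit 142) (nat_lit 113))))) (PT.nd (nat_lit 234) (PT.nd (nat_lit 78) (PT.lf (nat_lit 11780) (nat_lit 6) (nat_lit 155) (nat_lit 2) (nat_lit 136) (nat_lit 142) (nat_lit 112)) (PT.nd (nat_lit 78) (PT.lf (nat_lit 11248) (nat_lit 6) (nat_lit 148) (nat_lit 2) (nat_lit 137) (nat_lit 142) (nat_lit 111)) (PT.lf (nat_lit 10716) (nat_lit 6) (nat_lit 141) (nat_lit 2) (nat_lit 138) (nat_lit 142) (nat_lit 110)))) (PT.nd (nat_lit 156) (PT.nd (nat_lit 78) (PT.lf (nat_lit 10260) (nat_lit 6) (nat_lit 135) (nat_lit 2) (nat_lit 139) (nat_lit 142) (nat_lit 109)) (PT.lf (nat_lit 9804) (nat_lit 6) (nat_lit 129) (nat_lit 2) (nat_lit 140) (nat_lit 142) (nat_lit 108))) (PT.nd (nat_lit 78) (PT.lf (nat_lit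 9348) (nat_lit 6) (nat_lit 123) (nat_lit 2) (nat_lit 141) (nat_lit 142) (nat_lit 107)) (PT.lf (nat_lit 8892) (nat_lit 3) (nat_lit 117) (nat_lit 0) (nat_lit 142) (nat_lit 142) (nat_lit 106))))))))
noncomputable def pc23 : PT := (PT.nd (nat_lit 38532) (PT.nd (nat_lit 37518) (PT.nd (nat_lit 468) (PT.nd (nat_lit 234) (PT.nd (nat_lit 78) (PT.lf (nat_lit 8436) (nat_lit 6) (nat_lit 111) (nat_lit 0) (nat_lit 143) (nat_lit 142) (nat_lit 105)) (PT.nd (nat_lit 78) (PT.lf (nat_lit 7980) (nat_lit 6) (nat_lit 105) (nat_lit 0) (nat_lit 144) (nat_lit 142) (nat_lit 104)) (PT.lf (nat_lit 7524) (nat_lit 6) (nat_lit 99) (nat_lit 0) (nat_lit 145) (nat_lit 142) (nat_lit 103)))) (PT.nd (nat_lit 78) (PT.lf (nat_lit 7068) (nat_lit 6) (nat_lit 93) (nat_lit 0) (nat_lit 146) (nat_lit 142) (nat_lit 102)) (PT.nd (nat_lit 78) (PT.lf (nat_lit 6688) (nat_lit 6) (nat_lit 88) (nat_lit 0) (nat_lit 147) (nat_lit 142) (nat_lit 101))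 (PT.lf (nat_lit 6232) (nat_lit 6) (nat_lit 82) (nat_lit 0) (nat_lit 148) (nat_lit 142) (nat_lit 100))))) (PT.nd (nat_lit 36738) (PT.nd (nat_lit 36582) (PT.lf (nat_lit 5852) (nat_lit 6) (nat_lit 77) (nat_lit 0) (nat_lit 149) (nat_lit 142) (nat_lit 99)) (PT.nd (nat_lit 78) (PT.lf (nat_lit 5244) (nat_lit 6) (nat_lit 69) (nat_lit 5) (nat_lit 97) (nat_lit 143) (nat_lit 150)) (PT.lf (nat_lit 5548) (nat_lit 6) (nat_lit 73) (nat_lit 5) (nat_lit 98) (nat_lit 143) (nat_lit 149)))) (PT.nd (nat_lit 156) (PT.nd (nat_lit 78) (PT.lf (nat_lit 5928) (nat_lit 6) (nat_lit 78) (nat_lit 5) (nat_lit 99) (nat_lit 143) (nat_lit 148)) (PT.lf (nat_lit 6308) (nat_lit 6) (nat_lit 83) (nat_lit 5) (nat_lit 100) (nat_lit 143) (nat_lit 147))) (PT.nd (nat_lit 78) (PT.lf (nat_lit 6764) (nat_lit 6) (nat_lit 89) (nat_lit 5) (nat_lit 101) (nat_lit 143) (nat_lit 146)) (PT.lf (nat_lit 7144) (nat_lit 6) (nat_lit 94) (nat_lit 5) (nat_lit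 102) (nat_lit 143) (nat_lit 145)))))) (PT.nd (nat_lit 468) (PT.nd (nat_lit 234) (PT.nd (nat_lit 78) (PT.lf (nat_lit 7600) (nat_lit 6) (nat_lit 100) (nat_lit 5) (nat_lit 103) (nat_lit 143) (nat_lit 144)) (PT.nd (nat_lit 78) (PT.lf (nat_lit 8056) (nat_lit 3) (nat_lit 106) (nat_lit 4) (nat_lit 104) (nat_lit 143) (nat_lit 143)) (PT.lf (nat_lit 8436) (nat_lit 6) (nat_lit 111) (nat_lit 4) (nat_lit 105) (nat_lit 143) (nat_lit 142)))) (PT.nd (nat_lit 78) (PT.lf (nat_lit 8816) (nat_lit 6) (nat_lit 116) (nat_lit 4) (nat_lit 106) (nat_lit 143) (nat_lit 141)) (PT.nd (nat_lit 78) (PT.lf (nat_lit 9272) (nat_lit 6) (nat_lit 122) (nat_lit 4) (nat_lit 107) (nat_lit 143) (nat_lit 140)) (PT.lf (nat_lit 9728) (nat_lit 6) (nat_lit 128) (nat_lit 4) (nat_lit 108) (nat_lit 143) (nat_lit 139))))) (PT.nd (nat_lit 234) (PT.nd (nat_lit 78) (PT.lf (nat_lit 10184) (nat_lit 6) (nat_lit 134) (nat_lit 4) (nat_lit 109) (nat_lit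 143) (nat_lit 138)) (PT.nd (nat_lit 78) (PT.lf (nat_lit 10640) (nat_lit 6) (nat_lit 140) (nat_lit 4) (nat_lit 110) (nat_lit 143) (nat_lit 137)) (PT.lf (nat_lit 11172) (nat_lit 6) (nat_lit 147) (nat_lit 4) (nat_lit 111) (nat_lit 143) (nat_lit 136)))) (PT.nd (nat_lit 156) (PT.nd (nat_lit 78) (PT.lf (nat_lit 11704) (nat_lit 6) (nat_lit 154) (nat_lit 4) (nat_lit 112) (nat_lit 143) (nat_lit 135)) (PT.lf (nat_lit 12312) (nat_lit 6) (nat_lit 162) (nat_lit 4) (nat_lit 113) (nat_lit 143) (nat_lit 134))) (PT.nd (nat_lit 78) (PT.lf (nat_lit 12844) (nat_lit 6) (nat_lit 169) (nat_lit 4) (nat_lit 114) (nat_lit 143) (nat_lit 133)) (PT.lf (nat_lit 13984) (nat_lit 6) (nat_lit 184) (nat_lit 4) (nat_lit 115) (nat_lit 143) (nat_lit 132))))))) (PT.nd (nat_lit 1014) (PT.nd (nat_lit 468) (PT.nd (nat_lit 234) (PT.nd (nat_lit 78) (PT.lf (nat_lit 15048) (nat_lit 6) (nat_lit 198) (nat_lit 4) (nat_lit 116) (nat_lit 143)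 (nat_lit 131)) (PT.nd (nat_lit 78) (PT.lf (nat_lit 16036) (nat_lit 6) (nat_lit 211) (nat_lit 4) (nat_lit 117) (nat_lit 143) (nat_lit 130)) (PT.lf (nat_lit 15960) (nat_lit 6) (nat_lit 210) (nat_lit 4) (nat_lit 118) (nat_lit 143) (nat_lit 129)))) (PT.nd (nat_lit 78) (PT.lf (nat_lit 15884) (nat_lit 6) (nat_lit 209) (nat_lit 4) (nat_lit 119) (nat_lit 143) (nat_lit 128)) (PT.nd (nat_lit 78) (PT.lf (nat_lit 15808) (nat_lit 6) (nat_lit 208) (nat_lit 4) (nat_lit 120) (nat_lit 143) (nat_lit 127)) (PT.lf (nat_lit 15732) (nat_lit 6) (nat_lit 207) (nat_lit 4) (nat_lit 121) (nat_lit 143) (nat_lit 126))))) (PT.nd (nat_lit 234) (PT.nd (nat_lit 78) (PT.lf (nat_lit 15656) (nat_lit 6) (nat_lit 206) (nat_lit 4) (nat_lit 122) (nat_lit 143) (nat_lit 125)) (PT.nd (nat_lit 78) (PT.lf (nat_lit 15580) (nat_lit 6) (nat_lit 205) (nat_lit 4) (nat_lit 123) (nat_lit 143) (nat_lit 124)) (PT.lf (nat_lit 15580) (nat_lit 6) (nat_lit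 205) (nat_lit 2) (nat_lit 124) (nat_lit 143) (nat_lit 123)))) (PT.nd (nat_lit 156) (PT.nd (nat_lit 78) (PT.lf (nat_lit 15656) (nat_lit 6) (nat_lit 206) (nat_lit 2) (nat_lit 125) (nat_lit 143) (nat_lit 122)) (PT.lf (nat_lit 15732) (nat_lit 6) (nat_lit 207) (nat_lit 2) (nat_lit 126) (nat_lit 143) (nat_lit 121))) (PT.nd (nat_lit 78) (PT.lf (nat_lit 15808) (nat_lit 6) (nat_lit 208) (nat_lit 2) (nat_lit 127) (nat_lit 143) (nat_lit 120)) (PT.lf (nat_lit 15884) (nat_lit 6) (nat_lit 209) (nat_lit 2) (nat_lit 128) (nat_lit 143) (nat_lit 119)))))) (PT.nd (nat_lit 468) (PT.nd (nat_lit 234) (PT.nd (nat_lit 78) (PT.lf (nat_lit 15960) (nat_lit 6) (nat_lit 210) (nat_lit 2) (nat_lit 129) (nat_lit 143) (nat_lit 118)) (PT.nd (nat_lit 78) (PT.lf (nat_lit 16036) (nat_lit 6) (nat_lit 211) (nat_lit 2) (nat_lit 130) (nat_lit 143) (nat_lit 117)) (PT.lf (nat_lit 15048) (nat_lit 6) (nat_lit 198) (nat_lit 2) (nat_lit 131)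 (nat_lit 143) (nat_lit 116)))) (PT.nd (nat_lit 78) (PT.lf (nat_lit 13984) (nat_lit 6) (nat_lit 184) (nat_lit 2) (nat_lit 132) (nat_lit 143) (nat_lit 115)) (PT.nd (nat_lit 78) (PT.lf (nat_lit 12844) (nat_lit 6) (nat_lit 169) (nat_lit 2) (nat_lit 133) (nat_lit 143) (nat_lit 114)) (PT.lf (nat_lit 12312) (nat_lit 6) (nat_lit 162) (nat_lit 2) (nat_lit 134) (nat_lit 143) (nat_lit 113))))) (PT.nd (nat_lit 234) (PT.nd (nat_lit 78) (PT.lf (nat_lit 11704) (nat_lit 6) (nat_lit 154) (nat_lit 2) (nat_lit 135) (nat_lit 143) (nat_lit 112)) (PT.nd (nat_lit 78) (PT.lf (nat_lit 11172) (nat_lit 6) (nat_lit 147) (nat_lit 2) (nat_lit 136) (nat_lit 143) (nat_lit 111)) (PT.lf (nat_lit 10640) (nat_lit 6) (nat_lit 140) (nat_lit 2) (nat_lit 137) (nat_lit 143) (nat_lit 110)))) (PT.nd (nat_lit 156) (PT.nd (nat_lit 78) (PT.lf (nat_lit 10184) (nat_lit 6) (nat_lit 134) (nat_lit 2) (nat_lit 138) (nat_lit 143) (nat_lit 109))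 (PT.lf (nat_lit 9728) (nat_lit 6) (nat_lit 128) (nat_lit 2) (nat_lit 139) (nat_lit 143) (nat_lit 108))) (PT.nd (nat_lit 78) (PT.lf (nat_lit 9272) (nat_lit 6) (nat_lit 122) (nat_lit 2) (nat_lit 140) (nat_lit 143) (nat_lit 107)) (PT.lf (nat_lit 8816) (nat_lit 6) (nat_lit 116) (nat_lit 2) (nat_lit 141) (nat_lit 143) (nat_lit 106))))))))
noncomputable def pc24 : PT := (PT.nd (nat_lit 38298) (PT.nd (nat_lit 37284) (PT.nd (nat_lit 468) (PT.nd (nat_lit 234) (PT.nd (nat_lit 78) (PT.lf (nat_lit 8436) (nat_lit 6) (nat_lit 111) (nat_lit 2) (nat_lit 142) (nat_lit 143) (nat_lit 105)) (PT.nd (nat_lit 78) (PT.lf (nat_lit 8056) (nat_lit 3) (nat_lit 106) (nat_lit 0) (nat_lit 143) (nat_lit 143) (nat_lit 104)) (PT.lf (nat_lit 7600) (nat_lit 6) (nat_lit 100) (nat_lit 0) (nat_lit 144) (nat_lit 143) (nat_lit 103)))) (PT.nd (nat_lit 78) (PT.lf (nat_lit 7144) (nat_lit 6) (nat_lit 94) (nat_lit 0) (nat_lit 145) (nat_lit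 143) (nat_lit 102)) (PT.nd (nat_lit 78) (PT.lf (nat_lit 6764) (nat_lit 6) (nat_lit 89) (nat_lit 0) (nat_lit 146) (nat_lit 143) (nat_lit 101)) (PT.lf (nat_lit 6308) (nat_lit 6) (nat_lit 83) (nat_lit 0) (nat_lit 147) (nat_lit 143) (nat_lit 100))))) (PT.nd (nat_lit 36582) (PT.nd (nat_lit 78) (PT.lf (nat_lit 5928) (nat_lit 6) (nat_lit 78) (nat_lit 0) (nat_lit 148) (nat_lit 143) (nat_lit 99)) (PT.nd (nat_lit 78) (PT.lf (nat_lit 5548) (nat_lit 6) (nat_lit 73) (nat_lit 0) (nat_lit 149) (nat_lit 143) (nat_lit 98)) (PT.lf (nat_lit 5244) (nat_lit 6) (nat_lit 69) (nat_lit 0) (nat_lit 150) (nat_lit 143) (nat_lit 97)))) (PT.nd (nat_lit 78) (PT.lf (nat_lit 4940) (nat_lit 6) (nat_lit 65) (nat_lit 5) (nat_lit 96) (nat_lit 144) (nat_lit 150)) (PT.nd (nat_lit 78) (PT.lf (nat_lit 5320) (nat_lit 6) (nat_lit 70) (nat_lit 5) (nat_lit 97) (nat_lit 144) (nat_lit 149)) (PT.lf (nat_lit 5624) (nat_lit 6) (nat_lit 74) (nat_lit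 5) (nat_lit 98) (nat_lit 144) (nat_lit 148)))))) (PT.nd (nat_lit 468) (PT.nd (nat_lit 234) (PT.nd (nat_lit 78) (PT.lf (nat_lit 6004) (nat_lit 6) (nat_lit 79) (nat_lit 5) (nat_lit 99) (nat_lit 144) (nat_lit 147)) (PT.nd (nat_lit 78) (PT.lf (nat_lit 6384) (nat_lit 6) (nat_lit 84) (nat_lit 5) (nat_lit 100) (nat_lit 144) (nat_lit 146)) (PT.lf (nat_lit 6840) (nat_lit 6) (nat_lit 90) (nat_lit 5) (nat_lit 101) (nat_lit 144) (nat_lit 145)))) (PT.nd (nat_lit 78) (PT.lf (nat_lit 7220) (nat_lit 3) (nat_lit 95) (nat_lit 4) (nat_lit 102) (nat_lit 144) (nat_lit 144)) (PT.nd (nat_lit 78) (PT.lf (nat_lit 7600) (nat_lit 6) (nat_lit 100) (nat_lit 4) (nat_lit 103) (nat_lit 144) (nat_lit 143)) (PT.lf (nat_lit 7980) (nat_lit 6) (nat_lit 105) (nat_lit 4) (nat_lit 104) (nat_lit 144) (nat_lit 142))))) (PT.nd (nat_lit 234) (PT.nd (nat_lit 78) (PT.lf (nat_lit 8360) (nat_lit 6) (nat_lit 110) (nat_lit 4) (nat_lit 105) (nat_lit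 144) (nat_lit 141)) (PT.nd (nat_lit 78) (PT.lf (nat_lit 8740) (nat_lit 6) (nat_lit 115) (nat_lit 4) (nat_lit 106) (nat_lit 144) (nat_lit 140)) (PT.lf (nat_lit 9196) (nat_lit 6) (nat_lit 121) (nat_lit 4) (nat_lit 107) (nat_lit 144) (nat_lit 139)))) (PT.nd (nat_lit 156) (PT.nd (nat_lit 78) (PT.lf (nat_lit 9652) (nat_lit 6) (nat_lit 127) (nat_lit 4) (nat_lit 108) (nat_lit 144) (nat_lit 138)) (PT.lf (nat_lit 10108) (nat_lit 6) (nat_lit 133) (nat_lit 4) (nat_lit 109) (nat_lit 144) (nat_lit 137))) (PT.nd (nat_lit 78) (PT.lf (nat_lit 10564) (nat_lit 6) (nat_lit 139) (nat_lit 4) (nat_lit 110) (nat_lit 144) (nat_lit 136)) (PT.lf (nat_lit 11096) (nat_lit 6) (nat_lit 146) (nat_lit 4) (nat_lit 111) (nat_lit 144) (nat_lit 135))))))) (PT.nd (nat_lit 1014) (PT.nd (nat_lit 468) (PT.nd (nat_lit 234) (PT.nd (nat_lit 78) (PT.lf (nat_lit 11628) (nat_lit 6) (nat_lit 153) (nat_lit 4) (nat_lit 112) (nat_lit 144) (nat_lit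 134)) (PT.nd (nat_lit 78) (PT.lf (nat_lit 12236) (nat_lit 6) (nat_lit 161) (nat_lit 4) (nat_lit 113) (nat_lit 144) (nat_lit 133)) (PT.lf (nat_lit 12768) (nat_lit 6) (nat_lit 168) (nat_lit 4) (nat_lit 114) (nat_lit 144) (nat_lit 132)))) (PT.nd (nat_lit 78) (PT.lf (nat_lit 13908) (nat_lit 6) (nat_lit 183) (nat_lit 4) (nat_lit 115) (nat_lit 144) (nat_lit 131)) (PT.nd (nat_lit 78) (PT.lf (nat_lit 14972) (nat_lit 6) (nat_lit 197) (nat_lit 4) (nat_lit 116) (nat_lit 144) (nat_lit 130)) (PT.lf (nat_lit 14896) (nat_lit 6) (nat_lit 196) (nat_lit 4) (nat_lit 117) (nat_lit 144) (nat_lit 129))))) (PT.nd (nat_lit 234) (PT.nd (nat_lit 78) (PT.lf (nat_lit 14820) (nat_lit 6) (nat_lit 195) (nat_lit 4) (nat_lit 118) (nat_lit 144) (nat_lit 128)) (PT.nd (nat_lit 78) (PT.lf (nat_lit 14744) (nat_lit 6) (nat_lit 194) (nat_lit 4) (nat_lit 119) (nat_lit 144) (nat_lit 127)) (PT.lf (nat_lit 14668) (nat_lit 6) (nat_lit 193)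 (nat_lit 4) (nat_lit 120) (nat_lit 144) (nat_lit 126)))) (PT.nd (nat_lit 156) (PT.nd (nat_lit 78) (PT.lf (nat_lit 14592) (nat_lit 6) (nat_lit 192) (nat_lit 4) (nat_lit 121) (nat_lit 144) (nat_lit 125)) (PT.lf (nat_lit 14516) (nat_lit 6) (nat_lit 191) (nat_lit 4) (nat_lit 122) (nat_lit 144) (nat_lit 124))) (PT.nd (nat_lit 78) (PT.lf (nat_lit 14440) (nat_lit 3) (nat_lit 190) (nat_lit 2) (nat_lit 123) (nat_lit 144) (nat_lit 123)) (PT.lf (nat_lit 14516) (nat_lit 6) (nat_lit 191) (nat_lit 2) (nat_lit 124) (nat_lit 144) (nat_lit 122)))))) (PT.nd (nat_lit 468) (PT.nd (nat_lit 234) (PT.nd (nat_lit 78) (PT.lf (nat_lit 14592) (nat_lit 6) (nat_lit 192) (nat_lit 2) (nat_lit 125) (nat_lit 144) (nat_lit 121)) (PT.nd (nat_lit 78) (PT.lf (nat_lit 14668) (nat_lit 6) (nat_lit 193) (nat_lit 2) (nat_lit 126) (nat_lit 144) (nat_lit 120)) (PT.lf (nat_lit 14744) (nat_lit 6) (nat_lit 194) (nat_lit 2) (nat_lit 127) (nat_lit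 144) (nat_lit 119)))) (PT.nd (nat_lit 78) (PT.lf (nat_lit 14820) (nat_lit 6) (nat_lit 195) (nat_lit 2) (nat_lit 128) (nat_lit 144) (nat_lit 118)) (PT.nd (nat_lit 78) (PT.lf (nat_lit 14896) (nat_lit 6) (nat_lit 196) (nat_lit 2) (nat_lit 129) (nat_lit 144) (nat_lit 117)) (PT.lf (nat_lit 14972) (nat_lit 6) (nat_lit 197) (nat_lit 2) (nat_lit 130) (nat_lit 144) (nat_lit 116))))) (PT.nd (nat_lit 234) (PT.nd (nat_lit 78) (PT.lf (nat_lit 13908) (nat_lit 6) (nat_lit 183) (nat_lit 2) (nat_lit 131) (nat_lit 144) (nat_lit 115)) (PT.nd (nat_lit 78) (PT.lf (nat_lit 12768) (nat_lit 6) (nat_lit 168) (nat_lit 2) (nat_lit 132) (nat_lit 144) (nat_lit 114)) (PT.lf (nat_lit 12236) (nat_lit 6) (nat_lit 161) (nat_lit 2) (nat_lit 133) (nat_lit 144) (nat_lit 113)))) (PT.nd (nat_lit 156) (PT.nd (nat_lit 78) (PT.lf (nat_lit 11628) (nat_lit 6) (nat_lit 153) (nat_lit 2) (nat_lit 134) (nat_lit 144) (nat_lit 112)) (PT.lf (nat_lit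 11096) (nat_lit 6) (nat_lit 146) (nat_lit 2) (nat_lit 135) (nat_lit 144) (nat_lit 111))) (PT.nd (nat_lit 78) (PT.lf (nat_lit 10564) (nat_lit 6) (nat_lit 139) (nat_lit 2) (nat_lit 136) (nat_lit 144) (nat_lit 110)) (PT.lf (nat_lit 10108) (nat_lit 6) (nat_lit 133) (nat_lit 2) (nat_lit 137) (nat_lit 144) (nat_lit 109))))))))
noncomputable def pc25 : PT := (PT.nd (nat_lit 38220) (PT.nd (nat_lit 37206) (PT.nd (nat_lit 468) (PT.nd (nat_lit 234) (PT.nd (nat_lit 78) (PT.lf (nat_lit 9652) (nat_lit 6) (nat_lit 127) (nat_lit 2) (nat_lit 138) (nat_lit 144) (nat_lit 108)) (PT.nd (nat_lit 78) (PT.lf (nat_lit 9196) (nat_lit 6) (nat_lit 121) (nat_lit 2) (nat_lit 139) (nat_lit 144) (nat_lit 107)) (PT.lf (nat_lit 8740) (nat_lit 6) (nat_lit 115) (nat_lit 2) (nat_lit 140) (nat_lit 144) (nat_lit 106)))) (PT.nd (nat_lit 78) (PT.lf (nat_lit 8360) (nat_lit 6) (nat_lit 110) (nat_lit 2) (nat_lit 141) (nat_lit 144) (nat_lit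 105)) (PT.nd (nat_lit 78) (PT.lf (nat_lit 7980) (nat_lit 6) (nat_lit 105) (nat_lit 2) (nat_lit 142) (nat_lit 144) (nat_lit 104)) (PT.lf (nat_lit 7600) (nat_lit 6) (nat_lit 100) (nat_lit 2) (nat_lit 143) (nat_lit 144) (nat_lit 103))))) (PT.nd (nat_lit 234) (PT.nd (nat_lit 78) (PT.lf (nat_lit 7220) (nat_lit 3) (nat_lit 95) (nat_lit 0) (nat_lit 144) (nat_lit 144) (nat_lit 102)) (PT.nd (nat_lit 78) (PT.lf (nat_lit 6840) (nat_lit 6) (nat_lit 90) (nat_lit 0) (nat_lit 145) (nat_lit 144) (nat_lit 101)) (PT.lf (nat_lit 6384) (nat_lit 6) (nat_lit 84) (nat_lit 0) (nat_lit 146) (nat_lit 144) (nat_lit 100)))) (PT.nd (nat_lit 156) (PT.nd (nat_lit 78) (PT.lf (nat_lit 6004) (nat_lit 6) (nat_lit 79) (nat_lit 0) (nat_lit 147) (nat_lit 144) (nat_lit 99)) (PT.lf (nat_lit 5624) (nat_lit 6) (nat_lit 74) (nat_lit 0) (nat_lit 148) (nat_lit 144) (nat_lit 98))) (PT.nd (nat_lit 78) (PT.lf (nat_lit 5320) (nat_lit 6) (nat_lit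 70) (nat_lit 0) (nat_lit 149) (nat_lit 144) (nat_lit 97)) (PT.lf (nat_lit 4940) (nat_lit 6) (nat_lit 65) (nat_lit 0) (nat_lit 150) (nat_lit 144) (nat_lit 96)))))) (PT.nd (nat_lit 468) (PT.nd (nat_lit 234) (PT.nd (nat_lit 78) (PT.lf (nat_lit 4408) (nat_lit 6) (nat_lit 58) (nat_lit 5) (nat_lit 94) (nat_lit 145) (nat_lit 151)) (PT.nd (nat_lit 78) (PT.lf (nat_lit 4712) (nat_lit 6) (nat_lit 62) (nat_lit 5) (nat_lit 95) (nat_lit 145) (nat_lit 150)) (PT.lf (nat_lit 5016) (nat_lit 6) (nat_lit 66) (nat_lit 5) (nat_lit 96) (nat_lit 145) (nat_lit 149)))) (PT.nd (nat_lit 78) (PT.lf (nat_lit 5396) (nat_lit 6) (nat_lit 71) (nat_lit 5) (nat_lit 97) (nat_lit 145) (nat_lit 148)) (PT.nd (nat_lit 78) (PT.lf (nat_lit 5700) (nat_lit 6) (nat_lit 75) (nat_lit 5) (nat_lit 98) (nat_lit 145) (nat_lit 147)) (PT.lf (nat_lit 6080) (nat_lit 6) (nat_lit 80) (nat_lit 5) (nat_lit 99) (nat_lit 145) (nat_lit 146))))) (PT.nd (nat_lit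 234) (PT.nd (nat_lit 78) (PT.lf (nat_lit 6460) (nat_lit 3) (nat_lit 85) (nat_lit 4) (nat_lit 100) (nat_lit 145) (nat_lit 145)) (PT.nd (nat_lit 78) (PT.lf (nat_lit 6840) (nat_lit 6) (nat_lit 90) (nat_lit 4) (nat_lit 101) (nat_lit 145) (nat_lit 144)) (PT.lf (nat_lit 7144) (nat_lit 6) (nat_lit 94) (nat_lit 4) (nat_lit 102) (nat_lit 145) (nat_lit 143)))) (PT.nd (nat_lit 156) (PT.nd (nat_lit 78) (PT.lf (nat_lit 7524) (nat_lit 6) (nat_lit 99) (nat_lit 4) (nat_lit 103) (nat_lit 145) (nat_lit 142)) (PT.lf (nat_lit 7904) (nat_lit 6) (nat_lit 104) (nat_lit 4) (nat_lit 104) (nat_lit 145) (nat_lit 141))) (PT.nd (nat_lit 78) (PT.lf (nat_lit 8284) (nat_lit 6) (nat_lit 109) (nat_lit 4) (nat_lit 105) (nat_lit 145) (nat_lit 140)) (PT.lf (nat_lit 8664) (nat_lit 6) (nat_lit 114) (nat_lit 4) (nat_lit 106) (nat_lit 145) (nat_lit 139))))))) (PT.nd (nat_lit 1014) (PT.nd (nat_lit 468) (PT.nd (nat_lit 234) (PT.nd (nat_lit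 78) (PT.lf (nat_lit 9120) (nat_lit 6) (nat_lit 120) (nat_lit 4) (nat_lit 107) (nat_lit 145) (nat_lit 138)) (PT.nd (nat_lit 78) (PT.lf (nat_lit 9576) (nat_lit 6) (nat_lit 126) (nat_lit 4) (nat_lit 108) (nat_lit 145) (nat_lit 137)) (PT.lf (nat_lit 10032) (nat_lit 6) (nat_lit 132) (nat_lit 4) (nat_lit 109) (nat_lit 145) (nat_lit 136)))) (PT.nd (nat_lit 78) (PT.lf (nat_lit 10488) (nat_lit 6) (nat_lit 138) (nat_lit 4) (nat_lit 110) (nat_lit 145) (nat_lit 135)) (PT.nd (nat_lit 78) (PT.lf (nat_lit 11020) (nat_lit 6) (nat_lit 145) (nat_lit 4) (nat_lit 111) (nat_lit 145) (nat_lit 134)) (PT.lf (nat_lit 11552) (nat_lit 6) (nat_lit 152) (nat_lit 4) (nat_lit 112) (nat_lit 145) (nat_lit 133))))) (PT.nd (nat_lit 234) (PT.nd (nat_lit 78) (PT.lf (nat_lit 12160) (nat_lit 6) (nat_lit 160) (nat_lit 4) (nat_lit 113) (nat_lit 145) (nat_lit 132)) (PT.nd (nat_lit 78) (PT.lf (nat_lit 12692) (nat_lit 6) (nat_lit 167) (nat_lit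 4) (nat_lit 114) (nat_lit 145) (nat_lit 131)) (PT.lf (nat_lit 13832) (nat_lit 6) (nat_lit 182) (nat_lit 4) (nat_lit 115) (nat_lit 145) (nat_lit 130)))) (PT.nd (nat_lit 156) (PT.nd (nat_lit 78) (PT.lf (nat_lit 13756) (nat_lit 6) (nat_lit 181) (nat_lit 4) (nat_lit 116) (nat_lit 145) (nat_lit 129)) (PT.lf (nat_lit 13680) (nat_lit 6) (nat_lit 180) (nat_lit 4) (nat_lit 117) (nat_lit 145) (nat_lit 128))) (PT.nd (nat_lit 78) (PT.lf (nat_lit 13604) (nat_lit 6) (nat_lit 179) (nat_lit 4) (nat_lit 118) (nat_lit 145) (nat_lit 127)) (PT.lf (nat_lit 13528) (nat_lit 6) (nat_lit 178) (nat_lit 4) (nat_lit 119) (nat_lit 145) (nat_lit 126)))))) (PT.nd (nat_lit 468) (PT.nd (nat_lit 234) (PT.nd (nat_lit 78) (PT.lf (nat_lit 13452) (nat_lit 6) (nat_lit 177) (nat_lit 4) (nat_lit 120) (nat_lit 145) (nat_lit 125)) (PT.nd (nat_lit 78) (PT.lf (nat_lit 13376) (nat_lit 6) (nat_lit 176) (nat_lit 4) (nat_lit 121) (nat_lit 145)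 (nat_lit 124)) (PT.lf (nat_lit 13300) (nat_lit 6) (nat_lit 175) (nat_lit 4) (nat_lit 122) (nat_lit 145) (nat_lit 123)))) (PT.nd (nat_lit 78) (PT.lf (nat_lit 13300) (nat_lit 6) (nat_lit 175) (nat_lit 2) (nat_lit 123) (nat_lit 145) (nat_lit 122)) (PT.nd (nat_lit 78) (PT.lf (nat_lit 13376) (nat_lit 6) (nat_lit 176) (nat_lit 2) (nat_lit 124) (nat_lit 145) (nat_lit 121)) (PT.lf (nat_lit 13452) (nat_lit 6) (nat_lit 177) (nat_lit 2) (nat_lit 125) (nat_lit 145) (nat_lit 120))))) (PT.nd (nat_lit 234) (PT.nd (nat_lit 78) (PT.lf (nat_lit 13528) (nat_lit 6) (nat_lit 178) (nat_lit 2) (nat_lit 126) (nat_lit 145) (nat_lit 119)) (PT.nd (nat_lit 78) (PT.lf (nat_lit 13604) (nat_lit 6) (nat_lit 179) (nat_lit 2) (nat_lit 127) (nat_lit 145) (nat_lit 118)) (PT.lf (nat_lit 13680) (nat_lit 6) (nat_lit 180) (nat_lit 2) (nat_lit 128) (nat_lit 145) (nat_lit 117)))) (PT.nd (nat_lit 156) (PT.nd (nat_lit 78) (PT.lf (nat_lit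 13756) (nat_lit 6) (nat_lit 181) (nat_lit 2) (nat_lit 129) (nat_lit 145) (nat_lit 116)) (PT.lf (nat_lit 13832) (nat_lit 6) (nat_lit 182) (nat_lit 2) (nat_lit 130) (nat_lit 145) (nat_lit 115))) (PT.nd (nat_lit 78) (PT.lf (nat_lit 12692) (nat_lit 6) (nat_lit 167) (nat_lit 2) (nat_lit 131) (nat_lit 145) (nat_lit 114)) (PT.lf (nat_lit 12160) (nat_lit 6) (nat_lit 160) (nat_lit 2) (nat_lit 132) (nat_lit 145) (nat_lit 113))))))))
noncomputable def pc26 : PT := (PT.nd (nat_lit 37986) (PT.nd (nat_lit 936) (PT.nd (nat_lit 468) (PT.nd (nat_lit 234) (PT.nd (nat_lit 78) (PT.lf (nat_lit 11552) (nat_lit 6) (nat_lit 152) (nat_lit 2) (nat_lit 133) (nat_lit 145) (nat_lit 112)) (PT.nd (nat_lit 78) (PT.lf (nat_lit 11020) (nat_lit 6) (nat_lit 145) (nat_lit 2) (nat_lit 134) (nat_lit 145) (nat_lit 111)) (PT.lf (nat_lit 10488) (nat_lit 6) (nat_lit 138) (nat_lit 2) (nat_lit 135) (nat_lit 145) (nat_lit 110)))) (PT.nd (nat_lit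 78) (PT.lf (nat_lit 10032) (nat_lit 6) (nat_lit 132) (nat_lit 2) (nat_lit 136) (nat_lit 145) (nat_lit 109)) (PT.nd (nat_lit 78) (PT.lf (nat_lit 9576) (nat_lit 6) (nat_lit 126) (nat_lit 2) (nat_lit 137) (nat_lit 145) (nat_lit 108)) (PT.lf (nat_lit 9120) (nat_lit 6) (nat_lit 120) (nat_lit 2) (nat_lit 138) (nat_lit 145) (nat_lit 107))))) (PT.nd (nat_lit 234) (PT.nd (nat_lit 78) (PT.lf (nat_lit 8664) (nat_lit 6) (nat_lit 114) (nat_lit 2) (nat_lit 139) (nat_lit 145) (nat_lit 106)) (PT.nd (nat_lit 78) (PT.lf (nat_lit 8284) (nat_lit 6) (nat_lit 109) (nat_lit 2) (nat_lit 140) (nat_lit 145) (nat_lit 105)) (PT.lf (nat_lit 7904) (nat_lit 6) (nat_lit 104) (nat_lit 2) (nat_lit 141) (nat_lit 145) (nat_lit 104)))) (PT.nd (nat_lit 78) (PT.lf (nat_lit 7524) (nat_lit 6) (nat_lit 99) (nat_lit 2) (nat_lit 142) (nat_lit 145) (nat_lit 103)) (PT.nd (nat_lit 78) (PT.lf (nat_lit 7144) (nat_lit 6) (nat_lit 94) (nat_lit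 2) (nat_lit 143) (nat_lit 145) (nat_lit 102)) (PT.lf (nat_lit 6840) (nat_lit 6) (nat_lit 90) (nat_lit 2) (nat_lit 144) (nat_lit 145) (nat_lit 101)))))) (PT.nd (nat_lit 468) (PT.nd (nat_lit 234) (PT.nd (nat_lit 78) (PT.lf (nat_lit 6460) (nat_lit 3) (nat_lit 85) (nat_lit 0) (nat_lit 145) (nat_lit 145) (nat_lit 100)) (PT.nd (nat_lit 78) (PT.lf (nat_lit 6080) (nat_lit 6) (nat_lit 80) (nat_lit 0) (nat_lit 146) (nat_lit 145) (nat_lit 99)) (PT.lf (nat_lit 5700) (nat_lit 6) (nat_lit 75) (nat_lit 0) (nat_lit 147) (nat_lit 145) (nat_lit 98)))) (PT.nd (nat_lit 78) (PT.lf (nat_lit 5396) (nat_lit 6) (nat_lit 71) (nat_lit 0) (nat_lit 148) (nat_lit 145) (nat_lit 97)) (PT.nd (nat_lit 78) (PT.lf (nat_lit 5016) (nat_lit 6) (nat_lit 66) (nat_lit 0) (nat_lit 149) (nat_lit 145) (nat_lit 96)) (PT.lf (nat_lit 4712) (nat_lit 6) (nat_lit 62) (nat_lit 0) (nat_lit 150) (nat_lit 145) (nat_lit 95))))) (PT.nd (nat_lit 36270)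 (PT.nd (nat_lit 36114) (PT.lf (nat_lit 4408) (nat_lit 6) (nat_lit 58) (nat_lit 0) (nat_lit 151) (nat_lit 145) (nat_lit 94)) (PT.nd (nat_lit 78) (PT.lf (nat_lit 4180) (nat_lit 6) (nat_lit 55) (nat_lit 5) (nat_lit 93) (nat_lit 146) (nat_lit 151)) (PT.lf (nat_lit 4484) (nat_lit 6) (nat_lit 59) (nat_lit 5) (nat_lit 94) (nat_lit 146) (nat_lit 150)))) (PT.nd (nat_lit 156) (PT.nd (nat_lit 78) (PT.lf (nat_lit 4788) (nat_lit 6) (nat_lit 63) (nat_lit 5) (nat_lit 95) (nat_lit 146) (nat_lit 149)) (PT.lf (nat_lit 5092) (nat_lit 6) (nat_lit 67) (nat_lit 5) (nat_lit 96) (nat_lit 146) (nat_lit 148))) (PT.nd (nat_lit 78) (PT.lf (nat_lit 5472) (nat_lit 6) (nat_lit 72) (nat_lit 5) (nat_lit 97) (nat_lit 146) (nat_lit 147)) (PT.lf (nat_lit 5776) (nat_lit 3) (nat_lit 76) (nat_lit 4) (nat_lit 98) (nat_lit 146) (nat_lit 146))))))) (PT.nd (nat_lit 1014) (PT.nd (nat_lit 468) (PT.nd (nat_lit 234) (PT.nd (nat_lit 78) (PT.lf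 (nat_lit 6080) (nat_lit 6) (nat_lit 80) (nat_lit 4) (nat_lit 99) (nat_lit 146) (nat_lit 145)) (PT.nd (nat_lit 78) (PT.lf (nat_lit 6384) (nat_lit 6) (nat_lit 84) (nat_lit 4) (nat_lit 100) (nat_lit 146) (nat_lit 144)) (PT.lf (nat_lit 6764) (nat_lit 6) (nat_lit 89) (nat_lit 4) (nat_lit 101) (nat_lit 146) (nat_lit 143)))) (PT.nd (nat_lit 78) (PT.lf (nat_lit 7068) (nat_lit 6) (nat_lit 93) (nat_lit 4) (nat_lit 102) (nat_lit 146) (nat_lit 142)) (PT.nd (nat_lit 78) (PT.lf (nat_lit 7448) (nat_lit 6) (nat_lit 98) (nat_lit 4) (nat_lit 103) (nat_lit 146) (nat_lit 141)) (PT.lf (nat_lit 7828) (nat_lit 6) (nat_lit 103) (nat_lit 4) (nat_lit 104) (nat_lit 146) (nat_lit 140))))) (PT.nd (nat_lit 234) (PT.nd (nat_lit 78) (PT.lf (nat_lit 8208) (nat_lit 6) (nat_lit 108) (nat_lit 4) (nat_lit 105) (nat_lit 146) (nat_lit 139)) (PT.nd (nat_lit 78) (PT.lf (nat_lit 8588) (nat_lit 6) (nat_lit 113) (nat_lit 4) (nat_lit 106)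 (nat_lit 146) (nat_lit 138)) (PT.lf (nat_lit 9044) (nat_lit 6) (nat_lit 119) (nat_lit 4) (nat_lit 107) (nat_lit 146) (nat_lit 137)))) (PT.nd (nat_lit 156) (PT.nd (nat_lit 78) (PT.lf (nat_lit 9500) (nat_lit 6) (nat_lit 125) (nat_lit 4) (nat_lit 108) (nat_lit 146) (nat_lit 136)) (PT.lf (nat_lit 9956) (nat_lit 6) (nat_lit 131) (nat_lit 4) (nat_lit 109) (nat_lit 146) (nat_lit 135))) (PT.nd (nat_lit 78) (PT.lf (nat_lit 10412) (nat_lit 6) (nat_lit 137) (nat_lit 4) (nat_lit 110) (nat_lit 146) (nat_lit 134)) (PT.lf (nat_lit 10944) (nat_lit 6) (nat_lit 144) (nat_lit 4) (nat_lit 111) (nat_lit 146) (nat_lit 133)))))) (PT.nd (nat_lit 1794) (PT.nd (nat_lit 1560) (PT.nd (nat_lit 78) (PT.lf (nat_lit 11476) (nat_lit 6) (nat_lit 151) (nat_lit 4) (nat_lit 112) (nat_lit 146) (nat_lit 132)) (PT.nd (nat_lit 1404) (PT.lf (nat_lit 12084) (nat_lit 6) (nat_lit 159) (nat_lit 4) (nat_lit 113) (nat_lit 146) (nat_lit 131))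 (PT.lf (nat_lit 12084) (nat_lit 6) (nat_lit 159) (nat_lit 2) (nat_lit 131) (nat_lit 146) (nat_lit 113)))) (PT.nd (nat_lit 78) (PT.lf (nat_lit 11476) (nat_lit 6) (nat_lit 151) (nat_lit 2) (nat_lit 132) (nat_lit 146) (nat_lit 112)) (PT.nd (nat_lit 78) (PT.lf (nat_lit 10944) (nat_lit 6) (nat_lit 144) (nat_lit 2) (nat_lit 133) (nat_lit 146) (nat_lit 111)) (PT.lf (nat_lit 10412) (nat_lit 6) (nat_lit 137) (nat_lit 2) (nat_lit 134) (nat_lit 146) (nat_lit 110))))) (PT.nd (nat_lit 234) (PT.nd (nat_lit 78) (PT.lf (nat_lit 9956) (nat_lit 6) (nat_lit 131) (nat_lit 2) (nat_lit 135) (nat_lit 146) (nat_lit 109)) (PT.nd (nat_lit 78) (PT.lf (nat_lit 9500) (nat_lit 6) (nat_lit 125) (nat_lit 2) (nat_lit 136) (nat_lit 146) (nat_lit 108)) (PT.lf (nat_lit 9044) (nat_lit 6) (nat_lit 119) (nat_lit 2) (nat_lit 137) (nat_lit 146) (nat_lit 107)))) (PT.nd (nat_lit 156) (PT.nd (nat_lit 78) (PT.lf (nat_lit 8588) (nat_lit 6)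 (nat_lit 113) (nat_lit 2) (nat_lit 138) (nat_lit 146) (nat_lit 106)) (PT.lf (nat_lit 8208) (nat_lit 6) (nat_lit 108) (nat_lit 2) (nat_lit 139) (nat_lit 146) (nat_lit 105))) (PT.nd (nat_lit 78) (PT.lf (nat_lit 7828) (nat_lit 6) (nat_lit 103) (nat_lit 2) (nat_lit 140) (nat_lit 146) (nat_lit 104)) (PT.lf (nat_lit 7448) (nat_lit 6) (nat_lit 98) (nat_lit 2) (nat_lit 141) (nat_lit 146) (nat_lit 103))))))))
noncomputable def pc27 : PT := (PT.nd (nat_lit 37908) (PT.nd (nat_lit 36894) (PT.nd (nat_lit 468) (PT.nd (nat_lit 234) (PT.nd (nat_lit 78) (PT.lf (nat_lit 7068) (nat_lit 6) (nat_lit 93) (nat_lit 2) (nat_lit 142) (nat_lit 146) (nat_lit 102)) (PT.nd (nat_lit 78) (PT.lf (nat_lit 6764) (nat_lit 6) (nat_lit 89) (nat_lit 2) (nat_lit 143) (nat_lit 146) (nat_lit 101)) (PT.lf (nat_lit 6384) (nat_lit 6) (nat_lit 84) (nat_lit 2) (nat_lit 144) (nat_lit 146) (nat_lit 100)))) (PT.nd (nat_lit 78) (PT.lf (nat_lit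 6080) (nat_lit 6) (nat_lit 80) (nat_lit 2) (nat_lit 145) (nat_lit 146) (nat_lit 99)) (PT.nd (nat_lit 78) (PT.lf (nat_lit 5776) (nat_lit 3) (nat_lit 76) (nat_lit 0) (nat_lit 146) (nat_lit 146) (nat_lit 98)) (PT.lf (nat_lit 5472) (nat_lit 6) (nat_lit 72) (nat_lit 0) (nat_lit 147) (nat_lit 146) (nat_lit 97))))) (PT.nd (nat_lit 234) (PT.nd (nat_lit 78) (PT.lf (nat_lit 5092) (nat_lit 6) (nat_lit 67) (nat_lit 0) (nat_lit 148) (nat_lit 146) (nat_lit 96)) (PT.nd (nat_lit 78) (PT.lf (nat_lit 4788) (nat_lit 6) (nat_lit 63) (nat_lit 0) (nat_lit 149) (nat_lit 146) (nat_lit 95)) (PT.lf (nat_lit 4484) (nat_lit 6) (nat_lit 59) (nat_lit 0) (nat_lit 150) (nat_lit 146) (nat_lit 94)))) (PT.nd (nat_lit 36036) (PT.nd (nat_lit 35958) (PT.lf (nat_lit 4180) (nat_lit 6) (nat_lit 55) (nat_lit 0) (nat_lit 151) (nat_lit 146) (nat_lit 93)) (PT.lf (nat_lit 3724) (nat_lit 6) (nat_lit 49) (nat_lit 5) (nat_lit 91) (nat_lit 147)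 (nat_lit 152))) (PT.nd (nat_lit 78) (PT.lf (nat_lit 3952) (nat_lit 6) (nat_lit 52) (nat_lit 5) (nat_lit 92) (nat_lit 147) (nat_lit 151)) (PT.lf (nat_lit 4256) (nat_lit 6) (nat_lit 56) (nat_lit 5) (nat_lit 93) (nat_lit 147) (nat_lit 150)))))) (PT.nd (nat_lit 468) (PT.nd (nat_lit 234) (PT.nd (nat_lit 78) (PT.lf (nat_lit 4560) (nat_lit 6) (nat_lit 60) (nat_lit 5) (nat_lit 94) (nat_lit 147) (nat_lit 149)) (PT.nd (nat_lit 78) (PT.lf (nat_lit 4864) (nat_lit 6) (nat_lit 64) (nat_lit 5) (nat_lit 95) (nat_lit 147) (nat_lit 148)) (PT.lf (nat_lit 5168) (nat_lit 3) (nat_lit 68) (nat_lit 4) (nat_lit 96) (nat_lit 147) (nat_lit 147)))) (PT.nd (nat_lit 78) (PT.lf (nat_lit 5472) (nat_lit 6) (nat_lit 72) (nat_lit 4) (nat_lit 97) (nat_lit 147) (nat_lit 146)) (PT.nd (nat_lit 78) (PT.lf (nat_lit 5700) (nat_lit 6) (nat_lit 75) (nat_lit 4) (nat_lit 98) (nat_lit 147) (nat_lit 145)) (PT.lf (nat_lit 6004) (nat_lit 6) (nat_lit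 79) (nat_lit 4) (nat_lit 99) (nat_lit 147) (nat_lit 144))))) (PT.nd (nat_lit 234) (PT.nd (nat_lit 78) (PT.lf (nat_lit 6308) (nat_lit 6) (nat_lit 83) (nat_lit 4) (nat_lit 100) (nat_lit 147) (nat_lit 143)) (PT.nd (nat_lit 78) (PT.lf (nat_lit 6688) (nat_lit 6) (nat_lit 88) (nat_lit 4) (nat_lit 101) (nat_lit 147) (nat_lit 142)) (PT.lf (nat_lit 6992) (nat_lit 6) (nat_lit 92) (nat_lit 4) (nat_lit 102) (nat_lit 147) (nat_lit 141)))) (PT.nd (nat_lit 156) (PT.nd (nat_lit 78) (PT.lf (nat_lit 7372) (nat_lit 6) (nat_lit 97) (nat_lit 4) (nat_lit 103) (nat_lit 147) (nat_lit 140)) (PT.lf (nat_lit 7752) (nat_lit 6) (nat_lit 102) (nat_lit 4) (nat_lit 104) (nat_lit 147) (nat_lit 139))) (PT.nd (nat_lit 78) (PT.lf (nat_lit 8132) (nat_lit 6) (nat_lit 107) (nat_lit 4) (nat_lit 105) (nat_lit 147) (nat_lit 138)) (PT.lf (nat_lit 8512) (nat_lit 6) (nat_lit 112) (nat_lit 4) (nat_lit 106) (nat_lit 147) (nat_lit 137)))))))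 (PT.nd (nat_lit 3042) (PT.nd (nat_lit 2496) (PT.nd (nat_lit 2262) (PT.nd (nat_lit 78) (PT.lf (nat_lit 8968) (nat_lit 6) (nat_lit 118) (nat_lit 4) (nat_lit 107) (nat_lit 147) (nat_lit 136)) (PT.nd (nat_lit 2106) (PT.lf (nat_lit 9424) (nat_lit 6) (nat_lit 124) (nat_lit 4) (nat_lit 108) (nat_lit 147) (nat_lit 135)) (PT.lf (nat_lit 9424) (nat_lit 6) (nat_lit 124) (nat_lit 2) (nat_lit 135) (nat_lit 147) (nat_lit 108)))) (PT.nd (nat_lit 78) (PT.lf (nat_lit 8968) (nat_lit 6) (nat_lit 118) (nat_lit 2) (nat_lit 136) (nat_lit 147) (nat_lit 107)) (PT.nd (nat_lit 78) (PT.lf (nat_lit 8512) (nat_lit 6) (nat_lit 112) (nat_lit 2) (nat_lit 137) (nat_lit 147) (nat_lit 106)) (PT.lf (nat_lit 8132) (nat_lit 6) (nat_lit 107) (nat_lit 2) (nat_lit 138) (nat_lit 147) (nat_lit 105))))) (PT.nd (nat_lit 234) (PT.nd (nat_lit 78) (PT.lf (nat_lit 7752) (nat_lit 6) (nat_lit 102) (nat_lit 2) (nat_lit 139) (nat_lit 147) (nat_lit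 104)) (PT.nd (nat_lit 78) (PT.lf (nat_lit 7372) (nat_lit 6) (nat_lit 97) (nat_lit 2) (nat_lit 140) (nat_lit 147) (nat_lit 103)) (PT.lf (nat_lit 6992) (nat_lit 6) (nat_lit 92) (nat_lit 2) (nat_lit 141) (nat_lit 147) (nat_lit 102)))) (PT.nd (nat_lit 156) (PT.nd (nat_lit 78) (PT.lf (nat_lit 6688) (nat_lit 6) (nat_lit 88) (nat_lit 2) (nat_lit 142) (nat_lit 147) (nat_lit 101)) (PT.lf (nat_lit 6308) (nat_lit 6) (nat_lit 83) (nat_lit 2) (nat_lit 143) (nat_lit 147) (nat_lit 100))) (PT.nd (nat_lit 78) (PT.lf (nat_lit 6004) (nat_lit 6) (nat_lit 79) (nat_lit 2) (nat_lit 144) (nat_lit 147) (nat_lit 99)) (PT.lf (nat_lit 5700) (nat_lit 6) (nat_lit 75) (nat_lit 2) (nat_lit 145) (nat_lit 147) (nat_lit 98)))))) (PT.nd (nat_lit 468) (PT.nd (nat_lit 234) (PT.nd (nat_lit 78) (PT.lf (nat_lit 5472) (nat_lit 6) (nat_lit 72) (nat_lit 2) (nat_lit 146) (nat_lit 147) (nat_lit 97)) (PT.nd (nat_lit 78) (PT.lf (nat_lit 5168)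 (nat_lit 3) (nat_lit 68) (nat_lit 0) (nat_lit 147) (nat_lit 147) (nat_lit 96)) (PT.lf (nat_lit 4864) (nat_lit 6) (nat_lit 64) (nat_lit 0) (nat_lit 148) (nat_lit 147) (nat_lit 95)))) (PT.nd (nat_lit 78) (PT.lf (nat_lit 4560) (nat_lit 6) (nat_lit 60) (nat_lit 0) (nat_lit 149) (nat_lit 147) (nat_lit 94)) (PT.nd (nat_lit 78) (PT.lf (nat_lit 4256) (nat_lit 6) (nat_lit 56) (nat_lit 0) (nat_lit 150) (nat_lit 147) (nat_lit 93)) (PT.lf (nat_lit 3952) (nat_lit 6) (nat_lit 52) (nat_lit 0) (nat_lit 151) (nat_lit 147) (nat_lit 92))))) (PT.nd (nat_lit 35880) (PT.nd (nat_lit 35724) (PT.lf (nat_lit 3724) (nat_lit 6) (nat_lit 49) (nat_lit 0) (nat_lit 152) (nat_lit 147) (nat_lit 91)) (PT.nd (nat_lit 78) (PT.lf (nat_lit 3268) (nat_lit 6) (nat_lit 43) (nat_lit 5) (nat_lit 89) (nat_lit 148) (nat_lit 153)) (PT.lf (nat_lit 3496) (nat_lit 6) (nat_lit 46) (nat_lit 5) (nat_lit 90) (nat_lit 148) (nat_lit 152)))) (PT.nd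 (nat_lit 156) (PT.nd (nat_lit 78) (PT.lf (nat_lit 3800) (nat_lit 6) (nat_lit 50) (nat_lit 5) (nat_lit 91) (nat_lit 148) (nat_lit 151)) (PT.lf (nat_lit 4028) (nat_lit 6) (nat_lit 53) (nat_lit 5) (nat_lit 92) (nat_lit 148) (nat_lit 150))) (PT.nd (nat_lit 78) (PT.lf (nat_lit 4332) (nat_lit 6) (nat_lit 57) (nat_lit 5) (nat_lit 93) (nat_lit 148) (nat_lit 149)) (PT.lf (nat_lit 4636) (nat_lit 3) (nat_lit 61) (nat_lit 4) (nat_lit 94) (nat_lit 148) (nat_lit 148))))))))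
noncomputable def pc28 : PT := (PT.nd (nat_lit 4524) (PT.nd (nat_lit 3510) (PT.nd (nat_lit 468) (PT.nd (nat_lit 234) (PT.nd (nat_lit 78) (PT.lf (nat_lit 4864) (nat_lit 6) (nat_lit 64) (nat_lit 4) (nat_lit 95) (nat_lit 148) (nat_lit 147)) (PT.nd (nat_lit 78) (PT.lf (nat_lit 5092) (nat_lit 6) (nat_lit 67) (nat_lit 4) (nat_lit 96) (nat_lit 148) (nat_lit 146)) (PT.lf (nat_lit 5396) (nat_lit 6) (nat_lit 71) (nat_lit 4) (nat_lit 97) (nat_lit 148) (nat_lit 145)))) (PT.nd (nat_lit 78) (PT.lf (nat_lit 5624) (nat_lit 6) (nat_lit 74) (nat_lit 4) (nat_lit 98) (nat_lit 148) (nat_lit 144)) (PT.nd (nat_lit 78) (PT.lf (nat_lit 5928) (nat_lit 6) (nat_lit 78) (nat_lit 4) (nat_lit 99) (nat_lit 148) (nat_lit 143)) (PT.lf (nat_lit 6232) (nat_lit 6) (nat_lit 82) (nat_lit 4) (nat_lit 100) (nat_lit 148) (nat_lit 142))))) (PT.nd (nat_lit 234) (PT.nd (nat_lit 78) (PT.lf (nat_lit 6612) (nat_lit 6) (nat_lit 87) (nat_lit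 4) (nat_lit 101) (nat_lit 148) (nat_lit 141)) (PT.nd (nat_lit 78) (PT.lf (nat_lit 6916) (nat_lit 6) (nat_lit 91) (nat_lit 4) (nat_lit 102) (nat_lit 148) (nat_lit 140)) (PT.lf (nat_lit 7296) (nat_lit 6) (nat_lit 96) (nat_lit 4) (nat_lit 103) (nat_lit 148) (nat_lit 139)))) (PT.nd (nat_lit 2652) (PT.lf (nat_lit 7676) (nat_lit 6) (nat_lit 101) (nat_lit 4) (nat_lit 104) (nat_lit 148) (nat_lit 138)) (PT.nd (nat_lit 78) (PT.lf (nat_lit 7676) (nat_lit 6) (nat_lit 101) (nat_lit 2) (nat_lit 138) (nat_lit 148) (nat_lit 104)) (PT.lf (nat_lit 7296) (nat_lit 6) (nat_lit 96) (nat_lit 2) (nat_lit 139) (nat_lit 148) (nat_lit 103)))))) (PT.nd (nat_lit 468) (PT.nd (nat_lit 234) (PT.nd (nat_lit 78) (PT.lf (nat_lit 6916) (nat_lit 6) (nat_lit 91) (nat_lit 2) (nat_lit 140) (nat_lit 148) (nat_lit 102)) (PT.nd (nat_lit 78) (PT.lf (nat_lit 6612) (nat_lit 6) (nat_lit 87) (nat_lit 2) (nat_lit 141) (nat_lit 148) (nat_lit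 101)) (PT.lf (nat_lit 6232) (nat_lit 6) (nat_lit 82) (nat_lit 2) (nat_lit 142) (nat_lit 148) (nat_lit 100)))) (PT.nd (nat_lit 78) (PT.lf (nat_lit 5928) (nat_lit 6) (nat_lit 78) (nat_lit 2) (nat_lit 143) (nat_lit 148) (nat_lit 99)) (PT.nd (nat_lit 78) (PT.lf (nat_lit 5624) (nat_lit 6) (nat_lit 74) (nat_lit 2) (nat_lit 144) (nat_lit 148) (nat_lit 98)) (PT.lf (nat_lit 5396) (nat_lit 6) (nat_lit 71) (nat_lit 2) (nat_lit 145) (nat_lit 148) (nat_lit 97))))) (PT.nd (nat_lit 234) (PT.nd (nat_lit 78) (PT.lf (nat_lit 5092) (nat_lit 6) (nat_lit 67) (nat_lit 2) (nat_lit 146) (nat_lit 148) (nat_lit 96)) (PT.nd (nat_lit 78) (PT.lf (nat_lit 4864) (nat_lit 6) (nat_lit 64) (nat_lit 2) (nat_lit 147) (nat_lit 148) (nat_lit 95)) (PT.lf (nat_lit 4636) (nat_lit 3) (nat_lit 61) (nat_lit 0) (nat_lit 148) (nat_lit 148) (nat_lit 94)))) (PT.nd (nat_lit 156) (PT.nd (nat_lit 78) (PT.lf (nat_lit 4332) (nat_lit 6) (nat_lit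 57) (nat_lit 0) (nat_lit 149) (nat_lit 148) (nat_lit 93)) (PT.lf (nat_lit 4028) (nat_lit 6) (nat_lit 53) (nat_lit 0) (nat_lit 150) (nat_lit 148) (nat_lit 92))) (PT.nd (nat_lit 78) (PT.lf (nat_lit 3800) (nat_lit 6) (nat_lit 50) (nat_lit 0) (nat_lit 151) (nat_lit 148) (nat_lit 91)) (PT.lf (nat_lit 3496) (nat_lit 6) (nat_lit 46) (nat_lit 0) (nat_lit 152) (nat_lit 148) (nat_lit 90))))))) (PT.nd (nat_lit 36504) (PT.nd (nat_lit 35958) (PT.nd (nat_lit 35724) (PT.nd (nat_lit 35568) (PT.lf (nat_lit 3268) (nat_lit 6) (nat_lit 43) (nat_lit 0) (nat_lit 153) (nat_lit 148) (nat_lit 89)) (PT.nd (nat_lit 78) (PT.lf (nat_lit 3040) (nat_lit 6) (nat_lit 40) (nat_lit 5) (nat_lit 88) (nat_lit 149) (nat_lit 153)) (PT.lf (nat_lit 3344) (nat_lit 6) (nat_lit 44) (nat_lit 5) (nat_lit 89) (nat_lit 149) (nat_lit 152)))) (PT.nd (nat_lit 78) (PT.lf (nat_lit 3572) (nat_lit 6) (nat_lit 47) (nat_lit 5) (nat_lit 90) (nat_lit 149)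 (nat_lit 151)) (PT.nd (nat_lit 78) (PT.lf (nat_lit 3876) (nat_lit 6) (nat_lit 51) (nat_lit 5) (nat_lit 91) (nat_lit 149) (nat_lit 150)) (PT.lf (nat_lit 4104) (nat_lit 3) (nat_lit 54) (nat_lit 4) (nat_lit 92) (nat_lit 149) (nat_lit 149))))) (PT.nd (nat_lit 234) (PT.nd (nat_lit 78) (PT.lf (nat_lit 4332) (nat_lit 6) (nat_lit 57) (nat_lit 4) (nat_lit 93) (nat_lit 149) (nat_lit 148)) (PT.nd (nat_lit 78) (PT.lf (nat_lit 4560) (nat_lit 6) (nat_lit 60) (nat_lit 4) (nat_lit 94) (nat_lit 149) (nat_lit 147)) (PT.lf (nat_lit 4788) (nat_lit 6) (nat_lit 63) (nat_lit 4) (nat_lit 95) (nat_lit 149) (nat_lit 146)))) (PT.nd (nat_lit 156) (PT.nd (nat_lit 78) (PT.lf (nat_lit 5016) (nat_lit 6) (nat_lit 66) (nat_lit 4) (nat_lit 96) (nat_lit 149) (nat_lit 145)) (PT.lf (nat_lit 5320) (nat_lit 6) (nat_lit 70) (nat_lit 4) (nat_lit 97) (nat_lit 149) (nat_lit 144))) (PT.nd (nat_lit 78) (PT.lf (nat_lit 5548) (nat_lit 6) (nat_lit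 73) (nat_lit 4) (nat_lit 98) (nat_lit 149) (nat_lit 143)) (PT.lf (nat_lit 5852) (nat_lit 6) (nat_lit 77) (nat_lit 4) (nat_lit 99) (nat_lit 149) (nat_lit 142)))))) (PT.nd (nat_lit 3588) (PT.nd (nat_lit 3354) (PT.nd (nat_lit 3198) (PT.lf (nat_lit 6156) (nat_lit 6) (nat_lit 81) (nat_lit 4) (nat_lit 100) (nat_lit 149) (nat_lit 141)) (PT.nd (nat_lit 78) (PT.lf (nat_lit 6156) (nat_lit 6) (nat_lit 81) (nat_lit 2) (nat_lit 141) (nat_lit 149) (nat_lit 100)) (PT.lf (nat_lit 5852) (nat_lit 6) (nat_lit 77) (nat_lit 2) (nat_lit 142) (nat_lit 149) (nat_lit 99)))) (PT.nd (nat_lit 78) (PT.lf (nat_lit 5548) (nat_lit 6) (nat_lit 73) (nat_lit 2) (nat_lit 143) (nat_lit 149) (nat_lit 98)) (PT.nd (nat_lit 78) (PT.lf (nat_lit 5320) (nat_lit 6) (nat_lit 70) (nat_lit 2) (nat_lit 144) (nat_lit 149) (nat_lit 97)) (PT.lf (nat_lit 5016) (nat_lit 6) (nat_lit 66) (nat_lit 2) (nat_lit 145) (nat_lit 149) (nat_lit 96))))) (PT.nd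 (nat_lit 234) (PT.nd (nat_lit 78) (PT.lf (nat_lit 4788) (nat_lit 6) (nat_lit 63) (nat_lit 2) (nat_lit 146) (nat_lit 149) (nat_lit 95)) (PT.nd (nat_lit 78) (PT.lf (nat_lit 4560) (nat_lit 6) (nat_lit 60) (nat_lit 2) (nat_lit 147) (nat_lit 149) (nat_lit 94)) (PT.lf (nat_lit 4332) (nat_lit 6) (nat_lit 57) (nat_lit 2) (nat_lit 148) (nat_lit 149) (nat_lit 93)))) (PT.nd (nat_lit 156) (PT.nd (nat_lit 78) (PT.lf (nat_lit 4104) (nat_lit 3) (nat_lit 54) (nat_lit 0) (nat_lit 149) (nat_lit 149) (nat_lit 92)) (PT.lf (nat_lit 3876) (nat_lit 6) (nat_lit 51) (nat_lit 0) (nat_lit 150) (nat_lit 149) (nat_lit 91))) (PT.nd (nat_lit 78) (PT.lf (nat_lit 3572) (nat_lit 6) (nat_lit 47) (nat_lit 0) (nat_lit 151) (nat_lit 149) (nat_lit 90)) (PT.lf (nat_lit 3344) (nat_lit 6) (nat_lit 44) (nat_lit 0) (nat_lit 152) (nat_lit 149) (nat_lit 89))))))))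
noncomputable def pc29 : PT := (PT.nd (nat_lit 75972) (PT.nd (nat_lit 39858) (PT.nd (nat_lit 35802) (PT.nd (nat_lit 35568) (PT.nd (nat_lit 35412) (PT.lf (nat_lit 3040) (nat_lit 6) (nat_lit 40) (nat_lit 0) (nat_lit 153) (nat_lit 149) (nat_lit 88)) (PT.nd (nat_lit 78) (PT.lf (nat_lit 2660) (nat_lit 6) (nat_lit 35) (nat_lit 5) (nat_lit 86) (nat_lit 150) (nat_lit 154)) (PT.lf (nat_lit 2888) (nat_lit 6) (nat_lit 38) (nat_lit 5) (nat_lit 87) (nat_lit 150) (nat_lit 153)))) (PT.nd (nat_lit 78) (PT.lf (nat_lit 3116) (nat_lit 6) (nat_lit 41) (nat_lit 5) (nat_lit 88) (nat_lit 150) (nat_lit 152)) (PT.nd (nat_lit 78) (PT.lf (nat_lit 3420) (nat_lit 6) (nat_lit 45) (nat_lit 5) (nat_lit 89) (nat_lit 150) (nat_lit 151)) (PT.lf (nat_lit 3648) (nat_lit 3) (nat_lit 48) (nat_lit 4) (nat_lit 90) (nat_lit 150) (nat_lit 150))))) (PT.nd (nat_lit 234) (PT.nd (nat_lit 78) (PT.lf (nat_lit 3876) (nat_lit 6) (nat_lit 51) (nat_lit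 4) (nat_lit 91) (nat_lit 150) (nat_lit 149)) (PT.nd (nat_lit 78) (PT.lf (nat_lit 4028) (nat_lit 6) (nat_lit 53) (nat_lit 4) (nat_lit 92) (nat_lit 150) (nat_lit 148)) (PT.lf (nat_lit 4256) (nat_lit 6) (nat_lit 56) (nat_lit 4) (nat_lit 93) (nat_lit 150) (nat_lit 147)))) (PT.nd (nat_lit 156) (PT.nd (nat_lit 78) (PT.lf (nat_lit 4484) (nat_lit 6) (nat_lit 59) (nat_lit 4) (nat_lit 94) (nat_lit 150) (nat_lit 146)) (PT.lf (nat_lit 4712) (nat_lit 6) (nat_lit 62) (nat_lit 4) (nat_lit 95) (nat_lit 150) (nat_lit 145))) (PT.nd (nat_lit 78) (PT.lf (nat_lit 4940) (nat_lit 6) (nat_lit 65) (nat_lit 4) (nat_lit 96) (nat_lit 150) (nat_lit 144)) (PT.lf (nat_lit 5244) (nat_lit 6) (nat_lit 69) (nat_lit 4) (nat_lit 97) (nat_lit 150) (nat_lit 143)))))) (PT.nd (nat_lit 468) (PT.nd (nat_lit 234) (PT.nd (nat_lit 78) (PT.lf (nat_lit 5244) (nat_lit 6) (nat_lit 69) (nat_lit 2) (nat_lit 143) (nat_lit 150) (nat_lit 97)) (PT.nd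 (nat_lit 78) (PT.lf (nat_lit 4940) (nat_lit 6) (nat_lit 65) (nat_lit 2) (nat_lit 144) (nat_lit 150) (nat_lit 96)) (PT.lf (nat_lit 4712) (nat_lit 6) (nat_lit 62) (nat_lit 2) (nat_lit 145) (nat_lit 150) (nat_lit 95)))) (PT.nd (nat_lit 78) (PT.lf (nat_lit 4484) (nat_lit 6) (nat_lit 59) (nat_lit 2) (nat_lit 146) (nat_lit 150) (nat_lit 94)) (PT.nd (nat_lit 78) (PT.lf (nat_lit 4256) (nat_lit 6) (nat_lit 56) (nat_lit 2) (nat_lit 147) (nat_lit 150) (nat_lit 93)) (PT.lf (nat_lit 4028) (nat_lit 6) (nat_lit 53) (nat_lit 2) (nat_lit 148) (nat_lit 150) (nat_lit 92))))) (PT.nd (nat_lit 234) (PT.nd (nat_lit 78) (PT.lf (nat_lit 3876) (nat_lit 6) (nat_lit 51) (nat_lit 2) (nat_lit 149) (nat_lit 150) (nat_lit 91)) (PT.nd (nat_lit 78) (PT.lf (nat_lit 3648) (nat_lit 3) (nat_lit 48) (nat_lit 0) (nat_lit 150) (nat_lit 150) (nat_lit 90)) (PT.lf (nat_lit 3420) (nat_lit 6) (nat_lit 45) (nat_lit 0) (nat_lit 151) (nat_lit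 150) (nat_lit 89)))) (PT.nd (nat_lit 156) (PT.nd (nat_lit 78) (PT.lf (nat_lit 3116) (nat_lit 6) (nat_lit 41) (nat_lit 0) (nat_lit 152) (nat_lit 150) (nat_lit 88)) (PT.lf (nat_lit 2888) (nat_lit 6) (nat_lit 38) (nat_lit 0) (nat_lit 153) (nat_lit 150) (nat_lit 87))) (PT.nd (nat_lit 35178) (PT.lf (nat_lit 2660) (nat_lit 6) (nat_lit 35) (nat_lit 0) (nat_lit 154) (nat_lit 150) (nat_lit 86)) (PT.lf (nat_lit 2280) (nat_lit 6) (nat_lit 30) (nat_lit 5) (nat_lit 84) (nat_lit 151) (nat_lit 155))))))) (PT.nd (nat_lit 4914) (PT.nd (nat_lit 468) (PT.nd (nat_lit 234) (PT.nd (nat_lit 78) (PT.lf (nat_lit 2508) (nat_lit 6) (nat_lit 33) (nat_lit 5) (nat_lit 85) (nat_lit 151) (nat_lit 154)) (PT.nd (nat_lit 78) (PT.lf (nat_lit 2736) (nat_lit 6) (nat_lit 36) (nat_lit 5) (nat_lit 86) (nat_lit 151) (nat_lit 153)) (PT.lf (nat_lit 2964) (nat_lit 6) (nat_lit 39) (nat_lit 5) (nat_lit 87) (nat_lit 151) (nat_lit 152)))) (PT.nd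 (nat_lit 78) (PT.lf (nat_lit 3192) (nat_lit 3) (nat_lit 42) (nat_lit 4) (nat_lit 88) (nat_lit 151) (nat_lit 151)) (PT.nd (nat_lit 78) (PT.lf (nat_lit 3420) (nat_lit 6) (nat_lit 45) (nat_lit 4) (nat_lit 89) (nat_lit 151) (nat_lit 150)) (PT.lf (nat_lit 3572) (nat_lit 6) (nat_lit 47) (nat_lit 4) (nat_lit 90) (nat_lit 151) (nat_lit 149))))) (PT.nd (nat_lit 234) (PT.nd (nat_lit 78) (PT.lf (nat_lit 3800) (nat_lit 6) (nat_lit 50) (nat_lit 4) (nat_lit 91) (nat_lit 151) (nat_lit 148)) (PT.nd (nat_lit 78) (PT.lf (nat_lit 3952) (nat_lit 6) (nat_lit 52) (nat_lit 4) (nat_lit 92) (nat_lit 151) (nat_lit 147)) (PT.lf (nat_lit 4180) (nat_lit 6) (nat_lit 55) (nat_lit 4) (nat_lit 93) (nat_lit 151) (nat_lit 146)))) (PT.nd (nat_lit 4056) (PT.nd (nat_lit 3978) (PT.lf (nat_lit 4408) (nat_lit 6) (nat_lit 58) (nat_lit 4) (nat_lit 94) (nat_lit 151) (nat_lit 145)) (PT.lf (nat_lit 4408) (nat_lit 6) (nat_lit 58) (nat_lit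 2) (nat_lit 145) (nat_lit 151) (nat_lit 94))) (PT.nd (nat_lit 78) (PT.lf (nat_lit 4180) (nat_lit 6) (nat_lit 55) (nat_lit 2) (nat_lit 146) (nat_lit 151) (nat_lit 93)) (PT.lf (nat_lit 3952) (nat_lit 6) (nat_lit 52) (nat_lit 2) (nat_lit 147) (nat_lit 151) (nat_lit 92)))))) (PT.nd (nat_lit 468) (PT.nd (nat_lit 234) (PT.nd (nat_lit 78) (PT.lf (nat_lit 3800) (nat_lit 6) (nat_lit 50) (nat_lit 2) (nat_lit 148) (nat_lit 151) (nat_lit 91)) (PT.nd (nat_lit 78) (PT.lf (nat_lit 3572) (nat_lit 6) (nat_lit 47) (nat_lit 2) (nat_lit 149) (nat_lit 151) (nat_lit 90)) (PT.lf (nat_lit 3420) (nat_lit 6) (nat_lit 45) (nat_lit 2) (nat_lit 150) (nat_lit 151) (nat_lit 89)))) (PT.nd (nat_lit 78) (PT.lf (nat_lit 3192) (nat_lit 3) (nat_lit 42) (nat_lit 0) (nat_lit 151) (nat_lit 151) (nat_lit 88)) (PT.nd (nat_lit 78) (PT.lf (nat_lit 2964) (nat_lit 6) (nat_lit 39) (nat_lit 0) (nat_lit 152) (nat_lit 151) (nat_lit 87)) (PT.lf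 (nat_lit 2736) (nat_lit 6) (nat_lit 36) (nat_lit 0) (nat_lit 153) (nat_lit 151) (nat_lit 86))))) (PT.nd (nat_lit 35178) (PT.nd (nat_lit 78) (PT.lf (nat_lit 2508) (nat_lit 6) (nat_lit 33) (nat_lit 0) (nat_lit 154) (nat_lit 151) (nat_lit 85)) (PT.nd (nat_lit 35022) (PT.lf (nat_lit 2280) (nat_lit 6) (nat_lit 30) (nat_lit 0) (nat_lit 155) (nat_lit 151) (nat_lit 84)) (PT.lf (nat_lit 2128) (nat_lit 6) (nat_lit 28) (nat_lit 5) (nat_lit 83) (nat_lit 152) (nat_lit 155)))) (PT.nd (nat_lit 156) (PT.nd (nat_lit 78) (PT.lf (nat_lit 2356) (nat_lit 6) (nat_lit 31) (nat_lit 5) (nat_lit 84) (nat_lit 152) (nat_lit 154)) (PT.lf (nat_lit 2584) (nat_lit 6) (nat_lit 34) (nat_lit 5) (nat_lit 85) (nat_lit 152) (nat_lit 153))) (PT.nd (nat_lit 78) (PT.lf (nat_lit 2812) (nat_lit 3) (nat_lit 37) (nat_lit 4) (nat_lit 86) (nat_lit 152) (nat_lit 152)) (PT.lf (nat_lit 2964) (nat_lit 6) (nat_lit 39) (nat_lit 4) (nat_lit 87) (nat_lit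 152) (nat_lit 151))))))))
noncomputable def pc30 : PT := (PT.nd (nat_lit 45552) (PT.nd (nat_lit 5226) (PT.nd (nat_lit 4758) (PT.nd (nat_lit 234) (PT.nd (nat_lit 78) (PT.lf (nat_lit 3116) (nat_lit 6) (nat_lit 41) (nat_lit 4) (nat_lit 88) (nat_lit 152) (nat_lit 150)) (PT.nd (nat_lit 78) (PT.lf (nat_lit 3344) (nat_lit 6) (nat_lit 44) (nat_lit 4) (nat_lit 89) (nat_lit 152) (nat_lit 149)) (PT.lf (nat_lit 3496) (nat_lit 6) (nat_lit 46) (nat_lit 4) (nat_lit 90) (nat_lit 152) (nat_lit 148)))) (PT.nd (nat_lit 4368) (PT.lf (nat_lit 3724) (nat_lit 6) (nat_lit 49) (nat_lit 4) (nat_lit 91) (nat_lit 152) (nat_lit 147)) (PT.nd (nat_lit 78) (PT.lf (nat_lit 3724) (nat_lit 6) (nat_lit 49) (nat_lit 2) (nat_lit 147) (nat_lit 152) (nat_lit 91)) (PT.lf (nat_lit 3496) (nat_lit 6) (nat_lit 46) (nat_lit 2) (nat_lit 148) (nat_lit 152) (nat_lit 90))))) (PT.nd (nat_lit 234) (PT.nd (nat_lit 78) (PT.lf (nat_lit 3344) (nat_lit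 6) (nat_lit 44) (nat_lit 2) (nat_lit 149) (nat_lit 152) (nat_lit 89)) (PT.nd (nat_lit 78) (PT.lf (nat_lit 3116) (nat_lit 6) (nat_lit 41) (nat_lit 2) (nat_lit 150) (nat_lit 152) (nat_lit 88)) (PT.lf (nat_lit 2964) (nat_lit 6) (nat_lit 39) (nat_lit 2) (nat_lit 151) (nat_lit 152) (nat_lit 87)))) (PT.nd (nat_lit 78) (PT.lf (nat_lit 2812) (nat_lit 3) (nat_lit 37) (nat_lit 0) (nat_lit 152) (nat_lit 152) (nat_lit 86)) (PT.nd (nat_lit 78) (PT.lf (nat_lit 2584) (nat_lit 6) (nat_lit 34) (nat_lit 0) (nat_lit 153) (nat_lit 152) (nat_lit 85)) (PT.lf (nat_lit 2356) (nat_lit 6) (nat_lit 31) (nat_lit 0) (nat_lit 154) (nat_lit 152) (nat_lit 84)))))) (PT.nd (nat_lit 35256) (PT.nd (nat_lit 35022) (PT.nd (nat_lit 34866) (PT.lf (nat_lit 2128) (nat_lit 6) (nat_lit 28) (nat_lit 0) (nat_lit 155) (nat_lit 152) (nat_lit 83)) (PT.nd (nat_lit 78) (PT.lf (nat_lit 1824) (nat_lit 6) (nat_lit 24) (nat_lit 5) (nat_lit 81) (nat_lit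 153) (nat_lit 156)) (PT.lf (nat_lit 1976) (nat_lit 6) (nat_lit 26) (nat_lit 5) (nat_lit 82) (nat_lit 153) (nat_lit 155)))) (PT.nd (nat_lit 78) (PT.lf (nat_lit 2204) (nat_lit 6) (nat_lit 29) (nat_lit 5) (nat_lit 83) (nat_lit 153) (nat_lit 154)) (PT.nd (nat_lit 78) (PT.lf (nat_lit 2432) (nat_lit 3) (nat_lit 32) (nat_lit 4) (nat_lit 84) (nat_lit 153) (nat_lit 153)) (PT.lf (nat_lit 2584) (nat_lit 6) (nat_lit 34) (nat_lit 4) (nat_lit 85) (nat_lit 153) (nat_lit 152))))) (PT.nd (nat_lit 234) (PT.nd (nat_lit 78) (PT.lf (nat_lit 2736) (nat_lit 6) (nat_lit 36) (nat_lit 4) (nat_lit 86) (nat_lit 153) (nat_lit 151)) (PT.nd (nat_lit 78) (PT.lf (nat_lit 2888) (nat_lit 6) (nat_lit 38) (nat_lit 4) (nat_lit 87) (nat_lit 153) (nat_lit 150)) (PT.lf (nat_lit 3040) (nat_lit 6) (nat_lit 40) (nat_lit 4) (nat_lit 88) (nat_lit 153) (nat_lit 149)))) (PT.nd (nat_lit 4680) (PT.nd (nat_lit 4602) (PT.lf (nat_lit 3268) (nat_lit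 6) (nat_lit 43) (nat_lit 4) (nat_lit 89) (nat_lit 153) (nat_lit 148)) (PT.lf (nat_lit 3268) (nat_lit 6) (nat_lit 43) (nat_lit 2) (nat_lit 148) (nat_lit 153) (nat_lit 89))) (PT.nd (nat_lit 78) (PT.lf (nat_lit 3040) (nat_lit 6) (nat_lit 40) (nat_lit 2) (nat_lit 149) (nat_lit 153) (nat_lit 88)) (PT.lf (nat_lit 2888) (nat_lit 6) (nat_lit 38) (nat_lit 2) (nat_lit 150) (nat_lit 153) (nat_lit 87))))))) (PT.nd (nat_lit 35568) (PT.nd (nat_lit 35022) (PT.nd (nat_lit 234) (PT.nd (nat_lit 78) (PT.lf (nat_lit 2736) (nat_lit 6) (nat_lit 36) (nat_lit 2) (nat_lit 151) (nat_lit 153) (nat_lit 86)) (PT.nd (nat_lit 78) (PT.lf (nat_lit 2584) (nat_lit 6) (nat_lit 34) (nat_lit 2) (nat_lit 152) (nat_lit 153) (nat_lit 85)) (PT.lf (nat_lit 2432) (nat_lit 3) (nat_lit 32) (nat_lit 0) (nat_lit 153) (nat_lit 153) (nat_lit 84)))) (PT.nd (nat_lit 78) (PT.lf (nat_lit 2204) (nat_lit 6) (nat_lit 29) (nat_lit 0) (nat_lit 154) (nat_lit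 153) (nat_lit 83)) (PT.nd (nat_lit 78) (PT.lf (nat_lit 1976) (nat_lit 6) (nat_lit 26) (nat_lit 0) (nat_lit 155) (nat_lit 153) (nat_lit 82)) (PT.lf (nat_lit 1824) (nat_lit 6) (nat_lit 24) (nat_lit 0) (nat_lit 156) (nat_lit 153) (nat_lit 81))))) (PT.nd (nat_lit 234) (PT.nd (nat_lit 78) (PT.lf (nat_lit 1520) (nat_lit 6) (nat_lit 20) (nat_lit 5) (nat_lit 79) (nat_lit 154) (nat_lit 157)) (PT.nd (nat_lit 78) (PT.lf (nat_lit 1672) (nat_lit 6) (nat_lit 22) (nat_lit 5) (nat_lit 80) (nat_lit 154) (nat_lit 156)) (PT.lf (nat_lit 1900) (nat_lit 6) (nat_lit 25) (nat_lit 5) (nat_lit 81) (nat_lit 154) (nat_lit 155)))) (PT.nd (nat_lit 156) (PT.nd (nat_lit 78) (PT.lf (nat_lit 2052) (nat_lit 3) (nat_lit 27) (nat_lit 4) (nat_lit 82) (nat_lit 154) (nat_lit 154)) (PT.lf (nat_lit 2204) (nat_lit 6) (nat_lit 29) (nat_lit 4) (nat_lit 83) (nat_lit 154) (nat_lit 153))) (PT.nd (nat_lit 78) (PT.lf (nat_lit 2356) (nat_lit 6)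 (nat_lit 31) (nat_lit 4) (nat_lit 84) (nat_lit 154) (nat_lit 152)) (PT.lf (nat_lit 2508) (nat_lit 6) (nat_lit 33) (nat_lit 4) (nat_lit 85) (nat_lit 154) (nat_lit 151)))))) (PT.nd (nat_lit 5382) (PT.nd (nat_lit 5148) (PT.nd (nat_lit 4992) (PT.lf (nat_lit 2660) (nat_lit 6) (nat_lit 35) (nat_lit 4) (nat_lit 86) (nat_lit 154) (nat_lit 150)) (PT.nd (nat_lit 78) (PT.lf (nat_lit 2660) (nat_lit 6) (nat_lit 35) (nat_lit 2) (nat_lit 150) (nat_lit 154) (nat_lit 86)) (PT.lf (nat_lit 2508) (nat_lit 6) (nat_lit 33) (nat_lit 2) (nat_lit 151) (nat_lit 154) (nat_lit 85)))) (PT.nd (nat_lit 78) (PT.lf (nat_lit 2356) (nat_lit 6) (nat_lit 31) (nat_lit 2) (nat_lit 152) (nat_lit 154) (nat_lit 84)) (PT.nd (nat_lit 78) (PT.lf (nat_lit 2204) (nat_lit 6) (nat_lit 29) (nat_lit 2) (nat_lit 153) (nat_lit 154) (nat_lit 83)) (PT.lf (nat_lit 2052) (nat_lit 3) (nat_lit 27) (nat_lit 0) (nat_lit 154) (nat_lit 154) (nat_lit 82)))))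 (PT.nd (nat_lit 34632) (PT.nd (nat_lit 78) (PT.lf (nat_lit 1900) (nat_lit 6) (nat_lit 25) (nat_lit 0) (nat_lit 155) (nat_lit 154) (nat_lit 81)) (PT.nd (nat_lit 78) (PT.lf (nat_lit 1672) (nat_lit 6) (nat_lit 22) (nat_lit 0) (nat_lit 156) (nat_lit 154) (nat_lit 80)) (PT.lf (nat_lit 1520) (nat_lit 6) (nat_lit 20) (nat_lit 0) (nat_lit 157) (nat_lit 154) (nat_lit 79)))) (PT.nd (nat_lit 156) (PT.nd (nat_lit 78) (PT.lf (nat_lit 1368) (nat_lit 6) (nat_lit 18) (nat_lit 5) (nat_lit 78) (nat_lit 155) (nat_lit 157)) (PT.lf (nat_lit 1596) (nat_lit 6) (nat_lit 21) (nat_lit 5) (nat_lit 79) (nat_lit 155) (nat_lit 156))) (PT.nd (nat_lit 78) (PT.lf (nat_lit 1748) (nat_lit 3) (nat_lit 23) (nat_lit 4) (nat_lit 80) (nat_lit 155) (nat_lit 155)) (PT.lf (nat_lit 1900) (nat_lit 6) (nat_lit 25) (nat_lit 4) (nat_lit 81) (nat_lit 155) (nat_lit 154))))))))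
noncomputable def pc31 : PT := (PT.nd (nat_lit 80964) (PT.nd (nat_lit 40404) (PT.nd (nat_lit 5616) (PT.nd (nat_lit 5382) (PT.nd (nat_lit 78) (PT.lf (nat_lit 1976) (nat_lit 6) (nat_lit 26) (nat_lit 4) (nat_lit 82) (nat_lit 155) (nat_lit 153)) (PT.nd (nat_lit 78) (PT.lf (nat_lit 2128) (nat_lit 6) (nat_lit 28) (nat_lit 4) (nat_lit 83) (nat_lit 155) (nat_lit 152)) (PT.lf (nat_lit 2280) (nat_lit 6) (nat_lit 30) (nat_lit 4) (nat_lit 84) (nat_lit 155) (nat_lit 151)))) (PT.nd (nat_lit 78) (PT.lf (nat_lit 2280) (nat_lit 6) (nat_lit 30) (nat_lit 2) (nat_lit 151) (nat_lit 155) (nat_lit 84)) (PT.nd (nat_lit 78) (PT.lf (nat_lit 2128) (nat_lit 6) (nat_lit 28) (nat_lit 2) (nat_lit 152) (nat_lit 155) (nat_lit 83)) (PT.lf (nat_lit 1976) (nat_lit 6) (nat_lit 26) (nat_lit 2) (nat_lit 153) (nat_lit 155) (nat_lit 82))))) (PT.nd (nat_lit 234) (PT.nd (nat_lit 78) (PT.lf (nat_lit 1900) (nat_lit 6) (nat_lit 25) (nat_lit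 2) (nat_lit 154) (nat_lit 155) (nat_lit 81)) (PT.nd (nat_lit 78) (PT.lf (nat_lit 1748) (nat_lit 3) (nat_lit 23) (nat_lit 0) (nat_lit 155) (nat_lit 155) (nat_lit 80)) (PT.lf (nat_lit 1596) (nat_lit 6) (nat_lit 21) (nat_lit 0) (nat_lit 156) (nat_lit 155) (nat_lit 79)))) (PT.nd (nat_lit 34398) (PT.nd (nat_lit 34320) (PT.lf (nat_lit 1368) (nat_lit 6) (nat_lit 18) (nat_lit 0) (nat_lit 157) (nat_lit 155) (nat_lit 78)) (PT.lf (nat_lit 1064) (nat_lit 6) (nat_lit 14) (nat_lit 5) (nat_lit 76) (nat_lit 156) (nat_lit 158))) (PT.nd (nat_lit 78) (PT.lf (nat_lit 1292) (nat_lit 6) (nat_lit 17) (nat_lit 5) (nat_lit 77) (nat_lit 156) (nat_lit 157)) (PT.lf (nat_lit 1444) (nat_lit 3) (nat_lit 19) (nat_lit 4) (nat_lit 78) (nat_lit 156) (nat_lit 156)))))) (PT.nd (nat_lit 6006) (PT.nd (nat_lit 5772) (PT.nd (nat_lit 78) (PT.lf (nat_lit 1596) (nat_lit 6) (nat_lit 21) (nat_lit 4) (nat_lit 79) (nat_lit 156) (nat_lit 155))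 (PT.nd (nat_lit 78) (PT.lf (nat_lit 1672) (nat_lit 6) (nat_lit 22) (nat_lit 4) (nat_lit 80) (nat_lit 156) (nat_lit 154)) (PT.lf (nat_lit 1824) (nat_lit 6) (nat_lit 24) (nat_lit 4) (nat_lit 81) (nat_lit 156) (nat_lit 153)))) (PT.nd (nat_lit 78) (PT.lf (nat_lit 1824) (nat_lit 6) (nat_lit 24) (nat_lit 2) (nat_lit 153) (nat_lit 156) (nat_lit 81)) (PT.nd (nat_lit 78) (PT.lf (nat_lit 1672) (nat_lit 6) (nat_lit 22) (nat_lit 2) (nat_lit 154) (nat_lit 156) (nat_lit 80)) (PT.lf (nat_lit 1596) (nat_lit 6) (nat_lit 21) (nat_lit 2) (nat_lit 155) (nat_lit 156) (nat_lit 79))))) (PT.nd (nat_lit 34242) (PT.nd (nat_lit 78) (PT.lf (nat_lit 1444) (nat_lit 3) (nat_lit 19) (nat_lit 0) (nat_lit 156) (nat_lit 156) (nat_lit 78)) (PT.nd (nat_lit 78) (PT.lf (nat_lit 1292) (nat_lit 6) (nat_lit 17) (nat_lit 0) (nat_lit 157) (nat_lit 156) (nat_lit 77)) (PT.lf (nat_lit 1064) (nat_lit 6) (nat_lit 14) (nat_lit 0) (nat_lit 158)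 (nat_lit 156) (nat_lit 76)))) (PT.nd (nat_lit 156) (PT.nd (nat_lit 78) (PT.lf (nat_lit 836) (nat_lit 6) (nat_lit 11) (nat_lit 5) (nat_lit 74) (nat_lit 157) (nat_lit 159)) (PT.lf (nat_lit 988) (nat_lit 6) (nat_lit 13) (nat_lit 5) (nat_lit 75) (nat_lit 157) (nat_lit 158))) (PT.nd (nat_lit 78) (PT.lf (nat_lit 1140) (nat_lit 3) (nat_lit 15) (nat_lit 4) (nat_lit 76) (nat_lit 157) (nat_lit 157)) (PT.lf (nat_lit 1292) (nat_lit 6) (nat_lit 17) (nat_lit 4) (nat_lit 77) (nat_lit 157) (nat_lit 156))))))) (PT.nd (nat_lit 46800) (PT.nd (nat_lit 6240) (PT.nd (nat_lit 6006) (PT.nd (nat_lit 78) (PT.lf (nat_lit 1368) (nat_lit 6) (nat_lit 18) (nat_lit 4) (nat_lit 78) (nat_lit 157) (nat_lit 155)) (PT.nd (nat_lit 5850) (PT.lf (nat_lit 1520) (nat_lit 6) (nat_lit 20) (nat_lit 4) (nat_lit 79) (nat_lit 157) (nat_lit 154)) (PT.lf (nat_lit 1520) (nat_lit 6) (nat_lit 20) (nat_lit 2) (nat_lit 154) (nat_lit 157) (nat_lit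 79)))) (PT.nd (nat_lit 78) (PT.lf (nat_lit 1368) (nat_lit 6) (nat_lit 18) (nat_lit 2) (nat_lit 155) (nat_lit 157) (nat_lit 78)) (PT.nd (nat_lit 78) (PT.lf (nat_lit 1292) (nat_lit 6) (nat_lit 17) (nat_lit 2) (nat_lit 156) (nat_lit 157) (nat_lit 77)) (PT.lf (nat_lit 1140) (nat_lit 3) (nat_lit 15) (nat_lit 0) (nat_lit 157) (nat_lit 157) (nat_lit 76))))) (PT.nd (nat_lit 34086) (PT.nd (nat_lit 78) (PT.lf (nat_lit 988) (nat_lit 6) (nat_lit 13) (nat_lit 0) (nat_lit 158) (nat_lit 157) (nat_lit 75)) (PT.nd (nat_lit 33930) (PT.lf (nat_lit 836) (nat_lit 6) (nat_lit 11) (nat_lit 0) (nat_lit 159) (nat_lit 157) (nat_lit 74)) (PT.lf (nat_lit 760) (nat_lit 6) (nat_lit 10) (nat_lit 5) (nat_lit 73) (nat_lit 158) (nat_lit 159)))) (PT.nd (nat_lit 156) (PT.nd (nat_lit 78) (PT.lf (nat_lit 912) (nat_lit 3) (nat_lit 12) (nat_lit 4) (nat_lit 74) (nat_lit 158) (nat_lit 158)) (PT.lf (nat_lit 988) (nat_lit 6) (nat_lit 13)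 (nat_lit 4) (nat_lit 75) (nat_lit 158) (nat_lit 157))) (PT.nd (nat_lit 6240) (PT.lf (nat_lit 1064) (nat_lit 6) (nat_lit 14) (nat_lit 4) (nat_lit 76) (nat_lit 158) (nat_lit 156)) (PT.lf (nat_lit 1064) (nat_lit 6) (nat_lit 14) (nat_lit 2) (nat_lit 156) (nat_lit 158) (nat_lit 76)))))) (PT.nd (nat_lit 40716) (PT.nd (nat_lit 34086) (PT.nd (nat_lit 78) (PT.lf (nat_lit 988) (nat_lit 6) (nat_lit 13) (nat_lit 2) (nat_lit 157) (nat_lit 158) (nat_lit 75)) (PT.nd (nat_lit 78) (PT.lf (nat_lit 912) (nat_lit 3) (nat_lit 12) (nat_lit 0) (nat_lit 158) (nat_lit 158) (nat_lit 74)) (PT.lf (nat_lit 760) (nat_lit 6) (nat_lit 10) (nat_lit 0) (nat_lit 159) (nat_lit 158) (nat_lit 73)))) (PT.nd (nat_lit 78) (PT.lf (nat_lit 760) (nat_lit 6) (nat_lit 10) (nat_lit 4) (nat_lit 73) (nat_lit 159) (nat_lit 158)) (PT.nd (nat_lit 6474) (PT.lf (nat_lit 836) (nat_lit 6) (nat_lit 11) (nat_lit 4) (nat_lit 74) (nat_lit 159) (nat_lit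 157)) (PT.lf (nat_lit 836) (nat_lit 6) (nat_lit 11) (nat_lit 2) (nat_lit 157) (nat_lit 159) (nat_lit 74))))) (PT.nd (nat_lit 81510) (PT.nd (nat_lit 74178) (PT.lf (nat_lit 760) (nat_lit 6) (nat_lit 10) (nat_lit 2) (nat_lit 158) (nat_lit 159) (nat_lit 73)) (PT.nd (nat_lit 78) (PT.lf (nat_lit 76) (nat_lit 6) (nat_lit 1) (nat_lit 5) (nat_lit 67) (nat_lit 161) (nat_lit 162)) (PT.lf (nat_lit 228) (nat_lit 3) (nat_lit 3) (nat_lit 4) (nat_lit 68) (nat_lit 161) (nat_lit 161)))) (PT.nd (nat_lit 33306) (PT.nd (nat_lit 78) (PT.lf (nat_lit 228) (nat_lit 3) (nat_lit 3) (nat_lit 0) (nat_lit 161) (nat_lit 161) (nat_lit 68)) (PT.lf (nat_lit 76) (nat_lit 6) (nat_lit 1) (nat_lit 0) (nat_lit 162) (nat_lit 161) (nat_lit 67))) (PT.nd (nat_lit 7332) (PT.lf (nat_lit 76) (nat_lit 6) (nat_lit 1) (nat_lit 4) (nat_lit 67) (nat_lit 162) (nat_lit 161)) (PT.lf (nat_lit 76) (nat_lit 6) (nat_lit 1) (nat_lit 2) (nat_lit 161) (nat_lit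 162) (nat_lit 67))))))))
noncomputable def xc0 : XT := (XT.nd (nat_lit 162084) (nat_lit 0) (nat_lit 0) (XT.nd (nat_lit 81354) (nat_lit 0) (nat_lit 0) (XT.nd (nat_lit 40716) (nat_lit 0) (nat_lit 0) (XT.nd (nat_lit 40482) (nat_lit 0) (nat_lit 152) (XT.nd (nat_lit 78) (nat_lit 152) (nat_lit 0) (XT.lf (nat_lit 0) (nat_lit 13230661447) (nat_lit 76) (nat_lit 401592039) (nat_lit 76) (nat_lit 401592039) (nat_lit 7) (nat_lit 4) (nat_lit 8) (nat_lit 5) (nat_lit 8) (nat_lit 4) (nat_lit 362) (nat_lit 209) (nat_lit 209)) (XT.nd (nat_lit 78) (nat_lit 0) (nat_lit 0) (XT.lf (nat_lit 0) (nat_lit 4628692393) (nat_lit 152) (nat_lit 19944942541) (nat_lit 0) (nat_lit 4217153507) (nat_lit 5) (nat_lit 5) (nat_lit 7) (nat_lit 4) (nat_lit 5) (nat_lit 4) (nat_lit 363) (nat_lit 209) (nat_lit 208)) (XT.lf (nat_lit 0) (nat_lit 10115285657) (nat_lit 152) (nat_lit 10117971090) (nat_lit 0) (nat_lit 9304194455) (nat_lit 5) (nat_lit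 5) (nat_lit 7) (nat_lit 4) (nat_lit 5) (nat_lit 4) (nat_lit 364) (nat_lit 209) (nat_lit 207)))) (XT.nd (nat_lit 78) (nat_lit 0) (nat_lit 0) (XT.lf (nat_lit 0) (nat_lit 2345100799) (nat_lit 76) (nat_lit 5498759685) (nat_lit 76) (nat_lit 5498759685) (nat_lit 7) (nat_lit 4) (nat_lit 8) (nat_lit 5) (nat_lit 8) (nat_lit 4) (nat_lit 360) (nat_lit 210) (nat_lit 210)) (XT.nd (nat_lit 78) (nat_lit 0) (nat_lit 0) (XT.lf (nat_lit 0) (nat_lit 15466255496) (nat_lit 76) (nat_lit 6165888822) (nat_lit 76) (nat_lit 5733526068) (nat_lit 7) (nat_lit 4) (nat_lit 8) (nat_lit 5) (nat_lit 8) (nat_lit 4) (nat_lit 361) (nat_lit 210) (nat_lit 209)) (XT.lf (nat_lit 0) (nat_lit 26360091715) (nat_lit 76) (nat_lit 1280437585) (nat_lit 76) (nat_lit 428305168) (nat_lit 7) (nat_lit 4) (nat_lit 8) (nat_lit 5) (nat_lit 8) (nat_lit 4) (nat_lit 362) (nat_lit 210) (nat_lit 208))))) (XT.nd (nat_lit 40326) (nat_lit 0) (nat_lit 152)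 (XT.nd (nat_lit 78) (nat_lit 0) (nat_lit 0) (XT.lf (nat_lit 0) (nat_lit 4938859270) (nat_lit 152) (nat_lit 20150352606) (nat_lit 0) (nat_lit 3703883015) (nat_lit 5) (nat_lit 5) (nat_lit 7) (nat_lit 4) (nat_lit 5) (nat_lit 4) (nat_lit 363) (nat_lit 210) (nat_lit 207)) (XT.nd (nat_lit 40170) (nat_lit 0) (nat_lit 228) (XT.lf (nat_lit 0) (nat_lit 10371065344) (nat_lit 152) (nat_lit 10421621179) (nat_lit 0) (nat_lit 8748174220) (nat_lit 5) (nat_lit 5) (nat_lit 7) (nat_lit 4) (nat_lit 5) (nat_lit 4) (nat_lit 364) (nat_lit 210) (nat_lit 206)) (XT.lf (nat_lit 0) (nat_lit 2290935119) (nat_lit 152) (nat_lit 8111567668) (nat_lit 0) (nat_lit 2290935119) (nat_lit 8) (nat_lit 5) (nat_lit 10) (nat_lit 4) (nat_lit 8) (nat_lit 4) (nat_lit 358) (nat_lit 211) (nat_lit 211)))) (XT.nd (nat_lit 156) (nat_lit 0) (nat_lit 0) (XT.nd (nat_lit 78) (nat_lit 76) (nat_lit 0) (XT.lf (nat_lit 0) (nat_lit 10286208534) (nat_lit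 152) (nat_lit 5899090145) (nat_lit 0) (nat_lit 9840874898) (nat_lit 8) (nat_lit 5) (nat_lit 10) (nat_lit 4) (nat_lit 8) (nat_lit 4) (nat_lit 359) (nat_lit 211) (nat_lit 210)) (XT.lf (nat_lit 0) (nat_lit 4585933482) (nat_lit 76) (nat_lit 11489090482) (nat_lit 76) (nat_lit 10611394092) (nat_lit 7) (nat_lit 4) (nat_lit 8) (nat_lit 5) (nat_lit 8) (nat_lit 4) (nat_lit 360) (nat_lit 211) (nat_lit 209))) (XT.nd (nat_lit 78) (nat_lit 0) (nat_lit 0) (XT.lf (nat_lit 0) (nat_lit 15260756199) (nat_lit 76) (nat_lit 6702350686) (nat_lit 76) (nat_lit 5404884633) (nat_lit 7) (nat_lit 4) (nat_lit 8) (nat_lit 5) (nat_lit 8) (nat_lit 4) (nat_lit 361) (nat_lit 211) (nat_lit 208)) (XT.lf (nat_lit 0) (nat_lit 26056309718) (nat_lit 76) (nat_lit 1860482705) (nat_lit 76) (nat_lit 155473289) (nat_lit 7) (nat_lit 4) (nat_lit 8) (nat_lit 5) (nat_lit 8) (nat_lit 4) (nat_lit 362) (nat_lit 211) (nat_lit 207)))))) (XT.nd (nat_lit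 40404) (nat_lit 0) (nat_lit 0) (XT.nd (nat_lit 40170) (nat_lit 0) (nat_lit 228) (XT.nd (nat_lit 78) (nat_lit 0) (nat_lit 0) (XT.lf (nat_lit 0) (nat_lit 5147925157) (nat_lit 152) (nat_lit 20561352221) (nat_lit 0) (nat_lit 3088432429) (nat_lit 5) (nat_lit 5) (nat_lit 7) (nat_lit 4) (nat_lit 5) (nat_lit 4) (nat_lit 363) (nat_lit 211) (nat_lit 206)) (XT.nd (nat_lit 40014) (nat_lit 0) (nat_lit 380) (XT.lf (nat_lit 0) (nat_lit 10527328135) (nat_lit 152) (nat_lit 10927999459) (nat_lit 0) (nat_lit 8091219028) (nat_lit 5) (nat_lit 5) (nat_lit 7) (nat_lit 4) (nat_lit 5) (nat_lit 4) (nat_lit 364) (nat_lit 211) (nat_lit 205)) (XT.lf (nat_lit 0) (nat_lit 5960614709) (nat_lit 152) (nat_lit 3061253605) (nat_lit 152) (nat_lit 3061253605) (nat_lit 10) (nat_lit 4) (nat_lit 12) (nat_lit 5) (nat_lit 12) (nat_lit 4) (nat_lit 356) (nat_lit 212) (nat_lit 212)))) (XT.nd (nat_lit 78) (nat_lit 152) (nat_lit 0) (XT.lf (nat_lit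 0) (nat_lit 23092412738) (nat_lit 152) (nat_lit 1071788445) (nat_lit 152) (nat_lit 603920927) (nat_lit 10) (nat_lit 4) (nat_lit 12) (nat_lit 5) (nat_lit 12) (nat_lit 4) (nat_lit 357) (nat_lit 212) (nat_lit 211)) (XT.nd (nat_lit 78) (nat_lit 0) (nat_lit 0) (XT.lf (nat_lit 0) (nat_lit 4981489611) (nat_lit 152) (nat_lit 16329122976) (nat_lit 0) (nat_lit 4077462330) (nat_lit 8) (nat_lit 5) (nat_lit 10) (nat_lit 4) (nat_lit 8) (nat_lit 4) (nat_lit 358) (nat_lit 212) (nat_lit 210)) (XT.lf (nat_lit 0) (nat_lit 10628474243) (nat_lit 152) (nat_lit 6107978406) (nat_lit 0) (nat_lit 9292084209) (nat_lit 8) (nat_lit 5) (nat_lit 10) (nat_lit 4) (nat_lit 8) (nat_lit 4) (nat_lit 359) (nat_lit 212) (nat_lit 209))))) (XT.nd (nat_lit 234) (nat_lit 76) (nat_lit 0) (XT.nd (nat_lit 78) (nat_lit 76) (nat_lit 0) (XT.lf (nat_lit 0) (nat_lit 4273038025) (nat_lit 76) (nat_lit 12086536955) (nat_lit 76) (nat_lit 10330377257)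 (nat_lit 7) (nat_lit 4) (nat_lit 8) (nat_lit 5) (nat_lit 8) (nat_lit 4) (nat_lit 360) (nat_lit 212) (nat_lit 208)) (XT.nd (nat_lit 78) (nat_lit 76) (nat_lit 0) (XT.lf (nat_lit 0) (nat_lit 14849578043) (nat_lit 76) (nat_lit 7343380414) (nat_lit 76) (nat_lit 5179677354) (nat_lit 7) (nat_lit 4) (nat_lit 8) (nat_lit 5) (nat_lit 8) (nat_lit 4) (nat_lit 361) (nat_lit 212) (nat_lit 207)) (XT.lf (nat_lit 0) (nat_lit 15346014) (nat_lit 152) (nat_lit 2528377279) (nat_lit 76) (nat_lit 25534262471) (nat_lit 6) (nat_lit 5) (nat_lit 8) (nat_lit 5) (nat_lit 7) (nat_lit 4) (nat_lit 362) (nat_lit 212) (nat_lit 206)))) (XT.nd (nat_lit 39936) (nat_lit 0) (nat_lit 380) (XT.nd (nat_lit 78) (nat_lit 0) (nat_lit 0) (XT.lf (nat_lit 0) (nat_lit 5256072734) (nat_lit 152) (nat_lit 21178300513) (nat_lit 0) (nat_lit 2370263975) (nat_lit 5) (nat_lit 5) (nat_lit 7) (nat_lit 4) (nat_lit 5) (nat_lit 4) (nat_lit 363) (nat_lit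 212) (nat_lit 205)) (XT.lf (nat_lit 0) (nat_lit 10584210569) (nat_lit 152) (nat_lit 11637548394) (nat_lit 0) (nat_lit 7332754840) (nat_lit 5) (nat_lit 5) (nat_lit 7) (nat_lit 4) (nat_lit 5) (nat_lit 4) (nat_lit 364) (nat_lit 212) (nat_lit 204))) (XT.nd (nat_lit 78) (nat_lit 152) (nat_lit 0) (XT.lf (nat_lit 0) (nat_lit 3294412756) (nat_lit 152) (nat_lit 4920758602) (nat_lit 0) (nat_lit 3294412756) (nat_lit 12) (nat_lit 5) (nat_lit 14) (nat_lit 4) (nat_lit 12) (nat_lit 4) (nat_lit 354) (nat_lit 213) (nat_lit 213)) (XT.lf (nat_lit 0) (nat_lit 866477867) (nat_lit 152) (nat_lit 11599850213) (nat_lit 152) (nat_lit 11117946669) (nat_lit 10) (nat_lit 4) (nat_lit 12) (nat_lit 5) (nat_lit 12) (nat_lit 4) (nat_lit 355) (nat_lit 213) (nat_lit 212))))))) (XT.nd (nat_lit 40638) (nat_lit 0) (nat_lit 0) (XT.nd (nat_lit 468) (nat_lit 152) (nat_lit 0) (XT.nd (nat_lit 234) (nat_lit 76) (nat_lit 0) (XT.nd (nat_lit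 78) (nat_lit 152) (nat_lit 0) (XT.lf (nat_lit 0) (nat_lit 11815214257) (nat_lit 152) (nat_lit 6651003797) (nat_lit 152) (nat_lit 5701232736) (nat_lit 10) (nat_lit 4) (nat_lit 12) (nat_lit 5) (nat_lit 12) (nat_lit 4) (nat_lit 356) (nat_lit 213) (nat_lit 211)) (XT.nd (nat_lit 78) (nat_lit 152) (nat_lit 0) (XT.lf (nat_lit 0) (nat_lit 22883470236) (nat_lit 152) (nat_lit 1645520997) (nat_lit 152) (nat_lit 241509627) (nat_lit 10) (nat_lit 4) (nat_lit 12) (nat_lit 5) (nat_lit 12) (nat_lit 4) (nat_lit 357) (nat_lit 213) (nat_lit 210)) (XT.lf (nat_lit 0) (nat_lit 5276669629) (nat_lit 152) (nat_lit 16647178506) (nat_lit 0) (nat_lit 3467825140) (nat_lit 8) (nat_lit 5) (nat_lit 10) (nat_lit 4) (nat_lit 8) (nat_lit 4) (nat_lit 358) (nat_lit 213) (nat_lit 209)))) (XT.nd (nat_lit 78) (nat_lit 76) (nat_lit 0) (XT.lf (nat_lit 0) (nat_lit 10867971093) (nat_lit 152) (nat_lit 6525937451) (nat_lit 0) (nat_lit 8639356941)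 (nat_lit 8) (nat_lit 5) (nat_lit 10) (nat_lit 4) (nat_lit 8) (nat_lit 4) (nat_lit 359) (nat_lit 213) (nat_lit 208)) (XT.nd (nat_lit 78) (nat_lit 0) (nat_lit 0) (XT.lf (nat_lit 0) (nat_lit 3751241824) (nat_lit 76) (nat_lit 12790380830) (nat_lit 76) (nat_lit 10154223315) (nat_lit 7) (nat_lit 4) (nat_lit 8) (nat_lit 5) (nat_lit 8) (nat_lit 4) (nat_lit 360) (nat_lit 213) (nat_lit 207)) (XT.lf (nat_lit 0) (nat_lit 14232361745) (nat_lit 76) (nat_lit 8089538129) (nat_lit 76) (nat_lit 5057707447) (nat_lit 7) (nat_lit 4) (nat_lit 8) (nat_lit 5) (nat_lit 8) (nat_lit 4) (nat_lit 361) (nat_lit 213) (nat_lit 206))))) (XT.nd (nat_lit 39858) (nat_lit 0) (nat_lit 380) (XT.nd (nat_lit 78) (nat_lit 76) (nat_lit 0) (XT.lf (nat_lit 0) (nat_lit 83800339) (nat_lit 152) (nat_lit 3246702702) (nat_lit 76) (nat_lit 24755491612) (nat_lit 6) (nat_lit 5) (nat_lit 8) (nat_lit 5) (nat_lit 7) (nat_lit 4) (nat_lit 362) (nat_lit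 213) (nat_lit 205)) (XT.nd (nat_lit 78) (nat_lit 0) (nat_lit 0) (XT.lf (nat_lit 0) (nat_lit 5263396499) (nat_lit 152) (nat_lit 22001736561) (nat_lit 0) (nat_lit 1548750129) (nat_lit 5) (nat_lit 5) (nat_lit 7) (nat_lit 4) (nat_lit 5) (nat_lit 4) (nat_lit 363) (nat_lit 213) (nat_lit 204)) (XT.lf (nat_lit 0) (nat_lit 10541762351) (nat_lit 152) (nat_lit 12550887981) (nat_lit 0) (nat_lit 6472118922) (nat_lit 5) (nat_lit 5) (nat_lit 7) (nat_lit 4) (nat_lit 5) (nat_lit 4) (nat_lit 364) (nat_lit 213) (nat_lit 203)))) (XT.nd (nat_lit 156) (nat_lit 152) (nat_lit 0) (XT.nd (nat_lit 78) (nat_lit 152) (nat_lit 0) (XT.lf (nat_lit 0) (nat_lit 6553957433) (nat_lit 152) (nat_lit 2208352401) (nat_lit 152) (nat_lit 2208352401) (nat_lit 14) (nat_lit 4) (nat_lit 16) (nat_lit 5) (nat_lit 16) (nat_lit 4) (nat_lit 352) (nat_lit 214) (nat_lit 214)) (XT.lf (nat_lit 0) (nat_lit 1265105276) (nat_lit 152) (nat_lit 20438984153)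 (nat_lit 0) (nat_lit 768744626) (nat_lit 12) (nat_lit 5) (nat_lit 14) (nat_lit 4) (nat_lit 12) (nat_lit 4) (nat_lit 353) (nat_lit 214) (nat_lit 213))) (XT.nd (nat_lit 78) (nat_lit 152) (nat_lit 0) (XT.lf (nat_lit 0) (nat_lit 7024690352) (nat_lit 152) (nat_lit 9949280700) (nat_lit 0) (nat_lit 6046426159) (nat_lit 12) (nat_lit 5) (nat_lit 14) (nat_lit 4) (nat_lit 12) (nat_lit 4) (nat_lit 354) (nat_lit 214) (nat_lit 212)) (XT.lf (nat_lit 0) (nat_lit 651267090) (nat_lit 152) (nat_lit 12190794741) (nat_lit 152) (nat_lit 10744663030) (nat_lit 10) (nat_lit 4) (nat_lit 12) (nat_lit 5) (nat_lit 12) (nat_lit 4) (nat_lit 355) (nat_lit 214) (nat_lit 211)))))) (XT.nd (nat_lit 468) (nat_lit 152) (nat_lit 0) (XT.nd (nat_lit 234) (nat_lit 76) (nat_lit 0) (XT.nd (nat_lit 78) (nat_lit 152) (nat_lit 0) (XT.lf (nat_lit 0) (nat_lit 11497076139) (nat_lit 152) (nat_lit 7287184290) (nat_lit 152) (nat_lit 5386812270)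 (nat_lit 10) (nat_lit 4) (nat_lit 12) (nat_lit 5) (nat_lit 12) (nat_lit 4) (nat_lit 356) (nat_lit 214) (nat_lit 210)) (XT.nd (nat_lit 78) (nat_lit 76) (nat_lit 0) (XT.lf (nat_lit 0) (nat_lit 15555402) (nat_lit 228) (nat_lit 2309960114) (nat_lit 76) (nat_lit 22449742873) (nat_lit 9) (nat_lit 5) (nat_lit 12) (nat_lit 5) (nat_lit 10) (nat_lit 4) (nat_lit 357) (nat_lit 214) (nat_lit 209)) (XT.lf (nat_lit 0) (nat_lit 5467668216) (nat_lit 152) (nat_lit 17177579838) (nat_lit 0) (nat_lit 2752425976) (nat_lit 8) (nat_lit 5) (nat_lit 10) (nat_lit 4) (nat_lit 8) (nat_lit 4) (nat_lit 358) (nat_lit 214) (nat_lit 208)))) (XT.nd (nat_lit 78) (nat_lit 76) (nat_lit 0) (XT.lf (nat_lit 0) (nat_lit 11004908352) (nat_lit 152) (nat_lit 7153332488) (nat_lit 0) (nat_lit 7882122749) (nat_lit 8) (nat_lit 5) (nat_lit 10) (nat_lit 4) (nat_lit 8) (nat_lit 4) (nat_lit 359) (nat_lit 214) (nat_lit 207)) (XT.nd (nat_lit 78) (nat_lit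 0) (nat_lit 0) (XT.lf (nat_lit 0) (nat_lit 3020088941) (nat_lit 76) (nat_lit 13601237116) (nat_lit 76) (nat_lit 10082778346) (nat_lit 7) (nat_lit 4) (nat_lit 8) (nat_lit 5) (nat_lit 8) (nat_lit 4) (nat_lit 360) (nat_lit 214) (nat_lit 206)) (XT.lf (nat_lit 0) (nat_lit 13408567991) (nat_lit 76) (nat_lit 8941475814) (nat_lit 76) (nat_lit 5038868338) (nat_lit 7) (nat_lit 4) (nat_lit 8) (nat_lit 5) (nat_lit 8) (nat_lit 4) (nat_lit 361) (nat_lit 214) (nat_lit 205))))) (XT.nd (nat_lit 39702) (nat_lit 0) (nat_lit 532) (XT.nd (nat_lit 78) (nat_lit 76) (nat_lit 0) (XT.lf (nat_lit 0) (nat_lit 51988561) (nat_lit 152) (nat_lit 4170550491) (nat_lit 76) (nat_lit 23873780517) (nat_lit 6) (nat_lit 5) (nat_lit 8) (nat_lit 5) (nat_lit 7) (nat_lit 4) (nat_lit 362) (nat_lit 214) (nat_lit 204)) (XT.nd (nat_lit 78) (nat_lit 0) (nat_lit 0) (XT.lf (nat_lit 0) (nat_lit 5169902851) (nat_lit 152) (nat_lit 23032379873) (nat_lit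 0) (nat_lit 623173062) (nat_lit 5) (nat_lit 5) (nat_lit 7) (nat_lit 4) (nat_lit 5) (nat_lit 4) (nat_lit 363) (nat_lit 214) (nat_lit 203)) (XT.lf (nat_lit 0) (nat_lit 10399946388) (nat_lit 152) (nat_lit 13668816282) (nat_lit 0) (nat_lit 5508559262) (nat_lit 5) (nat_lit 5) (nat_lit 7) (nat_lit 4) (nat_lit 5) (nat_lit 4) (nat_lit 364) (nat_lit 214) (nat_lit 202)))) (XT.nd (nat_lit 156) (nat_lit 152) (nat_lit 0) (XT.nd (nat_lit 78) (nat_lit 152) (nat_lit 0) (XT.lf (nat_lit 0) (nat_lit 2960942399) (nat_lit 152) (nat_lit 4542180584) (nat_lit 0) (nat_lit 2960942399) (nat_lit 16) (nat_lit 5) (nat_lit 18) (nat_lit 4) (nat_lit 16) (nat_lit 4) (nat_lit 350) (nat_lit 215) (nat_lit 215)) (XT.lf (nat_lit 0) (nat_lit 1841221289) (nat_lit 152) (nat_lit 10053737446) (nat_lit 152) (nat_lit 9532260947) (nat_lit 14) (nat_lit 4) (nat_lit 16) (nat_lit 5) (nat_lit 16) (nat_lit 4) (nat_lit 351) (nat_lit 215) (nat_lit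 214))) (XT.nd (nat_lit 78) (nat_lit 152) (nat_lit 0) (XT.lf (nat_lit 0) (nat_lit 13000143483) (nat_lit 152) (nat_lit 4985091302) (nat_lit 152) (nat_lit 3957326941) (nat_lit 14) (nat_lit 4) (nat_lit 16) (nat_lit 5) (nat_lit 16) (nat_lit 4) (nat_lit 352) (nat_lit 215) (nat_lit 213)) (XT.lf (nat_lit 0) (nat_lit 1653550249) (nat_lit 152) (nat_lit 20657744049) (nat_lit 0) (nat_lit 164034587) (nat_lit 12) (nat_lit 5) (nat_lit 14) (nat_lit 4) (nat_lit 12) (nat_lit 4) (nat_lit 353) (nat_lit 215) (nat_lit 212))))))))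
noncomputable def xc1 : XT := (XT.nd (nat_lit 41340) (nat_lit 0) (nat_lit 0) (XT.nd (nat_lit 40326) (nat_lit 0) (nat_lit 152) (XT.nd (nat_lit 468) (nat_lit 228) (nat_lit 0) (XT.nd (nat_lit 234) (nat_lit 152) (nat_lit 0) (XT.nd (nat_lit 78) (nat_lit 152) (nat_lit 0) (XT.lf (nat_lit 0) (nat_lit 7354401529) (nat_lit 152) (nat_lit 10272665350) (nat_lit 0) (nat_lit 5397018348) (nat_lit 12) (nat_lit 5) (nat_lit 14) (nat_lit 4) (nat_lit 12) (nat_lit 4) (nat_lit 354) (nat_lit 215) (nat_lit 211)) (XT.nd (nat_lit 78) (nat_lit 0) (nat_lit 0) (XT.lf (nat_lit 0) (nat_lit 220657488) (nat_lit 152) (nat_lit 12891296613) (nat_lit 152) (nat_lit 10479673124) (nat_lit 10) (nat_lit 4) (nat_lit 12) (nat_lit 5) (nat_lit 12) (nat_lit 4) (nat_lit 355) (nat_lit 215) (nat_lit 210)) (XT.lf (nat_lit 0) (nat_lit 10966537079) (nat_lit 152) (nat_lit 8031604574) (nat_lit 152) (nat_lit 5178971076) (nat_lit 10) (nat_lit 4) (nat_lit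 12) (nat_lit 5) (nat_lit 12) (nat_lit 4) (nat_lit 356) (nat_lit 215) (nat_lit 209)))) (XT.nd (nat_lit 78) (nat_lit 76) (nat_lit 0) (XT.lf (nat_lit 0) (nat_lit 165914219) (nat_lit 228) (nat_lit 2945651829) (nat_lit 76) (nat_lit 21670817119) (nat_lit 9) (nat_lit 5) (nat_lit 12) (nat_lit 5) (nat_lit 10) (nat_lit 4) (nat_lit 357) (nat_lit 215) (nat_lit 208)) (XT.nd (nat_lit 78) (nat_lit 0) (nat_lit 0) (XT.lf (nat_lit 0) (nat_lit 5554652264) (nat_lit 152) (nat_lit 17920790430) (nat_lit 0) (nat_lit 1930639731) (nat_lit 8) (nat_lit 5) (nat_lit 10) (nat_lit 4) (nat_lit 8) (nat_lit 4) (nat_lit 358) (nat_lit 215) (nat_lit 207)) (XT.lf (nat_lit 0) (nat_lit 11039405674) (nat_lit 152) (nat_lit 7990711726) (nat_lit 0) (nat_lit 7019719973) (nat_lit 8) (nat_lit 5) (nat_lit 10) (nat_lit 4) (nat_lit 8) (nat_lit 4) (nat_lit 359) (nat_lit 215) (nat_lit 206))))) (XT.nd (nat_lit 234) (nat_lit 152) (nat_lit 0) (XT.nd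 (nat_lit 78) (nat_lit 0) (nat_lit 0) (XT.lf (nat_lit 0) (nat_lit 2078940503) (nat_lit 76) (nat_lit 14519814330) (nat_lit 76) (nat_lit 10115979923) (nat_lit 7) (nat_lit 4) (nat_lit 8) (nat_lit 5) (nat_lit 8) (nat_lit 4) (nat_lit 360) (nat_lit 215) (nat_lit 205)) (XT.nd (nat_lit 78) (nat_lit 0) (nat_lit 0) (XT.lf (nat_lit 0) (nat_lit 12377476961) (nat_lit 76) (nat_lit 9899937880) (nat_lit 76) (nat_lit 5123143564) (nat_lit 7) (nat_lit 4) (nat_lit 8) (nat_lit 5) (nat_lit 8) (nat_lit 4) (nat_lit 361) (nat_lit 215) (nat_lit 204)) (XT.lf (nat_lit 0) (nat_lit 22807704013) (nat_lit 76) (nat_lit 5220073147) (nat_lit 76) (nat_lit 81181831) (nat_lit 7) (nat_lit 4) (nat_lit 8) (nat_lit 5) (nat_lit 8) (nat_lit 4) (nat_lit 362) (nat_lit 215) (nat_lit 203)))) (XT.nd (nat_lit 39468) (nat_lit 0) (nat_lit 836) (XT.nd (nat_lit 78) (nat_lit 0) (nat_lit 0) (XT.lf (nat_lit 0) (nat_lit 4565501078) (nat_lit 76) (nat_lit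 412688465) (nat_lit 152) (nat_lit 23861121994) (nat_lit 5) (nat_lit 5) (nat_lit 6) (nat_lit 5) (nat_lit 7) (nat_lit 4) (nat_lit 363) (nat_lit 215) (nat_lit 202)) (XT.lf (nat_lit 0) (nat_lit 10158638766) (nat_lit 152) (nat_lit 14992310128) (nat_lit 0) (nat_lit 4441233913) (nat_lit 5) (nat_lit 5) (nat_lit 7) (nat_lit 4) (nat_lit 5) (nat_lit 4) (nat_lit 364) (nat_lit 215) (nat_lit 201))) (XT.nd (nat_lit 78) (nat_lit 152) (nat_lit 0) (XT.lf (nat_lit 0) (nat_lit 4772508235) (nat_lit 152) (nat_lit 2607770814) (nat_lit 152) (nat_lit 2607770814) (nat_lit 18) (nat_lit 4) (nat_lit 20) (nat_lit 5) (nat_lit 20) (nat_lit 4) (nat_lit 348) (nat_lit 216) (nat_lit 216)) (XT.lf (nat_lit 0) (nat_lit 549382762) (nat_lit 152) (nat_lit 19884184788) (nat_lit 0) (nat_lit 12261968) (nat_lit 16) (nat_lit 5) (nat_lit 18) (nat_lit 4) (nat_lit 16) (nat_lit 4) (nat_lit 349) (nat_lit 216) (nat_lit 215)))))) (XT.nd (nat_lit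 468) (nat_lit 380) (nat_lit 0) (XT.nd (nat_lit 234) (nat_lit 152) (nat_lit 0) (XT.nd (nat_lit 78) (nat_lit 152) (nat_lit 0) (XT.lf (nat_lit 0) (nat_lit 6397039085) (nat_lit 152) (nat_lit 9193909848) (nat_lit 0) (nat_lit 5338441793) (nat_lit 16) (nat_lit 5) (nat_lit 18) (nat_lit 4) (nat_lit 16) (nat_lit 4) (nat_lit 350) (nat_lit 216) (nat_lit 214)) (XT.nd (nat_lit 78) (nat_lit 0) (nat_lit 0) (XT.lf (nat_lit 0) (nat_lit 1622445382) (nat_lit 152) (nat_lit 10686085543) (nat_lit 152) (nat_lit 9121200388) (nat_lit 14) (nat_lit 4) (nat_lit 16) (nat_lit 5) (nat_lit 16) (nat_lit 4) (nat_lit 351) (nat_lit 216) (nat_lit 213)) (XT.lf (nat_lit 0) (nat_lit 12676735166) (nat_lit 152) (nat_lit 5662983090) (nat_lit 152) (nat_lit 3606556321) (nat_lit 14) (nat_lit 4) (nat_lit 16) (nat_lit 5) (nat_lit 16) (nat_lit 4) (nat_lit 352) (nat_lit 216) (nat_lit 212)))) (XT.nd (nat_lit 78) (nat_lit 0) (nat_lit 0) (XT.lf (nat_lit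 0) (nat_lit 1381177943) (nat_lit 76) (nat_lit 556856502) (nat_lit 152) (nat_lit 20542213971) (nat_lit 12) (nat_lit 5) (nat_lit 13) (nat_lit 5) (nat_lit 14) (nat_lit 4) (nat_lit 353) (nat_lit 216) (nat_lit 211)) (XT.nd (nat_lit 78) (nat_lit 0) (nat_lit 0) (XT.lf (nat_lit 0) (nat_lit 7578247140) (nat_lit 152) (nat_lit 10811953723) (nat_lit 0) (nat_lit 4640034637) (nat_lit 12) (nat_lit 5) (nat_lit 14) (nat_lit 4) (nat_lit 12) (nat_lit 4) (nat_lit 354) (nat_lit 216) (nat_lit 210)) (XT.lf (nat_lit 0) (nat_lit 13279004820) (nat_lit 152) (nat_lit 420143711) (nat_lit 0) (nat_lit 9899782310) (nat_lit 12) (nat_lit 5) (nat_lit 14) (nat_lit 4) (nat_lit 12) (nat_lit 4) (nat_lit 355) (nat_lit 216) (nat_lit 209))))) (XT.nd (nat_lit 234) (nat_lit 76) (nat_lit 0) (XT.nd (nat_lit 78) (nat_lit 152) (nat_lit 0) (XT.lf (nat_lit 0) (nat_lit 10223133500) (nat_lit 152) (nat_lit 8884915114) (nat_lit 152) (nat_lit 5077527546)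 (nat_lit 10) (nat_lit 4) (nat_lit 12) (nat_lit 5) (nat_lit 12) (nat_lit 4) (nat_lit 356) (nat_lit 216) (nat_lit 208)) (XT.nd (nat_lit 78) (nat_lit 76) (nat_lit 0) (XT.lf (nat_lit 0) (nat_lit 212865647) (nat_lit 228) (nat_lit 3793093189) (nat_lit 76) (nat_lit 20785953945) (nat_lit 9) (nat_lit 5) (nat_lit 12) (nat_lit 5) (nat_lit 10) (nat_lit 4) (nat_lit 357) (nat_lit 216) (nat_lit 207)) (XT.lf (nat_lit 0) (nat_lit 5537697780) (nat_lit 152) (nat_lit 18877459690) (nat_lit 0) (nat_lit 1001748341) (nat_lit 8) (nat_lit 5) (nat_lit 10) (nat_lit 4) (nat_lit 8) (nat_lit 4) (nat_lit 358) (nat_lit 216) (nat_lit 206)))) (XT.nd (nat_lit 156) (nat_lit 0) (nat_lit 0) (XT.nd (nat_lit 78) (nat_lit 76) (nat_lit 0) (XT.lf (nat_lit 0) (nat_lit 10971493203) (nat_lit 152) (nat_lit 9038806855) (nat_lit 0) (nat_lit 6051395057) (nat_lit 8) (nat_lit 5) (nat_lit 10) (nat_lit 4) (nat_lit 8) (nat_lit 4) (nat_lit 359) (nat_lit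 216) (nat_lit 205)) (XT.lf (nat_lit 0) (nat_lit 926974149) (nat_lit 76) (nat_lit 15546915110) (nat_lit 76) (nat_lit 10253857055) (nat_lit 7) (nat_lit 4) (nat_lit 8) (nat_lit 5) (nat_lit 8) (nat_lit 4) (nat_lit 360) (nat_lit 216) (nat_lit 204))) (XT.nd (nat_lit 78) (nat_lit 0) (nat_lit 0) (XT.lf (nat_lit 0) (nat_lit 11138187701) (nat_lit 76) (nat_lit 10965761818) (nat_lit 76) (nat_lit 5310606764) (nat_lit 7) (nat_lit 4) (nat_lit 8) (nat_lit 5) (nat_lit 8) (nat_lit 4) (nat_lit 361) (nat_lit 216) (nat_lit 203)) (XT.lf (nat_lit 0) (nat_lit 21483635233) (nat_lit 76) (nat_lit 6323492383) (nat_lit 76) (nat_lit 316786845) (nat_lit 7) (nat_lit 4) (nat_lit 8) (nat_lit 5) (nat_lit 8) (nat_lit 4) (nat_lit 362) (nat_lit 216) (nat_lit 202))))))) (XT.nd (nat_lit 40170) (nat_lit 0) (nat_lit 0) (XT.nd (nat_lit 39624) (nat_lit 0) (nat_lit 380) (XT.nd (nat_lit 39390) (nat_lit 0) (nat_lit 836) (XT.nd (nat_lit 78)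 (nat_lit 0) (nat_lit 0) (XT.lf (nat_lit 0) (nat_lit 3126193302) (nat_lit 76) (nat_lit 1564009663) (nat_lit 152) (nat_lit 24165217305) (nat_lit 5) (nat_lit 5) (nat_lit 6) (nat_lit 5) (nat_lit 7) (nat_lit 4) (nat_lit 363) (nat_lit 216) (nat_lit 201)) (XT.nd (nat_lit 39234) (nat_lit 0) (nat_lit 1140) (XT.lf (nat_lit 0) (nat_lit 9817628631) (nat_lit 152) (nat_lit 16522525970) (nat_lit 0) (nat_lit 3269210262) (nat_lit 5) (nat_lit 5) (nat_lit 7) (nat_lit 4) (nat_lit 5) (nat_lit 4) (nat_lit 364) (nat_lit 216) (nat_lit 200)) (XT.lf (nat_lit 0) (nat_lit 1583664944) (nat_lit 152) (nat_lit 6373432856) (nat_lit 0) (nat_lit 1583664944) (nat_lit 20) (nat_lit 5) (nat_lit 22) (nat_lit 4) (nat_lit 20) (nat_lit 4) (nat_lit 346) (nat_lit 217) (nat_lit 217)))) (XT.nd (nat_lit 78) (nat_lit 304) (nat_lit 0) (XT.lf (nat_lit 0) (nat_lit 9157006641) (nat_lit 152) (nat_lit 1772462341) (nat_lit 0) (nat_lit 8592707535) (nat_lit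 20) (nat_lit 5) (nat_lit 22) (nat_lit 4) (nat_lit 20) (nat_lit 4) (nat_lit 347) (nat_lit 217) (nat_lit 216)) (XT.nd (nat_lit 78) (nat_lit 152) (nat_lit 0) (XT.lf (nat_lit 0) (nat_lit 9435481583) (nat_lit 152) (nat_lit 5827024577) (nat_lit 152) (nat_lit 4714862262) (nat_lit 18) (nat_lit 4) (nat_lit 20) (nat_lit 5) (nat_lit 20) (nat_lit 4) (nat_lit 348) (nat_lit 217) (nat_lit 215)) (XT.lf (nat_lit 0) (nat_lit 337557401) (nat_lit 76) (nat_lit 643445442) (nat_lit 152) (nat_lit 19467300840) (nat_lit 16) (nat_lit 5) (nat_lit 17) (nat_lit 5) (nat_lit 18) (nat_lit 4) (nat_lit 349) (nat_lit 217) (nat_lit 214))))) (XT.nd (nat_lit 234) (nat_lit 304) (nat_lit 0) (XT.nd (nat_lit 78) (nat_lit 152) (nat_lit 0) (XT.lf (nat_lit 0) (nat_lit 6764319835) (nat_lit 152) (nat_lit 9522651609) (nat_lit 0) (nat_lit 4646200263) (nat_lit 16) (nat_lit 5) (nat_lit 18) (nat_lit 4) (nat_lit 16) (nat_lit 4) (nat_lit 350) (nat_lit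 217) (nat_lit 213)) (XT.nd (nat_lit 78) (nat_lit 0) (nat_lit 0) (XT.lf (nat_lit 0) (nat_lit 1184702405) (nat_lit 152) (nat_lit 11429857775) (nat_lit 152) (nat_lit 8820196589) (nat_lit 14) (nat_lit 4) (nat_lit 16) (nat_lit 5) (nat_lit 16) (nat_lit 4) (nat_lit 351) (nat_lit 217) (nat_lit 212)) (XT.lf (nat_lit 0) (nat_lit 12137407324) (nat_lit 152) (nat_lit 6450972498) (nat_lit 152) (nat_lit 3364086443) (nat_lit 14) (nat_lit 4) (nat_lit 16) (nat_lit 5) (nat_lit 16) (nat_lit 4) (nat_lit 352) (nat_lit 217) (nat_lit 211)))) (XT.nd (nat_lit 156) (nat_lit 152) (nat_lit 0) (XT.nd (nat_lit 78) (nat_lit 0) (nat_lit 0) (XT.lf (nat_lit 0) (nat_lit 726103341) (nat_lit 76) (nat_lit 1390884040) (nat_lit 152) (nat_lit 20370645948) (nat_lit 12) (nat_lit 5) (nat_lit 13) (nat_lit 5) (nat_lit 14) (nat_lit 4) (nat_lit 353) (nat_lit 217) (nat_lit 210)) (XT.lf (nat_lit 0) (nat_lit 7696422779) (nat_lit 152) (nat_lit 11567617042)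 (nat_lit 0) (nat_lit 3774813584) (nat_lit 12) (nat_lit 5) (nat_lit 14) (nat_lit 4) (nat_lit 12) (nat_lit 4) (nat_lit 354) (nat_lit 217) (nat_lit 209))) (XT.nd (nat_lit 78) (nat_lit 152) (nat_lit 0) (XT.lf (nat_lit 0) (nat_lit 13343430715) (nat_lit 152) (nat_lit 1271553500) (nat_lit 0) (nat_lit 8993656464) (nat_lit 12) (nat_lit 5) (nat_lit 14) (nat_lit 4) (nat_lit 12) (nat_lit 4) (nat_lit 355) (nat_lit 217) (nat_lit 208)) (XT.lf (nat_lit 0) (nat_lit 9266215825) (nat_lit 152) (nat_lit 9847861521) (nat_lit 152) (nat_lit 5082393040) (nat_lit 10) (nat_lit 4) (nat_lit 12) (nat_lit 5) (nat_lit 12) (nat_lit 4) (nat_lit 356) (nat_lit 217) (nat_lit 207)))))) (XT.nd (nat_lit 468) (nat_lit 152) (nat_lit 0) (XT.nd (nat_lit 234) (nat_lit 76) (nat_lit 0) (XT.nd (nat_lit 78) (nat_lit 76) (nat_lit 0) (XT.lf (nat_lit 0) (nat_lit 156450711) (nat_lit 228) (nat_lit 4853024674) (nat_lit 76) (nat_lit 19794380172) (nat_lit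 9) (nat_lit 5) (nat_lit 12) (nat_lit 5) (nat_lit 10) (nat_lit 4) (nat_lit 357) (nat_lit 217) (nat_lit 206)) (XT.nd (nat_lit 78) (nat_lit 0) (nat_lit 0) (XT.lf (nat_lit 0) (nat_lit 5381494830) (nat_lit 76) (nat_lit 35525774) (nat_lit 152) (nat_lit 20013128424) (nat_lit 8) (nat_lit 5) (nat_lit 9) (nat_lit 5) (nat_lit 10) (nat_lit 4) (nat_lit 358) (nat_lit 217) (nat_lit 205)) (XT.lf (nat_lit 0) (nat_lit 10801111597) (nat_lit 152) (nat_lit 10298533686) (nat_lit 0) (nat_lit 4976301892) (nat_lit 8) (nat_lit 5) (nat_lit 10) (nat_lit 4) (nat_lit 8) (nat_lit 4) (nat_lit 359) (nat_lit 217) (nat_lit 204)))) (XT.nd (nat_lit 78) (nat_lit 76) (nat_lit 0) (XT.lf (nat_lit 0) (nat_lit 16249456333) (nat_lit 152) (nat_lit 431087764) (nat_lit 0) (nat_lit 10062549629) (nat_lit 8) (nat_lit 5) (nat_lit 10) (nat_lit 4) (nat_lit 8) (nat_lit 4) (nat_lit 360) (nat_lit 217) (nat_lit 203)) (XT.nd (nat_lit 78) (nat_lit 0)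 (nat_lit 0) (XT.lf (nat_lit 0) (nat_lit 9689617337) (nat_lit 76) (nat_lit 12139878930) (nat_lit 76) (nat_lit 5601421741) (nat_lit 7) (nat_lit 4) (nat_lit 8) (nat_lit 5) (nat_lit 8) (nat_lit 4) (nat_lit 361) (nat_lit 217) (nat_lit 202)) (XT.lf (nat_lit 0) (nat_lit 19952754655) (nat_lit 76) (nat_lit 7534109786) (nat_lit 76) (nat_lit 654341447) (nat_lit 7) (nat_lit 4) (nat_lit 8) (nat_lit 5) (nat_lit 8) (nat_lit 4) (nat_lit 362) (nat_lit 217) (nat_lit 201))))) (XT.nd (nat_lit 39234) (nat_lit 0) (nat_lit 988) (XT.nd (nat_lit 78) (nat_lit 0) (nat_lit 0) (XT.lf (nat_lit 0) (nat_lit 1478076755) (nat_lit 76) (nat_lit 2823514899) (nat_lit 152) (nat_lit 24572286403) (nat_lit 5) (nat_lit 5) (nat_lit 6) (nat_lit 5) (nat_lit 7) (nat_lit 4) (nat_lit 363) (nat_lit 217) (nat_lit 200)) (XT.nd (nat_lit 39078) (nat_lit 0) (nat_lit 1292) (XT.lf (nat_lit 0) (nat_lit 9376618015) (nat_lit 152) (nat_lit 18260800889)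 (nat_lit 0) (nat_lit 1991464210) (nat_lit 5) (nat_lit 5) (nat_lit 7) (nat_lit 4) (nat_lit 5) (nat_lit 4) (nat_lit 364) (nat_lit 217) (nat_lit 199)) (XT.lf (nat_lit 0) (nat_lit 1150412508) (nat_lit 152) (nat_lit 3984914536) (nat_lit 152) (nat_lit 3984914536) (nat_lit 22) (nat_lit 4) (nat_lit 24) (nat_lit 5) (nat_lit 24) (nat_lit 4) (nat_lit 344) (nat_lit 218) (nat_lit 218)))) (XT.nd (nat_lit 156) (nat_lit 152) (nat_lit 0) (XT.nd (nat_lit 78) (nat_lit 152) (nat_lit 0) (XT.lf (nat_lit 0) (nat_lit 13722814727) (nat_lit 152) (nat_lit 2762499866) (nat_lit 152) (nat_lit 2169647225) (nat_lit 22) (nat_lit 4) (nat_lit 24) (nat_lit 5) (nat_lit 24) (nat_lit 4) (nat_lit 345) (nat_lit 218) (nat_lit 217)) (XT.lf (nat_lit 0) (nat_lit 3685068900) (nat_lit 152) (nat_lit 12858206981) (nat_lit 0) (nat_lit 2539541715) (nat_lit 20) (nat_lit 5) (nat_lit 22) (nat_lit 4) (nat_lit 20) (nat_lit 4) (nat_lit 346) (nat_lit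 218) (nat_lit 216))) (XT.nd (nat_lit 78) (nat_lit 152) (nat_lit 0) (XT.lf (nat_lit 0) (nat_lit 9613105780) (nat_lit 152) (nat_lit 1991901927) (nat_lit 0) (nat_lit 7919715386) (nat_lit 20) (nat_lit 5) (nat_lit 22) (nat_lit 4) (nat_lit 20) (nat_lit 4) (nat_lit 347) (nat_lit 218) (nat_lit 215)) (XT.lf (nat_lit 0) (nat_lit 9106781208) (nat_lit 152) (nat_lit 6549845415) (nat_lit 152) (nat_lit 4324548992) (nat_lit 18) (nat_lit 4) (nat_lit 20) (nat_lit 5) (nat_lit 20) (nat_lit 4) (nat_lit 348) (nat_lit 218) (nat_lit 214))))))))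
noncomputable def xc2 : XT := (XT.nd (nat_lit 40872) (nat_lit 0) (nat_lit 0) (XT.nd (nat_lit 1014) (nat_lit 152) (nat_lit 0) (XT.nd (nat_lit 468) (nat_lit 380) (nat_lit 0) (XT.nd (nat_lit 234) (nat_lit 152) (nat_lit 0) (XT.nd (nat_lit 78) (nat_lit 228) (nat_lit 0) (XT.lf (nat_lit 0) (nat_lit 1304824219) (nat_lit 228) (nat_lit 105965118) (nat_lit 76) (nat_lit 19042518341) (nat_lit 17) (nat_lit 5) (nat_lit 20) (nat_lit 5) (nat_lit 18) (nat_lit 4) (nat_lit 349) (nat_lit 218) (nat_lit 213)) (XT.nd (nat_lit 78) (nat_lit 152) (nat_lit 0) (XT.lf (nat_lit 0) (nat_lit 7024047973) (nat_lit 152) (nat_lit 10070873703) (nat_lit 0) (nat_lit 3844555336) (nat_lit 16) (nat_lit 5) (nat_lit 18) (nat_lit 4) (nat_lit 16) (nat_lit 4) (nat_lit 350) (nat_lit 218) (nat_lit 212)) (XT.lf (nat_lit 0) (nat_lit 527609864) (nat_lit 152) (nat_lit 12285704041) (nat_lit 152) (nat_lit 8628986537) (nat_lit 14) (nat_lit 4) (nat_lit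 16) (nat_lit 5) (nat_lit 16) (nat_lit 4) (nat_lit 351) (nat_lit 218) (nat_lit 211)))) (XT.nd (nat_lit 78) (nat_lit 152) (nat_lit 0) (XT.lf (nat_lit 0) (nat_lit 11381688701) (nat_lit 152) (nat_lit 7349748061) (nat_lit 152) (nat_lit 3229705441) (nat_lit 14) (nat_lit 4) (nat_lit 16) (nat_lit 5) (nat_lit 16) (nat_lit 4) (nat_lit 352) (nat_lit 218) (nat_lit 210)) (XT.nd (nat_lit 78) (nat_lit 76) (nat_lit 0) (XT.lf (nat_lit 0) (nat_lit 2190441387) (nat_lit 228) (nat_lit 145181225) (nat_lit 76) (nat_lit 20161869942) (nat_lit 13) (nat_lit 5) (nat_lit 16) (nat_lit 5) (nat_lit 14) (nat_lit 4) (nat_lit 353) (nat_lit 218) (nat_lit 209)) (XT.lf (nat_lit 0) (nat_lit 7709031706) (nat_lit 152) (nat_lit 12540315595) (nat_lit 0) (nat_lit 2800599170) (nat_lit 12) (nat_lit 5) (nat_lit 14) (nat_lit 4) (nat_lit 12) (nat_lit 4) (nat_lit 354) (nat_lit 218) (nat_lit 208))))) (XT.nd (nat_lit 234) (nat_lit 228) (nat_lit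 0) (XT.nd (nat_lit 78) (nat_lit 152) (nat_lit 0) (XT.lf (nat_lit 0) (nat_lit 13303855424) (nat_lit 152) (nat_lit 2337209792) (nat_lit 0) (nat_lit 7979728659) (nat_lit 12) (nat_lit 5) (nat_lit 14) (nat_lit 4) (nat_lit 12) (nat_lit 4) (nat_lit 355) (nat_lit 218) (nat_lit 207)) (XT.nd (nat_lit 78) (nat_lit 0) (nat_lit 0) (XT.lf (nat_lit 0) (nat_lit 8094947913) (nat_lit 152) (nat_lit 10921285204) (nat_lit 152) (nat_lit 5193571808) (nat_lit 10) (nat_lit 4) (nat_lit 12) (nat_lit 5) (nat_lit 12) (nat_lit 4) (nat_lit 356) (nat_lit 218) (nat_lit 206)) (XT.lf (nat_lit 0) (nat_lit 18691826809) (nat_lit 152) (nat_lit 6122969876) (nat_lit 152) (nat_lit 3424800) (nat_lit 10) (nat_lit 4) (nat_lit 12) (nat_lit 5) (nat_lit 12) (nat_lit 4) (nat_lit 357) (nat_lit 218) (nat_lit 205)))) (XT.nd (nat_lit 156) (nat_lit 76) (nat_lit 0) (XT.nd (nat_lit 78) (nat_lit 0) (nat_lit 0) (XT.lf (nat_lit 0) (nat_lit 4003209280)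 (nat_lit 76) (nat_lit 1196381543) (nat_lit 152) (nat_lit 20246091317) (nat_lit 8) (nat_lit 5) (nat_lit 9) (nat_lit 5) (nat_lit 10) (nat_lit 4) (nat_lit 358) (nat_lit 218) (nat_lit 204)) (XT.lf (nat_lit 0) (nat_lit 10528111981) (nat_lit 152) (nat_lit 11770992952) (nat_lit 0) (nat_lit 3793501076) (nat_lit 8) (nat_lit 5) (nat_lit 10) (nat_lit 4) (nat_lit 8) (nat_lit 4) (nat_lit 359) (nat_lit 218) (nat_lit 203))) (XT.nd (nat_lit 78) (nat_lit 76) (nat_lit 0) (XT.lf (nat_lit 0) (nat_lit 15929822940) (nat_lit 152) (nat_lit 1987214652) (nat_lit 0) (nat_lit 8843661550) (nat_lit 8) (nat_lit 5) (nat_lit 10) (nat_lit 4) (nat_lit 8) (nat_lit 4) (nat_lit 360) (nat_lit 218) (nat_lit 202)) (XT.lf (nat_lit 0) (nat_lit 8030500128) (nat_lit 76) (nat_lit 13423315145) (nat_lit 76) (nat_lit 5995842606) (nat_lit 7) (nat_lit 4) (nat_lit 8) (nat_lit 5) (nat_lit 8) (nat_lit 4) (nat_lit 361) (nat_lit 218) (nat_lit 201))))))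 (XT.nd (nat_lit 39312) (nat_lit 0) (nat_lit 836) (XT.nd (nat_lit 39078) (nat_lit 0) (nat_lit 1292) (XT.nd (nat_lit 78) (nat_lit 152) (nat_lit 0) (XT.lf (nat_lit 0) (nat_lit 18213724617) (nat_lit 76) (nat_lit 8852983175) (nat_lit 76) (nat_lit 1094140588) (nat_lit 7) (nat_lit 4) (nat_lit 8) (nat_lit 5) (nat_lit 8) (nat_lit 4) (nat_lit 362) (nat_lit 218) (nat_lit 200)) (XT.nd (nat_lit 78) (nat_lit 76) (nat_lit 0) (XT.lf (nat_lit 0) (nat_lit 3814485135) (nat_lit 152) (nat_lit 375301107) (nat_lit 76) (nat_lit 24704865403) (nat_lit 6) (nat_lit 5) (nat_lit 8) (nat_lit 5) (nat_lit 7) (nat_lit 4) (nat_lit 363) (nat_lit 218) (nat_lit 199)) (XT.lf (nat_lit 0) (nat_lit 8835221568) (nat_lit 152) (nat_lit 20208653768) (nat_lit 0) (nat_lit 606879280) (nat_lit 5) (nat_lit 5) (nat_lit 7) (nat_lit 4) (nat_lit 5) (nat_lit 4) (nat_lit 364) (nat_lit 218) (nat_lit 198)))) (XT.nd (nat_lit 78) (nat_lit 380) (nat_lit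 0) (XT.lf (nat_lit 0) (nat_lit 7541239598) (nat_lit 152) (nat_lit 592009194) (nat_lit 152) (nat_lit 592009194) (nat_lit 27) (nat_lit 4) (nat_lit 29) (nat_lit 5) (nat_lit 29) (nat_lit 4) (nat_lit 342) (nat_lit 219) (nat_lit 219)) (XT.nd (nat_lit 78) (nat_lit 152) (nat_lit 0) (XT.lf (nat_lit 0) (nat_lit 4780199440) (nat_lit 228) (nat_lit 8889711103) (nat_lit 0) (nat_lit 4169561220) (nat_lit 24) (nat_lit 5) (nat_lit 27) (nat_lit 4) (nat_lit 24) (nat_lit 4) (nat_lit 343) (nat_lit 219) (nat_lit 218)) (XT.lf (nat_lit 0) (nat_lit 2189521439) (nat_lit 152) (nat_lit 8627876958) (nat_lit 152) (nat_lit 7424386098) (nat_lit 22) (nat_lit 4) (nat_lit 24) (nat_lit 5) (nat_lit 24) (nat_lit 4) (nat_lit 344) (nat_lit 219) (nat_lit 217))))) (XT.nd (nat_lit 234) (nat_lit 304) (nat_lit 0) (XT.nd (nat_lit 78) (nat_lit 152) (nat_lit 0) (XT.lf (nat_lit 0) (nat_lit 13503449423) (nat_lit 152) (nat_lit 3466576552) (nat_lit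 152) (nat_lit 1687500604) (nat_lit 22) (nat_lit 4) (nat_lit 24) (nat_lit 5) (nat_lit 24) (nat_lit 4) (nat_lit 345) (nat_lit 219) (nat_lit 216)) (XT.nd (nat_lit 78) (nat_lit 0) (nat_lit 0) (XT.lf (nat_lit 0) (nat_lit 4093211141) (nat_lit 152) (nat_lit 13192328074) (nat_lit 0) (nat_lit 1801155826) (nat_lit 20) (nat_lit 5) (nat_lit 22) (nat_lit 4) (nat_lit 20) (nat_lit 4) (nat_lit 346) (nat_lit 219) (nat_lit 215)) (XT.lf (nat_lit 0) (nat_lit 9961403486) (nat_lit 152) (nat_lit 2430972844) (nat_lit 0) (nat_lit 7137442142) (nat_lit 20) (nat_lit 5) (nat_lit 22) (nat_lit 4) (nat_lit 20) (nat_lit 4) (nat_lit 347) (nat_lit 219) (nat_lit 214)))) (XT.nd (nat_lit 156) (nat_lit 76) (nat_lit 0) (XT.nd (nat_lit 78) (nat_lit 76) (nat_lit 0) (XT.lf (nat_lit 0) (nat_lit 8558628133) (nat_lit 152) (nat_lit 7384635732) (nat_lit 152) (nat_lit 4044260768) (nat_lit 18) (nat_lit 4) (nat_lit 20) (nat_lit 5) (nat_lit 20)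 (nat_lit 4) (nat_lit 348) (nat_lit 219) (nat_lit 213)) (XT.lf (nat_lit 0) (nat_lit 1523978919) (nat_lit 228) (nat_lit 763309993) (nat_lit 76) (nat_lit 18173499983) (nat_lit 17) (nat_lit 5) (nat_lit 20) (nat_lit 5) (nat_lit 18) (nat_lit 4) (nat_lit 349) (nat_lit 219) (nat_lit 212))) (XT.nd (nat_lit 78) (nat_lit 0) (nat_lit 0) (XT.lf (nat_lit 0) (nat_lit 7176450446) (nat_lit 152) (nat_lit 10839055157) (nat_lit 0) (nat_lit 2932806548) (nat_lit 16) (nat_lit 5) (nat_lit 18) (nat_lit 4) (nat_lit 16) (nat_lit 4) (nat_lit 350) (nat_lit 219) (nat_lit 211)) (XT.lf (nat_lit 0) (nat_lit 12907234347) (nat_lit 152) (nat_lit 344823871) (nat_lit 0) (nat_lit 8200265334) (nat_lit 16) (nat_lit 5) (nat_lit 18) (nat_lit 4) (nat_lit 16) (nat_lit 4) (nat_lit 351) (nat_lit 219) (nat_lit 210))))))) (XT.nd (nat_lit 39702) (nat_lit 0) (nat_lit 684) (XT.nd (nat_lit 468) (nat_lit 380) (nat_lit 0) (XT.nd (nat_lit 234) (nat_lit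 152) (nat_lit 0) (XT.nd (nat_lit 78) (nat_lit 152) (nat_lit 0) (XT.lf (nat_lit 0) (nat_lit 10408918960) (nat_lit 152) (nat_lit 8360095117) (nat_lit 152) (nat_lit 3203295895) (nat_lit 14) (nat_lit 4) (nat_lit 16) (nat_lit 5) (nat_lit 16) (nat_lit 4) (nat_lit 352) (nat_lit 219) (nat_lit 209)) (XT.nd (nat_lit 78) (nat_lit 76) (nat_lit 0) (XT.lf (nat_lit 0) (nat_lit 2163640276) (nat_lit 228) (nat_lit 1222974221) (nat_lit 76) (nat_lit 19123116620) (nat_lit 13) (nat_lit 5) (nat_lit 16) (nat_lit 5) (nat_lit 14) (nat_lit 4) (nat_lit 353) (nat_lit 219) (nat_lit 208)) (XT.lf (nat_lit 0) (nat_lit 7616084938) (nat_lit 152) (nat_lit 13730899313) (nat_lit 0) (nat_lit 1716540140) (nat_lit 12) (nat_lit 5) (nat_lit 14) (nat_lit 4) (nat_lit 12) (nat_lit 4) (nat_lit 354) (nat_lit 219) (nat_lit 207)))) (XT.nd (nat_lit 78) (nat_lit 152) (nat_lit 0) (XT.lf (nat_lit 0) (nat_lit 13160244368) (nat_lit 152) (nat_lit 3618043741)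 (nat_lit 0) (nat_lit 6857112939) (nat_lit 12) (nat_lit 5) (nat_lit 14) (nat_lit 4) (nat_lit 12) (nat_lit 4) (nat_lit 355) (nat_lit 219) (nat_lit 206)) (XT.nd (nat_lit 78) (nat_lit 0) (nat_lit 0) (XT.lf (nat_lit 0) (nat_lit 6708306326) (nat_lit 152) (nat_lit 12106124108) (nat_lit 152) (nat_lit 5411160998) (nat_lit 10) (nat_lit 4) (nat_lit 12) (nat_lit 5) (nat_lit 12) (nat_lit 4) (nat_lit 356) (nat_lit 219) (nat_lit 205)) (XT.lf (nat_lit 0) (nat_lit 17218985195) (nat_lit 152) (nat_lit 7345693188) (nat_lit 152) (nat_lit 270310971) (nat_lit 10) (nat_lit 4) (nat_lit 12) (nat_lit 5) (nat_lit 12) (nat_lit 4) (nat_lit 357) (nat_lit 219) (nat_lit 204))))) (XT.nd (nat_lit 234) (nat_lit 228) (nat_lit 0) (XT.nd (nat_lit 78) (nat_lit 0) (nat_lit 0) (XT.lf (nat_lit 0) (nat_lit 2410107403) (nat_lit 76) (nat_lit 2468520596) (nat_lit 152) (nat_lit 20585022529) (nat_lit 8) (nat_lit 5) (nat_lit 9) (nat_lit 5) (nat_lit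 10) (nat_lit 4) (nat_lit 358) (nat_lit 219) (nat_lit 203)) (XT.nd (nat_lit 78) (nat_lit 0) (nat_lit 0) (XT.lf (nat_lit 0) (nat_lit 10152255809) (nat_lit 152) (nat_lit 13457471268) (nat_lit 0) (nat_lit 2501959093) (nat_lit 8) (nat_lit 5) (nat_lit 10) (nat_lit 4) (nat_lit 8) (nat_lit 4) (nat_lit 359) (nat_lit 219) (nat_lit 202)) (XT.lf (nat_lit 0) (nat_lit 15508691257) (nat_lit 152) (nat_lit 3754923668) (nat_lit 0) (nat_lit 7517083391) (nat_lit 8) (nat_lit 5) (nat_lit 10) (nat_lit 4) (nat_lit 8) (nat_lit 4) (nat_lit 360) (nat_lit 219) (nat_lit 201)))) (XT.nd (nat_lit 156) (nat_lit 152) (nat_lit 0) (XT.nd (nat_lit 78) (nat_lit 0) (nat_lit 0) (XT.lf (nat_lit 0) (nat_lit 6159386360) (nat_lit 76) (nat_lit 14817191911) (nat_lit 76) (nat_lit 6494213997) (nat_lit 7) (nat_lit 4) (nat_lit 8) (nat_lit 5) (nat_lit 8) (nat_lit 4) (nat_lit 361) (nat_lit 219) (nat_lit 200)) (XT.lf (nat_lit 0) (nat_lit 16265025579)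 (nat_lit 76) (nat_lit 10281264966) (nat_lit 76) (nat_lit 1636568558) (nat_lit 7) (nat_lit 4) (nat_lit 8) (nat_lit 5) (nat_lit 8) (nat_lit 4) (nat_lit 362) (nat_lit 219) (nat_lit 199))) (XT.nd (nat_lit 78) (nat_lit 76) (nat_lit 0) (XT.lf (nat_lit 0) (nat_lit 3236958808) (nat_lit 152) (nat_lit 2418387666) (nat_lit 76) (nat_lit 23262242692) (nat_lit 6) (nat_lit 5) (nat_lit 8) (nat_lit 5) (nat_lit 7) (nat_lit 4) (nat_lit 363) (nat_lit 219) (nat_lit 198)) (XT.lf (nat_lit 0) (nat_lit 7301267988) (nat_lit 76) (nat_lit 897525568) (nat_lit 152) (nat_lit 21476088375) (nat_lit 5) (nat_lit 5) (nat_lit 6) (nat_lit 5) (nat_lit 7) (nat_lit 4) (nat_lit 364) (nat_lit 219) (nat_lit 197)))))) (XT.nd (nat_lit 468) (nat_lit 608) (nat_lit 0) (XT.nd (nat_lit 234) (nat_lit 380) (nat_lit 0) (XT.nd (nat_lit 78) (nat_lit 152) (nat_lit 0) (XT.lf (nat_lit 0) (nat_lit 2265667033) (nat_lit 228) (nat_lit 3822228134) (nat_lit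 0) (nat_lit 2265667033) (nat_lit 29) (nat_lit 5) (nat_lit 32) (nat_lit 4) (nat_lit 29) (nat_lit 4) (nat_lit 340) (nat_lit 220) (nat_lit 220)) (XT.nd (nat_lit 78) (nat_lit 0) (nat_lit 0) (XT.lf (nat_lit 0) (nat_lit 3555234404) (nat_lit 152) (nat_lit 7079740930) (nat_lit 152) (nat_lit 6438204416) (nat_lit 27) (nat_lit 4) (nat_lit 29) (nat_lit 5) (nat_lit 29) (nat_lit 4) (nat_lit 341) (nat_lit 220) (nat_lit 219)) (XT.lf (nat_lit 0) (nat_lit 14972697521) (nat_lit 152) (nat_lit 1871751150) (nat_lit 152) (nat_lit 607363652) (nat_lit 27) (nat_lit 4) (nat_lit 29) (nat_lit 5) (nat_lit 29) (nat_lit 4) (nat_lit 342) (nat_lit 220) (nat_lit 218)))) (XT.nd (nat_lit 78) (nat_lit 152) (nat_lit 0) (XT.lf (nat_lit 0) (nat_lit 5280919157) (nat_lit 228) (nat_lit 9112694041) (nat_lit 0) (nat_lit 3448470930) (nat_lit 24) (nat_lit 5) (nat_lit 27) (nat_lit 4) (nat_lit 24) (nat_lit 4) (nat_lit 343) (nat_lit 220) (nat_lit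 217)) (XT.nd (nat_lit 78) (nat_lit 0) (nat_lit 0) (XT.lf (nat_lit 0) (nat_lit 1855513449) (nat_lit 152) (nat_lit 9399104746) (nat_lit 152) (nat_lit 6991071432) (nat_lit 22) (nat_lit 4) (nat_lit 24) (nat_lit 5) (nat_lit 24) (nat_lit 4) (nat_lit 344) (nat_lit 220) (nat_lit 216)) (XT.lf (nat_lit 0) (nat_lit 13064527136) (nat_lit 152) (nat_lit 4282492496) (nat_lit 152) (nat_lit 1315638708) (nat_lit 22) (nat_lit 4) (nat_lit 24) (nat_lit 5) (nat_lit 24) (nat_lit 4) (nat_lit 345) (nat_lit 220) (nat_lit 215))))) (XT.nd (nat_lit 234) (nat_lit 304) (nat_lit 0) (XT.nd (nat_lit 78) (nat_lit 152) (nat_lit 0) (XT.lf (nat_lit 0) (nat_lit 4392113242) (nat_lit 152) (nat_lit 13749520942) (nat_lit 0) (nat_lit 951527030) (nat_lit 20) (nat_lit 5) (nat_lit 22) (nat_lit 4) (nat_lit 20) (nat_lit 4) (nat_lit 346) (nat_lit 220) (nat_lit 214)) (XT.nd (nat_lit 78) (nat_lit 152) (nat_lit 0) (XT.lf (nat_lit 0) (nat_lit 10202204096)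 (nat_lit 152) (nat_lit 3090058745) (nat_lit 0) (nat_lit 6245204263) (nat_lit 20) (nat_lit 5) (nat_lit 22) (nat_lit 4) (nat_lit 20) (nat_lit 4) (nat_lit 347) (nat_lit 220) (nat_lit 213)) (XT.lf (nat_lit 0) (nat_lit 7790543388) (nat_lit 152) (nat_lit 8332124956) (nat_lit 152) (nat_lit 3873752677) (nat_lit 18) (nat_lit 4) (nat_lit 20) (nat_lit 5) (nat_lit 20) (nat_lit 4) (nat_lit 348) (nat_lit 220) (nat_lit 212)))) (XT.nd (nat_lit 156) (nat_lit 152) (nat_lit 0) (XT.nd (nat_lit 78) (nat_lit 76) (nat_lit 0) (XT.lf (nat_lit 0) (nat_lit 1636466791) (nat_lit 228) (nat_lit 1639478726) (nat_lit 76) (nat_lit 17194852184) (nat_lit 17) (nat_lit 5) (nat_lit 20) (nat_lit 5) (nat_lit 18) (nat_lit 4) (nat_lit 349) (nat_lit 220) (nat_lit 211)) (XT.lf (nat_lit 0) (nat_lit 7221660422) (nat_lit 152) (nat_lit 11827867199) (nat_lit 0) (nat_lit 1910157224) (nat_lit 16) (nat_lit 5) (nat_lit 18) (nat_lit 4) (nat_lit 16)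 (nat_lit 4) (nat_lit 350) (nat_lit 220) (nat_lit 210))) (XT.nd (nat_lit 78) (nat_lit 152) (nat_lit 0) (XT.lf (nat_lit 0) (nat_lit 12898991469) (nat_lit 152) (nat_lit 1428133567) (nat_lit 0) (nat_lit 7137658062) (nat_lit 16) (nat_lit 5) (nat_lit 18) (nat_lit 4) (nat_lit 16) (nat_lit 4) (nat_lit 351) (nat_lit 220) (nat_lit 209)) (XT.lf (nat_lit 0) (nat_lit 9218248107) (nat_lit 152) (nat_lit 9482896492) (nat_lit 152) (nat_lit 3284834728) (nat_lit 14) (nat_lit 4) (nat_lit 16) (nat_lit 5) (nat_lit 16) (nat_lit 4) (nat_lit 352) (nat_lit 220) (nat_lit 208))))))))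
noncomputable def xc3 : XT := (XT.nd (nat_lit 40560) (nat_lit 0) (nat_lit 0) (XT.nd (nat_lit 39546) (nat_lit 0) (nat_lit 836) (XT.nd (nat_lit 468) (nat_lit 228) (nat_lit 0) (XT.nd (nat_lit 234) (nat_lit 304) (nat_lit 0) (XT.nd (nat_lit 78) (nat_lit 76) (nat_lit 0) (XT.lf (nat_lit 0) (nat_lit 2031846285) (nat_lit 228) (nat_lit 2517740382) (nat_lit 76) (nat_lit 17974867330) (nat_lit 13) (nat_lit 5) (nat_lit 16) (nat_lit 5) (nat_lit 14) (nat_lit 4) (nat_lit 353) (nat_lit 220) (nat_lit 207)) (XT.nd (nat_lit 78) (nat_lit 0) (nat_lit 0) (XT.lf (nat_lit 0) (nat_lit 7417501261) (nat_lit 152) (nat_lit 15140408512) (nat_lit 0) (nat_lit 521689258) (nat_lit 12) (nat_lit 5) (nat_lit 14) (nat_lit 4) (nat_lit 12) (nat_lit 4) (nat_lit 354) (nat_lit 220) (nat_lit 206)) (XT.lf (nat_lit 0) (nat_lit 12912472060) (nat_lit 152) (nat_lit 5115174524) (nat_lit 0) (nat_lit 5624828377) (nat_lit 12) (nat_lit 5) (nat_lit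 14) (nat_lit 4) (nat_lit 12) (nat_lit 4) (nat_lit 355) (nat_lit 220) (nat_lit 205)))) (XT.nd (nat_lit 78) (nat_lit 152) (nat_lit 0) (XT.lf (nat_lit 0) (nat_lit 5105079436) (nat_lit 152) (nat_lit 13403413526) (nat_lit 152) (nat_lit 5735350736) (nat_lit 10) (nat_lit 4) (nat_lit 12) (nat_lit 5) (nat_lit 12) (nat_lit 4) (nat_lit 356) (nat_lit 220) (nat_lit 204)) (XT.nd (nat_lit 78) (nat_lit 152) (nat_lit 0) (XT.lf (nat_lit 0) (nat_lit 15532068957) (nat_lit 152) (nat_lit 8679763585) (nat_lit 152) (nat_lit 642361856) (nat_lit 10) (nat_lit 4) (nat_lit 12) (nat_lit 5) (nat_lit 12) (nat_lit 4) (nat_lit 357) (nat_lit 220) (nat_lit 203)) (XT.lf (nat_lit 0) (nat_lit 600797166) (nat_lit 76) (nat_lit 3853054511) (nat_lit 152) (nat_lit 21030218213) (nat_lit 8) (nat_lit 5) (nat_lit 9) (nat_lit 5) (nat_lit 10) (nat_lit 4) (nat_lit 358) (nat_lit 220) (nat_lit 202))))) (XT.nd (nat_lit 234) (nat_lit 152) (nat_lit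 0) (XT.nd (nat_lit 78) (nat_lit 76) (nat_lit 0) (XT.lf (nat_lit 0) (nat_lit 9673214664) (nat_lit 152) (nat_lit 15359442255) (nat_lit 0) (nat_lit 1100547413) (nat_lit 8) (nat_lit 5) (nat_lit 10) (nat_lit 4) (nat_lit 8) (nat_lit 4) (nat_lit 359) (nat_lit 220) (nat_lit 201)) (XT.nd (nat_lit 78) (nat_lit 76) (nat_lit 0) (XT.lf (nat_lit 0) (nat_lit 14985693305) (nat_lit 152) (nat_lit 5735759413) (nat_lit 0) (nat_lit 6081656005) (nat_lit 8) (nat_lit 5) (nat_lit 10) (nat_lit 4) (nat_lit 8) (nat_lit 4) (nat_lit 360) (nat_lit 220) (nat_lit 200)) (XT.lf (nat_lit 0) (nat_lit 4074641080) (nat_lit 76) (nat_lit 16322727179) (nat_lit 76) (nat_lit 7096971385) (nat_lit 7) (nat_lit 4) (nat_lit 8) (nat_lit 5) (nat_lit 8) (nat_lit 4) (nat_lit 361) (nat_lit 220) (nat_lit 199)))) (XT.nd (nat_lit 156) (nat_lit 76) (nat_lit 0) (XT.nd (nat_lit 78) (nat_lit 76) (nat_lit 0) (XT.lf (nat_lit 0) (nat_lit 14104954793) (nat_lit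 76) (nat_lit 11820203170) (nat_lit 76) (nat_lit 2282099324) (nat_lit 7) (nat_lit 4) (nat_lit 8) (nat_lit 5) (nat_lit 8) (nat_lit 4) (nat_lit 362) (nat_lit 220) (nat_lit 198)) (XT.lf (nat_lit 0) (nat_lit 2558911385) (nat_lit 152) (nat_lit 4672353384) (nat_lit 76) (nat_lit 21711637826) (nat_lit 6) (nat_lit 5) (nat_lit 8) (nat_lit 5) (nat_lit 7) (nat_lit 4) (nat_lit 363) (nat_lit 220) (nat_lit 197))) (XT.nd (nat_lit 38610) (nat_lit 0) (nat_lit 2052) (XT.lf (nat_lit 0) (nat_lit 4944855790) (nat_lit 76) (nat_lit 2520801718) (nat_lit 152) (nat_lit 22235651042) (nat_lit 5) (nat_lit 5) (nat_lit 6) (nat_lit 5) (nat_lit 7) (nat_lit 4) (nat_lit 364) (nat_lit 220) (nat_lit 196)) (XT.lf (nat_lit 0) (nat_lit 1289682649) (nat_lit 152) (nat_lit 3357341848) (nat_lit 152) (nat_lit 3357341848) (nat_lit 32) (nat_lit 4) (nat_lit 34) (nat_lit 5) (nat_lit 34) (nat_lit 4) (nat_lit 338) (nat_lit 221) (nat_lit 221))))))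 (XT.nd (nat_lit 468) (nat_lit 456) (nat_lit 0) (XT.nd (nat_lit 234) (nat_lit 380) (nat_lit 0) (XT.nd (nat_lit 78) (nat_lit 380) (nat_lit 0) (XT.lf (nat_lit 0) (nat_lit 14029940598) (nat_lit 152) (nat_lit 1498666770) (nat_lit 152) (nat_lit 824668509) (nat_lit 32) (nat_lit 4) (nat_lit 34) (nat_lit 5) (nat_lit 34) (nat_lit 4) (nat_lit 339) (nat_lit 221) (nat_lit 220)) (XT.nd (nat_lit 78) (nat_lit 152) (nat_lit 0) (XT.lf (nat_lit 0) (nat_lit 5127357842) (nat_lit 228) (nat_lit 7756048395) (nat_lit 0) (nat_lit 3825038720) (nat_lit 29) (nat_lit 5) (nat_lit 32) (nat_lit 4) (nat_lit 29) (nat_lit 4) (nat_lit 340) (nat_lit 221) (nat_lit 219)) (XT.lf (nat_lit 0) (nat_lit 3332377602) (nat_lit 152) (nat_lit 7834301922) (nat_lit 152) (nat_lit 5909131815) (nat_lit 27) (nat_lit 4) (nat_lit 29) (nat_lit 5) (nat_lit 29) (nat_lit 4) (nat_lit 341) (nat_lit 221) (nat_lit 218)))) (XT.nd (nat_lit 78) (nat_lit 380) (nat_lit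 0) (XT.lf (nat_lit 0) (nat_lit 14643256567) (nat_lit 152) (nat_lit 2671162868) (nat_lit 152) (nat_lit 141283068) (nat_lit 27) (nat_lit 4) (nat_lit 29) (nat_lit 5) (nat_lit 29) (nat_lit 4) (nat_lit 342) (nat_lit 221) (nat_lit 217)) (XT.nd (nat_lit 78) (nat_lit 152) (nat_lit 0) (XT.lf (nat_lit 0) (nat_lit 5672157892) (nat_lit 228) (nat_lit 9558854755) (nat_lit 0) (nat_lit 2616298490) (nat_lit 24) (nat_lit 5) (nat_lit 27) (nat_lit 4) (nat_lit 24) (nat_lit 4) (nat_lit 343) (nat_lit 221) (nat_lit 216)) (XT.lf (nat_lit 0) (nat_lit 1298509196) (nat_lit 152) (nat_lit 10284186326) (nat_lit 152) (nat_lit 6669506450) (nat_lit 22) (nat_lit 4) (nat_lit 24) (nat_lit 5) (nat_lit 24) (nat_lit 4) (nat_lit 344) (nat_lit 221) (nat_lit 215))))) (XT.nd (nat_lit 234) (nat_lit 304) (nat_lit 0) (XT.nd (nat_lit 78) (nat_lit 152) (nat_lit 0) (XT.lf (nat_lit 0) (nat_lit 12405664342) (nat_lit 152) (nat_lit 5210960636) (nat_lit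 152) (nat_lit 1053736611) (nat_lit 22) (nat_lit 4) (nat_lit 24) (nat_lit 5) (nat_lit 24) (nat_lit 4) (nat_lit 345) (nat_lit 221) (nat_lit 214)) (XT.nd (nat_lit 78) (nat_lit 0) (nat_lit 0) (XT.lf (nat_lit 0) (nat_lit 4571881623) (nat_lit 76) (nat_lit 10221119) (nat_lit 152) (nat_lit 14520117695) (nat_lit 20) (nat_lit 5) (nat_lit 21) (nat_lit 5) (nat_lit 22) (nat_lit 4) (nat_lit 346) (nat_lit 221) (nat_lit 213)) (XT.lf (nat_lit 0) (nat_lit 10335718019) (nat_lit 152) (nat_lit 3969735530) (nat_lit 0) (nat_lit 5242222124) (nat_lit 20) (nat_lit 5) (nat_lit 22) (nat_lit 4) (nat_lit 20) (nat_lit 4) (nat_lit 347) (nat_lit 221) (nat_lit 212)))) (XT.nd (nat_lit 156) (nat_lit 76) (nat_lit 0) (XT.nd (nat_lit 78) (nat_lit 76) (nat_lit 0) (XT.lf (nat_lit 0) (nat_lit 6801855832) (nat_lit 152) (nat_lit 9393140992) (nat_lit 152) (nat_lit 3812875732) (nat_lit 18) (nat_lit 4) (nat_lit 20) (nat_lit 5) (nat_lit 20)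 (nat_lit 4) (nat_lit 348) (nat_lit 221) (nat_lit 211)) (XT.lf (nat_lit 0) (nat_lit 1642386125) (nat_lit 228) (nat_lit 2735236904) (nat_lit 76) (nat_lit 16105719815) (nat_lit 17) (nat_lit 5) (nat_lit 20) (nat_lit 5) (nat_lit 18) (nat_lit 4) (nat_lit 349) (nat_lit 221) (nat_lit 210))) (XT.nd (nat_lit 78) (nat_lit 0) (nat_lit 0) (XT.lf (nat_lit 0) (nat_lit 7159717405) (nat_lit 152) (nat_lit 13038173839) (nat_lit 0) (nat_lit 775713787) (nat_lit 16) (nat_lit 5) (nat_lit 18) (nat_lit 4) (nat_lit 16) (nat_lit 4) (nat_lit 350) (nat_lit 221) (nat_lit 209)) (XT.lf (nat_lit 0) (nat_lit 12785152477) (nat_lit 152) (nat_lit 2730185501) (nat_lit 0) (nat_lit 5964420502) (nat_lit 16) (nat_lit 5) (nat_lit 18) (nat_lit 4) (nat_lit 16) (nat_lit 4) (nat_lit 351) (nat_lit 221) (nat_lit 208))))))) (XT.nd (nat_lit 39390) (nat_lit 0) (nat_lit 988) (XT.nd (nat_lit 468) (nat_lit 380) (nat_lit 0) (XT.nd (nat_lit 234) (nat_lit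 152) (nat_lit 0) (XT.nd (nat_lit 78) (nat_lit 152) (nat_lit 0) (XT.lf (nat_lit 0) (nat_lit 7808635752) (nat_lit 152) (nat_lit 10719133277) (nat_lit 152) (nat_lit 3474393187) (nat_lit 14) (nat_lit 4) (nat_lit 16) (nat_lit 5) (nat_lit 16) (nat_lit 4) (nat_lit 352) (nat_lit 221) (nat_lit 207)) (XT.nd (nat_lit 78) (nat_lit 76) (nat_lit 0) (XT.lf (nat_lit 0) (nat_lit 1794944254) (nat_lit 228) (nat_lit 4030611059) (nat_lit 76) (nat_lit 16716118746) (nat_lit 13) (nat_lit 5) (nat_lit 16) (nat_lit 5) (nat_lit 14) (nat_lit 4) (nat_lit 353) (nat_lit 221) (nat_lit 206)) (XT.lf (nat_lit 0) (nat_lit 6322841888) (nat_lit 76) (nat_lit 795429723) (nat_lit 152) (nat_lit 15979809536) (nat_lit 12) (nat_lit 5) (nat_lit 13) (nat_lit 5) (nat_lit 14) (nat_lit 4) (nat_lit 354) (nat_lit 221) (nat_lit 205)))) (XT.nd (nat_lit 78) (nat_lit 152) (nat_lit 0) (XT.lf (nat_lit 0) (nat_lit 12560322001) (nat_lit 152) (nat_lit 6829910312)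 (nat_lit 0) (nat_lit 4281798220) (nat_lit 12) (nat_lit 5) (nat_lit 14) (nat_lit 4) (nat_lit 12) (nat_lit 4) (nat_lit 355) (nat_lit 221) (nat_lit 204)) (XT.nd (nat_lit 78) (nat_lit 0) (nat_lit 0) (XT.lf (nat_lit 0) (nat_lit 3283866364) (nat_lit 152) (nat_lit 14814287015) (nat_lit 152) (nat_lit 6166424294) (nat_lit 10) (nat_lit 4) (nat_lit 12) (nat_lit 5) (nat_lit 12) (nat_lit 4) (nat_lit 356) (nat_lit 221) (nat_lit 203)) (XT.lf (nat_lit 0) (nat_lit 13629604092) (nat_lit 152) (nat_lit 10126346762) (nat_lit 152) (nat_lit 1119902547) (nat_lit 10) (nat_lit 4) (nat_lit 12) (nat_lit 5) (nat_lit 12) (nat_lit 4) (nat_lit 357) (nat_lit 221) (nat_lit 202))))) (XT.nd (nat_lit 234) (nat_lit 228) (nat_lit 0) (XT.nd (nat_lit 78) (nat_lit 76) (nat_lit 0) (XT.lf (nat_lit 0) (nat_lit 3934151198) (nat_lit 228) (nat_lit 1407596166) (nat_lit 76) (nat_lit 20165025498) (nat_lit 9) (nat_lit 5) (nat_lit 12) (nat_lit 5)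 (nat_lit 10) (nat_lit 4) (nat_lit 358) (nat_lit 221) (nat_lit 201)) (XT.nd (nat_lit 78) (nat_lit 0) (nat_lit 0) (XT.lf (nat_lit 0) (nat_lit 8675847009) (nat_lit 76) (nat_lit 417433211) (nat_lit 152) (nat_lit 17063844872) (nat_lit 8) (nat_lit 5) (nat_lit 9) (nat_lit 5) (nat_lit 10) (nat_lit 4) (nat_lit 359) (nat_lit 221) (nat_lit 200)) (XT.lf (nat_lit 0) (nat_lit 14360372097) (nat_lit 152) (nat_lit 7931452714) (nat_lit 0) (nat_lit 4536125135) (nat_lit 8) (nat_lit 5) (nat_lit 10) (nat_lit 4) (nat_lit 8) (nat_lit 4) (nat_lit 360) (nat_lit 221) (nat_lit 199)))) (XT.nd (nat_lit 156) (nat_lit 152) (nat_lit 0) (XT.nd (nat_lit 78) (nat_lit 0) (nat_lit 0) (XT.lf (nat_lit 0) (nat_lit 1774442665) (nat_lit 76) (nat_lit 17941236465) (nat_lit 76) (nat_lit 7804641452) (nat_lit 7) (nat_lit 4) (nat_lit 8) (nat_lit 5) (nat_lit 8) (nat_lit 4) (nat_lit 361) (nat_lit 221) (nat_lit 198)) (XT.lf (nat_lit 0) (nat_lit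 11731624819) (nat_lit 76) (nat_lit 13471142491) (nat_lit 76) (nat_lit 3031296941) (nat_lit 7) (nat_lit 4) (nat_lit 8) (nat_lit 5) (nat_lit 8) (nat_lit 4) (nat_lit 362) (nat_lit 221) (nat_lit 197))) (XT.nd (nat_lit 78) (nat_lit 76) (nat_lit 0) (XT.lf (nat_lit 0) (nat_lit 1779750396) (nat_lit 152) (nat_lit 7139167745) (nat_lit 76) (nat_lit 20051695907) (nat_lit 6) (nat_lit 5) (nat_lit 8) (nat_lit 5) (nat_lit 7) (nat_lit 4) (nat_lit 363) (nat_lit 221) (nat_lit 196)) (XT.lf (nat_lit 0) (nat_lit 2374877733) (nat_lit 76) (nat_lit 4256302461) (nat_lit 152) (nat_lit 23098957223) (nat_lit 5) (nat_lit 5) (nat_lit 6) (nat_lit 5) (nat_lit 7) (nat_lit 4) (nat_lit 364) (nat_lit 221) (nat_lit 195)))))) (XT.nd (nat_lit 468) (nat_lit 684) (nat_lit 0) (XT.nd (nat_lit 234) (nat_lit 380) (nat_lit 0) (XT.nd (nat_lit 78) (nat_lit 380) (nat_lit 0) (XT.lf (nat_lit 0) (nat_lit 5559388104) (nat_lit 228) (nat_lit 1058372791)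 (nat_lit 228) (nat_lit 1058372791) (nat_lit 37) (nat_lit 4) (nat_lit 40) (nat_lit 5) (nat_lit 40) (nat_lit 4) (nat_lit 336) (nat_lit 222) (nat_lit 222)) (XT.nd (nat_lit 78) (nat_lit 152) (nat_lit 0) (XT.lf (nat_lit 0) (nat_lit 3863664739) (nat_lit 228) (nat_lit 8642598690) (nat_lit 0) (nat_lit 3169446530) (nat_lit 34) (nat_lit 5) (nat_lit 37) (nat_lit 4) (nat_lit 34) (nat_lit 4) (nat_lit 337) (nat_lit 222) (nat_lit 221)) (XT.lf (nat_lit 0) (nat_lit 2467863394) (nat_lit 152) (nat_lit 7455208172) (nat_lit 152) (nat_lit 6086991702) (nat_lit 32) (nat_lit 4) (nat_lit 34) (nat_lit 5) (nat_lit 34) (nat_lit 4) (nat_lit 338) (nat_lit 222) (nat_lit 220)))) (XT.nd (nat_lit 78) (nat_lit 380) (nat_lit 0) (XT.lf (nat_lit 0) (nat_lit 13810184415) (nat_lit 152) (nat_lit 2284148786) (nat_lit 152) (nat_lit 261565072) (nat_lit 32) (nat_lit 4) (nat_lit 34) (nat_lit 5) (nat_lit 34) (nat_lit 4) (nat_lit 339) (nat_lit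 222) (nat_lit 219)) (XT.nd (nat_lit 78) (nat_lit 152) (nat_lit 0) (XT.lf (nat_lit 0) (nat_lit 5613630847) (nat_lit 228) (nat_lit 8090922280) (nat_lit 0) (nat_lit 3007854653) (nat_lit 29) (nat_lit 5) (nat_lit 32) (nat_lit 4) (nat_lit 29) (nat_lit 4) (nat_lit 340) (nat_lit 222) (nat_lit 218)) (XT.lf (nat_lit 0) (nat_lit 2886469268) (nat_lit 152) (nat_lit 8702546717) (nat_lit 152) (nat_lit 5492060829) (nat_lit 27) (nat_lit 4) (nat_lit 29) (nat_lit 5) (nat_lit 29) (nat_lit 4) (nat_lit 341) (nat_lit 222) (nat_lit 217))))) (XT.nd (nat_lit 234) (nat_lit 304) (nat_lit 0) (XT.nd (nat_lit 78) (nat_lit 304) (nat_lit 0) (XT.lf (nat_lit 0) (nat_lit 211815700) (nat_lit 228) (nat_lit 3369714962) (nat_lit 76) (nat_lit 13880631379) (nat_lit 26) (nat_lit 5) (nat_lit 29) (nat_lit 5) (nat_lit 27) (nat_lit 4) (nat_lit 342) (nat_lit 222) (nat_lit 216)) (XT.nd (nat_lit 78) (nat_lit 152) (nat_lit 0) (XT.lf (nat_lit 0)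 (nat_lit 5954257505) (nat_lit 228) (nat_lit 10228583096) (nat_lit 0) (nat_lit 1672316760) (nat_lit 24) (nat_lit 5) (nat_lit 27) (nat_lit 4) (nat_lit 24) (nat_lit 4) (nat_lit 343) (nat_lit 222) (nat_lit 215)) (XT.lf (nat_lit 0) (nat_lit 518021977) (nat_lit 152) (nat_lit 11283895069) (nat_lit 152) (nat_lit 6459410175) (nat_lit 22) (nat_lit 4) (nat_lit 24) (nat_lit 5) (nat_lit 24) (nat_lit 4) (nat_lit 344) (nat_lit 222) (nat_lit 214)))) (XT.nd (nat_lit 156) (nat_lit 152) (nat_lit 0) (XT.nd (nat_lit 78) (nat_lit 152) (nat_lit 0) (XT.lf (nat_lit 0) (nat_lit 11526285335) (nat_lit 152) (nat_lit 6252792253) (nat_lit 152) (nat_lit 901565466) (nat_lit 22) (nat_lit 4) (nat_lit 24) (nat_lit 5) (nat_lit 24) (nat_lit 4) (nat_lit 345) (nat_lit 222) (nat_lit 213)) (XT.lf (nat_lit 0) (nat_lit 3571342049) (nat_lit 76) (nat_lit 1098939500) (nat_lit 152) (nat_lit 14443460359) (nat_lit 20) (nat_lit 5) (nat_lit 21)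 (nat_lit 5) (nat_lit 22) (nat_lit 4) (nat_lit 346) (nat_lit 222) (nat_lit 212))) (XT.nd (nat_lit 78) (nat_lit 152) (nat_lit 0) (XT.lf (nat_lit 0) (nat_lit 10362061917) (nat_lit 152) (nat_lit 5070771849) (nat_lit 0) (nat_lit 4127619333) (nat_lit 20) (nat_lit 5) (nat_lit 22) (nat_lit 4) (nat_lit 20) (nat_lit 4) (nat_lit 347) (nat_lit 222) (nat_lit 211)) (XT.lf (nat_lit 0) (nat_lit 5591701563) (nat_lit 152) (nat_lit 10568610940) (nat_lit 152) (nat_lit 3861576740) (nat_lit 18) (nat_lit 4) (nat_lit 20) (nat_lit 5) (nat_lit 20) (nat_lit 4) (nat_lit 348) (nat_lit 222) (nat_lit 210))))))))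
noncomputable def xc4 : XT := (XT.nd (nat_lit 40248) (nat_lit 0) (nat_lit 0) (XT.nd (nat_lit 1014) (nat_lit 152) (nat_lit 0) (XT.nd (nat_lit 468) (nat_lit 304) (nat_lit 0) (XT.nd (nat_lit 234) (nat_lit 304) (nat_lit 0) (XT.nd (nat_lit 78) (nat_lit 76) (nat_lit 0) (XT.lf (nat_lit 0) (nat_lit 1541742093) (nat_lit 228) (nat_lit 4051541984) (nat_lit 76) (nat_lit 14905151208) (nat_lit 17) (nat_lit 5) (nat_lit 20) (nat_lit 5) (nat_lit 18) (nat_lit 4) (nat_lit 349) (nat_lit 222) (nat_lit 209)) (XT.nd (nat_lit 78) (nat_lit 0) (nat_lit 0) (XT.lf (nat_lit 0) (nat_lit 6515888131) (nat_lit 76) (nat_lit 477781209) (nat_lit 152) (nat_lit 13996353489) (nat_lit 16) (nat_lit 5) (nat_lit 17) (nat_lit 5) (nat_lit 18) (nat_lit 4) (nat_lit 350) (nat_lit 222) (nat_lit 208)) (XT.lf (nat_lit 0) (nat_lit 12565617900) (nat_lit 152) (nat_lit 4252117390) (nat_lit 0) (nat_lit 4679527493) (nat_lit 16) (nat_lit 5) (nat_lit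 18) (nat_lit 4) (nat_lit 16) (nat_lit 4) (nat_lit 351) (nat_lit 222) (nat_lit 207)))) (XT.nd (nat_lit 78) (nat_lit 152) (nat_lit 0) (XT.lf (nat_lit 0) (nat_lit 6178850192) (nat_lit 152) (nat_lit 12069885677) (nat_lit 152) (nat_lit 3772136906) (nat_lit 14) (nat_lit 4) (nat_lit 16) (nat_lit 5) (nat_lit 16) (nat_lit 4) (nat_lit 352) (nat_lit 222) (nat_lit 206)) (XT.nd (nat_lit 78) (nat_lit 76) (nat_lit 0) (XT.lf (nat_lit 0) (nat_lit 1452727181) (nat_lit 228) (nat_lit 5762908177) (nat_lit 76) (nat_lit 15345770991) (nat_lit 13) (nat_lit 5) (nat_lit 16) (nat_lit 5) (nat_lit 14) (nat_lit 4) (nat_lit 353) (nat_lit 222) (nat_lit 205)) (XT.lf (nat_lit 0) (nat_lit 4483180240) (nat_lit 76) (nat_lit 2233960756) (nat_lit 152) (nat_lit 16401865761) (nat_lit 12) (nat_lit 5) (nat_lit 13) (nat_lit 5) (nat_lit 14) (nat_lit 4) (nat_lit 354) (nat_lit 222) (nat_lit 204))))) (XT.nd (nat_lit 234) (nat_lit 152) (nat_lit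 0) (XT.nd (nat_lit 78) (nat_lit 152) (nat_lit 0) (XT.lf (nat_lit 0) (nat_lit 12103486487) (nat_lit 152) (nat_lit 8763749420) (nat_lit 0) (nat_lit 2826848946) (nat_lit 12) (nat_lit 5) (nat_lit 14) (nat_lit 4) (nat_lit 12) (nat_lit 4) (nat_lit 355) (nat_lit 222) (nat_lit 203)) (XT.nd (nat_lit 78) (nat_lit 0) (nat_lit 0) (XT.lf (nat_lit 0) (nat_lit 1243075759) (nat_lit 152) (nat_lit 16339977375) (nat_lit 152) (nat_lit 6704758339) (nat_lit 10) (nat_lit 4) (nat_lit 12) (nat_lit 5) (nat_lit 12) (nat_lit 4) (nat_lit 356) (nat_lit 222) (nat_lit 202)) (XT.lf (nat_lit 0) (nat_lit 11509928251) (nat_lit 152) (nat_lit 11686706722) (nat_lit 152) (nat_lit 1703350314) (nat_lit 10) (nat_lit 4) (nat_lit 12) (nat_lit 5) (nat_lit 12) (nat_lit 4) (nat_lit 357) (nat_lit 222) (nat_lit 201)))) (XT.nd (nat_lit 156) (nat_lit 0) (nat_lit 0) (XT.nd (nat_lit 78) (nat_lit 76) (nat_lit 0) (XT.lf (nat_lit 0) (nat_lit 3315130166)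 (nat_lit 228) (nat_lit 3624790921) (nat_lit 76) (nat_lit 18591937038) (nat_lit 9) (nat_lit 5) (nat_lit 12) (nat_lit 5) (nat_lit 10) (nat_lit 4) (nat_lit 358) (nat_lit 222) (nat_lit 200)) (XT.lf (nat_lit 0) (nat_lit 6353263819) (nat_lit 76) (nat_lit 2063949319) (nat_lit 152) (nat_lit 17766150865) (nat_lit 8) (nat_lit 5) (nat_lit 9) (nat_lit 5) (nat_lit 10) (nat_lit 4) (nat_lit 359) (nat_lit 222) (nat_lit 199))) (XT.nd (nat_lit 78) (nat_lit 0) (nat_lit 0) (XT.lf (nat_lit 0) (nat_lit 13632181234) (nat_lit 152) (nat_lit 10343922139) (nat_lit 0) (nat_lit 2879140317) (nat_lit 8) (nat_lit 5) (nat_lit 10) (nat_lit 4) (nat_lit 8) (nat_lit 4) (nat_lit 360) (nat_lit 222) (nat_lit 198)) (XT.lf (nat_lit 0) (nat_lit 18935740704) (nat_lit 152) (nat_lit 733471318) (nat_lit 0) (nat_lit 7879449251) (nat_lit 8) (nat_lit 5) (nat_lit 10) (nat_lit 4) (nat_lit 8) (nat_lit 4) (nat_lit 361) (nat_lit 222) (nat_lit 197))))))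 (XT.nd (nat_lit 38688) (nat_lit 0) (nat_lit 1368) (XT.nd (nat_lit 38454) (nat_lit 0) (nat_lit 2356) (XT.nd (nat_lit 78) (nat_lit 76) (nat_lit 0) (XT.lf (nat_lit 0) (nat_lit 9142961874) (nat_lit 76) (nat_lit 15235525498) (nat_lit 76) (nat_lit 3884816049) (nat_lit 7) (nat_lit 4) (nat_lit 8) (nat_lit 5) (nat_lit 8) (nat_lit 4) (nat_lit 362) (nat_lit 222) (nat_lit 196)) (XT.nd (nat_lit 78) (nat_lit 0) (nat_lit 0) (XT.lf (nat_lit 0) (nat_lit 898795022) (nat_lit 152) (nat_lit 9820986218) (nat_lit 76) (nat_lit 18280966502) (nat_lit 6) (nat_lit 5) (nat_lit 8) (nat_lit 5) (nat_lit 7) (nat_lit 4) (nat_lit 363) (nat_lit 222) (nat_lit 195)) (XT.lf (nat_lit 0) (nat_lit 5697300371) (nat_lit 152) (nat_lit 405522611) (nat_lit 76) (nat_lit 23658517381) (nat_lit 6) (nat_lit 5) (nat_lit 8) (nat_lit 5) (nat_lit 7) (nat_lit 4) (nat_lit 364) (nat_lit 222) (nat_lit 194)))) (XT.nd (nat_lit 78) (nat_lit 228) (nat_lit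 0) (XT.lf (nat_lit 0) (nat_lit 843879087) (nat_lit 228) (nat_lit 5679665306) (nat_lit 0) (nat_lit 843879087) (nat_lit 40) (nat_lit 5) (nat_lit 43) (nat_lit 4) (nat_lit 40) (nat_lit 4) (nat_lit 334) (nat_lit 223) (nat_lit 223)) (XT.nd (nat_lit 78) (nat_lit 228) (nat_lit 0) (XT.lf (nat_lit 0) (nat_lit 7732610696) (nat_lit 228) (nat_lit 303164684) (nat_lit 0) (nat_lit 7003265046) (nat_lit 40) (nat_lit 5) (nat_lit 43) (nat_lit 4) (nat_lit 40) (nat_lit 4) (nat_lit 335) (nat_lit 223) (nat_lit 222)) (XT.lf (nat_lit 0) (nat_lit 11008854209) (nat_lit 228) (nat_lit 2891093894) (nat_lit 228) (nat_lit 1453645670) (nat_lit 37) (nat_lit 4) (nat_lit 40) (nat_lit 5) (nat_lit 40) (nat_lit 4) (nat_lit 336) (nat_lit 223) (nat_lit 221))))) (XT.nd (nat_lit 234) (nat_lit 532) (nat_lit 0) (XT.nd (nat_lit 78) (nat_lit 228) (nat_lit 0) (XT.lf (nat_lit 0) (nat_lit 4447831956) (nat_lit 228) (nat_lit 8865978952) (nat_lit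 0) (nat_lit 2364570730) (nat_lit 34) (nat_lit 5) (nat_lit 37) (nat_lit 4) (nat_lit 34) (nat_lit 4) (nat_lit 337) (nat_lit 223) (nat_lit 220)) (XT.nd (nat_lit 78) (nat_lit 76) (nat_lit 0) (XT.lf (nat_lit 0) (nat_lit 2133260249) (nat_lit 152) (nat_lit 8309212190) (nat_lit 152) (nat_lit 5571583720) (nat_lit 32) (nat_lit 4) (nat_lit 34) (nat_lit 5) (nat_lit 34) (nat_lit 4) (nat_lit 338) (nat_lit 223) (nat_lit 219)) (XT.lf (nat_lit 0) (nat_lit 188628793) (nat_lit 228) (nat_lit 2991906310) (nat_lit 76) (nat_lit 13180585439) (nat_lit 31) (nat_lit 5) (nat_lit 34) (nat_lit 5) (nat_lit 32) (nat_lit 4) (nat_lit 339) (nat_lit 223) (nat_lit 218)))) (XT.nd (nat_lit 156) (nat_lit 228) (nat_lit 0) (XT.nd (nat_lit 78) (nat_lit 152) (nat_lit 0) (XT.lf (nat_lit 0) (nat_lit 5990577978) (nat_lit 228) (nat_lit 8649370532) (nat_lit 0) (nat_lit 2079067821) (nat_lit 29) (nat_lit 5) (nat_lit 32) (nat_lit 4) (nat_lit 29)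 (nat_lit 4) (nat_lit 340) (nat_lit 223) (nat_lit 217)) (XT.lf (nat_lit 0) (nat_lit 2217119774) (nat_lit 152) (nat_lit 9685233976) (nat_lit 152) (nat_lit 5186627029) (nat_lit 27) (nat_lit 4) (nat_lit 29) (nat_lit 5) (nat_lit 29) (nat_lit 4) (nat_lit 341) (nat_lit 223) (nat_lit 216))) (XT.nd (nat_lit 78) (nat_lit 152) (nat_lit 0) (XT.lf (nat_lit 0) (nat_lit 454646391) (nat_lit 228) (nat_lit 4150218118) (nat_lit 76) (nat_lit 12866355887) (nat_lit 26) (nat_lit 5) (nat_lit 29) (nat_lit 5) (nat_lit 27) (nat_lit 4) (nat_lit 342) (nat_lit 223) (nat_lit 215)) (XT.lf (nat_lit 0) (nat_lit 6127464491) (nat_lit 228) (nat_lit 11122464262) (nat_lit 0) (nat_lit 615700901) (nat_lit 24) (nat_lit 5) (nat_lit 27) (nat_lit 4) (nat_lit 24) (nat_lit 4) (nat_lit 343) (nat_lit 223) (nat_lit 214))))))) (XT.nd (nat_lit 1014) (nat_lit 456) (nat_lit 0) (XT.nd (nat_lit 468) (nat_lit 380) (nat_lit 0) (XT.nd (nat_lit 234) (nat_lit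 228) (nat_lit 0) (XT.nd (nat_lit 78) (nat_lit 304) (nat_lit 0) (XT.lf (nat_lit 0) (nat_lit 11915633847) (nat_lit 228) (nat_lit 480247943) (nat_lit 0) (nat_lit 5877128365) (nat_lit 24) (nat_lit 5) (nat_lit 27) (nat_lit 4) (nat_lit 24) (nat_lit 4) (nat_lit 344) (nat_lit 223) (nat_lit 213)) (XT.nd (nat_lit 78) (nat_lit 152) (nat_lit 0) (XT.lf (nat_lit 0) (nat_lit 10425621727) (nat_lit 152) (nat_lit 7408897685) (nat_lit 152) (nat_lit 858992307) (nat_lit 22) (nat_lit 4) (nat_lit 24) (nat_lit 5) (nat_lit 24) (nat_lit 4) (nat_lit 345) (nat_lit 223) (nat_lit 212)) (XT.lf (nat_lit 0) (nat_lit 2347532540) (nat_lit 76) (nat_lit 2302934128) (nat_lit 152) (nat_lit 14477394228) (nat_lit 20) (nat_lit 5) (nat_lit 21) (nat_lit 5) (nat_lit 22) (nat_lit 4) (nat_lit 346) (nat_lit 223) (nat_lit 211)))) (XT.nd (nat_lit 78) (nat_lit 228) (nat_lit 0) (XT.lf (nat_lit 0) (nat_lit 10281258809) (nat_lit 152) (nat_lit 6394129773)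 (nat_lit 0) (nat_lit 2900421965) (nat_lit 20) (nat_lit 5) (nat_lit 22) (nat_lit 4) (nat_lit 20) (nat_lit 4) (nat_lit 347) (nat_lit 223) (nat_lit 210)) (XT.nd (nat_lit 78) (nat_lit 76) (nat_lit 0) (XT.lf (nat_lit 0) (nat_lit 4159023164) (nat_lit 152) (nat_lit 11859561910) (nat_lit 152) (nat_lit 4019898254) (nat_lit 18) (nat_lit 4) (nat_lit 20) (nat_lit 5) (nat_lit 20) (nat_lit 4) (nat_lit 348) (nat_lit 223) (nat_lit 209)) (XT.lf (nat_lit 0) (nat_lit 1334446754) (nat_lit 228) (nat_lit 5589544137) (nat_lit 76) (nat_lit 13592097321) (nat_lit 17) (nat_lit 5) (nat_lit 20) (nat_lit 5) (nat_lit 18) (nat_lit 4) (nat_lit 349) (nat_lit 223) (nat_lit 208))))) (XT.nd (nat_lit 234) (nat_lit 152) (nat_lit 0) (XT.nd (nat_lit 78) (nat_lit 152) (nat_lit 0) (XT.lf (nat_lit 0) (nat_lit 4869145355) (nat_lit 76) (nat_lit 1856973562) (nat_lit 152) (nat_lit 14282778716) (nat_lit 16) (nat_lit 5) (nat_lit 17) (nat_lit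 5) (nat_lit 18) (nat_lit 4) (nat_lit 350) (nat_lit 223) (nat_lit 207)) (XT.nd (nat_lit 78) (nat_lit 152) (nat_lit 0) (XT.lf (nat_lit 0) (nat_lit 12240195911) (nat_lit 152) (nat_lit 5995259077) (nat_lit 0) (nat_lit 3281856314) (nat_lit 16) (nat_lit 5) (nat_lit 18) (nat_lit 4) (nat_lit 16) (nat_lit 4) (nat_lit 351) (nat_lit 223) (nat_lit 206)) (XT.lf (nat_lit 0) (nat_lit 4327467345) (nat_lit 152) (nat_lit 13536333961) (nat_lit 152) (nat_lit 4178326050) (nat_lit 14) (nat_lit 4) (nat_lit 16) (nat_lit 5) (nat_lit 16) (nat_lit 4) (nat_lit 352) (nat_lit 223) (nat_lit 205)))) (XT.nd (nat_lit 156) (nat_lit 0) (nat_lit 0) (XT.nd (nat_lit 78) (nat_lit 76) (nat_lit 0) (XT.lf (nat_lit 0) (nat_lit 1004896043) (nat_lit 228) (nat_lit 7716145393) (nat_lit 76) (nat_lit 13862626674) (nat_lit 13) (nat_lit 5) (nat_lit 16) (nat_lit 5) (nat_lit 14) (nat_lit 4) (nat_lit 353) (nat_lit 223) (nat_lit 204)) (XT.lf (nat_lit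 0) (nat_lit 2422098914) (nat_lit 76) (nat_lit 3788227834) (nat_lit 152) (nat_lit 16932136044) (nat_lit 12) (nat_lit 5) (nat_lit 13) (nat_lit 5) (nat_lit 14) (nat_lit 4) (nat_lit 354) (nat_lit 223) (nat_lit 203))) (XT.nd (nat_lit 78) (nat_lit 0) (nat_lit 0) (XT.lf (nat_lit 0) (nat_lit 11541566342) (nat_lit 152) (nat_lit 10918381608) (nat_lit 0) (nat_lit 1258709241) (nat_lit 12) (nat_lit 5) (nat_lit 14) (nat_lit 4) (nat_lit 12) (nat_lit 4) (nat_lit 355) (nat_lit 223) (nat_lit 202)) (XT.lf (nat_lit 0) (nat_lit 16969358656) (nat_lit 152) (nat_lit 1005710233) (nat_lit 0) (nat_lit 6338364182) (nat_lit 12) (nat_lit 5) (nat_lit 14) (nat_lit 4) (nat_lit 12) (nat_lit 4) (nat_lit 356) (nat_lit 223) (nat_lit 201)))))) (XT.nd (nat_lit 468) (nat_lit 76) (nat_lit 0) (XT.nd (nat_lit 234) (nat_lit 76) (nat_lit 0) (XT.nd (nat_lit 78) (nat_lit 152) (nat_lit 0) (XT.lf (nat_lit 0) (nat_lit 9171189290) (nat_lit 152)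 (nat_lit 13362206887) (nat_lit 152) (nat_lit 2393214964) (nat_lit 10) (nat_lit 4) (nat_lit 12) (nat_lit 5) (nat_lit 12) (nat_lit 4) (nat_lit 357) (nat_lit 223) (nat_lit 200)) (XT.nd (nat_lit 78) (nat_lit 76) (nat_lit 0) (XT.lf (nat_lit 0) (nat_lit 2592346916) (nat_lit 228) (nat_lit 6060604015) (nat_lit 76) (nat_lit 16906474683) (nat_lit 9) (nat_lit 5) (nat_lit 12) (nat_lit 5) (nat_lit 10) (nat_lit 4) (nat_lit 358) (nat_lit 223) (nat_lit 199)) (XT.lf (nat_lit 0) (nat_lit 3811368319) (nat_lit 76) (nat_lit 3825813917) (nat_lit 152) (nat_lit 18574906565) (nat_lit 8) (nat_lit 5) (nat_lit 9) (nat_lit 5) (nat_lit 10) (nat_lit 4) (nat_lit 359) (nat_lit 223) (nat_lit 198)))) (XT.nd (nat_lit 78) (nat_lit 76) (nat_lit 0) (XT.lf (nat_lit 0) (nat_lit 12800484433) (nat_lit 152) (nat_lit 12975275669) (nat_lit 0) (nat_lit 1109253701) (nat_lit 8) (nat_lit 5) (nat_lit 10) (nat_lit 4) (nat_lit 8) (nat_lit 4) (nat_lit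 360) (nat_lit 223) (nat_lit 197)) (XT.nd (nat_lit 78) (nat_lit 76) (nat_lit 0) (XT.lf (nat_lit 0) (nat_lit 18064988849) (nat_lit 152) (nat_lit 3434895165) (nat_lit 0) (nat_lit 6079340121) (nat_lit 8) (nat_lit 5) (nat_lit 10) (nat_lit 4) (nat_lit 8) (nat_lit 4) (nat_lit 361) (nat_lit 223) (nat_lit 196)) (XT.lf (nat_lit 0) (nat_lit 6336704018) (nat_lit 76) (nat_lit 17114893884) (nat_lit 76) (nat_lit 4843402440) (nat_lit 7) (nat_lit 4) (nat_lit 8) (nat_lit 5) (nat_lit 8) (nat_lit 4) (nat_lit 362) (nat_lit 223) (nat_lit 195))))) (XT.nd (nat_lit 38298) (nat_lit 0) (nat_lit 2356) (XT.nd (nat_lit 78) (nat_lit 76) (nat_lit 0) (XT.lf (nat_lit 0) (nat_lit 16312609320) (nat_lit 76) (nat_lit 12634859090) (nat_lit 76) (nat_lit 85850448) (nat_lit 7) (nat_lit 4) (nat_lit 8) (nat_lit 5) (nat_lit 8) (nat_lit 4) (nat_lit 363) (nat_lit 223) (nat_lit 194)) (XT.nd (nat_lit 38142) (nat_lit 0) (nat_lit 3040) (XT.lf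 (nat_lit 0) (nat_lit 4677368060) (nat_lit 152) (nat_lit 3370159333) (nat_lit 76) (nat_lit 21747133941) (nat_lit 6) (nat_lit 5) (nat_lit 8) (nat_lit 5) (nat_lit 7) (nat_lit 4) (nat_lit 364) (nat_lit 223) (nat_lit 193)) (XT.lf (nat_lit 0) (nat_lit 2397988689) (nat_lit 228) (nat_lit 2280951425) (nat_lit 0) (nat_lit 2397988689) (nat_lit 46) (nat_lit 5) (nat_lit 49) (nat_lit 4) (nat_lit 46) (nat_lit 4) (nat_lit 332) (nat_lit 224) (nat_lit 224)))) (XT.nd (nat_lit 156) (nat_lit 228) (nat_lit 0) (XT.nd (nat_lit 78) (nat_lit 228) (nat_lit 0) (XT.lf (nat_lit 0) (nat_lit 6620401943) (nat_lit 228) (nat_lit 4292987287) (nat_lit 228) (nat_lit 3526736747) (nat_lit 43) (nat_lit 4) (nat_lit 46) (nat_lit 5) (nat_lit 46) (nat_lit 4) (nat_lit 333) (nat_lit 224) (nat_lit 223)) (XT.lf (nat_lit 0) (nat_lit 2372852373) (nat_lit 228) (nat_lit 11471065376) (nat_lit 0) (nat_lit 892280703) (nat_lit 40) (nat_lit 5) (nat_lit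 43) (nat_lit 4) (nat_lit 40) (nat_lit 4) (nat_lit 334) (nat_lit 224) (nat_lit 222))) (XT.nd (nat_lit 78) (nat_lit 228) (nat_lit 0) (XT.lf (nat_lit 0) (nat_lit 8353499242) (nat_lit 228) (nat_lit 523379800) (nat_lit 0) (nat_lit 6164824999) (nat_lit 40) (nat_lit 5) (nat_lit 43) (nat_lit 4) (nat_lit 40) (nat_lit 4) (nat_lit 335) (nat_lit 224) (nat_lit 221)) (XT.lf (nat_lit 0) (nat_lit 10678992162) (nat_lit 228) (nat_lit 3777367219) (nat_lit 228) (nat_lit 901214749) (nat_lit 37) (nat_lit 4) (nat_lit 40) (nat_lit 5) (nat_lit 40) (nat_lit 4) (nat_lit 336) (nat_lit 224) (nat_lit 220))))))))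
noncomputable def xc5 : XT := (XT.nd (nat_lit 2028) (nat_lit 76) (nat_lit 0) (XT.nd (nat_lit 1014) (nat_lit 760) (nat_lit 0) (XT.nd (nat_lit 468) (nat_lit 684) (nat_lit 0) (XT.nd (nat_lit 234) (nat_lit 380) (nat_lit 0) (XT.nd (nat_lit 78) (nat_lit 228) (nat_lit 0) (XT.lf (nat_lit 0) (nat_lit 4922458617) (nat_lit 228) (nat_lit 9312934662) (nat_lit 0) (nat_lit 1448334049) (nat_lit 34) (nat_lit 5) (nat_lit 37) (nat_lit 4) (nat_lit 34) (nat_lit 4) (nat_lit 337) (nat_lit 224) (nat_lit 219)) (XT.nd (nat_lit 78) (nat_lit 76) (nat_lit 0) (XT.lf (nat_lit 0) (nat_lit 1575263494) (nat_lit 152) (nat_lit 9277441967) (nat_lit 152) (nat_lit 5168009396) (nat_lit 32) (nat_lit 4) (nat_lit 34) (nat_lit 5) (nat_lit 34) (nat_lit 4) (nat_lit 338) (nat_lit 224) (nat_lit 218)) (XT.lf (nat_lit 0) (nat_lit 526827721) (nat_lit 228) (nat_lit 3662044460) (nat_lit 76) (nat_lit 12180080223) (nat_lit 31) (nat_lit 5) (nat_lit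 34) (nat_lit 5) (nat_lit 32) (nat_lit 4) (nat_lit 339) (nat_lit 224) (nat_lit 217)))) (XT.nd (nat_lit 78) (nat_lit 228) (nat_lit 0) (XT.lf (nat_lit 0) (nat_lit 6258528607) (nat_lit 228) (nat_lit 9431881116) (nat_lit 0) (nat_lit 1037866662) (nat_lit 29) (nat_lit 5) (nat_lit 32) (nat_lit 4) (nat_lit 29) (nat_lit 4) (nat_lit 340) (nat_lit 224) (nat_lit 216)) (XT.nd (nat_lit 78) (nat_lit 76) (nat_lit 0) (XT.lf (nat_lit 0) (nat_lit 1323744250) (nat_lit 152) (nat_lit 10783222357) (nat_lit 152) (nat_lit 4992563529) (nat_lit 27) (nat_lit 4) (nat_lit 29) (nat_lit 5) (nat_lit 29) (nat_lit 4) (nat_lit 341) (nat_lit 224) (nat_lit 215)) (XT.lf (nat_lit 0) (nat_lit 589274140) (nat_lit 228) (nat_lit 5153720096) (nat_lit 76) (nat_lit 11739909595) (nat_lit 26) (nat_lit 5) (nat_lit 29) (nat_lit 5) (nat_lit 27) (nat_lit 4) (nat_lit 342) (nat_lit 224) (nat_lit 214))))) (XT.nd (nat_lit 234) (nat_lit 380) (nat_lit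 0) (XT.nd (nat_lit 78) (nat_lit 152) (nat_lit 0) (XT.lf (nat_lit 0) (nat_lit 5633737050) (nat_lit 152) (nat_lit 561840989) (nat_lit 228) (nat_lit 11683086170) (nat_lit 24) (nat_lit 5) (nat_lit 26) (nat_lit 5) (nat_lit 27) (nat_lit 4) (nat_lit 343) (nat_lit 224) (nat_lit 213)) (XT.nd (nat_lit 78) (nat_lit 152) (nat_lit 0) (XT.lf (nat_lit 0) (nat_lit 11925607471) (nat_lit 228) (nat_lit 1693815234) (nat_lit 0) (nat_lit 4667805036) (nat_lit 24) (nat_lit 5) (nat_lit 27) (nat_lit 4) (nat_lit 24) (nat_lit 4) (nat_lit 344) (nat_lit 224) (nat_lit 212)) (XT.lf (nat_lit 0) (nat_lit 9102711772) (nat_lit 152) (nat_lit 8680287123) (nat_lit 152) (nat_lit 925979935) (nat_lit 22) (nat_lit 4) (nat_lit 24) (nat_lit 5) (nat_lit 24) (nat_lit 4) (nat_lit 345) (nat_lit 224) (nat_lit 211)))) (XT.nd (nat_lit 156) (nat_lit 228) (nat_lit 0) (XT.nd (nat_lit 78) (nat_lit 0) (nat_lit 0) (XT.lf (nat_lit 0) (nat_lit 899383749)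 (nat_lit 76) (nat_lit 3623257036) (nat_lit 152) (nat_lit 14621948953) (nat_lit 20) (nat_lit 5) (nat_lit 21) (nat_lit 5) (nat_lit 22) (nat_lit 4) (nat_lit 346) (nat_lit 224) (nat_lit 210)) (XT.lf (nat_lit 0) (nat_lit 10093238091) (nat_lit 152) (nat_lit 7940965633) (nat_lit 0) (nat_lit 1559557712) (nat_lit 20) (nat_lit 5) (nat_lit 22) (nat_lit 4) (nat_lit 20) (nat_lit 4) (nat_lit 347) (nat_lit 224) (nat_lit 209))) (XT.nd (nat_lit 78) (nat_lit 76) (nat_lit 0) (XT.lf (nat_lit 0) (nat_lit 2502568781) (nat_lit 152) (nat_lit 13267121918) (nat_lit 152) (nat_lit 4287978614) (nat_lit 18) (nat_lit 4) (nat_lit 20) (nat_lit 5) (nat_lit 20) (nat_lit 4) (nat_lit 348) (nat_lit 224) (nat_lit 208)) (XT.lf (nat_lit 0) (nat_lit 1020318977) (nat_lit 228) (nat_lit 7350587246) (nat_lit 76) (nat_lit 12165410826) (nat_lit 17) (nat_lit 5) (nat_lit 20) (nat_lit 5) (nat_lit 18) (nat_lit 4) (nat_lit 349) (nat_lit 224) (nat_lit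 207)))))) (XT.nd (nat_lit 468) (nat_lit 380) (nat_lit 0) (XT.nd (nat_lit 234) (nat_lit 152) (nat_lit 0) (XT.nd (nat_lit 78) (nat_lit 152) (nat_lit 0) (XT.lf (nat_lit 0) (nat_lit 2998969409) (nat_lit 76) (nat_lit 3352759561) (nat_lit 152) (nat_lit 14678619029) (nat_lit 16) (nat_lit 5) (nat_lit 17) (nat_lit 5) (nat_lit 18) (nat_lit 4) (nat_lit 350) (nat_lit 224) (nat_lit 206)) (XT.nd (nat_lit 78) (nat_lit 152) (nat_lit 0) (XT.lf (nat_lit 0) (nat_lit 11808602161) (nat_lit 152) (nat_lit 7961133696) (nat_lit 0) (nat_lit 1770185698) (nat_lit 16) (nat_lit 5) (nat_lit 18) (nat_lit 4) (nat_lit 16) (nat_lit 4) (nat_lit 351) (nat_lit 224) (nat_lit 205)) (XT.lf (nat_lit 0) (nat_lit 2252869497) (nat_lit 152) (nat_lit 15119759493) (nat_lit 152) (nat_lit 4693315541) (nat_lit 14) (nat_lit 4) (nat_lit 16) (nat_lit 5) (nat_lit 16) (nat_lit 4) (nat_lit 352) (nat_lit 224) (nat_lit 204)))) (XT.nd (nat_lit 78) (nat_lit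 76) (nat_lit 0) (XT.lf (nat_lit 0) (nat_lit 451059529) (nat_lit 228) (nat_lit 9892029420) (nat_lit 76) (nat_lit 12265389844) (nat_lit 13) (nat_lit 5) (nat_lit 16) (nat_lit 5) (nat_lit 14) (nat_lit 4) (nat_lit 353) (nat_lit 224) (nat_lit 203)) (XT.nd (nat_lit 78) (nat_lit 0) (nat_lit 0) (XT.lf (nat_lit 0) (nat_lit 137796966) (nat_lit 76) (nat_lit 5459589053) (nat_lit 152) (nat_lit 17571083726) (nat_lit 12) (nat_lit 5) (nat_lit 13) (nat_lit 5) (nat_lit 14) (nat_lit 4) (nat_lit 354) (nat_lit 224) (nat_lit 202)) (XT.lf (nat_lit 0) (nat_lit 10447234249) (nat_lit 76) (nat_lit 429625732) (nat_lit 152) (nat_lit 12868853248) (nat_lit 12) (nat_lit 5) (nat_lit 13) (nat_lit 5) (nat_lit 14) (nat_lit 4) (nat_lit 355) (nat_lit 224) (nat_lit 201))))) (XT.nd (nat_lit 234) (nat_lit 152) (nat_lit 0) (XT.nd (nat_lit 78) (nat_lit 228) (nat_lit 0) (XT.lf (nat_lit 0) (nat_lit 16259432336) (nat_lit 152) (nat_lit 3458601338)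 (nat_lit 0) (nat_lit 4623373205) (nat_lit 12) (nat_lit 5) (nat_lit 14) (nat_lit 4) (nat_lit 12) (nat_lit 4) (nat_lit 356) (nat_lit 224) (nat_lit 200)) (XT.nd (nat_lit 78) (nat_lit 76) (nat_lit 0) (XT.lf (nat_lit 0) (nat_lit 6611343652) (nat_lit 152) (nat_lit 15154311286) (nat_lit 152) (nat_lit 3190099292) (nat_lit 10) (nat_lit 4) (nat_lit 12) (nat_lit 5) (nat_lit 12) (nat_lit 4) (nat_lit 357) (nat_lit 224) (nat_lit 199)) (XT.lf (nat_lit 0) (nat_lit 1765169889) (nat_lit 228) (nat_lit 8717163830) (nat_lit 76) (nat_lit 15107165698) (nat_lit 9) (nat_lit 5) (nat_lit 12) (nat_lit 5) (nat_lit 10) (nat_lit 4) (nat_lit 358) (nat_lit 224) (nat_lit 198)))) (XT.nd (nat_lit 156) (nat_lit 76) (nat_lit 0) (XT.nd (nat_lit 78) (nat_lit 0) (nat_lit 0) (XT.lf (nat_lit 0) (nat_lit 1047939435) (nat_lit 76) (nat_lit 5704566499) (nat_lit 152) (nat_lit 19490818653) (nat_lit 8) (nat_lit 5) (nat_lit 9) (nat_lit 5) (nat_lit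 10) (nat_lit 4) (nat_lit 359) (nat_lit 224) (nat_lit 197)) (XT.lf (nat_lit 0) (nat_lit 11084272550) (nat_lit 76) (nat_lit 785381637) (nat_lit 152) (nat_lit 15047530127) (nat_lit 8) (nat_lit 5) (nat_lit 9) (nat_lit 5) (nat_lit 10) (nat_lit 4) (nat_lit 360) (nat_lit 224) (nat_lit 196))) (XT.nd (nat_lit 78) (nat_lit 76) (nat_lit 0) (XT.lf (nat_lit 0) (nat_lit 17091141858) (nat_lit 152) (nat_lit 6355461475) (nat_lit 0) (nat_lit 4165662957) (nat_lit 8) (nat_lit 5) (nat_lit 10) (nat_lit 4) (nat_lit 8) (nat_lit 4) (nat_lit 361) (nat_lit 224) (nat_lit 195)) (XT.lf (nat_lit 0) (nat_lit 3310399183) (nat_lit 76) (nat_lit 19110889816) (nat_lit 76) (nat_lit 5907893715) (nat_lit 7) (nat_lit 4) (nat_lit 8) (nat_lit 5) (nat_lit 8) (nat_lit 4) (nat_lit 362) (nat_lit 224) (nat_lit 194))))))) (XT.nd (nat_lit 38922) (nat_lit 0) (nat_lit 608) (XT.nd (nat_lit 38376) (nat_lit 0) (nat_lit 1748) (XT.nd (nat_lit 38142)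 (nat_lit 0) (nat_lit 2812) (XT.nd (nat_lit 78) (nat_lit 76) (nat_lit 0) (XT.lf (nat_lit 0) (nat_lit 13221328042) (nat_lit 76) (nat_lit 14659668688) (nat_lit 76) (nat_lit 1187238414) (nat_lit 7) (nat_lit 4) (nat_lit 8) (nat_lit 5) (nat_lit 8) (nat_lit 4) (nat_lit 363) (nat_lit 224) (nat_lit 193)) (XT.nd (nat_lit 37986) (nat_lit 0) (nat_lit 3268) (XT.lf (nat_lit 0) (nat_lit 3555072777) (nat_lit 152) (nat_lit 6552769839) (nat_lit 76) (nat_lit 19722595213) (nat_lit 6) (nat_lit 5) (nat_lit 8) (nat_lit 5) (nat_lit 7) (nat_lit 4) (nat_lit 364) (nat_lit 224) (nat_lit 192)) (XT.lf (nat_lit 0) (nat_lit 485898889) (nat_lit 228) (nat_lit 3158979564) (nat_lit 228) (nat_lit 3158979564) (nat_lit 49) (nat_lit 4) (nat_lit 52) (nat_lit 5) (nat_lit 52) (nat_lit 4) (nat_lit 330) (nat_lit 225) (nat_lit 225)))) (XT.nd (nat_lit 78) (nat_lit 456) (nat_lit 0) (XT.lf (nat_lit 0) (nat_lit 12214826856) (nat_lit 228) (nat_lit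 1233754487) (nat_lit 228) (nat_lit 428731669) (nat_lit 49) (nat_lit 4) (nat_lit 52) (nat_lit 5) (nat_lit 52) (nat_lit 4) (nat_lit 331) (nat_lit 225) (nat_lit 224)) (XT.nd (nat_lit 78) (nat_lit 228) (nat_lit 0) (XT.lf (nat_lit 0) (nat_lit 5519335175) (nat_lit 228) (nat_lit 4672023773) (nat_lit 0) (nat_lit 3963846578) (nat_lit 46) (nat_lit 5) (nat_lit 49) (nat_lit 4) (nat_lit 46) (nat_lit 4) (nat_lit 332) (nat_lit 225) (nat_lit 223)) (XT.lf (nat_lit 0) (nat_lit 6400483229) (nat_lit 228) (nat_lit 5170874521) (nat_lit 228) (nat_lit 2871453361) (nat_lit 43) (nat_lit 4) (nat_lit 46) (nat_lit 5) (nat_lit 46) (nat_lit 4) (nat_lit 333) (nat_lit 225) (nat_lit 222))))) (XT.nd (nat_lit 234) (nat_lit 608) (nat_lit 0) (XT.nd (nat_lit 78) (nat_lit 228) (nat_lit 0) (XT.lf (nat_lit 0) (nat_lit 2933791011) (nat_lit 152) (nat_lit 14464828) (nat_lit 228) (nat_lit 11791996385) (nat_lit 40) (nat_lit 5) (nat_lit 42)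 (nat_lit 5) (nat_lit 43) (nat_lit 4) (nat_lit 334) (nat_lit 225) (nat_lit 221)) (XT.nd (nat_lit 78) (nat_lit 228) (nat_lit 0) (XT.lf (nat_lit 0) (nat_lit 8866473209) (nat_lit 228) (nat_lit 964002452) (nat_lit 0) (nat_lit 5216557938) (nat_lit 40) (nat_lit 5) (nat_lit 43) (nat_lit 4) (nat_lit 40) (nat_lit 4) (nat_lit 335) (nat_lit 225) (nat_lit 220)) (XT.lf (nat_lit 0) (nat_lit 10128901839) (nat_lit 228) (nat_lit 4776339972) (nat_lit 228) (nat_lit 458970113) (nat_lit 37) (nat_lit 4) (nat_lit 40) (nat_lit 5) (nat_lit 40) (nat_lit 4) (nat_lit 336) (nat_lit 225) (nat_lit 219)))) (XT.nd (nat_lit 156) (nat_lit 228) (nat_lit 0) (XT.nd (nat_lit 78) (nat_lit 152) (nat_lit 0) (XT.lf (nat_lit 0) (nat_lit 5287959445) (nat_lit 228) (nat_lit 9983856364) (nat_lit 0) (nat_lit 419935893) (nat_lit 34) (nat_lit 5) (nat_lit 37) (nat_lit 4) (nat_lit 34) (nat_lit 4) (nat_lit 337) (nat_lit 225) (nat_lit 218)) (XT.lf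 (nat_lit 0) (nat_lit 793385557) (nat_lit 152) (nat_lit 10360743529) (nat_lit 152) (nat_lit 4875916090) (nat_lit 32) (nat_lit 4) (nat_lit 34) (nat_lit 5) (nat_lit 34) (nat_lit 4) (nat_lit 338) (nat_lit 225) (nat_lit 217))) (XT.nd (nat_lit 78) (nat_lit 152) (nat_lit 0) (XT.lf (nat_lit 0) (nat_lit 756757699) (nat_lit 228) (nat_lit 4555015612) (nat_lit 76) (nat_lit 11067661359) (nat_lit 31) (nat_lit 5) (nat_lit 34) (nat_lit 5) (nat_lit 32) (nat_lit 4) (nat_lit 339) (nat_lit 225) (nat_lit 216)) (XT.lf (nat_lit 0) (nat_lit 6300275414) (nat_lit 152) (nat_lit 118208941) (nat_lit 228) (nat_lit 10321696328) (nat_lit 29) (nat_lit 5) (nat_lit 31) (nat_lit 5) (nat_lit 32) (nat_lit 4) (nat_lit 340) (nat_lit 225) (nat_lit 215)))))) (XT.nd (nat_lit 468) (nat_lit 532) (nat_lit 0) (XT.nd (nat_lit 234) (nat_lit 228) (nat_lit 0) (XT.nd (nat_lit 78) (nat_lit 228) (nat_lit 0) (XT.lf (nat_lit 0) (nat_lit 205562079)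 (nat_lit 152) (nat_lit 11997471269) (nat_lit 152) (nat_lit 4909700761) (nat_lit 27) (nat_lit 4) (nat_lit 29) (nat_lit 5) (nat_lit 29) (nat_lit 4) (nat_lit 341) (nat_lit 225) (nat_lit 214)) (XT.nd (nat_lit 78) (nat_lit 152) (nat_lit 0) (XT.lf (nat_lit 0) (nat_lit 615816582) (nat_lit 228) (nat_lit 6381097740) (nat_lit 76) (nat_lit 10500308229) (nat_lit 26) (nat_lit 5) (nat_lit 29) (nat_lit 5) (nat_lit 27) (nat_lit 4) (nat_lit 342) (nat_lit 225) (nat_lit 213)) (XT.lf (nat_lit 0) (nat_lit 4296143321) (nat_lit 152) (nat_lit 1863667793) (nat_lit 228) (nat_lit 11734438235) (nat_lit 24) (nat_lit 5) (nat_lit 26) (nat_lit 5) (nat_lit 27) (nat_lit 4) (nat_lit 343) (nat_lit 225) (nat_lit 212)))) (XT.nd (nat_lit 78) (nat_lit 228) (nat_lit 0) (XT.lf (nat_lit 0) (nat_lit 11828483291) (nat_lit 228) (nat_lit 3130534242) (nat_lit 0) (nat_lit 3345042135) (nat_lit 24) (nat_lit 5) (nat_lit 27) (nat_lit 4) (nat_lit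 24) (nat_lit 4) (nat_lit 344) (nat_lit 225) (nat_lit 211)) (XT.nd (nat_lit 78) (nat_lit 76) (nat_lit 0) (XT.lf (nat_lit 0) (nat_lit 7556399530) (nat_lit 152) (nat_lit 10068071488) (nat_lit 152) (nat_lit 1102586882) (nat_lit 22) (nat_lit 4) (nat_lit 24) (nat_lit 5) (nat_lit 24) (nat_lit 4) (nat_lit 345) (nat_lit 225) (nat_lit 210)) (XT.lf (nat_lit 0) (nat_lit 4291719928) (nat_lit 228) (nat_lit 764213699) (nat_lit 76) (nat_lit 14107908868) (nat_lit 21) (nat_lit 5) (nat_lit 24) (nat_lit 5) (nat_lit 22) (nat_lit 4) (nat_lit 346) (nat_lit 225) (nat_lit 209))))) (XT.nd (nat_lit 234) (nat_lit 228) (nat_lit 0) (XT.nd (nat_lit 78) (nat_lit 228) (nat_lit 0) (XT.lf (nat_lit 0) (nat_lit 9797835473) (nat_lit 152) (nat_lit 9712631035) (nat_lit 0) (nat_lit 103854945) (nat_lit 20) (nat_lit 5) (nat_lit 22) (nat_lit 4) (nat_lit 20) (nat_lit 4) (nat_lit 347) (nat_lit 225) (nat_lit 208)) (XT.nd (nat_lit 78) (nat_lit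 76) (nat_lit 0) (XT.lf (nat_lit 0) (nat_lit 620891027) (nat_lit 152) (nat_lit 14792520870) (nat_lit 152) (nat_lit 4666052065) (nat_lit 18) (nat_lit 4) (nat_lit 20) (nat_lit 5) (nat_lit 20) (nat_lit 4) (nat_lit 348) (nat_lit 225) (nat_lit 207)) (XT.lf (nat_lit 0) (nat_lit 599084280) (nat_lit 228) (nat_lit 9336210088) (nat_lit 76) (nat_lit 10623845103) (nat_lit 17) (nat_lit 5) (nat_lit 20) (nat_lit 5) (nat_lit 18) (nat_lit 4) (nat_lit 349) (nat_lit 225) (nat_lit 206)))) (XT.nd (nat_lit 156) (nat_lit 152) (nat_lit 0) (XT.nd (nat_lit 78) (nat_lit 0) (nat_lit 0) (XT.lf (nat_lit 0) (nat_lit 903726159) (nat_lit 76) (nat_lit 4966446204) (nat_lit 152) (nat_lit 15184220308) (nat_lit 16) (nat_lit 5) (nat_lit 17) (nat_lit 5) (nat_lit 18) (nat_lit 4) (nat_lit 350) (nat_lit 225) (nat_lit 205)) (XT.lf (nat_lit 0) (nat_lit 11270459529) (nat_lit 152) (nat_lit 10151459000) (nat_lit 0) (nat_lit 143194770) (nat_lit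 16) (nat_lit 5) (nat_lit 18) (nat_lit 4) (nat_lit 16) (nat_lit 4) (nat_lit 351) (nat_lit 225) (nat_lit 204))) (XT.nd (nat_lit 78) (nat_lit 152) (nat_lit 0) (XT.lf (nat_lit 0) (nat_lit 16775093312) (nat_lit 152) (nat_lit 46142892) (nat_lit 0) (nat_lit 5271102835) (nat_lit 16) (nat_lit 5) (nat_lit 18) (nat_lit 4) (nat_lit 16) (nat_lit 4) (nat_lit 352) (nat_lit 225) (nat_lit 203)) (XT.lf (nat_lit 0) (nat_lit 10341994276) (nat_lit 152) (nat_lit 12081790934) (nat_lit 152) (nat_lit 212047332) (nat_lit 14) (nat_lit 4) (nat_lit 16) (nat_lit 5) (nat_lit 16) (nat_lit 4) (nat_lit 353) (nat_lit 225) (nat_lit 202))))))))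
noncomputable def xc6 : XT := (XT.nd (nat_lit 39780) (nat_lit 0) (nat_lit 0) (XT.nd (nat_lit 38766) (nat_lit 0) (nat_lit 1520) (XT.nd (nat_lit 468) (nat_lit 228) (nat_lit 0) (XT.nd (nat_lit 234) (nat_lit 228) (nat_lit 0) (XT.nd (nat_lit 78) (nat_lit 76) (nat_lit 0) (XT.lf (nat_lit 0) (nat_lit 4893182020) (nat_lit 228) (nat_lit 2340616041) (nat_lit 76) (nat_lit 15962944305) (nat_lit 13) (nat_lit 5) (nat_lit 16) (nat_lit 5) (nat_lit 14) (nat_lit 4) (nat_lit 354) (nat_lit 225) (nat_lit 201)) (XT.nd (nat_lit 78) (nat_lit 0) (nat_lit 0) (XT.lf (nat_lit 0) (nat_lit 7862777833) (nat_lit 76) (nat_lit 2252261252) (nat_lit 152) (nat_lit 13660112474) (nat_lit 12) (nat_lit 5) (nat_lit 13) (nat_lit 5) (nat_lit 14) (nat_lit 4) (nat_lit 355) (nat_lit 225) (nat_lit 200)) (XT.lf (nat_lit 0) (nat_lit 15444582978) (nat_lit 152) (nat_lit 6134044022) (nat_lit 0) (nat_lit 2793291760) (nat_lit 12) (nat_lit 5) (nat_lit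 14) (nat_lit 4) (nat_lit 12) (nat_lit 4) (nat_lit 356) (nat_lit 225) (nat_lit 199)))) (XT.nd (nat_lit 78) (nat_lit 76) (nat_lit 0) (XT.lf (nat_lit 0) (nat_lit 3828154577) (nat_lit 152) (nat_lit 17064585836) (nat_lit 152) (nat_lit 4094699605) (nat_lit 10) (nat_lit 4) (nat_lit 12) (nat_lit 5) (nat_lit 12) (nat_lit 4) (nat_lit 357) (nat_lit 225) (nat_lit 198)) (XT.nd (nat_lit 78) (nat_lit 0) (nat_lit 0) (XT.lf (nat_lit 0) (nat_lit 832876310) (nat_lit 228) (nat_lit 11596791630) (nat_lit 76) (nat_lit 13192437872) (nat_lit 9) (nat_lit 5) (nat_lit 12) (nat_lit 5) (nat_lit 10) (nat_lit 4) (nat_lit 358) (nat_lit 225) (nat_lit 197)) (XT.lf (nat_lit 0) (nat_lit 5775003329) (nat_lit 228) (nat_lit 1914001407) (nat_lit 76) (nat_lit 18587842075) (nat_lit 9) (nat_lit 5) (nat_lit 12) (nat_lit 5) (nat_lit 10) (nat_lit 4) (nat_lit 359) (nat_lit 225) (nat_lit 196))))) (XT.nd (nat_lit 234) (nat_lit 76) (nat_lit 0)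 (XT.nd (nat_lit 78) (nat_lit 76) (nat_lit 0) (XT.lf (nat_lit 0) (nat_lit 8029438960) (nat_lit 76) (nat_lit 2812396021) (nat_lit 152) (nat_lit 16109889197) (nat_lit 8) (nat_lit 5) (nat_lit 9) (nat_lit 5) (nat_lit 10) (nat_lit 4) (nat_lit 360) (nat_lit 225) (nat_lit 195)) (XT.nd (nat_lit 78) (nat_lit 76) (nat_lit 0) (XT.lf (nat_lit 0) (nat_lit 16013348795) (nat_lit 152) (nat_lit 9497722200) (nat_lit 0) (nat_lit 2136745613) (nat_lit 8) (nat_lit 5) (nat_lit 10) (nat_lit 4) (nat_lit 8) (nat_lit 4) (nat_lit 361) (nat_lit 225) (nat_lit 194)) (XT.lf (nat_lit 0) (nat_lit 61403023) (nat_lit 76) (nat_lit 21225257367) (nat_lit 76) (nat_lit 7079220012) (nat_lit 7) (nat_lit 4) (nat_lit 8) (nat_lit 5) (nat_lit 8) (nat_lit 4) (nat_lit 362) (nat_lit 225) (nat_lit 193)))) (XT.nd (nat_lit 37908) (nat_lit 0) (nat_lit 3496) (XT.nd (nat_lit 78) (nat_lit 76) (nat_lit 0) (XT.lf (nat_lit 0) (nat_lit 9909247958) (nat_lit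 76) (nat_lit 16802010673) (nat_lit 76) (nat_lit 2394386741) (nat_lit 7) (nat_lit 4) (nat_lit 8) (nat_lit 5) (nat_lit 8) (nat_lit 4) (nat_lit 363) (nat_lit 225) (nat_lit 192)) (XT.lf (nat_lit 0) (nat_lit 2329433876) (nat_lit 152) (nat_lit 9956135051) (nat_lit 76) (nat_lit 17583132182) (nat_lit 6) (nat_lit 5) (nat_lit 8) (nat_lit 5) (nat_lit 7) (nat_lit 4) (nat_lit 364) (nat_lit 225) (nat_lit 191))) (XT.nd (nat_lit 78) (nat_lit 304) (nat_lit 0) (XT.lf (nat_lit 0) (nat_lit 2719129481) (nat_lit 228) (nat_lit 1913871220) (nat_lit 228) (nat_lit 1913871220) (nat_lit 56) (nat_lit 4) (nat_lit 59) (nat_lit 5) (nat_lit 59) (nat_lit 4) (nat_lit 328) (nat_lit 226) (nat_lit 226)) (XT.lf (nat_lit 0) (nat_lit 2074659046) (nat_lit 304) (nat_lit 10027186176) (nat_lit 0) (nat_lit 1245485544) (nat_lit 52) (nat_lit 5) (nat_lit 56) (nat_lit 4) (nat_lit 52) (nat_lit 4) (nat_lit 329) (nat_lit 226) (nat_lit 225))))))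 (XT.nd (nat_lit 468) (nat_lit 1064) (nat_lit 0) (XT.nd (nat_lit 234) (nat_lit 456) (nat_lit 0) (XT.nd (nat_lit 78) (nat_lit 228) (nat_lit 0) (XT.lf (nat_lit 0) (nat_lit 861857825) (nat_lit 228) (nat_lit 7190706846) (nat_lit 228) (nat_lit 5556510526) (nat_lit 49) (nat_lit 4) (nat_lit 52) (nat_lit 5) (nat_lit 52) (nat_lit 4) (nat_lit 330) (nat_lit 226) (nat_lit 224)) (XT.nd (nat_lit 78) (nat_lit 152) (nat_lit 0) (XT.lf (nat_lit 0) (nat_lit 263463314) (nat_lit 304) (nat_lit 1883575974) (nat_lit 76) (nat_lit 11732917793) (nat_lit 48) (nat_lit 5) (nat_lit 52) (nat_lit 5) (nat_lit 49) (nat_lit 4) (nat_lit 331) (nat_lit 226) (nat_lit 223)) (XT.lf (nat_lit 0) (nat_lit 6134552027) (nat_lit 228) (nat_lit 5002482763) (nat_lit 0) (nat_lit 3022215669) (nat_lit 46) (nat_lit 5) (nat_lit 49) (nat_lit 4) (nat_lit 46) (nat_lit 4) (nat_lit 332) (nat_lit 226) (nat_lit 222)))) (XT.nd (nat_lit 78) (nat_lit 228) (nat_lit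 0) (XT.lf (nat_lit 0) (nat_lit 5960453640) (nat_lit 228) (nat_lit 6161165534) (nat_lit 228) (nat_lit 2326564551) (nat_lit 43) (nat_lit 4) (nat_lit 46) (nat_lit 5) (nat_lit 46) (nat_lit 4) (nat_lit 333) (nat_lit 226) (nat_lit 221)) (XT.nd (nat_lit 78) (nat_lit 0) (nat_lit 0) (XT.lf (nat_lit 0) (nat_lit 2374558126) (nat_lit 152) (nat_lit 1046425487) (nat_lit 228) (nat_lit 11325897961) (nat_lit 40) (nat_lit 5) (nat_lit 42) (nat_lit 5) (nat_lit 43) (nat_lit 4) (nat_lit 334) (nat_lit 226) (nat_lit 220)) (XT.lf (nat_lit 0) (nat_lit 9271980825) (nat_lit 228) (nat_lit 1625417652) (nat_lit 0) (nat_lit 4157635281) (nat_lit 40) (nat_lit 5) (nat_lit 43) (nat_lit 4) (nat_lit 40) (nat_lit 4) (nat_lit 335) (nat_lit 226) (nat_lit 219))))) (XT.nd (nat_lit 234) (nat_lit 608) (nat_lit 0) (XT.nd (nat_lit 78) (nat_lit 228) (nat_lit 0) (XT.lf (nat_lit 0) (nat_lit 9358102579) (nat_lit 228) (nat_lit 5888885042) (nat_lit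 228) (nat_lit 126525334) (nat_lit 37) (nat_lit 4) (nat_lit 40) (nat_lit 5) (nat_lit 40) (nat_lit 4) (nat_lit 336) (nat_lit 226) (nat_lit 218)) (XT.nd (nat_lit 78) (nat_lit 0) (nat_lit 0) (XT.lf (nat_lit 0) (nat_lit 4818289677) (nat_lit 152) (nat_lit 731110990) (nat_lit 228) (nat_lit 10152966167) (nat_lit 34) (nat_lit 5) (nat_lit 36) (nat_lit 5) (nat_lit 37) (nat_lit 4) (nat_lit 337) (nat_lit 226) (nat_lit 217)) (XT.lf (nat_lit 0) (nat_lit 11348390001) (nat_lit 228) (nat_lit 210262477) (nat_lit 0) (nat_lit 4483375126) (nat_lit 34) (nat_lit 5) (nat_lit 37) (nat_lit 4) (nat_lit 34) (nat_lit 4) (nat_lit 338) (nat_lit 226) (nat_lit 216)))) (XT.nd (nat_lit 156) (nat_lit 228) (nat_lit 0) (XT.nd (nat_lit 78) (nat_lit 152) (nat_lit 0) (XT.lf (nat_lit 0) (nat_lit 878619635) (nat_lit 228) (nat_lit 5671600032) (nat_lit 76) (nat_lit 9842356830) (nat_lit 31) (nat_lit 5) (nat_lit 34) (nat_lit 5) (nat_lit 32)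 (nat_lit 4) (nat_lit 339) (nat_lit 226) (nat_lit 215)) (XT.lf (nat_lit 0) (nat_lit 5073467497) (nat_lit 152) (nat_lit 1403929594) (nat_lit 228) (nat_lit 10277206296) (nat_lit 29) (nat_lit 5) (nat_lit 31) (nat_lit 5) (nat_lit 32) (nat_lit 4) (nat_lit 340) (nat_lit 226) (nat_lit 214))) (XT.nd (nat_lit 78) (nat_lit 228) (nat_lit 0) (XT.lf (nat_lit 0) (nat_lit 12198029185) (nat_lit 228) (nat_lit 1123473421) (nat_lit 0) (nat_lit 3806953799) (nat_lit 29) (nat_lit 5) (nat_lit 32) (nat_lit 4) (nat_lit 29) (nat_lit 4) (nat_lit 341) (nat_lit 226) (nat_lit 213)) (XT.lf (nat_lit 0) (nat_lit 534296911) (nat_lit 228) (nat_lit 7833423517) (nat_lit 76) (nat_lit 9146468643) (nat_lit 26) (nat_lit 5) (nat_lit 29) (nat_lit 5) (nat_lit 27) (nat_lit 4) (nat_lit 342) (nat_lit 226) (nat_lit 212))))))) (XT.nd (nat_lit 1014) (nat_lit 456) (nat_lit 0) (XT.nd (nat_lit 468) (nat_lit 608) (nat_lit 0) (XT.nd (nat_lit 234) (nat_lit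 152) (nat_lit 0) (XT.nd (nat_lit 78) (nat_lit 152) (nat_lit 0) (XT.lf (nat_lit 0) (nat_lit 2733347111) (nat_lit 152) (nat_lit 3282734689) (nat_lit 228) (nat_lit 11896397904) (nat_lit 24) (nat_lit 5) (nat_lit 26) (nat_lit 5) (nat_lit 27) (nat_lit 4) (nat_lit 343) (nat_lit 226) (nat_lit 211)) (XT.nd (nat_lit 78) (nat_lit 152) (nat_lit 0) (XT.lf (nat_lit 0) (nat_lit 11624176441) (nat_lit 228) (nat_lit 4791660354) (nat_lit 0) (nat_lit 1907683848) (nat_lit 24) (nat_lit 5) (nat_lit 27) (nat_lit 4) (nat_lit 24) (nat_lit 4) (nat_lit 344) (nat_lit 226) (nat_lit 210)) (XT.lf (nat_lit 0) (nat_lit 5785333853) (nat_lit 152) (nat_lit 11573463409) (nat_lit 152) (nat_lit 1388967466) (nat_lit 22) (nat_lit 4) (nat_lit 24) (nat_lit 5) (nat_lit 24) (nat_lit 4) (nat_lit 345) (nat_lit 226) (nat_lit 209)))) (XT.nd (nat_lit 78) (nat_lit 76) (nat_lit 0) (XT.lf (nat_lit 0) (nat_lit 3959783873) (nat_lit 228) (nat_lit 2640104701)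 (nat_lit 76) (nat_lit 12585701787) (nat_lit 21) (nat_lit 5) (nat_lit 24) (nat_lit 5) (nat_lit 22) (nat_lit 4) (nat_lit 346) (nat_lit 226) (nat_lit 208)) (XT.nd (nat_lit 78) (nat_lit 0) (nat_lit 0) (XT.lf (nat_lit 0) (nat_lit 7916983753) (nat_lit 76) (nat_lit 1487466702) (nat_lit 152) (nat_lit 10232864952) (nat_lit 20) (nat_lit 5) (nat_lit 21) (nat_lit 5) (nat_lit 22) (nat_lit 4) (nat_lit 347) (nat_lit 226) (nat_lit 207)) (XT.lf (nat_lit 0) (nat_lit 14959096194) (nat_lit 152) (nat_lit 1468143429) (nat_lit 0) (nat_lit 3676453518) (nat_lit 20) (nat_lit 5) (nat_lit 22) (nat_lit 4) (nat_lit 20) (nat_lit 4) (nat_lit 348) (nat_lit 226) (nat_lit 206))))) (XT.nd (nat_lit 234) (nat_lit 304) (nat_lit 0) (XT.nd (nat_lit 78) (nat_lit 76) (nat_lit 0) (XT.lf (nat_lit 0) (nat_lit 70374595) (nat_lit 228) (nat_lit 11548147674) (nat_lit 76) (nat_lit 8966053154) (nat_lit 17) (nat_lit 5) (nat_lit 20) (nat_lit 5) (nat_lit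 18) (nat_lit 4) (nat_lit 349) (nat_lit 226) (nat_lit 205)) (XT.nd (nat_lit 78) (nat_lit 76) (nat_lit 0) (XT.lf (nat_lit 0) (nat_lit 5290237612) (nat_lit 228) (nat_lit 1399812418) (nat_lit 76) (nat_lit 14390818444) (nat_lit 17) (nat_lit 5) (nat_lit 20) (nat_lit 5) (nat_lit 18) (nat_lit 4) (nat_lit 350) (nat_lit 226) (nat_lit 204)) (XT.lf (nat_lit 0) (nat_lit 9014019226) (nat_lit 76) (nat_lit 1621808424) (nat_lit 152) (nat_lit 10956870298) (nat_lit 16) (nat_lit 5) (nat_lit 17) (nat_lit 5) (nat_lit 18) (nat_lit 4) (nat_lit 351) (nat_lit 226) (nat_lit 203)))) (XT.nd (nat_lit 156) (nat_lit 152) (nat_lit 0) (XT.nd (nat_lit 78) (nat_lit 152) (nat_lit 0) (XT.lf (nat_lit 0) (nat_lit 16086469516) (nat_lit 152) (nat_lit 2539667998) (nat_lit 0) (nat_lit 3494880482) (nat_lit 16) (nat_lit 5) (nat_lit 18) (nat_lit 4) (nat_lit 16) (nat_lit 4) (nat_lit 352) (nat_lit 226) (nat_lit 202)) (XT.lf (nat_lit 0) (nat_lit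 7739742854) (nat_lit 152) (nat_lit 13936326841) (nat_lit 152) (nat_lit 989637687) (nat_lit 14) (nat_lit 4) (nat_lit 16) (nat_lit 5) (nat_lit 16) (nat_lit 4) (nat_lit 353) (nat_lit 226) (nat_lit 201))) (XT.nd (nat_lit 78) (nat_lit 76) (nat_lit 0) (XT.lf (nat_lit 0) (nat_lit 4084058343) (nat_lit 228) (nat_lit 5041648699) (nat_lit 76) (nat_lit 14101859138) (nat_lit 13) (nat_lit 5) (nat_lit 16) (nat_lit 5) (nat_lit 14) (nat_lit 4) (nat_lit 354) (nat_lit 226) (nat_lit 200)) (XT.lf (nat_lit 0) (nat_lit 5053094676) (nat_lit 76) (nat_lit 4194062328) (nat_lit 152) (nat_lit 14560006519) (nat_lit 12) (nat_lit 5) (nat_lit 13) (nat_lit 5) (nat_lit 14) (nat_lit 4) (nat_lit 355) (nat_lit 226) (nat_lit 199)))))) (XT.nd (nat_lit 468) (nat_lit 152) (nat_lit 0) (XT.nd (nat_lit 234) (nat_lit 152) (nat_lit 0) (XT.nd (nat_lit 78) (nat_lit 152) (nat_lit 0) (XT.lf (nat_lit 0) (nat_lit 14524098578) (nat_lit 152) (nat_lit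 9034376049) (nat_lit 0) (nat_lit 846520747) (nat_lit 12) (nat_lit 5) (nat_lit 14) (nat_lit 4) (nat_lit 12) (nat_lit 4) (nat_lit 356) (nat_lit 226) (nat_lit 198)) (XT.nd (nat_lit 78) (nat_lit 0) (nat_lit 0) (XT.lf (nat_lit 0) (nat_lit 819190153) (nat_lit 152) (nat_lit 19094699708) (nat_lit 152) (nat_lit 5107806331) (nat_lit 10) (nat_lit 4) (nat_lit 12) (nat_lit 5) (nat_lit 12) (nat_lit 4) (nat_lit 357) (nat_lit 226) (nat_lit 197)) (XT.lf (nat_lit 0) (nat_lit 10953891700) (nat_lit 152) (nat_lit 14495277153) (nat_lit 152) (nat_lit 208077419) (nat_lit 10) (nat_lit 4) (nat_lit 12) (nat_lit 5) (nat_lit 12) (nat_lit 4) (nat_lit 358) (nat_lit 226) (nat_lit 196)))) (XT.nd (nat_lit 78) (nat_lit 76) (nat_lit 0) (XT.lf (nat_lit 0) (nat_lit 4699492059) (nat_lit 228) (nat_lit 5085785342) (nat_lit 76) (nat_lit 16527493927) (nat_lit 9) (nat_lit 5) (nat_lit 12) (nat_lit 5) (nat_lit 10) (nat_lit 4) (nat_lit 359)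 (nat_lit 226) (nat_lit 195)) (XT.nd (nat_lit 78) (nat_lit 0) (nat_lit 0) (XT.lf (nat_lit 0) (nat_lit 4750011766) (nat_lit 76) (nat_lit 4958819229) (nat_lit 152) (nat_lit 17279978533) (nat_lit 8) (nat_lit 5) (nat_lit 9) (nat_lit 5) (nat_lit 10) (nat_lit 4) (nat_lit 360) (nat_lit 226) (nat_lit 194)) (XT.lf (nat_lit 0) (nat_lit 14821421517) (nat_lit 76) (nat_lit 9306809) (nat_lit 152) (nat_lit 12855176622) (nat_lit 8) (nat_lit 5) (nat_lit 9) (nat_lit 5) (nat_lit 10) (nat_lit 4) (nat_lit 361) (nat_lit 226) (nat_lit 193))))) (XT.nd (nat_lit 37830) (nat_lit 0) (nat_lit 3496) (XT.nd (nat_lit 78) (nat_lit 152) (nat_lit 0) (XT.lf (nat_lit 0) (nat_lit 20068880918) (nat_lit 152) (nat_lit 3368359661) (nat_lit 0) (nat_lit 4967441692) (nat_lit 8) (nat_lit 5) (nat_lit 10) (nat_lit 4) (nat_lit 8) (nat_lit 4) (nat_lit 362) (nat_lit 226) (nat_lit 192)) (XT.nd (nat_lit 78) (nat_lit 76) (nat_lit 0) (XT.lf (nat_lit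 0) (nat_lit 6373475017) (nat_lit 76) (nat_lit 19063756994) (nat_lit 76) (nat_lit 3708350218) (nat_lit 7) (nat_lit 4) (nat_lit 8) (nat_lit 5) (nat_lit 8) (nat_lit 4) (nat_lit 363) (nat_lit 226) (nat_lit 191)) (XT.lf (nat_lit 0) (nat_lit 999380410) (nat_lit 152) (nat_lit 13583228783) (nat_lit 76) (nat_lit 15326875416) (nat_lit 6) (nat_lit 5) (nat_lit 8) (nat_lit 5) (nat_lit 7) (nat_lit 4) (nat_lit 364) (nat_lit 226) (nat_lit 190)))) (XT.nd (nat_lit 156) (nat_lit 532) (nat_lit 0) (XT.nd (nat_lit 78) (nat_lit 304) (nat_lit 0) (XT.lf (nat_lit 0) (nat_lit 4462863807) (nat_lit 228) (nat_lit 921160364) (nat_lit 228) (nat_lit 921160364) (nat_lit 63) (nat_lit 4) (nat_lit 66) (nat_lit 5) (nat_lit 66) (nat_lit 4) (nat_lit 326) (nat_lit 227) (nat_lit 227)) (XT.lf (nat_lit 0) (nat_lit 4068510452) (nat_lit 304) (nat_lit 5582750634) (nat_lit 0) (nat_lit 3197380771) (nat_lit 59) (nat_lit 5) (nat_lit 63) (nat_lit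 4) (nat_lit 59) (nat_lit 4) (nat_lit 327) (nat_lit 227) (nat_lit 226))) (XT.nd (nat_lit 78) (nat_lit 304) (nat_lit 0) (XT.lf (nat_lit 0) (nat_lit 5329973760) (nat_lit 228) (nat_lit 4741006606) (nat_lit 228) (nat_lit 3024119952) (nat_lit 56) (nat_lit 4) (nat_lit 59) (nat_lit 5) (nat_lit 59) (nat_lit 4) (nat_lit 328) (nat_lit 227) (nat_lit 225)) (XT.lf (nat_lit 0) (nat_lit 2795434327) (nat_lit 304) (nat_lit 10247437259) (nat_lit 0) (nat_lit 307189300) (nat_lit 52) (nat_lit 5) (nat_lit 56) (nat_lit 4) (nat_lit 52) (nat_lit 4) (nat_lit 329) (nat_lit 227) (nat_lit 224))))))))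
noncomputable def xc7 : XT := (XT.nd (nat_lit 2028) (nat_lit 380) (nat_lit 0) (XT.nd (nat_lit 1014) (nat_lit 1064) (nat_lit 0) (XT.nd (nat_lit 468) (nat_lit 1064) (nat_lit 0) (XT.nd (nat_lit 234) (nat_lit 456) (nat_lit 0) (XT.nd (nat_lit 78) (nat_lit 228) (nat_lit 0) (XT.lf (nat_lit 0) (nat_lit 531941904) (nat_lit 228) (nat_lit 8175516272) (nat_lit 228) (nat_lit 4905695694) (nat_lit 49) (nat_lit 4) (nat_lit 52) (nat_lit 5) (nat_lit 52) (nat_lit 4) (nat_lit 330) (nat_lit 227) (nat_lit 223)) (XT.nd (nat_lit 78) (nat_lit 152) (nat_lit 0) (XT.lf (nat_lit 0) (nat_lit 842742616) (nat_lit 304) (nat_lit 2326291706) (nat_lit 76) (nat_lit 10716206351) (nat_lit 48) (nat_lit 5) (nat_lit 52) (nat_lit 5) (nat_lit 49) (nat_lit 4) (nat_lit 331) (nat_lit 227) (nat_lit 222)) (XT.lf (nat_lit 0) (nat_lit 6642165504) (nat_lit 228) (nat_lit 5553568571) (nat_lit 0) (nat_lit 1970261866) (nat_lit 46) (nat_lit 5) (nat_lit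 49) (nat_lit 4) (nat_lit 46) (nat_lit 4) (nat_lit 332) (nat_lit 227) (nat_lit 221)))) (XT.nd (nat_lit 78) (nat_lit 228) (nat_lit 0) (XT.lf (nat_lit 0) (nat_lit 5299928684) (nat_lit 228) (nat_lit 7264725630) (nat_lit 228) (nat_lit 1891594201) (nat_lit 43) (nat_lit 4) (nat_lit 46) (nat_lit 5) (nat_lit 46) (nat_lit 4) (nat_lit 333) (nat_lit 227) (nat_lit 220)) (XT.nd (nat_lit 78) (nat_lit 0) (nat_lit 0) (XT.lf (nat_lit 0) (nat_lit 1592933443) (nat_lit 152) (nat_lit 2192645047) (nat_lit 228) (nat_lit 10970631211) (nat_lit 40) (nat_lit 5) (nat_lit 42) (nat_lit 5) (nat_lit 43) (nat_lit 4) (nat_lit 334) (nat_lit 227) (nat_lit 219)) (XT.lf (nat_lit 0) (nat_lit 9570376418) (nat_lit 228) (nat_lit 2508203334) (nat_lit 0) (nat_lit 2987131755) (nat_lit 40) (nat_lit 5) (nat_lit 43) (nat_lit 4) (nat_lit 40) (nat_lit 4) (nat_lit 335) (nat_lit 227) (nat_lit 218))))) (XT.nd (nat_lit 234) (nat_lit 608) (nat_lit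 0) (XT.nd (nat_lit 78) (nat_lit 152) (nat_lit 0) (XT.lf (nat_lit 0) (nat_lit 95145637) (nat_lit 304) (nat_lit 7020190440) (nat_lit 76) (nat_lit 8270136752) (nat_lit 36) (nat_lit 5) (nat_lit 40) (nat_lit 5) (nat_lit 37) (nat_lit 4) (nat_lit 336) (nat_lit 227) (nat_lit 217)) (XT.nd (nat_lit 78) (nat_lit 0) (nat_lit 0) (XT.lf (nat_lit 0) (nat_lit 3702461005) (nat_lit 152) (nat_lit 2003311832) (nat_lit 228) (nat_lit 10009833920) (nat_lit 34) (nat_lit 5) (nat_lit 36) (nat_lit 5) (nat_lit 37) (nat_lit 4) (nat_lit 337) (nat_lit 227) (nat_lit 216)) (XT.lf (nat_lit 0) (nat_lit 11440888349) (nat_lit 228) (nat_lit 1425992172) (nat_lit 0) (nat_lit 3189687482) (nat_lit 34) (nat_lit 5) (nat_lit 37) (nat_lit 4) (nat_lit 34) (nat_lit 4) (nat_lit 338) (nat_lit 227) (nat_lit 215)))) (XT.nd (nat_lit 156) (nat_lit 228) (nat_lit 0) (XT.nd (nat_lit 78) (nat_lit 152) (nat_lit 0) (XT.lf (nat_lit 0) (nat_lit 892520011)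 (nat_lit 228) (nat_lit 7012773376) (nat_lit 76) (nat_lit 8503095981) (nat_lit 31) (nat_lit 5) (nat_lit 34) (nat_lit 5) (nat_lit 32) (nat_lit 4) (nat_lit 339) (nat_lit 227) (nat_lit 214)) (XT.lf (nat_lit 0) (nat_lit 3621864181) (nat_lit 152) (nat_lit 2806626039) (nat_lit 228) (nat_lit 10343203439) (nat_lit 29) (nat_lit 5) (nat_lit 31) (nat_lit 5) (nat_lit 32) (nat_lit 4) (nat_lit 340) (nat_lit 227) (nat_lit 213))) (XT.nd (nat_lit 78) (nat_lit 228) (nat_lit 0) (XT.lf (nat_lit 0) (nat_lit 12087360221) (nat_lit 228) (nat_lit 2673794383) (nat_lit 0) (nat_lit 2385647950) (nat_lit 29) (nat_lit 5) (nat_lit 32) (nat_lit 4) (nat_lit 29) (nat_lit 4) (nat_lit 341) (nat_lit 227) (nat_lit 212)) (XT.lf (nat_lit 0) (nat_lit 344643895) (nat_lit 228) (nat_lit 9511966450) (nat_lit 76) (nat_lit 7677207870) (nat_lit 26) (nat_lit 5) (nat_lit 29) (nat_lit 5) (nat_lit 27) (nat_lit 4) (nat_lit 342) (nat_lit 227) (nat_lit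 211)))))) (XT.nd (nat_lit 468) (nat_lit 608) (nat_lit 0) (XT.nd (nat_lit 234) (nat_lit 152) (nat_lit 0) (XT.nd (nat_lit 78) (nat_lit 152) (nat_lit 0) (XT.lf (nat_lit 0) (nat_lit 943982869) (nat_lit 152) (nat_lit 4820281638) (nat_lit 228) (nat_lit 12169106696) (nat_lit 24) (nat_lit 5) (nat_lit 26) (nat_lit 5) (nat_lit 27) (nat_lit 4) (nat_lit 343) (nat_lit 227) (nat_lit 210)) (XT.nd (nat_lit 78) (nat_lit 152) (nat_lit 0) (XT.lf (nat_lit 0) (nat_lit 11312508401) (nat_lit 228) (nat_lit 6678645040) (nat_lit 0) (nat_lit 354474231) (nat_lit 24) (nat_lit 5) (nat_lit 27) (nat_lit 4) (nat_lit 24) (nat_lit 4) (nat_lit 344) (nat_lit 227) (nat_lit 209)) (XT.lf (nat_lit 0) (nat_lit 3787967210) (nat_lit 152) (nat_lit 13197778275) (nat_lit 152) (nat_lit 1785371922) (nat_lit 22) (nat_lit 4) (nat_lit 24) (nat_lit 5) (nat_lit 24) (nat_lit 4) (nat_lit 345) (nat_lit 227) (nat_lit 208)))) (XT.nd (nat_lit 78) (nat_lit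 76) (nat_lit 0) (XT.lf (nat_lit 0) (nat_lit 3520703184) (nat_lit 228) (nat_lit 4741723962) (nat_lit 76) (nat_lit 10947541980) (nat_lit 21) (nat_lit 5) (nat_lit 24) (nat_lit 5) (nat_lit 22) (nat_lit 4) (nat_lit 346) (nat_lit 227) (nat_lit 207)) (XT.nd (nat_lit 78) (nat_lit 0) (nat_lit 0) (XT.lf (nat_lit 0) (nat_lit 5705315679) (nat_lit 76) (nat_lit 3199213744) (nat_lit 152) (nat_lit 10758398167) (nat_lit 20) (nat_lit 5) (nat_lit 21) (nat_lit 5) (nat_lit 22) (nat_lit 4) (nat_lit 347) (nat_lit 227) (nat_lit 206)) (XT.lf (nat_lit 0) (nat_lit 14402195511) (nat_lit 152) (nat_lit 3774745191) (nat_lit 0) (nat_lit 1953520343) (nat_lit 20) (nat_lit 5) (nat_lit 22) (nat_lit 4) (nat_lit 20) (nat_lit 4) (nat_lit 348) (nat_lit 227) (nat_lit 205))))) (XT.nd (nat_lit 234) (nat_lit 304) (nat_lit 0) (XT.nd (nat_lit 78) (nat_lit 152) (nat_lit 0) (XT.lf (nat_lit 0) (nat_lit 6620514382) (nat_lit 152) (nat_lit 13418260722)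 (nat_lit 152) (nat_lit 573797515) (nat_lit 18) (nat_lit 4) (nat_lit 20) (nat_lit 5) (nat_lit 20) (nat_lit 4) (nat_lit 349) (nat_lit 227) (nat_lit 204)) (XT.nd (nat_lit 78) (nat_lit 76) (nat_lit 0) (XT.lf (nat_lit 0) (nat_lit 4609554574) (nat_lit 228) (nat_lit 3917423198) (nat_lit 76) (nat_lit 12582858038) (nat_lit 17) (nat_lit 5) (nat_lit 20) (nat_lit 5) (nat_lit 18) (nat_lit 4) (nat_lit 350) (nat_lit 227) (nat_lit 203)) (XT.lf (nat_lit 0) (nat_lit 6386781173) (nat_lit 76) (nat_lit 3508551895) (nat_lit 152) (nat_lit 11727542916) (nat_lit 16) (nat_lit 5) (nat_lit 17) (nat_lit 5) (nat_lit 18) (nat_lit 4) (nat_lit 351) (nat_lit 227) (nat_lit 202)))) (XT.nd (nat_lit 156) (nat_lit 152) (nat_lit 0) (XT.nd (nat_lit 78) (nat_lit 152) (nat_lit 0) (XT.lf (nat_lit 0) (nat_lit 15291528768) (nat_lit 152) (nat_lit 5259431418) (nat_lit 0) (nat_lit 1601338818) (nat_lit 16) (nat_lit 5) (nat_lit 18) (nat_lit 4)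 (nat_lit 16) (nat_lit 4) (nat_lit 352) (nat_lit 227) (nat_lit 201)) (XT.lf (nat_lit 0) (nat_lit 4910448142) (nat_lit 152) (nat_lit 15911343985) (nat_lit 152) (nat_lit 1876396637) (nat_lit 14) (nat_lit 4) (nat_lit 16) (nat_lit 5) (nat_lit 16) (nat_lit 4) (nat_lit 353) (nat_lit 227) (nat_lit 200))) (XT.nd (nat_lit 78) (nat_lit 76) (nat_lit 0) (XT.lf (nat_lit 0) (nat_lit 3168413318) (nat_lit 228) (nat_lit 7969468365) (nat_lit 76) (nat_lit 12123104331) (nat_lit 13) (nat_lit 5) (nat_lit 16) (nat_lit 5) (nat_lit 14) (nat_lit 4) (nat_lit 354) (nat_lit 227) (nat_lit 199)) (XT.lf (nat_lit 0) (nat_lit 2015729714) (nat_lit 76) (nat_lit 6256725680) (nat_lit 152) (nat_lit 15569321700) (nat_lit 12) (nat_lit 5) (nat_lit 13) (nat_lit 5) (nat_lit 14) (nat_lit 4) (nat_lit 355) (nat_lit 227) (nat_lit 198))))))) (XT.nd (nat_lit 38454) (nat_lit 0) (nat_lit 1672) (XT.nd (nat_lit 468) (nat_lit 76) (nat_lit 0) (XT.nd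 (nat_lit 234) (nat_lit 152) (nat_lit 0) (XT.nd (nat_lit 78) (nat_lit 152) (nat_lit 0) (XT.lf (nat_lit 0) (nat_lit 12270356213) (nat_lit 76) (nat_lit 1234835991) (nat_lit 152) (nat_lit 10935313073) (nat_lit 12) (nat_lit 5) (nat_lit 13) (nat_lit 5) (nat_lit 14) (nat_lit 4) (nat_lit 356) (nat_lit 227) (nat_lit 197)) (XT.nd (nat_lit 78) (nat_lit 152) (nat_lit 0) (XT.lf (nat_lit 0) (nat_lit 18843948399) (nat_lit 152) (nat_lit 2386463961) (nat_lit 0) (nat_lit 3827826317) (nat_lit 12) (nat_lit 5) (nat_lit 14) (nat_lit 4) (nat_lit 12) (nat_lit 4) (nat_lit 357) (nat_lit 227) (nat_lit 196)) (XT.lf (nat_lit 0) (nat_lit 7650457591) (nat_lit 152) (nat_lit 16676039478) (nat_lit 152) (nat_lit 1368357827) (nat_lit 10) (nat_lit 4) (nat_lit 12) (nat_lit 5) (nat_lit 12) (nat_lit 4) (nat_lit 358) (nat_lit 227) (nat_lit 195)))) (XT.nd (nat_lit 78) (nat_lit 76) (nat_lit 0) (XT.lf (nat_lit 0) (nat_lit 3518228439) (nat_lit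 228) (nat_lit 8483927746) (nat_lit 76) (nat_lit 14349109423) (nat_lit 9) (nat_lit 5) (nat_lit 12) (nat_lit 5) (nat_lit 10) (nat_lit 4) (nat_lit 359) (nat_lit 227) (nat_lit 194)) (XT.nd (nat_lit 78) (nat_lit 0) (nat_lit 0) (XT.lf (nat_lit 0) (nat_lit 1243125452) (nat_lit 76) (nat_lit 7226526777) (nat_lit 152) (nat_lit 18558820541) (nat_lit 8) (nat_lit 5) (nat_lit 9) (nat_lit 5) (nat_lit 10) (nat_lit 4) (nat_lit 360) (nat_lit 227) (nat_lit 193)) (XT.lf (nat_lit 0) (nat_lit 11252802788) (nat_lit 76) (nat_lit 2304223522) (nat_lit 152) (nat_lit 14169242693) (nat_lit 8) (nat_lit 5) (nat_lit 9) (nat_lit 5) (nat_lit 10) (nat_lit 4) (nat_lit 361) (nat_lit 227) (nat_lit 192))))) (XT.nd (nat_lit 37674) (nat_lit 0) (nat_lit 3952) (XT.nd (nat_lit 78) (nat_lit 76) (nat_lit 0) (XT.lf (nat_lit 0) (nat_lit 18746589548) (nat_lit 152) (nat_lit 7022885593) (nat_lit 0) (nat_lit 2676553018) (nat_lit 8) (nat_lit 5)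 (nat_lit 10) (nat_lit 4) (nat_lit 8) (nat_lit 4) (nat_lit 362) (nat_lit 227) (nat_lit 191)) (XT.nd (nat_lit 78) (nat_lit 0) (nat_lit 0) (XT.lf (nat_lit 0) (nat_lit 2610919708) (nat_lit 76) (nat_lit 21446883935) (nat_lit 76) (nat_lit 5130276969) (nat_lit 7) (nat_lit 4) (nat_lit 8) (nat_lit 5) (nat_lit 8) (nat_lit 4) (nat_lit 363) (nat_lit 227) (nat_lit 190)) (XT.lf (nat_lit 0) (nat_lit 12512676159) (nat_lit 76) (nat_lit 16998043072) (nat_lit 76) (nat_lit 442047333) (nat_lit 7) (nat_lit 4) (nat_lit 8) (nat_lit 5) (nat_lit 8) (nat_lit 4) (nat_lit 364) (nat_lit 227) (nat_lit 189)))) (XT.nd (nat_lit 156) (nat_lit 532) (nat_lit 0) (XT.nd (nat_lit 78) (nat_lit 304) (nat_lit 0) (XT.lf (nat_lit 0) (nat_lit 5784011382) (nat_lit 304) (nat_lit 146894875) (nat_lit 304) (nat_lit 146894875) (nat_lit 70) (nat_lit 4) (nat_lit 74) (nat_lit 5) (nat_lit 74) (nat_lit 4) (nat_lit 324) (nat_lit 228) (nat_lit 228)) (XT.lf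 (nat_lit 0) (nat_lit 5609814951) (nat_lit 304) (nat_lit 2075173253) (nat_lit 0) (nat_lit 4694606108) (nat_lit 66) (nat_lit 5) (nat_lit 70) (nat_lit 4) (nat_lit 66) (nat_lit 4) (nat_lit 325) (nat_lit 228) (nat_lit 227))) (XT.nd (nat_lit 78) (nat_lit 304) (nat_lit 0) (XT.lf (nat_lit 0) (nat_lit 8819108741) (nat_lit 228) (nat_lit 2798187905) (nat_lit 228) (nat_lit 994426787) (nat_lit 63) (nat_lit 4) (nat_lit 66) (nat_lit 5) (nat_lit 66) (nat_lit 4) (nat_lit 326) (nat_lit 228) (nat_lit 226)) (XT.lf (nat_lit 0) (nat_lit 4832915273) (nat_lit 304) (nat_lit 5799686631) (nat_lit 0) (nat_lit 2218765048) (nat_lit 59) (nat_lit 5) (nat_lit 63) (nat_lit 4) (nat_lit 59) (nat_lit 4) (nat_lit 327) (nat_lit 228) (nat_lit 225)))))) (XT.nd (nat_lit 546) (nat_lit 836) (nat_lit 0) (XT.nd (nat_lit 234) (nat_lit 912) (nat_lit 0) (XT.nd (nat_lit 78) (nat_lit 304) (nat_lit 0) (XT.lf (nat_lit 0) (nat_lit 5005023532) (nat_lit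 228) (nat_lit 5764710445) (nat_lit 228) (nat_lit 2329436945) (nat_lit 56) (nat_lit 4) (nat_lit 59) (nat_lit 5) (nat_lit 59) (nat_lit 4) (nat_lit 328) (nat_lit 228) (nat_lit 224)) (XT.nd (nat_lit 78) (nat_lit 0) (nat_lit 0) (XT.lf (nat_lit 0) (nat_lit 2662418799) (nat_lit 228) (nat_lit 750897716) (nat_lit 304) (nat_lit 9942109486) (nat_lit 52) (nat_lit 5) (nat_lit 55) (nat_lit 5) (nat_lit 56) (nat_lit 4) (nat_lit 329) (nat_lit 228) (nat_lit 223)) (XT.lf (nat_lit 0) (nat_lit 9255128074) (nat_lit 304) (nat_lit 17999063) (nat_lit 0) (nat_lit 4346826112) (nat_lit 52) (nat_lit 5) (nat_lit 56) (nat_lit 4) (nat_lit 52) (nat_lit 4) (nat_lit 330) (nat_lit 228) (nat_lit 222)))) (XT.nd (nat_lit 156) (nat_lit 456) (nat_lit 0) (XT.nd (nat_lit 78) (nat_lit 152) (nat_lit 0) (XT.lf (nat_lit 0) (nat_lit 1315235295) (nat_lit 304) (nat_lit 2988236581) (nat_lit 76) (nat_lit 9589752201) (nat_lit 48) (nat_lit 5) (nat_lit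 52) (nat_lit 5) (nat_lit 49) (nat_lit 4) (nat_lit 331) (nat_lit 228) (nat_lit 221)) (XT.lf (nat_lit 0) (nat_lit 7042619150) (nat_lit 228) (nat_lit 6325762729) (nat_lit 0) (nat_lit 807065987) (nat_lit 46) (nat_lit 5) (nat_lit 49) (nat_lit 4) (nat_lit 46) (nat_lit 4) (nat_lit 332) (nat_lit 228) (nat_lit 220))) (XT.nd (nat_lit 78) (nat_lit 228) (nat_lit 0) (XT.lf (nat_lit 0) (nat_lit 4418331203) (nat_lit 228) (nat_lit 8482519083) (nat_lit 228) (nat_lit 1566162240) (nat_lit 43) (nat_lit 4) (nat_lit 46) (nat_lit 5) (nat_lit 46) (nat_lit 4) (nat_lit 333) (nat_lit 228) (nat_lit 219)) (XT.lf (nat_lit 0) (nat_lit 588233991) (nat_lit 152) (nat_lit 3454125058) (nat_lit 228) (nat_lit 10725885707) (nat_lit 40) (nat_lit 5) (nat_lit 42) (nat_lit 5) (nat_lit 43) (nat_lit 4) (nat_lit 334) (nat_lit 228) (nat_lit 218))))) (XT.nd (nat_lit 234) (nat_lit 380) (nat_lit 0) (XT.nd (nat_lit 78) (nat_lit 456) (nat_lit 0)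 (XT.lf (nat_lit 0) (nat_lit 9761920721) (nat_lit 228) (nat_lit 3613130865) (nat_lit 0) (nat_lit 1704024590) (nat_lit 40) (nat_lit 5) (nat_lit 43) (nat_lit 4) (nat_lit 40) (nat_lit 4) (nat_lit 335) (nat_lit 228) (nat_lit 217)) (XT.nd (nat_lit 78) (nat_lit 152) (nat_lit 0) (XT.lf (nat_lit 0) (nat_lit 207276313) (nat_lit 304) (nat_lit 8250013478) (nat_lit 76) (nat_lit 6942822502) (nat_lit 36) (nat_lit 5) (nat_lit 40) (nat_lit 5) (nat_lit 37) (nat_lit 4) (nat_lit 336) (nat_lit 228) (nat_lit 216)) (XT.lf (nat_lit 0) (nat_lit 2362252317) (nat_lit 152) (nat_lit 3392197537) (nat_lit 228) (nat_lit 9977088441) (nat_lit 34) (nat_lit 5) (nat_lit 36) (nat_lit 5) (nat_lit 37) (nat_lit 4) (nat_lit 337) (nat_lit 228) (nat_lit 215)))) (XT.nd (nat_lit 156) (nat_lit 152) (nat_lit 0) (XT.nd (nat_lit 78) (nat_lit 228) (nat_lit 0) (XT.lf (nat_lit 0) (nat_lit 11426553770) (nat_lit 228) (nat_lit 2865271211) (nat_lit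 0) (nat_lit 1781957123) (nat_lit 34) (nat_lit 5) (nat_lit 37) (nat_lit 4) (nat_lit 34) (nat_lit 4) (nat_lit 338) (nat_lit 228) (nat_lit 214)) (XT.lf (nat_lit 0) (nat_lit 798470973) (nat_lit 228) (nat_lit 8579707544) (nat_lit 76) (nat_lit 7048708585) (nat_lit 31) (nat_lit 5) (nat_lit 34) (nat_lit 5) (nat_lit 32) (nat_lit 4) (nat_lit 339) (nat_lit 228) (nat_lit 213))) (XT.nd (nat_lit 78) (nat_lit 0) (nat_lit 0) (XT.lf (nat_lit 0) (nat_lit 1944197076) (nat_lit 152) (nat_lit 4327523933) (nat_lit 228) (nat_lit 10519745424) (nat_lit 29) (nat_lit 5) (nat_lit 31) (nat_lit 5) (nat_lit 32) (nat_lit 4) (nat_lit 340) (nat_lit 228) (nat_lit 212)) (XT.lf (nat_lit 0) (nat_lit 11869595112) (nat_lit 228) (nat_lit 4449451439) (nat_lit 0) (nat_lit 848768731) (nat_lit 29) (nat_lit 5) (nat_lit 32) (nat_lit 4) (nat_lit 29) (nat_lit 4) (nat_lit 341) (nat_lit 228) (nat_lit 211))))))))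
noncomputable def xc8 : XT := (XT.nd (nat_lit 39312) (nat_lit 0) (nat_lit 760) (XT.nd (nat_lit 1014) (nat_lit 456) (nat_lit 0) (XT.nd (nat_lit 468) (nat_lit 532) (nat_lit 0) (XT.nd (nat_lit 234) (nat_lit 304) (nat_lit 0) (XT.nd (nat_lit 78) (nat_lit 152) (nat_lit 0) (XT.lf (nat_lit 0) (nat_lit 46691818) (nat_lit 228) (nat_lit 11418193226) (nat_lit 76) (nat_lit 6091242091) (nat_lit 26) (nat_lit 5) (nat_lit 29) (nat_lit 5) (nat_lit 27) (nat_lit 4) (nat_lit 342) (nat_lit 228) (nat_lit 210)) (XT.nd (nat_lit 78) (nat_lit 152) (nat_lit 0) (XT.lf (nat_lit 0) (nat_lit 5411109160) (nat_lit 228) (nat_lit 1059433611) (nat_lit 76) (nat_lit 11486259932) (nat_lit 26) (nat_lit 5) (nat_lit 29) (nat_lit 5) (nat_lit 27) (nat_lit 4) (nat_lit 343) (nat_lit 228) (nat_lit 209)) (XT.lf (nat_lit 0) (nat_lit 9568432274) (nat_lit 152) (nat_lit 1333432090) (nat_lit 228) (nat_lit 7468362556) (nat_lit 24) (nat_lit 5) (nat_lit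 26) (nat_lit 5) (nat_lit 27) (nat_lit 4) (nat_lit 344) (nat_lit 228) (nat_lit 208)))) (XT.nd (nat_lit 78) (nat_lit 152) (nat_lit 0) (XT.lf (nat_lit 0) (nat_lit 1562554327) (nat_lit 152) (nat_lit 14942435392) (nat_lit 152) (nat_lit 2292146622) (nat_lit 22) (nat_lit 4) (nat_lit 24) (nat_lit 5) (nat_lit 24) (nat_lit 4) (nat_lit 345) (nat_lit 228) (nat_lit 207)) (XT.nd (nat_lit 78) (nat_lit 76) (nat_lit 0) (XT.lf (nat_lit 0) (nat_lit 2974094198) (nat_lit 228) (nat_lit 7070907850) (nat_lit 76) (nat_lit 9191998045) (nat_lit 21) (nat_lit 5) (nat_lit 24) (nat_lit 5) (nat_lit 22) (nat_lit 4) (nat_lit 346) (nat_lit 228) (nat_lit 206)) (XT.lf (nat_lit 0) (nat_lit 3265450591) (nat_lit 76) (nat_lit 5031501703) (nat_lit 152) (nat_lit 11394241752) (nat_lit 20) (nat_lit 5) (nat_lit 21) (nat_lit 5) (nat_lit 22) (nat_lit 4) (nat_lit 347) (nat_lit 228) (nat_lit 205))))) (XT.nd (nat_lit 234) (nat_lit 304) (nat_lit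 0) (XT.nd (nat_lit 78) (nat_lit 228) (nat_lit 0) (XT.lf (nat_lit 0) (nat_lit 13738191999) (nat_lit 152) (nat_lit 6309072831) (nat_lit 0) (nat_lit 112606857) (nat_lit 20) (nat_lit 5) (nat_lit 22) (nat_lit 4) (nat_lit 20) (nat_lit 4) (nat_lit 348) (nat_lit 228) (nat_lit 204)) (XT.nd (nat_lit 78) (nat_lit 76) (nat_lit 0) (XT.lf (nat_lit 0) (nat_lit 3975681294) (nat_lit 152) (nat_lit 15338685321) (nat_lit 152) (nat_lit 1328839946) (nat_lit 18) (nat_lit 4) (nat_lit 20) (nat_lit 5) (nat_lit 20) (nat_lit 4) (nat_lit 349) (nat_lit 228) (nat_lit 203)) (XT.lf (nat_lit 0) (nat_lit 3821660888) (nat_lit 228) (nat_lit 6663158566) (nat_lit 76) (nat_lit 10656617888) (nat_lit 17) (nat_lit 5) (nat_lit 20) (nat_lit 5) (nat_lit 18) (nat_lit 4) (nat_lit 350) (nat_lit 228) (nat_lit 202)))) (XT.nd (nat_lit 156) (nat_lit 228) (nat_lit 0) (XT.nd (nat_lit 78) (nat_lit 0) (nat_lit 0) (XT.lf (nat_lit 0) (nat_lit 3530605407)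 (nat_lit 76) (nat_lit 5516781271) (nat_lit 152) (nat_lit 12608305940) (nat_lit 16) (nat_lit 5) (nat_lit 17) (nat_lit 5) (nat_lit 18) (nat_lit 4) (nat_lit 351) (nat_lit 228) (nat_lit 201)) (XT.lf (nat_lit 0) (nat_lit 13975640540) (nat_lit 76) (nat_lit 416641029) (nat_lit 152) (nat_lit 7793873724) (nat_lit 16) (nat_lit 5) (nat_lit 17) (nat_lit 5) (nat_lit 18) (nat_lit 4) (nat_lit 352) (nat_lit 228) (nat_lit 200))) (XT.nd (nat_lit 78) (nat_lit 76) (nat_lit 0) (XT.lf (nat_lit 0) (nat_lit 1851637942) (nat_lit 152) (nat_lit 18008568109) (nat_lit 152) (nat_lit 2873099021) (nat_lit 14) (nat_lit 4) (nat_lit 16) (nat_lit 5) (nat_lit 16) (nat_lit 4) (nat_lit 353) (nat_lit 228) (nat_lit 199)) (XT.lf (nat_lit 0) (nat_lit 2145446867) (nat_lit 228) (nat_lit 11126633329) (nat_lit 76) (nat_lit 10024950875) (nat_lit 13) (nat_lit 5) (nat_lit 16) (nat_lit 5) (nat_lit 14) (nat_lit 4) (nat_lit 354) (nat_lit 228) (nat_lit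 198)))))) (XT.nd (nat_lit 468) (nat_lit 152) (nat_lit 0) (XT.nd (nat_lit 234) (nat_lit 228) (nat_lit 0) (XT.nd (nat_lit 78) (nat_lit 76) (nat_lit 0) (XT.lf (nat_lit 0) (nat_lit 7198211200) (nat_lit 228) (nat_lit 1235551235) (nat_lit 76) (nat_lit 15445097508) (nat_lit 13) (nat_lit 5) (nat_lit 16) (nat_lit 5) (nat_lit 14) (nat_lit 4) (nat_lit 355) (nat_lit 228) (nat_lit 197)) (XT.nd (nat_lit 78) (nat_lit 0) (nat_lit 0) (XT.lf (nat_lit 0) (nat_lit 8936074127) (nat_lit 76) (nat_lit 3449235016) (nat_lit 152) (nat_lit 12093203640) (nat_lit 12) (nat_lit 5) (nat_lit 13) (nat_lit 5) (nat_lit 14) (nat_lit 4) (nat_lit 356) (nat_lit 228) (nat_lit 196)) (XT.lf (nat_lit 0) (nat_lit 17673087030) (nat_lit 152) (nat_lit 5809574893) (nat_lit 0) (nat_lit 1614615360) (nat_lit 12) (nat_lit 5) (nat_lit 14) (nat_lit 4) (nat_lit 12) (nat_lit 4) (nat_lit 357) (nat_lit 228) (nat_lit 195)))) (XT.nd (nat_lit 78) (nat_lit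 76) (nat_lit 0) (XT.lf (nat_lit 0) (nat_lit 4117714400) (nat_lit 152) (nat_lit 18979449475) (nat_lit 152) (nat_lit 2637910262) (nat_lit 10) (nat_lit 4) (nat_lit 12) (nat_lit 5) (nat_lit 12) (nat_lit 4) (nat_lit 358) (nat_lit 228) (nat_lit 194)) (XT.nd (nat_lit 78) (nat_lit 0) (nat_lit 0) (XT.lf (nat_lit 0) (nat_lit 2230180297) (nat_lit 228) (nat_lit 12111397868) (nat_lit 76) (nat_lit 12050785120) (nat_lit 9) (nat_lit 5) (nat_lit 12) (nat_lit 5) (nat_lit 10) (nat_lit 4) (nat_lit 359) (nat_lit 228) (nat_lit 193)) (XT.lf (nat_lit 0) (nat_lit 7139410451) (nat_lit 228) (nat_lit 2461571266) (nat_lit 76) (nat_lit 17469442952) (nat_lit 9) (nat_lit 5) (nat_lit 12) (nat_lit 5) (nat_lit 10) (nat_lit 4) (nat_lit 360) (nat_lit 228) (nat_lit 192))))) (XT.nd (nat_lit 234) (nat_lit 76) (nat_lit 0) (XT.nd (nat_lit 78) (nat_lit 0) (nat_lit 0) (XT.lf (nat_lit 0) (nat_lit 7455458699) (nat_lit 76) (nat_lit 4721613566)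 (nat_lit 152) (nat_lit 15592152928) (nat_lit 8) (nat_lit 5) (nat_lit 9) (nat_lit 5) (nat_lit 10) (nat_lit 4) (nat_lit 361) (nat_lit 228) (nat_lit 191)) (XT.nd (nat_lit 78) (nat_lit 0) (nat_lit 0) (XT.lf (nat_lit 0) (nat_lit 17318232211) (nat_lit 152) (nat_lit 10906173360) (nat_lit 0) (nat_lit 265556600) (nat_lit 8) (nat_lit 5) (nat_lit 10) (nat_lit 4) (nat_lit 8) (nat_lit 4) (nat_lit 362) (nat_lit 228) (nat_lit 190)) (XT.lf (nat_lit 0) (nat_lit 22580739153) (nat_lit 152) (nat_lit 1363584318) (nat_lit 0) (nat_lit 5288674767) (nat_lit 8) (nat_lit 5) (nat_lit 10) (nat_lit 4) (nat_lit 8) (nat_lit 4) (nat_lit 363) (nat_lit 228) (nat_lit 189)))) (XT.nd (nat_lit 37440) (nat_lit 0) (nat_lit 4712) (XT.nd (nat_lit 37362) (nat_lit 0) (nat_lit 5092) (XT.lf (nat_lit 0) (nat_lit 8464001563) (nat_lit 76) (nat_lit 19529487898) (nat_lit 76) (nat_lit 2005007228) (nat_lit 7) (nat_lit 4) (nat_lit 8) (nat_lit 5) (nat_lit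 8) (nat_lit 4) (nat_lit 364) (nat_lit 228) (nat_lit 188)) (XT.lf (nat_lit 0) (nat_lit 442355021) (nat_lit 304) (nat_lit 4978869942) (nat_lit 0) (nat_lit 442355021) (nat_lit 74) (nat_lit 5) (nat_lit 78) (nat_lit 4) (nat_lit 74) (nat_lit 4) (nat_lit 322) (nat_lit 229) (nat_lit 229))) (XT.nd (nat_lit 78) (nat_lit 76) (nat_lit 0) (XT.lf (nat_lit 0) (nat_lit 632184931) (nat_lit 304) (nat_lit 6133763570) (nat_lit 304) (nat_lit 5172245159) (nat_lit 70) (nat_lit 4) (nat_lit 74) (nat_lit 5) (nat_lit 74) (nat_lit 4) (nat_lit 323) (nat_lit 229) (nat_lit 228)) (XT.lf (nat_lit 0) (nat_lit 592703000) (nat_lit 380) (nat_lit 697771369) (nat_lit 76) (nat_lit 10866402760) (nat_lit 69) (nat_lit 5) (nat_lit 74) (nat_lit 5) (nat_lit 70) (nat_lit 4) (nat_lit 324) (nat_lit 229) (nat_lit 227))))))) (XT.nd (nat_lit 1014) (nat_lit 1292) (nat_lit 0) (XT.nd (nat_lit 468) (nat_lit 1368) (nat_lit 0) (XT.nd (nat_lit 234) (nat_lit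 532) (nat_lit 0) (XT.nd (nat_lit 78) (nat_lit 532) (nat_lit 0) (XT.lf (nat_lit 0) (nat_lit 6419985413) (nat_lit 304) (nat_lit 2288770964) (nat_lit 0) (nat_lit 3673559186) (nat_lit 66) (nat_lit 5) (nat_lit 70) (nat_lit 4) (nat_lit 66) (nat_lit 4) (nat_lit 325) (nat_lit 229) (nat_lit 226)) (XT.nd (nat_lit 78) (nat_lit 304) (nat_lit 0) (XT.lf (nat_lit 0) (nat_lit 8499158960) (nat_lit 228) (nat_lit 3862863541) (nat_lit 228) (nat_lit 253765202) (nat_lit 63) (nat_lit 4) (nat_lit 66) (nat_lit 5) (nat_lit 66) (nat_lit 4) (nat_lit 326) (nat_lit 229) (nat_lit 225)) (XT.lf (nat_lit 0) (nat_lit 5491263161) (nat_lit 304) (nat_lit 6233748182) (nat_lit 0) (nat_lit 1131808182) (nat_lit 59) (nat_lit 5) (nat_lit 63) (nat_lit 4) (nat_lit 59) (nat_lit 4) (nat_lit 327) (nat_lit 229) (nat_lit 224)))) (XT.nd (nat_lit 78) (nat_lit 304) (nat_lit 0) (XT.lf (nat_lit 0) (nat_lit 4463124343) (nat_lit 228) (nat_lit 6899748456)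 (nat_lit 228) (nat_lit 1743086415) (nat_lit 56) (nat_lit 4) (nat_lit 59) (nat_lit 5) (nat_lit 59) (nat_lit 4) (nat_lit 328) (nat_lit 229) (nat_lit 223)) (XT.nd (nat_lit 78) (nat_lit 0) (nat_lit 0) (XT.lf (nat_lit 0) (nat_lit 2001317319) (nat_lit 228) (nat_lit 1925398917) (nat_lit 304) (nat_lit 9436757150) (nat_lit 52) (nat_lit 5) (nat_lit 55) (nat_lit 5) (nat_lit 56) (nat_lit 4) (nat_lit 329) (nat_lit 229) (nat_lit 222)) (XT.lf (nat_lit 0) (nat_lit 9700821335) (nat_lit 304) (nat_lit 778813392) (nat_lit 0) (nat_lit 3149749182) (nat_lit 52) (nat_lit 5) (nat_lit 56) (nat_lit 4) (nat_lit 52) (nat_lit 4) (nat_lit 330) (nat_lit 229) (nat_lit 221))))) (XT.nd (nat_lit 234) (nat_lit 684) (nat_lit 0) (XT.nd (nat_lit 78) (nat_lit 380) (nat_lit 0) (XT.lf (nat_lit 0) (nat_lit 1681354208) (nat_lit 304) (nat_lit 3869988997) (nat_lit 76) (nat_lit 8352571063) (nat_lit 48) (nat_lit 5) (nat_lit 52) (nat_lit 5) (nat_lit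 49) (nat_lit 4) (nat_lit 331) (nat_lit 229) (nat_lit 220)) (XT.nd (nat_lit 78) (nat_lit 228) (nat_lit 0) (XT.lf (nat_lit 0) (nat_lit 6864731392) (nat_lit 152) (nat_lit 474612986) (nat_lit 228) (nat_lit 6848208485) (nat_lit 46) (nat_lit 5) (nat_lit 48) (nat_lit 5) (nat_lit 49) (nat_lit 4) (nat_lit 332) (nat_lit 229) (nat_lit 219)) (XT.lf (nat_lit 0) (nat_lit 3314890870) (nat_lit 228) (nat_lit 9815609986) (nat_lit 228) (nat_lit 1349984310) (nat_lit 43) (nat_lit 4) (nat_lit 46) (nat_lit 5) (nat_lit 46) (nat_lit 4) (nat_lit 333) (nat_lit 229) (nat_lit 218)))) (XT.nd (nat_lit 156) (nat_lit 456) (nat_lit 0) (XT.nd (nat_lit 78) (nat_lit 152) (nat_lit 0) (XT.lf (nat_lit 0) (nat_lit 4195707680) (nat_lit 304) (nat_lit 632018925) (nat_lit 76) (nat_lit 9955187490) (nat_lit 42) (nat_lit 5) (nat_lit 46) (nat_lit 5) (nat_lit 43) (nat_lit 4) (nat_lit 334) (nat_lit 229) (nat_lit 217)) (XT.lf (nat_lit 0) (nat_lit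 9846781104) (nat_lit 228) (nat_lit 4941165715) (nat_lit 0) (nat_lit 307192624) (nat_lit 40) (nat_lit 5) (nat_lit 43) (nat_lit 4) (nat_lit 40) (nat_lit 4) (nat_lit 335) (nat_lit 229) (nat_lit 216))) (XT.nd (nat_lit 78) (nat_lit 152) (nat_lit 0) (XT.lf (nat_lit 0) (nat_lit 211624073) (nat_lit 304) (nat_lit 9705132608) (nat_lit 76) (nat_lit 5500703888) (nat_lit 36) (nat_lit 5) (nat_lit 40) (nat_lit 5) (nat_lit 37) (nat_lit 4) (nat_lit 336) (nat_lit 229) (nat_lit 215)) (XT.lf (nat_lit 0) (nat_lit 796492557) (nat_lit 152) (nat_lit 4898981692) (nat_lit 228) (nat_lit 10054701118) (nat_lit 34) (nat_lit 5) (nat_lit 36) (nat_lit 5) (nat_lit 37) (nat_lit 4) (nat_lit 337) (nat_lit 229) (nat_lit 214)))))) (XT.nd (nat_lit 468) (nat_lit 684) (nat_lit 0) (XT.nd (nat_lit 234) (nat_lit 228) (nat_lit 0) (XT.nd (nat_lit 78) (nat_lit 380) (nat_lit 0) (XT.lf (nat_lit 0) (nat_lit 11305373737) (nat_lit 228) (nat_lit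 4529357216) (nat_lit 0) (nat_lit 258953993) (nat_lit 34) (nat_lit 5) (nat_lit 37) (nat_lit 4) (nat_lit 34) (nat_lit 4) (nat_lit 338) (nat_lit 229) (nat_lit 213)) (XT.nd (nat_lit 78) (nat_lit 152) (nat_lit 0) (XT.lf (nat_lit 0) (nat_lit 596390343) (nat_lit 228) (nat_lit 10373771702) (nat_lit 76) (nat_lit 5477923818) (nat_lit 31) (nat_lit 5) (nat_lit 34) (nat_lit 5) (nat_lit 32) (nat_lit 4) (nat_lit 339) (nat_lit 229) (nat_lit 212)) (XT.lf (nat_lit 0) (nat_lit 39000258) (nat_lit 152) (nat_lit 5967952216) (nat_lit 228) (nat_lit 10806986511) (nat_lit 29) (nat_lit 5) (nat_lit 31) (nat_lit 5) (nat_lit 32) (nat_lit 4) (nat_lit 340) (nat_lit 229) (nat_lit 211)))) (XT.nd (nat_lit 78) (nat_lit 228) (nat_lit 0) (XT.lf (nat_lit 0) (nat_lit 10734114659) (nat_lit 152) (nat_lit 815725144) (nat_lit 228) (nat_lit 5641567217) (nat_lit 29) (nat_lit 5) (nat_lit 31) (nat_lit 5) (nat_lit 32) (nat_lit 4) (nat_lit 341)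 (nat_lit 229) (nat_lit 210)) (XT.nd (nat_lit 78) (nat_lit 76) (nat_lit 0) (XT.lf (nat_lit 0) (nat_lit 4024951263) (nat_lit 152) (nat_lit 13191535235) (nat_lit 152) (nat_lit 364601480) (nat_lit 27) (nat_lit 4) (nat_lit 29) (nat_lit 5) (nat_lit 29) (nat_lit 4) (nat_lit 342) (nat_lit 229) (nat_lit 209)) (XT.lf (nat_lit 0) (nat_lit 4956952716) (nat_lit 228) (nat_lit 3277348894) (nat_lit 76) (nat_lit 9748480155) (nat_lit 26) (nat_lit 5) (nat_lit 29) (nat_lit 5) (nat_lit 27) (nat_lit 4) (nat_lit 343) (nat_lit 229) (nat_lit 208))))) (XT.nd (nat_lit 234) (nat_lit 304) (nat_lit 0) (XT.nd (nat_lit 78) (nat_lit 228) (nat_lit 0) (XT.lf (nat_lit 0) (nat_lit 7240038888) (nat_lit 152) (nat_lit 3146294315) (nat_lit 228) (nat_lit 8011117724) (nat_lit 24) (nat_lit 5) (nat_lit 26) (nat_lit 5) (nat_lit 27) (nat_lit 4) (nat_lit 344) (nat_lit 229) (nat_lit 207)) (XT.nd (nat_lit 78) (nat_lit 228) (nat_lit 0) (XT.lf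 (nat_lit 0) (nat_lit 15921906857) (nat_lit 228) (nat_lit 881139450) (nat_lit 0) (nat_lit 2022682020) (nat_lit 24) (nat_lit 5) (nat_lit 27) (nat_lit 4) (nat_lit 24) (nat_lit 4) (nat_lit 345) (nat_lit 229) (nat_lit 206)) (XT.lf (nat_lit 0) (nat_lit 2319479295) (nat_lit 228) (nat_lit 9629691573) (nat_lit 76) (nat_lit 7317536011) (nat_lit 21) (nat_lit 5) (nat_lit 24) (nat_lit 5) (nat_lit 22) (nat_lit 4) (nat_lit 346) (nat_lit 229) (nat_lit 205)))) (XT.nd (nat_lit 156) (nat_lit 228) (nat_lit 0) (XT.nd (nat_lit 78) (nat_lit 0) (nat_lit 0) (XT.lf (nat_lit 0) (nat_lit 595256569) (nat_lit 76) (nat_lit 6985931608) (nat_lit 152) (nat_lit 12140951298) (nat_lit 20) (nat_lit 5) (nat_lit 21) (nat_lit 5) (nat_lit 22) (nat_lit 4) (nat_lit 347) (nat_lit 229) (nat_lit 204)) (XT.lf (nat_lit 0) (nat_lit 11106209602) (nat_lit 76) (nat_lit 1872453065) (nat_lit 152) (nat_lit 7213044954) (nat_lit 20) (nat_lit 5) (nat_lit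 21) (nat_lit 5) (nat_lit 22) (nat_lit 4) (nat_lit 348) (nat_lit 229) (nat_lit 203))) (XT.nd (nat_lit 78) (nat_lit 76) (nat_lit 0) (XT.lf (nat_lit 0) (nat_lit 1100089717) (nat_lit 152) (nat_lit 17381946358) (nat_lit 152) (nat_lit 2194477203) (nat_lit 18) (nat_lit 4) (nat_lit 20) (nat_lit 5) (nat_lit 20) (nat_lit 4) (nat_lit 349) (nat_lit 229) (nat_lit 202)) (XT.lf (nat_lit 0) (nat_lit 2925868103) (nat_lit 228) (nat_lit 9639417707) (nat_lit 76) (nat_lit 8610414873) (nat_lit 17) (nat_lit 5) (nat_lit 20) (nat_lit 5) (nat_lit 18) (nat_lit 4) (nat_lit 350) (nat_lit 229) (nat_lit 201))))))))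
noncomputable def xc9 : XT := (XT.nd (nat_lit 39156) (nat_lit 0) (nat_lit 380) (XT.nd (nat_lit 1014) (nat_lit 76) (nat_lit 0) (XT.nd (nat_lit 468) (nat_lit 304) (nat_lit 0) (XT.nd (nat_lit 234) (nat_lit 304) (nat_lit 0) (XT.nd (nat_lit 78) (nat_lit 0) (nat_lit 0) (XT.lf (nat_lit 0) (nat_lit 442996241) (nat_lit 76) (nat_lit 7648251315) (nat_lit 152) (nat_lit 13599928968) (nat_lit 16) (nat_lit 5) (nat_lit 17) (nat_lit 5) (nat_lit 18) (nat_lit 4) (nat_lit 351) (nat_lit 229) (nat_lit 200)) (XT.nd (nat_lit 78) (nat_lit 0) (nat_lit 0) (XT.lf (nat_lit 0) (nat_lit 10818325445) (nat_lit 76) (nat_lit 2578238667) (nat_lit 152) (nat_lit 8825879895) (nat_lit 16) (nat_lit 5) (nat_lit 17) (nat_lit 5) (nat_lit 18) (nat_lit 4) (nat_lit 352) (nat_lit 229) (nat_lit 199)) (XT.lf (nat_lit 0) (nat_lit 18799816529) (nat_lit 152) (nat_lit 1420483021) (nat_lit 0) (nat_lit 2550600534) (nat_lit 16) (nat_lit 5) (nat_lit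 18) (nat_lit 4) (nat_lit 16) (nat_lit 4) (nat_lit 353) (nat_lit 229) (nat_lit 198)))) (XT.nd (nat_lit 78) (nat_lit 76) (nat_lit 0) (XT.lf (nat_lit 0) (nat_lit 1014265136) (nat_lit 228) (nat_lit 14515902277) (nat_lit 76) (nat_lit 7805565433) (nat_lit 13) (nat_lit 5) (nat_lit 16) (nat_lit 5) (nat_lit 14) (nat_lit 4) (nat_lit 354) (nat_lit 229) (nat_lit 197)) (XT.nd (nat_lit 78) (nat_lit 76) (nat_lit 0) (XT.lf (nat_lit 0) (nat_lit 6029951518) (nat_lit 228) (nat_lit 4690528269) (nat_lit 76) (nat_lit 13197835369) (nat_lit 13) (nat_lit 5) (nat_lit 16) (nat_lit 5) (nat_lit 14) (nat_lit 4) (nat_lit 355) (nat_lit 229) (nat_lit 196)) (XT.lf (nat_lit 0) (nat_lit 5370540216) (nat_lit 76) (nat_lit 5787361423) (nat_lit 152) (nat_lit 13361260848) (nat_lit 12) (nat_lit 5) (nat_lit 13) (nat_lit 5) (nat_lit 14) (nat_lit 4) (nat_lit 356) (nat_lit 229) (nat_lit 195))))) (XT.nd (nat_lit 234) (nat_lit 76) (nat_lit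 0) (XT.nd (nat_lit 78) (nat_lit 228) (nat_lit 0) (XT.lf (nat_lit 0) (nat_lit 15670244126) (nat_lit 76) (nat_lit 729455931) (nat_lit 152) (nat_lit 8739157718) (nat_lit 12) (nat_lit 5) (nat_lit 13) (nat_lit 5) (nat_lit 14) (nat_lit 4) (nat_lit 357) (nat_lit 229) (nat_lit 194)) (XT.nd (nat_lit 78) (nat_lit 76) (nat_lit 0) (XT.lf (nat_lit 0) (nat_lit 352575263) (nat_lit 152) (nat_lit 21407519832) (nat_lit 152) (nat_lit 4017844043) (nat_lit 10) (nat_lit 4) (nat_lit 12) (nat_lit 5) (nat_lit 12) (nat_lit 4) (nat_lit 358) (nat_lit 229) (nat_lit 193)) (XT.lf (nat_lit 0) (nat_lit 834222155) (nat_lit 228) (nat_lit 15971365343) (nat_lit 76) (nat_lit 9630512775) (nat_lit 9) (nat_lit 5) (nat_lit 12) (nat_lit 5) (nat_lit 10) (nat_lit 4) (nat_lit 359) (nat_lit 229) (nat_lit 192)))) (XT.nd (nat_lit 156) (nat_lit 0) (nat_lit 0) (XT.nd (nat_lit 78) (nat_lit 76) (nat_lit 0) (XT.lf (nat_lit 0) (nat_lit 5710323724)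 (nat_lit 228) (nat_lit 6380687074) (nat_lit 76) (nat_lit 15023823477) (nat_lit 9) (nat_lit 5) (nat_lit 12) (nat_lit 5) (nat_lit 10) (nat_lit 4) (nat_lit 360) (nat_lit 229) (nat_lit 191)) (XT.lf (nat_lit 0) (nat_lit 3426071184) (nat_lit 76) (nat_lit 7263589225) (nat_lit 152) (nat_lit 17125150648) (nat_lit 8) (nat_lit 5) (nat_lit 9) (nat_lit 5) (nat_lit 10) (nat_lit 4) (nat_lit 361) (nat_lit 229) (nat_lit 190))) (XT.nd (nat_lit 78) (nat_lit 0) (nat_lit 0) (XT.lf (nat_lit 0) (nat_lit 13499689417) (nat_lit 76) (nat_lit 2297790191) (nat_lit 152) (nat_lit 12738744711) (nat_lit 8) (nat_lit 5) (nat_lit 9) (nat_lit 5) (nat_lit 10) (nat_lit 4) (nat_lit 362) (nat_lit 229) (nat_lit 189)) (XT.lf (nat_lit 0) (nat_lit 21014237351) (nat_lit 152) (nat_lit 5534341237) (nat_lit 0) (nat_lit 2731605976) (nat_lit 8) (nat_lit 5) (nat_lit 10) (nat_lit 4) (nat_lit 8) (nat_lit 4) (nat_lit 363) (nat_lit 229) (nat_lit 188))))))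 (XT.nd (nat_lit 37596) (nat_lit 0) (nat_lit 3116) (XT.nd (nat_lit 37362) (nat_lit 0) (nat_lit 4712) (XT.nd (nat_lit 37206) (nat_lit 0) (nat_lit 5396) (XT.lf (nat_lit 0) (nat_lit 4183400732) (nat_lit 76) (nat_lit 22185861981) (nat_lit 76) (nat_lit 3677583727) (nat_lit 7) (nat_lit 4) (nat_lit 8) (nat_lit 5) (nat_lit 8) (nat_lit 4) (nat_lit 364) (nat_lit 229) (nat_lit 187)) (XT.nd (nat_lit 78) (nat_lit 304) (nat_lit 0) (XT.lf (nat_lit 0) (nat_lit 871016703) (nat_lit 304) (nat_lit 3919890569) (nat_lit 0) (nat_lit 871016703) (nat_lit 82) (nat_lit 5) (nat_lit 86) (nat_lit 4) (nat_lit 82) (nat_lit 4) (nat_lit 320) (nat_lit 230) (nat_lit 230)) (XT.lf (nat_lit 0) (nat_lit 2664757161) (nat_lit 304) (nat_lit 4934001229) (nat_lit 304) (nat_lit 3923829986) (nat_lit 78) (nat_lit 4) (nat_lit 82) (nat_lit 5) (nat_lit 82) (nat_lit 4) (nat_lit 321) (nat_lit 230) (nat_lit 229)))) (XT.nd (nat_lit 78) (nat_lit 380)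 (nat_lit 0) (XT.lf (nat_lit 0) (nat_lit 1663163746) (nat_lit 228) (nat_lit 145788613) (nat_lit 304) (nat_lit 9919568080) (nat_lit 74) (nat_lit 5) (nat_lit 77) (nat_lit 5) (nat_lit 78) (nat_lit 4) (nat_lit 322) (nat_lit 230) (nat_lit 228)) (XT.nd (nat_lit 78) (nat_lit 76) (nat_lit 0) (XT.lf (nat_lit 0) (nat_lit 419157432) (nat_lit 304) (nat_lit 7203588956) (nat_lit 304) (nat_lit 4318193562) (nat_lit 70) (nat_lit 4) (nat_lit 74) (nat_lit 5) (nat_lit 74) (nat_lit 4) (nat_lit 323) (nat_lit 230) (nat_lit 227)) (XT.lf (nat_lit 0) (nat_lit 1371215423) (nat_lit 380) (nat_lit 1021863559) (nat_lit 76) (nat_lit 9767755450) (nat_lit 69) (nat_lit 5) (nat_lit 74) (nat_lit 5) (nat_lit 70) (nat_lit 4) (nat_lit 324) (nat_lit 230) (nat_lit 226))))) (XT.nd (nat_lit 234) (nat_lit 836) (nat_lit 0) (XT.nd (nat_lit 78) (nat_lit 532) (nat_lit 0) (XT.lf (nat_lit 0) (nat_lit 7125825408) (nat_lit 304) (nat_lit 2716153025)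 (nat_lit 0) (nat_lit 2545782008) (nat_lit 66) (nat_lit 5) (nat_lit 70) (nat_lit 4) (nat_lit 66) (nat_lit 4) (nat_lit 325) (nat_lit 230) (nat_lit 225)) (XT.nd (nat_lit 78) (nat_lit 228) (nat_lit 0) (XT.lf (nat_lit 0) (nat_lit 375323354) (nat_lit 304) (nat_lit 4659435963) (nat_lit 76) (nat_lit 7587756731) (nat_lit 62) (nat_lit 5) (nat_lit 66) (nat_lit 5) (nat_lit 63) (nat_lit 4) (nat_lit 326) (nat_lit 230) (nat_lit 224)) (XT.lf (nat_lit 0) (nat_lit 5979257354) (nat_lit 228) (nat_lit 65295961) (nat_lit 304) (nat_lit 6820442546) (nat_lit 59) (nat_lit 5) (nat_lit 62) (nat_lit 5) (nat_lit 63) (nat_lit 4) (nat_lit 327) (nat_lit 230) (nat_lit 223)))) (XT.nd (nat_lit 156) (nat_lit 304) (nat_lit 0) (XT.nd (nat_lit 78) (nat_lit 304) (nat_lit 0) (XT.lf (nat_lit 0) (nat_lit 3703802688) (nat_lit 228) (nat_lit 8147112420) (nat_lit 228) (nat_lit 1264556017) (nat_lit 56) (nat_lit 4) (nat_lit 59) (nat_lit 5) (nat_lit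 59) (nat_lit 4) (nat_lit 328) (nat_lit 230) (nat_lit 222)) (XT.lf (nat_lit 0) (nat_lit 1120802927) (nat_lit 228) (nat_lit 3213258184) (nat_lit 304) (nat_lit 9040189382) (nat_lit 52) (nat_lit 5) (nat_lit 55) (nat_lit 5) (nat_lit 56) (nat_lit 4) (nat_lit 329) (nat_lit 230) (nat_lit 221))) (XT.nd (nat_lit 78) (nat_lit 304) (nat_lit 0) (XT.lf (nat_lit 0) (nat_lit 10041473679) (nat_lit 304) (nat_lit 1758142385) (nat_lit 0) (nat_lit 1841907099) (nat_lit 52) (nat_lit 5) (nat_lit 56) (nat_lit 4) (nat_lit 52) (nat_lit 4) (nat_lit 330) (nat_lit 230) (nat_lit 220)) (XT.lf (nat_lit 0) (nat_lit 1941419265) (nat_lit 304) (nat_lit 4972319417) (nat_lit 76) (nat_lit 7003581904) (nat_lit 48) (nat_lit 5) (nat_lit 52) (nat_lit 5) (nat_lit 49) (nat_lit 4) (nat_lit 331) (nat_lit 230) (nat_lit 219))))))) (XT.nd (nat_lit 1014) (nat_lit 912) (nat_lit 0) (XT.nd (nat_lit 468) (nat_lit 912) (nat_lit 0) (XT.nd (nat_lit 234)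 (nat_lit 456) (nat_lit 0) (XT.nd (nat_lit 78) (nat_lit 304) (nat_lit 0) (XT.lf (nat_lit 0) (nat_lit 5653674744) (nat_lit 152) (nat_lit 1881897045) (nat_lit 228) (nat_lit 6666690295) (nat_lit 46) (nat_lit 5) (nat_lit 48) (nat_lit 5) (nat_lit 49) (nat_lit 4) (nat_lit 332) (nat_lit 230) (nat_lit 218)) (XT.nd (nat_lit 78) (nat_lit 76) (nat_lit 0) (XT.lf (nat_lit 0) (nat_lit 1988643512) (nat_lit 228) (nat_lit 11265163175) (nat_lit 228) (nat_lit 1242871518) (nat_lit 43) (nat_lit 4) (nat_lit 46) (nat_lit 5) (nat_lit 46) (nat_lit 4) (nat_lit 333) (nat_lit 230) (nat_lit 217)) (XT.lf (nat_lit 0) (nat_lit 4246876949) (nat_lit 304) (nat_lit 2066632029) (nat_lit 76) (nat_lit 8486699185) (nat_lit 42) (nat_lit 5) (nat_lit 46) (nat_lit 5) (nat_lit 43) (nat_lit 4) (nat_lit 334) (nat_lit 230) (nat_lit 216)))) (XT.nd (nat_lit 78) (nat_lit 304) (nat_lit 0) (XT.lf (nat_lit 0) (nat_lit 8612363645) (nat_lit 152) (nat_lit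 1220592970) (nat_lit 228) (nat_lit 5280800231) (nat_lit 40) (nat_lit 5) (nat_lit 42) (nat_lit 5) (nat_lit 43) (nat_lit 4) (nat_lit 335) (nat_lit 230) (nat_lit 215)) (XT.nd (nat_lit 78) (nat_lit 0) (nat_lit 0) (XT.lf (nat_lit 0) (nat_lit 108192718) (nat_lit 304) (nat_lit 11386819291) (nat_lit 76) (nat_lit 3942520805) (nat_lit 36) (nat_lit 5) (nat_lit 40) (nat_lit 5) (nat_lit 37) (nat_lit 4) (nat_lit 336) (nat_lit 230) (nat_lit 214)) (XT.lf (nat_lit 0) (nat_lit 5535262398) (nat_lit 304) (nat_lit 983121248) (nat_lit 76) (nat_lit 9253021257) (nat_lit 36) (nat_lit 5) (nat_lit 40) (nat_lit 5) (nat_lit 37) (nat_lit 4) (nat_lit 337) (nat_lit 230) (nat_lit 213))))) (XT.nd (nat_lit 234) (nat_lit 532) (nat_lit 0) (XT.nd (nat_lit 78) (nat_lit 228) (nat_lit 0) (XT.lf (nat_lit 0) (nat_lit 9687324772) (nat_lit 152) (nat_lit 1399000834) (nat_lit 228) (nat_lit 5029786648) (nat_lit 34) (nat_lit 5) (nat_lit 36)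 (nat_lit 5) (nat_lit 37) (nat_lit 4) (nat_lit 338) (nat_lit 230) (nat_lit 212)) (XT.nd (nat_lit 78) (nat_lit 0) (nat_lit 0) (XT.lf (nat_lit 0) (nat_lit 286101544) (nat_lit 228) (nat_lit 12396533477) (nat_lit 76) (nat_lit 3789369149) (nat_lit 31) (nat_lit 5) (nat_lit 34) (nat_lit 5) (nat_lit 32) (nat_lit 4) (nat_lit 339) (nat_lit 230) (nat_lit 211)) (XT.lf (nat_lit 0) (nat_lit 5647557933) (nat_lit 228) (nat_lit 2067909577) (nat_lit 76) (nat_lit 9123391349) (nat_lit 31) (nat_lit 5) (nat_lit 34) (nat_lit 5) (nat_lit 32) (nat_lit 4) (nat_lit 340) (nat_lit 230) (nat_lit 210)))) (XT.nd (nat_lit 156) (nat_lit 228) (nat_lit 0) (XT.nd (nat_lit 78) (nat_lit 152) (nat_lit 0) (XT.lf (nat_lit 0) (nat_lit 8517443733) (nat_lit 152) (nat_lit 2611433009) (nat_lit 228) (nat_lit 6088700408) (nat_lit 29) (nat_lit 5) (nat_lit 31) (nat_lit 5) (nat_lit 32) (nat_lit 4) (nat_lit 341) (nat_lit 230) (nat_lit 209)) (XT.lf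 (nat_lit 0) (nat_lit 1682430021) (nat_lit 152) (nat_lit 15039442128) (nat_lit 152) (nat_lit 886877318) (nat_lit 27) (nat_lit 4) (nat_lit 29) (nat_lit 5) (nat_lit 29) (nat_lit 4) (nat_lit 342) (nat_lit 230) (nat_lit 208))) (XT.nd (nat_lit 78) (nat_lit 152) (nat_lit 0) (XT.lf (nat_lit 0) (nat_lit 4395269378) (nat_lit 228) (nat_lit 5724081469) (nat_lit 76) (nat_lit 7892102823) (nat_lit 26) (nat_lit 5) (nat_lit 29) (nat_lit 5) (nat_lit 27) (nat_lit 4) (nat_lit 343) (nat_lit 230) (nat_lit 207)) (XT.lf (nat_lit 0) (nat_lit 4682146665) (nat_lit 152) (nat_lit 5080985724) (nat_lit 228) (nat_lit 8664237737) (nat_lit 24) (nat_lit 5) (nat_lit 26) (nat_lit 5) (nat_lit 27) (nat_lit 4) (nat_lit 344) (nat_lit 230) (nat_lit 206)))))) (XT.nd (nat_lit 468) (nat_lit 380) (nat_lit 0) (XT.nd (nat_lit 234) (nat_lit 304) (nat_lit 0) (XT.nd (nat_lit 78) (nat_lit 228) (nat_lit 0) (XT.lf (nat_lit 0) (nat_lit 15241837694)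 (nat_lit 228) (nat_lit 3533431810) (nat_lit 0) (nat_lit 81531837) (nat_lit 24) (nat_lit 5) (nat_lit 27) (nat_lit 4) (nat_lit 24) (nat_lit 4) (nat_lit 345) (nat_lit 230) (nat_lit 205)) (XT.nd (nat_lit 78) (nat_lit 0) (nat_lit 0) (XT.lf (nat_lit 0) (nat_lit 1556286481) (nat_lit 228) (nat_lit 12420310963) (nat_lit 76) (nat_lit 5322517999) (nat_lit 21) (nat_lit 5) (nat_lit 24) (nat_lit 5) (nat_lit 22) (nat_lit 4) (nat_lit 346) (nat_lit 230) (nat_lit 204)) (XT.lf (nat_lit 0) (nat_lit 6771594114) (nat_lit 228) (nat_lit 2277334982) (nat_lit 76) (nat_lit 10706562169) (nat_lit 21) (nat_lit 5) (nat_lit 24) (nat_lit 5) (nat_lit 22) (nat_lit 4) (nat_lit 347) (nat_lit 230) (nat_lit 203)))) (XT.nd (nat_lit 78) (nat_lit 228) (nat_lit 0) (XT.lf (nat_lit 0) (nat_lit 8130391444) (nat_lit 76) (nat_lit 3981923450) (nat_lit 152) (nat_lit 8113894350) (nat_lit 20) (nat_lit 5) (nat_lit 21) (nat_lit 5) (nat_lit 22) (nat_lit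 4) (nat_lit 348) (nat_lit 230) (nat_lit 202)) (XT.nd (nat_lit 78) (nat_lit 228) (nat_lit 0) (XT.lf (nat_lit 0) (nat_lit 17554098493) (nat_lit 152) (nat_lit 1982427580) (nat_lit 0) (nat_lit 1175734954) (nat_lit 20) (nat_lit 5) (nat_lit 22) (nat_lit 4) (nat_lit 20) (nat_lit 4) (nat_lit 349) (nat_lit 230) (nat_lit 201)) (XT.lf (nat_lit 0) (nat_lit 1921393489) (nat_lit 228) (nat_lit 12848801237) (nat_lit 76) (nat_lit 6442461047) (nat_lit 17) (nat_lit 5) (nat_lit 20) (nat_lit 5) (nat_lit 18) (nat_lit 4) (nat_lit 350) (nat_lit 230) (nat_lit 200))))) (XT.nd (nat_lit 234) (nat_lit 304) (nat_lit 0) (XT.nd (nat_lit 78) (nat_lit 76) (nat_lit 0) (XT.lf (nat_lit 0) (nat_lit 7044770959) (nat_lit 228) (nat_lit 2840988986) (nat_lit 76) (nat_lit 11843224950) (nat_lit 17) (nat_lit 5) (nat_lit 20) (nat_lit 5) (nat_lit 18) (nat_lit 4) (nat_lit 351) (nat_lit 230) (nat_lit 199)) (XT.nd (nat_lit 78) (nat_lit 0) (nat_lit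 0) (XT.lf (nat_lit 0) (nat_lit 7428909308) (nat_lit 76) (nat_lit 4864061921) (nat_lit 152) (nat_lit 9968436330) (nat_lit 16) (nat_lit 5) (nat_lit 17) (nat_lit 5) (nat_lit 18) (nat_lit 4) (nat_lit 352) (nat_lit 230) (nat_lit 198)) (XT.lf (nat_lit 0) (nat_lit 17643891810) (nat_lit 152) (nat_lit 4900300381) (nat_lit 0) (nat_lit 266730563) (nat_lit 16) (nat_lit 5) (nat_lit 18) (nat_lit 4) (nat_lit 16) (nat_lit 4) (nat_lit 353) (nat_lit 230) (nat_lit 197)))) (XT.nd (nat_lit 156) (nat_lit 76) (nat_lit 0) (XT.nd (nat_lit 78) (nat_lit 76) (nat_lit 0) (XT.lf (nat_lit 0) (nat_lit 5235371062) (nat_lit 152) (nat_lit 17912599035) (nat_lit 152) (nat_lit 229125306) (nat_lit 14) (nat_lit 4) (nat_lit 16) (nat_lit 5) (nat_lit 16) (nat_lit 4) (nat_lit 354) (nat_lit 230) (nat_lit 196)) (XT.lf (nat_lit 0) (nat_lit 4753568085) (nat_lit 228) (nat_lit 8378656958) (nat_lit 76) (nat_lit 10828213918) (nat_lit 13) (nat_lit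 5) (nat_lit 16) (nat_lit 5) (nat_lit 14) (nat_lit 4) (nat_lit 355) (nat_lit 230) (nat_lit 195))) (XT.nd (nat_lit 78) (nat_lit 0) (nat_lit 0) (XT.lf (nat_lit 0) (nat_lit 1570638966) (nat_lit 76) (nat_lit 8251258236) (nat_lit 152) (nat_lit 14740592707) (nat_lit 12) (nat_lit 5) (nat_lit 13) (nat_lit 5) (nat_lit 14) (nat_lit 4) (nat_lit 356) (nat_lit 230) (nat_lit 194)) (XT.lf (nat_lit 0) (nat_lit 11809411545) (nat_lit 76) (nat_lit 3219956892) (nat_lit 152) (nat_lit 10153514177) (nat_lit 12) (nat_lit 5) (nat_lit 13) (nat_lit 5) (nat_lit 14) (nat_lit 4) (nat_lit 357) (nat_lit 230) (nat_lit 193))))))))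
noncomputable def xc10 : XT := (XT.nd (nat_lit 39000) (nat_lit 0) (nat_lit 0) (XT.nd (nat_lit 37986) (nat_lit 0) (nat_lit 2204) (XT.nd (nat_lit 468) (nat_lit 0) (nat_lit 0) (XT.nd (nat_lit 234) (nat_lit 76) (nat_lit 0) (XT.nd (nat_lit 78) (nat_lit 228) (nat_lit 0) (XT.lf (nat_lit 0) (nat_lit 20337809275) (nat_lit 152) (nat_lit 3600402294) (nat_lit 0) (nat_lit 1884802047) (nat_lit 12) (nat_lit 5) (nat_lit 14) (nat_lit 4) (nat_lit 12) (nat_lit 4) (nat_lit 358) (nat_lit 230) (nat_lit 192)) (XT.nd (nat_lit 78) (nat_lit 76) (nat_lit 0) (XT.lf (nat_lit 0) (nat_lit 6410809965) (nat_lit 152) (nat_lit 19391835338) (nat_lit 152) (nat_lit 679781210) (nat_lit 10) (nat_lit 4) (nat_lit 12) (nat_lit 5) (nat_lit 12) (nat_lit 4) (nat_lit 359) (nat_lit 230) (nat_lit 191)) (XT.lf (nat_lit 0) (nat_lit 4173072138) (nat_lit 228) (nat_lit 10533950254) (nat_lit 76) (nat_lit 12454879423) (nat_lit 9) (nat_lit 5) (nat_lit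 12) (nat_lit 5) (nat_lit 10) (nat_lit 4) (nat_lit 360) (nat_lit 230) (nat_lit 190)))) (XT.nd (nat_lit 78) (nat_lit 76) (nat_lit 0) (XT.lf (nat_lit 0) (nat_lit 9098937628) (nat_lit 228) (nat_lit 827878512) (nat_lit 76) (nat_lit 17936141351) (nat_lit 9) (nat_lit 5) (nat_lit 12) (nat_lit 5) (nat_lit 10) (nat_lit 4) (nat_lit 361) (nat_lit 230) (nat_lit 189)) (XT.nd (nat_lit 78) (nat_lit 0) (nat_lit 0) (XT.lf (nat_lit 0) (nat_lit 9179889199) (nat_lit 76) (nat_lit 4990747598) (nat_lit 152) (nat_lit 14414465551) (nat_lit 8) (nat_lit 5) (nat_lit 9) (nat_lit 5) (nat_lit 10) (nat_lit 4) (nat_lit 362) (nat_lit 230) (nat_lit 188)) (XT.lf (nat_lit 0) (nat_lit 19339977629) (nat_lit 152) (nat_lit 9939238081) (nat_lit 0) (nat_lit 50804149) (nat_lit 8) (nat_lit 5) (nat_lit 10) (nat_lit 4) (nat_lit 8) (nat_lit 4) (nat_lit 363) (nat_lit 230) (nat_lit 187))))) (XT.nd (nat_lit 37206) (nat_lit 0) (nat_lit 5016) (XT.nd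 (nat_lit 37050) (nat_lit 0) (nat_lit 5928) (XT.lf (nat_lit 0) (nat_lit 24638780951) (nat_lit 152) (nat_lit 328501060) (nat_lit 0) (nat_lit 5130532832) (nat_lit 8) (nat_lit 5) (nat_lit 10) (nat_lit 4) (nat_lit 8) (nat_lit 4) (nat_lit 364) (nat_lit 230) (nat_lit 186)) (XT.nd (nat_lit 78) (nat_lit 304) (nat_lit 0) (XT.lf (nat_lit 0) (nat_lit 1162924849) (nat_lit 380) (nat_lit 3146282689) (nat_lit 0) (nat_lit 1162924849) (nat_lit 90) (nat_lit 5) (nat_lit 95) (nat_lit 4) (nat_lit 90) (nat_lit 4) (nat_lit 318) (nat_lit 231) (nat_lit 231)) (XT.lf (nat_lit 0) (nat_lit 4100004096) (nat_lit 304) (nat_lit 4046357426) (nat_lit 304) (nat_lit 2985071519) (nat_lit 86) (nat_lit 4) (nat_lit 90) (nat_lit 5) (nat_lit 90) (nat_lit 4) (nat_lit 319) (nat_lit 231) (nat_lit 230)))) (XT.nd (nat_lit 156) (nat_lit 304) (nat_lit 0) (XT.nd (nat_lit 78) (nat_lit 304) (nat_lit 0) (XT.lf (nat_lit 0) (nat_lit 2715572150) (nat_lit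 304) (nat_lit 7944729991) (nat_lit 0) (nat_lit 664924528) (nat_lit 82) (nat_lit 5) (nat_lit 86) (nat_lit 4) (nat_lit 82) (nat_lit 4) (nat_lit 320) (nat_lit 231) (nat_lit 229)) (XT.lf (nat_lit 0) (nat_lit 2455167412) (nat_lit 304) (nat_lit 6050780928) (nat_lit 304) (nat_lit 3019384527) (nat_lit 78) (nat_lit 4) (nat_lit 82) (nat_lit 5) (nat_lit 82) (nat_lit 4) (nat_lit 321) (nat_lit 231) (nat_lit 228))) (XT.nd (nat_lit 78) (nat_lit 0) (nat_lit 0) (XT.lf (nat_lit 0) (nat_lit 1339584247) (nat_lit 228) (nat_lit 1295645420) (nat_lit 304) (nat_lit 9097280872) (nat_lit 74) (nat_lit 5) (nat_lit 77) (nat_lit 5) (nat_lit 78) (nat_lit 4) (nat_lit 322) (nat_lit 231) (nat_lit 227)) (XT.lf (nat_lit 0) (nat_lit 8375618402) (nat_lit 304) (nat_lit 6990802) (nat_lit 0) (nat_lit 3563824806) (nat_lit 74) (nat_lit 5) (nat_lit 78) (nat_lit 4) (nat_lit 74) (nat_lit 4) (nat_lit 323) (nat_lit 231) (nat_lit 226)))))) (XT.nd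 (nat_lit 468) (nat_lit 1140) (nat_lit 0) (XT.nd (nat_lit 234) (nat_lit 760) (nat_lit 0) (XT.nd (nat_lit 78) (nat_lit 532) (nat_lit 0) (XT.lf (nat_lit 0) (nat_lit 2046280876) (nat_lit 380) (nat_lit 1558231779) (nat_lit 76) (nat_lit 8563003124) (nat_lit 69) (nat_lit 5) (nat_lit 74) (nat_lit 5) (nat_lit 70) (nat_lit 4) (nat_lit 324) (nat_lit 231) (nat_lit 225)) (XT.nd (nat_lit 78) (nat_lit 304) (nat_lit 0) (XT.lf (nat_lit 0) (nat_lit 7727951691) (nat_lit 304) (nat_lit 3357692877) (nat_lit 0) (nat_lit 1310289138) (nat_lit 66) (nat_lit 5) (nat_lit 70) (nat_lit 4) (nat_lit 66) (nat_lit 4) (nat_lit 325) (nat_lit 231) (nat_lit 224)) (XT.lf (nat_lit 0) (nat_lit 896443223) (nat_lit 304) (nat_lit 5419998446) (nat_lit 76) (nat_lit 6315502923) (nat_lit 62) (nat_lit 5) (nat_lit 66) (nat_lit 5) (nat_lit 63) (nat_lit 4) (nat_lit 326) (nat_lit 231) (nat_lit 223)))) (XT.nd (nat_lit 78) (nat_lit 532) (nat_lit 0)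 (XT.lf (nat_lit 0) (nat_lit 5111773155) (nat_lit 228) (nat_lit 1389243725) (nat_lit 304) (nat_lit 6374731268) (nat_lit 59) (nat_lit 5) (nat_lit 62) (nat_lit 5) (nat_lit 63) (nat_lit 4) (nat_lit 327) (nat_lit 231) (nat_lit 222)) (XT.nd (nat_lit 78) (nat_lit 304) (nat_lit 0) (XT.lf (nat_lit 0) (nat_lit 2726395082) (nat_lit 228) (nat_lit 9507892268) (nat_lit 228) (nat_lit 893427618) (nat_lit 56) (nat_lit 4) (nat_lit 59) (nat_lit 5) (nat_lit 59) (nat_lit 4) (nat_lit 328) (nat_lit 231) (nat_lit 221)) (XT.lf (nat_lit 0) (nat_lit 20106242) (nat_lit 228) (nat_lit 4615600829) (nat_lit 304) (nat_lit 8752059668) (nat_lit 52) (nat_lit 5) (nat_lit 55) (nat_lit 5) (nat_lit 56) (nat_lit 4) (nat_lit 329) (nat_lit 231) (nat_lit 220))))) (XT.nd (nat_lit 234) (nat_lit 684) (nat_lit 0) (XT.nd (nat_lit 78) (nat_lit 456) (nat_lit 0) (XT.lf (nat_lit 0) (nat_lit 10277382766) (nat_lit 304) (nat_lit 2956841766) (nat_lit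 0) (nat_lit 422157086) (nat_lit 52) (nat_lit 5) (nat_lit 56) (nat_lit 4) (nat_lit 52) (nat_lit 4) (nat_lit 330) (nat_lit 231) (nat_lit 219)) (XT.nd (nat_lit 78) (nat_lit 152) (nat_lit 0) (XT.lf (nat_lit 0) (nat_lit 2095657708) (nat_lit 304) (nat_lit 6296191044) (nat_lit 76) (nat_lit 5541605996) (nat_lit 48) (nat_lit 5) (nat_lit 52) (nat_lit 5) (nat_lit 49) (nat_lit 4) (nat_lit 331) (nat_lit 231) (nat_lit 218)) (XT.lf (nat_lit 0) (nat_lit 4220872827) (nat_lit 152) (nat_lit 3405290371) (nat_lit 228) (nat_lit 6593531374) (nat_lit 46) (nat_lit 5) (nat_lit 48) (nat_lit 5) (nat_lit 49) (nat_lit 4) (nat_lit 332) (nat_lit 231) (nat_lit 217)))) (XT.nd (nat_lit 156) (nat_lit 380) (nat_lit 0) (XT.nd (nat_lit 78) (nat_lit 76) (nat_lit 0) (XT.lf (nat_lit 0) (nat_lit 438430273) (nat_lit 228) (nat_lit 12832445250) (nat_lit 228) (nat_lit 1244730269) (nat_lit 43) (nat_lit 4) (nat_lit 46) (nat_lit 5) (nat_lit 46)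 (nat_lit 4) (nat_lit 333) (nat_lit 231) (nat_lit 216)) (XT.lf (nat_lit 0) (nat_lit 4192092362) (nat_lit 304) (nat_lit 3724573661) (nat_lit 76) (nat_lit 6903552433) (nat_lit 42) (nat_lit 5) (nat_lit 46) (nat_lit 5) (nat_lit 43) (nat_lit 4) (nat_lit 334) (nat_lit 231) (nat_lit 215))) (XT.nd (nat_lit 78) (nat_lit 228) (nat_lit 0) (XT.lf (nat_lit 0) (nat_lit 6845016850) (nat_lit 152) (nat_lit 2870272416) (nat_lit 228) (nat_lit 5419758306) (nat_lit 40) (nat_lit 5) (nat_lit 42) (nat_lit 5) (nat_lit 43) (nat_lit 4) (nat_lit 335) (nat_lit 231) (nat_lit 214)) (XT.lf (nat_lit 0) (nat_lit 2163111695) (nat_lit 228) (nat_lit 13192742925) (nat_lit 228) (nat_lit 104478382) (nat_lit 37) (nat_lit 4) (nat_lit 40) (nat_lit 5) (nat_lit 40) (nat_lit 4) (nat_lit 336) (nat_lit 231) (nat_lit 213))))))) (XT.nd (nat_lit 1014) (nat_lit 912) (nat_lit 0) (XT.nd (nat_lit 468) (nat_lit 684) (nat_lit 0) (XT.nd (nat_lit 234)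 (nat_lit 228) (nat_lit 0) (XT.nd (nat_lit 78) (nat_lit 304) (nat_lit 0) (XT.lf (nat_lit 0) (nat_lit 5273855589) (nat_lit 304) (nat_lit 2977777911) (nat_lit 76) (nat_lit 7543608325) (nat_lit 36) (nat_lit 5) (nat_lit 40) (nat_lit 5) (nat_lit 37) (nat_lit 4) (nat_lit 337) (nat_lit 231) (nat_lit 212)) (XT.nd (nat_lit 78) (nat_lit 152) (nat_lit 0) (XT.lf (nat_lit 0) (nat_lit 7582605119) (nat_lit 152) (nat_lit 3180001879) (nat_lit 228) (nat_lit 5378608850) (nat_lit 34) (nat_lit 5) (nat_lit 36) (nat_lit 5) (nat_lit 37) (nat_lit 4) (nat_lit 338) (nat_lit 231) (nat_lit 211)) (XT.lf (nat_lit 0) (nat_lit 1848012332) (nat_lit 152) (nat_lit 14516203522) (nat_lit 152) (nat_lit 134429616) (nat_lit 32) (nat_lit 4) (nat_lit 34) (nat_lit 5) (nat_lit 34) (nat_lit 4) (nat_lit 339) (nat_lit 231) (nat_lit 210)))) (XT.nd (nat_lit 78) (nat_lit 152) (nat_lit 0) (XT.lf (nat_lit 0) (nat_lit 5181360202) (nat_lit 228) (nat_lit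 4402336980) (nat_lit 76) (nat_lit 7282787910) (nat_lit 31) (nat_lit 5) (nat_lit 34) (nat_lit 5) (nat_lit 32) (nat_lit 4) (nat_lit 340) (nat_lit 231) (nat_lit 209)) (XT.nd (nat_lit 78) (nat_lit 0) (nat_lit 0) (XT.lf (nat_lit 0) (nat_lit 6072109852) (nat_lit 152) (nat_lit 4528644237) (nat_lit 228) (nat_lit 6645706126) (nat_lit 29) (nat_lit 5) (nat_lit 31) (nat_lit 5) (nat_lit 32) (nat_lit 4) (nat_lit 341) (nat_lit 231) (nat_lit 208)) (XT.lf (nat_lit 0) (nat_lit 16124957696) (nat_lit 228) (nat_lit 879672963) (nat_lit 0) (nat_lit 634395511) (nat_lit 29) (nat_lit 5) (nat_lit 32) (nat_lit 4) (nat_lit 29) (nat_lit 4) (nat_lit 342) (nat_lit 231) (nat_lit 207))))) (XT.nd (nat_lit 234) (nat_lit 304) (nat_lit 0) (XT.nd (nat_lit 78) (nat_lit 152) (nat_lit 0) (XT.lf (nat_lit 0) (nat_lit 3725568354) (nat_lit 228) (nat_lit 8401769257) (nat_lit 76) (nat_lit 5915505859) (nat_lit 26) (nat_lit 5) (nat_lit 29) (nat_lit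 5) (nat_lit 27) (nat_lit 4) (nat_lit 343) (nat_lit 231) (nat_lit 206)) (XT.nd (nat_lit 78) (nat_lit 0) (nat_lit 0) (XT.lf (nat_lit 0) (nat_lit 1892520553) (nat_lit 152) (nat_lit 7139196822) (nat_lit 228) (nat_lit 9428293282) (nat_lit 24) (nat_lit 5) (nat_lit 26) (nat_lit 5) (nat_lit 27) (nat_lit 4) (nat_lit 344) (nat_lit 231) (nat_lit 205)) (XT.lf (nat_lit 0) (nat_lit 12460161160) (nat_lit 152) (nat_lit 2006911899) (nat_lit 228) (nat_lit 4423251775) (nat_lit 24) (nat_lit 5) (nat_lit 26) (nat_lit 5) (nat_lit 27) (nat_lit 4) (nat_lit 345) (nat_lit 231) (nat_lit 204)))) (XT.nd (nat_lit 156) (nat_lit 76) (nat_lit 0) (XT.nd (nat_lit 78) (nat_lit 0) (nat_lit 0) (XT.lf (nat_lit 0) (nat_lit 683848890) (nat_lit 228) (nat_lit 15445204424) (nat_lit 76) (nat_lit 3205200789) (nat_lit 21) (nat_lit 5) (nat_lit 24) (nat_lit 5) (nat_lit 22) (nat_lit 4) (nat_lit 346) (nat_lit 231) (nat_lit 203)) (XT.lf (nat_lit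 0) (nat_lit 5857858998) (nat_lit 228) (nat_lit 5374233556) (nat_lit 76) (nat_lit 8559378081) (nat_lit 21) (nat_lit 5) (nat_lit 24) (nat_lit 5) (nat_lit 22) (nat_lit 4) (nat_lit 347) (nat_lit 231) (nat_lit 202))) (XT.nd (nat_lit 78) (nat_lit 0) (nat_lit 0) (XT.lf (nat_lit 0) (nat_lit 4921499804) (nat_lit 76) (nat_lit 6216151039) (nat_lit 152) (nat_lit 9125770679) (nat_lit 20) (nat_lit 5) (nat_lit 21) (nat_lit 5) (nat_lit 22) (nat_lit 4) (nat_lit 348) (nat_lit 231) (nat_lit 201)) (XT.lf (nat_lit 0) (nat_lit 15460057903) (nat_lit 76) (nat_lit 1072268036) (nat_lit 152) (nat_lit 4218103445) (nat_lit 20) (nat_lit 5) (nat_lit 21) (nat_lit 5) (nat_lit 22) (nat_lit 4) (nat_lit 349) (nat_lit 231) (nat_lit 200)))))) (XT.nd (nat_lit 468) (nat_lit 380) (nat_lit 0) (XT.nd (nat_lit 234) (nat_lit 228) (nat_lit 0) (XT.nd (nat_lit 78) (nat_lit 76) (nat_lit 0) (XT.lf (nat_lit 0) (nat_lit 807359347) (nat_lit 228)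 (nat_lit 16294113471) (nat_lit 76) (nat_lit 4150862082) (nat_lit 17) (nat_lit 5) (nat_lit 20) (nat_lit 5) (nat_lit 18) (nat_lit 4) (nat_lit 350) (nat_lit 231) (nat_lit 199)) (XT.nd (nat_lit 78) (nat_lit 76) (nat_lit 0) (XT.lf (nat_lit 0) (nat_lit 5892750645) (nat_lit 228) (nat_lit 6353089301) (nat_lit 76) (nat_lit 9523596656) (nat_lit 17) (nat_lit 5) (nat_lit 20) (nat_lit 5) (nat_lit 18) (nat_lit 4) (nat_lit 351) (nat_lit 231) (nat_lit 198)) (XT.lf (nat_lit 0) (nat_lit 3804430505) (nat_lit 76) (nat_lit 7276108111) (nat_lit 152) (nat_lit 11222541377) (nat_lit 16) (nat_lit 5) (nat_lit 17) (nat_lit 5) (nat_lit 18) (nat_lit 4) (nat_lit 352) (nat_lit 231) (nat_lit 197)))) (XT.nd (nat_lit 78) (nat_lit 228) (nat_lit 0) (XT.lf (nat_lit 0) (nat_lit 14224142673) (nat_lit 76) (nat_lit 2169341933) (nat_lit 152) (nat_lit 6459882192) (nat_lit 16) (nat_lit 5) (nat_lit 17) (nat_lit 5) (nat_lit 18) (nat_lit 4)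 (nat_lit 353) (nat_lit 231) (nat_lit 196)) (XT.nd (nat_lit 78) (nat_lit 76) (nat_lit 0) (XT.lf (nat_lit 0) (nat_lit 1407859541) (nat_lit 152) (nat_lit 20415429170) (nat_lit 152) (nat_lit 1597747985) (nat_lit 14) (nat_lit 4) (nat_lit 16) (nat_lit 5) (nat_lit 16) (nat_lit 4) (nat_lit 354) (nat_lit 231) (nat_lit 195)) (XT.lf (nat_lit 0) (nat_lit 3367945614) (nat_lit 228) (nat_lit 12303159938) (nat_lit 76) (nat_lit 8334162610) (nat_lit 13) (nat_lit 5) (nat_lit 16) (nat_lit 5) (nat_lit 14) (nat_lit 4) (nat_lit 355) (nat_lit 231) (nat_lit 194))))) (XT.nd (nat_lit 234) (nat_lit 304) (nat_lit 0) (XT.nd (nat_lit 78) (nat_lit 76) (nat_lit 0) (XT.lf (nat_lit 0) (nat_lit 8392145525) (nat_lit 228) (nat_lit 2434595432) (nat_lit 76) (nat_lit 13781471611) (nat_lit 13) (nat_lit 5) (nat_lit 16) (nat_lit 5) (nat_lit 14) (nat_lit 4) (nat_lit 356) (nat_lit 231) (nat_lit 193)) (XT.nd (nat_lit 78) (nat_lit 0) (nat_lit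 0) (XT.lf (nat_lit 0) (nat_lit 7712666021) (nat_lit 76) (nat_lit 5837606299) (nat_lit 152) (nat_lit 11679330395) (nat_lit 12) (nat_lit 5) (nat_lit 13) (nat_lit 5) (nat_lit 14) (nat_lit 4) (nat_lit 357) (nat_lit 231) (nat_lit 192)) (XT.lf (nat_lit 0) (nat_lit 18081080188) (nat_lit 76) (nat_lit 732876294) (nat_lit 152) (nat_lit 7056682618) (nat_lit 12) (nat_lit 5) (nat_lit 13) (nat_lit 5) (nat_lit 14) (nat_lit 4) (nat_lit 358) (nat_lit 231) (nat_lit 191)))) (XT.nd (nat_lit 156) (nat_lit 76) (nat_lit 0) (XT.nd (nat_lit 78) (nat_lit 76) (nat_lit 0) (XT.lf (nat_lit 0) (nat_lit 2113814842) (nat_lit 152) (nat_lit 22100748097) (nat_lit 152) (nat_lit 2316783598) (nat_lit 10) (nat_lit 4) (nat_lit 12) (nat_lit 5) (nat_lit 12) (nat_lit 4) (nat_lit 359) (nat_lit 231) (nat_lit 190)) (XT.lf (nat_lit 0) (nat_lit 2526312462) (nat_lit 228) (nat_lit 14924989873) (nat_lit 76) (nat_lit 9760366082) (nat_lit 9) (nat_lit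 5) (nat_lit 12) (nat_lit 5) (nat_lit 10) (nat_lit 4) (nat_lit 360) (nat_lit 231) (nat_lit 189))) (XT.nd (nat_lit 78) (nat_lit 76) (nat_lit 0) (XT.lf (nat_lit 0) (nat_lit 7421860605) (nat_lit 228) (nat_lit 5273047234) (nat_lit 76) (nat_lit 15218431795) (nat_lit 9) (nat_lit 5) (nat_lit 12) (nat_lit 5) (nat_lit 10) (nat_lit 4) (nat_lit 361) (nat_lit 231) (nat_lit 188)) (XT.lf (nat_lit 0) (nat_lit 4622395602) (nat_lit 76) (nat_lit 7812139584) (nat_lit 152) (nat_lit 16202138725) (nat_lit 8) (nat_lit 5) (nat_lit 9) (nat_lit 5) (nat_lit 10) (nat_lit 4) (nat_lit 362) (nat_lit 231) (nat_lit 187))))))))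
noncomputable def xc11 : XT := (XT.nd (nat_lit 38922) (nat_lit 0) (nat_lit 0) (XT.nd (nat_lit 37908) (nat_lit 0) (nat_lit 1748) (XT.nd (nat_lit 37362) (nat_lit 0) (nat_lit 3876) (XT.nd (nat_lit 37128) (nat_lit 0) (nat_lit 5624) (XT.nd (nat_lit 36972) (nat_lit 0) (nat_lit 6612) (XT.lf (nat_lit 0) (nat_lit 14781929178) (nat_lit 76) (nat_lit 2792699923) (nat_lit 152) (nat_lit 11807555925) (nat_lit 8) (nat_lit 5) (nat_lit 9) (nat_lit 5) (nat_lit 10) (nat_lit 4) (nat_lit 363) (nat_lit 231) (nat_lit 186)) (XT.nd (nat_lit 78) (nat_lit 304) (nat_lit 0) (XT.lf (nat_lit 0) (nat_lit 1340366164) (nat_lit 380) (nat_lit 2612760494) (nat_lit 0) (nat_lit 1340366164) (nat_lit 99) (nat_lit 5) (nat_lit 104) (nat_lit 4) (nat_lit 99) (nat_lit 4) (nat_lit 316) (nat_lit 232) (nat_lit 232)) (XT.lf (nat_lit 0) (nat_lit 5032297372) (nat_lit 304) (nat_lit 3422967360) (nat_lit 304) (nat_lit 2307980386) (nat_lit 95) (nat_lit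 4) (nat_lit 99) (nat_lit 5) (nat_lit 99) (nat_lit 4) (nat_lit 317) (nat_lit 232) (nat_lit 231)))) (XT.nd (nat_lit 78) (nat_lit 608) (nat_lit 0) (XT.lf (nat_lit 0) (nat_lit 3352138489) (nat_lit 380) (nat_lit 6395776890) (nat_lit 0) (nat_lit 1197728097) (nat_lit 90) (nat_lit 5) (nat_lit 95) (nat_lit 4) (nat_lit 90) (nat_lit 4) (nat_lit 318) (nat_lit 232) (nat_lit 230)) (XT.nd (nat_lit 78) (nat_lit 304) (nat_lit 0) (XT.lf (nat_lit 0) (nat_lit 3893883931) (nat_lit 304) (nat_lit 5212539087) (nat_lit 304) (nat_lit 2027754029) (nat_lit 86) (nat_lit 4) (nat_lit 90) (nat_lit 5) (nat_lit 90) (nat_lit 4) (nat_lit 319) (nat_lit 232) (nat_lit 229)) (XT.lf (nat_lit 0) (nat_lit 3066228469) (nat_lit 228) (nat_lit 523562264) (nat_lit 304) (nat_lit 7739505300) (nat_lit 82) (nat_lit 5) (nat_lit 85) (nat_lit 5) (nat_lit 86) (nat_lit 4) (nat_lit 320) (nat_lit 232) (nat_lit 228))))) (XT.nd (nat_lit 234) (nat_lit 1140)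 (nat_lit 0) (XT.nd (nat_lit 78) (nat_lit 304) (nat_lit 0) (XT.lf (nat_lit 0) (nat_lit 2035804775) (nat_lit 304) (nat_lit 7275144911) (nat_lit 304) (nat_lit 2219874559) (nat_lit 78) (nat_lit 4) (nat_lit 82) (nat_lit 5) (nat_lit 82) (nat_lit 4) (nat_lit 321) (nat_lit 232) (nat_lit 227)) (XT.nd (nat_lit 78) (nat_lit 0) (nat_lit 0) (XT.lf (nat_lit 0) (nat_lit 804335716) (nat_lit 228) (nat_lit 2554107776) (nat_lit 304) (nat_lit 8380806670) (nat_lit 74) (nat_lit 5) (nat_lit 77) (nat_lit 5) (nat_lit 78) (nat_lit 4) (nat_lit 322) (nat_lit 232) (nat_lit 226)) (XT.lf (nat_lit 0) (nat_lit 9029284550) (nat_lit 304) (nat_lit 638426575) (nat_lit 0) (nat_lit 2286888271) (nat_lit 74) (nat_lit 5) (nat_lit 78) (nat_lit 4) (nat_lit 74) (nat_lit 4) (nat_lit 323) (nat_lit 232) (nat_lit 225)))) (XT.nd (nat_lit 156) (nat_lit 532) (nat_lit 0) (XT.nd (nat_lit 78) (nat_lit 228) (nat_lit 0) (XT.lf (nat_lit 0) (nat_lit 2618489223)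 (nat_lit 380) (nat_lit 2307344702) (nat_lit 76) (nat_lit 7251093086) (nat_lit 69) (nat_lit 5) (nat_lit 74) (nat_lit 5) (nat_lit 70) (nat_lit 4) (nat_lit 324) (nat_lit 232) (nat_lit 224)) (XT.lf (nat_lit 0) (nat_lit 8192663260) (nat_lit 228) (nat_lit 34450809) (nat_lit 304) (nat_lit 4179723956) (nat_lit 66) (nat_lit 5) (nat_lit 69) (nat_lit 5) (nat_lit 70) (nat_lit 4) (nat_lit 325) (nat_lit 232) (nat_lit 223))) (XT.nd (nat_lit 78) (nat_lit 228) (nat_lit 0) (XT.lf (nat_lit 0) (nat_lit 1313377926) (nat_lit 304) (nat_lit 6397333149) (nat_lit 76) (nat_lit 4933403448) (nat_lit 62) (nat_lit 5) (nat_lit 66) (nat_lit 5) (nat_lit 63) (nat_lit 4) (nat_lit 326) (nat_lit 232) (nat_lit 222)) (XT.lf (nat_lit 0) (nat_lit 4027455779) (nat_lit 228) (nat_lit 2826150823) (nat_lit 304) (nat_lit 6035628105) (nat_lit 59) (nat_lit 5) (nat_lit 62) (nat_lit 5) (nat_lit 63) (nat_lit 4) (nat_lit 327) (nat_lit 232) (nat_lit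 221)))))) (XT.nd (nat_lit 468) (nat_lit 1140) (nat_lit 0) (XT.nd (nat_lit 234) (nat_lit 456) (nat_lit 0) (XT.nd (nat_lit 78) (nat_lit 304) (nat_lit 0) (XT.lf (nat_lit 0) (nat_lit 1530047480) (nat_lit 228) (nat_lit 10983277029) (nat_lit 228) (nat_lit 629376930) (nat_lit 56) (nat_lit 4) (nat_lit 59) (nat_lit 5) (nat_lit 59) (nat_lit 4) (nat_lit 328) (nat_lit 232) (nat_lit 220)) (XT.nd (nat_lit 78) (nat_lit 228) (nat_lit 0) (XT.lf (nat_lit 0) (nat_lit 4840369415) (nat_lit 304) (nat_lit 1284662027) (nat_lit 76) (nat_lit 7278833457) (nat_lit 55) (nat_lit 5) (nat_lit 59) (nat_lit 5) (nat_lit 56) (nat_lit 4) (nat_lit 329) (nat_lit 232) (nat_lit 219)) (XT.lf (nat_lit 0) (nat_lit 9290559656) (nat_lit 228) (nat_lit 1125502580) (nat_lit 304) (nat_lit 3257763871) (nat_lit 52) (nat_lit 5) (nat_lit 55) (nat_lit 5) (nat_lit 56) (nat_lit 4) (nat_lit 330) (nat_lit 232) (nat_lit 218)))) (XT.nd (nat_lit 78) (nat_lit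 152) (nat_lit 0) (XT.lf (nat_lit 0) (nat_lit 2144204307) (nat_lit 304) (nat_lit 7842760657) (nat_lit 76) (nat_lit 3965365885) (nat_lit 48) (nat_lit 5) (nat_lit 52) (nat_lit 5) (nat_lit 49) (nat_lit 4) (nat_lit 331) (nat_lit 232) (nat_lit 217)) (XT.nd (nat_lit 78) (nat_lit 0) (nat_lit 0) (XT.lf (nat_lit 0) (nat_lit 2565073677) (nat_lit 152) (nat_lit 5046124086) (nat_lit 228) (nat_lit 6628667798) (nat_lit 46) (nat_lit 5) (nat_lit 48) (nat_lit 5) (nat_lit 49) (nat_lit 4) (nat_lit 332) (nat_lit 232) (nat_lit 216)) (XT.lf (nat_lit 0) (nat_lit 13190403641) (nat_lit 228) (nat_lit 1319567050) (nat_lit 0) (nat_lit 27140148) (nat_lit 46) (nat_lit 5) (nat_lit 49) (nat_lit 4) (nat_lit 46) (nat_lit 4) (nat_lit 333) (nat_lit 232) (nat_lit 215))))) (XT.nd (nat_lit 234) (nat_lit 456) (nat_lit 0) (XT.nd (nat_lit 78) (nat_lit 380) (nat_lit 0) (XT.lf (nat_lit 0) (nat_lit 4031306049) (nat_lit 304) (nat_lit 5607292508)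 (nat_lit 76) (nat_lit 5204363902) (nat_lit 42) (nat_lit 5) (nat_lit 46) (nat_lit 5) (nat_lit 43) (nat_lit 4) (nat_lit 334) (nat_lit 232) (nat_lit 214)) (XT.nd (nat_lit 78) (nat_lit 228) (nat_lit 0) (XT.lf (nat_lit 0) (nat_lit 4852450485) (nat_lit 152) (nat_lit 4639204751) (nat_lit 228) (nat_lit 5667415407) (nat_lit 40) (nat_lit 5) (nat_lit 42) (nat_lit 5) (nat_lit 43) (nat_lit 4) (nat_lit 335) (nat_lit 232) (nat_lit 213)) (XT.lf (nat_lit 0) (nat_lit 47114499) (nat_lit 228) (nat_lit 15010674264) (nat_lit 228) (nat_lit 428077415) (nat_lit 37) (nat_lit 4) (nat_lit 40) (nat_lit 5) (nat_lit 40) (nat_lit 4) (nat_lit 336) (nat_lit 232) (nat_lit 212)))) (XT.nd (nat_lit 156) (nat_lit 228) (nat_lit 0) (XT.nd (nat_lit 78) (nat_lit 152) (nat_lit 0) (XT.lf (nat_lit 0) (nat_lit 4905854052) (nat_lit 304) (nat_lit 5199666478) (nat_lit 76) (nat_lit 5716289860) (nat_lit 36) (nat_lit 5) (nat_lit 40) (nat_lit 5)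 (nat_lit 37) (nat_lit 4) (nat_lit 337) (nat_lit 232) (nat_lit 211)) (XT.lf (nat_lit 0) (nat_lit 5250067412) (nat_lit 152) (nat_lit 5082163994) (nat_lit 228) (nat_lit 5836820328) (nat_lit 34) (nat_lit 5) (nat_lit 36) (nat_lit 5) (nat_lit 37) (nat_lit 4) (nat_lit 338) (nat_lit 232) (nat_lit 210))) (XT.nd (nat_lit 78) (nat_lit 228) (nat_lit 0) (XT.lf (nat_lit 0) (nat_lit 15862915918) (nat_lit 228) (nat_lit 603743079) (nat_lit 0) (nat_lit 61260107) (nat_lit 34) (nat_lit 5) (nat_lit 37) (nat_lit 4) (nat_lit 34) (nat_lit 4) (nat_lit 339) (nat_lit 232) (nat_lit 209)) (XT.lf (nat_lit 0) (nat_lit 4607698709) (nat_lit 228) (nat_lit 6966833238) (nat_lit 76) (nat_lit 5322314941) (nat_lit 31) (nat_lit 5) (nat_lit 34) (nat_lit 5) (nat_lit 32) (nat_lit 4) (nat_lit 340) (nat_lit 232) (nat_lit 208))))))) (XT.nd (nat_lit 1014) (nat_lit 608) (nat_lit 0) (XT.nd (nat_lit 468) (nat_lit 456) (nat_lit 0) (XT.nd (nat_lit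 234) (nat_lit 304) (nat_lit 0) (XT.nd (nat_lit 78) (nat_lit 228) (nat_lit 0) (XT.lf (nat_lit 0) (nat_lit 3395976316) (nat_lit 152) (nat_lit 6569034062) (nat_lit 228) (nat_lit 7313071078) (nat_lit 29) (nat_lit 5) (nat_lit 31) (nat_lit 5) (nat_lit 32) (nat_lit 4) (nat_lit 341) (nat_lit 232) (nat_lit 207)) (XT.nd (nat_lit 78) (nat_lit 228) (nat_lit 0) (XT.lf (nat_lit 0) (nat_lit 14012179255) (nat_lit 152) (nat_lit 1428967357) (nat_lit 228) (nat_lit 2230479429) (nat_lit 29) (nat_lit 5) (nat_lit 31) (nat_lit 5) (nat_lit 32) (nat_lit 4) (nat_lit 342) (nat_lit 232) (nat_lit 206)) (XT.lf (nat_lit 0) (nat_lit 2947264468) (nat_lit 228) (nat_lit 11312751986) (nat_lit 76) (nat_lit 3816962140) (nat_lit 26) (nat_lit 5) (nat_lit 29) (nat_lit 5) (nat_lit 27) (nat_lit 4) (nat_lit 343) (nat_lit 232) (nat_lit 205)))) (XT.nd (nat_lit 78) (nat_lit 304) (nat_lit 0) (XT.lf (nat_lit 0) (nat_lit 8198794062) (nat_lit 228)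 (nat_lit 1116440083) (nat_lit 76) (nat_lit 9180019995) (nat_lit 26) (nat_lit 5) (nat_lit 29) (nat_lit 5) (nat_lit 27) (nat_lit 4) (nat_lit 344) (nat_lit 232) (nat_lit 204)) (XT.nd (nat_lit 78) (nat_lit 152) (nat_lit 0) (XT.lf (nat_lit 0) (nat_lit 9364393350) (nat_lit 152) (nat_lit 4220845157) (nat_lit 228) (nat_lit 5341323542) (nat_lit 24) (nat_lit 5) (nat_lit 26) (nat_lit 5) (nat_lit 27) (nat_lit 4) (nat_lit 345) (nat_lit 232) (nat_lit 203)) (XT.lf (nat_lit 0) (nat_lit 663134762) (nat_lit 152) (nat_lit 18406415529) (nat_lit 152) (nat_lit 302563983) (nat_lit 22) (nat_lit 4) (nat_lit 24) (nat_lit 5) (nat_lit 24) (nat_lit 4) (nat_lit 346) (nat_lit 232) (nat_lit 202))))) (XT.nd (nat_lit 234) (nat_lit 304) (nat_lit 0) (XT.nd (nat_lit 78) (nat_lit 76) (nat_lit 0) (XT.lf (nat_lit 0) (nat_lit 4835319621) (nat_lit 228) (nat_lit 8705952075) (nat_lit 76) (nat_lit 6288914621) (nat_lit 21) (nat_lit 5) (nat_lit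 24) (nat_lit 5) (nat_lit 22) (nat_lit 4) (nat_lit 347) (nat_lit 232) (nat_lit 201)) (XT.nd (nat_lit 78) (nat_lit 0) (nat_lit 0) (XT.lf (nat_lit 0) (nat_lit 1476730795) (nat_lit 76) (nat_lit 8577088067) (nat_lit 152) (nat_lit 10249558105) (nat_lit 20) (nat_lit 5) (nat_lit 21) (nat_lit 5) (nat_lit 22) (nat_lit 4) (nat_lit 348) (nat_lit 232) (nat_lit 200)) (XT.lf (nat_lit 0) (nat_lit 11948518309) (nat_lit 76) (nat_lit 3461749048) (nat_lit 152) (nat_lit 5380895513) (nat_lit 20) (nat_lit 5) (nat_lit 21) (nat_lit 5) (nat_lit 22) (nat_lit 4) (nat_lit 349) (nat_lit 232) (nat_lit 199)))) (XT.nd (nat_lit 156) (nat_lit 76) (nat_lit 0) (XT.nd (nat_lit 78) (nat_lit 76) (nat_lit 0) (XT.lf (nat_lit 0) (nat_lit 1313608178) (nat_lit 152) (nat_lit 19558357444) (nat_lit 152) (nat_lit 422752219) (nat_lit 18) (nat_lit 4) (nat_lit 20) (nat_lit 5) (nat_lit 20) (nat_lit 4) (nat_lit 350) (nat_lit 232) (nat_lit 198)) (XT.lf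 (nat_lit 0) (nat_lit 4631303770) (nat_lit 228) (nat_lit 10102183503) (nat_lit 76) (nat_lit 7079137243) (nat_lit 17) (nat_lit 5) (nat_lit 20) (nat_lit 5) (nat_lit 18) (nat_lit 4) (nat_lit 351) (nat_lit 232) (nat_lit 197))) (XT.nd (nat_lit 78) (nat_lit 76) (nat_lit 0) (XT.lf (nat_lit 0) (nat_lit 9758585244) (nat_lit 228) (nat_lit 57513658) (nat_lit 76) (nat_lit 12531391253) (nat_lit 17) (nat_lit 5) (nat_lit 20) (nat_lit 5) (nat_lit 18) (nat_lit 4) (nat_lit 352) (nat_lit 232) (nat_lit 196)) (XT.lf (nat_lit 0) (nat_lit 10299501367) (nat_lit 76) (nat_lit 4736486650) (nat_lit 152) (nat_lit 7862511573) (nat_lit 16) (nat_lit 5) (nat_lit 17) (nat_lit 5) (nat_lit 18) (nat_lit 4) (nat_lit 353) (nat_lit 232) (nat_lit 195)))))) (XT.nd (nat_lit 546) (nat_lit 76) (nat_lit 0) (XT.nd (nat_lit 234) (nat_lit 304) (nat_lit 0) (XT.nd (nat_lit 78) (nat_lit 228) (nat_lit 0) (XT.lf (nat_lit 0) (nat_lit 20405674405) (nat_lit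 152) (nat_lit 2624365728) (nat_lit 0) (nat_lit 437343130) (nat_lit 16) (nat_lit 5) (nat_lit 18) (nat_lit 4) (nat_lit 16) (nat_lit 4) (nat_lit 354) (nat_lit 232) (nat_lit 194)) (XT.nd (nat_lit 78) (nat_lit 0) (nat_lit 0) (XT.lf (nat_lit 0) (nat_lit 1871873367) (nat_lit 228) (nat_lit 16467466386) (nat_lit 76) (nat_lit 5713502178) (nat_lit 13) (nat_lit 5) (nat_lit 16) (nat_lit 5) (nat_lit 14) (nat_lit 4) (nat_lit 355) (nat_lit 232) (nat_lit 193)) (XT.lf (nat_lit 0) (nat_lit 6863129999) (nat_lit 228) (nat_lit 6657282663) (nat_lit 76) (nat_lit 11136043096) (nat_lit 13) (nat_lit 5) (nat_lit 16) (nat_lit 5) (nat_lit 14) (nat_lit 4) (nat_lit 356) (nat_lit 232) (nat_lit 192)))) (XT.nd (nat_lit 156) (nat_lit 228) (nat_lit 0) (XT.nd (nat_lit 78) (nat_lit 0) (nat_lit 0) (XT.lf (nat_lit 0) (nat_lit 3376427874) (nat_lit 76) (nat_lit 8584691420) (nat_lit 152) (nat_lit 13317939609) (nat_lit 12) (nat_lit 5) (nat_lit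 13) (nat_lit 5) (nat_lit 14) (nat_lit 4) (nat_lit 357) (nat_lit 232) (nat_lit 191)) (XT.lf (nat_lit 0) (nat_lit 13689081241) (nat_lit 76) (nat_lit 3504307979) (nat_lit 152) (nat_lit 8727344303) (nat_lit 12) (nat_lit 5) (nat_lit 13) (nat_lit 5) (nat_lit 14) (nat_lit 4) (nat_lit 358) (nat_lit 232) (nat_lit 190))) (XT.nd (nat_lit 78) (nat_lit 228) (nat_lit 0) (XT.lf (nat_lit 0) (nat_lit 22531624689) (nat_lit 152) (nat_lit 2392610490) (nat_lit 0) (nat_lit 1658462861) (nat_lit 12) (nat_lit 5) (nat_lit 14) (nat_lit 4) (nat_lit 12) (nat_lit 4) (nat_lit 359) (nat_lit 232) (nat_lit 189)) (XT.lf (nat_lit 0) (nat_lit 768605781) (nat_lit 228) (nat_lit 19557642760) (nat_lit 76) (nat_lit 6937929026) (nat_lit 9) (nat_lit 5) (nat_lit 12) (nat_lit 5) (nat_lit 10) (nat_lit 4) (nat_lit 360) (nat_lit 232) (nat_lit 188))))) (XT.nd (nat_lit 36972) (nat_lit 0) (nat_lit 6612) (XT.nd (nat_lit 78) (nat_lit 76) (nat_lit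 0) (XT.lf (nat_lit 0) (nat_lit 5634719606) (nat_lit 228) (nat_lit 9958252649) (nat_lit 76) (nat_lit 12373474142) (nat_lit 9) (nat_lit 5) (nat_lit 12) (nat_lit 5) (nat_lit 10) (nat_lit 4) (nat_lit 361) (nat_lit 232) (nat_lit 187)) (XT.nd (nat_lit 78) (nat_lit 76) (nat_lit 0) (XT.lf (nat_lit 0) (nat_lit 10588805521) (nat_lit 228) (nat_lit 174455233) (nat_lit 76) (nat_lit 17927700359) (nat_lit 9) (nat_lit 5) (nat_lit 12) (nat_lit 5) (nat_lit 10) (nat_lit 4) (nat_lit 362) (nat_lit 232) (nat_lit 186)) (XT.lf (nat_lit 0) (nat_lit 9932565822) (nat_lit 76) (nat_lit 5767115321) (nat_lit 152) (nat_lit 13737383866) (nat_lit 8) (nat_lit 5) (nat_lit 9) (nat_lit 5) (nat_lit 10) (nat_lit 4) (nat_lit 363) (nat_lit 232) (nat_lit 185)))) (XT.nd (nat_lit 156) (nat_lit 684) (nat_lit 0) (XT.nd (nat_lit 78) (nat_lit 380) (nat_lit 0) (XT.lf (nat_lit 0) (nat_lit 1423361003) (nat_lit 380) (nat_lit 2278630795) (nat_lit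 0) (nat_lit 1423361003) (nat_lit 109) (nat_lit 5) (nat_lit 114) (nat_lit 4) (nat_lit 109) (nat_lit 4) (nat_lit 314) (nat_lit 233) (nat_lit 233)) (XT.lf (nat_lit 0) (nat_lit 5546414892) (nat_lit 380) (nat_lit 3020828518) (nat_lit 380) (nat_lit 1849423203) (nat_lit 104) (nat_lit 4) (nat_lit 109) (nat_lit 5) (nat_lit 109) (nat_lit 4) (nat_lit 315) (nat_lit 233) (nat_lit 232))) (XT.nd (nat_lit 78) (nat_lit 304) (nat_lit 0) (XT.lf (nat_lit 0) (nat_lit 3762405441) (nat_lit 380) (nat_lit 5326977699) (nat_lit 0) (nat_lit 1498981883) (nat_lit 99) (nat_lit 5) (nat_lit 104) (nat_lit 4) (nat_lit 99) (nat_lit 4) (nat_lit 316) (nat_lit 233) (nat_lit 231)) (XT.lf (nat_lit 0) (nat_lit 4829681658) (nat_lit 304) (nat_lit 4641121767) (nat_lit 304) (nat_lit 1295186584) (nat_lit 95) (nat_lit 4) (nat_lit 99) (nat_lit 5) (nat_lit 99) (nat_lit 4) (nat_lit 317) (nat_lit 233) (nat_lit 230))))))))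
noncomputable def xc12 : XT := (XT.nd (nat_lit 2028) (nat_lit 1368) (nat_lit 0) (XT.nd (nat_lit 1014) (nat_lit 1976) (nat_lit 0) (XT.nd (nat_lit 468) (nat_lit 1672) (nat_lit 0) (XT.nd (nat_lit 234) (nat_lit 608) (nat_lit 0) (XT.nd (nat_lit 78) (nat_lit 608) (nat_lit 0) (XT.lf (nat_lit 0) (nat_lit 4244056299) (nat_lit 304) (nat_lit 33653424) (nat_lit 380) (nat_lit 6672066684) (nat_lit 90) (nat_lit 5) (nat_lit 94) (nat_lit 5) (nat_lit 95) (nat_lit 4) (nat_lit 318) (nat_lit 233) (nat_lit 229)) (XT.nd (nat_lit 78) (nat_lit 304) (nat_lit 0) (XT.lf (nat_lit 0) (nat_lit 3481463496) (nat_lit 304) (nat_lit 6484635497) (nat_lit 304) (nat_lit 1173568465) (nat_lit 86) (nat_lit 4) (nat_lit 90) (nat_lit 5) (nat_lit 90) (nat_lit 4) (nat_lit 319) (nat_lit 233) (nat_lit 228)) (XT.lf (nat_lit 0) (nat_lit 2539287666) (nat_lit 228) (nat_lit 1827831959) (nat_lit 304) (nat_lit 6968906646) (nat_lit 82) (nat_lit 5) (nat_lit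 85) (nat_lit 5) (nat_lit 86) (nat_lit 4) (nat_lit 320) (nat_lit 233) (nat_lit 227)))) (XT.nd (nat_lit 78) (nat_lit 304) (nat_lit 0) (XT.lf (nat_lit 0) (nat_lit 1406302819) (nat_lit 304) (nat_lit 8608163011) (nat_lit 304) (nat_lit 1524601480) (nat_lit 78) (nat_lit 4) (nat_lit 82) (nat_lit 5) (nat_lit 82) (nat_lit 4) (nat_lit 321) (nat_lit 233) (nat_lit 226)) (XT.nd (nat_lit 78) (nat_lit 0) (nat_lit 0) (XT.lf (nat_lit 0) (nat_lit 56950462) (nat_lit 228) (nat_lit 3922275309) (nat_lit 304) (nat_lit 7769519427) (nat_lit 74) (nat_lit 5) (nat_lit 77) (nat_lit 5) (nat_lit 78) (nat_lit 4) (nat_lit 322) (nat_lit 233) (nat_lit 225)) (XT.lf (nat_lit 0) (nat_lit 9581594549) (nat_lit 304) (nat_lit 1481198952) (nat_lit 0) (nat_lit 902704173) (nat_lit 74) (nat_lit 5) (nat_lit 78) (nat_lit 4) (nat_lit 74) (nat_lit 4) (nat_lit 323) (nat_lit 233) (nat_lit 224))))) (XT.nd (nat_lit 234) (nat_lit 760) (nat_lit 0) (XT.nd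 (nat_lit 78) (nat_lit 532) (nat_lit 0) (XT.lf (nat_lit 0) (nat_lit 3088340451) (nat_lit 380) (nat_lit 3269856890) (nat_lit 76) (nat_lit 5830879007) (nat_lit 69) (nat_lit 5) (nat_lit 74) (nat_lit 5) (nat_lit 70) (nat_lit 4) (nat_lit 324) (nat_lit 233) (nat_lit 223)) (XT.nd (nat_lit 78) (nat_lit 304) (nat_lit 0) (XT.lf (nat_lit 0) (nat_lit 7124833518) (nat_lit 228) (nat_lit 1508035121) (nat_lit 304) (nat_lit 3787431888) (nat_lit 66) (nat_lit 5) (nat_lit 69) (nat_lit 5) (nat_lit 70) (nat_lit 4) (nat_lit 325) (nat_lit 233) (nat_lit 222)) (XT.lf (nat_lit 0) (nat_lit 1626491777) (nat_lit 304) (nat_lit 7592294053) (nat_lit 76) (nat_lit 3440250647) (nat_lit 62) (nat_lit 5) (nat_lit 66) (nat_lit 5) (nat_lit 63) (nat_lit 4) (nat_lit 326) (nat_lit 233) (nat_lit 221)))) (XT.nd (nat_lit 156) (nat_lit 304) (nat_lit 0) (XT.nd (nat_lit 78) (nat_lit 228) (nat_lit 0) (XT.lf (nat_lit 0) (nat_lit 2725357765) (nat_lit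 228) (nat_lit 4377272803) (nat_lit 304) (nat_lit 5802836752) (nat_lit 59) (nat_lit 5) (nat_lit 62) (nat_lit 5) (nat_lit 63) (nat_lit 4) (nat_lit 327) (nat_lit 233) (nat_lit 220)) (XT.lf (nat_lit 0) (nat_lit 113714529) (nat_lit 228) (nat_lit 12574555875) (nat_lit 228) (nat_lit 472173231) (nat_lit 56) (nat_lit 4) (nat_lit 59) (nat_lit 5) (nat_lit 59) (nat_lit 4) (nat_lit 328) (nat_lit 233) (nat_lit 219))) (XT.nd (nat_lit 78) (nat_lit 228) (nat_lit 0) (XT.lf (nat_lit 0) (nat_lit 4941341721) (nat_lit 304) (nat_lit 2808550181) (nat_lit 76) (nat_lit 5672804844) (nat_lit 55) (nat_lit 5) (nat_lit 59) (nat_lit 5) (nat_lit 56) (nat_lit 4) (nat_lit 329) (nat_lit 233) (nat_lit 218)) (XT.lf (nat_lit 0) (nat_lit 7659068044) (nat_lit 228) (nat_lit 2794781889) (nat_lit 304) (nat_lit 3240097607) (nat_lit 52) (nat_lit 5) (nat_lit 55) (nat_lit 5) (nat_lit 56) (nat_lit 4) (nat_lit 330) (nat_lit 233) (nat_lit 217))))))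 (XT.nd (nat_lit 468) (nat_lit 1064) (nat_lit 0) (XT.nd (nat_lit 234) (nat_lit 456) (nat_lit 0) (XT.nd (nat_lit 78) (nat_lit 152) (nat_lit 0) (XT.lf (nat_lit 0) (nat_lit 2087101483) (nat_lit 304) (nat_lit 9613379628) (nat_lit 76) (nat_lit 2273484272) (nat_lit 48) (nat_lit 5) (nat_lit 52) (nat_lit 5) (nat_lit 49) (nat_lit 4) (nat_lit 331) (nat_lit 233) (nat_lit 216)) (XT.nd (nat_lit 78) (nat_lit 0) (nat_lit 0) (XT.lf (nat_lit 0) (nat_lit 684830479) (nat_lit 152) (nat_lit 6805831927) (nat_lit 228) (nat_lit 6772130269) (nat_lit 46) (nat_lit 5) (nat_lit 48) (nat_lit 5) (nat_lit 49) (nat_lit 4) (nat_lit 332) (nat_lit 233) (nat_lit 215)) (XT.lf (nat_lit 0) (nat_lit 11253896667) (nat_lit 152) (nat_lit 1765517605) (nat_lit 228) (nat_lit 1541655995) (nat_lit 46) (nat_lit 5) (nat_lit 48) (nat_lit 5) (nat_lit 49) (nat_lit 4) (nat_lit 333) (nat_lit 233) (nat_lit 214)))) (XT.nd (nat_lit 78) (nat_lit 152) (nat_lit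 0) (XT.lf (nat_lit 0) (nat_lit 3764377517) (nat_lit 304) (nat_lit 7716433664) (nat_lit 76) (nat_lit 3387648865) (nat_lit 42) (nat_lit 5) (nat_lit 46) (nat_lit 5) (nat_lit 43) (nat_lit 4) (nat_lit 334) (nat_lit 233) (nat_lit 213)) (XT.nd (nat_lit 78) (nat_lit 0) (nat_lit 0) (XT.lf (nat_lit 0) (nat_lit 2632923472) (nat_lit 152) (nat_lit 6528935644) (nat_lit 228) (nat_lit 6023987935) (nat_lit 40) (nat_lit 5) (nat_lit 42) (nat_lit 5) (nat_lit 43) (nat_lit 4) (nat_lit 335) (nat_lit 233) (nat_lit 212)) (XT.lf (nat_lit 0) (nat_lit 13236070856) (nat_lit 152) (nat_lit 1440926921) (nat_lit 228) (nat_lit 836685551) (nat_lit 40) (nat_lit 5) (nat_lit 42) (nat_lit 5) (nat_lit 43) (nat_lit 4) (nat_lit 336) (nat_lit 233) (nat_lit 211))))) (XT.nd (nat_lit 234) (nat_lit 608) (nat_lit 0) (XT.nd (nat_lit 78) (nat_lit 152) (nat_lit 0) (XT.lf (nat_lit 0) (nat_lit 4430936233) (nat_lit 304) (nat_lit 7650728404) (nat_lit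 76) (nat_lit 3769469175) (nat_lit 36) (nat_lit 5) (nat_lit 40) (nat_lit 5) (nat_lit 37) (nat_lit 4) (nat_lit 337) (nat_lit 233) (nat_lit 210)) (XT.nd (nat_lit 78) (nat_lit 0) (nat_lit 0) (XT.lf (nat_lit 0) (nat_lit 2687673512) (nat_lit 152) (nat_lit 7107149262) (nat_lit 228) (nat_lit 6404821460) (nat_lit 34) (nat_lit 5) (nat_lit 36) (nat_lit 5) (nat_lit 37) (nat_lit 4) (nat_lit 338) (nat_lit 233) (nat_lit 209)) (XT.lf (nat_lit 0) (nat_lit 13285728503) (nat_lit 152) (nat_lit 1994360800) (nat_lit 228) (nat_lit 1279349363) (nat_lit 34) (nat_lit 5) (nat_lit 36) (nat_lit 5) (nat_lit 37) (nat_lit 4) (nat_lit 339) (nat_lit 233) (nat_lit 208)))) (XT.nd (nat_lit 156) (nat_lit 228) (nat_lit 0) (XT.nd (nat_lit 78) (nat_lit 152) (nat_lit 0) (XT.lf (nat_lit 0) (nat_lit 3926072195) (nat_lit 228) (nat_lit 9763639173) (nat_lit 76) (nat_lit 3240259408) (nat_lit 31) (nat_lit 5) (nat_lit 34) (nat_lit 5) (nat_lit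 32) (nat_lit 4) (nat_lit 340) (nat_lit 233) (nat_lit 207)) (XT.lf (nat_lit 0) (nat_lit 486704758) (nat_lit 152) (nat_lit 8734385350) (nat_lit 228) (nat_lit 8091378395) (nat_lit 29) (nat_lit 5) (nat_lit 31) (nat_lit 5) (nat_lit 32) (nat_lit 4) (nat_lit 341) (nat_lit 233) (nat_lit 206))) (XT.nd (nat_lit 78) (nat_lit 228) (nat_lit 0) (XT.lf (nat_lit 0) (nat_lit 11029803283) (nat_lit 152) (nat_lit 3624807795) (nat_lit 228) (nat_lit 3052271092) (nat_lit 29) (nat_lit 5) (nat_lit 31) (nat_lit 5) (nat_lit 32) (nat_lit 4) (nat_lit 342) (nat_lit 233) (nat_lit 205)) (XT.lf (nat_lit 0) (nat_lit 2059677650) (nat_lit 228) (nat_lit 14459573233) (nat_lit 76) (nat_lit 1594637986) (nat_lit 26) (nat_lit 5) (nat_lit 29) (nat_lit 5) (nat_lit 27) (nat_lit 4) (nat_lit 343) (nat_lit 233) (nat_lit 204))))))) (XT.nd (nat_lit 1014) (nat_lit 380) (nat_lit 0) (XT.nd (nat_lit 468) (nat_lit 532) (nat_lit 0) (XT.nd (nat_lit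 234) (nat_lit 304) (nat_lit 0) (XT.nd (nat_lit 78) (nat_lit 152) (nat_lit 0) (XT.lf (nat_lit 0) (nat_lit 7270108284) (nat_lit 228) (nat_lit 4334287699) (nat_lit 76) (nat_lit 6928605917) (nat_lit 26) (nat_lit 5) (nat_lit 29) (nat_lit 5) (nat_lit 27) (nat_lit 4) (nat_lit 344) (nat_lit 233) (nat_lit 203)) (XT.nd (nat_lit 78) (nat_lit 0) (nat_lit 0) (XT.lf (nat_lit 0) (nat_lit 6033908181) (nat_lit 152) (nat_lit 6561118926) (nat_lit 228) (nat_lit 6370528269) (nat_lit 24) (nat_lit 5) (nat_lit 26) (nat_lit 5) (nat_lit 27) (nat_lit 4) (nat_lit 345) (nat_lit 233) (nat_lit 202)) (XT.lf (nat_lit 0) (nat_lit 16634765418) (nat_lit 152) (nat_lit 1394762840) (nat_lit 228) (nat_lit 1382590171) (nat_lit 24) (nat_lit 5) (nat_lit 26) (nat_lit 5) (nat_lit 27) (nat_lit 4) (nat_lit 346) (nat_lit 233) (nat_lit 201)))) (XT.nd (nat_lit 78) (nat_lit 76) (nat_lit 0) (XT.lf (nat_lit 0) (nat_lit 3703082502) (nat_lit 228)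 (nat_lit 12275401750) (nat_lit 76) (nat_lit 3893187889) (nat_lit 21) (nat_lit 5) (nat_lit 24) (nat_lit 5) (nat_lit 22) (nat_lit 4) (nat_lit 347) (nat_lit 233) (nat_lit 200)) (XT.nd (nat_lit 78) (nat_lit 76) (nat_lit 0) (XT.lf (nat_lit 0) (nat_lit 8874200743) (nat_lit 228) (nat_lit 2177981347) (nat_lit 76) (nat_lit 9293641828) (nat_lit 21) (nat_lit 5) (nat_lit 24) (nat_lit 5) (nat_lit 22) (nat_lit 4) (nat_lit 348) (nat_lit 233) (nat_lit 199)) (XT.lf (nat_lit 0) (nat_lit 8200036128) (nat_lit 76) (nat_lit 5979171077) (nat_lit 152) (nat_lit 6655444569) (nat_lit 20) (nat_lit 5) (nat_lit 21) (nat_lit 5) (nat_lit 22) (nat_lit 4) (nat_lit 349) (nat_lit 233) (nat_lit 198))))) (XT.nd (nat_lit 234) (nat_lit 304) (nat_lit 0) (XT.nd (nat_lit 78) (nat_lit 228) (nat_lit 0) (XT.lf (nat_lit 0) (nat_lit 18791443186) (nat_lit 76) (nat_lit 793533915) (nat_lit 152) (nat_lit 1754360943) (nat_lit 20) (nat_lit 5) (nat_lit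 21) (nat_lit 5) (nat_lit 22) (nat_lit 4) (nat_lit 350) (nat_lit 233) (nat_lit 197)) (XT.nd (nat_lit 78) (nat_lit 0) (nat_lit 0) (XT.lf (nat_lit 0) (nat_lit 3259328099) (nat_lit 228) (nat_lit 14091547500) (nat_lit 76) (nat_lit 4507710776) (nat_lit 17) (nat_lit 5) (nat_lit 20) (nat_lit 5) (nat_lit 18) (nat_lit 4) (nat_lit 351) (nat_lit 233) (nat_lit 196)) (XT.lf (nat_lit 0) (nat_lit 8351846844) (nat_lit 228) (nat_lit 4107998210) (nat_lit 76) (nat_lit 9934313979) (nat_lit 17) (nat_lit 5) (nat_lit 20) (nat_lit 5) (nat_lit 18) (nat_lit 4) (nat_lit 352) (nat_lit 233) (nat_lit 195)))) (XT.nd (nat_lit 156) (nat_lit 228) (nat_lit 0) (XT.nd (nat_lit 78) (nat_lit 0) (nat_lit 0) (XT.lf (nat_lit 0) (nat_lit 6135059060) (nat_lit 76) (nat_lit 7433402013) (nat_lit 152) (nat_lit 9377934588) (nat_lit 16) (nat_lit 5) (nat_lit 17) (nat_lit 5) (nat_lit 18) (nat_lit 4) (nat_lit 353) (nat_lit 233) (nat_lit 194)) (XT.lf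 (nat_lit 0) (nat_lit 16623132413) (nat_lit 76) (nat_lit 2278991558) (nat_lit 152) (nat_lit 4613886923) (nat_lit 16) (nat_lit 5) (nat_lit 17) (nat_lit 5) (nat_lit 18) (nat_lit 4) (nat_lit 354) (nat_lit 233) (nat_lit 193))) (XT.nd (nat_lit 78) (nat_lit 0) (nat_lit 0) (XT.lf (nat_lit 0) (nat_lit 264044097) (nat_lit 228) (nat_lit 20875215018) (nat_lit 76) (nat_lit 2963942725) (nat_lit 13) (nat_lit 5) (nat_lit 16) (nat_lit 5) (nat_lit 14) (nat_lit 4) (nat_lit 355) (nat_lit 233) (nat_lit 192)) (XT.lf (nat_lit 0) (nat_lit 5223316963) (nat_lit 228) (nat_lit 11121711667) (nat_lit 76) (nat_lit 8362436959) (nat_lit 13) (nat_lit 5) (nat_lit 16) (nat_lit 5) (nat_lit 14) (nat_lit 4) (nat_lit 356) (nat_lit 233) (nat_lit 191)))))) (XT.nd (nat_lit 468) (nat_lit 76) (nat_lit 0) (XT.nd (nat_lit 234) (nat_lit 228) (nat_lit 0) (XT.nd (nat_lit 78) (nat_lit 76) (nat_lit 0) (XT.lf (nat_lit 0) (nat_lit 10268332050) (nat_lit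 228) (nat_lit 1187313074) (nat_lit 76) (nat_lit 13875493045) (nat_lit 13) (nat_lit 5) (nat_lit 16) (nat_lit 5) (nat_lit 14) (nat_lit 4) (nat_lit 357) (nat_lit 233) (nat_lit 190)) (XT.nd (nat_lit 78) (nat_lit 0) (nat_lit 0) (XT.lf (nat_lit 0) (nat_lit 9055424827) (nat_lit 76) (nat_lit 6406866620) (nat_lit 152) (nat_lit 10511297211) (nat_lit 12) (nat_lit 5) (nat_lit 13) (nat_lit 5) (nat_lit 14) (nat_lit 4) (nat_lit 358) (nat_lit 233) (nat_lit 189)) (XT.lf (nat_lit 0) (nat_lit 19515000393) (nat_lit 76) (nat_lit 1245004652) (nat_lit 152) (nat_lit 5876367946) (nat_lit 12) (nat_lit 5) (nat_lit 13) (nat_lit 5) (nat_lit 14) (nat_lit 4) (nat_lit 359) (nat_lit 233) (nat_lit 188)))) (XT.nd (nat_lit 78) (nat_lit 76) (nat_lit 0) (XT.lf (nat_lit 0) (nat_lit 2876126074) (nat_lit 152) (nat_lit 23326980892) (nat_lit 152) (nat_lit 1116223233) (nat_lit 10) (nat_lit 4) (nat_lit 12) (nat_lit 5) (nat_lit 12) (nat_lit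 4) (nat_lit 360) (nat_lit 233) (nat_lit 187)) (XT.nd (nat_lit 78) (nat_lit 0) (nat_lit 0) (XT.lf (nat_lit 0) (nat_lit 3735953052) (nat_lit 228) (nat_lit 14887588625) (nat_lit 76) (nat_lit 9398782506) (nat_lit 9) (nat_lit 5) (nat_lit 12) (nat_lit 5) (nat_lit 10) (nat_lit 4) (nat_lit 361) (nat_lit 233) (nat_lit 186)) (XT.lf (nat_lit 0) (nat_lit 8662294299) (nat_lit 228) (nat_lit 5153327007) (nat_lit 76) (nat_lit 14931780900) (nat_lit 9) (nat_lit 5) (nat_lit 12) (nat_lit 5) (nat_lit 10) (nat_lit 4) (nat_lit 362) (nat_lit 233) (nat_lit 185))))) (XT.nd (nat_lit 36816) (nat_lit 0) (nat_lit 6612) (XT.nd (nat_lit 36660) (nat_lit 0) (nat_lit 8056) (XT.lf (nat_lit 0) (nat_lit 4838795325) (nat_lit 76) (nat_lit 8874365889) (nat_lit 152) (nat_lit 15781553231) (nat_lit 8) (nat_lit 5) (nat_lit 9) (nat_lit 5) (nat_lit 10) (nat_lit 4) (nat_lit 363) (nat_lit 233) (nat_lit 184)) (XT.nd (nat_lit 78) (nat_lit 380)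 (nat_lit 0) (XT.lf (nat_lit 0) (nat_lit 1429893726) (nat_lit 456) (nat_lit 2107327368) (nat_lit 0) (nat_lit 1429893726) (nat_lit 119) (nat_lit 5) (nat_lit 125) (nat_lit 4) (nat_lit 119) (nat_lit 4) (nat_lit 312) (nat_lit 234) (nat_lit 234)) (XT.lf (nat_lit 0) (nat_lit 5718512457) (nat_lit 380) (nat_lit 2801309853) (nat_lit 380) (nat_lit 1570631429) (nat_lit 114) (nat_lit 4) (nat_lit 119) (nat_lit 5) (nat_lit 119) (nat_lit 4) (nat_lit 313) (nat_lit 234) (nat_lit 233)))) (XT.nd (nat_lit 156) (nat_lit 684) (nat_lit 0) (XT.nd (nat_lit 78) (nat_lit 380) (nat_lit 0) (XT.lf (nat_lit 0) (nat_lit 3986547361) (nat_lit 380) (nat_lit 4656944454) (nat_lit 0) (nat_lit 1608594571) (nat_lit 109) (nat_lit 5) (nat_lit 114) (nat_lit 4) (nat_lit 109) (nat_lit 4) (nat_lit 314) (nat_lit 234) (nat_lit 232)) (XT.lf (nat_lit 0) (nat_lit 5347341668) (nat_lit 380) (nat_lit 4293655824) (nat_lit 380) (nat_lit 778416321) (nat_lit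 104) (nat_lit 4) (nat_lit 109) (nat_lit 5) (nat_lit 109) (nat_lit 4) (nat_lit 315) (nat_lit 234) (nat_lit 231))) (XT.nd (nat_lit 78) (nat_lit 304) (nat_lit 0) (XT.lf (nat_lit 0) (nat_lit 4744946373) (nat_lit 380) (nat_lit 5631436483) (nat_lit 0) (nat_lit 216121509) (nat_lit 99) (nat_lit 5) (nat_lit 104) (nat_lit 4) (nat_lit 99) (nat_lit 4) (nat_lit 316) (nat_lit 234) (nat_lit 230)) (XT.lf (nat_lit 0) (nat_lit 4424273189) (nat_lit 304) (nat_lit 5963508014) (nat_lit 304) (nat_lit 383700989) (nat_lit 95) (nat_lit 4) (nat_lit 99) (nat_lit 5) (nat_lit 99) (nat_lit 4) (nat_lit 317) (nat_lit 234) (nat_lit 229))))))))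
noncomputable def xc13 : XT := (XT.nd (nat_lit 2028) (nat_lit 1292) (nat_lit 0) (XT.nd (nat_lit 1014) (nat_lit 1976) (nat_lit 0) (XT.nd (nat_lit 468) (nat_lit 1672) (nat_lit 0) (XT.nd (nat_lit 234) (nat_lit 608) (nat_lit 0) (XT.nd (nat_lit 78) (nat_lit 608) (nat_lit 0) (XT.lf (nat_lit 0) (nat_lit 3725489818) (nat_lit 304) (nat_lit 1386226949) (nat_lit 380) (nat_lit 5844783522) (nat_lit 90) (nat_lit 5) (nat_lit 94) (nat_lit 5) (nat_lit 95) (nat_lit 4) (nat_lit 318) (nat_lit 234) (nat_lit 228)) (XT.nd (nat_lit 78) (nat_lit 304) (nat_lit 0) (XT.lf (nat_lit 0) (nat_lit 2862382424) (nat_lit 304) (nat_lit 7863758196) (nat_lit 304) (nat_lit 421768452) (nat_lit 86) (nat_lit 4) (nat_lit 90) (nat_lit 5) (nat_lit 90) (nat_lit 4) (nat_lit 319) (nat_lit 234) (nat_lit 227)) (XT.lf (nat_lit 0) (nat_lit 1803675829) (nat_lit 228) (nat_lit 3240187713) (nat_lit 304) (nat_lit 6301647213) (nat_lit 82) (nat_lit 5)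 (nat_lit 85) (nat_lit 5) (nat_lit 86) (nat_lit 4) (nat_lit 320) (nat_lit 234) (nat_lit 226)))) (XT.nd (nat_lit 78) (nat_lit 304) (nat_lit 0) (XT.lf (nat_lit 0) (nat_lit 566111493) (nat_lit 304) (nat_lit 10051000000) (nat_lit 304) (nat_lit 932957772) (nat_lit 78) (nat_lit 4) (nat_lit 82) (nat_lit 5) (nat_lit 82) (nat_lit 4) (nat_lit 321) (nat_lit 234) (nat_lit 225)) (XT.nd (nat_lit 78) (nat_lit 228) (nat_lit 0) (XT.lf (nat_lit 0) (nat_lit 4503983266) (nat_lit 380) (nat_lit 891378618) (nat_lit 76) (nat_lit 6365524772) (nat_lit 77) (nat_lit 5) (nat_lit 82) (nat_lit 5) (nat_lit 78) (nat_lit 4) (nat_lit 322) (nat_lit 234) (nat_lit 224)) (XT.lf (nat_lit 0) (nat_lit 9439135243) (nat_lit 228) (nat_lit 597776920) (nat_lit 304) (nat_lit 1942148578) (nat_lit 74) (nat_lit 5) (nat_lit 77) (nat_lit 5) (nat_lit 78) (nat_lit 4) (nat_lit 323) (nat_lit 234) (nat_lit 223))))) (XT.nd (nat_lit 234) (nat_lit 760) (nat_lit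 0) (XT.nd (nat_lit 78) (nat_lit 532) (nat_lit 0) (XT.lf (nat_lit 0) (nat_lit 3456245110) (nat_lit 380) (nat_lit 4446609376) (nat_lit 76) (nat_lit 4301119922) (nat_lit 69) (nat_lit 5) (nat_lit 74) (nat_lit 5) (nat_lit 70) (nat_lit 4) (nat_lit 324) (nat_lit 234) (nat_lit 222)) (XT.nd (nat_lit 78) (nat_lit 304) (nat_lit 0) (XT.lf (nat_lit 0) (nat_lit 5842611279) (nat_lit 228) (nat_lit 3094338342) (nat_lit 304) (nat_lit 3499555761) (nat_lit 66) (nat_lit 5) (nat_lit 69) (nat_lit 5) (nat_lit 70) (nat_lit 4) (nat_lit 325) (nat_lit 234) (nat_lit 221)) (XT.lf (nat_lit 0) (nat_lit 1836058369) (nat_lit 304) (nat_lit 9005925300) (nat_lit 76) (nat_lit 1834739824) (nat_lit 62) (nat_lit 5) (nat_lit 66) (nat_lit 5) (nat_lit 63) (nat_lit 4) (nat_lit 326) (nat_lit 234) (nat_lit 220)))) (XT.nd (nat_lit 156) (nat_lit 532) (nat_lit 0) (XT.nd (nat_lit 78) (nat_lit 0) (nat_lit 0) (XT.lf (nat_lit 0) (nat_lit 1204341357)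 (nat_lit 228) (nat_lit 6043965016) (nat_lit 304) (nat_lit 5676153799) (nat_lit 59) (nat_lit 5) (nat_lit 62) (nat_lit 5) (nat_lit 63) (nat_lit 4) (nat_lit 327) (nat_lit 234) (nat_lit 219)) (XT.lf (nat_lit 0) (nat_lit 11669573598) (nat_lit 228) (nat_lit 1106784068) (nat_lit 304) (nat_lit 404257796) (nat_lit 59) (nat_lit 5) (nat_lit 62) (nat_lit 5) (nat_lit 63) (nat_lit 4) (nat_lit 328) (nat_lit 234) (nat_lit 218))) (XT.nd (nat_lit 78) (nat_lit 228) (nat_lit 0) (XT.lf (nat_lit 0) (nat_lit 4938581674) (nat_lit 304) (nat_lit 4553153470) (nat_lit 76) (nat_lit 3952546202) (nat_lit 55) (nat_lit 5) (nat_lit 59) (nat_lit 5) (nat_lit 56) (nat_lit 4) (nat_lit 329) (nat_lit 234) (nat_lit 217)) (XT.lf (nat_lit 0) (nat_lit 5806472336) (nat_lit 228) (nat_lit 4581529189) (nat_lit 304) (nat_lit 3328817521) (nat_lit 52) (nat_lit 5) (nat_lit 55) (nat_lit 5) (nat_lit 56) (nat_lit 4) (nat_lit 330) (nat_lit 234) (nat_lit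 216)))))) (XT.nd (nat_lit 468) (nat_lit 1064) (nat_lit 0) (XT.nd (nat_lit 234) (nat_lit 456) (nat_lit 0) (XT.nd (nat_lit 78) (nat_lit 152) (nat_lit 0) (XT.lf (nat_lit 0) (nat_lit 1924299339) (nat_lit 304) (nat_lit 11609595101) (nat_lit 76) (nat_lit 464482816) (nat_lit 48) (nat_lit 5) (nat_lit 52) (nat_lit 5) (nat_lit 49) (nat_lit 4) (nat_lit 331) (nat_lit 234) (nat_lit 215)) (XT.nd (nat_lit 78) (nat_lit 152) (nat_lit 0) (XT.lf (nat_lit 0) (nat_lit 7273681126) (nat_lit 304) (nat_lit 1402856472) (nat_lit 76) (nat_lit 5611773766) (nat_lit 48) (nat_lit 5) (nat_lit 52) (nat_lit 5) (nat_lit 49) (nat_lit 4) (nat_lit 332) (nat_lit 234) (nat_lit 214)) (XT.lf (nat_lit 0) (nat_lit 9066414985) (nat_lit 152) (nat_lit 3677977561) (nat_lit 228) (nat_lit 1843379773) (nat_lit 46) (nat_lit 5) (nat_lit 48) (nat_lit 5) (nat_lit 49) (nat_lit 4) (nat_lit 333) (nat_lit 234) (nat_lit 213)))) (XT.nd (nat_lit 78) (nat_lit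 152) (nat_lit 0) (XT.lf (nat_lit 0) (nat_lit 3391073528) (nat_lit 304) (nat_lit 10053840068) (nat_lit 76) (nat_lit 1451819899) (nat_lit 42) (nat_lit 5) (nat_lit 46) (nat_lit 5) (nat_lit 43) (nat_lit 4) (nat_lit 334) (nat_lit 234) (nat_lit 212)) (XT.nd (nat_lit 78) (nat_lit 0) (nat_lit 0) (XT.lf (nat_lit 0) (nat_lit 184496419) (nat_lit 152) (nat_lit 8541116316) (nat_lit 228) (nat_lit 6489787457) (nat_lit 40) (nat_lit 5) (nat_lit 42) (nat_lit 5) (nat_lit 43) (nat_lit 4) (nat_lit 335) (nat_lit 234) (nat_lit 211)) (XT.lf (nat_lit 0) (nat_lit 10710014920) (nat_lit 152) (nat_lit 3484557138) (nat_lit 228) (nat_lit 1349608235) (nat_lit 40) (nat_lit 5) (nat_lit 42) (nat_lit 5) (nat_lit 43) (nat_lit 4) (nat_lit 336) (nat_lit 234) (nat_lit 210))))) (XT.nd (nat_lit 234) (nat_lit 608) (nat_lit 0) (XT.nd (nat_lit 78) (nat_lit 152) (nat_lit 0) (XT.lf (nat_lit 0) (nat_lit 3848687154) (nat_lit 304) (nat_lit 10333105394)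 (nat_lit 76) (nat_lit 1701445165) (nat_lit 36) (nat_lit 5) (nat_lit 40) (nat_lit 5) (nat_lit 37) (nat_lit 4) (nat_lit 337) (nat_lit 234) (nat_lit 209)) (XT.nd (nat_lit 78) (nat_lit 152) (nat_lit 0) (XT.lf (nat_lit 0) (nat_lit 9150605040) (nat_lit 304) (nat_lit 105414660) (nat_lit 76) (nat_lit 6976986510) (nat_lit 36) (nat_lit 5) (nat_lit 40) (nat_lit 5) (nat_lit 37) (nat_lit 4) (nat_lit 338) (nat_lit 234) (nat_lit 208)) (XT.lf (nat_lit 0) (nat_lit 10417001842) (nat_lit 152) (nat_lit 4174472367) (nat_lit 228) (nat_lit 2002232536) (nat_lit 34) (nat_lit 5) (nat_lit 36) (nat_lit 5) (nat_lit 37) (nat_lit 4) (nat_lit 339) (nat_lit 234) (nat_lit 207)))) (XT.nd (nat_lit 156) (nat_lit 380) (nat_lit 0) (XT.nd (nat_lit 78) (nat_lit 0) (nat_lit 0) (XT.lf (nat_lit 0) (nat_lit 3135885066) (nat_lit 228) (nat_lit 12795198594) (nat_lit 76) (nat_lit 1034802040) (nat_lit 31) (nat_lit 5) (nat_lit 34) (nat_lit 5)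 (nat_lit 32) (nat_lit 4) (nat_lit 340) (nat_lit 234) (nat_lit 206)) (XT.lf (nat_lit 0) (nat_lit 8385602349) (nat_lit 228) (nat_lit 2623383519) (nat_lit 76) (nat_lit 6340320350) (nat_lit 31) (nat_lit 5) (nat_lit 34) (nat_lit 5) (nat_lit 32) (nat_lit 4) (nat_lit 341) (nat_lit 234) (nat_lit 205))) (XT.nd (nat_lit 78) (nat_lit 228) (nat_lit 0) (XT.lf (nat_lit 0) (nat_lit 7813876461) (nat_lit 152) (nat_lit 5946613717) (nat_lit 228) (nat_lit 3984418662) (nat_lit 29) (nat_lit 5) (nat_lit 31) (nat_lit 5) (nat_lit 32) (nat_lit 4) (nat_lit 342) (nat_lit 234) (nat_lit 204)) (XT.lf (nat_lit 0) (nat_lit 303568133) (nat_lit 152) (nat_lit 763420839) (nat_lit 228) (nat_lit 17086518442) (nat_lit 26) (nat_lit 5) (nat_lit 28) (nat_lit 5) (nat_lit 29) (nat_lit 5) (nat_lit 343) (nat_lit 234) (nat_lit 203))))))) (XT.nd (nat_lit 1014) (nat_lit 304) (nat_lit 0) (XT.nd (nat_lit 468) (nat_lit 532) (nat_lit 0) (XT.nd (nat_lit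 234) (nat_lit 304) (nat_lit 0) (XT.nd (nat_lit 78) (nat_lit 152) (nat_lit 0) (XT.lf (nat_lit 0) (nat_lit 6232561069) (nat_lit 228) (nat_lit 7788654754) (nat_lit 76) (nat_lit 4552316847) (nat_lit 26) (nat_lit 5) (nat_lit 29) (nat_lit 5) (nat_lit 27) (nat_lit 4) (nat_lit 344) (nat_lit 234) (nat_lit 202)) (XT.nd (nat_lit 78) (nat_lit 0) (nat_lit 0) (XT.lf (nat_lit 0) (nat_lit 2465795522) (nat_lit 152) (nat_lit 9029778104) (nat_lit 228) (nat_lit 7511765260) (nat_lit 24) (nat_lit 5) (nat_lit 26) (nat_lit 5) (nat_lit 27) (nat_lit 4) (nat_lit 345) (nat_lit 234) (nat_lit 201)) (XT.lf (nat_lit 0) (nat_lit 13000789764) (nat_lit 152) (nat_lit 3891246016) (nat_lit 228) (nat_lit 2562641129) (nat_lit 24) (nat_lit 5) (nat_lit 26) (nat_lit 5) (nat_lit 27) (nat_lit 4) (nat_lit 346) (nat_lit 234) (nat_lit 200)))) (XT.nd (nat_lit 78) (nat_lit 76) (nat_lit 0) (XT.lf (nat_lit 0) (nat_lit 2460158307) (nat_lit 228)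 (nat_lit 16085701518) (nat_lit 76) (nat_lit 1370104533) (nat_lit 21) (nat_lit 5) (nat_lit 24) (nat_lit 5) (nat_lit 22) (nat_lit 4) (nat_lit 347) (nat_lit 234) (nat_lit 199)) (XT.nd (nat_lit 78) (nat_lit 76) (nat_lit 0) (XT.lf (nat_lit 0) (nat_lit 7594584233) (nat_lit 228) (nat_lit 6052256725) (nat_lit 76) (nat_lit 6744022136) (nat_lit 21) (nat_lit 5) (nat_lit 24) (nat_lit 5) (nat_lit 22) (nat_lit 4) (nat_lit 348) (nat_lit 234) (nat_lit 198)) (XT.lf (nat_lit 0) (nat_lit 4211335988) (nat_lit 76) (nat_lit 8626733812) (nat_lit 152) (nat_lit 8042864298) (nat_lit 20) (nat_lit 5) (nat_lit 21) (nat_lit 5) (nat_lit 22) (nat_lit 4) (nat_lit 349) (nat_lit 234) (nat_lit 197))))) (XT.nd (nat_lit 234) (nat_lit 304) (nat_lit 0) (XT.nd (nat_lit 78) (nat_lit 228) (nat_lit 0) (XT.lf (nat_lit 0) (nat_lit 14741638501) (nat_lit 76) (nat_lit 3467218438) (nat_lit 152) (nat_lit 3177475445) (nat_lit 20) (nat_lit 5) (nat_lit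 21) (nat_lit 5) (nat_lit 22) (nat_lit 4) (nat_lit 350) (nat_lit 234) (nat_lit 196)) (XT.nd (nat_lit 78) (nat_lit 0) (nat_lit 0) (XT.lf (nat_lit 0) (nat_lit 1775624818) (nat_lit 228) (nat_lit 18324667144) (nat_lit 76) (nat_lit 1807070377) (nat_lit 17) (nat_lit 5) (nat_lit 20) (nat_lit 5) (nat_lit 18) (nat_lit 4) (nat_lit 351) (nat_lit 234) (nat_lit 195)) (XT.lf (nat_lit 0) (nat_lit 6834393341) (nat_lit 228) (nat_lit 8400458199) (nat_lit 76) (nat_lit 7208769884) (nat_lit 17) (nat_lit 5) (nat_lit 20) (nat_lit 5) (nat_lit 18) (nat_lit 4) (nat_lit 352) (nat_lit 234) (nat_lit 194)))) (XT.nd (nat_lit 156) (nat_lit 228) (nat_lit 0) (XT.nd (nat_lit 78) (nat_lit 0) (nat_lit 0) (XT.lf (nat_lit 0) (nat_lit 1727176919) (nat_lit 76) (nat_lit 10262444550) (nat_lit 152) (nat_lit 11007475394) (nat_lit 16) (nat_lit 5) (nat_lit 17) (nat_lit 5) (nat_lit 18) (nat_lit 4) (nat_lit 353) (nat_lit 234) (nat_lit 193)) (XT.lf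 (nat_lit 0) (nat_lit 12158572973) (nat_lit 76) (nat_lit 5132530586) (nat_lit 152) (nat_lit 6276262920) (nat_lit 16) (nat_lit 5) (nat_lit 17) (nat_lit 5) (nat_lit 18) (nat_lit 4) (nat_lit 354) (nat_lit 234) (nat_lit 192))) (XT.nd (nat_lit 78) (nat_lit 228) (nat_lit 0) (XT.lf (nat_lit 0) (nat_lit 22688874554) (nat_lit 152) (nat_lit 1365495538) (nat_lit 0) (nat_lit 101650423) (nat_lit 16) (nat_lit 5) (nat_lit 18) (nat_lit 4) (nat_lit 16) (nat_lit 4) (nat_lit 355) (nat_lit 234) (nat_lit 191)) (XT.lf (nat_lit 0) (nat_lit 3471273571) (nat_lit 228) (nat_lit 15831783399) (nat_lit 76) (nat_lit 5458229662) (nat_lit 13) (nat_lit 5) (nat_lit 16) (nat_lit 5) (nat_lit 14) (nat_lit 4) (nat_lit 356) (nat_lit 234) (nat_lit 190)))))) (XT.nd (nat_lit 468) (nat_lit 0) (nat_lit 0) (XT.nd (nat_lit 234) (nat_lit 228) (nat_lit 0) (XT.nd (nat_lit 78) (nat_lit 76) (nat_lit 0) (XT.lf (nat_lit 0) (nat_lit 8486140890) (nat_lit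 228) (nat_lit 5950811493) (nat_lit 76) (nat_lit 10948619443) (nat_lit 13) (nat_lit 5) (nat_lit 16) (nat_lit 5) (nat_lit 14) (nat_lit 4) (nat_lit 357) (nat_lit 234) (nat_lit 189)) (XT.nd (nat_lit 78) (nat_lit 0) (nat_lit 0) (XT.lf (nat_lit 0) (nat_lit 4176062119) (nat_lit 76) (nat_lit 9443088433) (nat_lit 152) (nat_lit 12410100137) (nat_lit 12) (nat_lit 5) (nat_lit 13) (nat_lit 5) (nat_lit 14) (nat_lit 4) (nat_lit 358) (nat_lit 234) (nat_lit 188)) (XT.lf (nat_lit 0) (nat_lit 14584608654) (nat_lit 76) (nat_lit 4303507020) (nat_lit 152) (nat_lit 7804503423) (nat_lit 12) (nat_lit 5) (nat_lit 13) (nat_lit 5) (nat_lit 14) (nat_lit 4) (nat_lit 359) (nat_lit 234) (nat_lit 187)))) (XT.nd (nat_lit 78) (nat_lit 228) (nat_lit 0) (XT.lf (nat_lit 0) (nat_lit 24264634462) (nat_lit 152) (nat_lit 2178344220) (nat_lit 0) (nat_lit 933938126) (nat_lit 12) (nat_lit 5) (nat_lit 14) (nat_lit 4) (nat_lit 12) (nat_lit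 4) (nat_lit 360) (nat_lit 234) (nat_lit 186)) (XT.nd (nat_lit 78) (nat_lit 0) (nat_lit 0) (XT.lf (nat_lit 0) (nat_lit 1723901825) (nat_lit 228) (nat_lit 20065362349) (nat_lit 76) (nat_lit 6291757641) (nat_lit 9) (nat_lit 5) (nat_lit 12) (nat_lit 5) (nat_lit 10) (nat_lit 4) (nat_lit 361) (nat_lit 234) (nat_lit 185)) (XT.lf (nat_lit 0) (nat_lit 6623306502) (nat_lit 228) (nat_lit 10379193739) (nat_lit 76) (nat_lit 11804146499) (nat_lit 9) (nat_lit 5) (nat_lit 12) (nat_lit 5) (nat_lit 10) (nat_lit 4) (nat_lit 362) (nat_lit 234) (nat_lit 184))))) (XT.nd (nat_lit 36660) (nat_lit 0) (nat_lit 7144) (XT.nd (nat_lit 36504) (nat_lit 0) (nat_lit 8816) (XT.lf (nat_lit 0) (nat_lit 11616604738) (nat_lit 228) (nat_lit 497225317) (nat_lit 76) (nat_lit 17441288228) (nat_lit 9) (nat_lit 5) (nat_lit 12) (nat_lit 5) (nat_lit 10) (nat_lit 4) (nat_lit 363) (nat_lit 234) (nat_lit 183)) (XT.nd (nat_lit 78) (nat_lit 380)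 (nat_lit 0) (XT.lf (nat_lit 0) (nat_lit 1376121258) (nat_lit 456) (nat_lit 2065989339) (nat_lit 0) (nat_lit 1376121258) (nat_lit 130) (nat_lit 5) (nat_lit 136) (nat_lit 4) (nat_lit 130) (nat_lit 4) (nat_lit 310) (nat_lit 235) (nat_lit 235)) (XT.lf (nat_lit 0) (nat_lit 5617003443) (nat_lit 380) (nat_lit 2729707428) (nat_lit 380) (nat_lit 1436756676) (nat_lit 125) (nat_lit 4) (nat_lit 130) (nat_lit 5) (nat_lit 130) (nat_lit 4) (nat_lit 311) (nat_lit 235) (nat_lit 234)))) (XT.nd (nat_lit 156) (nat_lit 836) (nat_lit 0) (XT.nd (nat_lit 78) (nat_lit 380) (nat_lit 0) (XT.lf (nat_lit 0) (nat_lit 4060673370) (nat_lit 456) (nat_lit 4312543045) (nat_lit 0) (nat_lit 1562396169) (nat_lit 119) (nat_lit 5) (nat_lit 125) (nat_lit 4) (nat_lit 119) (nat_lit 4) (nat_lit 312) (nat_lit 235) (nat_lit 233)) (XT.lf (nat_lit 0) (nat_lit 5523023077) (nat_lit 380) (nat_lit 4131646138) (nat_lit 380) (nat_lit 438535516) (nat_lit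 114) (nat_lit 4) (nat_lit 119) (nat_lit 5) (nat_lit 119) (nat_lit 4) (nat_lit 313) (nat_lit 235) (nat_lit 232))) (XT.nd (nat_lit 78) (nat_lit 456) (nat_lit 0) (XT.lf (nat_lit 0) (nat_lit 5029066600) (nat_lit 380) (nat_lit 4956080146) (nat_lit 0) (nat_lit 271083198) (nat_lit 109) (nat_lit 5) (nat_lit 114) (nat_lit 4) (nat_lit 109) (nat_lit 4) (nat_lit 314) (nat_lit 235) (nat_lit 231)) (XT.lf (nat_lit 0) (nat_lit 190595049) (nat_lit 456) (nat_lit 5477143259) (nat_lit 76) (nat_lit 4757147229) (nat_lit 103) (nat_lit 5) (nat_lit 109) (nat_lit 5) (nat_lit 104) (nat_lit 4) (nat_lit 315) (nat_lit 235) (nat_lit 230))))))))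
noncomputable def xc14 : XT := (XT.nd (nat_lit 2028) (nat_lit 1672) (nat_lit 0) (XT.nd (nat_lit 1014) (nat_lit 2128) (nat_lit 0) (XT.nd (nat_lit 468) (nat_lit 1748) (nat_lit 0) (XT.nd (nat_lit 234) (nat_lit 608) (nat_lit 0) (XT.nd (nat_lit 78) (nat_lit 684) (nat_lit 0) (XT.lf (nat_lit 0) (nat_lit 4452399513) (nat_lit 304) (nat_lit 1184504732) (nat_lit 380) (nat_lit 4962349230) (nat_lit 99) (nat_lit 5) (nat_lit 103) (nat_lit 5) (nat_lit 104) (nat_lit 4) (nat_lit 316) (nat_lit 235) (nat_lit 229)) (XT.nd (nat_lit 78) (nat_lit 304) (nat_lit 0) (XT.lf (nat_lit 0) (nat_lit 421669081) (nat_lit 380) (nat_lit 6966782880) (nat_lit 76) (nat_lit 3391219019) (nat_lit 94) (nat_lit 5) (nat_lit 99) (nat_lit 5) (nat_lit 95) (nat_lit 4) (nat_lit 317) (nat_lit 235) (nat_lit 228)) (XT.lf (nat_lit 0) (nat_lit 3001751413) (nat_lit 304) (nat_lit 2845257162) (nat_lit 380) (nat_lit 5118970019) (nat_lit 90) (nat_lit 5)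 (nat_lit 94) (nat_lit 5) (nat_lit 95) (nat_lit 4) (nat_lit 318) (nat_lit 235) (nat_lit 227)))) (XT.nd (nat_lit 78) (nat_lit 228) (nat_lit 0) (XT.lf (nat_lit 0) (nat_lit 225308689) (nat_lit 380) (nat_lit 9124291613) (nat_lit 76) (nat_lit 1809279141) (nat_lit 85) (nat_lit 5) (nat_lit 90) (nat_lit 5) (nat_lit 86) (nat_lit 4) (nat_lit 319) (nat_lit 235) (nat_lit 226)) (XT.nd (nat_lit 78) (nat_lit 0) (nat_lit 0) (XT.lf (nat_lit 0) (nat_lit 858750191) (nat_lit 228) (nat_lit 4761863622) (nat_lit 304) (nat_lit 5737143957) (nat_lit 82) (nat_lit 5) (nat_lit 85) (nat_lit 5) (nat_lit 86) (nat_lit 4) (nat_lit 320) (nat_lit 235) (nat_lit 225)) (XT.lf (nat_lit 0) (nat_lit 11084386298) (nat_lit 228) (nat_lit 38428676) (nat_lit 304) (nat_lit 440956714) (nat_lit 82) (nat_lit 5) (nat_lit 85) (nat_lit 5) (nat_lit 86) (nat_lit 4) (nat_lit 321) (nat_lit 235) (nat_lit 224))))) (XT.nd (nat_lit 234) (nat_lit 760) (nat_lit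 0) (XT.nd (nat_lit 78) (nat_lit 608) (nat_lit 0) (XT.lf (nat_lit 0) (nat_lit 4929061826) (nat_lit 380) (nat_lit 2049787770) (nat_lit 76) (nat_lit 4796917803) (nat_lit 77) (nat_lit 5) (nat_lit 82) (nat_lit 5) (nat_lit 78) (nat_lit 4) (nat_lit 322) (nat_lit 235) (nat_lit 223)) (XT.nd (nat_lit 78) (nat_lit 380) (nat_lit 0) (XT.lf (nat_lit 0) (nat_lit 8176937203) (nat_lit 228) (nat_lit 2221474442) (nat_lit 304) (nat_lit 1596833277) (nat_lit 74) (nat_lit 5) (nat_lit 77) (nat_lit 5) (nat_lit 78) (nat_lit 4) (nat_lit 323) (nat_lit 235) (nat_lit 222)) (XT.lf (nat_lit 0) (nat_lit 3722524671) (nat_lit 380) (nat_lit 5838630388) (nat_lit 76) (nat_lit 2660479150) (nat_lit 69) (nat_lit 5) (nat_lit 74) (nat_lit 5) (nat_lit 70) (nat_lit 4) (nat_lit 324) (nat_lit 235) (nat_lit 221)))) (XT.nd (nat_lit 156) (nat_lit 228) (nat_lit 0) (XT.nd (nat_lit 78) (nat_lit 304) (nat_lit 0) (XT.lf (nat_lit 0) (nat_lit 4344876155)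 (nat_lit 228) (nat_lit 4794746563) (nat_lit 304) (nat_lit 3315844034) (nat_lit 66) (nat_lit 5) (nat_lit 69) (nat_lit 5) (nat_lit 70) (nat_lit 4) (nat_lit 325) (nat_lit 235) (nat_lit 220)) (XT.lf (nat_lit 0) (nat_lit 1942260818) (nat_lit 304) (nat_lit 10639462102) (nat_lit 76) (nat_lit 115468104) (nat_lit 62) (nat_lit 5) (nat_lit 66) (nat_lit 5) (nat_lit 63) (nat_lit 4) (nat_lit 326) (nat_lit 235) (nat_lit 219))) (XT.nd (nat_lit 78) (nat_lit 228) (nat_lit 0) (XT.lf (nat_lit 0) (nat_lit 7294247363) (nat_lit 304) (nat_lit 529880652) (nat_lit 76) (nat_lit 5122032123) (nat_lit 62) (nat_lit 5) (nat_lit 66) (nat_lit 5) (nat_lit 63) (nat_lit 4) (nat_lit 327) (nat_lit 235) (nat_lit 218)) (XT.lf (nat_lit 0) (nat_lit 9844796938) (nat_lit 228) (nat_lit 2922558802) (nat_lit 304) (nat_lit 436084958) (nat_lit 59) (nat_lit 5) (nat_lit 62) (nat_lit 5) (nat_lit 63) (nat_lit 4) (nat_lit 328) (nat_lit 235) (nat_lit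 217)))))) (XT.nd (nat_lit 468) (nat_lit 836) (nat_lit 0) (XT.nd (nat_lit 234) (nat_lit 456) (nat_lit 0) (XT.nd (nat_lit 78) (nat_lit 532) (nat_lit 0) (XT.lf (nat_lit 0) (nat_lit 4832086862) (nat_lit 304) (nat_lit 6519996302) (nat_lit 76) (nat_lit 2116554392) (nat_lit 55) (nat_lit 5) (nat_lit 59) (nat_lit 5) (nat_lit 56) (nat_lit 4) (nat_lit 329) (nat_lit 235) (nat_lit 216)) (XT.nd (nat_lit 78) (nat_lit 304) (nat_lit 0) (XT.lf (nat_lit 0) (nat_lit 3731153761) (nat_lit 228) (nat_lit 6487305714) (nat_lit 304) (nat_lit 3524001135) (nat_lit 52) (nat_lit 5) (nat_lit 55) (nat_lit 5) (nat_lit 56) (nat_lit 4) (nat_lit 330) (nat_lit 235) (nat_lit 215)) (XT.lf (nat_lit 0) (nat_lit 182617486) (nat_lit 228) (nat_lit 1482664578) (nat_lit 304) (nat_lit 12360113204) (nat_lit 48) (nat_lit 5) (nat_lit 51) (nat_lit 5) (nat_lit 52) (nat_lit 5) (nat_lit 331) (nat_lit 235) (nat_lit 214)))) (XT.nd (nat_lit 78) (nat_lit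 456) (nat_lit 0) (XT.lf (nat_lit 0) (nat_lit 6956753173) (nat_lit 304) (nat_lit 3706499900) (nat_lit 76) (nat_lit 3653257072) (nat_lit 48) (nat_lit 5) (nat_lit 52) (nat_lit 5) (nat_lit 49) (nat_lit 4) (nat_lit 332) (nat_lit 235) (nat_lit 213)) (XT.nd (nat_lit 78) (nat_lit 304) (nat_lit 0) (XT.lf (nat_lit 0) (nat_lit 6653369479) (nat_lit 152) (nat_lit 5711550122) (nat_lit 228) (nat_lit 2252324298) (nat_lit 46) (nat_lit 5) (nat_lit 48) (nat_lit 5) (nat_lit 49) (nat_lit 4) (nat_lit 333) (nat_lit 235) (nat_lit 212)) (XT.lf (nat_lit 0) (nat_lit 2302194775) (nat_lit 228) (nat_lit 612852160) (nat_lit 304) (nat_lit 12012680995) (nat_lit 42) (nat_lit 5) (nat_lit 45) (nat_lit 5) (nat_lit 46) (nat_lit 5) (nat_lit 334) (nat_lit 235) (nat_lit 211))))) (XT.nd (nat_lit 234) (nat_lit 380) (nat_lit 0) (XT.nd (nat_lit 78) (nat_lit 456) (nat_lit 0) (XT.lf (nat_lit 0) (nat_lit 8198733908) (nat_lit 304) (nat_lit 2462248095)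 (nat_lit 76) (nat_lit 4586449907) (nat_lit 42) (nat_lit 5) (nat_lit 46) (nat_lit 5) (nat_lit 43) (nat_lit 4) (nat_lit 335) (nat_lit 235) (nat_lit 210)) (XT.nd (nat_lit 78) (nat_lit 304) (nat_lit 0) (XT.lf (nat_lit 0) (nat_lit 7955180577) (nat_lit 152) (nat_lit 5651479345) (nat_lit 228) (nat_lit 1970792403) (nat_lit 40) (nat_lit 5) (nat_lit 42) (nat_lit 5) (nat_lit 43) (nat_lit 4) (nat_lit 336) (nat_lit 235) (nat_lit 209)) (XT.lf (nat_lit 0) (nat_lit 2665723473) (nat_lit 228) (nat_lit 496095563) (nat_lit 304) (nat_lit 12756266691) (nat_lit 36) (nat_lit 5) (nat_lit 39) (nat_lit 5) (nat_lit 40) (nat_lit 5) (nat_lit 337) (nat_lit 235) (nat_lit 208)))) (XT.nd (nat_lit 156) (nat_lit 228) (nat_lit 0) (XT.nd (nat_lit 78) (nat_lit 152) (nat_lit 0) (XT.lf (nat_lit 0) (nat_lit 8417294099) (nat_lit 304) (nat_lit 3094714482) (nat_lit 76) (nat_lit 4756792656) (nat_lit 36) (nat_lit 5) (nat_lit 40) (nat_lit 5)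 (nat_lit 37) (nat_lit 4) (nat_lit 338) (nat_lit 235) (nat_lit 207)) (XT.lf (nat_lit 0) (nat_lit 7315900476) (nat_lit 152) (nat_lit 6480165432) (nat_lit 228) (nat_lit 2834695439) (nat_lit 34) (nat_lit 5) (nat_lit 36) (nat_lit 5) (nat_lit 37) (nat_lit 4) (nat_lit 339) (nat_lit 235) (nat_lit 206))) (XT.nd (nat_lit 78) (nat_lit 0) (nat_lit 0) (XT.lf (nat_lit 0) (nat_lit 931765869) (nat_lit 152) (nat_lit 1313207210) (nat_lit 228) (nat_lit 14759479441) (nat_lit 31) (nat_lit 5) (nat_lit 33) (nat_lit 5) (nat_lit 34) (nat_lit 5) (nat_lit 340) (nat_lit 235) (nat_lit 205)) (XT.lf (nat_lit 0) (nat_lit 7445250927) (nat_lit 228) (nat_lit 5962389670) (nat_lit 76) (nat_lit 3981237518) (nat_lit 31) (nat_lit 5) (nat_lit 34) (nat_lit 5) (nat_lit 32) (nat_lit 4) (nat_lit 341) (nat_lit 235) (nat_lit 204))))))) (XT.nd (nat_lit 1014) (nat_lit 532) (nat_lit 0) (XT.nd (nat_lit 468) (nat_lit 532) (nat_lit 0) (XT.nd (nat_lit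 234) (nat_lit 228) (nat_lit 0) (XT.nd (nat_lit 78) (nat_lit 228) (nat_lit 0) (XT.lf (nat_lit 0) (nat_lit 4361588755) (nat_lit 152) (nat_lit 8396413884) (nat_lit 228) (nat_lit 5027736636) (nat_lit 29) (nat_lit 5) (nat_lit 31) (nat_lit 5) (nat_lit 32) (nat_lit 4) (nat_lit 342) (nat_lit 235) (nat_lit 203)) (XT.nd (nat_lit 78) (nat_lit 228) (nat_lit 0) (XT.lf (nat_lit 0) (nat_lit 14941091850) (nat_lit 152) (nat_lit 3250280115) (nat_lit 228) (nat_lit 3940773) (nat_lit 29) (nat_lit 5) (nat_lit 31) (nat_lit 5) (nat_lit 32) (nat_lit 4) (nat_lit 343) (nat_lit 235) (nat_lit 202)) (XT.lf (nat_lit 0) (nat_lit 5085245822) (nat_lit 228) (nat_lit 11482559626) (nat_lit 76) (nat_lit 2049076416) (nat_lit 26) (nat_lit 5) (nat_lit 29) (nat_lit 5) (nat_lit 27) (nat_lit 4) (nat_lit 344) (nat_lit 235) (nat_lit 201)))) (XT.nd (nat_lit 78) (nat_lit 228) (nat_lit 0) (XT.lf (nat_lit 0) (nat_lit 10294637428) (nat_lit 228)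 (nat_lit 1325447890) (nat_lit 76) (nat_lit 7431689369) (nat_lit 26) (nat_lit 5) (nat_lit 29) (nat_lit 5) (nat_lit 27) (nat_lit 4) (nat_lit 345) (nat_lit 235) (nat_lit 200)) (XT.nd (nat_lit 78) (nat_lit 76) (nat_lit 0) (XT.lf (nat_lit 0) (nat_lit 9127987191) (nat_lit 152) (nat_lit 6517461274) (nat_lit 228) (nat_lit 3854591045) (nat_lit 24) (nat_lit 5) (nat_lit 26) (nat_lit 5) (nat_lit 27) (nat_lit 4) (nat_lit 346) (nat_lit 235) (nat_lit 199)) (XT.lf (nat_lit 0) (nat_lit 1115104344) (nat_lit 228) (nat_lit 183250317) (nat_lit 76) (nat_lit 18664554140) (nat_lit 23) (nat_lit 5) (nat_lit 26) (nat_lit 5) (nat_lit 24) (nat_lit 5) (nat_lit 347) (nat_lit 235) (nat_lit 198))))) (XT.nd (nat_lit 234) (nat_lit 304) (nat_lit 0) (XT.nd (nat_lit 78) (nat_lit 76) (nat_lit 0) (XT.lf (nat_lit 0) (nat_lit 6204263304) (nat_lit 228) (nat_lit 10168848216) (nat_lit 76) (nat_lit 4065614086) (nat_lit 21) (nat_lit 5) (nat_lit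 24) (nat_lit 5) (nat_lit 22) (nat_lit 4) (nat_lit 348) (nat_lit 235) (nat_lit 197)) (XT.nd (nat_lit 78) (nat_lit 76) (nat_lit 0) (XT.lf (nat_lit 0) (nat_lit 11385820059) (nat_lit 228) (nat_lit 20791080) (nat_lit 76) (nat_lit 9523436409) (nat_lit 21) (nat_lit 5) (nat_lit 24) (nat_lit 5) (nat_lit 22) (nat_lit 4) (nat_lit 349) (nat_lit 235) (nat_lit 196)) (XT.lf (nat_lit 0) (nat_lit 10449910329) (nat_lit 76) (nat_lit 6272596242) (nat_lit 152) (nat_lit 4713633274) (nat_lit 20) (nat_lit 5) (nat_lit 21) (nat_lit 5) (nat_lit 22) (nat_lit 4) (nat_lit 350) (nat_lit 235) (nat_lit 195)))) (XT.nd (nat_lit 156) (nat_lit 76) (nat_lit 0) (XT.nd (nat_lit 78) (nat_lit 152) (nat_lit 0) (XT.lf (nat_lit 0) (nat_lit 191180911) (nat_lit 152) (nat_lit 841936607) (nat_lit 76) (nat_lit 20925631842) (nat_lit 19) (nat_lit 5) (nat_lit 21) (nat_lit 5) (nat_lit 20) (nat_lit 5) (nat_lit 351) (nat_lit 235) (nat_lit 194)) (XT.lf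 (nat_lit 0) (nat_lit 5204898805) (nat_lit 228) (nat_lit 12938644318) (nat_lit 76) (nat_lit 4352377425) (nat_lit 17) (nat_lit 5) (nat_lit 20) (nat_lit 5) (nat_lit 18) (nat_lit 4) (nat_lit 352) (nat_lit 235) (nat_lit 193))) (XT.nd (nat_lit 78) (nat_lit 76) (nat_lit 0) (XT.lf (nat_lit 0) (nat_lit 10317100134) (nat_lit 228) (nat_lit 2889595400) (nat_lit 76) (nat_lit 9843571755) (nat_lit 17) (nat_lit 5) (nat_lit 20) (nat_lit 5) (nat_lit 18) (nat_lit 4) (nat_lit 353) (nat_lit 235) (nat_lit 192)) (XT.lf (nat_lit 0) (nat_lit 7448372946) (nat_lit 76) (nat_lit 8119955278) (nat_lit 152) (nat_lit 8053224214) (nat_lit 16) (nat_lit 5) (nat_lit 17) (nat_lit 5) (nat_lit 18) (nat_lit 4) (nat_lit 354) (nat_lit 235) (nat_lit 191)))))) (XT.nd (nat_lit 468) (nat_lit 228) (nat_lit 0) (XT.nd (nat_lit 234) (nat_lit 76) (nat_lit 0) (XT.nd (nat_lit 78) (nat_lit 228) (nat_lit 0) (XT.lf (nat_lit 0) (nat_lit 18027583288)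 (nat_lit 76) (nat_lit 2907513679) (nat_lit 152) (nat_lit 3275739699) (nat_lit 16) (nat_lit 5) (nat_lit 17) (nat_lit 5) (nat_lit 18) (nat_lit 4) (nat_lit 355) (nat_lit 235) (nat_lit 190)) (XT.nd (nat_lit 78) (nat_lit 0) (nat_lit 0) (XT.lf (nat_lit 0) (nat_lit 1605468909) (nat_lit 228) (nat_lit 20791613457) (nat_lit 76) (nat_lit 2420883548) (nat_lit 13) (nat_lit 5) (nat_lit 16) (nat_lit 5) (nat_lit 14) (nat_lit 4) (nat_lit 356) (nat_lit 235) (nat_lit 189)) (XT.lf (nat_lit 0) (nat_lit 6591066553) (nat_lit 228) (nat_lit 10962512121) (nat_lit 76) (nat_lit 7889267207) (nat_lit 13) (nat_lit 5) (nat_lit 16) (nat_lit 5) (nat_lit 14) (nat_lit 4) (nat_lit 357) (nat_lit 235) (nat_lit 188)))) (XT.nd (nat_lit 78) (nat_lit 76) (nat_lit 0) (XT.lf (nat_lit 0) (nat_lit 11668545287) (nat_lit 228) (nat_lit 940768090) (nat_lit 76) (nat_lit 13478331089) (nat_lit 13) (nat_lit 5) (nat_lit 16) (nat_lit 5) (nat_lit 14)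 (nat_lit 4) (nat_lit 358) (nat_lit 235) (nat_lit 187)) (XT.nd (nat_lit 78) (nat_lit 0) (nat_lit 0) (XT.lf (nat_lit 0) (nat_lit 9405733382) (nat_lit 76) (nat_lit 7497676621) (nat_lit 152) (nat_lit 9848293719) (nat_lit 12) (nat_lit 5) (nat_lit 13) (nat_lit 5) (nat_lit 14) (nat_lit 4) (nat_lit 359) (nat_lit 235) (nat_lit 186)) (XT.lf (nat_lit 0) (nat_lit 19977864777) (nat_lit 76) (nat_lit 2268821489) (nat_lit 152) (nat_lit 5189988601) (nat_lit 12) (nat_lit 5) (nat_lit 13) (nat_lit 5) (nat_lit 14) (nat_lit 4) (nat_lit 360) (nat_lit 235) (nat_lit 185))))) (XT.nd (nat_lit 36504) (nat_lit 0) (nat_lit 8816) (XT.nd (nat_lit 78) (nat_lit 76) (nat_lit 0) (XT.lf (nat_lit 0) (nat_lit 2643786865) (nat_lit 152) (nat_lit 25090200283) (nat_lit 152) (nat_lit 408550387) (nat_lit 10) (nat_lit 4) (nat_lit 12) (nat_lit 5) (nat_lit 12) (nat_lit 4) (nat_lit 361) (nat_lit 235) (nat_lit 184)) (XT.nd (nat_lit 78) (nat_lit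 0) (nat_lit 0) (XT.lf (nat_lit 0) (nat_lit 4470060491) (nat_lit 228) (nat_lit 15856621720) (nat_lit 76) (nat_lit 8542064271) (nat_lit 9) (nat_lit 5) (nat_lit 12) (nat_lit 5) (nat_lit 10) (nat_lit 4) (nat_lit 362) (nat_lit 235) (nat_lit 183)) (XT.lf (nat_lit 0) (nat_lit 9437968425) (nat_lit 228) (nat_lit 6019985570) (nat_lit 76) (nat_lit 14159779535) (nat_lit 9) (nat_lit 5) (nat_lit 12) (nat_lit 5) (nat_lit 10) (nat_lit 4) (nat_lit 363) (nat_lit 235) (nat_lit 182)))) (XT.nd (nat_lit 156) (nat_lit 836) (nat_lit 0) (XT.nd (nat_lit 78) (nat_lit 456) (nat_lit 0) (XT.lf (nat_lit 0) (nat_lit 1276561943) (nat_lit 532) (nat_lit 2125079405) (nat_lit 0) (nat_lit 1276561943) (nat_lit 142) (nat_lit 5) (nat_lit 149) (nat_lit 4) (nat_lit 142) (nat_lit 4) (nat_lit 308) (nat_lit 236) (nat_lit 236)) (XT.lf (nat_lit 0) (nat_lit 5303355304) (nat_lit 456) (nat_lit 2774842087) (nat_lit 456) (nat_lit 1416468026) (nat_lit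 136) (nat_lit 4) (nat_lit 142) (nat_lit 5) (nat_lit 142) (nat_lit 4) (nat_lit 309) (nat_lit 236) (nat_lit 235))) (XT.nd (nat_lit 78) (nat_lit 380) (nat_lit 0) (XT.lf (nat_lit 0) (nat_lit 4017244821) (nat_lit 456) (nat_lit 4228049987) (nat_lit 0) (nat_lit 1392554794) (nat_lit 130) (nat_lit 5) (nat_lit 136) (nat_lit 4) (nat_lit 130) (nat_lit 4) (nat_lit 310) (nat_lit 236) (nat_lit 234)) (XT.lf (nat_lit 0) (nat_lit 5425142732) (nat_lit 380) (nat_lit 4120531581) (nat_lit 380) (nat_lit 240549561) (nat_lit 125) (nat_lit 4) (nat_lit 130) (nat_lit 5) (nat_lit 130) (nat_lit 4) (nat_lit 311) (nat_lit 236) (nat_lit 233))))))))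
noncomputable def xc15 : XT := (XT.nd (nat_lit 2028) (nat_lit 2280) (nat_lit 0) (XT.nd (nat_lit 1014) (nat_lit 2280) (nat_lit 0) (XT.nd (nat_lit 468) (nat_lit 1900) (nat_lit 0) (XT.nd (nat_lit 234) (nat_lit 1140) (nat_lit 0) (XT.nd (nat_lit 78) (nat_lit 760) (nat_lit 0) (XT.lf (nat_lit 0) (nat_lit 5166103240) (nat_lit 456) (nat_lit 4606293505) (nat_lit 0) (nat_lit 167365878) (nat_lit 119) (nat_lit 5) (nat_lit 125) (nat_lit 4) (nat_lit 119) (nat_lit 4) (nat_lit 312) (nat_lit 236) (nat_lit 232)) (XT.nd (nat_lit 78) (nat_lit 304) (nat_lit 0) (XT.lf (nat_lit 0) (nat_lit 588150879) (nat_lit 456) (nat_lit 4970705033) (nat_lit 76) (nat_lit 4539775818) (nat_lit 113) (nat_lit 5) (nat_lit 119) (nat_lit 5) (nat_lit 114) (nat_lit 4) (nat_lit 313) (nat_lit 236) (nat_lit 231)) (XT.lf (nat_lit 0) (nat_lit 4800378792) (nat_lit 304) (nat_lit 1182489374) (nat_lit 380) (nat_lit 4280118180) (nat_lit 109) (nat_lit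 5) (nat_lit 113) (nat_lit 5) (nat_lit 114) (nat_lit 4) (nat_lit 314) (nat_lit 236) (nat_lit 230)))) (XT.nd (nat_lit 78) (nat_lit 684) (nat_lit 0) (XT.lf (nat_lit 0) (nat_lit 1052077007) (nat_lit 456) (nat_lit 6088977724) (nat_lit 76) (nat_lit 3291968659) (nat_lit 103) (nat_lit 5) (nat_lit 109) (nat_lit 5) (nat_lit 104) (nat_lit 4) (nat_lit 315) (nat_lit 236) (nat_lit 229)) (XT.nd (nat_lit 78) (nat_lit 380) (nat_lit 0) (XT.lf (nat_lit 0) (nat_lit 3740644571) (nat_lit 304) (nat_lit 2692818943) (nat_lit 380) (nat_lit 4175266634) (nat_lit 99) (nat_lit 5) (nat_lit 103) (nat_lit 5) (nat_lit 104) (nat_lit 4) (nat_lit 316) (nat_lit 236) (nat_lit 228)) (XT.lf (nat_lit 0) (nat_lit 1123512636) (nat_lit 380) (nat_lit 7794638046) (nat_lit 76) (nat_lit 1872431514) (nat_lit 94) (nat_lit 5) (nat_lit 99) (nat_lit 5) (nat_lit 95) (nat_lit 4) (nat_lit 317) (nat_lit 236) (nat_lit 227))))) (XT.nd (nat_lit 234) (nat_lit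 1216) (nat_lit 0) (XT.nd (nat_lit 78) (nat_lit 380) (nat_lit 0) (XT.lf (nat_lit 0) (nat_lit 2072208692) (nat_lit 304) (nat_lit 4412018942) (nat_lit 380) (nat_lit 4493991970) (nat_lit 90) (nat_lit 5) (nat_lit 94) (nat_lit 5) (nat_lit 95) (nat_lit 4) (nat_lit 318) (nat_lit 236) (nat_lit 226)) (XT.nd (nat_lit 78) (nat_lit 0) (nat_lit 0) (XT.lf (nat_lit 0) (nat_lit 767020386) (nat_lit 380) (nat_lit 10175829768) (nat_lit 76) (nat_lit 229726042) (nat_lit 85) (nat_lit 5) (nat_lit 90) (nat_lit 5) (nat_lit 86) (nat_lit 4) (nat_lit 319) (nat_lit 236) (nat_lit 225)) (XT.lf (nat_lit 0) (nat_lit 6099798267) (nat_lit 380) (nat_lit 292428688) (nat_lit 76) (nat_lit 4980512586) (nat_lit 85) (nat_lit 5) (nat_lit 90) (nat_lit 5) (nat_lit 86) (nat_lit 4) (nat_lit 320) (nat_lit 236) (nat_lit 224)))) (XT.nd (nat_lit 156) (nat_lit 608) (nat_lit 0) (XT.nd (nat_lit 78) (nat_lit 380) (nat_lit 0) (XT.lf (nat_lit 0) (nat_lit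 9842376963) (nat_lit 228) (nat_lit 1701841211) (nat_lit 304) (nat_lit 35724378) (nat_lit 82) (nat_lit 5) (nat_lit 85) (nat_lit 5) (nat_lit 86) (nat_lit 4) (nat_lit 321) (nat_lit 236) (nat_lit 223)) (XT.lf (nat_lit 0) (nat_lit 5254463120) (nat_lit 380) (nat_lit 3420036111) (nat_lit 76) (nat_lit 3118908595) (nat_lit 77) (nat_lit 5) (nat_lit 82) (nat_lit 5) (nat_lit 78) (nat_lit 4) (nat_lit 322) (nat_lit 236) (nat_lit 222))) (XT.nd (nat_lit 78) (nat_lit 380) (nat_lit 0) (XT.lf (nat_lit 0) (nat_lit 6702659333) (nat_lit 228) (nat_lit 3957810693) (nat_lit 304) (nat_lit 1353713110) (nat_lit 74) (nat_lit 5) (nat_lit 77) (nat_lit 5) (nat_lit 78) (nat_lit 4) (nat_lit 323) (nat_lit 236) (nat_lit 221)) (XT.lf (nat_lit 0) (nat_lit 3887411804) (nat_lit 380) (nat_lit 7447136256) (nat_lit 76) (nat_lit 907523120) (nat_lit 69) (nat_lit 5) (nat_lit 74) (nat_lit 5) (nat_lit 70) (nat_lit 4) (nat_lit 324) (nat_lit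 236) (nat_lit 220)))))) (XT.nd (nat_lit 468) (nat_lit 988) (nat_lit 0) (XT.nd (nat_lit 234) (nat_lit 760) (nat_lit 0) (XT.nd (nat_lit 78) (nat_lit 304) (nat_lit 0) (XT.lf (nat_lit 0) (nat_lit 2630319443) (nat_lit 228) (nat_lit 6610745577) (nat_lit 304) (nat_lit 3236136180) (nat_lit 66) (nat_lit 5) (nat_lit 69) (nat_lit 5) (nat_lit 70) (nat_lit 4) (nat_lit 325) (nat_lit 236) (nat_lit 219)) (XT.nd (nat_lit 78) (nat_lit 0) (nat_lit 0) (XT.lf (nat_lit 0) (nat_lit 214589293) (nat_lit 228) (nat_lit 1741912281) (nat_lit 304) (nat_lit 10763729188) (nat_lit 62) (nat_lit 5) (nat_lit 65) (nat_lit 5) (nat_lit 66) (nat_lit 5) (nat_lit 326) (nat_lit 236) (nat_lit 218)) (XT.lf (nat_lit 0) (nat_lit 7246263831) (nat_lit 304) (nat_lit 2467167899) (nat_lit 76) (nat_lit 3257039044) (nat_lit 62) (nat_lit 5) (nat_lit 66) (nat_lit 5) (nat_lit 63) (nat_lit 4) (nat_lit 327) (nat_lit 236) (nat_lit 217)))) (XT.nd (nat_lit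 78) (nat_lit 532) (nat_lit 0) (XT.lf (nat_lit 0) (nat_lit 7800683760) (nat_lit 228) (nat_lit 4855985022) (nat_lit 304) (nat_lit 572362265) (nat_lit 59) (nat_lit 5) (nat_lit 62) (nat_lit 5) (nat_lit 63) (nat_lit 4) (nat_lit 328) (nat_lit 236) (nat_lit 216)) (XT.nd (nat_lit 78) (nat_lit 228) (nat_lit 0) (XT.lf (nat_lit 0) (nat_lit 4621764231) (nat_lit 304) (nat_lit 8710797280) (nat_lit 76) (nat_lit 163225149) (nat_lit 55) (nat_lit 5) (nat_lit 59) (nat_lit 5) (nat_lit 56) (nat_lit 4) (nat_lit 329) (nat_lit 236) (nat_lit 215)) (XT.lf (nat_lit 0) (nat_lit 1431298932) (nat_lit 228) (nat_lit 8513776707) (nat_lit 304) (nat_lit 3825818997) (nat_lit 52) (nat_lit 5) (nat_lit 55) (nat_lit 5) (nat_lit 56) (nat_lit 4) (nat_lit 330) (nat_lit 236) (nat_lit 214))))) (XT.nd (nat_lit 234) (nat_lit 532) (nat_lit 0) (XT.nd (nat_lit 78) (nat_lit 380) (nat_lit 0) (XT.lf (nat_lit 0) (nat_lit 1318670321) (nat_lit 304)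 (nat_lit 2224372450) (nat_lit 76) (nat_lit 10511823317) (nat_lit 51) (nat_lit 5) (nat_lit 55) (nat_lit 5) (nat_lit 52) (nat_lit 5) (nat_lit 331) (nat_lit 236) (nat_lit 213)) (XT.nd (nat_lit 78) (nat_lit 152) (nat_lit 0) (XT.lf (nat_lit 0) (nat_lit 6535155245) (nat_lit 304) (nat_lit 6237094372) (nat_lit 76) (nat_lit 1575252970) (nat_lit 48) (nat_lit 5) (nat_lit 52) (nat_lit 5) (nat_lit 49) (nat_lit 4) (nat_lit 332) (nat_lit 236) (nat_lit 212)) (XT.lf (nat_lit 0) (nat_lit 4012651662) (nat_lit 152) (nat_lit 7868012197) (nat_lit 228) (nat_lit 2768846900) (nat_lit 46) (nat_lit 5) (nat_lit 48) (nat_lit 5) (nat_lit 49) (nat_lit 4) (nat_lit 333) (nat_lit 236) (nat_lit 211)))) (XT.nd (nat_lit 156) (nat_lit 228) (nat_lit 0) (XT.nd (nat_lit 78) (nat_lit 228) (nat_lit 0) (XT.lf (nat_lit 0) (nat_lit 2345365957) (nat_lit 228) (nat_lit 472513184) (nat_lit 76) (nat_lit 12143401612) (nat_lit 45) (nat_lit 5) (nat_lit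 48) (nat_lit 5) (nat_lit 46) (nat_lit 5) (nat_lit 334) (nat_lit 236) (nat_lit 210)) (XT.lf (nat_lit 0) (nat_lit 7567262235) (nat_lit 304) (nat_lit 5336892800) (nat_lit 76) (nat_lit 2378085158) (nat_lit 42) (nat_lit 5) (nat_lit 46) (nat_lit 5) (nat_lit 43) (nat_lit 4) (nat_lit 335) (nat_lit 236) (nat_lit 209))) (XT.nd (nat_lit 78) (nat_lit 76) (nat_lit 0) (XT.lf (nat_lit 0) (nat_lit 4969160690) (nat_lit 152) (nat_lit 7943586968) (nat_lit 228) (nat_lit 2700780838) (nat_lit 40) (nat_lit 5) (nat_lit 42) (nat_lit 5) (nat_lit 43) (nat_lit 4) (nat_lit 336) (nat_lit 236) (nat_lit 208)) (XT.lf (nat_lit 0) (nat_lit 2381538101) (nat_lit 228) (nat_lit 458219623) (nat_lit 76) (nat_lit 13115714450) (nat_lit 39) (nat_lit 5) (nat_lit 42) (nat_lit 5) (nat_lit 40) (nat_lit 5) (nat_lit 337) (nat_lit 236) (nat_lit 207))))))) (XT.nd (nat_lit 1014) (nat_lit 836) (nat_lit 0) (XT.nd (nat_lit 468) (nat_lit 684) (nat_lit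 0) (XT.nd (nat_lit 234) (nat_lit 304) (nat_lit 0) (XT.nd (nat_lit 78) (nat_lit 228) (nat_lit 0) (XT.lf (nat_lit 0) (nat_lit 7576799035) (nat_lit 304) (nat_lit 6318087284) (nat_lit 76) (nat_lit 2412523275) (nat_lit 36) (nat_lit 5) (nat_lit 40) (nat_lit 5) (nat_lit 37) (nat_lit 4) (nat_lit 338) (nat_lit 236) (nat_lit 206)) (XT.nd (nat_lit 78) (nat_lit 76) (nat_lit 0) (XT.lf (nat_lit 0) (nat_lit 3979714704) (nat_lit 152) (nat_lit 8913454678) (nat_lit 228) (nat_lit 3777465466) (nat_lit 34) (nat_lit 5) (nat_lit 36) (nat_lit 5) (nat_lit 37) (nat_lit 4) (nat_lit 339) (nat_lit 236) (nat_lit 205)) (XT.lf (nat_lit 0) (nat_lit 1268241535) (nat_lit 228) (nat_lit 2518882040) (nat_lit 76) (nat_lit 13258267680) (nat_lit 33) (nat_lit 5) (nat_lit 36) (nat_lit 5) (nat_lit 34) (nat_lit 5) (nat_lit 340) (nat_lit 236) (nat_lit 204)))) (XT.nd (nat_lit 78) (nat_lit 152) (nat_lit 0) (XT.lf (nat_lit 0) (nat_lit 6396054165)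 (nat_lit 228) (nat_lit 9539614493) (nat_lit 76) (nat_lit 1495613314) (nat_lit 31) (nat_lit 5) (nat_lit 34) (nat_lit 5) (nat_lit 32) (nat_lit 4) (nat_lit 341) (nat_lit 236) (nat_lit 203)) (XT.nd (nat_lit 78) (nat_lit 0) (nat_lit 0) (XT.lf (nat_lit 0) (nat_lit 669923603) (nat_lit 152) (nat_lit 10976348898) (nat_lit 228) (nat_lit 6183136652) (nat_lit 29) (nat_lit 5) (nat_lit 31) (nat_lit 5) (nat_lit 32) (nat_lit 4) (nat_lit 342) (nat_lit 236) (nat_lit 202)) (XT.lf (nat_lit 0) (nat_lit 11184474374) (nat_lit 152) (nat_lit 5857304346) (nat_lit 228) (nat_lit 1197976067) (nat_lit 29) (nat_lit 5) (nat_lit 31) (nat_lit 5) (nat_lit 32) (nat_lit 4) (nat_lit 343) (nat_lit 236) (nat_lit 201))))) (XT.nd (nat_lit 234) (nat_lit 304) (nat_lit 0) (XT.nd (nat_lit 78) (nat_lit 152) (nat_lit 0) (XT.lf (nat_lit 0) (nat_lit 3239943095) (nat_lit 152) (nat_lit 591054458) (nat_lit 228) (nat_lit 14832013058) (nat_lit 26)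 (nat_lit 5) (nat_lit 28) (nat_lit 5) (nat_lit 29) (nat_lit 5) (nat_lit 344) (nat_lit 236) (nat_lit 200)) (XT.nd (nat_lit 78) (nat_lit 152) (nat_lit 0) (XT.lf (nat_lit 0) (nat_lit 9000035748) (nat_lit 228) (nat_lit 5325224273) (nat_lit 76) (nat_lit 4773464259) (nat_lit 26) (nat_lit 5) (nat_lit 29) (nat_lit 5) (nat_lit 27) (nat_lit 4) (nat_lit 345) (nat_lit 236) (nat_lit 199)) (XT.lf (nat_lit 0) (nat_lit 5012973696) (nat_lit 152) (nat_lit 9275703367) (nat_lit 228) (nat_lit 5259568808) (nat_lit 24) (nat_lit 5) (nat_lit 26) (nat_lit 5) (nat_lit 27) (nat_lit 4) (nat_lit 346) (nat_lit 236) (nat_lit 198)))) (XT.nd (nat_lit 156) (nat_lit 76) (nat_lit 0) (XT.nd (nat_lit 78) (nat_lit 228) (nat_lit 0) (XT.lf (nat_lit 0) (nat_lit 15611853956) (nat_lit 152) (nat_lit 4089542590) (nat_lit 228) (nat_lit 310574546) (nat_lit 24) (nat_lit 5) (nat_lit 26) (nat_lit 5) (nat_lit 27) (nat_lit 4) (nat_lit 347) (nat_lit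 236) (nat_lit 197)) (XT.lf (nat_lit 0) (nat_lit 4702023114) (nat_lit 228) (nat_lit 14531352843) (nat_lit 76) (nat_lit 1256077321) (nat_lit 21) (nat_lit 5) (nat_lit 24) (nat_lit 5) (nat_lit 22) (nat_lit 4) (nat_lit 348) (nat_lit 236) (nat_lit 196))) (XT.nd (nat_lit 78) (nat_lit 76) (nat_lit 0) (XT.lf (nat_lit 0) (nat_lit 9850001202) (nat_lit 228) (nat_lit 4441842452) (nat_lit 76) (nat_lit 6689615138) (nat_lit 21) (nat_lit 5) (nat_lit 24) (nat_lit 5) (nat_lit 22) (nat_lit 4) (nat_lit 349) (nat_lit 236) (nat_lit 195)) (XT.lf (nat_lit 0) (nat_lit 5912508617) (nat_lit 76) (nat_lit 9212118630) (nat_lit 152) (nat_lit 6364176705) (nat_lit 20) (nat_lit 5) (nat_lit 21) (nat_lit 5) (nat_lit 22) (nat_lit 4) (nat_lit 350) (nat_lit 236) (nat_lit 194)))))) (XT.nd (nat_lit 546) (nat_lit 304) (nat_lit 0) (XT.nd (nat_lit 234) (nat_lit 304) (nat_lit 0) (XT.nd (nat_lit 78) (nat_lit 228) (nat_lit 0) (XT.lf (nat_lit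 0) (nat_lit 16524774650) (nat_lit 76) (nat_lit 3997827967) (nat_lit 152) (nat_lit 1489487599) (nat_lit 20) (nat_lit 5) (nat_lit 21) (nat_lit 5) (nat_lit 22) (nat_lit 4) (nat_lit 351) (nat_lit 236) (nat_lit 193)) (XT.nd (nat_lit 78) (nat_lit 0) (nat_lit 0) (XT.lf (nat_lit 0) (nat_lit 3461939404) (nat_lit 228) (nat_lit 17726521971) (nat_lit 76) (nat_lit 1362640725) (nat_lit 17) (nat_lit 5) (nat_lit 20) (nat_lit 5) (nat_lit 18) (nat_lit 4) (nat_lit 352) (nat_lit 236) (nat_lit 192)) (XT.lf (nat_lit 0) (nat_lit 8543254499) (nat_lit 228) (nat_lit 7731777876) (nat_lit 76) (nat_lit 6831044645) (nat_lit 17) (nat_lit 5) (nat_lit 20) (nat_lit 5) (nat_lit 18) (nat_lit 4) (nat_lit 353) (nat_lit 236) (nat_lit 191)))) (XT.nd (nat_lit 156) (nat_lit 228) (nat_lit 0) (XT.nd (nat_lit 78) (nat_lit 0) (nat_lit 0) (XT.lf (nat_lit 0) (nat_lit 2488416624) (nat_lit 76) (nat_lit 11243876004) (nat_lit 152) (nat_lit 9946323489)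 (nat_lit 16) (nat_lit 5) (nat_lit 17) (nat_lit 5) (nat_lit 18) (nat_lit 4) (nat_lit 354) (nat_lit 236) (nat_lit 190)) (XT.lf (nat_lit 0) (nat_lit 13015759208) (nat_lit 76) (nat_lit 6053852165) (nat_lit 152) (nat_lit 5198887825) (nat_lit 16) (nat_lit 5) (nat_lit 17) (nat_lit 5) (nat_lit 18) (nat_lit 4) (nat_lit 355) (nat_lit 236) (nat_lit 189))) (XT.nd (nat_lit 78) (nat_lit 228) (nat_lit 0) (XT.lf (nat_lit 0) (nat_lit 23756697265) (nat_lit 76) (nat_lit 752310186) (nat_lit 152) (nat_lit 368251584) (nat_lit 16) (nat_lit 5) (nat_lit 17) (nat_lit 5) (nat_lit 18) (nat_lit 4) (nat_lit 356) (nat_lit 236) (nat_lit 188)) (XT.lf (nat_lit 0) (nat_lit 4581453147) (nat_lit 228) (nat_lit 16226794114) (nat_lit 76) (nat_lit 4694763117) (nat_lit 13) (nat_lit 5) (nat_lit 16) (nat_lit 5) (nat_lit 14) (nat_lit 4) (nat_lit 357) (nat_lit 236) (nat_lit 187))))) (XT.nd (nat_lit 234) (nat_lit 228) (nat_lit 0) (XT.nd (nat_lit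 78) (nat_lit 76) (nat_lit 0) (XT.lf (nat_lit 0) (nat_lit 9631342403) (nat_lit 228) (nat_lit 6253943070) (nat_lit 76) (nat_lit 10263084120) (nat_lit 13) (nat_lit 5) (nat_lit 16) (nat_lit 5) (nat_lit 14) (nat_lit 4) (nat_lit 358) (nat_lit 236) (nat_lit 186)) (XT.nd (nat_lit 78) (nat_lit 0) (nat_lit 0) (XT.lf (nat_lit 0) (nat_lit 3973849348) (nat_lit 76) (nat_lit 10830304478) (nat_lit 152) (nat_lit 12009524672) (nat_lit 12) (nat_lit 5) (nat_lit 13) (nat_lit 5) (nat_lit 14) (nat_lit 4) (nat_lit 359) (nat_lit 236) (nat_lit 185)) (XT.lf (nat_lit 0) (nat_lit 14499281951) (nat_lit 76) (nat_lit 5621839209) (nat_lit 152) (nat_lit 7378062993) (nat_lit 12) (nat_lit 5) (nat_lit 13) (nat_lit 5) (nat_lit 14) (nat_lit 4) (nat_lit 360) (nat_lit 236) (nat_lit 184)))) (XT.nd (nat_lit 156) (nat_lit 0) (nat_lit 0) (XT.nd (nat_lit 78) (nat_lit 228) (nat_lit 0) (XT.lf (nat_lit 0) (nat_lit 25248440106) (nat_lit 76) (nat_lit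 297305832) (nat_lit 152) (nat_lit 2660562494) (nat_lit 12) (nat_lit 5) (nat_lit 13) (nat_lit 5) (nat_lit 14) (nat_lit 4) (nat_lit 361) (nat_lit 236) (nat_lit 183)) (XT.lf (nat_lit 0) (nat_lit 2200674787) (nat_lit 228) (nat_lit 21590397052) (nat_lit 76) (nat_lit 5142683853) (nat_lit 9) (nat_lit 5) (nat_lit 12) (nat_lit 5) (nat_lit 10) (nat_lit 4) (nat_lit 362) (nat_lit 236) (nat_lit 182))) (XT.nd (nat_lit 36192) (nat_lit 0) (nat_lit 11096) (XT.lf (nat_lit 0) (nat_lit 7143931944) (nat_lit 228) (nat_lit 11797772818) (nat_lit 76) (nat_lit 10741538472) (nat_lit 9) (nat_lit 5) (nat_lit 12) (nat_lit 5) (nat_lit 10) (nat_lit 4) (nat_lit 363) (nat_lit 236) (nat_lit 181)) (XT.lf (nat_lit 0) (nat_lit 1144266571) (nat_lit 532) (nat_lit 2258038084) (nat_lit 0) (nat_lit 1144266571) (nat_lit 155) (nat_lit 5) (nat_lit 162) (nat_lit 4) (nat_lit 155) (nat_lit 4) (nat_lit 306) (nat_lit 237) (nat_lit 237))))))))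
noncomputable def xc16 : XT := (XT.nd (nat_lit 2028) (nat_lit 2660) (nat_lit 0) (XT.nd (nat_lit 1014) (nat_lit 3116) (nat_lit 0) (XT.nd (nat_lit 468) (nat_lit 2280) (nat_lit 0) (XT.nd (nat_lit 234) (nat_lit 1292) (nat_lit 0) (XT.nd (nat_lit 78) (nat_lit 988) (nat_lit 0) (XT.lf (nat_lit 0) (nat_lit 4832810858) (nat_lit 456) (nat_lit 2908695142) (nat_lit 456) (nat_lit 1481587354) (nat_lit 149) (nat_lit 4) (nat_lit 155) (nat_lit 5) (nat_lit 155) (nat_lit 4) (nat_lit 307) (nat_lit 237) (nat_lit 236)) (XT.nd (nat_lit 78) (nat_lit 456) (nat_lit 0) (XT.lf (nat_lit 0) (nat_lit 3885453363) (nat_lit 532) (nat_lit 4344388855) (nat_lit 0) (nat_lit 1127954021) (nat_lit 142) (nat_lit 5) (nat_lit 149) (nat_lit 4) (nat_lit 142) (nat_lit 4) (nat_lit 308) (nat_lit 237) (nat_lit 235)) (XT.lf (nat_lit 0) (nat_lit 5115171721) (nat_lit 456) (nat_lit 4229283038) (nat_lit 456) (nat_lit 152973928) (nat_lit 136) (nat_lit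 4) (nat_lit 142) (nat_lit 5) (nat_lit 142) (nat_lit 4) (nat_lit 309) (nat_lit 237) (nat_lit 234)))) (XT.nd (nat_lit 78) (nat_lit 836) (nat_lit 0) (XT.lf (nat_lit 0) (nat_lit 5125237816) (nat_lit 380) (nat_lit 63843747) (nat_lit 456) (nat_lit 4452918627) (nat_lit 130) (nat_lit 5) (nat_lit 135) (nat_lit 5) (nat_lit 136) (nat_lit 4) (nat_lit 310) (nat_lit 237) (nat_lit 233)) (XT.nd (nat_lit 78) (nat_lit 380) (nat_lit 0) (XT.lf (nat_lit 0) (nat_lit 848680626) (nat_lit 456) (nat_lit 4756068697) (nat_lit 76) (nat_lit 4186877944) (nat_lit 124) (nat_lit 5) (nat_lit 130) (nat_lit 5) (nat_lit 125) (nat_lit 4) (nat_lit 311) (nat_lit 237) (nat_lit 232)) (XT.lf (nat_lit 0) (nat_lit 4841618927) (nat_lit 380) (nat_lit 1344151164) (nat_lit 456) (nat_lit 3760738749) (nat_lit 119) (nat_lit 5) (nat_lit 124) (nat_lit 5) (nat_lit 125) (nat_lit 4) (nat_lit 312) (nat_lit 237) (nat_lit 231))))) (XT.nd (nat_lit 234) (nat_lit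 1064) (nat_lit 0) (XT.nd (nat_lit 78) (nat_lit 760) (nat_lit 0) (XT.lf (nat_lit 0) (nat_lit 1513664534) (nat_lit 456) (nat_lit 5572208086) (nat_lit 76) (nat_lit 3020899924) (nat_lit 113) (nat_lit 5) (nat_lit 119) (nat_lit 5) (nat_lit 114) (nat_lit 4) (nat_lit 313) (nat_lit 237) (nat_lit 230)) (XT.nd (nat_lit 78) (nat_lit 456) (nat_lit 0) (XT.lf (nat_lit 0) (nat_lit 4100727816) (nat_lit 304) (nat_lit 2742826689) (nat_lit 380) (nat_lit 3428911609) (nat_lit 109) (nat_lit 5) (nat_lit 113) (nat_lit 5) (nat_lit 114) (nat_lit 4) (nat_lit 314) (nat_lit 237) (nat_lit 229)) (XT.lf (nat_lit 0) (nat_lit 1816991372) (nat_lit 456) (nat_lit 6903056159) (nat_lit 76) (nat_lit 1723888033) (nat_lit 103) (nat_lit 5) (nat_lit 109) (nat_lit 5) (nat_lit 104) (nat_lit 4) (nat_lit 315) (nat_lit 237) (nat_lit 228)))) (XT.nd (nat_lit 156) (nat_lit 380) (nat_lit 0) (XT.nd (nat_lit 78) (nat_lit 380) (nat_lit 0) (XT.lf (nat_lit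 0) (nat_lit 2826631424) (nat_lit 304) (nat_lit 4307266927) (nat_lit 380) (nat_lit 3487072752) (nat_lit 99) (nat_lit 5) (nat_lit 103) (nat_lit 5) (nat_lit 104) (nat_lit 4) (nat_lit 316) (nat_lit 237) (nat_lit 227)) (XT.lf (nat_lit 0) (nat_lit 1727475244) (nat_lit 380) (nat_lit 8829006630) (nat_lit 76) (nat_lit 247793326) (nat_lit 94) (nat_lit 5) (nat_lit 99) (nat_lit 5) (nat_lit 95) (nat_lit 4) (nat_lit 317) (nat_lit 237) (nat_lit 226))) (XT.nd (nat_lit 78) (nat_lit 76) (nat_lit 0) (XT.lf (nat_lit 0) (nat_lit 936049433) (nat_lit 304) (nat_lit 6087881306) (nat_lit 380) (nat_lit 3969303276) (nat_lit 90) (nat_lit 5) (nat_lit 94) (nat_lit 5) (nat_lit 95) (nat_lit 4) (nat_lit 318) (nat_lit 237) (nat_lit 225)) (XT.lf (nat_lit 0) (nat_lit 1220649663) (nat_lit 380) (nat_lit 255646214) (nat_lit 76) (nat_lit 9712544630) (nat_lit 89) (nat_lit 5) (nat_lit 94) (nat_lit 5) (nat_lit 90) (nat_lit 5) (nat_lit 319)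 (nat_lit 237) (nat_lit 224)))))) (XT.nd (nat_lit 468) (nat_lit 1368) (nat_lit 0) (XT.nd (nat_lit 234) (nat_lit 836) (nat_lit 0) (XT.nd (nat_lit 78) (nat_lit 608) (nat_lit 0) (XT.lf (nat_lit 0) (nat_lit 6486856549) (nat_lit 380) (nat_lit 1640724395) (nat_lit 76) (nat_lit 3262787795) (nat_lit 85) (nat_lit 5) (nat_lit 90) (nat_lit 5) (nat_lit 86) (nat_lit 4) (nat_lit 320) (nat_lit 237) (nat_lit 223)) (XT.nd (nat_lit 78) (nat_lit 304) (nat_lit 0) (XT.lf (nat_lit 0) (nat_lit 265777321) (nat_lit 304) (nat_lit 3208863557) (nat_lit 76) (nat_lit 8124190412) (nat_lit 81) (nat_lit 5) (nat_lit 85) (nat_lit 5) (nat_lit 82) (nat_lit 5) (nat_lit 321) (nat_lit 237) (nat_lit 222)) (XT.lf (nat_lit 0) (nat_lit 5480471478) (nat_lit 380) (nat_lit 5003320945) (nat_lit 76) (nat_lit 1330030926) (nat_lit 77) (nat_lit 5) (nat_lit 82) (nat_lit 5) (nat_lit 78) (nat_lit 4) (nat_lit 322) (nat_lit 237) (nat_lit 221)))) (XT.nd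 (nat_lit 78) (nat_lit 608) (nat_lit 0) (XT.lf (nat_lit 0) (nat_lit 5015013427) (nat_lit 228) (nat_lit 5808302860) (nat_lit 304) (nat_lit 1212575642) (nat_lit 74) (nat_lit 5) (nat_lit 77) (nat_lit 5) (nat_lit 78) (nat_lit 4) (nat_lit 323) (nat_lit 237) (nat_lit 220)) (XT.nd (nat_lit 78) (nat_lit 228) (nat_lit 0) (XT.lf (nat_lit 0) (nat_lit 2985333437) (nat_lit 304) (nat_lit 972028200) (nat_lit 380) (nat_lit 8307815322) (nat_lit 69) (nat_lit 5) (nat_lit 73) (nat_lit 5) (nat_lit 74) (nat_lit 5) (nat_lit 324) (nat_lit 237) (nat_lit 219)) (XT.lf (nat_lit 0) (nat_lit 697442990) (nat_lit 228) (nat_lit 8543922180) (nat_lit 304) (nat_lit 3260362553) (nat_lit 66) (nat_lit 5) (nat_lit 69) (nat_lit 5) (nat_lit 70) (nat_lit 4) (nat_lit 325) (nat_lit 237) (nat_lit 218))))) (XT.nd (nat_lit 234) (nat_lit 836) (nat_lit 0) (XT.nd (nat_lit 78) (nat_lit 456) (nat_lit 0) (XT.lf (nat_lit 0) (nat_lit 1881015076) (nat_lit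 304) (nat_lit 1825978080) (nat_lit 76) (nat_lit 9038825243) (nat_lit 65) (nat_lit 5) (nat_lit 69) (nat_lit 5) (nat_lit 66) (nat_lit 5) (nat_lit 326) (nat_lit 237) (nat_lit 217)) (XT.nd (nat_lit 78) (nat_lit 228) (nat_lit 0) (XT.lf (nat_lit 0) (nat_lit 7096494467) (nat_lit 304) (nat_lit 4625008312) (nat_lit 76) (nat_lit 1276066933) (nat_lit 62) (nat_lit 5) (nat_lit 66) (nat_lit 5) (nat_lit 63) (nat_lit 4) (nat_lit 327) (nat_lit 237) (nat_lit 216)) (XT.lf (nat_lit 0) (nat_lit 5535447945) (nat_lit 228) (nat_lit 6908752128) (nat_lit 304) (nat_lit 813208794) (nat_lit 59) (nat_lit 5) (nat_lit 62) (nat_lit 5) (nat_lit 63) (nat_lit 4) (nat_lit 328) (nat_lit 237) (nat_lit 215)))) (XT.nd (nat_lit 156) (nat_lit 532) (nat_lit 0) (XT.nd (nat_lit 78) (nat_lit 0) (nat_lit 0) (XT.lf (nat_lit 0) (nat_lit 2385470298) (nat_lit 228) (nat_lit 1934519893) (nat_lit 304) (nat_lit 9205510987) (nat_lit 55) (nat_lit 5)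 (nat_lit 58) (nat_lit 5) (nat_lit 59) (nat_lit 5) (nat_lit 329) (nat_lit 237) (nat_lit 214)) (XT.lf (nat_lit 0) (nat_lit 9574721265) (nat_lit 304) (nat_lit 1080739275) (nat_lit 76) (nat_lit 3146543228) (nat_lit 55) (nat_lit 5) (nat_lit 59) (nat_lit 5) (nat_lit 56) (nat_lit 4) (nat_lit 330) (nat_lit 237) (nat_lit 213))) (XT.nd (nat_lit 78) (nat_lit 228) (nat_lit 0) (XT.lf (nat_lit 0) (nat_lit 869133700) (nat_lit 304) (nat_lit 4855356834) (nat_lit 76) (nat_lit 8362625483) (nat_lit 51) (nat_lit 5) (nat_lit 55) (nat_lit 5) (nat_lit 52) (nat_lit 5) (nat_lit 331) (nat_lit 237) (nat_lit 212)) (XT.lf (nat_lit 0) (nat_lit 5380276952) (nat_lit 228) (nat_lit 632347625) (nat_lit 304) (nat_lit 8368609082) (nat_lit 48) (nat_lit 5) (nat_lit 51) (nat_lit 5) (nat_lit 52) (nat_lit 5) (nat_lit 332) (nat_lit 237) (nat_lit 211))))))) (XT.nd (nat_lit 1014) (nat_lit 988) (nat_lit 0) (XT.nd (nat_lit 468) (nat_lit 760)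 (nat_lit 0) (XT.nd (nat_lit 234) (nat_lit 456) (nat_lit 0) (XT.nd (nat_lit 78) (nat_lit 304) (nat_lit 0) (XT.lf (nat_lit 0) (nat_lit 1141954109) (nat_lit 152) (nat_lit 10149248073) (nat_lit 228) (nat_lit 3393398910) (nat_lit 46) (nat_lit 5) (nat_lit 48) (nat_lit 5) (nat_lit 49) (nat_lit 4) (nat_lit 333) (nat_lit 237) (nat_lit 210)) (XT.nd (nat_lit 78) (nat_lit 228) (nat_lit 0) (XT.lf (nat_lit 0) (nat_lit 1685330023) (nat_lit 228) (nat_lit 3446948191) (nat_lit 76) (nat_lit 9865067121) (nat_lit 45) (nat_lit 5) (nat_lit 48) (nat_lit 5) (nat_lit 46) (nat_lit 5) (nat_lit 334) (nat_lit 237) (nat_lit 209)) (XT.lf (nat_lit 0) (nat_lit 6829448072) (nat_lit 304) (nat_lit 8444369225) (nat_lit 76) (nat_lit 46062118) (nat_lit 42) (nat_lit 5) (nat_lit 46) (nat_lit 5) (nat_lit 43) (nat_lit 4) (nat_lit 335) (nat_lit 237) (nat_lit 208)))) (XT.nd (nat_lit 78) (nat_lit 304) (nat_lit 0) (XT.lf (nat_lit 0) (nat_lit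 1749346115) (nat_lit 152) (nat_lit 10362882821) (nat_lit 228) (nat_lit 3540211393) (nat_lit 40) (nat_lit 5) (nat_lit 42) (nat_lit 5) (nat_lit 43) (nat_lit 4) (nat_lit 336) (nat_lit 237) (nat_lit 207)) (XT.nd (nat_lit 78) (nat_lit 228) (nat_lit 0) (XT.lf (nat_lit 0) (nat_lit 1511797620) (nat_lit 228) (nat_lit 3781034885) (nat_lit 76) (nat_lit 10702504516) (nat_lit 39) (nat_lit 5) (nat_lit 42) (nat_lit 5) (nat_lit 40) (nat_lit 5) (nat_lit 337) (nat_lit 237) (nat_lit 206)) (XT.lf (nat_lit 0) (nat_lit 6570127076) (nat_lit 228) (nat_lit 58639083) (nat_lit 304) (nat_lit 9720091246) (nat_lit 36) (nat_lit 5) (nat_lit 39) (nat_lit 5) (nat_lit 40) (nat_lit 5) (nat_lit 338) (nat_lit 237) (nat_lit 205))))) (XT.nd (nat_lit 234) (nat_lit 380) (nat_lit 0) (XT.nd (nat_lit 78) (nat_lit 228) (nat_lit 0) (XT.lf (nat_lit 0) (nat_lit 405529414) (nat_lit 152) (nat_lit 11476466280) (nat_lit 228) (nat_lit 4831366397)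 (nat_lit 34) (nat_lit 5) (nat_lit 36) (nat_lit 5) (nat_lit 37) (nat_lit 4) (nat_lit 339) (nat_lit 237) (nat_lit 204)) (XT.nd (nat_lit 78) (nat_lit 152) (nat_lit 0) (XT.lf (nat_lit 0) (nat_lit 189059333) (nat_lit 228) (nat_lit 6195446558) (nat_lit 76) (nat_lit 10704547342) (nat_lit 33) (nat_lit 5) (nat_lit 36) (nat_lit 5) (nat_lit 34) (nat_lit 5) (nat_lit 340) (nat_lit 237) (nat_lit 203)) (XT.lf (nat_lit 0) (nat_lit 4110863893) (nat_lit 152) (nat_lit 1133591422) (nat_lit 228) (nat_lit 12231952322) (nat_lit 31) (nat_lit 5) (nat_lit 33) (nat_lit 5) (nat_lit 34) (nat_lit 5) (nat_lit 341) (nat_lit 237) (nat_lit 202)))) (XT.nd (nat_lit 156) (nat_lit 228) (nat_lit 0) (XT.nd (nat_lit 78) (nat_lit 152) (nat_lit 0) (XT.lf (nat_lit 0) (nat_lit 10445522642) (nat_lit 228) (nat_lit 3221532252) (nat_lit 76) (nat_lit 4208477852) (nat_lit 31) (nat_lit 5) (nat_lit 34) (nat_lit 5) (nat_lit 32) (nat_lit 4) (nat_lit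 342) (nat_lit 237) (nat_lit 201)) (XT.lf (nat_lit 0) (nat_lit 7187145541) (nat_lit 152) (nat_lit 8595928729) (nat_lit 228) (nat_lit 2503977675) (nat_lit 29) (nat_lit 5) (nat_lit 31) (nat_lit 5) (nat_lit 32) (nat_lit 4) (nat_lit 343) (nat_lit 237) (nat_lit 200))) (XT.nd (nat_lit 78) (nat_lit 152) (nat_lit 0) (XT.lf (nat_lit 0) (nat_lit 2485148698) (nat_lit 228) (nat_lit 900411097) (nat_lit 76) (nat_lit 15326070853) (nat_lit 28) (nat_lit 5) (nat_lit 31) (nat_lit 5) (nat_lit 29) (nat_lit 5) (nat_lit 344) (nat_lit 237) (nat_lit 199)) (XT.lf (nat_lit 0) (nat_lit 7594627799) (nat_lit 228) (nat_lit 9569367926) (nat_lit 76) (nat_lit 1984553150) (nat_lit 26) (nat_lit 5) (nat_lit 29) (nat_lit 5) (nat_lit 27) (nat_lit 4) (nat_lit 345) (nat_lit 237) (nat_lit 198)))))) (XT.nd (nat_lit 468) (nat_lit 532) (nat_lit 0) (XT.nd (nat_lit 234) (nat_lit 76) (nat_lit 0) (XT.nd (nat_lit 78) (nat_lit 228) (nat_lit 0)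 (XT.lf (nat_lit 0) (nat_lit 652153637) (nat_lit 152) (nat_lit 12168382408) (nat_lit 228) (nat_lit 6778802067) (nat_lit 24) (nat_lit 5) (nat_lit 26) (nat_lit 5) (nat_lit 27) (nat_lit 4) (nat_lit 346) (nat_lit 237) (nat_lit 197)) (XT.nd (nat_lit 78) (nat_lit 228) (nat_lit 0) (XT.lf (nat_lit 0) (nat_lit 11192515480) (nat_lit 152) (nat_lit 7006942892) (nat_lit 228) (nat_lit 1864293512) (nat_lit 24) (nat_lit 5) (nat_lit 26) (nat_lit 5) (nat_lit 27) (nat_lit 4) (nat_lit 347) (nat_lit 237) (nat_lit 196)) (XT.lf (nat_lit 0) (nat_lit 1388186986) (nat_lit 152) (nat_lit 1709463007) (nat_lit 228) (nat_lit 17445218463) (nat_lit 21) (nat_lit 5) (nat_lit 23) (nat_lit 5) (nat_lit 24) (nat_lit 5) (nat_lit 348) (nat_lit 237) (nat_lit 195)))) (XT.nd (nat_lit 78) (nat_lit 76) (nat_lit 0) (XT.lf (nat_lit 0) (nat_lit 8201928467) (nat_lit 228) (nat_lit 9110913612) (nat_lit 76) (nat_lit 3722917534) (nat_lit 21) (nat_lit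 5) (nat_lit 24) (nat_lit 5) (nat_lit 22) (nat_lit 4) (nat_lit 349) (nat_lit 237) (nat_lit 194)) (XT.nd (nat_lit 78) (nat_lit 0) (nat_lit 0) (XT.lf (nat_lit 0) (nat_lit 1125468643) (nat_lit 76) (nat_lit 12288354116) (nat_lit 152) (nat_lit 8130547959) (nat_lit 20) (nat_lit 5) (nat_lit 21) (nat_lit 5) (nat_lit 22) (nat_lit 4) (nat_lit 350) (nat_lit 237) (nat_lit 193)) (XT.lf (nat_lit 0) (nat_lit 11683444080) (nat_lit 76) (nat_lit 7097272323) (nat_lit 152) (nat_lit 3287573197) (nat_lit 20) (nat_lit 5) (nat_lit 21) (nat_lit 5) (nat_lit 22) (nat_lit 4) (nat_lit 351) (nat_lit 237) (nat_lit 192))))) (XT.nd (nat_lit 234) (nat_lit 304) (nat_lit 0) (XT.nd (nat_lit 78) (nat_lit 152) (nat_lit 0) (XT.lf (nat_lit 0) (nat_lit 1616700737) (nat_lit 152) (nat_lit 168650178) (nat_lit 76) (nat_lit 20823609215) (nat_lit 19) (nat_lit 5) (nat_lit 21) (nat_lit 5) (nat_lit 20) (nat_lit 5) (nat_lit 352) (nat_lit 237) (nat_lit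 191)) (XT.nd (nat_lit 78) (nat_lit 0) (nat_lit 0) (XT.lf (nat_lit 0) (nat_lit 6655320626) (nat_lit 228) (nat_lit 12826253775) (nat_lit 76) (nat_lit 3683224702) (nat_lit 17) (nat_lit 5) (nat_lit 20) (nat_lit 5) (nat_lit 18) (nat_lit 4) (nat_lit 353) (nat_lit 237) (nat_lit 190)) (XT.lf (nat_lit 0) (nat_lit 11799089065) (nat_lit 228) (nat_lit 2689882808) (nat_lit 76) (nat_lit 9249281572) (nat_lit 17) (nat_lit 5) (nat_lit 20) (nat_lit 5) (nat_lit 18) (nat_lit 4) (nat_lit 354) (nat_lit 237) (nat_lit 189)))) (XT.nd (nat_lit 156) (nat_lit 228) (nat_lit 0) (XT.nd (nat_lit 78) (nat_lit 0) (nat_lit 0) (XT.lf (nat_lit 0) (nat_lit 7751355602) (nat_lit 76) (nat_lit 9338763380) (nat_lit 152) (nat_lit 7238952888) (nat_lit 16) (nat_lit 5) (nat_lit 17) (nat_lit 5) (nat_lit 18) (nat_lit 4) (nat_lit 355) (nat_lit 237) (nat_lit 188)) (XT.lf (nat_lit 0) (nat_lit 18443403323) (nat_lit 76) (nat_lit 4058352289) (nat_lit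 152) (nat_lit 2436640571) (nat_lit 16) (nat_lit 5) (nat_lit 17) (nat_lit 5) (nat_lit 18) (nat_lit 4) (nat_lit 356) (nat_lit 237) (nat_lit 187))) (XT.nd (nat_lit 78) (nat_lit 0) (nat_lit 0) (XT.lf (nat_lit 0) (nat_lit 2455544699) (nat_lit 228) (nat_lit 21748257329) (nat_lit 76) (nat_lit 1362315859) (nat_lit 13) (nat_lit 5) (nat_lit 16) (nat_lit 5) (nat_lit 14) (nat_lit 4) (nat_lit 357) (nat_lit 237) (nat_lit 186)) (XT.lf (nat_lit 0) (nat_lit 7478648056) (nat_lit 228) (nat_lit 11822875204) (nat_lit 76) (nat_lit 6910498143) (nat_lit 13) (nat_lit 5) (nat_lit 16) (nat_lit 5) (nat_lit 14) (nat_lit 4) (nat_lit 358) (nat_lit 237) (nat_lit 185))))))))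
noncomputable def xc17 : XT := (XT.nd (nat_lit 37986) (nat_lit 0) (nat_lit 912) (XT.nd (nat_lit 36972) (nat_lit 0) (nat_lit 4560) (XT.nd (nat_lit 36426) (nat_lit 0) (nat_lit 8740) (XT.nd (nat_lit 234) (nat_lit 228) (nat_lit 0) (XT.nd (nat_lit 78) (nat_lit 76) (nat_lit 0) (XT.lf (nat_lit 0) (nat_lit 12599652884) (nat_lit 228) (nat_lit 1693286863) (nat_lit 76) (nat_lit 12585435024) (nat_lit 13) (nat_lit 5) (nat_lit 16) (nat_lit 5) (nat_lit 14) (nat_lit 4) (nat_lit 359) (nat_lit 237) (nat_lit 184)) (XT.nd (nat_lit 78) (nat_lit 0) (nat_lit 0) (XT.lf (nat_lit 0) (nat_lit 8764304214) (nat_lit 76) (nat_lit 9115633310) (nat_lit 152) (nat_lit 9684684647) (nat_lit 12) (nat_lit 5) (nat_lit 13) (nat_lit 5) (nat_lit 14) (nat_lit 4) (nat_lit 360) (nat_lit 237) (nat_lit 183)) (XT.lf (nat_lit 0) (nat_lit 19469444279) (nat_lit 76) (nat_lit 3810319335) (nat_lit 152) (nat_lit 4992486664) (nat_lit 12) (nat_lit 5)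 (nat_lit 13) (nat_lit 5) (nat_lit 14) (nat_lit 4) (nat_lit 361) (nat_lit 237) (nat_lit 182)))) (XT.nd (nat_lit 78) (nat_lit 76) (nat_lit 0) (XT.lf (nat_lit 0) (nat_lit 1414947596) (nat_lit 152) (nat_lit 27397442515) (nat_lit 152) (nat_lit 189316485) (nat_lit 10) (nat_lit 4) (nat_lit 12) (nat_lit 5) (nat_lit 12) (nat_lit 4) (nat_lit 362) (nat_lit 237) (nat_lit 181)) (XT.nd (nat_lit 36036) (nat_lit 0) (nat_lit 12160) (XT.lf (nat_lit 0) (nat_lit 4732490797) (nat_lit 228) (nat_lit 17835635611) (nat_lit 76) (nat_lit 7183578227) (nat_lit 9) (nat_lit 5) (nat_lit 12) (nat_lit 5) (nat_lit 10) (nat_lit 4) (nat_lit 363) (nat_lit 237) (nat_lit 180)) (XT.lf (nat_lit 0) (nat_lit 990973292) (nat_lit 532) (nat_lit 2440970539) (nat_lit 0) (nat_lit 990973292) (nat_lit 169) (nat_lit 5) (nat_lit 176) (nat_lit 4) (nat_lit 169) (nat_lit 4) (nat_lit 304) (nat_lit 238) (nat_lit 238))))) (XT.nd (nat_lit 234) (nat_lit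 1900) (nat_lit 0) (XT.nd (nat_lit 78) (nat_lit 988) (nat_lit 0) (XT.lf (nat_lit 0) (nat_lit 4255041538) (nat_lit 532) (nat_lit 3106078449) (nat_lit 532) (nat_lit 1606759007) (nat_lit 162) (nat_lit 4) (nat_lit 169) (nat_lit 5) (nat_lit 169) (nat_lit 4) (nat_lit 305) (nat_lit 238) (nat_lit 237)) (XT.nd (nat_lit 78) (nat_lit 456) (nat_lit 0) (XT.lf (nat_lit 0) (nat_lit 3691563379) (nat_lit 532) (nat_lit 4608438778) (nat_lit 0) (nat_lit 794534570) (nat_lit 155) (nat_lit 5) (nat_lit 162) (nat_lit 4) (nat_lit 155) (nat_lit 4) (nat_lit 306) (nat_lit 238) (nat_lit 236)) (XT.lf (nat_lit 0) (nat_lit 4648356663) (nat_lit 456) (nat_lit 4430039464) (nat_lit 456) (nat_lit 147469114) (nat_lit 149) (nat_lit 4) (nat_lit 155) (nat_lit 5) (nat_lit 155) (nat_lit 4) (nat_lit 307) (nat_lit 238) (nat_lit 235)))) (XT.nd (nat_lit 156) (nat_lit 836) (nat_lit 0) (XT.nd (nat_lit 78) (nat_lit 532) (nat_lit 0) (XT.lf (nat_lit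 0) (nat_lit 4732179255) (nat_lit 456) (nat_lit 396501719) (nat_lit 532) (nat_lit 4233233954) (nat_lit 142) (nat_lit 5) (nat_lit 148) (nat_lit 5) (nat_lit 149) (nat_lit 4) (nat_lit 308) (nat_lit 238) (nat_lit 234)) (XT.lf (nat_lit 0) (nat_lit 1003409448) (nat_lit 532) (nat_lit 4770918897) (nat_lit 76) (nat_lit 3728497267) (nat_lit 135) (nat_lit 5) (nat_lit 142) (nat_lit 5) (nat_lit 136) (nat_lit 4) (nat_lit 309) (nat_lit 238) (nat_lit 233))) (XT.nd (nat_lit 78) (nat_lit 456) (nat_lit 0) (XT.lf (nat_lit 0) (nat_lit 4640977494) (nat_lit 380) (nat_lit 1637184965) (nat_lit 456) (nat_lit 3370568929) (nat_lit 130) (nat_lit 5) (nat_lit 135) (nat_lit 5) (nat_lit 136) (nat_lit 4) (nat_lit 310) (nat_lit 238) (nat_lit 232)) (XT.lf (nat_lit 0) (nat_lit 1841261655) (nat_lit 456) (nat_lit 5347130312) (nat_lit 76) (nat_lit 2611383312) (nat_lit 124) (nat_lit 5) (nat_lit 130) (nat_lit 5) (nat_lit 125) (nat_lit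 4) (nat_lit 311) (nat_lit 238) (nat_lit 231)))))) (XT.nd (nat_lit 468) (nat_lit 1900) (nat_lit 0) (XT.nd (nat_lit 234) (nat_lit 1140) (nat_lit 0) (XT.nd (nat_lit 78) (nat_lit 760) (nat_lit 0) (XT.lf (nat_lit 0) (nat_lit 4154203376) (nat_lit 380) (nat_lit 2959386835) (nat_lit 456) (nat_lit 2842406414) (nat_lit 119) (nat_lit 5) (nat_lit 124) (nat_lit 5) (nat_lit 125) (nat_lit 4) (nat_lit 312) (nat_lit 238) (nat_lit 230)) (XT.nd (nat_lit 78) (nat_lit 304) (nat_lit 0) (XT.lf (nat_lit 0) (nat_lit 2344565623) (nat_lit 456) (nat_lit 6372369136) (nat_lit 76) (nat_lit 1400756475) (nat_lit 113) (nat_lit 5) (nat_lit 119) (nat_lit 5) (nat_lit 114) (nat_lit 4) (nat_lit 313) (nat_lit 238) (nat_lit 229)) (XT.lf (nat_lit 0) (nat_lit 3202404636) (nat_lit 304) (nat_lit 4407689596) (nat_lit 380) (nat_lit 2674618972) (nat_lit 109) (nat_lit 5) (nat_lit 113) (nat_lit 5) (nat_lit 114) (nat_lit 4) (nat_lit 314) (nat_lit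 238) (nat_lit 228)))) (XT.nd (nat_lit 78) (nat_lit 684) (nat_lit 0) (XT.lf (nat_lit 0) (nat_lit 2486006516) (nat_lit 456) (nat_lit 7920089895) (nat_lit 76) (nat_lit 51535181) (nat_lit 103) (nat_lit 5) (nat_lit 109) (nat_lit 5) (nat_lit 104) (nat_lit 4) (nat_lit 315) (nat_lit 238) (nat_lit 227)) (XT.nd (nat_lit 78) (nat_lit 380) (nat_lit 0) (XT.lf (nat_lit 0) (nat_lit 1709561419) (nat_lit 304) (nat_lit 6029259366) (nat_lit 380) (nat_lit 2897166250) (nat_lit 99) (nat_lit 5) (nat_lit 103) (nat_lit 5) (nat_lit 104) (nat_lit 4) (nat_lit 316) (nat_lit 238) (nat_lit 226)) (XT.lf (nat_lit 0) (nat_lit 740010313) (nat_lit 304) (nat_lit 1503838239) (nat_lit 380) (nat_lit 8576718124) (nat_lit 94) (nat_lit 5) (nat_lit 98) (nat_lit 5) (nat_lit 99) (nat_lit 5) (nat_lit 317) (nat_lit 238) (nat_lit 225))))) (XT.nd (nat_lit 234) (nat_lit 1216) (nat_lit 0) (XT.nd (nat_lit 78) (nat_lit 684) (nat_lit 0) (XT.lf (nat_lit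 0) (nat_lit 7469236656) (nat_lit 380) (nat_lit 402371815) (nat_lit 76) (nat_lit 3139373529) (nat_lit 94) (nat_lit 5) (nat_lit 99) (nat_lit 5) (nat_lit 95) (nat_lit 4) (nat_lit 318) (nat_lit 238) (nat_lit 224)) (XT.nd (nat_lit 78) (nat_lit 304) (nat_lit 0) (XT.lf (nat_lit 0) (nat_lit 1585386713) (nat_lit 380) (nat_lit 1703722901) (nat_lit 76) (nat_lit 7918601095) (nat_lit 89) (nat_lit 5) (nat_lit 94) (nat_lit 5) (nat_lit 90) (nat_lit 5) (nat_lit 319) (nat_lit 238) (nat_lit 223)) (XT.lf (nat_lit 0) (nat_lit 6776551289) (nat_lit 380) (nat_lit 3198577717) (nat_lit 76) (nat_lit 1435643275) (nat_lit 85) (nat_lit 5) (nat_lit 90) (nat_lit 5) (nat_lit 86) (nat_lit 4) (nat_lit 320) (nat_lit 238) (nat_lit 222)))) (XT.nd (nat_lit 156) (nat_lit 608) (nat_lit 0) (XT.nd (nat_lit 78) (nat_lit 304) (nat_lit 0) (XT.lf (nat_lit 0) (nat_lit 468189054) (nat_lit 304) (nat_lit 4892397951) (nat_lit 76) (nat_lit 6259910740)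 (nat_lit 81) (nat_lit 5) (nat_lit 85) (nat_lit 5) (nat_lit 82) (nat_lit 5) (nat_lit 321) (nat_lit 238) (nat_lit 221)) (XT.lf (nat_lit 0) (nat_lit 5032172504) (nat_lit 304) (nat_lit 578870288) (nat_lit 380) (nat_lit 6225913847) (nat_lit 77) (nat_lit 5) (nat_lit 81) (nat_lit 5) (nat_lit 82) (nat_lit 5) (nat_lit 322) (nat_lit 238) (nat_lit 220))) (XT.nd (nat_lit 78) (nat_lit 380) (nat_lit 0) (XT.lf (nat_lit 0) (nat_lit 3112524845) (nat_lit 228) (nat_lit 7774567877) (nat_lit 304) (nat_lit 1173297548) (nat_lit 74) (nat_lit 5) (nat_lit 77) (nat_lit 5) (nat_lit 78) (nat_lit 4) (nat_lit 323) (nat_lit 238) (nat_lit 219)) (XT.lf (nat_lit 0) (nat_lit 952196175) (nat_lit 304) (nat_lit 2980652823) (nat_lit 380) (nat_lit 8358114463) (nat_lit 69) (nat_lit 5) (nat_lit 73) (nat_lit 5) (nat_lit 74) (nat_lit 5) (nat_lit 324) (nat_lit 238) (nat_lit 218))))))) (XT.nd (nat_lit 1014) (nat_lit 1368) (nat_lit 0) (XT.nd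 (nat_lit 468) (nat_lit 1216) (nat_lit 0) (XT.nd (nat_lit 234) (nat_lit 532) (nat_lit 0) (XT.nd (nat_lit 78) (nat_lit 532) (nat_lit 0) (XT.lf (nat_lit 0) (nat_lit 9149973122) (nat_lit 380) (nat_lit 1436353742) (nat_lit 76) (nat_lit 1942551890) (nat_lit 69) (nat_lit 5) (nat_lit 74) (nat_lit 5) (nat_lit 70) (nat_lit 4) (nat_lit 325) (nat_lit 238) (nat_lit 217)) (XT.nd (nat_lit 78) (nat_lit 228) (nat_lit 0) (XT.lf (nat_lit 0) (nat_lit 1705791520) (nat_lit 304) (nat_lit 4083533423) (nat_lit 76) (nat_lit 6984850227) (nat_lit 65) (nat_lit 5) (nat_lit 69) (nat_lit 5) (nat_lit 66) (nat_lit 5) (nat_lit 326) (nat_lit 238) (nat_lit 216)) (XT.lf (nat_lit 0) (nat_lit 6016673067) (nat_lit 228) (nat_lit 833547278) (nat_lit 304) (nat_lit 6177152046) (nat_lit 62) (nat_lit 5) (nat_lit 65) (nat_lit 5) (nat_lit 66) (nat_lit 5) (nat_lit 327) (nat_lit 238) (nat_lit 215)))) (XT.nd (nat_lit 78) (nat_lit 304) (nat_lit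 0) (XT.lf (nat_lit 0) (nat_lit 3047110163) (nat_lit 228) (nat_lit 9082653803) (nat_lit 304) (nat_lit 1158834992) (nat_lit 59) (nat_lit 5) (nat_lit 62) (nat_lit 5) (nat_lit 63) (nat_lit 4) (nat_lit 328) (nat_lit 238) (nat_lit 214)) (XT.nd (nat_lit 78) (nat_lit 228) (nat_lit 0) (XT.lf (nat_lit 0) (nat_lit 3917364202) (nat_lit 304) (nat_lit 237934382) (nat_lit 76) (nat_lit 9402691226) (nat_lit 58) (nat_lit 5) (nat_lit 62) (nat_lit 5) (nat_lit 59) (nat_lit 5) (nat_lit 329) (nat_lit 238) (nat_lit 213)) (XT.lf (nat_lit 0) (nat_lit 9110734563) (nat_lit 304) (nat_lit 3799758967) (nat_lit 76) (nat_lit 925248421) (nat_lit 55) (nat_lit 5) (nat_lit 59) (nat_lit 5) (nat_lit 56) (nat_lit 4) (nat_lit 330) (nat_lit 238) (nat_lit 212))))) (XT.nd (nat_lit 234) (nat_lit 684) (nat_lit 0) (XT.nd (nat_lit 78) (nat_lit 228) (nat_lit 0) (XT.lf (nat_lit 0) (nat_lit 315093728) (nat_lit 304) (nat_lit 7715029646) (nat_lit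 76) (nat_lit 6092073575) (nat_lit 51) (nat_lit 5) (nat_lit 55) (nat_lit 5) (nat_lit 52) (nat_lit 5) (nat_lit 331) (nat_lit 238) (nat_lit 211)) (XT.nd (nat_lit 78) (nat_lit 0) (nat_lit 0) (XT.lf (nat_lit 0) (nat_lit 2410024615) (nat_lit 228) (nat_lit 2985744962) (nat_lit 304) (nat_lit 9021821956) (nat_lit 48) (nat_lit 5) (nat_lit 51) (nat_lit 5) (nat_lit 52) (nat_lit 5) (nat_lit 332) (nat_lit 238) (nat_lit 210)) (XT.lf (nat_lit 0) (nat_lit 10608753124) (nat_lit 304) (nat_lit 1935509649) (nat_lit 76) (nat_lit 2178028116) (nat_lit 48) (nat_lit 5) (nat_lit 52) (nat_lit 5) (nat_lit 49) (nat_lit 4) (nat_lit 333) (nat_lit 238) (nat_lit 209)))) (XT.nd (nat_lit 156) (nat_lit 228) (nat_lit 0) (XT.nd (nat_lit 78) (nat_lit 228) (nat_lit 0) (XT.lf (nat_lit 0) (nat_lit 919415026) (nat_lit 228) (nat_lit 6653902965) (nat_lit 76) (nat_lit 7462934146) (nat_lit 45) (nat_lit 5) (nat_lit 48) (nat_lit 5) (nat_lit 46)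 (nat_lit 5) (nat_lit 334) (nat_lit 238) (nat_lit 208)) (XT.lf (nat_lit 0) (nat_lit 3556806338) (nat_lit 228) (nat_lit 2443706552) (nat_lit 304) (nat_lit 9359552250) (nat_lit 42) (nat_lit 5) (nat_lit 45) (nat_lit 5) (nat_lit 46) (nat_lit 5) (nat_lit 335) (nat_lit 238) (nat_lit 207))) (XT.nd (nat_lit 78) (nat_lit 228) (nat_lit 0) (XT.lf (nat_lit 0) (nat_lit 11215487746) (nat_lit 304) (nat_lit 1684687961) (nat_lit 76) (nat_lit 2793824448) (nat_lit 42) (nat_lit 5) (nat_lit 46) (nat_lit 5) (nat_lit 43) (nat_lit 4) (nat_lit 336) (nat_lit 238) (nat_lit 206)) (XT.lf (nat_lit 0) (nat_lit 534529981) (nat_lit 228) (nat_lit 7340587188) (nat_lit 76) (nat_lit 8162944087) (nat_lit 39) (nat_lit 5) (nat_lit 42) (nat_lit 5) (nat_lit 40) (nat_lit 5) (nat_lit 337) (nat_lit 238) (nat_lit 205)))))) (XT.nd (nat_lit 468) (nat_lit 608) (nat_lit 0) (XT.nd (nat_lit 234) (nat_lit 380) (nat_lit 0) (XT.nd (nat_lit 78) (nat_lit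 152) (nat_lit 0) (XT.lf (nat_lit 0) (nat_lit 2896851937) (nat_lit 228) (nat_lit 2691849926) (nat_lit 304) (nat_lit 10804152324) (nat_lit 36) (nat_lit 5) (nat_lit 39) (nat_lit 5) (nat_lit 40) (nat_lit 5) (nat_lit 338) (nat_lit 238) (nat_lit 204)) (XT.nd (nat_lit 78) (nat_lit 152) (nat_lit 0) (XT.lf (nat_lit 0) (nat_lit 10783799835) (nat_lit 304) (nat_lit 3365058612) (nat_lit 76) (nat_lit 2609679190) (nat_lit 36) (nat_lit 5) (nat_lit 40) (nat_lit 5) (nat_lit 37) (nat_lit 4) (nat_lit 339) (nat_lit 238) (nat_lit 203)) (XT.lf (nat_lit 0) (nat_lit 7015529488) (nat_lit 152) (nat_lit 9107086735) (nat_lit 228) (nat_lit 1012849852) (nat_lit 34) (nat_lit 5) (nat_lit 36) (nat_lit 5) (nat_lit 37) (nat_lit 4) (nat_lit 340) (nat_lit 238) (nat_lit 202)))) (XT.nd (nat_lit 78) (nat_lit 152) (nat_lit 0) (XT.lf (nat_lit 0) (nat_lit 77372444) (nat_lit 152) (nat_lit 3915410613) (nat_lit 228) (nat_lit 13531444787) (nat_lit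 31) (nat_lit 5) (nat_lit 33) (nat_lit 5) (nat_lit 34) (nat_lit 5) (nat_lit 341) (nat_lit 238) (nat_lit 201)) (XT.nd (nat_lit 78) (nat_lit 152) (nat_lit 0) (XT.lf (nat_lit 0) (nat_lit 9139438101) (nat_lit 228) (nat_lit 7347015952) (nat_lit 76) (nat_lit 1438001621) (nat_lit 31) (nat_lit 5) (nat_lit 34) (nat_lit 5) (nat_lit 32) (nat_lit 4) (nat_lit 342) (nat_lit 238) (nat_lit 200)) (XT.lf (nat_lit 0) (nat_lit 2945612539) (nat_lit 152) (nat_lit 11468546239) (nat_lit 228) (nat_lit 3923086765) (nat_lit 29) (nat_lit 5) (nat_lit 31) (nat_lit 5) (nat_lit 32) (nat_lit 4) (nat_lit 343) (nat_lit 238) (nat_lit 199))))) (XT.nd (nat_lit 234) (nat_lit 380) (nat_lit 0) (XT.nd (nat_lit 78) (nat_lit 152) (nat_lit 0) (XT.lf (nat_lit 0) (nat_lit 1049758437) (nat_lit 228) (nat_lit 5242841562) (nat_lit 76) (nat_lit 12470119759) (nat_lit 28) (nat_lit 5) (nat_lit 31) (nat_lit 5) (nat_lit 29) (nat_lit 5) (nat_lit 344)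 (nat_lit 238) (nat_lit 198)) (XT.nd (nat_lit 78) (nat_lit 0) (nat_lit 0) (XT.lf (nat_lit 0) (nat_lit 5133413695) (nat_lit 152) (nat_lit 949939497) (nat_lit 228) (nat_lit 13117815465) (nat_lit 26) (nat_lit 5) (nat_lit 28) (nat_lit 5) (nat_lit 29) (nat_lit 5) (nat_lit 345) (nat_lit 238) (nat_lit 197)) (XT.lf (nat_lit 0) (nat_lit 11265442372) (nat_lit 228) (nat_lit 3906369811) (nat_lit 76) (nat_lit 4481034700) (nat_lit 26) (nat_lit 5) (nat_lit 29) (nat_lit 5) (nat_lit 27) (nat_lit 4) (nat_lit 346) (nat_lit 238) (nat_lit 196)))) (XT.nd (nat_lit 156) (nat_lit 152) (nat_lit 0) (XT.nd (nat_lit 78) (nat_lit 76) (nat_lit 0) (XT.lf (nat_lit 0) (nat_lit 6525264434) (nat_lit 152) (nat_lit 10060587691) (nat_lit 228) (nat_lit 3532591023) (nat_lit 24) (nat_lit 5) (nat_lit 26) (nat_lit 5) (nat_lit 27) (nat_lit 4) (nat_lit 347) (nat_lit 238) (nat_lit 195)) (XT.lf (nat_lit 0) (nat_lit 1410139711) (nat_lit 228)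 (nat_lit 3396727144) (nat_lit 76) (nat_lit 15791743003) (nat_lit 23) (nat_lit 5) (nat_lit 26) (nat_lit 5) (nat_lit 24) (nat_lit 5) (nat_lit 348) (nat_lit 238) (nat_lit 194))) (XT.nd (nat_lit 78) (nat_lit 0) (nat_lit 0) (XT.lf (nat_lit 0) (nat_lit 6440161789) (nat_lit 228) (nat_lit 14032084331) (nat_lit 76) (nat_lit 620751336) (nat_lit 21) (nat_lit 5) (nat_lit 24) (nat_lit 5) (nat_lit 22) (nat_lit 4) (nat_lit 349) (nat_lit 238) (nat_lit 193)) (XT.lf (nat_lit 0) (nat_lit 11614019556) (nat_lit 228) (nat_lit 3864041364) (nat_lit 76) (nat_lit 6124319353) (nat_lit 21) (nat_lit 5) (nat_lit 24) (nat_lit 5) (nat_lit 22) (nat_lit 4) (nat_lit 350) (nat_lit 238) (nat_lit 192))))))))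
noncomputable def xc18 : XT := (XT.nd (nat_lit 37830) (nat_lit 0) (nat_lit 1900) (XT.nd (nat_lit 36816) (nat_lit 0) (nat_lit 7600) (XT.nd (nat_lit 468) (nat_lit 532) (nat_lit 0) (XT.nd (nat_lit 234) (nat_lit 76) (nat_lit 0) (XT.nd (nat_lit 78) (nat_lit 228) (nat_lit 0) (XT.lf (nat_lit 0) (nat_lit 6589873678) (nat_lit 76) (nat_lit 10335441762) (nat_lit 152) (nat_lit 5202106331) (nat_lit 20) (nat_lit 5) (nat_lit 21) (nat_lit 5) (nat_lit 22) (nat_lit 4) (nat_lit 351) (nat_lit 238) (nat_lit 191)) (XT.nd (nat_lit 78) (nat_lit 228) (nat_lit 0) (XT.lf (nat_lit 0) (nat_lit 17306414369) (nat_lit 76) (nat_lit 5056245854) (nat_lit 152) (nat_lit 306241104) (nat_lit 20) (nat_lit 5) (nat_lit 21) (nat_lit 5) (nat_lit 22) (nat_lit 4) (nat_lit 352) (nat_lit 238) (nat_lit 190)) (XT.lf (nat_lit 0) (nat_lit 4651648862) (nat_lit 228) (nat_lit 18177474581) (nat_lit 76) (nat_lit 397361402) (nat_lit 17) (nat_lit 5) (nat_lit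 20) (nat_lit 5) (nat_lit 18) (nat_lit 4) (nat_lit 353) (nat_lit 238) (nat_lit 189)))) (XT.nd (nat_lit 78) (nat_lit 76) (nat_lit 0) (XT.lf (nat_lit 0) (nat_lit 9767152022) (nat_lit 228) (nat_lit 8090800219) (nat_lit 76) (nat_lit 5942561818) (nat_lit 17) (nat_lit 5) (nat_lit 20) (nat_lit 5) (nat_lit 18) (nat_lit 4) (nat_lit 354) (nat_lit 238) (nat_lit 188)) (XT.nd (nat_lit 78) (nat_lit 0) (nat_lit 0) (XT.lf (nat_lit 0) (nat_lit 2229772505) (nat_lit 76) (nat_lit 12765117635) (nat_lit 152) (nat_lit 9397717468) (nat_lit 16) (nat_lit 5) (nat_lit 17) (nat_lit 5) (nat_lit 18) (nat_lit 4) (nat_lit 355) (nat_lit 238) (nat_lit 187)) (XT.lf (nat_lit 0) (nat_lit 12874353880) (nat_lit 76) (nat_lit 7505221970) (nat_lit 152) (nat_lit 4622904106) (nat_lit 16) (nat_lit 5) (nat_lit 17) (nat_lit 5) (nat_lit 18) (nat_lit 4) (nat_lit 356) (nat_lit 238) (nat_lit 186))))) (XT.nd (nat_lit 234) (nat_lit 304) (nat_lit 0)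 (XT.nd (nat_lit 78) (nat_lit 152) (nat_lit 0) (XT.lf (nat_lit 0) (nat_lit 237796495) (nat_lit 152) (nat_lit 1888570514) (nat_lit 76) (nat_lit 23505330285) (nat_lit 15) (nat_lit 5) (nat_lit 17) (nat_lit 5) (nat_lit 16) (nat_lit 5) (nat_lit 357) (nat_lit 238) (nat_lit 185)) (XT.nd (nat_lit 78) (nat_lit 0) (nat_lit 0) (XT.lf (nat_lit 0) (nat_lit 5208581249) (nat_lit 228) (nat_lit 17652430550) (nat_lit 76) (nat_lit 3417643716) (nat_lit 13) (nat_lit 5) (nat_lit 16) (nat_lit 5) (nat_lit 14) (nat_lit 4) (nat_lit 358) (nat_lit 238) (nat_lit 184)) (XT.lf (nat_lit 0) (nat_lit 10304337797) (nat_lit 228) (nat_lit 7567586219) (nat_lit 76) (nat_lit 9073597924) (nat_lit 13) (nat_lit 5) (nat_lit 16) (nat_lit 5) (nat_lit 14) (nat_lit 4) (nat_lit 359) (nat_lit 238) (nat_lit 183)))) (XT.nd (nat_lit 156) (nat_lit 228) (nat_lit 0) (XT.nd (nat_lit 78) (nat_lit 0) (nat_lit 0) (XT.lf (nat_lit 0) (nat_lit 2767920421)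 (nat_lit 76) (nat_lit 12753256622) (nat_lit 152) (nat_lit 12111869058) (nat_lit 12) (nat_lit 5) (nat_lit 13) (nat_lit 5) (nat_lit 14) (nat_lit 4) (nat_lit 360) (nat_lit 238) (nat_lit 182)) (XT.lf (nat_lit 0) (nat_lit 13430324476) (nat_lit 76) (nat_lit 7466602261) (nat_lit 152) (nat_lit 7444236624) (nat_lit 12) (nat_lit 5) (nat_lit 13) (nat_lit 5) (nat_lit 14) (nat_lit 4) (nat_lit 361) (nat_lit 238) (nat_lit 181))) (XT.nd (nat_lit 78) (nat_lit 228) (nat_lit 0) (XT.lf (nat_lit 0) (nat_lit 24328373370) (nat_lit 76) (nat_lit 2058124014) (nat_lit 152) (nat_lit 2684990815) (nat_lit 12) (nat_lit 5) (nat_lit 13) (nat_lit 5) (nat_lit 14) (nat_lit 4) (nat_lit 362) (nat_lit 238) (nat_lit 180)) (XT.lf (nat_lit 0) (nat_lit 2201537899) (nat_lit 228) (nat_lit 24138849753) (nat_lit 76) (nat_lit 3482789900) (nat_lit 9) (nat_lit 5) (nat_lit 12) (nat_lit 5) (nat_lit 10) (nat_lit 4) (nat_lit 363) (nat_lit 238) (nat_lit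 179)))))) (XT.nd (nat_lit 468) (nat_lit 2964) (nat_lit 0) (XT.nd (nat_lit 234) (nat_lit 1596) (nat_lit 0) (XT.nd (nat_lit 78) (nat_lit 1064) (nat_lit 0) (XT.lf (nat_lit 0) (nat_lit 827247961) (nat_lit 608) (nat_lit 2652362861) (nat_lit 0) (nat_lit 827247961) (nat_lit 183) (nat_lit 5) (nat_lit 191) (nat_lit 4) (nat_lit 183) (nat_lit 4) (nat_lit 302) (nat_lit 239) (nat_lit 239)) (XT.nd (nat_lit 78) (nat_lit 532) (nat_lit 0) (XT.lf (nat_lit 0) (nat_lit 3614739156) (nat_lit 532) (nat_lit 3344335561) (nat_lit 532) (nat_lit 1769150556) (nat_lit 176) (nat_lit 4) (nat_lit 183) (nat_lit 5) (nat_lit 183) (nat_lit 4) (nat_lit 303) (nat_lit 239) (nat_lit 238)) (XT.lf (nat_lit 0) (nat_lit 3459222203) (nat_lit 532) (nat_lit 4972408091) (nat_lit 0) (nat_lit 415603736) (nat_lit 169) (nat_lit 5) (nat_lit 176) (nat_lit 4) (nat_lit 169) (nat_lit 4) (nat_lit 304) (nat_lit 239) (nat_lit 237)))) (XT.nd (nat_lit 78)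 (nat_lit 1064) (nat_lit 0) (XT.lf (nat_lit 0) (nat_lit 4074372975) (nat_lit 532) (nat_lit 4697778341) (nat_lit 532) (nat_lit 198509931) (nat_lit 162) (nat_lit 4) (nat_lit 169) (nat_lit 5) (nat_lit 169) (nat_lit 4) (nat_lit 305) (nat_lit 239) (nat_lit 236)) (XT.nd (nat_lit 78) (nat_lit 532) (nat_lit 0) (XT.lf (nat_lit 0) (nat_lit 4207800475) (nat_lit 456) (nat_lit 802259553) (nat_lit 532) (nat_lit 4088556558) (nat_lit 155) (nat_lit 5) (nat_lit 161) (nat_lit 5) (nat_lit 162) (nat_lit 4) (nat_lit 306) (nat_lit 239) (nat_lit 235)) (XT.lf (nat_lit 0) (nat_lit 1080466481) (nat_lit 532) (nat_lit 4959232672) (nat_lit 76) (nat_lit 3191570119) (nat_lit 148) (nat_lit 5) (nat_lit 155) (nat_lit 5) (nat_lit 149) (nat_lit 4) (nat_lit 307) (nat_lit 239) (nat_lit 234))))) (XT.nd (nat_lit 234) (nat_lit 1596) (nat_lit 0) (XT.nd (nat_lit 78) (nat_lit 912) (nat_lit 0) (XT.lf (nat_lit 0) (nat_lit 4256736346) (nat_lit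 456) (nat_lit 2032628554) (nat_lit 532) (nat_lit 3079291913) (nat_lit 142) (nat_lit 5) (nat_lit 148) (nat_lit 5) (nat_lit 149) (nat_lit 4) (nat_lit 308) (nat_lit 239) (nat_lit 233)) (XT.nd (nat_lit 78) (nat_lit 380) (nat_lit 0) (XT.lf (nat_lit 0) (nat_lit 2066249173) (nat_lit 532) (nat_lit 5351419354) (nat_lit 76) (nat_lit 2093316703) (nat_lit 135) (nat_lit 5) (nat_lit 142) (nat_lit 5) (nat_lit 136) (nat_lit 4) (nat_lit 309) (nat_lit 239) (nat_lit 232)) (XT.lf (nat_lit 0) (nat_lit 3965940285) (nat_lit 380) (nat_lit 3310337303) (nat_lit 456) (nat_lit 2381954720) (nat_lit 130) (nat_lit 5) (nat_lit 135) (nat_lit 5) (nat_lit 136) (nat_lit 4) (nat_lit 310) (nat_lit 239) (nat_lit 231)))) (XT.nd (nat_lit 156) (nat_lit 760) (nat_lit 0) (XT.nd (nat_lit 78) (nat_lit 380) (nat_lit 0) (XT.lf (nat_lit 0) (nat_lit 2741215679) (nat_lit 456) (nat_lit 6133220641) (nat_lit 76) (nat_lit 936269945) (nat_lit 124)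 (nat_lit 5) (nat_lit 130) (nat_lit 5) (nat_lit 125) (nat_lit 4) (nat_lit 311) (nat_lit 239) (nat_lit 230)) (XT.lf (nat_lit 0) (nat_lit 3271744923) (nat_lit 380) (nat_lit 4677528301) (nat_lit 456) (nat_lit 2018983065) (nat_lit 119) (nat_lit 5) (nat_lit 124) (nat_lit 5) (nat_lit 125) (nat_lit 4) (nat_lit 312) (nat_lit 239) (nat_lit 229))) (XT.nd (nat_lit 78) (nat_lit 304) (nat_lit 0) (XT.lf (nat_lit 0) (nat_lit 2757348724) (nat_lit 380) (nat_lit 326350332) (nat_lit 456) (nat_lit 7047655902) (nat_lit 113) (nat_lit 5) (nat_lit 118) (nat_lit 5) (nat_lit 119) (nat_lit 5) (nat_lit 313) (nat_lit 239) (nat_lit 228)) (XT.lf (nat_lit 0) (nat_lit 2104624309) (nat_lit 304) (nat_lit 6178532829) (nat_lit 380) (nat_lit 2016581177) (nat_lit 109) (nat_lit 5) (nat_lit 113) (nat_lit 5) (nat_lit 114) (nat_lit 4) (nat_lit 314) (nat_lit 239) (nat_lit 227))))))) (XT.nd (nat_lit 1014) (nat_lit 2128) (nat_lit 0) (XT.nd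 (nat_lit 468) (nat_lit 1748) (nat_lit 0) (XT.nd (nat_lit 234) (nat_lit 988) (nat_lit 0) (XT.nd (nat_lit 78) (nat_lit 380) (nat_lit 0) (XT.lf (nat_lit 0) (nat_lit 1321569774) (nat_lit 380) (nat_lit 1749496130) (nat_lit 456) (nat_lit 7402830362) (nat_lit 103) (nat_lit 5) (nat_lit 108) (nat_lit 5) (nat_lit 109) (nat_lit 5) (nat_lit 315) (nat_lit 239) (nat_lit 226)) (XT.nd (nat_lit 78) (nat_lit 76) (nat_lit 0) (XT.lf (nat_lit 0) (nat_lit 388458478) (nat_lit 304) (nat_lit 7860300913) (nat_lit 380) (nat_lit 2405031674) (nat_lit 99) (nat_lit 5) (nat_lit 103) (nat_lit 5) (nat_lit 104) (nat_lit 4) (nat_lit 316) (nat_lit 239) (nat_lit 225)) (XT.lf (nat_lit 0) (nat_lit 2670223734) (nat_lit 380) (nat_lit 694110531) (nat_lit 76) (nat_lit 7475193796) (nat_lit 98) (nat_lit 5) (nat_lit 103) (nat_lit 5) (nat_lit 99) (nat_lit 5) (nat_lit 317) (nat_lit 239) (nat_lit 224)))) (XT.nd (nat_lit 78) (nat_lit 684) (nat_lit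 0) (XT.lf (nat_lit 0) (nat_lit 7825318007) (nat_lit 380) (nat_lit 1934561839) (nat_lit 76) (nat_lit 1271503554) (nat_lit 94) (nat_lit 5) (nat_lit 99) (nat_lit 5) (nat_lit 95) (nat_lit 4) (nat_lit 318) (nat_lit 239) (nat_lit 223)) (XT.nd (nat_lit 78) (nat_lit 304) (nat_lit 0) (XT.lf (nat_lit 0) (nat_lit 1853557336) (nat_lit 380) (nat_lit 3360300086) (nat_lit 76) (nat_lit 6015505728) (nat_lit 89) (nat_lit 5) (nat_lit 94) (nat_lit 5) (nat_lit 90) (nat_lit 5) (nat_lit 319) (nat_lit 239) (nat_lit 222)) (XT.lf (nat_lit 0) (nat_lit 6463245955) (nat_lit 304) (nat_lit 509195699) (nat_lit 380) (nat_lit 4461460219) (nat_lit 85) (nat_lit 5) (nat_lit 89) (nat_lit 5) (nat_lit 90) (nat_lit 5) (nat_lit 320) (nat_lit 239) (nat_lit 221))))) (XT.nd (nat_lit 234) (nat_lit 912) (nat_lit 0) (XT.nd (nat_lit 78) (nat_lit 532) (nat_lit 0) (XT.lf (nat_lit 0) (nat_lit 572156216) (nat_lit 304) (nat_lit 6789407875) (nat_lit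 76) (nat_lit 4283401397) (nat_lit 81) (nat_lit 5) (nat_lit 85) (nat_lit 5) (nat_lit 82) (nat_lit 5) (nat_lit 321) (nat_lit 239) (nat_lit 220)) (XT.nd (nat_lit 78) (nat_lit 228) (nat_lit 0) (XT.lf (nat_lit 0) (nat_lit 3030974233) (nat_lit 304) (nat_lit 2621056044) (nat_lit 380) (nat_lit 6210682853) (nat_lit 77) (nat_lit 5) (nat_lit 81) (nat_lit 5) (nat_lit 82) (nat_lit 5) (nat_lit 322) (nat_lit 239) (nat_lit 219)) (XT.lf (nat_lit 0) (nat_lit 993531217) (nat_lit 228) (nat_lit 9858323841) (nat_lit 304) (nat_lit 1235844509) (nat_lit 74) (nat_lit 5) (nat_lit 77) (nat_lit 5) (nat_lit 78) (nat_lit 4) (nat_lit 323) (nat_lit 239) (nat_lit 218)))) (XT.nd (nat_lit 156) (nat_lit 532) (nat_lit 0) (XT.nd (nat_lit 78) (nat_lit 304) (nat_lit 0) (XT.lf (nat_lit 0) (nat_lit 3816323444) (nat_lit 304) (nat_lit 1283111554) (nat_lit 76) (nat_lit 7219968801) (nat_lit 73) (nat_lit 5) (nat_lit 77) (nat_lit 5) (nat_lit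 74) (nat_lit 5) (nat_lit 324) (nat_lit 239) (nat_lit 217)) (XT.lf (nat_lit 0) (nat_lit 8777526252) (nat_lit 304) (nat_lit 187007913) (nat_lit 380) (nat_lit 3594189350) (nat_lit 69) (nat_lit 5) (nat_lit 73) (nat_lit 5) (nat_lit 74) (nat_lit 5) (nat_lit 325) (nat_lit 239) (nat_lit 216))) (XT.nd (nat_lit 78) (nat_lit 228) (nat_lit 0) (XT.lf (nat_lit 0) (nat_lit 1429284542) (nat_lit 304) (nat_lit 6562863734) (nat_lit 76) (nat_lit 4813205443) (nat_lit 65) (nat_lit 5) (nat_lit 69) (nat_lit 5) (nat_lit 66) (nat_lit 5) (nat_lit 326) (nat_lit 239) (nat_lit 215)) (XT.lf (nat_lit 0) (nat_lit 3429739054) (nat_lit 228) (nat_lit 3081252202) (nat_lit 304) (nat_lit 6548838297) (nat_lit 62) (nat_lit 5) (nat_lit 65) (nat_lit 5) (nat_lit 66) (nat_lit 5) (nat_lit 327) (nat_lit 239) (nat_lit 214)))))) (XT.nd (nat_lit 468) (nat_lit 1064) (nat_lit 0) (XT.nd (nat_lit 234) (nat_lit 532) (nat_lit 0) (XT.nd (nat_lit 78)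 (nat_lit 304) (nat_lit 0) (XT.lf (nat_lit 0) (nat_lit 333496135) (nat_lit 228) (nat_lit 11379589570) (nat_lit 304) (nat_lit 1609542864) (nat_lit 59) (nat_lit 5) (nat_lit 62) (nat_lit 5) (nat_lit 63) (nat_lit 4) (nat_lit 328) (nat_lit 239) (nat_lit 213)) (XT.nd (nat_lit 78) (nat_lit 228) (nat_lit 0) (XT.lf (nat_lit 0) (nat_lit 3427863867) (nat_lit 304) (nat_lit 3055307039) (nat_lit 76) (nat_lit 7109823451) (nat_lit 58) (nat_lit 5) (nat_lit 62) (nat_lit 5) (nat_lit 59) (nat_lit 5) (nat_lit 329) (nat_lit 239) (nat_lit 212)) (XT.lf (nat_lit 0) (nat_lit 7115901266) (nat_lit 228) (nat_lit 1436844849) (nat_lit 304) (nat_lit 5319391831) (nat_lit 55) (nat_lit 5) (nat_lit 58) (nat_lit 5) (nat_lit 59) (nat_lit 5) (nat_lit 330) (nat_lit 239) (nat_lit 211)))) (XT.nd (nat_lit 78) (nat_lit 304) (nat_lit 0) (XT.lf (nat_lit 0) (nat_lit 3351941932) (nat_lit 228) (nat_lit 10459647946) (nat_lit 304) (nat_lit 348504405)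 (nat_lit 52) (nat_lit 5) (nat_lit 55) (nat_lit 5) (nat_lit 56) (nat_lit 4) (nat_lit 331) (nat_lit 239) (nat_lit 210)) (XT.nd (nat_lit 78) (nat_lit 228) (nat_lit 0) (XT.lf (nat_lit 0) (nat_lit 4678832354) (nat_lit 304) (nat_lit 781981265) (nat_lit 76) (nat_lit 8995898739) (nat_lit 51) (nat_lit 5) (nat_lit 55) (nat_lit 5) (nat_lit 52) (nat_lit 5) (nat_lit 332) (nat_lit 239) (nat_lit 209)) (XT.lf (nat_lit 0) (nat_lit 9530589135) (nat_lit 228) (nat_lit 300277488) (nat_lit 304) (nat_lit 4931783533) (nat_lit 48) (nat_lit 5) (nat_lit 51) (nat_lit 5) (nat_lit 52) (nat_lit 5) (nat_lit 333) (nat_lit 239) (nat_lit 208))))) (XT.nd (nat_lit 234) (nat_lit 608) (nat_lit 0) (XT.nd (nat_lit 78) (nat_lit 228) (nat_lit 0) (XT.lf (nat_lit 0) (nat_lit 46951721) (nat_lit 228) (nat_lit 10096179700) (nat_lit 76) (nat_lit 4934903735) (nat_lit 45) (nat_lit 5) (nat_lit 48) (nat_lit 5) (nat_lit 46) (nat_lit 5) (nat_lit 334)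 (nat_lit 239) (nat_lit 207)) (XT.nd (nat_lit 78) (nat_lit 0) (nat_lit 0) (XT.lf (nat_lit 0) (nat_lit 1366627) (nat_lit 228) (nat_lit 5063629841) (nat_lit 304) (nat_lit 10338130735) (nat_lit 42) (nat_lit 5) (nat_lit 45) (nat_lit 5) (nat_lit 46) (nat_lit 5) (nat_lit 335) (nat_lit 239) (nat_lit 206)) (XT.lf (nat_lit 0) (nat_lit 10223561111) (nat_lit 304) (nat_lit 5332264573) (nat_lit 76) (nat_lit 182382193) (nat_lit 42) (nat_lit 5) (nat_lit 46) (nat_lit 5) (nat_lit 43) (nat_lit 4) (nat_lit 336) (nat_lit 239) (nat_lit 205)))) (XT.nd (nat_lit 156) (nat_lit 380) (nat_lit 0) (XT.nd (nat_lit 78) (nat_lit 76) (nat_lit 0) (XT.lf (nat_lit 0) (nat_lit 4939997093) (nat_lit 152) (nat_lit 10585169781) (nat_lit 228) (nat_lit 558442818) (nat_lit 40) (nat_lit 5) (nat_lit 42) (nat_lit 5) (nat_lit 43) (nat_lit 4) (nat_lit 337) (nat_lit 239) (nat_lit 204)) (XT.lf (nat_lit 0) (nat_lit 4446431930) (nat_lit 228) (nat_lit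 1004178458) (nat_lit 76) (nat_lit 10989013309) (nat_lit 39) (nat_lit 5) (nat_lit 42) (nat_lit 5) (nat_lit 40) (nat_lit 5) (nat_lit 338) (nat_lit 239) (nat_lit 203))) (XT.nd (nat_lit 78) (nat_lit 152) (nat_lit 0) (XT.lf (nat_lit 0) (nat_lit 9434010368) (nat_lit 228) (nat_lit 146626094) (nat_lit 304) (nat_lit 7225904214) (nat_lit 36) (nat_lit 5) (nat_lit 39) (nat_lit 5) (nat_lit 40) (nat_lit 5) (nat_lit 339) (nat_lit 239) (nat_lit 202)) (XT.lf (nat_lit 0) (nat_lit 2893592439) (nat_lit 152) (nat_lit 11961948456) (nat_lit 228) (nat_lit 2329221664) (nat_lit 34) (nat_lit 5) (nat_lit 36) (nat_lit 5) (nat_lit 37) (nat_lit 4) (nat_lit 340) (nat_lit 239) (nat_lit 201))))))))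
noncomputable def xc19 : XT := (XT.nd (nat_lit 37674) (nat_lit 0) (nat_lit 3800) (XT.nd (nat_lit 1014) (nat_lit 532) (nat_lit 0) (XT.nd (nat_lit 468) (nat_lit 532) (nat_lit 0) (XT.nd (nat_lit 234) (nat_lit 380) (nat_lit 0) (XT.nd (nat_lit 78) (nat_lit 152) (nat_lit 0) (XT.lf (nat_lit 0) (nat_lit 2657388221) (nat_lit 228) (nat_lit 4147181071) (nat_lit 76) (nat_lit 10769866196) (nat_lit 33) (nat_lit 5) (nat_lit 36) (nat_lit 5) (nat_lit 34) (nat_lit 5) (nat_lit 341) (nat_lit 239) (nat_lit 200)) (XT.nd (nat_lit 78) (nat_lit 0) (nat_lit 0) (XT.lf (nat_lit 0) (nat_lit 6247557365) (nat_lit 152) (nat_lit 1484609756) (nat_lit 228) (nat_lit 10243947771) (nat_lit 31) (nat_lit 5) (nat_lit 33) (nat_lit 5) (nat_lit 34) (nat_lit 5) (nat_lit 342) (nat_lit 239) (nat_lit 199)) (XT.lf (nat_lit 0) (nat_lit 12943859677) (nat_lit 228) (nat_lit 1523583206) (nat_lit 76) (nat_lit 3922736083) (nat_lit 31) (nat_lit 5) (nat_lit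 34) (nat_lit 5) (nat_lit 32) (nat_lit 4) (nat_lit 343) (nat_lit 239) (nat_lit 198)))) (XT.nd (nat_lit 78) (nat_lit 228) (nat_lit 0) (XT.lf (nat_lit 0) (nat_lit 8979769964) (nat_lit 152) (nat_lit 9332833539) (nat_lit 228) (nat_lit 504074339) (nat_lit 29) (nat_lit 5) (nat_lit 31) (nat_lit 5) (nat_lit 32) (nat_lit 4) (nat_lit 344) (nat_lit 239) (nat_lit 197)) (XT.nd (nat_lit 78) (nat_lit 0) (nat_lit 0) (XT.lf (nat_lit 0) (nat_lit 424382225) (nat_lit 152) (nat_lit 4048285021) (nat_lit 228) (nat_lit 14783806841) (nat_lit 26) (nat_lit 5) (nat_lit 28) (nat_lit 5) (nat_lit 29) (nat_lit 5) (nat_lit 345) (nat_lit 239) (nat_lit 196)) (XT.lf (nat_lit 0) (nat_lit 9602196014) (nat_lit 228) (nat_lit 8706659069) (nat_lit 76) (nat_lit 1400360680) (nat_lit 26) (nat_lit 5) (nat_lit 29) (nat_lit 5) (nat_lit 27) (nat_lit 4) (nat_lit 346) (nat_lit 239) (nat_lit 195))))) (XT.nd (nat_lit 234) (nat_lit 152) (nat_lit 0)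 (XT.nd (nat_lit 78) (nat_lit 228) (nat_lit 0) (XT.lf (nat_lit 0) (nat_lit 1606022637) (nat_lit 152) (nat_lit 13253145217) (nat_lit 228) (nat_lit 5316924814) (nat_lit 24) (nat_lit 5) (nat_lit 26) (nat_lit 5) (nat_lit 27) (nat_lit 4) (nat_lit 347) (nat_lit 239) (nat_lit 194)) (XT.nd (nat_lit 78) (nat_lit 228) (nat_lit 0) (XT.lf (nat_lit 0) (nat_lit 12238551056) (nat_lit 152) (nat_lit 8031510619) (nat_lit 228) (nat_lit 387013371) (nat_lit 24) (nat_lit 5) (nat_lit 26) (nat_lit 5) (nat_lit 27) (nat_lit 4) (nat_lit 348) (nat_lit 239) (nat_lit 193)) (XT.lf (nat_lit 0) (nat_lit 1925988819) (nat_lit 152) (nat_lit 2654407113) (nat_lit 228) (nat_lit 16572481718) (nat_lit 21) (nat_lit 5) (nat_lit 23) (nat_lit 5) (nat_lit 24) (nat_lit 5) (nat_lit 349) (nat_lit 239) (nat_lit 192)))) (XT.nd (nat_lit 156) (nat_lit 76) (nat_lit 0) (XT.nd (nat_lit 78) (nat_lit 76) (nat_lit 0) (XT.lf (nat_lit 0) (nat_lit 9707185318)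 (nat_lit 228) (nat_lit 9093629718) (nat_lit 76) (nat_lit 2862397461) (nat_lit 21) (nat_lit 5) (nat_lit 24) (nat_lit 5) (nat_lit 22) (nat_lit 4) (nat_lit 350) (nat_lit 239) (nat_lit 191)) (XT.lf (nat_lit 0) (nat_lit 1239612753) (nat_lit 76) (nat_lit 13715165754) (nat_lit 152) (nat_lit 7234759894) (nat_lit 20) (nat_lit 5) (nat_lit 21) (nat_lit 5) (nat_lit 22) (nat_lit 4) (nat_lit 351) (nat_lit 239) (nat_lit 190))) (XT.nd (nat_lit 78) (nat_lit 76) (nat_lit 0) (XT.lf (nat_lit 0) (nat_lit 11906469856) (nat_lit 76) (nat_lit 8457209250) (nat_lit 152) (nat_lit 2367917784) (nat_lit 20) (nat_lit 5) (nat_lit 21) (nat_lit 5) (nat_lit 22) (nat_lit 4) (nat_lit 352) (nat_lit 239) (nat_lit 189)) (XT.lf (nat_lit 0) (nat_lit 2553790160) (nat_lit 152) (nat_lit 512446798) (nat_lit 76) (nat_lit 20224485157) (nat_lit 19) (nat_lit 5) (nat_lit 21) (nat_lit 5) (nat_lit 20) (nat_lit 5) (nat_lit 353) (nat_lit 239) (nat_lit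 188)))))) (XT.nd (nat_lit 468) (nat_lit 76) (nat_lit 0) (XT.nd (nat_lit 234) (nat_lit 228) (nat_lit 0) (XT.nd (nat_lit 78) (nat_lit 76) (nat_lit 0) (XT.lf (nat_lit 0) (nat_lit 7618549569) (nat_lit 228) (nat_lit 13751690888) (nat_lit 76) (nat_lit 2495535036) (nat_lit 17) (nat_lit 5) (nat_lit 20) (nat_lit 5) (nat_lit 18) (nat_lit 4) (nat_lit 354) (nat_lit 239) (nat_lit 187)) (XT.nd (nat_lit 78) (nat_lit 76) (nat_lit 0) (XT.lf (nat_lit 0) (nat_lit 12805167787) (nat_lit 228) (nat_lit 3507205846) (nat_lit 76) (nat_lit 8146326821) (nat_lit 17) (nat_lit 5) (nat_lit 20) (nat_lit 5) (nat_lit 18) (nat_lit 4) (nat_lit 355) (nat_lit 239) (nat_lit 186)) (XT.lf (nat_lit 0) (nat_lit 7044682777) (nat_lit 76) (nat_lit 11095931056) (nat_lit 152) (nat_lit 6928952518) (nat_lit 16) (nat_lit 5) (nat_lit 17) (nat_lit 5) (nat_lit 18) (nat_lit 4) (nat_lit 356) (nat_lit 239) (nat_lit 185)))) (XT.nd (nat_lit 78) (nat_lit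 228) (nat_lit 0) (XT.lf (nat_lit 0) (nat_lit 17870309834) (nat_lit 76) (nat_lit 5738009592) (nat_lit 152) (nat_lit 2091012128) (nat_lit 16) (nat_lit 5) (nat_lit 17) (nat_lit 5) (nat_lit 18) (nat_lit 4) (nat_lit 357) (nat_lit 239) (nat_lit 184)) (XT.nd (nat_lit 78) (nat_lit 0) (nat_lit 0) (XT.lf (nat_lit 0) (nat_lit 2599160799) (nat_lit 152) (nat_lit 221435335) (nat_lit 228) (nat_lit 23527705265) (nat_lit 13) (nat_lit 5) (nat_lit 15) (nat_lit 5) (nat_lit 16) (nat_lit 5) (nat_lit 358) (nat_lit 239) (nat_lit 183)) (XT.lf (nat_lit 0) (nat_lit 7890402084) (nat_lit 228) (nat_lit 13706299349) (nat_lit 76) (nat_lit 5418993256) (nat_lit 13) (nat_lit 5) (nat_lit 16) (nat_lit 5) (nat_lit 14) (nat_lit 4) (nat_lit 359) (nat_lit 239) (nat_lit 182))))) (XT.nd (nat_lit 234) (nat_lit 0) (nat_lit 0) (XT.nd (nat_lit 78) (nat_lit 76) (nat_lit 0) (XT.lf (nat_lit 0) (nat_lit 13065471229) (nat_lit 228) (nat_lit 3449270002)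 (nat_lit 76) (nat_lit 11189320647) (nat_lit 13) (nat_lit 5) (nat_lit 16) (nat_lit 5) (nat_lit 14) (nat_lit 4) (nat_lit 360) (nat_lit 239) (nat_lit 181)) (XT.nd (nat_lit 78) (nat_lit 0) (nat_lit 0) (XT.lf (nat_lit 0) (nat_lit 7125803797) (nat_lit 76) (nat_lit 11269349419) (nat_lit 152) (nat_lit 10017954681) (nat_lit 12) (nat_lit 5) (nat_lit 13) (nat_lit 5) (nat_lit 14) (nat_lit 4) (nat_lit 361) (nat_lit 239) (nat_lit 180)) (XT.lf (nat_lit 0) (nat_lit 17983569902) (nat_lit 76) (nat_lit 5878459648) (nat_lit 152) (nat_lit 5281864259) (nat_lit 12) (nat_lit 5) (nat_lit 13) (nat_lit 5) (nat_lit 14) (nat_lit 4) (nat_lit 362) (nat_lit 239) (nat_lit 179)))) (XT.nd (nat_lit 35802) (nat_lit 0) (nat_lit 12996) (XT.nd (nat_lit 35724) (nat_lit 0) (nat_lit 14212) (XT.lf (nat_lit 0) (nat_lit 29087676699) (nat_lit 76) (nat_lit 360507850) (nat_lit 152) (nat_lit 449327467) (nat_lit 12) (nat_lit 5) (nat_lit 13) (nat_lit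 5) (nat_lit 14) (nat_lit 4) (nat_lit 363) (nat_lit 239) (nat_lit 178)) (XT.lf (nat_lit 0) (nat_lit 662611315) (nat_lit 608) (nat_lit 2872824960) (nat_lit 0) (nat_lit 662611315) (nat_lit 199) (nat_lit 5) (nat_lit 207) (nat_lit 4) (nat_lit 199) (nat_lit 4) (nat_lit 300) (nat_lit 240) (nat_lit 240))) (XT.nd (nat_lit 78) (nat_lit 608) (nat_lit 0) (XT.lf (nat_lit 0) (nat_lit 2952152076) (nat_lit 608) (nat_lit 3603070991) (nat_lit 608) (nat_lit 1948181624) (nat_lit 191) (nat_lit 4) (nat_lit 199) (nat_lit 5) (nat_lit 199) (nat_lit 4) (nat_lit 301) (nat_lit 240) (nat_lit 239)) (XT.lf (nat_lit 0) (nat_lit 3209741230) (nat_lit 608) (nat_lit 5393266887) (nat_lit 0) (nat_lit 12115669) (nat_lit 183) (nat_lit 5) (nat_lit 191) (nat_lit 4) (nat_lit 183) (nat_lit 4) (nat_lit 302) (nat_lit 240) (nat_lit 238))))))) (XT.nd (nat_lit 1014) (nat_lit 3496) (nat_lit 0) (XT.nd (nat_lit 468) (nat_lit 2584) (nat_lit 0) (XT.nd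 (nat_lit 234) (nat_lit 1444) (nat_lit 0) (XT.nd (nat_lit 78) (nat_lit 1140) (nat_lit 0) (XT.lf (nat_lit 0) (nat_lit 3437916638) (nat_lit 532) (nat_lit 5010017235) (nat_lit 532) (nat_lit 283085843) (nat_lit 176) (nat_lit 4) (nat_lit 183) (nat_lit 5) (nat_lit 183) (nat_lit 4) (nat_lit 303) (nat_lit 240) (nat_lit 237)) (XT.nd (nat_lit 78) (nat_lit 608) (nat_lit 0) (XT.lf (nat_lit 0) (nat_lit 3599217486) (nat_lit 456) (nat_lit 1257669553) (nat_lit 532) (nat_lit 3994384247) (nat_lit 169) (nat_lit 5) (nat_lit 175) (nat_lit 5) (nat_lit 176) (nat_lit 4) (nat_lit 304) (nat_lit 240) (nat_lit 236)) (XT.lf (nat_lit 0) (nat_lit 1105211606) (nat_lit 608) (nat_lit 5270621332) (nat_lit 76) (nat_lit 2600249825) (nat_lit 161) (nat_lit 5) (nat_lit 169) (nat_lit 5) (nat_lit 162) (nat_lit 4) (nat_lit 305) (nat_lit 240) (nat_lit 235)))) (XT.nd (nat_lit 78) (nat_lit 988) (nat_lit 0) (XT.lf (nat_lit 0) (nat_lit 3741288060)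 (nat_lit 456) (nat_lit 2504517147) (nat_lit 532) (nat_lit 2859567791) (nat_lit 155) (nat_lit 5) (nat_lit 161) (nat_lit 5) (nat_lit 162) (nat_lit 4) (nat_lit 306) (nat_lit 240) (nat_lit 234)) (XT.nd (nat_lit 78) (nat_lit 456) (nat_lit 0) (XT.lf (nat_lit 0) (nat_lit 2216919729) (nat_lit 532) (nat_lit 5529042111) (nat_lit 76) (nat_lit 1493483251) (nat_lit 148) (nat_lit 5) (nat_lit 155) (nat_lit 5) (nat_lit 149) (nat_lit 4) (nat_lit 307) (nat_lit 240) (nat_lit 233)) (XT.lf (nat_lit 0) (nat_lit 3594232390) (nat_lit 456) (nat_lit 3766866194) (nat_lit 532) (nat_lit 2017077619) (nat_lit 142) (nat_lit 5) (nat_lit 148) (nat_lit 5) (nat_lit 149) (nat_lit 4) (nat_lit 308) (nat_lit 240) (nat_lit 232))))) (XT.nd (nat_lit 234) (nat_lit 1216) (nat_lit 0) (XT.nd (nat_lit 78) (nat_lit 836) (nat_lit 0) (XT.lf (nat_lit 0) (nat_lit 3038480223) (nat_lit 532) (nat_lit 6123272365) (nat_lit 76) (nat_lit 360181951) (nat_lit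 135) (nat_lit 5) (nat_lit 142) (nat_lit 5) (nat_lit 136) (nat_lit 4) (nat_lit 309) (nat_lit 240) (nat_lit 231)) (XT.nd (nat_lit 78) (nat_lit 456) (nat_lit 0) (XT.lf (nat_lit 0) (nat_lit 3099536351) (nat_lit 380) (nat_lit 5084762740) (nat_lit 456) (nat_lit 1486212163) (nat_lit 130) (nat_lit 5) (nat_lit 135) (nat_lit 5) (nat_lit 136) (nat_lit 4) (nat_lit 310) (nat_lit 240) (nat_lit 230)) (XT.lf (nat_lit 0) (nat_lit 2703766874) (nat_lit 380) (nat_lit 851088021) (nat_lit 456) (nat_lit 6269464368) (nat_lit 124) (nat_lit 5) (nat_lit 129) (nat_lit 5) (nat_lit 130) (nat_lit 5) (nat_lit 311) (nat_lit 240) (nat_lit 229)))) (XT.nd (nat_lit 156) (nat_lit 380) (nat_lit 0) (XT.nd (nat_lit 78) (nat_lit 456) (nat_lit 0) (XT.lf (nat_lit 0) (nat_lit 2193472487) (nat_lit 380) (nat_lit 6500076851) (nat_lit 456) (nat_lit 1289749207) (nat_lit 119) (nat_lit 5) (nat_lit 124) (nat_lit 5) (nat_lit 125) (nat_lit 4) (nat_lit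 312) (nat_lit 240) (nat_lit 228)) (XT.lf (nat_lit 0) (nat_lit 1561845236) (nat_lit 380) (nat_lit 2177645665) (nat_lit 456) (nat_lit 6408129154) (nat_lit 113) (nat_lit 5) (nat_lit 118) (nat_lit 5) (nat_lit 119) (nat_lit 5) (nat_lit 313) (nat_lit 240) (nat_lit 227))) (XT.nd (nat_lit 78) (nat_lit 76) (nat_lit 0) (XT.lf (nat_lit 0) (nat_lit 806427609) (nat_lit 304) (nat_lit 8056903726) (nat_lit 380) (nat_lit 1454223240) (nat_lit 109) (nat_lit 5) (nat_lit 113) (nat_lit 5) (nat_lit 114) (nat_lit 4) (nat_lit 314) (nat_lit 240) (nat_lit 226)) (XT.lf (nat_lit 0) (nat_lit 3562990303) (nat_lit 380) (nat_lit 96288826) (nat_lit 76) (nat_lit 6833658476) (nat_lit 108) (nat_lit 5) (nat_lit 113) (nat_lit 5) (nat_lit 109) (nat_lit 5) (nat_lit 315) (nat_lit 240) (nat_lit 225)))))) (XT.nd (nat_lit 468) (nat_lit 1444) (nat_lit 0) (XT.nd (nat_lit 234) (nat_lit 988) (nat_lit 0) (XT.nd (nat_lit 78) (nat_lit 684) (nat_lit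 0) (XT.lf (nat_lit 0) (nat_lit 8671547303) (nat_lit 456) (nat_lit 1122908895) (nat_lit 76) (nat_lit 879794801) (nat_lit 103) (nat_lit 5) (nat_lit 109) (nat_lit 5) (nat_lit 104) (nat_lit 4) (nat_lit 316) (nat_lit 240) (nat_lit 224)) (XT.nd (nat_lit 78) (nat_lit 304) (nat_lit 0) (XT.lf (nat_lit 0) (nat_lit 3006925692) (nat_lit 380) (nat_lit 2323487482) (nat_lit 76) (nat_lit 5530763705) (nat_lit 98) (nat_lit 5) (nat_lit 103) (nat_lit 5) (nat_lit 99) (nat_lit 5) (nat_lit 317) (nat_lit 240) (nat_lit 223)) (XT.lf (nat_lit 0) (nat_lit 7375704278) (nat_lit 304) (nat_lit 715348717) (nat_lit 380) (nat_lit 2963431704) (nat_lit 94) (nat_lit 5) (nat_lit 98) (nat_lit 5) (nat_lit 99) (nat_lit 5) (nat_lit 318) (nat_lit 240) (nat_lit 222)))) (XT.nd (nat_lit 78) (nat_lit 608) (nat_lit 0) (XT.lf (nat_lit 0) (nat_lit 2025395855) (nat_lit 380) (nat_lit 5226825263) (nat_lit 76) (nat_lit 4001595630) (nat_lit 89) (nat_lit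 5) (nat_lit 94) (nat_lit 5) (nat_lit 90) (nat_lit 5) (nat_lit 319) (nat_lit 240) (nat_lit 221)) (XT.nd (nat_lit 78) (nat_lit 304) (nat_lit 0) (XT.lf (nat_lit 0) (nat_lit 4494255148) (nat_lit 304) (nat_lit 2587321273) (nat_lit 380) (nat_lit 4378063754) (nat_lit 85) (nat_lit 5) (nat_lit 89) (nat_lit 5) (nat_lit 90) (nat_lit 5) (nat_lit 320) (nat_lit 240) (nat_lit 220)) (XT.lf (nat_lit 0) (nat_lit 577769654) (nat_lit 304) (nat_lit 8901550910) (nat_lit 76) (nat_lit 2192935336) (nat_lit 81) (nat_lit 5) (nat_lit 85) (nat_lit 5) (nat_lit 82) (nat_lit 5) (nat_lit 321) (nat_lit 240) (nat_lit 219))))) (XT.nd (nat_lit 234) (nat_lit 836) (nat_lit 0) (XT.nd (nat_lit 78) (nat_lit 304) (nat_lit 0) (XT.lf (nat_lit 0) (nat_lit 814084177) (nat_lit 304) (nat_lit 4780635365) (nat_lit 380) (nat_lit 6296570786) (nat_lit 77) (nat_lit 5) (nat_lit 81) (nat_lit 5) (nat_lit 82) (nat_lit 5) (nat_lit 322) (nat_lit 240) (nat_lit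 218)) (XT.nd (nat_lit 78) (nat_lit 304) (nat_lit 0) (XT.lf (nat_lit 0) (nat_lit 10726297469) (nat_lit 380) (nat_lit 1326194576) (nat_lit 76) (nat_lit 65177137) (nat_lit 77) (nat_lit 5) (nat_lit 82) (nat_lit 5) (nat_lit 78) (nat_lit 4) (nat_lit 323) (nat_lit 240) (nat_lit 217)) (XT.lf (nat_lit 0) (nat_lit 3606852660) (nat_lit 304) (nat_lit 3724220534) (nat_lit 76) (nat_lit 5019466238) (nat_lit 73) (nat_lit 5) (nat_lit 77) (nat_lit 5) (nat_lit 74) (nat_lit 5) (nat_lit 324) (nat_lit 240) (nat_lit 216)))) (XT.nd (nat_lit 156) (nat_lit 228) (nat_lit 0) (XT.nd (nat_lit 78) (nat_lit 304) (nat_lit 0) (XT.lf (nat_lit 0) (nat_lit 6230505637) (nat_lit 304) (nat_lit 2462194971) (nat_lit 380) (nat_lit 3898431190) (nat_lit 69) (nat_lit 5) (nat_lit 73) (nat_lit 5) (nat_lit 74) (nat_lit 5) (nat_lit 325) (nat_lit 240) (nat_lit 215)) (XT.lf (nat_lit 0) (nat_lit 1051252534) (nat_lit 304) (nat_lit 9266135417) (nat_lit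 76) (nat_lit 2521993336) (nat_lit 65) (nat_lit 5) (nat_lit 69) (nat_lit 5) (nat_lit 66) (nat_lit 5) (nat_lit 326) (nat_lit 240) (nat_lit 214))) (XT.nd (nat_lit 78) (nat_lit 0) (nat_lit 0) (XT.lf (nat_lit 0) (nat_lit 618062014) (nat_lit 228) (nat_lit 5452053592) (nat_lit 304) (nat_lit 7025021855) (nat_lit 62) (nat_lit 5) (nat_lit 65) (nat_lit 5) (nat_lit 66) (nat_lit 5) (nat_lit 327) (nat_lit 240) (nat_lit 213)) (XT.lf (nat_lit 0) (nat_lit 10782772172) (nat_lit 228) (nat_lit 430757137) (nat_lit 304) (nat_lit 2145603567) (nat_lit 62) (nat_lit 5) (nat_lit 65) (nat_lit 5) (nat_lit 66) (nat_lit 5) (nat_lit 328) (nat_lit 240) (nat_lit 212))))))))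
noncomputable def xc20 : XT := (XT.nd (nat_lit 2028) (nat_lit 380) (nat_lit 0) (XT.nd (nat_lit 1014) (nat_lit 1216) (nat_lit 0) (XT.nd (nat_lit 468) (nat_lit 988) (nat_lit 0) (XT.nd (nat_lit 234) (nat_lit 456) (nat_lit 0) (XT.nd (nat_lit 78) (nat_lit 456) (nat_lit 0) (XT.lf (nat_lit 0) (nat_lit 2835573412) (nat_lit 304) (nat_lit 6100395325) (nat_lit 76) (nat_lit 4694886428) (nat_lit 58) (nat_lit 5) (nat_lit 62) (nat_lit 5) (nat_lit 59) (nat_lit 5) (nat_lit 329) (nat_lit 240) (nat_lit 211)) (XT.nd (nat_lit 78) (nat_lit 228) (nat_lit 0) (XT.lf (nat_lit 0) (nat_lit 3960950636) (nat_lit 228) (nat_lit 3936883582) (nat_lit 304) (nat_lit 6013438020) (nat_lit 55) (nat_lit 5) (nat_lit 58) (nat_lit 5) (nat_lit 59) (nat_lit 5) (nat_lit 330) (nat_lit 240) (nat_lit 210)) (XT.lf (nat_lit 0) (nat_lit 62900619) (nat_lit 228) (nat_lit 13014674297) (nat_lit 304) (nat_lit 1123256161) (nat_lit 52) (nat_lit 5) (nat_lit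 55) (nat_lit 5) (nat_lit 56) (nat_lit 4) (nat_lit 331) (nat_lit 240) (nat_lit 209)))) (XT.nd (nat_lit 78) (nat_lit 380) (nat_lit 0) (XT.lf (nat_lit 0) (nat_lit 3873210236) (nat_lit 304) (nat_lit 4174241784) (nat_lit 76) (nat_lit 6450937820) (nat_lit 51) (nat_lit 5) (nat_lit 55) (nat_lit 5) (nat_lit 52) (nat_lit 5) (nat_lit 332) (nat_lit 240) (nat_lit 208)) (XT.nd (nat_lit 78) (nat_lit 152) (nat_lit 0) (XT.lf (nat_lit 0) (nat_lit 6026829958) (nat_lit 228) (nat_lit 2935829539) (nat_lit 304) (nat_lit 5842938732) (nat_lit 48) (nat_lit 5) (nat_lit 51) (nat_lit 5) (nat_lit 52) (nat_lit 5) (nat_lit 333) (nat_lit 240) (nat_lit 207)) (XT.lf (nat_lit 0) (nat_lit 1339684962) (nat_lit 152) (nat_lit 12837704243) (nat_lit 228) (nat_lit 945218954) (nat_lit 46) (nat_lit 5) (nat_lit 48) (nat_lit 5) (nat_lit 49) (nat_lit 4) (nat_lit 334) (nat_lit 240) (nat_lit 206))))) (XT.nd (nat_lit 234) (nat_lit 532) (nat_lit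 0) (XT.nd (nat_lit 78) (nat_lit 380) (nat_lit 0) (XT.lf (nat_lit 0) (nat_lit 4046408931) (nat_lit 228) (nat_lit 3743852704) (nat_lit 76) (nat_lit 7658355040) (nat_lit 45) (nat_lit 5) (nat_lit 48) (nat_lit 5) (nat_lit 46) (nat_lit 5) (nat_lit 335) (nat_lit 240) (nat_lit 205)) (XT.nd (nat_lit 78) (nat_lit 152) (nat_lit 0) (XT.lf (nat_lit 0) (nat_lit 6548647098) (nat_lit 228) (nat_lit 2592408924) (nat_lit 304) (nat_lit 6643936627) (nat_lit 42) (nat_lit 5) (nat_lit 45) (nat_lit 5) (nat_lit 46) (nat_lit 5) (nat_lit 336) (nat_lit 240) (nat_lit 204)) (XT.lf (nat_lit 0) (nat_lit 937968870) (nat_lit 152) (nat_lit 13424739241) (nat_lit 228) (nat_lit 1769301881) (nat_lit 40) (nat_lit 5) (nat_lit 42) (nat_lit 5) (nat_lit 43) (nat_lit 4) (nat_lit 337) (nat_lit 240) (nat_lit 203)))) (XT.nd (nat_lit 156) (nat_lit 228) (nat_lit 0) (XT.nd (nat_lit 78) (nat_lit 228) (nat_lit 0) (XT.lf (nat_lit 0) (nat_lit 3214741920)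 (nat_lit 228) (nat_lit 5108529777) (nat_lit 76) (nat_lit 8165659428) (nat_lit 39) (nat_lit 5) (nat_lit 42) (nat_lit 5) (nat_lit 40) (nat_lit 5) (nat_lit 338) (nat_lit 240) (nat_lit 202)) (XT.lf (nat_lit 0) (nat_lit 5214332264) (nat_lit 228) (nat_lit 3071574928) (nat_lit 304) (nat_lit 8571216904) (nat_lit 36) (nat_lit 5) (nat_lit 39) (nat_lit 5) (nat_lit 40) (nat_lit 5) (nat_lit 339) (nat_lit 240) (nat_lit 201))) (XT.nd (nat_lit 78) (nat_lit 228) (nat_lit 0) (XT.lf (nat_lit 0) (nat_lit 13487890483) (nat_lit 304) (nat_lit 1455198651) (nat_lit 76) (nat_lit 2293730030) (nat_lit 36) (nat_lit 5) (nat_lit 40) (nat_lit 5) (nat_lit 37) (nat_lit 4) (nat_lit 340) (nat_lit 240) (nat_lit 200)) (XT.lf (nat_lit 0) (nat_lit 1211921000) (nat_lit 228) (nat_lit 8617357582) (nat_lit 76) (nat_lit 7798299514) (nat_lit 33) (nat_lit 5) (nat_lit 36) (nat_lit 5) (nat_lit 34) (nat_lit 5) (nat_lit 341) (nat_lit 240) (nat_lit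 199)))))) (XT.nd (nat_lit 468) (nat_lit 684) (nat_lit 0) (XT.nd (nat_lit 234) (nat_lit 228) (nat_lit 0) (XT.nd (nat_lit 78) (nat_lit 152) (nat_lit 0) (XT.lf (nat_lit 0) (nat_lit 1659853458) (nat_lit 152) (nat_lit 4563329113) (nat_lit 228) (nat_lit 11807358918) (nat_lit 31) (nat_lit 5) (nat_lit 33) (nat_lit 5) (nat_lit 34) (nat_lit 5) (nat_lit 342) (nat_lit 240) (nat_lit 198)) (XT.nd (nat_lit 78) (nat_lit 152) (nat_lit 0) (XT.lf (nat_lit 0) (nat_lit 11381619846) (nat_lit 228) (nat_lit 6202677053) (nat_lit 76) (nat_lit 861387016) (nat_lit 31) (nat_lit 5) (nat_lit 34) (nat_lit 5) (nat_lit 32) (nat_lit 4) (nat_lit 343) (nat_lit 240) (nat_lit 197)) (XT.lf (nat_lit 0) (nat_lit 4182464976) (nat_lit 152) (nat_lit 12504454133) (nat_lit 228) (nat_lit 2186545431) (nat_lit 29) (nat_lit 5) (nat_lit 31) (nat_lit 5) (nat_lit 32) (nat_lit 4) (nat_lit 344) (nat_lit 240) (nat_lit 196)))) (XT.nd (nat_lit 78) (nat_lit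 152) (nat_lit 0) (XT.lf (nat_lit 0) (nat_lit 2777574618) (nat_lit 228) (nat_lit 4479184742) (nat_lit 76) (nat_lit 12057425891) (nat_lit 28) (nat_lit 5) (nat_lit 31) (nat_lit 5) (nat_lit 29) (nat_lit 5) (nat_lit 345) (nat_lit 240) (nat_lit 195)) (XT.nd (nat_lit 78) (nat_lit 0) (nat_lit 0) (XT.lf (nat_lit 0) (nat_lit 5994917329) (nat_lit 152) (nat_lit 1842152582) (nat_lit 228) (nat_lit 11931269568) (nat_lit 26) (nat_lit 5) (nat_lit 28) (nat_lit 5) (nat_lit 29) (nat_lit 5) (nat_lit 346) (nat_lit 240) (nat_lit 194)) (XT.lf (nat_lit 0) (nat_lit 13041072426) (nat_lit 228) (nat_lit 3522693532) (nat_lit 76) (nat_lit 3672521351) (nat_lit 26) (nat_lit 5) (nat_lit 29) (nat_lit 5) (nat_lit 27) (nat_lit 4) (nat_lit 347) (nat_lit 240) (nat_lit 193))))) (XT.nd (nat_lit 234) (nat_lit 304) (nat_lit 0) (XT.nd (nat_lit 78) (nat_lit 228) (nat_lit 0) (XT.lf (nat_lit 0) (nat_lit 7011027287) (nat_lit 152) (nat_lit 11387735008)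 (nat_lit 228) (nat_lit 2319582672) (nat_lit 24) (nat_lit 5) (nat_lit 26) (nat_lit 5) (nat_lit 27) (nat_lit 4) (nat_lit 348) (nat_lit 240) (nat_lit 192)) (XT.nd (nat_lit 78) (nat_lit 152) (nat_lit 0) (XT.lf (nat_lit 0) (nat_lit 2631310301) (nat_lit 228) (nat_lit 3426396348) (nat_lit 76) (nat_lit 15157539781) (nat_lit 23) (nat_lit 5) (nat_lit 26) (nat_lit 5) (nat_lit 24) (nat_lit 5) (nat_lit 349) (nat_lit 240) (nat_lit 191)) (XT.lf (nat_lit 0) (nat_lit 7140816948) (nat_lit 152) (nat_lit 547081658) (nat_lit 228) (nat_lit 14039097044) (nat_lit 21) (nat_lit 5) (nat_lit 23) (nat_lit 5) (nat_lit 24) (nat_lit 5) (nat_lit 350) (nat_lit 240) (nat_lit 190)))) (XT.nd (nat_lit 156) (nat_lit 228) (nat_lit 0) (XT.nd (nat_lit 78) (nat_lit 76) (nat_lit 0) (XT.lf (nat_lit 0) (nat_lit 12895769786) (nat_lit 228) (nat_lit 4314673936) (nat_lit 76) (nat_lit 5043682322) (nat_lit 21) (nat_lit 5) (nat_lit 24) (nat_lit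 5) (nat_lit 22) (nat_lit 4) (nat_lit 351) (nat_lit 240) (nat_lit 189)) (XT.lf (nat_lit 0) (nat_lit 6246606929) (nat_lit 76) (nat_lit 12002061731) (nat_lit 152) (nat_lit 4548645665) (nat_lit 20) (nat_lit 5) (nat_lit 21) (nat_lit 5) (nat_lit 22) (nat_lit 4) (nat_lit 352) (nat_lit 240) (nat_lit 188))) (XT.nd (nat_lit 78) (nat_lit 152) (nat_lit 0) (XT.lf (nat_lit 0) (nat_lit 374664639) (nat_lit 152) (nat_lit 6271068054) (nat_lit 76) (nat_lit 16711539284) (nat_lit 19) (nat_lit 5) (nat_lit 21) (nat_lit 5) (nat_lit 20) (nat_lit 5) (nat_lit 353) (nat_lit 240) (nat_lit 187)) (XT.lf (nat_lit 0) (nat_lit 4249246788) (nat_lit 152) (nat_lit 1109360199) (nat_lit 228) (nat_lit 18575343725) (nat_lit 17) (nat_lit 5) (nat_lit 19) (nat_lit 5) (nat_lit 20) (nat_lit 5) (nat_lit 354) (nat_lit 240) (nat_lit 186))))))) (XT.nd (nat_lit 36504) (nat_lit 0) (nat_lit 7676) (XT.nd (nat_lit 468) (nat_lit 76) (nat_lit 0) (XT.nd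 (nat_lit 234) (nat_lit 228) (nat_lit 0) (XT.nd (nat_lit 78) (nat_lit 76) (nat_lit 0) (XT.lf (nat_lit 0) (nat_lit 10512155769) (nat_lit 228) (nat_lit 9478495615) (nat_lit 76) (nat_lit 4536894434) (nat_lit 17) (nat_lit 5) (nat_lit 20) (nat_lit 5) (nat_lit 18) (nat_lit 4) (nat_lit 355) (nat_lit 240) (nat_lit 185)) (XT.nd (nat_lit 78) (nat_lit 0) (nat_lit 0) (XT.lf (nat_lit 0) (nat_lit 949296127) (nat_lit 76) (nat_lit 14833617059) (nat_lit 152) (nat_lit 9356800799) (nat_lit 16) (nat_lit 5) (nat_lit 17) (nat_lit 5) (nat_lit 18) (nat_lit 4) (nat_lit 356) (nat_lit 240) (nat_lit 184)) (XT.lf (nat_lit 0) (nat_lit 11731484753) (nat_lit 76) (nat_lit 9494470116) (nat_lit 152) (nat_lit 4544025849) (nat_lit 16) (nat_lit 5) (nat_lit 17) (nat_lit 5) (nat_lit 18) (nat_lit 4) (nat_lit 357) (nat_lit 240) (nat_lit 183)))) (XT.nd (nat_lit 78) (nat_lit 152) (nat_lit 0) (XT.lf (nat_lit 0) (nat_lit 358766623) (nat_lit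 152) (nat_lit 3670976839) (nat_lit 76) (nat_lit 22390353238) (nat_lit 15) (nat_lit 5) (nat_lit 17) (nat_lit 5) (nat_lit 16) (nat_lit 5) (nat_lit 358) (nat_lit 240) (nat_lit 182)) (XT.nd (nat_lit 78) (nat_lit 0) (nat_lit 0) (XT.lf (nat_lit 0) (nat_lit 5355736480) (nat_lit 228) (nat_lit 20114790179) (nat_lit 76) (nat_lit 1618427679) (nat_lit 13) (nat_lit 5) (nat_lit 16) (nat_lit 5) (nat_lit 14) (nat_lit 4) (nat_lit 359) (nat_lit 240) (nat_lit 181)) (XT.lf (nat_lit 0) (nat_lit 10507699873) (nat_lit 228) (nat_lit 9898707938) (nat_lit 76) (nat_lit 7371383234) (nat_lit 13) (nat_lit 5) (nat_lit 16) (nat_lit 5) (nat_lit 14) (nat_lit 4) (nat_lit 360) (nat_lit 240) (nat_lit 180))))) (XT.nd (nat_lit 35724) (nat_lit 0) (nat_lit 13604) (XT.nd (nat_lit 78) (nat_lit 0) (nat_lit 0) (XT.lf (nat_lit 0) (nat_lit 550373436) (nat_lit 76) (nat_lit 15221883598) (nat_lit 152) (nat_lit 12715889714) (nat_lit 12) (nat_lit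 5) (nat_lit 13) (nat_lit 5) (nat_lit 14) (nat_lit 4) (nat_lit 361) (nat_lit 240) (nat_lit 179)) (XT.nd (nat_lit 78) (nat_lit 0) (nat_lit 0) (XT.lf (nat_lit 0) (nat_lit 11369030038) (nat_lit 76) (nat_lit 9848070017) (nat_lit 152) (nat_lit 8002280249) (nat_lit 12) (nat_lit 5) (nat_lit 13) (nat_lit 5) (nat_lit 14) (nat_lit 4) (nat_lit 362) (nat_lit 240) (nat_lit 178)) (XT.lf (nat_lit 0) (nat_lit 22435166444) (nat_lit 76) (nat_lit 4346697044) (nat_lit 152) (nat_lit 3191569631) (nat_lit 12) (nat_lit 5) (nat_lit 13) (nat_lit 5) (nat_lit 14) (nat_lit 4) (nat_lit 363) (nat_lit 240) (nat_lit 177)))) (XT.nd (nat_lit 156) (nat_lit 1216) (nat_lit 0) (XT.nd (nat_lit 78) (nat_lit 608) (nat_lit 0) (XT.lf (nat_lit 0) (nat_lit 505654261) (nat_lit 684) (nat_lit 3084857513) (nat_lit 0) (nat_lit 505654261) (nat_lit 215) (nat_lit 5) (nat_lit 224) (nat_lit 4) (nat_lit 215) (nat_lit 4) (nat_lit 298) (nat_lit 241) (nat_lit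 241)) (XT.lf (nat_lit 0) (nat_lit 2303571162) (nat_lit 608) (nat_lit 3863904858) (nat_lit 608) (nat_lit 2125278090) (nat_lit 207) (nat_lit 4) (nat_lit 215) (nat_lit 5) (nat_lit 215) (nat_lit 4) (nat_lit 299) (nat_lit 241) (nat_lit 240))) (XT.nd (nat_lit 78) (nat_lit 608) (nat_lit 0) (XT.lf (nat_lit 0) (nat_lit 2562611431) (nat_lit 532) (nat_lit 402351615) (nat_lit 608) (nat_lit 5432493517) (nat_lit 199) (nat_lit 5) (nat_lit 206) (nat_lit 5) (nat_lit 207) (nat_lit 4) (nat_lit 300) (nat_lit 241) (nat_lit 239)) (XT.lf (nat_lit 0) (nat_lit 2779240384) (nat_lit 608) (nat_lit 5346543480) (nat_lit 608) (nat_lit 380429360) (nat_lit 191) (nat_lit 4) (nat_lit 199) (nat_lit 5) (nat_lit 199) (nat_lit 4) (nat_lit 301) (nat_lit 241) (nat_lit 238)))))) (XT.nd (nat_lit 468) (nat_lit 2660) (nat_lit 0) (XT.nd (nat_lit 234) (nat_lit 1596) (nat_lit 0) (XT.nd (nat_lit 78) (nat_lit 1064) (nat_lit 0) (XT.lf (nat_lit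 0) (nat_lit 2948841647) (nat_lit 532) (nat_lit 1741677023) (nat_lit 608) (nat_lit 3928598843) (nat_lit 183) (nat_lit 5) (nat_lit 190) (nat_lit 5) (nat_lit 191) (nat_lit 4) (nat_lit 302) (nat_lit 241) (nat_lit 237)) (XT.nd (nat_lit 78) (nat_lit 456) (nat_lit 0) (XT.lf (nat_lit 0) (nat_lit 1100531594) (nat_lit 608) (nat_lit 5659734286) (nat_lit 76) (nat_lit 1976200357) (nat_lit 175) (nat_lit 5) (nat_lit 183) (nat_lit 5) (nat_lit 176) (nat_lit 4) (nat_lit 303) (nat_lit 241) (nat_lit 236)) (XT.lf (nat_lit 0) (nat_lit 3141757694) (nat_lit 456) (nat_lit 3029570632) (nat_lit 532) (nat_lit 2686717898) (nat_lit 169) (nat_lit 5) (nat_lit 175) (nat_lit 5) (nat_lit 176) (nat_lit 4) (nat_lit 304) (nat_lit 241) (nat_lit 235)))) (XT.nd (nat_lit 78) (nat_lit 988) (nat_lit 0) (XT.lf (nat_lit 0) (nat_lit 2318804959) (nat_lit 608) (nat_lit 5829599277) (nat_lit 76) (nat_lit 835875332) (nat_lit 161) (nat_lit 5) (nat_lit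 169) (nat_lit 5) (nat_lit 162) (nat_lit 4) (nat_lit 305) (nat_lit 241) (nat_lit 234)) (XT.nd (nat_lit 78) (nat_lit 532) (nat_lit 0) (XT.lf (nat_lit 0) (nat_lit 3091484817) (nat_lit 456) (nat_lit 4303166676) (nat_lit 532) (nat_lit 1720264918) (nat_lit 155) (nat_lit 5) (nat_lit 161) (nat_lit 5) (nat_lit 162) (nat_lit 4) (nat_lit 306) (nat_lit 241) (nat_lit 233)) (XT.lf (nat_lit 0) (nat_lit 2961922636) (nat_lit 456) (nat_lit 304874542) (nat_lit 532) (nat_lit 5983582226) (nat_lit 148) (nat_lit 5) (nat_lit 154) (nat_lit 5) (nat_lit 155) (nat_lit 5) (nat_lit 307) (nat_lit 241) (nat_lit 232))))) (XT.nd (nat_lit 234) (nat_lit 1292) (nat_lit 0) (XT.nd (nat_lit 78) (nat_lit 912) (nat_lit 0) (XT.lf (nat_lit 0) (nat_lit 2744088497) (nat_lit 456) (nat_lit 5600729992) (nat_lit 532) (nat_lit 1045662922) (nat_lit 142) (nat_lit 5) (nat_lit 148) (nat_lit 5) (nat_lit 149) (nat_lit 4) (nat_lit 308) (nat_lit 241)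 (nat_lit 231)) (XT.nd (nat_lit 78) (nat_lit 380) (nat_lit 0) (XT.lf (nat_lit 0) (nat_lit 2438650018) (nat_lit 456) (nat_lit 1491989083) (nat_lit 532) (nat_lit 5604850262) (nat_lit 135) (nat_lit 5) (nat_lit 141) (nat_lit 5) (nat_lit 142) (nat_lit 5) (nat_lit 309) (nat_lit 241) (nat_lit 230)) (XT.lf (nat_lit 0) (nat_lit 2041008639) (nat_lit 380) (nat_lit 6962011743) (nat_lit 456) (nat_lit 682558569) (nat_lit 130) (nat_lit 5) (nat_lit 135) (nat_lit 5) (nat_lit 136) (nat_lit 4) (nat_lit 310) (nat_lit 241) (nat_lit 229)))) (XT.nd (nat_lit 156) (nat_lit 456) (nat_lit 0) (XT.nd (nat_lit 78) (nat_lit 380) (nat_lit 0) (XT.lf (nat_lit 0) (nat_lit 1529307568) (nat_lit 380) (nat_lit 2754886922) (nat_lit 456) (nat_lit 5556405590) (nat_lit 124) (nat_lit 5) (nat_lit 129) (nat_lit 5) (nat_lit 130) (nat_lit 5) (nat_lit 311) (nat_lit 241) (nat_lit 228)) (XT.lf (nat_lit 0) (nat_lit 918443890) (nat_lit 380) (nat_lit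 8428625002) (nat_lit 456) (nat_lit 654067645) (nat_lit 119) (nat_lit 5) (nat_lit 124) (nat_lit 5) (nat_lit 125) (nat_lit 4) (nat_lit 312) (nat_lit 241) (nat_lit 227))) (XT.nd (nat_lit 78) (nat_lit 0) (nat_lit 0) (XT.lf (nat_lit 0) (nat_lit 167166832) (nat_lit 380) (nat_lit 4136131844) (nat_lit 456) (nat_lit 5863386370) (nat_lit 113) (nat_lit 5) (nat_lit 118) (nat_lit 5) (nat_lit 119) (nat_lit 5) (nat_lit 313) (nat_lit 241) (nat_lit 226)) (XT.lf (nat_lit 0) (nat_lit 9355625265) (nat_lit 456) (nat_lit 684226795) (nat_lit 76) (nat_lit 298235462) (nat_lit 113) (nat_lit 5) (nat_lit 119) (nat_lit 5) (nat_lit 114) (nat_lit 4) (nat_lit 314) (nat_lit 241) (nat_lit 225))))))))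
noncomputable def xc21 : XT := (XT.nd (nat_lit 2028) (nat_lit 1824) (nat_lit 0) (XT.nd (nat_lit 1014) (nat_lit 2204) (nat_lit 0) (XT.nd (nat_lit 468) (nat_lit 1520) (nat_lit 0) (XT.nd (nat_lit 234) (nat_lit 988) (nat_lit 0) (XT.nd (nat_lit 78) (nat_lit 760) (nat_lit 0) (XT.lf (nat_lit 0) (nat_lit 3971141873) (nat_lit 380) (nat_lit 1698199013) (nat_lit 76) (nat_lit 4845252715) (nat_lit 108) (nat_lit 5) (nat_lit 113) (nat_lit 5) (nat_lit 109) (nat_lit 5) (nat_lit 315) (nat_lit 241) (nat_lit 224)) (XT.nd (nat_lit 78) (nat_lit 380) (nat_lit 0) (XT.lf (nat_lit 0) (nat_lit 7856814320) (nat_lit 380) (nat_lit 1154705731) (nat_lit 456) (nat_lit 1685785341) (nat_lit 103) (nat_lit 5) (nat_lit 108) (nat_lit 5) (nat_lit 109) (nat_lit 5) (nat_lit 316) (nat_lit 241) (nat_lit 223)) (XT.lf (nat_lit 0) (nat_lit 3249443993) (nat_lit 380) (nat_lit 4159249632) (nat_lit 76) (nat_lit 3476934509) (nat_lit 98) (nat_lit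 5) (nat_lit 103) (nat_lit 5) (nat_lit 99) (nat_lit 5) (nat_lit 317) (nat_lit 241) (nat_lit 222)))) (XT.nd (nat_lit 78) (nat_lit 684) (nat_lit 0) (XT.lf (nat_lit 0) (nat_lit 5439216465) (nat_lit 304) (nat_lit 2831906352) (nat_lit 380) (nat_lit 2809094286) (nat_lit 94) (nat_lit 5) (nat_lit 98) (nat_lit 5) (nat_lit 99) (nat_lit 5) (nat_lit 318) (nat_lit 241) (nat_lit 221)) (XT.nd (nat_lit 78) (nat_lit 304) (nat_lit 0) (XT.lf (nat_lit 0) (nat_lit 2101052420) (nat_lit 380) (nat_lit 7304929377) (nat_lit 76) (nat_lit 1875111074) (nat_lit 89) (nat_lit 5) (nat_lit 94) (nat_lit 5) (nat_lit 90) (nat_lit 5) (nat_lit 319) (nat_lit 241) (nat_lit 220)) (XT.lf (nat_lit 0) (nat_lit 2313135588) (nat_lit 304) (nat_lit 4781470340) (nat_lit 380) (nat_lit 4393592649) (nat_lit 85) (nat_lit 5) (nat_lit 89) (nat_lit 5) (nat_lit 90) (nat_lit 5) (nat_lit 320) (nat_lit 241) (nat_lit 219))))) (XT.nd (nat_lit 234) (nat_lit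 912) (nat_lit 0) (XT.nd (nat_lit 78) (nat_lit 304) (nat_lit 0) (XT.lf (nat_lit 0) (nat_lit 471630862) (nat_lit 228) (nat_lit 13491001) (nat_lit 304) (nat_lit 11217269210) (nat_lit 81) (nat_lit 5) (nat_lit 84) (nat_lit 5) (nat_lit 85) (nat_lit 5) (nat_lit 321) (nat_lit 241) (nat_lit 218)) (XT.nd (nat_lit 78) (nat_lit 304) (nat_lit 0) (XT.lf (nat_lit 0) (nat_lit 5449581447) (nat_lit 304) (nat_lit 1599182458) (nat_lit 76) (nat_lit 4873738881) (nat_lit 81) (nat_lit 5) (nat_lit 85) (nat_lit 5) (nat_lit 82) (nat_lit 5) (nat_lit 322) (nat_lit 241) (nat_lit 217)) (XT.lf (nat_lit 0) (nat_lit 8285116916) (nat_lit 304) (nat_lit 2238878665) (nat_lit 380) (nat_lit 1626056015) (nat_lit 77) (nat_lit 5) (nat_lit 81) (nat_lit 5) (nat_lit 82) (nat_lit 5) (nat_lit 323) (nat_lit 241) (nat_lit 216)))) (XT.nd (nat_lit 156) (nat_lit 304) (nat_lit 0) (XT.nd (nat_lit 78) (nat_lit 304) (nat_lit 0) (XT.lf (nat_lit 0) (nat_lit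 3298071326) (nat_lit 304) (nat_lit 6385751996) (nat_lit 76) (nat_lit 2700697892) (nat_lit 73) (nat_lit 5) (nat_lit 77) (nat_lit 5) (nat_lit 74) (nat_lit 5) (nat_lit 324) (nat_lit 241) (nat_lit 215)) (XT.lf (nat_lit 0) (nat_lit 3462273162) (nat_lit 304) (nat_lit 4859181817) (nat_lit 380) (nat_lit 4304932542) (nat_lit 69) (nat_lit 5) (nat_lit 73) (nat_lit 5) (nat_lit 74) (nat_lit 5) (nat_lit 325) (nat_lit 241) (nat_lit 214))) (XT.nd (nat_lit 78) (nat_lit 0) (nat_lit 0) (XT.lf (nat_lit 0) (nat_lit 571365176) (nat_lit 304) (nat_lit 12195710555) (nat_lit 76) (nat_lit 109211877) (nat_lit 65) (nat_lit 5) (nat_lit 69) (nat_lit 5) (nat_lit 66) (nat_lit 5) (nat_lit 326) (nat_lit 241) (nat_lit 213)) (XT.lf (nat_lit 0) (nat_lit 5542925701) (nat_lit 304) (nat_lit 2389065435) (nat_lit 76) (nat_lit 5201021480) (nat_lit 65) (nat_lit 5) (nat_lit 69) (nat_lit 5) (nat_lit 66) (nat_lit 5) (nat_lit 327) (nat_lit 241)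 (nat_lit 212)))))) (XT.nd (nat_lit 468) (nat_lit 912) (nat_lit 0) (XT.nd (nat_lit 234) (nat_lit 532) (nat_lit 0) (XT.nd (nat_lit 78) (nat_lit 532) (nat_lit 0) (XT.lf (nat_lit 0) (nat_lit 7675575667) (nat_lit 228) (nat_lit 2952573811) (nat_lit 304) (nat_lit 2770044473) (nat_lit 62) (nat_lit 5) (nat_lit 65) (nat_lit 5) (nat_lit 66) (nat_lit 5) (nat_lit 328) (nat_lit 241) (nat_lit 211)) (XT.nd (nat_lit 78) (nat_lit 228) (nat_lit 0) (XT.lf (nat_lit 0) (nat_lit 2139975302) (nat_lit 304) (nat_lit 9375859997) (nat_lit 76) (nat_lit 2155770019) (nat_lit 58) (nat_lit 5) (nat_lit 62) (nat_lit 5) (nat_lit 59) (nat_lit 5) (nat_lit 329) (nat_lit 241) (nat_lit 210)) (XT.lf (nat_lit 0) (nat_lit 574583244) (nat_lit 228) (nat_lit 6564756214) (nat_lit 304) (nat_lit 6813961306) (nat_lit 55) (nat_lit 5) (nat_lit 58) (nat_lit 5) (nat_lit 59) (nat_lit 5) (nat_lit 330) (nat_lit 241) (nat_lit 209)))) (XT.nd (nat_lit 78)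 (nat_lit 532) (nat_lit 0) (XT.lf (nat_lit 0) (nat_lit 10819093334) (nat_lit 228) (nat_lit 1451634211) (nat_lit 304) (nat_lit 1973118958) (nat_lit 55) (nat_lit 5) (nat_lit 58) (nat_lit 5) (nat_lit 59) (nat_lit 5) (nat_lit 331) (nat_lit 241) (nat_lit 208)) (XT.nd (nat_lit 78) (nat_lit 228) (nat_lit 0) (XT.lf (nat_lit 0) (nat_lit 2962551806) (nat_lit 304) (nat_lit 7801328958) (nat_lit 76) (nat_lit 3779092584) (nat_lit 51) (nat_lit 5) (nat_lit 55) (nat_lit 5) (nat_lit 52) (nat_lit 5) (nat_lit 332) (nat_lit 241) (nat_lit 207)) (XT.lf (nat_lit 0) (nat_lit 2287057888) (nat_lit 228) (nat_lit 5701986097) (nat_lit 304) (nat_lit 6862415233) (nat_lit 48) (nat_lit 5) (nat_lit 51) (nat_lit 5) (nat_lit 52) (nat_lit 5) (nat_lit 333) (nat_lit 241) (nat_lit 206))))) (XT.nd (nat_lit 234) (nat_lit 456) (nat_lit 0) (XT.nd (nat_lit 78) (nat_lit 456) (nat_lit 0) (XT.lf (nat_lit 0) (nat_lit 12657794669) (nat_lit 228)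 (nat_lit 484349877) (nat_lit 304) (nat_lit 2027574992) (nat_lit 48) (nat_lit 5) (nat_lit 51) (nat_lit 5) (nat_lit 52) (nat_lit 5) (nat_lit 334) (nat_lit 241) (nat_lit 205)) (XT.nd (nat_lit 78) (nat_lit 228) (nat_lit 0) (XT.lf (nat_lit 0) (nat_lit 2920793733) (nat_lit 228) (nat_lit 7728718547) (nat_lit 76) (nat_lit 4847522357) (nat_lit 45) (nat_lit 5) (nat_lit 48) (nat_lit 5) (nat_lit 46) (nat_lit 5) (nat_lit 335) (nat_lit 241) (nat_lit 204)) (XT.lf (nat_lit 0) (nat_lit 2449128444) (nat_lit 228) (nat_lit 5503118431) (nat_lit 304) (nat_lit 7882444070) (nat_lit 42) (nat_lit 5) (nat_lit 45) (nat_lit 5) (nat_lit 46) (nat_lit 5) (nat_lit 336) (nat_lit 241) (nat_lit 203)))) (XT.nd (nat_lit 156) (nat_lit 228) (nat_lit 0) (XT.nd (nat_lit 78) (nat_lit 228) (nat_lit 0) (XT.lf (nat_lit 0) (nat_lit 12916507653) (nat_lit 228) (nat_lit 197629762) (nat_lit 304) (nat_lit 3068782079) (nat_lit 42) (nat_lit 5) (nat_lit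 45) (nat_lit 5) (nat_lit 46) (nat_lit 5) (nat_lit 337) (nat_lit 241) (nat_lit 202)) (XT.lf (nat_lit 0) (nat_lit 1873747316) (nat_lit 228) (nat_lit 9457781080) (nat_lit 76) (nat_lit 5209667325) (nat_lit 39) (nat_lit 5) (nat_lit 42) (nat_lit 5) (nat_lit 40) (nat_lit 5) (nat_lit 338) (nat_lit 241) (nat_lit 201))) (XT.nd (nat_lit 78) (nat_lit 0) (nat_lit 0) (XT.lf (nat_lit 0) (nat_lit 748269937) (nat_lit 228) (nat_lit 6133041826) (nat_lit 304) (nat_lit 10029363709) (nat_lit 36) (nat_lit 5) (nat_lit 39) (nat_lit 5) (nat_lit 40) (nat_lit 5) (nat_lit 339) (nat_lit 241) (nat_lit 200)) (XT.lf (nat_lit 0) (nat_lit 11273657349) (nat_lit 228) (nat_lit 760579094) (nat_lit 304) (nat_lit 5257129602) (nat_lit 36) (nat_lit 5) (nat_lit 39) (nat_lit 5) (nat_lit 40) (nat_lit 5) (nat_lit 340) (nat_lit 241) (nat_lit 199))))))) (XT.nd (nat_lit 1014) (nat_lit 608) (nat_lit 0) (XT.nd (nat_lit 468) (nat_lit 456) (nat_lit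 0) (XT.nd (nat_lit 234) (nat_lit 380) (nat_lit 0) (XT.nd (nat_lit 78) (nat_lit 228) (nat_lit 0) (XT.lf (nat_lit 0) (nat_lit 4343316623) (nat_lit 152) (nat_lit 12990376125) (nat_lit 228) (nat_lit 349973959) (nat_lit 34) (nat_lit 5) (nat_lit 36) (nat_lit 5) (nat_lit 37) (nat_lit 4) (nat_lit 341) (nat_lit 241) (nat_lit 198)) (XT.nd (nat_lit 78) (nat_lit 152) (nat_lit 0) (XT.lf (nat_lit 0) (nat_lit 4622352255) (nat_lit 228) (nat_lit 3138324246) (nat_lit 76) (nat_lit 10326882796) (nat_lit 33) (nat_lit 5) (nat_lit 36) (nat_lit 5) (nat_lit 34) (nat_lit 5) (nat_lit 342) (nat_lit 241) (nat_lit 197)) (XT.lf (nat_lit 0) (nat_lit 7354118126) (nat_lit 152) (nat_lit 2368207195) (nat_lit 228) (nat_lit 8781558546) (nat_lit 31) (nat_lit 5) (nat_lit 33) (nat_lit 5) (nat_lit 34) (nat_lit 5) (nat_lit 343) (nat_lit 241) (nat_lit 196)))) (XT.nd (nat_lit 78) (nat_lit 380) (nat_lit 0) (XT.lf (nat_lit 0) (nat_lit 14953736699)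 (nat_lit 228) (nat_lit 857784647) (nat_lit 76) (nat_lit 3121633389) (nat_lit 31) (nat_lit 5) (nat_lit 34) (nat_lit 5) (nat_lit 32) (nat_lit 4) (nat_lit 344) (nat_lit 241) (nat_lit 195)) (XT.nd (nat_lit 78) (nat_lit 152) (nat_lit 0) (XT.lf (nat_lit 0) (nat_lit 971533149) (nat_lit 228) (nat_lit 9632195111) (nat_lit 76) (nat_lit 8771125533) (nat_lit 28) (nat_lit 5) (nat_lit 31) (nat_lit 5) (nat_lit 29) (nat_lit 5) (nat_lit 345) (nat_lit 241) (nat_lit 194)) (XT.lf (nat_lit 0) (nat_lit 721053788) (nat_lit 152) (nat_lit 5245634190) (nat_lit 228) (nat_lit 13863618391) (nat_lit 26) (nat_lit 5) (nat_lit 28) (nat_lit 5) (nat_lit 29) (nat_lit 5) (nat_lit 346) (nat_lit 241) (nat_lit 193))))) (XT.nd (nat_lit 234) (nat_lit 228) (nat_lit 0) (XT.nd (nat_lit 78) (nat_lit 228) (nat_lit 0) (XT.lf (nat_lit 0) (nat_lit 11118902069) (nat_lit 228) (nat_lit 8887737263) (nat_lit 76) (nat_lit 292661836) (nat_lit 26) (nat_lit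 5) (nat_lit 29) (nat_lit 5) (nat_lit 27) (nat_lit 4) (nat_lit 347) (nat_lit 241) (nat_lit 192)) (XT.nd (nat_lit 78) (nat_lit 76) (nat_lit 0) (XT.lf (nat_lit 0) (nat_lit 1524206447) (nat_lit 152) (nat_lit 14887935428) (nat_lit 228) (nat_lit 4370516829) (nat_lit 24) (nat_lit 5) (nat_lit 26) (nat_lit 5) (nat_lit 27) (nat_lit 4) (nat_lit 348) (nat_lit 241) (nat_lit 191)) (XT.lf (nat_lit 0) (nat_lit 578772060) (nat_lit 228) (nat_lit 9013612287) (nat_lit 76) (nat_lit 11688022540) (nat_lit 23) (nat_lit 5) (nat_lit 26) (nat_lit 5) (nat_lit 24) (nat_lit 5) (nat_lit 349) (nat_lit 241) (nat_lit 190)))) (XT.nd (nat_lit 156) (nat_lit 76) (nat_lit 0) (XT.nd (nat_lit 78) (nat_lit 0) (nat_lit 0) (XT.lf (nat_lit 0) (nat_lit 1430753876) (nat_lit 152) (nat_lit 4139860687) (nat_lit 228) (nat_lit 16222846511) (nat_lit 21) (nat_lit 5) (nat_lit 23) (nat_lit 5) (nat_lit 24) (nat_lit 5) (nat_lit 350) (nat_lit 241) (nat_lit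 189)) (XT.lf (nat_lit 0) (nat_lit 10727856510) (nat_lit 228) (nat_lit 10115479589) (nat_lit 76) (nat_lit 1478277711) (nat_lit 21) (nat_lit 5) (nat_lit 24) (nat_lit 5) (nat_lit 22) (nat_lit 4) (nat_lit 351) (nat_lit 241) (nat_lit 188))) (XT.nd (nat_lit 78) (nat_lit 0) (nat_lit 0) (XT.lf (nat_lit 0) (nat_lit 321880076) (nat_lit 76) (nat_lit 15693900742) (nat_lit 152) (nat_lit 6850330237) (nat_lit 20) (nat_lit 5) (nat_lit 21) (nat_lit 5) (nat_lit 22) (nat_lit 4) (nat_lit 352) (nat_lit 241) (nat_lit 187)) (XT.lf (nat_lit 0) (nat_lit 11118523747) (nat_lit 76) (nat_lit 10359522965) (nat_lit 152) (nat_lit 1948601099) (nat_lit 20) (nat_lit 5) (nat_lit 21) (nat_lit 5) (nat_lit 22) (nat_lit 4) (nat_lit 353) (nat_lit 241) (nat_lit 186)))))) (XT.nd (nat_lit 468) (nat_lit 76) (nat_lit 0) (XT.nd (nat_lit 234) (nat_lit 304) (nat_lit 0) (XT.nd (nat_lit 78) (nat_lit 152) (nat_lit 0) (XT.lf (nat_lit 0) (nat_lit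 3007860107) (nat_lit 152) (nat_lit 1875377421) (nat_lit 76) (nat_lit 19121411553) (nat_lit 19) (nat_lit 5) (nat_lit 21) (nat_lit 5) (nat_lit 20) (nat_lit 5) (nat_lit 354) (nat_lit 241) (nat_lit 185)) (XT.nd (nat_lit 78) (nat_lit 0) (nat_lit 0) (XT.lf (nat_lit 0) (nat_lit 8099373320) (nat_lit 228) (nat_lit 15718558299) (nat_lit 76) (nat_lit 781561778) (nat_lit 17) (nat_lit 5) (nat_lit 20) (nat_lit 5) (nat_lit 18) (nat_lit 4) (nat_lit 355) (nat_lit 241) (nat_lit 184)) (XT.lf (nat_lit 0) (nat_lit 13339585400) (nat_lit 228) (nat_lit 5346085473) (nat_lit 76) (nat_lit 6526609851) (nat_lit 17) (nat_lit 5) (nat_lit 20) (nat_lit 5) (nat_lit 18) (nat_lit 4) (nat_lit 356) (nat_lit 241) (nat_lit 183)))) (XT.nd (nat_lit 78) (nat_lit 228) (nat_lit 0) (XT.lf (nat_lit 0) (nat_lit 5322883256) (nat_lit 76) (nat_lit 13400626667) (nat_lit 152) (nat_lit 7120227888) (nat_lit 16) (nat_lit 5) (nat_lit 17) (nat_lit 5)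 (nat_lit 18) (nat_lit 4) (nat_lit 357) (nat_lit 241) (nat_lit 182)) (XT.nd (nat_lit 78) (nat_lit 228) (nat_lit 0) (XT.lf (nat_lit 0) (nat_lit 16301980991) (nat_lit 76) (nat_lit 7956004313) (nat_lit 152) (nat_lit 2236388435) (nat_lit 16) (nat_lit 5) (nat_lit 17) (nat_lit 5) (nat_lit 18) (nat_lit 4) (nat_lit 358) (nat_lit 241) (nat_lit 181)) (XT.lf (nat_lit 0) (nat_lit 351061486) (nat_lit 152) (nat_lit 2362403031) (nat_lit 228) (nat_lit 24451593616) (nat_lit 13) (nat_lit 5) (nat_lit 15) (nat_lit 5) (nat_lit 16) (nat_lit 5) (nat_lit 359) (nat_lit 241) (nat_lit 180))))) (XT.nd (nat_lit 234) (nat_lit 0) (nat_lit 0) (XT.nd (nat_lit 78) (nat_lit 76) (nat_lit 0) (XT.lf (nat_lit 0) (nat_lit 7827656853) (nat_lit 228) (nat_lit 16622330592) (nat_lit 76) (nat_lit 3404670004) (nat_lit 13) (nat_lit 5) (nat_lit 16) (nat_lit 5) (nat_lit 14) (nat_lit 4) (nat_lit 360) (nat_lit 241) (nat_lit 179)) (XT.nd (nat_lit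 78) (nat_lit 76) (nat_lit 0) (XT.lf (nat_lit 0) (nat_lit 13066861237) (nat_lit 228) (nat_lit 6219064038) (nat_lit 76) (nat_lit 9279601911) (nat_lit 13) (nat_lit 5) (nat_lit 16) (nat_lit 5) (nat_lit 14) (nat_lit 4) (nat_lit 361) (nat_lit 241) (nat_lit 178)) (XT.lf (nat_lit 0) (nat_lit 4478974084) (nat_lit 76) (nat_lit 13970423713) (nat_lit 152) (nat_lit 10848615850) (nat_lit 12) (nat_lit 5) (nat_lit 13) (nat_lit 5) (nat_lit 14) (nat_lit 4) (nat_lit 362) (nat_lit 241) (nat_lit 177)))) (XT.nd (nat_lit 35490) (nat_lit 0) (nat_lit 15428) (XT.nd (nat_lit 35412) (nat_lit 0) (nat_lit 16796) (XT.lf (nat_lit 0) (nat_lit 15508246031) (nat_lit 76) (nat_lit 8485146687) (nat_lit 152) (nat_lit 6059095690) (nat_lit 12) (nat_lit 5) (nat_lit 13) (nat_lit 5) (nat_lit 14) (nat_lit 4) (nat_lit 363) (nat_lit 241) (nat_lit 176)) (XT.lf (nat_lit 0) (nat_lit 364142413) (nat_lit 684) (nat_lit 3272640627) (nat_lit 0) (nat_lit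 364142413) (nat_lit 233) (nat_lit 5) (nat_lit 242) (nat_lit 4) (nat_lit 233) (nat_lit 4) (nat_lit 296) (nat_lit 242) (nat_lit 242))) (XT.nd (nat_lit 78) (nat_lit 684) (nat_lit 0) (XT.lf (nat_lit 0) (nat_lit 1701770359) (nat_lit 684) (nat_lit 4110250493) (nat_lit 684) (nat_lit 2283649210) (nat_lit 224) (nat_lit 4) (nat_lit 233) (nat_lit 5) (nat_lit 233) (nat_lit 4) (nat_lit 297) (nat_lit 242) (nat_lit 241)) (XT.lf (nat_lit 0) (nat_lit 1934114485) (nat_lit 608) (nat_lit 805546441) (nat_lit 684) (nat_lit 5453988587) (nat_lit 215) (nat_lit 5) (nat_lit 223) (nat_lit 5) (nat_lit 224) (nat_lit 4) (nat_lit 298) (nat_lit 242) (nat_lit 240))))))))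
noncomputable def xc22 : XT := (XT.nd (nat_lit 2028) (nat_lit 3800) (nat_lit 0) (XT.nd (nat_lit 1014) (nat_lit 3876) (nat_lit 0) (XT.nd (nat_lit 468) (nat_lit 3420) (nat_lit 0) (XT.nd (nat_lit 234) (nat_lit 1596) (nat_lit 0) (XT.nd (nat_lit 78) (nat_lit 1292) (nat_lit 0) (XT.lf (nat_lit 0) (nat_lit 2134639654) (nat_lit 608) (nat_lit 5689169281) (nat_lit 608) (nat_lit 471769786) (nat_lit 207) (nat_lit 4) (nat_lit 215) (nat_lit 5) (nat_lit 215) (nat_lit 4) (nat_lit 299) (nat_lit 242) (nat_lit 239)) (XT.nd (nat_lit 78) (nat_lit 684) (nat_lit 0) (XT.lf (nat_lit 0) (nat_lit 2294890111) (nat_lit 532) (nat_lit 2235363396) (nat_lit 608) (nat_lit 3871207151) (nat_lit 199) (nat_lit 5) (nat_lit 206) (nat_lit 5) (nat_lit 207) (nat_lit 4) (nat_lit 300) (nat_lit 242) (nat_lit 238)) (XT.lf (nat_lit 0) (nat_lit 1087108580) (nat_lit 684) (nat_lit 6085718864) (nat_lit 76) (nat_lit 1338862263) (nat_lit 190) (nat_lit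 5) (nat_lit 199) (nat_lit 5) (nat_lit 191) (nat_lit 4) (nat_lit 301) (nat_lit 242) (nat_lit 237)))) (XT.nd (nat_lit 78) (nat_lit 1064) (nat_lit 0) (XT.lf (nat_lit 0) (nat_lit 2500566086) (nat_lit 532) (nat_lit 3586910390) (nat_lit 608) (nat_lit 2538438671) (nat_lit 183) (nat_lit 5) (nat_lit 190) (nat_lit 5) (nat_lit 191) (nat_lit 4) (nat_lit 302) (nat_lit 242) (nat_lit 236)) (XT.nd (nat_lit 78) (nat_lit 456) (nat_lit 0) (XT.lf (nat_lit 0) (nat_lit 2394972061) (nat_lit 608) (nat_lit 6207729148) (nat_lit 76) (nat_lit 141987805) (nat_lit 175) (nat_lit 5) (nat_lit 183) (nat_lit 5) (nat_lit 176) (nat_lit 4) (nat_lit 303) (nat_lit 242) (nat_lit 235)) (XT.lf (nat_lit 0) (nat_lit 2504835763) (nat_lit 456) (nat_lit 4896124608) (nat_lit 532) (nat_lit 1466659080) (nat_lit 169) (nat_lit 5) (nat_lit 175) (nat_lit 5) (nat_lit 176) (nat_lit 4) (nat_lit 304) (nat_lit 242) (nat_lit 234))))) (XT.nd (nat_lit 234)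 (nat_lit 1824) (nat_lit 0) (XT.nd (nat_lit 78) (nat_lit 988) (nat_lit 0) (XT.lf (nat_lit 0) (nat_lit 2415997579) (nat_lit 532) (nat_lit 1036667193) (nat_lit 608) (nat_lit 5542485213) (nat_lit 161) (nat_lit 5) (nat_lit 168) (nat_lit 5) (nat_lit 169) (nat_lit 5) (nat_lit 305) (nat_lit 242) (nat_lit 233)) (XT.nd (nat_lit 78) (nat_lit 532) (nat_lit 0) (XT.lf (nat_lit 0) (nat_lit 2257822955) (nat_lit 456) (nat_lit 6199779776) (nat_lit 532) (nat_lit 669652431) (nat_lit 155) (nat_lit 5) (nat_lit 161) (nat_lit 5) (nat_lit 162) (nat_lit 4) (nat_lit 306) (nat_lit 242) (nat_lit 232)) (XT.lf (nat_lit 0) (nat_lit 2017283736) (nat_lit 456) (nat_lit 2222220518) (nat_lit 532) (nat_lit 5024407749) (nat_lit 148) (nat_lit 5) (nat_lit 154) (nat_lit 5) (nat_lit 155) (nat_lit 5) (nat_lit 307) (nat_lit 242) (nat_lit 231)))) (XT.nd (nat_lit 156) (nat_lit 836) (nat_lit 0) (XT.nd (nat_lit 78) (nat_lit 532) (nat_lit 0)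 (XT.lf (nat_lit 0) (nat_lit 1705561826) (nat_lit 456) (nat_lit 7535822353) (nat_lit 532) (nat_lit 164199015) (nat_lit 142) (nat_lit 5) (nat_lit 148) (nat_lit 5) (nat_lit 149) (nat_lit 4) (nat_lit 308) (nat_lit 242) (nat_lit 230)) (XT.lf (nat_lit 0) (nat_lit 1285484676) (nat_lit 456) (nat_lit 3451359794) (nat_lit 532) (nat_lit 4814950295) (nat_lit 135) (nat_lit 5) (nat_lit 141) (nat_lit 5) (nat_lit 142) (nat_lit 5) (nat_lit 309) (nat_lit 242) (nat_lit 229))) (XT.nd (nat_lit 78) (nat_lit 380) (nat_lit 0) (XT.lf (nat_lit 0) (nat_lit 29318652) (nat_lit 456) (nat_lit 8914209232) (nat_lit 76) (nat_lit 759916827) (nat_lit 129) (nat_lit 5) (nat_lit 135) (nat_lit 5) (nat_lit 130) (nat_lit 5) (nat_lit 310) (nat_lit 242) (nat_lit 228)) (XT.lf (nat_lit 0) (nat_lit 159364343) (nat_lit 380) (nat_lit 4764347736) (nat_lit 456) (nat_lit 4935974057) (nat_lit 124) (nat_lit 5) (nat_lit 129) (nat_lit 5) (nat_lit 130)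 (nat_lit 5) (nat_lit 311) (nat_lit 242) (nat_lit 227)))))) (XT.nd (nat_lit 468) (nat_lit 1900) (nat_lit 0) (XT.nd (nat_lit 234) (nat_lit 1140) (nat_lit 0) (XT.nd (nat_lit 78) (nat_lit 836) (nat_lit 0) (XT.lf (nat_lit 0) (nat_lit 9471581570) (nat_lit 380) (nat_lit 445312505) (nat_lit 456) (nat_lit 104761953) (nat_lit 124) (nat_lit 5) (nat_lit 129) (nat_lit 5) (nat_lit 130) (nat_lit 5) (nat_lit 312) (nat_lit 242) (nat_lit 226)) (XT.nd (nat_lit 78) (nat_lit 380) (nat_lit 0) (XT.lf (nat_lit 0) (nat_lit 4784885936) (nat_lit 456) (nat_lit 1409177906) (nat_lit 76) (nat_lit 3994317330) (nat_lit 118) (nat_lit 5) (nat_lit 124) (nat_lit 5) (nat_lit 119) (nat_lit 5) (nat_lit 313) (nat_lit 242) (nat_lit 225)) (XT.lf (nat_lit 0) (nat_lit 7984959945) (nat_lit 380) (nat_lit 1789173187) (nat_lit 456) (nat_lit 586948686) (nat_lit 113) (nat_lit 5) (nat_lit 118) (nat_lit 5) (nat_lit 119) (nat_lit 5) (nat_lit 314)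 (nat_lit 242) (nat_lit 224)))) (XT.nd (nat_lit 78) (nat_lit 760) (nat_lit 0) (XT.lf (nat_lit 0) (nat_lit 4287296744) (nat_lit 380) (nat_lit 3502893139) (nat_lit 76) (nat_lit 2748864905) (nat_lit 108) (nat_lit 5) (nat_lit 113) (nat_lit 5) (nat_lit 109) (nat_lit 5) (nat_lit 315) (nat_lit 242) (nat_lit 223)) (XT.nd (nat_lit 78) (nat_lit 380) (nat_lit 0) (XT.lf (nat_lit 0) (nat_lit 5953153322) (nat_lit 380) (nat_lit 3312307043) (nat_lit 456) (nat_lit 1457584310) (nat_lit 103) (nat_lit 5) (nat_lit 108) (nat_lit 5) (nat_lit 109) (nat_lit 5) (nat_lit 316) (nat_lit 242) (nat_lit 222)) (XT.lf (nat_lit 0) (nat_lit 3397990546) (nat_lit 380) (nat_lit 6203001048) (nat_lit 76) (nat_lit 1311911600) (nat_lit 98) (nat_lit 5) (nat_lit 103) (nat_lit 5) (nat_lit 99) (nat_lit 5) (nat_lit 317) (nat_lit 242) (nat_lit 221))))) (XT.nd (nat_lit 234) (nat_lit 1216) (nat_lit 0) (XT.nd (nat_lit 78) (nat_lit 380) (nat_lit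 0) (XT.lf (nat_lit 0) (nat_lit 3294198504) (nat_lit 304) (nat_lit 5063121156) (nat_lit 380) (nat_lit 2751450737) (nat_lit 94) (nat_lit 5) (nat_lit 98) (nat_lit 5) (nat_lit 99) (nat_lit 5) (nat_lit 318) (nat_lit 242) (nat_lit 220)) (XT.nd (nat_lit 78) (nat_lit 0) (nat_lit 0) (XT.lf (nat_lit 0) (nat_lit 1712332357) (nat_lit 304) (nat_lit 370667401) (nat_lit 380) (nat_lit 9228167464) (nat_lit 89) (nat_lit 5) (nat_lit 93) (nat_lit 5) (nat_lit 94) (nat_lit 5) (nat_lit 319) (nat_lit 242) (nat_lit 219)) (XT.lf (nat_lit 0) (nat_lit 7012074078) (nat_lit 380) (nat_lit 80942870) (nat_lit 76) (nat_lit 4426574434) (nat_lit 89) (nat_lit 5) (nat_lit 94) (nat_lit 5) (nat_lit 90) (nat_lit 5) (nat_lit 320) (nat_lit 242) (nat_lit 218)))) (XT.nd (nat_lit 156) (nat_lit 608) (nat_lit 0) (XT.nd (nat_lit 78) (nat_lit 228) (nat_lit 0) (XT.lf (nat_lit 0) (nat_lit 322614821) (nat_lit 380) (nat_lit 2032084565) (nat_lit 76)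 (nat_lit 9380128295) (nat_lit 84) (nat_lit 5) (nat_lit 89) (nat_lit 5) (nat_lit 85) (nat_lit 5) (nat_lit 321) (nat_lit 242) (nat_lit 217)) (XT.lf (nat_lit 0) (nat_lit 5212671419) (nat_lit 304) (nat_lit 4218646215) (nat_lit 76) (nat_lit 2525136499) (nat_lit 81) (nat_lit 5) (nat_lit 85) (nat_lit 5) (nat_lit 82) (nat_lit 5) (nat_lit 322) (nat_lit 242) (nat_lit 216))) (XT.nd (nat_lit 78) (nat_lit 304) (nat_lit 0) (XT.lf (nat_lit 0) (nat_lit 5560670859) (nat_lit 304) (nat_lit 4664313362) (nat_lit 380) (nat_lit 1960286651) (nat_lit 77) (nat_lit 5) (nat_lit 81) (nat_lit 5) (nat_lit 82) (nat_lit 5) (nat_lit 323) (nat_lit 242) (nat_lit 215)) (XT.lf (nat_lit 0) (nat_lit 2889709631) (nat_lit 304) (nat_lit 9270031550) (nat_lit 76) (nat_lit 261637655) (nat_lit 73) (nat_lit 5) (nat_lit 77) (nat_lit 5) (nat_lit 74) (nat_lit 5) (nat_lit 324) (nat_lit 242) (nat_lit 214))))))) (XT.nd (nat_lit 1014) (nat_lit 1444)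 (nat_lit 0) (XT.nd (nat_lit 468) (nat_lit 1216) (nat_lit 0) (XT.nd (nat_lit 234) (nat_lit 532) (nat_lit 0) (XT.nd (nat_lit 78) (nat_lit 304) (nat_lit 0) (XT.lf (nat_lit 0) (nat_lit 470409981) (nat_lit 304) (nat_lit 7380062907) (nat_lit 380) (nat_lit 4814048600) (nat_lit 69) (nat_lit 5) (nat_lit 73) (nat_lit 5) (nat_lit 74) (nat_lit 5) (nat_lit 325) (nat_lit 242) (nat_lit 213)) (XT.nd (nat_lit 78) (nat_lit 228) (nat_lit 0) (XT.lf (nat_lit 0) (nat_lit 21107033) (nat_lit 380) (nat_lit 2422143137) (nat_lit 76) (nat_lit 10472216683) (nat_lit 68) (nat_lit 5) (nat_lit 73) (nat_lit 5) (nat_lit 69) (nat_lit 5) (nat_lit 326) (nat_lit 242) (nat_lit 212)) (XT.lf (nat_lit 0) (nat_lit 4918734861) (nat_lit 304) (nat_lit 5614927460) (nat_lit 76) (nat_lit 2640030315) (nat_lit 65) (nat_lit 5) (nat_lit 69) (nat_lit 5) (nat_lit 66) (nat_lit 5) (nat_lit 327) (nat_lit 242) (nat_lit 211)))) (XT.nd (nat_lit 78) (nat_lit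 304) (nat_lit 0) (XT.lf (nat_lit 0) (nat_lit 4340513893) (nat_lit 228) (nat_lit 5600986637) (nat_lit 304) (nat_lit 3498644078) (nat_lit 62) (nat_lit 5) (nat_lit 65) (nat_lit 5) (nat_lit 66) (nat_lit 5) (nat_lit 328) (nat_lit 242) (nat_lit 210)) (XT.nd (nat_lit 78) (nat_lit 0) (nat_lit 0) (XT.lf (nat_lit 0) (nat_lit 827296657) (nat_lit 228) (nat_lit 516518657) (nat_lit 304) (nat_lit 12371398035) (nat_lit 58) (nat_lit 5) (nat_lit 61) (nat_lit 5) (nat_lit 62) (nat_lit 5) (nat_lit 329) (nat_lit 242) (nat_lit 209)) (XT.lf (nat_lit 0) (nat_lit 6296376763) (nat_lit 304) (nat_lit 3006208935) (nat_lit 76) (nat_lit 4695278998) (nat_lit 58) (nat_lit 5) (nat_lit 62) (nat_lit 5) (nat_lit 59) (nat_lit 5) (nat_lit 330) (nat_lit 242) (nat_lit 208))))) (XT.nd (nat_lit 234) (nat_lit 684) (nat_lit 0) (XT.nd (nat_lit 78) (nat_lit 304) (nat_lit 0) (XT.lf (nat_lit 0) (nat_lit 7134844216) (nat_lit 228) (nat_lit 4234168921)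 (nat_lit 304) (nat_lit 2920591599) (nat_lit 55) (nat_lit 5) (nat_lit 58) (nat_lit 5) (nat_lit 59) (nat_lit 5) (nat_lit 331) (nat_lit 242) (nat_lit 207)) (XT.nd (nat_lit 78) (nat_lit 0) (nat_lit 0) (XT.lf (nat_lit 0) (nat_lit 1946061342) (nat_lit 304) (nat_lit 11666412086) (nat_lit 76) (nat_lit 978028409) (nat_lit 51) (nat_lit 5) (nat_lit 55) (nat_lit 5) (nat_lit 52) (nat_lit 5) (nat_lit 332) (nat_lit 242) (nat_lit 206)) (XT.lf (nat_lit 0) (nat_lit 6920154909) (nat_lit 304) (nat_lit 1669804020) (nat_lit 76) (nat_lit 6310094556) (nat_lit 51) (nat_lit 5) (nat_lit 55) (nat_lit 5) (nat_lit 52) (nat_lit 5) (nat_lit 333) (nat_lit 242) (nat_lit 205)))) (XT.nd (nat_lit 156) (nat_lit 228) (nat_lit 0) (XT.nd (nat_lit 78) (nat_lit 228) (nat_lit 0) (XT.lf (nat_lit 0) (nat_lit 8617960705) (nat_lit 228) (nat_lit 3407458740) (nat_lit 304) (nat_lit 3193868367) (nat_lit 48) (nat_lit 5) (nat_lit 51) (nat_lit 5)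 (nat_lit 52) (nat_lit 5) (nat_lit 334) (nat_lit 242) (nat_lit 204)) (XT.lf (nat_lit 0) (nat_lit 1687158454) (nat_lit 228) (nat_lit 11956730746) (nat_lit 76) (nat_lit 1904534374) (nat_lit 45) (nat_lit 5) (nat_lit 48) (nat_lit 5) (nat_lit 46) (nat_lit 5) (nat_lit 335) (nat_lit 242) (nat_lit 203))) (XT.nd (nat_lit 78) (nat_lit 228) (nat_lit 0) (XT.lf (nat_lit 0) (nat_lit 6667198429) (nat_lit 228) (nat_lit 1870117997) (nat_lit 76) (nat_lit 7349807695) (nat_lit 45) (nat_lit 5) (nat_lit 48) (nat_lit 5) (nat_lit 46) (nat_lit 5) (nat_lit 336) (nat_lit 242) (nat_lit 202)) (XT.lf (nat_lit 0) (nat_lit 8514253892) (nat_lit 228) (nat_lit 3267676616) (nat_lit 304) (nat_lit 4454380842) (nat_lit 42) (nat_lit 5) (nat_lit 45) (nat_lit 5) (nat_lit 46) (nat_lit 5) (nat_lit 337) (nat_lit 242) (nat_lit 201)))))) (XT.nd (nat_lit 468) (nat_lit 608) (nat_lit 0) (XT.nd (nat_lit 234) (nat_lit 380) (nat_lit 0) (XT.nd (nat_lit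 78) (nat_lit 228) (nat_lit 0) (XT.lf (nat_lit 0) (nat_lit 422276376) (nat_lit 228) (nat_lit 14055732683) (nat_lit 76) (nat_lit 2118454095) (nat_lit 39) (nat_lit 5) (nat_lit 42) (nat_lit 5) (nat_lit 40) (nat_lit 5) (nat_lit 338) (nat_lit 242) (nat_lit 200)) (XT.nd (nat_lit 78) (nat_lit 228) (nat_lit 0) (XT.lf (nat_lit 0) (nat_lit 5391386261) (nat_lit 228) (nat_lit 3916036926) (nat_lit 76) (nat_lit 7659303142) (nat_lit 39) (nat_lit 5) (nat_lit 42) (nat_lit 5) (nat_lit 40) (nat_lit 5) (nat_lit 339) (nat_lit 242) (nat_lit 199)) (XT.lf (nat_lit 0) (nat_lit 6501684168) (nat_lit 228) (nat_lit 3983884458) (nat_lit 304) (nat_lit 6863037039) (nat_lit 36) (nat_lit 5) (nat_lit 39) (nat_lit 5) (nat_lit 40) (nat_lit 5) (nat_lit 340) (nat_lit 242) (nat_lit 198)))) (XT.nd (nat_lit 78) (nat_lit 380) (nat_lit 0) (XT.lf (nat_lit 0) (nat_lit 15703736294) (nat_lit 304) (nat_lit 576446972) (nat_lit 76) (nat_lit 1462362343)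 (nat_lit 36) (nat_lit 5) (nat_lit 40) (nat_lit 5) (nat_lit 37) (nat_lit 4) (nat_lit 341) (nat_lit 242) (nat_lit 197)) (XT.nd (nat_lit 78) (nat_lit 152) (nat_lit 0) (XT.lf (nat_lit 0) (nat_lit 2920054128) (nat_lit 228) (nat_lit 8167779318) (nat_lit 76) (nat_lit 7059549157) (nat_lit 33) (nat_lit 5) (nat_lit 36) (nat_lit 5) (nat_lit 34) (nat_lit 5) (nat_lit 342) (nat_lit 242) (nat_lit 196)) (XT.lf (nat_lit 0) (nat_lit 2204635201) (nat_lit 152) (nat_lit 5751089572) (nat_lit 228) (nat_lit 10609280933) (nat_lit 31) (nat_lit 5) (nat_lit 33) (nat_lit 5) (nat_lit 34) (nat_lit 5) (nat_lit 343) (nat_lit 242) (nat_lit 195))))) (XT.nd (nat_lit 234) (nat_lit 380) (nat_lit 0) (XT.nd (nat_lit 78) (nat_lit 228) (nat_lit 0) (XT.lf (nat_lit 0) (nat_lit 12895195120) (nat_lit 152) (nat_lit 241099211) (nat_lit 228) (nat_lit 5859011203) (nat_lit 31) (nat_lit 5) (nat_lit 33) (nat_lit 5) (nat_lit 34) (nat_lit 5) (nat_lit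 344) (nat_lit 242) (nat_lit 194)) (XT.nd (nat_lit 78) (nat_lit 76) (nat_lit 0) (XT.lf (nat_lit 0) (nat_lit 4387496880) (nat_lit 152) (nat_lit 14088553144) (nat_lit 228) (nat_lit 962412840) (nat_lit 29) (nat_lit 5) (nat_lit 31) (nat_lit 5) (nat_lit 32) (nat_lit 4) (nat_lit 345) (nat_lit 242) (nat_lit 193)) (XT.lf (nat_lit 0) (nat_lit 4011460273) (nat_lit 228) (nat_lit 4751105311) (nat_lit 76) (nat_lit 11132164108) (nat_lit 28) (nat_lit 5) (nat_lit 31) (nat_lit 5) (nat_lit 29) (nat_lit 5) (nat_lit 346) (nat_lit 242) (nat_lit 192)))) (XT.nd (nat_lit 156) (nat_lit 228) (nat_lit 0) (XT.nd (nat_lit 78) (nat_lit 0) (nat_lit 0) (XT.lf (nat_lit 0) (nat_lit 5828863045) (nat_lit 152) (nat_lit 3272936887) (nat_lit 228) (nat_lit 11263172923) (nat_lit 26) (nat_lit 5) (nat_lit 28) (nat_lit 5) (nat_lit 29) (nat_lit 5) (nat_lit 347) (nat_lit 242) (nat_lit 191)) (XT.lf (nat_lit 0) (nat_lit 14335907110) (nat_lit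 228) (nat_lit 4171271765) (nat_lit 76) (nat_lit 2342344726) (nat_lit 26) (nat_lit 5) (nat_lit 29) (nat_lit 5) (nat_lit 27) (nat_lit 4) (nat_lit 348) (nat_lit 242) (nat_lit 190))) (XT.nd (nat_lit 78) (nat_lit 76) (nat_lit 0) (XT.lf (nat_lit 0) (nat_lit 6472185418) (nat_lit 152) (nat_lit 13263603737) (nat_lit 228) (nat_lit 1612667490) (nat_lit 24) (nat_lit 5) (nat_lit 26) (nat_lit 5) (nat_lit 27) (nat_lit 4) (nat_lit 349) (nat_lit 242) (nat_lit 189)) (XT.lf (nat_lit 0) (nat_lit 3364169737) (nat_lit 228) (nat_lit 4486760927) (nat_lit 76) (nat_lit 14011522449) (nat_lit 23) (nat_lit 5) (nat_lit 26) (nat_lit 5) (nat_lit 24) (nat_lit 5) (nat_lit 350) (nat_lit 242) (nat_lit 188))))))))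
noncomputable def xc23 : XT := (XT.nd (nat_lit 37206) (nat_lit 0) (nat_lit 2964) (XT.nd (nat_lit 36192) (nat_lit 0) (nat_lit 10792) (XT.nd (nat_lit 468) (nat_lit 380) (nat_lit 0) (XT.nd (nat_lit 234) (nat_lit 228) (nat_lit 0) (XT.nd (nat_lit 78) (nat_lit 76) (nat_lit 0) (XT.lf (nat_lit 0) (nat_lit 6193106382) (nat_lit 152) (nat_lit 2262680438) (nat_lit 228) (nat_lit 13936141000) (nat_lit 21) (nat_lit 5) (nat_lit 23) (nat_lit 5) (nat_lit 24) (nat_lit 5) (nat_lit 351) (nat_lit 242) (nat_lit 187)) (XT.nd (nat_lit 78) (nat_lit 76) (nat_lit 0) (XT.lf (nat_lit 0) (nat_lit 13701195196) (nat_lit 228) (nat_lit 5795863670) (nat_lit 76) (nat_lit 3440225715) (nat_lit 21) (nat_lit 5) (nat_lit 24) (nat_lit 5) (nat_lit 22) (nat_lit 4) (nat_lit 352) (nat_lit 242) (nat_lit 186)) (XT.lf (nat_lit 0) (nat_lit 4879612799) (nat_lit 76) (nat_lit 14220445320) (nat_lit 152) (nat_lit 4399040207) (nat_lit 20) (nat_lit 5)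 (nat_lit 21) (nat_lit 5) (nat_lit 22) (nat_lit 4) (nat_lit 353) (nat_lit 242) (nat_lit 185)))) (XT.nd (nat_lit 78) (nat_lit 152) (nat_lit 0) (XT.lf (nat_lit 0) (nat_lit 564851700) (nat_lit 152) (nat_lit 8214023352) (nat_lit 76) (nat_lit 15299045385) (nat_lit 19) (nat_lit 5) (nat_lit 21) (nat_lit 5) (nat_lit 20) (nat_lit 5) (nat_lit 354) (nat_lit 242) (nat_lit 184)) (XT.nd (nat_lit 78) (nat_lit 0) (nat_lit 0) (XT.lf (nat_lit 0) (nat_lit 2420803024) (nat_lit 152) (nat_lit 3164454900) (nat_lit 228) (nat_lit 19088937220) (nat_lit 17) (nat_lit 5) (nat_lit 19) (nat_lit 5) (nat_lit 20) (nat_lit 5) (nat_lit 355) (nat_lit 242) (nat_lit 183)) (XT.lf (nat_lit 0) (nat_lit 10781252537) (nat_lit 228) (nat_lit 11901993679) (nat_lit 76) (nat_lit 2604628616) (nat_lit 17) (nat_lit 5) (nat_lit 20) (nat_lit 5) (nat_lit 18) (nat_lit 4) (nat_lit 356) (nat_lit 242) (nat_lit 182))))) (XT.nd (nat_lit 234) (nat_lit 228)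 (nat_lit 0) (XT.nd (nat_lit 78) (nat_lit 152) (nat_lit 0) (XT.lf (nat_lit 0) (nat_lit 16107635114) (nat_lit 228) (nat_lit 1343243407) (nat_lit 76) (nat_lit 8469612015) (nat_lit 17) (nat_lit 5) (nat_lit 20) (nat_lit 5) (nat_lit 18) (nat_lit 4) (nat_lit 357) (nat_lit 242) (nat_lit 181)) (XT.nd (nat_lit 78) (nat_lit 76) (nat_lit 0) (XT.lf (nat_lit 0) (nat_lit 9578251011) (nat_lit 76) (nat_lit 12032451383) (nat_lit 152) (nat_lit 4961059782) (nat_lit 16) (nat_lit 5) (nat_lit 17) (nat_lit 5) (nat_lit 18) (nat_lit 4) (nat_lit 358) (nat_lit 242) (nat_lit 180)) (XT.lf (nat_lit 0) (nat_lit 182478) (nat_lit 152) (nat_lit 6475865706) (nat_lit 76) (nat_lit 20767246287) (nat_lit 15) (nat_lit 5) (nat_lit 17) (nat_lit 5) (nat_lit 16) (nat_lit 5) (nat_lit 359) (nat_lit 242) (nat_lit 179)))) (XT.nd (nat_lit 156) (nat_lit 76) (nat_lit 0) (XT.nd (nat_lit 78) (nat_lit 0) (nat_lit 0) (XT.lf (nat_lit 0) (nat_lit 4303922054)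 (nat_lit 152) (nat_lit 723777574) (nat_lit 228) (nat_lit 22906934641) (nat_lit 13) (nat_lit 5) (nat_lit 15) (nat_lit 5) (nat_lit 16) (nat_lit 5) (nat_lit 360) (nat_lit 242) (nat_lit 178)) (XT.lf (nat_lit 0) (nat_lit 10241059731) (nat_lit 228) (nat_lit 13260218821) (nat_lit 76) (nat_lit 5144749114) (nat_lit 13) (nat_lit 5) (nat_lit 16) (nat_lit 5) (nat_lit 14) (nat_lit 4) (nat_lit 361) (nat_lit 242) (nat_lit 177))) (XT.nd (nat_lit 78) (nat_lit 76) (nat_lit 0) (XT.lf (nat_lit 0) (nat_lit 15573986659) (nat_lit 228) (nat_lit 2657304223) (nat_lit 76) (nat_lit 11148222016) (nat_lit 13) (nat_lit 5) (nat_lit 16) (nat_lit 5) (nat_lit 14) (nat_lit 4) (nat_lit 362) (nat_lit 242) (nat_lit 176)) (XT.lf (nat_lit 0) (nat_lit 8300862813) (nat_lit 76) (nat_lit 12779472900) (nat_lit 152) (nat_lit 9054411251) (nat_lit 12) (nat_lit 5) (nat_lit 13) (nat_lit 5) (nat_lit 14) (nat_lit 4) (nat_lit 363) (nat_lit 242) (nat_lit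 175)))))) (XT.nd (nat_lit 468) (nat_lit 3952) (nat_lit 0) (XT.nd (nat_lit 234) (nat_lit 2052) (nat_lit 0) (XT.nd (nat_lit 78) (nat_lit 1368) (nat_lit 0) (XT.lf (nat_lit 0) (nat_lit 245110942) (nat_lit 760) (nat_lit 3421842123) (nat_lit 0) (nat_lit 245110942) (nat_lit 251) (nat_lit 5) (nat_lit 261) (nat_lit 4) (nat_lit 251) (nat_lit 4) (nat_lit 294) (nat_lit 243) (nat_lit 243)) (XT.nd (nat_lit 78) (nat_lit 684) (nat_lit 0) (XT.lf (nat_lit 0) (nat_lit 1176406308) (nat_lit 684) (nat_lit 4327112746) (nat_lit 684) (nat_lit 2408085438) (nat_lit 242) (nat_lit 4) (nat_lit 251) (nat_lit 5) (nat_lit 251) (nat_lit 4) (nat_lit 295) (nat_lit 243) (nat_lit 242)) (XT.lf (nat_lit 0) (nat_lit 1367615112) (nat_lit 608) (nat_lit 1181778813) (nat_lit 684) (nat_lit 5453735049) (nat_lit 233) (nat_lit 5) (nat_lit 241) (nat_lit 5) (nat_lit 242) (nat_lit 4) (nat_lit 296) (nat_lit 243) (nat_lit 241)))) (XT.nd (nat_lit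 78) (nat_lit 1368) (nat_lit 0) (XT.lf (nat_lit 0) (nat_lit 1536893185) (nat_lit 684) (nat_lit 6021509774) (nat_lit 684) (nat_lit 540109864) (nat_lit 224) (nat_lit 4) (nat_lit 233) (nat_lit 5) (nat_lit 233) (nat_lit 4) (nat_lit 297) (nat_lit 243) (nat_lit 240)) (XT.nd (nat_lit 78) (nat_lit 684) (nat_lit 0) (XT.lf (nat_lit 0) (nat_lit 1671848522) (nat_lit 608) (nat_lit 2721713521) (nat_lit 684) (nat_lit 3804106034) (nat_lit 215) (nat_lit 5) (nat_lit 223) (nat_lit 5) (nat_lit 224) (nat_lit 4) (nat_lit 298) (nat_lit 243) (nat_lit 239)) (XT.lf (nat_lit 0) (nat_lit 1083663545) (nat_lit 684) (nat_lit 6511730751) (nat_lit 76) (nat_lit 705693529) (nat_lit 206) (nat_lit 5) (nat_lit 215) (nat_lit 5) (nat_lit 207) (nat_lit 4) (nat_lit 299) (nat_lit 243) (nat_lit 238))))) (XT.nd (nat_lit 234) (nat_lit 2204) (nat_lit 0) (XT.nd (nat_lit 78) (nat_lit 1216) (nat_lit 0) (XT.lf (nat_lit 0) (nat_lit 1855940311) (nat_lit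 532) (nat_lit 4157802862) (nat_lit 608) (nat_lit 2394542165) (nat_lit 199) (nat_lit 5) (nat_lit 206) (nat_lit 5) (nat_lit 207) (nat_lit 4) (nat_lit 300) (nat_lit 243) (nat_lit 237)) (XT.nd (nat_lit 78) (nat_lit 532) (nat_lit 0) (XT.lf (nat_lit 0) (nat_lit 1893558506) (nat_lit 608) (nat_lit 576477072) (nat_lit 684) (nat_lit 6049833222) (nat_lit 190) (nat_lit 5) (nat_lit 198) (nat_lit 5) (nat_lit 199) (nat_lit 5) (nat_lit 301) (nat_lit 243) (nat_lit 236)) (XT.lf (nat_lit 0) (nat_lit 1876719824) (nat_lit 532) (nat_lit 5525035761) (nat_lit 608) (nat_lit 1233768640) (nat_lit 183) (nat_lit 5) (nat_lit 190) (nat_lit 5) (nat_lit 191) (nat_lit 4) (nat_lit 302) (nat_lit 243) (nat_lit 235)))) (XT.nd (nat_lit 156) (nat_lit 1140) (nat_lit 0) (XT.nd (nat_lit 78) (nat_lit 456) (nat_lit 0) (XT.lf (nat_lit 0) (nat_lit 1808024679) (nat_lit 532) (nat_lit 1808798583) (nat_lit 608) (nat_lit 5138673851) (nat_lit 175)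 (nat_lit 5) (nat_lit 182) (nat_lit 5) (nat_lit 183) (nat_lit 5) (nat_lit 303) (nat_lit 243) (nat_lit 234)) (XT.lf (nat_lit 0) (nat_lit 1687895158) (nat_lit 456) (nat_lit 6858962450) (nat_lit 532) (nat_lit 333141721) (nat_lit 169) (nat_lit 5) (nat_lit 175) (nat_lit 5) (nat_lit 176) (nat_lit 4) (nat_lit 304) (nat_lit 243) (nat_lit 233))) (XT.nd (nat_lit 78) (nat_lit 532) (nat_lit 0) (XT.lf (nat_lit 0) (nat_lit 1489384497) (nat_lit 532) (nat_lit 3017792738) (nat_lit 608) (nat_lit 4501538371) (nat_lit 161) (nat_lit 5) (nat_lit 168) (nat_lit 5) (nat_lit 169) (nat_lit 5) (nat_lit 305) (nat_lit 243) (nat_lit 232)) (XT.lf (nat_lit 0) (nat_lit 289342471) (nat_lit 532) (nat_lit 7904729569) (nat_lit 76) (nat_lit 948289921) (nat_lit 154) (nat_lit 5) (nat_lit 161) (nat_lit 5) (nat_lit 155) (nat_lit 5) (nat_lit 306) (nat_lit 243) (nat_lit 231))))))) (XT.nd (nat_lit 1014) (nat_lit 3192) (nat_lit 0) (XT.nd (nat_lit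 468) (nat_lit 2280) (nat_lit 0) (XT.nd (nat_lit 234) (nat_lit 1368) (nat_lit 0) (XT.nd (nat_lit 78) (nat_lit 532) (nat_lit 0) (XT.lf (nat_lit 0) (nat_lit 885682927) (nat_lit 456) (nat_lit 4240382420) (nat_lit 532) (nat_lit 4154185878) (nat_lit 148) (nat_lit 5) (nat_lit 154) (nat_lit 5) (nat_lit 155) (nat_lit 5) (nat_lit 307) (nat_lit 243) (nat_lit 230)) (XT.nd (nat_lit 78) (nat_lit 0) (nat_lit 0) (XT.lf (nat_lit 0) (nat_lit 472603933) (nat_lit 456) (nat_lit 148205188) (nat_lit 532) (nat_lit 8802584819) (nat_lit 141) (nat_lit 5) (nat_lit 147) (nat_lit 5) (nat_lit 148) (nat_lit 5) (nat_lit 308) (nat_lit 243) (nat_lit 229)) (XT.lf (nat_lit 0) (nat_lit 5455816986) (nat_lit 532) (nat_lit 58645098) (nat_lit 76) (nat_lit 4056442586) (nat_lit 141) (nat_lit 5) (nat_lit 148) (nat_lit 5) (nat_lit 142) (nat_lit 5) (nat_lit 309) (nat_lit 243) (nat_lit 228)))) (XT.nd (nat_lit 78) (nat_lit 836) (nat_lit 0) (XT.lf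 (nat_lit 0) (nat_lit 655589983) (nat_lit 532) (nat_lit 660566205) (nat_lit 76) (nat_lit 8407636571) (nat_lit 134) (nat_lit 5) (nat_lit 141) (nat_lit 5) (nat_lit 135) (nat_lit 5) (nat_lit 310) (nat_lit 243) (nat_lit 227)) (XT.nd (nat_lit 78) (nat_lit 456) (nat_lit 0) (XT.lf (nat_lit 0) (nat_lit 5483103331) (nat_lit 456) (nat_lit 1388803371) (nat_lit 76) (nat_lit 3009504670) (nat_lit 129) (nat_lit 5) (nat_lit 135) (nat_lit 5) (nat_lit 130) (nat_lit 5) (nat_lit 311) (nat_lit 243) (nat_lit 226)) (XT.lf (nat_lit 0) (nat_lit 365780645) (nat_lit 456) (nat_lit 2216498259) (nat_lit 76) (nat_lit 7462312742) (nat_lit 123) (nat_lit 5) (nat_lit 129) (nat_lit 5) (nat_lit 124) (nat_lit 5) (nat_lit 312) (nat_lit 243) (nat_lit 225))))) (XT.nd (nat_lit 234) (nat_lit 1140) (nat_lit 0) (XT.nd (nat_lit 78) (nat_lit 760) (nat_lit 0) (XT.lf (nat_lit 0) (nat_lit 5177789971) (nat_lit 456) (nat_lit 3182471064) (nat_lit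 76) (nat_lit 1852604025) (nat_lit 118) (nat_lit 5) (nat_lit 124) (nat_lit 5) (nat_lit 119) (nat_lit 5) (nat_lit 313) (nat_lit 243) (nat_lit 224)) (XT.nd (nat_lit 78) (nat_lit 380) (nat_lit 0) (XT.lf (nat_lit 0) (nat_lit 6114479170) (nat_lit 380) (nat_lit 3990555275) (nat_lit 456) (nat_lit 281806832) (nat_lit 113) (nat_lit 5) (nat_lit 118) (nat_lit 5) (nat_lit 119) (nat_lit 5) (nat_lit 314) (nat_lit 243) (nat_lit 223)) (XT.lf (nat_lit 0) (nat_lit 4511731167) (nat_lit 380) (nat_lit 5511948120) (nat_lit 76) (nat_lit 542663251) (nat_lit 108) (nat_lit 5) (nat_lit 113) (nat_lit 5) (nat_lit 109) (nat_lit 5) (nat_lit 315) (nat_lit 243) (nat_lit 222)))) (XT.nd (nat_lit 156) (nat_lit 380) (nat_lit 0) (XT.nd (nat_lit 78) (nat_lit 380) (nat_lit 0) (XT.lf (nat_lit 0) (nat_lit 3844599603) (nat_lit 380) (nat_lit 5583202409) (nat_lit 456) (nat_lit 1323805091) (nat_lit 103) (nat_lit 5) (nat_lit 108) (nat_lit 5)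 (nat_lit 109) (nat_lit 5) (nat_lit 316) (nat_lit 243) (nat_lit 221)) (XT.lf (nat_lit 0) (nat_lit 2480014674) (nat_lit 304) (nat_lit 979037034) (nat_lit 380) (nat_lit 7483847054) (nat_lit 98) (nat_lit 5) (nat_lit 102) (nat_lit 5) (nat_lit 103) (nat_lit 5) (nat_lit 317) (nat_lit 243) (nat_lit 220))) (XT.nd (nat_lit 78) (nat_lit 76) (nat_lit 0) (XT.lf (nat_lit 0) (nat_lit 938776109) (nat_lit 304) (nat_lit 7410942735) (nat_lit 380) (nat_lit 2790450692) (nat_lit 94) (nat_lit 5) (nat_lit 98) (nat_lit 5) (nat_lit 99) (nat_lit 5) (nat_lit 318) (nat_lit 243) (nat_lit 219)) (XT.lf (nat_lit 0) (nat_lit 1986962673) (nat_lit 380) (nat_lit 767191589) (nat_lit 76) (nat_lit 8589597005) (nat_lit 93) (nat_lit 5) (nat_lit 98) (nat_lit 5) (nat_lit 94) (nat_lit 5) (nat_lit 319) (nat_lit 243) (nat_lit 218)))))) (XT.nd (nat_lit 546) (nat_lit 1368) (nat_lit 0) (XT.nd (nat_lit 234) (nat_lit 912) (nat_lit 0) (XT.nd (nat_lit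 78) (nat_lit 608) (nat_lit 0) (XT.lf (nat_lit 0) (nat_lit 6849797425) (nat_lit 380) (nat_lit 2657977028) (nat_lit 76) (nat_lit 2045753793) (nat_lit 89) (nat_lit 5) (nat_lit 94) (nat_lit 5) (nat_lit 90) (nat_lit 5) (nat_lit 320) (nat_lit 243) (nat_lit 217)) (XT.nd (nat_lit 78) (nat_lit 228) (nat_lit 0) (XT.lf (nat_lit 0) (nat_lit 66783621) (nat_lit 380) (nat_lit 4745882574) (nat_lit 76) (nat_lit 6957394329) (nat_lit 84) (nat_lit 5) (nat_lit 89) (nat_lit 5) (nat_lit 85) (nat_lit 5) (nat_lit 321) (nat_lit 243) (nat_lit 216)) (XT.lf (nat_lit 0) (nat_lit 4878496875) (nat_lit 304) (nat_lit 7057272805) (nat_lit 76) (nat_lit 57510066) (nat_lit 81) (nat_lit 5) (nat_lit 85) (nat_lit 5) (nat_lit 82) (nat_lit 5) (nat_lit 322) (nat_lit 243) (nat_lit 215)))) (XT.nd (nat_lit 156) (nat_lit 304) (nat_lit 0) (XT.nd (nat_lit 78) (nat_lit 304) (nat_lit 0) (XT.lf (nat_lit 0) (nat_lit 2616193226) (nat_lit 304) (nat_lit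 7212380093) (nat_lit 380) (nat_lit 2394793040) (nat_lit 77) (nat_lit 5) (nat_lit 81) (nat_lit 5) (nat_lit 82) (nat_lit 5) (nat_lit 323) (nat_lit 243) (nat_lit 214)) (XT.lf (nat_lit 0) (nat_lit 66131890) (nat_lit 228) (nat_lit 2330409429) (nat_lit 304) (nat_lit 10064300574) (nat_lit 73) (nat_lit 5) (nat_lit 76) (nat_lit 5) (nat_lit 77) (nat_lit 5) (nat_lit 324) (nat_lit 243) (nat_lit 213))) (XT.nd (nat_lit 78) (nat_lit 304) (nat_lit 0) (XT.lf (nat_lit 0) (nat_lit 7297182677) (nat_lit 304) (nat_lit 2711661597) (nat_lit 76) (nat_lit 2696365948) (nat_lit 73) (nat_lit 5) (nat_lit 77) (nat_lit 5) (nat_lit 74) (nat_lit 5) (nat_lit 325) (nat_lit 243) (nat_lit 212)) (XT.lf (nat_lit 0) (nat_lit 7210079562) (nat_lit 304) (nat_lit 5114508035) (nat_lit 380) (nat_lit 632772918) (nat_lit 69) (nat_lit 5) (nat_lit 73) (nat_lit 5) (nat_lit 74) (nat_lit 5) (nat_lit 326) (nat_lit 243) (nat_lit 211))))) (XT.nd (nat_lit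 234) (nat_lit 760) (nat_lit 0) (XT.nd (nat_lit 78) (nat_lit 304) (nat_lit 0) (XT.lf (nat_lit 0) (nat_lit 4146534928) (nat_lit 228) (nat_lit 46753433) (nat_lit 304) (nat_lit 9023998890) (nat_lit 65) (nat_lit 5) (nat_lit 68) (nat_lit 5) (nat_lit 69) (nat_lit 5) (nat_lit 327) (nat_lit 243) (nat_lit 210)) (XT.nd (nat_lit 78) (nat_lit 76) (nat_lit 0) (XT.lf (nat_lit 0) (nat_lit 774672718) (nat_lit 228) (nat_lit 8378309764) (nat_lit 304) (nat_lit 4332039022) (nat_lit 62) (nat_lit 5) (nat_lit 65) (nat_lit 5) (nat_lit 66) (nat_lit 5) (nat_lit 328) (nat_lit 243) (nat_lit 209)) (XT.lf (nat_lit 0) (nat_lit 476833499) (nat_lit 304) (nat_lit 2851922817) (nat_lit 76) (nat_lit 10432352333) (nat_lit 61) (nat_lit 5) (nat_lit 65) (nat_lit 5) (nat_lit 62) (nat_lit 5) (nat_lit 329) (nat_lit 243) (nat_lit 208)))) (XT.nd (nat_lit 156) (nat_lit 304) (nat_lit 0) (XT.nd (nat_lit 78) (nat_lit 228) (nat_lit 0) (XT.lf (nat_lit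 0) (nat_lit 5353687431) (nat_lit 304) (nat_lit 6813889459) (nat_lit 76) (nat_lit 1877716525) (nat_lit 58) (nat_lit 5) (nat_lit 62) (nat_lit 5) (nat_lit 59) (nat_lit 5) (nat_lit 330) (nat_lit 243) (nat_lit 207)) (XT.lf (nat_lit 0) (nat_lit 3214905308) (nat_lit 228) (nat_lit 7148529110) (nat_lit 304) (nat_lit 3974875531) (nat_lit 55) (nat_lit 5) (nat_lit 58) (nat_lit 5) (nat_lit 59) (nat_lit 5) (nat_lit 331) (nat_lit 243) (nat_lit 206))) (XT.nd (nat_lit 78) (nat_lit 228) (nat_lit 0) (XT.lf (nat_lit 0) (nat_lit 843144426) (nat_lit 304) (nat_lit 1129952200) (nat_lit 76) (nat_lit 12667514333) (nat_lit 54) (nat_lit 5) (nat_lit 58) (nat_lit 5) (nat_lit 55) (nat_lit 5) (nat_lit 332) (nat_lit 243) (nat_lit 205)) (XT.lf (nat_lit 0) (nat_lit 5760488375) (nat_lit 304) (nat_lit 5836244442) (nat_lit 76) (nat_lit 3354582071) (nat_lit 51) (nat_lit 5) (nat_lit 55) (nat_lit 5) (nat_lit 52) (nat_lit 5) (nat_lit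 333) (nat_lit 243) (nat_lit 204))))))))
noncomputable def xc24 : XT := (XT.nd (nat_lit 2028) (nat_lit 304) (nat_lit 0) (XT.nd (nat_lit 1014) (nat_lit 912) (nat_lit 0) (XT.nd (nat_lit 468) (nat_lit 836) (nat_lit 0) (XT.nd (nat_lit 234) (nat_lit 456) (nat_lit 0) (XT.nd (nat_lit 78) (nat_lit 228) (nat_lit 0) (XT.lf (nat_lit 0) (nat_lit 4337139570) (nat_lit 228) (nat_lit 6465425391) (nat_lit 304) (nat_lit 4469264797) (nat_lit 48) (nat_lit 5) (nat_lit 51) (nat_lit 5) (nat_lit 52) (nat_lit 5) (nat_lit 334) (nat_lit 243) (nat_lit 203)) (XT.nd (nat_lit 78) (nat_lit 152) (nat_lit 0) (XT.lf (nat_lit 0) (nat_lit 357575396) (nat_lit 304) (nat_lit 825655423) (nat_lit 76) (nat_lit 14419334564) (nat_lit 47) (nat_lit 5) (nat_lit 51) (nat_lit 5) (nat_lit 48) (nat_lit 5) (nat_lit 335) (nat_lit 243) (nat_lit 202)) (XT.lf (nat_lit 0) (nat_lit 5289987658) (nat_lit 228) (nat_lit 6402362661) (nat_lit 76) (nat_lit 4249883674)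 (nat_lit 45) (nat_lit 5) (nat_lit 48) (nat_lit 5) (nat_lit 46) (nat_lit 5) (nat_lit 336) (nat_lit 243) (nat_lit 201)))) (XT.nd (nat_lit 78) (nat_lit 228) (nat_lit 0) (XT.lf (nat_lit 0) (nat_lit 3865317463) (nat_lit 228) (nat_lit 6475745016) (nat_lit 304) (nat_lit 5951646947) (nat_lit 42) (nat_lit 5) (nat_lit 45) (nat_lit 5) (nat_lit 46) (nat_lit 5) (nat_lit 337) (nat_lit 243) (nat_lit 200)) (XT.nd (nat_lit 78) (nat_lit 228) (nat_lit 0) (XT.lf (nat_lit 0) (nat_lit 14417387791) (nat_lit 228) (nat_lit 1102972096) (nat_lit 304) (nat_lit 1133835107) (nat_lit 42) (nat_lit 5) (nat_lit 45) (nat_lit 5) (nat_lit 46) (nat_lit 5) (nat_lit 338) (nat_lit 243) (nat_lit 199)) (XT.lf (nat_lit 0) (nat_lit 3795552945) (nat_lit 228) (nat_lit 8821601182) (nat_lit 76) (nat_lit 4408557036) (nat_lit 39) (nat_lit 5) (nat_lit 42) (nat_lit 5) (nat_lit 40) (nat_lit 5) (nat_lit 339) (nat_lit 243) (nat_lit 198))))) (XT.nd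 (nat_lit 234) (nat_lit 380) (nat_lit 0) (XT.nd (nat_lit 78) (nat_lit 228) (nat_lit 0) (XT.lf (nat_lit 0) (nat_lit 1476923423) (nat_lit 228) (nat_lit 7348520075) (nat_lit 304) (nat_lit 8583446347) (nat_lit 36) (nat_lit 5) (nat_lit 39) (nat_lit 5) (nat_lit 40) (nat_lit 5) (nat_lit 340) (nat_lit 243) (nat_lit 197)) (XT.nd (nat_lit 78) (nat_lit 228) (nat_lit 0) (XT.lf (nat_lit 0) (nat_lit 12098719926) (nat_lit 228) (nat_lit 1904184645) (nat_lit 304) (nat_lit 3800752467) (nat_lit 36) (nat_lit 5) (nat_lit 39) (nat_lit 5) (nat_lit 40) (nat_lit 5) (nat_lit 341) (nat_lit 243) (nat_lit 196)) (XT.lf (nat_lit 0) (nat_lit 1104023876) (nat_lit 228) (nat_lit 13454675703) (nat_lit 76) (nat_lit 3651579637) (nat_lit 33) (nat_lit 5) (nat_lit 36) (nat_lit 5) (nat_lit 34) (nat_lit 5) (nat_lit 342) (nat_lit 243) (nat_lit 195)))) (XT.nd (nat_lit 156) (nat_lit 228) (nat_lit 0) (XT.nd (nat_lit 78) (nat_lit 152) (nat_lit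 0) (XT.lf (nat_lit 0) (nat_lit 6095411089) (nat_lit 228) (nat_lit 3162137952) (nat_lit 76) (nat_lit 9371251069) (nat_lit 33) (nat_lit 5) (nat_lit 36) (nat_lit 5) (nat_lit 34) (nat_lit 5) (nat_lit 343) (nat_lit 243) (nat_lit 194)) (XT.lf (nat_lit 0) (nat_lit 7436263043) (nat_lit 152) (nat_lit 3789491968) (nat_lit 228) (nat_lit 7834361207) (nat_lit 31) (nat_lit 5) (nat_lit 33) (nat_lit 5) (nat_lit 34) (nat_lit 5) (nat_lit 344) (nat_lit 243) (nat_lit 193))) (XT.nd (nat_lit 78) (nat_lit 228) (nat_lit 0) (XT.lf (nat_lit 0) (nat_lit 16485289934) (nat_lit 228) (nat_lit 1219877839) (nat_lit 76) (nat_lit 1799721616) (nat_lit 31) (nat_lit 5) (nat_lit 34) (nat_lit 5) (nat_lit 32) (nat_lit 4) (nat_lit 345) (nat_lit 243) (nat_lit 192)) (XT.lf (nat_lit 0) (nat_lit 1944804133) (nat_lit 228) (nat_lit 10476587374) (nat_lit 76) (nat_lit 7540771715) (nat_lit 28) (nat_lit 5) (nat_lit 31) (nat_lit 5) (nat_lit 29)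 (nat_lit 5) (nat_lit 346) (nat_lit 243) (nat_lit 191)))))) (XT.nd (nat_lit 468) (nat_lit 380) (nat_lit 0) (XT.nd (nat_lit 234) (nat_lit 228) (nat_lit 0) (XT.nd (nat_lit 78) (nat_lit 304) (nat_lit 0) (XT.lf (nat_lit 0) (nat_lit 6969754057) (nat_lit 228) (nat_lit 20365161) (nat_lit 76) (nat_lit 13443605521) (nat_lit 28) (nat_lit 5) (nat_lit 31) (nat_lit 5) (nat_lit 29) (nat_lit 5) (nat_lit 347) (nat_lit 243) (nat_lit 190)) (XT.nd (nat_lit 78) (nat_lit 152) (nat_lit 0) (XT.lf (nat_lit 0) (nat_lit 10797939175) (nat_lit 152) (nat_lit 1363333186) (nat_lit 228) (nat_lit 8757865152) (nat_lit 26) (nat_lit 5) (nat_lit 28) (nat_lit 5) (nat_lit 29) (nat_lit 5) (nat_lit 348) (nat_lit 243) (nat_lit 189)) (XT.lf (nat_lit 0) (nat_lit 405961770) (nat_lit 152) (nat_lit 17080575168) (nat_lit 228) (nat_lit 3933035922) (nat_lit 24) (nat_lit 5) (nat_lit 26) (nat_lit 5) (nat_lit 27) (nat_lit 4) (nat_lit 349) (nat_lit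 243) (nat_lit 188)))) (XT.nd (nat_lit 78) (nat_lit 152) (nat_lit 0) (XT.lf (nat_lit 0) (nat_lit 1048149571) (nat_lit 228) (nat_lit 10654241025) (nat_lit 76) (nat_lit 10232011187) (nat_lit 23) (nat_lit 5) (nat_lit 26) (nat_lit 5) (nat_lit 24) (nat_lit 5) (nat_lit 350) (nat_lit 243) (nat_lit 187)) (XT.nd (nat_lit 78) (nat_lit 152) (nat_lit 0) (XT.lf (nat_lit 0) (nat_lit 6074232839) (nat_lit 228) (nat_lit 99486359) (nat_lit 76) (nat_lit 16291477165) (nat_lit 23) (nat_lit 5) (nat_lit 26) (nat_lit 5) (nat_lit 24) (nat_lit 5) (nat_lit 351) (nat_lit 243) (nat_lit 186)) (XT.lf (nat_lit 0) (nat_lit 10827414880) (nat_lit 152) (nat_lit 444071955) (nat_lit 228) (nat_lit 11740038307) (nat_lit 21) (nat_lit 5) (nat_lit 23) (nat_lit 5) (nat_lit 24) (nat_lit 5) (nat_lit 352) (nat_lit 243) (nat_lit 185))))) (XT.nd (nat_lit 234) (nat_lit 228) (nat_lit 0) (XT.nd (nat_lit 78) (nat_lit 152) (nat_lit 0) (XT.lf (nat_lit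 0) (nat_lit 16611526924) (nat_lit 228) (nat_lit 1612042996) (nat_lit 76) (nat_lit 5350954093) (nat_lit 21) (nat_lit 5) (nat_lit 24) (nat_lit 5) (nat_lit 22) (nat_lit 4) (nat_lit 353) (nat_lit 243) (nat_lit 184)) (XT.nd (nat_lit 78) (nat_lit 76) (nat_lit 0) (XT.lf (nat_lit 0) (nat_lit 9312999317) (nat_lit 76) (nat_lit 12814395428) (nat_lit 152) (nat_lit 2026722660) (nat_lit 20) (nat_lit 5) (nat_lit 21) (nat_lit 5) (nat_lit 22) (nat_lit 4) (nat_lit 354) (nat_lit 243) (nat_lit 183)) (XT.lf (nat_lit 0) (nat_lit 2981257984) (nat_lit 152) (nat_lit 4265596963) (nat_lit 76) (nat_lit 17504588480) (nat_lit 19) (nat_lit 5) (nat_lit 21) (nat_lit 5) (nat_lit 20) (nat_lit 5) (nat_lit 355) (nat_lit 243) (nat_lit 182)))) (XT.nd (nat_lit 156) (nat_lit 76) (nat_lit 0) (XT.nd (nat_lit 78) (nat_lit 0) (nat_lit 0) (XT.lf (nat_lit 0) (nat_lit 6620217793) (nat_lit 152) (nat_lit 1488965259) (nat_lit 228) (nat_lit 17257309233)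 (nat_lit 17) (nat_lit 5) (nat_lit 19) (nat_lit 5) (nat_lit 20) (nat_lit 5) (nat_lit 356) (nat_lit 243) (nat_lit 181)) (XT.lf (nat_lit 0) (nat_lit 13403585406) (nat_lit 228) (nat_lit 8217087829) (nat_lit 76) (nat_lit 4379081910) (nat_lit 17) (nat_lit 5) (nat_lit 20) (nat_lit 5) (nat_lit 18) (nat_lit 4) (nat_lit 357) (nat_lit 243) (nat_lit 180))) (XT.nd (nat_lit 78) (nat_lit 0) (nat_lit 0) (XT.lf (nat_lit 0) (nat_lit 2574462332) (nat_lit 76) (nat_lit 16265054130) (nat_lit 152) (nat_lit 7812860380) (nat_lit 16) (nat_lit 5) (nat_lit 17) (nat_lit 5) (nat_lit 18) (nat_lit 4) (nat_lit 358) (nat_lit 243) (nat_lit 179)) (XT.lf (nat_lit 0) (nat_lit 13726170939) (nat_lit 76) (nat_lit 10724847223) (nat_lit 152) (nat_lit 2873323622) (nat_lit 16) (nat_lit 5) (nat_lit 17) (nat_lit 5) (nat_lit 18) (nat_lit 4) (nat_lit 359) (nat_lit 243) (nat_lit 178))))))) (XT.nd (nat_lit 36036) (nat_lit 0) (nat_lit 8056) (XT.nd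 (nat_lit 35490) (nat_lit 0) (nat_lit 14212) (XT.nd (nat_lit 234) (nat_lit 76) (nat_lit 0) (XT.nd (nat_lit 78) (nat_lit 152) (nat_lit 0) (XT.lf (nat_lit 0) (nat_lit 2143134518) (nat_lit 152) (nat_lit 2892836461) (nat_lit 76) (nat_lit 22981065352) (nat_lit 15) (nat_lit 5) (nat_lit 17) (nat_lit 5) (nat_lit 16) (nat_lit 5) (nat_lit 360) (nat_lit 243) (nat_lit 177)) (XT.nd (nat_lit 78) (nat_lit 0) (nat_lit 0) (XT.lf (nat_lit 0) (nat_lit 7288809981) (nat_lit 228) (nat_lit 20586461625) (nat_lit 76) (nat_lit 854518393) (nat_lit 13) (nat_lit 5) (nat_lit 16) (nat_lit 5) (nat_lit 14) (nat_lit 4) (nat_lit 361) (nat_lit 243) (nat_lit 176)) (XT.lf (nat_lit 0) (nat_lit 12601805683) (nat_lit 228) (nat_lit 10018868361) (nat_lit 76) (nat_lit 6843006197) (nat_lit 13) (nat_lit 5) (nat_lit 16) (nat_lit 5) (nat_lit 14) (nat_lit 4) (nat_lit 362) (nat_lit 243) (nat_lit 175)))) (XT.nd (nat_lit 35100) (nat_lit 0) (nat_lit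 18924) (XT.lf (nat_lit 0) (nat_lit 806719075) (nat_lit 76) (nat_lit 17233428006) (nat_lit 152) (nat_lit 12180133579) (nat_lit 12) (nat_lit 5) (nat_lit 13) (nat_lit 5) (nat_lit 14) (nat_lit 4) (nat_lit 363) (nat_lit 243) (nat_lit 174)) (XT.nd (nat_lit 78) (nat_lit 760) (nat_lit 0) (XT.lf (nat_lit 0) (nat_lit 154950663) (nat_lit 760) (nat_lit 3519443515) (nat_lit 0) (nat_lit 154950663) (nat_lit 271) (nat_lit 5) (nat_lit 281) (nat_lit 4) (nat_lit 271) (nat_lit 4) (nat_lit 292) (nat_lit 244) (nat_lit 244)) (XT.lf (nat_lit 0) (nat_lit 754380981) (nat_lit 760) (nat_lit 4500905016) (nat_lit 760) (nat_lit 2484774926) (nat_lit 261) (nat_lit 4) (nat_lit 271) (nat_lit 5) (nat_lit 271) (nat_lit 4) (nat_lit 293) (nat_lit 244) (nat_lit 243))))) (XT.nd (nat_lit 234) (nat_lit 2584) (nat_lit 0) (XT.nd (nat_lit 78) (nat_lit 1368) (nat_lit 0) (XT.lf (nat_lit 0) (nat_lit 891349520) (nat_lit 684) (nat_lit 1517010610)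 (nat_lit 760) (nat_lit 5417013000) (nat_lit 251) (nat_lit 5) (nat_lit 260) (nat_lit 5) (nat_lit 261) (nat_lit 4) (nat_lit 294) (nat_lit 244) (nat_lit 242)) (XT.nd (nat_lit 78) (nat_lit 684) (nat_lit 0) (XT.lf (nat_lit 0) (nat_lit 1015662644) (nat_lit 684) (nat_lit 6328781835) (nat_lit 684) (nat_lit 570023091) (nat_lit 242) (nat_lit 4) (nat_lit 251) (nat_lit 5) (nat_lit 251) (nat_lit 4) (nat_lit 295) (nat_lit 244) (nat_lit 241)) (XT.lf (nat_lit 0) (nat_lit 1110890600) (nat_lit 608) (nat_lit 3185404763) (nat_lit 684) (nat_lit 3710869254) (nat_lit 233) (nat_lit 5) (nat_lit 241) (nat_lit 5) (nat_lit 242) (nat_lit 4) (nat_lit 296) (nat_lit 244) (nat_lit 240)))) (XT.nd (nat_lit 156) (nat_lit 1216) (nat_lit 0) (XT.nd (nat_lit 78) (nat_lit 608) (nat_lit 0) (XT.lf (nat_lit 0) (nat_lit 1107177220) (nat_lit 760) (nat_lit 6904490122) (nat_lit 76) (nat_lit 92387808) (nat_lit 223) (nat_lit 5) (nat_lit 233)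 (nat_lit 5) (nat_lit 224) (nat_lit 4) (nat_lit 297) (nat_lit 244) (nat_lit 239)) (XT.lf (nat_lit 0) (nat_lit 1242376403) (nat_lit 608) (nat_lit 4725427279) (nat_lit 684) (nat_lit 2236720654) (nat_lit 215) (nat_lit 5) (nat_lit 223) (nat_lit 5) (nat_lit 224) (nat_lit 4) (nat_lit 298) (nat_lit 244) (nat_lit 238))) (XT.nd (nat_lit 78) (nat_lit 532) (nat_lit 0) (XT.lf (nat_lit 0) (nat_lit 1263534209) (nat_lit 608) (nat_lit 1296570974) (nat_lit 684) (nat_lit 5749104826) (nat_lit 206) (nat_lit 5) (nat_lit 214) (nat_lit 5) (nat_lit 215) (nat_lit 5) (nat_lit 299) (nat_lit 244) (nat_lit 237)) (XT.lf (nat_lit 0) (nat_lit 1245378482) (nat_lit 532) (nat_lit 6171349814) (nat_lit 608) (nat_lit 1001208268) (nat_lit 199) (nat_lit 5) (nat_lit 206) (nat_lit 5) (nat_lit 207) (nat_lit 4) (nat_lit 300) (nat_lit 244) (nat_lit 236)))))) (XT.nd (nat_lit 468) (nat_lit 2736) (nat_lit 0) (XT.nd (nat_lit 234) (nat_lit 1596)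 (nat_lit 0) (XT.nd (nat_lit 78) (nat_lit 1140) (nat_lit 0) (XT.lf (nat_lit 0) (nat_lit 1178282767) (nat_lit 608) (nat_lit 2601928207) (nat_lit 684) (nat_lit 4750482845) (nat_lit 190) (nat_lit 5) (nat_lit 198) (nat_lit 5) (nat_lit 199) (nat_lit 5) (nat_lit 301) (nat_lit 244) (nat_lit 235)) (XT.nd (nat_lit 78) (nat_lit 608) (nat_lit 0) (XT.lf (nat_lit 0) (nat_lit 1076757752) (nat_lit 532) (nat_lit 7557746642) (nat_lit 608) (nat_lit 13448747) (nat_lit 183) (nat_lit 5) (nat_lit 190) (nat_lit 5) (nat_lit 191) (nat_lit 4) (nat_lit 302) (nat_lit 244) (nat_lit 234)) (XT.lf (nat_lit 0) (nat_lit 899691529) (nat_lit 532) (nat_lit 3857263197) (nat_lit 608) (nat_lit 4012149214) (nat_lit 175) (nat_lit 5) (nat_lit 182) (nat_lit 5) (nat_lit 183) (nat_lit 5) (nat_lit 303) (nat_lit 244) (nat_lit 233)))) (XT.nd (nat_lit 78) (nat_lit 1064) (nat_lit 0) (XT.lf (nat_lit 0) (nat_lit 685354157) (nat_lit 456) (nat_lit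 20226744) (nat_lit 532) (nat_lit 8189520326) (nat_lit 168) (nat_lit 5) (nat_lit 174) (nat_lit 5) (nat_lit 175) (nat_lit 5) (nat_lit 304) (nat_lit 244) (nat_lit 232)) (XT.nd (nat_lit 78) (nat_lit 532) (nat_lit 0) (XT.lf (nat_lit 0) (nat_lit 379640547) (nat_lit 532) (nat_lit 5098124039) (nat_lit 608) (nat_lit 3547333680) (nat_lit 161) (nat_lit 5) (nat_lit 168) (nat_lit 5) (nat_lit 169) (nat_lit 5) (nat_lit 305) (nat_lit 244) (nat_lit 231)) (XT.lf (nat_lit 0) (nat_lit 20552198) (nat_lit 456) (nat_lit 1140617263) (nat_lit 532) (nat_lit 7998894870) (nat_lit 154) (nat_lit 5) (nat_lit 160) (nat_lit 5) (nat_lit 161) (nat_lit 5) (nat_lit 306) (nat_lit 244) (nat_lit 230))))) (XT.nd (nat_lit 234) (nat_lit 1748) (nat_lit 0) (XT.nd (nat_lit 78) (nat_lit 988) (nat_lit 0) (XT.lf (nat_lit 0) (nat_lit 5930072085) (nat_lit 532) (nat_lit 428178303) (nat_lit 76) (nat_lit 2941104618) (nat_lit 154) (nat_lit 5) (nat_lit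 161) (nat_lit 5) (nat_lit 155) (nat_lit 5) (nat_lit 307) (nat_lit 244) (nat_lit 229)) (XT.nd (nat_lit 78) (nat_lit 456) (nat_lit 0) (XT.lf (nat_lit 0) (nat_lit 1335565883) (nat_lit 532) (nat_lit 951796967) (nat_lit 76) (nat_lit 7156272828) (nat_lit 147) (nat_lit 5) (nat_lit 154) (nat_lit 5) (nat_lit 148) (nat_lit 5) (nat_lit 308) (nat_lit 244) (nat_lit 228)) (XT.lf (nat_lit 0) (nat_lit 6097397492) (nat_lit 532) (nat_lit 1576304302) (nat_lit 76) (nat_lit 1918949727) (nat_lit 141) (nat_lit 5) (nat_lit 148) (nat_lit 5) (nat_lit 142) (nat_lit 5) (nat_lit 309) (nat_lit 244) (nat_lit 227)))) (XT.nd (nat_lit 156) (nat_lit 836) (nat_lit 0) (XT.nd (nat_lit 78) (nat_lit 380) (nat_lit 0) (XT.lf (nat_lit 0) (nat_lit 1204945360) (nat_lit 532) (nat_lit 2298003081) (nat_lit 76) (nat_lit 6243797250) (nat_lit 134) (nat_lit 5) (nat_lit 141) (nat_lit 5) (nat_lit 135) (nat_lit 5) (nat_lit 310) (nat_lit 244) (nat_lit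 226)) (XT.lf (nat_lit 0) (nat_lit 5956032754) (nat_lit 456) (nat_lit 3130333386) (nat_lit 76) (nat_lit 819565116) (nat_lit 129) (nat_lit 5) (nat_lit 135) (nat_lit 5) (nat_lit 130) (nat_lit 5) (nat_lit 311) (nat_lit 244) (nat_lit 225))) (XT.nd (nat_lit 78) (nat_lit 380) (nat_lit 0) (XT.lf (nat_lit 0) (nat_lit 746049271) (nat_lit 456) (nat_lit 4081709688) (nat_lit 76) (nat_lit 5242576125) (nat_lit 123) (nat_lit 5) (nat_lit 129) (nat_lit 5) (nat_lit 124) (nat_lit 5) (nat_lit 312) (nat_lit 244) (nat_lit 224)) (XT.lf (nat_lit 0) (nat_lit 5081057541) (nat_lit 380) (nat_lit 402826613) (nat_lit 456) (nat_lit 4756243348) (nat_lit 118) (nat_lit 5) (nat_lit 123) (nat_lit 5) (nat_lit 124) (nat_lit 5) (nat_lit 313) (nat_lit 244) (nat_lit 223))))))))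
noncomputable def xc25 : XT := (XT.nd (nat_lit 2028) (nat_lit 1976) (nat_lit 0) (XT.nd (nat_lit 1014) (nat_lit 2280) (nat_lit 0) (XT.nd (nat_lit 468) (nat_lit 1824) (nat_lit 0) (XT.nd (nat_lit 234) (nat_lit 760) (nat_lit 0) (XT.nd (nat_lit 78) (nat_lit 760) (nat_lit 0) (XT.lf (nat_lit 0) (nat_lit 4042785320) (nat_lit 380) (nat_lit 6303870946) (nat_lit 456) (nat_lit 68771384) (nat_lit 113) (nat_lit 5) (nat_lit 118) (nat_lit 5) (nat_lit 119) (nat_lit 5) (nat_lit 314) (nat_lit 244) (nat_lit 222)) (XT.nd (nat_lit 78) (nat_lit 380) (nat_lit 0) (XT.lf (nat_lit 0) (nat_lit 2857448191) (nat_lit 304) (nat_lit 1798872532) (nat_lit 380) (nat_lit 5939926384) (nat_lit 108) (nat_lit 5) (nat_lit 112) (nat_lit 5) (nat_lit 113) (nat_lit 5) (nat_lit 315) (nat_lit 244) (nat_lit 221)) (XT.lf (nat_lit 0) (nat_lit 1529310739) (nat_lit 380) (nat_lit 7969376104) (nat_lit 456) (nat_lit 1284330789) (nat_lit 103) (nat_lit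 5) (nat_lit 108) (nat_lit 5) (nat_lit 109) (nat_lit 5) (nat_lit 316) (nat_lit 244) (nat_lit 220)))) (XT.nd (nat_lit 78) (nat_lit 380) (nat_lit 0) (XT.lf (nat_lit 0) (nat_lit 31681153) (nat_lit 304) (nat_lit 3404025645) (nat_lit 380) (nat_lit 7539873728) (nat_lit 98) (nat_lit 5) (nat_lit 102) (nat_lit 5) (nat_lit 103) (nat_lit 5) (nat_lit 317) (nat_lit 244) (nat_lit 219)) (XT.nd (nat_lit 78) (nat_lit 380) (nat_lit 0) (XT.lf (nat_lit 0) (nat_lit 8258890980) (nat_lit 380) (nat_lit 1607742801) (nat_lit 76) (nat_lit 1307596624) (nat_lit 98) (nat_lit 5) (nat_lit 103) (nat_lit 5) (nat_lit 99) (nat_lit 5) (nat_lit 318) (nat_lit 244) (nat_lit 218)) (XT.lf (nat_lit 0) (nat_lit 1807985908) (nat_lit 380) (nat_lit 3436912801) (nat_lit 76) (nat_lit 6134072193) (nat_lit 93) (nat_lit 5) (nat_lit 98) (nat_lit 5) (nat_lit 94) (nat_lit 5) (nat_lit 319) (nat_lit 244) (nat_lit 217))))) (XT.nd (nat_lit 234) (nat_lit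 912) (nat_lit 0) (XT.nd (nat_lit 78) (nat_lit 608) (nat_lit 0) (XT.lf (nat_lit 0) (nat_lit 6136744597) (nat_lit 304) (nat_lit 458850327) (nat_lit 380) (nat_lit 4994684686) (nat_lit 89) (nat_lit 5) (nat_lit 93) (nat_lit 5) (nat_lit 94) (nat_lit 5) (nat_lit 320) (nat_lit 244) (nat_lit 216)) (XT.nd (nat_lit 78) (nat_lit 304) (nat_lit 0) (XT.lf (nat_lit 0) (nat_lit 4127944753) (nat_lit 304) (nat_lit 7390745639) (nat_lit 380) (nat_lit 289453653) (nat_lit 85) (nat_lit 5) (nat_lit 89) (nat_lit 5) (nat_lit 90) (nat_lit 5) (nat_lit 321) (nat_lit 244) (nat_lit 215)) (XT.lf (nat_lit 0) (nat_lit 1898482889) (nat_lit 228) (nat_lit 2564936195) (nat_lit 304) (nat_lit 7569259653) (nat_lit 81) (nat_lit 5) (nat_lit 84) (nat_lit 5) (nat_lit 85) (nat_lit 5) (nat_lit 322) (nat_lit 244) (nat_lit 214)))) (XT.nd (nat_lit 156) (nat_lit 532) (nat_lit 0) (XT.nd (nat_lit 78) (nat_lit 380) (nat_lit 0) (XT.lf (nat_lit 0) (nat_lit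 9337993234) (nat_lit 304) (nat_lit 543663820) (nat_lit 76) (nat_lit 2382642757) (nat_lit 81) (nat_lit 5) (nat_lit 85) (nat_lit 5) (nat_lit 82) (nat_lit 5) (nat_lit 323) (nat_lit 244) (nat_lit 213)) (XT.lf (nat_lit 0) (nat_lit 1826612972) (nat_lit 380) (nat_lit 3204137104) (nat_lit 76) (nat_lit 7472025242) (nat_lit 76) (nat_lit 5) (nat_lit 81) (nat_lit 5) (nat_lit 77) (nat_lit 5) (nat_lit 324) (nat_lit 244) (nat_lit 212))) (XT.nd (nat_lit 78) (nat_lit 304) (nat_lit 0) (XT.lf (nat_lit 0) (nat_lit 6635054251) (nat_lit 228) (nat_lit 12815780) (nat_lit 304) (nat_lit 6100883864) (nat_lit 73) (nat_lit 5) (nat_lit 76) (nat_lit 5) (nat_lit 77) (nat_lit 5) (nat_lit 325) (nat_lit 244) (nat_lit 211)) (XT.lf (nat_lit 0) (nat_lit 3699538166) (nat_lit 304) (nat_lit 7913331054) (nat_lit 380) (nat_lit 1389304988) (nat_lit 69) (nat_lit 5) (nat_lit 73) (nat_lit 5) (nat_lit 74) (nat_lit 5) (nat_lit 326) (nat_lit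 244) (nat_lit 210)))))) (XT.nd (nat_lit 468) (nat_lit 1216) (nat_lit 0) (XT.nd (nat_lit 234) (nat_lit 532) (nat_lit 0) (XT.nd (nat_lit 78) (nat_lit 228) (nat_lit 0) (XT.lf (nat_lit 0) (nat_lit 486013009) (nat_lit 228) (nat_lit 2897843100) (nat_lit 304) (nat_lit 9879620368) (nat_lit 65) (nat_lit 5) (nat_lit 68) (nat_lit 5) (nat_lit 69) (nat_lit 5) (nat_lit 327) (nat_lit 244) (nat_lit 209)) (XT.nd (nat_lit 78) (nat_lit 228) (nat_lit 0) (XT.lf (nat_lit 0) (nat_lit 8281547057) (nat_lit 304) (nat_lit 2985389386) (nat_lit 76) (nat_lit 2265534593) (nat_lit 65) (nat_lit 5) (nat_lit 69) (nat_lit 5) (nat_lit 66) (nat_lit 5) (nat_lit 328) (nat_lit 244) (nat_lit 208)) (XT.lf (nat_lit 0) (nat_lit 7051948168) (nat_lit 228) (nat_lit 6263581274) (nat_lit 304) (nat_lit 494258671) (nat_lit 62) (nat_lit 5) (nat_lit 65) (nat_lit 5) (nat_lit 66) (nat_lit 5) (nat_lit 329) (nat_lit 244) (nat_lit 207)))) (XT.nd (nat_lit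 78) (nat_lit 228) (nat_lit 0) (XT.lf (nat_lit 0) (nat_lit 3229199273) (nat_lit 228) (nat_lit 1084559584) (nat_lit 304) (nat_lit 9781803284) (nat_lit 58) (nat_lit 5) (nat_lit 61) (nat_lit 5) (nat_lit 62) (nat_lit 5) (nat_lit 330) (nat_lit 244) (nat_lit 206)) (XT.nd (nat_lit 78) (nat_lit 228) (nat_lit 0) (XT.lf (nat_lit 0) (nat_lit 9259242768) (nat_lit 304) (nat_lit 931765899) (nat_lit 76) (nat_lit 4198873433) (nat_lit 58) (nat_lit 5) (nat_lit 62) (nat_lit 5) (nat_lit 59) (nat_lit 5) (nat_lit 331) (nat_lit 244) (nat_lit 205)) (XT.lf (nat_lit 0) (nat_lit 9299145827) (nat_lit 228) (nat_lit 5049937004) (nat_lit 304) (nat_lit 344064787) (nat_lit 55) (nat_lit 5) (nat_lit 58) (nat_lit 5) (nat_lit 59) (nat_lit 5) (nat_lit 332) (nat_lit 244) (nat_lit 204))))) (XT.nd (nat_lit 234) (nat_lit 684) (nat_lit 0) (XT.nd (nat_lit 78) (nat_lit 228) (nat_lit 0) (XT.lf (nat_lit 0) (nat_lit 4494181985) (nat_lit 304)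 (nat_lit 10245899133) (nat_lit 76) (nat_lit 265504083) (nat_lit 51) (nat_lit 5) (nat_lit 55) (nat_lit 5) (nat_lit 52) (nat_lit 5) (nat_lit 333) (nat_lit 244) (nat_lit 203)) (XT.nd (nat_lit 78) (nat_lit 228) (nat_lit 0) (XT.lf (nat_lit 0) (nat_lit 9473735859) (nat_lit 304) (nat_lit 185938236) (nat_lit 76) (nat_lit 5667692725) (nat_lit 51) (nat_lit 5) (nat_lit 55) (nat_lit 5) (nat_lit 52) (nat_lit 5) (nat_lit 334) (nat_lit 244) (nat_lit 202)) (XT.lf (nat_lit 0) (nat_lit 10198137208) (nat_lit 228) (nat_lit 4403026829) (nat_lit 304) (nat_lit 1057700212) (nat_lit 48) (nat_lit 5) (nat_lit 51) (nat_lit 5) (nat_lit 52) (nat_lit 5) (nat_lit 335) (nat_lit 244) (nat_lit 201)))) (XT.nd (nat_lit 156) (nat_lit 456) (nat_lit 0) (XT.nd (nat_lit 78) (nat_lit 0) (nat_lit 0) (XT.lf (nat_lit 0) (nat_lit 3803509808) (nat_lit 228) (nat_lit 11183686524) (nat_lit 76) (nat_lit 1013190414) (nat_lit 45) (nat_lit 5) (nat_lit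 48) (nat_lit 5) (nat_lit 46) (nat_lit 5) (nat_lit 336) (nat_lit 244) (nat_lit 200)) (XT.lf (nat_lit 0) (nat_lit 8796990096) (nat_lit 228) (nat_lit 1020797943) (nat_lit 76) (nat_lit 6534240651) (nat_lit 45) (nat_lit 5) (nat_lit 48) (nat_lit 5) (nat_lit 46) (nat_lit 5) (nat_lit 337) (nat_lit 244) (nat_lit 199))) (XT.nd (nat_lit 78) (nat_lit 228) (nat_lit 0) (XT.lf (nat_lit 0) (nat_lit 9464486969) (nat_lit 228) (nat_lit 4473187446) (nat_lit 304) (nat_lit 2776626297) (nat_lit 42) (nat_lit 5) (nat_lit 45) (nat_lit 5) (nat_lit 46) (nat_lit 5) (nat_lit 338) (nat_lit 244) (nat_lit 198)) (XT.lf (nat_lit 0) (nat_lit 2087559132) (nat_lit 228) (nat_lit 13982522939) (nat_lit 76) (nat_lit 1017696605) (nat_lit 39) (nat_lit 5) (nat_lit 42) (nat_lit 5) (nat_lit 40) (nat_lit 5) (nat_lit 339) (nat_lit 244) (nat_lit 197))))))) (XT.nd (nat_lit 1014) (nat_lit 608) (nat_lit 0) (XT.nd (nat_lit 468) (nat_lit 760) (nat_lit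 0) (XT.nd (nat_lit 234) (nat_lit 380) (nat_lit 0) (XT.nd (nat_lit 78) (nat_lit 228) (nat_lit 0) (XT.lf (nat_lit 0) (nat_lit 7077115147) (nat_lit 228) (nat_lit 3755111993) (nat_lit 76) (nat_lit 6639550026) (nat_lit 39) (nat_lit 5) (nat_lit 42) (nat_lit 5) (nat_lit 40) (nat_lit 5) (nat_lit 340) (nat_lit 244) (nat_lit 196)) (XT.nd (nat_lit 78) (nat_lit 0) (nat_lit 0) (XT.lf (nat_lit 0) (nat_lit 6765876982) (nat_lit 228) (nat_lit 5433814175) (nat_lit 304) (nat_lit 5667963637) (nat_lit 36) (nat_lit 5) (nat_lit 39) (nat_lit 5) (nat_lit 40) (nat_lit 5) (nat_lit 341) (nat_lit 244) (nat_lit 195)) (XT.lf (nat_lit 0) (nat_lit 17442633542) (nat_lit 304) (nat_lit 723268849) (nat_lit 76) (nat_lit 110197678) (nat_lit 36) (nat_lit 5) (nat_lit 40) (nat_lit 5) (nat_lit 37) (nat_lit 4) (nat_lit 342) (nat_lit 244) (nat_lit 194)))) (XT.nd (nat_lit 78) (nat_lit 152) (nat_lit 0) (XT.lf (nat_lit 0) (nat_lit 4134965307)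 (nat_lit 228) (nat_lit 8760573503) (nat_lit 76) (nat_lit 5799879879) (nat_lit 33) (nat_lit 5) (nat_lit 36) (nat_lit 5) (nat_lit 34) (nat_lit 5) (nat_lit 343) (nat_lit 244) (nat_lit 193)) (XT.nd (nat_lit 78) (nat_lit 0) (nat_lit 0) (XT.lf (nat_lit 0) (nat_lit 1714751721) (nat_lit 152) (nat_lit 7485160553) (nat_lit 228) (nat_lit 9928141886) (nat_lit 31) (nat_lit 5) (nat_lit 33) (nat_lit 5) (nat_lit 34) (nat_lit 5) (nat_lit 344) (nat_lit 244) (nat_lit 192)) (XT.lf (nat_lit 0) (nat_lit 12528319533) (nat_lit 152) (nat_lit 1891554244) (nat_lit 228) (nat_lit 5153756116) (nat_lit 31) (nat_lit 5) (nat_lit 33) (nat_lit 5) (nat_lit 34) (nat_lit 5) (nat_lit 345) (nat_lit 244) (nat_lit 191))))) (XT.nd (nat_lit 234) (nat_lit 380) (nat_lit 0) (XT.nd (nat_lit 78) (nat_lit 228) (nat_lit 0) (XT.lf (nat_lit 0) (nat_lit 3561298549) (nat_lit 152) (nat_lit 16228475214) (nat_lit 228) (nat_lit 242954204) (nat_lit 29)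 (nat_lit 5) (nat_lit 31) (nat_lit 5) (nat_lit 32) (nat_lit 4) (nat_lit 346) (nat_lit 244) (nat_lit 190)) (XT.nd (nat_lit 78) (nat_lit 152) (nat_lit 0) (XT.lf (nat_lit 0) (nat_lit 4758439496) (nat_lit 228) (nat_lit 6059551686) (nat_lit 76) (nat_lit 9686874954) (nat_lit 28) (nat_lit 5) (nat_lit 31) (nat_lit 5) (nat_lit 29) (nat_lit 5) (nat_lit 347) (nat_lit 244) (nat_lit 189)) (XT.lf (nat_lit 0) (nat_lit 4633318169) (nat_lit 152) (nat_lit 5250651121) (nat_lit 228) (nat_lit 11107639341) (nat_lit 26) (nat_lit 5) (nat_lit 28) (nat_lit 5) (nat_lit 29) (nat_lit 5) (nat_lit 348) (nat_lit 244) (nat_lit 188)))) (XT.nd (nat_lit 156) (nat_lit 228) (nat_lit 0) (XT.nd (nat_lit 78) (nat_lit 152) (nat_lit 0) (XT.lf (nat_lit 0) (nat_lit 15155747535) (nat_lit 228) (nat_lit 5855476854) (nat_lit 76) (nat_lit 481898978) (nat_lit 26) (nat_lit 5) (nat_lit 29) (nat_lit 5) (nat_lit 27) (nat_lit 4) (nat_lit 349) (nat_lit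 244) (nat_lit 187)) (XT.lf (nat_lit 0) (nat_lit 4904396365) (nat_lit 152) (nat_lit 15697761726) (nat_lit 228) (nat_lit 1407214919) (nat_lit 24) (nat_lit 5) (nat_lit 26) (nat_lit 5) (nat_lit 27) (nat_lit 4) (nat_lit 350) (nat_lit 244) (nat_lit 186))) (XT.nd (nat_lit 78) (nat_lit 152) (nat_lit 0) (XT.lf (nat_lit 0) (nat_lit 3612737758) (nat_lit 228) (nat_lit 6583696027) (nat_lit 76) (nat_lit 12344417194) (nat_lit 23) (nat_lit 5) (nat_lit 26) (nat_lit 5) (nat_lit 24) (nat_lit 5) (nat_lit 351) (nat_lit 244) (nat_lit 185)) (XT.lf (nat_lit 0) (nat_lit 4215114164) (nat_lit 152) (nat_lit 4528075791) (nat_lit 228) (nat_lit 14345334508) (nat_lit 21) (nat_lit 5) (nat_lit 23) (nat_lit 5) (nat_lit 24) (nat_lit 5) (nat_lit 352) (nat_lit 244) (nat_lit 184)))))) (XT.nd (nat_lit 468) (nat_lit 304) (nat_lit 0) (XT.nd (nat_lit 234) (nat_lit 152) (nat_lit 0) (XT.nd (nat_lit 78) (nat_lit 152) (nat_lit 0) (XT.lf (nat_lit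 0) (nat_lit 14033162581) (nat_lit 228) (nat_lit 8315890481) (nat_lit 76) (nat_lit 1303480038) (nat_lit 21) (nat_lit 5) (nat_lit 24) (nat_lit 5) (nat_lit 22) (nat_lit 4) (nat_lit 353) (nat_lit 244) (nat_lit 183)) (XT.nd (nat_lit 78) (nat_lit 76) (nat_lit 0) (XT.lf (nat_lit 0) (nat_lit 2479663925) (nat_lit 76) (nat_lit 17002134494) (nat_lit 152) (nat_lit 4751680885) (nat_lit 20) (nat_lit 5) (nat_lit 21) (nat_lit 5) (nat_lit 22) (nat_lit 4) (nat_lit 354) (nat_lit 244) (nat_lit 182)) (XT.lf (nat_lit 0) (nat_lit 269427444) (nat_lit 152) (nat_lit 11200130962) (nat_lit 76) (nat_lit 13362060757) (nat_lit 19) (nat_lit 5) (nat_lit 21) (nat_lit 5) (nat_lit 20) (nat_lit 5) (nat_lit 355) (nat_lit 244) (nat_lit 181)))) (XT.nd (nat_lit 78) (nat_lit 152) (nat_lit 0) (XT.lf (nat_lit 0) (nat_lit 5332417595) (nat_lit 152) (nat_lit 439519167) (nat_lit 76) (nat_lit 19676037506) (nat_lit 19) (nat_lit 5) (nat_lit 21)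 (nat_lit 5) (nat_lit 20) (nat_lit 5) (nat_lit 356) (nat_lit 244) (nat_lit 180)) (XT.nd (nat_lit 78) (nat_lit 0) (nat_lit 0) (XT.lf (nat_lit 0) (nat_lit 10574438351) (nat_lit 228) (nat_lit 15374466851) (nat_lit 76) (nat_lit 133386890) (nat_lit 17) (nat_lit 5) (nat_lit 20) (nat_lit 5) (nat_lit 18) (nat_lit 4) (nat_lit 357) (nat_lit 244) (nat_lit 179)) (XT.lf (nat_lit 0) (nat_lit 15972622267) (nat_lit 228) (nat_lit 4653660167) (nat_lit 76) (nat_lit 6109393415) (nat_lit 17) (nat_lit 5) (nat_lit 20) (nat_lit 5) (nat_lit 18) (nat_lit 4) (nat_lit 358) (nat_lit 244) (nat_lit 178))))) (XT.nd (nat_lit 234) (nat_lit 0) (nat_lit 0) (XT.nd (nat_lit 78) (nat_lit 228) (nat_lit 0) (XT.lf (nat_lit 0) (nat_lit 6399824743) (nat_lit 76) (nat_lit 15133027402) (nat_lit 152) (nat_lit 5875820994) (nat_lit 16) (nat_lit 5) (nat_lit 17) (nat_lit 5) (nat_lit 18) (nat_lit 4) (nat_lit 359) (nat_lit 244) (nat_lit 177)) (XT.nd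 (nat_lit 78) (nat_lit 228) (nat_lit 0) (XT.lf (nat_lit 0) (nat_lit 17776915816) (nat_lit 76) (nat_lit 9473798123) (nat_lit 152) (nat_lit 851343528) (nat_lit 16) (nat_lit 5) (nat_lit 17) (nat_lit 5) (nat_lit 18) (nat_lit 4) (nat_lit 360) (nat_lit 244) (nat_lit 176)) (XT.lf (nat_lit 0) (nat_lit 588570091) (nat_lit 152) (nat_lit 3642612516) (nat_lit 228) (nat_lit 24585231761) (nat_lit 13) (nat_lit 5) (nat_lit 15) (nat_lit 5) (nat_lit 16) (nat_lit 5) (nat_lit 361) (nat_lit 244) (nat_lit 175)))) (XT.nd (nat_lit 35100) (nat_lit 0) (nat_lit 19608) (XT.nd (nat_lit 35022) (nat_lit 0) (nat_lit 21128) (XT.lf (nat_lit 0) (nat_lit 9501177348) (nat_lit 228) (nat_lit 17670893314) (nat_lit 76) (nat_lit 2379100168) (nat_lit 13) (nat_lit 5) (nat_lit 16) (nat_lit 5) (nat_lit 14) (nat_lit 4) (nat_lit 362) (nat_lit 244) (nat_lit 174)) (XT.lf (nat_lit 0) (nat_lit 99486238) (nat_lit 836) (nat_lit 3553581951) (nat_lit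 0) (nat_lit 99486238) (nat_lit 291) (nat_lit 5) (nat_lit 302) (nat_lit 4) (nat_lit 291) (nat_lit 4) (nat_lit 290) (nat_lit 245) (nat_lit 245))) (XT.nd (nat_lit 78) (nat_lit 760) (nat_lit 0) (XT.lf (nat_lit 0) (nat_lit 460170963) (nat_lit 760) (nat_lit 4619283150) (nat_lit 760) (nat_lit 2501136878) (nat_lit 281) (nat_lit 4) (nat_lit 291) (nat_lit 5) (nat_lit 291) (nat_lit 4) (nat_lit 291) (nat_lit 245) (nat_lit 244)) (XT.lf (nat_lit 0) (nat_lit 530967907) (nat_lit 684) (nat_lit 1798520642) (nat_lit 760) (nat_lit 5330421427) (nat_lit 271) (nat_lit 5) (nat_lit 280) (nat_lit 5) (nat_lit 281) (nat_lit 4) (nat_lit 292) (nat_lit 245) (nat_lit 243))))))))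
noncomputable def xc26 : XT := (XT.nd (nat_lit 2028) (nat_lit 4940) (nat_lit 0) (XT.nd (nat_lit 1014) (nat_lit 5320) (nat_lit 0) (XT.nd (nat_lit 468) (nat_lit 3572) (nat_lit 0) (XT.nd (nat_lit 234) (nat_lit 1976) (nat_lit 0) (XT.nd (nat_lit 78) (nat_lit 1520) (nat_lit 0) (XT.lf (nat_lit 0) (nat_lit 597855267) (nat_lit 760) (nat_lit 6597621625) (nat_lit 760) (nat_lit 547469688) (nat_lit 261) (nat_lit 4) (nat_lit 271) (nat_lit 5) (nat_lit 271) (nat_lit 4) (nat_lit 293) (nat_lit 245) (nat_lit 242)) (XT.nd (nat_lit 78) (nat_lit 760) (nat_lit 0) (XT.lf (nat_lit 0) (nat_lit 640258808) (nat_lit 684) (nat_lit 3612615805) (nat_lit 760) (nat_lit 3576553968) (nat_lit 251) (nat_lit 5) (nat_lit 260) (nat_lit 5) (nat_lit 261) (nat_lit 4) (nat_lit 294) (nat_lit 245) (nat_lit 241)) (XT.lf (nat_lit 0) (nat_lit 682895262) (nat_lit 684) (nat_lit 493398821) (nat_lit 760) (nat_lit 6743683720) (nat_lit 241) (nat_lit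 5) (nat_lit 250) (nat_lit 5) (nat_lit 251) (nat_lit 5) (nat_lit 295) (nat_lit 245) (nat_lit 240)))) (XT.nd (nat_lit 78) (nat_lit 1368) (nat_lit 0) (XT.lf (nat_lit 0) (nat_lit 691058970) (nat_lit 608) (nat_lit 5274665243) (nat_lit 684) (nat_lit 2048332980) (nat_lit 233) (nat_lit 5) (nat_lit 241) (nat_lit 5) (nat_lit 242) (nat_lit 4) (nat_lit 296) (nat_lit 245) (nat_lit 239)) (XT.nd (nat_lit 78) (nat_lit 608) (nat_lit 0) (XT.lf (nat_lit 0) (nat_lit 680631163) (nat_lit 684) (nat_lit 2000703520) (nat_lit 760) (nat_lit 5430793476) (nat_lit 223) (nat_lit 5) (nat_lit 232) (nat_lit 5) (nat_lit 233) (nat_lit 5) (nat_lit 297) (nat_lit 245) (nat_lit 238)) (XT.lf (nat_lit 0) (nat_lit 645322862) (nat_lit 608) (nat_lit 6818438534) (nat_lit 684) (nat_lit 750462889) (nat_lit 215) (nat_lit 5) (nat_lit 223) (nat_lit 5) (nat_lit 224) (nat_lit 4) (nat_lit 298) (nat_lit 245) (nat_lit 237))))) (XT.nd (nat_lit 234)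 (nat_lit 1672) (nat_lit 0) (XT.nd (nat_lit 78) (nat_lit 1216) (nat_lit 0) (XT.lf (nat_lit 0) (nat_lit 563094864) (nat_lit 608) (nat_lit 3398742643) (nat_lit 684) (nat_lit 4358240026) (nat_lit 206) (nat_lit 5) (nat_lit 214) (nat_lit 5) (nat_lit 215) (nat_lit 5) (nat_lit 299) (nat_lit 245) (nat_lit 236)) (XT.nd (nat_lit 78) (nat_lit 608) (nat_lit 0) (XT.lf (nat_lit 0) (nat_lit 305946150) (nat_lit 608) (nat_lit 7969764452) (nat_lit 76) (nat_lit 154671913) (nat_lit 198) (nat_lit 5) (nat_lit 206) (nat_lit 5) (nat_lit 199) (nat_lit 5) (nat_lit 300) (nat_lit 245) (nat_lit 235)) (XT.lf (nat_lit 0) (nat_lit 288503099) (nat_lit 608) (nat_lit 4721468179) (nat_lit 684) (nat_lit 3534379110) (nat_lit 190) (nat_lit 5) (nat_lit 198) (nat_lit 5) (nat_lit 199) (nat_lit 5) (nat_lit 301) (nat_lit 245) (nat_lit 234)))) (XT.nd (nat_lit 156) (nat_lit 1064) (nat_lit 0) (XT.nd (nat_lit 78) (nat_lit 0) (nat_lit 0) (XT.lf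 (nat_lit 0) (nat_lit 85719915) (nat_lit 532) (nat_lit 1029817600) (nat_lit 608) (nat_lit 7547395616) (nat_lit 182) (nat_lit 5) (nat_lit 189) (nat_lit 5) (nat_lit 190) (nat_lit 5) (nat_lit 302) (nat_lit 245) (nat_lit 233)) (XT.lf (nat_lit 0) (nat_lit 5816648398) (nat_lit 608) (nat_lit 185416372) (nat_lit 76) (nat_lit 2783450902) (nat_lit 182) (nat_lit 5) (nat_lit 190) (nat_lit 5) (nat_lit 183) (nat_lit 5) (nat_lit 303) (nat_lit 245) (nat_lit 232))) (XT.nd (nat_lit 78) (nat_lit 456) (nat_lit 0) (XT.lf (nat_lit 0) (nat_lit 1673674021) (nat_lit 608) (nat_lit 507889363) (nat_lit 76) (nat_lit 6731092921) (nat_lit 174) (nat_lit 5) (nat_lit 182) (nat_lit 5) (nat_lit 175) (nat_lit 5) (nat_lit 304) (nat_lit 245) (nat_lit 231)) (XT.lf (nat_lit 0) (nat_lit 6371210532) (nat_lit 532) (nat_lit 902214000) (nat_lit 76) (nat_lit 1770769039) (nat_lit 168) (nat_lit 5) (nat_lit 175) (nat_lit 5) (nat_lit 169) (nat_lit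 5) (nat_lit 305) (nat_lit 245) (nat_lit 230)))))) (XT.nd (nat_lit 468) (nat_lit 2356) (nat_lit 0) (XT.nd (nat_lit 234) (nat_lit 1368) (nat_lit 0) (XT.nd (nat_lit 78) (nat_lit 988) (nat_lit 0) (XT.lf (nat_lit 0) (nat_lit 1963885272) (nat_lit 608) (nat_lit 1371302826) (nat_lit 76) (nat_lit 5845106355) (nat_lit 160) (nat_lit 5) (nat_lit 168) (nat_lit 5) (nat_lit 161) (nat_lit 5) (nat_lit 306) (nat_lit 245) (nat_lit 229)) (XT.nd (nat_lit 78) (nat_lit 532) (nat_lit 0) (XT.lf (nat_lit 0) (nat_lit 6656385801) (nat_lit 532) (nat_lit 1917047206) (nat_lit 76) (nat_lit 747723856) (nat_lit 154) (nat_lit 5) (nat_lit 161) (nat_lit 5) (nat_lit 155) (nat_lit 5) (nat_lit 307) (nat_lit 245) (nat_lit 228)) (XT.lf (nat_lit 0) (nat_lit 1968601207) (nat_lit 532) (nat_lit 2559205365) (nat_lit 76) (nat_lit 4938825804) (nat_lit 147) (nat_lit 5) (nat_lit 154) (nat_lit 5) (nat_lit 148) (nat_lit 5) (nat_lit 308) (nat_lit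 245) (nat_lit 227)))) (XT.nd (nat_lit 78) (nat_lit 912) (nat_lit 0) (XT.lf (nat_lit 0) (nat_lit 6329380321) (nat_lit 456) (nat_lit 326540170) (nat_lit 532) (nat_lit 2961258354) (nat_lit 141) (nat_lit 5) (nat_lit 147) (nat_lit 5) (nat_lit 148) (nat_lit 5) (nat_lit 309) (nat_lit 245) (nat_lit 226)) (XT.nd (nat_lit 78) (nat_lit 380) (nat_lit 0) (XT.lf (nat_lit 0) (nat_lit 1667707998) (nat_lit 532) (nat_lit 4129824320) (nat_lit 76) (nat_lit 3974994380) (nat_lit 134) (nat_lit 5) (nat_lit 141) (nat_lit 5) (nat_lit 135) (nat_lit 5) (nat_lit 310) (nat_lit 245) (nat_lit 225)) (XT.lf (nat_lit 0) (nat_lit 4854536068) (nat_lit 380) (nat_lit 1497062746) (nat_lit 456) (nat_lit 3581494695) (nat_lit 129) (nat_lit 5) (nat_lit 134) (nat_lit 5) (nat_lit 135) (nat_lit 5) (nat_lit 311) (nat_lit 245) (nat_lit 224))))) (XT.nd (nat_lit 234) (nat_lit 1064) (nat_lit 0) (XT.nd (nat_lit 78) (nat_lit 836) (nat_lit 0) (XT.lf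 (nat_lit 0) (nat_lit 1037750170) (nat_lit 456) (nat_lit 6146658357) (nat_lit 76) (nat_lit 2914513912) (nat_lit 123) (nat_lit 5) (nat_lit 129) (nat_lit 5) (nat_lit 124) (nat_lit 5) (nat_lit 312) (nat_lit 245) (nat_lit 223)) (XT.nd (nat_lit 78) (nat_lit 456) (nat_lit 0) (XT.lf (nat_lit 0) (nat_lit 2918987863) (nat_lit 380) (nat_lit 2794744886) (nat_lit 456) (nat_lit 4556253637) (nat_lit 118) (nat_lit 5) (nat_lit 123) (nat_lit 5) (nat_lit 124) (nat_lit 5) (nat_lit 313) (nat_lit 245) (nat_lit 222)) (XT.lf (nat_lit 0) (nat_lit 51657306) (nat_lit 456) (nat_lit 8679137589) (nat_lit 76) (nat_lit 1716064222) (nat_lit 112) (nat_lit 5) (nat_lit 118) (nat_lit 5) (nat_lit 113) (nat_lit 5) (nat_lit 314) (nat_lit 245) (nat_lit 221)))) (XT.nd (nat_lit 156) (nat_lit 760) (nat_lit 0) (XT.nd (nat_lit 78) (nat_lit 0) (nat_lit 0) (XT.lf (nat_lit 0) (nat_lit 450921785) (nat_lit 304) (nat_lit 4262898909) (nat_lit 380)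 (nat_lit 5915121351) (nat_lit 108) (nat_lit 5) (nat_lit 112) (nat_lit 5) (nat_lit 113) (nat_lit 5) (nat_lit 315) (nat_lit 245) (nat_lit 220)) (XT.lf (nat_lit 0) (nat_lit 9484635286) (nat_lit 380) (nat_lit 981690193) (nat_lit 76) (nat_lit 350849060) (nat_lit 108) (nat_lit 5) (nat_lit 113) (nat_lit 5) (nat_lit 109) (nat_lit 5) (nat_lit 316) (nat_lit 245) (nat_lit 219))) (XT.nd (nat_lit 78) (nat_lit 304) (nat_lit 0) (XT.lf (nat_lit 0) (nat_lit 3336369957) (nat_lit 456) (nat_lit 2593961732) (nat_lit 76) (nat_lit 5080476663) (nat_lit 102) (nat_lit 5) (nat_lit 108) (nat_lit 5) (nat_lit 103) (nat_lit 5) (nat_lit 317) (nat_lit 245) (nat_lit 218)) (XT.lf (nat_lit 0) (nat_lit 6848988046) (nat_lit 304) (nat_lit 1240726956) (nat_lit 380) (nat_lit 3121168602) (nat_lit 98) (nat_lit 5) (nat_lit 102) (nat_lit 5) (nat_lit 103) (nat_lit 5) (nat_lit 318) (nat_lit 245) (nat_lit 217))))))) (XT.nd (nat_lit 1014) (nat_lit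 1900) (nat_lit 0) (XT.nd (nat_lit 468) (nat_lit 1368) (nat_lit 0) (XT.nd (nat_lit 234) (nat_lit 684) (nat_lit 0) (XT.nd (nat_lit 78) (nat_lit 608) (nat_lit 0) (XT.lf (nat_lit 0) (nat_lit 1534795479) (nat_lit 380) (nat_lit 6321621592) (nat_lit 76) (nat_lit 3560662186) (nat_lit 93) (nat_lit 5) (nat_lit 98) (nat_lit 5) (nat_lit 94) (nat_lit 5) (nat_lit 319) (nat_lit 245) (nat_lit 216)) (XT.nd (nat_lit 78) (nat_lit 304) (nat_lit 0) (XT.lf (nat_lit 0) (nat_lit 3148326434) (nat_lit 304) (nat_lit 3112184302) (nat_lit 380) (nat_lit 5369141523) (nat_lit 89) (nat_lit 5) (nat_lit 93) (nat_lit 5) (nat_lit 94) (nat_lit 5) (nat_lit 320) (nat_lit 245) (nat_lit 215)) (XT.lf (nat_lit 0) (nat_lit 1012332899) (nat_lit 304) (nat_lit 10092010471) (nat_lit 380) (nat_lit 744784232) (nat_lit 85) (nat_lit 5) (nat_lit 89) (nat_lit 5) (nat_lit 90) (nat_lit 5) (nat_lit 321) (nat_lit 245) (nat_lit 214)))) (XT.nd (nat_lit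 78) (nat_lit 608) (nat_lit 0) (XT.lf (nat_lit 0) (nat_lit 3960438632) (nat_lit 380) (nat_lit 1343773453) (nat_lit 76) (nat_lit 6770606183) (nat_lit 84) (nat_lit 5) (nat_lit 89) (nat_lit 5) (nat_lit 85) (nat_lit 5) (nat_lit 322) (nat_lit 245) (nat_lit 213)) (XT.nd (nat_lit 78) (nat_lit 380) (nat_lit 0) (XT.lf (nat_lit 0) (nat_lit 8413825850) (nat_lit 228) (nat_lit 356171417) (nat_lit 304) (nat_lit 3537766089) (nat_lit 81) (nat_lit 5) (nat_lit 84) (nat_lit 5) (nat_lit 85) (nat_lit 5) (nat_lit 323) (nat_lit 245) (nat_lit 212)) (XT.lf (nat_lit 0) (nat_lit 1158521749) (nat_lit 380) (nat_lit 6699312246) (nat_lit 76) (nat_lit 4689799852) (nat_lit 76) (nat_lit 5) (nat_lit 81) (nat_lit 5) (nat_lit 77) (nat_lit 5) (nat_lit 324) (nat_lit 245) (nat_lit 211))))) (XT.nd (nat_lit 234) (nat_lit 760) (nat_lit 0) (XT.nd (nat_lit 78) (nat_lit 380) (nat_lit 0) (XT.lf (nat_lit 0) (nat_lit 3031548402) (nat_lit 228)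 (nat_lit 2885852144) (nat_lit 304) (nat_lit 6877481349) (nat_lit 73) (nat_lit 5) (nat_lit 76) (nat_lit 5) (nat_lit 77) (nat_lit 5) (nat_lit 325) (nat_lit 245) (nat_lit 210)) (XT.nd (nat_lit 78) (nat_lit 380) (nat_lit 0) (XT.lf (nat_lit 0) (nat_lit 10801347814) (nat_lit 304) (nat_lit 40685605) (nat_lit 76) (nat_lit 2207911094) (nat_lit 73) (nat_lit 5) (nat_lit 77) (nat_lit 5) (nat_lit 74) (nat_lit 5) (nat_lit 326) (nat_lit 245) (nat_lit 209)) (XT.lf (nat_lit 0) (nat_lit 2494491047) (nat_lit 380) (nat_lit 3363582856) (nat_lit 76) (nat_lit 7454131566) (nat_lit 68) (nat_lit 5) (nat_lit 73) (nat_lit 5) (nat_lit 69) (nat_lit 5) (nat_lit 327) (nat_lit 245) (nat_lit 208)))) (XT.nd (nat_lit 156) (nat_lit 304) (nat_lit 0) (XT.nd (nat_lit 78) (nat_lit 228) (nat_lit 0) (XT.lf (nat_lit 0) (nat_lit 6608703694) (nat_lit 228) (nat_lit 709245974) (nat_lit 304) (nat_lit 6264754661) (nat_lit 65) (nat_lit 5) (nat_lit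 68) (nat_lit 5) (nat_lit 69) (nat_lit 5) (nat_lit 328) (nat_lit 245) (nat_lit 207)) (XT.lf (nat_lit 0) (nat_lit 2956063352) (nat_lit 228) (nat_lit 9328416181) (nat_lit 304) (nat_lit 1576910005) (nat_lit 62) (nat_lit 5) (nat_lit 65) (nat_lit 5) (nat_lit 66) (nat_lit 5) (nat_lit 329) (nat_lit 245) (nat_lit 206))) (XT.nd (nat_lit 78) (nat_lit 228) (nat_lit 0) (XT.lf (nat_lit 0) (nat_lit 3188516784) (nat_lit 304) (nat_lit 1011320064) (nat_lit 76) (nat_lit 9948621263) (nat_lit 61) (nat_lit 5) (nat_lit 65) (nat_lit 5) (nat_lit 62) (nat_lit 5) (nat_lit 330) (nat_lit 245) (nat_lit 205)) (XT.lf (nat_lit 0) (nat_lit 8071787347) (nat_lit 304) (nat_lit 5275838452) (nat_lit 76) (nat_lit 1096414170) (nat_lit 58) (nat_lit 5) (nat_lit 62) (nat_lit 5) (nat_lit 59) (nat_lit 5) (nat_lit 331) (nat_lit 245) (nat_lit 204)))))) (XT.nd (nat_lit 468) (nat_lit 912) (nat_lit 0) (XT.nd (nat_lit 234) (nat_lit 456) (nat_lit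 0) (XT.nd (nat_lit 78) (nat_lit 304) (nat_lit 0) (XT.lf (nat_lit 0) (nat_lit 4840918576) (nat_lit 228) (nat_lit 8257501496) (nat_lit 304) (nat_lit 1650166682) (nat_lit 55) (nat_lit 5) (nat_lit 58) (nat_lit 5) (nat_lit 59) (nat_lit 5) (nat_lit 332) (nat_lit 245) (nat_lit 203)) (XT.nd (nat_lit 78) (nat_lit 0) (nat_lit 0) (XT.lf (nat_lit 0) (nat_lit 140428582) (nat_lit 228) (nat_lit 2999173298) (nat_lit 304) (nat_lit 11922920512) (nat_lit 51) (nat_lit 5) (nat_lit 54) (nat_lit 5) (nat_lit 55) (nat_lit 5) (nat_lit 333) (nat_lit 245) (nat_lit 202)) (XT.lf (nat_lit 0) (nat_lit 8066320875) (nat_lit 304) (nat_lit 4897554224) (nat_lit 76) (nat_lit 2421501431) (nat_lit 51) (nat_lit 5) (nat_lit 55) (nat_lit 5) (nat_lit 52) (nat_lit 5) (nat_lit 334) (nat_lit 245) (nat_lit 201)))) (XT.nd (nat_lit 78) (nat_lit 228) (nat_lit 0) (XT.lf (nat_lit 0) (nat_lit 5369902979) (nat_lit 228) (nat_lit 7760107432) (nat_lit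 304) (nat_lit 2588153679) (nat_lit 48) (nat_lit 5) (nat_lit 51) (nat_lit 5) (nat_lit 52) (nat_lit 5) (nat_lit 335) (nat_lit 245) (nat_lit 200)) (XT.nd (nat_lit 78) (nat_lit 152) (nat_lit 0) (XT.lf (nat_lit 0) (nat_lit 2223132660) (nat_lit 304) (nat_lit 170229630) (nat_lit 76) (nat_lit 13667937570) (nat_lit 47) (nat_lit 5) (nat_lit 51) (nat_lit 5) (nat_lit 48) (nat_lit 5) (nat_lit 336) (nat_lit 245) (nat_lit 199)) (XT.lf (nat_lit 0) (nat_lit 7168394529) (nat_lit 228) (nat_lit 6107900422) (nat_lit 76) (nat_lit 3137625415) (nat_lit 45) (nat_lit 5) (nat_lit 48) (nat_lit 5) (nat_lit 46) (nat_lit 5) (nat_lit 337) (nat_lit 245) (nat_lit 198))))) (XT.nd (nat_lit 234) (nat_lit 456) (nat_lit 0) (XT.nd (nat_lit 78) (nat_lit 228) (nat_lit 0) (XT.lf (nat_lit 0) (nat_lit 4258110112) (nat_lit 228) (nat_lit 7986532692) (nat_lit 304) (nat_lit 4532852085) (nat_lit 42) (nat_lit 5) (nat_lit 45) (nat_lit 5) (nat_lit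 46) (nat_lit 5) (nat_lit 338) (nat_lit 245) (nat_lit 197)) (XT.nd (nat_lit 78) (nat_lit 152) (nat_lit 0) (XT.lf (nat_lit 0) (nat_lit 297186874) (nat_lit 304) (nat_lit 2237479018) (nat_lit 76) (nat_lit 14617691722) (nat_lit 41) (nat_lit 5) (nat_lit 45) (nat_lit 5) (nat_lit 42) (nat_lit 5) (nat_lit 339) (nat_lit 245) (nat_lit 196)) (XT.lf (nat_lit 0) (nat_lit 5225618541) (nat_lit 228) (nat_lit 9226137244) (nat_lit 76) (nat_lit 3085835541) (nat_lit 39) (nat_lit 5) (nat_lit 42) (nat_lit 5) (nat_lit 40) (nat_lit 5) (nat_lit 340) (nat_lit 245) (nat_lit 195)))) (XT.nd (nat_lit 156) (nat_lit 228) (nat_lit 0) (XT.nd (nat_lit 78) (nat_lit 0) (nat_lit 0) (XT.lf (nat_lit 0) (nat_lit 1172723262) (nat_lit 228) (nat_lit 9110176364) (nat_lit 304) (nat_lit 7651887592) (nat_lit 36) (nat_lit 5) (nat_lit 39) (nat_lit 5) (nat_lit 40) (nat_lit 5) (nat_lit 341) (nat_lit 245) (nat_lit 194)) (XT.lf (nat_lit 0) (nat_lit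 11912435021) (nat_lit 228) (nat_lit 3584234103) (nat_lit 304) (nat_lit 2847158829) (nat_lit 36) (nat_lit 5) (nat_lit 39) (nat_lit 5) (nat_lit 40) (nat_lit 5) (nat_lit 342) (nat_lit 245) (nat_lit 193))) (XT.nd (nat_lit 78) (nat_lit 0) (nat_lit 0) (XT.lf (nat_lit 0) (nat_lit 2058360463) (nat_lit 228) (nat_lit 14624477475) (nat_lit 76) (nat_lit 2082367993) (nat_lit 33) (nat_lit 5) (nat_lit 36) (nat_lit 5) (nat_lit 34) (nat_lit 5) (nat_lit 343) (nat_lit 245) (nat_lit 192)) (XT.lf (nat_lit 0) (nat_lit 7084747808) (nat_lit 228) (nat_lit 4218279508) (nat_lit 76) (nat_lit 7895596373) (nat_lit 33) (nat_lit 5) (nat_lit 36) (nat_lit 5) (nat_lit 34) (nat_lit 5) (nat_lit 344) (nat_lit 245) (nat_lit 191))))))))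
noncomputable def xc27 : XT := (XT.nd (nat_lit 36816) (nat_lit 0) (nat_lit 5396) (XT.nd (nat_lit 1014) (nat_lit 304) (nat_lit 0) (XT.nd (nat_lit 468) (nat_lit 684) (nat_lit 0) (XT.nd (nat_lit 234) (nat_lit 152) (nat_lit 0) (XT.nd (nat_lit 78) (nat_lit 228) (nat_lit 0) (XT.lf (nat_lit 0) (nat_lit 6493348252) (nat_lit 152) (nat_lit 5756683834) (nat_lit 228) (nat_lit 7395271650) (nat_lit 31) (nat_lit 5) (nat_lit 33) (nat_lit 5) (nat_lit 34) (nat_lit 5) (nat_lit 345) (nat_lit 245) (nat_lit 190)) (XT.nd (nat_lit 78) (nat_lit 228) (nat_lit 0) (XT.lf (nat_lit 0) (nat_lit 17493639001) (nat_lit 152) (nat_lit 52153749) (nat_lit 228) (nat_lit 2560102302) (nat_lit 31) (nat_lit 5) (nat_lit 33) (nat_lit 5) (nat_lit 34) (nat_lit 5) (nat_lit 346) (nat_lit 245) (nat_lit 189)) (XT.lf (nat_lit 0) (nat_lit 2428079186) (nat_lit 228) (nat_lit 12370420074) (nat_lit 76) (nat_lit 5780716843) (nat_lit 28) (nat_lit 5) (nat_lit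 31) (nat_lit 5) (nat_lit 29) (nat_lit 5) (nat_lit 347) (nat_lit 245) (nat_lit 188)))) (XT.nd (nat_lit 78) (nat_lit 152) (nat_lit 0) (XT.lf (nat_lit 0) (nat_lit 7498318931) (nat_lit 228) (nat_lit 1781602814) (nat_lit 76) (nat_lit 11787152319) (nat_lit 28) (nat_lit 5) (nat_lit 31) (nat_lit 5) (nat_lit 29) (nat_lit 5) (nat_lit 348) (nat_lit 245) (nat_lit 187)) (XT.nd (nat_lit 78) (nat_lit 0) (nat_lit 0) (XT.lf (nat_lit 0) (nat_lit 9159699228) (nat_lit 152) (nat_lit 3570756729) (nat_lit 228) (nat_lit 8838935048) (nat_lit 26) (nat_lit 5) (nat_lit 28) (nat_lit 5) (nat_lit 29) (nat_lit 5) (nat_lit 349) (nat_lit 245) (nat_lit 186)) (XT.lf (nat_lit 0) (nat_lit 18097698890) (nat_lit 228) (nat_lit 1732677383) (nat_lit 76) (nat_lit 2256856834) (nat_lit 26) (nat_lit 5) (nat_lit 29) (nat_lit 5) (nat_lit 27) (nat_lit 4) (nat_lit 350) (nat_lit 245) (nat_lit 185))))) (XT.nd (nat_lit 234) (nat_lit 304) (nat_lit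 0) (XT.nd (nat_lit 78) (nat_lit 152) (nat_lit 0) (XT.lf (nat_lit 0) (nat_lit 1028941000) (nat_lit 228) (nat_lit 13346412140) (nat_lit 76) (nat_lit 8244408828) (nat_lit 23) (nat_lit 5) (nat_lit 26) (nat_lit 5) (nat_lit 24) (nat_lit 5) (nat_lit 351) (nat_lit 245) (nat_lit 184)) (XT.nd (nat_lit 78) (nat_lit 152) (nat_lit 0) (XT.lf (nat_lit 0) (nat_lit 6108850778) (nat_lit 228) (nat_lit 2643048525) (nat_lit 76) (nat_lit 14416555415) (nat_lit 23) (nat_lit 5) (nat_lit 26) (nat_lit 5) (nat_lit 24) (nat_lit 5) (nat_lit 352) (nat_lit 245) (nat_lit 183)) (XT.lf (nat_lit 0) (nat_lit 8412589269) (nat_lit 152) (nat_lit 2937513486) (nat_lit 228) (nat_lit 12383343184) (nat_lit 21) (nat_lit 5) (nat_lit 23) (nat_lit 5) (nat_lit 24) (nat_lit 5) (nat_lit 353) (nat_lit 245) (nat_lit 182)))) (XT.nd (nat_lit 156) (nat_lit 228) (nat_lit 0) (XT.nd (nat_lit 78) (nat_lit 76) (nat_lit 0) (XT.lf (nat_lit 0) (nat_lit 16741367230)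 (nat_lit 228) (nat_lit 4577457512) (nat_lit 76) (nat_lit 2996722761) (nat_lit 21) (nat_lit 5) (nat_lit 24) (nat_lit 5) (nat_lit 22) (nat_lit 4) (nat_lit 354) (nat_lit 245) (nat_lit 181)) (XT.lf (nat_lit 0) (nat_lit 6477264429) (nat_lit 76) (nat_lit 15835052039) (nat_lit 152) (nat_lit 2602452347) (nat_lit 20) (nat_lit 5) (nat_lit 21) (nat_lit 5) (nat_lit 22) (nat_lit 4) (nat_lit 355) (nat_lit 245) (nat_lit 180))) (XT.nd (nat_lit 78) (nat_lit 152) (nat_lit 0) (XT.lf (nat_lit 0) (nat_lit 2473356744) (nat_lit 152) (nat_lit 7697255565) (nat_lit 76) (nat_lit 15361283134) (nat_lit 19) (nat_lit 5) (nat_lit 21) (nat_lit 5) (nat_lit 20) (nat_lit 5) (nat_lit 356) (nat_lit 245) (nat_lit 179)) (XT.lf (nat_lit 0) (nat_lit 3317877118) (nat_lit 152) (nat_lit 4327944647) (nat_lit 228) (nat_lit 18521789734) (nat_lit 17) (nat_lit 5) (nat_lit 19) (nat_lit 5) (nat_lit 20) (nat_lit 5) (nat_lit 357) (nat_lit 245) (nat_lit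 178)))))) (XT.nd (nat_lit 35256) (nat_lit 0) (nat_lit 17328) (XT.nd (nat_lit 234) (nat_lit 228) (nat_lit 0) (XT.nd (nat_lit 78) (nat_lit 76) (nat_lit 0) (XT.lf (nat_lit 0) (nat_lit 12995486355) (nat_lit 228) (nat_lit 12136729695) (nat_lit 76) (nat_lit 1689756504) (nat_lit 17) (nat_lit 5) (nat_lit 20) (nat_lit 5) (nat_lit 18) (nat_lit 4) (nat_lit 358) (nat_lit 245) (nat_lit 177)) (XT.nd (nat_lit 78) (nat_lit 76) (nat_lit 0) (XT.lf (nat_lit 0) (nat_lit 18494339628) (nat_lit 228) (nat_lit 1202035835) (nat_lit 76) (nat_lit 7799828623) (nat_lit 17) (nat_lit 5) (nat_lit 20) (nat_lit 5) (nat_lit 18) (nat_lit 4) (nat_lit 359) (nat_lit 245) (nat_lit 176)) (XT.lf (nat_lit 0) (nat_lit 10124790116) (nat_lit 76) (nat_lit 14060033257) (nat_lit 152) (nat_lit 4005319115) (nat_lit 16) (nat_lit 5) (nat_lit 17) (nat_lit 5) (nat_lit 18) (nat_lit 4) (nat_lit 360) (nat_lit 245) (nat_lit 175)))) (XT.nd (nat_lit 78)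 (nat_lit 152) (nat_lit 0) (XT.lf (nat_lit 0) (nat_lit 1095716330) (nat_lit 152) (nat_lit 7172433226) (nat_lit 76) (nat_lit 20637222700) (nat_lit 15) (nat_lit 5) (nat_lit 17) (nat_lit 5) (nat_lit 16) (nat_lit 5) (nat_lit 361) (nat_lit 245) (nat_lit 174)) (XT.nd (nat_lit 34866) (nat_lit 0) (nat_lit 22800) (XT.lf (nat_lit 0) (nat_lit 4006914581) (nat_lit 152) (nat_lit 2277263290) (nat_lit 228) (nat_lit 23357587531) (nat_lit 13) (nat_lit 5) (nat_lit 15) (nat_lit 5) (nat_lit 16) (nat_lit 5) (nat_lit 362) (nat_lit 245) (nat_lit 173)) (XT.lf (nat_lit 0) (nat_lit 84047263) (nat_lit 912) (nat_lit 3513406560) (nat_lit 0) (nat_lit 84047263) (nat_lit 313) (nat_lit 5) (nat_lit 325) (nat_lit 4) (nat_lit 313) (nat_lit 4) (nat_lit 288) (nat_lit 246) (nat_lit 246))))) (XT.nd (nat_lit 234) (nat_lit 3040) (nat_lit 0) (XT.nd (nat_lit 78) (nat_lit 1596) (nat_lit 0) (XT.lf (nat_lit 0) (nat_lit 316126652) (nat_lit 836)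 (nat_lit 4670994574) (nat_lit 836) (nat_lit 2445670100) (nat_lit 302) (nat_lit 4) (nat_lit 313) (nat_lit 5) (nat_lit 313) (nat_lit 4) (nat_lit 289) (nat_lit 246) (nat_lit 245)) (XT.nd (nat_lit 78) (nat_lit 760) (nat_lit 0) (XT.lf (nat_lit 0) (nat_lit 309848308) (nat_lit 760) (nat_lit 2014746731) (nat_lit 836) (nat_lit 5181718975) (nat_lit 291) (nat_lit 5) (nat_lit 301) (nat_lit 5) (nat_lit 302) (nat_lit 4) (nat_lit 290) (nat_lit 246) (nat_lit 244)) (XT.lf (nat_lit 0) (nat_lit 307953158) (nat_lit 760) (nat_lit 6815919029) (nat_lit 760) (nat_lit 459629404) (nat_lit 281) (nat_lit 4) (nat_lit 291) (nat_lit 5) (nat_lit 291) (nat_lit 4) (nat_lit 291) (nat_lit 246) (nat_lit 243)))) (XT.nd (nat_lit 156) (nat_lit 1444) (nat_lit 0) (XT.nd (nat_lit 78) (nat_lit 836) (nat_lit 0) (XT.lf (nat_lit 0) (nat_lit 285609895) (nat_lit 684) (nat_lit 3990853239) (nat_lit 760) (nat_lit 3387524946) (nat_lit 271) (nat_lit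 5) (nat_lit 280) (nat_lit 5) (nat_lit 281) (nat_lit 4) (nat_lit 292) (nat_lit 246) (nat_lit 242)) (XT.lf (nat_lit 0) (nat_lit 269132195) (nat_lit 760) (nat_lit 1033062275) (nat_lit 836) (nat_lit 6446221339) (nat_lit 260) (nat_lit 5) (nat_lit 270) (nat_lit 5) (nat_lit 271) (nat_lit 5) (nat_lit 293) (nat_lit 246) (nat_lit 241))) (XT.nd (nat_lit 78) (nat_lit 760) (nat_lit 0) (XT.lf (nat_lit 0) (nat_lit 230241878) (nat_lit 684) (nat_lit 5791910022) (nat_lit 760) (nat_lit 1814210515) (nat_lit 251) (nat_lit 5) (nat_lit 260) (nat_lit 5) (nat_lit 261) (nat_lit 4) (nat_lit 294) (nat_lit 246) (nat_lit 240)) (XT.lf (nat_lit 0) (nat_lit 174524501) (nat_lit 684) (nat_lit 2674768726) (nat_lit 760) (nat_lit 5078782294) (nat_lit 241) (nat_lit 5) (nat_lit 250) (nat_lit 5) (nat_lit 251) (nat_lit 5) (nat_lit 295) (nat_lit 246) (nat_lit 239))))))) (XT.nd (nat_lit 1014) (nat_lit 4788) (nat_lit 0) (XT.nd (nat_lit 468)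 (nat_lit 3876) (nat_lit 0) (XT.nd (nat_lit 234) (nat_lit 1824) (nat_lit 0) (XT.nd (nat_lit 78) (nat_lit 836) (nat_lit 0) (XT.lf (nat_lit 0) (nat_lit 107753379) (nat_lit 608) (nat_lit 7451385819) (nat_lit 684) (nat_lit 464673524) (nat_lit 233) (nat_lit 5) (nat_lit 241) (nat_lit 5) (nat_lit 242) (nat_lit 4) (nat_lit 296) (nat_lit 246) (nat_lit 238)) (XT.nd (nat_lit 78) (nat_lit 760) (nat_lit 0) (XT.lf (nat_lit 0) (nat_lit 4179034910) (nat_lit 684) (nat_lit 4669113) (nat_lit 76) (nat_lit 3939340751) (nat_lit 232) (nat_lit 5) (nat_lit 241) (nat_lit 5) (nat_lit 233) (nat_lit 5) (nat_lit 297) (nat_lit 246) (nat_lit 237)) (XT.lf (nat_lit 0) (nat_lit 653278608) (nat_lit 760) (nat_lit 127658869) (nat_lit 76) (nat_lit 7445635425) (nat_lit 222) (nat_lit 5) (nat_lit 232) (nat_lit 5) (nat_lit 223) (nat_lit 5) (nat_lit 298) (nat_lit 246) (nat_lit 236)))) (XT.nd (nat_lit 78) (nat_lit 1216) (nat_lit 0) (XT.lf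 (nat_lit 0) (nat_lit 5287441296) (nat_lit 684) (nat_lit 303800076) (nat_lit 76) (nat_lit 2742511400) (nat_lit 214) (nat_lit 5) (nat_lit 223) (nat_lit 5) (nat_lit 215) (nat_lit 5) (nat_lit 299) (nat_lit 246) (nat_lit 235)) (XT.nd (nat_lit 78) (nat_lit 532) (nat_lit 0) (XT.lf (nat_lit 0) (nat_lit 1536728013) (nat_lit 684) (nat_lit 509866515) (nat_lit 76) (nat_lit 6398627045) (nat_lit 205) (nat_lit 5) (nat_lit 214) (nat_lit 5) (nat_lit 206) (nat_lit 5) (nat_lit 300) (nat_lit 246) (nat_lit 234)) (XT.lf (nat_lit 0) (nat_lit 6165432966) (nat_lit 608) (nat_lit 766373278) (nat_lit 76) (nat_lit 1628943359) (nat_lit 198) (nat_lit 5) (nat_lit 206) (nat_lit 5) (nat_lit 199) (nat_lit 5) (nat_lit 301) (nat_lit 246) (nat_lit 233))))) (XT.nd (nat_lit 234) (nat_lit 2052) (nat_lit 0) (XT.nd (nat_lit 78) (nat_lit 1140) (nat_lit 0) (XT.lf (nat_lit 0) (nat_lit 2178019353) (nat_lit 684) (nat_lit 1076187251) (nat_lit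 76) (nat_lit 5426261827) (nat_lit 189) (nat_lit 5) (nat_lit 198) (nat_lit 5) (nat_lit 190) (nat_lit 5) (nat_lit 302) (nat_lit 246) (nat_lit 232)) (XT.nd (nat_lit 78) (nat_lit 608) (nat_lit 0) (XT.lf (nat_lit 0) (nat_lit 6802620614) (nat_lit 608) (nat_lit 1436550590) (nat_lit 76) (nat_lit 565459636) (nat_lit 182) (nat_lit 5) (nat_lit 190) (nat_lit 5) (nat_lit 183) (nat_lit 5) (nat_lit 303) (nat_lit 246) (nat_lit 231)) (XT.lf (nat_lit 0) (nat_lit 2565362682) (nat_lit 608) (nat_lit 1872494283) (nat_lit 76) (nat_lit 4495085998) (nat_lit 174) (nat_lit 5) (nat_lit 182) (nat_lit 5) (nat_lit 175) (nat_lit 5) (nat_lit 304) (nat_lit 246) (nat_lit 230)))) (XT.nd (nat_lit 156) (nat_lit 988) (nat_lit 0) (XT.nd (nat_lit 78) (nat_lit 608) (nat_lit 0) (XT.lf (nat_lit 0) (nat_lit 6700938954) (nat_lit 456) (nat_lit 488253578) (nat_lit 532) (nat_lit 1876807733) (nat_lit 168) (nat_lit 5) (nat_lit 174) (nat_lit 5)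 (nat_lit 175) (nat_lit 5) (nat_lit 305) (nat_lit 246) (nat_lit 229)) (XT.lf (nat_lit 0) (nat_lit 2684276139) (nat_lit 608) (nat_lit 2948291700) (nat_lit 76) (nat_lit 3570780467) (nat_lit 160) (nat_lit 5) (nat_lit 168) (nat_lit 5) (nat_lit 161) (nat_lit 5) (nat_lit 306) (nat_lit 246) (nat_lit 228))) (XT.nd (nat_lit 78) (nat_lit 532) (nat_lit 0) (XT.lf (nat_lit 0) (nat_lit 5741562735) (nat_lit 456) (nat_lit 1568511781) (nat_lit 532) (nat_lit 2035512664) (nat_lit 154) (nat_lit 5) (nat_lit 160) (nat_lit 5) (nat_lit 161) (nat_lit 5) (nat_lit 307) (nat_lit 246) (nat_lit 227)) (XT.lf (nat_lit 0) (nat_lit 2517399774) (nat_lit 532) (nat_lit 4357224078) (nat_lit 76) (nat_lit 2617841647) (nat_lit 147) (nat_lit 5) (nat_lit 154) (nat_lit 5) (nat_lit 148) (nat_lit 5) (nat_lit 308) (nat_lit 246) (nat_lit 226)))))) (XT.nd (nat_lit 546) (nat_lit 2128) (nat_lit 0) (XT.nd (nat_lit 234) (nat_lit 1292) (nat_lit 0)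 (XT.nd (nat_lit 78) (nat_lit 912) (nat_lit 0) (XT.lf (nat_lit 0) (nat_lit 4438462952) (nat_lit 456) (nat_lit 2704608975) (nat_lit 532) (nat_lit 2501212185) (nat_lit 141) (nat_lit 5) (nat_lit 147) (nat_lit 5) (nat_lit 148) (nat_lit 5) (nat_lit 309) (nat_lit 246) (nat_lit 225)) (XT.nd (nat_lit 78) (nat_lit 380) (nat_lit 0) (XT.lf (nat_lit 0) (nat_lit 2044282255) (nat_lit 532) (nat_lit 6157630542) (nat_lit 76) (nat_lit 1599245511) (nat_lit 134) (nat_lit 5) (nat_lit 141) (nat_lit 5) (nat_lit 135) (nat_lit 5) (nat_lit 310) (nat_lit 246) (nat_lit 224)) (XT.lf (nat_lit 0) (nat_lit 2731435409) (nat_lit 380) (nat_lit 3935092707) (nat_lit 456) (nat_lit 3296466128) (nat_lit 129) (nat_lit 5) (nat_lit 134) (nat_lit 5) (nat_lit 135) (nat_lit 5) (nat_lit 311) (nat_lit 246) (nat_lit 223)))) (XT.nd (nat_lit 156) (nat_lit 456) (nat_lit 0) (XT.nd (nat_lit 78) (nat_lit 380) (nat_lit 0) (XT.lf (nat_lit 0) (nat_lit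 1241138226) (nat_lit 456) (nat_lit 8413148591) (nat_lit 76) (nat_lit 476091874) (nat_lit 123) (nat_lit 5) (nat_lit 129) (nat_lit 5) (nat_lit 124) (nat_lit 5) (nat_lit 312) (nat_lit 246) (nat_lit 222)) (XT.lf (nat_lit 0) (nat_lit 554727723) (nat_lit 380) (nat_lit 5300620685) (nat_lit 456) (nat_lit 4447363157) (nat_lit 118) (nat_lit 5) (nat_lit 123) (nat_lit 5) (nat_lit 124) (nat_lit 5) (nat_lit 313) (nat_lit 246) (nat_lit 221))) (XT.nd (nat_lit 78) (nat_lit 380) (nat_lit 0) (XT.lf (nat_lit 0) (nat_lit 90448021) (nat_lit 456) (nat_lit 708110092) (nat_lit 76) (nat_lit 9682417341) (nat_lit 117) (nat_lit 5) (nat_lit 123) (nat_lit 5) (nat_lit 118) (nat_lit 5) (nat_lit 314) (nat_lit 246) (nat_lit 220)) (XT.lf (nat_lit 0) (nat_lit 4694758997) (nat_lit 456) (nat_lit 2135269424) (nat_lit 76) (nat_lit 3834217947) (nat_lit 112) (nat_lit 5) (nat_lit 118) (nat_lit 5) (nat_lit 113) (nat_lit 5) (nat_lit 315)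 (nat_lit 246) (nat_lit 219))))) (XT.nd (nat_lit 234) (nat_lit 1064) (nat_lit 0) (XT.nd (nat_lit 78) (nat_lit 760) (nat_lit 0) (XT.lf (nat_lit 0) (nat_lit 7158300984) (nat_lit 304) (nat_lit 2246756393) (nat_lit 380) (nat_lit 1448661845) (nat_lit 108) (nat_lit 5) (nat_lit 112) (nat_lit 5) (nat_lit 113) (nat_lit 5) (nat_lit 316) (nat_lit 246) (nat_lit 218)) (XT.nd (nat_lit 78) (nat_lit 304) (nat_lit 0) (XT.lf (nat_lit 0) (nat_lit 3145469751) (nat_lit 456) (nat_lit 5430487197) (nat_lit 76) (nat_lit 2472965767) (nat_lit 102) (nat_lit 5) (nat_lit 108) (nat_lit 5) (nat_lit 103) (nat_lit 5) (nat_lit 317) (nat_lit 246) (nat_lit 217)) (XT.lf (nat_lit 0) (nat_lit 3910534662) (nat_lit 304) (nat_lit 3926734328) (nat_lit 380) (nat_lit 3412987652) (nat_lit 98) (nat_lit 5) (nat_lit 102) (nat_lit 5) (nat_lit 103) (nat_lit 5) (nat_lit 318) (nat_lit 246) (nat_lit 216)))) (XT.nd (nat_lit 156) (nat_lit 684) (nat_lit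 0) (XT.nd (nat_lit 78) (nat_lit 0) (nat_lit 0) (XT.lf (nat_lit 0) (nat_lit 1167152676) (nat_lit 380) (nat_lit 9423838579) (nat_lit 76) (nat_lit 867118371) (nat_lit 93) (nat_lit 5) (nat_lit 98) (nat_lit 5) (nat_lit 94) (nat_lit 5) (nat_lit 319) (nat_lit 246) (nat_lit 215)) (XT.lf (nat_lit 0) (nat_lit 5831173545) (nat_lit 380) (nat_lit 57818052) (nat_lit 76) (nat_lit 5782950570) (nat_lit 93) (nat_lit 5) (nat_lit 98) (nat_lit 5) (nat_lit 94) (nat_lit 5) (nat_lit 320) (nat_lit 246) (nat_lit 214))) (XT.nd (nat_lit 78) (nat_lit 380) (nat_lit 0) (XT.lf (nat_lit 0) (nat_lit 9591528819) (nat_lit 304) (nat_lit 1024555611) (nat_lit 380) (nat_lit 1276536420) (nat_lit 89) (nat_lit 5) (nat_lit 93) (nat_lit 5) (nat_lit 94) (nat_lit 5) (nat_lit 321) (nat_lit 246) (nat_lit 213)) (XT.lf (nat_lit 0) (nat_lit 3373676726) (nat_lit 380) (nat_lit 4783232295) (nat_lit 76) (nat_lit 3962734923) (nat_lit 84) (nat_lit 5)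 (nat_lit 89) (nat_lit 5) (nat_lit 85) (nat_lit 5) (nat_lit 322) (nat_lit 246) (nat_lit 212))))))))
noncomputable def xc28 : XT := (XT.nd (nat_lit 2028) (nat_lit 988) (nat_lit 0) (XT.nd (nat_lit 1014) (nat_lit 1520) (nat_lit 0) (XT.nd (nat_lit 468) (nat_lit 1292) (nat_lit 0) (XT.nd (nat_lit 234) (nat_lit 836) (nat_lit 0) (XT.nd (nat_lit 78) (nat_lit 380) (nat_lit 0) (XT.lf (nat_lit 0) (nat_lit 4867799631) (nat_lit 228) (nat_lit 3253487695) (nat_lit 304) (nat_lit 4232563681) (nat_lit 81) (nat_lit 5) (nat_lit 84) (nat_lit 5) (nat_lit 85) (nat_lit 5) (nat_lit 323) (nat_lit 246) (nat_lit 211)) (XT.nd (nat_lit 78) (nat_lit 0) (nat_lit 0) (XT.lf (nat_lit 0) (nat_lit 391254508) (nat_lit 380) (nat_lit 10423314904) (nat_lit 76) (nat_lit 1780895853) (nat_lit 76) (nat_lit 5) (nat_lit 81) (nat_lit 5) (nat_lit 77) (nat_lit 5) (nat_lit 324) (nat_lit 246) (nat_lit 210)) (XT.lf (nat_lit 0) (nat_lit 5092603966)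 (nat_lit 380) (nat_lit 791504898) (nat_lit 76) (nat_lit 6959776303) (nat_lit 76) (nat_lit 5) (nat_lit 81) (nat_lit 5) (nat_lit 77) (nat_lit 5) (nat_lit 325) (nat_lit 246) (nat_lit 209)))) (XT.nd (nat_lit 78) (nat_lit 608) (nat_lit 0) (XT.lf (nat_lit 0) (nat_lit 9132173762) (nat_lit 228) (nat_lit 787521567) (nat_lit 304) (nat_lit 3180410222) (nat_lit 73) (nat_lit 5) (nat_lit 76) (nat_lit 5) (nat_lit 77) (nat_lit 5) (nat_lit 326) (nat_lit 246) (nat_lit 208)) (XT.nd (nat_lit 78) (nat_lit 228) (nat_lit 0) (XT.lf (nat_lit 0) (nat_lit 1506963318) (nat_lit 380) (nat_lit 7440870930) (nat_lit 76) (nat_lit 4416031614) (nat_lit 68) (nat_lit 5) (nat_lit 73) (nat_lit 5) (nat_lit 69) (nat_lit 5) (nat_lit 327) (nat_lit 246) (nat_lit 207)) (XT.lf (nat_lit 0) (nat_lit 2419672574) (nat_lit 228) (nat_lit 3847809898) (nat_lit 304) (nat_lit 7368160120) (nat_lit 65) (nat_lit 5) (nat_lit 68) (nat_lit 5) (nat_lit 69)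 (nat_lit 5) (nat_lit 328) (nat_lit 246) (nat_lit 206))))) (XT.nd (nat_lit 234) (nat_lit 760) (nat_lit 0) (XT.nd (nat_lit 78) (nat_lit 532) (nat_lit 0) (XT.lf (nat_lit 0) (nat_lit 11159243505) (nat_lit 304) (nat_lit 1360763905) (nat_lit 76) (nat_lit 1395834293) (nat_lit 65) (nat_lit 5) (nat_lit 69) (nat_lit 5) (nat_lit 66) (nat_lit 5) (nat_lit 329) (nat_lit 246) (nat_lit 205)) (XT.nd (nat_lit 78) (nat_lit 228) (nat_lit 0) (XT.lf (nat_lit 0) (nat_lit 1980508340) (nat_lit 304) (nat_lit 5449173725) (nat_lit 76) (nat_lit 6774274872) (nat_lit 61) (nat_lit 5) (nat_lit 65) (nat_lit 5) (nat_lit 62) (nat_lit 5) (nat_lit 330) (nat_lit 246) (nat_lit 204)) (XT.lf (nat_lit 0) (nat_lit 4623607693) (nat_lit 228) (nat_lit 2169636300) (nat_lit 304) (nat_lit 7707722619) (nat_lit 58) (nat_lit 5) (nat_lit 61) (nat_lit 5) (nat_lit 62) (nat_lit 5) (nat_lit 331) (nat_lit 246) (nat_lit 203)))) (XT.nd (nat_lit 156) (nat_lit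 456) (nat_lit 0) (XT.nd (nat_lit 78) (nat_lit 76) (nat_lit 0) (XT.lf (nat_lit 0) (nat_lit 137739409) (nat_lit 228) (nat_lit 11604250773) (nat_lit 304) (nat_lit 3065097567) (nat_lit 55) (nat_lit 5) (nat_lit 58) (nat_lit 5) (nat_lit 59) (nat_lit 5) (nat_lit 332) (nat_lit 246) (nat_lit 202)) (XT.lf (nat_lit 0) (nat_lit 1709444099) (nat_lit 304) (nat_lit 4667544606) (nat_lit 76) (nat_lit 8744909915) (nat_lit 54) (nat_lit 5) (nat_lit 58) (nat_lit 5) (nat_lit 55) (nat_lit 5) (nat_lit 333) (nat_lit 246) (nat_lit 201))) (XT.nd (nat_lit 78) (nat_lit 228) (nat_lit 0) (XT.lf (nat_lit 0) (nat_lit 5581301714) (nat_lit 228) (nat_lit 975965543) (nat_lit 304) (nat_lit 8889078777) (nat_lit 51) (nat_lit 5) (nat_lit 54) (nat_lit 5) (nat_lit 55) (nat_lit 5) (nat_lit 334) (nat_lit 246) (nat_lit 200)) (XT.lf (nat_lit 0) (nat_lit 290387949) (nat_lit 228) (nat_lit 11259805520) (nat_lit 304) (nat_lit 4230370303) (nat_lit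 48) (nat_lit 5) (nat_lit 51) (nat_lit 5) (nat_lit 52) (nat_lit 5) (nat_lit 335) (nat_lit 246) (nat_lit 199)))))) (XT.nd (nat_lit 468) (nat_lit 836) (nat_lit 0) (XT.nd (nat_lit 234) (nat_lit 456) (nat_lit 0) (XT.nd (nat_lit 78) (nat_lit 152) (nat_lit 0) (XT.lf (nat_lit 0) (nat_lit 571373642) (nat_lit 304) (nat_lit 5352812549) (nat_lit 76) (nat_lit 10200362399) (nat_lit 47) (nat_lit 5) (nat_lit 51) (nat_lit 5) (nat_lit 48) (nat_lit 5) (nat_lit 336) (nat_lit 246) (nat_lit 198)) (XT.nd (nat_lit 78) (nat_lit 0) (nat_lit 0) (XT.lf (nat_lit 0) (nat_lit 5025120554) (nat_lit 152) (nat_lit 406273771) (nat_lit 228) (nat_lit 11047493375) (nat_lit 45) (nat_lit 5) (nat_lit 47) (nat_lit 5) (nat_lit 48) (nat_lit 5) (nat_lit 337) (nat_lit 246) (nat_lit 197)) (XT.lf (nat_lit 0) (nat_lit 10447617753) (nat_lit 228) (nat_lit 1190471304) (nat_lit 76) (nat_lit 5205587043) (nat_lit 45) (nat_lit 5) (nat_lit 48) (nat_lit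 5) (nat_lit 46) (nat_lit 5) (nat_lit 338) (nat_lit 246) (nat_lit 196)))) (XT.nd (nat_lit 78) (nat_lit 228) (nat_lit 0) (XT.lf (nat_lit 0) (nat_lit 9403767298) (nat_lit 228) (nat_lit 6215718094) (nat_lit 304) (nat_lit 1599845979) (nat_lit 42) (nat_lit 5) (nat_lit 45) (nat_lit 5) (nat_lit 46) (nat_lit 5) (nat_lit 339) (nat_lit 246) (nat_lit 195)) (XT.nd (nat_lit 78) (nat_lit 0) (nat_lit 0) (XT.lf (nat_lit 0) (nat_lit 2642161969) (nat_lit 152) (nat_lit 621620704) (nat_lit 228) (nat_lit 14342718224) (nat_lit 39) (nat_lit 5) (nat_lit 41) (nat_lit 5) (nat_lit 42) (nat_lit 5) (nat_lit 340) (nat_lit 246) (nat_lit 194)) (XT.lf (nat_lit 0) (nat_lit 8281277318) (nat_lit 228) (nat_lit 4624175595) (nat_lit 76) (nat_lit 5099051608) (nat_lit 39) (nat_lit 5) (nat_lit 42) (nat_lit 5) (nat_lit 40) (nat_lit 5) (nat_lit 341) (nat_lit 246) (nat_lit 193))))) (XT.nd (nat_lit 234) (nat_lit 380) (nat_lit 0) (XT.nd (nat_lit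 78) (nat_lit 228) (nat_lit 0) (XT.lf (nat_lit 0) (nat_lit 6007498872) (nat_lit 228) (nat_lit 7429506415) (nat_lit 304) (nat_lit 4977712455) (nat_lit 36) (nat_lit 5) (nat_lit 39) (nat_lit 5) (nat_lit 40) (nat_lit 5) (nat_lit 342) (nat_lit 246) (nat_lit 192)) (XT.nd (nat_lit 78) (nat_lit 228) (nat_lit 0) (XT.lf (nat_lit 0) (nat_lit 16929607987) (nat_lit 228) (nat_lit 1794697787) (nat_lit 304) (nat_lit 113416541) (nat_lit 36) (nat_lit 5) (nat_lit 39) (nat_lit 5) (nat_lit 40) (nat_lit 5) (nat_lit 343) (nat_lit 246) (nat_lit 191)) (XT.lf (nat_lit 0) (nat_lit 4863541901) (nat_lit 228) (nat_lit 10398055295) (nat_lit 76) (nat_lit 4010586701) (nat_lit 33) (nat_lit 5) (nat_lit 36) (nat_lit 5) (nat_lit 34) (nat_lit 5) (nat_lit 344) (nat_lit 246) (nat_lit 190)))) (XT.nd (nat_lit 156) (nat_lit 228) (nat_lit 0) (XT.nd (nat_lit 78) (nat_lit 0) (nat_lit 0) (XT.lf (nat_lit 0) (nat_lit 186901512) (nat_lit 152)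 (nat_lit 9775127096) (nat_lit 228) (nat_lit 9758181743) (nat_lit 31) (nat_lit 5) (nat_lit 33) (nat_lit 5) (nat_lit 34) (nat_lit 5) (nat_lit 345) (nat_lit 246) (nat_lit 189)) (XT.lf (nat_lit 0) (nat_lit 11143944702) (nat_lit 152) (nat_lit 4088464812) (nat_lit 228) (nat_lit 4948909900) (nat_lit 31) (nat_lit 5) (nat_lit 33) (nat_lit 5) (nat_lit 34) (nat_lit 5) (nat_lit 346) (nat_lit 246) (nat_lit 188))) (XT.nd (nat_lit 78) (nat_lit 76) (nat_lit 0) (XT.lf (nat_lit 0) (nat_lit 1698198153) (nat_lit 152) (nat_lit 18934964789) (nat_lit 228) (nat_lit 23673592) (nat_lit 29) (nat_lit 5) (nat_lit 31) (nat_lit 5) (nat_lit 32) (nat_lit 4) (nat_lit 347) (nat_lit 246) (nat_lit 187)) (XT.lf (nat_lit 0) (nat_lit 5022403357) (nat_lit 228) (nat_lit 8411692460) (nat_lit 76) (nat_lit 7711100598) (nat_lit 28) (nat_lit 5) (nat_lit 31) (nat_lit 5) (nat_lit 29) (nat_lit 5) (nat_lit 348) (nat_lit 246) (nat_lit 186)))))))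 (XT.nd (nat_lit 1014) (nat_lit 76) (nat_lit 0) (XT.nd (nat_lit 468) (nat_lit 380) (nat_lit 0) (XT.nd (nat_lit 234) (nat_lit 228) (nat_lit 0) (XT.nd (nat_lit 78) (nat_lit 152) (nat_lit 0) (XT.lf (nat_lit 0) (nat_lit 2400155943) (nat_lit 152) (nat_lit 7786736538) (nat_lit 228) (nat_lit 11461982941) (nat_lit 26) (nat_lit 5) (nat_lit 28) (nat_lit 5) (nat_lit 29) (nat_lit 5) (nat_lit 349) (nat_lit 246) (nat_lit 185)) (XT.nd (nat_lit 78) (nat_lit 152) (nat_lit 0) (XT.lf (nat_lit 0) (nat_lit 13570018071) (nat_lit 152) (nat_lit 1945940580) (nat_lit 228) (nat_lit 6651531251) (nat_lit 26) (nat_lit 5) (nat_lit 28) (nat_lit 5) (nat_lit 29) (nat_lit 5) (nat_lit 350) (nat_lit 246) (nat_lit 184)) (XT.lf (nat_lit 0) (nat_lit 2297184657) (nat_lit 152) (nat_lit 18702858990) (nat_lit 228) (nat_lit 1701733661) (nat_lit 24) (nat_lit 5) (nat_lit 26) (nat_lit 5) (nat_lit 27) (nat_lit 4) (nat_lit 351) (nat_lit 246) (nat_lit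 183)))) (XT.nd (nat_lit 78) (nat_lit 152) (nat_lit 0) (XT.lf (nat_lit 0) (nat_lit 3377994559) (nat_lit 228) (nat_lit 9729175006) (nat_lit 76) (nat_lit 10143979641) (nat_lit 23) (nat_lit 5) (nat_lit 26) (nat_lit 5) (nat_lit 24) (nat_lit 5) (nat_lit 352) (nat_lit 246) (nat_lit 182)) (XT.nd (nat_lit 78) (nat_lit 0) (nat_lit 0) (XT.lf (nat_lit 0) (nat_lit 1193929786) (nat_lit 152) (nat_lit 7356603666) (nat_lit 228) (nat_lit 15266989170) (nat_lit 21) (nat_lit 5) (nat_lit 23) (nat_lit 5) (nat_lit 24) (nat_lit 5) (nat_lit 353) (nat_lit 246) (nat_lit 181)) (XT.lf (nat_lit 0) (nat_lit 12502295328) (nat_lit 152) (nat_lit 1398336997) (nat_lit 228) (nat_lit 10499822876) (nat_lit 21) (nat_lit 5) (nat_lit 23) (nat_lit 5) (nat_lit 24) (nat_lit 5) (nat_lit 354) (nat_lit 246) (nat_lit 180))))) (XT.nd (nat_lit 234) (nat_lit 228) (nat_lit 0) (XT.nd (nat_lit 78) (nat_lit 152) (nat_lit 0) (XT.lf (nat_lit 0) (nat_lit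 19399522821) (nat_lit 228) (nat_lit 955793884) (nat_lit 76) (nat_lit 4645808460) (nat_lit 21) (nat_lit 5) (nat_lit 24) (nat_lit 5) (nat_lit 22) (nat_lit 4) (nat_lit 355) (nat_lit 246) (nat_lit 179)) (XT.nd (nat_lit 78) (nat_lit 76) (nat_lit 0) (XT.lf (nat_lit 0) (nat_lit 10369584611) (nat_lit 76) (nat_lit 14729232180) (nat_lit 152) (nat_lit 520304441) (nat_lit 20) (nat_lit 5) (nat_lit 21) (nat_lit 5) (nat_lit 22) (nat_lit 4) (nat_lit 356) (nat_lit 246) (nat_lit 178)) (XT.lf (nat_lit 0) (nat_lit 4617353353) (nat_lit 152) (nat_lit 4309661284) (nat_lit 76) (nat_lit 17328729747) (nat_lit 19) (nat_lit 5) (nat_lit 21) (nat_lit 5) (nat_lit 20) (nat_lit 5) (nat_lit 357) (nat_lit 246) (nat_lit 177)))) (XT.nd (nat_lit 156) (nat_lit 76) (nat_lit 0) (XT.nd (nat_lit 78) (nat_lit 0) (nat_lit 0) (XT.lf (nat_lit 0) (nat_lit 6977219322) (nat_lit 152) (nat_lit 2930600305) (nat_lit 228) (nat_lit 17003476487) (nat_lit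 17) (nat_lit 5) (nat_lit 19) (nat_lit 5) (nat_lit 20) (nat_lit 5) (nat_lit 358) (nat_lit 246) (nat_lit 176)) (XT.lf (nat_lit 0) (nat_lit 15368398220) (nat_lit 228) (nat_lit 9014196501) (nat_lit 76) (nat_lit 3203704932) (nat_lit 17) (nat_lit 5) (nat_lit 20) (nat_lit 5) (nat_lit 18) (nat_lit 4) (nat_lit 359) (nat_lit 246) (nat_lit 175))) (XT.nd (nat_lit 78) (nat_lit 0) (nat_lit 0) (XT.lf (nat_lit 0) (nat_lit 2175518006) (nat_lit 76) (nat_lit 18813065332) (nat_lit 152) (nat_lit 7293067015) (nat_lit 16) (nat_lit 5) (nat_lit 17) (nat_lit 5) (nat_lit 18) (nat_lit 4) (nat_lit 360) (nat_lit 246) (nat_lit 174)) (XT.lf (nat_lit 0) (nat_lit 13758697482) (nat_lit 76) (nat_lit 13042504472) (nat_lit 152) (nat_lit 2196195525) (nat_lit 16) (nat_lit 5) (nat_lit 17) (nat_lit 5) (nat_lit 18) (nat_lit 4) (nat_lit 361) (nat_lit 246) (nat_lit 173)))))) (XT.nd (nat_lit 35100) (nat_lit 0) (nat_lit 16492) (XT.nd (nat_lit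 34866) (nat_lit 0) (nat_lit 20976) (XT.nd (nat_lit 34710) (nat_lit 0) (nat_lit 23560) (XT.lf (nat_lit 0) (nat_lit 2977112352) (nat_lit 152) (nat_lit 4129269562) (nat_lit 76) (nat_lit 22628578881) (nat_lit 15) (nat_lit 5) (nat_lit 17) (nat_lit 5) (nat_lit 16) (nat_lit 5) (nat_lit 362) (nat_lit 246) (nat_lit 172)) (XT.nd (nat_lit 78) (nat_lit 988) (nat_lit 0) (XT.lf (nat_lit 0) (nat_lit 113532940) (nat_lit 1748) (nat_lit 3388947752) (nat_lit 0) (nat_lit 113532940) (nat_lit 338) (nat_lit 5) (nat_lit 361) (nat_lit 4) (nat_lit 338) (nat_lit 4) (nat_lit 286) (nat_lit 247) (nat_lit 247)) (XT.lf (nat_lit 0) (nat_lit 342744363) (nat_lit 988) (nat_lit 4645741135) (nat_lit 988) (nat_lit 2307815242) (nat_lit 325) (nat_lit 4) (nat_lit 338) (nat_lit 5) (nat_lit 338) (nat_lit 4) (nat_lit 287) (nat_lit 247) (nat_lit 246)))) (XT.nd (nat_lit 78) (nat_lit 1672) (nat_lit 0) (XT.lf (nat_lit 0) (nat_lit 249381899)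 (nat_lit 836) (nat_lit 2155142236) (nat_lit 912) (nat_lit 4959679165) (nat_lit 313) (nat_lit 5) (nat_lit 324) (nat_lit 5) (nat_lit 325) (nat_lit 4) (nat_lit 288) (nat_lit 247) (nat_lit 245)) (XT.nd (nat_lit 78) (nat_lit 836) (nat_lit 0) (XT.lf (nat_lit 0) (nat_lit 168312504) (nat_lit 836) (nat_lit 6972667360) (nat_lit 836) (nat_lit 294749480) (nat_lit 302) (nat_lit 4) (nat_lit 313) (nat_lit 5) (nat_lit 313) (nat_lit 4) (nat_lit 289) (nat_lit 247) (nat_lit 244)) (XT.lf (nat_lit 0) (nat_lit 70328763) (nat_lit 760) (nat_lit 4308794201) (nat_lit 836) (nat_lit 3131294777) (nat_lit 291) (nat_lit 5) (nat_lit 301) (nat_lit 5) (nat_lit 302) (nat_lit 4) (nat_lit 290) (nat_lit 247) (nat_lit 243))))) (XT.nd (nat_lit 234) (nat_lit 2888) (nat_lit 0) (XT.nd (nat_lit 78) (nat_lit 1520) (nat_lit 0) (XT.lf (nat_lit 0) (nat_lit 1497194128) (nat_lit 836) (nat_lit 16402309) (nat_lit 76) (nat_lit 6075334489) (nat_lit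 290) (nat_lit 5) (nat_lit 301) (nat_lit 5) (nat_lit 291) (nat_lit 5) (nat_lit 291) (nat_lit 247) (nat_lit 242)) (XT.nd (nat_lit 78) (nat_lit 760) (nat_lit 0) (XT.lf (nat_lit 0) (nat_lit 6151230295) (nat_lit 836) (nat_lit 112905715) (nat_lit 76) (nat_lit 1406817466) (nat_lit 280) (nat_lit 5) (nat_lit 291) (nat_lit 5) (nat_lit 281) (nat_lit 4) (nat_lit 292) (nat_lit 247) (nat_lit 241)) (XT.lf (nat_lit 0) (nat_lit 3079692123) (nat_lit 760) (nat_lit 224875727) (nat_lit 76) (nat_lit 4451958526) (nat_lit 270) (nat_lit 5) (nat_lit 280) (nat_lit 5) (nat_lit 271) (nat_lit 5) (nat_lit 293) (nat_lit 247) (nat_lit 240)))) (XT.nd (nat_lit 156) (nat_lit 1368) (nat_lit 0) (XT.nd (nat_lit 78) (nat_lit 760) (nat_lit 0) (XT.lf (nat_lit 0) (nat_lit 7510125375) (nat_lit 760) (nat_lit 211185139) (nat_lit 836) (nat_lit 124798723) (nat_lit 260) (nat_lit 5) (nat_lit 270) (nat_lit 5) (nat_lit 271) (nat_lit 5) (nat_lit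 294) (nat_lit 247) (nat_lit 239)) (XT.lf (nat_lit 0) (nat_lit 4450721476) (nat_lit 760) (nat_lit 489004298) (nat_lit 76) (nat_lit 2999259854) (nat_lit 250) (nat_lit 5) (nat_lit 260) (nat_lit 5) (nat_lit 251) (nat_lit 5) (nat_lit 295) (nat_lit 247) (nat_lit 238))) (XT.nd (nat_lit 78) (nat_lit 608) (nat_lit 0) (XT.lf (nat_lit 0) (nat_lit 1043118458) (nat_lit 760) (nat_lit 649042933) (nat_lit 76) (nat_lit 6343837399) (nat_lit 240) (nat_lit 5) (nat_lit 250) (nat_lit 5) (nat_lit 241) (nat_lit 5) (nat_lit 296) (nat_lit 247) (nat_lit 237)) (XT.lf (nat_lit 0) (nat_lit 5606447547) (nat_lit 684) (nat_lit 845267679) (nat_lit 76) (nat_lit 1685002090) (nat_lit 232) (nat_lit 5) (nat_lit 241) (nat_lit 5) (nat_lit 233) (nat_lit 5) (nat_lit 297) (nat_lit 247) (nat_lit 236))))))))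
noncomputable def xc29 : XT := (XT.nd (nat_lit 2028) (nat_lit 4028) (nat_lit 0) (XT.nd (nat_lit 1014) (nat_lit 4028) (nat_lit 0) (XT.nd (nat_lit 468) (nat_lit 3648) (nat_lit 0) (XT.nd (nat_lit 234) (nat_lit 1748) (nat_lit 0) (XT.nd (nat_lit 78) (nat_lit 1292) (nat_lit 0) (XT.lf (nat_lit 0) (nat_lit 1984734900) (nat_lit 760) (nat_lit 1072938265) (nat_lit 76) (nat_lit 5183721714) (nat_lit 222) (nat_lit 5) (nat_lit 232) (nat_lit 5) (nat_lit 223) (nat_lit 5) (nat_lit 298) (nat_lit 247) (nat_lit 235)) (XT.nd (nat_lit 78) (nat_lit 684) (nat_lit 0) (XT.lf (nat_lit 0) (nat_lit 6540842292) (nat_lit 684) (nat_lit 1332317847) (nat_lit 76) (nat_lit 477032189) (nat_lit 214) (nat_lit 5) (nat_lit 223) (nat_lit 5) (nat_lit 215) (nat_lit 5) (nat_lit 299) (nat_lit 247) (nat_lit 234)) (XT.lf (nat_lit 0) (nat_lit 2694428280) (nat_lit 684) (nat_lit 1646823352) (nat_lit 76) (nat_lit 4121563392) (nat_lit 205) (nat_lit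 5) (nat_lit 214) (nat_lit 5) (nat_lit 206) (nat_lit 5) (nat_lit 300) (nat_lit 247) (nat_lit 233)))) (XT.nd (nat_lit 78) (nat_lit 1216) (nat_lit 0) (XT.lf (nat_lit 0) (nat_lit 6584170703) (nat_lit 532) (nat_lit 665728215) (nat_lit 608) (nat_lit 1329961008) (nat_lit 198) (nat_lit 5) (nat_lit 205) (nat_lit 5) (nat_lit 206) (nat_lit 5) (nat_lit 301) (nat_lit 247) (nat_lit 232)) (XT.nd (nat_lit 78) (nat_lit 532) (nat_lit 0) (XT.lf (nat_lit 0) (nat_lit 3162560733) (nat_lit 684) (nat_lit 2413419969) (nat_lit 76) (nat_lit 3124846226) (nat_lit 189) (nat_lit 5) (nat_lit 198) (nat_lit 5) (nat_lit 190) (nat_lit 5) (nat_lit 302) (nat_lit 247) (nat_lit 231)) (XT.lf (nat_lit 0) (nat_lit 5948236178) (nat_lit 532) (nat_lit 1773167912) (nat_lit 608) (nat_lit 1104948632) (nat_lit 182) (nat_lit 5) (nat_lit 189) (nat_lit 5) (nat_lit 190) (nat_lit 5) (nat_lit 303) (nat_lit 247) (nat_lit 230))))) (XT.nd (nat_lit 234)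 (nat_lit 1976) (nat_lit 0) (XT.nd (nat_lit 78) (nat_lit 1064) (nat_lit 0) (XT.lf (nat_lit 0) (nat_lit 3376976255) (nat_lit 608) (nat_lit 3418641519) (nat_lit 76) (nat_lit 2160450148) (nat_lit 174) (nat_lit 5) (nat_lit 182) (nat_lit 5) (nat_lit 175) (nat_lit 5) (nat_lit 304) (nat_lit 247) (nat_lit 229)) (XT.nd (nat_lit 78) (nat_lit 608) (nat_lit 0) (XT.lf (nat_lit 0) (nat_lit 5066104811) (nat_lit 456) (nat_lit 2872996069) (nat_lit 532) (nat_lit 1151303016) (nat_lit 168) (nat_lit 5) (nat_lit 174) (nat_lit 5) (nat_lit 175) (nat_lit 5) (nat_lit 305) (nat_lit 247) (nat_lit 228)) (XT.lf (nat_lit 0) (nat_lit 3322838092) (nat_lit 608) (nat_lit 4712061919) (nat_lit 76) (nat_lit 1194348691) (nat_lit 160) (nat_lit 5) (nat_lit 168) (nat_lit 5) (nat_lit 161) (nat_lit 5) (nat_lit 306) (nat_lit 247) (nat_lit 227)))) (XT.nd (nat_lit 156) (nat_lit 988) (nat_lit 0) (XT.nd (nat_lit 78) (nat_lit 532) (nat_lit 0)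 (XT.lf (nat_lit 0) (nat_lit 3886762338) (nat_lit 456) (nat_lit 4000359711) (nat_lit 532) (nat_lit 1485637001) (nat_lit 154) (nat_lit 5) (nat_lit 160) (nat_lit 5) (nat_lit 161) (nat_lit 5) (nat_lit 307) (nat_lit 247) (nat_lit 226)) (XT.lf (nat_lit 0) (nat_lit 2982441116) (nat_lit 532) (nat_lit 6347424189) (nat_lit 76) (nat_lit 191292314) (nat_lit 147) (nat_lit 5) (nat_lit 154) (nat_lit 5) (nat_lit 148) (nat_lit 5) (nat_lit 308) (nat_lit 247) (nat_lit 225))) (XT.nd (nat_lit 78) (nat_lit 532) (nat_lit 0) (XT.lf (nat_lit 0) (nat_lit 2354820018) (nat_lit 456) (nat_lit 5191832782) (nat_lit 532) (nat_lit 2127590703) (nat_lit 141) (nat_lit 5) (nat_lit 147) (nat_lit 5) (nat_lit 148) (nat_lit 5) (nat_lit 309) (nat_lit 247) (nat_lit 224)) (XT.lf (nat_lit 0) (nat_lit 1443529581) (nat_lit 456) (nat_lit 897293418) (nat_lit 532) (nat_lit 7491726023) (nat_lit 134) (nat_lit 5) (nat_lit 140) (nat_lit 5) (nat_lit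 141) (nat_lit 5) (nat_lit 310) (nat_lit 247) (nat_lit 223)))))) (XT.nd (nat_lit 468) (nat_lit 2052) (nat_lit 0) (XT.nd (nat_lit 234) (nat_lit 1140) (nat_lit 0) (XT.nd (nat_lit 78) (nat_lit 456) (nat_lit 0) (XT.lf (nat_lit 0) (nat_lit 409940472) (nat_lit 380) (nat_lit 6485763494) (nat_lit 456) (nat_lit 3100063462) (nat_lit 129) (nat_lit 5) (nat_lit 134) (nat_lit 5) (nat_lit 135) (nat_lit 5) (nat_lit 311) (nat_lit 247) (nat_lit 222)) (XT.nd (nat_lit 78) (nat_lit 380) (nat_lit 0) (XT.lf (nat_lit 0) (nat_lit 1374796213) (nat_lit 456) (nat_lit 722747691) (nat_lit 76) (nat_lit 8066819322) (nat_lit 128) (nat_lit 5) (nat_lit 134) (nat_lit 5) (nat_lit 129) (nat_lit 5) (nat_lit 312) (nat_lit 247) (nat_lit 221)) (XT.lf (nat_lit 0) (nat_lit 5921929726) (nat_lit 456) (nat_lit 1987377536) (nat_lit 76) (nat_lit 2428762873) (nat_lit 123) (nat_lit 5) (nat_lit 129) (nat_lit 5) (nat_lit 124) (nat_lit 5) (nat_lit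 313) (nat_lit 247) (nat_lit 220)))) (XT.nd (nat_lit 78) (nat_lit 684) (nat_lit 0) (XT.lf (nat_lit 0) (nat_lit 63604919) (nat_lit 456) (nat_lit 3376751093) (nat_lit 76) (nat_lit 7077158023) (nat_lit 117) (nat_lit 5) (nat_lit 123) (nat_lit 5) (nat_lit 118) (nat_lit 5) (nat_lit 314) (nat_lit 247) (nat_lit 219)) (XT.nd (nat_lit 78) (nat_lit 304) (nat_lit 0) (XT.lf (nat_lit 0) (nat_lit 4589352132) (nat_lit 456) (nat_lit 4923114237) (nat_lit 76) (nat_lit 1189919892) (nat_lit 112) (nat_lit 5) (nat_lit 118) (nat_lit 5) (nat_lit 113) (nat_lit 5) (nat_lit 315) (nat_lit 247) (nat_lit 218)) (XT.lf (nat_lit 0) (nat_lit 4270329582) (nat_lit 304) (nat_lit 4968105896) (nat_lit 380) (nat_lit 1654677098) (nat_lit 108) (nat_lit 5) (nat_lit 112) (nat_lit 5) (nat_lit 113) (nat_lit 5) (nat_lit 316) (nat_lit 247) (nat_lit 217))))) (XT.nd (nat_lit 234) (nat_lit 1216) (nat_lit 0) (XT.nd (nat_lit 78) (nat_lit 380) (nat_lit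 0) (XT.lf (nat_lit 0) (nat_lit 2607470909) (nat_lit 380) (nat_lit 256830282) (nat_lit 456) (nat_lit 8225626492) (nat_lit 102) (nat_lit 5) (nat_lit 107) (nat_lit 5) (nat_lit 108) (nat_lit 5) (nat_lit 317) (nat_lit 247) (nat_lit 216)) (XT.nd (nat_lit 78) (nat_lit 76) (nat_lit 0) (XT.lf (nat_lit 0) (nat_lit 757334533) (nat_lit 304) (nat_lit 6735395214) (nat_lit 380) (nat_lit 3799826224) (nat_lit 98) (nat_lit 5) (nat_lit 102) (nat_lit 5) (nat_lit 103) (nat_lit 5) (nat_lit 318) (nat_lit 247) (nat_lit 215)) (XT.lf (nat_lit 0) (nat_lit 725720986) (nat_lit 380) (nat_lit 1240765680) (nat_lit 76) (nat_lit 9535191506) (nat_lit 97) (nat_lit 5) (nat_lit 102) (nat_lit 5) (nat_lit 98) (nat_lit 5) (nat_lit 319) (nat_lit 247) (nat_lit 214)))) (XT.nd (nat_lit 156) (nat_lit 608) (nat_lit 0) (XT.nd (nat_lit 78) (nat_lit 304) (nat_lit 0) (XT.lf (nat_lit 0) (nat_lit 5328705316) (nat_lit 380) (nat_lit 3441066177) (nat_lit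 76) (nat_lit 2946984854) (nat_lit 93) (nat_lit 5) (nat_lit 98) (nat_lit 5) (nat_lit 94) (nat_lit 5) (nat_lit 320) (nat_lit 247) (nat_lit 213)) (XT.lf (nat_lit 0) (nat_lit 6103493451) (nat_lit 304) (nat_lit 3948590859) (nat_lit 380) (nat_lit 1886605536) (nat_lit 89) (nat_lit 5) (nat_lit 93) (nat_lit 5) (nat_lit 94) (nat_lit 5) (nat_lit 321) (nat_lit 247) (nat_lit 212))) (XT.nd (nat_lit 78) (nat_lit 228) (nat_lit 0) (XT.lf (nat_lit 0) (nat_lit 2690294454) (nat_lit 380) (nat_lit 8447797932) (nat_lit 76) (nat_lit 1029349072) (nat_lit 84) (nat_lit 5) (nat_lit 89) (nat_lit 5) (nat_lit 85) (nat_lit 5) (nat_lit 322) (nat_lit 247) (nat_lit 211)) (XT.lf (nat_lit 0) (nat_lit 1095447651) (nat_lit 228) (nat_lit 6280173644) (nat_lit 304) (nat_lit 5027295245) (nat_lit 81) (nat_lit 5) (nat_lit 84) (nat_lit 5) (nat_lit 85) (nat_lit 5) (nat_lit 323) (nat_lit 247) (nat_lit 210))))))) (XT.nd (nat_lit 1014) (nat_lit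 1520) (nat_lit 0) (XT.nd (nat_lit 468) (nat_lit 1292) (nat_lit 0) (XT.nd (nat_lit 234) (nat_lit 608) (nat_lit 0) (XT.nd (nat_lit 78) (nat_lit 608) (nat_lit 0) (XT.lf (nat_lit 0) (nat_lit 10924173965) (nat_lit 228) (nat_lit 1259341262) (nat_lit 304) (nat_lit 462344537) (nat_lit 81) (nat_lit 5) (nat_lit 84) (nat_lit 5) (nat_lit 85) (nat_lit 5) (nat_lit 324) (nat_lit 247) (nat_lit 209)) (XT.nd (nat_lit 78) (nat_lit 228) (nat_lit 0) (XT.lf (nat_lit 0) (nat_lit 4188746089) (nat_lit 380) (nat_lit 4805153463) (nat_lit 76) (nat_lit 3901587249) (nat_lit 76) (nat_lit 5) (nat_lit 81) (nat_lit 5) (nat_lit 77) (nat_lit 5) (nat_lit 325) (nat_lit 247) (nat_lit 208)) (XT.lf (nat_lit 0) (nat_lit 5008555427) (nat_lit 228) (nat_lit 3944834789) (nat_lit 304) (nat_lit 4199585960) (nat_lit 73) (nat_lit 5) (nat_lit 76) (nat_lit 5) (nat_lit 77) (nat_lit 5) (nat_lit 326) (nat_lit 247) (nat_lit 207)))) (XT.nd (nat_lit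 78) (nat_lit 228) (nat_lit 0) (XT.lf (nat_lit 0) (nat_lit 417254516) (nat_lit 380) (nat_lit 11755788040) (nat_lit 76) (nat_lit 1245523350) (nat_lit 68) (nat_lit 5) (nat_lit 73) (nat_lit 5) (nat_lit 69) (nat_lit 5) (nat_lit 327) (nat_lit 247) (nat_lit 206)) (XT.nd (nat_lit 78) (nat_lit 228) (nat_lit 0) (XT.lf (nat_lit 0) (nat_lit 5127363067) (nat_lit 380) (nat_lit 1982127665) (nat_lit 76) (nat_lit 6581878642) (nat_lit 68) (nat_lit 5) (nat_lit 73) (nat_lit 5) (nat_lit 69) (nat_lit 5) (nat_lit 328) (nat_lit 247) (nat_lit 205)) (XT.lf (nat_lit 0) (nat_lit 8082048942) (nat_lit 228) (nat_lit 1880809681) (nat_lit 304) (nat_lit 4009853157) (nat_lit 65) (nat_lit 5) (nat_lit 68) (nat_lit 5) (nat_lit 69) (nat_lit 5) (nat_lit 329) (nat_lit 247) (nat_lit 204))))) (XT.nd (nat_lit 234) (nat_lit 760) (nat_lit 0) (XT.nd (nat_lit 78) (nat_lit 228) (nat_lit 0) (XT.lf (nat_lit 0) (nat_lit 667711880) (nat_lit 304)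 (nat_lit 10130590975) (nat_lit 76) (nat_lit 3464223580) (nat_lit 61) (nat_lit 5) (nat_lit 65) (nat_lit 5) (nat_lit 62) (nat_lit 5) (nat_lit 330) (nat_lit 247) (nat_lit 203)) (XT.nd (nat_lit 78) (nat_lit 228) (nat_lit 0) (XT.lf (nat_lit 0) (nat_lit 5417644152) (nat_lit 304) (nat_lit 171262613) (nat_lit 76) (nat_lit 8971902035) (nat_lit 61) (nat_lit 5) (nat_lit 65) (nat_lit 5) (nat_lit 62) (nat_lit 5) (nat_lit 331) (nat_lit 247) (nat_lit 202)) (XT.lf (nat_lit 0) (nat_lit 10115422220) (nat_lit 228) (nat_lit 195715361) (nat_lit 304) (nat_lit 4556913547) (nat_lit 58) (nat_lit 5) (nat_lit 61) (nat_lit 5) (nat_lit 62) (nat_lit 5) (nat_lit 332) (nat_lit 247) (nat_lit 201)))) (XT.nd (nat_lit 156) (nat_lit 228) (nat_lit 0) (XT.nd (nat_lit 78) (nat_lit 228) (nat_lit 0) (XT.lf (nat_lit 0) (nat_lit 172533705) (nat_lit 304) (nat_lit 9723573627) (nat_lit 76) (nat_lit 5288256940) (nat_lit 54) (nat_lit 5) (nat_lit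 58) (nat_lit 5) (nat_lit 55) (nat_lit 5) (nat_lit 333) (nat_lit 247) (nat_lit 200)) (XT.lf (nat_lit 0) (nat_lit 406849913) (nat_lit 228) (nat_lit 4548925762) (nat_lit 304) (nat_lit 10554342547) (nat_lit 51) (nat_lit 5) (nat_lit 54) (nat_lit 5) (nat_lit 55) (nat_lit 5) (nat_lit 334) (nat_lit 247) (nat_lit 199))) (XT.nd (nat_lit 78) (nat_lit 228) (nat_lit 0) (XT.lf (nat_lit 0) (nat_lit 9893087277) (nat_lit 304) (nat_lit 4978682226) (nat_lit 76) (nat_lit 973693228) (nat_lit 51) (nat_lit 5) (nat_lit 55) (nat_lit 5) (nat_lit 52) (nat_lit 5) (nat_lit 335) (nat_lit 247) (nat_lit 198)) (XT.lf (nat_lit 0) (nat_lit 5390915307) (nat_lit 228) (nat_lit 9592851874) (nat_lit 304) (nat_lit 1207023950) (nat_lit 48) (nat_lit 5) (nat_lit 51) (nat_lit 5) (nat_lit 52) (nat_lit 5) (nat_lit 336) (nat_lit 247) (nat_lit 197)))))) (XT.nd (nat_lit 468) (nat_lit 836) (nat_lit 0) (XT.nd (nat_lit 234) (nat_lit 228) (nat_lit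 0) (XT.nd (nat_lit 78) (nat_lit 380) (nat_lit 0) (XT.lf (nat_lit 0) (nat_lit 3606904433) (nat_lit 304) (nat_lit 528395262) (nat_lit 76) (nat_lit 12411239113) (nat_lit 47) (nat_lit 5) (nat_lit 51) (nat_lit 5) (nat_lit 48) (nat_lit 5) (nat_lit 337) (nat_lit 247) (nat_lit 196)) (XT.nd (nat_lit 78) (nat_lit 228) (nat_lit 0) (XT.lf (nat_lit 0) (nat_lit 8566542901) (nat_lit 228) (nat_lit 6842560189) (nat_lit 76) (nat_lit 1503368807) (nat_lit 45) (nat_lit 5) (nat_lit 48) (nat_lit 5) (nat_lit 46) (nat_lit 5) (nat_lit 338) (nat_lit 247) (nat_lit 195)) (XT.lf (nat_lit 0) (nat_lit 3629280247) (nat_lit 228) (nat_lit 10043605148) (nat_lit 304) (nat_lit 3616564886) (nat_lit 42) (nat_lit 5) (nat_lit 45) (nat_lit 5) (nat_lit 46) (nat_lit 5) (nat_lit 339) (nat_lit 247) (nat_lit 194)))) (XT.nd (nat_lit 78) (nat_lit 152) (nat_lit 0) (XT.lf (nat_lit 0) (nat_lit 1228649527) (nat_lit 304) (nat_lit 3270290437) (nat_lit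 76) (nat_lit 13178851002) (nat_lit 41) (nat_lit 5) (nat_lit 45) (nat_lit 5) (nat_lit 42) (nat_lit 5) (nat_lit 340) (nat_lit 247) (nat_lit 193)) (XT.nd (nat_lit 78) (nat_lit 0) (nat_lit 0) (XT.lf (nat_lit 0) (nat_lit 6171995626) (nat_lit 228) (nat_lit 10672465668) (nat_lit 76) (nat_lit 1232827922) (nat_lit 39) (nat_lit 5) (nat_lit 42) (nat_lit 5) (nat_lit 40) (nat_lit 5) (nat_lit 341) (nat_lit 247) (nat_lit 192)) (XT.lf (nat_lit 0) (nat_lit 11262197700) (nat_lit 228) (nat_lit 164215062) (nat_lit 76) (nat_lit 7062411506) (nat_lit 39) (nat_lit 5) (nat_lit 42) (nat_lit 5) (nat_lit 40) (nat_lit 5) (nat_lit 342) (nat_lit 247) (nat_lit 191))))) (XT.nd (nat_lit 234) (nat_lit 380) (nat_lit 0) (XT.nd (nat_lit 78) (nat_lit 228) (nat_lit 0) (XT.lf (nat_lit 0) (nat_lit 10711801425) (nat_lit 228) (nat_lit 5810582539) (nat_lit 304) (nat_lit 2389998146) (nat_lit 36) (nat_lit 5) (nat_lit 39) (nat_lit 5) (nat_lit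 40) (nat_lit 5) (nat_lit 343) (nat_lit 247) (nat_lit 190)) (XT.nd (nat_lit 78) (nat_lit 0) (nat_lit 0) (XT.lf (nat_lit 0) (nat_lit 2496378081) (nat_lit 152) (nat_lit 27017723) (nat_lit 228) (nat_lit 16825622412) (nat_lit 33) (nat_lit 5) (nat_lit 35) (nat_lit 5) (nat_lit 36) (nat_lit 5) (nat_lit 344) (nat_lit 247) (nat_lit 189)) (XT.lf (nat_lit 0) (nat_lit 7595394640) (nat_lit 228) (nat_lit 6312639517) (nat_lit 76) (nat_lit 5889550422) (nat_lit 33) (nat_lit 5) (nat_lit 36) (nat_lit 5) (nat_lit 34) (nat_lit 5) (nat_lit 345) (nat_lit 247) (nat_lit 188)))) (XT.nd (nat_lit 156) (nat_lit 228) (nat_lit 0) (XT.nd (nat_lit 78) (nat_lit 0) (nat_lit 0) (XT.lf (nat_lit 0) (nat_lit 4518524094) (nat_lit 152) (nat_lit 8281080388) (nat_lit 228) (nat_lit 7460422438) (nat_lit 31) (nat_lit 5) (nat_lit 33) (nat_lit 5) (nat_lit 34) (nat_lit 5) (nat_lit 346) (nat_lit 247) (nat_lit 187)) (XT.lf (nat_lit 0) (nat_lit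 15678278127) (nat_lit 152) (nat_lit 2475875532) (nat_lit 228) (nat_lit 2582324034) (nat_lit 31) (nat_lit 5) (nat_lit 33) (nat_lit 5) (nat_lit 34) (nat_lit 5) (nat_lit 347) (nat_lit 247) (nat_lit 186))) (XT.nd (nat_lit 78) (nat_lit 0) (nat_lit 0) (XT.lf (nat_lit 0) (nat_lit 2423976576) (nat_lit 228) (nat_lit 15323510852) (nat_lit 76) (nat_lit 3479158174) (nat_lit 28) (nat_lit 5) (nat_lit 31) (nat_lit 5) (nat_lit 29) (nat_lit 5) (nat_lit 348) (nat_lit 247) (nat_lit 185)) (XT.lf (nat_lit 0) (nat_lit 7549813884) (nat_lit 228) (nat_lit 4582753559) (nat_lit 76) (nat_lit 9598539044) (nat_lit 28) (nat_lit 5) (nat_lit 31) (nat_lit 5) (nat_lit 29) (nat_lit 5) (nat_lit 349) (nat_lit 247) (nat_lit 184))))))))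
noncomputable def xc30 : XT := (XT.nd (nat_lit 36504) (nat_lit 0) (nat_lit 5472) (XT.nd (nat_lit 35490) (nat_lit 0) (nat_lit 17024) (XT.nd (nat_lit 468) (nat_lit 380) (nat_lit 0) (XT.nd (nat_lit 234) (nat_lit 152) (nat_lit 0) (XT.nd (nat_lit 78) (nat_lit 228) (nat_lit 0) (XT.lf (nat_lit 0) (nat_lit 6487236220) (nat_lit 152) (nat_lit 6338844605) (nat_lit 228) (nat_lit 9424704712) (nat_lit 26) (nat_lit 5) (nat_lit 28) (nat_lit 5) (nat_lit 29) (nat_lit 5) (nat_lit 350) (nat_lit 247) (nat_lit 183)) (XT.nd (nat_lit 78) (nat_lit 228) (nat_lit 0) (XT.lf (nat_lit 0) (nat_lit 17875250263) (nat_lit 152) (nat_lit 371800322) (nat_lit 228) (nat_lit 4539292997) (nat_lit 26) (nat_lit 5) (nat_lit 28) (nat_lit 5) (nat_lit 29) (nat_lit 5) (nat_lit 351) (nat_lit 247) (nat_lit 182)) (XT.lf (nat_lit 0) (nat_lit 520867794) (nat_lit 228) (nat_lit 17104739020) (nat_lit 76) (nat_lit 5711620716) (nat_lit 23) (nat_lit 5)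 (nat_lit 26) (nat_lit 5) (nat_lit 24) (nat_lit 5) (nat_lit 352) (nat_lit 247) (nat_lit 181)))) (XT.nd (nat_lit 78) (nat_lit 152) (nat_lit 0) (XT.lf (nat_lit 0) (nat_lit 5664446402) (nat_lit 228) (nat_lit 6234049127) (nat_lit 76) (nat_lit 12005692327) (nat_lit 23) (nat_lit 5) (nat_lit 26) (nat_lit 5) (nat_lit 24) (nat_lit 5) (nat_lit 353) (nat_lit 247) (nat_lit 180)) (XT.nd (nat_lit 78) (nat_lit 0) (nat_lit 0) (XT.lf (nat_lit 0) (nat_lit 4955309215) (nat_lit 152) (nat_lit 5997397026) (nat_lit 228) (nat_lit 13535658453) (nat_lit 21) (nat_lit 5) (nat_lit 23) (nat_lit 5) (nat_lit 24) (nat_lit 5) (nat_lit 354) (nat_lit 247) (nat_lit 179)) (XT.lf (nat_lit 0) (nat_lit 16401420942) (nat_lit 228) (nat_lit 8596251086) (nat_lit 76) (nat_lit 92373406) (nat_lit 21) (nat_lit 5) (nat_lit 24) (nat_lit 5) (nat_lit 22) (nat_lit 4) (nat_lit 355) (nat_lit 247) (nat_lit 178))))) (XT.nd (nat_lit 234) (nat_lit 228)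 (nat_lit 0) (XT.nd (nat_lit 78) (nat_lit 76) (nat_lit 0) (XT.lf (nat_lit 0) (nat_lit 2592742687) (nat_lit 76) (nat_lit 19437755882) (nat_lit 152) (nat_lit 3678954307) (nat_lit 20) (nat_lit 5) (nat_lit 21) (nat_lit 5) (nat_lit 22) (nat_lit 4) (nat_lit 356) (nat_lit 247) (nat_lit 177)) (XT.nd (nat_lit 78) (nat_lit 0) (nat_lit 0) (XT.lf (nat_lit 0) (nat_lit 1480625617) (nat_lit 152) (nat_lit 12190424817) (nat_lit 76) (nat_lit 12675832548) (nat_lit 19) (nat_lit 5) (nat_lit 21) (nat_lit 5) (nat_lit 20) (nat_lit 5) (nat_lit 357) (nat_lit 247) (nat_lit 176)) (XT.lf (nat_lit 0) (nat_lit 6706855107) (nat_lit 152) (nat_lit 1028156564) (nat_lit 76) (nat_lit 19268714290) (nat_lit 19) (nat_lit 5) (nat_lit 21) (nat_lit 5) (nat_lit 20) (nat_lit 5) (nat_lit 358) (nat_lit 247) (nat_lit 175)))) (XT.nd (nat_lit 156) (nat_lit 76) (nat_lit 0) (XT.nd (nat_lit 78) (nat_lit 0) (nat_lit 0) (XT.lf (nat_lit 0) (nat_lit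 10541994372) (nat_lit 152) (nat_lit 1579002167) (nat_lit 228) (nat_lit 15558668028) (nat_lit 17) (nat_lit 5) (nat_lit 19) (nat_lit 5) (nat_lit 20) (nat_lit 5) (nat_lit 359) (nat_lit 247) (nat_lit 174)) (XT.lf (nat_lit 0) (nat_lit 17698662415) (nat_lit 228) (nat_lit 5998134428) (nat_lit 76) (nat_lit 4679074949) (nat_lit 17) (nat_lit 5) (nat_lit 20) (nat_lit 5) (nat_lit 18) (nat_lit 4) (nat_lit 360) (nat_lit 247) (nat_lit 173))) (XT.nd (nat_lit 78) (nat_lit 0) (nat_lit 0) (XT.lf (nat_lit 0) (nat_lit 5473952151) (nat_lit 76) (nat_lit 17980049736) (nat_lit 152) (nat_lit 5638768576) (nat_lit 16) (nat_lit 5) (nat_lit 17) (nat_lit 5) (nat_lit 18) (nat_lit 4) (nat_lit 361) (nat_lit 247) (nat_lit 172)) (XT.lf (nat_lit 0) (nat_lit 17310457052) (nat_lit 76) (nat_lit 12077073241) (nat_lit 152) (nat_lit 443546974) (nat_lit 16) (nat_lit 5) (nat_lit 17) (nat_lit 5) (nat_lit 18) (nat_lit 4) (nat_lit 362) (nat_lit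 247) (nat_lit 171)))))) (XT.nd (nat_lit 468) (nat_lit 5472) (nat_lit 0) (XT.nd (nat_lit 234) (nat_lit 1976) (nat_lit 0) (XT.nd (nat_lit 78) (nat_lit 3344) (nat_lit 0) (XT.lf (nat_lit 0) (nat_lit 192470991) (nat_lit 1596) (nat_lit 3170998201) (nat_lit 0) (nat_lit 192470991) (nat_lit 382) (nat_lit 5) (nat_lit 403) (nat_lit 4) (nat_lit 382) (nat_lit 4) (nat_lit 284) (nat_lit 248) (nat_lit 248)) (XT.nd (nat_lit 78) (nat_lit 1748) (nat_lit 0) (XT.lf (nat_lit 0) (nat_lit 558914023) (nat_lit 1596) (nat_lit 4534054315) (nat_lit 1596) (nat_lit 2077829372) (nat_lit 361) (nat_lit 4) (nat_lit 382) (nat_lit 5) (nat_lit 382) (nat_lit 4) (nat_lit 285) (nat_lit 248) (nat_lit 247)) (XT.lf (nat_lit 0) (nat_lit 369232571) (nat_lit 1672) (nat_lit 2210045608) (nat_lit 1748) (nat_lit 4653958602) (nat_lit 338) (nat_lit 5) (nat_lit 360) (nat_lit 5) (nat_lit 361) (nat_lit 4) (nat_lit 286) (nat_lit 248) (nat_lit 246))))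 (XT.nd (nat_lit 78) (nat_lit 988) (nat_lit 0) (XT.lf (nat_lit 0) (nat_lit 199435683) (nat_lit 988) (nat_lit 7057826800) (nat_lit 988) (nat_lit 42006275) (nat_lit 325) (nat_lit 4) (nat_lit 338) (nat_lit 5) (nat_lit 338) (nat_lit 4) (nat_lit 287) (nat_lit 248) (nat_lit 245)) (XT.nd (nat_lit 78) (nat_lit 76) (nat_lit 0) (XT.lf (nat_lit 0) (nat_lit 15813782) (nat_lit 836) (nat_lit 4556143489) (nat_lit 912) (nat_lit 2796378482) (nat_lit 313) (nat_lit 5) (nat_lit 324) (nat_lit 5) (nat_lit 325) (nat_lit 4) (nat_lit 288) (nat_lit 248) (nat_lit 244)) (XT.lf (nat_lit 0) (nat_lit 1773737577) (nat_lit 912) (nat_lit 150010341) (nat_lit 76) (nat_lit 5517358740) (nat_lit 312) (nat_lit 5) (nat_lit 324) (nat_lit 5) (nat_lit 313) (nat_lit 5) (nat_lit 289) (nat_lit 248) (nat_lit 243))))) (XT.nd (nat_lit 234) (nat_lit 2964) (nat_lit 0) (XT.nd (nat_lit 78) (nat_lit 1672) (nat_lit 0) (XT.lf (nat_lit 0) (nat_lit 6365116768)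 (nat_lit 912) (nat_lit 315297618) (nat_lit 76) (nat_lit 836993931) (nat_lit 301) (nat_lit 5) (nat_lit 313) (nat_lit 5) (nat_lit 302) (nat_lit 4) (nat_lit 290) (nat_lit 248) (nat_lit 242)) (XT.nd (nat_lit 78) (nat_lit 836) (nat_lit 0) (XT.lf (nat_lit 0) (nat_lit 3384412230) (nat_lit 836) (nat_lit 495453314) (nat_lit 76) (nat_lit 3717190763) (nat_lit 290) (nat_lit 5) (nat_lit 301) (nat_lit 5) (nat_lit 291) (nat_lit 5) (nat_lit 291) (nat_lit 248) (nat_lit 241)) (XT.lf (nat_lit 0) (nat_lit 279353759) (nat_lit 836) (nat_lit 668655261) (nat_lit 76) (nat_lit 6732600781) (nat_lit 279) (nat_lit 5) (nat_lit 290) (nat_lit 5) (nat_lit 280) (nat_lit 5) (nat_lit 292) (nat_lit 248) (nat_lit 240)))) (XT.nd (nat_lit 156) (nat_lit 1444) (nat_lit 0) (XT.nd (nat_lit 78) (nat_lit 836) (nat_lit 0) (XT.lf (nat_lit 0) (nat_lit 4787533657) (nat_lit 760) (nat_lit 870709434) (nat_lit 76) (nat_lit 2109237825) (nat_lit 270)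 (nat_lit 5) (nat_lit 280) (nat_lit 5) (nat_lit 271) (nat_lit 5) (nat_lit 293) (nat_lit 248) (nat_lit 239)) (XT.lf (nat_lit 0) (nat_lit 1486607708) (nat_lit 836) (nat_lit 1080647403) (nat_lit 76) (nat_lit 5290967901) (nat_lit 259) (nat_lit 5) (nat_lit 270) (nat_lit 5) (nat_lit 260) (nat_lit 5) (nat_lit 294) (nat_lit 248) (nat_lit 238))) (XT.nd (nat_lit 78) (nat_lit 760) (nat_lit 0) (XT.lf (nat_lit 0) (nat_lit 5980944706) (nat_lit 760) (nat_lit 1310358454) (nat_lit 76) (nat_lit 661435170) (nat_lit 250) (nat_lit 5) (nat_lit 260) (nat_lit 5) (nat_lit 251) (nat_lit 5) (nat_lit 295) (nat_lit 248) (nat_lit 237)) (XT.lf (nat_lit 0) (nat_lit 2475783536) (nat_lit 760) (nat_lit 1573802527) (nat_lit 76) (nat_lit 4001307953) (nat_lit 240) (nat_lit 5) (nat_lit 250) (nat_lit 5) (nat_lit 241) (nat_lit 5) (nat_lit 296) (nat_lit 248) (nat_lit 236))))))) (XT.nd (nat_lit 1014) (nat_lit 4028) (nat_lit 0) (XT.nd (nat_lit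 468) (nat_lit 3648) (nat_lit 0) (XT.nd (nat_lit 234) (nat_lit 1900) (nat_lit 0) (XT.nd (nat_lit 78) (nat_lit 1368) (nat_lit 0) (XT.lf (nat_lit 0) (nat_lit 6298005080) (nat_lit 608) (nat_lit 666724475) (nat_lit 684) (nat_lit 1188429979) (nat_lit 232) (nat_lit 5) (nat_lit 240) (nat_lit 5) (nat_lit 241) (nat_lit 5) (nat_lit 297) (nat_lit 248) (nat_lit 235)) (XT.nd (nat_lit 78) (nat_lit 608) (nat_lit 0) (XT.lf (nat_lit 0) (nat_lit 3241478371) (nat_lit 760) (nat_lit 2185688705) (nat_lit 76) (nat_lit 2831902210) (nat_lit 222) (nat_lit 5) (nat_lit 232) (nat_lit 5) (nat_lit 223) (nat_lit 5) (nat_lit 298) (nat_lit 248) (nat_lit 234)) (XT.lf (nat_lit 0) (nat_lit 5826120697) (nat_lit 608) (nat_lit 1905732294) (nat_lit 684) (nat_lit 637383227) (nat_lit 214) (nat_lit 5) (nat_lit 222) (nat_lit 5) (nat_lit 223) (nat_lit 5) (nat_lit 299) (nat_lit 248) (nat_lit 233)))) (XT.nd (nat_lit 78) (nat_lit 1216) (nat_lit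 0) (XT.lf (nat_lit 0) (nat_lit 3776043577) (nat_lit 684) (nat_lit 2956262676) (nat_lit 76) (nat_lit 1750952285) (nat_lit 205) (nat_lit 5) (nat_lit 214) (nat_lit 5) (nat_lit 206) (nat_lit 5) (nat_lit 300) (nat_lit 248) (nat_lit 232)) (XT.nd (nat_lit 78) (nat_lit 684) (nat_lit 0) (XT.lf (nat_lit 0) (nat_lit 5190271082) (nat_lit 532) (nat_lit 3079193836) (nat_lit 608) (nat_lit 332130176) (nat_lit 198) (nat_lit 5) (nat_lit 205) (nat_lit 5) (nat_lit 206) (nat_lit 5) (nat_lit 301) (nat_lit 248) (nat_lit 231)) (XT.lf (nat_lit 0) (nat_lit 4069465382) (nat_lit 684) (nat_lit 3928270927) (nat_lit 76) (nat_lit 726301232) (nat_lit 189) (nat_lit 5) (nat_lit 198) (nat_lit 5) (nat_lit 190) (nat_lit 5) (nat_lit 302) (nat_lit 248) (nat_lit 230))))) (XT.nd (nat_lit 234) (nat_lit 2052) (nat_lit 0) (XT.nd (nat_lit 78) (nat_lit 1064) (nat_lit 0) (XT.lf (nat_lit 0) (nat_lit 4346617952) (nat_lit 532) (nat_lit 4220035159)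 (nat_lit 608) (nat_lit 284190160) (nat_lit 182) (nat_lit 5) (nat_lit 189) (nat_lit 5) (nat_lit 190) (nat_lit 5) (nat_lit 303) (nat_lit 248) (nat_lit 229)) (XT.nd (nat_lit 78) (nat_lit 456) (nat_lit 0) (XT.lf (nat_lit 0) (nat_lit 3832524897) (nat_lit 532) (nat_lit 278507274) (nat_lit 608) (nat_lit 4870983052) (nat_lit 174) (nat_lit 5) (nat_lit 181) (nat_lit 5) (nat_lit 182) (nat_lit 5) (nat_lit 304) (nat_lit 248) (nat_lit 228)) (XT.lf (nat_lit 0) (nat_lit 3247931438) (nat_lit 456) (nat_lit 5362009602) (nat_lit 532) (nat_lit 507717742) (nat_lit 168) (nat_lit 5) (nat_lit 174) (nat_lit 5) (nat_lit 175) (nat_lit 5) (nat_lit 305) (nat_lit 248) (nat_lit 227)))) (XT.nd (nat_lit 156) (nat_lit 988) (nat_lit 0) (XT.nd (nat_lit 78) (nat_lit 456) (nat_lit 0) (XT.lf (nat_lit 0) (nat_lit 2585232112) (nat_lit 532) (nat_lit 1303359258) (nat_lit 608) (nat_lit 5369257657) (nat_lit 160) (nat_lit 5) (nat_lit 167)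 (nat_lit 5) (nat_lit 168) (nat_lit 5) (nat_lit 306) (nat_lit 248) (nat_lit 226)) (XT.lf (nat_lit 0) (nat_lit 1843105389) (nat_lit 456) (nat_lit 6540007991) (nat_lit 532) (nat_lit 1019681220) (nat_lit 154) (nat_lit 5) (nat_lit 160) (nat_lit 5) (nat_lit 161) (nat_lit 5) (nat_lit 307) (nat_lit 248) (nat_lit 225))) (XT.nd (nat_lit 78) (nat_lit 456) (nat_lit 0) (XT.lf (nat_lit 0) (nat_lit 1005466722) (nat_lit 456) (nat_lit 2374078954) (nat_lit 532) (nat_lit 6172879850) (nat_lit 147) (nat_lit 5) (nat_lit 153) (nat_lit 5) (nat_lit 154) (nat_lit 5) (nat_lit 308) (nat_lit 248) (nat_lit 224)) (XT.lf (nat_lit 0) (nat_lit 76630860) (nat_lit 456) (nat_lit 7790384891) (nat_lit 532) (nat_lit 1840067442) (nat_lit 141) (nat_lit 5) (nat_lit 147) (nat_lit 5) (nat_lit 148) (nat_lit 5) (nat_lit 309) (nat_lit 248) (nat_lit 223)))))) (XT.nd (nat_lit 468) (nat_lit 1824) (nat_lit 0) (XT.nd (nat_lit 234) (nat_lit 1216)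 (nat_lit 0) (XT.nd (nat_lit 78) (nat_lit 912) (nat_lit 0) (XT.lf (nat_lit 0) (nat_lit 2569275078) (nat_lit 532) (nat_lit 952092113) (nat_lit 76) (nat_lit 6345125363) (nat_lit 140) (nat_lit 5) (nat_lit 147) (nat_lit 5) (nat_lit 141) (nat_lit 5) (nat_lit 310) (nat_lit 248) (nat_lit 222)) (XT.nd (nat_lit 78) (nat_lit 456) (nat_lit 0) (XT.lf (nat_lit 0) (nat_lit 7053038972) (nat_lit 532) (nat_lit 2084278272) (nat_lit 76) (nat_lit 893850204) (nat_lit 134) (nat_lit 5) (nat_lit 141) (nat_lit 5) (nat_lit 135) (nat_lit 5) (nat_lit 311) (nat_lit 248) (nat_lit 221)) (XT.lf (nat_lit 0) (nat_lit 1436798248) (nat_lit 456) (nat_lit 3344211064) (nat_lit 76) (nat_lit 5419937280) (nat_lit 128) (nat_lit 5) (nat_lit 134) (nat_lit 5) (nat_lit 129) (nat_lit 5) (nat_lit 312) (nat_lit 248) (nat_lit 220)))) (XT.nd (nat_lit 78) (nat_lit 836) (nat_lit 0) (XT.lf (nat_lit 0) (nat_lit 5648543978) (nat_lit 380) (nat_lit 258525543)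 (nat_lit 456) (nat_lit 4469152781) (nat_lit 123) (nat_lit 5) (nat_lit 128) (nat_lit 5) (nat_lit 129) (nat_lit 5) (nat_lit 313) (nat_lit 248) (nat_lit 219)) (XT.nd (nat_lit 78) (nat_lit 456) (nat_lit 0) (XT.lf (nat_lit 0) (nat_lit 4304263823) (nat_lit 380) (nat_lit 6200268094) (nat_lit 456) (nat_lit 52424900) (nat_lit 118) (nat_lit 5) (nat_lit 123) (nat_lit 5) (nat_lit 124) (nat_lit 5) (nat_lit 314) (nat_lit 248) (nat_lit 218)) (XT.lf (nat_lit 0) (nat_lit 2811941504) (nat_lit 380) (nat_lit 1592981502) (nat_lit 456) (nat_lit 6338323743) (nat_lit 112) (nat_lit 5) (nat_lit 117) (nat_lit 5) (nat_lit 118) (nat_lit 5) (nat_lit 315) (nat_lit 248) (nat_lit 217))))) (XT.nd (nat_lit 234) (nat_lit 1064) (nat_lit 0) (XT.nd (nat_lit 78) (nat_lit 456) (nat_lit 0) (XT.lf (nat_lit 0) (nat_lit 1171401053) (nat_lit 304) (nat_lit 7810914728) (nat_lit 380) (nat_lit 1953119407) (nat_lit 108) (nat_lit 5) (nat_lit 112)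 (nat_lit 5) (nat_lit 113) (nat_lit 5) (nat_lit 316) (nat_lit 248) (nat_lit 216)) (XT.nd (nat_lit 78) (nat_lit 380) (nat_lit 0) (XT.lf (nat_lit 0) (nat_lit 2512136006) (nat_lit 380) (nat_lit 626064613) (nat_lit 76) (nat_lit 7995268119) (nat_lit 107) (nat_lit 5) (nat_lit 112) (nat_lit 5) (nat_lit 108) (nat_lit 5) (nat_lit 317) (nat_lit 248) (nat_lit 215)) (XT.lf (nat_lit 0) (nat_lit 7072763938) (nat_lit 456) (nat_lit 2579092777) (nat_lit 76) (nat_lit 1685622487) (nat_lit 102) (nat_lit 5) (nat_lit 108) (nat_lit 5) (nat_lit 103) (nat_lit 5) (nat_lit 318) (nat_lit 248) (nat_lit 214)))) (XT.nd (nat_lit 156) (nat_lit 380) (nat_lit 0) (XT.nd (nat_lit 78) (nat_lit 304) (nat_lit 0) (XT.lf (nat_lit 0) (nat_lit 210318641) (nat_lit 380) (nat_lit 4712931233) (nat_lit 76) (nat_lit 6624569006) (nat_lit 97) (nat_lit 5) (nat_lit 102) (nat_lit 5) (nat_lit 98) (nat_lit 5) (nat_lit 319) (nat_lit 248) (nat_lit 213))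 (XT.lf (nat_lit 0) (nat_lit 4718788159) (nat_lit 304) (nat_lit 13525635) (nat_lit 380) (nat_lit 7032227223) (nat_lit 93) (nat_lit 5) (nat_lit 97) (nat_lit 5) (nat_lit 98) (nat_lit 5) (nat_lit 320) (nat_lit 248) (nat_lit 212))) (XT.nd (nat_lit 78) (nat_lit 76) (nat_lit 0) (XT.lf (nat_lit 0) (nat_lit 2392908202) (nat_lit 304) (nat_lit 7000852515) (nat_lit 380) (nat_lit 2593975915) (nat_lit 89) (nat_lit 5) (nat_lit 93) (nat_lit 5) (nat_lit 94) (nat_lit 5) (nat_lit 321) (nat_lit 248) (nat_lit 211)) (XT.lf (nat_lit 0) (nat_lit 1923947228) (nat_lit 380) (nat_lit 134271988) (nat_lit 76) (nat_lit 10159748309) (nat_lit 88) (nat_lit 5) (nat_lit 93) (nat_lit 5) (nat_lit 89) (nat_lit 5) (nat_lit 322) (nat_lit 248) (nat_lit 210))))))))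
noncomputable def xc31 : XT := (XT.nd (nat_lit 2028) (nat_lit 1140) (nat_lit 0) (XT.nd (nat_lit 1014) (nat_lit 1520) (nat_lit 0) (XT.nd (nat_lit 468) (nat_lit 1292) (nat_lit 0) (XT.nd (nat_lit 234) (nat_lit 608) (nat_lit 0) (XT.nd (nat_lit 78) (nat_lit 608) (nat_lit 0) (XT.lf (nat_lit 0) (nat_lit 6551218719) (nat_lit 380) (nat_lit 2868406702) (nat_lit 76) (nat_lit 3034999985) (nat_lit 84) (nat_lit 5) (nat_lit 89) (nat_lit 5) (nat_lit 85) (nat_lit 5) (nat_lit 323) (nat_lit 248) (nat_lit 209)) (XT.nd (nat_lit 78) (nat_lit 380) (nat_lit 0) (XT.lf (nat_lit 0) (nat_lit 6866505590) (nat_lit 228) (nat_lit 4437752578) (nat_lit 304) (nat_lit 1394428612) (nat_lit 81) (nat_lit 5) (nat_lit 84) (nat_lit 5) (nat_lit 85) (nat_lit 5) (nat_lit 324) (nat_lit 248) (nat_lit 208)) (XT.lf (nat_lit 0) (nat_lit 3185354315) (nat_lit 380) (nat_lit 9052663666) (nat_lit 76) (nat_lit 712107560) (nat_lit 76) (nat_lit 5) (nat_lit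 81) (nat_lit 5) (nat_lit 77) (nat_lit 5) (nat_lit 325) (nat_lit 248) (nat_lit 207)))) (XT.nd (nat_lit 78) (nat_lit 380) (nat_lit 0) (XT.lf (nat_lit 0) (nat_lit 649616987) (nat_lit 228) (nat_lit 7237445411) (nat_lit 304) (nat_lit 5321830702) (nat_lit 73) (nat_lit 5) (nat_lit 76) (nat_lit 5) (nat_lit 77) (nat_lit 5) (nat_lit 326) (nat_lit 248) (nat_lit 206)) (XT.nd (nat_lit 78) (nat_lit 380) (nat_lit 0) (XT.lf (nat_lit 0) (nat_lit 10658519618) (nat_lit 228) (nat_lit 2063681202) (nat_lit 304) (nat_lit 753413643) (nat_lit 73) (nat_lit 5) (nat_lit 76) (nat_lit 5) (nat_lit 77) (nat_lit 5) (nat_lit 327) (nat_lit 248) (nat_lit 205)) (XT.lf (nat_lit 0) (nat_lit 3900831228) (nat_lit 380) (nat_lit 6591986542) (nat_lit 76) (nat_lit 3257030876) (nat_lit 68) (nat_lit 5) (nat_lit 73) (nat_lit 5) (nat_lit 69) (nat_lit 5) (nat_lit 328) (nat_lit 248) (nat_lit 204))))) (XT.nd (nat_lit 234) (nat_lit 760) (nat_lit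 0) (XT.nd (nat_lit 78) (nat_lit 304) (nat_lit 0) (XT.lf (nat_lit 0) (nat_lit 3358253712) (nat_lit 228) (nat_lit 5314694525) (nat_lit 304) (nat_lit 5359527847) (nat_lit 65) (nat_lit 5) (nat_lit 68) (nat_lit 5) (nat_lit 69) (nat_lit 5) (nat_lit 329) (nat_lit 248) (nat_lit 203)) (XT.nd (nat_lit 78) (nat_lit 304) (nat_lit 0) (XT.lf (nat_lit 0) (nat_lit 13567926327) (nat_lit 304) (nat_lit 730772740) (nat_lit 76) (nat_lit 25323743) (nat_lit 65) (nat_lit 5) (nat_lit 69) (nat_lit 5) (nat_lit 66) (nat_lit 5) (nat_lit 330) (nat_lit 248) (nat_lit 202)) (XT.lf (nat_lit 0) (nat_lit 3967083588) (nat_lit 304) (nat_lit 5151609361) (nat_lit 76) (nat_lit 5504459915) (nat_lit 61) (nat_lit 5) (nat_lit 65) (nat_lit 5) (nat_lit 62) (nat_lit 5) (nat_lit 331) (nat_lit 248) (nat_lit 201)))) (XT.nd (nat_lit 156) (nat_lit 304) (nat_lit 0) (XT.nd (nat_lit 78) (nat_lit 228) (nat_lit 0) (XT.lf (nat_lit 0) (nat_lit 5018445816)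 (nat_lit 228) (nat_lit 3778136322) (nat_lit 304) (nat_lit 6135108618) (nat_lit 58) (nat_lit 5) (nat_lit 61) (nat_lit 5) (nat_lit 62) (nat_lit 5) (nat_lit 332) (nat_lit 248) (nat_lit 200)) (XT.lf (nat_lit 0) (nat_lit 206186868) (nat_lit 228) (nat_lit 13550646947) (nat_lit 304) (nat_lit 1492964484) (nat_lit 55) (nat_lit 5) (nat_lit 58) (nat_lit 5) (nat_lit 59) (nat_lit 5) (nat_lit 333) (nat_lit 248) (nat_lit 199))) (XT.nd (nat_lit 78) (nat_lit 228) (nat_lit 0) (XT.lf (nat_lit 0) (nat_lit 3277133710) (nat_lit 304) (nat_lit 4957916808) (nat_lit 76) (nat_lit 7341364559) (nat_lit 54) (nat_lit 5) (nat_lit 58) (nat_lit 5) (nat_lit 55) (nat_lit 5) (nat_lit 334) (nat_lit 248) (nat_lit 198)) (XT.lf (nat_lit 0) (nat_lit 5394369715) (nat_lit 228) (nat_lit 2751531779) (nat_lit 304) (nat_lit 7767243025) (nat_lit 51) (nat_lit 5) (nat_lit 54) (nat_lit 5) (nat_lit 55) (nat_lit 5) (nat_lit 335) (nat_lit 248) (nat_lit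 197)))))) (XT.nd (nat_lit 468) (nat_lit 608) (nat_lit 0) (XT.nd (nat_lit 234) (nat_lit 456) (nat_lit 0) (XT.nd (nat_lit 78) (nat_lit 456) (nat_lit 0) (XT.lf (nat_lit 0) (nat_lit 13154936655) (nat_lit 304) (nat_lit 249367314) (nat_lit 76) (nat_lit 2855815492) (nat_lit 51) (nat_lit 5) (nat_lit 55) (nat_lit 5) (nat_lit 52) (nat_lit 5) (nat_lit 336) (nat_lit 248) (nat_lit 196)) (XT.nd (nat_lit 78) (nat_lit 152) (nat_lit 0) (XT.lf (nat_lit 0) (nat_lit 1703545900) (nat_lit 304) (nat_lit 6275992755) (nat_lit 76) (nat_lit 8637189843) (nat_lit 47) (nat_lit 5) (nat_lit 51) (nat_lit 5) (nat_lit 48) (nat_lit 5) (nat_lit 337) (nat_lit 248) (nat_lit 195)) (XT.lf (nat_lit 0) (nat_lit 4209807436) (nat_lit 152) (nat_lit 2377758665) (nat_lit 228) (nat_lit 10396620462) (nat_lit 45) (nat_lit 5) (nat_lit 47) (nat_lit 5) (nat_lit 48) (nat_lit 5) (nat_lit 338) (nat_lit 248) (nat_lit 194)))) (XT.nd (nat_lit 78) (nat_lit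 456) (nat_lit 0) (XT.lf (nat_lit 0) (nat_lit 11627690077) (nat_lit 228) (nat_lit 2380004929) (nat_lit 76) (nat_lit 3354806556) (nat_lit 45) (nat_lit 5) (nat_lit 48) (nat_lit 5) (nat_lit 46) (nat_lit 5) (nat_lit 339) (nat_lit 248) (nat_lit 193)) (XT.nd (nat_lit 78) (nat_lit 228) (nat_lit 0) (XT.lf (nat_lit 0) (nat_lit 8330260691) (nat_lit 228) (nat_lit 8505102830) (nat_lit 304) (nat_lit 916499705) (nat_lit 42) (nat_lit 5) (nat_lit 45) (nat_lit 5) (nat_lit 46) (nat_lit 5) (nat_lit 340) (nat_lit 248) (nat_lit 192)) (XT.lf (nat_lit 0) (nat_lit 1141855668) (nat_lit 152) (nat_lit 2822064436) (nat_lit 228) (nat_lit 14189070622) (nat_lit 39) (nat_lit 5) (nat_lit 41) (nat_lit 5) (nat_lit 42) (nat_lit 5) (nat_lit 341) (nat_lit 248) (nat_lit 191))))) (XT.nd (nat_lit 234) (nat_lit 304) (nat_lit 0) (XT.nd (nat_lit 78) (nat_lit 304) (nat_lit 0) (XT.lf (nat_lit 0) (nat_lit 9010050701) (nat_lit 228) (nat_lit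 6527896142) (nat_lit 76) (nat_lit 3027471352) (nat_lit 39) (nat_lit 5) (nat_lit 42) (nat_lit 5) (nat_lit 40) (nat_lit 5) (nat_lit 342) (nat_lit 248) (nat_lit 190)) (XT.nd (nat_lit 78) (nat_lit 76) (nat_lit 0) (XT.lf (nat_lit 0) (nat_lit 4220919020) (nat_lit 228) (nat_lit 9982176031) (nat_lit 304) (nat_lit 4787234489) (nat_lit 36) (nat_lit 5) (nat_lit 39) (nat_lit 5) (nat_lit 40) (nat_lit 5) (nat_lit 343) (nat_lit 248) (nat_lit 189)) (XT.lf (nat_lit 0) (nat_lit 116679364) (nat_lit 304) (nat_lit 4131355978) (nat_lit 76) (nat_lit 15180070150) (nat_lit 35) (nat_lit 5) (nat_lit 39) (nat_lit 5) (nat_lit 36) (nat_lit 5) (nat_lit 344) (nat_lit 248) (nat_lit 188)))) (XT.nd (nat_lit 156) (nat_lit 152) (nat_lit 0) (XT.nd (nat_lit 78) (nat_lit 0) (nat_lit 0) (XT.lf (nat_lit 0) (nat_lit 5109544652) (nat_lit 228) (nat_lit 13088759596) (nat_lit 76) (nat_lit 1679960134) (nat_lit 33) (nat_lit 5) (nat_lit 36) (nat_lit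 5) (nat_lit 34) (nat_lit 5) (nat_lit 345) (nat_lit 248) (nat_lit 187)) (XT.lf (nat_lit 0) (nat_lit 10260759055) (nat_lit 228) (nat_lit 2357087572) (nat_lit 76) (nat_lit 7723929572) (nat_lit 33) (nat_lit 5) (nat_lit 36) (nat_lit 5) (nat_lit 34) (nat_lit 5) (nat_lit 346) (nat_lit 248) (nat_lit 186))) (XT.nd (nat_lit 78) (nat_lit 0) (nat_lit 0) (XT.lf (nat_lit 0) (nat_lit 8731764364) (nat_lit 152) (nat_lit 6844810640) (nat_lit 228) (nat_lit 5242435924) (nat_lit 31) (nat_lit 5) (nat_lit 33) (nat_lit 5) (nat_lit 34) (nat_lit 5) (nat_lit 347) (nat_lit 248) (nat_lit 185)) (XT.lf (nat_lit 0) (nat_lit 20107543507) (nat_lit 152) (nat_lit 914518633) (nat_lit 228) (nat_lit 289114933) (nat_lit 31) (nat_lit 5) (nat_lit 33) (nat_lit 5) (nat_lit 34) (nat_lit 5) (nat_lit 348) (nat_lit 248) (nat_lit 184))))))) (XT.nd (nat_lit 1014) (nat_lit 76) (nat_lit 0) (XT.nd (nat_lit 468) (nat_lit 456) (nat_lit 0) (XT.nd (nat_lit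 234) (nat_lit 228) (nat_lit 0) (XT.nd (nat_lit 78) (nat_lit 152) (nat_lit 0) (XT.lf (nat_lit 0) (nat_lit 4804208908) (nat_lit 228) (nat_lit 11820799018) (nat_lit 76) (nat_lit 5191402267) (nat_lit 28) (nat_lit 5) (nat_lit 31) (nat_lit 5) (nat_lit 29) (nat_lit 5) (nat_lit 349) (nat_lit 248) (nat_lit 183)) (XT.nd (nat_lit 78) (nat_lit 152) (nat_lit 0) (XT.lf (nat_lit 0) (nat_lit 10016612218) (nat_lit 228) (nat_lit 873229214) (nat_lit 76) (nat_lit 11447533417) (nat_lit 28) (nat_lit 5) (nat_lit 31) (nat_lit 5) (nat_lit 29) (nat_lit 5) (nat_lit 350) (nat_lit 248) (nat_lit 182)) (XT.lf (nat_lit 0) (nat_lit 10466447140) (nat_lit 152) (nat_lit 4944040549) (nat_lit 228) (nat_lit 7462995183) (nat_lit 26) (nat_lit 5) (nat_lit 28) (nat_lit 5) (nat_lit 29) (nat_lit 5) (nat_lit 351) (nat_lit 248) (nat_lit 181)))) (XT.nd (nat_lit 78) (nat_lit 228) (nat_lit 0) (XT.lf (nat_lit 0) (nat_lit 20937524362) (nat_lit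 228) (nat_lit 1348047112) (nat_lit 76) (nat_lit 1140691712) (nat_lit 26) (nat_lit 5) (nat_lit 29) (nat_lit 5) (nat_lit 27) (nat_lit 4) (nat_lit 352) (nat_lit 248) (nat_lit 180)) (XT.nd (nat_lit 78) (nat_lit 0) (nat_lit 0) (XT.lf (nat_lit 0) (nat_lit 2657961796) (nat_lit 228) (nat_lit 13941181065) (nat_lit 76) (nat_lit 7395001664) (nat_lit 23) (nat_lit 5) (nat_lit 26) (nat_lit 5) (nat_lit 24) (nat_lit 5) (nat_lit 353) (nat_lit 248) (nat_lit 179)) (XT.lf (nat_lit 0) (nat_lit 7894057433) (nat_lit 228) (nat_lit 2851458828) (nat_lit 76) (nat_lit 13833855646) (nat_lit 23) (nat_lit 5) (nat_lit 26) (nat_lit 5) (nat_lit 24) (nat_lit 5) (nat_lit 354) (nat_lit 248) (nat_lit 178))))) (XT.nd (nat_lit 234) (nat_lit 228) (nat_lit 0) (XT.nd (nat_lit 78) (nat_lit 76) (nat_lit 0) (XT.lf (nat_lit 0) (nat_lit 8615667553) (nat_lit 152) (nat_lit 4688107181) (nat_lit 228) (nat_lit 11878064910) (nat_lit 21) (nat_lit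 5) (nat_lit 23) (nat_lit 5) (nat_lit 24) (nat_lit 5) (nat_lit 355) (nat_lit 248) (nat_lit 177)) (XT.nd (nat_lit 78) (nat_lit 76) (nat_lit 0) (XT.lf (nat_lit 0) (nat_lit 18866430811) (nat_lit 228) (nat_lit 5414132694) (nat_lit 76) (nat_lit 1522018855) (nat_lit 21) (nat_lit 5) (nat_lit 24) (nat_lit 5) (nat_lit 22) (nat_lit 4) (nat_lit 356) (nat_lit 248) (nat_lit 176)) (XT.lf (nat_lit 0) (nat_lit 6054720882) (nat_lit 76) (nat_lit 18574167263) (nat_lit 152) (nat_lit 1812414270) (nat_lit 20) (nat_lit 5) (nat_lit 21) (nat_lit 5) (nat_lit 22) (nat_lit 4) (nat_lit 357) (nat_lit 248) (nat_lit 175)))) (XT.nd (nat_lit 156) (nat_lit 0) (nat_lit 0) (XT.nd (nat_lit 78) (nat_lit 152) (nat_lit 0) (XT.lf (nat_lit 0) (nat_lit 3419200845) (nat_lit 152) (nat_lit 9244686533) (nat_lit 76) (nat_lit 14434867379) (nat_lit 19) (nat_lit 5) (nat_lit 21) (nat_lit 5) (nat_lit 20) (nat_lit 5) (nat_lit 358) (nat_lit 248) (nat_lit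 174)) (XT.lf (nat_lit 0) (nat_lit 2184651839) (nat_lit 152) (nat_lit 6576579985) (nat_lit 228) (nat_lit 19014909889) (nat_lit 17) (nat_lit 5) (nat_lit 19) (nat_lit 5) (nat_lit 20) (nat_lit 5) (nat_lit 359) (nat_lit 248) (nat_lit 173))) (XT.nd (nat_lit 78) (nat_lit 0) (nat_lit 0) (XT.lf (nat_lit 0) (nat_lit 14021095630) (nat_lit 152) (nat_lit 269490201) (nat_lit 228) (nat_lit 14182735306) (nat_lit 17) (nat_lit 5) (nat_lit 19) (nat_lit 5) (nat_lit 20) (nat_lit 5) (nat_lit 360) (nat_lit 248) (nat_lit 172)) (XT.lf (nat_lit 0) (nat_lit 19991534107) (nat_lit 228) (nat_lit 3080248347) (nat_lit 76) (nat_lit 6119530964) (nat_lit 17) (nat_lit 5) (nat_lit 20) (nat_lit 5) (nat_lit 18) (nat_lit 4) (nat_lit 361) (nat_lit 248) (nat_lit 171)))))) (XT.nd (nat_lit 34866) (nat_lit 0) (nat_lit 18468) (XT.nd (nat_lit 34554) (nat_lit 0) (nat_lit 24396) (XT.nd (nat_lit 34398) (nat_lit 0) (nat_lit 29412) (XT.lf (nat_lit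 0) (nat_lit 8685742216) (nat_lit 76) (nat_lit 17202260582) (nat_lit 152) (nat_lit 4042364237) (nat_lit 16) (nat_lit 5) (nat_lit 17) (nat_lit 5) (nat_lit 18) (nat_lit 4) (nat_lit 362) (nat_lit 248) (nat_lit 170)) (XT.nd (nat_lit 78) (nat_lit 1444) (nat_lit 0) (XT.lf (nat_lit 0) (nat_lit 325071380) (nat_lit 1444) (nat_lit 2851004325) (nat_lit 0) (nat_lit 325071380) (nat_lit 422) (nat_lit 5) (nat_lit 441) (nat_lit 4) (nat_lit 422) (nat_lit 4) (nat_lit 282) (nat_lit 249) (nat_lit 249)) (XT.lf (nat_lit 0) (nat_lit 982144922) (nat_lit 1444) (nat_lit 4327181562) (nat_lit 1444) (nat_lit 1746671638) (nat_lit 403) (nat_lit 4) (nat_lit 422) (nat_lit 5) (nat_lit 422) (nat_lit 4) (nat_lit 283) (nat_lit 249) (nat_lit 248)))) (XT.nd (nat_lit 156) (nat_lit 1748) (nat_lit 0) (XT.nd (nat_lit 78) (nat_lit 1672) (nat_lit 0) (XT.lf (nat_lit 0) (nat_lit 687573369) (nat_lit 1520) (nat_lit 2170561648) (nat_lit 1596)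 (nat_lit 4254976893) (nat_lit 382) (nat_lit 5) (nat_lit 402) (nat_lit 5) (nat_lit 403) (nat_lit 4) (nat_lit 284) (nat_lit 249) (nat_lit 247)) (XT.lf (nat_lit 0) (nat_lit 304573179) (nat_lit 1672) (nat_lit 6755583219) (nat_lit 76) (nat_lit 113601960) (nat_lit 360) (nat_lit 5) (nat_lit 382) (nat_lit 5) (nat_lit 361) (nat_lit 4) (nat_lit 285) (nat_lit 249) (nat_lit 246))) (XT.nd (nat_lit 78) (nat_lit 76) (nat_lit 0) (XT.lf (nat_lit 0) (nat_lit 141736384) (nat_lit 1672) (nat_lit 4723503719) (nat_lit 1748) (nat_lit 2372161100) (nat_lit 338) (nat_lit 5) (nat_lit 360) (nat_lit 5) (nat_lit 361) (nat_lit 4) (nat_lit 286) (nat_lit 249) (nat_lit 245)) (XT.lf (nat_lit 0) (nat_lit 2140827619) (nat_lit 1748) (nat_lit 114985754) (nat_lit 76) (nat_lit 5048806201) (nat_lit 337) (nat_lit 5) (nat_lit 360) (nat_lit 5) (nat_lit 338) (nat_lit 5) (nat_lit 287) (nat_lit 249) (nat_lit 244))))) (XT.nd (nat_lit 234) (nat_lit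 3116) (nat_lit 0) (XT.nd (nat_lit 78) (nat_lit 1824) (nat_lit 0) (XT.lf (nat_lit 0) (nat_lit 6673542599) (nat_lit 1064) (nat_lit 358822816) (nat_lit 76) (nat_lit 343012634) (nat_lit 324) (nat_lit 5) (nat_lit 338) (nat_lit 5) (nat_lit 325) (nat_lit 4) (nat_lit 288) (nat_lit 249) (nat_lit 243)) (XT.nd (nat_lit 78) (nat_lit 912) (nat_lit 0) (XT.lf (nat_lit 0) (nat_lit 3774212818) (nat_lit 912) (nat_lit 617418241) (nat_lit 76) (nat_lit 3057656844) (nat_lit 312) (nat_lit 5) (nat_lit 324) (nat_lit 5) (nat_lit 313) (nat_lit 5) (nat_lit 289) (nat_lit 249) (nat_lit 242)) (XT.lf (nat_lit 0) (nat_lit 757075085) (nat_lit 912) (nat_lit 864203740) (nat_lit 76) (nat_lit 5905715053) (nat_lit 300) (nat_lit 5) (nat_lit 312) (nat_lit 5) (nat_lit 301) (nat_lit 5) (nat_lit 290) (nat_lit 249) (nat_lit 241)))) (XT.nd (nat_lit 156) (nat_lit 1520) (nat_lit 0) (XT.nd (nat_lit 78) (nat_lit 836) (nat_lit 0) (XT.lf (nat_lit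 0) (nat_lit 5202619284) (nat_lit 836) (nat_lit 1125589755) (nat_lit 76) (nat_lit 1279877132) (nat_lit 290) (nat_lit 5) (nat_lit 301) (nat_lit 5) (nat_lit 291) (nat_lit 5) (nat_lit 291) (nat_lit 249) (nat_lit 240)) (XT.lf (nat_lit 0) (nat_lit 1997672533) (nat_lit 836) (nat_lit 1397118650) (nat_lit 76) (nat_lit 4297986430) (nat_lit 279) (nat_lit 5) (nat_lit 290) (nat_lit 5) (nat_lit 280) (nat_lit 5) (nat_lit 292) (nat_lit 249) (nat_lit 239))) (XT.nd (nat_lit 78) (nat_lit 836) (nat_lit 0) (XT.lf (nat_lit 0) (nat_lit 6106736414) (nat_lit 684) (nat_lit 320810478) (nat_lit 760) (nat_lit 1353735397) (nat_lit 270) (nat_lit 5) (nat_lit 279) (nat_lit 5) (nat_lit 280) (nat_lit 5) (nat_lit 293) (nat_lit 249) (nat_lit 238)) (XT.lf (nat_lit 0) (nat_lit 3025264497) (nat_lit 836) (nat_lit 1984532141) (nat_lit 76) (nat_lit 2863405322) (nat_lit 259) (nat_lit 5) (nat_lit 270) (nat_lit 5) (nat_lit 260) (nat_lit 5)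 (nat_lit 294) (nat_lit 249) (nat_lit 237))))))))
noncomputable def xc32 : XT := (XT.nd (nat_lit 2028) (nat_lit 4560) (nat_lit 0) (XT.nd (nat_lit 1014) (nat_lit 5092) (nat_lit 0) (XT.nd (nat_lit 468) (nat_lit 3420) (nat_lit 0) (XT.nd (nat_lit 234) (nat_lit 1976) (nat_lit 0) (XT.nd (nat_lit 78) (nat_lit 1444) (nat_lit 0) (XT.lf (nat_lit 0) (nat_lit 5664990771) (nat_lit 684) (nat_lit 1786777046) (nat_lit 760) (nat_lit 517368468) (nat_lit 250) (nat_lit 5) (nat_lit 259) (nat_lit 5) (nat_lit 260) (nat_lit 5) (nat_lit 295) (nat_lit 249) (nat_lit 236)) (XT.nd (nat_lit 78) (nat_lit 684) (nat_lit 0) (XT.lf (nat_lit 0) (nat_lit 3836177317) (nat_lit 760) (nat_lit 2661938776) (nat_lit 76) (nat_lit 1570545473) (nat_lit 240) (nat_lit 5) (nat_lit 250) (nat_lit 5) (nat_lit 241) (nat_lit 5) (nat_lit 296) (nat_lit 249) (nat_lit 235)) (XT.lf (nat_lit 0) (nat_lit 88995859) (nat_lit 684) (nat_lit 3043146956) (nat_lit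 76) (nat_lit 5040084281) (nat_lit 231) (nat_lit 5) (nat_lit 240) (nat_lit 5) (nat_lit 232) (nat_lit 5) (nat_lit 297) (nat_lit 249) (nat_lit 234)))) (XT.nd (nat_lit 78) (nat_lit 1292) (nat_lit 0) (XT.lf (nat_lit 0) (nat_lit 4424607146) (nat_lit 760) (nat_lit 3466882496) (nat_lit 76) (nat_lit 388121925) (nat_lit 222) (nat_lit 5) (nat_lit 232) (nat_lit 5) (nat_lit 223) (nat_lit 5) (nat_lit 298) (nat_lit 249) (nat_lit 233)) (XT.nd (nat_lit 78) (nat_lit 608) (nat_lit 0) (XT.lf (nat_lit 0) (nat_lit 455758719) (nat_lit 684) (nat_lit 3931624505) (nat_lit 76) (nat_lit 4003630392) (nat_lit 213) (nat_lit 5) (nat_lit 222) (nat_lit 5) (nat_lit 214) (nat_lit 5) (nat_lit 299) (nat_lit 249) (nat_lit 232)) (XT.lf (nat_lit 0) (nat_lit 4062441434) (nat_lit 608) (nat_lit 724783345) (nat_lit 684) (nat_lit 3719251086) (nat_lit 205) (nat_lit 5) (nat_lit 213) (nat_lit 5) (nat_lit 214) (nat_lit 5) (nat_lit 300) (nat_lit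 249) (nat_lit 231))))) (XT.nd (nat_lit 234) (nat_lit 1596) (nat_lit 0) (XT.nd (nat_lit 78) (nat_lit 1216) (nat_lit 0) (XT.lf (nat_lit 0) (nat_lit 580403426) (nat_lit 608) (nat_lit 5007616318) (nat_lit 76) (nat_lit 3038092320) (nat_lit 197) (nat_lit 5) (nat_lit 205) (nat_lit 5) (nat_lit 198) (nat_lit 5) (nat_lit 301) (nat_lit 249) (nat_lit 230)) (XT.nd (nat_lit 78) (nat_lit 608) (nat_lit 0) (XT.lf (nat_lit 0) (nat_lit 3116169282) (nat_lit 608) (nat_lit 1795010861) (nat_lit 684) (nat_lit 3838707320) (nat_lit 189) (nat_lit 5) (nat_lit 197) (nat_lit 5) (nat_lit 198) (nat_lit 5) (nat_lit 302) (nat_lit 249) (nat_lit 229)) (XT.lf (nat_lit 0) (nat_lit 451191723) (nat_lit 608) (nat_lit 6315546022) (nat_lit 76) (nat_lit 2111401174) (nat_lit 181) (nat_lit 5) (nat_lit 189) (nat_lit 5) (nat_lit 182) (nat_lit 5) (nat_lit 303) (nat_lit 249) (nat_lit 228)))) (XT.nd (nat_lit 156) (nat_lit 532) (nat_lit 0) (XT.nd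 (nat_lit 78) (nat_lit 532) (nat_lit 0) (XT.lf (nat_lit 0) (nat_lit 1930912894) (nat_lit 532) (nat_lit 2850338893) (nat_lit 608) (nat_lit 4229294152) (nat_lit 174) (nat_lit 5) (nat_lit 181) (nat_lit 5) (nat_lit 182) (nat_lit 5) (nat_lit 304) (nat_lit 249) (nat_lit 227)) (XT.lf (nat_lit 0) (nat_lit 53795528) (nat_lit 532) (nat_lit 7903312517) (nat_lit 76) (nat_lit 1190673614) (nat_lit 167) (nat_lit 5) (nat_lit 174) (nat_lit 5) (nat_lit 168) (nat_lit 5) (nat_lit 305) (nat_lit 249) (nat_lit 226))) (XT.nd (nat_lit 78) (nat_lit 0) (nat_lit 0) (XT.lf (nat_lit 0) (nat_lit 457415165) (nat_lit 532) (nat_lit 3924702716) (nat_lit 608) (nat_lit 4907054639) (nat_lit 160) (nat_lit 5) (nat_lit 167) (nat_lit 5) (nat_lit 168) (nat_lit 5) (nat_lit 306) (nat_lit 249) (nat_lit 225)) (XT.lf (nat_lit 0) (nat_lit 8801021788) (nat_lit 608) (nat_lit 386063255) (nat_lit 76) (nat_lit 248584233) (nat_lit 160) (nat_lit 5)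 (nat_lit 168) (nat_lit 5) (nat_lit 161) (nat_lit 5) (nat_lit 307) (nat_lit 249) (nat_lit 224)))))) (XT.nd (nat_lit 468) (nat_lit 2280) (nat_lit 0) (XT.nd (nat_lit 234) (nat_lit 1292) (nat_lit 0) (XT.nd (nat_lit 78) (nat_lit 988) (nat_lit 0) (XT.lf (nat_lit 0) (nat_lit 3704429740) (nat_lit 532) (nat_lit 1339931365) (nat_lit 76) (nat_lit 4542028050) (nat_lit 153) (nat_lit 5) (nat_lit 160) (nat_lit 5) (nat_lit 154) (nat_lit 5) (nat_lit 308) (nat_lit 249) (nat_lit 223)) (XT.nd (nat_lit 78) (nat_lit 532) (nat_lit 0) (XT.lf (nat_lit 0) (nat_lit 7370883227) (nat_lit 456) (nat_lit 754023127) (nat_lit 532) (nat_lit 1617516212) (nat_lit 147) (nat_lit 5) (nat_lit 153) (nat_lit 5) (nat_lit 154) (nat_lit 5) (nat_lit 309) (nat_lit 249) (nat_lit 222)) (XT.lf (nat_lit 0) (nat_lit 2723716126) (nat_lit 532) (nat_lit 3525812076) (nat_lit 76) (nat_lit 3653612800) (nat_lit 140) (nat_lit 5) (nat_lit 147) (nat_lit 5)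 (nat_lit 141) (nat_lit 5) (nat_lit 310) (nat_lit 249) (nat_lit 221)))) (XT.nd (nat_lit 78) (nat_lit 836) (nat_lit 0) (XT.lf (nat_lit 0) (nat_lit 5284033041) (nat_lit 456) (nat_lit 1856946952) (nat_lit 532) (nat_lit 2928199058) (nat_lit 134) (nat_lit 5) (nat_lit 140) (nat_lit 5) (nat_lit 141) (nat_lit 5) (nat_lit 311) (nat_lit 249) (nat_lit 220)) (XT.nd (nat_lit 78) (nat_lit 380) (nat_lit 0) (XT.lf (nat_lit 0) (nat_lit 1412896184) (nat_lit 456) (nat_lit 6168819469) (nat_lit 76) (nat_lit 2658731146) (nat_lit 128) (nat_lit 5) (nat_lit 134) (nat_lit 5) (nat_lit 129) (nat_lit 5) (nat_lit 312) (nat_lit 249) (nat_lit 219)) (XT.lf (nat_lit 0) (nat_lit 2726062422) (nat_lit 380) (nat_lit 3096156001) (nat_lit 456) (nat_lit 4594753704) (nat_lit 123) (nat_lit 5) (nat_lit 128) (nat_lit 5) (nat_lit 129) (nat_lit 5) (nat_lit 313) (nat_lit 249) (nat_lit 218))))) (XT.nd (nat_lit 234) (nat_lit 1444) (nat_lit 0)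 (XT.nd (nat_lit 78) (nat_lit 456) (nat_lit 0) (XT.lf (nat_lit 0) (nat_lit 1260215623) (nat_lit 380) (nat_lit 9080032045) (nat_lit 456) (nat_lit 259077382) (nat_lit 118) (nat_lit 5) (nat_lit 123) (nat_lit 5) (nat_lit 124) (nat_lit 5) (nat_lit 314) (nat_lit 249) (nat_lit 217)) (XT.nd (nat_lit 78) (nat_lit 380) (nat_lit 0) (XT.lf (nat_lit 0) (nat_lit 4142004668) (nat_lit 456) (nat_lit 368936776) (nat_lit 76) (nat_lit 6275908208) (nat_lit 117) (nat_lit 5) (nat_lit 123) (nat_lit 5) (nat_lit 118) (nat_lit 5) (nat_lit 315) (nat_lit 249) (nat_lit 216)) (XT.lf (nat_lit 0) (nat_lit 8650376532) (nat_lit 456) (nat_lit 2113110282) (nat_lit 76) (nat_lit 216959183) (nat_lit 112) (nat_lit 5) (nat_lit 118) (nat_lit 5) (nat_lit 113) (nat_lit 5) (nat_lit 316) (nat_lit 249) (nat_lit 215)))) (XT.nd (nat_lit 156) (nat_lit 684) (nat_lit 0) (XT.nd (nat_lit 78) (nat_lit 380) (nat_lit 0) (XT.lf (nat_lit 0) (nat_lit 2086613694)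 (nat_lit 380) (nat_lit 4039683773) (nat_lit 76) (nat_lit 5053327512) (nat_lit 107) (nat_lit 5) (nat_lit 112) (nat_lit 5) (nat_lit 108) (nat_lit 5) (nat_lit 317) (nat_lit 249) (nat_lit 214)) (XT.lf (nat_lit 0) (nat_lit 5253382614) (nat_lit 380) (nat_lit 1321568350) (nat_lit 456) (nat_lit 4810155694) (nat_lit 102) (nat_lit 5) (nat_lit 107) (nat_lit 5) (nat_lit 108) (nat_lit 5) (nat_lit 318) (nat_lit 249) (nat_lit 213))) (XT.nd (nat_lit 78) (nat_lit 380) (nat_lit 0) (XT.lf (nat_lit 0) (nat_lit 3188080369) (nat_lit 304) (nat_lit 8005067974) (nat_lit 380) (nat_lit 403750308) (nat_lit 98) (nat_lit 5) (nat_lit 102) (nat_lit 5) (nat_lit 103) (nat_lit 5) (nat_lit 319) (nat_lit 249) (nat_lit 212)) (XT.lf (nat_lit 0) (nat_lit 919772012) (nat_lit 304) (nat_lit 3141841236) (nat_lit 380) (nat_lit 7753321978) (nat_lit 93) (nat_lit 5) (nat_lit 97) (nat_lit 5) (nat_lit 98) (nat_lit 5) (nat_lit 320) (nat_lit 249)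 (nat_lit 211))))))) (XT.nd (nat_lit 1014) (nat_lit 1900) (nat_lit 0) (XT.nd (nat_lit 468) (nat_lit 1368) (nat_lit 0) (XT.nd (nat_lit 234) (nat_lit 608) (nat_lit 0) (XT.nd (nat_lit 78) (nat_lit 684) (nat_lit 0) (XT.lf (nat_lit 0) (nat_lit 8650559643) (nat_lit 380) (nat_lit 1523226310) (nat_lit 76) (nat_lit 1865817687) (nat_lit 93) (nat_lit 5) (nat_lit 98) (nat_lit 5) (nat_lit 94) (nat_lit 5) (nat_lit 321) (nat_lit 249) (nat_lit 210)) (XT.nd (nat_lit 78) (nat_lit 304) (nat_lit 0) (XT.lf (nat_lit 0) (nat_lit 1093018177) (nat_lit 380) (nat_lit 4172740070) (nat_lit 76) (nat_lit 7005126992) (nat_lit 88) (nat_lit 5) (nat_lit 93) (nat_lit 5) (nat_lit 89) (nat_lit 5) (nat_lit 322) (nat_lit 249) (nat_lit 209)) (XT.lf (nat_lit 0) (nat_lit 5460092615) (nat_lit 304) (nat_lit 178161724) (nat_lit 380) (nat_lit 6870950548) (nat_lit 84) (nat_lit 5) (nat_lit 88) (nat_lit 5) (nat_lit 89) (nat_lit 5) (nat_lit 323)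 (nat_lit 249) (nat_lit 208)))) (XT.nd (nat_lit 78) (nat_lit 380) (nat_lit 0) (XT.lf (nat_lit 0) (nat_lit 2577340523) (nat_lit 228) (nat_lit 7750364163) (nat_lit 304) (nat_lit 2426853804) (nat_lit 81) (nat_lit 5) (nat_lit 84) (nat_lit 5) (nat_lit 85) (nat_lit 5) (nat_lit 324) (nat_lit 249) (nat_lit 207)) (XT.nd (nat_lit 78) (nat_lit 304) (nat_lit 0) (XT.lf (nat_lit 0) (nat_lit 2102286709) (nat_lit 304) (nat_lit 540242456) (nat_lit 76) (nat_lit 10364905269) (nat_lit 80) (nat_lit 5) (nat_lit 84) (nat_lit 5) (nat_lit 81) (nat_lit 5) (nat_lit 325) (nat_lit 249) (nat_lit 206)) (XT.lf (nat_lit 0) (nat_lit 6745416092) (nat_lit 380) (nat_lit 3896665701) (nat_lit 76) (nat_lit 2625310670) (nat_lit 76) (nat_lit 5) (nat_lit 81) (nat_lit 5) (nat_lit 77) (nat_lit 5) (nat_lit 326) (nat_lit 249) (nat_lit 205))))) (XT.nd (nat_lit 234) (nat_lit 760) (nat_lit 0) (XT.nd (nat_lit 78) (nat_lit 380) (nat_lit 0) (XT.lf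 (nat_lit 0) (nat_lit 6008627369) (nat_lit 228) (nat_lit 5513307966) (nat_lit 304) (nat_lit 2013369219) (nat_lit 73) (nat_lit 5) (nat_lit 76) (nat_lit 5) (nat_lit 77) (nat_lit 5) (nat_lit 327) (nat_lit 249) (nat_lit 204)) (XT.nd (nat_lit 78) (nat_lit 0) (nat_lit 0) (XT.lf (nat_lit 0) (nat_lit 2364401335) (nat_lit 304) (nat_lit 208054602) (nat_lit 380) (nat_lit 11238962755) (nat_lit 68) (nat_lit 5) (nat_lit 72) (nat_lit 5) (nat_lit 73) (nat_lit 5) (nat_lit 328) (nat_lit 249) (nat_lit 203)) (XT.lf (nat_lit 0) (nat_lit 7289662251) (nat_lit 380) (nat_lit 1589939239) (nat_lit 76) (nat_lit 5215559810) (nat_lit 68) (nat_lit 5) (nat_lit 73) (nat_lit 5) (nat_lit 69) (nat_lit 5) (nat_lit 329) (nat_lit 249) (nat_lit 202)))) (XT.nd (nat_lit 156) (nat_lit 228) (nat_lit 0) (XT.nd (nat_lit 78) (nat_lit 304) (nat_lit 0) (XT.lf (nat_lit 0) (nat_lit 8574447534) (nat_lit 228) (nat_lit 3568412784) (nat_lit 304) (nat_lit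 2244699768) (nat_lit 65) (nat_lit 5) (nat_lit 68) (nat_lit 5) (nat_lit 69) (nat_lit 5) (nat_lit 330) (nat_lit 249) (nat_lit 201)) (XT.lf (nat_lit 0) (nat_lit 2410275294) (nat_lit 304) (nat_lit 10382423755) (nat_lit 76) (nat_lit 1895954622) (nat_lit 61) (nat_lit 5) (nat_lit 65) (nat_lit 5) (nat_lit 62) (nat_lit 5) (nat_lit 331) (nat_lit 249) (nat_lit 200))) (XT.nd (nat_lit 78) (nat_lit 228) (nat_lit 0) (XT.lf (nat_lit 0) (nat_lit 7177188895) (nat_lit 304) (nat_lit 326518332) (nat_lit 76) (nat_lit 7494751246) (nat_lit 61) (nat_lit 5) (nat_lit 65) (nat_lit 5) (nat_lit 62) (nat_lit 5) (nat_lit 332) (nat_lit 249) (nat_lit 199)) (XT.lf (nat_lit 0) (nat_lit 10067849769) (nat_lit 228) (nat_lit 2025497392) (nat_lit 304) (nat_lit 3224115491) (nat_lit 58) (nat_lit 5) (nat_lit 61) (nat_lit 5) (nat_lit 62) (nat_lit 5) (nat_lit 333) (nat_lit 249) (nat_lit 198)))))) (XT.nd (nat_lit 468) (nat_lit 912) (nat_lit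 0) (XT.nd (nat_lit 234) (nat_lit 456) (nat_lit 0) (XT.nd (nat_lit 78) (nat_lit 228) (nat_lit 0) (XT.lf (nat_lit 0) (nat_lit 1491564002) (nat_lit 304) (nat_lit 10574873496) (nat_lit 76) (nat_lit 3579423245) (nat_lit 54) (nat_lit 5) (nat_lit 58) (nat_lit 5) (nat_lit 55) (nat_lit 5) (nat_lit 334) (nat_lit 249) (nat_lit 197)) (XT.nd (nat_lit 78) (nat_lit 228) (nat_lit 0) (XT.lf (nat_lit 0) (nat_lit 6296952099) (nat_lit 304) (nat_lit 339603669) (nat_lit 76) (nat_lit 9347315657) (nat_lit 54) (nat_lit 5) (nat_lit 58) (nat_lit 5) (nat_lit 55) (nat_lit 5) (nat_lit 335) (nat_lit 249) (nat_lit 196)) (XT.lf (nat_lit 0) (nat_lit 10245911717) (nat_lit 228) (nat_lit 1011227553) (nat_lit 304) (nat_lit 5074697306) (nat_lit 51) (nat_lit 5) (nat_lit 54) (nat_lit 5) (nat_lit 55) (nat_lit 5) (nat_lit 336) (nat_lit 249) (nat_lit 195)))) (XT.nd (nat_lit 78) (nat_lit 228) (nat_lit 0) (XT.lf (nat_lit 0) (nat_lit 4399470973)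 (nat_lit 228) (nat_lit 11973528438) (nat_lit 304) (nat_lit 317130036) (nat_lit 48) (nat_lit 5) (nat_lit 51) (nat_lit 5) (nat_lit 52) (nat_lit 5) (nat_lit 337) (nat_lit 249) (nat_lit 194)) (XT.nd (nat_lit 78) (nat_lit 152) (nat_lit 0) (XT.lf (nat_lit 0) (nat_lit 4516906328) (nat_lit 304) (nat_lit 1902289843) (nat_lit 76) (nat_lit 10639527625) (nat_lit 47) (nat_lit 5) (nat_lit 51) (nat_lit 5) (nat_lit 48) (nat_lit 5) (nat_lit 338) (nat_lit 249) (nat_lit 193)) (XT.lf (nat_lit 0) (nat_lit 8824071604) (nat_lit 152) (nat_lit 672060407) (nat_lit 228) (nat_lit 7942136637) (nat_lit 45) (nat_lit 5) (nat_lit 47) (nat_lit 5) (nat_lit 48) (nat_lit 5) (nat_lit 339) (nat_lit 249) (nat_lit 192))))) (XT.nd (nat_lit 234) (nat_lit 456) (nat_lit 0) (XT.nd (nat_lit 78) (nat_lit 228) (nat_lit 0) (XT.lf (nat_lit 0) (nat_lit 1974368531) (nat_lit 228) (nat_lit 12658152314) (nat_lit 304) (nat_lit 3196546700) (nat_lit 42)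 (nat_lit 5) (nat_lit 45) (nat_lit 5) (nat_lit 46) (nat_lit 5) (nat_lit 340) (nat_lit 249) (nat_lit 191)) (XT.nd (nat_lit 78) (nat_lit 152) (nat_lit 0) (XT.lf (nat_lit 0) (nat_lit 1681004806) (nat_lit 304) (nat_lit 5333772856) (nat_lit 76) (nat_lit 11216379872) (nat_lit 41) (nat_lit 5) (nat_lit 45) (nat_lit 5) (nat_lit 42) (nat_lit 5) (nat_lit 341) (nat_lit 249) (nat_lit 190)) (XT.lf (nat_lit 0) (nat_lit 5469653682) (nat_lit 152) (nat_lit 1177583700) (nat_lit 228) (nat_lit 11997956246) (nat_lit 39) (nat_lit 5) (nat_lit 41) (nat_lit 5) (nat_lit 42) (nat_lit 5) (nat_lit 342) (nat_lit 249) (nat_lit 189)))) (XT.nd (nat_lit 156) (nat_lit 228) (nat_lit 0) (XT.nd (nat_lit 78) (nat_lit 228) (nat_lit 0) (XT.lf (nat_lit 0) (nat_lit 11780960392) (nat_lit 228) (nat_lit 2515284072) (nat_lit 76) (nat_lit 4775057291) (nat_lit 39) (nat_lit 5) (nat_lit 42) (nat_lit 5) (nat_lit 40) (nat_lit 5) (nat_lit 343) (nat_lit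 249) (nat_lit 188)) (XT.lf (nat_lit 0) (nat_lit 8487718461) (nat_lit 228) (nat_lit 8596125106) (nat_lit 304) (nat_lit 2426066997) (nat_lit 36) (nat_lit 5) (nat_lit 39) (nat_lit 5) (nat_lit 40) (nat_lit 5) (nat_lit 344) (nat_lit 249) (nat_lit 187))) (XT.nd (nat_lit 78) (nat_lit 152) (nat_lit 0) (XT.lf (nat_lit 0) (nat_lit 2520115500) (nat_lit 304) (nat_lit 202832569) (nat_lit 76) (nat_lit 17239016007) (nat_lit 35) (nat_lit 5) (nat_lit 39) (nat_lit 5) (nat_lit 36) (nat_lit 5) (nat_lit 345) (nat_lit 249) (nat_lit 186)) (XT.lf (nat_lit 0) (nat_lit 7629338347) (nat_lit 228) (nat_lit 9457217402) (nat_lit 76) (nat_lit 3339769266) (nat_lit 33) (nat_lit 5) (nat_lit 36) (nat_lit 5) (nat_lit 34) (nat_lit 5) (nat_lit 346) (nat_lit 249) (nat_lit 185))))))))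
noncomputable def xc33 : XT := (XT.nd (nat_lit 36192) (nat_lit 0) (nat_lit 7600) (XT.nd (nat_lit 1014) (nat_lit 152) (nat_lit 0) (XT.nd (nat_lit 468) (nat_lit 532) (nat_lit 0) (XT.nd (nat_lit 234) (nat_lit 152) (nat_lit 0) (XT.nd (nat_lit 78) (nat_lit 228) (nat_lit 0) (XT.lf (nat_lit 0) (nat_lit 1498852649) (nat_lit 152) (nat_lit 11377040679) (nat_lit 228) (nat_lit 8029060654) (nat_lit 31) (nat_lit 5) (nat_lit 33) (nat_lit 5) (nat_lit 34) (nat_lit 5) (nat_lit 347) (nat_lit 249) (nat_lit 184)) (XT.nd (nat_lit 78) (nat_lit 228) (nat_lit 0) (XT.lf (nat_lit 0) (nat_lit 12837326068) (nat_lit 152) (nat_lit 5462161595) (nat_lit 228) (nat_lit 3098079077) (nat_lit 31) (nat_lit 5) (nat_lit 33) (nat_lit 5) (nat_lit 34) (nat_lit 5) (nat_lit 348) (nat_lit 249) (nat_lit 183)) (XT.lf (nat_lit 0) (nat_lit 1932095076) (nat_lit 228) (nat_lit 19351783415) (nat_lit 76) (nat_lit 621294252) (nat_lit 28) (nat_lit 5)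 (nat_lit 31) (nat_lit 5) (nat_lit 29) (nat_lit 5) (nat_lit 349) (nat_lit 249) (nat_lit 182)))) (XT.nd (nat_lit 78) (nat_lit 152) (nat_lit 0) (XT.lf (nat_lit 0) (nat_lit 7123387522) (nat_lit 228) (nat_lit 8440464783) (nat_lit 76) (nat_lit 6862715404) (nat_lit 28) (nat_lit 5) (nat_lit 31) (nat_lit 5) (nat_lit 29) (nat_lit 5) (nat_lit 350) (nat_lit 249) (nat_lit 181)) (XT.nd (nat_lit 78) (nat_lit 0) (nat_lit 0) (XT.lf (nat_lit 0) (nat_lit 2762983955) (nat_lit 152) (nat_lit 9683767062) (nat_lit 228) (nat_lit 10517342812) (nat_lit 26) (nat_lit 5) (nat_lit 28) (nat_lit 5) (nat_lit 29) (nat_lit 5) (nat_lit 351) (nat_lit 249) (nat_lit 180)) (XT.lf (nat_lit 0) (nat_lit 14347783220) (nat_lit 152) (nat_lit 3598376099) (nat_lit 228) (nat_lit 5571275018) (nat_lit 26) (nat_lit 5) (nat_lit 28) (nat_lit 5) (nat_lit 29) (nat_lit 5) (nat_lit 352) (nat_lit 249) (nat_lit 179))))) (XT.nd (nat_lit 234) (nat_lit 152)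 (nat_lit 0) (XT.nd (nat_lit 78) (nat_lit 228) (nat_lit 0) (XT.lf (nat_lit 0) (nat_lit 2134550901) (nat_lit 152) (nat_lit 21467343496) (nat_lit 228) (nat_lit 485668807) (nat_lit 24) (nat_lit 5) (nat_lit 26) (nat_lit 5) (nat_lit 27) (nat_lit 4) (nat_lit 353) (nat_lit 249) (nat_lit 178)) (XT.nd (nat_lit 78) (nat_lit 152) (nat_lit 0) (XT.lf (nat_lit 0) (nat_lit 4737387678) (nat_lit 228) (nat_lit 10893774000) (nat_lit 76) (nat_lit 9042087199) (nat_lit 23) (nat_lit 5) (nat_lit 26) (nat_lit 5) (nat_lit 24) (nat_lit 5) (nat_lit 354) (nat_lit 249) (nat_lit 177)) (XT.lf (nat_lit 0) (nat_lit 433382753) (nat_lit 152) (nat_lit 9641753927) (nat_lit 228) (nat_lit 15202026143) (nat_lit 21) (nat_lit 5) (nat_lit 23) (nat_lit 5) (nat_lit 24) (nat_lit 5) (nat_lit 355) (nat_lit 249) (nat_lit 176)))) (XT.nd (nat_lit 156) (nat_lit 152) (nat_lit 0) (XT.nd (nat_lit 78) (nat_lit 0) (nat_lit 0) (XT.lf (nat_lit 0) (nat_lit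 12184250750) (nat_lit 152) (nat_lit 3425025489) (nat_lit 228) (nat_lit 10289206275) (nat_lit 21) (nat_lit 5) (nat_lit 23) (nat_lit 5) (nat_lit 24) (nat_lit 5) (nat_lit 356) (nat_lit 249) (nat_lit 175)) (XT.lf (nat_lit 0) (nat_lit 21292134585) (nat_lit 228) (nat_lit 2334021164) (nat_lit 76) (nat_lit 2912645250) (nat_lit 21) (nat_lit 5) (nat_lit 24) (nat_lit 5) (nat_lit 22) (nat_lit 4) (nat_lit 357) (nat_lit 249) (nat_lit 174))) (XT.nd (nat_lit 78) (nat_lit 76) (nat_lit 0) (XT.lf (nat_lit 0) (nat_lit 9426291733) (nat_lit 76) (nat_lit 17767718707) (nat_lit 152) (nat_lit 3360676) (nat_lit 20) (nat_lit 5) (nat_lit 21) (nat_lit 5) (nat_lit 22) (nat_lit 4) (nat_lit 358) (nat_lit 249) (nat_lit 173)) (XT.lf (nat_lit 0) (nat_lit 5307201002) (nat_lit 152) (nat_lit 6400666936) (nat_lit 76) (nat_lit 16167526799) (nat_lit 19) (nat_lit 5) (nat_lit 21) (nat_lit 5) (nat_lit 20) (nat_lit 5) (nat_lit 359) (nat_lit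 249) (nat_lit 172)))))) (XT.nd (nat_lit 34632) (nat_lit 0) (nat_lit 22420) (XT.nd (nat_lit 34398) (nat_lit 0) (nat_lit 30780) (XT.nd (nat_lit 78) (nat_lit 0) (nat_lit 0) (XT.lf (nat_lit 0) (nat_lit 5320911226) (nat_lit 152) (nat_lit 5456516189) (nat_lit 228) (nat_lit 17796335085) (nat_lit 17) (nat_lit 5) (nat_lit 19) (nat_lit 5) (nat_lit 20) (nat_lit 5) (nat_lit 360) (nat_lit 249) (nat_lit 171)) (XT.nd (nat_lit 78) (nat_lit 0) (nat_lit 0) (XT.lf (nat_lit 0) (nat_lit 16428095204) (nat_lit 228) (nat_lit 11876388019) (nat_lit 76) (nat_lit 988282786) (nat_lit 17) (nat_lit 5) (nat_lit 20) (nat_lit 5) (nat_lit 18) (nat_lit 4) (nat_lit 361) (nat_lit 249) (nat_lit 170)) (XT.lf (nat_lit 0) (nat_lit 22252051002) (nat_lit 228) (nat_lit 252653805) (nat_lit 76) (nat_lit 7528570533) (nat_lit 17) (nat_lit 5) (nat_lit 20) (nat_lit 5) (nat_lit 18) (nat_lit 4) (nat_lit 362) (nat_lit 249) (nat_lit 169)))) (XT.nd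 (nat_lit 78) (nat_lit 2736) (nat_lit 0) (XT.lf (nat_lit 0) (nat_lit 515275378) (nat_lit 1292) (nat_lit 2420967196) (nat_lit 0) (nat_lit 515275378) (nat_lit 458) (nat_lit 5) (nat_lit 475) (nat_lit 4) (nat_lit 458) (nat_lit 4) (nat_lit 280) (nat_lit 250) (nat_lit 250)) (XT.nd (nat_lit 78) (nat_lit 1444) (nat_lit 0) (XT.lf (nat_lit 0) (nat_lit 1628771721) (nat_lit 1292) (nat_lit 4016982627) (nat_lit 1292) (nat_lit 1305898901) (nat_lit 441) (nat_lit 4) (nat_lit 458) (nat_lit 5) (nat_lit 458) (nat_lit 4) (nat_lit 281) (nat_lit 250) (nat_lit 249)) (XT.lf (nat_lit 0) (nat_lit 1221302101) (nat_lit 1368) (nat_lit 2028453320) (nat_lit 1444) (nat_lit 3753807090) (nat_lit 422) (nat_lit 5) (nat_lit 440) (nat_lit 5) (nat_lit 441) (nat_lit 4) (nat_lit 282) (nat_lit 250) (nat_lit 248))))) (XT.nd (nat_lit 234) (nat_lit 3648) (nat_lit 0) (XT.nd (nat_lit 78) (nat_lit 3192) (nat_lit 0) (XT.lf (nat_lit 0) (nat_lit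 756411972) (nat_lit 1520) (nat_lit 6215832403) (nat_lit 76) (nat_lit 86690478) (nat_lit 402) (nat_lit 5) (nat_lit 422) (nat_lit 5) (nat_lit 403) (nat_lit 4) (nat_lit 283) (nat_lit 250) (nat_lit 247)) (XT.nd (nat_lit 78) (nat_lit 1672) (nat_lit 0) (XT.lf (nat_lit 0) (nat_lit 466277513) (nat_lit 1520) (nat_lit 4802257238) (nat_lit 1596) (nat_lit 1848776937) (nat_lit 382) (nat_lit 5) (nat_lit 402) (nat_lit 5) (nat_lit 403) (nat_lit 4) (nat_lit 284) (nat_lit 250) (nat_lit 246)) (XT.lf (nat_lit 0) (nat_lit 108748851) (nat_lit 1596) (nat_lit 2500408320) (nat_lit 1672) (nat_lit 4569979475) (nat_lit 360) (nat_lit 5) (nat_lit 381) (nat_lit 5) (nat_lit 382) (nat_lit 5) (nat_lit 285) (nat_lit 250) (nat_lit 245)))) (XT.nd (nat_lit 156) (nat_lit 1900) (nat_lit 0) (XT.nd (nat_lit 78) (nat_lit 1748) (nat_lit 0) (XT.lf (nat_lit 0) (nat_lit 7020024301) (nat_lit 1596) (nat_lit 67342209) (nat_lit 1672) (nat_lit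 157149311) (nat_lit 360) (nat_lit 5) (nat_lit 381) (nat_lit 5) (nat_lit 382) (nat_lit 5) (nat_lit 286) (nat_lit 250) (nat_lit 244)) (XT.lf (nat_lit 0) (nat_lit 4260113240) (nat_lit 1748) (nat_lit 570520102) (nat_lit 76) (nat_lit 2482229722) (nat_lit 337) (nat_lit 5) (nat_lit 360) (nat_lit 5) (nat_lit 338) (nat_lit 5) (nat_lit 287) (nat_lit 250) (nat_lit 243))) (XT.nd (nat_lit 78) (nat_lit 836) (nat_lit 0) (XT.lf (nat_lit 0) (nat_lit 1321654971) (nat_lit 1064) (nat_lit 900685142) (nat_lit 76) (nat_lit 5162558814) (nat_lit 323) (nat_lit 5) (nat_lit 337) (nat_lit 5) (nat_lit 324) (nat_lit 5) (nat_lit 288) (nat_lit 250) (nat_lit 242)) (XT.lf (nat_lit 0) (nat_lit 5708130492) (nat_lit 912) (nat_lit 1231546715) (nat_lit 76) (nat_lit 520724485) (nat_lit 312) (nat_lit 5) (nat_lit 324) (nat_lit 5) (nat_lit 313) (nat_lit 5) (nat_lit 289) (nat_lit 250) (nat_lit 241))))))) (XT.nd (nat_lit 1014) (nat_lit 5472)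 (nat_lit 0) (XT.nd (nat_lit 468) (nat_lit 4560) (nat_lit 0) (XT.nd (nat_lit 234) (nat_lit 2280) (nat_lit 0) (XT.nd (nat_lit 78) (nat_lit 1596) (nat_lit 0) (XT.lf (nat_lit 0) (nat_lit 2589164698) (nat_lit 912) (nat_lit 1575343078) (nat_lit 76) (nat_lit 3374733126) (nat_lit 300) (nat_lit 5) (nat_lit 312) (nat_lit 5) (nat_lit 301) (nat_lit 5) (nat_lit 290) (nat_lit 250) (nat_lit 240)) (XT.nd (nat_lit 78) (nat_lit 836) (nat_lit 0) (XT.lf (nat_lit 0) (nat_lit 5706355348) (nat_lit 760) (nat_lit 1255198246) (nat_lit 836) (nat_lit 660313573) (nat_lit 290) (nat_lit 5) (nat_lit 300) (nat_lit 5) (nat_lit 301) (nat_lit 5) (nat_lit 291) (nat_lit 250) (nat_lit 239)) (XT.lf (nat_lit 0) (nat_lit 3647349353) (nat_lit 836) (nat_lit 2279748680) (nat_lit 76) (nat_lit 1780753182) (nat_lit 279) (nat_lit 5) (nat_lit 290) (nat_lit 5) (nat_lit 280) (nat_lit 5) (nat_lit 292) (nat_lit 250) (nat_lit 238)))) (XT.nd (nat_lit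 78) (nat_lit 1520) (nat_lit 0) (XT.lf (nat_lit 0) (nat_lit 212991420) (nat_lit 760) (nat_lit 2650841312) (nat_lit 76) (nat_lit 4933834747) (nat_lit 269) (nat_lit 5) (nat_lit 279) (nat_lit 5) (nat_lit 270) (nat_lit 5) (nat_lit 293) (nat_lit 250) (nat_lit 237)) (XT.nd (nat_lit 78) (nat_lit 760) (nat_lit 0) (XT.lf (nat_lit 0) (nat_lit 4494152857) (nat_lit 836) (nat_lit 3047617603) (nat_lit 76) (nat_lit 349304915) (nat_lit 259) (nat_lit 5) (nat_lit 270) (nat_lit 5) (nat_lit 260) (nat_lit 5) (nat_lit 294) (nat_lit 250) (nat_lit 236)) (XT.lf (nat_lit 0) (nat_lit 858071849) (nat_lit 760) (nat_lit 3470205519) (nat_lit 76) (nat_lit 3659937020) (nat_lit 249) (nat_lit 5) (nat_lit 259) (nat_lit 5) (nat_lit 250) (nat_lit 5) (nat_lit 295) (nat_lit 250) (nat_lit 235))))) (XT.nd (nat_lit 234) (nat_lit 2508) (nat_lit 0) (XT.nd (nat_lit 78) (nat_lit 1368) (nat_lit 0) (XT.lf (nat_lit 0) (nat_lit 4168535636) (nat_lit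 684) (nat_lit 963206635) (nat_lit 760) (nat_lit 2957449619) (nat_lit 240) (nat_lit 5) (nat_lit 249) (nat_lit 5) (nat_lit 250) (nat_lit 5) (nat_lit 296) (nat_lit 250) (nat_lit 234)) (XT.nd (nat_lit 78) (nat_lit 684) (nat_lit 0) (XT.lf (nat_lit 0) (nat_lit 1278376897) (nat_lit 684) (nat_lit 4405851060) (nat_lit 76) (nat_lit 2509797349) (nat_lit 231) (nat_lit 5) (nat_lit 240) (nat_lit 5) (nat_lit 232) (nat_lit 5) (nat_lit 297) (nat_lit 250) (nat_lit 233)) (XT.lf (nat_lit 0) (nat_lit 3370974561) (nat_lit 684) (nat_lit 2178323587) (nat_lit 760) (nat_lit 2753458662) (nat_lit 222) (nat_lit 5) (nat_lit 231) (nat_lit 5) (nat_lit 232) (nat_lit 5) (nat_lit 298) (nat_lit 250) (nat_lit 232)))) (XT.nd (nat_lit 156) (nat_lit 1216) (nat_lit 0) (XT.nd (nat_lit 78) (nat_lit 608) (nat_lit 0) (XT.lf (nat_lit 0) (nat_lit 1466516284) (nat_lit 684) (nat_lit 5496569963) (nat_lit 76) (nat_lit 1452507065) (nat_lit 213)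 (nat_lit 5) (nat_lit 222) (nat_lit 5) (nat_lit 214) (nat_lit 5) (nat_lit 299) (nat_lit 250) (nat_lit 231)) (XT.lf (nat_lit 0) (nat_lit 2413446837) (nat_lit 608) (nat_lit 3322861392) (nat_lit 684) (nat_lit 2796030005) (nat_lit 205) (nat_lit 5) (nat_lit 213) (nat_lit 5) (nat_lit 214) (nat_lit 5) (nat_lit 300) (nat_lit 250) (nat_lit 230))) (XT.nd (nat_lit 78) (nat_lit 608) (nat_lit 0) (XT.lf (nat_lit 0) (nat_lit 1412808190) (nat_lit 608) (nat_lit 6783797081) (nat_lit 76) (nat_lit 456870264) (nat_lit 197) (nat_lit 5) (nat_lit 205) (nat_lit 5) (nat_lit 198) (nat_lit 5) (nat_lit 301) (nat_lit 250) (nat_lit 229)) (XT.lf (nat_lit 0) (nat_lit 1253490866) (nat_lit 608) (nat_lit 4428730498) (nat_lit 684) (nat_lit 3096302300) (nat_lit 189) (nat_lit 5) (nat_lit 197) (nat_lit 5) (nat_lit 198) (nat_lit 5) (nat_lit 302) (nat_lit 250) (nat_lit 228)))))) (XT.nd (nat_lit 468) (nat_lit 2736) (nat_lit 0) (XT.nd (nat_lit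 234) (nat_lit 1520) (nat_lit 0) (XT.nd (nat_lit 78) (nat_lit 608) (nat_lit 0) (XT.lf (nat_lit 0) (nat_lit 592857078) (nat_lit 532) (nat_lit 515637095) (nat_lit 608) (nat_lit 7799735130) (nat_lit 181) (nat_lit 5) (nat_lit 188) (nat_lit 5) (nat_lit 189) (nat_lit 5) (nat_lit 303) (nat_lit 250) (nat_lit 227)) (XT.nd (nat_lit 78) (nat_lit 608) (nat_lit 0) (XT.lf (nat_lit 0) (nat_lit 5375010839) (nat_lit 608) (nat_lit 152546191) (nat_lit 76) (nat_lit 3514392170) (nat_lit 181) (nat_lit 5) (nat_lit 189) (nat_lit 5) (nat_lit 182) (nat_lit 5) (nat_lit 304) (nat_lit 250) (nat_lit 226)) (XT.lf (nat_lit 0) (nat_lit 544786747) (nat_lit 608) (nat_lit 945842197) (nat_lit 76) (nat_lit 7689802722) (nat_lit 173) (nat_lit 5) (nat_lit 181) (nat_lit 5) (nat_lit 174) (nat_lit 5) (nat_lit 305) (nat_lit 250) (nat_lit 225)))) (XT.nd (nat_lit 78) (nat_lit 1064) (nat_lit 0) (XT.lf (nat_lit 0) (nat_lit 4808068366) (nat_lit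 532) (nat_lit 1835712945) (nat_lit 76) (nat_lit 2679380851) (nat_lit 167) (nat_lit 5) (nat_lit 174) (nat_lit 5) (nat_lit 168) (nat_lit 5) (nat_lit 306) (nat_lit 250) (nat_lit 224)) (XT.nd (nat_lit 78) (nat_lit 532) (nat_lit 0) (XT.lf (nat_lit 0) (nat_lit 6673550318) (nat_lit 532) (nat_lit 2494533289) (nat_lit 608) (nat_lit 302790776) (nat_lit 160) (nat_lit 5) (nat_lit 167) (nat_lit 5) (nat_lit 168) (nat_lit 5) (nat_lit 307) (nat_lit 250) (nat_lit 223)) (XT.lf (nat_lit 0) (nat_lit 3955094542) (nat_lit 532) (nat_lit 3865295305) (nat_lit 76) (nat_lit 1802733988) (nat_lit 153) (nat_lit 5) (nat_lit 160) (nat_lit 5) (nat_lit 154) (nat_lit 5) (nat_lit 308) (nat_lit 250) (nat_lit 222))))) (XT.nd (nat_lit 234) (nat_lit 1292) (nat_lit 0) (XT.nd (nat_lit 78) (nat_lit 988) (nat_lit 0) (XT.lf (nat_lit 0) (nat_lit 4752260086) (nat_lit 456) (nat_lit 3562935667) (nat_lit 532) (nat_lit 1465203831) (nat_lit 147)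 (nat_lit 5) (nat_lit 153) (nat_lit 5) (nat_lit 154) (nat_lit 5) (nat_lit 309) (nat_lit 250) (nat_lit 221)) (XT.nd (nat_lit 78) (nat_lit 456) (nat_lit 0) (XT.lf (nat_lit 0) (nat_lit 2794908740) (nat_lit 532) (nat_lit 6298811341) (nat_lit 76) (nat_lit 848993757) (nat_lit 140) (nat_lit 5) (nat_lit 147) (nat_lit 5) (nat_lit 141) (nat_lit 5) (nat_lit 310) (nat_lit 250) (nat_lit 220)) (XT.lf (nat_lit 0) (nat_lit 2415025770) (nat_lit 456) (nat_lit 4736488794) (nat_lit 532) (nat_lit 2958482672) (nat_lit 134) (nat_lit 5) (nat_lit 140) (nat_lit 5) (nat_lit 141) (nat_lit 5) (nat_lit 311) (nat_lit 250) (nat_lit 219)))) (XT.nd (nat_lit 156) (nat_lit 836) (nat_lit 0) (XT.nd (nat_lit 78) (nat_lit 0) (nat_lit 0) (XT.lf (nat_lit 0) (nat_lit 1082386328) (nat_lit 380) (nat_lit 222124992) (nat_lit 456) (nat_lit 8978358202) (nat_lit 128) (nat_lit 5) (nat_lit 133) (nat_lit 5) (nat_lit 134) (nat_lit 5) (nat_lit 312)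 (nat_lit 250) (nat_lit 218)) (XT.lf (nat_lit 0) (nat_lit 5653940180) (nat_lit 456) (nat_lit 397721898) (nat_lit 76) (nat_lit 4408960385) (nat_lit 128) (nat_lit 5) (nat_lit 134) (nat_lit 5) (nat_lit 129) (nat_lit 5) (nat_lit 313) (nat_lit 250) (nat_lit 217))) (XT.nd (nat_lit 78) (nat_lit 456) (nat_lit 0) (XT.lf (nat_lit 0) (nat_lit 8667374796) (nat_lit 380) (nat_lit 1443920265) (nat_lit 456) (nat_lit 532922690) (nat_lit 123) (nat_lit 5) (nat_lit 128) (nat_lit 5) (nat_lit 129) (nat_lit 5) (nat_lit 314) (nat_lit 250) (nat_lit 216)) (XT.lf (nat_lit 0) (nat_lit 3809751171) (nat_lit 456) (nat_lit 3723388574) (nat_lit 76) (nat_lit 3299905649) (nat_lit 117) (nat_lit 5) (nat_lit 123) (nat_lit 5) (nat_lit 118) (nat_lit 5) (nat_lit 315) (nat_lit 250) (nat_lit 215))))))))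
noncomputable def xc34 : XT := (XT.nd (nat_lit 2028) (nat_lit 1900) (nat_lit 0) (XT.nd (nat_lit 1014) (nat_lit 2280) (nat_lit 0) (XT.nd (nat_lit 468) (nat_lit 1596) (nat_lit 0) (XT.nd (nat_lit 234) (nat_lit 684) (nat_lit 0) (XT.nd (nat_lit 78) (nat_lit 760) (nat_lit 0) (XT.lf (nat_lit 0) (nat_lit 5413480857) (nat_lit 380) (nat_lit 2842398939) (nat_lit 456) (nat_lit 2772033494) (nat_lit 112) (nat_lit 5) (nat_lit 117) (nat_lit 5) (nat_lit 118) (nat_lit 5) (nat_lit 316) (nat_lit 250) (nat_lit 214)) (XT.nd (nat_lit 78) (nat_lit 380) (nat_lit 0) (XT.lf (nat_lit 0) (nat_lit 1570433011) (nat_lit 380) (nat_lit 7670566793) (nat_lit 76) (nat_lit 1987775522) (nat_lit 107) (nat_lit 5) (nat_lit 112) (nat_lit 5) (nat_lit 108) (nat_lit 5) (nat_lit 317) (nat_lit 250) (nat_lit 213)) (XT.lf (nat_lit 0) (nat_lit 1518586037) (nat_lit 380) (nat_lit 4478682273) (nat_lit 456) (nat_lit 5438243396) (nat_lit 102) (nat_lit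 5) (nat_lit 107) (nat_lit 5) (nat_lit 108) (nat_lit 5) (nat_lit 318) (nat_lit 250) (nat_lit 212)))) (XT.nd (nat_lit 78) (nat_lit 684) (nat_lit 0) (XT.lf (nat_lit 0) (nat_lit 10537635711) (nat_lit 456) (nat_lit 673115830) (nat_lit 76) (nat_lit 438132701) (nat_lit 102) (nat_lit 5) (nat_lit 108) (nat_lit 5) (nat_lit 103) (nat_lit 5) (nat_lit 319) (nat_lit 250) (nat_lit 211)) (XT.nd (nat_lit 78) (nat_lit 304) (nat_lit 0) (XT.lf (nat_lit 0) (nat_lit 3316788655) (nat_lit 380) (nat_lit 3064180629) (nat_lit 76) (nat_lit 5486998301) (nat_lit 97) (nat_lit 5) (nat_lit 102) (nat_lit 5) (nat_lit 98) (nat_lit 5) (nat_lit 320) (nat_lit 250) (nat_lit 210)) (XT.lf (nat_lit 0) (nat_lit 6450808033) (nat_lit 304) (nat_lit 1387023825) (nat_lit 380) (nat_lit 4256184333) (nat_lit 93) (nat_lit 5) (nat_lit 97) (nat_lit 5) (nat_lit 98) (nat_lit 5) (nat_lit 321) (nat_lit 250) (nat_lit 209))))) (XT.nd (nat_lit 234) (nat_lit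 912) (nat_lit 0) (XT.nd (nat_lit 78) (nat_lit 304) (nat_lit 0) (XT.lf (nat_lit 0) (nat_lit 165813973) (nat_lit 380) (nat_lit 8441256388) (nat_lit 76) (nat_lit 3719789821) (nat_lit 88) (nat_lit 5) (nat_lit 93) (nat_lit 5) (nat_lit 89) (nat_lit 5) (nat_lit 322) (nat_lit 250) (nat_lit 208)) (XT.nd (nat_lit 78) (nat_lit 0) (nat_lit 0) (XT.lf (nat_lit 0) (nat_lit 1082077787) (nat_lit 304) (nat_lit 3566424610) (nat_lit 380) (nat_lit 7917948835) (nat_lit 84) (nat_lit 5) (nat_lit 88) (nat_lit 5) (nat_lit 89) (nat_lit 5) (nat_lit 323) (nat_lit 250) (nat_lit 207)) (XT.lf (nat_lit 0) (nat_lit 9265643146) (nat_lit 380) (nat_lit 1921532890) (nat_lit 76) (nat_lit 1626094843) (nat_lit 84) (nat_lit 5) (nat_lit 89) (nat_lit 5) (nat_lit 85) (nat_lit 5) (nat_lit 324) (nat_lit 250) (nat_lit 206)))) (XT.nd (nat_lit 156) (nat_lit 304) (nat_lit 0) (XT.nd (nat_lit 78) (nat_lit 304) (nat_lit 0) (XT.lf (nat_lit 0) (nat_lit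 950319552) (nat_lit 304) (nat_lit 5167684664) (nat_lit 76) (nat_lit 6949224887) (nat_lit 80) (nat_lit 5) (nat_lit 84) (nat_lit 5) (nat_lit 81) (nat_lit 5) (nat_lit 325) (nat_lit 250) (nat_lit 205)) (XT.lf (nat_lit 0) (nat_lit 4648811920) (nat_lit 304) (nat_lit 864392083) (nat_lit 380) (nat_lit 7815606373) (nat_lit 76) (nat_lit 5) (nat_lit 80) (nat_lit 5) (nat_lit 81) (nat_lit 5) (nat_lit 326) (nat_lit 250) (nat_lit 204))) (XT.nd (nat_lit 78) (nat_lit 76) (nat_lit 0) (XT.lf (nat_lit 0) (nat_lit 1117097970) (nat_lit 228) (nat_lit 9103558155) (nat_lit 304) (nat_lit 3377465495) (nat_lit 73) (nat_lit 5) (nat_lit 76) (nat_lit 5) (nat_lit 77) (nat_lit 5) (nat_lit 327) (nat_lit 250) (nat_lit 203)) (XT.lf (nat_lit 0) (nat_lit 1179585962) (nat_lit 304) (nat_lit 2661381105) (nat_lit 76) (nat_lit 10034396059) (nat_lit 72) (nat_lit 5) (nat_lit 76) (nat_lit 5) (nat_lit 73) (nat_lit 5) (nat_lit 328) (nat_lit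 250) (nat_lit 202)))))) (XT.nd (nat_lit 468) (nat_lit 1216) (nat_lit 0) (XT.nd (nat_lit 234) (nat_lit 456) (nat_lit 0) (XT.nd (nat_lit 78) (nat_lit 304) (nat_lit 0) (XT.lf (nat_lit 0) (nat_lit 5824749026) (nat_lit 380) (nat_lit 6740680313) (nat_lit 76) (nat_lit 1595133717) (nat_lit 68) (nat_lit 5) (nat_lit 73) (nat_lit 5) (nat_lit 69) (nat_lit 5) (nat_lit 329) (nat_lit 250) (nat_lit 201)) (XT.nd (nat_lit 78) (nat_lit 76) (nat_lit 0) (XT.lf (nat_lit 0) (nat_lit 3307051875) (nat_lit 228) (nat_lit 7306762850) (nat_lit 304) (nat_lit 3840445745) (nat_lit 65) (nat_lit 5) (nat_lit 68) (nat_lit 5) (nat_lit 69) (nat_lit 5) (nat_lit 330) (nat_lit 250) (nat_lit 200)) (XT.lf (nat_lit 0) (nat_lit 765368174) (nat_lit 304) (nat_lit 1108634664) (nat_lit 76) (nat_lit 12882975432) (nat_lit 64) (nat_lit 5) (nat_lit 68) (nat_lit 5) (nat_lit 65) (nat_lit 5) (nat_lit 331) (nat_lit 250) (nat_lit 199)))) (XT.nd (nat_lit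 78) (nat_lit 228) (nat_lit 0) (XT.lf (nat_lit 0) (nat_lit 5483644524) (nat_lit 304) (nat_lit 5859295196) (nat_lit 76) (nat_lit 3724830866) (nat_lit 61) (nat_lit 5) (nat_lit 65) (nat_lit 5) (nat_lit 62) (nat_lit 5) (nat_lit 332) (nat_lit 250) (nat_lit 198)) (XT.nd (nat_lit 78) (nat_lit 0) (nat_lit 0) (XT.lf (nat_lit 0) (nat_lit 4415382292) (nat_lit 228) (nat_lit 5919441287) (nat_lit 304) (nat_lit 5053265106) (nat_lit 58) (nat_lit 5) (nat_lit 61) (nat_lit 5) (nat_lit 62) (nat_lit 5) (nat_lit 333) (nat_lit 250) (nat_lit 197)) (XT.lf (nat_lit 0) (nat_lit 14987521776) (nat_lit 228) (nat_lit 327394352) (nat_lit 304) (nat_lit 403460895) (nat_lit 58) (nat_lit 5) (nat_lit 61) (nat_lit 5) (nat_lit 62) (nat_lit 5) (nat_lit 334) (nat_lit 250) (nat_lit 196))))) (XT.nd (nat_lit 234) (nat_lit 684) (nat_lit 0) (XT.nd (nat_lit 78) (nat_lit 228) (nat_lit 0) (XT.lf (nat_lit 0) (nat_lit 4372722939) (nat_lit 304)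 (nat_lit 6263915192) (nat_lit 76) (nat_lit 5420505129) (nat_lit 54) (nat_lit 5) (nat_lit 58) (nat_lit 5) (nat_lit 55) (nat_lit 5) (nat_lit 335) (nat_lit 250) (nat_lit 195)) (XT.nd (nat_lit 78) (nat_lit 0) (nat_lit 0) (XT.lf (nat_lit 0) (nat_lit 4198677060) (nat_lit 228) (nat_lit 5068242272) (nat_lit 304) (nat_lit 7139521756) (nat_lit 51) (nat_lit 5) (nat_lit 54) (nat_lit 5) (nat_lit 55) (nat_lit 5) (nat_lit 336) (nat_lit 250) (nat_lit 194)) (XT.lf (nat_lit 0) (nat_lit 14301537885) (nat_lit 304) (nat_lit 1797060997) (nat_lit 76) (nat_lit 667772398) (nat_lit 51) (nat_lit 5) (nat_lit 55) (nat_lit 5) (nat_lit 52) (nat_lit 5) (nat_lit 337) (nat_lit 250) (nat_lit 193)))) (XT.nd (nat_lit 156) (nat_lit 228) (nat_lit 0) (XT.nd (nat_lit 78) (nat_lit 152) (nat_lit 0) (XT.lf (nat_lit 0) (nat_lit 2359440106) (nat_lit 304) (nat_lit 8228148027) (nat_lit 76) (nat_lit 6548426878) (nat_lit 47) (nat_lit 5) (nat_lit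 51) (nat_lit 5) (nat_lit 48) (nat_lit 5) (nat_lit 338) (nat_lit 250) (nat_lit 192)) (XT.lf (nat_lit 0) (nat_lit 2371854991) (nat_lit 152) (nat_lit 4899647551) (nat_lit 228) (nat_lit 10245412127) (nat_lit 45) (nat_lit 5) (nat_lit 47) (nat_lit 5) (nat_lit 48) (nat_lit 5) (nat_lit 339) (nat_lit 250) (nat_lit 191))) (XT.nd (nat_lit 78) (nat_lit 228) (nat_lit 0) (XT.lf (nat_lit 0) (nat_lit 12342716904) (nat_lit 228) (nat_lit 4596401008) (nat_lit 76) (nat_lit 969910349) (nat_lit 45) (nat_lit 5) (nat_lit 48) (nat_lit 5) (nat_lit 46) (nat_lit 5) (nat_lit 340) (nat_lit 250) (nat_lit 190)) (XT.lf (nat_lit 0) (nat_lit 6236023465) (nat_lit 228) (nat_lit 11354209675) (nat_lit 304) (nat_lit 722210895) (nat_lit 42) (nat_lit 5) (nat_lit 45) (nat_lit 5) (nat_lit 46) (nat_lit 5) (nat_lit 341) (nat_lit 250) (nat_lit 189))))))) (XT.nd (nat_lit 1014) (nat_lit 456) (nat_lit 0) (XT.nd (nat_lit 468) (nat_lit 760) (nat_lit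 0) (XT.nd (nat_lit 234) (nat_lit 228) (nat_lit 0) (XT.nd (nat_lit 78) (nat_lit 380) (nat_lit 0) (XT.lf (nat_lit 0) (nat_lit 4194078784) (nat_lit 304) (nat_lit 1379968795) (nat_lit 76) (nat_lit 13153724981) (nat_lit 41) (nat_lit 5) (nat_lit 45) (nat_lit 5) (nat_lit 42) (nat_lit 5) (nat_lit 342) (nat_lit 250) (nat_lit 188)) (XT.nd (nat_lit 78) (nat_lit 228) (nat_lit 0) (XT.lf (nat_lit 0) (nat_lit 9266554401) (nat_lit 228) (nat_lit 9477058350) (nat_lit 76) (nat_lit 411502938) (nat_lit 39) (nat_lit 5) (nat_lit 42) (nat_lit 5) (nat_lit 40) (nat_lit 5) (nat_lit 343) (nat_lit 250) (nat_lit 187)) (XT.lf (nat_lit 0) (nat_lit 1394412139) (nat_lit 228) (nat_lit 13106093543) (nat_lit 304) (nat_lit 5094607212) (nat_lit 36) (nat_lit 5) (nat_lit 39) (nat_lit 5) (nat_lit 40) (nat_lit 5) (nat_lit 344) (nat_lit 250) (nat_lit 186)))) (XT.nd (nat_lit 78) (nat_lit 228) (nat_lit 0) (XT.lf (nat_lit 0) (nat_lit 12644859082)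 (nat_lit 228) (nat_lit 7265248178) (nat_lit 304) (nat_lit 137849358) (nat_lit 36) (nat_lit 5) (nat_lit 39) (nat_lit 5) (nat_lit 40) (nat_lit 5) (nat_lit 345) (nat_lit 250) (nat_lit 185)) (XT.nd (nat_lit 78) (nat_lit 0) (nat_lit 0) (XT.lf (nat_lit 0) (nat_lit 3658905732) (nat_lit 152) (nat_lit 1222738901) (nat_lit 228) (nat_lit 15632530579) (nat_lit 33) (nat_lit 5) (nat_lit 35) (nat_lit 5) (nat_lit 36) (nat_lit 5) (nat_lit 346) (nat_lit 250) (nat_lit 184)) (XT.lf (nat_lit 0) (nat_lit 10088878649) (nat_lit 228) (nat_lit 5947734772) (nat_lit 76) (nat_lit 4956985935) (nat_lit 33) (nat_lit 5) (nat_lit 36) (nat_lit 5) (nat_lit 34) (nat_lit 5) (nat_lit 347) (nat_lit 250) (nat_lit 183))))) (XT.nd (nat_lit 234) (nat_lit 380) (nat_lit 0) (XT.nd (nat_lit 78) (nat_lit 228) (nat_lit 0) (XT.lf (nat_lit 0) (nat_lit 5275477232) (nat_lit 152) (nat_lit 10176610770) (nat_lit 228) (nat_lit 6035340314) (nat_lit 31)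 (nat_lit 5) (nat_lit 33) (nat_lit 5) (nat_lit 34) (nat_lit 5) (nat_lit 348) (nat_lit 250) (nat_lit 182)) (XT.nd (nat_lit 78) (nat_lit 228) (nat_lit 0) (XT.lf (nat_lit 0) (nat_lit 16845415756) (nat_lit 152) (nat_lit 4129190395) (nat_lit 228) (nat_lit 1021514499) (nat_lit 31) (nat_lit 5) (nat_lit 33) (nat_lit 5) (nat_lit 34) (nat_lit 5) (nat_lit 349) (nat_lit 250) (nat_lit 181)) (XT.lf (nat_lit 0) (nat_lit 4101759237) (nat_lit 228) (nat_lit 16306163902) (nat_lit 76) (nat_lit 2111361302) (nat_lit 28) (nat_lit 5) (nat_lit 31) (nat_lit 5) (nat_lit 29) (nat_lit 5) (nat_lit 350) (nat_lit 250) (nat_lit 180)))) (XT.nd (nat_lit 156) (nat_lit 228) (nat_lit 0) (XT.nd (nat_lit 78) (nat_lit 152) (nat_lit 0) (XT.lf (nat_lit 0) (nat_lit 9387284592) (nat_lit 228) (nat_lit 5173122401) (nat_lit 76) (nat_lit 8497167957) (nat_lit 28) (nat_lit 5) (nat_lit 31) (nat_lit 5) (nat_lit 29) (nat_lit 5) (nat_lit 351) (nat_lit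 250) (nat_lit 179)) (XT.lf (nat_lit 0) (nat_lit 6309312954) (nat_lit 152) (nat_lit 8523808553) (nat_lit 228) (nat_lit 8778872785) (nat_lit 26) (nat_lit 5) (nat_lit 28) (nat_lit 5) (nat_lit 29) (nat_lit 5) (nat_lit 352) (nat_lit 250) (nat_lit 178))) (XT.nd (nat_lit 78) (nat_lit 228) (nat_lit 0) (XT.lf (nat_lit 0) (nat_lit 18140779320) (nat_lit 152) (nat_lit 2298102605) (nat_lit 228) (nat_lit 3744247918) (nat_lit 26) (nat_lit 5) (nat_lit 28) (nat_lit 5) (nat_lit 29) (nat_lit 5) (nat_lit 353) (nat_lit 250) (nat_lit 177)) (XT.lf (nat_lit 0) (nat_lit 1447765566) (nat_lit 228) (nat_lit 19243653336) (nat_lit 76) (nat_lit 4079302190) (nat_lit 23) (nat_lit 5) (nat_lit 26) (nat_lit 5) (nat_lit 24) (nat_lit 5) (nat_lit 354) (nat_lit 250) (nat_lit 176)))))) (XT.nd (nat_lit 468) (nat_lit 152) (nat_lit 0) (XT.nd (nat_lit 234) (nat_lit 152) (nat_lit 0) (XT.nd (nat_lit 78) (nat_lit 152) (nat_lit 0) (XT.lf (nat_lit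 0) (nat_lit 6764406120) (nat_lit 228) (nat_lit 7953886779) (nat_lit 76) (nat_lit 10656770953) (nat_lit 23) (nat_lit 5) (nat_lit 26) (nat_lit 5) (nat_lit 24) (nat_lit 5) (nat_lit 355) (nat_lit 250) (nat_lit 175)) (XT.nd (nat_lit 78) (nat_lit 0) (nat_lit 0) (XT.lf (nat_lit 0) (nat_lit 3660086342) (nat_lit 152) (nat_lit 8568166829) (nat_lit 228) (nat_lit 13769542673) (nat_lit 21) (nat_lit 5) (nat_lit 23) (nat_lit 5) (nat_lit 24) (nat_lit 5) (nat_lit 356) (nat_lit 250) (nat_lit 174)) (XT.lf (nat_lit 0) (nat_lit 15669877406) (nat_lit 152) (nat_lit 2204630898) (nat_lit 228) (nat_lit 8764344352) (nat_lit 21) (nat_lit 5) (nat_lit 23) (nat_lit 5) (nat_lit 24) (nat_lit 5) (nat_lit 357) (nat_lit 250) (nat_lit 173)))) (XT.nd (nat_lit 78) (nat_lit 76) (nat_lit 0) (XT.lf (nat_lit 0) (nat_lit 661028415) (nat_lit 76) (nat_lit 23027117882) (nat_lit 152) (nat_lit 3611047314) (nat_lit 20) (nat_lit 5) (nat_lit 21)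 (nat_lit 5) (nat_lit 22) (nat_lit 4) (nat_lit 358) (nat_lit 250) (nat_lit 172)) (XT.nd (nat_lit 78) (nat_lit 0) (nat_lit 0) (XT.lf (nat_lit 0) (nat_lit 1730005387) (nat_lit 152) (nat_lit 15273742502) (nat_lit 76) (nat_lit 10974280089) (nat_lit 19) (nat_lit 5) (nat_lit 21) (nat_lit 5) (nat_lit 20) (nat_lit 5) (nat_lit 359) (nat_lit 250) (nat_lit 171)) (XT.lf (nat_lit 0) (nat_lit 7149350513) (nat_lit 152) (nat_lit 3650505596) (nat_lit 76) (nat_lit 17877562876) (nat_lit 19) (nat_lit 5) (nat_lit 21) (nat_lit 5) (nat_lit 20) (nat_lit 5) (nat_lit 360) (nat_lit 250) (nat_lit 170))))) (XT.nd (nat_lit 34242) (nat_lit 0) (nat_lit 30780) (XT.nd (nat_lit 78) (nat_lit 0) (nat_lit 0) (XT.lf (nat_lit 0) (nat_lit 8374986514) (nat_lit 152) (nat_lit 4378472400) (nat_lit 228) (nat_lit 16643900224) (nat_lit 17) (nat_lit 5) (nat_lit 19) (nat_lit 5) (nat_lit 20) (nat_lit 5) (nat_lit 361) (nat_lit 250) (nat_lit 169))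 (XT.nd (nat_lit 34086) (nat_lit 0) (nat_lit 35948) (XT.lf (nat_lit 0) (nat_lit 18533336966) (nat_lit 228) (nat_lit 9397726269) (nat_lit 76) (nat_lit 2207692086) (nat_lit 17) (nat_lit 5) (nat_lit 20) (nat_lit 5) (nat_lit 18) (nat_lit 4) (nat_lit 362) (nat_lit 250) (nat_lit 168)) (XT.lf (nat_lit 0) (nat_lit 766800449) (nat_lit 1140) (nat_lit 1873351919) (nat_lit 0) (nat_lit 766800449) (nat_lit 490) (nat_lit 5) (nat_lit 505) (nat_lit 4) (nat_lit 490) (nat_lit 4) (nat_lit 278) (nat_lit 251) (nat_lit 251)))) (XT.nd (nat_lit 156) (nat_lit 2736) (nat_lit 0) (XT.nd (nat_lit 78) (nat_lit 1292) (nat_lit 0) (XT.lf (nat_lit 0) (nat_lit 2514142766) (nat_lit 1140) (nat_lit 3595834880) (nat_lit 1140) (nat_lit 747570317) (nat_lit 475) (nat_lit 4) (nat_lit 490) (nat_lit 5) (nat_lit 490) (nat_lit 4) (nat_lit 279) (nat_lit 251) (nat_lit 250)) (XT.lf (nat_lit 0) (nat_lit 1986238265) (nat_lit 1216) (nat_lit 1776043036)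 (nat_lit 1292) (nat_lit 3142075572) (nat_lit 458) (nat_lit 5) (nat_lit 474) (nat_lit 5) (nat_lit 475) (nat_lit 4) (nat_lit 280) (nat_lit 251) (nat_lit 249))) (XT.nd (nat_lit 78) (nat_lit 1368) (nat_lit 0) (XT.lf (nat_lit 0) (nat_lit 1322695861) (nat_lit 1368) (nat_lit 5463774448) (nat_lit 76) (nat_lit 168083656) (nat_lit 440) (nat_lit 5) (nat_lit 458) (nat_lit 5) (nat_lit 441) (nat_lit 4) (nat_lit 281) (nat_lit 251) (nat_lit 248)) (XT.lf (nat_lit 0) (nat_lit 1006343266) (nat_lit 1368) (nat_lit 4784458607) (nat_lit 1444) (nat_lit 1216999315) (nat_lit 422) (nat_lit 5) (nat_lit 440) (nat_lit 5) (nat_lit 441) (nat_lit 4) (nat_lit 282) (nat_lit 251) (nat_lit 247))))))))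
noncomputable def xc35 : XT := (XT.nd (nat_lit 2028) (nat_lit 7220) (nat_lit 0) (XT.nd (nat_lit 1014) (nat_lit 7296) (nat_lit 0) (XT.nd (nat_lit 468) (nat_lit 5624) (nat_lit 0) (XT.nd (nat_lit 234) (nat_lit 4408) (nat_lit 0) (XT.nd (nat_lit 78) (nat_lit 1596) (nat_lit 0) (XT.lf (nat_lit 0) (nat_lit 541303205) (nat_lit 1444) (nat_lit 2648154811) (nat_lit 1520) (nat_lit 3874890262) (nat_lit 402) (nat_lit 5) (nat_lit 421) (nat_lit 5) (nat_lit 422) (nat_lit 5) (nat_lit 283) (nat_lit 251) (nat_lit 246)) (XT.nd (nat_lit 78) (nat_lit 0) (nat_lit 0) (XT.lf (nat_lit 0) (nat_lit 102585990) (nat_lit 1520) (nat_lit 384650313) (nat_lit 1596) (nat_lit 6637183992) (nat_lit 381) (nat_lit 5) (nat_lit 401) (nat_lit 5) (nat_lit 402) (nat_lit 5) (nat_lit 284) (nat_lit 251) (nat_lit 245)) (XT.lf (nat_lit 0) (nat_lit 4852383112) (nat_lit 1596) (nat_lit 336092511) (nat_lit 76) (nat_lit 1998987545) (nat_lit 381) (nat_lit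 5) (nat_lit 402) (nat_lit 5) (nat_lit 382) (nat_lit 5) (nat_lit 285) (nat_lit 251) (nat_lit 244)))) (XT.nd (nat_lit 78) (nat_lit 2736) (nat_lit 0) (XT.lf (nat_lit 0) (nat_lit 1983931102) (nat_lit 1672) (nat_lit 758668701) (nat_lit 76) (nat_lit 4511387096) (nat_lit 359) (nat_lit 5) (nat_lit 381) (nat_lit 5) (nat_lit 360) (nat_lit 5) (nat_lit 286) (nat_lit 251) (nat_lit 243)) (XT.nd (nat_lit 78) (nat_lit 1064) (nat_lit 0) (XT.lf (nat_lit 0) (nat_lit 6154689421) (nat_lit 1672) (nat_lit 161720060) (nat_lit 1748) (nat_lit 1007639283) (nat_lit 337) (nat_lit 5) (nat_lit 359) (nat_lit 5) (nat_lit 360) (nat_lit 5) (nat_lit 287) (nat_lit 251) (nat_lit 242)) (XT.lf (nat_lit 0) (nat_lit 3273004094) (nat_lit 1064) (nat_lit 1594165466) (nat_lit 76) (nat_lit 2530064975) (nat_lit 323) (nat_lit 5) (nat_lit 337) (nat_lit 5) (nat_lit 324) (nat_lit 5) (nat_lit 288) (nat_lit 251) (nat_lit 241))))) (XT.nd (nat_lit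 234) (nat_lit 3040) (nat_lit 0) (XT.nd (nat_lit 78) (nat_lit 1672) (nat_lit 0) (XT.lf (nat_lit 0) (nat_lit 115253975) (nat_lit 912) (nat_lit 2007477834) (nat_lit 76) (nat_lit 5351435016) (nat_lit 311) (nat_lit 5) (nat_lit 323) (nat_lit 5) (nat_lit 312) (nat_lit 5) (nat_lit 289) (nat_lit 251) (nat_lit 240)) (XT.nd (nat_lit 78) (nat_lit 836) (nat_lit 0) (XT.lf (nat_lit 0) (nat_lit 4355147650) (nat_lit 912) (nat_lit 2436312568) (nat_lit 76) (nat_lit 762960361) (nat_lit 300) (nat_lit 5) (nat_lit 312) (nat_lit 5) (nat_lit 301) (nat_lit 5) (nat_lit 290) (nat_lit 251) (nat_lit 239)) (XT.lf (nat_lit 0) (nat_lit 1011724616) (nat_lit 836) (nat_lit 2873378698) (nat_lit 76) (nat_lit 3753158640) (nat_lit 289) (nat_lit 5) (nat_lit 300) (nat_lit 5) (nat_lit 290) (nat_lit 5) (nat_lit 291) (nat_lit 251) (nat_lit 238)))) (XT.nd (nat_lit 156) (nat_lit 1520) (nat_lit 0) (XT.nd (nat_lit 78) (nat_lit 760) (nat_lit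 0) (XT.lf (nat_lit 0) (nat_lit 4403015854) (nat_lit 760) (nat_lit 832213110) (nat_lit 836) (nat_lit 2490506752) (nat_lit 279) (nat_lit 5) (nat_lit 289) (nat_lit 5) (nat_lit 290) (nat_lit 5) (nat_lit 292) (nat_lit 251) (nat_lit 237)) (XT.lf (nat_lit 0) (nat_lit 1693437296) (nat_lit 760) (nat_lit 3793508283) (nat_lit 76) (nat_lit 2329844032) (nat_lit 269) (nat_lit 5) (nat_lit 279) (nat_lit 5) (nat_lit 270) (nat_lit 5) (nat_lit 293) (nat_lit 251) (nat_lit 236))) (XT.nd (nat_lit 78) (nat_lit 760) (nat_lit 0) (XT.lf (nat_lit 0) (nat_lit 3625903804) (nat_lit 760) (nat_lit 2283478336) (nat_lit 836) (nat_lit 2002180218) (nat_lit 259) (nat_lit 5) (nat_lit 269) (nat_lit 5) (nat_lit 270) (nat_lit 5) (nat_lit 294) (nat_lit 251) (nat_lit 235)) (XT.lf (nat_lit 0) (nat_lit 2156847162) (nat_lit 760) (nat_lit 4802455029) (nat_lit 76) (nat_lit 1050829164) (nat_lit 249) (nat_lit 5) (nat_lit 259) (nat_lit 5) (nat_lit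 250) (nat_lit 5) (nat_lit 295) (nat_lit 251) (nat_lit 234)))))) (XT.nd (nat_lit 468) (nat_lit 3876) (nat_lit 0) (XT.nd (nat_lit 234) (nat_lit 1368) (nat_lit 0) (XT.nd (nat_lit 78) (nat_lit 1368) (nat_lit 0) (XT.lf (nat_lit 0) (nat_lit 2756672227) (nat_lit 684) (nat_lit 3611620459) (nat_lit 760) (nat_lit 1744116594) (nat_lit 240) (nat_lit 5) (nat_lit 249) (nat_lit 5) (nat_lit 250) (nat_lit 5) (nat_lit 296) (nat_lit 251) (nat_lit 233)) (XT.nd (nat_lit 78) (nat_lit 684) (nat_lit 0) (XT.lf (nat_lit 0) (nat_lit 2281218762) (nat_lit 608) (nat_lit 115872429) (nat_lit 684) (nat_lit 5821621296) (nat_lit 231) (nat_lit 5) (nat_lit 239) (nat_lit 5) (nat_lit 240) (nat_lit 5) (nat_lit 297) (nat_lit 251) (nat_lit 232)) (XT.lf (nat_lit 0) (nat_lit 1758045037) (nat_lit 684) (nat_lit 4847520679) (nat_lit 760) (nat_lit 1723178890) (nat_lit 222) (nat_lit 5) (nat_lit 231) (nat_lit 5) (nat_lit 232) (nat_lit 5) (nat_lit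 298) (nat_lit 251) (nat_lit 231)))) (XT.nd (nat_lit 78) (nat_lit 684) (nat_lit 0) (XT.lf (nat_lit 0) (nat_lit 1199871185) (nat_lit 608) (nat_lit 1212130820) (nat_lit 684) (nat_lit 6030920145) (nat_lit 213) (nat_lit 5) (nat_lit 221) (nat_lit 5) (nat_lit 222) (nat_lit 5) (nat_lit 299) (nat_lit 251) (nat_lit 230)) (XT.nd (nat_lit 78) (nat_lit 76) (nat_lit 0) (XT.lf (nat_lit 0) (nat_lit 590321015) (nat_lit 608) (nat_lit 6022282786) (nat_lit 684) (nat_lit 1948494833) (nat_lit 205) (nat_lit 5) (nat_lit 213) (nat_lit 5) (nat_lit 214) (nat_lit 5) (nat_lit 300) (nat_lit 251) (nat_lit 229)) (XT.lf (nat_lit 0) (nat_lit 2185267390) (nat_lit 684) (nat_lit 69520914) (nat_lit 76) (nat_lit 6428662243) (nat_lit 204) (nat_lit 5) (nat_lit 213) (nat_lit 5) (nat_lit 205) (nat_lit 5) (nat_lit 301) (nat_lit 251) (nat_lit 228))))) (XT.nd (nat_lit 234) (nat_lit 2128) (nat_lit 0) (XT.nd (nat_lit 78) (nat_lit 1216) (nat_lit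 0) (XT.lf (nat_lit 0) (nat_lit 6383607331) (nat_lit 608) (nat_lit 778674182) (nat_lit 76) (nat_lit 1647682763) (nat_lit 197) (nat_lit 5) (nat_lit 205) (nat_lit 5) (nat_lit 198) (nat_lit 5) (nat_lit 302) (nat_lit 251) (nat_lit 227)) (XT.nd (nat_lit 78) (nat_lit 532) (nat_lit 0) (XT.lf (nat_lit 0) (nat_lit 1713468259) (nat_lit 684) (nat_lit 1553242252) (nat_lit 76) (nat_lit 5674038114) (nat_lit 188) (nat_lit 5) (nat_lit 197) (nat_lit 5) (nat_lit 189) (nat_lit 5) (nat_lit 303) (nat_lit 251) (nat_lit 226)) (XT.lf (nat_lit 0) (nat_lit 5905566106) (nat_lit 608) (nat_lit 2393942174) (nat_lit 76) (nat_lit 776489404) (nat_lit 181) (nat_lit 5) (nat_lit 189) (nat_lit 5) (nat_lit 182) (nat_lit 5) (nat_lit 304) (nat_lit 251) (nat_lit 225)))) (XT.nd (nat_lit 156) (nat_lit 1064) (nat_lit 0) (XT.nd (nat_lit 78) (nat_lit 456) (nat_lit 0) (XT.lf (nat_lit 0) (nat_lit 974293644) (nat_lit 608) (nat_lit 3314029449)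 (nat_lit 76) (nat_lit 4927341168) (nat_lit 173) (nat_lit 5) (nat_lit 181) (nat_lit 5) (nat_lit 174) (nat_lit 5) (nat_lit 305) (nat_lit 251) (nat_lit 224)) (XT.lf (nat_lit 0) (nat_lit 5047201047) (nat_lit 456) (nat_lit 112471284) (nat_lit 532) (nat_lit 4200318176) (nat_lit 167) (nat_lit 5) (nat_lit 173) (nat_lit 5) (nat_lit 174) (nat_lit 5) (nat_lit 306) (nat_lit 251) (nat_lit 223))) (XT.nd (nat_lit 78) (nat_lit 532) (nat_lit 0) (XT.lf (nat_lit 0) (nat_lit 4105848037) (nat_lit 532) (nat_lit 5352957173) (nat_lit 608) (nat_lit 50151758) (nat_lit 160) (nat_lit 5) (nat_lit 167) (nat_lit 5) (nat_lit 168) (nat_lit 5) (nat_lit 307) (nat_lit 251) (nat_lit 222)) (XT.lf (nat_lit 0) (nat_lit 3069737926) (nat_lit 456) (nat_lit 1062390772) (nat_lit 532) (nat_lit 5530525575) (nat_lit 153) (nat_lit 5) (nat_lit 159) (nat_lit 5) (nat_lit 160) (nat_lit 5) (nat_lit 308) (nat_lit 251) (nat_lit 221))))))) (XT.nd (nat_lit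 1014) (nat_lit 2660) (nat_lit 0) (XT.nd (nat_lit 468) (nat_lit 2280) (nat_lit 0) (XT.nd (nat_lit 234) (nat_lit 1292) (nat_lit 0) (XT.nd (nat_lit 78) (nat_lit 532) (nat_lit 0) (XT.lf (nat_lit 0) (nat_lit 1937420155) (nat_lit 456) (nat_lit 6487525945) (nat_lit 532) (nat_lit 1396363414) (nat_lit 147) (nat_lit 5) (nat_lit 153) (nat_lit 5) (nat_lit 154) (nat_lit 5) (nat_lit 309) (nat_lit 251) (nat_lit 220)) (XT.nd (nat_lit 78) (nat_lit 0) (nat_lit 0) (XT.lf (nat_lit 0) (nat_lit 697834001) (nat_lit 456) (nat_lit 2098707326) (nat_lit 532) (nat_lit 7188431790) (nat_lit 140) (nat_lit 5) (nat_lit 146) (nat_lit 5) (nat_lit 147) (nat_lit 5) (nat_lit 310) (nat_lit 251) (nat_lit 219)) (XT.lf (nat_lit 0) (nat_lit 7083034649) (nat_lit 532) (nat_lit 648029358) (nat_lit 76) (nat_lit 2422626006) (nat_lit 140) (nat_lit 5) (nat_lit 147) (nat_lit 5) (nat_lit 141) (nat_lit 5) (nat_lit 311) (nat_lit 251) (nat_lit 218))))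 (XT.nd (nat_lit 78) (nat_lit 760) (nat_lit 0) (XT.lf (nat_lit 0) (nat_lit 1142216074) (nat_lit 532) (nat_lit 2102823436) (nat_lit 76) (nat_lit 7082598974) (nat_lit 133) (nat_lit 5) (nat_lit 140) (nat_lit 5) (nat_lit 134) (nat_lit 5) (nat_lit 312) (nat_lit 251) (nat_lit 217)) (XT.nd (nat_lit 78) (nat_lit 380) (nat_lit 0) (XT.lf (nat_lit 0) (nat_lit 5418527338) (nat_lit 456) (nat_lit 3692330538) (nat_lit 76) (nat_lit 1396024779) (nat_lit 128) (nat_lit 5) (nat_lit 134) (nat_lit 5) (nat_lit 129) (nat_lit 5) (nat_lit 313) (nat_lit 251) (nat_lit 216)) (XT.lf (nat_lit 0) (nat_lit 5273766928) (nat_lit 380) (nat_lit 4541669266) (nat_lit 456) (nat_lit 876278708) (nat_lit 123) (nat_lit 5) (nat_lit 128) (nat_lit 5) (nat_lit 129) (nat_lit 5) (nat_lit 314) (nat_lit 251) (nat_lit 215))))) (XT.nd (nat_lit 234) (nat_lit 1368) (nat_lit 0) (XT.nd (nat_lit 78) (nat_lit 456) (nat_lit 0) (XT.lf (nat_lit 0) (nat_lit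 3389615207) (nat_lit 456) (nat_lit 7291224081) (nat_lit 76) (nat_lit 201400192) (nat_lit 117) (nat_lit 5) (nat_lit 123) (nat_lit 5) (nat_lit 118) (nat_lit 5) (nat_lit 315) (nat_lit 251) (nat_lit 214)) (XT.nd (nat_lit 78) (nat_lit 76) (nat_lit 0) (XT.lf (nat_lit 0) (nat_lit 1743589848) (nat_lit 380) (nat_lit 6031062828) (nat_lit 456) (nat_lit 3303702434) (nat_lit 112) (nat_lit 5) (nat_lit 117) (nat_lit 5) (nat_lit 118) (nat_lit 5) (nat_lit 316) (nat_lit 251) (nat_lit 213)) (XT.lf (nat_lit 0) (nat_lit 972681110) (nat_lit 456) (nat_lit 245737756) (nat_lit 76) (nat_lit 10062353097) (nat_lit 111) (nat_lit 5) (nat_lit 117) (nat_lit 5) (nat_lit 112) (nat_lit 5) (nat_lit 317) (nat_lit 251) (nat_lit 212)))) (XT.nd (nat_lit 156) (nat_lit 684) (nat_lit 0) (XT.nd (nat_lit 78) (nat_lit 380) (nat_lit 0) (XT.lf (nat_lit 0) (nat_lit 5343950407) (nat_lit 380) (nat_lit 2405981084) (nat_lit 76) (nat_lit 3738712117)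 (nat_lit 107) (nat_lit 5) (nat_lit 112) (nat_lit 5) (nat_lit 108) (nat_lit 5) (nat_lit 318) (nat_lit 251) (nat_lit 211)) (XT.lf (nat_lit 0) (nat_lit 6969701308) (nat_lit 380) (nat_lit 2860449872) (nat_lit 456) (nat_lit 1872971541) (nat_lit 102) (nat_lit 5) (nat_lit 107) (nat_lit 5) (nat_lit 108) (nat_lit 5) (nat_lit 319) (nat_lit 251) (nat_lit 210))) (XT.nd (nat_lit 78) (nat_lit 304) (nat_lit 0) (XT.lf (nat_lit 0) (nat_lit 2484472221) (nat_lit 380) (nat_lit 7262239181) (nat_lit 76) (nat_lit 2177227373) (nat_lit 97) (nat_lit 5) (nat_lit 102) (nat_lit 5) (nat_lit 98) (nat_lit 5) (nat_lit 320) (nat_lit 251) (nat_lit 209)) (XT.lf (nat_lit 0) (nat_lit 2145099371) (nat_lit 304) (nat_lit 4798361333) (nat_lit 380) (nat_lit 5207789253) (nat_lit 93) (nat_lit 5) (nat_lit 97) (nat_lit 5) (nat_lit 98) (nat_lit 5) (nat_lit 321) (nat_lit 251) (nat_lit 208)))))) (XT.nd (nat_lit 468) (nat_lit 1368) (nat_lit 0)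 (XT.nd (nat_lit 234) (nat_lit 608) (nat_lit 0) (XT.nd (nat_lit 78) (nat_lit 684) (nat_lit 0) (XT.lf (nat_lit 0) (nat_lit 11519601831) (nat_lit 380) (nat_lit 555981568) (nat_lit 76) (nat_lit 310171754) (nat_lit 93) (nat_lit 5) (nat_lit 98) (nat_lit 5) (nat_lit 94) (nat_lit 5) (nat_lit 322) (nat_lit 251) (nat_lit 207)) (XT.nd (nat_lit 78) (nat_lit 304) (nat_lit 0) (XT.lf (nat_lit 0) (nat_lit 3584058400) (nat_lit 380) (nat_lit 3484971347) (nat_lit 76) (nat_lit 5557325510) (nat_lit 88) (nat_lit 5) (nat_lit 93) (nat_lit 5) (nat_lit 89) (nat_lit 5) (nat_lit 323) (nat_lit 251) (nat_lit 206)) (XT.lf (nat_lit 0) (nat_lit 6239544536) (nat_lit 304) (nat_lit 1895542238) (nat_lit 380) (nat_lit 4739429651) (nat_lit 84) (nat_lit 5) (nat_lit 88) (nat_lit 5) (nat_lit 89) (nat_lit 5) (nat_lit 324) (nat_lit 251) (nat_lit 205)))) (XT.nd (nat_lit 78) (nat_lit 380) (nat_lit 0) (XT.lf (nat_lit 0) (nat_lit 3092830377)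 (nat_lit 228) (nat_lit 9731709807) (nat_lit 304) (nat_lit 305582346) (nat_lit 81) (nat_lit 5) (nat_lit 84) (nat_lit 5) (nat_lit 85) (nat_lit 5) (nat_lit 325) (nat_lit 251) (nat_lit 204)) (XT.nd (nat_lit 78) (nat_lit 304) (nat_lit 0) (XT.lf (nat_lit 0) (nat_lit 4199863627) (nat_lit 304) (nat_lit 328257294) (nat_lit 76) (nat_lit 8864869299) (nat_lit 80) (nat_lit 5) (nat_lit 84) (nat_lit 5) (nat_lit 81) (nat_lit 5) (nat_lit 326) (nat_lit 251) (nat_lit 203)) (XT.lf (nat_lit 0) (nat_lit 8843328880) (nat_lit 380) (nat_lit 3967615214) (nat_lit 76) (nat_lit 852654401) (nat_lit 76) (nat_lit 5) (nat_lit 81) (nat_lit 5) (nat_lit 77) (nat_lit 5) (nat_lit 327) (nat_lit 251) (nat_lit 202))))) (XT.nd (nat_lit 234) (nat_lit 760) (nat_lit 0) (XT.nd (nat_lit 78) (nat_lit 380) (nat_lit 0) (XT.lf (nat_lit 0) (nat_lit 6037029815) (nat_lit 228) (nat_lit 7600136264) (nat_lit 304) (nat_lit 304971659) (nat_lit 73) (nat_lit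 5) (nat_lit 76) (nat_lit 5) (nat_lit 77) (nat_lit 5) (nat_lit 328) (nat_lit 251) (nat_lit 201)) (XT.nd (nat_lit 78) (nat_lit 0) (nat_lit 0) (XT.lf (nat_lit 0) (nat_lit 2072108790) (nat_lit 304) (nat_lit 2197281954) (nat_lit 380) (nat_lit 9959498515) (nat_lit 68) (nat_lit 5) (nat_lit 72) (nat_lit 5) (nat_lit 73) (nat_lit 5) (nat_lit 329) (nat_lit 251) (nat_lit 200)) (XT.lf (nat_lit 0) (nat_lit 8993657548) (nat_lit 380) (nat_lit 2184340808) (nat_lit 76) (nat_lit 3345899809) (nat_lit 68) (nat_lit 5) (nat_lit 73) (nat_lit 5) (nat_lit 69) (nat_lit 5) (nat_lit 330) (nat_lit 251) (nat_lit 199)))) (XT.nd (nat_lit 156) (nat_lit 228) (nat_lit 0) (XT.nd (nat_lit 78) (nat_lit 304) (nat_lit 0) (XT.lf (nat_lit 0) (nat_lit 8087621364) (nat_lit 228) (nat_lit 5781959614) (nat_lit 304) (nat_lit 958008364) (nat_lit 65) (nat_lit 5) (nat_lit 68) (nat_lit 5) (nat_lit 69) (nat_lit 5) (nat_lit 331) (nat_lit 251) (nat_lit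 198)) (XT.lf (nat_lit 0) (nat_lit 3488513276) (nat_lit 228) (nat_lit 194636583) (nat_lit 304) (nat_lit 11457164186) (nat_lit 61) (nat_lit 5) (nat_lit 64) (nat_lit 5) (nat_lit 65) (nat_lit 5) (nat_lit 332) (nat_lit 251) (nat_lit 197))) (XT.nd (nat_lit 78) (nat_lit 228) (nat_lit 0) (XT.lf (nat_lit 0) (nat_lit 8476941653) (nat_lit 304) (nat_lit 1477998671) (nat_lit 76) (nat_lit 5506853486) (nat_lit 61) (nat_lit 5) (nat_lit 65) (nat_lit 5) (nat_lit 62) (nat_lit 5) (nat_lit 333) (nat_lit 251) (nat_lit 196)) (XT.lf (nat_lit 0) (nat_lit 9030986008) (nat_lit 228) (nat_lit 4389385728) (nat_lit 304) (nat_lit 2372457174) (nat_lit 58) (nat_lit 5) (nat_lit 61) (nat_lit 5) (nat_lit 62) (nat_lit 5) (nat_lit 334) (nat_lit 251) (nat_lit 195))))))))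
noncomputable def xc36 : XT := (XT.nd (nat_lit 2028) (nat_lit 152) (nat_lit 0) (XT.nd (nat_lit 1014) (nat_lit 1064) (nat_lit 0) (XT.nd (nat_lit 468) (nat_lit 912) (nat_lit 0) (XT.nd (nat_lit 234) (nat_lit 456) (nat_lit 0) (XT.nd (nat_lit 78) (nat_lit 228) (nat_lit 0) (XT.lf (nat_lit 0) (nat_lit 2336508823) (nat_lit 304) (nat_lit 12454489565) (nat_lit 76) (nat_lit 1342726135) (nat_lit 54) (nat_lit 5) (nat_lit 58) (nat_lit 5) (nat_lit 55) (nat_lit 5) (nat_lit 335) (nat_lit 251) (nat_lit 194)) (XT.nd (nat_lit 78) (nat_lit 228) (nat_lit 0) (XT.lf (nat_lit 0) (nat_lit 7177494991) (nat_lit 304) (nat_lit 2089306012) (nat_lit 76) (nat_lit 7217298043) (nat_lit 54) (nat_lit 5) (nat_lit 58) (nat_lit 5) (nat_lit 55) (nat_lit 5) (nat_lit 336) (nat_lit 251) (nat_lit 193)) (XT.lf (nat_lit 0) (nat_lit 8616387196) (nat_lit 228) (nat_lit 3552123402) (nat_lit 304) (nat_lit 4676402821) (nat_lit 51) (nat_lit 5) (nat_lit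 54) (nat_lit 5) (nat_lit 55) (nat_lit 5) (nat_lit 337) (nat_lit 251) (nat_lit 192)))) (XT.nd (nat_lit 78) (nat_lit 152) (nat_lit 0) (XT.lf (nat_lit 0) (nat_lit 85949407) (nat_lit 304) (nat_lit 14828506946) (nat_lit 76) (nat_lit 2302218047) (nat_lit 47) (nat_lit 5) (nat_lit 51) (nat_lit 5) (nat_lit 48) (nat_lit 5) (nat_lit 338) (nat_lit 251) (nat_lit 191)) (XT.nd (nat_lit 78) (nat_lit 152) (nat_lit 0) (XT.lf (nat_lit 0) (nat_lit 4958077065) (nat_lit 304) (nat_lit 4300132055) (nat_lit 76) (nat_lit 8340174838) (nat_lit 47) (nat_lit 5) (nat_lit 51) (nat_lit 5) (nat_lit 48) (nat_lit 5) (nat_lit 339) (nat_lit 251) (nat_lit 190)) (XT.lf (nat_lit 0) (nat_lit 6550138903) (nat_lit 152) (nat_lit 3420401863) (nat_lit 228) (nat_lit 8021142675) (nat_lit 45) (nat_lit 5) (nat_lit 47) (nat_lit 5) (nat_lit 48) (nat_lit 5) (nat_lit 340) (nat_lit 251) (nat_lit 189))))) (XT.nd (nat_lit 234) (nat_lit 456) (nat_lit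 0) (XT.nd (nat_lit 78) (nat_lit 456) (nat_lit 0) (XT.lf (nat_lit 0) (nat_lit 15131883600) (nat_lit 228) (nat_lit 707780093) (nat_lit 76) (nat_lit 2557169551) (nat_lit 45) (nat_lit 5) (nat_lit 48) (nat_lit 5) (nat_lit 46) (nat_lit 5) (nat_lit 341) (nat_lit 251) (nat_lit 188)) (XT.nd (nat_lit 78) (nat_lit 152) (nat_lit 0) (XT.lf (nat_lit 0) (nat_lit 1656795204) (nat_lit 304) (nat_lit 8439886117) (nat_lit 76) (nat_lit 8716378552) (nat_lit 41) (nat_lit 5) (nat_lit 45) (nat_lit 5) (nat_lit 42) (nat_lit 5) (nat_lit 342) (nat_lit 251) (nat_lit 187)) (XT.lf (nat_lit 0) (nat_lit 2488942373) (nat_lit 152) (nat_lit 4168396642) (nat_lit 228) (nat_lit 12584512382) (nat_lit 39) (nat_lit 5) (nat_lit 41) (nat_lit 5) (nat_lit 42) (nat_lit 5) (nat_lit 343) (nat_lit 251) (nat_lit 186)))) (XT.nd (nat_lit 156) (nat_lit 228) (nat_lit 0) (XT.nd (nat_lit 78) (nat_lit 228) (nat_lit 0) (XT.lf (nat_lit 0) (nat_lit 11832961743)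 (nat_lit 228) (nat_lit 5910043141) (nat_lit 76) (nat_lit 1940019767) (nat_lit 39) (nat_lit 5) (nat_lit 42) (nat_lit 5) (nat_lit 40) (nat_lit 5) (nat_lit 344) (nat_lit 251) (nat_lit 185)) (XT.lf (nat_lit 0) (nat_lit 5225088259) (nat_lit 228) (nat_lit 11956790251) (nat_lit 304) (nat_lit 2955212760) (nat_lit 36) (nat_lit 5) (nat_lit 39) (nat_lit 5) (nat_lit 40) (nat_lit 5) (nat_lit 345) (nat_lit 251) (nat_lit 184))) (XT.nd (nat_lit 78) (nat_lit 152) (nat_lit 0) (XT.lf (nat_lit 0) (nat_lit 2056158507) (nat_lit 304) (nat_lit 3915689892) (nat_lit 76) (nat_lit 14632737525) (nat_lit 35) (nat_lit 5) (nat_lit 39) (nat_lit 5) (nat_lit 36) (nat_lit 5) (nat_lit 346) (nat_lit 251) (nat_lit 183)) (XT.lf (nat_lit 0) (nat_lit 7185606443) (nat_lit 228) (nat_lit 13670032944) (nat_lit 76) (nat_lit 229934902) (nat_lit 33) (nat_lit 5) (nat_lit 36) (nat_lit 5) (nat_lit 34) (nat_lit 5) (nat_lit 347) (nat_lit 251) (nat_lit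 182)))))) (XT.nd (nat_lit 468) (nat_lit 532) (nat_lit 0) (XT.nd (nat_lit 234) (nat_lit 304) (nat_lit 0) (XT.nd (nat_lit 78) (nat_lit 228) (nat_lit 0) (XT.lf (nat_lit 0) (nat_lit 12494156143) (nat_lit 228) (nat_lit 2550712811) (nat_lit 76) (nat_lit 6535635744) (nat_lit 33) (nat_lit 5) (nat_lit 36) (nat_lit 5) (nat_lit 34) (nat_lit 5) (nat_lit 348) (nat_lit 251) (nat_lit 181)) (XT.nd (nat_lit 78) (nat_lit 76) (nat_lit 0) (XT.lf (nat_lit 0) (nat_lit 8951188059) (nat_lit 152) (nat_lit 9028670211) (nat_lit 228) (nat_lit 4110083095) (nat_lit 31) (nat_lit 5) (nat_lit 33) (nat_lit 5) (nat_lit 34) (nat_lit 5) (nat_lit 349) (nat_lit 251) (nat_lit 180)) (XT.lf (nat_lit 0) (nat_lit 979787581) (nat_lit 228) (nat_lit 1855792099) (nat_lit 76) (nat_lit 19779412369) (nat_lit 30) (nat_lit 5) (nat_lit 33) (nat_lit 5) (nat_lit 31) (nat_lit 5) (nat_lit 350) (nat_lit 251) (nat_lit 179)))) (XT.nd (nat_lit 78) (nat_lit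 152) (nat_lit 0) (XT.lf (nat_lit 0) (nat_lit 6215293028) (nat_lit 228) (nat_lit 13377332970) (nat_lit 76) (nat_lit 3561664365) (nat_lit 28) (nat_lit 5) (nat_lit 31) (nat_lit 5) (nat_lit 29) (nat_lit 5) (nat_lit 351) (nat_lit 251) (nat_lit 178)) (XT.nd (nat_lit 78) (nat_lit 152) (nat_lit 0) (XT.lf (nat_lit 0) (nat_lit 11601408969) (nat_lit 228) (nat_lit 2009854083) (nat_lit 76) (nat_lit 10098648261) (nat_lit 28) (nat_lit 5) (nat_lit 31) (nat_lit 5) (nat_lit 29) (nat_lit 5) (nat_lit 352) (nat_lit 251) (nat_lit 177)) (XT.lf (nat_lit 0) (nat_lit 9763216230) (nat_lit 152) (nat_lit 7412314288) (nat_lit 228) (nat_lit 7106156104) (nat_lit 26) (nat_lit 5) (nat_lit 28) (nat_lit 5) (nat_lit 29) (nat_lit 5) (nat_lit 353) (nat_lit 251) (nat_lit 176))))) (XT.nd (nat_lit 234) (nat_lit 304) (nat_lit 0) (XT.nd (nat_lit 78) (nat_lit 228) (nat_lit 0) (XT.lf (nat_lit 0) (nat_lit 21854540454) (nat_lit 152) (nat_lit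 1039658768) (nat_lit 228) (nat_lit 1976883253) (nat_lit 26) (nat_lit 5) (nat_lit 28) (nat_lit 5) (nat_lit 29) (nat_lit 5) (nat_lit 354) (nat_lit 251) (nat_lit 175)) (XT.nd (nat_lit 78) (nat_lit 0) (nat_lit 0) (XT.lf (nat_lit 0) (nat_lit 3321195438) (nat_lit 228) (nat_lit 16649409110) (nat_lit 76) (nat_lit 5505973623) (nat_lit 23) (nat_lit 5) (nat_lit 26) (nat_lit 5) (nat_lit 24) (nat_lit 5) (nat_lit 355) (nat_lit 251) (nat_lit 174)) (XT.lf (nat_lit 0) (nat_lit 8744034328) (nat_lit 228) (nat_lit 5113324910) (nat_lit 76) (nat_lit 12242777351) (nat_lit 23) (nat_lit 5) (nat_lit 26) (nat_lit 5) (nat_lit 24) (nat_lit 5) (nat_lit 356) (nat_lit 251) (nat_lit 173)))) (XT.nd (nat_lit 156) (nat_lit 152) (nat_lit 0) (XT.nd (nat_lit 78) (nat_lit 0) (nat_lit 0) (XT.lf (nat_lit 0) (nat_lit 6799111392) (nat_lit 152) (nat_lit 7540604692) (nat_lit 228) (nat_lit 12402494865) (nat_lit 21) (nat_lit 5) (nat_lit 23)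 (nat_lit 5) (nat_lit 24) (nat_lit 5) (nat_lit 357) (nat_lit 251) (nat_lit 172)) (XT.lf (nat_lit 0) (nat_lit 19080966407) (nat_lit 152) (nat_lit 1023578425) (nat_lit 228) (nat_lit 7298989160) (nat_lit 21) (nat_lit 5) (nat_lit 23) (nat_lit 5) (nat_lit 24) (nat_lit 5) (nat_lit 358) (nat_lit 251) (nat_lit 171))) (XT.nd (nat_lit 78) (nat_lit 76) (nat_lit 0) (XT.lf (nat_lit 0) (nat_lit 3600096392) (nat_lit 76) (nat_lit 22469976921) (nat_lit 152) (nat_lit 2014079952) (nat_lit 20) (nat_lit 5) (nat_lit 21) (nat_lit 5) (nat_lit 22) (nat_lit 4) (nat_lit 359) (nat_lit 251) (nat_lit 170)) (XT.lf (nat_lit 0) (nat_lit 3415821551) (nat_lit 152) (nat_lit 12875468030) (nat_lit 76) (nat_lit 12492838854) (nat_lit 19) (nat_lit 5) (nat_lit 21) (nat_lit 5) (nat_lit 20) (nat_lit 5) (nat_lit 360) (nat_lit 251) (nat_lit 169))))))) (XT.nd (nat_lit 34866) (nat_lit 0) (nat_lit 15504) (XT.nd (nat_lit 34320) (nat_lit 0) (nat_lit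 25992) (XT.nd (nat_lit 34086) (nat_lit 0) (nat_lit 34732) (XT.nd (nat_lit 78) (nat_lit 152) (nat_lit 0) (XT.lf (nat_lit 0) (nat_lit 8950157244) (nat_lit 152) (nat_lit 986732661) (nat_lit 76) (nat_lit 19568579434) (nat_lit 19) (nat_lit 5) (nat_lit 21) (nat_lit 5) (nat_lit 20) (nat_lit 5) (nat_lit 361) (nat_lit 251) (nat_lit 168)) (XT.nd (nat_lit 33930) (nat_lit 0) (nat_lit 38076) (XT.lf (nat_lit 0) (nat_lit 11354530908) (nat_lit 152) (nat_lit 3339368212) (nat_lit 228) (nat_lit 15553694266) (nat_lit 17) (nat_lit 5) (nat_lit 19) (nat_lit 5) (nat_lit 20) (nat_lit 5) (nat_lit 362) (nat_lit 251) (nat_lit 167)) (XT.lf (nat_lit 0) (nat_lit 1083181391) (nat_lit 988) (nat_lit 1201004592) (nat_lit 0) (nat_lit 1083181391) (nat_lit 518) (nat_lit 5) (nat_lit 531) (nat_lit 4) (nat_lit 518) (nat_lit 4) (nat_lit 276) (nat_lit 252) (nat_lit 252)))) (XT.nd (nat_lit 78) (nat_lit 2356) (nat_lit 0) (XT.lf (nat_lit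 0) (nat_lit 3652792509) (nat_lit 988) (nat_lit 3056546690) (nat_lit 988) (nat_lit 64159940) (nat_lit 505) (nat_lit 4) (nat_lit 518) (nat_lit 5) (nat_lit 518) (nat_lit 4) (nat_lit 277) (nat_lit 252) (nat_lit 251)) (XT.nd (nat_lit 78) (nat_lit 1216) (nat_lit 0) (XT.lf (nat_lit 0) (nat_lit 2997303199) (nat_lit 1064) (nat_lit 1406122446) (nat_lit 1140) (nat_lit 2411870423) (nat_lit 490) (nat_lit 5) (nat_lit 504) (nat_lit 5) (nat_lit 505) (nat_lit 4) (nat_lit 278) (nat_lit 252) (nat_lit 250)) (XT.lf (nat_lit 0) (nat_lit 2011579275) (nat_lit 1216) (nat_lit 4483892328) (nat_lit 76) (nat_lit 364928028) (nat_lit 474) (nat_lit 5) (nat_lit 490) (nat_lit 5) (nat_lit 475) (nat_lit 4) (nat_lit 279) (nat_lit 252) (nat_lit 249))))) (XT.nd (nat_lit 234) (nat_lit 4712) (nat_lit 0) (XT.nd (nat_lit 78) (nat_lit 2812) (nat_lit 0) (XT.lf (nat_lit 0) (nat_lit 1777761826) (nat_lit 1216) (nat_lit 4662736597) (nat_lit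 1292) (nat_lit 468139730) (nat_lit 458) (nat_lit 5) (nat_lit 474) (nat_lit 5) (nat_lit 475) (nat_lit 4) (nat_lit 280) (nat_lit 252) (nat_lit 248)) (XT.nd (nat_lit 78) (nat_lit 1444) (nat_lit 0) (XT.lf (nat_lit 0) (nat_lit 1197494222) (nat_lit 1292) (nat_lit 2692372119) (nat_lit 1368) (nat_lit 3070154722) (nat_lit 440) (nat_lit 5) (nat_lit 457) (nat_lit 5) (nat_lit 458) (nat_lit 5) (nat_lit 281) (nat_lit 252) (nat_lit 247)) (XT.lf (nat_lit 0) (nat_lit 647316896) (nat_lit 1368) (nat_lit 596205488) (nat_lit 1444) (nat_lit 5771336540) (nat_lit 421) (nat_lit 5) (nat_lit 439) (nat_lit 5) (nat_lit 440) (nat_lit 5) (nat_lit 282) (nat_lit 252) (nat_lit 246)))) (XT.nd (nat_lit 156) (nat_lit 3192) (nat_lit 0) (XT.nd (nat_lit 78) (nat_lit 76) (nat_lit 0) (XT.lf (nat_lit 0) (nat_lit 104540809) (nat_lit 1444) (nat_lit 5456792925) (nat_lit 1520) (nat_lit 1511459538) (nat_lit 402) (nat_lit 5) (nat_lit 421) (nat_lit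 5) (nat_lit 422) (nat_lit 5) (nat_lit 283) (nat_lit 252) (nat_lit 245)) (XT.lf (nat_lit 0) (nat_lit 2754044077) (nat_lit 1520) (nat_lit 420193379) (nat_lit 76) (nat_lit 3959720635) (nat_lit 401) (nat_lit 5) (nat_lit 421) (nat_lit 5) (nat_lit 402) (nat_lit 5) (nat_lit 284) (nat_lit 252) (nat_lit 244))) (XT.nd (nat_lit 78) (nat_lit 1672) (nat_lit 0) (XT.lf (nat_lit 0) (nat_lit 6276527540) (nat_lit 1520) (nat_lit 763290776) (nat_lit 1596) (nat_lit 158854740) (nat_lit 381) (nat_lit 5) (nat_lit 401) (nat_lit 5) (nat_lit 402) (nat_lit 5) (nat_lit 285) (nat_lit 252) (nat_lit 243)) (XT.lf (nat_lit 0) (nat_lit 4060308809) (nat_lit 1672) (nat_lit 1434132686) (nat_lit 76) (nat_lit 1771979388) (nat_lit 359) (nat_lit 5) (nat_lit 381) (nat_lit 5) (nat_lit 360) (nat_lit 5) (nat_lit 286) (nat_lit 252) (nat_lit 242)))))) (XT.nd (nat_lit 468) (nat_lit 4408) (nat_lit 0) (XT.nd (nat_lit 234) (nat_lit 2432) (nat_lit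 0) (XT.nd (nat_lit 78) (nat_lit 1900) (nat_lit 0) (XT.lf (nat_lit 0) (nat_lit 976455689) (nat_lit 1748) (nat_lit 1934240601) (nat_lit 76) (nat_lit 4427045879) (nat_lit 336) (nat_lit 5) (nat_lit 359) (nat_lit 5) (nat_lit 337) (nat_lit 5) (nat_lit 287) (nat_lit 252) (nat_lit 241)) (XT.nd (nat_lit 78) (nat_lit 912) (nat_lit 0) (XT.lf (nat_lit 0) (nat_lit 4978273850) (nat_lit 988) (nat_lit 183769373) (nat_lit 1064) (nat_lit 2250465133) (nat_lit 323) (nat_lit 5) (nat_lit 336) (nat_lit 5) (nat_lit 337) (nat_lit 5) (nat_lit 288) (nat_lit 252) (nat_lit 240)) (XT.lf (nat_lit 0) (nat_lit 1898466548) (nat_lit 912) (nat_lit 2946268382) (nat_lit 76) (nat_lit 2645852826) (nat_lit 311) (nat_lit 5) (nat_lit 323) (nat_lit 5) (nat_lit 312) (nat_lit 5) (nat_lit 289) (nat_lit 252) (nat_lit 239)))) (XT.nd (nat_lit 78) (nat_lit 1596) (nat_lit 0) (XT.lf (nat_lit 0) (nat_lit 4111717693) (nat_lit 836) (nat_lit 1957559111)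 (nat_lit 912) (nat_lit 1503015174) (nat_lit 300) (nat_lit 5) (nat_lit 311) (nat_lit 5) (nat_lit 312) (nat_lit 5) (nat_lit 290) (nat_lit 252) (nat_lit 238)) (XT.nd (nat_lit 78) (nat_lit 760) (nat_lit 0) (XT.lf (nat_lit 0) (nat_lit 2609192846) (nat_lit 836) (nat_lit 3988798797) (nat_lit 76) (nat_lit 1059517788) (nat_lit 289) (nat_lit 5) (nat_lit 300) (nat_lit 5) (nat_lit 290) (nat_lit 5) (nat_lit 291) (nat_lit 252) (nat_lit 237)) (XT.lf (nat_lit 0) (nat_lit 3212485147) (nat_lit 760) (nat_lit 3557094140) (nat_lit 836) (nat_lit 976729843) (nat_lit 279) (nat_lit 5) (nat_lit 289) (nat_lit 5) (nat_lit 290) (nat_lit 5) (nat_lit 292) (nat_lit 252) (nat_lit 236))))) (XT.nd (nat_lit 234) (nat_lit 2128) (nat_lit 0) (XT.nd (nat_lit 78) (nat_lit 1520) (nat_lit 0) (XT.lf (nat_lit 0) (nat_lit 2741652294) (nat_lit 684) (nat_lit 367383310) (nat_lit 760) (nat_lit 4729757875) (nat_lit 269) (nat_lit 5) (nat_lit 278)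 (nat_lit 5) (nat_lit 279) (nat_lit 5) (nat_lit 293) (nat_lit 252) (nat_lit 235)) (XT.nd (nat_lit 78) (nat_lit 760) (nat_lit 0) (XT.lf (nat_lit 0) (nat_lit 2247124880) (nat_lit 760) (nat_lit 5013122064) (nat_lit 836) (nat_lit 674672706) (nat_lit 259) (nat_lit 5) (nat_lit 269) (nat_lit 5) (nat_lit 270) (nat_lit 5) (nat_lit 294) (nat_lit 252) (nat_lit 234)) (XT.lf (nat_lit 0) (nat_lit 1725198056) (nat_lit 684) (nat_lit 1672538878) (nat_lit 760) (nat_lit 4637019402) (nat_lit 249) (nat_lit 5) (nat_lit 258) (nat_lit 5) (nat_lit 259) (nat_lit 5) (nat_lit 295) (nat_lit 252) (nat_lit 233)))) (XT.nd (nat_lit 156) (nat_lit 760) (nat_lit 0) (XT.nd (nat_lit 78) (nat_lit 684) (nat_lit 0) (XT.lf (nat_lit 0) (nat_lit 1180438084) (nat_lit 684) (nat_lit 6356138425) (nat_lit 760) (nat_lit 601964168) (nat_lit 240) (nat_lit 5) (nat_lit 249) (nat_lit 5) (nat_lit 250) (nat_lit 5) (nat_lit 296) (nat_lit 252) (nat_lit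 232)) (XT.lf (nat_lit 0) (nat_lit 590177649) (nat_lit 608) (nat_lit 2872330064) (nat_lit 684) (nat_lit 4783474666) (nat_lit 231) (nat_lit 5) (nat_lit 239) (nat_lit 5) (nat_lit 240) (nat_lit 5) (nat_lit 297) (nat_lit 252) (nat_lit 231))) (XT.nd (nat_lit 78) (nat_lit 760) (nat_lit 0) (XT.lf (nat_lit 0) (nat_lit 7591940802) (nat_lit 684) (nat_lit 24538255) (nat_lit 76) (nat_lit 741166446) (nat_lit 231) (nat_lit 5) (nat_lit 240) (nat_lit 5) (nat_lit 232) (nat_lit 5) (nat_lit 298) (nat_lit 252) (nat_lit 230)) (XT.lf (nat_lit 0) (nat_lit 3299936158) (nat_lit 760) (nat_lit 692746627) (nat_lit 76) (nat_lit 4480203342) (nat_lit 221) (nat_lit 5) (nat_lit 231) (nat_lit 5) (nat_lit 222) (nat_lit 5) (nat_lit 299) (nat_lit 252) (nat_lit 229))))))))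
noncomputable def xc37 : XT := (XT.nd (nat_lit 2028) (nat_lit 4256) (nat_lit 0) (XT.nd (nat_lit 1014) (nat_lit 3724) (nat_lit 0) (XT.nd (nat_lit 468) (nat_lit 3040) (nat_lit 0) (XT.nd (nat_lit 234) (nat_lit 1824) (nat_lit 0) (XT.nd (nat_lit 78) (nat_lit 1216) (nat_lit 0) (XT.lf (nat_lit 0) (nat_lit 7201043690) (nat_lit 608) (nat_lit 226448860) (nat_lit 684) (nat_lit 1165077337) (nat_lit 213) (nat_lit 5) (nat_lit 221) (nat_lit 5) (nat_lit 222) (nat_lit 5) (nat_lit 300) (nat_lit 252) (nat_lit 228)) (XT.nd (nat_lit 78) (nat_lit 532) (nat_lit 0) (XT.lf (nat_lit 0) (nat_lit 2900350222) (nat_lit 684) (nat_lit 2163628817) (nat_lit 76) (nat_lit 3652046368) (nat_lit 204) (nat_lit 5) (nat_lit 213) (nat_lit 5) (nat_lit 205) (nat_lit 5) (nat_lit 301) (nat_lit 252) (nat_lit 227)) (XT.lf (nat_lit 0) (nat_lit 5862801348) (nat_lit 532) (nat_lit 1164903234) (nat_lit 608) (nat_lit 1816297114) (nat_lit 197) (nat_lit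 5) (nat_lit 204) (nat_lit 5) (nat_lit 205) (nat_lit 5) (nat_lit 302) (nat_lit 252) (nat_lit 226)))) (XT.nd (nat_lit 78) (nat_lit 1140) (nat_lit 0) (XT.lf (nat_lit 0) (nat_lit 2247572786) (nat_lit 684) (nat_lit 3873873326) (nat_lit 76) (nat_lit 2854660586) (nat_lit 188) (nat_lit 5) (nat_lit 197) (nat_lit 5) (nat_lit 189) (nat_lit 5) (nat_lit 303) (nat_lit 252) (nat_lit 225)) (XT.nd (nat_lit 78) (nat_lit 608) (nat_lit 0) (XT.lf (nat_lit 0) (nat_lit 4278533797) (nat_lit 532) (nat_lit 2095918710) (nat_lit 608) (nat_lit 2738247209) (nat_lit 181) (nat_lit 5) (nat_lit 188) (nat_lit 5) (nat_lit 189) (nat_lit 5) (nat_lit 304) (nat_lit 252) (nat_lit 224)) (XT.lf (nat_lit 0) (nat_lit 1326726343) (nat_lit 608) (nat_lit 5870598083) (nat_lit 76) (nat_lit 2056505108) (nat_lit 173) (nat_lit 5) (nat_lit 181) (nat_lit 5) (nat_lit 174) (nat_lit 5) (nat_lit 305) (nat_lit 252) (nat_lit 223))))) (XT.nd (nat_lit 234)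 (nat_lit 1520) (nat_lit 0) (XT.nd (nat_lit 78) (nat_lit 1064) (nat_lit 0) (XT.lf (nat_lit 0) (nat_lit 2399793842) (nat_lit 456) (nat_lit 3052098213) (nat_lit 532) (nat_lit 3947504577) (nat_lit 167) (nat_lit 5) (nat_lit 173) (nat_lit 5) (nat_lit 174) (nat_lit 5) (nat_lit 306) (nat_lit 252) (nat_lit 222)) (XT.nd (nat_lit 78) (nat_lit 456) (nat_lit 0) (XT.lf (nat_lit 0) (nat_lit 120224467) (nat_lit 608) (nat_lit 8204850278) (nat_lit 76) (nat_lit 1224892450) (nat_lit 159) (nat_lit 5) (nat_lit 167) (nat_lit 5) (nat_lit 160) (nat_lit 5) (nat_lit 307) (nat_lit 252) (nat_lit 221)) (XT.lf (nat_lit 0) (nat_lit 174014106) (nat_lit 456) (nat_lit 4067381669) (nat_lit 532) (nat_lit 5463505057) (nat_lit 153) (nat_lit 5) (nat_lit 159) (nat_lit 5) (nat_lit 160) (nat_lit 5) (nat_lit 308) (nat_lit 252) (nat_lit 220)))) (XT.nd (nat_lit 156) (nat_lit 988) (nat_lit 0) (XT.nd (nat_lit 78) (nat_lit 532) (nat_lit 0) (XT.lf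 (nat_lit 0) (nat_lit 8461240024) (nat_lit 532) (nat_lit 1061982940) (nat_lit 76) (nat_lit 341825405) (nat_lit 153) (nat_lit 5) (nat_lit 160) (nat_lit 5) (nat_lit 154) (nat_lit 5) (nat_lit 309) (nat_lit 252) (nat_lit 219)) (XT.lf (nat_lit 0) (nat_lit 2737285898) (nat_lit 532) (nat_lit 2423818425) (nat_lit 76) (nat_lit 4868678027) (nat_lit 146) (nat_lit 5) (nat_lit 153) (nat_lit 5) (nat_lit 147) (nat_lit 5) (nat_lit 310) (nat_lit 252) (nat_lit 218))) (XT.nd (nat_lit 78) (nat_lit 532) (nat_lit 0) (XT.lf (nat_lit 0) (nat_lit 6313749669) (nat_lit 456) (nat_lit 638623206) (nat_lit 532) (nat_lit 3247584839) (nat_lit 140) (nat_lit 5) (nat_lit 146) (nat_lit 5) (nat_lit 147) (nat_lit 5) (nat_lit 311) (nat_lit 252) (nat_lit 217)) (XT.lf (nat_lit 0) (nat_lit 902914289) (nat_lit 532) (nat_lit 5479978311) (nat_lit 76) (nat_lit 3992359294) (nat_lit 133) (nat_lit 5) (nat_lit 140) (nat_lit 5) (nat_lit 134) (nat_lit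 5) (nat_lit 312) (nat_lit 252) (nat_lit 216)))))) (XT.nd (nat_lit 468) (nat_lit 1748) (nat_lit 0) (XT.nd (nat_lit 234) (nat_lit 1140) (nat_lit 0) (XT.nd (nat_lit 78) (nat_lit 456) (nat_lit 0) (XT.lf (nat_lit 0) (nat_lit 3348086975) (nat_lit 380) (nat_lit 1761424151) (nat_lit 456) (nat_lit 5446407264) (nat_lit 128) (nat_lit 5) (nat_lit 133) (nat_lit 5) (nat_lit 134) (nat_lit 5) (nat_lit 313) (nat_lit 252) (nat_lit 215)) (XT.nd (nat_lit 78) (nat_lit 76) (nat_lit 0) (XT.lf (nat_lit 0) (nat_lit 1669527820) (nat_lit 380) (nat_lit 7764761054) (nat_lit 456) (nat_lit 1307931604) (nat_lit 123) (nat_lit 5) (nat_lit 128) (nat_lit 5) (nat_lit 129) (nat_lit 5) (nat_lit 314) (nat_lit 252) (nat_lit 214)) (XT.lf (nat_lit 0) (nat_lit 2902161027) (nat_lit 456) (nat_lit 159250895) (nat_lit 76) (nat_lit 7872644346) (nat_lit 122) (nat_lit 5) (nat_lit 128) (nat_lit 5) (nat_lit 123) (nat_lit 5) (nat_lit 315) (nat_lit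 252) (nat_lit 213)))) (XT.nd (nat_lit 78) (nat_lit 760) (nat_lit 0) (XT.lf (nat_lit 0) (nat_lit 7218768157) (nat_lit 456) (nat_lit 2115968002) (nat_lit 76) (nat_lit 1796829500) (nat_lit 117) (nat_lit 5) (nat_lit 123) (nat_lit 5) (nat_lit 118) (nat_lit 5) (nat_lit 316) (nat_lit 252) (nat_lit 212)) (XT.nd (nat_lit 78) (nat_lit 304) (nat_lit 0) (XT.lf (nat_lit 0) (nat_lit 321843372) (nat_lit 456) (nat_lit 4234860690) (nat_lit 76) (nat_lit 6778376108) (nat_lit 111) (nat_lit 5) (nat_lit 117) (nat_lit 5) (nat_lit 112) (nat_lit 5) (nat_lit 317) (nat_lit 252) (nat_lit 211)) (XT.lf (nat_lit 0) (nat_lit 4609905567) (nat_lit 380) (nat_lit 6532880051) (nat_lit 76) (nat_lit 401853585) (nat_lit 107) (nat_lit 5) (nat_lit 112) (nat_lit 5) (nat_lit 108) (nat_lit 5) (nat_lit 318) (nat_lit 252) (nat_lit 210))))) (XT.nd (nat_lit 234) (nat_lit 988) (nat_lit 0) (XT.nd (nat_lit 78) (nat_lit 380) (nat_lit 0) (XT.lf (nat_lit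 0) (nat_lit 2737020296) (nat_lit 380) (nat_lit 6297512722) (nat_lit 456) (nat_lit 2725839334) (nat_lit 102) (nat_lit 5) (nat_lit 107) (nat_lit 5) (nat_lit 108) (nat_lit 5) (nat_lit 319) (nat_lit 252) (nat_lit 209)) (XT.nd (nat_lit 78) (nat_lit 0) (nat_lit 0) (XT.lf (nat_lit 0) (nat_lit 284392944) (nat_lit 304) (nat_lit 1281894878) (nat_lit 380) (nat_lit 10416562856) (nat_lit 97) (nat_lit 5) (nat_lit 101) (nat_lit 5) (nat_lit 102) (nat_lit 5) (nat_lit 320) (nat_lit 252) (nat_lit 208)) (XT.lf (nat_lit 0) (nat_lit 5969919962) (nat_lit 380) (nat_lit 2360618923) (nat_lit 76) (nat_lit 3880750957) (nat_lit 97) (nat_lit 5) (nat_lit 102) (nat_lit 5) (nat_lit 98) (nat_lit 5) (nat_lit 321) (nat_lit 252) (nat_lit 207)))) (XT.nd (nat_lit 156) (nat_lit 304) (nat_lit 0) (XT.nd (nat_lit 78) (nat_lit 380) (nat_lit 0) (XT.lf (nat_lit 0) (nat_lit 7245882183) (nat_lit 304) (nat_lit 3250148762) (nat_lit 380) (nat_lit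 1950784945) (nat_lit 93) (nat_lit 5) (nat_lit 97) (nat_lit 5) (nat_lit 98) (nat_lit 5) (nat_lit 322) (nat_lit 252) (nat_lit 206)) (XT.lf (nat_lit 0) (nat_lit 2429624546) (nat_lit 380) (nat_lit 8274068174) (nat_lit 76) (nat_lit 1985563937) (nat_lit 88) (nat_lit 5) (nat_lit 93) (nat_lit 5) (nat_lit 89) (nat_lit 5) (nat_lit 323) (nat_lit 252) (nat_lit 205))) (XT.nd (nat_lit 78) (nat_lit 0) (nat_lit 0) (XT.lf (nat_lit 0) (nat_lit 1338509116) (nat_lit 304) (nat_lit 5579095871) (nat_lit 380) (nat_lit 6021092510) (nat_lit 84) (nat_lit 5) (nat_lit 88) (nat_lit 5) (nat_lit 89) (nat_lit 5) (nat_lit 324) (nat_lit 252) (nat_lit 204)) (XT.lf (nat_lit 0) (nat_lit 11257539068) (nat_lit 304) (nat_lit 276590699) (nat_lit 380) (nat_lit 1661650576) (nat_lit 84) (nat_lit 5) (nat_lit 88) (nat_lit 5) (nat_lit 89) (nat_lit 5) (nat_lit 325) (nat_lit 252) (nat_lit 203))))))) (XT.nd (nat_lit 1014) (nat_lit 1748) (nat_lit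 0) (XT.nd (nat_lit 468) (nat_lit 1064) (nat_lit 0) (XT.nd (nat_lit 234) (nat_lit 608) (nat_lit 0) (XT.nd (nat_lit 78) (nat_lit 532) (nat_lit 0) (XT.lf (nat_lit 0) (nat_lit 2816596132) (nat_lit 304) (nat_lit 5487379093) (nat_lit 76) (nat_lit 5155765876) (nat_lit 80) (nat_lit 5) (nat_lit 84) (nat_lit 5) (nat_lit 81) (nat_lit 5) (nat_lit 326) (nat_lit 252) (nat_lit 202)) (XT.nd (nat_lit 78) (nat_lit 228) (nat_lit 0) (XT.lf (nat_lit 0) (nat_lit 4427720936) (nat_lit 304) (nat_lit 2963020232) (nat_lit 380) (nat_lit 6341011401) (nat_lit 76) (nat_lit 5) (nat_lit 80) (nat_lit 5) (nat_lit 81) (nat_lit 5) (nat_lit 327) (nat_lit 252) (nat_lit 201)) (XT.lf (nat_lit 0) (nat_lit 603143011) (nat_lit 228) (nat_lit 11497910863) (nat_lit 304) (nat_lit 1910924728) (nat_lit 73) (nat_lit 5) (nat_lit 76) (nat_lit 5) (nat_lit 77) (nat_lit 5) (nat_lit 328) (nat_lit 252) (nat_lit 200)))) (XT.nd (nat_lit 78) (nat_lit 532)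 (nat_lit 0) (XT.lf (nat_lit 0) (nat_lit 2642390881) (nat_lit 304) (nat_lit 3493469011) (nat_lit 76) (nat_lit 8163936466) (nat_lit 72) (nat_lit 5) (nat_lit 76) (nat_lit 5) (nat_lit 73) (nat_lit 5) (nat_lit 329) (nat_lit 252) (nat_lit 199)) (XT.nd (nat_lit 78) (nat_lit 228) (nat_lit 0) (XT.lf (nat_lit 0) (nat_lit 6705636681) (nat_lit 304) (nat_lit 587916059) (nat_lit 380) (nat_lit 7302729686) (nat_lit 68) (nat_lit 5) (nat_lit 72) (nat_lit 5) (nat_lit 73) (nat_lit 5) (nat_lit 330) (nat_lit 252) (nat_lit 198)) (XT.lf (nat_lit 0) (nat_lit 2265237067) (nat_lit 228) (nat_lit 9835226299) (nat_lit 304) (nat_lit 2800905117) (nat_lit 65) (nat_lit 5) (nat_lit 68) (nat_lit 5) (nat_lit 69) (nat_lit 5) (nat_lit 331) (nat_lit 252) (nat_lit 197))))) (XT.nd (nat_lit 234) (nat_lit 532) (nat_lit 0) (XT.nd (nat_lit 78) (nat_lit 456) (nat_lit 0) (XT.lf (nat_lit 0) (nat_lit 1814708205) (nat_lit 304) (nat_lit 2484639514)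 (nat_lit 76) (nat_lit 10915992990) (nat_lit 64) (nat_lit 5) (nat_lit 68) (nat_lit 5) (nat_lit 65) (nat_lit 5) (nat_lit 332) (nat_lit 252) (nat_lit 196)) (XT.nd (nat_lit 78) (nat_lit 228) (nat_lit 0) (XT.lf (nat_lit 0) (nat_lit 6538738651) (nat_lit 304) (nat_lit 7575708141) (nat_lit 76) (nat_lit 1423782422) (nat_lit 61) (nat_lit 5) (nat_lit 65) (nat_lit 5) (nat_lit 62) (nat_lit 5) (nat_lit 333) (nat_lit 252) (nat_lit 195)) (XT.lf (nat_lit 0) (nat_lit 2809995577) (nat_lit 228) (nat_lit 8605902483) (nat_lit 304) (nat_lit 4454704789) (nat_lit 58) (nat_lit 5) (nat_lit 61) (nat_lit 5) (nat_lit 62) (nat_lit 5) (nat_lit 334) (nat_lit 252) (nat_lit 194)))) (XT.nd (nat_lit 156) (nat_lit 228) (nat_lit 0) (XT.nd (nat_lit 78) (nat_lit 228) (nat_lit 0) (XT.lf (nat_lit 0) (nat_lit 223216875) (nat_lit 304) (nat_lit 2686739178) (nat_lit 76) (nat_lit 13302992352) (nat_lit 57) (nat_lit 5) (nat_lit 61) (nat_lit 5)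 (nat_lit 58) (nat_lit 5) (nat_lit 335) (nat_lit 252) (nat_lit 193)) (XT.lf (nat_lit 0) (nat_lit 5002322888) (nat_lit 304) (nat_lit 8592661498) (nat_lit 76) (nat_lit 2969588269) (nat_lit 54) (nat_lit 5) (nat_lit 58) (nat_lit 5) (nat_lit 55) (nat_lit 5) (nat_lit 336) (nat_lit 252) (nat_lit 192))) (XT.nd (nat_lit 78) (nat_lit 0) (nat_lit 0) (XT.lf (nat_lit 0) (nat_lit 1986163459) (nat_lit 228) (nat_lit 7939667211) (nat_lit 304) (nat_lit 7000918288) (nat_lit 51) (nat_lit 5) (nat_lit 54) (nat_lit 5) (nat_lit 55) (nat_lit 5) (nat_lit 337) (nat_lit 252) (nat_lit 191)) (XT.lf (nat_lit 0) (nat_lit 12920264640) (nat_lit 228) (nat_lit 2086280527) (nat_lit 304) (nat_lit 2293078554) (nat_lit 51) (nat_lit 5) (nat_lit 54) (nat_lit 5) (nat_lit 55) (nat_lit 5) (nat_lit 338) (nat_lit 252) (nat_lit 190)))))) (XT.nd (nat_lit 468) (nat_lit 836) (nat_lit 0) (XT.nd (nat_lit 234) (nat_lit 456) (nat_lit 0) (XT.nd (nat_lit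 78) (nat_lit 152) (nat_lit 0) (XT.lf (nat_lit 0) (nat_lit 2542754837) (nat_lit 304) (nat_lit 11220099617) (nat_lit 76) (nat_lit 3920114834) (nat_lit 47) (nat_lit 5) (nat_lit 51) (nat_lit 5) (nat_lit 48) (nat_lit 5) (nat_lit 339) (nat_lit 252) (nat_lit 189)) (XT.nd (nat_lit 78) (nat_lit 152) (nat_lit 0) (XT.lf (nat_lit 0) (nat_lit 7489563986) (nat_lit 304) (nat_lit 493929670) (nat_lit 76) (nat_lit 10094098769) (nat_lit 47) (nat_lit 5) (nat_lit 51) (nat_lit 5) (nat_lit 48) (nat_lit 5) (nat_lit 340) (nat_lit 252) (nat_lit 188)) (XT.lf (nat_lit 0) (nat_lit 10618005368) (nat_lit 152) (nat_lit 1990131353) (nat_lit 228) (nat_lit 5875471163) (nat_lit 45) (nat_lit 5) (nat_lit 47) (nat_lit 5) (nat_lit 48) (nat_lit 5) (nat_lit 341) (nat_lit 252) (nat_lit 187)))) (XT.nd (nat_lit 78) (nat_lit 228) (nat_lit 0) (XT.lf (nat_lit 0) (nat_lit 3107111458) (nat_lit 228) (nat_lit 14778933363) (nat_lit 304) (nat_lit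 1015663633) (nat_lit 42) (nat_lit 5) (nat_lit 45) (nat_lit 5) (nat_lit 46) (nat_lit 5) (nat_lit 342) (nat_lit 252) (nat_lit 186)) (XT.nd (nat_lit 78) (nat_lit 152) (nat_lit 0) (XT.lf (nat_lit 0) (nat_lit 3960167024) (nat_lit 304) (nat_lit 4928357160) (nat_lit 76) (nat_lit 10442877831) (nat_lit 41) (nat_lit 5) (nat_lit 45) (nat_lit 5) (nat_lit 42) (nat_lit 5) (nat_lit 343) (nat_lit 252) (nat_lit 185)) (XT.lf (nat_lit 0) (nat_lit 6267257986) (nat_lit 152) (nat_lit 2801874885) (nat_lit 228) (nat_lit 10704784736) (nat_lit 39) (nat_lit 5) (nat_lit 41) (nat_lit 5) (nat_lit 42) (nat_lit 5) (nat_lit 344) (nat_lit 252) (nat_lit 184))))) (XT.nd (nat_lit 234) (nat_lit 532) (nat_lit 0) (XT.nd (nat_lit 78) (nat_lit 304) (nat_lit 0) (XT.lf (nat_lit 0) (nat_lit 14344997168) (nat_lit 228) (nat_lit 2457099398) (nat_lit 76) (nat_lit 3427357642) (nat_lit 39) (nat_lit 5) (nat_lit 42) (nat_lit 5) (nat_lit 40) (nat_lit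 5) (nat_lit 345) (nat_lit 252) (nat_lit 183)) (XT.nd (nat_lit 78) (nat_lit 76) (nat_lit 0) (XT.lf (nat_lit 0) (nat_lit 8953189531) (nat_lit 228) (nat_lit 10861552873) (nat_lit 304) (nat_lit 883220006) (nat_lit 36) (nat_lit 5) (nat_lit 39) (nat_lit 5) (nat_lit 40) (nat_lit 5) (nat_lit 346) (nat_lit 252) (nat_lit 182)) (XT.lf (nat_lit 0) (nat_lit 4188048926) (nat_lit 304) (nat_lit 537469468) (nat_lit 76) (nat_lit 16454950578) (nat_lit 35) (nat_lit 5) (nat_lit 39) (nat_lit 5) (nat_lit 36) (nat_lit 5) (nat_lit 347) (nat_lit 252) (nat_lit 181)))) (XT.nd (nat_lit 156) (nat_lit 228) (nat_lit 0) (XT.nd (nat_lit 78) (nat_lit 152) (nat_lit 0) (XT.lf (nat_lit 0) (nat_lit 9442544670) (nat_lit 228) (nat_lit 10608819366) (nat_lit 76) (nat_lit 1625124436) (nat_lit 33) (nat_lit 5) (nat_lit 36) (nat_lit 5) (nat_lit 34) (nat_lit 5) (nat_lit 348) (nat_lit 252) (nat_lit 180)) (XT.lf (nat_lit 0) (nat_lit 752847857)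 (nat_lit 152) (nat_lit 14102933611) (nat_lit 228) (nat_lit 7331600759) (nat_lit 31) (nat_lit 5) (nat_lit 33) (nat_lit 5) (nat_lit 34) (nat_lit 5) (nat_lit 349) (nat_lit 252) (nat_lit 179))) (XT.nd (nat_lit 78) (nat_lit 228) (nat_lit 0) (XT.lf (nat_lit 0) (nat_lit 12535254393) (nat_lit 152) (nat_lit 7929713292) (nat_lit 228) (nat_lit 2247979396) (nat_lit 31) (nat_lit 5) (nat_lit 33) (nat_lit 5) (nat_lit 34) (nat_lit 5) (nat_lit 350) (nat_lit 252) (nat_lit 178)) (XT.lf (nat_lit 0) (nat_lit 1351239028) (nat_lit 152) (nat_lit 1569013603) (nat_lit 228) (nat_lit 20334226982) (nat_lit 28) (nat_lit 5) (nat_lit 30) (nat_lit 5) (nat_lit 31) (nat_lit 5) (nat_lit 351) (nat_lit 252) (nat_lit 177))))))))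
noncomputable def xc38 : XT := (XT.nd (nat_lit 35724) (nat_lit 0) (nat_lit 8436) (XT.nd (nat_lit 34710) (nat_lit 0) (nat_lit 23256) (XT.nd (nat_lit 468) (nat_lit 456) (nat_lit 0) (XT.nd (nat_lit 234) (nat_lit 228) (nat_lit 0) (XT.nd (nat_lit 78) (nat_lit 152) (nat_lit 0) (XT.lf (nat_lit 0) (nat_lit 8277971079) (nat_lit 228) (nat_lit 10556845202) (nat_lit 76) (nat_lit 4975859214) (nat_lit 28) (nat_lit 5) (nat_lit 31) (nat_lit 5) (nat_lit 29) (nat_lit 5) (nat_lit 352) (nat_lit 252) (nat_lit 176)) (XT.nd (nat_lit 78) (nat_lit 0) (nat_lit 0) (XT.lf (nat_lit 0) (nat_lit 1071876847) (nat_lit 152) (nat_lit 12706105824) (nat_lit 228) (nat_lit 10605957108) (nat_lit 26) (nat_lit 5) (nat_lit 28) (nat_lit 5) (nat_lit 29) (nat_lit 5) (nat_lit 353) (nat_lit 252) (nat_lit 175)) (XT.lf (nat_lit 0) (nat_lit 13133333837) (nat_lit 152) (nat_lit 6345958557) (nat_lit 228) (nat_lit 5494396999) (nat_lit 26) (nat_lit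 5) (nat_lit 28) (nat_lit 5) (nat_lit 29) (nat_lit 5) (nat_lit 354) (nat_lit 252) (nat_lit 174)))) (XT.nd (nat_lit 78) (nat_lit 228) (nat_lit 0) (XT.lf (nat_lit 0) (nat_lit 25318599938) (nat_lit 228) (nat_lit 85229615) (nat_lit 76) (nat_lit 177975739) (nat_lit 26) (nat_lit 5) (nat_lit 29) (nat_lit 5) (nat_lit 27) (nat_lit 4) (nat_lit 355) (nat_lit 252) (nat_lit 173)) (XT.nd (nat_lit 78) (nat_lit 0) (nat_lit 0) (XT.lf (nat_lit 0) (nat_lit 5145778898) (nat_lit 228) (nat_lit 14159397722) (nat_lit 76) (nat_lit 6900573481) (nat_lit 23) (nat_lit 5) (nat_lit 26) (nat_lit 5) (nat_lit 24) (nat_lit 5) (nat_lit 356) (nat_lit 252) (nat_lit 172)) (XT.lf (nat_lit 0) (nat_lit 10681061762) (nat_lit 228) (nat_lit 2364303627) (nat_lit 76) (nat_lit 13803672953) (nat_lit 23) (nat_lit 5) (nat_lit 26) (nat_lit 5) (nat_lit 24) (nat_lit 5) (nat_lit 357) (nat_lit 252) (nat_lit 171))))) (XT.nd (nat_lit 234) (nat_lit 228)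 (nat_lit 0) (XT.nd (nat_lit 78) (nat_lit 76) (nat_lit 0) (XT.lf (nat_lit 0) (nat_lit 9858417432) (nat_lit 152) (nat_lit 6555957396) (nat_lit 228) (nat_lit 11096622602) (nat_lit 21) (nat_lit 5) (nat_lit 23) (nat_lit 5) (nat_lit 24) (nat_lit 5) (nat_lit 358) (nat_lit 252) (nat_lit 170)) (XT.nd (nat_lit 78) (nat_lit 76) (nat_lit 0) (XT.lf (nat_lit 0) (nat_lit 22305038971) (nat_lit 228) (nat_lit 5768359875) (nat_lit 76) (nat_lit 119720707) (nat_lit 21) (nat_lit 5) (nat_lit 24) (nat_lit 5) (nat_lit 22) (nat_lit 4) (nat_lit 359) (nat_lit 252) (nat_lit 169)) (XT.lf (nat_lit 0) (nat_lit 6459760255) (nat_lit 76) (nat_lit 21967759424) (nat_lit 152) (nat_lit 467094695) (nat_lit 20) (nat_lit 5) (nat_lit 21) (nat_lit 5) (nat_lit 22) (nat_lit 4) (nat_lit 360) (nat_lit 252) (nat_lit 168)))) (XT.nd (nat_lit 33852) (nat_lit 0) (nat_lit 38988) (XT.nd (nat_lit 78) (nat_lit 152) (nat_lit 0) (XT.lf (nat_lit 0) (nat_lit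 5058418736) (nat_lit 152) (nat_lit 10569219350) (nat_lit 76) (nat_lit 13988681953) (nat_lit 19) (nat_lit 5) (nat_lit 21) (nat_lit 5) (nat_lit 20) (nat_lit 5) (nat_lit 361) (nat_lit 252) (nat_lit 167)) (XT.lf (nat_lit 0) (nat_lit 1618988707) (nat_lit 152) (nat_lit 9105449403) (nat_lit 228) (nat_lit 19635565419) (nat_lit 17) (nat_lit 5) (nat_lit 19) (nat_lit 5) (nat_lit 20) (nat_lit 5) (nat_lit 362) (nat_lit 252) (nat_lit 166))) (XT.nd (nat_lit 78) (nat_lit 912) (nat_lit 0) (XT.lf (nat_lit 0) (nat_lit 1467808133) (nat_lit 836) (nat_lit 397076059) (nat_lit 0) (nat_lit 1467808133) (nat_lit 542) (nat_lit 5) (nat_lit 553) (nat_lit 4) (nat_lit 542) (nat_lit 4) (nat_lit 274) (nat_lit 253) (nat_lit 253)) (XT.lf (nat_lit 0) (nat_lit 741667128) (nat_lit 912) (nat_lit 1645633920) (nat_lit 76) (nat_lit 4311955628) (nat_lit 530) (nat_lit 5) (nat_lit 542) (nat_lit 5) (nat_lit 531) (nat_lit 4) (nat_lit 275) (nat_lit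 253) (nat_lit 252)))))) (XT.nd (nat_lit 468) (nat_lit 8892) (nat_lit 0) (XT.nd (nat_lit 234) (nat_lit 3724) (nat_lit 0) (XT.nd (nat_lit 78) (nat_lit 2204) (nat_lit 0) (XT.lf (nat_lit 0) (nat_lit 4268685204) (nat_lit 912) (nat_lit 911869849) (nat_lit 988) (nat_lit 1555657397) (nat_lit 518) (nat_lit 5) (nat_lit 530) (nat_lit 5) (nat_lit 531) (nat_lit 4) (nat_lit 276) (nat_lit 253) (nat_lit 251)) (XT.nd (nat_lit 78) (nat_lit 1140) (nat_lit 0) (XT.lf (nat_lit 0) (nat_lit 2830823259) (nat_lit 1064) (nat_lit 3261511972) (nat_lit 76) (nat_lit 683952620) (nat_lit 504) (nat_lit 5) (nat_lit 518) (nat_lit 5) (nat_lit 505) (nat_lit 4) (nat_lit 277) (nat_lit 253) (nat_lit 250)) (XT.lf (nat_lit 0) (nat_lit 400719195) (nat_lit 1140) (nat_lit 4026796498) (nat_lit 76) (nat_lit 2392055407) (nat_lit 489) (nat_lit 5) (nat_lit 504) (nat_lit 5) (nat_lit 490) (nat_lit 5) (nat_lit 278) (nat_lit 253) (nat_lit 249))))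 (XT.nd (nat_lit 78) (nat_lit 2584) (nat_lit 0) (XT.lf (nat_lit 0) (nat_lit 2092681272) (nat_lit 1140) (nat_lit 2626132020) (nat_lit 1216) (nat_lit 2147126778) (nat_lit 474) (nat_lit 5) (nat_lit 489) (nat_lit 5) (nat_lit 490) (nat_lit 5) (nat_lit 279) (nat_lit 253) (nat_lit 248)) (XT.nd (nat_lit 78) (nat_lit 1292) (nat_lit 0) (XT.lf (nat_lit 0) (nat_lit 1423582364) (nat_lit 1216) (nat_lit 697561256) (nat_lit 1292) (nat_lit 4794506387) (nat_lit 457) (nat_lit 5) (nat_lit 473) (nat_lit 5) (nat_lit 474) (nat_lit 5) (nat_lit 280) (nat_lit 253) (nat_lit 247)) (XT.lf (nat_lit 0) (nat_lit 773559415) (nat_lit 1292) (nat_lit 5625490529) (nat_lit 1368) (nat_lit 569497609) (nat_lit 440) (nat_lit 5) (nat_lit 457) (nat_lit 5) (nat_lit 458) (nat_lit 5) (nat_lit 281) (nat_lit 253) (nat_lit 246))))) (XT.nd (nat_lit 234) (nat_lit 5928) (nat_lit 0) (XT.nd (nat_lit 78) (nat_lit 1520) (nat_lit 0) (XT.lf (nat_lit 0)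 (nat_lit 133191827) (nat_lit 1368) (nat_lit 3509218476) (nat_lit 1444) (nat_lit 3382121437) (nat_lit 421) (nat_lit 5) (nat_lit 439) (nat_lit 5) (nat_lit 440) (nat_lit 5) (nat_lit 282) (nat_lit 253) (nat_lit 245)) (XT.nd (nat_lit 78) (nat_lit 1444) (nat_lit 0) (XT.lf (nat_lit 0) (nat_lit 790252921) (nat_lit 1444) (nat_lit 474303854) (nat_lit 76) (nat_lit 5819402327) (nat_lit 420) (nat_lit 5) (nat_lit 439) (nat_lit 5) (nat_lit 421) (nat_lit 5) (nat_lit 283) (nat_lit 253) (nat_lit 244)) (XT.lf (nat_lit 0) (nat_lit 4961514012) (nat_lit 1520) (nat_lit 1077260258) (nat_lit 76) (nat_lit 1107726413) (nat_lit 401) (nat_lit 5) (nat_lit 421) (nat_lit 5) (nat_lit 402) (nat_lit 5) (nat_lit 284) (nat_lit 253) (nat_lit 243)))) (XT.nd (nat_lit 156) (nat_lit 2736) (nat_lit 0) (XT.nd (nat_lit 78) (nat_lit 1596) (nat_lit 0) (XT.lf (nat_lit 0) (nat_lit 1942919959) (nat_lit 1596) (nat_lit 1672819608) (nat_lit 76)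 (nat_lit 3596621238) (nat_lit 380) (nat_lit 5) (nat_lit 401) (nat_lit 5) (nat_lit 381) (nat_lit 5) (nat_lit 285) (nat_lit 253) (nat_lit 242)) (XT.lf (nat_lit 0) (nat_lit 5024386774) (nat_lit 1596) (nat_lit 1058343856) (nat_lit 1672) (nat_lit 1198980983) (nat_lit 359) (nat_lit 5) (nat_lit 380) (nat_lit 5) (nat_lit 381) (nat_lit 5) (nat_lit 286) (nat_lit 253) (nat_lit 241))) (XT.nd (nat_lit 78) (nat_lit 988) (nat_lit 0) (XT.lf (nat_lit 0) (nat_lit 2885209863) (nat_lit 1748) (nat_lit 2849205638) (nat_lit 76) (nat_lit 1619872276) (nat_lit 336) (nat_lit 5) (nat_lit 359) (nat_lit 5) (nat_lit 337) (nat_lit 5) (nat_lit 287) (nat_lit 253) (nat_lit 240)) (XT.lf (nat_lit 0) (nat_lit 3992801880) (nat_lit 988) (nat_lit 3013606928) (nat_lit 1064) (nat_lit 424005209) (nat_lit 323) (nat_lit 5) (nat_lit 336) (nat_lit 5) (nat_lit 337) (nat_lit 5) (nat_lit 288) (nat_lit 253) (nat_lit 239))))))) (XT.nd (nat_lit 1014)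 (nat_lit 5776) (nat_lit 0) (XT.nd (nat_lit 468) (nat_lit 4104) (nat_lit 0) (XT.nd (nat_lit 234) (nat_lit 2356) (nat_lit 0) (XT.nd (nat_lit 78) (nat_lit 1672) (nat_lit 0) (XT.lf (nat_lit 0) (nat_lit 3475106543) (nat_lit 836) (nat_lit 144287776) (nat_lit 912) (nat_lit 3890562283) (nat_lit 311) (nat_lit 5) (nat_lit 322) (nat_lit 5) (nat_lit 323) (nat_lit 5) (nat_lit 289) (nat_lit 253) (nat_lit 238)) (XT.nd (nat_lit 78) (nat_lit 760) (nat_lit 0) (XT.lf (nat_lit 0) (nat_lit 131154094) (nat_lit 912) (nat_lit 4642746696) (nat_lit 76) (nat_lit 2819095455) (nat_lit 299) (nat_lit 5) (nat_lit 311) (nat_lit 5) (nat_lit 300) (nat_lit 5) (nat_lit 290) (nat_lit 253) (nat_lit 237)) (XT.lf (nat_lit 0) (nat_lit 2409704491) (nat_lit 760) (nat_lit 1743764278) (nat_lit 836) (nat_lit 3526016958) (nat_lit 289) (nat_lit 5) (nat_lit 299) (nat_lit 5) (nat_lit 300) (nat_lit 5) (nat_lit 291) (nat_lit 253) (nat_lit 236))))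 (XT.nd (nat_lit 78) (nat_lit 1520) (nat_lit 0) (XT.lf (nat_lit 0) (nat_lit 464035008) (nat_lit 836) (nat_lit 5905456672) (nat_lit 76) (nat_lit 1400271011) (nat_lit 278) (nat_lit 5) (nat_lit 289) (nat_lit 5) (nat_lit 279) (nat_lit 5) (nat_lit 292) (nat_lit 253) (nat_lit 235)) (XT.nd (nat_lit 78) (nat_lit 836) (nat_lit 0) (XT.lf (nat_lit 0) (nat_lit 1287010719) (nat_lit 684) (nat_lit 3187550274) (nat_lit 760) (nat_lit 3388866559) (nat_lit 269) (nat_lit 5) (nat_lit 278) (nat_lit 5) (nat_lit 279) (nat_lit 5) (nat_lit 293) (nat_lit 253) (nat_lit 234)) (XT.lf (nat_lit 0) (nat_lit 576751236) (nat_lit 836) (nat_lit 7256747775) (nat_lit 76) (nat_lit 127638723) (nat_lit 258) (nat_lit 5) (nat_lit 269) (nat_lit 5) (nat_lit 259) (nat_lit 5) (nat_lit 294) (nat_lit 253) (nat_lit 233))))) (XT.nd (nat_lit 234) (nat_lit 2660) (nat_lit 0) (XT.nd (nat_lit 78) (nat_lit 760) (nat_lit 0) (XT.lf (nat_lit 0) (nat_lit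 72677781) (nat_lit 684) (nat_lit 4505815215) (nat_lit 760) (nat_lit 3483684499) (nat_lit 249) (nat_lit 5) (nat_lit 258) (nat_lit 5) (nat_lit 259) (nat_lit 5) (nat_lit 295) (nat_lit 253) (nat_lit 232)) (XT.nd (nat_lit 78) (nat_lit 684) (nat_lit 0) (XT.lf (nat_lit 0) (nat_lit 474318820) (nat_lit 760) (nat_lit 564062377) (nat_lit 76) (nat_lit 7128957135) (nat_lit 248) (nat_lit 5) (nat_lit 258) (nat_lit 5) (nat_lit 249) (nat_lit 5) (nat_lit 296) (nat_lit 253) (nat_lit 231)) (XT.lf (nat_lit 0) (nat_lit 4467288569) (nat_lit 760) (nat_lit 1252933809) (nat_lit 76) (nat_lit 2555801811) (nat_lit 239) (nat_lit 5) (nat_lit 249) (nat_lit 5) (nat_lit 240) (nat_lit 5) (nat_lit 297) (nat_lit 253) (nat_lit 230)))) (XT.nd (nat_lit 156) (nat_lit 1292) (nat_lit 0) (XT.nd (nat_lit 78) (nat_lit 684) (nat_lit 0) (XT.lf (nat_lit 0) (nat_lit 144490804) (nat_lit 684) (nat_lit 1968025221) (nat_lit 76) (nat_lit 6276427943)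 (nat_lit 230) (nat_lit 5) (nat_lit 239) (nat_lit 5) (nat_lit 231) (nat_lit 5) (nat_lit 298) (nat_lit 253) (nat_lit 229)) (XT.lf (nat_lit 0) (nat_lit 4125901005) (nat_lit 760) (nat_lit 2741924764) (nat_lit 76) (nat_lit 1637789528) (nat_lit 221) (nat_lit 5) (nat_lit 231) (nat_lit 5) (nat_lit 222) (nat_lit 5) (nat_lit 299) (nat_lit 253) (nat_lit 228))) (XT.nd (nat_lit 78) (nat_lit 684) (nat_lit 0) (XT.lf (nat_lit 0) (nat_lit 5068421917) (nat_lit 608) (nat_lit 3124973866) (nat_lit 684) (nat_lit 433149525) (nat_lit 213) (nat_lit 5) (nat_lit 221) (nat_lit 5) (nat_lit 222) (nat_lit 5) (nat_lit 300) (nat_lit 253) (nat_lit 227)) (XT.lf (nat_lit 0) (nat_lit 3543516690) (nat_lit 684) (nat_lit 4435970592) (nat_lit 76) (nat_lit 772044590) (nat_lit 204) (nat_lit 5) (nat_lit 213) (nat_lit 5) (nat_lit 205) (nat_lit 5) (nat_lit 301) (nat_lit 253) (nat_lit 226)))))) (XT.nd (nat_lit 468) (nat_lit 2888) (nat_lit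 0) (XT.nd (nat_lit 234) (nat_lit 1140) (nat_lit 0) (XT.nd (nat_lit 78) (nat_lit 1216) (nat_lit 0) (XT.lf (nat_lit 0) (nat_lit 3504331181) (nat_lit 532) (nat_lit 4106572257) (nat_lit 608) (nat_lit 1269845678) (nat_lit 197) (nat_lit 5) (nat_lit 204) (nat_lit 5) (nat_lit 205) (nat_lit 5) (nat_lit 302) (nat_lit 253) (nat_lit 225)) (XT.nd (nat_lit 78) (nat_lit 532) (nat_lit 0) (XT.lf (nat_lit 0) (nat_lit 2635089920) (nat_lit 608) (nat_lit 72808022) (nat_lit 684) (nat_lit 6306504004) (nat_lit 188) (nat_lit 5) (nat_lit 196) (nat_lit 5) (nat_lit 197) (nat_lit 5) (nat_lit 303) (nat_lit 253) (nat_lit 224)) (XT.lf (nat_lit 0) (nat_lit 1684684616) (nat_lit 532) (nat_lit 5089604047) (nat_lit 608) (nat_lit 2377954527) (nat_lit 181) (nat_lit 5) (nat_lit 188) (nat_lit 5) (nat_lit 189) (nat_lit 5) (nat_lit 304) (nat_lit 253) (nat_lit 223)))) (XT.nd (nat_lit 78) (nat_lit 532) (nat_lit 0) (XT.lf (nat_lit 0) (nat_lit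 670970167) (nat_lit 532) (nat_lit 937509560) (nat_lit 608) (nat_lit 7686359368) (nat_lit 173) (nat_lit 5) (nat_lit 180) (nat_lit 5) (nat_lit 181) (nat_lit 5) (nat_lit 305) (nat_lit 253) (nat_lit 222)) (XT.nd (nat_lit 78) (nat_lit 532) (nat_lit 0) (XT.lf (nat_lit 0) (nat_lit 5670206336) (nat_lit 608) (nat_lit 433346659) (nat_lit 76) (nat_lit 3338157508) (nat_lit 173) (nat_lit 5) (nat_lit 181) (nat_lit 5) (nat_lit 174) (nat_lit 5) (nat_lit 306) (nat_lit 253) (nat_lit 221)) (XT.lf (nat_lit 0) (nat_lit 232994093) (nat_lit 532) (nat_lit 1600987215) (nat_lit 76) (nat_lit 7759529169) (nat_lit 166) (nat_lit 5) (nat_lit 173) (nat_lit 5) (nat_lit 167) (nat_lit 5) (nat_lit 307) (nat_lit 253) (nat_lit 220))))) (XT.nd (nat_lit 234) (nat_lit 1368) (nat_lit 0) (XT.nd (nat_lit 78) (nat_lit 988) (nat_lit 0) (XT.lf (nat_lit 0) (nat_lit 4290088279) (nat_lit 608) (nat_lit 2881482493) (nat_lit 76) (nat_lit 2578187716)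 (nat_lit 159) (nat_lit 5) (nat_lit 167) (nat_lit 5) (nat_lit 160) (nat_lit 5) (nat_lit 308) (nat_lit 253) (nat_lit 219)) (XT.nd (nat_lit 78) (nat_lit 532) (nat_lit 0) (XT.lf (nat_lit 0) (nat_lit 5658389086) (nat_lit 456) (nat_lit 2790732652) (nat_lit 532) (nat_lit 1462032376) (nat_lit 153) (nat_lit 5) (nat_lit 159) (nat_lit 5) (nat_lit 160) (nat_lit 5) (nat_lit 309) (nat_lit 253) (nat_lit 218)) (XT.lf (nat_lit 0) (nat_lit 2601405931) (nat_lit 532) (nat_lit 5738485750) (nat_lit 76) (nat_lit 1737602707) (nat_lit 146) (nat_lit 5) (nat_lit 153) (nat_lit 5) (nat_lit 147) (nat_lit 5) (nat_lit 310) (nat_lit 253) (nat_lit 217)))) (XT.nd (nat_lit 156) (nat_lit 380) (nat_lit 0) (XT.nd (nat_lit 78) (nat_lit 532) (nat_lit 0) (XT.lf (nat_lit 0) (nat_lit 2902309458) (nat_lit 456) (nat_lit 3854005708) (nat_lit 532) (nat_lit 3492587596) (nat_lit 140) (nat_lit 5) (nat_lit 146) (nat_lit 5) (nat_lit 147) (nat_lit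 5) (nat_lit 311) (nat_lit 253) (nat_lit 216)) (XT.lf (nat_lit 0) (nat_lit 579369295) (nat_lit 532) (nat_lit 9066224899) (nat_lit 76) (nat_lit 780297709) (nat_lit 133) (nat_lit 5) (nat_lit 140) (nat_lit 5) (nat_lit 134) (nat_lit 5) (nat_lit 312) (nat_lit 253) (nat_lit 215))) (XT.nd (nat_lit 78) (nat_lit 380) (nat_lit 0) (XT.lf (nat_lit 0) (nat_lit 4727371201) (nat_lit 532) (nat_lit 333616153) (nat_lit 76) (nat_lit 5546770164) (nat_lit 133) (nat_lit 5) (nat_lit 140) (nat_lit 5) (nat_lit 134) (nat_lit 5) (nat_lit 313) (nat_lit 253) (nat_lit 214)) (XT.lf (nat_lit 0) (nat_lit 8673130296) (nat_lit 380) (nat_lit 310354227) (nat_lit 456) (nat_lit 1811974802) (nat_lit 128) (nat_lit 5) (nat_lit 133) (nat_lit 5) (nat_lit 134) (nat_lit 5) (nat_lit 314) (nat_lit 253) (nat_lit 213))))))))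
noncomputable def xc39 : XT := (XT.nd (nat_lit 2028) (nat_lit 2128) (nat_lit 0) (XT.nd (nat_lit 1014) (nat_lit 2508) (nat_lit 0) (XT.nd (nat_lit 468) (nat_lit 1596) (nat_lit 0) (XT.nd (nat_lit 234) (nat_lit 836) (nat_lit 0) (XT.nd (nat_lit 78) (nat_lit 760) (nat_lit 0) (XT.lf (nat_lit 0) (nat_lit 2352917039) (nat_lit 456) (nat_lit 4078480648) (nat_lit 76) (nat_lit 4557024261) (nat_lit 122) (nat_lit 5) (nat_lit 128) (nat_lit 5) (nat_lit 123) (nat_lit 5) (nat_lit 315) (nat_lit 253) (nat_lit 212)) (XT.nd (nat_lit 78) (nat_lit 380) (nat_lit 0) (XT.lf (nat_lit 0) (nat_lit 5006138736) (nat_lit 380) (nat_lit 1590753616) (nat_lit 456) (nat_lit 4590516046) (nat_lit 117) (nat_lit 5) (nat_lit 122) (nat_lit 5) (nat_lit 123) (nat_lit 5) (nat_lit 316) (nat_lit 253) (nat_lit 211)) (XT.lf (nat_lit 0) (nat_lit 2943513210) (nat_lit 380) (nat_lit 8024422014) (nat_lit 456) (nat_lit 424482384) (nat_lit 112) (nat_lit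 5) (nat_lit 117) (nat_lit 5) (nat_lit 118) (nat_lit 5) (nat_lit 317) (nat_lit 253) (nat_lit 210)))) (XT.nd (nat_lit 78) (nat_lit 456) (nat_lit 0) (XT.lf (nat_lit 0) (nat_lit 697533219) (nat_lit 304) (nat_lit 3107273988) (nat_lit 380) (nat_lit 7798533917) (nat_lit 107) (nat_lit 5) (nat_lit 111) (nat_lit 5) (nat_lit 112) (nat_lit 5) (nat_lit 318) (nat_lit 253) (nat_lit 209)) (XT.nd (nat_lit 78) (nat_lit 456) (nat_lit 0) (XT.lf (nat_lit 0) (nat_lit 8158390645) (nat_lit 380) (nat_lit 1700435094) (nat_lit 76) (nat_lit 1961691327) (nat_lit 107) (nat_lit 5) (nat_lit 112) (nat_lit 5) (nat_lit 108) (nat_lit 5) (nat_lit 319) (nat_lit 253) (nat_lit 208)) (XT.lf (nat_lit 0) (nat_lit 596490139) (nat_lit 456) (nat_lit 4282074455) (nat_lit 76) (nat_lit 7165489036) (nat_lit 101) (nat_lit 5) (nat_lit 107) (nat_lit 5) (nat_lit 102) (nat_lit 5) (nat_lit 320) (nat_lit 253) (nat_lit 207))))) (XT.nd (nat_lit 234) (nat_lit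 912) (nat_lit 0) (XT.nd (nat_lit 78) (nat_lit 380) (nat_lit 0) (XT.lf (nat_lit 0) (nat_lit 4916270435) (nat_lit 380) (nat_lit 7070462719) (nat_lit 76) (nat_lit 287456928) (nat_lit 97) (nat_lit 5) (nat_lit 102) (nat_lit 5) (nat_lit 98) (nat_lit 5) (nat_lit 321) (nat_lit 253) (nat_lit 206)) (XT.nd (nat_lit 78) (nat_lit 76) (nat_lit 0) (XT.lf (nat_lit 0) (nat_lit 2425987684) (nat_lit 304) (nat_lit 6953894179) (nat_lit 380) (nat_lit 3131103916) (nat_lit 93) (nat_lit 5) (nat_lit 97) (nat_lit 5) (nat_lit 98) (nat_lit 5) (nat_lit 322) (nat_lit 253) (nat_lit 205)) (XT.lf (nat_lit 0) (nat_lit 1192152588) (nat_lit 380) (nat_lit 552474356) (nat_lit 76) (nat_lit 11010424245) (nat_lit 92) (nat_lit 5) (nat_lit 97) (nat_lit 5) (nat_lit 93) (nat_lit 5) (nat_lit 323) (nat_lit 253) (nat_lit 204)))) (XT.nd (nat_lit 156) (nat_lit 304) (nat_lit 0) (XT.nd (nat_lit 78) (nat_lit 304) (nat_lit 0) (XT.lf (nat_lit 0) (nat_lit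 5626138862) (nat_lit 380) (nat_lit 3754838942) (nat_lit 76) (nat_lit 3624612275) (nat_lit 88) (nat_lit 5) (nat_lit 93) (nat_lit 5) (nat_lit 89) (nat_lit 5) (nat_lit 324) (nat_lit 253) (nat_lit 203)) (XT.lf (nat_lit 0) (nat_lit 6068769435) (nat_lit 304) (nat_lit 4119461168) (nat_lit 380) (nat_lit 3075548621) (nat_lit 84) (nat_lit 5) (nat_lit 88) (nat_lit 5) (nat_lit 89) (nat_lit 5) (nat_lit 325) (nat_lit 253) (nat_lit 202))) (XT.nd (nat_lit 78) (nat_lit 0) (nat_lit 0) (XT.lf (nat_lit 0) (nat_lit 1332009668) (nat_lit 304) (nat_lit 10894031450) (nat_lit 76) (nat_lit 1303683890) (nat_lit 80) (nat_lit 5) (nat_lit 84) (nat_lit 5) (nat_lit 81) (nat_lit 5) (nat_lit 326) (nat_lit 253) (nat_lit 201)) (XT.lf (nat_lit 0) (nat_lit 5848796862) (nat_lit 304) (nat_lit 1081363967) (nat_lit 76) (nat_lit 6872739103) (nat_lit 80) (nat_lit 5) (nat_lit 84) (nat_lit 5) (nat_lit 81) (nat_lit 5) (nat_lit 327) (nat_lit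 253) (nat_lit 200)))))) (XT.nd (nat_lit 468) (nat_lit 1064) (nat_lit 0) (XT.nd (nat_lit 234) (nat_lit 532) (nat_lit 0) (XT.nd (nat_lit 78) (nat_lit 608) (nat_lit 0) (XT.lf (nat_lit 0) (nat_lit 9057035916) (nat_lit 304) (nat_lit 1446469063) (nat_lit 380) (nat_lit 3580748904) (nat_lit 76) (nat_lit 5) (nat_lit 80) (nat_lit 5) (nat_lit 81) (nat_lit 5) (nat_lit 328) (nat_lit 253) (nat_lit 199)) (XT.nd (nat_lit 78) (nat_lit 304) (nat_lit 0) (XT.lf (nat_lit 0) (nat_lit 923961457) (nat_lit 304) (nat_lit 9286911100) (nat_lit 76) (nat_lit 4162841082) (nat_lit 72) (nat_lit 5) (nat_lit 76) (nat_lit 5) (nat_lit 73) (nat_lit 5) (nat_lit 329) (nat_lit 253) (nat_lit 198)) (XT.lf (nat_lit 0) (nat_lit 792125847) (nat_lit 304) (nat_lit 4717592332) (nat_lit 380) (nat_lit 9161804254) (nat_lit 68) (nat_lit 5) (nat_lit 72) (nat_lit 5) (nat_lit 73) (nat_lit 5) (nat_lit 330) (nat_lit 253) (nat_lit 197)))) (XT.nd (nat_lit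 78) (nat_lit 532) (nat_lit 0) (XT.lf (nat_lit 0) (nat_lit 10248513755) (nat_lit 380) (nat_lit 3768677046) (nat_lit 76) (nat_lit 960794188) (nat_lit 68) (nat_lit 5) (nat_lit 73) (nat_lit 5) (nat_lit 69) (nat_lit 5) (nat_lit 331) (nat_lit 253) (nat_lit 196)) (XT.nd (nat_lit 78) (nat_lit 304) (nat_lit 0) (XT.lf (nat_lit 0) (nat_lit 6617299846) (nat_lit 228) (nat_lit 8534270432) (nat_lit 304) (nat_lit 141657185) (nat_lit 65) (nat_lit 5) (nat_lit 68) (nat_lit 5) (nat_lit 69) (nat_lit 5) (nat_lit 332) (nat_lit 253) (nat_lit 195)) (XT.lf (nat_lit 0) (nat_lit 1658176917) (nat_lit 228) (nat_lit 2850181759) (nat_lit 304) (nat_lit 11109306257) (nat_lit 61) (nat_lit 5) (nat_lit 64) (nat_lit 5) (nat_lit 65) (nat_lit 5) (nat_lit 333) (nat_lit 253) (nat_lit 194))))) (XT.nd (nat_lit 234) (nat_lit 532) (nat_lit 0) (XT.nd (nat_lit 78) (nat_lit 532) (nat_lit 0) (XT.lf (nat_lit 0) (nat_lit 9323642366) (nat_lit 304)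 (nat_lit 3632609860) (nat_lit 76) (nat_lit 2995036596) (nat_lit 61) (nat_lit 5) (nat_lit 65) (nat_lit 5) (nat_lit 62) (nat_lit 5) (nat_lit 334) (nat_lit 253) (nat_lit 193)) (XT.nd (nat_lit 78) (nat_lit 304) (nat_lit 0) (XT.lf (nat_lit 0) (nat_lit 6997005679) (nat_lit 228) (nat_lit 7301348155) (nat_lit 304) (nat_lit 1996293312) (nat_lit 58) (nat_lit 5) (nat_lit 61) (nat_lit 5) (nat_lit 62) (nat_lit 5) (nat_lit 335) (nat_lit 253) (nat_lit 192)) (XT.lf (nat_lit 0) (nat_lit 1266703436) (nat_lit 228) (nat_lit 1454985083) (nat_lit 304) (nat_lit 13926599993) (nat_lit 54) (nat_lit 5) (nat_lit 57) (nat_lit 5) (nat_lit 58) (nat_lit 5) (nat_lit 336) (nat_lit 253) (nat_lit 191)))) (XT.nd (nat_lit 156) (nat_lit 304) (nat_lit 0) (XT.nd (nat_lit 78) (nat_lit 228) (nat_lit 0) (XT.lf (nat_lit 0) (nat_lit 7599106496) (nat_lit 304) (nat_lit 4858111479) (nat_lit 76) (nat_lit 4554180065) (nat_lit 54) (nat_lit 5) (nat_lit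 58) (nat_lit 5) (nat_lit 55) (nat_lit 5) (nat_lit 337) (nat_lit 253) (nat_lit 190)) (XT.lf (nat_lit 0) (nat_lit 5973307419) (nat_lit 228) (nat_lit 6651248900) (nat_lit 304) (nat_lit 4760832873) (nat_lit 51) (nat_lit 5) (nat_lit 54) (nat_lit 5) (nat_lit 55) (nat_lit 5) (nat_lit 338) (nat_lit 253) (nat_lit 189))) (XT.nd (nat_lit 78) (nat_lit 228) (nat_lit 0) (XT.lf (nat_lit 0) (nat_lit 16658160) (nat_lit 304) (nat_lit 649954990) (nat_lit 76) (nat_lit 17104266766) (nat_lit 50) (nat_lit 5) (nat_lit 54) (nat_lit 5) (nat_lit 51) (nat_lit 5) (nat_lit 339) (nat_lit 253) (nat_lit 188)) (XT.lf (nat_lit 0) (nat_lit 4932381763) (nat_lit 304) (nat_lit 7736113920) (nat_lit 76) (nat_lit 5497639333) (nat_lit 47) (nat_lit 5) (nat_lit 51) (nat_lit 5) (nat_lit 48) (nat_lit 5) (nat_lit 340) (nat_lit 253) (nat_lit 187))))))) (XT.nd (nat_lit 1014) (nat_lit 684) (nat_lit 0) (XT.nd (nat_lit 468) (nat_lit 608) (nat_lit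 0) (XT.nd (nat_lit 234) (nat_lit 380) (nat_lit 0) (XT.nd (nat_lit 78) (nat_lit 304) (nat_lit 0) (XT.lf (nat_lit 0) (nat_lit 3243095624) (nat_lit 152) (nat_lit 6738176929) (nat_lit 228) (nat_lit 8592281516) (nat_lit 45) (nat_lit 5) (nat_lit 47) (nat_lit 5) (nat_lit 48) (nat_lit 5) (nat_lit 341) (nat_lit 253) (nat_lit 186)) (XT.nd (nat_lit 78) (nat_lit 304) (nat_lit 0) (XT.lf (nat_lit 0) (nat_lit 14585675795) (nat_lit 152) (nat_lit 604946458) (nat_lit 228) (nat_lit 3802413219) (nat_lit 45) (nat_lit 5) (nat_lit 47) (nat_lit 5) (nat_lit 48) (nat_lit 5) (nat_lit 342) (nat_lit 253) (nat_lit 185)) (XT.lf (nat_lit 0) (nat_lit 1155613837) (nat_lit 304) (nat_lit 12606569373) (nat_lit 76) (nat_lit 5662003940) (nat_lit 41) (nat_lit 5) (nat_lit 45) (nat_lit 5) (nat_lit 42) (nat_lit 5) (nat_lit 343) (nat_lit 253) (nat_lit 184)))) (XT.nd (nat_lit 78) (nat_lit 380) (nat_lit 0) (XT.lf (nat_lit 0) (nat_lit 6203270238)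 (nat_lit 304) (nat_lit 1527592981) (nat_lit 76) (nat_lit 12137074641) (nat_lit 41) (nat_lit 5) (nat_lit 45) (nat_lit 5) (nat_lit 42) (nat_lit 5) (nat_lit 344) (nat_lit 253) (nat_lit 183)) (XT.nd (nat_lit 78) (nat_lit 228) (nat_lit 0) (XT.lf (nat_lit 0) (nat_lit 9946318558) (nat_lit 152) (nat_lit 1479979904) (nat_lit 228) (nat_lit 8898241393) (nat_lit 39) (nat_lit 5) (nat_lit 41) (nat_lit 5) (nat_lit 42) (nat_lit 5) (nat_lit 345) (nat_lit 253) (nat_lit 182)) (XT.lf (nat_lit 0) (nat_lit 902883216) (nat_lit 228) (nat_lit 15911549259) (nat_lit 304) (nat_lit 3980256226) (nat_lit 36) (nat_lit 5) (nat_lit 39) (nat_lit 5) (nat_lit 40) (nat_lit 5) (nat_lit 346) (nat_lit 253) (nat_lit 181))))) (XT.nd (nat_lit 234) (nat_lit 380) (nat_lit 0) (XT.nd (nat_lit 78) (nat_lit 152) (nat_lit 0) (XT.lf (nat_lit 0) (nat_lit 1112122901) (nat_lit 304) (nat_lit 8697334708) (nat_lit 76) (nat_lit 11468537988) (nat_lit 35)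 (nat_lit 5) (nat_lit 39) (nat_lit 5) (nat_lit 36) (nat_lit 5) (nat_lit 347) (nat_lit 253) (nat_lit 180)) (XT.nd (nat_lit 78) (nat_lit 0) (nat_lit 0) (XT.lf (nat_lit 0) (nat_lit 2777862768) (nat_lit 152) (nat_lit 3505230744) (nat_lit 228) (nat_lit 15492599868) (nat_lit 33) (nat_lit 5) (nat_lit 35) (nat_lit 5) (nat_lit 36) (nat_lit 5) (nat_lit 348) (nat_lit 253) (nat_lit 179)) (XT.lf (nat_lit 0) (nat_lit 11650008052) (nat_lit 228) (nat_lit 7655037037) (nat_lit 76) (nat_lit 2982476045) (nat_lit 33) (nat_lit 5) (nat_lit 36) (nat_lit 5) (nat_lit 34) (nat_lit 5) (nat_lit 349) (nat_lit 253) (nat_lit 178)))) (XT.nd (nat_lit 156) (nat_lit 228) (nat_lit 0) (XT.nd (nat_lit 78) (nat_lit 0) (nat_lit 0) (XT.lf (nat_lit 0) (nat_lit 3994395129) (nat_lit 152) (nat_lit 13196102177) (nat_lit 228) (nat_lit 5623969955) (nat_lit 31) (nat_lit 5) (nat_lit 33) (nat_lit 5) (nat_lit 34) (nat_lit 5) (nat_lit 350) (nat_lit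 253) (nat_lit 177)) (XT.lf (nat_lit 0) (nat_lit 16036517691) (nat_lit 152) (nat_lit 6876420767) (nat_lit 228) (nat_lit 443983024) (nat_lit 31) (nat_lit 5) (nat_lit 33) (nat_lit 5) (nat_lit 34) (nat_lit 5) (nat_lit 351) (nat_lit 253) (nat_lit 176))) (XT.nd (nat_lit 78) (nat_lit 0) (nat_lit 0) (XT.lf (nat_lit 0) (nat_lit 4491132657) (nat_lit 152) (nat_lit 329949212) (nat_lit 228) (nat_lit 19094069455) (nat_lit 28) (nat_lit 5) (nat_lit 30) (nat_lit 5) (nat_lit 31) (nat_lit 5) (nat_lit 352) (nat_lit 253) (nat_lit 175)) (XT.lf (nat_lit 0) (nat_lit 10294826812) (nat_lit 228) (nat_lit 7836687746) (nat_lit 76) (nat_lit 6357432962) (nat_lit 28) (nat_lit 5) (nat_lit 31) (nat_lit 5) (nat_lit 29) (nat_lit 5) (nat_lit 353) (nat_lit 253) (nat_lit 174)))))) (XT.nd (nat_lit 546) (nat_lit 152) (nat_lit 0) (XT.nd (nat_lit 234) (nat_lit 152) (nat_lit 0) (XT.nd (nat_lit 78) (nat_lit 228) (nat_lit 0) (XT.lf (nat_lit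 0) (nat_lit 4091626473) (nat_lit 152) (nat_lit 11836099523) (nat_lit 228) (nat_lit 9152345736) (nat_lit 26) (nat_lit 5) (nat_lit 28) (nat_lit 5) (nat_lit 29) (nat_lit 5) (nat_lit 354) (nat_lit 253) (nat_lit 173)) (XT.nd (nat_lit 78) (nat_lit 228) (nat_lit 0) (XT.lf (nat_lit 0) (nat_lit 16427909892) (nat_lit 152) (nat_lit 5321590250) (nat_lit 228) (nat_lit 3939044360) (nat_lit 26) (nat_lit 5) (nat_lit 28) (nat_lit 5) (nat_lit 29) (nat_lit 5) (nat_lit 355) (nat_lit 253) (nat_lit 172)) (XT.lf (nat_lit 0) (nat_lit 1406579065) (nat_lit 228) (nat_lit 23534039116) (nat_lit 76) (nat_lit 1374585754) (nat_lit 23) (nat_lit 5) (nat_lit 26) (nat_lit 5) (nat_lit 24) (nat_lit 5) (nat_lit 356) (nat_lit 253) (nat_lit 171)))) (XT.nd (nat_lit 156) (nat_lit 0) (nat_lit 0) (XT.nd (nat_lit 78) (nat_lit 152) (nat_lit 0) (XT.lf (nat_lit 0) (nat_lit 6926080812) (nat_lit 228) (nat_lit 11766295157) (nat_lit 76) (nat_lit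 8266437561) (nat_lit 23) (nat_lit 5) (nat_lit 26) (nat_lit 5) (nat_lit 24) (nat_lit 5) (nat_lit 357) (nat_lit 253) (nat_lit 170)) (XT.lf (nat_lit 0) (nat_lit 304571970) (nat_lit 152) (nat_lit 12277470533) (nat_lit 228) (nat_lit 15040282707) (nat_lit 21) (nat_lit 5) (nat_lit 23) (nat_lit 5) (nat_lit 24) (nat_lit 5) (nat_lit 358) (nat_lit 253) (nat_lit 169))) (XT.nd (nat_lit 78) (nat_lit 0) (nat_lit 0) (XT.lf (nat_lit 0) (nat_lit 12845594875) (nat_lit 152) (nat_lit 5611279311) (nat_lit 228) (nat_lit 9847895199) (nat_lit 21) (nat_lit 5) (nat_lit 23) (nat_lit 5) (nat_lit 24) (nat_lit 5) (nat_lit 359) (nat_lit 253) (nat_lit 168)) (XT.lf (nat_lit 0) (nat_lit 24486305245) (nat_lit 228) (nat_lit 3304932572) (nat_lit 76) (nat_lit 1216892627) (nat_lit 21) (nat_lit 5) (nat_lit 24) (nat_lit 5) (nat_lit 22) (nat_lit 4) (nat_lit 360) (nat_lit 253) (nat_lit 167))))) (XT.nd (nat_lit 33852) (nat_lit 0) (nat_lit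 36860) (XT.nd (nat_lit 33696) (nat_lit 0) (nat_lit 39748) (XT.lf (nat_lit 0) (nat_lit 1020466876) (nat_lit 152) (nat_lit 20490686053) (nat_lit 76) (nat_lit 8219942690) (nat_lit 19) (nat_lit 5) (nat_lit 21) (nat_lit 5) (nat_lit 20) (nat_lit 5) (nat_lit 361) (nat_lit 253) (nat_lit 166)) (XT.nd (nat_lit 78) (nat_lit 836) (nat_lit 0) (XT.lf (nat_lit 0) (nat_lit 552291693) (nat_lit 684) (nat_lit 1375254696) (nat_lit 684) (nat_lit 1375254696) (nat_lit 553) (nat_lit 4) (nat_lit 562) (nat_lit 5) (nat_lit 562) (nat_lit 4) (nat_lit 272) (nat_lit 254) (nat_lit 254)) (XT.lf (nat_lit 0) (nat_lit 100177571) (nat_lit 760) (nat_lit 1584503343) (nat_lit 836) (nat_lit 4950074690) (nat_lit 542) (nat_lit 5) (nat_lit 552) (nat_lit 5) (nat_lit 553) (nat_lit 4) (nat_lit 273) (nat_lit 254) (nat_lit 253)))) (XT.nd (nat_lit 156) (nat_lit 1976) (nat_lit 0) (XT.nd (nat_lit 78) (nat_lit 912) (nat_lit 0) (XT.lf (nat_lit 0)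 (nat_lit 5813991240) (nat_lit 760) (nat_lit 286774436) (nat_lit 836) (nat_lit 566202670) (nat_lit 542) (nat_lit 5) (nat_lit 552) (nat_lit 5) (nat_lit 553) (nat_lit 4) (nat_lit 274) (nat_lit 254) (nat_lit 252)) (XT.lf (nat_lit 0) (nat_lit 3787875452) (nat_lit 912) (nat_lit 1782643156) (nat_lit 76) (nat_lit 1131546675) (nat_lit 530) (nat_lit 5) (nat_lit 542) (nat_lit 5) (nat_lit 531) (nat_lit 4) (nat_lit 275) (nat_lit 254) (nat_lit 251))) (XT.nd (nat_lit 78) (nat_lit 988) (nat_lit 0) (XT.lf (nat_lit 0) (nat_lit 1394897832) (nat_lit 988) (nat_lit 2676121140) (nat_lit 76) (nat_lit 2669388225) (nat_lit 517) (nat_lit 5) (nat_lit 530) (nat_lit 5) (nat_lit 518) (nat_lit 5) (nat_lit 276) (nat_lit 254) (nat_lit 250)) (XT.lf (nat_lit 0) (nat_lit 3241410538) (nat_lit 988) (nat_lit 2442945206) (nat_lit 1064) (nat_lit 1097566644) (nat_lit 504) (nat_lit 5) (nat_lit 517) (nat_lit 5) (nat_lit 518) (nat_lit 5)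 (nat_lit 277) (nat_lit 254) (nat_lit 249))))))))
noncomputable def xc40 : XT := (XT.nd (nat_lit 2028) (nat_lit 9120) (nat_lit 0) (XT.nd (nat_lit 1014) (nat_lit 7828) (nat_lit 0) (XT.nd (nat_lit 468) (nat_lit 9196) (nat_lit 0) (XT.nd (nat_lit 234) (nat_lit 2812) (nat_lit 0) (XT.nd (nat_lit 78) (nat_lit 2432) (nat_lit 0) (XT.lf (nat_lit 0) (nat_lit 2446315780) (nat_lit 1064) (nat_lit 682207149) (nat_lit 1140) (nat_lit 3698071897) (nat_lit 489) (nat_lit 5) (nat_lit 503) (nat_lit 5) (nat_lit 504) (nat_lit 5) (nat_lit 278) (nat_lit 254) (nat_lit 248)) (XT.nd (nat_lit 78) (nat_lit 1216) (nat_lit 0) (XT.lf (nat_lit 0) (nat_lit 490998959) (nat_lit 1216) (nat_lit 5195911906) (nat_lit 76) (nat_lit 1187580168) (nat_lit 473) (nat_lit 5) (nat_lit 489) (nat_lit 5) (nat_lit 474) (nat_lit 5) (nat_lit 279) (nat_lit 254) (nat_lit 247)) (XT.lf (nat_lit 0) (nat_lit 924006630) (nat_lit 1216) (nat_lit 3737489857) (nat_lit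 1292) (nat_lit 2263914155) (nat_lit 457) (nat_lit 5) (nat_lit 473) (nat_lit 5) (nat_lit 474) (nat_lit 5) (nat_lit 280) (nat_lit 254) (nat_lit 246)))) (XT.nd (nat_lit 78) (nat_lit 1444) (nat_lit 0) (XT.lf (nat_lit 0) (nat_lit 196340251) (nat_lit 1292) (nat_lit 1661074150) (nat_lit 1368) (nat_lit 5122289927) (nat_lit 439) (nat_lit 5) (nat_lit 456) (nat_lit 5) (nat_lit 457) (nat_lit 5) (nat_lit 281) (nat_lit 254) (nat_lit 245)) (XT.nd (nat_lit 78) (nat_lit 1444) (nat_lit 0) (XT.lf (nat_lit 0) (nat_lit 5986480789) (nat_lit 1368) (nat_lit 506819441) (nat_lit 76) (nat_lit 543910706) (nat_lit 439) (nat_lit 5) (nat_lit 457) (nat_lit 5) (nat_lit 440) (nat_lit 5) (nat_lit 282) (nat_lit 254) (nat_lit 244)) (XT.lf (nat_lit 0) (nat_lit 3024983034) (nat_lit 1444) (nat_lit 1205880861) (nat_lit 76) (nat_lit 2866877997) (nat_lit 420) (nat_lit 5) (nat_lit 439) (nat_lit 5) (nat_lit 421) (nat_lit 5) (nat_lit 283)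 (nat_lit 254) (nat_lit 243))))) (XT.nd (nat_lit 234) (nat_lit 4484) (nat_lit 0) (XT.nd (nat_lit 78) (nat_lit 3268) (nat_lit 0) (XT.lf (nat_lit 0) (nat_lit 5279329202) (nat_lit 1444) (nat_lit 1843549252) (nat_lit 1520) (nat_lit 38954509) (nat_lit 401) (nat_lit 5) (nat_lit 420) (nat_lit 5) (nat_lit 421) (nat_lit 5) (nat_lit 284) (nat_lit 254) (nat_lit 242)) (XT.nd (nat_lit 78) (nat_lit 1672) (nat_lit 0) (XT.lf (nat_lit 0) (nat_lit 3983215167) (nat_lit 1596) (nat_lit 2563466572) (nat_lit 76) (nat_lit 682362721) (nat_lit 380) (nat_lit 5) (nat_lit 401) (nat_lit 5) (nat_lit 381) (nat_lit 5) (nat_lit 285) (nat_lit 254) (nat_lit 241)) (XT.lf (nat_lit 0) (nat_lit 748552760) (nat_lit 1672) (nat_lit 3239192429) (nat_lit 76) (nat_lit 3311922700) (nat_lit 358) (nat_lit 5) (nat_lit 380) (nat_lit 5) (nat_lit 359) (nat_lit 5) (nat_lit 286) (nat_lit 254) (nat_lit 240)))) (XT.nd (nat_lit 156) (nat_lit 1748) (nat_lit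 0) (XT.nd (nat_lit 78) (nat_lit 1064) (nat_lit 0) (XT.lf (nat_lit 0) (nat_lit 3456809011) (nat_lit 1672) (nat_lit 1285040779) (nat_lit 1748) (nat_lit 2631814233) (nat_lit 336) (nat_lit 5) (nat_lit 358) (nat_lit 5) (nat_lit 359) (nat_lit 5) (nat_lit 287) (nat_lit 254) (nat_lit 239)) (XT.lf (nat_lit 0) (nat_lit 1322195910) (nat_lit 1064) (nat_lit 4597228591) (nat_lit 76) (nat_lit 1531701595) (nat_lit 322) (nat_lit 5) (nat_lit 336) (nat_lit 5) (nat_lit 323) (nat_lit 5) (nat_lit 288) (nat_lit 254) (nat_lit 238))) (XT.nd (nat_lit 78) (nat_lit 912) (nat_lit 0) (XT.lf (nat_lit 0) (nat_lit 2240746471) (nat_lit 836) (nat_lit 3055823723) (nat_lit 912) (nat_lit 2235379514) (nat_lit 311) (nat_lit 5) (nat_lit 322) (nat_lit 5) (nat_lit 323) (nat_lit 5) (nat_lit 289) (nat_lit 254) (nat_lit 237)) (XT.lf (nat_lit 0) (nat_lit 1628802421) (nat_lit 836) (nat_lit 53962889) (nat_lit 912) (nat_lit 5933709961) (nat_lit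 299) (nat_lit 5) (nat_lit 310) (nat_lit 5) (nat_lit 311) (nat_lit 5) (nat_lit 290) (nat_lit 254) (nat_lit 236)))))) (XT.nd (nat_lit 468) (nat_lit 3952) (nat_lit 0) (XT.nd (nat_lit 234) (nat_lit 2280) (nat_lit 0) (XT.nd (nat_lit 78) (nat_lit 836) (nat_lit 0) (XT.lf (nat_lit 0) (nat_lit 990614416) (nat_lit 760) (nat_lit 4651513130) (nat_lit 836) (nat_lit 2062157982) (nat_lit 289) (nat_lit 5) (nat_lit 299) (nat_lit 5) (nat_lit 300) (nat_lit 5) (nat_lit 291) (nat_lit 254) (nat_lit 235)) (XT.nd (nat_lit 78) (nat_lit 0) (nat_lit 0) (XT.lf (nat_lit 0) (nat_lit 344499149) (nat_lit 760) (nat_lit 1492459903) (nat_lit 836) (nat_lit 5958906831) (nat_lit 278) (nat_lit 5) (nat_lit 288) (nat_lit 5) (nat_lit 289) (nat_lit 5) (nat_lit 292) (nat_lit 254) (nat_lit 234)) (XT.lf (nat_lit 0) (nat_lit 5777997144) (nat_lit 836) (nat_lit 322000740) (nat_lit 76) (nat_lit 1790979661) (nat_lit 278) (nat_lit 5) (nat_lit 289)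 (nat_lit 5) (nat_lit 279) (nat_lit 5) (nat_lit 293) (nat_lit 254) (nat_lit 233)))) (XT.nd (nat_lit 78) (nat_lit 1520) (nat_lit 0) (XT.lf (nat_lit 0) (nat_lit 1777664480) (nat_lit 760) (nat_lit 1008888736) (nat_lit 76) (nat_lit 5203187917) (nat_lit 268) (nat_lit 5) (nat_lit 278) (nat_lit 5) (nat_lit 269) (nat_lit 5) (nat_lit 294) (nat_lit 254) (nat_lit 232)) (XT.nd (nat_lit 78) (nat_lit 760) (nat_lit 0) (XT.lf (nat_lit 0) (nat_lit 5704558729) (nat_lit 836) (nat_lit 1721400326) (nat_lit 76) (nat_lit 666371506) (nat_lit 258) (nat_lit 5) (nat_lit 269) (nat_lit 5) (nat_lit 259) (nat_lit 5) (nat_lit 295) (nat_lit 254) (nat_lit 231)) (XT.lf (nat_lit 0) (nat_lit 1495572556) (nat_lit 760) (nat_lit 2474069466) (nat_lit 76) (nat_lit 4228962961) (nat_lit 248) (nat_lit 5) (nat_lit 258) (nat_lit 5) (nat_lit 249) (nat_lit 5) (nat_lit 296) (nat_lit 254) (nat_lit 230))))) (XT.nd (nat_lit 234) (nat_lit 1900) (nat_lit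 0) (XT.nd (nat_lit 78) (nat_lit 1368) (nat_lit 0) (XT.lf (nat_lit 0) (nat_lit 5050121132) (nat_lit 684) (nat_lit 361223530) (nat_lit 760) (nat_lit 2897538844) (nat_lit 239) (nat_lit 5) (nat_lit 248) (nat_lit 5) (nat_lit 249) (nat_lit 5) (nat_lit 297) (nat_lit 254) (nat_lit 229)) (XT.nd (nat_lit 78) (nat_lit 684) (nat_lit 0) (XT.lf (nat_lit 0) (nat_lit 980927499) (nat_lit 684) (nat_lit 4092576828) (nat_lit 76) (nat_lit 3349483196) (nat_lit 230) (nat_lit 5) (nat_lit 239) (nat_lit 5) (nat_lit 231) (nat_lit 5) (nat_lit 298) (nat_lit 254) (nat_lit 228)) (XT.lf (nat_lit 0) (nat_lit 3567334963) (nat_lit 684) (nat_lit 1324089809) (nat_lit 760) (nat_lit 3649697357) (nat_lit 221) (nat_lit 5) (nat_lit 230) (nat_lit 5) (nat_lit 231) (nat_lit 5) (nat_lit 299) (nat_lit 254) (nat_lit 227)))) (XT.nd (nat_lit 156) (nat_lit 608) (nat_lit 0) (XT.nd (nat_lit 78) (nat_lit 608) (nat_lit 0) (XT.lf (nat_lit 0) (nat_lit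 224030424) (nat_lit 684) (nat_lit 5903902237) (nat_lit 76) (nat_lit 2535502649) (nat_lit 212) (nat_lit 5) (nat_lit 221) (nat_lit 5) (nat_lit 213) (nat_lit 5) (nat_lit 300) (nat_lit 254) (nat_lit 226)) (XT.lf (nat_lit 0) (nat_lit 1886613025) (nat_lit 608) (nat_lit 2243280627) (nat_lit 684) (nat_lit 4659816022) (nat_lit 204) (nat_lit 5) (nat_lit 212) (nat_lit 5) (nat_lit 213) (nat_lit 5) (nat_lit 301) (nat_lit 254) (nat_lit 225))) (XT.nd (nat_lit 78) (nat_lit 76) (nat_lit 0) (XT.lf (nat_lit 0) (nat_lit 964875611) (nat_lit 532) (nat_lit 7157997860) (nat_lit 608) (nat_lit 797581975) (nat_lit 197) (nat_lit 5) (nat_lit 204) (nat_lit 5) (nat_lit 205) (nat_lit 5) (nat_lit 302) (nat_lit 254) (nat_lit 224)) (XT.lf (nat_lit 0) (nat_lit 3114105575) (nat_lit 608) (nat_lit 35024067) (nat_lit 76) (nat_lit 5906152999) (nat_lit 196) (nat_lit 5) (nat_lit 204) (nat_lit 5) (nat_lit 197) (nat_lit 5) (nat_lit 303)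 (nat_lit 254) (nat_lit 223))))))) (XT.nd (nat_lit 1014) (nat_lit 3116) (nat_lit 0) (XT.nd (nat_lit 468) (nat_lit 2736) (nat_lit 0) (XT.nd (nat_lit 234) (nat_lit 1520) (nat_lit 0) (XT.nd (nat_lit 78) (nat_lit 1140) (nat_lit 0) (XT.lf (nat_lit 0) (nat_lit 7107434976) (nat_lit 684) (nat_lit 1082166428) (nat_lit 76) (nat_lit 1005021031) (nat_lit 188) (nat_lit 5) (nat_lit 197) (nat_lit 5) (nat_lit 189) (nat_lit 5) (nat_lit 304) (nat_lit 254) (nat_lit 222)) (XT.nd (nat_lit 78) (nat_lit 532) (nat_lit 0) (XT.lf (nat_lit 0) (nat_lit 1842565667) (nat_lit 608) (nat_lit 2216411733) (nat_lit 76) (nat_lit 5279296064) (nat_lit 180) (nat_lit 5) (nat_lit 188) (nat_lit 5) (nat_lit 181) (nat_lit 5) (nat_lit 305) (nat_lit 254) (nat_lit 221)) (XT.lf (nat_lit 0) (nat_lit 5828792929) (nat_lit 608) (nat_lit 3426442283) (nat_lit 76) (nat_lit 231454138) (nat_lit 173) (nat_lit 5) (nat_lit 181) (nat_lit 5) (nat_lit 174)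 (nat_lit 5) (nat_lit 306) (nat_lit 254) (nat_lit 220)))) (XT.nd (nat_lit 78) (nat_lit 988) (nat_lit 0) (XT.lf (nat_lit 0) (nat_lit 285282844) (nat_lit 532) (nat_lit 4732441705) (nat_lit 76) (nat_lit 4621979435) (nat_lit 166) (nat_lit 5) (nat_lit 173) (nat_lit 5) (nat_lit 167) (nat_lit 5) (nat_lit 307) (nat_lit 254) (nat_lit 219)) (XT.nd (nat_lit 78) (nat_lit 456) (nat_lit 0) (XT.lf (nat_lit 0) (nat_lit 3660758216) (nat_lit 532) (nat_lit 604877463) (nat_lit 608) (nat_lit 5531883017) (nat_lit 159) (nat_lit 5) (nat_lit 166) (nat_lit 5) (nat_lit 167) (nat_lit 5) (nat_lit 308) (nat_lit 254) (nat_lit 218)) (XT.lf (nat_lit 0) (nat_lit 2312198376) (nat_lit 456) (nat_lit 6048701755) (nat_lit 532) (nat_lit 1599320519) (nat_lit 153) (nat_lit 5) (nat_lit 159) (nat_lit 5) (nat_lit 160) (nat_lit 5) (nat_lit 309) (nat_lit 254) (nat_lit 217))))) (XT.nd (nat_lit 234) (nat_lit 1672) (nat_lit 0) (XT.nd (nat_lit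 78) (nat_lit 532) (nat_lit 0) (XT.lf (nat_lit 0) (nat_lit 859863775) (nat_lit 456) (nat_lit 1534350137) (nat_lit 532) (nat_lit 7733828382) (nat_lit 146) (nat_lit 5) (nat_lit 152) (nat_lit 5) (nat_lit 153) (nat_lit 5) (nat_lit 310) (nat_lit 254) (nat_lit 216)) (XT.nd (nat_lit 78) (nat_lit 532) (nat_lit 0) (XT.lf (nat_lit 0) (nat_lit 6483396626) (nat_lit 532) (nat_lit 706001364) (nat_lit 76) (nat_lit 3111395806) (nat_lit 146) (nat_lit 5) (nat_lit 153) (nat_lit 5) (nat_lit 147) (nat_lit 5) (nat_lit 311) (nat_lit 254) (nat_lit 215)) (XT.lf (nat_lit 0) (nat_lit 203713747) (nat_lit 532) (nat_lit 2370742865) (nat_lit 76) (nat_lit 7904497842) (nat_lit 139) (nat_lit 5) (nat_lit 146) (nat_lit 5) (nat_lit 140) (nat_lit 5) (nat_lit 312) (nat_lit 254) (nat_lit 214)))) (XT.nd (nat_lit 156) (nat_lit 836) (nat_lit 0) (XT.nd (nat_lit 78) (nat_lit 380) (nat_lit 0) (XT.lf (nat_lit 0) (nat_lit 4283516863) (nat_lit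 532) (nat_lit 4182132513) (nat_lit 76) (nat_lit 2196561098) (nat_lit 133) (nat_lit 5) (nat_lit 140) (nat_lit 5) (nat_lit 134) (nat_lit 5) (nat_lit 313) (nat_lit 254) (nat_lit 213)) (XT.lf (nat_lit 0) (nat_lit 4724236646) (nat_lit 380) (nat_lit 3755013510) (nat_lit 456) (nat_lit 2371895382) (nat_lit 128) (nat_lit 5) (nat_lit 133) (nat_lit 5) (nat_lit 134) (nat_lit 5) (nat_lit 314) (nat_lit 254) (nat_lit 212))) (XT.nd (nat_lit 78) (nat_lit 380) (nat_lit 0) (XT.lf (nat_lit 0) (nat_lit 1716754291) (nat_lit 456) (nat_lit 8215861464) (nat_lit 76) (nat_lit 1113261248) (nat_lit 122) (nat_lit 5) (nat_lit 128) (nat_lit 5) (nat_lit 123) (nat_lit 5) (nat_lit 315) (nat_lit 254) (nat_lit 211)) (XT.lf (nat_lit 0) (nat_lit 765034171) (nat_lit 380) (nat_lit 5134469838) (nat_lit 456) (nat_lit 5346607667) (nat_lit 117) (nat_lit 5) (nat_lit 122) (nat_lit 5) (nat_lit 123) (nat_lit 5) (nat_lit 316) (nat_lit 254) (nat_lit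 210)))))) (XT.nd (nat_lit 468) (nat_lit 1596) (nat_lit 0) (XT.nd (nat_lit 234) (nat_lit 760) (nat_lit 0) (XT.nd (nat_lit 78) (nat_lit 760) (nat_lit 0) (XT.lf (nat_lit 0) (nat_lit 10031756031) (nat_lit 380) (nat_lit 164631958) (nat_lit 456) (nat_lit 1256239095) (nat_lit 117) (nat_lit 5) (nat_lit 122) (nat_lit 5) (nat_lit 123) (nat_lit 5) (nat_lit 317) (nat_lit 254) (nat_lit 209)) (XT.nd (nat_lit 78) (nat_lit 304) (nat_lit 0) (XT.lf (nat_lit 0) (nat_lit 2936264590) (nat_lit 456) (nat_lit 3796337238) (nat_lit 76) (nat_lit 4932032582) (nat_lit 111) (nat_lit 5) (nat_lit 117) (nat_lit 5) (nat_lit 112) (nat_lit 5) (nat_lit 318) (nat_lit 254) (nat_lit 208)) (XT.lf (nat_lit 0) (nat_lit 5542106283) (nat_lit 304) (nat_lit 1677820999) (nat_lit 380) (nat_lit 4663302758) (nat_lit 107) (nat_lit 5) (nat_lit 111) (nat_lit 5) (nat_lit 112) (nat_lit 5) (nat_lit 319) (nat_lit 254) (nat_lit 207)))) (XT.nd (nat_lit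 78) (nat_lit 380) (nat_lit 0) (XT.lf (nat_lit 0) (nat_lit 3028044023) (nat_lit 380) (nat_lit 8609187586) (nat_lit 456) (nat_lit 471091223) (nat_lit 102) (nat_lit 5) (nat_lit 107) (nat_lit 5) (nat_lit 108) (nat_lit 5) (nat_lit 320) (nat_lit 254) (nat_lit 206)) (XT.nd (nat_lit 78) (nat_lit 0) (nat_lit 0) (XT.lf (nat_lit 0) (nat_lit 300491947) (nat_lit 304) (nat_lit 3489830396) (nat_lit 380) (nat_lit 8549508675) (nat_lit 97) (nat_lit 5) (nat_lit 101) (nat_lit 5) (nat_lit 102) (nat_lit 5) (nat_lit 321) (nat_lit 254) (nat_lit 205)) (XT.lf (nat_lit 0) (nat_lit 8185227656) (nat_lit 380) (nat_lit 2597520376) (nat_lit 76) (nat_lit 1795271891) (nat_lit 97) (nat_lit 5) (nat_lit 102) (nat_lit 5) (nat_lit 98) (nat_lit 5) (nat_lit 322) (nat_lit 254) (nat_lit 204))))) (XT.nd (nat_lit 234) (nat_lit 608) (nat_lit 0) (XT.nd (nat_lit 78) (nat_lit 684) (nat_lit 0) (XT.lf (nat_lit 0) (nat_lit 7107814068) (nat_lit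 304) (nat_lit 5613941773) (nat_lit 380) (nat_lit 101440759) (nat_lit 93) (nat_lit 5) (nat_lit 97) (nat_lit 5) (nat_lit 98) (nat_lit 5) (nat_lit 323) (nat_lit 254) (nat_lit 203)) (XT.nd (nat_lit 78) (nat_lit 304) (nat_lit 0) (XT.lf (nat_lit 0) (nat_lit 3999802795) (nat_lit 304) (nat_lit 246928157) (nat_lit 380) (nat_lit 8828778248) (nat_lit 88) (nat_lit 5) (nat_lit 92) (nat_lit 5) (nat_lit 93) (nat_lit 5) (nat_lit 324) (nat_lit 254) (nat_lit 202)) (XT.lf (nat_lit 0) (nat_lit 634619104) (nat_lit 304) (nat_lit 8108740983) (nat_lit 380) (nat_lit 4591664632) (nat_lit 84) (nat_lit 5) (nat_lit 88) (nat_lit 5) (nat_lit 89) (nat_lit 5) (nat_lit 325) (nat_lit 254) (nat_lit 201)))) (XT.nd (nat_lit 156) (nat_lit 304) (nat_lit 0) (XT.nd (nat_lit 78) (nat_lit 304) (nat_lit 0) (XT.lf (nat_lit 0) (nat_lit 10671706346) (nat_lit 304) (nat_lit 2709434315) (nat_lit 380) (nat_lit 221093744) (nat_lit 84) (nat_lit 5)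 (nat_lit 88) (nat_lit 5) (nat_lit 89) (nat_lit 5) (nat_lit 326) (nat_lit 254) (nat_lit 200)) (XT.lf (nat_lit 0) (nat_lit 4233817382) (nat_lit 304) (nat_lit 6783341230) (nat_lit 76) (nat_lit 2859590767) (nat_lit 80) (nat_lit 5) (nat_lit 84) (nat_lit 5) (nat_lit 81) (nat_lit 5) (nat_lit 327) (nat_lit 254) (nat_lit 199))) (XT.nd (nat_lit 78) (nat_lit 0) (nat_lit 0) (XT.lf (nat_lit 0) (nat_lit 3236911049) (nat_lit 304) (nat_lit 5586858536) (nat_lit 380) (nat_lit 5335644225) (nat_lit 76) (nat_lit 5) (nat_lit 80) (nat_lit 5) (nat_lit 81) (nat_lit 5) (nat_lit 328) (nat_lit 254) (nat_lit 198)) (XT.lf (nat_lit 0) (nat_lit 13543846147) (nat_lit 380) (nat_lit 883781232) (nat_lit 76) (nat_lit 23112560) (nat_lit 76) (nat_lit 5) (nat_lit 81) (nat_lit 5) (nat_lit 77) (nat_lit 5) (nat_lit 329) (nat_lit 254) (nat_lit 197))))))))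
noncomputable def xc41 : XT := (XT.nd (nat_lit 2028) (nat_lit 380) (nat_lit 0) (XT.nd (nat_lit 1014) (nat_lit 1444) (nat_lit 0) (XT.nd (nat_lit 468) (nat_lit 988) (nat_lit 0) (XT.nd (nat_lit 234) (nat_lit 532) (nat_lit 0) (XT.nd (nat_lit 78) (nat_lit 532) (nat_lit 0) (XT.lf (nat_lit 0) (nat_lit 3653537160) (nat_lit 304) (nat_lit 5313081485) (nat_lit 76) (nat_lit 5782806447) (nat_lit 72) (nat_lit 5) (nat_lit 76) (nat_lit 5) (nat_lit 73) (nat_lit 5) (nat_lit 330) (nat_lit 254) (nat_lit 196)) (XT.nd (nat_lit 78) (nat_lit 228) (nat_lit 0) (XT.lf (nat_lit 0) (nat_lit 4999335833) (nat_lit 304) (nat_lit 3325997598) (nat_lit 380) (nat_lit 6731907987) (nat_lit 68) (nat_lit 5) (nat_lit 72) (nat_lit 5) (nat_lit 73) (nat_lit 5) (nat_lit 331) (nat_lit 254) (nat_lit 195)) (XT.lf (nat_lit 0) (nat_lit 226002285) (nat_lit 228) (nat_lit 12914228176) (nat_lit 304) (nat_lit 2234030004) (nat_lit 65) (nat_lit 5) (nat_lit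 68) (nat_lit 5) (nat_lit 69) (nat_lit 5) (nat_lit 332) (nat_lit 254) (nat_lit 194)))) (XT.nd (nat_lit 78) (nat_lit 456) (nat_lit 0) (XT.lf (nat_lit 0) (nat_lit 2407893335) (nat_lit 304) (nat_lit 4861851978) (nat_lit 76) (nat_lit 8429947750) (nat_lit 64) (nat_lit 5) (nat_lit 68) (nat_lit 5) (nat_lit 65) (nat_lit 5) (nat_lit 333) (nat_lit 254) (nat_lit 193)) (XT.nd (nat_lit 78) (nat_lit 228) (nat_lit 0) (XT.lf (nat_lit 0) (nat_lit 5715242194) (nat_lit 228) (nat_lit 1431945268) (nat_lit 304) (nat_lit 8887661646) (nat_lit 61) (nat_lit 5) (nat_lit 64) (nat_lit 5) (nat_lit 65) (nat_lit 5) (nat_lit 334) (nat_lit 254) (nat_lit 192)) (XT.lf (nat_lit 0) (nat_lit 191901926) (nat_lit 228) (nat_lit 11852832865) (nat_lit 304) (nat_lit 4335027932) (nat_lit 58) (nat_lit 5) (nat_lit 61) (nat_lit 5) (nat_lit 62) (nat_lit 5) (nat_lit 335) (nat_lit 254) (nat_lit 191))))) (XT.nd (nat_lit 234) (nat_lit 684) (nat_lit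 0) (XT.nd (nat_lit 78) (nat_lit 228) (nat_lit 0) (XT.lf (nat_lit 0) (nat_lit 381999512) (nat_lit 304) (nat_lit 5662801441) (nat_lit 76) (nat_lit 10689550803) (nat_lit 57) (nat_lit 5) (nat_lit 61) (nat_lit 5) (nat_lit 58) (nat_lit 5) (nat_lit 336) (nat_lit 254) (nat_lit 190)) (XT.nd (nat_lit 78) (nat_lit 0) (nat_lit 0) (XT.lf (nat_lit 0) (nat_lit 5141844043) (nat_lit 228) (nat_lit 27393266) (nat_lit 304) (nat_lit 11930038675) (nat_lit 54) (nat_lit 5) (nat_lit 57) (nat_lit 5) (nat_lit 58) (nat_lit 5) (nat_lit 337) (nat_lit 254) (nat_lit 189)) (XT.lf (nat_lit 0) (nat_lit 10133342225) (nat_lit 304) (nat_lit 1240701024) (nat_lit 76) (nat_lit 6100461558) (nat_lit 54) (nat_lit 5) (nat_lit 58) (nat_lit 5) (nat_lit 55) (nat_lit 5) (nat_lit 338) (nat_lit 254) (nat_lit 188)))) (XT.nd (nat_lit 156) (nat_lit 152) (nat_lit 0) (XT.nd (nat_lit 78) (nat_lit 304) (nat_lit 0) (XT.lf (nat_lit 0) (nat_lit 9854607740)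 (nat_lit 228) (nat_lit 5411811602) (nat_lit 304) (nat_lit 2594191403) (nat_lit 51) (nat_lit 5) (nat_lit 54) (nat_lit 5) (nat_lit 55) (nat_lit 5) (nat_lit 339) (nat_lit 254) (nat_lit 187)) (XT.lf (nat_lit 0) (nat_lit 2254231820) (nat_lit 304) (nat_lit 15268648218) (nat_lit 76) (nat_lit 735359102) (nat_lit 47) (nat_lit 5) (nat_lit 51) (nat_lit 5) (nat_lit 48) (nat_lit 5) (nat_lit 340) (nat_lit 254) (nat_lit 186))) (XT.nd (nat_lit 78) (nat_lit 152) (nat_lit 0) (XT.lf (nat_lit 0) (nat_lit 7260902071) (nat_lit 304) (nat_lit 4366926072) (nat_lit 76) (nat_lit 7038684126) (nat_lit 47) (nat_lit 5) (nat_lit 51) (nat_lit 5) (nat_lit 48) (nat_lit 5) (nat_lit 341) (nat_lit 254) (nat_lit 185)) (XT.lf (nat_lit 0) (nat_lit 6883233411) (nat_lit 152) (nat_lit 5537517542) (nat_lit 228) (nat_lit 6666242119) (nat_lit 45) (nat_lit 5) (nat_lit 47) (nat_lit 5) (nat_lit 48) (nat_lit 5) (nat_lit 342) (nat_lit 254) (nat_lit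 184)))))) (XT.nd (nat_lit 468) (nat_lit 684) (nat_lit 0) (XT.nd (nat_lit 234) (nat_lit 304) (nat_lit 0) (XT.nd (nat_lit 78) (nat_lit 456) (nat_lit 0) (XT.lf (nat_lit 0) (nat_lit 17728846989) (nat_lit 228) (nat_lit 1062229487) (nat_lit 76) (nat_lit 729161283) (nat_lit 45) (nat_lit 5) (nat_lit 48) (nat_lit 5) (nat_lit 46) (nat_lit 5) (nat_lit 343) (nat_lit 254) (nat_lit 183)) (XT.nd (nat_lit 78) (nat_lit 152) (nat_lit 0) (XT.lf (nat_lit 0) (nat_lit 3252707692) (nat_lit 304) (nat_lit 9539509276) (nat_lit 76) (nat_lit 7172553840) (nat_lit 41) (nat_lit 5) (nat_lit 45) (nat_lit 5) (nat_lit 42) (nat_lit 5) (nat_lit 344) (nat_lit 254) (nat_lit 182)) (XT.lf (nat_lit 0) (nat_lit 1795031268) (nat_lit 152) (nat_lit 6608346408) (nat_lit 228) (nat_lit 12019450710) (nat_lit 39) (nat_lit 5) (nat_lit 41) (nat_lit 5) (nat_lit 42) (nat_lit 5) (nat_lit 345) (nat_lit 254) (nat_lit 181)))) (XT.nd (nat_lit 78) (nat_lit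 304) (nat_lit 0) (XT.lf (nat_lit 0) (nat_lit 13535350808) (nat_lit 152) (nat_lit 199135427) (nat_lit 228) (nat_lit 7159639680) (nat_lit 39) (nat_lit 5) (nat_lit 41) (nat_lit 5) (nat_lit 42) (nat_lit 5) (nat_lit 346) (nat_lit 254) (nat_lit 180)) (XT.nd (nat_lit 78) (nat_lit 76) (nat_lit 0) (XT.lf (nat_lit 0) (nat_lit 4198259618) (nat_lit 228) (nat_lit 15058333679) (nat_lit 304) (nat_lit 2122363877) (nat_lit 36) (nat_lit 5) (nat_lit 39) (nat_lit 5) (nat_lit 40) (nat_lit 5) (nat_lit 347) (nat_lit 254) (nat_lit 179)) (XT.lf (nat_lit 0) (nat_lit 3040018035) (nat_lit 304) (nat_lit 5759202175) (nat_lit 76) (nat_lit 13078446373) (nat_lit 35) (nat_lit 5) (nat_lit 39) (nat_lit 5) (nat_lit 36) (nat_lit 5) (nat_lit 348) (nat_lit 254) (nat_lit 178))))) (XT.nd (nat_lit 234) (nat_lit 380) (nat_lit 0) (XT.nd (nat_lit 78) (nat_lit 152) (nat_lit 0) (XT.lf (nat_lit 0) (nat_lit 6008350397) (nat_lit 152) (nat_lit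 2323020236) (nat_lit 228) (nat_lit 14059642277) (nat_lit 33) (nat_lit 5) (nat_lit 35) (nat_lit 5) (nat_lit 36) (nat_lit 5) (nat_lit 349) (nat_lit 254) (nat_lit 177)) (XT.nd (nat_lit 78) (nat_lit 152) (nat_lit 0) (XT.lf (nat_lit 0) (nat_lit 13813239128) (nat_lit 228) (nat_lit 4800470116) (nat_lit 76) (nat_lit 4305429331) (nat_lit 33) (nat_lit 5) (nat_lit 36) (nat_lit 5) (nat_lit 34) (nat_lit 5) (nat_lit 350) (nat_lit 254) (nat_lit 176)) (XT.lf (nat_lit 0) (nat_lit 7148407241) (nat_lit 152) (nat_lit 12338408617) (nat_lit 228) (nat_lit 3975761137) (nat_lit 31) (nat_lit 5) (nat_lit 33) (nat_lit 5) (nat_lit 34) (nat_lit 5) (nat_lit 351) (nat_lit 254) (nat_lit 175)))) (XT.nd (nat_lit 156) (nat_lit 152) (nat_lit 0) (XT.nd (nat_lit 78) (nat_lit 152) (nat_lit 0) (XT.lf (nat_lit 0) (nat_lit 1289567496) (nat_lit 228) (nat_lit 4567427532) (nat_lit 76) (nat_lit 18165198125) (nat_lit 30) (nat_lit 5) (nat_lit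 33) (nat_lit 5) (nat_lit 31) (nat_lit 5) (nat_lit 352) (nat_lit 254) (nat_lit 174)) (XT.lf (nat_lit 0) (nat_lit 6680514216) (nat_lit 228) (nat_lit 17056122213) (nat_lit 76) (nat_lit 861015272) (nat_lit 28) (nat_lit 5) (nat_lit 31) (nat_lit 5) (nat_lit 29) (nat_lit 5) (nat_lit 353) (nat_lit 254) (nat_lit 173))) (XT.nd (nat_lit 78) (nat_lit 152) (nat_lit 0) (XT.lf (nat_lit 0) (nat_lit 12270668129) (nat_lit 228) (nat_lit 5209253915) (nat_lit 76) (nat_lit 7709714978) (nat_lit 28) (nat_lit 5) (nat_lit 31) (nat_lit 5) (nat_lit 29) (nat_lit 5) (nat_lit 354) (nat_lit 254) (nat_lit 172)) (XT.lf (nat_lit 0) (nat_lit 7030468510) (nat_lit 152) (nat_lit 11011816428) (nat_lit 228) (nat_lit 7756834021) (nat_lit 26) (nat_lit 5) (nat_lit 28) (nat_lit 5) (nat_lit 29) (nat_lit 5) (nat_lit 355) (nat_lit 254) (nat_lit 171))))))) (XT.nd (nat_lit 34476) (nat_lit 0) (nat_lit 22040) (XT.nd (nat_lit 33930) (nat_lit 0)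 (nat_lit 37696) (XT.nd (nat_lit 234) (nat_lit 152) (nat_lit 0) (XT.nd (nat_lit 78) (nat_lit 228) (nat_lit 0) (XT.lf (nat_lit 0) (nat_lit 19654818297) (nat_lit 152) (nat_lit 4336222345) (nat_lit 228) (nat_lit 2435776772) (nat_lit 26) (nat_lit 5) (nat_lit 28) (nat_lit 5) (nat_lit 29) (nat_lit 5) (nat_lit 356) (nat_lit 254) (nat_lit 170)) (XT.nd (nat_lit 78) (nat_lit 0) (nat_lit 0) (XT.lf (nat_lit 0) (nat_lit 3027347843) (nat_lit 228) (nat_lit 21504250099) (nat_lit 76) (nat_lit 2540917380) (nat_lit 23) (nat_lit 5) (nat_lit 26) (nat_lit 5) (nat_lit 24) (nat_lit 5) (nat_lit 357) (nat_lit 254) (nat_lit 169)) (XT.lf (nat_lit 0) (nat_lit 8666456834) (nat_lit 228) (nat_lit 9463157613) (nat_lit 76) (nat_lit 9606755011) (nat_lit 23) (nat_lit 5) (nat_lit 26) (nat_lit 5) (nat_lit 24) (nat_lit 5) (nat_lit 358) (nat_lit 254) (nat_lit 168)))) (XT.nd (nat_lit 78) (nat_lit 0) (nat_lit 0) (XT.lf (nat_lit 0) (nat_lit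 2926743032) (nat_lit 152) (nat_lit 11537681244) (nat_lit 228) (nat_lit 13955931887) (nat_lit 21) (nat_lit 5) (nat_lit 23) (nat_lit 5) (nat_lit 24) (nat_lit 5) (nat_lit 359) (nat_lit 254) (nat_lit 167)) (XT.nd (nat_lit 78) (nat_lit 0) (nat_lit 0) (XT.lf (nat_lit 0) (nat_lit 15767888841) (nat_lit 152) (nat_lit 4703779433) (nat_lit 228) (nat_lit 8652497781) (nat_lit 21) (nat_lit 5) (nat_lit 23) (nat_lit 5) (nat_lit 24) (nat_lit 5) (nat_lit 360) (nat_lit 254) (nat_lit 166)) (XT.lf (nat_lit 0) (nat_lit 26646207915) (nat_lit 228) (nat_lit 918947078) (nat_lit 76) (nat_lit 2284203721) (nat_lit 21) (nat_lit 5) (nat_lit 24) (nat_lit 5) (nat_lit 22) (nat_lit 4) (nat_lit 361) (nat_lit 254) (nat_lit 165))))) (XT.nd (nat_lit 234) (nat_lit 2660) (nat_lit 0) (XT.nd (nat_lit 78) (nat_lit 1444) (nat_lit 0) (XT.lf (nat_lit 0) (nat_lit 1653499246) (nat_lit 532) (nat_lit 812076951) (nat_lit 532) (nat_lit 812076951)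 (nat_lit 571) (nat_lit 4) (nat_lit 578) (nat_lit 5) (nat_lit 578) (nat_lit 4) (nat_lit 270) (nat_lit 255) (nat_lit 255)) (XT.nd (nat_lit 78) (nat_lit 760) (nat_lit 0) (XT.lf (nat_lit 0) (nat_lit 2154503344) (nat_lit 608) (nat_lit 629905983) (nat_lit 684) (nat_lit 3795258484) (nat_lit 562) (nat_lit 5) (nat_lit 570) (nat_lit 5) (nat_lit 571) (nat_lit 4) (nat_lit 271) (nat_lit 255) (nat_lit 254)) (XT.lf (nat_lit 0) (nat_lit 566075124) (nat_lit 760) (nat_lit 5561370338) (nat_lit 76) (nat_lit 479736932) (nat_lit 552) (nat_lit 5) (nat_lit 562) (nat_lit 5) (nat_lit 553) (nat_lit 4) (nat_lit 272) (nat_lit 255) (nat_lit 253)))) (XT.nd (nat_lit 156) (nat_lit 1824) (nat_lit 0) (XT.nd (nat_lit 78) (nat_lit 836) (nat_lit 0) (XT.lf (nat_lit 0) (nat_lit 4889943772) (nat_lit 760) (nat_lit 33833218) (nat_lit 76) (nat_lit 1713831008) (nat_lit 552) (nat_lit 5) (nat_lit 562) (nat_lit 5) (nat_lit 553) (nat_lit 4)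 (nat_lit 273) (nat_lit 255) (nat_lit 252)) (XT.lf (nat_lit 0) (nat_lit 2528035196) (nat_lit 836) (nat_lit 1062105657) (nat_lit 76) (nat_lit 3080927913) (nat_lit 541) (nat_lit 5) (nat_lit 552) (nat_lit 5) (nat_lit 542) (nat_lit 5) (nat_lit 274) (nat_lit 255) (nat_lit 251))) (XT.nd (nat_lit 78) (nat_lit 912) (nat_lit 0) (XT.lf (nat_lit 0) (nat_lit 85307184) (nat_lit 912) (nat_lit 2050803699) (nat_lit 76) (nat_lit 4571693621) (nat_lit 529) (nat_lit 5) (nat_lit 541) (nat_lit 5) (nat_lit 530) (nat_lit 5) (nat_lit 275) (nat_lit 255) (nat_lit 250)) (XT.lf (nat_lit 0) (nat_lit 3729718415) (nat_lit 912) (nat_lit 544027891) (nat_lit 988) (nat_lit 2473779660) (nat_lit 517) (nat_lit 5) (nat_lit 529) (nat_lit 5) (nat_lit 530) (nat_lit 5) (nat_lit 276) (nat_lit 255) (nat_lit 249)))))) (XT.nd (nat_lit 468) (nat_lit 9652) (nat_lit 0) (XT.nd (nat_lit 234) (nat_lit 2660) (nat_lit 0) (XT.nd (nat_lit 78) (nat_lit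 2280) (nat_lit 0) (XT.lf (nat_lit 0) (nat_lit 1675917438) (nat_lit 1064) (nat_lit 3957611360) (nat_lit 76) (nat_lit 1156885649) (nat_lit 503) (nat_lit 5) (nat_lit 517) (nat_lit 5) (nat_lit 504) (nat_lit 5) (nat_lit 277) (nat_lit 255) (nat_lit 248)) (XT.nd (nat_lit 78) (nat_lit 1216) (nat_lit 0) (XT.lf (nat_lit 0) (nat_lit 1961620094) (nat_lit 1064) (nat_lit 3855678043) (nat_lit 1140) (nat_lit 1019153603) (nat_lit 489) (nat_lit 5) (nat_lit 503) (nat_lit 5) (nat_lit 504) (nat_lit 5) (nat_lit 278) (nat_lit 255) (nat_lit 247)) (XT.lf (nat_lit 0) (nat_lit 1112868844) (nat_lit 1140) (nat_lit 1944288725) (nat_lit 1216) (nat_lit 3828491241) (nat_lit 473) (nat_lit 5) (nat_lit 488) (nat_lit 5) (nat_lit 489) (nat_lit 5) (nat_lit 279) (nat_lit 255) (nat_lit 246)))) (XT.nd (nat_lit 78) (nat_lit 1368) (nat_lit 0) (XT.lf (nat_lit 0) (nat_lit 205507088) (nat_lit 1292) (nat_lit 6642887362) (nat_lit 76) (nat_lit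 89863001) (nat_lit 456) (nat_lit 5) (nat_lit 473) (nat_lit 5) (nat_lit 457) (nat_lit 5) (nat_lit 280) (nat_lit 255) (nat_lit 245)) (XT.nd (nat_lit 78) (nat_lit 1368) (nat_lit 0) (XT.lf (nat_lit 0) (nat_lit 4232453696) (nat_lit 1292) (nat_lit 517246240) (nat_lit 76) (nat_lit 2243939954) (nat_lit 456) (nat_lit 5) (nat_lit 473) (nat_lit 5) (nat_lit 457) (nat_lit 5) (nat_lit 281) (nat_lit 255) (nat_lit 244)) (XT.lf (nat_lit 0) (nat_lit 1223746314) (nat_lit 1368) (nat_lit 1301020529) (nat_lit 76) (nat_lit 4527682970) (nat_lit 438) (nat_lit 5) (nat_lit 456) (nat_lit 5) (nat_lit 439) (nat_lit 5) (nat_lit 282) (nat_lit 255) (nat_lit 243))))) (XT.nd (nat_lit 234) (nat_lit 5244) (nat_lit 0) (XT.nd (nat_lit 78) (nat_lit 3040) (nat_lit 0) (XT.lf (nat_lit 0) (nat_lit 5041817178) (nat_lit 1368) (nat_lit 162362792) (nat_lit 1444) (nat_lit 1910376513) (nat_lit 420) (nat_lit 5) (nat_lit 438) (nat_lit 5) (nat_lit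 439) (nat_lit 5) (nat_lit 283) (nat_lit 255) (nat_lit 242)) (XT.nd (nat_lit 78) (nat_lit 1520) (nat_lit 0) (XT.lf (nat_lit 0) (nat_lit 2028830526) (nat_lit 1520) (nat_lit 2845793662) (nat_lit 76) (nat_lit 2305160813) (nat_lit 400) (nat_lit 5) (nat_lit 420) (nat_lit 5) (nat_lit 401) (nat_lit 5) (nat_lit 284) (nat_lit 255) (nat_lit 241)) (XT.lf (nat_lit 0) (nat_lit 3639418140) (nat_lit 1520) (nat_lit 2341682688) (nat_lit 1596) (nat_lit 1267354321) (nat_lit 380) (nat_lit 5) (nat_lit 400) (nat_lit 5) (nat_lit 401) (nat_lit 5) (nat_lit 285) (nat_lit 255) (nat_lit 240)))) (XT.nd (nat_lit 156) (nat_lit 1900) (nat_lit 0) (XT.nd (nat_lit 78) (nat_lit 1672) (nat_lit 0) (XT.lf (nat_lit 0) (nat_lit 2621316363) (nat_lit 1672) (nat_lit 4371402771) (nat_lit 76) (nat_lit 327770081) (nat_lit 358) (nat_lit 5) (nat_lit 380) (nat_lit 5) (nat_lit 359) (nat_lit 5) (nat_lit 286) (nat_lit 255) (nat_lit 239)) (XT.lf (nat_lit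 0) (nat_lit 2254853940) (nat_lit 1672) (nat_lit 4295999012) (nat_lit 1748) (nat_lit 844977783) (nat_lit 336) (nat_lit 5) (nat_lit 358) (nat_lit 5) (nat_lit 359) (nat_lit 5) (nat_lit 287) (nat_lit 255) (nat_lit 238))) (XT.nd (nat_lit 78) (nat_lit 836) (nat_lit 0) (XT.lf (nat_lit 0) (nat_lit 1557410296) (nat_lit 988) (nat_lit 1454525162) (nat_lit 1064) (nat_lit 4462665366) (nat_lit 322) (nat_lit 5) (nat_lit 335) (nat_lit 5) (nat_lit 336) (nat_lit 5) (nat_lit 288) (nat_lit 255) (nat_lit 237)) (XT.lf (nat_lit 0) (nat_lit 857915656) (nat_lit 836) (nat_lit 6056137081) (nat_lit 912) (nat_lit 642881688) (nat_lit 311) (nat_lit 5) (nat_lit 322) (nat_lit 5) (nat_lit 323) (nat_lit 5) (nat_lit 289) (nat_lit 255) (nat_lit 236))))))))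
noncomputable def xc42 : XT := (XT.nd (nat_lit 2028) (nat_lit 6080) (nat_lit 0) (XT.nd (nat_lit 1014) (nat_lit 5852) (nat_lit 0) (XT.nd (nat_lit 468) (nat_lit 4104) (nat_lit 0) (XT.nd (nat_lit 234) (nat_lit 2280) (nat_lit 0) (XT.nd (nat_lit 78) (nat_lit 836) (nat_lit 0) (XT.lf (nat_lit 0) (nat_lit 137018341) (nat_lit 836) (nat_lit 3054649639) (nat_lit 912) (nat_lit 4450901130) (nat_lit 299) (nat_lit 5) (nat_lit 310) (nat_lit 5) (nat_lit 311) (nat_lit 5) (nat_lit 290) (nat_lit 255) (nat_lit 235)) (XT.nd (nat_lit 78) (nat_lit 836) (nat_lit 0) (XT.lf (nat_lit 0) (nat_lit 7073282642) (nat_lit 912) (nat_lit 575047571) (nat_lit 76) (nat_lit 83664037) (nat_lit 299) (nat_lit 5) (nat_lit 311) (nat_lit 5) (nat_lit 300) (nat_lit 5) (nat_lit 291) (nat_lit 255) (nat_lit 234)) (XT.lf (nat_lit 0) (nat_lit 3164890650) (nat_lit 836) (nat_lit 1324324063) (nat_lit 76) (nat_lit 3335376859) (nat_lit 288) (nat_lit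 5) (nat_lit 299) (nat_lit 5) (nat_lit 289) (nat_lit 5) (nat_lit 292) (nat_lit 255) (nat_lit 233)))) (XT.nd (nat_lit 78) (nat_lit 1520) (nat_lit 0) (XT.lf (nat_lit 0) (nat_lit 5841321085) (nat_lit 760) (nat_lit 1194190431) (nat_lit 836) (nat_lit 885655446) (nat_lit 278) (nat_lit 5) (nat_lit 288) (nat_lit 5) (nat_lit 289) (nat_lit 5) (nat_lit 293) (nat_lit 255) (nat_lit 232)) (XT.nd (nat_lit 78) (nat_lit 760) (nat_lit 0) (XT.lf (nat_lit 0) (nat_lit 2920286048) (nat_lit 760) (nat_lit 2874763549) (nat_lit 76) (nat_lit 2226146431) (nat_lit 268) (nat_lit 5) (nat_lit 278) (nat_lit 5) (nat_lit 269) (nat_lit 5) (nat_lit 294) (nat_lit 255) (nat_lit 231)) (XT.lf (nat_lit 0) (nat_lit 4431498911) (nat_lit 760) (nat_lit 2350897647) (nat_lit 836) (nat_lit 1342735752) (nat_lit 258) (nat_lit 5) (nat_lit 268) (nat_lit 5) (nat_lit 269) (nat_lit 5) (nat_lit 295) (nat_lit 255) (nat_lit 230))))) (XT.nd (nat_lit 234)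 (nat_lit 1976) (nat_lit 0) (XT.nd (nat_lit 78) (nat_lit 1368) (nat_lit 0) (XT.lf (nat_lit 0) (nat_lit 2451116090) (nat_lit 760) (nat_lit 4551021437) (nat_lit 76) (nat_lit 1230697952) (nat_lit 248) (nat_lit 5) (nat_lit 258) (nat_lit 5) (nat_lit 249) (nat_lit 5) (nat_lit 296) (nat_lit 255) (nat_lit 229)) (XT.nd (nat_lit 78) (nat_lit 684) (nat_lit 0) (XT.lf (nat_lit 0) (nat_lit 2892431692) (nat_lit 684) (nat_lit 3414367763) (nat_lit 760) (nat_lit 2037563619) (nat_lit 239) (nat_lit 5) (nat_lit 248) (nat_lit 5) (nat_lit 249) (nat_lit 5) (nat_lit 297) (nat_lit 255) (nat_lit 228)) (XT.lf (nat_lit 0) (nat_lit 1749470218) (nat_lit 684) (nat_lit 6390169631) (nat_lit 76) (nat_lit 320363665) (nat_lit 230) (nat_lit 5) (nat_lit 239) (nat_lit 5) (nat_lit 231) (nat_lit 5) (nat_lit 298) (nat_lit 255) (nat_lit 227)))) (XT.nd (nat_lit 156) (nat_lit 608) (nat_lit 0) (XT.nd (nat_lit 78) (nat_lit 684) (nat_lit 0) (XT.lf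 (nat_lit 0) (nat_lit 1186237272) (nat_lit 684) (nat_lit 4413798278) (nat_lit 760) (nat_lit 2979344914) (nat_lit 221) (nat_lit 5) (nat_lit 230) (nat_lit 5) (nat_lit 231) (nat_lit 5) (nat_lit 299) (nat_lit 255) (nat_lit 226)) (XT.lf (nat_lit 0) (nat_lit 267885209) (nat_lit 608) (nat_lit 540896127) (nat_lit 684) (nat_lit 7894403058) (nat_lit 212) (nat_lit 5) (nat_lit 220) (nat_lit 5) (nat_lit 221) (nat_lit 5) (nat_lit 300) (nat_lit 255) (nat_lit 225))) (XT.nd (nat_lit 78) (nat_lit 608) (nat_lit 0) (XT.lf (nat_lit 0) (nat_lit 4655933145) (nat_lit 684) (nat_lit 718067666) (nat_lit 76) (nat_lit 3456672565) (nat_lit 212) (nat_lit 5) (nat_lit 221) (nat_lit 5) (nat_lit 213) (nat_lit 5) (nat_lit 301) (nat_lit 255) (nat_lit 224)) (XT.lf (nat_lit 0) (nat_lit 7219155535) (nat_lit 608) (nat_lit 1365182873) (nat_lit 684) (nat_lit 378411444) (nat_lit 204) (nat_lit 5) (nat_lit 212) (nat_lit 5) (nat_lit 213) (nat_lit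 5) (nat_lit 302) (nat_lit 255) (nat_lit 223)))))) (XT.nd (nat_lit 468) (nat_lit 2432) (nat_lit 0) (XT.nd (nat_lit 234) (nat_lit 1596) (nat_lit 0) (XT.nd (nat_lit 78) (nat_lit 1216) (nat_lit 0) (XT.lf (nat_lit 0) (nat_lit 3465859704) (nat_lit 608) (nat_lit 2854744139) (nat_lit 76) (nat_lit 2778194476) (nat_lit 196) (nat_lit 5) (nat_lit 204) (nat_lit 5) (nat_lit 197) (nat_lit 5) (nat_lit 303) (nat_lit 255) (nat_lit 222)) (XT.nd (nat_lit 78) (nat_lit 608) (nat_lit 0) (XT.lf (nat_lit 0) (nat_lit 5211074543) (nat_lit 608) (nat_lit 2182321830) (nat_lit 684) (nat_lit 1846093834) (nat_lit 188) (nat_lit 5) (nat_lit 196) (nat_lit 5) (nat_lit 197) (nat_lit 5) (nat_lit 304) (nat_lit 255) (nat_lit 221)) (XT.lf (nat_lit 0) (nat_lit 2006676237) (nat_lit 608) (nat_lit 5285782281) (nat_lit 76) (nat_lit 2092162323) (nat_lit 180) (nat_lit 5) (nat_lit 188) (nat_lit 5) (nat_lit 181) (nat_lit 5) (nat_lit 305) (nat_lit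 255) (nat_lit 220)))) (XT.nd (nat_lit 78) (nat_lit 1064) (nat_lit 0) (XT.lf (nat_lit 0) (nat_lit 2901030112) (nat_lit 532) (nat_lit 3030857579) (nat_lit 608) (nat_lit 3602402841) (nat_lit 173) (nat_lit 5) (nat_lit 180) (nat_lit 5) (nat_lit 181) (nat_lit 5) (nat_lit 306) (nat_lit 255) (nat_lit 219)) (XT.nd (nat_lit 78) (nat_lit 532) (nat_lit 0) (XT.lf (nat_lit 0) (nat_lit 260291145) (nat_lit 532) (nat_lit 8061512352) (nat_lit 76) (nat_lit 1367121486) (nat_lit 166) (nat_lit 5) (nat_lit 173) (nat_lit 5) (nat_lit 167) (nat_lit 5) (nat_lit 307) (nat_lit 255) (nat_lit 218)) (XT.lf (nat_lit 0) (nat_lit 237204317) (nat_lit 532) (nat_lit 3943501072) (nat_lit 608) (nat_lit 5667264024) (nat_lit 159) (nat_lit 5) (nat_lit 166) (nat_lit 5) (nat_lit 167) (nat_lit 5) (nat_lit 308) (nat_lit 255) (nat_lit 217))))) (XT.nd (nat_lit 234) (nat_lit 1444) (nat_lit 0) (XT.nd (nat_lit 78) (nat_lit 988) (nat_lit 0) (XT.lf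 (nat_lit 0) (nat_lit 8202275082) (nat_lit 608) (nat_lit 1219924574) (nat_lit 76) (nat_lit 589975652) (nat_lit 159) (nat_lit 5) (nat_lit 167) (nat_lit 5) (nat_lit 160) (nat_lit 5) (nat_lit 309) (nat_lit 255) (nat_lit 216)) (XT.nd (nat_lit 78) (nat_lit 456) (nat_lit 0) (XT.lf (nat_lit 0) (nat_lit 2136221389) (nat_lit 532) (nat_lit 2799624636) (nat_lit 76) (nat_lit 5245210362) (nat_lit 152) (nat_lit 5) (nat_lit 159) (nat_lit 5) (nat_lit 153) (nat_lit 5) (nat_lit 310) (nat_lit 255) (nat_lit 215)) (XT.lf (nat_lit 0) (nat_lit 5870594255) (nat_lit 456) (nat_lit 280158068) (nat_lit 532) (nat_lit 4204576367) (nat_lit 146) (nat_lit 5) (nat_lit 152) (nat_lit 5) (nat_lit 153) (nat_lit 5) (nat_lit 311) (nat_lit 255) (nat_lit 214)))) (XT.nd (nat_lit 156) (nat_lit 456) (nat_lit 0) (XT.nd (nat_lit 78) (nat_lit 532) (nat_lit 0) (XT.lf (nat_lit 0) (nat_lit 4234222575) (nat_lit 456) (nat_lit 6056753642) (nat_lit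 532) (nat_lit 243802526) (nat_lit 140) (nat_lit 5) (nat_lit 146) (nat_lit 5) (nat_lit 147) (nat_lit 5) (nat_lit 312) (nat_lit 255) (nat_lit 213)) (XT.lf (nat_lit 0) (nat_lit 2466429118) (nat_lit 456) (nat_lit 1297819462) (nat_lit 532) (nat_lit 6955342490) (nat_lit 133) (nat_lit 5) (nat_lit 139) (nat_lit 5) (nat_lit 140) (nat_lit 5) (nat_lit 313) (nat_lit 255) (nat_lit 212))) (XT.nd (nat_lit 78) (nat_lit 76) (nat_lit 0) (XT.lf (nat_lit 0) (nat_lit 559845078) (nat_lit 380) (nat_lit 7330943186) (nat_lit 456) (nat_lit 3019146652) (nat_lit 128) (nat_lit 5) (nat_lit 133) (nat_lit 5) (nat_lit 134) (nat_lit 5) (nat_lit 314) (nat_lit 255) (nat_lit 211)) (XT.lf (nat_lit 0) (nat_lit 1018953973) (nat_lit 456) (nat_lit 1465579107) (nat_lit 76) (nat_lit 8621421819) (nat_lit 127) (nat_lit 5) (nat_lit 133) (nat_lit 5) (nat_lit 128) (nat_lit 5) (nat_lit 315) (nat_lit 255) (nat_lit 210))))))) (XT.nd (nat_lit 1014)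 (nat_lit 2508) (nat_lit 0) (XT.nd (nat_lit 468) (nat_lit 1596) (nat_lit 0) (XT.nd (nat_lit 234) (nat_lit 760) (nat_lit 0) (XT.nd (nat_lit 78) (nat_lit 836) (nat_lit 0) (XT.lf (nat_lit 0) (nat_lit 5138191242) (nat_lit 456) (nat_lit 3650846357) (nat_lit 76) (nat_lit 2518445242) (nat_lit 122) (nat_lit 5) (nat_lit 128) (nat_lit 5) (nat_lit 123) (nat_lit 5) (nat_lit 316) (nat_lit 255) (nat_lit 209)) (XT.nd (nat_lit 78) (nat_lit 456) (nat_lit 0) (XT.lf (nat_lit 0) (nat_lit 5521415423) (nat_lit 380) (nat_lit 3857587171) (nat_lit 456) (nat_lit 2136139458) (nat_lit 117) (nat_lit 5) (nat_lit 122) (nat_lit 5) (nat_lit 123) (nat_lit 5) (nat_lit 317) (nat_lit 255) (nat_lit 208)) (XT.lf (nat_lit 0) (nat_lit 1981908347) (nat_lit 456) (nat_lit 8509394932) (nat_lit 76) (nat_lit 1237701548) (nat_lit 111) (nat_lit 5) (nat_lit 117) (nat_lit 5) (nat_lit 112) (nat_lit 5) (nat_lit 318) (nat_lit 255) (nat_lit 207))))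 (XT.nd (nat_lit 78) (nat_lit 456) (nat_lit 0) (XT.lf (nat_lit 0) (nat_lit 720960272) (nat_lit 304) (nat_lit 5482498005) (nat_lit 380) (nat_lit 5745405089) (nat_lit 107) (nat_lit 5) (nat_lit 111) (nat_lit 5) (nat_lit 112) (nat_lit 5) (nat_lit 319) (nat_lit 255) (nat_lit 206)) (XT.nd (nat_lit 78) (nat_lit 456) (nat_lit 0) (XT.lf (nat_lit 0) (nat_lit 10255119463) (nat_lit 304) (nat_lit 292891977) (nat_lit 380) (nat_lit 1627419792) (nat_lit 107) (nat_lit 5) (nat_lit 111) (nat_lit 5) (nat_lit 112) (nat_lit 5) (nat_lit 320) (nat_lit 255) (nat_lit 205)) (XT.lf (nat_lit 0) (nat_lit 2602680137) (nat_lit 456) (nat_lit 4779548787) (nat_lit 76) (nat_lit 5025809316) (nat_lit 101) (nat_lit 5) (nat_lit 107) (nat_lit 5) (nat_lit 102) (nat_lit 5) (nat_lit 321) (nat_lit 255) (nat_lit 204))))) (XT.nd (nat_lit 234) (nat_lit 912) (nat_lit 0) (XT.nd (nat_lit 78) (nat_lit 380) (nat_lit 0) (XT.lf (nat_lit 0) (nat_lit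 4805352070) (nat_lit 304) (nat_lit 2119656649) (nat_lit 380) (nat_lit 5722688492) (nat_lit 97) (nat_lit 5) (nat_lit 101) (nat_lit 5) (nat_lit 102) (nat_lit 5) (nat_lit 322) (nat_lit 255) (nat_lit 203)) (XT.nd (nat_lit 78) (nat_lit 76) (nat_lit 0) (XT.lf (nat_lit 0) (nat_lit 1763801415) (nat_lit 304) (nat_lit 9620718851) (nat_lit 380) (nat_lit 1509911945) (nat_lit 93) (nat_lit 5) (nat_lit 97) (nat_lit 5) (nat_lit 98) (nat_lit 5) (nat_lit 323) (nat_lit 255) (nat_lit 202)) (XT.lf (nat_lit 0) (nat_lit 2802560532) (nat_lit 380) (nat_lit 1501317814) (nat_lit 76) (nat_lit 8844149915) (nat_lit 92) (nat_lit 5) (nat_lit 97) (nat_lit 5) (nat_lit 93) (nat_lit 5) (nat_lit 324) (nat_lit 255) (nat_lit 201)))) (XT.nd (nat_lit 156) (nat_lit 304) (nat_lit 0) (XT.nd (nat_lit 78) (nat_lit 304) (nat_lit 0) (XT.lf (nat_lit 0) (nat_lit 7231041459) (nat_lit 380) (nat_lit 4983433006) (nat_lit 76) (nat_lit 1194448907)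 (nat_lit 88) (nat_lit 5) (nat_lit 93) (nat_lit 5) (nat_lit 89) (nat_lit 5) (nat_lit 325) (nat_lit 255) (nat_lit 200)) (XT.lf (nat_lit 0) (nat_lit 4945768191) (nat_lit 304) (nat_lit 6863060797) (nat_lit 380) (nat_lit 1868520071) (nat_lit 84) (nat_lit 5) (nat_lit 88) (nat_lit 5) (nat_lit 89) (nat_lit 5) (nat_lit 326) (nat_lit 255) (nat_lit 199))) (XT.nd (nat_lit 78) (nat_lit 0) (nat_lit 0) (XT.lf (nat_lit 0) (nat_lit 1203933278) (nat_lit 228) (nat_lit 1320282752) (nat_lit 304) (nat_lit 11429552917) (nat_lit 80) (nat_lit 5) (nat_lit 83) (nat_lit 5) (nat_lit 84) (nat_lit 5) (nat_lit 327) (nat_lit 255) (nat_lit 198)) (XT.lf (nat_lit 0) (nat_lit 7058397577) (nat_lit 304) (nat_lit 2804061597) (nat_lit 76) (nat_lit 4375104533) (nat_lit 80) (nat_lit 5) (nat_lit 84) (nat_lit 5) (nat_lit 81) (nat_lit 5) (nat_lit 328) (nat_lit 255) (nat_lit 197)))))) (XT.nd (nat_lit 468) (nat_lit 1292) (nat_lit 0) (XT.nd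 (nat_lit 234) (nat_lit 608) (nat_lit 0) (XT.nd (nat_lit 78) (nat_lit 304) (nat_lit 0) (XT.lf (nat_lit 0) (nat_lit 7448937616) (nat_lit 304) (nat_lit 4285257642) (nat_lit 380) (nat_lit 2795594639) (nat_lit 76) (nat_lit 5) (nat_lit 80) (nat_lit 5) (nat_lit 81) (nat_lit 5) (nat_lit 329) (nat_lit 255) (nat_lit 196)) (XT.nd (nat_lit 78) (nat_lit 0) (nat_lit 0) (XT.lf (nat_lit 0) (nat_lit 1695283848) (nat_lit 304) (nat_lit 11672089898) (nat_lit 76) (nat_lit 1463246803) (nat_lit 72) (nat_lit 5) (nat_lit 76) (nat_lit 5) (nat_lit 73) (nat_lit 5) (nat_lit 330) (nat_lit 255) (nat_lit 195)) (XT.lf (nat_lit 0) (nat_lit 6309902498) (nat_lit 304) (nat_lit 1464144258) (nat_lit 76) (nat_lit 7365547056) (nat_lit 72) (nat_lit 5) (nat_lit 76) (nat_lit 5) (nat_lit 73) (nat_lit 5) (nat_lit 331) (nat_lit 255) (nat_lit 194)))) (XT.nd (nat_lit 78) (nat_lit 304) (nat_lit 0) (XT.lf (nat_lit 0) (nat_lit 9092615193) (nat_lit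 304) (nat_lit 1980662526) (nat_lit 380) (nat_lit 4384378569) (nat_lit 68) (nat_lit 5) (nat_lit 72) (nat_lit 5) (nat_lit 73) (nat_lit 5) (nat_lit 332) (nat_lit 255) (nat_lit 193)) (XT.nd (nat_lit 78) (nat_lit 0) (nat_lit 0) (XT.lf (nat_lit 0) (nat_lit 206687638) (nat_lit 304) (nat_lit 11633002730) (nat_lit 76) (nat_lit 3945271301) (nat_lit 64) (nat_lit 5) (nat_lit 68) (nat_lit 5) (nat_lit 65) (nat_lit 5) (nat_lit 333) (nat_lit 255) (nat_lit 192)) (XT.lf (nat_lit 0) (nat_lit 4885528045) (nat_lit 304) (nat_lit 1168131569) (nat_lit 76) (nat_lit 10067679183) (nat_lit 64) (nat_lit 5) (nat_lit 68) (nat_lit 5) (nat_lit 65) (nat_lit 5) (nat_lit 334) (nat_lit 255) (nat_lit 191))))) (XT.nd (nat_lit 234) (nat_lit 760) (nat_lit 0) (XT.nd (nat_lit 78) (nat_lit 304) (nat_lit 0) (XT.lf (nat_lit 0) (nat_lit 9663982870) (nat_lit 228) (nat_lit 57482622) (nat_lit 304) (nat_lit 6746030775) (nat_lit 61) (nat_lit 5)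 (nat_lit 64) (nat_lit 5) (nat_lit 65) (nat_lit 5) (nat_lit 335) (nat_lit 255) (nat_lit 190)) (XT.nd (nat_lit 78) (nat_lit 76) (nat_lit 0) (XT.lf (nat_lit 0) (nat_lit 3952220037) (nat_lit 228) (nat_lit 10778297242) (nat_lit 304) (nat_lit 2092983433) (nat_lit 58) (nat_lit 5) (nat_lit 61) (nat_lit 5) (nat_lit 62) (nat_lit 5) (nat_lit 336) (nat_lit 255) (nat_lit 189)) (XT.lf (nat_lit 0) (nat_lit 2666260352) (nat_lit 304) (nat_lit 2156166330) (nat_lit 76) (nat_lit 12367389688) (nat_lit 57) (nat_lit 5) (nat_lit 61) (nat_lit 5) (nat_lit 58) (nat_lit 5) (nat_lit 337) (nat_lit 255) (nat_lit 188)))) (XT.nd (nat_lit 156) (nat_lit 304) (nat_lit 0) (XT.nd (nat_lit 78) (nat_lit 228) (nat_lit 0) (XT.lf (nat_lit 0) (nat_lit 7563221076) (nat_lit 304) (nat_lit 8662424331) (nat_lit 76) (nat_lit 1340753128) (nat_lit 54) (nat_lit 5) (nat_lit 58) (nat_lit 5) (nat_lit 55) (nat_lit 5) (nat_lit 338) (nat_lit 255) (nat_lit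 187)) (XT.lf (nat_lit 0) (nat_lit 2299367944) (nat_lit 228) (nat_lit 10326777198) (nat_lit 304) (nat_lit 5327772548) (nat_lit 51) (nat_lit 5) (nat_lit 54) (nat_lit 5) (nat_lit 55) (nat_lit 5) (nat_lit 339) (nat_lit 255) (nat_lit 186))) (XT.nd (nat_lit 78) (nat_lit 304) (nat_lit 0) (XT.lf (nat_lit 0) (nat_lit 13639831323) (nat_lit 228) (nat_lit 4217794224) (nat_lit 304) (nat_lit 495123512) (nat_lit 51) (nat_lit 5) (nat_lit 54) (nat_lit 5) (nat_lit 55) (nat_lit 5) (nat_lit 340) (nat_lit 255) (nat_lit 185)) (XT.lf (nat_lit 0) (nat_lit 4438896499) (nat_lit 304) (nat_lit 12230327794) (nat_lit 76) (nat_lit 2093454451) (nat_lit 47) (nat_lit 5) (nat_lit 51) (nat_lit 5) (nat_lit 48) (nat_lit 5) (nat_lit 341) (nat_lit 255) (nat_lit 184))))))))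
noncomputable def xc43 : XT := (XT.nd (nat_lit 35334) (nat_lit 0) (nat_lit 15124) (XT.nd (nat_lit 1014) (nat_lit 532) (nat_lit 0) (XT.nd (nat_lit 468) (nat_lit 836) (nat_lit 0) (XT.nd (nat_lit 234) (nat_lit 152) (nat_lit 0) (XT.nd (nat_lit 78) (nat_lit 456) (nat_lit 0) (XT.lf (nat_lit 0) (nat_lit 9534105564) (nat_lit 304) (nat_lit 1103390292) (nat_lit 76) (nat_lit 8546965598) (nat_lit 47) (nat_lit 5) (nat_lit 51) (nat_lit 5) (nat_lit 48) (nat_lit 5) (nat_lit 342) (nat_lit 255) (nat_lit 183)) (XT.nd (nat_lit 78) (nat_lit 304) (nat_lit 0) (XT.lf (nat_lit 0) (nat_lit 10429201540) (nat_lit 152) (nat_lit 4381365102) (nat_lit 228) (nat_lit 4807781043) (nat_lit 45) (nat_lit 5) (nat_lit 47) (nat_lit 5) (nat_lit 48) (nat_lit 5) (nat_lit 343) (nat_lit 255) (nat_lit 182)) (XT.lf (nat_lit 0) (nat_lit 174175875) (nat_lit 304) (nat_lit 17857687815) (nat_lit 76) (nat_lit 2033451191) (nat_lit 41) (nat_lit 5)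 (nat_lit 45) (nat_lit 5) (nat_lit 42) (nat_lit 5) (nat_lit 344) (nat_lit 255) (nat_lit 181)))) (XT.nd (nat_lit 78) (nat_lit 152) (nat_lit 0) (XT.lf (nat_lit 0) (nat_lit 5294322706) (nat_lit 304) (nat_lit 6578209232) (nat_lit 76) (nat_lit 8651459158) (nat_lit 41) (nat_lit 5) (nat_lit 45) (nat_lit 5) (nat_lit 42) (nat_lit 5) (nat_lit 345) (nat_lit 255) (nat_lit 180)) (XT.nd (nat_lit 78) (nat_lit 0) (nat_lit 0) (XT.lf (nat_lit 0) (nat_lit 5043680937) (nat_lit 152) (nat_lit 5519952261) (nat_lit 228) (nat_lit 10432899325) (nat_lit 39) (nat_lit 5) (nat_lit 41) (nat_lit 5) (nat_lit 42) (nat_lit 5) (nat_lit 346) (nat_lit 255) (nat_lit 179)) (XT.lf (nat_lit 0) (nat_lit 16005876437) (nat_lit 228) (nat_lit 4446725396) (nat_lit 76) (nat_lit 1030366930) (nat_lit 39) (nat_lit 5) (nat_lit 42) (nat_lit 5) (nat_lit 40) (nat_lit 5) (nat_lit 347) (nat_lit 255) (nat_lit 178))))) (XT.nd (nat_lit 234) (nat_lit 380)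 (nat_lit 0) (XT.nd (nat_lit 78) (nat_lit 228) (nat_lit 0) (XT.lf (nat_lit 0) (nat_lit 7404884102) (nat_lit 228) (nat_lit 14255901337) (nat_lit 304) (nat_lit 322239868) (nat_lit 36) (nat_lit 5) (nat_lit 39) (nat_lit 5) (nat_lit 40) (nat_lit 5) (nat_lit 348) (nat_lit 255) (nat_lit 177)) (XT.nd (nat_lit 78) (nat_lit 152) (nat_lit 0) (XT.lf (nat_lit 0) (nat_lit 4916996168) (nat_lit 304) (nat_lit 2916564372) (nat_lit 76) (nat_lit 14663986913) (nat_lit 35) (nat_lit 5) (nat_lit 39) (nat_lit 5) (nat_lit 36) (nat_lit 5) (nat_lit 349) (nat_lit 255) (nat_lit 176)) (XT.lf (nat_lit 0) (nat_lit 9155093270) (nat_lit 152) (nat_lit 1179243570) (nat_lit 228) (nat_lit 12692633746) (nat_lit 33) (nat_lit 5) (nat_lit 35) (nat_lit 5) (nat_lit 36) (nat_lit 5) (nat_lit 350) (nat_lit 255) (nat_lit 175)))) (XT.nd (nat_lit 156) (nat_lit 228) (nat_lit 0) (XT.nd (nat_lit 78) (nat_lit 152) (nat_lit 0) (XT.lf (nat_lit 0) (nat_lit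 15937251566) (nat_lit 228) (nat_lit 2037312919) (nat_lit 76) (nat_lit 5597264474) (nat_lit 33) (nat_lit 5) (nat_lit 36) (nat_lit 5) (nat_lit 34) (nat_lit 5) (nat_lit 351) (nat_lit 255) (nat_lit 174)) (XT.lf (nat_lit 0) (nat_lit 10222865358) (nat_lit 152) (nat_lit 11526944677) (nat_lit 228) (nat_lit 2382405150) (nat_lit 31) (nat_lit 5) (nat_lit 33) (nat_lit 5) (nat_lit 34) (nat_lit 5) (nat_lit 352) (nat_lit 255) (nat_lit 173))) (XT.nd (nat_lit 78) (nat_lit 152) (nat_lit 0) (XT.lf (nat_lit 0) (nat_lit 2969193731) (nat_lit 228) (nat_lit 1905299389) (nat_lit 76) (nat_lit 19834908049) (nat_lit 30) (nat_lit 5) (nat_lit 33) (nat_lit 5) (nat_lit 31) (nat_lit 5) (nat_lit 353) (nat_lit 255) (nat_lit 172)) (XT.lf (nat_lit 0) (nat_lit 8499372859) (nat_lit 228) (nat_lit 14788646207) (nat_lit 76) (nat_lit 2014572941) (nat_lit 28) (nat_lit 5) (nat_lit 31) (nat_lit 5) (nat_lit 29) (nat_lit 5) (nat_lit 354) (nat_lit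 255) (nat_lit 171)))))) (XT.nd (nat_lit 468) (nat_lit 0) (nat_lit 0) (XT.nd (nat_lit 234) (nat_lit 380) (nat_lit 0) (XT.nd (nat_lit 78) (nat_lit 152) (nat_lit 0) (XT.lf (nat_lit 0) (nat_lit 14210092266) (nat_lit 228) (nat_lit 2667318258) (nat_lit 76) (nat_lit 9035887214) (nat_lit 28) (nat_lit 5) (nat_lit 31) (nat_lit 5) (nat_lit 29) (nat_lit 5) (nat_lit 355) (nat_lit 255) (nat_lit 170)) (XT.nd (nat_lit 78) (nat_lit 0) (nat_lit 0) (XT.lf (nat_lit 0) (nat_lit 9895820535) (nat_lit 152) (nat_lit 10230505278) (nat_lit 228) (nat_lit 6415326499) (nat_lit 26) (nat_lit 5) (nat_lit 28) (nat_lit 5) (nat_lit 29) (nat_lit 5) (nat_lit 356) (nat_lit 255) (nat_lit 169)) (XT.lf (nat_lit 0) (nat_lit 22821587089) (nat_lit 152) (nat_lit 3387021983) (nat_lit 228) (nat_lit 980488383) (nat_lit 26) (nat_lit 5) (nat_lit 28) (nat_lit 5) (nat_lit 29) (nat_lit 5) (nat_lit 357) (nat_lit 255) (nat_lit 168)))) (XT.nd (nat_lit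 78) (nat_lit 152) (nat_lit 0) (XT.lf (nat_lit 0) (nat_lit 4606123227) (nat_lit 228) (nat_lit 19570614109) (nat_lit 76) (nat_lit 3677653953) (nat_lit 23) (nat_lit 5) (nat_lit 26) (nat_lit 5) (nat_lit 24) (nat_lit 5) (nat_lit 358) (nat_lit 255) (nat_lit 167)) (XT.nd (nat_lit 78) (nat_lit 152) (nat_lit 0) (XT.lf (nat_lit 0) (nat_lit 10371066995) (nat_lit 228) (nat_lit 7243398464) (nat_lit 76) (nat_lit 10924578100) (nat_lit 23) (nat_lit 5) (nat_lit 26) (nat_lit 5) (nat_lit 24) (nat_lit 5) (nat_lit 359) (nat_lit 255) (nat_lit 166)) (XT.lf (nat_lit 0) (nat_lit 5477580391) (nat_lit 152) (nat_lit 10839308519) (nat_lit 228) (nat_lit 12927197927) (nat_lit 21) (nat_lit 5) (nat_lit 23) (nat_lit 5) (nat_lit 24) (nat_lit 5) (nat_lit 360) (nat_lit 255) (nat_lit 165))))) (XT.nd (nat_lit 33540) (nat_lit 0) (nat_lit 40280) (XT.nd (nat_lit 33384) (nat_lit 0) (nat_lit 42332) (XT.lf (nat_lit 0) (nat_lit 18632221688)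 (nat_lit 152) (nat_lit 3830812076) (nat_lit 228) (nat_lit 7506818427) (nat_lit 21) (nat_lit 5) (nat_lit 23) (nat_lit 5) (nat_lit 24) (nat_lit 5) (nat_lit 361) (nat_lit 255) (nat_lit 164)) (XT.nd (nat_lit 78) (nat_lit 532) (nat_lit 0) (XT.lf (nat_lit 0) (nat_lit 2907688961) (nat_lit 380) (nat_lit 174791764) (nat_lit 380) (nat_lit 174791764) (nat_lit 585) (nat_lit 4) (nat_lit 590) (nat_lit 5) (nat_lit 590) (nat_lit 4) (nat_lit 268) (nat_lit 256) (nat_lit 256)) (XT.lf (nat_lit 0) (nat_lit 4039694053) (nat_lit 532) (nat_lit 2028794096) (nat_lit 0) (nat_lit 465590451) (nat_lit 578) (nat_lit 5) (nat_lit 585) (nat_lit 4) (nat_lit 578) (nat_lit 4) (nat_lit 269) (nat_lit 256) (nat_lit 255)))) (XT.nd (nat_lit 156) (nat_lit 836) (nat_lit 0) (XT.nd (nat_lit 78) (nat_lit 608) (nat_lit 0) (XT.lf (nat_lit 0) (nat_lit 1846448426) (nat_lit 608) (nat_lit 3314281277) (nat_lit 76) (nat_lit 1396016516) (nat_lit 570)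 (nat_lit 5) (nat_lit 578) (nat_lit 5) (nat_lit 571) (nat_lit 4) (nat_lit 270) (nat_lit 256) (nat_lit 254)) (XT.lf (nat_lit 0) (nat_lit 2024519731) (nat_lit 608) (nat_lit 4132689310) (nat_lit 684) (nat_lit 425348484) (nat_lit 562) (nat_lit 5) (nat_lit 570) (nat_lit 5) (nat_lit 571) (nat_lit 4) (nat_lit 271) (nat_lit 256) (nat_lit 253))) (XT.nd (nat_lit 78) (nat_lit 76) (nat_lit 0) (XT.lf (nat_lit 0) (nat_lit 839496606) (nat_lit 684) (nat_lit 2973376511) (nat_lit 760) (nat_lit 2798464068) (nat_lit 552) (nat_lit 5) (nat_lit 561) (nat_lit 5) (nat_lit 562) (nat_lit 5) (nat_lit 272) (nat_lit 256) (nat_lit 252)) (XT.lf (nat_lit 0) (nat_lit 1394035689) (nat_lit 760) (nat_lit 298117182) (nat_lit 76) (nat_lit 4951160899) (nat_lit 551) (nat_lit 5) (nat_lit 561) (nat_lit 5) (nat_lit 552) (nat_lit 5) (nat_lit 273) (nat_lit 256) (nat_lit 251))))))) (XT.nd (nat_lit 1014) (nat_lit 10488) (nat_lit 0) (XT.nd (nat_lit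 468) (nat_lit 8740) (nat_lit 0) (XT.nd (nat_lit 234) (nat_lit 3268) (nat_lit 0) (XT.nd (nat_lit 78) (nat_lit 1900) (nat_lit 0) (XT.lf (nat_lit 0) (nat_lit 5287411147) (nat_lit 760) (nat_lit 277229103) (nat_lit 836) (nat_lit 1113665759) (nat_lit 541) (nat_lit 5) (nat_lit 551) (nat_lit 5) (nat_lit 552) (nat_lit 5) (nat_lit 274) (nat_lit 256) (nat_lit 250)) (XT.nd (nat_lit 78) (nat_lit 988) (nat_lit 0) (XT.lf (nat_lit 0) (nat_lit 3000895123) (nat_lit 912) (nat_lit 2462379941) (nat_lit 76) (nat_lit 1252963689) (nat_lit 529) (nat_lit 5) (nat_lit 541) (nat_lit 5) (nat_lit 530) (nat_lit 5) (nat_lit 275) (nat_lit 256) (nat_lit 249)) (XT.lf (nat_lit 0) (nat_lit 356035762) (nat_lit 988) (nat_lit 3499576071) (nat_lit 76) (nat_lit 2901829326) (nat_lit 516) (nat_lit 5) (nat_lit 529) (nat_lit 5) (nat_lit 517) (nat_lit 5) (nat_lit 276) (nat_lit 256) (nat_lit 248)))) (XT.nd (nat_lit 78) (nat_lit 2280) (nat_lit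 0) (XT.lf (nat_lit 0) (nat_lit 2283549120) (nat_lit 988) (nat_lit 2111590879) (nat_lit 1064) (nat_lit 2406532483) (nat_lit 503) (nat_lit 5) (nat_lit 516) (nat_lit 5) (nat_lit 517) (nat_lit 5) (nat_lit 277) (nat_lit 256) (nat_lit 247)) (XT.nd (nat_lit 78) (nat_lit 1140) (nat_lit 0) (XT.lf (nat_lit 0) (nat_lit 1342085282) (nat_lit 1064) (nat_lit 242642677) (nat_lit 1140) (nat_lit 5264497421) (nat_lit 488) (nat_lit 5) (nat_lit 502) (nat_lit 5) (nat_lit 503) (nat_lit 5) (nat_lit 278) (nat_lit 256) (nat_lit 246)) (XT.lf (nat_lit 0) (nat_lit 413718463) (nat_lit 1140) (nat_lit 5163676966) (nat_lit 1216) (nat_lit 1322393651) (nat_lit 473) (nat_lit 5) (nat_lit 488) (nat_lit 5) (nat_lit 489) (nat_lit 5) (nat_lit 279) (nat_lit 256) (nat_lit 245))))) (XT.nd (nat_lit 234) (nat_lit 6080) (nat_lit 0) (XT.nd (nat_lit 78) (nat_lit 2584) (nat_lit 0) (XT.lf (nat_lit 0) (nat_lit 2613089687) (nat_lit 1216) (nat_lit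 490175413) (nat_lit 76) (nat_lit 3850209061) (nat_lit 472) (nat_lit 5) (nat_lit 488) (nat_lit 5) (nat_lit 473) (nat_lit 5) (nat_lit 280) (nat_lit 256) (nat_lit 244)) (XT.nd (nat_lit 78) (nat_lit 1368) (nat_lit 0) (XT.lf (nat_lit 0) (nat_lit 5646939144) (nat_lit 1216) (nat_lit 914068757) (nat_lit 1292) (nat_lit 449515600) (nat_lit 456) (nat_lit 5) (nat_lit 472) (nat_lit 5) (nat_lit 473) (nat_lit 5) (nat_lit 281) (nat_lit 256) (nat_lit 243)) (XT.lf (nat_lit 0) (nat_lit 3432963231) (nat_lit 1368) (nat_lit 2237894430) (nat_lit 76) (nat_lit 1399700475) (nat_lit 438) (nat_lit 5) (nat_lit 456) (nat_lit 5) (nat_lit 439) (nat_lit 5) (nat_lit 282) (nat_lit 256) (nat_lit 242)))) (XT.nd (nat_lit 156) (nat_lit 3192) (nat_lit 0) (XT.nd (nat_lit 78) (nat_lit 1444) (nat_lit 0) (XT.lf (nat_lit 0) (nat_lit 211203863) (nat_lit 1444) (nat_lit 3095340193) (nat_lit 76) (nat_lit 3827479441) (nat_lit 419) (nat_lit 5)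 (nat_lit 438) (nat_lit 5) (nat_lit 420) (nat_lit 5) (nat_lit 283) (nat_lit 256) (nat_lit 241)) (XT.lf (nat_lit 0) (nat_lit 3248302379) (nat_lit 1444) (nat_lit 796833854) (nat_lit 1520) (nat_lit 3155548048) (nat_lit 400) (nat_lit 5) (nat_lit 419) (nat_lit 5) (nat_lit 420) (nat_lit 5) (nat_lit 284) (nat_lit 256) (nat_lit 240))) (XT.nd (nat_lit 78) (nat_lit 1596) (nat_lit 0) (XT.lf (nat_lit 0) (nat_lit 648697801) (nat_lit 1596) (nat_lit 4804521901) (nat_lit 76) (nat_lit 1817508585) (nat_lit 379) (nat_lit 5) (nat_lit 400) (nat_lit 5) (nat_lit 380) (nat_lit 5) (nat_lit 285) (nat_lit 256) (nat_lit 239)) (XT.lf (nat_lit 0) (nat_lit 1678805515) (nat_lit 1596) (nat_lit 2775888467) (nat_lit 1672) (nat_lit 2889295036) (nat_lit 358) (nat_lit 5) (nat_lit 379) (nat_lit 5) (nat_lit 380) (nat_lit 5) (nat_lit 286) (nat_lit 256) (nat_lit 238)))))) (XT.nd (nat_lit 546) (nat_lit 4332) (nat_lit 0) (XT.nd (nat_lit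 234) (nat_lit 3344) (nat_lit 0) (XT.nd (nat_lit 78) (nat_lit 1064) (nat_lit 0) (XT.lf (nat_lit 0) (nat_lit 870553355) (nat_lit 1748) (nat_lit 6517710880) (nat_lit 76) (nat_lit 32641642) (nat_lit 335) (nat_lit 5) (nat_lit 358) (nat_lit 5) (nat_lit 336) (nat_lit 5) (nat_lit 287) (nat_lit 256) (nat_lit 237)) (XT.nd (nat_lit 78) (nat_lit 76) (nat_lit 0) (XT.lf (nat_lit 0) (nat_lit 103791452) (nat_lit 988) (nat_lit 4549659285) (nat_lit 1064) (nat_lit 2847439033) (nat_lit 322) (nat_lit 5) (nat_lit 335) (nat_lit 5) (nat_lit 336) (nat_lit 5) (nat_lit 288) (nat_lit 256) (nat_lit 236)) (XT.lf (nat_lit 0) (nat_lit 891402540) (nat_lit 1064) (nat_lit 681864797) (nat_lit 76) (nat_lit 6011255293) (nat_lit 321) (nat_lit 5) (nat_lit 335) (nat_lit 5) (nat_lit 322) (nat_lit 5) (nat_lit 289) (nat_lit 256) (nat_lit 235)))) (XT.nd (nat_lit 156) (nat_lit 1596) (nat_lit 0) (XT.nd (nat_lit 78) (nat_lit 912) (nat_lit 0)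 (XT.lf (nat_lit 0) (nat_lit 4650421499) (nat_lit 912) (nat_lit 1487717590) (nat_lit 76) (nat_lit 1533336659) (nat_lit 310) (nat_lit 5) (nat_lit 322) (nat_lit 5) (nat_lit 311) (nat_lit 5) (nat_lit 290) (nat_lit 256) (nat_lit 234)) (XT.lf (nat_lit 0) (nat_lit 699909456) (nat_lit 912) (nat_lit 2305413334) (nat_lit 76) (nat_lit 4756757253) (nat_lit 298) (nat_lit 5) (nat_lit 310) (nat_lit 5) (nat_lit 299) (nat_lit 5) (nat_lit 291) (nat_lit 256) (nat_lit 233))) (XT.nd (nat_lit 78) (nat_lit 836) (nat_lit 0) (XT.lf (nat_lit 0) (nat_lit 4434324607) (nat_lit 836) (nat_lit 3145240753) (nat_lit 76) (nat_lit 276692811) (nat_lit 288) (nat_lit 5) (nat_lit 299) (nat_lit 5) (nat_lit 289) (nat_lit 5) (nat_lit 292) (nat_lit 256) (nat_lit 232)) (XT.lf (nat_lit 0) (nat_lit 286593033) (nat_lit 836) (nat_lit 4011476733) (nat_lit 76) (nat_lit 3655988803) (nat_lit 277) (nat_lit 5) (nat_lit 288) (nat_lit 5) (nat_lit 278)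 (nat_lit 5) (nat_lit 293) (nat_lit 256) (nat_lit 231))))) (XT.nd (nat_lit 234) (nat_lit 2128) (nat_lit 0) (XT.nd (nat_lit 78) (nat_lit 1520) (nat_lit 0) (XT.lf (nat_lit 0) (nat_lit 3146691223) (nat_lit 684) (nat_lit 859082198) (nat_lit 760) (nat_lit 4049753300) (nat_lit 268) (nat_lit 5) (nat_lit 277) (nat_lit 5) (nat_lit 278) (nat_lit 5) (nat_lit 294) (nat_lit 256) (nat_lit 230)) (XT.nd (nat_lit 78) (nat_lit 760) (nat_lit 0) (XT.lf (nat_lit 0) (nat_lit 2324365791) (nat_lit 760) (nat_lit 5477872507) (nat_lit 836) (nat_lit 358587308) (nat_lit 258) (nat_lit 5) (nat_lit 268) (nat_lit 5) (nat_lit 269) (nat_lit 5) (nat_lit 295) (nat_lit 256) (nat_lit 229)) (XT.lf (nat_lit 0) (nat_lit 1460788293) (nat_lit 684) (nat_lit 1893288554) (nat_lit 760) (nat_lit 4915737036) (nat_lit 248) (nat_lit 5) (nat_lit 257) (nat_lit 5) (nat_lit 258) (nat_lit 5) (nat_lit 296) (nat_lit 256) (nat_lit 228)))) (XT.nd (nat_lit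 156) (nat_lit 1368) (nat_lit 0) (XT.nd (nat_lit 78) (nat_lit 76) (nat_lit 0) (XT.lf (nat_lit 0) (nat_lit 565287475) (nat_lit 684) (nat_lit 6572333423) (nat_lit 760) (nat_lit 1245209283) (nat_lit 239) (nat_lit 5) (nat_lit 248) (nat_lit 5) (nat_lit 249) (nat_lit 5) (nat_lit 297) (nat_lit 256) (nat_lit 227)) (XT.lf (nat_lit 0) (nat_lit 2471778918) (nat_lit 760) (nat_lit 376661899) (nat_lit 76) (nat_lit 5651163695) (nat_lit 238) (nat_lit 5) (nat_lit 248) (nat_lit 5) (nat_lit 239) (nat_lit 5) (nat_lit 298) (nat_lit 256) (nat_lit 226))) (XT.nd (nat_lit 78) (nat_lit 760) (nat_lit 0) (XT.lf (nat_lit 0) (nat_lit 6250477031) (nat_lit 684) (nat_lit 1352715797) (nat_lit 76) (nat_lit 1017268415) (nat_lit 230) (nat_lit 5) (nat_lit 239) (nat_lit 5) (nat_lit 231) (nat_lit 5) (nat_lit 299) (nat_lit 256) (nat_lit 225)) (XT.lf (nat_lit 0) (nat_lit 1356888512) (nat_lit 760) (nat_lit 2388250681) (nat_lit 76) (nat_lit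 5000152474) (nat_lit 220) (nat_lit 5) (nat_lit 230) (nat_lit 5) (nat_lit 221) (nat_lit 5) (nat_lit 300) (nat_lit 256) (nat_lit 224))))))))
noncomputable def xc44 : XT := (XT.nd (nat_lit 2028) (nat_lit 4332) (nat_lit 0) (XT.nd (nat_lit 1014) (nat_lit 3876) (nat_lit 0) (XT.nd (nat_lit 468) (nat_lit 3116) (nat_lit 0) (XT.nd (nat_lit 234) (nat_lit 1216) (nat_lit 0) (XT.nd (nat_lit 78) (nat_lit 1216) (nat_lit 0) (XT.lf (nat_lit 0) (nat_lit 5125720582) (nat_lit 684) (nat_lit 3477991786) (nat_lit 76) (nat_lit 270673889) (nat_lit 212) (nat_lit 5) (nat_lit 221) (nat_lit 5) (nat_lit 213) (nat_lit 5) (nat_lit 301) (nat_lit 256) (nat_lit 223)) (XT.nd (nat_lit 78) (nat_lit 608) (nat_lit 0) (XT.lf (nat_lit 0) (nat_lit 4372837123) (nat_lit 608) (nat_lit 4622323644) (nat_lit 684) (nat_lit 12519338) (nat_lit 204) (nat_lit 5) (nat_lit 212) (nat_lit 5) (nat_lit 213) (nat_lit 5) (nat_lit 302) (nat_lit 256) (nat_lit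 222)) (XT.lf (nat_lit 0) (nat_lit 3281134282) (nat_lit 532) (nat_lit 468264942) (nat_lit 608) (nat_lit 5395869151) (nat_lit 196) (nat_lit 5) (nat_lit 203) (nat_lit 5) (nat_lit 204) (nat_lit 5) (nat_lit 303) (nat_lit 256) (nat_lit 221)))) (XT.nd (nat_lit 78) (nat_lit 608) (nat_lit 0) (XT.lf (nat_lit 0) (nat_lit 2115322539) (nat_lit 608) (nat_lit 5499347886) (nat_lit 684) (nat_lit 1672570329) (nat_lit 188) (nat_lit 5) (nat_lit 196) (nat_lit 5) (nat_lit 197) (nat_lit 5) (nat_lit 304) (nat_lit 256) (nat_lit 220)) (XT.nd (nat_lit 78) (nat_lit 0) (nat_lit 0) (XT.lf (nat_lit 0) (nat_lit 877257631) (nat_lit 532) (nat_lit 1227309327) (nat_lit 608) (nat_lit 7329282526) (nat_lit 180) (nat_lit 5) (nat_lit 187) (nat_lit 5) (nat_lit 188) (nat_lit 5) (nat_lit 305) (nat_lit 256) (nat_lit 219)) (XT.lf (nat_lit 0) (nat_lit 5965138313) (nat_lit 608) (nat_lit 448349278) (nat_lit 76) (nat_lit 3171356897) (nat_lit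 180) (nat_lit 5) (nat_lit 188) (nat_lit 5) (nat_lit 181) (nat_lit 5) (nat_lit 306) (nat_lit 256) (nat_lit 218))))) (XT.nd (nat_lit 234) (nat_lit 1520) (nat_lit 0) (XT.nd (nat_lit 78) (nat_lit 988) (nat_lit 0) (XT.lf (nat_lit 0) (nat_lit 183305161) (nat_lit 608) (nat_lit 1838927182) (nat_lit 76) (nat_lit 7718477982) (nat_lit 172) (nat_lit 5) (nat_lit 180) (nat_lit 5) (nat_lit 173) (nat_lit 5) (nat_lit 307) (nat_lit 256) (nat_lit 217)) (XT.nd (nat_lit 78) (nat_lit 532) (nat_lit 0) (XT.lf (nat_lit 0) (nat_lit 4040259077) (nat_lit 532) (nat_lit 3343640929) (nat_lit 76) (nat_lit 2517154000) (nat_lit 166) (nat_lit 5) (nat_lit 173) (nat_lit 5) (nat_lit 167) (nat_lit 5) (nat_lit 308) (nat_lit 256) (nat_lit 216)) (XT.lf (nat_lit 0) (nat_lit 5123571728) (nat_lit 532) (nat_lit 2876524642) (nat_lit 608) (nat_lit 2066427349) (nat_lit 159) (nat_lit 5) (nat_lit 166) (nat_lit 5) (nat_lit 167) (nat_lit 5) (nat_lit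 309) (nat_lit 256) (nat_lit 215)))) (XT.nd (nat_lit 156) (nat_lit 532) (nat_lit 0) (XT.nd (nat_lit 78) (nat_lit 456) (nat_lit 0) (XT.lf (nat_lit 0) (nat_lit 1804277199) (nat_lit 532) (nat_lit 6654212128) (nat_lit 76) (nat_lit 1778552176) (nat_lit 152) (nat_lit 5) (nat_lit 159) (nat_lit 5) (nat_lit 153) (nat_lit 5) (nat_lit 310) (nat_lit 256) (nat_lit 214)) (XT.lf (nat_lit 0) (nat_lit 1917807217) (nat_lit 456) (nat_lit 3840919957) (nat_lit 532) (nat_lit 4653815208) (nat_lit 146) (nat_lit 5) (nat_lit 152) (nat_lit 5) (nat_lit 153) (nat_lit 5) (nat_lit 311) (nat_lit 256) (nat_lit 213))) (XT.nd (nat_lit 78) (nat_lit 76) (nat_lit 0) (XT.lf (nat_lit 0) (nat_lit 147513672) (nat_lit 456) (nat_lit 9667997194) (nat_lit 532) (nat_lit 778176544) (nat_lit 140) (nat_lit 5) (nat_lit 146) (nat_lit 5) (nat_lit 147) (nat_lit 5) (nat_lit 312) (nat_lit 256) (nat_lit 212)) (XT.lf (nat_lit 0) (nat_lit 3187526086) (nat_lit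 532) (nat_lit 1754013692) (nat_lit 76) (nat_lit 5838041397) (nat_lit 139) (nat_lit 5) (nat_lit 146) (nat_lit 5) (nat_lit 140) (nat_lit 5) (nat_lit 313) (nat_lit 256) (nat_lit 211)))))) (XT.nd (nat_lit 468) (nat_lit 1748) (nat_lit 0) (XT.nd (nat_lit 234) (nat_lit 836) (nat_lit 0) (XT.nd (nat_lit 78) (nat_lit 836) (nat_lit 0) (XT.lf (nat_lit 0) (nat_lit 7197548367) (nat_lit 456) (nat_lit 45155357) (nat_lit 532) (nat_lit 3728672724) (nat_lit 133) (nat_lit 5) (nat_lit 139) (nat_lit 5) (nat_lit 140) (nat_lit 5) (nat_lit 314) (nat_lit 256) (nat_lit 210)) (XT.nd (nat_lit 78) (nat_lit 380) (nat_lit 0) (XT.lf (nat_lit 0) (nat_lit 261126748) (nat_lit 456) (nat_lit 5951785526) (nat_lit 76) (nat_lit 4955751446) (nat_lit 127) (nat_lit 5) (nat_lit 133) (nat_lit 5) (nat_lit 128) (nat_lit 5) (nat_lit 315) (nat_lit 256) (nat_lit 209)) (XT.lf (nat_lit 0) (nat_lit 3082941843) (nat_lit 380) (nat_lit 1219668369) (nat_lit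 456) (nat_lit 7069158876) (nat_lit 122) (nat_lit 5) (nat_lit 127) (nat_lit 5) (nat_lit 128) (nat_lit 5) (nat_lit 316) (nat_lit 256) (nat_lit 208)))) (XT.nd (nat_lit 78) (nat_lit 456) (nat_lit 0) (XT.lf (nat_lit 0) (nat_lit 785218216) (nat_lit 380) (nat_lit 7688703225) (nat_lit 456) (nat_lit 3106918559) (nat_lit 117) (nat_lit 5) (nat_lit 122) (nat_lit 5) (nat_lit 123) (nat_lit 5) (nat_lit 317) (nat_lit 256) (nat_lit 207)) (XT.nd (nat_lit 78) (nat_lit 380) (nat_lit 0) (XT.lf (nat_lit 0) (nat_lit 964325888) (nat_lit 456) (nat_lit 1653741475) (nat_lit 76) (nat_lit 9177972830) (nat_lit 116) (nat_lit 5) (nat_lit 122) (nat_lit 5) (nat_lit 117) (nat_lit 5) (nat_lit 318) (nat_lit 256) (nat_lit 206)) (XT.lf (nat_lit 0) (nat_lit 5123331421) (nat_lit 456) (nat_lit 4277558232) (nat_lit 76) (nat_lit 2616280021) (nat_lit 111) (nat_lit 5) (nat_lit 117) (nat_lit 5) (nat_lit 112) (nat_lit 5) (nat_lit 319) (nat_lit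 256) (nat_lit 205))))) (XT.nd (nat_lit 234) (nat_lit 988) (nat_lit 0) (XT.nd (nat_lit 78) (nat_lit 456) (nat_lit 0) (XT.lf (nat_lit 0) (nat_lit 5156909461) (nat_lit 304) (nat_lit 4253513089) (nat_lit 380) (nat_lit 2834483699) (nat_lit 107) (nat_lit 5) (nat_lit 111) (nat_lit 5) (nat_lit 112) (nat_lit 5) (nat_lit 320) (nat_lit 256) (nat_lit 204)) (XT.nd (nat_lit 78) (nat_lit 0) (nat_lit 0) (XT.lf (nat_lit 0) (nat_lit 1322471016) (nat_lit 456) (nat_lit 10095351380) (nat_lit 76) (nat_lit 1061645653) (nat_lit 101) (nat_lit 5) (nat_lit 107) (nat_lit 5) (nat_lit 102) (nat_lit 5) (nat_lit 321) (nat_lit 256) (nat_lit 203)) (XT.lf (nat_lit 0) (nat_lit 5585407819) (nat_lit 456) (nat_lit 615283265) (nat_lit 76) (nat_lit 6519641763) (nat_lit 101) (nat_lit 5) (nat_lit 107) (nat_lit 5) (nat_lit 102) (nat_lit 5) (nat_lit 322) (nat_lit 256) (nat_lit 202)))) (XT.nd (nat_lit 156) (nat_lit 304) (nat_lit 0) (XT.nd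 (nat_lit 78) (nat_lit 380) (nat_lit 0) (XT.lf (nat_lit 0) (nat_lit 9187278082) (nat_lit 304) (nat_lit 793041185) (nat_lit 380) (nat_lit 2988058049) (nat_lit 97) (nat_lit 5) (nat_lit 101) (nat_lit 5) (nat_lit 102) (nat_lit 5) (nat_lit 323) (nat_lit 256) (nat_lit 201)) (XT.lf (nat_lit 0) (nat_lit 1286230447) (nat_lit 380) (nat_lit 7197318468) (nat_lit 76) (nat_lit 4739784421) (nat_lit 92) (nat_lit 5) (nat_lit 97) (nat_lit 5) (nat_lit 93) (nat_lit 5) (nat_lit 324) (nat_lit 256) (nat_lit 200))) (XT.nd (nat_lit 78) (nat_lit 0) (nat_lit 0) (XT.lf (nat_lit 0) (nat_lit 2621159238) (nat_lit 304) (nat_lit 3021373017) (nat_lit 380) (nat_lit 7843155915) (nat_lit 88) (nat_lit 5) (nat_lit 92) (nat_lit 5) (nat_lit 93) (nat_lit 5) (nat_lit 325) (nat_lit 256) (nat_lit 199)) (XT.lf (nat_lit 0) (nat_lit 10142439566) (nat_lit 380) (nat_lit 1020490645) (nat_lit 76) (nat_lit 2592756923) (nat_lit 88) (nat_lit 5) (nat_lit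 93) (nat_lit 5) (nat_lit 89) (nat_lit 5) (nat_lit 326) (nat_lit 256) (nat_lit 198))))))) (XT.nd (nat_lit 1014) (nat_lit 1748) (nat_lit 0) (XT.nd (nat_lit 468) (nat_lit 1064) (nat_lit 0) (XT.nd (nat_lit 234) (nat_lit 608) (nat_lit 0) (XT.nd (nat_lit 78) (nat_lit 532) (nat_lit 0) (XT.lf (nat_lit 0) (nat_lit 761965656) (nat_lit 380) (nat_lit 4898402744) (nat_lit 76) (nat_lit 8372788201) (nat_lit 83) (nat_lit 5) (nat_lit 88) (nat_lit 5) (nat_lit 84) (nat_lit 5) (nat_lit 327) (nat_lit 256) (nat_lit 197)) (XT.nd (nat_lit 78) (nat_lit 304) (nat_lit 0) (XT.lf (nat_lit 0) (nat_lit 5210108995) (nat_lit 304) (nat_lit 9062550094) (nat_lit 76) (nat_lit 46027520) (nat_lit 80) (nat_lit 5) (nat_lit 84) (nat_lit 5) (nat_lit 81) (nat_lit 5) (nat_lit 328) (nat_lit 256) (nat_lit 196)) (XT.lf (nat_lit 0) (nat_lit 1068501335) (nat_lit 304) (nat_lit 8751299957) (nat_lit 380) (nat_lit 4792447673) (nat_lit 76) (nat_lit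 5) (nat_lit 80) (nat_lit 5) (nat_lit 81) (nat_lit 5) (nat_lit 329) (nat_lit 256) (nat_lit 195)))) (XT.nd (nat_lit 78) (nat_lit 608) (nat_lit 0) (XT.lf (nat_lit 0) (nat_lit 11551111783) (nat_lit 304) (nat_lit 3028947192) (nat_lit 380) (nat_lit 334341436) (nat_lit 76) (nat_lit 5) (nat_lit 80) (nat_lit 5) (nat_lit 81) (nat_lit 5) (nat_lit 330) (nat_lit 256) (nat_lit 194)) (XT.nd (nat_lit 78) (nat_lit 304) (nat_lit 0) (XT.lf (nat_lit 0) (nat_lit 4218724133) (nat_lit 304) (nat_lit 8130670390) (nat_lit 76) (nat_lit 2875354320) (nat_lit 72) (nat_lit 5) (nat_lit 76) (nat_lit 5) (nat_lit 73) (nat_lit 5) (nat_lit 331) (nat_lit 256) (nat_lit 193)) (XT.lf (nat_lit 0) (nat_lit 2300335883) (nat_lit 304) (nat_lit 6614363821) (nat_lit 380) (nat_lit 6629472223) (nat_lit 68) (nat_lit 5) (nat_lit 72) (nat_lit 5) (nat_lit 73) (nat_lit 5) (nat_lit 332) (nat_lit 256) (nat_lit 192))))) (XT.nd (nat_lit 234) (nat_lit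 532) (nat_lit 0) (XT.nd (nat_lit 78) (nat_lit 532) (nat_lit 0) (XT.lf (nat_lit 0) (nat_lit 13082331423) (nat_lit 304) (nat_lit 677922914) (nat_lit 380) (nat_lit 2112774232) (nat_lit 68) (nat_lit 5) (nat_lit 72) (nat_lit 5) (nat_lit 73) (nat_lit 5) (nat_lit 333) (nat_lit 256) (nat_lit 191)) (XT.nd (nat_lit 78) (nat_lit 228) (nat_lit 0) (XT.lf (nat_lit 0) (nat_lit 2548226044) (nat_lit 304) (nat_lit 8254249153) (nat_lit 76) (nat_lit 5408127500) (nat_lit 64) (nat_lit 5) (nat_lit 68) (nat_lit 5) (nat_lit 65) (nat_lit 5) (nat_lit 334) (nat_lit 256) (nat_lit 190)) (XT.lf (nat_lit 0) (nat_lit 2448100361) (nat_lit 228) (nat_lit 4867206446) (nat_lit 304) (nat_lit 9242841811) (nat_lit 61) (nat_lit 5) (nat_lit 64) (nat_lit 5) (nat_lit 65) (nat_lit 5) (nat_lit 335) (nat_lit 256) (nat_lit 189)))) (XT.nd (nat_lit 156) (nat_lit 228) (nat_lit 0) (XT.nd (nat_lit 78) (nat_lit 304) (nat_lit 0) (XT.lf (nat_lit 0)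 (nat_lit 12245796252) (nat_lit 304) (nat_lit 3409837000) (nat_lit 76) (nat_lit 1260102045) (nat_lit 61) (nat_lit 5) (nat_lit 65) (nat_lit 5) (nat_lit 62) (nat_lit 5) (nat_lit 336) (nat_lit 256) (nat_lit 188)) (XT.lf (nat_lit 0) (nat_lit 79103184) (nat_lit 304) (nat_lit 9673986315) (nat_lit 76) (nat_lit 7530186518) (nat_lit 57) (nat_lit 5) (nat_lit 61) (nat_lit 5) (nat_lit 58) (nat_lit 5) (nat_lit 337) (nat_lit 256) (nat_lit 187))) (XT.nd (nat_lit 78) (nat_lit 0) (nat_lit 0) (XT.lf (nat_lit 0) (nat_lit 1261160947) (nat_lit 228) (nat_lit 3635608296) (nat_lit 304) (nat_lit 12764684987) (nat_lit 54) (nat_lit 5) (nat_lit 57) (nat_lit 5) (nat_lit 58) (nat_lit 5) (nat_lit 338) (nat_lit 256) (nat_lit 186)) (XT.lf (nat_lit 0) (nat_lit 9900674630) (nat_lit 304) (nat_lit 5478478250) (nat_lit 76) (nat_lit 2671010737) (nat_lit 54) (nat_lit 5) (nat_lit 58) (nat_lit 5) (nat_lit 55) (nat_lit 5) (nat_lit 339)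 (nat_lit 256) (nat_lit 185)))))) (XT.nd (nat_lit 468) (nat_lit 760) (nat_lit 0) (XT.nd (nat_lit 234) (nat_lit 456) (nat_lit 0) (XT.nd (nat_lit 78) (nat_lit 304) (nat_lit 0) (XT.lf (nat_lit 0) (nat_lit 5756295925) (nat_lit 228) (nat_lit 9319714760) (nat_lit 304) (nat_lit 3374116759) (nat_lit 51) (nat_lit 5) (nat_lit 54) (nat_lit 5) (nat_lit 55) (nat_lit 5) (nat_lit 340) (nat_lit 256) (nat_lit 184)) (XT.nd (nat_lit 78) (nat_lit 228) (nat_lit 0) (XT.lf (nat_lit 0) (nat_lit 1521730814) (nat_lit 304) (nat_lit 1533875181) (nat_lit 76) (nat_lit 15806352711) (nat_lit 50) (nat_lit 5) (nat_lit 54) (nat_lit 5) (nat_lit 51) (nat_lit 5) (nat_lit 341) (nat_lit 256) (nat_lit 183)) (XT.lf (nat_lit 0) (nat_lit 6567574491) (nat_lit 304) (nat_lit 9301564266) (nat_lit 76) (nat_lit 3415598810) (nat_lit 47) (nat_lit 5) (nat_lit 51) (nat_lit 5) (nat_lit 48) (nat_lit 5) (nat_lit 342) (nat_lit 256) (nat_lit 182)))) (XT.nd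 (nat_lit 78) (nat_lit 304) (nat_lit 0) (XT.lf (nat_lit 0) (nat_lit 2090609595) (nat_lit 152) (nat_lit 9680482175) (nat_lit 228) (nat_lit 7948999493) (nat_lit 45) (nat_lit 5) (nat_lit 47) (nat_lit 5) (nat_lit 48) (nat_lit 5) (nat_lit 343) (nat_lit 256) (nat_lit 181)) (XT.nd (nat_lit 78) (nat_lit 304) (nat_lit 0) (XT.lf (nat_lit 0) (nat_lit 13889849408) (nat_lit 152) (nat_lit 3266432252) (nat_lit 228) (nat_lit 3011729491) (nat_lit 45) (nat_lit 5) (nat_lit 47) (nat_lit 5) (nat_lit 48) (nat_lit 5) (nat_lit 344) (nat_lit 256) (nat_lit 180)) (XT.lf (nat_lit 0) (nat_lit 2066812591) (nat_lit 304) (nat_lit 15240520079) (nat_lit 76) (nat_lit 3321375798) (nat_lit 41) (nat_lit 5) (nat_lit 45) (nat_lit 5) (nat_lit 42) (nat_lit 5) (nat_lit 345) (nat_lit 256) (nat_lit 179))))) (XT.nd (nat_lit 234) (nat_lit 608) (nat_lit 0) (XT.nd (nat_lit 78) (nat_lit 152) (nat_lit 0) (XT.lf (nat_lit 0) (nat_lit 7285590678)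 (nat_lit 304) (nat_lit 3714489129) (nat_lit 76) (nat_lit 10102188439) (nat_lit 41) (nat_lit 5) (nat_lit 45) (nat_lit 5) (nat_lit 42) (nat_lit 5) (nat_lit 346) (nat_lit 256) (nat_lit 178)) (XT.nd (nat_lit 78) (nat_lit 0) (nat_lit 0) (XT.lf (nat_lit 0) (nat_lit 8206395579) (nat_lit 152) (nat_lit 4472764950) (nat_lit 228) (nat_lit 8910524906) (nat_lit 39) (nat_lit 5) (nat_lit 41) (nat_lit 5) (nat_lit 42) (nat_lit 5) (nat_lit 347) (nat_lit 256) (nat_lit 177)) (XT.lf (nat_lit 0) (nat_lit 18239928989) (nat_lit 228) (nat_lit 1628405734) (nat_lit 76) (nat_lit 2223297330) (nat_lit 39) (nat_lit 5) (nat_lit 42) (nat_lit 5) (nat_lit 40) (nat_lit 5) (nat_lit 348) (nat_lit 256) (nat_lit 176)))) (XT.nd (nat_lit 156) (nat_lit 304) (nat_lit 0) (XT.nd (nat_lit 78) (nat_lit 0) (nat_lit 0) (XT.lf (nat_lit 0) (nat_lit 1406210608) (nat_lit 304) (nat_lit 12085744201) (nat_lit 76) (nat_lit 9115216854) (nat_lit 35) (nat_lit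 5) (nat_lit 39) (nat_lit 5) (nat_lit 36) (nat_lit 5) (nat_lit 349) (nat_lit 256) (nat_lit 175)) (XT.lf (nat_lit 0) (nat_lit 6747772706) (nat_lit 304) (nat_lit 161744526) (nat_lit 76) (nat_lit 16228599845) (nat_lit 35) (nat_lit 5) (nat_lit 39) (nat_lit 5) (nat_lit 36) (nat_lit 5) (nat_lit 350) (nat_lit 256) (nat_lit 174))) (XT.nd (nat_lit 78) (nat_lit 152) (nat_lit 0) (XT.lf (nat_lit 0) (nat_lit 12225949632) (nat_lit 152) (nat_lit 70811590) (nat_lit 228) (nat_lit 11387299269) (nat_lit 33) (nat_lit 5) (nat_lit 35) (nat_lit 5) (nat_lit 36) (nat_lit 5) (nat_lit 351) (nat_lit 256) (nat_lit 173)) (XT.lf (nat_lit 0) (nat_lit 650385388) (nat_lit 152) (nat_lit 17380682812) (nat_lit 228) (nat_lit 6214949873) (nat_lit 31) (nat_lit 5) (nat_lit 33) (nat_lit 5) (nat_lit 34) (nat_lit 5) (nat_lit 352) (nat_lit 256) (nat_lit 172))))))))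
noncomputable def xc45 : XT := (XT.nd (nat_lit 35178) (nat_lit 0) (nat_lit 11020) (XT.nd (nat_lit 34164) (nat_lit 0) (nat_lit 31692) (XT.nd (nat_lit 468) (nat_lit 304) (nat_lit 0) (XT.nd (nat_lit 234) (nat_lit 228) (nat_lit 0) (XT.nd (nat_lit 78) (nat_lit 228) (nat_lit 0) (XT.lf (nat_lit 0) (nat_lit 13225381179) (nat_lit 152) (nat_lit 10758966422) (nat_lit 228) (nat_lit 839560384) (nat_lit 31) (nat_lit 5) (nat_lit 33) (nat_lit 5) (nat_lit 34) (nat_lit 5) (nat_lit 353) (nat_lit 256) (nat_lit 171)) (XT.nd (nat_lit 78) (nat_lit 0) (nat_lit 0) (XT.lf (nat_lit 0) (nat_lit 684993696) (nat_lit 152) (nat_lit 3924465867) (nat_lit 228) (nat_lit 20809597529) (nat_lit 28) (nat_lit 5) (nat_lit 30) (nat_lit 5) (nat_lit 31) (nat_lit 5) (nat_lit 354) (nat_lit 256) (nat_lit 170)) (XT.lf (nat_lit 0) (nat_lit 10279891999) (nat_lit 228) (nat_lit 12612681054) (nat_lit 76) (nat_lit 3138001185) (nat_lit 28) (nat_lit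 5) (nat_lit 31) (nat_lit 5) (nat_lit 29) (nat_lit 5) (nat_lit 355) (nat_lit 256) (nat_lit 169)))) (XT.nd (nat_lit 78) (nat_lit 228) (nat_lit 0) (XT.lf (nat_lit 0) (nat_lit 16117499844) (nat_lit 228) (nat_lit 204013011) (nat_lit 76) (nat_lit 10338993982) (nat_lit 28) (nat_lit 5) (nat_lit 31) (nat_lit 5) (nat_lit 29) (nat_lit 5) (nat_lit 356) (nat_lit 256) (nat_lit 168)) (XT.nd (nat_lit 78) (nat_lit 76) (nat_lit 0) (XT.lf (nat_lit 0) (nat_lit 12694757522) (nat_lit 152) (nat_lit 9489568948) (nat_lit 228) (nat_lit 5123939991) (nat_lit 26) (nat_lit 5) (nat_lit 28) (nat_lit 5) (nat_lit 29) (nat_lit 5) (nat_lit 357) (nat_lit 256) (nat_lit 167)) (XT.lf (nat_lit 0) (nat_lit 425075414) (nat_lit 228) (nat_lit 2043373206) (nat_lit 76) (nat_lit 25507493576) (nat_lit 25) (nat_lit 5) (nat_lit 28) (nat_lit 5) (nat_lit 26) (nat_lit 5) (nat_lit 358) (nat_lit 256) (nat_lit 166))))) (XT.nd (nat_lit 33384) (nat_lit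 0) (nat_lit 42256) (XT.nd (nat_lit 78) (nat_lit 152) (nat_lit 0) (XT.lf (nat_lit 0) (nat_lit 6146847172) (nat_lit 228) (nat_lit 17727000612) (nat_lit 76) (nat_lit 4787615066) (nat_lit 23) (nat_lit 5) (nat_lit 26) (nat_lit 5) (nat_lit 24) (nat_lit 5) (nat_lit 359) (nat_lit 256) (nat_lit 165)) (XT.nd (nat_lit 78) (nat_lit 152) (nat_lit 0) (XT.lf (nat_lit 0) (nat_lit 12043888566) (nat_lit 228) (nat_lit 5100766516) (nat_lit 76) (nat_lit 12222831457) (nat_lit 23) (nat_lit 5) (nat_lit 26) (nat_lit 5) (nat_lit 24) (nat_lit 5) (nat_lit 360) (nat_lit 256) (nat_lit 164)) (XT.lf (nat_lit 0) (nat_lit 7963554582) (nat_lit 152) (nat_lit 10179943367) (nat_lit 228) (nat_lit 11950689314) (nat_lit 21) (nat_lit 5) (nat_lit 23) (nat_lit 5) (nat_lit 24) (nat_lit 5) (nat_lit 361) (nat_lit 256) (nat_lit 163)))) (XT.nd (nat_lit 156) (nat_lit 608) (nat_lit 0) (XT.nd (nat_lit 78) (nat_lit 380) (nat_lit 0) (XT.lf (nat_lit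 0) (nat_lit 543365490) (nat_lit 380) (nat_lit 2154629829) (nat_lit 0) (nat_lit 543365490) (nat_lit 590) (nat_lit 5) (nat_lit 595) (nat_lit 4) (nat_lit 590) (nat_lit 4) (nat_lit 266) (nat_lit 257) (nat_lit 257)) (XT.lf (nat_lit 0) (nat_lit 674166249) (nat_lit 380) (nat_lit 4789301835) (nat_lit 380) (nat_lit 1034348590) (nat_lit 585) (nat_lit 4) (nat_lit 590) (nat_lit 5) (nat_lit 590) (nat_lit 4) (nat_lit 267) (nat_lit 257) (nat_lit 256))) (XT.nd (nat_lit 78) (nat_lit 532) (nat_lit 0) (XT.lf (nat_lit 0) (nat_lit 3281605578) (nat_lit 456) (nat_lit 771695650) (nat_lit 76) (nat_lit 2462524988) (nat_lit 584) (nat_lit 5) (nat_lit 590) (nat_lit 5) (nat_lit 585) (nat_lit 4) (nat_lit 268) (nat_lit 257) (nat_lit 255)) (XT.lf (nat_lit 0) (nat_lit 1034805673) (nat_lit 532) (nat_lit 2160857340) (nat_lit 76) (nat_lit 3341266052) (nat_lit 577) (nat_lit 5) (nat_lit 584) (nat_lit 5) (nat_lit 578) (nat_lit 5) (nat_lit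 269) (nat_lit 257) (nat_lit 254)))))) (XT.nd (nat_lit 468) (nat_lit 6916) (nat_lit 0) (XT.nd (nat_lit 234) (nat_lit 1672) (nat_lit 0) (XT.nd (nat_lit 78) (nat_lit 1444) (nat_lit 0) (XT.lf (nat_lit 0) (nat_lit 3048534784) (nat_lit 532) (nat_lit 2211467315) (nat_lit 608) (nat_lit 1301059791) (nat_lit 570) (nat_lit 5) (nat_lit 577) (nat_lit 5) (nat_lit 578) (nat_lit 5) (nat_lit 270) (nat_lit 257) (nat_lit 253)) (XT.nd (nat_lit 78) (nat_lit 760) (nat_lit 0) (XT.lf (nat_lit 0) (nat_lit 1760819971) (nat_lit 608) (nat_lit 1101014186) (nat_lit 684) (nat_lit 3726434363) (nat_lit 561) (nat_lit 5) (nat_lit 569) (nat_lit 5) (nat_lit 570) (nat_lit 5) (nat_lit 271) (nat_lit 257) (nat_lit 252)) (XT.lf (nat_lit 0) (nat_lit 389107458) (nat_lit 760) (nat_lit 6101541489) (nat_lit 76) (nat_lit 128042669) (nat_lit 551) (nat_lit 5) (nat_lit 561) (nat_lit 5) (nat_lit 552) (nat_lit 5) (nat_lit 272) (nat_lit 257) (nat_lit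 251)))) (XT.nd (nat_lit 78) (nat_lit 1672) (nat_lit 0) (XT.lf (nat_lit 0) (nat_lit 4473872275) (nat_lit 760) (nat_lit 696744989) (nat_lit 76) (nat_lit 1481223130) (nat_lit 551) (nat_lit 5) (nat_lit 561) (nat_lit 5) (nat_lit 552) (nat_lit 5) (nat_lit 273) (nat_lit 257) (nat_lit 250)) (XT.nd (nat_lit 78) (nat_lit 836) (nat_lit 0) (XT.lf (nat_lit 0) (nat_lit 1859472571) (nat_lit 836) (nat_lit 1867063946) (nat_lit 76) (nat_lit 2961601242) (nat_lit 540) (nat_lit 5) (nat_lit 551) (nat_lit 5) (nat_lit 541) (nat_lit 5) (nat_lit 274) (nat_lit 257) (nat_lit 249)) (XT.lf (nat_lit 0) (nat_lit 3722298253) (nat_lit 836) (nat_lit 2157558066) (nat_lit 912) (nat_lit 847767206) (nat_lit 529) (nat_lit 5) (nat_lit 540) (nat_lit 5) (nat_lit 541) (nat_lit 5) (nat_lit 275) (nat_lit 257) (nat_lit 248))))) (XT.nd (nat_lit 234) (nat_lit 3800) (nat_lit 0) (XT.nd (nat_lit 78) (nat_lit 2128) (nat_lit 0) (XT.lf (nat_lit 0)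 (nat_lit 2649571560) (nat_lit 912) (nat_lit 454859954) (nat_lit 988) (nat_lit 3665754585) (nat_lit 516) (nat_lit 5) (nat_lit 528) (nat_lit 5) (nat_lit 529) (nat_lit 5) (nat_lit 276) (nat_lit 257) (nat_lit 247)) (XT.nd (nat_lit 78) (nat_lit 1064) (nat_lit 0) (XT.lf (nat_lit 0) (nat_lit 251903048) (nat_lit 1064) (nat_lit 5211409652) (nat_lit 76) (nat_lit 1352616188) (nat_lit 502) (nat_lit 5) (nat_lit 516) (nat_lit 5) (nat_lit 503) (nat_lit 5) (nat_lit 277) (nat_lit 257) (nat_lit 246)) (XT.lf (nat_lit 0) (nat_lit 572585608) (nat_lit 1064) (nat_lit 3570104389) (nat_lit 1140) (nat_lit 2721950943) (nat_lit 488) (nat_lit 5) (nat_lit 502) (nat_lit 5) (nat_lit 503) (nat_lit 5) (nat_lit 278) (nat_lit 257) (nat_lit 245)))) (XT.nd (nat_lit 156) (nat_lit 2584) (nat_lit 0) (XT.nd (nat_lit 78) (nat_lit 1140) (nat_lit 0) (XT.lf (nat_lit 0) (nat_lit 1127087923) (nat_lit 1140) (nat_lit 423649131) (nat_lit 76) (nat_lit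 5365939316) (nat_lit 487) (nat_lit 5) (nat_lit 502) (nat_lit 5) (nat_lit 488) (nat_lit 5) (nat_lit 279) (nat_lit 257) (nat_lit 244)) (XT.lf (nat_lit 0) (nat_lit 4971058442) (nat_lit 1216) (nat_lit 1399784901) (nat_lit 76) (nat_lit 600916113) (nat_lit 472) (nat_lit 5) (nat_lit 488) (nat_lit 5) (nat_lit 473) (nat_lit 5) (nat_lit 280) (nat_lit 257) (nat_lit 243))) (XT.nd (nat_lit 78) (nat_lit 1292) (nat_lit 0) (XT.lf (nat_lit 0) (nat_lit 1799038183) (nat_lit 1292) (nat_lit 2367143022) (nat_lit 76) (nat_lit 2863791118) (nat_lit 455) (nat_lit 5) (nat_lit 472) (nat_lit 5) (nat_lit 456) (nat_lit 5) (nat_lit 281) (nat_lit 257) (nat_lit 242)) (XT.lf (nat_lit 0) (nat_lit 3771811329) (nat_lit 1292) (nat_lit 1829093804) (nat_lit 1368) (nat_lit 1490617564) (nat_lit 438) (nat_lit 5) (nat_lit 455) (nat_lit 5) (nat_lit 456) (nat_lit 5) (nat_lit 282) (nat_lit 257) (nat_lit 241))))))) (XT.nd (nat_lit 1014) (nat_lit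 6916) (nat_lit 0) (XT.nd (nat_lit 468) (nat_lit 5928) (nat_lit 0) (XT.nd (nat_lit 234) (nat_lit 3344) (nat_lit 0) (XT.nd (nat_lit 78) (nat_lit 3040) (nat_lit 0) (XT.lf (nat_lit 0) (nat_lit 2253078411) (nat_lit 1444) (nat_lit 4266369192) (nat_lit 76) (nat_lit 636876498) (nat_lit 419) (nat_lit 5) (nat_lit 438) (nat_lit 5) (nat_lit 420) (nat_lit 5) (nat_lit 283) (nat_lit 257) (nat_lit 240)) (XT.nd (nat_lit 78) (nat_lit 1596) (nat_lit 0) (XT.lf (nat_lit 0) (nat_lit 2010838379) (nat_lit 1444) (nat_lit 4011919753) (nat_lit 1520) (nat_lit 1201585535) (nat_lit 400) (nat_lit 5) (nat_lit 419) (nat_lit 5) (nat_lit 420) (nat_lit 5) (nat_lit 284) (nat_lit 257) (nat_lit 239)) (XT.lf (nat_lit 0) (nat_lit 1136801200) (nat_lit 1520) (nat_lit 1364228988) (nat_lit 1596) (nat_lit 4794694005) (nat_lit 379) (nat_lit 5) (nat_lit 399) (nat_lit 5) (nat_lit 400) (nat_lit 5) (nat_lit 285) (nat_lit 257) (nat_lit 238))))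 (XT.nd (nat_lit 78) (nat_lit 1748) (nat_lit 0) (XT.lf (nat_lit 0) (nat_lit 264147009) (nat_lit 1596) (nat_lit 5970822654) (nat_lit 1672) (nat_lit 1135524528) (nat_lit 358) (nat_lit 5) (nat_lit 379) (nat_lit 5) (nat_lit 380) (nat_lit 5) (nat_lit 286) (nat_lit 257) (nat_lit 237)) (XT.nd (nat_lit 78) (nat_lit 1672) (nat_lit 0) (XT.lf (nat_lit 0) (nat_lit 2542063781) (nat_lit 1672) (nat_lit 611497378) (nat_lit 76) (nat_lit 4294872189) (nat_lit 357) (nat_lit 5) (nat_lit 379) (nat_lit 5) (nat_lit 358) (nat_lit 5) (nat_lit 287) (nat_lit 257) (nat_lit 236)) (XT.lf (nat_lit 0) (nat_lit 6050402192) (nat_lit 1672) (nat_lit 198712769) (nat_lit 1748) (nat_lit 1280882167) (nat_lit 335) (nat_lit 5) (nat_lit 357) (nat_lit 5) (nat_lit 358) (nat_lit 5) (nat_lit 288) (nat_lit 257) (nat_lit 235))))) (XT.nd (nat_lit 234) (nat_lit 3116) (nat_lit 0) (XT.nd (nat_lit 78) (nat_lit 1748) (nat_lit 0) (XT.lf (nat_lit 0) (nat_lit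 2375178877) (nat_lit 1064) (nat_lit 2373757894) (nat_lit 76) (nat_lit 2865794422) (nat_lit 321) (nat_lit 5) (nat_lit 335) (nat_lit 5) (nat_lit 322) (nat_lit 5) (nat_lit 289) (nat_lit 257) (nat_lit 234)) (XT.nd (nat_lit 78) (nat_lit 912) (nat_lit 0) (XT.lf (nat_lit 0) (nat_lit 4429768003) (nat_lit 836) (nat_lit 1633230873) (nat_lit 912) (nat_lit 1640167599) (nat_lit 310) (nat_lit 5) (nat_lit 321) (nat_lit 5) (nat_lit 322) (nat_lit 5) (nat_lit 290) (nat_lit 257) (nat_lit 233)) (XT.lf (nat_lit 0) (nat_lit 1991026940) (nat_lit 912) (nat_lit 4195877792) (nat_lit 76) (nat_lit 1608175278) (nat_lit 298) (nat_lit 5) (nat_lit 310) (nat_lit 5) (nat_lit 299) (nat_lit 5) (nat_lit 291) (nat_lit 257) (nat_lit 232)))) (XT.nd (nat_lit 156) (nat_lit 1520) (nat_lit 0) (XT.nd (nat_lit 78) (nat_lit 836) (nat_lit 0) (XT.lf (nat_lit 0) (nat_lit 2747267989) (nat_lit 760) (nat_lit 2915796715) (nat_lit 836) (nat_lit 2227494752)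 (nat_lit 288) (nat_lit 5) (nat_lit 298) (nat_lit 5) (nat_lit 299) (nat_lit 5) (nat_lit 292) (nat_lit 257) (nat_lit 231)) (XT.lf (nat_lit 0) (nat_lit 1385783918) (nat_lit 836) (nat_lit 6110257289) (nat_lit 76) (nat_lit 493806378) (nat_lit 277) (nat_lit 5) (nat_lit 288) (nat_lit 5) (nat_lit 278) (nat_lit 5) (nat_lit 293) (nat_lit 257) (nat_lit 230))) (XT.nd (nat_lit 78) (nat_lit 836) (nat_lit 0) (XT.lf (nat_lit 0) (nat_lit 969968515) (nat_lit 684) (nat_lit 4074824968) (nat_lit 760) (nat_lit 3047775359) (nat_lit 268) (nat_lit 5) (nat_lit 277) (nat_lit 5) (nat_lit 278) (nat_lit 5) (nat_lit 294) (nat_lit 257) (nat_lit 229)) (XT.lf (nat_lit 0) (nat_lit 45055208) (nat_lit 760) (nat_lit 511972160) (nat_lit 836) (nat_lit 7642362609) (nat_lit 257) (nat_lit 5) (nat_lit 267) (nat_lit 5) (nat_lit 268) (nat_lit 5) (nat_lit 295) (nat_lit 257) (nat_lit 228)))))) (XT.nd (nat_lit 468) (nat_lit 3496) (nat_lit 0)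 (XT.nd (nat_lit 234) (nat_lit 1976) (nat_lit 0) (XT.nd (nat_lit 78) (nat_lit 1444) (nat_lit 0) (XT.lf (nat_lit 0) (nat_lit 4207801756) (nat_lit 836) (nat_lit 924599533) (nat_lit 76) (nat_lit 3177120056) (nat_lit 257) (nat_lit 5) (nat_lit 268) (nat_lit 5) (nat_lit 258) (nat_lit 5) (nat_lit 296) (nat_lit 257) (nat_lit 227)) (XT.nd (nat_lit 78) (nat_lit 760) (nat_lit 0) (XT.lf (nat_lit 0) (nat_lit 6506677105) (nat_lit 684) (nat_lit 1419627568) (nat_lit 760) (nat_lit 497578375) (nat_lit 248) (nat_lit 5) (nat_lit 257) (nat_lit 5) (nat_lit 258) (nat_lit 5) (nat_lit 297) (nat_lit 257) (nat_lit 226)) (XT.lf (nat_lit 0) (nat_lit 3144881479) (nat_lit 760) (nat_lit 2970730719) (nat_lit 76) (nat_lit 2426284993) (nat_lit 238) (nat_lit 5) (nat_lit 248) (nat_lit 5) (nat_lit 239) (nat_lit 5) (nat_lit 298) (nat_lit 257) (nat_lit 225)))) (XT.nd (nat_lit 78) (nat_lit 1368) (nat_lit 0) (XT.lf (nat_lit 0) (nat_lit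 4597589862) (nat_lit 608) (nat_lit 2260354156) (nat_lit 684) (nat_lit 1806163810) (nat_lit 230) (nat_lit 5) (nat_lit 238) (nat_lit 5) (nat_lit 239) (nat_lit 5) (nat_lit 299) (nat_lit 257) (nat_lit 224)) (XT.nd (nat_lit 78) (nat_lit 608) (nat_lit 0) (XT.lf (nat_lit 0) (nat_lit 1839342137) (nat_lit 760) (nat_lit 5220052700) (nat_lit 76) (nat_lit 1730988860) (nat_lit 220) (nat_lit 5) (nat_lit 230) (nat_lit 5) (nat_lit 221) (nat_lit 5) (nat_lit 300) (nat_lit 257) (nat_lit 223)) (XT.lf (nat_lit 0) (nat_lit 2480507230) (nat_lit 608) (nat_lit 3066821926) (nat_lit 684) (nat_lit 3373404102) (nat_lit 212) (nat_lit 5) (nat_lit 220) (nat_lit 5) (nat_lit 221) (nat_lit 5) (nat_lit 301) (nat_lit 257) (nat_lit 222))))) (XT.nd (nat_lit 234) (nat_lit 2280) (nat_lit 0) (XT.nd (nat_lit 78) (nat_lit 532) (nat_lit 0) (XT.lf (nat_lit 0) (nat_lit 278537552) (nat_lit 684) (nat_lit 7714329818) (nat_lit 76) (nat_lit 1062737816)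 (nat_lit 203) (nat_lit 5) (nat_lit 212) (nat_lit 5) (nat_lit 204) (nat_lit 5) (nat_lit 302) (nat_lit 257) (nat_lit 221)) (XT.nd (nat_lit 78) (nat_lit 0) (nat_lit 0) (XT.lf (nat_lit 0) (nat_lit 112597584) (nat_lit 532) (nat_lit 3868366791) (nat_lit 608) (nat_lit 5213449189) (nat_lit 196) (nat_lit 5) (nat_lit 203) (nat_lit 5) (nat_lit 204) (nat_lit 5) (nat_lit 303) (nat_lit 257) (nat_lit 220)) (XT.lf (nat_lit 0) (nat_lit 7772439855) (nat_lit 608) (nat_lit 1155406070) (nat_lit 76) (nat_lit 410050090) (nat_lit 196) (nat_lit 5) (nat_lit 204) (nat_lit 5) (nat_lit 197) (nat_lit 5) (nat_lit 304) (nat_lit 257) (nat_lit 219)))) (XT.nd (nat_lit 156) (nat_lit 1064) (nat_lit 0) (XT.nd (nat_lit 78) (nat_lit 532) (nat_lit 0) (XT.lf (nat_lit 0) (nat_lit 2159467733) (nat_lit 684) (nat_lit 2518924789) (nat_lit 76) (nat_lit 4807146996) (nat_lit 187) (nat_lit 5) (nat_lit 196) (nat_lit 5) (nat_lit 188) (nat_lit 5)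 (nat_lit 305) (nat_lit 257) (nat_lit 218)) (XT.lf (nat_lit 0) (nat_lit 5681742614) (nat_lit 532) (nat_lit 264189267) (nat_lit 608) (nat_lit 3692116352) (nat_lit 180) (nat_lit 5) (nat_lit 187) (nat_lit 5) (nat_lit 188) (nat_lit 5) (nat_lit 306) (nat_lit 257) (nat_lit 217))) (XT.nd (nat_lit 78) (nat_lit 456) (nat_lit 0) (XT.lf (nat_lit 0) (nat_lit 50664508) (nat_lit 608) (nat_lit 5491655685) (nat_lit 76) (nat_lit 4252856928) (nat_lit 172) (nat_lit 5) (nat_lit 180) (nat_lit 5) (nat_lit 173) (nat_lit 5) (nat_lit 307) (nat_lit 257) (nat_lit 216)) (XT.lf (nat_lit 0) (nat_lit 2826966648) (nat_lit 456) (nat_lit 1004583332) (nat_lit 532) (nat_lit 6125521361) (nat_lit 166) (nat_lit 5) (nat_lit 172) (nat_lit 5) (nat_lit 173) (nat_lit 5) (nat_lit 308) (nat_lit 257) (nat_lit 215))))))))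
noncomputable def xc46 : XT := (XT.nd (nat_lit 2028) (nat_lit 3116) (nat_lit 0) (XT.nd (nat_lit 1014) (nat_lit 3268) (nat_lit 0) (XT.nd (nat_lit 468) (nat_lit 1976) (nat_lit 0) (XT.nd (nat_lit 234) (nat_lit 1444) (nat_lit 0) (XT.nd (nat_lit 78) (nat_lit 532) (nat_lit 0) (XT.lf (nat_lit 0) (nat_lit 1247418723) (nat_lit 532) (nat_lit 6477769024) (nat_lit 608) (nat_lit 2398705617) (nat_lit 159) (nat_lit 5) (nat_lit 166) (nat_lit 5) (nat_lit 167) (nat_lit 5) (nat_lit 309) (nat_lit 257) (nat_lit 214)) (XT.nd (nat_lit 78) (nat_lit 456) (nat_lit 0) (XT.lf (nat_lit 0) (nat_lit 1407270067) (nat_lit 608) (nat_lit 428865334) (nat_lit 76) (nat_lit 8459727586) (nat_lit 158) (nat_lit 5) (nat_lit 166) (nat_lit 5) (nat_lit 159) (nat_lit 5) (nat_lit 310) (nat_lit 257) (nat_lit 213)) (XT.lf (nat_lit 0) (nat_lit 5301092377) (nat_lit 532) (nat_lit 2216684892) (nat_lit 76) (nat_lit 2954825321) (nat_lit 152) (nat_lit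 5) (nat_lit 159) (nat_lit 5) (nat_lit 153) (nat_lit 5) (nat_lit 311) (nat_lit 257) (nat_lit 212)))) (XT.nd (nat_lit 78) (nat_lit 988) (nat_lit 0) (XT.lf (nat_lit 0) (nat_lit 6537262725) (nat_lit 456) (nat_lit 2766259712) (nat_lit 532) (nat_lit 1351337663) (nat_lit 146) (nat_lit 5) (nat_lit 152) (nat_lit 5) (nat_lit 153) (nat_lit 5) (nat_lit 312) (nat_lit 257) (nat_lit 211)) (XT.nd (nat_lit 78) (nat_lit 456) (nat_lit 0) (XT.lf (nat_lit 0) (nat_lit 2544280796) (nat_lit 532) (nat_lit 6158307613) (nat_lit 76) (nat_lit 2139816094) (nat_lit 139) (nat_lit 5) (nat_lit 146) (nat_lit 5) (nat_lit 140) (nat_lit 5) (nat_lit 313) (nat_lit 257) (nat_lit 210)) (XT.lf (nat_lit 0) (nat_lit 2690838598) (nat_lit 456) (nat_lit 3847930129) (nat_lit 532) (nat_lit 4496668325) (nat_lit 133) (nat_lit 5) (nat_lit 139) (nat_lit 5) (nat_lit 140) (nat_lit 5) (nat_lit 314) (nat_lit 257) (nat_lit 209))))) (XT.nd (nat_lit 234)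 (nat_lit 1140) (nat_lit 0) (XT.nd (nat_lit 78) (nat_lit 456) (nat_lit 0) (XT.lf (nat_lit 0) (nat_lit 568392775) (nat_lit 380) (nat_lit 10075217629) (nat_lit 456) (nat_lit 590886066) (nat_lit 128) (nat_lit 5) (nat_lit 133) (nat_lit 5) (nat_lit 134) (nat_lit 5) (nat_lit 315) (nat_lit 257) (nat_lit 208)) (XT.nd (nat_lit 78) (nat_lit 380) (nat_lit 0) (XT.lf (nat_lit 0) (nat_lit 3407864548) (nat_lit 456) (nat_lit 1710868230) (nat_lit 76) (nat_lit 6319977137) (nat_lit 127) (nat_lit 5) (nat_lit 133) (nat_lit 5) (nat_lit 128) (nat_lit 5) (nat_lit 316) (nat_lit 257) (nat_lit 207)) (XT.lf (nat_lit 0) (nat_lit 7507499343) (nat_lit 456) (nat_lit 4126139787) (nat_lit 76) (nat_lit 15596293) (nat_lit 122) (nat_lit 5) (nat_lit 128) (nat_lit 5) (nat_lit 123) (nat_lit 5) (nat_lit 317) (nat_lit 257) (nat_lit 206)))) (XT.nd (nat_lit 156) (nat_lit 304) (nat_lit 0) (XT.nd (nat_lit 78) (nat_lit 456) (nat_lit 0) (XT.lf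 (nat_lit 0) (nat_lit 5140533954) (nat_lit 380) (nat_lit 6609872781) (nat_lit 456) (nat_lit 115305810) (nat_lit 117) (nat_lit 5) (nat_lit 122) (nat_lit 5) (nat_lit 123) (nat_lit 5) (nat_lit 318) (nat_lit 257) (nat_lit 205)) (XT.lf (nat_lit 0) (nat_lit 2577325205) (nat_lit 380) (nat_lit 1388355750) (nat_lit 456) (nat_lit 8122786132) (nat_lit 111) (nat_lit 5) (nat_lit 116) (nat_lit 5) (nat_lit 117) (nat_lit 5) (nat_lit 319) (nat_lit 257) (nat_lit 204))) (XT.nd (nat_lit 78) (nat_lit 304) (nat_lit 0) (XT.lf (nat_lit 0) (nat_lit 8182079741) (nat_lit 456) (nat_lit 176345391) (nat_lit 76) (nat_lit 3959211278) (nat_lit 111) (nat_lit 5) (nat_lit 117) (nat_lit 5) (nat_lit 112) (nat_lit 5) (nat_lit 320) (nat_lit 257) (nat_lit 203)) (XT.lf (nat_lit 0) (nat_lit 9472537077) (nat_lit 304) (nat_lit 3067648921) (nat_lit 380) (nat_lit 13227755) (nat_lit 107) (nat_lit 5) (nat_lit 111) (nat_lit 5) (nat_lit 112) (nat_lit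 5) (nat_lit 321) (nat_lit 257) (nat_lit 202)))))) (XT.nd (nat_lit 468) (nat_lit 1520) (nat_lit 0) (XT.nd (nat_lit 234) (nat_lit 684) (nat_lit 0) (XT.nd (nat_lit 78) (nat_lit 608) (nat_lit 0) (XT.lf (nat_lit 0) (nat_lit 4182191048) (nat_lit 456) (nat_lit 6216025528) (nat_lit 76) (nat_lit 2397434990) (nat_lit 101) (nat_lit 5) (nat_lit 107) (nat_lit 5) (nat_lit 102) (nat_lit 5) (nat_lit 322) (nat_lit 257) (nat_lit 201)) (XT.nd (nat_lit 78) (nat_lit 304) (nat_lit 0) (XT.lf (nat_lit 0) (nat_lit 3472171529) (nat_lit 304) (nat_lit 5041250807) (nat_lit 380) (nat_lit 4531564260) (nat_lit 97) (nat_lit 5) (nat_lit 101) (nat_lit 5) (nat_lit 102) (nat_lit 5) (nat_lit 323) (nat_lit 257) (nat_lit 200)) (XT.lf (nat_lit 0) (nat_lit 154163745) (nat_lit 304) (nat_lit 12813869288) (nat_lit 380) (nat_lit 333933216) (nat_lit 93) (nat_lit 5) (nat_lit 97) (nat_lit 5) (nat_lit 98) (nat_lit 5) (nat_lit 324) (nat_lit 257)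 (nat_lit 199)))) (XT.nd (nat_lit 78) (nat_lit 608) (nat_lit 0) (XT.lf (nat_lit 0) (nat_lit 3983920860) (nat_lit 380) (nat_lit 3400481117) (nat_lit 76) (nat_lit 6180834687) (nat_lit 92) (nat_lit 5) (nat_lit 97) (nat_lit 5) (nat_lit 93) (nat_lit 5) (nat_lit 325) (nat_lit 257) (nat_lit 198)) (XT.nd (nat_lit 78) (nat_lit 304) (nat_lit 0) (XT.lf (nat_lit 0) (nat_lit 6647448708) (nat_lit 304) (nat_lit 1771644191) (nat_lit 380) (nat_lit 5417452648) (nat_lit 88) (nat_lit 5) (nat_lit 92) (nat_lit 5) (nat_lit 93) (nat_lit 5) (nat_lit 326) (nat_lit 257) (nat_lit 197)) (XT.lf (nat_lit 0) (nat_lit 2862815135) (nat_lit 304) (nat_lit 10142278355) (nat_lit 380) (nat_lit 1110574725) (nat_lit 84) (nat_lit 5) (nat_lit 88) (nat_lit 5) (nat_lit 89) (nat_lit 5) (nat_lit 327) (nat_lit 257) (nat_lit 196))))) (XT.nd (nat_lit 234) (nat_lit 912) (nat_lit 0) (XT.nd (nat_lit 78) (nat_lit 532) (nat_lit 0) (XT.lf (nat_lit 0)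 (nat_lit 3293355283) (nat_lit 380) (nat_lit 1197084557) (nat_lit 76) (nat_lit 9912092228) (nat_lit 83) (nat_lit 5) (nat_lit 88) (nat_lit 5) (nat_lit 84) (nat_lit 5) (nat_lit 328) (nat_lit 257) (nat_lit 195)) (XT.nd (nat_lit 78) (nat_lit 304) (nat_lit 0) (XT.lf (nat_lit 0) (nat_lit 7835066992) (nat_lit 304) (nat_lit 5506590486) (nat_lit 76) (nat_lit 1355810210) (nat_lit 80) (nat_lit 5) (nat_lit 84) (nat_lit 5) (nat_lit 81) (nat_lit 5) (nat_lit 329) (nat_lit 257) (nat_lit 194)) (XT.lf (nat_lit 0) (nat_lit 4866290392) (nat_lit 304) (nat_lit 7669306744) (nat_lit 380) (nat_lit 2465229801) (nat_lit 76) (nat_lit 5) (nat_lit 80) (nat_lit 5) (nat_lit 81) (nat_lit 5) (nat_lit 330) (nat_lit 257) (nat_lit 193)))) (XT.nd (nat_lit 156) (nat_lit 608) (nat_lit 0) (XT.nd (nat_lit 78) (nat_lit 0) (nat_lit 0) (XT.lf (nat_lit 0) (nat_lit 229879236) (nat_lit 228) (nat_lit 1799315202) (nat_lit 304) (nat_lit 13284002014)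 (nat_lit 72) (nat_lit 5) (nat_lit 75) (nat_lit 5) (nat_lit 76) (nat_lit 5) (nat_lit 331) (nat_lit 257) (nat_lit 192)) (XT.lf (nat_lit 0) (nat_lit 6675931318) (nat_lit 304) (nat_lit 4706401035) (nat_lit 76) (nat_lit 4251284205) (nat_lit 72) (nat_lit 5) (nat_lit 76) (nat_lit 5) (nat_lit 73) (nat_lit 5) (nat_lit 332) (nat_lit 257) (nat_lit 191))) (XT.nd (nat_lit 78) (nat_lit 304) (nat_lit 0) (XT.lf (nat_lit 0) (nat_lit 5978023410) (nat_lit 304) (nat_lit 5490309796) (nat_lit 380) (nat_lit 4495214940) (nat_lit 68) (nat_lit 5) (nat_lit 72) (nat_lit 5) (nat_lit 73) (nat_lit 5) (nat_lit 333) (nat_lit 257) (nat_lit 190)) (XT.lf (nat_lit 0) (nat_lit 96132013) (nat_lit 304) (nat_lit 15624258740) (nat_lit 76) (nat_lit 583070194) (nat_lit 64) (nat_lit 5) (nat_lit 68) (nat_lit 5) (nat_lit 65) (nat_lit 5) (nat_lit 334) (nat_lit 257) (nat_lit 189))))))) (XT.nd (nat_lit 1014) (nat_lit 1368) (nat_lit 0) (XT.nd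 (nat_lit 468) (nat_lit 988) (nat_lit 0) (XT.nd (nat_lit 234) (nat_lit 532) (nat_lit 0) (XT.nd (nat_lit 78) (nat_lit 228) (nat_lit 0) (XT.lf (nat_lit 0) (nat_lit 4825952659) (nat_lit 304) (nat_lit 4988120704) (nat_lit 76) (nat_lit 6837689696) (nat_lit 64) (nat_lit 5) (nat_lit 68) (nat_lit 5) (nat_lit 65) (nat_lit 5) (nat_lit 335) (nat_lit 257) (nat_lit 188)) (XT.nd (nat_lit 78) (nat_lit 0) (nat_lit 0) (XT.lf (nat_lit 0) (nat_lit 5978292779) (nat_lit 228) (nat_lit 3716081629) (nat_lit 304) (nat_lit 7316227353) (nat_lit 61) (nat_lit 5) (nat_lit 64) (nat_lit 5) (nat_lit 65) (nat_lit 5) (nat_lit 336) (nat_lit 257) (nat_lit 187)) (XT.lf (nat_lit 0) (nat_lit 14718053923) (nat_lit 304) (nat_lit 121240050) (nat_lit 76) (nat_lit 2540748575) (nat_lit 61) (nat_lit 5) (nat_lit 65) (nat_lit 5) (nat_lit 62) (nat_lit 5) (nat_lit 337) (nat_lit 257) (nat_lit 186)))) (XT.nd (nat_lit 78) (nat_lit 228) (nat_lit 0)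 (XT.lf (nat_lit 0) (nat_lit 2161411024) (nat_lit 304) (nat_lit 6599670065) (nat_lit 76) (nat_lit 8998078777) (nat_lit 57) (nat_lit 5) (nat_lit 61) (nat_lit 5) (nat_lit 58) (nat_lit 5) (nat_lit 338) (nat_lit 257) (nat_lit 185)) (XT.nd (nat_lit 78) (nat_lit 0) (nat_lit 0) (XT.lf (nat_lit 0) (nat_lit 4608946019) (nat_lit 228) (nat_lit 2475570816) (nat_lit 304) (nat_lit 11064977981) (nat_lit 54) (nat_lit 5) (nat_lit 57) (nat_lit 5) (nat_lit 58) (nat_lit 5) (nat_lit 339) (nat_lit 257) (nat_lit 184)) (XT.lf (nat_lit 0) (nat_lit 12187097190) (nat_lit 304) (nat_lit 2396703073) (nat_lit 76) (nat_lit 3967122787) (nat_lit 54) (nat_lit 5) (nat_lit 58) (nat_lit 5) (nat_lit 55) (nat_lit 5) (nat_lit 340) (nat_lit 257) (nat_lit 183))))) (XT.nd (nat_lit 234) (nat_lit 456) (nat_lit 0) (XT.nd (nat_lit 78) (nat_lit 304) (nat_lit 0) (XT.lf (nat_lit 0) (nat_lit 9122449732) (nat_lit 228) (nat_lit 8358033931) (nat_lit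 304) (nat_lit 1483174210) (nat_lit 51) (nat_lit 5) (nat_lit 54) (nat_lit 5) (nat_lit 55) (nat_lit 5) (nat_lit 341) (nat_lit 257) (nat_lit 182)) (XT.nd (nat_lit 78) (nat_lit 0) (nat_lit 0) (XT.lf (nat_lit 0) (nat_lit 1567367649) (nat_lit 228) (nat_lit 1918966660) (nat_lit 304) (nat_lit 15902219353) (nat_lit 47) (nat_lit 5) (nat_lit 50) (nat_lit 5) (nat_lit 51) (nat_lit 5) (nat_lit 342) (nat_lit 257) (nat_lit 181)) (XT.lf (nat_lit 0) (nat_lit 8645562324) (nat_lit 304) (nat_lit 6474122966) (nat_lit 76) (nat_lit 4705116190) (nat_lit 47) (nat_lit 5) (nat_lit 51) (nat_lit 5) (nat_lit 48) (nat_lit 5) (nat_lit 343) (nat_lit 257) (nat_lit 180)))) (XT.nd (nat_lit 156) (nat_lit 304) (nat_lit 0) (XT.nd (nat_lit 78) (nat_lit 0) (nat_lit 0) (XT.lf (nat_lit 0) (nat_lit 5209417031) (nat_lit 152) (nat_lit 8760824987) (nat_lit 228) (nat_lit 6303697649) (nat_lit 45) (nat_lit 5) (nat_lit 47) (nat_lit 5) (nat_lit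 48) (nat_lit 5) (nat_lit 344) (nat_lit 257) (nat_lit 179)) (XT.lf (nat_lit 0) (nat_lit 17273621733) (nat_lit 152) (nat_lit 2189598373) (nat_lit 228) (nat_lit 1273176688) (nat_lit 45) (nat_lit 5) (nat_lit 47) (nat_lit 5) (nat_lit 48) (nat_lit 5) (nat_lit 345) (nat_lit 257) (nat_lit 178))) (XT.nd (nat_lit 78) (nat_lit 0) (nat_lit 0) (XT.lf (nat_lit 0) (nat_lit 3907883271) (nat_lit 304) (nat_lit 12725826575) (nat_lit 76) (nat_lit 4577507855) (nat_lit 41) (nat_lit 5) (nat_lit 45) (nat_lit 5) (nat_lit 42) (nat_lit 5) (nat_lit 346) (nat_lit 257) (nat_lit 177)) (XT.lf (nat_lit 0) (nat_lit 9231407236) (nat_lit 304) (nat_lit 940575156) (nat_lit 76) (nat_lit 11528060677) (nat_lit 41) (nat_lit 5) (nat_lit 45) (nat_lit 5) (nat_lit 42) (nat_lit 5) (nat_lit 347) (nat_lit 257) (nat_lit 176)))))) (XT.nd (nat_lit 468) (nat_lit 608) (nat_lit 0) (XT.nd (nat_lit 234) (nat_lit 304) (nat_lit 0) (XT.nd (nat_lit 78)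 (nat_lit 304) (nat_lit 0) (XT.lf (nat_lit 0) (nat_lit 11291124739) (nat_lit 152) (nat_lit 3463780891) (nat_lit 228) (nat_lit 7447836508) (nat_lit 39) (nat_lit 5) (nat_lit 41) (nat_lit 5) (nat_lit 42) (nat_lit 5) (nat_lit 348) (nat_lit 257) (nat_lit 175)) (XT.nd (nat_lit 78) (nat_lit 76) (nat_lit 0) (XT.lf (nat_lit 0) (nat_lit 1119707801) (nat_lit 228) (nat_lit 19327885529) (nat_lit 304) (nat_lit 2272873059) (nat_lit 36) (nat_lit 5) (nat_lit 39) (nat_lit 5) (nat_lit 40) (nat_lit 5) (nat_lit 349) (nat_lit 257) (nat_lit 174)) (XT.lf (nat_lit 0) (nat_lit 3082636394) (nat_lit 304) (nat_lit 9688785675) (nat_lit 76) (nat_lit 10480608626) (nat_lit 35) (nat_lit 5) (nat_lit 39) (nat_lit 5) (nat_lit 36) (nat_lit 5) (nat_lit 350) (nat_lit 257) (nat_lit 173)))) (XT.nd (nat_lit 78) (nat_lit 152) (nat_lit 0) (XT.lf (nat_lit 0) (nat_lit 2545949894) (nat_lit 152) (nat_lit 6007426248) (nat_lit 228) (nat_lit 15246169269)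 (nat_lit 33) (nat_lit 5) (nat_lit 35) (nat_lit 5) (nat_lit 36) (nat_lit 5) (nat_lit 351) (nat_lit 257) (nat_lit 172)) (XT.nd (nat_lit 78) (nat_lit 152) (nat_lit 0) (XT.lf (nat_lit 0) (nat_lit 14229730661) (nat_lit 228) (nat_lit 9140907070) (nat_lit 76) (nat_lit 992030454) (nat_lit 33) (nat_lit 5) (nat_lit 36) (nat_lit 5) (nat_lit 34) (nat_lit 5) (nat_lit 352) (nat_lit 257) (nat_lit 171)) (XT.lf (nat_lit 0) (nat_lit 3287207494) (nat_lit 152) (nat_lit 16820757088) (nat_lit 228) (nat_lit 4834100388) (nat_lit 31) (nat_lit 5) (nat_lit 33) (nat_lit 5) (nat_lit 34) (nat_lit 5) (nat_lit 353) (nat_lit 257) (nat_lit 170))))) (XT.nd (nat_lit 234) (nat_lit 380) (nat_lit 0) (XT.nd (nat_lit 78) (nat_lit 152) (nat_lit 0) (XT.lf (nat_lit 0) (nat_lit 648285950) (nat_lit 228) (nat_lit 9379248437) (nat_lit 76) (nat_lit 15510584523) (nat_lit 30) (nat_lit 5) (nat_lit 33) (nat_lit 5) (nat_lit 31) (nat_lit 5) (nat_lit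 354) (nat_lit 257) (nat_lit 169)) (XT.nd (nat_lit 78) (nat_lit 0) (nat_lit 0) (XT.lf (nat_lit 0) (nat_lit 3225603933) (nat_lit 152) (nat_lit 2996454554) (nat_lit 228) (nat_lit 19929516277) (nat_lit 28) (nat_lit 5) (nat_lit 30) (nat_lit 5) (nat_lit 31) (nat_lit 5) (nat_lit 355) (nat_lit 257) (nat_lit 168)) (XT.lf (nat_lit 0) (nat_lit 12026254594) (nat_lit 228) (nat_lit 10521814113) (nat_lit 76) (nat_lit 4234112240) (nat_lit 28) (nat_lit 5) (nat_lit 31) (nat_lit 5) (nat_lit 29) (nat_lit 5) (nat_lit 356) (nat_lit 257) (nat_lit 167)))) (XT.nd (nat_lit 156) (nat_lit 228) (nat_lit 0) (XT.nd (nat_lit 78) (nat_lit 0) (nat_lit 0) (XT.lf (nat_lit 0) (nat_lit 2216260804) (nat_lit 152) (nat_lit 15795236805) (nat_lit 228) (nat_lit 9420079830) (nat_lit 26) (nat_lit 5) (nat_lit 28) (nat_lit 5) (nat_lit 29) (nat_lit 5) (nat_lit 357) (nat_lit 257) (nat_lit 166)) (XT.lf (nat_lit 0) (nat_lit 15434034004) (nat_lit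 152) (nat_lit 8786555491) (nat_lit 228) (nat_lit 3878990736) (nat_lit 26) (nat_lit 5) (nat_lit 28) (nat_lit 5) (nat_lit 29) (nat_lit 5) (nat_lit 358) (nat_lit 257) (nat_lit 165))) (XT.nd (nat_lit 78) (nat_lit 0) (nat_lit 0) (XT.lf (nat_lit 0) (nat_lit 206073830) (nat_lit 152) (nat_lit 1573211892) (nat_lit 228) (nat_lit 27008611043) (nat_lit 23) (nat_lit 5) (nat_lit 25) (nat_lit 5) (nat_lit 26) (nat_lit 5) (nat_lit 359) (nat_lit 257) (nat_lit 164)) (XT.lf (nat_lit 0) (nat_lit 7653281288) (nat_lit 228) (nat_lit 15967612667) (nat_lit 76) (nat_lit 5873492075) (nat_lit 23) (nat_lit 5) (nat_lit 26) (nat_lit 5) (nat_lit 24) (nat_lit 5) (nat_lit 360) (nat_lit 257) (nat_lit 163))))))))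
noncomputable def xc47 : XT := (XT.nd (nat_lit 35022) (nat_lit 0) (nat_lit 8360) (XT.nd (nat_lit 34008) (nat_lit 0) (nat_lit 23636) (XT.nd (nat_lit 33462) (nat_lit 0) (nat_lit 38380) (XT.nd (nat_lit 33228) (nat_lit 0) (nat_lit 42560) (XT.nd (nat_lit 33072) (nat_lit 0) (nat_lit 43396) (XT.lf (nat_lit 0) (nat_lit 13688728232) (nat_lit 228) (nat_lit 3029325469) (nat_lit 76) (nat_lit 13504320825) (nat_lit 23) (nat_lit 5) (nat_lit 26) (nat_lit 5) (nat_lit 24) (nat_lit 5) (nat_lit 361) (nat_lit 257) (nat_lit 162)) (XT.nd (nat_lit 78) (nat_lit 304) (nat_lit 0) (XT.lf (nat_lit 0) (nat_lit 1343693007) (nat_lit 228) (nat_lit 542679090) (nat_lit 0) (nat_lit 1343693007) (nat_lit 598) (nat_lit 5) (nat_lit 601) (nat_lit 4) (nat_lit 598) (nat_lit 4) (nat_lit 264) (nat_lit 258) (nat_lit 258)) (XT.lf (nat_lit 0) (nat_lit 590663647) (nat_lit 304) (nat_lit 2751813311) (nat_lit 76) (nat_lit 3128170238) (nat_lit 594)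 (nat_lit 5) (nat_lit 598) (nat_lit 5) (nat_lit 595) (nat_lit 4) (nat_lit 265) (nat_lit 258) (nat_lit 257)))) (XT.nd (nat_lit 78) (nat_lit 532) (nat_lit 0) (XT.lf (nat_lit 0) (nat_lit 2106736801) (nat_lit 304) (nat_lit 2785215173) (nat_lit 380) (nat_lit 1592165812) (nat_lit 590) (nat_lit 5) (nat_lit 594) (nat_lit 5) (nat_lit 595) (nat_lit 4) (nat_lit 266) (nat_lit 258) (nat_lit 256)) (XT.nd (nat_lit 78) (nat_lit 76) (nat_lit 0) (XT.lf (nat_lit 0) (nat_lit 542600691) (nat_lit 380) (nat_lit 2106594072) (nat_lit 456) (nat_lit 3851479029) (nat_lit 584) (nat_lit 5) (nat_lit 589) (nat_lit 5) (nat_lit 590) (nat_lit 5) (nat_lit 267) (nat_lit 258) (nat_lit 255)) (XT.lf (nat_lit 0) (nat_lit 344679269) (nat_lit 456) (nat_lit 958852806) (nat_lit 76) (nat_lit 5216748810) (nat_lit 583) (nat_lit 5) (nat_lit 589) (nat_lit 5) (nat_lit 584) (nat_lit 5) (nat_lit 268) (nat_lit 258) (nat_lit 254))))) (XT.nd (nat_lit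 234) (nat_lit 2508) (nat_lit 0) (XT.nd (nat_lit 78) (nat_lit 1216) (nat_lit 0) (XT.lf (nat_lit 0) (nat_lit 4123583941) (nat_lit 456) (nat_lit 364869020) (nat_lit 532) (nat_lit 2054298169) (nat_lit 577) (nat_lit 5) (nat_lit 583) (nat_lit 5) (nat_lit 584) (nat_lit 5) (nat_lit 269) (nat_lit 258) (nat_lit 253)) (XT.nd (nat_lit 78) (nat_lit 608) (nat_lit 0) (XT.lf (nat_lit 0) (nat_lit 2040300736) (nat_lit 608) (nat_lit 3841285029) (nat_lit 76) (nat_lit 686709983) (nat_lit 569) (nat_lit 5) (nat_lit 577) (nat_lit 5) (nat_lit 570) (nat_lit 5) (nat_lit 270) (nat_lit 258) (nat_lit 252)) (XT.lf (nat_lit 0) (nat_lit 1370336923) (nat_lit 608) (nat_lit 4741191039) (nat_lit 684) (nat_lit 485418279) (nat_lit 561) (nat_lit 5) (nat_lit 569) (nat_lit 5) (nat_lit 570) (nat_lit 5) (nat_lit 271) (nat_lit 258) (nat_lit 251)))) (XT.nd (nat_lit 156) (nat_lit 1672) (nat_lit 0) (XT.nd (nat_lit 78) (nat_lit 76) (nat_lit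 0) (XT.lf (nat_lit 0) (nat_lit 43146013) (nat_lit 684) (nat_lit 3469688063) (nat_lit 760) (nat_lit 3115724996) (nat_lit 551) (nat_lit 5) (nat_lit 560) (nat_lit 5) (nat_lit 561) (nat_lit 5) (nat_lit 272) (nat_lit 258) (nat_lit 250)) (XT.lf (nat_lit 0) (nat_lit 844984462) (nat_lit 760) (nat_lit 1226412894) (nat_lit 76) (nat_lit 4591871007) (nat_lit 550) (nat_lit 5) (nat_lit 560) (nat_lit 5) (nat_lit 551) (nat_lit 5) (nat_lit 273) (nat_lit 258) (nat_lit 249))) (XT.nd (nat_lit 78) (nat_lit 912) (nat_lit 0) (XT.lf (nat_lit 0) (nat_lit 4232080707) (nat_lit 760) (nat_lit 540510544) (nat_lit 836) (nat_lit 1928423259) (nat_lit 540) (nat_lit 5) (nat_lit 550) (nat_lit 5) (nat_lit 551) (nat_lit 5) (nat_lit 274) (nat_lit 258) (nat_lit 248)) (XT.lf (nat_lit 0) (nat_lit 1951358094) (nat_lit 912) (nat_lit 3687611811) (nat_lit 76) (nat_lit 1102848907) (nat_lit 528) (nat_lit 5) (nat_lit 540) (nat_lit 5) (nat_lit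 529) (nat_lit 5) (nat_lit 275) (nat_lit 258) (nat_lit 247)))))) (XT.nd (nat_lit 468) (nat_lit 9196) (nat_lit 0) (XT.nd (nat_lit 234) (nat_lit 3572) (nat_lit 0) (XT.nd (nat_lit 78) (nat_lit 1064) (nat_lit 0) (XT.lf (nat_lit 0) (nat_lit 1903774492) (nat_lit 912) (nat_lit 3919061489) (nat_lit 988) (nat_lit 962925515) (nat_lit 516) (nat_lit 5) (nat_lit 528) (nat_lit 5) (nat_lit 529) (nat_lit 5) (nat_lit 276) (nat_lit 258) (nat_lit 246)) (XT.nd (nat_lit 78) (nat_lit 0) (nat_lit 0) (XT.lf (nat_lit 0) (nat_lit 775298057) (nat_lit 988) (nat_lit 2065950108) (nat_lit 1064) (nat_lit 3991559289) (nat_lit 502) (nat_lit 5) (nat_lit 515) (nat_lit 5) (nat_lit 516) (nat_lit 5) (nat_lit 277) (nat_lit 258) (nat_lit 245)) (XT.lf (nat_lit 0) (nat_lit 6565978975) (nat_lit 988) (nat_lit 87439053) (nat_lit 1064) (nat_lit 229764523) (nat_lit 502) (nat_lit 5) (nat_lit 515) (nat_lit 5) (nat_lit 516) (nat_lit 5) (nat_lit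 278) (nat_lit 258) (nat_lit 244)))) (XT.nd (nat_lit 78) (nat_lit 2432) (nat_lit 0) (XT.lf (nat_lit 0) (nat_lit 3522873081) (nat_lit 1140) (nat_lit 1400964448) (nat_lit 76) (nat_lit 2012417483) (nat_lit 487) (nat_lit 5) (nat_lit 502) (nat_lit 5) (nat_lit 488) (nat_lit 5) (nat_lit 279) (nat_lit 258) (nat_lit 243)) (XT.nd (nat_lit 78) (nat_lit 1216) (nat_lit 0) (XT.lf (nat_lit 0) (nat_lit 300068397) (nat_lit 1216) (nat_lit 2457422557) (nat_lit 76) (nat_lit 4235290804) (nat_lit 471) (nat_lit 5) (nat_lit 487) (nat_lit 5) (nat_lit 472) (nat_lit 5) (nat_lit 280) (nat_lit 258) (nat_lit 242)) (XT.lf (nat_lit 0) (nat_lit 3544745942) (nat_lit 1216) (nat_lit 448265749) (nat_lit 1292) (nat_lit 3059414046) (nat_lit 455) (nat_lit 5) (nat_lit 471) (nat_lit 5) (nat_lit 472) (nat_lit 5) (nat_lit 281) (nat_lit 258) (nat_lit 241))))) (XT.nd (nat_lit 234) (nat_lit 4940) (nat_lit 0) (XT.nd (nat_lit 78) (nat_lit 2888)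 (nat_lit 0) (XT.lf (nat_lit 0) (nat_lit 603882497) (nat_lit 1368) (nat_lit 4549235856) (nat_lit 76) (nat_lit 1962207077) (nat_lit 437) (nat_lit 5) (nat_lit 455) (nat_lit 5) (nat_lit 438) (nat_lit 5) (nat_lit 282) (nat_lit 258) (nat_lit 240)) (XT.nd (nat_lit 78) (nat_lit 1520) (nat_lit 0) (XT.lf (nat_lit 0) (nat_lit 1589598814) (nat_lit 1368) (nat_lit 2669821663) (nat_lit 1444) (nat_lit 2921958690) (nat_lit 419) (nat_lit 5) (nat_lit 437) (nat_lit 5) (nat_lit 438) (nat_lit 5) (nat_lit 283) (nat_lit 258) (nat_lit 239)) (XT.lf (nat_lit 0) (nat_lit 630989667) (nat_lit 1444) (nat_lit 57411118) (nat_lit 1520) (nat_lit 6562588372) (nat_lit 399) (nat_lit 5) (nat_lit 418) (nat_lit 5) (nat_lit 419) (nat_lit 5) (nat_lit 284) (nat_lit 258) (nat_lit 238)))) (XT.nd (nat_lit 156) (nat_lit 3344) (nat_lit 0) (XT.nd (nat_lit 78) (nat_lit 1596) (nat_lit 0) (XT.lf (nat_lit 0) (nat_lit 4313779905) (nat_lit 1520) (nat_lit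 340765533) (nat_lit 76) (nat_lit 2668965899) (nat_lit 399) (nat_lit 5) (nat_lit 419) (nat_lit 5) (nat_lit 400) (nat_lit 5) (nat_lit 285) (nat_lit 258) (nat_lit 237)) (XT.lf (nat_lit 0) (nat_lit 574796206) (nat_lit 1596) (nat_lit 1292888448) (nat_lit 76) (nat_lit 5531899689) (nat_lit 378) (nat_lit 5) (nat_lit 399) (nat_lit 5) (nat_lit 379) (nat_lit 5) (nat_lit 286) (nat_lit 258) (nat_lit 236))) (XT.nd (nat_lit 78) (nat_lit 1748) (nat_lit 0) (XT.lf (nat_lit 0) (nat_lit 4165173624) (nat_lit 1672) (nat_lit 2259206332) (nat_lit 76) (nat_lit 1054505420) (nat_lit 357) (nat_lit 5) (nat_lit 379) (nat_lit 5) (nat_lit 358) (nat_lit 5) (nat_lit 287) (nat_lit 258) (nat_lit 235)) (XT.lf (nat_lit 0) (nat_lit 245940990) (nat_lit 1748) (nat_lit 3230803636) (nat_lit 76) (nat_lit 4084958888) (nat_lit 334) (nat_lit 5) (nat_lit 357) (nat_lit 5) (nat_lit 335) (nat_lit 5) (nat_lit 288) (nat_lit 258) (nat_lit 234)))))))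 (XT.nd (nat_lit 1014) (nat_lit 6612) (nat_lit 0) (XT.nd (nat_lit 468) (nat_lit 4332) (nat_lit 0) (XT.nd (nat_lit 234) (nat_lit 1596) (nat_lit 0) (XT.nd (nat_lit 78) (nat_lit 1748) (nat_lit 0) (XT.lf (nat_lit 0) (nat_lit 3429109489) (nat_lit 988) (nat_lit 375997862) (nat_lit 1064) (nat_lit 3842823999) (nat_lit 321) (nat_lit 5) (nat_lit 334) (nat_lit 5) (nat_lit 335) (nat_lit 5) (nat_lit 289) (nat_lit 258) (nat_lit 233)) (XT.nd (nat_lit 78) (nat_lit 912) (nat_lit 0) (XT.lf (nat_lit 0) (nat_lit 2514209052) (nat_lit 836) (nat_lit 4915629947) (nat_lit 912) (nat_lit 307845890) (nat_lit 310) (nat_lit 5) (nat_lit 321) (nat_lit 5) (nat_lit 322) (nat_lit 5) (nat_lit 290) (nat_lit 258) (nat_lit 232)) (XT.lf (nat_lit 0) (nat_lit 1576879260) (nat_lit 836) (nat_lit 1657737932) (nat_lit 912) (nat_lit 4596287151) (nat_lit 298) (nat_lit 5) (nat_lit 309) (nat_lit 5) (nat_lit 310) (nat_lit 5) (nat_lit 291) (nat_lit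 258) (nat_lit 231)))) (XT.nd (nat_lit 78) (nat_lit 836) (nat_lit 0) (XT.lf (nat_lit 0) (nat_lit 624113575) (nat_lit 760) (nat_lit 6211590390) (nat_lit 836) (nat_lit 1092151047) (nat_lit 288) (nat_lit 5) (nat_lit 298) (nat_lit 5) (nat_lit 299) (nat_lit 5) (nat_lit 292) (nat_lit 258) (nat_lit 230)) (XT.nd (nat_lit 78) (nat_lit 760) (nat_lit 0) (XT.lf (nat_lit 0) (nat_lit 2445055698) (nat_lit 836) (nat_lit 357416307) (nat_lit 76) (nat_lit 5225797030) (nat_lit 287) (nat_lit 5) (nat_lit 298) (nat_lit 5) (nat_lit 288) (nat_lit 5) (nat_lit 293) (nat_lit 258) (nat_lit 229)) (XT.lf (nat_lit 0) (nat_lit 6032507902) (nat_lit 836) (nat_lit 1352722056) (nat_lit 76) (nat_lit 747239723) (nat_lit 277) (nat_lit 5) (nat_lit 288) (nat_lit 5) (nat_lit 278) (nat_lit 5) (nat_lit 294) (nat_lit 258) (nat_lit 228))))) (XT.nd (nat_lit 234) (nat_lit 2052) (nat_lit 0) (XT.nd (nat_lit 78) (nat_lit 1520) (nat_lit 0) (XT.lf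 (nat_lit 0) (nat_lit 1439121985) (nat_lit 760) (nat_lit 2390185474) (nat_lit 76) (nat_lit 4410971963) (nat_lit 267) (nat_lit 5) (nat_lit 277) (nat_lit 5) (nat_lit 268) (nat_lit 5) (nat_lit 295) (nat_lit 258) (nat_lit 227)) (XT.nd (nat_lit 78) (nat_lit 760) (nat_lit 0) (XT.lf (nat_lit 0) (nat_lit 4892204094) (nat_lit 760) (nat_lit 118005274) (nat_lit 836) (nat_lit 3341839742) (nat_lit 257) (nat_lit 5) (nat_lit 267) (nat_lit 5) (nat_lit 268) (nat_lit 5) (nat_lit 296) (nat_lit 258) (nat_lit 226)) (XT.lf (nat_lit 0) (nat_lit 198846802) (nat_lit 760) (nat_lit 4577573483) (nat_lit 76) (nat_lit 3691199191) (nat_lit 247) (nat_lit 5) (nat_lit 257) (nat_lit 5) (nat_lit 248) (nat_lit 5) (nat_lit 297) (nat_lit 258) (nat_lit 225)))) (XT.nd (nat_lit 156) (nat_lit 760) (nat_lit 0) (XT.nd (nat_lit 78) (nat_lit 608) (nat_lit 0) (XT.lf (nat_lit 0) (nat_lit 2841484496) (nat_lit 684) (nat_lit 918283308) (nat_lit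 760) (nat_lit 4827342662) (nat_lit 238) (nat_lit 5) (nat_lit 247) (nat_lit 5) (nat_lit 248) (nat_lit 5) (nat_lit 298) (nat_lit 258) (nat_lit 224)) (XT.lf (nat_lit 0) (nat_lit 1744830544) (nat_lit 608) (nat_lit 5663163966) (nat_lit 684) (nat_lit 1302663308) (nat_lit 230) (nat_lit 5) (nat_lit 238) (nat_lit 5) (nat_lit 239) (nat_lit 5) (nat_lit 299) (nat_lit 258) (nat_lit 223))) (XT.nd (nat_lit 78) (nat_lit 0) (nat_lit 0) (XT.lf (nat_lit 0) (nat_lit 593955054) (nat_lit 684) (nat_lit 1671723366) (nat_lit 760) (nat_lit 6572639170) (nat_lit 220) (nat_lit 5) (nat_lit 229) (nat_lit 5) (nat_lit 230) (nat_lit 5) (nat_lit 300) (nat_lit 258) (nat_lit 222)) (XT.lf (nat_lit 0) (nat_lit 5907754334) (nat_lit 760) (nat_lit 611728908) (nat_lit 76) (nat_lit 2450539095) (nat_lit 220) (nat_lit 5) (nat_lit 230) (nat_lit 5) (nat_lit 221) (nat_lit 5) (nat_lit 301) (nat_lit 258) (nat_lit 221)))))) (XT.nd (nat_lit 546)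 (nat_lit 2964) (nat_lit 0) (XT.nd (nat_lit 234) (nat_lit 1824) (nat_lit 0) (XT.nd (nat_lit 78) (nat_lit 1140) (nat_lit 0) (XT.lf (nat_lit 0) (nat_lit 527394647) (nat_lit 684) (nat_lit 1867049543) (nat_lit 76) (nat_lit 6711608823) (nat_lit 211) (nat_lit 5) (nat_lit 220) (nat_lit 5) (nat_lit 212) (nat_lit 5) (nat_lit 302) (nat_lit 258) (nat_lit 220)) (XT.nd (nat_lit 78) (nat_lit 532) (nat_lit 0) (XT.lf (nat_lit 0) (nat_lit 4163553015) (nat_lit 684) (nat_lit 3203113696) (nat_lit 76) (nat_lit 1879554205) (nat_lit 203) (nat_lit 5) (nat_lit 212) (nat_lit 5) (nat_lit 204) (nat_lit 5) (nat_lit 303) (nat_lit 258) (nat_lit 219)) (XT.lf (nat_lit 0) (nat_lit 4781677731) (nat_lit 532) (nat_lit 3112755338) (nat_lit 608) (nat_lit 1496515370) (nat_lit 196) (nat_lit 5) (nat_lit 203) (nat_lit 5) (nat_lit 204) (nat_lit 5) (nat_lit 304) (nat_lit 258) (nat_lit 218)))) (XT.nd (nat_lit 156) (nat_lit 608) (nat_lit 0)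 (XT.nd (nat_lit 78) (nat_lit 532) (nat_lit 0) (XT.lf (nat_lit 0) (nat_lit 2148050968) (nat_lit 684) (nat_lit 6098051635) (nat_lit 76) (nat_lit 1294101020) (nat_lit 187) (nat_lit 5) (nat_lit 196) (nat_lit 5) (nat_lit 188) (nat_lit 5) (nat_lit 305) (nat_lit 258) (nat_lit 217)) (XT.lf (nat_lit 0) (nat_lit 2010025361) (nat_lit 532) (nat_lit 3865339815) (nat_lit 608) (nat_lit 3818560806) (nat_lit 180) (nat_lit 5) (nat_lit 187) (nat_lit 5) (nat_lit 188) (nat_lit 5) (nat_lit 306) (nat_lit 258) (nat_lit 216))) (XT.nd (nat_lit 78) (nat_lit 76) (nat_lit 0) (XT.lf (nat_lit 0) (nat_lit 505454745) (nat_lit 532) (nat_lit 9187831852) (nat_lit 608) (nat_lit 159458059) (nat_lit 173) (nat_lit 5) (nat_lit 180) (nat_lit 5) (nat_lit 181) (nat_lit 5) (nat_lit 307) (nat_lit 258) (nat_lit 215)) (XT.lf (nat_lit 0) (nat_lit 3571010776) (nat_lit 608) (nat_lit 1108846646) (nat_lit 76) (nat_lit 5335880640) (nat_lit 172) (nat_lit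 5) (nat_lit 180) (nat_lit 5) (nat_lit 173) (nat_lit 5) (nat_lit 308) (nat_lit 258) (nat_lit 214))))) (XT.nd (nat_lit 234) (nat_lit 1444) (nat_lit 0) (XT.nd (nat_lit 78) (nat_lit 1064) (nat_lit 0) (XT.lf (nat_lit 0) (nat_lit 7385555620) (nat_lit 456) (nat_lit 6323852) (nat_lit 532) (nat_lit 2792163490) (nat_lit 166) (nat_lit 5) (nat_lit 172) (nat_lit 5) (nat_lit 173) (nat_lit 5) (nat_lit 309) (nat_lit 258) (nat_lit 213)) (XT.nd (nat_lit 78) (nat_lit 456) (nat_lit 0) (XT.lf (nat_lit 0) (nat_lit 967343855) (nat_lit 608) (nat_lit 4613566409) (nat_lit 76) (nat_lit 4776212156) (nat_lit 158) (nat_lit 5) (nat_lit 166) (nat_lit 5) (nat_lit 159) (nat_lit 5) (nat_lit 310) (nat_lit 258) (nat_lit 212)) (XT.lf (nat_lit 0) (nat_lit 3992338914) (nat_lit 456) (nat_lit 789485121) (nat_lit 532) (nat_lit 5753650240) (nat_lit 152) (nat_lit 5) (nat_lit 158) (nat_lit 5) (nat_lit 159) (nat_lit 5) (nat_lit 311) (nat_lit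 258) (nat_lit 211)))) (XT.nd (nat_lit 156) (nat_lit 456) (nat_lit 0) (XT.nd (nat_lit 78) (nat_lit 532) (nat_lit 0) (XT.lf (nat_lit 0) (nat_lit 2115522024) (nat_lit 456) (nat_lit 6603401048) (nat_lit 532) (nat_lit 2000140002) (nat_lit 146) (nat_lit 5) (nat_lit 152) (nat_lit 5) (nat_lit 153) (nat_lit 5) (nat_lit 312) (nat_lit 258) (nat_lit 210)) (XT.lf (nat_lit 0) (nat_lit 114432290) (nat_lit 456) (nat_lit 1714637227) (nat_lit 532) (nat_lit 9079144052) (nat_lit 139) (nat_lit 5) (nat_lit 145) (nat_lit 5) (nat_lit 146) (nat_lit 5) (nat_lit 313) (nat_lit 258) (nat_lit 209))) (XT.nd (nat_lit 78) (nat_lit 456) (nat_lit 0) (XT.lf (nat_lit 0) (nat_lit 5764440432) (nat_lit 532) (nat_lit 2010841434) (nat_lit 76) (nat_lit 3327169388) (nat_lit 139) (nat_lit 5) (nat_lit 146) (nat_lit 5) (nat_lit 140) (nat_lit 5) (nat_lit 314) (nat_lit 258) (nat_lit 208)) (XT.lf (nat_lit 0) (nat_lit 7033494115) (nat_lit 456)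 (nat_lit 2781372265) (nat_lit 532) (nat_lit 1487754741) (nat_lit 133) (nat_lit 5) (nat_lit 139) (nat_lit 5) (nat_lit 140) (nat_lit 5) (nat_lit 315) (nat_lit 258) (nat_lit 207))))))))
noncomputable def xc48 : XT := (XT.nd (nat_lit 2028) (nat_lit 2128) (nat_lit 0) (XT.nd (nat_lit 1014) (nat_lit 2432) (nat_lit 0) (XT.nd (nat_lit 468) (nat_lit 1824) (nat_lit 0) (XT.nd (nat_lit 234) (nat_lit 1140) (nat_lit 0) (XT.nd (nat_lit 78) (nat_lit 380) (nat_lit 0) (XT.lf (nat_lit 0) (nat_lit 2446849024) (nat_lit 456) (nat_lit 6691386881) (nat_lit 76) (nat_lit 2370254378) (nat_lit 127) (nat_lit 5) (nat_lit 133) (nat_lit 5) (nat_lit 128) (nat_lit 5) (nat_lit 316) (nat_lit 258) (nat_lit 206)) (XT.nd (nat_lit 78) (nat_lit 0) (nat_lit 0) (XT.lf (nat_lit 0) (nat_lit 2435523202) (nat_lit 380) (nat_lit 4049108381) (nat_lit 456) (nat_lit 5235641706) (nat_lit 122) (nat_lit 5) (nat_lit 127) (nat_lit 5) (nat_lit 128) (nat_lit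 5) (nat_lit 317) (nat_lit 258) (nat_lit 205)) (XT.lf (nat_lit 0) (nat_lit 10639659271) (nat_lit 456) (nat_lit 99489621) (nat_lit 76) (nat_lit 1199378970) (nat_lit 122) (nat_lit 5) (nat_lit 128) (nat_lit 5) (nat_lit 123) (nat_lit 5) (nat_lit 318) (nat_lit 258) (nat_lit 204)))) (XT.nd (nat_lit 78) (nat_lit 684) (nat_lit 0) (XT.lf (nat_lit 0) (nat_lit 2752396120) (nat_lit 456) (nat_lit 2802981448) (nat_lit 76) (nat_lit 6606982320) (nat_lit 116) (nat_lit 5) (nat_lit 122) (nat_lit 5) (nat_lit 117) (nat_lit 5) (nat_lit 319) (nat_lit 258) (nat_lit 203)) (XT.nd (nat_lit 78) (nat_lit 304) (nat_lit 0) (XT.lf (nat_lit 0) (nat_lit 6710932641) (nat_lit 380) (nat_lit 186077649) (nat_lit 456) (nat_lit 5495972964) (nat_lit 111) (nat_lit 5) (nat_lit 116) (nat_lit 5) (nat_lit 117) (nat_lit 5) (nat_lit 320) (nat_lit 258) (nat_lit 202)) (XT.lf (nat_lit 0) (nat_lit 3855678881) (nat_lit 304) (nat_lit 7335183592) (nat_lit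 380) (nat_lit 1439201023) (nat_lit 107) (nat_lit 5) (nat_lit 111) (nat_lit 5) (nat_lit 112) (nat_lit 5) (nat_lit 321) (nat_lit 258) (nat_lit 201))))) (XT.nd (nat_lit 234) (nat_lit 1064) (nat_lit 0) (XT.nd (nat_lit 78) (nat_lit 304) (nat_lit 0) (XT.lf (nat_lit 0) (nat_lit 796980172) (nat_lit 380) (nat_lit 1898277467) (nat_lit 456) (nat_lit 10178839036) (nat_lit 101) (nat_lit 5) (nat_lit 106) (nat_lit 5) (nat_lit 107) (nat_lit 5) (nat_lit 322) (nat_lit 258) (nat_lit 200)) (XT.nd (nat_lit 78) (nat_lit 304) (nat_lit 0) (XT.lf (nat_lit 0) (nat_lit 6965820510) (nat_lit 456) (nat_lit 2460394508) (nat_lit 76) (nat_lit 3698446519) (nat_lit 101) (nat_lit 5) (nat_lit 107) (nat_lit 5) (nat_lit 102) (nat_lit 5) (nat_lit 323) (nat_lit 258) (nat_lit 199)) (XT.lf (nat_lit 0) (nat_lit 7454492380) (nat_lit 304) (nat_lit 3920253670) (nat_lit 380) (nat_lit 2007824828) (nat_lit 97) (nat_lit 5) (nat_lit 101) (nat_lit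 5) (nat_lit 102) (nat_lit 5) (nat_lit 324) (nat_lit 258) (nat_lit 198)))) (XT.nd (nat_lit 156) (nat_lit 380) (nat_lit 0) (XT.nd (nat_lit 78) (nat_lit 304) (nat_lit 0) (XT.lf (nat_lit 0) (nat_lit 2242213650) (nat_lit 380) (nat_lit 9644122930) (nat_lit 76) (nat_lit 1761532667) (nat_lit 92) (nat_lit 5) (nat_lit 97) (nat_lit 5) (nat_lit 93) (nat_lit 5) (nat_lit 325) (nat_lit 258) (nat_lit 197)) (XT.lf (nat_lit 0) (nat_lit 283632585) (nat_lit 304) (nat_lit 6328107511) (nat_lit 380) (nat_lit 7308765718) (nat_lit 88) (nat_lit 5) (nat_lit 92) (nat_lit 5) (nat_lit 93) (nat_lit 5) (nat_lit 326) (nat_lit 258) (nat_lit 196))) (XT.nd (nat_lit 78) (nat_lit 380) (nat_lit 0) (XT.lf (nat_lit 0) (nat_lit 10567915332) (nat_lit 304) (nat_lit 561366222) (nat_lit 380) (nat_lit 3071730452) (nat_lit 88) (nat_lit 5) (nat_lit 92) (nat_lit 5) (nat_lit 93) (nat_lit 5) (nat_lit 327) (nat_lit 258) (nat_lit 195)) (XT.lf (nat_lit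 0) (nat_lit 1306577039) (nat_lit 380) (nat_lit 7846827039) (nat_lit 76) (nat_lit 5335766963) (nat_lit 83) (nat_lit 5) (nat_lit 88) (nat_lit 5) (nat_lit 84) (nat_lit 5) (nat_lit 328) (nat_lit 258) (nat_lit 194)))))) (XT.nd (nat_lit 468) (nat_lit 1292) (nat_lit 0) (XT.nd (nat_lit 234) (nat_lit 608) (nat_lit 0) (XT.nd (nat_lit 78) (nat_lit 304) (nat_lit 0) (XT.lf (nat_lit 0) (nat_lit 2426186592) (nat_lit 228) (nat_lit 3346252497) (nat_lit 304) (nat_lit 9013197817) (nat_lit 80) (nat_lit 5) (nat_lit 83) (nat_lit 5) (nat_lit 84) (nat_lit 5) (nat_lit 329) (nat_lit 258) (nat_lit 193)) (XT.nd (nat_lit 78) (nat_lit 304) (nat_lit 0) (XT.lf (nat_lit 0) (nat_lit 10397062849) (nat_lit 304) (nat_lit 2063685542) (nat_lit 76) (nat_lit 2629778760) (nat_lit 80) (nat_lit 5) (nat_lit 84) (nat_lit 5) (nat_lit 81) (nat_lit 5) (nat_lit 330) (nat_lit 258) (nat_lit 192)) (XT.lf (nat_lit 0) (nat_lit 8561844584) (nat_lit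 304) (nat_lit 6632035383) (nat_lit 380) (nat_lit 210040402) (nat_lit 76) (nat_lit 5) (nat_lit 80) (nat_lit 5) (nat_lit 81) (nat_lit 5) (nat_lit 331) (nat_lit 258) (nat_lit 191)))) (XT.nd (nat_lit 78) (nat_lit 304) (nat_lit 0) (XT.lf (nat_lit 0) (nat_lit 3760046560) (nat_lit 228) (nat_lit 584548755) (nat_lit 304) (nat_lit 11381681441) (nat_lit 72) (nat_lit 5) (nat_lit 75) (nat_lit 5) (nat_lit 76) (nat_lit 5) (nat_lit 332) (nat_lit 258) (nat_lit 190)) (XT.nd (nat_lit 78) (nat_lit 304) (nat_lit 0) (XT.lf (nat_lit 0) (nat_lit 9073066135) (nat_lit 304) (nat_lit 1389972680) (nat_lit 76) (nat_lit 5594459695) (nat_lit 72) (nat_lit 5) (nat_lit 76) (nat_lit 5) (nat_lit 73) (nat_lit 5) (nat_lit 333) (nat_lit 258) (nat_lit 189)) (XT.lf (nat_lit 0) (nat_lit 9558888715) (nat_lit 304) (nat_lit 4408450196) (nat_lit 380) (nat_lit 2430861802) (nat_lit 68) (nat_lit 5) (nat_lit 72) (nat_lit 5) (nat_lit 73) (nat_lit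 5) (nat_lit 334) (nat_lit 258) (nat_lit 188))))) (XT.nd (nat_lit 234) (nat_lit 760) (nat_lit 0) (XT.nd (nat_lit 78) (nat_lit 228) (nat_lit 0) (XT.lf (nat_lit 0) (nat_lit 2236180861) (nat_lit 304) (nat_lit 12681572985) (nat_lit 76) (nat_lit 1830968485) (nat_lit 64) (nat_lit 5) (nat_lit 68) (nat_lit 5) (nat_lit 65) (nat_lit 5) (nat_lit 335) (nat_lit 258) (nat_lit 187)) (XT.nd (nat_lit 78) (nat_lit 228) (nat_lit 0) (XT.lf (nat_lit 0) (nat_lit 7045648606) (nat_lit 304) (nat_lit 1825712367) (nat_lit 76) (nat_lit 8237389498) (nat_lit 64) (nat_lit 5) (nat_lit 68) (nat_lit 5) (nat_lit 65) (nat_lit 5) (nat_lit 336) (nat_lit 258) (nat_lit 186)) (XT.lf (nat_lit 0) (nat_lit 9415959413) (nat_lit 228) (nat_lit 2604884269) (nat_lit 304) (nat_lit 5458327321) (nat_lit 61) (nat_lit 5) (nat_lit 64) (nat_lit 5) (nat_lit 65) (nat_lit 5) (nat_lit 337) (nat_lit 258) (nat_lit 185)))) (XT.nd (nat_lit 156) (nat_lit 456)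 (nat_lit 0) (XT.nd (nat_lit 78) (nat_lit 76) (nat_lit 0) (XT.lf (nat_lit 0) (nat_lit 3112180540) (nat_lit 228) (nat_lit 14051676185) (nat_lit 304) (nat_lit 696496001) (nat_lit 58) (nat_lit 5) (nat_lit 61) (nat_lit 5) (nat_lit 62) (nat_lit 5) (nat_lit 338) (nat_lit 258) (nat_lit 184)) (XT.lf (nat_lit 0) (nat_lit 4186791337) (nat_lit 304) (nat_lit 3626262447) (nat_lit 76) (nat_lit 10438712688) (nat_lit 57) (nat_lit 5) (nat_lit 61) (nat_lit 5) (nat_lit 58) (nat_lit 5) (nat_lit 339) (nat_lit 258) (nat_lit 183))) (XT.nd (nat_lit 78) (nat_lit 228) (nat_lit 0) (XT.lf (nat_lit 0) (nat_lit 7867159958) (nat_lit 228) (nat_lit 1353584071) (nat_lit 304) (nat_lit 9433832253) (nat_lit 54) (nat_lit 5) (nat_lit 57) (nat_lit 5) (nat_lit 58) (nat_lit 5) (nat_lit 340) (nat_lit 258) (nat_lit 182)) (XT.lf (nat_lit 0) (nat_lit 599040770) (nat_lit 228) (nat_lit 13832761194) (nat_lit 304) (nat_lit 4637164471) (nat_lit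 51) (nat_lit 5) (nat_lit 54) (nat_lit 5) (nat_lit 55) (nat_lit 5) (nat_lit 341) (nat_lit 258) (nat_lit 181))))))) (XT.nd (nat_lit 1014) (nat_lit 608) (nat_lit 0) (XT.nd (nat_lit 468) (nat_lit 760) (nat_lit 0) (XT.nd (nat_lit 234) (nat_lit 456) (nat_lit 0) (XT.nd (nat_lit 78) (nat_lit 228) (nat_lit 0) (XT.lf (nat_lit 0) (nat_lit 345546009) (nat_lit 304) (nat_lit 7090891977) (nat_lit 76) (nat_lit 12058405396) (nat_lit 50) (nat_lit 5) (nat_lit 54) (nat_lit 5) (nat_lit 51) (nat_lit 5) (nat_lit 342) (nat_lit 258) (nat_lit 180)) (XT.nd (nat_lit 78) (nat_lit 0) (nat_lit 0) (XT.lf (nat_lit 0) (nat_lit 4600772892) (nat_lit 228) (nat_lit 808744710) (nat_lit 304) (nat_lit 14523486821) (nat_lit 47) (nat_lit 5) (nat_lit 50) (nat_lit 5) (nat_lit 51) (nat_lit 5) (nat_lit 343) (nat_lit 258) (nat_lit 179)) (XT.lf (nat_lit 0) (nat_lit 10677914958) (nat_lit 304) (nat_lit 3740183559) (nat_lit 76) (nat_lit 5965177600)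 (nat_lit 47) (nat_lit 5) (nat_lit 51) (nat_lit 5) (nat_lit 48) (nat_lit 5) (nat_lit 344) (nat_lit 258) (nat_lit 178)))) (XT.nd (nat_lit 78) (nat_lit 304) (nat_lit 0) (XT.lf (nat_lit 0) (nat_lit 8246356670) (nat_lit 152) (nat_lit 7883041148) (nat_lit 228) (nat_lit 4717172959) (nat_lit 45) (nat_lit 5) (nat_lit 47) (nat_lit 5) (nat_lit 48) (nat_lit 5) (nat_lit 345) (nat_lit 258) (nat_lit 177)) (XT.nd (nat_lit 78) (nat_lit 228) (nat_lit 0) (XT.lf (nat_lit 0) (nat_lit 407135471) (nat_lit 228) (nat_lit 738031778) (nat_lit 76) (nat_lit 20178717314) (nat_lit 44) (nat_lit 5) (nat_lit 47) (nat_lit 5) (nat_lit 45) (nat_lit 5) (nat_lit 346) (nat_lit 258) (nat_lit 176)) (XT.lf (nat_lit 0) (nat_lit 5702060387) (nat_lit 304) (nat_lit 10306292006) (nat_lit 76) (nat_lit 5804936571) (nat_lit 41) (nat_lit 5) (nat_lit 45) (nat_lit 5) (nat_lit 42) (nat_lit 5) (nat_lit 347) (nat_lit 258) (nat_lit 175))))) (XT.nd (nat_lit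 234) (nat_lit 380) (nat_lit 0) (XT.nd (nat_lit 78) (nat_lit 228) (nat_lit 0) (XT.lf (nat_lit 0) (nat_lit 1774194296) (nat_lit 152) (nat_lit 9373772090) (nat_lit 228) (nat_lit 11169580341) (nat_lit 39) (nat_lit 5) (nat_lit 41) (nat_lit 5) (nat_lit 42) (nat_lit 5) (nat_lit 348) (nat_lit 258) (nat_lit 174)) (XT.nd (nat_lit 78) (nat_lit 228) (nat_lit 0) (XT.lf (nat_lit 0) (nat_lit 14305452122) (nat_lit 152) (nat_lit 2490149773) (nat_lit 228) (nat_lit 6040576773) (nat_lit 39) (nat_lit 5) (nat_lit 41) (nat_lit 5) (nat_lit 42) (nat_lit 5) (nat_lit 349) (nat_lit 258) (nat_lit 173)) (XT.lf (nat_lit 0) (nat_lit 3810717814) (nat_lit 228) (nat_lit 18825853380) (nat_lit 304) (nat_lit 733333376) (nat_lit 36) (nat_lit 5) (nat_lit 39) (nat_lit 5) (nat_lit 40) (nat_lit 5) (nat_lit 350) (nat_lit 258) (nat_lit 172)))) (XT.nd (nat_lit 156) (nat_lit 152) (nat_lit 0) (XT.nd (nat_lit 78) (nat_lit 152) (nat_lit 0) (XT.lf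 (nat_lit 0) (nat_lit 4715542924) (nat_lit 304) (nat_lit 7378326754) (nat_lit 76) (nat_lit 11824280601) (nat_lit 35) (nat_lit 5) (nat_lit 39) (nat_lit 5) (nat_lit 36) (nat_lit 5) (nat_lit 351) (nat_lit 258) (nat_lit 171)) (XT.lf (nat_lit 0) (nat_lit 5181250761) (nat_lit 152) (nat_lit 5140901506) (nat_lit 228) (nat_lit 14160521651) (nat_lit 33) (nat_lit 5) (nat_lit 35) (nat_lit 5) (nat_lit 36) (nat_lit 5) (nat_lit 352) (nat_lit 258) (nat_lit 170))) (XT.nd (nat_lit 78) (nat_lit 152) (nat_lit 0) (XT.lf (nat_lit 0) (nat_lit 16131351726) (nat_lit 228) (nat_lit 6907382781) (nat_lit 76) (nat_lit 2024722675) (nat_lit 33) (nat_lit 5) (nat_lit 36) (nat_lit 5) (nat_lit 34) (nat_lit 5) (nat_lit 353) (nat_lit 258) (nat_lit 169)) (XT.lf (nat_lit 0) (nat_lit 5852889931) (nat_lit 152) (nat_lit 16306107288) (nat_lit 228) (nat_lit 3501794734) (nat_lit 31) (nat_lit 5) (nat_lit 33) (nat_lit 5) (nat_lit 34) (nat_lit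 5) (nat_lit 354) (nat_lit 258) (nat_lit 168)))))) (XT.nd (nat_lit 468) (nat_lit 0) (nat_lit 0) (XT.nd (nat_lit 234) (nat_lit 380) (nat_lit 0) (XT.nd (nat_lit 78) (nat_lit 152) (nat_lit 0) (XT.lf (nat_lit 0) (nat_lit 2083223105) (nat_lit 228) (nat_lit 7246053675) (nat_lit 76) (nat_lit 16946124723) (nat_lit 30) (nat_lit 5) (nat_lit 33) (nat_lit 5) (nat_lit 31) (nat_lit 5) (nat_lit 355) (nat_lit 258) (nat_lit 167)) (XT.nd (nat_lit 78) (nat_lit 0) (nat_lit 0) (XT.lf (nat_lit 0) (nat_lit 5697770700) (nat_lit 152) (nat_lit 2100632960) (nat_lit 228) (nat_lit 19109389532) (nat_lit 28) (nat_lit 5) (nat_lit 30) (nat_lit 5) (nat_lit 31) (nat_lit 5) (nat_lit 356) (nat_lit 258) (nat_lit 166)) (XT.lf (nat_lit 0) (nat_lit 13742462946) (nat_lit 228) (nat_lit 8509966063) (nat_lit 76) (nat_lit 5305589392) (nat_lit 28) (nat_lit 5) (nat_lit 31) (nat_lit 5) (nat_lit 29) (nat_lit 5) (nat_lit 357) (nat_lit 258) (nat_lit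 165)))) (XT.nd (nat_lit 78) (nat_lit 228) (nat_lit 0) (XT.lf (nat_lit 0) (nat_lit 4572490139) (nat_lit 152) (nat_lit 15310161360) (nat_lit 228) (nat_lit 8344752657) (nat_lit 26) (nat_lit 5) (nat_lit 28) (nat_lit 5) (nat_lit 29) (nat_lit 5) (nat_lit 358) (nat_lit 258) (nat_lit 164)) (XT.nd (nat_lit 78) (nat_lit 228) (nat_lit 0) (XT.lf (nat_lit 0) (nat_lit 18120105034) (nat_lit 152) (nat_lit 8119149681) (nat_lit 228) (nat_lit 2676982237) (nat_lit 26) (nat_lit 5) (nat_lit 28) (nat_lit 5) (nat_lit 29) (nat_lit 5) (nat_lit 359) (nat_lit 258) (nat_lit 163)) (XT.lf (nat_lit 0) (nat_lit 2416722298) (nat_lit 152) (nat_lit 693446555) (nat_lit 228) (nat_lit 26515348575) (nat_lit 23) (nat_lit 5) (nat_lit 25) (nat_lit 5) (nat_lit 26) (nat_lit 5) (nat_lit 360) (nat_lit 258) (nat_lit 162))))) (XT.nd (nat_lit 33072) (nat_lit 0) (nat_lit 42636) (XT.nd (nat_lit 32916) (nat_lit 0) (nat_lit 43700) (XT.lf (nat_lit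 0) (nat_lit 9129018571) (nat_lit 228) (nat_lit 14286967219) (nat_lit 76) (nat_lit 6937856472) (nat_lit 23) (nat_lit 5) (nat_lit 26) (nat_lit 5) (nat_lit 24) (nat_lit 5) (nat_lit 361) (nat_lit 258) (nat_lit 161)) (XT.nd (nat_lit 78) (nat_lit 228) (nat_lit 0) (XT.lf (nat_lit 0) (nat_lit 1249408944) (nat_lit 76) (nat_lit 986957273) (nat_lit 76) (nat_lit 986957273) (nat_lit 601) (nat_lit 4) (nat_lit 602) (nat_lit 5) (nat_lit 602) (nat_lit 4) (nat_lit 262) (nat_lit 259) (nat_lit 259)) (XT.lf (nat_lit 0) (nat_lit 642809357) (nat_lit 152) (nat_lit 1727179703) (nat_lit 228) (nat_lit 4082692091) (nat_lit 598) (nat_lit 5) (nat_lit 600) (nat_lit 5) (nat_lit 601) (nat_lit 4) (nat_lit 263) (nat_lit 259) (nat_lit 258)))) (XT.nd (nat_lit 156) (nat_lit 760) (nat_lit 0) (XT.nd (nat_lit 78) (nat_lit 228) (nat_lit 0) (XT.lf (nat_lit 0) (nat_lit 213153564) (nat_lit 228) (nat_lit 1142551256) (nat_lit 76) (nat_lit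 5106012543) (nat_lit 597) (nat_lit 5) (nat_lit 600) (nat_lit 5) (nat_lit 598) (nat_lit 5) (nat_lit 264) (nat_lit 259) (nat_lit 257)) (XT.lf (nat_lit 0) (nat_lit 3593572858) (nat_lit 228) (nat_lit 849478826) (nat_lit 304) (nat_lit 2030521901) (nat_lit 594) (nat_lit 5) (nat_lit 597) (nat_lit 5) (nat_lit 598) (nat_lit 5) (nat_lit 265) (nat_lit 259) (nat_lit 256))) (XT.nd (nat_lit 78) (nat_lit 380) (nat_lit 0) (XT.lf (nat_lit 0) (nat_lit 1919911504) (nat_lit 304) (nat_lit 223881464) (nat_lit 380) (nat_lit 4344777443) (nat_lit 589) (nat_lit 5) (nat_lit 593) (nat_lit 5) (nat_lit 594) (nat_lit 5) (nat_lit 266) (nat_lit 259) (nat_lit 255)) (XT.lf (nat_lit 0) (nat_lit 292700086) (nat_lit 380) (nat_lit 5991809102) (nat_lit 456) (nat_lit 222143013) (nat_lit 584) (nat_lit 5) (nat_lit 589) (nat_lit 5) (nat_lit 590) (nat_lit 5) (nat_lit 267) (nat_lit 259) (nat_lit 254))))))))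
noncomputable def xc49 : XT := (XT.nd (nat_lit 2028) (nat_lit 12996) (nat_lit 0) (XT.nd (nat_lit 1014) (nat_lit 13984) (nat_lit 0) (XT.nd (nat_lit 468) (nat_lit 6004) (nat_lit 0) (XT.nd (nat_lit 234) (nat_lit 1444) (nat_lit 0) (XT.nd (nat_lit 78) (nat_lit 1064) (nat_lit 0) (XT.lf (nat_lit 0) (nat_lit 3851039451) (nat_lit 456) (nat_lit 1285135854) (nat_lit 76) (nat_lit 1391250900) (nat_lit 583) (nat_lit 5) (nat_lit 589) (nat_lit 5) (nat_lit 584) (nat_lit 5) (nat_lit 268) (nat_lit 259) (nat_lit 253)) (XT.nd (nat_lit 78) (nat_lit 532) (nat_lit 0) (XT.lf (nat_lit 0) (nat_lit 1349713525) (nat_lit 532) (nat_lit 2813530829) (nat_lit 76) (nat_lit 2388113894) (nat_lit 576) (nat_lit 5) (nat_lit 583) (nat_lit 5) (nat_lit 577) (nat_lit 5) (nat_lit 269) (nat_lit 259) (nat_lit 252)) (XT.lf (nat_lit 0) (nat_lit 2272075778) (nat_lit 532) (nat_lit 3065858684) (nat_lit 608) (nat_lit 1240411105) (nat_lit 569) (nat_lit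 5) (nat_lit 576) (nat_lit 5) (nat_lit 577) (nat_lit 5) (nat_lit 270) (nat_lit 259) (nat_lit 251)))) (XT.nd (nat_lit 78) (nat_lit 760) (nat_lit 0) (XT.lf (nat_lit 0) (nat_lit 841843385) (nat_lit 608) (nat_lit 1841686386) (nat_lit 684) (nat_lit 3924855050) (nat_lit 560) (nat_lit 5) (nat_lit 568) (nat_lit 5) (nat_lit 569) (nat_lit 5) (nat_lit 271) (nat_lit 259) (nat_lit 250)) (XT.nd (nat_lit 78) (nat_lit 760) (nat_lit 0) (XT.lf (nat_lit 0) (nat_lit 6102822801) (nat_lit 608) (nat_lit 494774166) (nat_lit 684) (nat_lit 44005613) (nat_lit 560) (nat_lit 5) (nat_lit 568) (nat_lit 5) (nat_lit 569) (nat_lit 5) (nat_lit 272) (nat_lit 259) (nat_lit 249)) (XT.lf (nat_lit 0) (nat_lit 3801995717) (nat_lit 760) (nat_lit 1892584415) (nat_lit 76) (nat_lit 982927515) (nat_lit 550) (nat_lit 5) (nat_lit 560) (nat_lit 5) (nat_lit 551) (nat_lit 5) (nat_lit 273) (nat_lit 259) (nat_lit 248))))) (XT.nd (nat_lit 234) (nat_lit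 3344) (nat_lit 0) (XT.nd (nat_lit 78) (nat_lit 1824) (nat_lit 0) (XT.lf (nat_lit 0) (nat_lit 930121698) (nat_lit 836) (nat_lit 3212323807) (nat_lit 76) (nat_lit 2574196141) (nat_lit 539) (nat_lit 5) (nat_lit 550) (nat_lit 5) (nat_lit 540) (nat_lit 5) (nat_lit 274) (nat_lit 259) (nat_lit 247)) (XT.nd (nat_lit 78) (nat_lit 988) (nat_lit 0) (XT.lf (nat_lit 0) (nat_lit 2248940097) (nat_lit 836) (nat_lit 2458564699) (nat_lit 912) (nat_lit 2051331023) (nat_lit 528) (nat_lit 5) (nat_lit 539) (nat_lit 5) (nat_lit 540) (nat_lit 5) (nat_lit 275) (nat_lit 259) (nat_lit 246)) (XT.lf (nat_lit 0) (nat_lit 1023810415) (nat_lit 912) (nat_lit 648204593) (nat_lit 988) (nat_lit 5132244151) (nat_lit 515) (nat_lit 5) (nat_lit 527) (nat_lit 5) (nat_lit 528) (nat_lit 5) (nat_lit 276) (nat_lit 259) (nat_lit 245)))) (XT.nd (nat_lit 156) (nat_lit 2280) (nat_lit 0) (XT.nd (nat_lit 78) (nat_lit 1064) (nat_lit 0) (XT.lf (nat_lit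 0) (nat_lit 5392478313) (nat_lit 988) (nat_lit 182348528) (nat_lit 76) (nat_lit 1277865569) (nat_lit 515) (nat_lit 5) (nat_lit 528) (nat_lit 5) (nat_lit 516) (nat_lit 5) (nat_lit 277) (nat_lit 259) (nat_lit 244)) (XT.lf (nat_lit 0) (nat_lit 2209362915) (nat_lit 1064) (nat_lit 1359223738) (nat_lit 76) (nat_lit 3335508961) (nat_lit 501) (nat_lit 5) (nat_lit 515) (nat_lit 5) (nat_lit 502) (nat_lit 5) (nat_lit 278) (nat_lit 259) (nat_lit 243))) (XT.nd (nat_lit 78) (nat_lit 1216) (nat_lit 0) (XT.lf (nat_lit 0) (nat_lit 4445073644) (nat_lit 1064) (nat_lit 1434454879) (nat_lit 1140) (nat_lit 1079282708) (nat_lit 487) (nat_lit 5) (nat_lit 501) (nat_lit 5) (nat_lit 502) (nat_lit 5) (nat_lit 279) (nat_lit 259) (nat_lit 242)) (XT.lf (nat_lit 0) (nat_lit 2528561613) (nat_lit 1216) (nat_lit 3661256996) (nat_lit 76) (nat_lit 826795937) (nat_lit 471) (nat_lit 5) (nat_lit 487) (nat_lit 5) (nat_lit 472) (nat_lit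 5) (nat_lit 280) (nat_lit 259) (nat_lit 241)))))) (XT.nd (nat_lit 468) (nat_lit 6916) (nat_lit 0) (XT.nd (nat_lit 234) (nat_lit 3116) (nat_lit 0) (XT.nd (nat_lit 78) (nat_lit 2736) (nat_lit 0) (XT.lf (nat_lit 0) (nat_lit 2277910428) (nat_lit 1216) (nat_lit 3878756638) (nat_lit 1292) (nat_lit 920965674) (nat_lit 455) (nat_lit 5) (nat_lit 471) (nat_lit 5) (nat_lit 472) (nat_lit 5) (nat_lit 281) (nat_lit 259) (nat_lit 240)) (XT.nd (nat_lit 78) (nat_lit 1368) (nat_lit 0) (XT.lf (nat_lit 0) (nat_lit 1208910238) (nat_lit 1292) (nat_lit 1427867786) (nat_lit 1368) (nat_lit 4505100586) (nat_lit 437) (nat_lit 5) (nat_lit 454) (nat_lit 5) (nat_lit 455) (nat_lit 5) (nat_lit 282) (nat_lit 259) (nat_lit 239)) (XT.lf (nat_lit 0) (nat_lit 149338119) (nat_lit 1368) (nat_lit 6070037862) (nat_lit 1444) (nat_lit 990086747) (nat_lit 419) (nat_lit 5) (nat_lit 437) (nat_lit 5) (nat_lit 438) (nat_lit 5) (nat_lit 283)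 (nat_lit 259) (nat_lit 238)))) (XT.nd (nat_lit 78) (nat_lit 3040) (nat_lit 0) (XT.lf (nat_lit 0) (nat_lit 2537383488) (nat_lit 1444) (nat_lit 905100168) (nat_lit 76) (nat_lit 3837557383) (nat_lit 418) (nat_lit 5) (nat_lit 437) (nat_lit 5) (nat_lit 419) (nat_lit 5) (nat_lit 284) (nat_lit 259) (nat_lit 237)) (XT.nd (nat_lit 78) (nat_lit 1596) (nat_lit 0) (XT.lf (nat_lit 0) (nat_lit 5406372123) (nat_lit 1444) (nat_lit 680678524) (nat_lit 1520) (nat_lit 1267092960) (nat_lit 399) (nat_lit 5) (nat_lit 418) (nat_lit 5) (nat_lit 419) (nat_lit 5) (nat_lit 285) (nat_lit 259) (nat_lit 236)) (XT.lf (nat_lit 0) (nat_lit 2228174861) (nat_lit 1596) (nat_lit 3006211956) (nat_lit 76) (nat_lit 2196994566) (nat_lit 378) (nat_lit 5) (nat_lit 399) (nat_lit 5) (nat_lit 379) (nat_lit 5) (nat_lit 286) (nat_lit 259) (nat_lit 235))))) (XT.nd (nat_lit 234) (nat_lit 2584) (nat_lit 0) (XT.nd (nat_lit 78) (nat_lit 2736) (nat_lit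 0) (XT.lf (nat_lit 0) (nat_lit 3444137277) (nat_lit 1596) (nat_lit 2306055992) (nat_lit 1672) (nat_lit 1761917457) (nat_lit 357) (nat_lit 5) (nat_lit 378) (nat_lit 5) (nat_lit 379) (nat_lit 5) (nat_lit 287) (nat_lit 259) (nat_lit 234)) (XT.nd (nat_lit 78) (nat_lit 988) (nat_lit 0) (XT.lf (nat_lit 0) (nat_lit 1701079098) (nat_lit 1748) (nat_lit 5139650313) (nat_lit 76) (nat_lit 755582215) (nat_lit 334) (nat_lit 5) (nat_lit 357) (nat_lit 5) (nat_lit 335) (nat_lit 5) (nat_lit 288) (nat_lit 259) (nat_lit 233)) (XT.lf (nat_lit 0) (nat_lit 1448112136) (nat_lit 988) (nat_lit 3751355752) (nat_lit 1064) (nat_lit 2484343615) (nat_lit 321) (nat_lit 5) (nat_lit 334) (nat_lit 5) (nat_lit 335) (nat_lit 5) (nat_lit 289) (nat_lit 259) (nat_lit 232)))) (XT.nd (nat_lit 156) (nat_lit 1672) (nat_lit 0) (XT.nd (nat_lit 78) (nat_lit 0) (nat_lit 0) (XT.lf (nat_lit 0) (nat_lit 435839803) (nat_lit 836) (nat_lit 521653093)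 (nat_lit 912) (nat_lit 6817576734) (nat_lit 309) (nat_lit 5) (nat_lit 320) (nat_lit 5) (nat_lit 321) (nat_lit 5) (nat_lit 290) (nat_lit 259) (nat_lit 231)) (XT.lf (nat_lit 0) (nat_lit 4436198911) (nat_lit 912) (nat_lit 604499950) (nat_lit 76) (nat_lit 2828796843) (nat_lit 309) (nat_lit 5) (nat_lit 321) (nat_lit 5) (nat_lit 310) (nat_lit 5) (nat_lit 291) (nat_lit 259) (nat_lit 230))) (XT.nd (nat_lit 78) (nat_lit 760) (nat_lit 0) (XT.lf (nat_lit 0) (nat_lit 5092498) (nat_lit 912) (nat_lit 1647456629) (nat_lit 76) (nat_lit 6315234090) (nat_lit 297) (nat_lit 5) (nat_lit 309) (nat_lit 5) (nat_lit 298) (nat_lit 5) (nat_lit 292) (nat_lit 259) (nat_lit 229)) (XT.lf (nat_lit 0) (nat_lit 3461959132) (nat_lit 836) (nat_lit 2733727013) (nat_lit 76) (nat_lit 1873737845) (nat_lit 287) (nat_lit 5) (nat_lit 298) (nat_lit 5) (nat_lit 288) (nat_lit 5) (nat_lit 293) (nat_lit 259) (nat_lit 228))))))) (XT.nd (nat_lit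 1014) (nat_lit 5396) (nat_lit 0) (XT.nd (nat_lit 468) (nat_lit 3876) (nat_lit 0) (XT.nd (nat_lit 234) (nat_lit 1444) (nat_lit 0) (XT.nd (nat_lit 78) (nat_lit 1520) (nat_lit 0) (XT.lf (nat_lit 0) (nat_lit 4331212405) (nat_lit 760) (nat_lit 2654268730) (nat_lit 836) (nat_lit 1189468942) (nat_lit 277) (nat_lit 5) (nat_lit 287) (nat_lit 5) (nat_lit 288) (nat_lit 5) (nat_lit 294) (nat_lit 259) (nat_lit 227)) (XT.nd (nat_lit 78) (nat_lit 760) (nat_lit 0) (XT.lf (nat_lit 0) (nat_lit 2261188855) (nat_lit 760) (nat_lit 4992099287) (nat_lit 76) (nat_lit 1030927719) (nat_lit 267) (nat_lit 5) (nat_lit 277) (nat_lit 5) (nat_lit 268) (nat_lit 5) (nat_lit 295) (nat_lit 259) (nat_lit 226)) (XT.lf (nat_lit 0) (nat_lit 2210049229) (nat_lit 760) (nat_lit 3563303336) (nat_lit 836) (nat_lit 2623854740) (nat_lit 257) (nat_lit 5) (nat_lit 267) (nat_lit 5) (nat_lit 268) (nat_lit 5) (nat_lit 296) (nat_lit 259) (nat_lit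 225)))) (XT.nd (nat_lit 78) (nat_lit 684) (nat_lit 0) (XT.lf (nat_lit 0) (nat_lit 825762461) (nat_lit 760) (nat_lit 7415173466) (nat_lit 76) (nat_lit 273422765) (nat_lit 247) (nat_lit 5) (nat_lit 257) (nat_lit 5) (nat_lit 248) (nat_lit 5) (nat_lit 297) (nat_lit 259) (nat_lit 224)) (XT.nd (nat_lit 78) (nat_lit 684) (nat_lit 0) (XT.lf (nat_lit 0) (nat_lit 4328213297) (nat_lit 760) (nat_lit 78383687) (nat_lit 76) (nat_lit 4228462098) (nat_lit 247) (nat_lit 5) (nat_lit 257) (nat_lit 5) (nat_lit 248) (nat_lit 5) (nat_lit 298) (nat_lit 259) (nat_lit 223)) (XT.lf (nat_lit 0) (nat_lit 7488024051) (nat_lit 684) (nat_lit 417453769) (nat_lit 760) (nat_lit 854586691) (nat_lit 238) (nat_lit 5) (nat_lit 247) (nat_lit 5) (nat_lit 248) (nat_lit 5) (nat_lit 299) (nat_lit 259) (nat_lit 222))))) (XT.nd (nat_lit 234) (nat_lit 1824) (nat_lit 0) (XT.nd (nat_lit 78) (nat_lit 1368) (nat_lit 0) (XT.lf (nat_lit 0) (nat_lit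 2654273401) (nat_lit 684) (nat_lit 2542206998) (nat_lit 76) (nat_lit 3692294763) (nat_lit 229) (nat_lit 5) (nat_lit 238) (nat_lit 5) (nat_lit 230) (nat_lit 5) (nat_lit 300) (nat_lit 259) (nat_lit 221)) (XT.nd (nat_lit 78) (nat_lit 684) (nat_lit 0) (XT.lf (nat_lit 0) (nat_lit 5160640296) (nat_lit 684) (nat_lit 1065085848) (nat_lit 760) (nat_lit 2796202114) (nat_lit 220) (nat_lit 5) (nat_lit 229) (nat_lit 5) (nat_lit 230) (nat_lit 5) (nat_lit 301) (nat_lit 259) (nat_lit 220)) (XT.lf (nat_lit 0) (nat_lit 724253236) (nat_lit 684) (nat_lit 5251499743) (nat_lit 76) (nat_lit 3183519919) (nat_lit 211) (nat_lit 5) (nat_lit 220) (nat_lit 5) (nat_lit 212) (nat_lit 5) (nat_lit 302) (nat_lit 259) (nat_lit 219)))) (XT.nd (nat_lit 156) (nat_lit 684) (nat_lit 0) (XT.nd (nat_lit 78) (nat_lit 532) (nat_lit 0) (XT.lf (nat_lit 0) (nat_lit 2582315426) (nat_lit 608) (nat_lit 1706982640) (nat_lit 684) (nat_lit 5011598169)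 (nat_lit 203) (nat_lit 5) (nat_lit 211) (nat_lit 5) (nat_lit 212) (nat_lit 5) (nat_lit 303) (nat_lit 259) (nat_lit 218)) (XT.lf (nat_lit 0) (nat_lit 1186756146) (nat_lit 532) (nat_lit 6763531900) (nat_lit 608) (nat_lit 1496765709) (nat_lit 196) (nat_lit 5) (nat_lit 203) (nat_lit 5) (nat_lit 204) (nat_lit 5) (nat_lit 304) (nat_lit 259) (nat_lit 217))) (XT.nd (nat_lit 78) (nat_lit 608) (nat_lit 0) (XT.lf (nat_lit 0) (nat_lit 2081913522) (nat_lit 608) (nat_lit 288628274) (nat_lit 76) (nat_lit 7227115630) (nat_lit 195) (nat_lit 5) (nat_lit 203) (nat_lit 5) (nat_lit 196) (nat_lit 5) (nat_lit 305) (nat_lit 259) (nat_lit 216)) (XT.lf (nat_lit 0) (nat_lit 5744592490) (nat_lit 684) (nat_lit 1836181485) (nat_lit 76) (nat_lit 2171928268) (nat_lit 187) (nat_lit 5) (nat_lit 196) (nat_lit 5) (nat_lit 188) (nat_lit 5) (nat_lit 306) (nat_lit 259) (nat_lit 215)))))) (XT.nd (nat_lit 468) (nat_lit 2736) (nat_lit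 0) (XT.nd (nat_lit 234) (nat_lit 1064) (nat_lit 0) (XT.nd (nat_lit 78) (nat_lit 1064) (nat_lit 0) (XT.lf (nat_lit 0) (nat_lit 6443026032) (nat_lit 532) (nat_lit 3066213863) (nat_lit 608) (nat_lit 403375390) (nat_lit 180) (nat_lit 5) (nat_lit 187) (nat_lit 5) (nat_lit 188) (nat_lit 5) (nat_lit 307) (nat_lit 259) (nat_lit 214)) (XT.nd (nat_lit 78) (nat_lit 456) (nat_lit 0) (XT.lf (nat_lit 0) (nat_lit 3254248504) (nat_lit 608) (nat_lit 5211536699) (nat_lit 76) (nat_lit 1611403536) (nat_lit 172) (nat_lit 5) (nat_lit 180) (nat_lit 5) (nat_lit 173) (nat_lit 5) (nat_lit 308) (nat_lit 259) (nat_lit 213)) (XT.lf (nat_lit 0) (nat_lit 3186185587) (nat_lit 456) (nat_lit 3829473648) (nat_lit 532) (nat_lit 3231050257) (nat_lit 166) (nat_lit 5) (nat_lit 172) (nat_lit 5) (nat_lit 173) (nat_lit 5) (nat_lit 309) (nat_lit 259) (nat_lit 212)))) (XT.nd (nat_lit 78) (nat_lit 456) (nat_lit 0) (XT.lf (nat_lit 0) (nat_lit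 449073566) (nat_lit 608) (nat_lit 9010141344) (nat_lit 76) (nat_lit 962359232) (nat_lit 158) (nat_lit 5) (nat_lit 166) (nat_lit 5) (nat_lit 159) (nat_lit 5) (nat_lit 310) (nat_lit 259) (nat_lit 211)) (XT.nd (nat_lit 78) (nat_lit 456) (nat_lit 0) (XT.lf (nat_lit 0) (nat_lit 4206475776) (nat_lit 608) (nat_lit 497886056) (nat_lit 76) (nat_lit 5896730393) (nat_lit 158) (nat_lit 5) (nat_lit 166) (nat_lit 5) (nat_lit 159) (nat_lit 5) (nat_lit 311) (nat_lit 259) (nat_lit 210)) (XT.lf (nat_lit 0) (nat_lit 8070545286) (nat_lit 532) (nat_lit 2490497346) (nat_lit 76) (nat_lit 225122933) (nat_lit 152) (nat_lit 5) (nat_lit 159) (nat_lit 5) (nat_lit 153) (nat_lit 5) (nat_lit 312) (nat_lit 259) (nat_lit 209))))) (XT.nd (nat_lit 234) (nat_lit 1292) (nat_lit 0) (XT.nd (nat_lit 78) (nat_lit 912) (nat_lit 0) (XT.lf (nat_lit 0) (nat_lit 1075563904) (nat_lit 532) (nat_lit 4629805639) (nat_lit 76) (nat_lit 5271010401)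 (nat_lit 145) (nat_lit 5) (nat_lit 152) (nat_lit 5) (nat_lit 146) (nat_lit 5) (nat_lit 313) (nat_lit 259) (nat_lit 208)) (XT.nd (nat_lit 78) (nat_lit 456) (nat_lit 0) (XT.lf (nat_lit 0) (nat_lit 4267891483) (nat_lit 456) (nat_lit 661139450) (nat_lit 532) (nat_lit 6243246907) (nat_lit 139) (nat_lit 5) (nat_lit 145) (nat_lit 5) (nat_lit 146) (nat_lit 5) (nat_lit 314) (nat_lit 259) (nat_lit 207)) (XT.lf (nat_lit 0) (nat_lit 2039105073) (nat_lit 456) (nat_lit 6874870235) (nat_lit 532) (nat_lit 2459803520) (nat_lit 133) (nat_lit 5) (nat_lit 139) (nat_lit 5) (nat_lit 140) (nat_lit 5) (nat_lit 315) (nat_lit 259) (nat_lit 206)))) (XT.nd (nat_lit 156) (nat_lit 836) (nat_lit 0) (XT.nd (nat_lit 78) (nat_lit 380) (nat_lit 0) (XT.lf (nat_lit 0) (nat_lit 1412191208) (nat_lit 532) (nat_lit 329001304) (nat_lit 76) (nat_lit 9840109306) (nat_lit 132) (nat_lit 5) (nat_lit 139) (nat_lit 5) (nat_lit 133) (nat_lit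 5) (nat_lit 316) (nat_lit 259) (nat_lit 205)) (XT.lf (nat_lit 0) (nat_lit 5392796307) (nat_lit 456) (nat_lit 2847686589) (nat_lit 76) (nat_lit 3553765334) (nat_lit 127) (nat_lit 5) (nat_lit 133) (nat_lit 5) (nat_lit 128) (nat_lit 5) (nat_lit 317) (nat_lit 259) (nat_lit 204))) (XT.nd (nat_lit 78) (nat_lit 456) (nat_lit 0) (XT.lf (nat_lit 0) (nat_lit 6487414531) (nat_lit 380) (nat_lit 3006464720) (nat_lit 456) (nat_lit 2519721727) (nat_lit 122) (nat_lit 5) (nat_lit 127) (nat_lit 5) (nat_lit 128) (nat_lit 5) (nat_lit 318) (nat_lit 259) (nat_lit 203)) (XT.lf (nat_lit 0) (nat_lit 1465055451) (nat_lit 456) (nat_lit 8388754010) (nat_lit 76) (nat_lit 2385450410) (nat_lit 116) (nat_lit 5) (nat_lit 122) (nat_lit 5) (nat_lit 117) (nat_lit 5) (nat_lit 319) (nat_lit 259) (nat_lit 202))))))))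
noncomputable def xc50 : XT := (XT.nd (nat_lit 2028) (nat_lit 1824) (nat_lit 0) (XT.nd (nat_lit 1014) (nat_lit 2128) (nat_lit 0) (XT.nd (nat_lit 468) (nat_lit 1596) (nat_lit 0) (XT.nd (nat_lit 234) (nat_lit 760) (nat_lit 0) (XT.nd (nat_lit 78) (nat_lit 380) (nat_lit 0) (XT.lf (nat_lit 0) (nat_lit 1012704833) (nat_lit 380) (nat_lit 4533714823) (nat_lit 456) (nat_lit 6924746397) (nat_lit 111) (nat_lit 5) (nat_lit 116) (nat_lit 5) (nat_lit 117) (nat_lit 5) (nat_lit 320) (nat_lit 259) (nat_lit 201)) (XT.nd (nat_lit 78) (nat_lit 380) (nat_lit 0) (XT.lf (nat_lit 0) (nat_lit 9761207008) (nat_lit 456) (nat_lit 1980639872) (nat_lit 76) (nat_lit 967998010) (nat_lit 111) (nat_lit 5) (nat_lit 117) (nat_lit 5) (nat_lit 112) (nat_lit 5) (nat_lit 321) (nat_lit 259) (nat_lit 200)) (XT.lf (nat_lit 0) (nat_lit 1161850038) (nat_lit 380) (nat_lit 5183581723) (nat_lit 76) (nat_lit 6609534121) (nat_lit 106) (nat_lit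 5) (nat_lit 111) (nat_lit 5) (nat_lit 107) (nat_lit 5) (nat_lit 322) (nat_lit 259) (nat_lit 199)))) (XT.nd (nat_lit 78) (nat_lit 380) (nat_lit 0) (XT.lf (nat_lit 0) (nat_lit 4602928451) (nat_lit 380) (nat_lit 746077812) (nat_lit 456) (nat_lit 7858208600) (nat_lit 101) (nat_lit 5) (nat_lit 106) (nat_lit 5) (nat_lit 107) (nat_lit 5) (nat_lit 323) (nat_lit 259) (nat_lit 198)) (XT.nd (nat_lit 78) (nat_lit 76) (nat_lit 0) (XT.lf (nat_lit 0) (nat_lit 1197315101) (nat_lit 304) (nat_lit 8490828046) (nat_lit 380) (nat_lit 3778392350) (nat_lit 97) (nat_lit 5) (nat_lit 101) (nat_lit 5) (nat_lit 102) (nat_lit 5) (nat_lit 324) (nat_lit 259) (nat_lit 197)) (XT.lf (nat_lit 0) (nat_lit 433193002) (nat_lit 380) (nat_lit 2402558138) (nat_lit 76) (nat_lit 10897560898) (nat_lit 96) (nat_lit 5) (nat_lit 101) (nat_lit 5) (nat_lit 97) (nat_lit 5) (nat_lit 325) (nat_lit 259) (nat_lit 196))))) (XT.nd (nat_lit 234) (nat_lit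 988) (nat_lit 0) (XT.nd (nat_lit 78) (nat_lit 304) (nat_lit 0) (XT.lf (nat_lit 0) (nat_lit 4742936448) (nat_lit 380) (nat_lit 6261205604) (nat_lit 76) (nat_lit 3003016554) (nat_lit 92) (nat_lit 5) (nat_lit 97) (nat_lit 5) (nat_lit 93) (nat_lit 5) (nat_lit 326) (nat_lit 259) (nat_lit 195)) (XT.nd (nat_lit 78) (nat_lit 0) (nat_lit 0) (XT.lf (nat_lit 0) (nat_lit 3904804828) (nat_lit 304) (nat_lit 5291322295) (nat_lit 380) (nat_lit 5092838616) (nat_lit 88) (nat_lit 5) (nat_lit 92) (nat_lit 5) (nat_lit 93) (nat_lit 5) (nat_lit 327) (nat_lit 259) (nat_lit 194)) (XT.lf (nat_lit 0) (nat_lit 13783676682) (nat_lit 380) (nat_lit 190903984) (nat_lit 76) (nat_lit 604658596) (nat_lit 88) (nat_lit 5) (nat_lit 93) (nat_lit 5) (nat_lit 89) (nat_lit 5) (nat_lit 328) (nat_lit 259) (nat_lit 193)))) (XT.nd (nat_lit 156) (nat_lit 380) (nat_lit 0) (XT.nd (nat_lit 78) (nat_lit 228) (nat_lit 0) (XT.lf (nat_lit 0) (nat_lit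 3641435258) (nat_lit 380) (nat_lit 4560519411) (nat_lit 76) (nat_lit 6674652595) (nat_lit 83) (nat_lit 5) (nat_lit 88) (nat_lit 5) (nat_lit 84) (nat_lit 5) (nat_lit 329) (nat_lit 259) (nat_lit 192)) (XT.lf (nat_lit 0) (nat_lit 5963549029) (nat_lit 228) (nat_lit 2233354562) (nat_lit 304) (nat_lit 6985989518) (nat_lit 80) (nat_lit 5) (nat_lit 83) (nat_lit 5) (nat_lit 84) (nat_lit 5) (nat_lit 330) (nat_lit 259) (nat_lit 191))) (XT.nd (nat_lit 78) (nat_lit 76) (nat_lit 0) (XT.lf (nat_lit 0) (nat_lit 1292335915) (nat_lit 304) (nat_lit 11618397272) (nat_lit 380) (nat_lit 2587225019) (nat_lit 76) (nat_lit 5) (nat_lit 80) (nat_lit 5) (nat_lit 81) (nat_lit 5) (nat_lit 331) (nat_lit 259) (nat_lit 190)) (XT.lf (nat_lit 0) (nat_lit 1953145872) (nat_lit 380) (nat_lit 3670144479) (nat_lit 76) (nat_lit 10198253312) (nat_lit 75) (nat_lit 5) (nat_lit 80) (nat_lit 5) (nat_lit 76) (nat_lit 5) (nat_lit 332) (nat_lit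 259) (nat_lit 189)))))) (XT.nd (nat_lit 468) (nat_lit 1064) (nat_lit 0) (XT.nd (nat_lit 234) (nat_lit 532) (nat_lit 0) (XT.nd (nat_lit 78) (nat_lit 304) (nat_lit 0) (XT.lf (nat_lit 0) (nat_lit 6603894793) (nat_lit 304) (nat_lit 8964394971) (nat_lit 76) (nat_lit 586041299) (nat_lit 72) (nat_lit 5) (nat_lit 76) (nat_lit 5) (nat_lit 73) (nat_lit 5) (nat_lit 333) (nat_lit 259) (nat_lit 188)) (XT.nd (nat_lit 78) (nat_lit 0) (nat_lit 0) (XT.lf (nat_lit 0) (nat_lit 1851753043) (nat_lit 304) (nat_lit 9576276191) (nat_lit 380) (nat_lit 5068417680) (nat_lit 68) (nat_lit 5) (nat_lit 72) (nat_lit 5) (nat_lit 73) (nat_lit 5) (nat_lit 334) (nat_lit 259) (nat_lit 187)) (XT.lf (nat_lit 0) (nat_lit 13051918551) (nat_lit 304) (nat_lit 3365692963) (nat_lit 380) (nat_lit 430821696) (nat_lit 68) (nat_lit 5) (nat_lit 72) (nat_lit 5) (nat_lit 73) (nat_lit 5) (nat_lit 335) (nat_lit 259) (nat_lit 186)))) (XT.nd (nat_lit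 78) (nat_lit 228) (nat_lit 0) (XT.lf (nat_lit 0) (nat_lit 4317749168) (nat_lit 304) (nat_lit 9846435749) (nat_lit 76) (nat_lit 3045673376) (nat_lit 64) (nat_lit 5) (nat_lit 68) (nat_lit 5) (nat_lit 65) (nat_lit 5) (nat_lit 336) (nat_lit 259) (nat_lit 185)) (XT.nd (nat_lit 78) (nat_lit 0) (nat_lit 0) (XT.lf (nat_lit 0) (nat_lit 1257941011) (nat_lit 228) (nat_lit 7963053062) (nat_lit 304) (nat_lit 8360733518) (nat_lit 61) (nat_lit 5) (nat_lit 64) (nat_lit 5) (nat_lit 65) (nat_lit 5) (nat_lit 337) (nat_lit 259) (nat_lit 184)) (XT.lf (nat_lit 0) (nat_lit 12769715272) (nat_lit 228) (nat_lit 1530537810) (nat_lit 304) (nat_lit 3663940791) (nat_lit 61) (nat_lit 5) (nat_lit 64) (nat_lit 5) (nat_lit 65) (nat_lit 5) (nat_lit 338) (nat_lit 259) (nat_lit 183))))) (XT.nd (nat_lit 234) (nat_lit 532) (nat_lit 0) (XT.nd (nat_lit 78) (nat_lit 228) (nat_lit 0) (XT.lf (nat_lit 0) (nat_lit 1195452762) (nat_lit 304)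 (nat_lit 12106932663) (nat_lit 76) (nat_lit 5054872796) (nat_lit 57) (nat_lit 5) (nat_lit 61) (nat_lit 5) (nat_lit 58) (nat_lit 5) (nat_lit 339) (nat_lit 259) (nat_lit 182)) (XT.nd (nat_lit 78) (nat_lit 228) (nat_lit 0) (XT.lf (nat_lit 0) (nat_lit 6160390159) (nat_lit 304) (nat_lit 745703805) (nat_lit 76) (nat_lit 11855363133) (nat_lit 57) (nat_lit 5) (nat_lit 61) (nat_lit 5) (nat_lit 58) (nat_lit 5) (nat_lit 340) (nat_lit 259) (nat_lit 181)) (XT.lf (nat_lit 0) (nat_lit 11044022678) (nat_lit 228) (nat_lit 266607591) (nat_lit 304) (nat_lit 7866441842) (nat_lit 54) (nat_lit 5) (nat_lit 57) (nat_lit 5) (nat_lit 58) (nat_lit 5) (nat_lit 341) (nat_lit 259) (nat_lit 180)))) (XT.nd (nat_lit 156) (nat_lit 228) (nat_lit 0) (XT.nd (nat_lit 78) (nat_lit 76) (nat_lit 0) (XT.lf (nat_lit 0) (nat_lit 3539484787) (nat_lit 228) (nat_lit 13111804063) (nat_lit 304) (nat_lit 2953165259) (nat_lit 51) (nat_lit 5) (nat_lit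 54) (nat_lit 5) (nat_lit 55) (nat_lit 5) (nat_lit 342) (nat_lit 259) (nat_lit 179)) (XT.lf (nat_lit 0) (nat_lit 2102712076) (nat_lit 304) (nat_lit 4442242768) (nat_lit 76) (nat_lit 13498988154) (nat_lit 50) (nat_lit 5) (nat_lit 54) (nat_lit 5) (nat_lit 51) (nat_lit 5) (nat_lit 343) (nat_lit 259) (nat_lit 178))) (XT.nd (nat_lit 78) (nat_lit 0) (nat_lit 0) (XT.lf (nat_lit 0) (nat_lit 7287740099) (nat_lit 304) (nat_lit 12943913251) (nat_lit 76) (nat_lit 264236357) (nat_lit 47) (nat_lit 5) (nat_lit 51) (nat_lit 5) (nat_lit 48) (nat_lit 5) (nat_lit 344) (nat_lit 259) (nat_lit 177)) (XT.lf (nat_lit 0) (nat_lit 12669461535) (nat_lit 304) (nat_lit 1092314510) (nat_lit 76) (nat_lit 7198810959) (nat_lit 47) (nat_lit 5) (nat_lit 51) (nat_lit 5) (nat_lit 48) (nat_lit 5) (nat_lit 345) (nat_lit 259) (nat_lit 176))))))) (XT.nd (nat_lit 1014) (nat_lit 380) (nat_lit 0) (XT.nd (nat_lit 468) (nat_lit 532) (nat_lit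 0) (XT.nd (nat_lit 234) (nat_lit 456) (nat_lit 0) (XT.nd (nat_lit 78) (nat_lit 304) (nat_lit 0) (XT.lf (nat_lit 0) (nat_lit 11209042995) (nat_lit 152) (nat_lit 7044399391) (nat_lit 228) (nat_lit 3184981277) (nat_lit 45) (nat_lit 5) (nat_lit 47) (nat_lit 5) (nat_lit 48) (nat_lit 5) (nat_lit 346) (nat_lit 259) (nat_lit 175)) (XT.nd (nat_lit 78) (nat_lit 0) (nat_lit 0) (XT.lf (nat_lit 0) (nat_lit 1923277658) (nat_lit 228) (nat_lit 112205580) (nat_lit 304) (nat_lit 19895089892) (nat_lit 41) (nat_lit 5) (nat_lit 44) (nat_lit 5) (nat_lit 45) (nat_lit 5) (nat_lit 347) (nat_lit 259) (nat_lit 174)) (XT.lf (nat_lit 0) (nat_lit 7453799566) (nat_lit 304) (nat_lit 7974978018) (nat_lit 76) (nat_lit 7006611749) (nat_lit 41) (nat_lit 5) (nat_lit 45) (nat_lit 5) (nat_lit 42) (nat_lit 5) (nat_lit 348) (nat_lit 259) (nat_lit 173)))) (XT.nd (nat_lit 78) (nat_lit 304) (nat_lit 0) (XT.lf (nat_lit 0) (nat_lit 4425083854)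 (nat_lit 152) (nat_lit 8608825500) (nat_lit 228) (nat_lit 9921468887) (nat_lit 39) (nat_lit 5) (nat_lit 41) (nat_lit 5) (nat_lit 42) (nat_lit 5) (nat_lit 349) (nat_lit 259) (nat_lit 172)) (XT.nd (nat_lit 78) (nat_lit 304) (nat_lit 0) (XT.lf (nat_lit 0) (nat_lit 17256619305) (nat_lit 152) (nat_lit 1549165186) (nat_lit 228) (nat_lit 4684707800) (nat_lit 39) (nat_lit 5) (nat_lit 41) (nat_lit 5) (nat_lit 42) (nat_lit 5) (nat_lit 350) (nat_lit 259) (nat_lit 171)) (XT.lf (nat_lit 0) (nat_lit 750133573) (nat_lit 304) (nat_lit 17615696592) (nat_lit 76) (nat_lit 5674744054) (nat_lit 35) (nat_lit 5) (nat_lit 39) (nat_lit 5) (nat_lit 36) (nat_lit 5) (nat_lit 351) (nat_lit 259) (nat_lit 170))))) (XT.nd (nat_lit 234) (nat_lit 380) (nat_lit 0) (XT.nd (nat_lit 78) (nat_lit 152) (nat_lit 0) (XT.lf (nat_lit 0) (nat_lit 6309009812) (nat_lit 304) (nat_lit 5147869137) (nat_lit 76) (nat_lit 13149179361) (nat_lit 35)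 (nat_lit 5) (nat_lit 39) (nat_lit 5) (nat_lit 36) (nat_lit 5) (nat_lit 352) (nat_lit 259) (nat_lit 169)) (XT.nd (nat_lit 78) (nat_lit 0) (nat_lit 0) (XT.lf (nat_lit 0) (nat_lit 7748718041) (nat_lit 152) (nat_lit 4308468613) (nat_lit 228) (nat_lit 13130880993) (nat_lit 33) (nat_lit 5) (nat_lit 35) (nat_lit 5) (nat_lit 36) (nat_lit 5) (nat_lit 353) (nat_lit 259) (nat_lit 168)) (XT.lf (nat_lit 0) (nat_lit 18005365937) (nat_lit 228) (nat_lit 4750807958) (nat_lit 76) (nat_lit 3030823304) (nat_lit 33) (nat_lit 5) (nat_lit 36) (nat_lit 5) (nat_lit 34) (nat_lit 5) (nat_lit 354) (nat_lit 259) (nat_lit 167)))) (XT.nd (nat_lit 156) (nat_lit 152) (nat_lit 0) (XT.nd (nat_lit 78) (nat_lit 76) (nat_lit 0) (XT.lf (nat_lit 0) (nat_lit 8353923148) (nat_lit 152) (nat_lit 15834528405) (nat_lit 228) (nat_lit 2214324619) (nat_lit 31) (nat_lit 5) (nat_lit 33) (nat_lit 5) (nat_lit 34) (nat_lit 5) (nat_lit 355) (nat_lit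 259) (nat_lit 166)) (XT.lf (nat_lit 0) (nat_lit 3479953541) (nat_lit 228) (nat_lit 5187469394) (nat_lit 76) (nat_lit 18369036379) (nat_lit 30) (nat_lit 5) (nat_lit 33) (nat_lit 5) (nat_lit 31) (nat_lit 5) (nat_lit 356) (nat_lit 259) (nat_lit 165))) (XT.nd (nat_lit 78) (nat_lit 0) (nat_lit 0) (XT.lf (nat_lit 0) (nat_lit 8107744870) (nat_lit 152) (nat_lit 1234520805) (nat_lit 228) (nat_lit 18346058687) (nat_lit 28) (nat_lit 5) (nat_lit 30) (nat_lit 5) (nat_lit 31) (nat_lit 5) (nat_lit 357) (nat_lit 259) (nat_lit 164)) (XT.lf (nat_lit 0) (nat_lit 15432350854) (nat_lit 228) (nat_lit 6571370736) (nat_lit 76) (nat_lit 6354995348) (nat_lit 28) (nat_lit 5) (nat_lit 31) (nat_lit 5) (nat_lit 29) (nat_lit 5) (nat_lit 358) (nat_lit 259) (nat_lit 163)))))) (XT.nd (nat_lit 33150) (nat_lit 0) (nat_lit 42028) (XT.nd (nat_lit 32916) (nat_lit 0) (nat_lit 43852) (XT.nd (nat_lit 78) (nat_lit 228) (nat_lit 0) (XT.lf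 (nat_lit 0) (nat_lit 6867965824) (nat_lit 152) (nat_lit 14865580303) (nat_lit 228) (nat_lit 7315116381) (nat_lit 26) (nat_lit 5) (nat_lit 28) (nat_lit 5) (nat_lit 29) (nat_lit 5) (nat_lit 359) (nat_lit 259) (nat_lit 162)) (XT.nd (nat_lit 78) (nat_lit 228) (nat_lit 0) (XT.lf (nat_lit 0) (nat_lit 20759146031) (nat_lit 152) (nat_lit 7485165047) (nat_lit 228) (nat_lit 1514593787) (nat_lit 26) (nat_lit 5) (nat_lit 28) (nat_lit 5) (nat_lit 29) (nat_lit 5) (nat_lit 360) (nat_lit 259) (nat_lit 161)) (XT.lf (nat_lit 0) (nat_lit 4408680073) (nat_lit 228) (nat_lit 25923650893) (nat_lit 76) (nat_lit 157408472) (nat_lit 23) (nat_lit 5) (nat_lit 26) (nat_lit 5) (nat_lit 24) (nat_lit 5) (nat_lit 361) (nat_lit 259) (nat_lit 160)))) (XT.nd (nat_lit 78) (nat_lit 228) (nat_lit 0) (XT.lf (nat_lit 0) (nat_lit 1073741823) (nat_lit 0) (nat_lit 0) (nat_lit 0) (nat_lit 0) (nat_lit 603) (nat_lit 0) (nat_lit 1) (nat_lit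 0) (nat_lit 1) (nat_lit 0) (nat_lit 260) (nat_lit 260) (nat_lit 260)) (XT.nd (nat_lit 78) (nat_lit 152) (nat_lit 0) (XT.lf (nat_lit 0) (nat_lit 4340430973) (nat_lit 76) (nat_lit 2031794314) (nat_lit 0) (nat_lit 71525371) (nat_lit 602) (nat_lit 5) (nat_lit 603) (nat_lit 0) (nat_lit 602) (nat_lit 4) (nat_lit 261) (nat_lit 260) (nat_lit 259)) (XT.lf (nat_lit 0) (nat_lit 2180723199) (nat_lit 152) (nat_lit 4008413283) (nat_lit 76) (nat_lit 259056607) (nat_lit 600) (nat_lit 5) (nat_lit 602) (nat_lit 5) (nat_lit 601) (nat_lit 4) (nat_lit 262) (nat_lit 260) (nat_lit 258))))) (XT.nd (nat_lit 234) (nat_lit 1292) (nat_lit 0) (XT.nd (nat_lit 78) (nat_lit 380) (nat_lit 0) (XT.lf (nat_lit 0) (nat_lit 523491331) (nat_lit 152) (nat_lit 5892755417) (nat_lit 228) (nat_lit 39530090) (nat_lit 598) (nat_lit 5) (nat_lit 600) (nat_lit 5) (nat_lit 601) (nat_lit 4) (nat_lit 263) (nat_lit 260) (nat_lit 257)) (XT.nd (nat_lit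 78) (nat_lit 304) (nat_lit 0) (XT.lf (nat_lit 0) (nat_lit 4122991642) (nat_lit 228) (nat_lit 1336064934) (nat_lit 76) (nat_lit 1006985947) (nat_lit 597) (nat_lit 5) (nat_lit 600) (nat_lit 5) (nat_lit 598) (nat_lit 5) (nat_lit 264) (nat_lit 260) (nat_lit 256)) (XT.lf (nat_lit 0) (nat_lit 1770213277) (nat_lit 304) (nat_lit 3137913433) (nat_lit 76) (nat_lit 1571273692) (nat_lit 593) (nat_lit 5) (nat_lit 597) (nat_lit 5) (nat_lit 594) (nat_lit 5) (nat_lit 265) (nat_lit 260) (nat_lit 255)))) (XT.nd (nat_lit 156) (nat_lit 912) (nat_lit 0) (XT.nd (nat_lit 78) (nat_lit 76) (nat_lit 0) (XT.lf (nat_lit 0) (nat_lit 1600636246) (nat_lit 304) (nat_lit 4238581161) (nat_lit 380) (nat_lit 656627029) (nat_lit 589) (nat_lit 5) (nat_lit 593) (nat_lit 5) (nat_lit 594) (nat_lit 5) (nat_lit 266) (nat_lit 260) (nat_lit 254)) (XT.lf (nat_lit 0) (nat_lit 3339957337) (nat_lit 380) (nat_lit 101191196) (nat_lit 76) (nat_lit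 3074070138) (nat_lit 588) (nat_lit 5) (nat_lit 593) (nat_lit 5) (nat_lit 589) (nat_lit 5) (nat_lit 267) (nat_lit 260) (nat_lit 253))) (XT.nd (nat_lit 78) (nat_lit 456) (nat_lit 0) (XT.lf (nat_lit 0) (nat_lit 782327841) (nat_lit 456) (nat_lit 1735048534) (nat_lit 76) (nat_lit 4020207670) (nat_lit 582) (nat_lit 5) (nat_lit 588) (nat_lit 5) (nat_lit 583) (nat_lit 5) (nat_lit 268) (nat_lit 260) (nat_lit 252)) (XT.lf (nat_lit 0) (nat_lit 3226947842) (nat_lit 456) (nat_lit 1464630315) (nat_lit 532) (nat_lit 1871346114) (nat_lit 576) (nat_lit 5) (nat_lit 582) (nat_lit 5) (nat_lit 583) (nat_lit 5) (nat_lit 269) (nat_lit 260) (nat_lit 251))))))))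
noncomputable def xc51 : XT := (XT.nd (nat_lit 2028) (nat_lit 11856) (nat_lit 0) (XT.nd (nat_lit 1014) (nat_lit 14212) (nat_lit 0) (XT.nd (nat_lit 468) (nat_lit 5548) (nat_lit 0) (XT.nd (nat_lit 234) (nat_lit 2432) (nat_lit 0) (XT.nd (nat_lit 78) (nat_lit 684) (nat_lit 0) (XT.lf (nat_lit 0) (nat_lit 1692061439) (nat_lit 532) (nat_lit 288609806) (nat_lit 608) (nat_lit 4610720040) (nat_lit 568) (nat_lit 5) (nat_lit 575) (nat_lit 5) (nat_lit 576) (nat_lit 5) (nat_lit 270) (nat_lit 260) (nat_lit 250)) (XT.nd (nat_lit 78) (nat_lit 76) (nat_lit 0) (XT.lf (nat_lit 0) (nat_lit 189262367) (nat_lit 608) (nat_lit 5624318668) (nat_lit 684) (nat_lit 809295274) (nat_lit 560) (nat_lit 5) (nat_lit 568) (nat_lit 5) (nat_lit 569) (nat_lit 5) (nat_lit 271) (nat_lit 260) (nat_lit 249)) (XT.lf (nat_lit 0) (nat_lit 2963781458) (nat_lit 684) (nat_lit 1270853927) (nat_lit 76) (nat_lit 2422515816) (nat_lit 559) (nat_lit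 5) (nat_lit 568) (nat_lit 5) (nat_lit 560) (nat_lit 5) (nat_lit 272) (nat_lit 260) (nat_lit 248)))) (XT.nd (nat_lit 78) (nat_lit 1672) (nat_lit 0) (XT.lf (nat_lit 0) (nat_lit 36923745) (nat_lit 760) (nat_lit 2689839893) (nat_lit 76) (nat_lit 3967927088) (nat_lit 549) (nat_lit 5) (nat_lit 559) (nat_lit 5) (nat_lit 550) (nat_lit 5) (nat_lit 273) (nat_lit 260) (nat_lit 247)) (XT.nd (nat_lit 78) (nat_lit 912) (nat_lit 0) (XT.lf (nat_lit 0) (nat_lit 2643651904) (nat_lit 760) (nat_lit 1080650442) (nat_lit 836) (nat_lit 3010857977) (nat_lit 539) (nat_lit 5) (nat_lit 549) (nat_lit 5) (nat_lit 550) (nat_lit 5) (nat_lit 274) (nat_lit 260) (nat_lit 246)) (XT.lf (nat_lit 0) (nat_lit 638493013) (nat_lit 912) (nat_lit 5463334942) (nat_lit 76) (nat_lit 677052672) (nat_lit 527) (nat_lit 5) (nat_lit 539) (nat_lit 5) (nat_lit 528) (nat_lit 5) (nat_lit 275) (nat_lit 260) (nat_lit 245))))) (XT.nd (nat_lit 234) (nat_lit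 3572) (nat_lit 0) (XT.nd (nat_lit 78) (nat_lit 1976) (nat_lit 0) (XT.lf (nat_lit 0) (nat_lit 4266638224) (nat_lit 912) (nat_lit 1314779) (nat_lit 76) (nat_lit 2557541238) (nat_lit 527) (nat_lit 5) (nat_lit 539) (nat_lit 5) (nat_lit 528) (nat_lit 5) (nat_lit 276) (nat_lit 260) (nat_lit 244)) (XT.nd (nat_lit 78) (nat_lit 988) (nat_lit 0) (XT.lf (nat_lit 0) (nat_lit 1029476565) (nat_lit 988) (nat_lit 1272594022) (nat_lit 76) (nat_lit 4573180649) (nat_lit 514) (nat_lit 5) (nat_lit 527) (nat_lit 5) (nat_lit 515) (nat_lit 5) (nat_lit 277) (nat_lit 260) (nat_lit 243)) (XT.lf (nat_lit 0) (nat_lit 4399967682) (nat_lit 988) (nat_lit 200013895) (nat_lit 1064) (nat_lit 2328165489) (nat_lit 501) (nat_lit 5) (nat_lit 514) (nat_lit 5) (nat_lit 515) (nat_lit 5) (nat_lit 278) (nat_lit 260) (nat_lit 242)))) (XT.nd (nat_lit 156) (nat_lit 1292) (nat_lit 0) (XT.nd (nat_lit 78) (nat_lit 1140) (nat_lit 0) (XT.lf (nat_lit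 0) (nat_lit 1203274505) (nat_lit 1140) (nat_lit 3775285257) (nat_lit 76) (nat_lit 2005558085) (nat_lit 486) (nat_lit 5) (nat_lit 501) (nat_lit 5) (nat_lit 487) (nat_lit 5) (nat_lit 279) (nat_lit 260) (nat_lit 241)) (XT.lf (nat_lit 0) (nat_lit 2030392423) (nat_lit 1140) (nat_lit 2696098271) (nat_lit 1216) (nat_lit 2316777243) (nat_lit 471) (nat_lit 5) (nat_lit 486) (nat_lit 5) (nat_lit 487) (nat_lit 5) (nat_lit 280) (nat_lit 260) (nat_lit 240))) (XT.nd (nat_lit 78) (nat_lit 0) (nat_lit 0) (XT.lf (nat_lit 0) (nat_lit 870831894) (nat_lit 1216) (nat_lit 282759718) (nat_lit 1292) (nat_lit 5952212297) (nat_lit 454) (nat_lit 5) (nat_lit 470) (nat_lit 5) (nat_lit 471) (nat_lit 5) (nat_lit 281) (nat_lit 260) (nat_lit 239)) (XT.lf (nat_lit 0) (nat_lit 4635493857) (nat_lit 1292) (nat_lit 291433041) (nat_lit 76) (nat_lit 2244350127) (nat_lit 454) (nat_lit 5) (nat_lit 471) (nat_lit 5) (nat_lit 455) (nat_lit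 5) (nat_lit 282) (nat_lit 260) (nat_lit 238)))))) (XT.nd (nat_lit 468) (nat_lit 5092) (nat_lit 0) (XT.nd (nat_lit 234) (nat_lit 4864) (nat_lit 0) (XT.nd (nat_lit 78) (nat_lit 2888) (nat_lit 0) (XT.lf (nat_lit 0) (nat_lit 902733342) (nat_lit 1368) (nat_lit 1430211257) (nat_lit 76) (nat_lit 4907130612) (nat_lit 436) (nat_lit 5) (nat_lit 454) (nat_lit 5) (nat_lit 437) (nat_lit 5) (nat_lit 283) (nat_lit 260) (nat_lit 237)) (XT.nd (nat_lit 78) (nat_lit 1520) (nat_lit 0) (XT.lf (nat_lit 0) (nat_lit 4340701162) (nat_lit 1444) (nat_lit 2571236166) (nat_lit 76) (nat_lit 400184121) (nat_lit 418) (nat_lit 5) (nat_lit 437) (nat_lit 5) (nat_lit 419) (nat_lit 5) (nat_lit 284) (nat_lit 260) (nat_lit 236)) (XT.lf (nat_lit 0) (nat_lit 435421324) (nat_lit 1520) (nat_lit 3717112662) (nat_lit 76) (nat_lit 3234929749) (nat_lit 398) (nat_lit 5) (nat_lit 418) (nat_lit 5) (nat_lit 399) (nat_lit 5) (nat_lit 285) (nat_lit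 260) (nat_lit 235)))) (XT.nd (nat_lit 78) (nat_lit 3344) (nat_lit 0) (XT.lf (nat_lit 0) (nat_lit 2593897867) (nat_lit 1520) (nat_lit 1244144321) (nat_lit 1596) (nat_lit 3628076492) (nat_lit 378) (nat_lit 5) (nat_lit 398) (nat_lit 5) (nat_lit 399) (nat_lit 5) (nat_lit 286) (nat_lit 260) (nat_lit 234)) (XT.nd (nat_lit 78) (nat_lit 1748) (nat_lit 0) (XT.lf (nat_lit 0) (nat_lit 1516345035) (nat_lit 1596) (nat_lit 5774725580) (nat_lit 1672) (nat_lit 257216555) (nat_lit 357) (nat_lit 5) (nat_lit 378) (nat_lit 5) (nat_lit 379) (nat_lit 5) (nat_lit 287) (nat_lit 260) (nat_lit 233)) (XT.lf (nat_lit 0) (nat_lit 416627312) (nat_lit 1672) (nat_lit 2703528423) (nat_lit 1748) (nat_lit 4513511231) (nat_lit 334) (nat_lit 5) (nat_lit 356) (nat_lit 5) (nat_lit 357) (nat_lit 5) (nat_lit 288) (nat_lit 260) (nat_lit 232))))) (XT.nd (nat_lit 234) (nat_lit 3192) (nat_lit 0) (XT.nd (nat_lit 78) (nat_lit 1900) (nat_lit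 0) (XT.lf (nat_lit 0) (nat_lit 6545069300) (nat_lit 1748) (nat_lit 675541151) (nat_lit 76) (nat_lit 502080741) (nat_lit 334) (nat_lit 5) (nat_lit 357) (nat_lit 5) (nat_lit 335) (nat_lit 5) (nat_lit 289) (nat_lit 260) (nat_lit 231)) (XT.nd (nat_lit 78) (nat_lit 836) (nat_lit 0) (XT.lf (nat_lit 0) (nat_lit 2193968253) (nat_lit 1064) (nat_lit 1794688930) (nat_lit 76) (nat_lit 3826236827) (nat_lit 320) (nat_lit 5) (nat_lit 334) (nat_lit 5) (nat_lit 321) (nat_lit 5) (nat_lit 290) (nat_lit 260) (nat_lit 230)) (XT.lf (nat_lit 0) (nat_lit 4985566926) (nat_lit 836) (nat_lit 611932977) (nat_lit 912) (nat_lit 2313374351) (nat_lit 309) (nat_lit 5) (nat_lit 320) (nat_lit 5) (nat_lit 321) (nat_lit 5) (nat_lit 291) (nat_lit 260) (nat_lit 229)))) (XT.nd (nat_lit 156) (nat_lit 1520) (nat_lit 0) (XT.nd (nat_lit 78) (nat_lit 760) (nat_lit 0) (XT.lf (nat_lit 0) (nat_lit 1046910238) (nat_lit 912) (nat_lit 4088874353)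 (nat_lit 76) (nat_lit 2874548327) (nat_lit 297) (nat_lit 5) (nat_lit 309) (nat_lit 5) (nat_lit 298) (nat_lit 5) (nat_lit 292) (nat_lit 260) (nat_lit 228)) (XT.lf (nat_lit 0) (nat_lit 2830249075) (nat_lit 760) (nat_lit 1602061559) (nat_lit 836) (nat_lit 3681139217) (nat_lit 287) (nat_lit 5) (nat_lit 297) (nat_lit 5) (nat_lit 298) (nat_lit 5) (nat_lit 293) (nat_lit 260) (nat_lit 227))) (XT.nd (nat_lit 78) (nat_lit 760) (nat_lit 0) (XT.lf (nat_lit 0) (nat_lit 1714068259) (nat_lit 760) (nat_lit 6172541294) (nat_lit 836) (nat_lit 333796320) (nat_lit 277) (nat_lit 5) (nat_lit 287) (nat_lit 5) (nat_lit 288) (nat_lit 5) (nat_lit 294) (nat_lit 260) (nat_lit 226)) (XT.lf (nat_lit 0) (nat_lit 551212091) (nat_lit 684) (nat_lit 2488599307) (nat_lit 760) (nat_lit 5291108984) (nat_lit 267) (nat_lit 5) (nat_lit 276) (nat_lit 5) (nat_lit 277) (nat_lit 5) (nat_lit 295) (nat_lit 260) (nat_lit 225))))))) (XT.nd (nat_lit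 1014) (nat_lit 4636) (nat_lit 0) (XT.nd (nat_lit 468) (nat_lit 3648) (nat_lit 0) (XT.nd (nat_lit 234) (nat_lit 2052) (nat_lit 0) (XT.nd (nat_lit 78) (nat_lit 1520) (nat_lit 0) (XT.lf (nat_lit 0) (nat_lit 6481168031) (nat_lit 760) (nat_lit 634138891) (nat_lit 76) (nat_lit 1330063068) (nat_lit 267) (nat_lit 5) (nat_lit 277) (nat_lit 5) (nat_lit 268) (nat_lit 5) (nat_lit 296) (nat_lit 260) (nat_lit 224)) (XT.nd (nat_lit 78) (nat_lit 684) (nat_lit 0) (XT.lf (nat_lit 0) (nat_lit 1423909572) (nat_lit 836) (nat_lit 1862146360) (nat_lit 76) (nat_lit 5277476869) (nat_lit 256) (nat_lit 5) (nat_lit 267) (nat_lit 5) (nat_lit 257) (nat_lit 5) (nat_lit 297) (nat_lit 260) (nat_lit 223)) (XT.lf (nat_lit 0) (nat_lit 4853837365) (nat_lit 760) (nat_lit 3136155854) (nat_lit 76) (nat_lit 695729265) (nat_lit 247) (nat_lit 5) (nat_lit 257) (nat_lit 5) (nat_lit 248) (nat_lit 5) (nat_lit 298) (nat_lit 260) (nat_lit 222))))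 (XT.nd (nat_lit 78) (nat_lit 1368) (nat_lit 0) (XT.lf (nat_lit 0) (nat_lit 4346633640) (nat_lit 684) (nat_lit 4026348284) (nat_lit 760) (nat_lit 438946090) (nat_lit 238) (nat_lit 5) (nat_lit 247) (nat_lit 5) (nat_lit 248) (nat_lit 5) (nat_lit 299) (nat_lit 260) (nat_lit 221)) (XT.nd (nat_lit 78) (nat_lit 684) (nat_lit 0) (XT.lf (nat_lit 0) (nat_lit 2982394588) (nat_lit 684) (nat_lit 5852881240) (nat_lit 76) (nat_lit 106986115) (nat_lit 229) (nat_lit 5) (nat_lit 238) (nat_lit 5) (nat_lit 230) (nat_lit 5) (nat_lit 300) (nat_lit 260) (nat_lit 220)) (XT.lf (nat_lit 0) (nat_lit 1763103990) (nat_lit 684) (nat_lit 4732286709) (nat_lit 760) (nat_lit 2581228312) (nat_lit 220) (nat_lit 5) (nat_lit 229) (nat_lit 5) (nat_lit 230) (nat_lit 5) (nat_lit 301) (nat_lit 260) (nat_lit 219))))) (XT.nd (nat_lit 234) (nat_lit 2356) (nat_lit 0) (XT.nd (nat_lit 78) (nat_lit 608) (nat_lit 0) (XT.lf (nat_lit 0) (nat_lit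 386930372) (nat_lit 608) (nat_lit 469657841) (nat_lit 684) (nat_lit 8358977074) (nat_lit 211) (nat_lit 5) (nat_lit 219) (nat_lit 5) (nat_lit 220) (nat_lit 5) (nat_lit 302) (nat_lit 260) (nat_lit 218)) (XT.nd (nat_lit 78) (nat_lit 608) (nat_lit 0) (XT.lf (nat_lit 0) (nat_lit 4366675469) (nat_lit 684) (nat_lit 1067773934) (nat_lit 76) (nat_lit 3923870568) (nat_lit 211) (nat_lit 5) (nat_lit 220) (nat_lit 5) (nat_lit 212) (nat_lit 5) (nat_lit 303) (nat_lit 260) (nat_lit 217)) (XT.lf (nat_lit 0) (nat_lit 6930623728) (nat_lit 608) (nat_lit 1030319909) (nat_lit 684) (nat_lit 1544899550) (nat_lit 203) (nat_lit 5) (nat_lit 211) (nat_lit 5) (nat_lit 212) (nat_lit 5) (nat_lit 304) (nat_lit 260) (nat_lit 216)))) (XT.nd (nat_lit 156) (nat_lit 1140) (nat_lit 0) (XT.nd (nat_lit 78) (nat_lit 608) (nat_lit 0) (XT.lf (nat_lit 0) (nat_lit 1976714147) (nat_lit 608) (nat_lit 4178764290) (nat_lit 76) (nat_lit 3502158361)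 (nat_lit 195) (nat_lit 5) (nat_lit 203) (nat_lit 5) (nat_lit 196) (nat_lit 5) (nat_lit 305) (nat_lit 260) (nat_lit 215)) (XT.lf (nat_lit 0) (nat_lit 3948018758) (nat_lit 608) (nat_lit 1618260633) (nat_lit 684) (nat_lit 4247893386) (nat_lit 187) (nat_lit 5) (nat_lit 195) (nat_lit 5) (nat_lit 196) (nat_lit 5) (nat_lit 306) (nat_lit 260) (nat_lit 214))) (XT.nd (nat_lit 78) (nat_lit 608) (nat_lit 0) (XT.lf (nat_lit 0) (nat_lit 2328938846) (nat_lit 532) (nat_lit 6932455439) (nat_lit 608) (nat_lit 714110228) (nat_lit 180) (nat_lit 5) (nat_lit 187) (nat_lit 5) (nat_lit 188) (nat_lit 5) (nat_lit 307) (nat_lit 260) (nat_lit 213)) (XT.lf (nat_lit 0) (nat_lit 605030889) (nat_lit 532) (nat_lit 2272354583) (nat_lit 608) (nat_lit 7264163611) (nat_lit 172) (nat_lit 5) (nat_lit 179) (nat_lit 5) (nat_lit 180) (nat_lit 5) (nat_lit 308) (nat_lit 260) (nat_lit 212)))))) (XT.nd (nat_lit 468) (nat_lit 2584) (nat_lit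 0) (XT.nd (nat_lit 234) (nat_lit 988) (nat_lit 0) (XT.nd (nat_lit 78) (nat_lit 1064) (nat_lit 0) (XT.lf (nat_lit 0) (nat_lit 6572100528) (nat_lit 608) (nat_lit 1206222377) (nat_lit 76) (nat_lit 2534106763) (nat_lit 172) (nat_lit 5) (nat_lit 180) (nat_lit 5) (nat_lit 173) (nat_lit 5) (nat_lit 309) (nat_lit 260) (nat_lit 211)) (XT.nd (nat_lit 78) (nat_lit 608) (nat_lit 0) (XT.lf (nat_lit 0) (nat_lit 7375913582) (nat_lit 456) (nat_lit 3003228938) (nat_lit 532) (nat_lit 109315519) (nat_lit 166) (nat_lit 5) (nat_lit 172) (nat_lit 5) (nat_lit 173) (nat_lit 5) (nat_lit 310) (nat_lit 260) (nat_lit 210)) (XT.lf (nat_lit 0) (nat_lit 3579158982) (nat_lit 608) (nat_lit 5150263696) (nat_lit 76) (nat_lit 1939998817) (nat_lit 158) (nat_lit 5) (nat_lit 166) (nat_lit 5) (nat_lit 159) (nat_lit 5) (nat_lit 311) (nat_lit 260) (nat_lit 209)))) (XT.nd (nat_lit 78) (nat_lit 532) (nat_lit 0) (XT.lf (nat_lit 0) (nat_lit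 3543536813) (nat_lit 456) (nat_lit 3837978295) (nat_lit 532) (nat_lit 3474237248) (nat_lit 152) (nat_lit 5) (nat_lit 158) (nat_lit 5) (nat_lit 159) (nat_lit 5) (nat_lit 312) (nat_lit 260) (nat_lit 208)) (XT.nd (nat_lit 78) (nat_lit 0) (nat_lit 0) (XT.lf (nat_lit 0) (nat_lit 240751881) (nat_lit 532) (nat_lit 9595520446) (nat_lit 76) (nat_lit 1211537938) (nat_lit 145) (nat_lit 5) (nat_lit 152) (nat_lit 5) (nat_lit 146) (nat_lit 5) (nat_lit 313) (nat_lit 260) (nat_lit 207)) (XT.lf (nat_lit 0) (nat_lit 4038068304) (nat_lit 532) (nat_lit 792391184) (nat_lit 76) (nat_lit 6414393174) (nat_lit 145) (nat_lit 5) (nat_lit 152) (nat_lit 5) (nat_lit 146) (nat_lit 5) (nat_lit 314) (nat_lit 260) (nat_lit 206))))) (XT.nd (nat_lit 234) (nat_lit 1216) (nat_lit 0) (XT.nd (nat_lit 78) (nat_lit 912) (nat_lit 0) (XT.lf (nat_lit 0) (nat_lit 7949531442) (nat_lit 532) (nat_lit 3142505819) (nat_lit 76) (nat_lit 355806875)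 (nat_lit 139) (nat_lit 5) (nat_lit 146) (nat_lit 5) (nat_lit 140) (nat_lit 5) (nat_lit 315) (nat_lit 260) (nat_lit 205)) (XT.nd (nat_lit 78) (nat_lit 380) (nat_lit 0) (XT.lf (nat_lit 0) (nat_lit 338932958) (nat_lit 532) (nat_lit 5658215397) (nat_lit 76) (nat_lit 5659340869) (nat_lit 132) (nat_lit 5) (nat_lit 139) (nat_lit 5) (nat_lit 133) (nat_lit 5) (nat_lit 316) (nat_lit 260) (nat_lit 204)) (XT.lf (nat_lit 0) (nat_lit 3532751399) (nat_lit 380) (nat_lit 701346390) (nat_lit 456) (nat_lit 7637065933) (nat_lit 127) (nat_lit 5) (nat_lit 132) (nat_lit 5) (nat_lit 133) (nat_lit 5) (nat_lit 317) (nat_lit 260) (nat_lit 203)))) (XT.nd (nat_lit 156) (nat_lit 760) (nat_lit 0) (XT.nd (nat_lit 78) (nat_lit 76) (nat_lit 0) (XT.lf (nat_lit 0) (nat_lit 890840736) (nat_lit 380) (nat_lit 7377169550) (nat_lit 456) (nat_lit 3823868310) (nat_lit 122) (nat_lit 5) (nat_lit 127) (nat_lit 5) (nat_lit 128) (nat_lit 5)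 (nat_lit 318) (nat_lit 260) (nat_lit 202)) (XT.lf (nat_lit 0) (nat_lit 111275719) (nat_lit 456) (nat_lit 1887344385) (nat_lit 76) (nat_lit 10320439294) (nat_lit 121) (nat_lit 5) (nat_lit 127) (nat_lit 5) (nat_lit 122) (nat_lit 5) (nat_lit 319) (nat_lit 260) (nat_lit 201))) (XT.nd (nat_lit 78) (nat_lit 380) (nat_lit 0) (XT.lf (nat_lit 0) (nat_lit 4135100805) (nat_lit 456) (nat_lit 4867121562) (nat_lit 76) (nat_lit 3549911291) (nat_lit 116) (nat_lit 5) (nat_lit 122) (nat_lit 5) (nat_lit 117) (nat_lit 5) (nat_lit 320) (nat_lit 260) (nat_lit 200)) (XT.lf (nat_lit 0) (nat_lit 4755163817) (nat_lit 380) (nat_lit 3531355226) (nat_lit 456) (nat_lit 4505577628) (nat_lit 111) (nat_lit 5) (nat_lit 116) (nat_lit 5) (nat_lit 117) (nat_lit 5) (nat_lit 321) (nat_lit 260) (nat_lit 199))))))))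
noncomputable def xc52 : XT := (XT.nd (nat_lit 2028) (nat_lit 1444) (nat_lit 0) (XT.nd (nat_lit 1014) (nat_lit 2052) (nat_lit 0) (XT.nd (nat_lit 468) (nat_lit 1520) (nat_lit 0) (XT.nd (nat_lit 234) (nat_lit 684) (nat_lit 0) (XT.nd (nat_lit 78) (nat_lit 456) (nat_lit 0) (XT.lf (nat_lit 0) (nat_lit 1629753443) (nat_lit 304) (nat_lit 10940791464) (nat_lit 380) (nat_lit 468585462) (nat_lit 107) (nat_lit 5) (nat_lit 111) (nat_lit 5) (nat_lit 112) (nat_lit 5) (nat_lit 322) (nat_lit 260) (nat_lit 198)) (XT.nd (nat_lit 78) (nat_lit 380) (nat_lit 0) (XT.lf (nat_lit 0) (nat_lit 3670817569) (nat_lit 380) (nat_lit 1715364171) (nat_lit 76) (nat_lit 7906351951) (nat_lit 106) (nat_lit 5) (nat_lit 111) (nat_lit 5) (nat_lit 107) (nat_lit 5) (nat_lit 323) (nat_lit 260) (nat_lit 197)) (XT.lf (nat_lit 0) (nat_lit 7937083465) (nat_lit 456) (nat_lit 5249834931) (nat_lit 76) (nat_lit 366408416) (nat_lit 101) (nat_lit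 5) (nat_lit 107) (nat_lit 5) (nat_lit 102) (nat_lit 5) (nat_lit 324) (nat_lit 260) (nat_lit 196)))) (XT.nd (nat_lit 78) (nat_lit 380) (nat_lit 0) (XT.lf (nat_lit 0) (nat_lit 4782296401) (nat_lit 304) (nat_lit 7581277949) (nat_lit 380) (nat_lit 1457754331) (nat_lit 97) (nat_lit 5) (nat_lit 101) (nat_lit 5) (nat_lit 102) (nat_lit 5) (nat_lit 325) (nat_lit 260) (nat_lit 195)) (XT.nd (nat_lit 78) (nat_lit 0) (nat_lit 0) (XT.lf (nat_lit 0) (nat_lit 1016818989) (nat_lit 304) (nat_lit 1768076109) (nat_lit 380) (nat_lit 11312207623) (nat_lit 92) (nat_lit 5) (nat_lit 96) (nat_lit 5) (nat_lit 97) (nat_lit 5) (nat_lit 326) (nat_lit 260) (nat_lit 194)) (XT.lf (nat_lit 0) (nat_lit 7178990578) (nat_lit 380) (nat_lit 2987602416) (nat_lit 76) (nat_lit 4213512280) (nat_lit 92) (nat_lit 5) (nat_lit 97) (nat_lit 5) (nat_lit 93) (nat_lit 5) (nat_lit 327) (nat_lit 260) (nat_lit 193))))) (XT.nd (nat_lit 234) (nat_lit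 836) (nat_lit 0) (XT.nd (nat_lit 78) (nat_lit 380) (nat_lit 0) (XT.lf (nat_lit 0) (nat_lit 7427230588) (nat_lit 304) (nat_lit 4293847013) (nat_lit 380) (nat_lit 2950223572) (nat_lit 88) (nat_lit 5) (nat_lit 92) (nat_lit 5) (nat_lit 93) (nat_lit 5) (nat_lit 328) (nat_lit 260) (nat_lit 192)) (XT.nd (nat_lit 78) (nat_lit 0) (nat_lit 0) (XT.lf (nat_lit 0) (nat_lit 1418812312) (nat_lit 380) (nat_lit 11791419403) (nat_lit 76) (nat_lit 1760654156) (nat_lit 83) (nat_lit 5) (nat_lit 88) (nat_lit 5) (nat_lit 84) (nat_lit 5) (nat_lit 329) (nat_lit 260) (nat_lit 191)) (XT.lf (nat_lit 0) (nat_lit 5914558897) (nat_lit 380) (nat_lit 1377783254) (nat_lit 76) (nat_lit 7986036129) (nat_lit 83) (nat_lit 5) (nat_lit 88) (nat_lit 5) (nat_lit 84) (nat_lit 5) (nat_lit 330) (nat_lit 260) (nat_lit 190)))) (XT.nd (nat_lit 156) (nat_lit 304) (nat_lit 0) (XT.nd (nat_lit 78) (nat_lit 304) (nat_lit 0) (XT.lf (nat_lit 0) (nat_lit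 9408151456) (nat_lit 228) (nat_lit 1156717240) (nat_lit 304) (nat_lit 5029856852) (nat_lit 80) (nat_lit 5) (nat_lit 83) (nat_lit 5) (nat_lit 84) (nat_lit 5) (nat_lit 331) (nat_lit 260) (nat_lit 189)) (XT.lf (nat_lit 0) (nat_lit 4579461235) (nat_lit 304) (nat_lit 10807143893) (nat_lit 380) (nat_lit 533342966) (nat_lit 76) (nat_lit 5) (nat_lit 80) (nat_lit 5) (nat_lit 81) (nat_lit 5) (nat_lit 332) (nat_lit 260) (nat_lit 188))) (XT.nd (nat_lit 78) (nat_lit 228) (nat_lit 0) (XT.lf (nat_lit 0) (nat_lit 4054015796) (nat_lit 380) (nat_lit 598243962) (nat_lit 76) (nat_lit 11601963575) (nat_lit 75) (nat_lit 5) (nat_lit 80) (nat_lit 5) (nat_lit 76) (nat_lit 5) (nat_lit 333) (nat_lit 260) (nat_lit 187)) (XT.lf (nat_lit 0) (nat_lit 8812446885) (nat_lit 304) (nat_lit 6069114363) (nat_lit 76) (nat_lit 1716102567) (nat_lit 72) (nat_lit 5) (nat_lit 76) (nat_lit 5) (nat_lit 73) (nat_lit 5) (nat_lit 334) (nat_lit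 260) (nat_lit 186)))))) (XT.nd (nat_lit 468) (nat_lit 912) (nat_lit 0) (XT.nd (nat_lit 234) (nat_lit 532) (nat_lit 0) (XT.nd (nat_lit 78) (nat_lit 304) (nat_lit 0) (XT.lf (nat_lit 0) (nat_lit 5020182503) (nat_lit 304) (nat_lit 8722777351) (nat_lit 380) (nat_lit 3207881901) (nat_lit 68) (nat_lit 5) (nat_lit 72) (nat_lit 5) (nat_lit 73) (nat_lit 5) (nat_lit 335) (nat_lit 260) (nat_lit 185)) (XT.nd (nat_lit 78) (nat_lit 228) (nat_lit 0) (XT.lf (nat_lit 0) (nat_lit 1490416040) (nat_lit 380) (nat_lit 858685918) (nat_lit 76) (nat_lit 14965269143) (nat_lit 67) (nat_lit 5) (nat_lit 72) (nat_lit 5) (nat_lit 68) (nat_lit 5) (nat_lit 336) (nat_lit 260) (nat_lit 184)) (XT.lf (nat_lit 0) (nat_lit 6346124964) (nat_lit 304) (nat_lit 7110832096) (nat_lit 76) (nat_lit 4230243537) (nat_lit 64) (nat_lit 5) (nat_lit 68) (nat_lit 5) (nat_lit 65) (nat_lit 5) (nat_lit 337) (nat_lit 260) (nat_lit 183)))) (XT.nd (nat_lit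 78) (nat_lit 304) (nat_lit 0) (XT.lf (nat_lit 0) (nat_lit 4277501646) (nat_lit 228) (nat_lit 7083019424) (nat_lit 304) (nat_lit 6710452271) (nat_lit 61) (nat_lit 5) (nat_lit 64) (nat_lit 5) (nat_lit 65) (nat_lit 5) (nat_lit 338) (nat_lit 260) (nat_lit 182)) (XT.nd (nat_lit 78) (nat_lit 304) (nat_lit 0) (XT.lf (nat_lit 0) (nat_lit 16047779938) (nat_lit 228) (nat_lit 490118770) (nat_lit 304) (nat_lit 1928127702) (nat_lit 61) (nat_lit 5) (nat_lit 64) (nat_lit 5) (nat_lit 65) (nat_lit 5) (nat_lit 339) (nat_lit 260) (nat_lit 181)) (XT.lf (nat_lit 0) (nat_lit 3025486327) (nat_lit 304) (nat_lit 9567862472) (nat_lit 76) (nat_lit 6277867586) (nat_lit 57) (nat_lit 5) (nat_lit 61) (nat_lit 5) (nat_lit 58) (nat_lit 5) (nat_lit 340) (nat_lit 260) (nat_lit 180))))) (XT.nd (nat_lit 234) (nat_lit 456) (nat_lit 0) (XT.nd (nat_lit 78) (nat_lit 228) (nat_lit 0) (XT.lf (nat_lit 0) (nat_lit 2076909924) (nat_lit 228)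 (nat_lit 6023689220) (nat_lit 304) (nat_lit 11187743057) (nat_lit 54) (nat_lit 5) (nat_lit 57) (nat_lit 5) (nat_lit 58) (nat_lit 5) (nat_lit 341) (nat_lit 260) (nat_lit 179)) (XT.nd (nat_lit 78) (nat_lit 228) (nat_lit 0) (XT.lf (nat_lit 0) (nat_lit 13364242171) (nat_lit 304) (nat_lit 5575118151) (nat_lit 76) (nat_lit 777912205) (nat_lit 54) (nat_lit 5) (nat_lit 58) (nat_lit 5) (nat_lit 55) (nat_lit 5) (nat_lit 342) (nat_lit 260) (nat_lit 178)) (XT.lf (nat_lit 0) (nat_lit 6400380231) (nat_lit 228) (nat_lit 12434425818) (nat_lit 304) (nat_lit 1323300280) (nat_lit 51) (nat_lit 5) (nat_lit 54) (nat_lit 5) (nat_lit 55) (nat_lit 5) (nat_lit 343) (nat_lit 260) (nat_lit 177)))) (XT.nd (nat_lit 156) (nat_lit 152) (nat_lit 0) (XT.nd (nat_lit 78) (nat_lit 228) (nat_lit 0) (XT.lf (nat_lit 0) (nat_lit 3812319676) (nat_lit 304) (nat_lit 1878388769) (nat_lit 76) (nat_lit 14920859104) (nat_lit 50) (nat_lit 5)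 (nat_lit 54) (nat_lit 5) (nat_lit 51) (nat_lit 5) (nat_lit 344) (nat_lit 260) (nat_lit 176)) (XT.lf (nat_lit 0) (nat_lit 9128905436) (nat_lit 304) (nat_lit 10652546614) (nat_lit 76) (nat_lit 1296122702) (nat_lit 47) (nat_lit 5) (nat_lit 51) (nat_lit 5) (nat_lit 48) (nat_lit 5) (nat_lit 345) (nat_lit 260) (nat_lit 175))) (XT.nd (nat_lit 78) (nat_lit 0) (nat_lit 0) (XT.lf (nat_lit 0) (nat_lit 1496173625) (nat_lit 152) (nat_lit 13138360795) (nat_lit 228) (nat_lit 6922451012) (nat_lit 45) (nat_lit 5) (nat_lit 47) (nat_lit 5) (nat_lit 48) (nat_lit 5) (nat_lit 346) (nat_lit 260) (nat_lit 174)) (XT.lf (nat_lit 0) (nat_lit 14104740834) (nat_lit 152) (nat_lit 6242315415) (nat_lit 228) (nat_lit 1702901465) (nat_lit 45) (nat_lit 5) (nat_lit 47) (nat_lit 5) (nat_lit 48) (nat_lit 5) (nat_lit 347) (nat_lit 260) (nat_lit 173))))))) (XT.nd (nat_lit 1014) (nat_lit 0) (nat_lit 0) (XT.nd (nat_lit 468) (nat_lit 684)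 (nat_lit 0) (XT.nd (nat_lit 234) (nat_lit 304) (nat_lit 0) (XT.nd (nat_lit 78) (nat_lit 152) (nat_lit 0) (XT.lf (nat_lit 0) (nat_lit 3630435588) (nat_lit 304) (nat_lit 18043169067) (nat_lit 76) (nat_lit 883543104) (nat_lit 41) (nat_lit 5) (nat_lit 45) (nat_lit 5) (nat_lit 42) (nat_lit 5) (nat_lit 348) (nat_lit 260) (nat_lit 172)) (XT.nd (nat_lit 78) (nat_lit 152) (nat_lit 0) (XT.lf (nat_lit 0) (nat_lit 9167353572) (nat_lit 304) (nat_lit 5725300270) (nat_lit 76) (nat_lit 8185352925) (nat_lit 41) (nat_lit 5) (nat_lit 45) (nat_lit 5) (nat_lit 42) (nat_lit 5) (nat_lit 349) (nat_lit 260) (nat_lit 171)) (XT.lf (nat_lit 0) (nat_lit 7006383573) (nat_lit 152) (nat_lit 7880984362) (nat_lit 228) (nat_lit 8726796180) (nat_lit 39) (nat_lit 5) (nat_lit 41) (nat_lit 5) (nat_lit 42) (nat_lit 5) (nat_lit 350) (nat_lit 260) (nat_lit 170)))) (XT.nd (nat_lit 78) (nat_lit 304) (nat_lit 0) (XT.lf (nat_lit 0) (nat_lit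 20151548180) (nat_lit 152) (nat_lit 638255770) (nat_lit 228) (nat_lit 3376397798) (nat_lit 39) (nat_lit 5) (nat_lit 41) (nat_lit 5) (nat_lit 42) (nat_lit 5) (nat_lit 351) (nat_lit 260) (nat_lit 169)) (XT.nd (nat_lit 78) (nat_lit 0) (nat_lit 0) (XT.lf (nat_lit 0) (nat_lit 2182346902) (nat_lit 304) (nat_lit 15763771937) (nat_lit 76) (nat_lit 6786899329) (nat_lit 35) (nat_lit 5) (nat_lit 39) (nat_lit 5) (nat_lit 36) (nat_lit 5) (nat_lit 352) (nat_lit 260) (nat_lit 168)) (XT.lf (nat_lit 0) (nat_lit 7866929933) (nat_lit 304) (nat_lit 2991241567) (nat_lit 76) (nat_lit 14458133337) (nat_lit 35) (nat_lit 5) (nat_lit 39) (nat_lit 5) (nat_lit 36) (nat_lit 5) (nat_lit 353) (nat_lit 260) (nat_lit 167))))) (XT.nd (nat_lit 234) (nat_lit 380) (nat_lit 0) (XT.nd (nat_lit 78) (nat_lit 152) (nat_lit 0) (XT.lf (nat_lit 0) (nat_lit 10254748964) (nat_lit 152) (nat_lit 3507701049) (nat_lit 228) (nat_lit 12153842858)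 (nat_lit 33) (nat_lit 5) (nat_lit 35) (nat_lit 5) (nat_lit 36) (nat_lit 5) (nat_lit 354) (nat_lit 260) (nat_lit 166)) (XT.nd (nat_lit 78) (nat_lit 152) (nat_lit 0) (XT.lf (nat_lit 0) (nat_lit 19855804660) (nat_lit 228) (nat_lit 2665227469) (nat_lit 76) (nat_lit 4012839480) (nat_lit 33) (nat_lit 5) (nat_lit 36) (nat_lit 5) (nat_lit 34) (nat_lit 5) (nat_lit 355) (nat_lit 260) (nat_lit 165)) (XT.lf (nat_lit 0) (nat_lit 10796497219) (nat_lit 152) (nat_lit 15403953832) (nat_lit 228) (nat_lit 968166973) (nat_lit 31) (nat_lit 5) (nat_lit 33) (nat_lit 5) (nat_lit 34) (nat_lit 5) (nat_lit 356) (nat_lit 260) (nat_lit 164)))) (XT.nd (nat_lit 156) (nat_lit 152) (nat_lit 0) (XT.nd (nat_lit 78) (nat_lit 152) (nat_lit 0) (XT.lf (nat_lit 0) (nat_lit 4841995414) (nat_lit 228) (nat_lit 3197777337) (nat_lit 76) (nat_lit 19782137742) (nat_lit 30) (nat_lit 5) (nat_lit 33) (nat_lit 5) (nat_lit 31) (nat_lit 5) (nat_lit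 357) (nat_lit 260) (nat_lit 163)) (XT.lf (nat_lit 0) (nat_lit 10461488149) (nat_lit 152) (nat_lit 395761214) (nat_lit 228) (nat_lit 17636554945) (nat_lit 28) (nat_lit 5) (nat_lit 30) (nat_lit 5) (nat_lit 31) (nat_lit 5) (nat_lit 358) (nat_lit 260) (nat_lit 162))) (XT.nd (nat_lit 78) (nat_lit 152) (nat_lit 0) (XT.lf (nat_lit 0) (nat_lit 17099595128) (nat_lit 228) (nat_lit 4700556056) (nat_lit 76) (nat_lit 7384780163) (nat_lit 28) (nat_lit 5) (nat_lit 31) (nat_lit 5) (nat_lit 29) (nat_lit 5) (nat_lit 359) (nat_lit 260) (nat_lit 161)) (XT.lf (nat_lit 0) (nat_lit 9108410473) (nat_lit 152) (nat_lit 14459548562) (nat_lit 228) (nat_lit 6328067040) (nat_lit 26) (nat_lit 5) (nat_lit 28) (nat_lit 5) (nat_lit 29) (nat_lit 5) (nat_lit 360) (nat_lit 260) (nat_lit 160)))))) (XT.nd (nat_lit 33228) (nat_lit 0) (nat_lit 40508) (XT.nd (nat_lit 32994) (nat_lit 0) (nat_lit 43016) (XT.nd (nat_lit 32838) (nat_lit 0)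 (nat_lit 43548) (XT.lf (nat_lit 0) (nat_lit 23357071552) (nat_lit 152) (nat_lit 6882536357) (nat_lit 228) (nat_lit 388669626) (nat_lit 26) (nat_lit 5) (nat_lit 28) (nat_lit 5) (nat_lit 29) (nat_lit 5) (nat_lit 361) (nat_lit 260) (nat_lit 159)) (XT.nd (nat_lit 78) (nat_lit 0) (nat_lit 0) (XT.lf (nat_lit 0) (nat_lit 1060695031) (nat_lit 228) (nat_lit 1081308174) (nat_lit 228) (nat_lit 1081308174) (nat_lit 599) (nat_lit 3) (nat_lit 602) (nat_lit 3) (nat_lit 602) (nat_lit 5) (nat_lit 261) (nat_lit 261) (nat_lit 258)) (XT.lf (nat_lit 76) (nat_lit 2252340177) (nat_lit 0) (nat_lit 4041348367) (nat_lit 228) (nat_lit 158942769) (nat_lit 600) (nat_lit 5) (nat_lit 599) (nat_lit 3) (nat_lit 602) (nat_lit 5) (nat_lit 262) (nat_lit 261) (nat_lit 257)))) (XT.nd (nat_lit 78) (nat_lit 304) (nat_lit 0) (XT.lf (nat_lit 76) (nat_lit 261488632) (nat_lit 0) (nat_lit 3670164961) (nat_lit 304) (nat_lit 2529861201) (nat_lit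 597) (nat_lit 5) (nat_lit 596) (nat_lit 5) (nat_lit 600) (nat_lit 5) (nat_lit 263) (nat_lit 261) (nat_lit 256)) (XT.nd (nat_lit 78) (nat_lit 0) (nat_lit 0) (XT.lf (nat_lit 0) (nat_lit 1518812222) (nat_lit 304) (nat_lit 1654437089) (nat_lit 380) (nat_lit 3300092782) (nat_lit 592) (nat_lit 5) (nat_lit 596) (nat_lit 5) (nat_lit 597) (nat_lit 5) (nat_lit 264) (nat_lit 261) (nat_lit 255)) (XT.lf (nat_lit 76) (nat_lit 2965163457) (nat_lit 0) (nat_lit 2553443641) (nat_lit 380) (nat_lit 969580690) (nat_lit 593) (nat_lit 5) (nat_lit 592) (nat_lit 5) (nat_lit 597) (nat_lit 5) (nat_lit 265) (nat_lit 261) (nat_lit 254))))) (XT.nd (nat_lit 234) (nat_lit 1672) (nat_lit 0) (XT.nd (nat_lit 78) (nat_lit 456) (nat_lit 0) (XT.lf (nat_lit 76) (nat_lit 1152173373) (nat_lit 0) (nat_lit 1807697127) (nat_lit 456) (nat_lit 3546145152) (nat_lit 588) (nat_lit 5) (nat_lit 587) (nat_lit 5) (nat_lit 593) (nat_lit 5) (nat_lit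 266) (nat_lit 261) (nat_lit 253)) (XT.nd (nat_lit 78) (nat_lit 0) (nat_lit 76) (XT.lf (nat_lit 0) (nat_lit 337650893) (nat_lit 456) (nat_lit 603816156) (nat_lit 532) (nat_lit 5585493993) (nat_lit 581) (nat_lit 5) (nat_lit 587) (nat_lit 5) (nat_lit 588) (nat_lit 5) (nat_lit 267) (nat_lit 261) (nat_lit 252)) (XT.lf (nat_lit 0) (nat_lit 4172324715) (nat_lit 456) (nat_lit 2314134481) (nat_lit 76) (nat_lit 64201074) (nat_lit 582) (nat_lit 5) (nat_lit 588) (nat_lit 5) (nat_lit 583) (nat_lit 5) (nat_lit 268) (nat_lit 261) (nat_lit 251)))) (XT.nd (nat_lit 156) (nat_lit 684) (nat_lit 0) (XT.nd (nat_lit 78) (nat_lit 532) (nat_lit 0) (XT.lf (nat_lit 0) (nat_lit 1411398655) (nat_lit 532) (nat_lit 3989499493) (nat_lit 76) (nat_lit 1176510378) (nat_lit 575) (nat_lit 5) (nat_lit 582) (nat_lit 5) (nat_lit 576) (nat_lit 5) (nat_lit 269) (nat_lit 261) (nat_lit 250)) (XT.lf (nat_lit 0) (nat_lit 974414158) (nat_lit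 532) (nat_lit 4191260547) (nat_lit 608) (nat_lit 1441533383) (nat_lit 568) (nat_lit 5) (nat_lit 575) (nat_lit 5) (nat_lit 576) (nat_lit 5) (nat_lit 270) (nat_lit 261) (nat_lit 249))) (XT.nd (nat_lit 78) (nat_lit 608) (nat_lit 0) (XT.lf (nat_lit 0) (nat_lit 2253735398) (nat_lit 608) (nat_lit 598265987) (nat_lit 76) (nat_lit 3787995610) (nat_lit 567) (nat_lit 5) (nat_lit 575) (nat_lit 5) (nat_lit 568) (nat_lit 5) (nat_lit 271) (nat_lit 261) (nat_lit 248)) (XT.lf (nat_lit 0) (nat_lit 4552871996) (nat_lit 608) (nat_lit 1384311812) (nat_lit 684) (nat_lit 738666391) (nat_lit 559) (nat_lit 5) (nat_lit 567) (nat_lit 5) (nat_lit 568) (nat_lit 5) (nat_lit 272) (nat_lit 261) (nat_lit 247))))))))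
noncomputable def xc53 : XT := (XT.nd (nat_lit 2028) (nat_lit 11096) (nat_lit 0) (XT.nd (nat_lit 1014) (nat_lit 11476) (nat_lit 0) (XT.nd (nat_lit 468) (nat_lit 7752) (nat_lit 0) (XT.nd (nat_lit 234) (nat_lit 2052) (nat_lit 0) (XT.nd (nat_lit 78) (nat_lit 1672) (nat_lit 0) (XT.lf (nat_lit 0) (nat_lit 2873828599) (nat_lit 760) (nat_lit 3626249612) (nat_lit 76) (nat_lit 214606926) (nat_lit 549) (nat_lit 5) (nat_lit 559) (nat_lit 5) (nat_lit 550) (nat_lit 5) (nat_lit 273) (nat_lit 261) (nat_lit 246)) (XT.nd (nat_lit 78) (nat_lit 912) (nat_lit 0) (XT.lf (nat_lit 0) (nat_lit 1651520355) (nat_lit 760) (nat_lit 4840705509) (nat_lit 836) (nat_lit 264403790) (nat_lit 539) (nat_lit 5) (nat_lit 549) (nat_lit 5) (nat_lit 550) (nat_lit 5) (nat_lit 274) (nat_lit 261) (nat_lit 245)) (XT.lf (nat_lit 0) (nat_lit 231453987) (nat_lit 836) (nat_lit 3044464303) (nat_lit 912) (nat_lit 3525625908) (nat_lit 527) (nat_lit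 5) (nat_lit 538) (nat_lit 5) (nat_lit 539) (nat_lit 5) (nat_lit 275) (nat_lit 261) (nat_lit 244)))) (XT.nd (nat_lit 78) (nat_lit 2052) (nat_lit 0) (XT.lf (nat_lit 0) (nat_lit 5710478483) (nat_lit 836) (nat_lit 1121243835) (nat_lit 912) (nat_lit 17970377) (nat_lit 527) (nat_lit 5) (nat_lit 538) (nat_lit 5) (nat_lit 539) (nat_lit 5) (nat_lit 276) (nat_lit 261) (nat_lit 243)) (XT.nd (nat_lit 78) (nat_lit 1064) (nat_lit 0) (XT.lf (nat_lit 0) (nat_lit 3463361642) (nat_lit 988) (nat_lit 2502920571) (nat_lit 76) (nat_lit 934394882) (nat_lit 514) (nat_lit 5) (nat_lit 527) (nat_lit 5) (nat_lit 515) (nat_lit 5) (nat_lit 277) (nat_lit 261) (nat_lit 242)) (XT.lf (nat_lit 0) (nat_lit 13206108) (nat_lit 1064) (nat_lit 3844839599) (nat_lit 76) (nat_lit 3096917266) (nat_lit 500) (nat_lit 5) (nat_lit 514) (nat_lit 5) (nat_lit 501) (nat_lit 5) (nat_lit 278) (nat_lit 261) (nat_lit 241))))) (XT.nd (nat_lit 234) (nat_lit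 5472) (nat_lit 0) (XT.nd (nat_lit 78) (nat_lit 1216) (nat_lit 0) (XT.lf (nat_lit 0) (nat_lit 1829600992) (nat_lit 1064) (nat_lit 1606073399) (nat_lit 1140) (nat_lit 3576603248) (nat_lit 486) (nat_lit 5) (nat_lit 500) (nat_lit 5) (nat_lit 501) (nat_lit 5) (nat_lit 279) (nat_lit 261) (nat_lit 240)) (XT.nd (nat_lit 78) (nat_lit 76) (nat_lit 0) (XT.lf (nat_lit 0) (nat_lit 571077557) (nat_lit 1140) (nat_lit 6313157943) (nat_lit 1216) (nat_lit 188760533) (nat_lit 471) (nat_lit 5) (nat_lit 486) (nat_lit 5) (nat_lit 487) (nat_lit 5) (nat_lit 280) (nat_lit 261) (nat_lit 239)) (XT.lf (nat_lit 0) (nat_lit 3194185239) (nat_lit 1216) (nat_lit 686746957) (nat_lit 76) (nat_lit 3255585334) (nat_lit 470) (nat_lit 5) (nat_lit 486) (nat_lit 5) (nat_lit 471) (nat_lit 5) (nat_lit 281) (nat_lit 261) (nat_lit 238)))) (XT.nd (nat_lit 156) (nat_lit 2888) (nat_lit 0) (XT.nd (nat_lit 78) (nat_lit 1368) (nat_lit 0) (XT.lf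 (nat_lit 0) (nat_lit 5285603583) (nat_lit 1216) (nat_lit 1318632794) (nat_lit 1292) (nat_lit 599260788) (nat_lit 454) (nat_lit 5) (nat_lit 470) (nat_lit 5) (nat_lit 471) (nat_lit 5) (nat_lit 282) (nat_lit 261) (nat_lit 237)) (XT.lf (nat_lit 0) (nat_lit 2742865904) (nat_lit 1368) (nat_lit 3158485411) (nat_lit 76) (nat_lit 1372178558) (nat_lit 436) (nat_lit 5) (nat_lit 454) (nat_lit 5) (nat_lit 437) (nat_lit 5) (nat_lit 283) (nat_lit 261) (nat_lit 236))) (XT.nd (nat_lit 78) (nat_lit 1520) (nat_lit 0) (XT.lf (nat_lit 0) (nat_lit 2949215934) (nat_lit 1368) (nat_lit 3167180219) (nat_lit 1444) (nat_lit 1230532933) (nat_lit 418) (nat_lit 5) (nat_lit 436) (nat_lit 5) (nat_lit 437) (nat_lit 5) (nat_lit 284) (nat_lit 261) (nat_lit 235)) (XT.lf (nat_lit 0) (nat_lit 1784030753) (nat_lit 1444) (nat_lit 289074083) (nat_lit 1520) (nat_lit 5350609039) (nat_lit 398) (nat_lit 5) (nat_lit 417) (nat_lit 5) (nat_lit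 418) (nat_lit 5) (nat_lit 285) (nat_lit 261) (nat_lit 234)))))) (XT.nd (nat_lit 468) (nat_lit 4712) (nat_lit 0) (XT.nd (nat_lit 234) (nat_lit 3572) (nat_lit 0) (XT.nd (nat_lit 78) (nat_lit 1672) (nat_lit 0) (XT.lf (nat_lit 0) (nat_lit 604161181) (nat_lit 1520) (nat_lit 4808623977) (nat_lit 1596) (nat_lit 2090901822) (nat_lit 378) (nat_lit 5) (nat_lit 398) (nat_lit 5) (nat_lit 399) (nat_lit 5) (nat_lit 286) (nat_lit 261) (nat_lit 233)) (XT.nd (nat_lit 78) (nat_lit 1596) (nat_lit 0) (XT.lf (nat_lit 0) (nat_lit 1194195408) (nat_lit 1596) (nat_lit 570348761) (nat_lit 76) (nat_lit 5822581102) (nat_lit 377) (nat_lit 5) (nat_lit 398) (nat_lit 5) (nat_lit 378) (nat_lit 5) (nat_lit 287) (nat_lit 261) (nat_lit 232)) (XT.lf (nat_lit 0) (nat_lit 4504002365) (nat_lit 1672) (nat_lit 1755458822) (nat_lit 76) (nat_lit 1414349161) (nat_lit 356) (nat_lit 5) (nat_lit 378) (nat_lit 5) (nat_lit 357) (nat_lit 5) (nat_lit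 288) (nat_lit 261) (nat_lit 231)))) (XT.nd (nat_lit 78) (nat_lit 1824) (nat_lit 0) (XT.lf (nat_lit 0) (nat_lit 103418615) (nat_lit 1748) (nat_lit 2952210094) (nat_lit 76) (nat_lit 4708446193) (nat_lit 333) (nat_lit 5) (nat_lit 356) (nat_lit 5) (nat_lit 334) (nat_lit 5) (nat_lit 289) (nat_lit 261) (nat_lit 230)) (XT.nd (nat_lit 78) (nat_lit 836) (nat_lit 0) (XT.lf (nat_lit 0) (nat_lit 3380176785) (nat_lit 1064) (nat_lit 4174459265) (nat_lit 76) (nat_lit 303127179) (nat_lit 320) (nat_lit 5) (nat_lit 334) (nat_lit 5) (nat_lit 321) (nat_lit 5) (nat_lit 290) (nat_lit 261) (nat_lit 229)) (XT.lf (nat_lit 0) (nat_lit 2531420852) (nat_lit 836) (nat_lit 4193178099) (nat_lit 912) (nat_lit 1230375919) (nat_lit 309) (nat_lit 5) (nat_lit 320) (nat_lit 5) (nat_lit 321) (nat_lit 5) (nat_lit 291) (nat_lit 261) (nat_lit 228))))) (XT.nd (nat_lit 234) (nat_lit 2964) (nat_lit 0) (XT.nd (nat_lit 78) (nat_lit 836) (nat_lit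 0) (XT.lf (nat_lit 0) (nat_lit 1359500001) (nat_lit 836) (nat_lit 678020261) (nat_lit 912) (nat_lit 6018383170) (nat_lit 297) (nat_lit 5) (nat_lit 308) (nat_lit 5) (nat_lit 309) (nat_lit 5) (nat_lit 292) (nat_lit 261) (nat_lit 227)) (XT.nd (nat_lit 78) (nat_lit 76) (nat_lit 0) (XT.lf (nat_lit 0) (nat_lit 149655356) (nat_lit 760) (nat_lit 5209914926) (nat_lit 836) (nat_lit 2800762564) (nat_lit 287) (nat_lit 5) (nat_lit 297) (nat_lit 5) (nat_lit 298) (nat_lit 5) (nat_lit 293) (nat_lit 261) (nat_lit 226)) (XT.lf (nat_lit 0) (nat_lit 473804220) (nat_lit 836) (nat_lit 1068086451) (nat_lit 76) (nat_lit 6726682655) (nat_lit 286) (nat_lit 5) (nat_lit 297) (nat_lit 5) (nat_lit 287) (nat_lit 5) (nat_lit 294) (nat_lit 261) (nat_lit 225)))) (XT.nd (nat_lit 156) (nat_lit 1520) (nat_lit 0) (XT.nd (nat_lit 78) (nat_lit 684) (nat_lit 0) (XT.lf (nat_lit 0) (nat_lit 3782366372) (nat_lit 836) (nat_lit 2335141961)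 (nat_lit 76) (nat_lit 2262791534) (nat_lit 276) (nat_lit 5) (nat_lit 287) (nat_lit 5) (nat_lit 277) (nat_lit 5) (nat_lit 295) (nat_lit 261) (nat_lit 224)) (XT.lf (nat_lit 0) (nat_lit 4861098785) (nat_lit 684) (nat_lit 2299401117) (nat_lit 760) (nat_lit 1335554833) (nat_lit 267) (nat_lit 5) (nat_lit 276) (nat_lit 5) (nat_lit 277) (nat_lit 5) (nat_lit 296) (nat_lit 261) (nat_lit 223))) (XT.nd (nat_lit 78) (nat_lit 684) (nat_lit 0) (XT.lf (nat_lit 0) (nat_lit 1970958977) (nat_lit 836) (nat_lit 4985283154) (nat_lit 76) (nat_lit 1659399673) (nat_lit 256) (nat_lit 5) (nat_lit 267) (nat_lit 5) (nat_lit 257) (nat_lit 5) (nat_lit 297) (nat_lit 261) (nat_lit 222)) (XT.lf (nat_lit 0) (nat_lit 2347941353) (nat_lit 684) (nat_lit 2990122997) (nat_lit 760) (nat_lit 3401061288) (nat_lit 247) (nat_lit 5) (nat_lit 256) (nat_lit 5) (nat_lit 257) (nat_lit 5) (nat_lit 298) (nat_lit 261) (nat_lit 221))))))) (XT.nd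 (nat_lit 1014) (nat_lit 4332) (nat_lit 0) (XT.nd (nat_lit 468) (nat_lit 3420) (nat_lit 0) (XT.nd (nat_lit 234) (nat_lit 1976) (nat_lit 0) (XT.nd (nat_lit 78) (nat_lit 684) (nat_lit 0) (XT.lf (nat_lit 0) (nat_lit 1026289299) (nat_lit 684) (nat_lit 7753322654) (nat_lit 760) (nat_lit 87307758) (nat_lit 238) (nat_lit 5) (nat_lit 247) (nat_lit 5) (nat_lit 248) (nat_lit 5) (nat_lit 299) (nat_lit 261) (nat_lit 220)) (XT.nd (nat_lit 78) (nat_lit 608) (nat_lit 0) (XT.lf (nat_lit 0) (nat_lit 3272560483) (nat_lit 760) (nat_lit 369076892) (nat_lit 76) (nat_lit 5356742656) (nat_lit 237) (nat_lit 5) (nat_lit 247) (nat_lit 5) (nat_lit 238) (nat_lit 5) (nat_lit 300) (nat_lit 261) (nat_lit 219)) (XT.lf (nat_lit 0) (nat_lit 6712683762) (nat_lit 684) (nat_lit 1796959159) (nat_lit 76) (nat_lit 624585461) (nat_lit 229) (nat_lit 5) (nat_lit 238) (nat_lit 5) (nat_lit 230) (nat_lit 5) (nat_lit 301) (nat_lit 261) (nat_lit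 218)))) (XT.nd (nat_lit 78) (nat_lit 1216) (nat_lit 0) (XT.lf (nat_lit 0) (nat_lit 964933136) (nat_lit 760) (nat_lit 3301791790) (nat_lit 76) (nat_lit 5007446084) (nat_lit 219) (nat_lit 5) (nat_lit 229) (nat_lit 5) (nat_lit 220) (nat_lit 5) (nat_lit 302) (nat_lit 261) (nat_lit 217)) (XT.nd (nat_lit 78) (nat_lit 608) (nat_lit 0) (XT.lf (nat_lit 0) (nat_lit 4394382561) (nat_lit 684) (nat_lit 4875527133) (nat_lit 76) (nat_lit 148660017) (nat_lit 211) (nat_lit 5) (nat_lit 220) (nat_lit 5) (nat_lit 212) (nat_lit 5) (nat_lit 303) (nat_lit 261) (nat_lit 216)) (XT.lf (nat_lit 0) (nat_lit 3032022464) (nat_lit 608) (nat_lit 4898191122) (nat_lit 684) (nat_lit 1637078430) (nat_lit 203) (nat_lit 5) (nat_lit 211) (nat_lit 5) (nat_lit 212) (nat_lit 5) (nat_lit 304) (nat_lit 261) (nat_lit 215))))) (XT.nd (nat_lit 234) (nat_lit 2204) (nat_lit 0) (XT.nd (nat_lit 78) (nat_lit 608) (nat_lit 0) (XT.lf (nat_lit 0)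 (nat_lit 1450242059) (nat_lit 532) (nat_lit 353495047) (nat_lit 608) (nat_lit 7917029520) (nat_lit 195) (nat_lit 5) (nat_lit 202) (nat_lit 5) (nat_lit 203) (nat_lit 5) (nat_lit 305) (nat_lit 261) (nat_lit 214)) (XT.nd (nat_lit 78) (nat_lit 608) (nat_lit 0) (XT.lf (nat_lit 0) (nat_lit 5333370239) (nat_lit 608) (nat_lit 232741874) (nat_lit 76) (nat_lit 4312417179) (nat_lit 195) (nat_lit 5) (nat_lit 203) (nat_lit 5) (nat_lit 196) (nat_lit 5) (nat_lit 306) (nat_lit 261) (nat_lit 213)) (XT.lf (nat_lit 0) (nat_lit 8071791275) (nat_lit 608) (nat_lit 888796981) (nat_lit 684) (nat_lit 1080657939) (nat_lit 187) (nat_lit 5) (nat_lit 195) (nat_lit 5) (nat_lit 196) (nat_lit 5) (nat_lit 307) (nat_lit 261) (nat_lit 212)))) (XT.nd (nat_lit 156) (nat_lit 1064) (nat_lit 0) (XT.nd (nat_lit 78) (nat_lit 532) (nat_lit 0) (XT.lf (nat_lit 0) (nat_lit 2461962450) (nat_lit 608) (nat_lit 3824512133) (nat_lit 76) (nat_lit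 3921963348) (nat_lit 179) (nat_lit 5) (nat_lit 187) (nat_lit 5) (nat_lit 180) (nat_lit 5) (nat_lit 308) (nat_lit 261) (nat_lit 211)) (XT.lf (nat_lit 0) (nat_lit 4604204256) (nat_lit 532) (nat_lit 1480349569) (nat_lit 608) (nat_lit 4296232327) (nat_lit 172) (nat_lit 5) (nat_lit 179) (nat_lit 5) (nat_lit 180) (nat_lit 5) (nat_lit 309) (nat_lit 261) (nat_lit 210))) (XT.nd (nat_lit 78) (nat_lit 608) (nat_lit 0) (XT.lf (nat_lit 0) (nat_lit 2715975549) (nat_lit 456) (nat_lit 7106292414) (nat_lit 532) (nat_lit 735957547) (nat_lit 166) (nat_lit 5) (nat_lit 172) (nat_lit 5) (nat_lit 173) (nat_lit 5) (nat_lit 310) (nat_lit 261) (nat_lit 209)) (XT.lf (nat_lit 0) (nat_lit 705369096) (nat_lit 532) (nat_lit 2182203818) (nat_lit 608) (nat_lit 7853183929) (nat_lit 158) (nat_lit 5) (nat_lit 165) (nat_lit 5) (nat_lit 166) (nat_lit 5) (nat_lit 311) (nat_lit 261) (nat_lit 208)))))) (XT.nd (nat_lit 468) (nat_lit 2356)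 (nat_lit 0) (XT.nd (nat_lit 234) (nat_lit 988) (nat_lit 0) (XT.nd (nat_lit 78) (nat_lit 988) (nat_lit 0) (XT.lf (nat_lit 0) (nat_lit 6624240613) (nat_lit 608) (nat_lit 1411679055) (nat_lit 76) (nat_lit 2892504379) (nat_lit 158) (nat_lit 5) (nat_lit 166) (nat_lit 5) (nat_lit 159) (nat_lit 5) (nat_lit 312) (nat_lit 261) (nat_lit 207)) (XT.nd (nat_lit 78) (nat_lit 532) (nat_lit 0) (XT.lf (nat_lit 0) (nat_lit 7479774667) (nat_lit 456) (nat_lit 3000194934) (nat_lit 532) (nat_lit 641656934) (nat_lit 152) (nat_lit 5) (nat_lit 158) (nat_lit 5) (nat_lit 159) (nat_lit 5) (nat_lit 313) (nat_lit 261) (nat_lit 206)) (XT.lf (nat_lit 0) (nat_lit 3092865198) (nat_lit 532) (nat_lit 6022892249) (nat_lit 76) (nat_lit 2204439864) (nat_lit 145) (nat_lit 5) (nat_lit 152) (nat_lit 5) (nat_lit 146) (nat_lit 5) (nat_lit 314) (nat_lit 261) (nat_lit 205)))) (XT.nd (nat_lit 78) (nat_lit 532) (nat_lit 0) (XT.lf (nat_lit 0)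 (nat_lit 2970852589) (nat_lit 456) (nat_lit 3969676374) (nat_lit 532) (nat_lit 4583956064) (nat_lit 139) (nat_lit 5) (nat_lit 145) (nat_lit 5) (nat_lit 146) (nat_lit 5) (nat_lit 315) (nat_lit 261) (nat_lit 204)) (XT.nd (nat_lit 78) (nat_lit 76) (nat_lit 0) (XT.lf (nat_lit 0) (nat_lit 506873813) (nat_lit 456) (nat_lit 10396330953) (nat_lit 532) (nat_lit 831744885) (nat_lit 133) (nat_lit 5) (nat_lit 139) (nat_lit 5) (nat_lit 140) (nat_lit 5) (nat_lit 316) (nat_lit 261) (nat_lit 203)) (XT.lf (nat_lit 0) (nat_lit 3025415393) (nat_lit 532) (nat_lit 2114088002) (nat_lit 76) (nat_lit 6811225737) (nat_lit 132) (nat_lit 5) (nat_lit 139) (nat_lit 5) (nat_lit 133) (nat_lit 5) (nat_lit 317) (nat_lit 261) (nat_lit 202))))) (XT.nd (nat_lit 234) (nat_lit 1140) (nat_lit 0) (XT.nd (nat_lit 78) (nat_lit 836) (nat_lit 0) (XT.lf (nat_lit 0) (nat_lit 6985213189) (nat_lit 456) (nat_lit 4882637209) (nat_lit 76) (nat_lit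 305094075) (nat_lit 127) (nat_lit 5) (nat_lit 133) (nat_lit 5) (nat_lit 128) (nat_lit 5) (nat_lit 318) (nat_lit 261) (nat_lit 201)) (XT.nd (nat_lit 78) (nat_lit 456) (nat_lit 0) (XT.lf (nat_lit 0) (nat_lit 4558755050) (nat_lit 380) (nat_lit 6533152754) (nat_lit 456) (nat_lit 1309392228) (nat_lit 122) (nat_lit 5) (nat_lit 127) (nat_lit 5) (nat_lit 128) (nat_lit 5) (nat_lit 319) (nat_lit 261) (nat_lit 200)) (XT.lf (nat_lit 0) (nat_lit 1647992254) (nat_lit 380) (nat_lit 996457327) (nat_lit 456) (nat_lit 9991854660) (nat_lit 116) (nat_lit 5) (nat_lit 121) (nat_lit 5) (nat_lit 122) (nat_lit 5) (nat_lit 320) (nat_lit 261) (nat_lit 199)))) (XT.nd (nat_lit 156) (nat_lit 760) (nat_lit 0) (XT.nd (nat_lit 78) (nat_lit 380) (nat_lit 0) (XT.lf (nat_lit 0) (nat_lit 6734499000) (nat_lit 456) (nat_lit 1456442714) (nat_lit 76) (nat_lit 4686569219) (nat_lit 116) (nat_lit 5) (nat_lit 122) (nat_lit 5) (nat_lit 117)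 (nat_lit 5) (nat_lit 321) (nat_lit 261) (nat_lit 198)) (XT.lf (nat_lit 0) (nat_lit 8396808116) (nat_lit 380) (nat_lit 2564271996) (nat_lit 456) (nat_lit 2164629244) (nat_lit 111) (nat_lit 5) (nat_lit 116) (nat_lit 5) (nat_lit 117) (nat_lit 5) (nat_lit 322) (nat_lit 261) (nat_lit 197))) (XT.nd (nat_lit 78) (nat_lit 380) (nat_lit 0) (XT.lf (nat_lit 0) (nat_lit 1925737437) (nat_lit 380) (nat_lit 8230344981) (nat_lit 76) (nat_lit 3224691169) (nat_lit 106) (nat_lit 5) (nat_lit 111) (nat_lit 5) (nat_lit 107) (nat_lit 5) (nat_lit 323) (nat_lit 261) (nat_lit 196)) (XT.lf (nat_lit 0) (nat_lit 1670796058) (nat_lit 380) (nat_lit 4453081831) (nat_lit 456) (nat_lit 7519065955) (nat_lit 101) (nat_lit 5) (nat_lit 106) (nat_lit 5) (nat_lit 107) (nat_lit 5) (nat_lit 324) (nat_lit 261) (nat_lit 195))))))))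
noncomputable def xc54 : XT := (XT.nd (nat_lit 2028) (nat_lit 988) (nat_lit 0) (XT.nd (nat_lit 1014) (nat_lit 1748) (nat_lit 0) (XT.nd (nat_lit 468) (nat_lit 1444) (nat_lit 0) (XT.nd (nat_lit 234) (nat_lit 684) (nat_lit 0) (XT.nd (nat_lit 78) (nat_lit 684) (nat_lit 0) (XT.lf (nat_lit 0) (nat_lit 10468151353) (nat_lit 456) (nat_lit 2006829723) (nat_lit 76) (nat_lit 1437623188) (nat_lit 101) (nat_lit 5) (nat_lit 107) (nat_lit 5) (nat_lit 102) (nat_lit 5) (nat_lit 325) (nat_lit 261) (nat_lit 194)) (XT.nd (nat_lit 78) (nat_lit 304) (nat_lit 0) (XT.lf (nat_lit 0) (nat_lit 782384380) (nat_lit 380) (nat_lit 5923640902) (nat_lit 76) (nat_lit 7483461880) (nat_lit 96) (nat_lit 5) (nat_lit 101) (nat_lit 5) (nat_lit 97) (nat_lit 5) (nat_lit 326) (nat_lit 261) (nat_lit 193)) (XT.lf (nat_lit 0) (nat_lit 4369352465) (nat_lit 304) (nat_lit 718890407) (nat_lit 380) (nat_lit 9386024707) (nat_lit 92) (nat_lit 5)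 (nat_lit 96) (nat_lit 5) (nat_lit 97) (nat_lit 5) (nat_lit 327) (nat_lit 261) (nat_lit 192)))) (XT.nd (nat_lit 78) (nat_lit 380) (nat_lit 0) (XT.lf (nat_lit 0) (nat_lit 187973392) (nat_lit 304) (nat_lit 9369701833) (nat_lit 380) (nat_lit 5209254088) (nat_lit 88) (nat_lit 5) (nat_lit 92) (nat_lit 5) (nat_lit 93) (nat_lit 5) (nat_lit 328) (nat_lit 261) (nat_lit 191)) (XT.nd (nat_lit 78) (nat_lit 380) (nat_lit 0) (XT.lf (nat_lit 0) (nat_lit 10859852025) (nat_lit 304) (nat_lit 3332818940) (nat_lit 380) (nat_lit 875095440) (nat_lit 88) (nat_lit 5) (nat_lit 92) (nat_lit 5) (nat_lit 93) (nat_lit 5) (nat_lit 329) (nat_lit 261) (nat_lit 190)) (XT.lf (nat_lit 0) (nat_lit 3562231614) (nat_lit 380) (nat_lit 8922296219) (nat_lit 76) (nat_lit 2892254321) (nat_lit 83) (nat_lit 5) (nat_lit 88) (nat_lit 5) (nat_lit 84) (nat_lit 5) (nat_lit 330) (nat_lit 261) (nat_lit 189))))) (XT.nd (nat_lit 234) (nat_lit 836)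 (nat_lit 0) (XT.nd (nat_lit 78) (nat_lit 380) (nat_lit 0) (XT.lf (nat_lit 0) (nat_lit 1732602531) (nat_lit 228) (nat_lit 6410307320) (nat_lit 304) (nat_lit 7551623634) (nat_lit 80) (nat_lit 5) (nat_lit 83) (nat_lit 5) (nat_lit 84) (nat_lit 5) (nat_lit 331) (nat_lit 261) (nat_lit 188)) (XT.nd (nat_lit 78) (nat_lit 380) (nat_lit 0) (XT.lf (nat_lit 0) (nat_lit 12768627648) (nat_lit 228) (nat_lit 113430295) (nat_lit 304) (nat_lit 3139360955) (nat_lit 80) (nat_lit 5) (nat_lit 83) (nat_lit 5) (nat_lit 84) (nat_lit 5) (nat_lit 332) (nat_lit 261) (nat_lit 187)) (XT.lf (nat_lit 0) (nat_lit 1440653273) (nat_lit 380) (nat_lit 8587809666) (nat_lit 76) (nat_lit 6328410621) (nat_lit 75) (nat_lit 5) (nat_lit 80) (nat_lit 5) (nat_lit 76) (nat_lit 5) (nat_lit 333) (nat_lit 261) (nat_lit 186)))) (XT.nd (nat_lit 156) (nat_lit 608) (nat_lit 0) (XT.nd (nat_lit 78) (nat_lit 0) (nat_lit 0) (XT.lf (nat_lit 0) (nat_lit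 2414824329) (nat_lit 228) (nat_lit 3701531157) (nat_lit 304) (nat_lit 10585623390) (nat_lit 72) (nat_lit 5) (nat_lit 75) (nat_lit 5) (nat_lit 76) (nat_lit 5) (nat_lit 334) (nat_lit 261) (nat_lit 185)) (XT.lf (nat_lit 0) (nat_lit 10971848332) (nat_lit 304) (nat_lit 3268614077) (nat_lit 76) (nat_lit 2816204767) (nat_lit 72) (nat_lit 5) (nat_lit 76) (nat_lit 5) (nat_lit 73) (nat_lit 5) (nat_lit 335) (nat_lit 261) (nat_lit 184))) (XT.nd (nat_lit 78) (nat_lit 304) (nat_lit 0) (XT.lf (nat_lit 0) (nat_lit 8104972980) (nat_lit 304) (nat_lit 7909159393) (nat_lit 380) (nat_lit 1407060850) (nat_lit 68) (nat_lit 5) (nat_lit 72) (nat_lit 5) (nat_lit 73) (nat_lit 5) (nat_lit 336) (nat_lit 261) (nat_lit 183)) (XT.lf (nat_lit 0) (nat_lit 2015818343) (nat_lit 228) (nat_lit 1350046031) (nat_lit 304) (nat_lit 14430375010) (nat_lit 64) (nat_lit 5) (nat_lit 67) (nat_lit 5) (nat_lit 68) (nat_lit 5) (nat_lit 337) (nat_lit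 261) (nat_lit 182)))))) (XT.nd (nat_lit 468) (nat_lit 988) (nat_lit 0) (XT.nd (nat_lit 234) (nat_lit 304) (nat_lit 0) (XT.nd (nat_lit 78) (nat_lit 456) (nat_lit 0) (XT.lf (nat_lit 0) (nat_lit 8326350661) (nat_lit 304) (nat_lit 4467151945) (nat_lit 76) (nat_lit 5387596652) (nat_lit 64) (nat_lit 5) (nat_lit 68) (nat_lit 5) (nat_lit 65) (nat_lit 5) (nat_lit 338) (nat_lit 261) (nat_lit 181)) (XT.nd (nat_lit 78) (nat_lit 228) (nat_lit 0) (XT.lf (nat_lit 0) (nat_lit 7216480295) (nat_lit 228) (nat_lit 6240815662) (nat_lit 304) (nat_lit 5119793692) (nat_lit 61) (nat_lit 5) (nat_lit 64) (nat_lit 5) (nat_lit 65) (nat_lit 5) (nat_lit 339) (nat_lit 261) (nat_lit 180)) (XT.lf (nat_lit 0) (nat_lit 273172024) (nat_lit 228) (nat_lit 18470822755) (nat_lit 304) (nat_lit 240945565) (nat_lit 58) (nat_lit 5) (nat_lit 61) (nat_lit 5) (nat_lit 62) (nat_lit 5) (nat_lit 340) (nat_lit 261) (nat_lit 179)))) (XT.nd (nat_lit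 78) (nat_lit 228) (nat_lit 0) (XT.lf (nat_lit 0) (nat_lit 4807428203) (nat_lit 304) (nat_lit 7119222815) (nat_lit 76) (nat_lit 7476052427) (nat_lit 57) (nat_lit 5) (nat_lit 61) (nat_lit 5) (nat_lit 58) (nat_lit 5) (nat_lit 341) (nat_lit 261) (nat_lit 178)) (XT.nd (nat_lit 78) (nat_lit 0) (nat_lit 0) (XT.lf (nat_lit 0) (nat_lit 4830509668) (nat_lit 228) (nat_lit 5172500801) (nat_lit 304) (nat_lit 9829992299) (nat_lit 54) (nat_lit 5) (nat_lit 57) (nat_lit 5) (nat_lit 58) (nat_lit 5) (nat_lit 342) (nat_lit 261) (nat_lit 177)) (XT.lf (nat_lit 0) (nat_lit 15382735576) (nat_lit 304) (nat_lit 3102971335) (nat_lit 76) (nat_lit 1789953992) (nat_lit 54) (nat_lit 5) (nat_lit 58) (nat_lit 5) (nat_lit 55) (nat_lit 5) (nat_lit 343) (nat_lit 261) (nat_lit 176))))) (XT.nd (nat_lit 234) (nat_lit 456) (nat_lit 0) (XT.nd (nat_lit 78) (nat_lit 228) (nat_lit 0) (XT.lf (nat_lit 0) (nat_lit 253445855) (nat_lit 304)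 (nat_lit 11543044035) (nat_lit 76) (nat_lit 8933824253) (nat_lit 50) (nat_lit 5) (nat_lit 54) (nat_lit 5) (nat_lit 51) (nat_lit 5) (nat_lit 344) (nat_lit 261) (nat_lit 175)) (XT.nd (nat_lit 78) (nat_lit 0) (nat_lit 0) (XT.lf (nat_lit 0) (nat_lit 615629141) (nat_lit 228) (nat_lit 4867066094) (nat_lit 304) (nat_lit 15715379820) (nat_lit 47) (nat_lit 5) (nat_lit 50) (nat_lit 5) (nat_lit 51) (nat_lit 5) (nat_lit 345) (nat_lit 261) (nat_lit 174)) (XT.lf (nat_lit 0) (nat_lit 10932165694) (nat_lit 304) (nat_lit 8446263803) (nat_lit 76) (nat_lit 2300186187) (nat_lit 47) (nat_lit 5) (nat_lit 51) (nat_lit 5) (nat_lit 48) (nat_lit 5) (nat_lit 346) (nat_lit 261) (nat_lit 173)))) (XT.nd (nat_lit 156) (nat_lit 304) (nat_lit 0) (XT.nd (nat_lit 78) (nat_lit 0) (nat_lit 0) (XT.lf (nat_lit 0) (nat_lit 4025938978) (nat_lit 152) (nat_lit 12548612629) (nat_lit 228) (nat_lit 5598445659) (nat_lit 45) (nat_lit 5) (nat_lit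 47) (nat_lit 5) (nat_lit 48) (nat_lit 5) (nat_lit 347) (nat_lit 261) (nat_lit 172)) (XT.lf (nat_lit 0) (nat_lit 16940388053) (nat_lit 152) (nat_lit 5474343140) (nat_lit 228) (nat_lit 266921632) (nat_lit 45) (nat_lit 5) (nat_lit 47) (nat_lit 5) (nat_lit 48) (nat_lit 5) (nat_lit 348) (nat_lit 261) (nat_lit 171))) (XT.nd (nat_lit 78) (nat_lit 0) (nat_lit 0) (XT.lf (nat_lit 0) (nat_lit 5185892364) (nat_lit 304) (nat_lit 16168030072) (nat_lit 76) (nat_lit 1850382235) (nat_lit 41) (nat_lit 5) (nat_lit 45) (nat_lit 5) (nat_lit 42) (nat_lit 5) (nat_lit 349) (nat_lit 261) (nat_lit 170)) (XT.lf (nat_lit 0) (nat_lit 10846785547) (nat_lit 304) (nat_lit 3551006786) (nat_lit 76) (nat_lit 9343858016) (nat_lit 41) (nat_lit 5) (nat_lit 45) (nat_lit 5) (nat_lit 42) (nat_lit 5) (nat_lit 350) (nat_lit 261) (nat_lit 169))))))) (XT.nd (nat_lit 33930) (nat_lit 0) (nat_lit 36936) (XT.nd (nat_lit 468) (nat_lit 380) (nat_lit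 0) (XT.nd (nat_lit 234) (nat_lit 152) (nat_lit 0) (XT.nd (nat_lit 78) (nat_lit 304) (nat_lit 0) (XT.lf (nat_lit 0) (nat_lit 9524565658) (nat_lit 152) (nat_lit 7187914503) (nat_lit 228) (nat_lit 7581948380) (nat_lit 39) (nat_lit 5) (nat_lit 41) (nat_lit 5) (nat_lit 42) (nat_lit 5) (nat_lit 351) (nat_lit 261) (nat_lit 168)) (XT.nd (nat_lit 78) (nat_lit 304) (nat_lit 0) (XT.lf (nat_lit 0) (nat_lit 22753429880) (nat_lit 228) (nat_lit 1868576188) (nat_lit 76) (nat_lit 241809626) (nat_lit 39) (nat_lit 5) (nat_lit 42) (nat_lit 5) (nat_lit 40) (nat_lit 5) (nat_lit 352) (nat_lit 261) (nat_lit 167)) (XT.lf (nat_lit 0) (nat_lit 3576603548) (nat_lit 304) (nat_lit 13992933984) (nat_lit 76) (nat_lit 7878349605) (nat_lit 35) (nat_lit 5) (nat_lit 39) (nat_lit 5) (nat_lit 36) (nat_lit 5) (nat_lit 353) (nat_lit 261) (nat_lit 166)))) (XT.nd (nat_lit 78) (nat_lit 152) (nat_lit 0) (XT.lf (nat_lit 0) (nat_lit 9393021558)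 (nat_lit 304) (nat_lit 902579677) (nat_lit 76) (nat_lit 15753861121) (nat_lit 35) (nat_lit 5) (nat_lit 39) (nat_lit 5) (nat_lit 36) (nat_lit 5) (nat_lit 354) (nat_lit 261) (nat_lit 165)) (XT.nd (nat_lit 78) (nat_lit 0) (nat_lit 0) (XT.lf (nat_lit 0) (nat_lit 12705448631) (nat_lit 152) (nat_lit 2736297504) (nat_lit 228) (nat_lit 11226192554) (nat_lit 33) (nat_lit 5) (nat_lit 35) (nat_lit 5) (nat_lit 36) (nat_lit 5) (nat_lit 355) (nat_lit 261) (nat_lit 164)) (XT.lf (nat_lit 0) (nat_lit 21686541241) (nat_lit 228) (nat_lit 644981891) (nat_lit 76) (nat_lit 4973163845) (nat_lit 33) (nat_lit 5) (nat_lit 36) (nat_lit 5) (nat_lit 34) (nat_lit 5) (nat_lit 356) (nat_lit 261) (nat_lit 163))))) (XT.nd (nat_lit 234) (nat_lit 0) (nat_lit 0) (XT.nd (nat_lit 78) (nat_lit 152) (nat_lit 0) (XT.lf (nat_lit 0) (nat_lit 236879512) (nat_lit 228) (nat_lit 14773978665) (nat_lit 76) (nat_lit 12948052149) (nat_lit 30) (nat_lit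 5) (nat_lit 33) (nat_lit 5) (nat_lit 31) (nat_lit 5) (nat_lit 357) (nat_lit 261) (nat_lit 162)) (XT.nd (nat_lit 78) (nat_lit 152) (nat_lit 0) (XT.lf (nat_lit 0) (nat_lit 6172704675) (nat_lit 228) (nat_lit 1271544441) (nat_lit 76) (nat_lit 21188148081) (nat_lit 30) (nat_lit 5) (nat_lit 33) (nat_lit 5) (nat_lit 31) (nat_lit 5) (nat_lit 358) (nat_lit 261) (nat_lit 161)) (XT.lf (nat_lit 0) (nat_lit 12349518028) (nat_lit 228) (nat_lit 16562914934) (nat_lit 76) (nat_lit 412406274) (nat_lit 28) (nat_lit 5) (nat_lit 31) (nat_lit 5) (nat_lit 29) (nat_lit 5) (nat_lit 359) (nat_lit 261) (nat_lit 160)))) (XT.nd (nat_lit 33072) (nat_lit 0) (nat_lit 42788) (XT.nd (nat_lit 32994) (nat_lit 0) (nat_lit 43168) (XT.lf (nat_lit 0) (nat_lit 18747726491) (nat_lit 228) (nat_lit 2892326060) (nat_lit 76) (nat_lit 8397288744) (nat_lit 28) (nat_lit 5) (nat_lit 31) (nat_lit 5) (nat_lit 29) (nat_lit 5) (nat_lit 360) (nat_lit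 261) (nat_lit 159)) (XT.lf (nat_lit 0) (nat_lit 967705466) (nat_lit 0) (nat_lit 967705466) (nat_lit 228) (nat_lit 1294562772) (nat_lit 596) (nat_lit 5) (nat_lit 596) (nat_lit 3) (nat_lit 599) (nat_lit 3) (nat_lit 262) (nat_lit 262) (nat_lit 256))) (XT.nd (nat_lit 78) (nat_lit 0) (nat_lit 0) (XT.lf (nat_lit 0) (nat_lit 1387913542) (nat_lit 380) (nat_lit 114650766) (nat_lit 380) (nat_lit 4967855013) (nat_lit 591) (nat_lit 3) (nat_lit 596) (nat_lit 3) (nat_lit 596) (nat_lit 5) (nat_lit 263) (nat_lit 262) (nat_lit 255)) (XT.lf (nat_lit 76) (nat_lit 4388386551) (nat_lit 0) (nat_lit 934010724) (nat_lit 380) (nat_lit 1161278311) (nat_lit 592) (nat_lit 5) (nat_lit 591) (nat_lit 3) (nat_lit 596) (nat_lit 5) (nat_lit 264) (nat_lit 262) (nat_lit 254)))))) (XT.nd (nat_lit 468) (nat_lit 3952) (nat_lit 0) (XT.nd (nat_lit 234) (nat_lit 1140) (nat_lit 0) (XT.nd (nat_lit 78) (nat_lit 380) (nat_lit 0) (XT.lf (nat_lit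 76) (nat_lit 2464007341) (nat_lit 0) (nat_lit 239984568) (nat_lit 456) (nat_lit 3795946295) (nat_lit 587) (nat_lit 5) (nat_lit 586) (nat_lit 5) (nat_lit 592) (nat_lit 5) (nat_lit 265) (nat_lit 262) (nat_lit 253)) (XT.nd (nat_lit 78) (nat_lit 0) (nat_lit 0) (XT.lf (nat_lit 0) (nat_lit 22829798) (nat_lit 456) (nat_lit 5933147027) (nat_lit 532) (nat_lit 563352421) (nat_lit 581) (nat_lit 5) (nat_lit 587) (nat_lit 5) (nat_lit 588) (nat_lit 5) (nat_lit 266) (nat_lit 262) (nat_lit 252)) (XT.lf (nat_lit 0) (nat_lit 3788361831) (nat_lit 456) (nat_lit 1247331008) (nat_lit 532) (nat_lit 1505677179) (nat_lit 581) (nat_lit 5) (nat_lit 587) (nat_lit 5) (nat_lit 588) (nat_lit 5) (nat_lit 267) (nat_lit 262) (nat_lit 251)))) (XT.nd (nat_lit 78) (nat_lit 608) (nat_lit 0) (XT.lf (nat_lit 0) (nat_lit 968896548) (nat_lit 532) (nat_lit 3028680688) (nat_lit 608) (nat_lit 2568973451) (nat_lit 574) (nat_lit 5) (nat_lit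 581) (nat_lit 5) (nat_lit 582) (nat_lit 5) (nat_lit 268) (nat_lit 262) (nat_lit 250)) (XT.nd (nat_lit 78) (nat_lit 608) (nat_lit 0) (XT.lf (nat_lit 76) (nat_lit 1814788620) (nat_lit 0) (nat_lit 2831809985) (nat_lit 608) (nat_lit 1948119885) (nat_lit 575) (nat_lit 5) (nat_lit 574) (nat_lit 5) (nat_lit 582) (nat_lit 5) (nat_lit 269) (nat_lit 262) (nat_lit 249)) (XT.lf (nat_lit 76) (nat_lit 128864637) (nat_lit 0) (nat_lit 1543229973) (nat_lit 684) (nat_lit 4953918283) (nat_lit 567) (nat_lit 5) (nat_lit 566) (nat_lit 5) (nat_lit 575) (nat_lit 5) (nat_lit 270) (nat_lit 262) (nat_lit 248))))) (XT.nd (nat_lit 234) (nat_lit 2660) (nat_lit 0) (XT.nd (nat_lit 78) (nat_lit 1292) (nat_lit 0) (XT.lf (nat_lit 76) (nat_lit 5155860745) (nat_lit 0) (nat_lit 117941006) (nat_lit 684) (nat_lit 1386409091) (nat_lit 567) (nat_lit 5) (nat_lit 566) (nat_lit 5) (nat_lit 575) (nat_lit 5) (nat_lit 271) (nat_lit 262) (nat_lit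 247)) (XT.nd (nat_lit 78) (nat_lit 684) (nat_lit 0) (XT.lf (nat_lit 0) (nat_lit 2160480162) (nat_lit 684) (nat_lit 3117214114) (nat_lit 76) (nat_lit 1419595300) (nat_lit 558) (nat_lit 5) (nat_lit 567) (nat_lit 5) (nat_lit 559) (nat_lit 5) (nat_lit 272) (nat_lit 262) (nat_lit 246)) (XT.lf (nat_lit 0) (nat_lit 2036345564) (nat_lit 684) (nat_lit 3656278303) (nat_lit 760) (nat_lit 1044913291) (nat_lit 549) (nat_lit 5) (nat_lit 558) (nat_lit 5) (nat_lit 559) (nat_lit 5) (nat_lit 273) (nat_lit 262) (nat_lit 245)))) (XT.nd (nat_lit 156) (nat_lit 1824) (nat_lit 0) (XT.nd (nat_lit 78) (nat_lit 0) (nat_lit 0) (XT.lf (nat_lit 0) (nat_lit 515583921) (nat_lit 760) (nat_lit 1902763905) (nat_lit 836) (nat_lit 4362495623) (nat_lit 538) (nat_lit 5) (nat_lit 548) (nat_lit 5) (nat_lit 549) (nat_lit 5) (nat_lit 274) (nat_lit 262) (nat_lit 244)) (XT.lf (nat_lit 0) (nat_lit 5864398771) (nat_lit 760) (nat_lit 17364041)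 (nat_lit 836) (nat_lit 945517695) (nat_lit 538) (nat_lit 5) (nat_lit 548) (nat_lit 5) (nat_lit 549) (nat_lit 5) (nat_lit 275) (nat_lit 262) (nat_lit 243))) (XT.nd (nat_lit 78) (nat_lit 912) (nat_lit 0) (XT.lf (nat_lit 0) (nat_lit 2463352680) (nat_lit 912) (nat_lit 2430551753) (nat_lit 76) (nat_lit 1982579335) (nat_lit 526) (nat_lit 5) (nat_lit 538) (nat_lit 5) (nat_lit 527) (nat_lit 5) (nat_lit 276) (nat_lit 262) (nat_lit 242)) (XT.lf (nat_lit 0) (nat_lit 3054226796) (nat_lit 912) (nat_lit 2818327770) (nat_lit 988) (nat_lit 1056430535) (nat_lit 514) (nat_lit 5) (nat_lit 526) (nat_lit 5) (nat_lit 527) (nat_lit 5) (nat_lit 277) (nat_lit 262) (nat_lit 241))))))))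
noncomputable def xc55 : XT := (XT.nd (nat_lit 2028) (nat_lit 9424) (nat_lit 0) (XT.nd (nat_lit 1014) (nat_lit 8284) (nat_lit 0) (XT.nd (nat_lit 468) (nat_lit 8816) (nat_lit 0) (XT.nd (nat_lit 234) (nat_lit 3724) (nat_lit 0) (XT.nd (nat_lit 78) (nat_lit 1140) (nat_lit 0) (XT.lf (nat_lit 0) (nat_lit 1677554701) (nat_lit 988) (nat_lit 605658784) (nat_lit 1064) (nat_lit 4701418822) (nat_lit 500) (nat_lit 5) (nat_lit 513) (nat_lit 5) (nat_lit 514) (nat_lit 5) (nat_lit 278) (nat_lit 262) (nat_lit 240)) (XT.nd (nat_lit 78) (nat_lit 76) (nat_lit 0) (XT.lf (nat_lit 0) (nat_lit 309958765) (nat_lit 1064) (nat_lit 5327360377) (nat_lit 1140) (nat_lit 1406070286) (nat_lit 486) (nat_lit 5) (nat_lit 500) (nat_lit 5) (nat_lit 501) (nat_lit 5) (nat_lit 279) (nat_lit 262) (nat_lit 239)) (XT.lf (nat_lit 0) (nat_lit 1893377640) (nat_lit 1140) (nat_lit 1036520337) (nat_lit 76) (nat_lit 4175272155) (nat_lit 485) (nat_lit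 5) (nat_lit 500) (nat_lit 5) (nat_lit 486) (nat_lit 5) (nat_lit 280) (nat_lit 262) (nat_lit 238)))) (XT.nd (nat_lit 78) (nat_lit 2584) (nat_lit 0) (XT.lf (nat_lit 0) (nat_lit 4803058248) (nat_lit 1140) (nat_lit 395177061) (nat_lit 1216) (nat_lit 1972013555) (nat_lit 470) (nat_lit 5) (nat_lit 485) (nat_lit 5) (nat_lit 486) (nat_lit 5) (nat_lit 281) (nat_lit 262) (nat_lit 237)) (XT.nd (nat_lit 78) (nat_lit 1292) (nat_lit 0) (XT.lf (nat_lit 0) (nat_lit 1287940704) (nat_lit 1292) (nat_lit 3702989680) (nat_lit 76) (nat_lit 2247488937) (nat_lit 453) (nat_lit 5) (nat_lit 470) (nat_lit 5) (nat_lit 454) (nat_lit 5) (nat_lit 282) (nat_lit 262) (nat_lit 236)) (XT.lf (nat_lit 0) (nat_lit 2270069083) (nat_lit 1292) (nat_lit 2281130051) (nat_lit 1368) (nat_lit 2758659480) (nat_lit 436) (nat_lit 5) (nat_lit 453) (nat_lit 5) (nat_lit 454) (nat_lit 5) (nat_lit 283) (nat_lit 262) (nat_lit 235))))) (XT.nd (nat_lit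 234) (nat_lit 5928) (nat_lit 0) (XT.nd (nat_lit 78) (nat_lit 1444) (nat_lit 0) (XT.lf (nat_lit 0) (nat_lit 457749084) (nat_lit 1444) (nat_lit 6371792168) (nat_lit 76) (nat_lit 555239810) (nat_lit 417) (nat_lit 5) (nat_lit 436) (nat_lit 5) (nat_lit 418) (nat_lit 5) (nat_lit 284) (nat_lit 262) (nat_lit 234)) (XT.nd (nat_lit 78) (nat_lit 1444) (nat_lit 0) (XT.lf (nat_lit 0) (nat_lit 3685751105) (nat_lit 1444) (nat_lit 262769618) (nat_lit 76) (nat_lit 3514134630) (nat_lit 417) (nat_lit 5) (nat_lit 436) (nat_lit 5) (nat_lit 418) (nat_lit 5) (nat_lit 285) (nat_lit 262) (nat_lit 233)) (XT.lf (nat_lit 0) (nat_lit 6027106017) (nat_lit 1444) (nat_lit 928186735) (nat_lit 1520) (nat_lit 588796098) (nat_lit 398) (nat_lit 5) (nat_lit 417) (nat_lit 5) (nat_lit 418) (nat_lit 5) (nat_lit 286) (nat_lit 262) (nat_lit 232)))) (XT.nd (nat_lit 156) (nat_lit 2736) (nat_lit 0) (XT.nd (nat_lit 78) (nat_lit 1596) (nat_lit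 0) (XT.lf (nat_lit 0) (nat_lit 2614522986) (nat_lit 1596) (nat_lit 2797600514) (nat_lit 76) (nat_lit 2216504988) (nat_lit 377) (nat_lit 5) (nat_lit 398) (nat_lit 5) (nat_lit 378) (nat_lit 5) (nat_lit 287) (nat_lit 262) (nat_lit 231)) (XT.lf (nat_lit 0) (nat_lit 3629981916) (nat_lit 1596) (nat_lit 2225458706) (nat_lit 1672) (nat_lit 1861303976) (nat_lit 356) (nat_lit 5) (nat_lit 377) (nat_lit 5) (nat_lit 378) (nat_lit 5) (nat_lit 288) (nat_lit 262) (nat_lit 230))) (XT.nd (nat_lit 78) (nat_lit 988) (nat_lit 0) (XT.lf (nat_lit 0) (nat_lit 1320665377) (nat_lit 1748) (nat_lit 5393625912) (nat_lit 76) (nat_lit 1094080552) (nat_lit 333) (nat_lit 5) (nat_lit 356) (nat_lit 5) (nat_lit 334) (nat_lit 5) (nat_lit 289) (nat_lit 262) (nat_lit 229)) (XT.lf (nat_lit 0) (nat_lit 1170213447) (nat_lit 988) (nat_lit 3365965861) (nat_lit 1064) (nat_lit 3367154951) (nat_lit 320) (nat_lit 5) (nat_lit 333) (nat_lit 5)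 (nat_lit 334) (nat_lit 5) (nat_lit 290) (nat_lit 262) (nat_lit 228)))))) (XT.nd (nat_lit 468) (nat_lit 4256) (nat_lit 0) (XT.nd (nat_lit 234) (nat_lit 2280) (nat_lit 0) (XT.nd (nat_lit 78) (nat_lit 1748) (nat_lit 0) (XT.lf (nat_lit 0) (nat_lit 7800393727) (nat_lit 1064) (nat_lit 79547012) (nat_lit 76) (nat_lit 122257088) (nat_lit 320) (nat_lit 5) (nat_lit 334) (nat_lit 5) (nat_lit 321) (nat_lit 5) (nat_lit 291) (nat_lit 262) (nat_lit 227)) (XT.nd (nat_lit 78) (nat_lit 836) (nat_lit 0) (XT.lf (nat_lit 0) (nat_lit 3001972860) (nat_lit 912) (nat_lit 1365153051) (nat_lit 76) (nat_lit 3736924974) (nat_lit 308) (nat_lit 5) (nat_lit 320) (nat_lit 5) (nat_lit 309) (nat_lit 5) (nat_lit 292) (nat_lit 262) (nat_lit 226)) (XT.lf (nat_lit 0) (nat_lit 5544815554) (nat_lit 836) (nat_lit 709515433) (nat_lit 912) (nat_lit 1955587298) (nat_lit 297) (nat_lit 5) (nat_lit 308) (nat_lit 5) (nat_lit 309) (nat_lit 5)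 (nat_lit 293) (nat_lit 262) (nat_lit 225)))) (XT.nd (nat_lit 78) (nat_lit 1444) (nat_lit 0) (XT.lf (nat_lit 0) (nat_lit 1245913551) (nat_lit 836) (nat_lit 4009944632) (nat_lit 76) (nat_lit 3063472481) (nat_lit 286) (nat_lit 5) (nat_lit 297) (nat_lit 5) (nat_lit 287) (nat_lit 5) (nat_lit 294) (nat_lit 262) (nat_lit 224)) (XT.nd (nat_lit 78) (nat_lit 684) (nat_lit 0) (XT.lf (nat_lit 0) (nat_lit 3039071884) (nat_lit 760) (nat_lit 1442333000) (nat_lit 836) (nat_lit 3951154536) (nat_lit 276) (nat_lit 5) (nat_lit 286) (nat_lit 5) (nat_lit 287) (nat_lit 5) (nat_lit 295) (nat_lit 262) (nat_lit 223)) (XT.lf (nat_lit 0) (nat_lit 1731141279) (nat_lit 684) (nat_lit 6061002678) (nat_lit 760) (nat_lit 757557827) (nat_lit 267) (nat_lit 5) (nat_lit 276) (nat_lit 5) (nat_lit 277) (nat_lit 5) (nat_lit 296) (nat_lit 262) (nat_lit 222))))) (XT.nd (nat_lit 234) (nat_lit 2660) (nat_lit 0) (XT.nd (nat_lit 78) (nat_lit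 760) (nat_lit 0) (XT.lf (nat_lit 0) (nat_lit 371439282) (nat_lit 760) (nat_lit 2100640767) (nat_lit 836) (nat_lit 6198557361) (nat_lit 256) (nat_lit 5) (nat_lit 266) (nat_lit 5) (nat_lit 267) (nat_lit 5) (nat_lit 297) (nat_lit 262) (nat_lit 221)) (XT.nd (nat_lit 78) (nat_lit 760) (nat_lit 0) (XT.lf (nat_lit 0) (nat_lit 5773964542) (nat_lit 836) (nat_lit 1023037347) (nat_lit 76) (nat_lit 1998460376) (nat_lit 256) (nat_lit 5) (nat_lit 267) (nat_lit 5) (nat_lit 257) (nat_lit 5) (nat_lit 298) (nat_lit 262) (nat_lit 220)) (XT.lf (nat_lit 0) (nat_lit 231804909) (nat_lit 760) (nat_lit 2462466363) (nat_lit 76) (nat_lit 6230114313) (nat_lit 246) (nat_lit 5) (nat_lit 256) (nat_lit 5) (nat_lit 247) (nat_lit 5) (nat_lit 299) (nat_lit 262) (nat_lit 219)))) (XT.nd (nat_lit 156) (nat_lit 1368) (nat_lit 0) (XT.nd (nat_lit 78) (nat_lit 608) (nat_lit 0) (XT.lf (nat_lit 0) (nat_lit 3521684838) (nat_lit 760) (nat_lit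 3971148093) (nat_lit 76) (nat_lit 1564412328) (nat_lit 237) (nat_lit 5) (nat_lit 247) (nat_lit 5) (nat_lit 238) (nat_lit 5) (nat_lit 300) (nat_lit 262) (nat_lit 218)) (XT.lf (nat_lit 0) (nat_lit 3652331754) (nat_lit 608) (nat_lit 3247393098) (nat_lit 684) (nat_lit 2294643264) (nat_lit 229) (nat_lit 5) (nat_lit 237) (nat_lit 5) (nat_lit 238) (nat_lit 5) (nat_lit 301) (nat_lit 262) (nat_lit 217))) (XT.nd (nat_lit 78) (nat_lit 608) (nat_lit 0) (XT.lf (nat_lit 0) (nat_lit 1010466725) (nat_lit 760) (nat_lit 7176556304) (nat_lit 76) (nat_lit 1148896562) (nat_lit 219) (nat_lit 5) (nat_lit 229) (nat_lit 5) (nat_lit 220) (nat_lit 5) (nat_lit 302) (nat_lit 262) (nat_lit 216)) (XT.lf (nat_lit 0) (nat_lit 578718116) (nat_lit 608) (nat_lit 3801642111) (nat_lit 684) (nat_lit 5101179532) (nat_lit 211) (nat_lit 5) (nat_lit 219) (nat_lit 5) (nat_lit 220) (nat_lit 5) (nat_lit 303) (nat_lit 262) (nat_lit 215)))))))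 (XT.nd (nat_lit 1014) (nat_lit 3952) (nat_lit 0) (XT.nd (nat_lit 468) (nat_lit 3040) (nat_lit 0) (XT.nd (nat_lit 234) (nat_lit 1216) (nat_lit 0) (XT.nd (nat_lit 78) (nat_lit 1216) (nat_lit 0) (XT.lf (nat_lit 0) (nat_lit 7839662535) (nat_lit 684) (nat_lit 1048915182) (nat_lit 76) (nat_lit 743244388) (nat_lit 211) (nat_lit 5) (nat_lit 220) (nat_lit 5) (nat_lit 212) (nat_lit 5) (nat_lit 304) (nat_lit 262) (nat_lit 214)) (XT.nd (nat_lit 78) (nat_lit 532) (nat_lit 0) (XT.lf (nat_lit 0) (nat_lit 1602621218) (nat_lit 684) (nat_lit 2765655023) (nat_lit 76) (nat_lit 5418030030) (nat_lit 202) (nat_lit 5) (nat_lit 211) (nat_lit 5) (nat_lit 203) (nat_lit 5) (nat_lit 305) (nat_lit 262) (nat_lit 213)) (XT.lf (nat_lit 0) (nat_lit 5056800452) (nat_lit 608) (nat_lit 4563475021) (nat_lit 76) (nat_lit 325329770) (nat_lit 195) (nat_lit 5) (nat_lit 203) (nat_lit 5) (nat_lit 196) (nat_lit 5) (nat_lit 306) (nat_lit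 262) (nat_lit 212)))) (XT.nd (nat_lit 78) (nat_lit 608) (nat_lit 0) (XT.lf (nat_lit 0) (nat_lit 3645761862) (nat_lit 608) (nat_lit 4979353208) (nat_lit 684) (nat_lit 1484411579) (nat_lit 187) (nat_lit 5) (nat_lit 195) (nat_lit 5) (nat_lit 196) (nat_lit 5) (nat_lit 307) (nat_lit 262) (nat_lit 211)) (XT.nd (nat_lit 78) (nat_lit 0) (nat_lit 0) (XT.lf (nat_lit 0) (nat_lit 1821306795) (nat_lit 532) (nat_lit 156853680) (nat_lit 608) (nat_lit 8300342375) (nat_lit 179) (nat_lit 5) (nat_lit 186) (nat_lit 5) (nat_lit 187) (nat_lit 5) (nat_lit 308) (nat_lit 262) (nat_lit 210)) (XT.lf (nat_lit 0) (nat_lit 5540675063) (nat_lit 608) (nat_lit 124868259) (nat_lit 76) (nat_lit 4786533714) (nat_lit 179) (nat_lit 5) (nat_lit 187) (nat_lit 5) (nat_lit 180) (nat_lit 5) (nat_lit 309) (nat_lit 262) (nat_lit 209))))) (XT.nd (nat_lit 234) (nat_lit 1444) (nat_lit 0) (XT.nd (nat_lit 78) (nat_lit 1064) (nat_lit 0) (XT.lf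 (nat_lit 0) (nat_lit 8494825850) (nat_lit 532) (nat_lit 713962007) (nat_lit 608) (nat_lit 1422144282) (nat_lit 172) (nat_lit 5) (nat_lit 179) (nat_lit 5) (nat_lit 180) (nat_lit 5) (nat_lit 310) (nat_lit 262) (nat_lit 208)) (XT.nd (nat_lit 78) (nat_lit 532) (nat_lit 0) (XT.lf (nat_lit 0) (nat_lit 2158809849) (nat_lit 532) (nat_lit 4284918306) (nat_lit 76) (nat_lit 4370878511) (nat_lit 165) (nat_lit 5) (nat_lit 172) (nat_lit 5) (nat_lit 166) (nat_lit 5) (nat_lit 311) (nat_lit 262) (nat_lit 207)) (XT.lf (nat_lit 0) (nat_lit 4452757081) (nat_lit 532) (nat_lit 1367873381) (nat_lit 608) (nat_lit 5183162268) (nat_lit 158) (nat_lit 5) (nat_lit 165) (nat_lit 5) (nat_lit 166) (nat_lit 5) (nat_lit 312) (nat_lit 262) (nat_lit 206)))) (XT.nd (nat_lit 156) (nat_lit 912) (nat_lit 0) (XT.nd (nat_lit 78) (nat_lit 76) (nat_lit 0) (XT.lf (nat_lit 0) (nat_lit 2245027627) (nat_lit 456) (nat_lit 7361586881) (nat_lit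 532) (nat_lit 1591796889) (nat_lit 152) (nat_lit 5) (nat_lit 158) (nat_lit 5) (nat_lit 159) (nat_lit 5) (nat_lit 313) (nat_lit 262) (nat_lit 205)) (XT.lf (nat_lit 0) (nat_lit 2079678199) (nat_lit 532) (nat_lit 98345799) (nat_lit 76) (nat_lit 9220611973) (nat_lit 151) (nat_lit 5) (nat_lit 158) (nat_lit 5) (nat_lit 152) (nat_lit 5) (nat_lit 314) (nat_lit 262) (nat_lit 204))) (XT.nd (nat_lit 78) (nat_lit 456) (nat_lit 0) (XT.lf (nat_lit 0) (nat_lit 5867233546) (nat_lit 532) (nat_lit 2564693343) (nat_lit 76) (nat_lit 3172218632) (nat_lit 145) (nat_lit 5) (nat_lit 152) (nat_lit 5) (nat_lit 146) (nat_lit 5) (nat_lit 315) (nat_lit 262) (nat_lit 203)) (XT.lf (nat_lit 0) (nat_lit 6639827242) (nat_lit 456) (nat_lit 3135638394) (nat_lit 532) (nat_lit 2040252475) (nat_lit 139) (nat_lit 5) (nat_lit 145) (nat_lit 5) (nat_lit 146) (nat_lit 5) (nat_lit 316) (nat_lit 262) (nat_lit 202)))))) (XT.nd (nat_lit 546)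 (nat_lit 1748) (nat_lit 0) (XT.nd (nat_lit 234) (nat_lit 1292) (nat_lit 0) (XT.nd (nat_lit 78) (nat_lit 380) (nat_lit 0) (XT.lf (nat_lit 0) (nat_lit 1752902045) (nat_lit 532) (nat_lit 7953653094) (nat_lit 76) (nat_lit 2326714666) (nat_lit 132) (nat_lit 5) (nat_lit 139) (nat_lit 5) (nat_lit 133) (nat_lit 5) (nat_lit 317) (nat_lit 262) (nat_lit 201)) (XT.nd (nat_lit 78) (nat_lit 0) (nat_lit 0) (XT.lf (nat_lit 0) (nat_lit 1340755917) (nat_lit 380) (nat_lit 4306810063) (nat_lit 456) (nat_lit 6609239486) (nat_lit 127) (nat_lit 5) (nat_lit 132) (nat_lit 5) (nat_lit 133) (nat_lit 5) (nat_lit 318) (nat_lit 262) (nat_lit 200)) (XT.lf (nat_lit 0) (nat_lit 9672649386) (nat_lit 456) (nat_lit 1540345216) (nat_lit 76) (nat_lit 1273815777) (nat_lit 127) (nat_lit 5) (nat_lit 133) (nat_lit 5) (nat_lit 128) (nat_lit 5) (nat_lit 319) (nat_lit 262) (nat_lit 199)))) (XT.nd (nat_lit 156) (nat_lit 456) (nat_lit 0) (XT.nd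 (nat_lit 78) (nat_lit 380) (nat_lit 0) (XT.lf (nat_lit 0) (nat_lit 1114776952) (nat_lit 456) (nat_lit 4602712170) (nat_lit 76) (nat_lit 7005429952) (nat_lit 121) (nat_lit 5) (nat_lit 127) (nat_lit 5) (nat_lit 122) (nat_lit 5) (nat_lit 320) (nat_lit 262) (nat_lit 198)) (XT.lf (nat_lit 0) (nat_lit 5107547244) (nat_lit 380) (nat_lit 12903589) (nat_lit 456) (nat_lit 7845378274) (nat_lit 116) (nat_lit 5) (nat_lit 121) (nat_lit 5) (nat_lit 122) (nat_lit 5) (nat_lit 321) (nat_lit 262) (nat_lit 197))) (XT.nd (nat_lit 78) (nat_lit 76) (nat_lit 0) (XT.lf (nat_lit 0) (nat_lit 1877005059) (nat_lit 380) (nat_lit 7404965903) (nat_lit 456) (nat_lit 3933373155) (nat_lit 111) (nat_lit 5) (nat_lit 116) (nat_lit 5) (nat_lit 117) (nat_lit 5) (nat_lit 322) (nat_lit 262) (nat_lit 196)) (XT.lf (nat_lit 0) (nat_lit 103039085) (nat_lit 456) (nat_lit 1526041698) (nat_lit 76) (nat_lit 11843114908) (nat_lit 110) (nat_lit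 5) (nat_lit 116) (nat_lit 5) (nat_lit 111) (nat_lit 5) (nat_lit 323) (nat_lit 262) (nat_lit 195))))) (XT.nd (nat_lit 234) (nat_lit 760) (nat_lit 0) (XT.nd (nat_lit 78) (nat_lit 684) (nat_lit 0) (XT.lf (nat_lit 0) (nat_lit 4247672547) (nat_lit 380) (nat_lit 5161033618) (nat_lit 76) (nat_lit 4326744125) (nat_lit 106) (nat_lit 5) (nat_lit 111) (nat_lit 5) (nat_lit 107) (nat_lit 5) (nat_lit 324) (nat_lit 262) (nat_lit 194)) (XT.nd (nat_lit 78) (nat_lit 304) (nat_lit 0) (XT.lf (nat_lit 0) (nat_lit 4983339895) (nat_lit 380) (nat_lit 3543652618) (nat_lit 456) (nat_lit 5479431055) (nat_lit 101) (nat_lit 5) (nat_lit 106) (nat_lit 5) (nat_lit 107) (nat_lit 5) (nat_lit 325) (nat_lit 262) (nat_lit 193)) (XT.lf (nat_lit 0) (nat_lit 1153389930) (nat_lit 304) (nat_lit 11797624900) (nat_lit 380) (nat_lit 1334211934) (nat_lit 97) (nat_lit 5) (nat_lit 101) (nat_lit 5) (nat_lit 102) (nat_lit 5) (nat_lit 326) (nat_lit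 262) (nat_lit 192)))) (XT.nd (nat_lit 156) (nat_lit 380) (nat_lit 0) (XT.nd (nat_lit 78) (nat_lit 304) (nat_lit 0) (XT.lf (nat_lit 0) (nat_lit 2940061840) (nat_lit 380) (nat_lit 2918379352) (nat_lit 76) (nat_lit 8712733646) (nat_lit 96) (nat_lit 5) (nat_lit 101) (nat_lit 5) (nat_lit 97) (nat_lit 5) (nat_lit 327) (nat_lit 262) (nat_lit 191)) (XT.lf (nat_lit 0) (nat_lit 7335203477) (nat_lit 380) (nat_lit 7235547673) (nat_lit 76) (nat_lit 294583608) (nat_lit 92) (nat_lit 5) (nat_lit 97) (nat_lit 5) (nat_lit 93) (nat_lit 5) (nat_lit 328) (nat_lit 262) (nat_lit 190))) (XT.nd (nat_lit 78) (nat_lit 76) (nat_lit 0) (XT.lf (nat_lit 0) (nat_lit 3309927662) (nat_lit 304) (nat_lit 8592692419) (nat_lit 380) (nat_lit 3264915361) (nat_lit 88) (nat_lit 5) (nat_lit 92) (nat_lit 5) (nat_lit 93) (nat_lit 5) (nat_lit 329) (nat_lit 262) (nat_lit 189)) (XT.lf (nat_lit 0) (nat_lit 1123158855) (nat_lit 380) (nat_lit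 1274825657) (nat_lit 76) (nat_lit 13080500353) (nat_lit 87) (nat_lit 5) (nat_lit 92) (nat_lit 5) (nat_lit 88) (nat_lit 5) (nat_lit 330) (nat_lit 262) (nat_lit 188))))))))
noncomputable def xc56 : XT := (XT.nd (nat_lit 2028) (nat_lit 380) (nat_lit 0) (XT.nd (nat_lit 1014) (nat_lit 1596) (nat_lit 0) (XT.nd (nat_lit 468) (nat_lit 1368) (nat_lit 0) (XT.nd (nat_lit 234) (nat_lit 608) (nat_lit 0) (XT.nd (nat_lit 78) (nat_lit 228) (nat_lit 0) (XT.lf (nat_lit 0) (nat_lit 5649355827) (nat_lit 380) (nat_lit 6152105019) (nat_lit 76) (nat_lit 3995876075) (nat_lit 83) (nat_lit 5) (nat_lit 88) (nat_lit 5) (nat_lit 84) (nat_lit 5) (nat_lit 331) (nat_lit 262) (nat_lit 187)) (XT.nd (nat_lit 78) (nat_lit 0) (nat_lit 0) (XT.lf (nat_lit 0) (nat_lit 4773155023) (nat_lit 228) (nat_lit 5556025801) (nat_lit 304) (nat_lit 5796238748) (nat_lit 80) (nat_lit 5) (nat_lit 83) (nat_lit 5) (nat_lit 84) (nat_lit 5) (nat_lit 332)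 (nat_lit 262) (nat_lit 186)) (XT.lf (nat_lit 0) (nat_lit 15159779412) (nat_lit 304) (nat_lit 415898786) (nat_lit 76) (nat_lit 887480165) (nat_lit 80) (nat_lit 5) (nat_lit 84) (nat_lit 5) (nat_lit 81) (nat_lit 5) (nat_lit 333) (nat_lit 262) (nat_lit 185)))) (XT.nd (nat_lit 78) (nat_lit 228) (nat_lit 0) (XT.lf (nat_lit 0) (nat_lit 3352844304) (nat_lit 380) (nat_lit 5933458757) (nat_lit 76) (nat_lit 7522871285) (nat_lit 75) (nat_lit 5) (nat_lit 80) (nat_lit 5) (nat_lit 76) (nat_lit 5) (nat_lit 334) (nat_lit 262) (nat_lit 184)) (XT.nd (nat_lit 78) (nat_lit 0) (nat_lit 0) (XT.lf (nat_lit 0) (nat_lit 5352010758) (nat_lit 228) (nat_lit 2780970568) (nat_lit 304) (nat_lit 9032398104) (nat_lit 72) (nat_lit 5) (nat_lit 75) (nat_lit 5) (nat_lit 76) (nat_lit 5) (nat_lit 335) (nat_lit 262) (nat_lit 183)) (XT.lf (nat_lit 0) (nat_lit 13087249461) (nat_lit 304) (nat_lit 555310714) (nat_lit 76) (nat_lit 3889115007)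 (nat_lit 72) (nat_lit 5) (nat_lit 76) (nat_lit 5) (nat_lit 73) (nat_lit 5) (nat_lit 336) (nat_lit 262) (nat_lit 182))))) (XT.nd (nat_lit 234) (nat_lit 760) (nat_lit 0) (XT.nd (nat_lit 78) (nat_lit 228) (nat_lit 0) (XT.lf (nat_lit 0) (nat_lit 334441420) (nat_lit 380) (nat_lit 6796173891) (nat_lit 76) (nat_lit 10777187251) (nat_lit 67) (nat_lit 5) (nat_lit 72) (nat_lit 5) (nat_lit 68) (nat_lit 5) (nat_lit 337) (nat_lit 262) (nat_lit 181)) (XT.nd (nat_lit 78) (nat_lit 0) (nat_lit 0) (XT.lf (nat_lit 0) (nat_lit 4821149777) (nat_lit 228) (nat_lit 376819361) (nat_lit 304) (nat_lit 13096641143) (nat_lit 64) (nat_lit 5) (nat_lit 67) (nat_lit 5) (nat_lit 68) (nat_lit 5) (nat_lit 338) (nat_lit 262) (nat_lit 180)) (XT.lf (nat_lit 0) (nat_lit 10263238878) (nat_lit 304) (nat_lit 1908165171) (nat_lit 76) (nat_lit 6520518557) (nat_lit 64) (nat_lit 5) (nat_lit 68) (nat_lit 5) (nat_lit 65) (nat_lit 5) (nat_lit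 339) (nat_lit 262) (nat_lit 179)))) (XT.nd (nat_lit 156) (nat_lit 228) (nat_lit 0) (XT.nd (nat_lit 78) (nat_lit 304) (nat_lit 0) (XT.lf (nat_lit 0) (nat_lit 10082285289) (nat_lit 228) (nat_lit 5433889558) (nat_lit 304) (nat_lit 3584281886) (nat_lit 61) (nat_lit 5) (nat_lit 64) (nat_lit 5) (nat_lit 65) (nat_lit 5) (nat_lit 340) (nat_lit 262) (nat_lit 178)) (XT.lf (nat_lit 0) (nat_lit 1397000607) (nat_lit 304) (nat_lit 16615514399) (nat_lit 76) (nat_lit 1508365549) (nat_lit 57) (nat_lit 5) (nat_lit 61) (nat_lit 5) (nat_lit 58) (nat_lit 5) (nat_lit 341) (nat_lit 262) (nat_lit 177))) (XT.nd (nat_lit 78) (nat_lit 228) (nat_lit 0) (XT.lf (nat_lit 0) (nat_lit 6545747840) (nat_lit 304) (nat_lit 4754162935) (nat_lit 76) (nat_lit 8652213360) (nat_lit 57) (nat_lit 5) (nat_lit 61) (nat_lit 5) (nat_lit 58) (nat_lit 5) (nat_lit 342) (nat_lit 262) (nat_lit 176)) (XT.lf (nat_lit 0) (nat_lit 7512226208) (nat_lit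 228) (nat_lit 4355011959) (nat_lit 304) (nat_lit 8528716134) (nat_lit 54) (nat_lit 5) (nat_lit 57) (nat_lit 5) (nat_lit 58) (nat_lit 5) (nat_lit 343) (nat_lit 262) (nat_lit 175)))))) (XT.nd (nat_lit 468) (nat_lit 836) (nat_lit 0) (XT.nd (nat_lit 234) (nat_lit 228) (nat_lit 0) (XT.nd (nat_lit 78) (nat_lit 532) (nat_lit 0) (XT.lf (nat_lit 0) (nat_lit 17368928869) (nat_lit 304) (nat_lit 708172492) (nat_lit 76) (nat_lit 2775601354) (nat_lit 54) (nat_lit 5) (nat_lit 58) (nat_lit 5) (nat_lit 55) (nat_lit 5) (nat_lit 344) (nat_lit 262) (nat_lit 174)) (XT.nd (nat_lit 78) (nat_lit 228) (nat_lit 0) (XT.lf (nat_lit 0) (nat_lit 1767853984) (nat_lit 304) (nat_lit 9421087310) (nat_lit 76) (nat_lit 10132447729) (nat_lit 50) (nat_lit 5) (nat_lit 54) (nat_lit 5) (nat_lit 51) (nat_lit 5) (nat_lit 345) (nat_lit 262) (nat_lit 173)) (XT.lf (nat_lit 0) (nat_lit 3062301669) (nat_lit 228) (nat_lit 4063557169) (nat_lit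 304) (nat_lit 14677906709) (nat_lit 47) (nat_lit 5) (nat_lit 50) (nat_lit 5) (nat_lit 51) (nat_lit 5) (nat_lit 346) (nat_lit 262) (nat_lit 172)))) (XT.nd (nat_lit 78) (nat_lit 228) (nat_lit 0) (XT.lf (nat_lit 0) (nat_lit 12701730339) (nat_lit 304) (nat_lit 6318787160) (nat_lit 76) (nat_lit 3278966307) (nat_lit 47) (nat_lit 5) (nat_lit 51) (nat_lit 5) (nat_lit 48) (nat_lit 5) (nat_lit 347) (nat_lit 262) (nat_lit 171)) (XT.nd (nat_lit 78) (nat_lit 76) (nat_lit 0) (XT.lf (nat_lit 0) (nat_lit 6488955006) (nat_lit 152) (nat_lit 11997651846) (nat_lit 228) (nat_lit 4322644779) (nat_lit 45) (nat_lit 5) (nat_lit 47) (nat_lit 5) (nat_lit 48) (nat_lit 5) (nat_lit 348) (nat_lit 262) (nat_lit 170)) (XT.lf (nat_lit 0) (nat_lit 1111996030) (nat_lit 228) (nat_lit 3618708372) (nat_lit 76) (nat_lit 18603158923) (nat_lit 44) (nat_lit 5) (nat_lit 47) (nat_lit 5) (nat_lit 45) (nat_lit 5) (nat_lit 349) (nat_lit 262)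 (nat_lit 169))))) (XT.nd (nat_lit 234) (nat_lit 456) (nat_lit 0) (XT.nd (nat_lit 78) (nat_lit 152) (nat_lit 0) (XT.lf (nat_lit 0) (nat_lit 6704975317) (nat_lit 304) (nat_lit 14375350108) (nat_lit 76) (nat_lit 2792247589) (nat_lit 41) (nat_lit 5) (nat_lit 45) (nat_lit 5) (nat_lit 42) (nat_lit 5) (nat_lit 350) (nat_lit 262) (nat_lit 168)) (XT.nd (nat_lit 78) (nat_lit 152) (nat_lit 0) (XT.lf (nat_lit 0) (nat_lit 12495981523) (nat_lit 304) (nat_lit 1446157508) (nat_lit 76) (nat_lit 10484711511) (nat_lit 41) (nat_lit 5) (nat_lit 45) (nat_lit 5) (nat_lit 42) (nat_lit 5) (nat_lit 351) (nat_lit 262) (nat_lit 167)) (XT.lf (nat_lit 0) (nat_lit 11985805104) (nat_lit 152) (nat_lit 6527409616) (nat_lit 228) (nat_lit 6483502708) (nat_lit 39) (nat_lit 5) (nat_lit 41) (nat_lit 5) (nat_lit 42) (nat_lit 5) (nat_lit 352) (nat_lit 262) (nat_lit 166)))) (XT.nd (nat_lit 156) (nat_lit 152) (nat_lit 0) (XT.nd (nat_lit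 78) (nat_lit 76) (nat_lit 0) (XT.lf (nat_lit 0) (nat_lit 210513811) (nat_lit 228) (nat_lit 24493923286) (nat_lit 304) (nat_lit 879384431) (nat_lit 36) (nat_lit 5) (nat_lit 39) (nat_lit 5) (nat_lit 40) (nat_lit 5) (nat_lit 353) (nat_lit 262) (nat_lit 165)) (XT.lf (nat_lit 0) (nat_lit 4936410128) (nat_lit 304) (nat_lit 12297771386) (nat_lit 76) (nat_lit 8951577553) (nat_lit 35) (nat_lit 5) (nat_lit 39) (nat_lit 5) (nat_lit 36) (nat_lit 5) (nat_lit 354) (nat_lit 262) (nat_lit 164))) (XT.nd (nat_lit 78) (nat_lit 0) (nat_lit 0) (XT.lf (nat_lit 0) (nat_lit 1138626335) (nat_lit 152) (nat_lit 9759606231) (nat_lit 228) (nat_lit 15907745724) (nat_lit 33) (nat_lit 5) (nat_lit 35) (nat_lit 5) (nat_lit 36) (nat_lit 5) (nat_lit 355) (nat_lit 262) (nat_lit 163)) (XT.lf (nat_lit 0) (nat_lit 15106649039) (nat_lit 152) (nat_lit 1992074263) (nat_lit 228) (nat_lit 10344894071) (nat_lit 33) (nat_lit 5) (nat_lit 35)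 (nat_lit 5) (nat_lit 36) (nat_lit 5) (nat_lit 356) (nat_lit 262) (nat_lit 162))))))) (XT.nd (nat_lit 34008) (nat_lit 0) (nat_lit 30932) (XT.nd (nat_lit 33462) (nat_lit 0) (nat_lit 40204) (XT.nd (nat_lit 234) (nat_lit 0) (nat_lit 0) (XT.nd (nat_lit 78) (nat_lit 228) (nat_lit 0) (XT.lf (nat_lit 0) (nat_lit 1332790632) (nat_lit 152) (nat_lit 22177165012) (nat_lit 228) (nat_lit 4589944725) (nat_lit 31) (nat_lit 5) (nat_lit 33) (nat_lit 5) (nat_lit 34) (nat_lit 5) (nat_lit 357) (nat_lit 262) (nat_lit 161)) (XT.nd (nat_lit 78) (nat_lit 152) (nat_lit 0) (XT.lf (nat_lit 0) (nat_lit 1394907644) (nat_lit 228) (nat_lit 13253929854) (nat_lit 76) (nat_lit 14125373526) (nat_lit 30) (nat_lit 5) (nat_lit 33) (nat_lit 5) (nat_lit 31) (nat_lit 5) (nat_lit 358) (nat_lit 262) (nat_lit 160)) (XT.lf (nat_lit 0) (nat_lit 604320601) (nat_lit 152) (nat_lit 6874888618) (nat_lit 228) (nat_lit 21989298303) (nat_lit 28) (nat_lit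 5) (nat_lit 30) (nat_lit 5) (nat_lit 31) (nat_lit 5) (nat_lit 359) (nat_lit 262) (nat_lit 159)))) (XT.nd (nat_lit 33072) (nat_lit 0) (nat_lit 42408) (XT.lf (nat_lit 0) (nat_lit 13822084645) (nat_lit 228) (nat_lit 15167329879) (nat_lit 76) (nat_lit 1192705817) (nat_lit 28) (nat_lit 5) (nat_lit 31) (nat_lit 5) (nat_lit 29) (nat_lit 5) (nat_lit 360) (nat_lit 262) (nat_lit 158)) (XT.nd (nat_lit 78) (nat_lit 380) (nat_lit 0) (XT.lf (nat_lit 0) (nat_lit 2627226145) (nat_lit 380) (nat_lit 306942721) (nat_lit 380) (nat_lit 306942721) (nat_lit 591) (nat_lit 3) (nat_lit 596) (nat_lit 3) (nat_lit 596) (nat_lit 5) (nat_lit 263) (nat_lit 263) (nat_lit 254)) (XT.lf (nat_lit 0) (nat_lit 2579636045) (nat_lit 380) (nat_lit 2670095035) (nat_lit 456) (nat_lit 1247099176) (nat_lit 586) (nat_lit 5) (nat_lit 591) (nat_lit 3) (nat_lit 592) (nat_lit 5) (nat_lit 264) (nat_lit 263) (nat_lit 253))))) (XT.nd (nat_lit 234)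 (nat_lit 1216) (nat_lit 0) (XT.nd (nat_lit 78) (nat_lit 988) (nat_lit 0) (XT.lf (nat_lit 76) (nat_lit 1834963707) (nat_lit 0) (nat_lit 4517628812) (nat_lit 456) (nat_lit 162018082) (nat_lit 587) (nat_lit 5) (nat_lit 586) (nat_lit 5) (nat_lit 592) (nat_lit 5) (nat_lit 265) (nat_lit 263) (nat_lit 252)) (XT.nd (nat_lit 78) (nat_lit 532) (nat_lit 0) (XT.lf (nat_lit 0) (nat_lit 3529850569) (nat_lit 456) (nat_lit 123982565) (nat_lit 532) (nat_lit 2881402335) (nat_lit 580) (nat_lit 5) (nat_lit 586) (nat_lit 5) (nat_lit 587) (nat_lit 5) (nat_lit 266) (nat_lit 263) (nat_lit 251)) (XT.lf (nat_lit 0) (nat_lit 650915003) (nat_lit 532) (nat_lit 2012930210) (nat_lit 608) (nat_lit 3895000336) (nat_lit 573) (nat_lit 5) (nat_lit 580) (nat_lit 5) (nat_lit 581) (nat_lit 5) (nat_lit 267) (nat_lit 263) (nat_lit 250)))) (XT.nd (nat_lit 156) (nat_lit 608) (nat_lit 0) (XT.nd (nat_lit 78) (nat_lit 608) (nat_lit 0) (XT.lf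 (nat_lit 76) (nat_lit 2712439753) (nat_lit 0) (nat_lit 1543475455) (nat_lit 608) (nat_lit 2329481074) (nat_lit 574) (nat_lit 5) (nat_lit 573) (nat_lit 5) (nat_lit 581) (nat_lit 5) (nat_lit 268) (nat_lit 263) (nat_lit 249)) (XT.lf (nat_lit 76) (nat_lit 919555184) (nat_lit 0) (nat_lit 302268598) (nat_lit 684) (nat_lit 5393293433) (nat_lit 566) (nat_lit 5) (nat_lit 565) (nat_lit 5) (nat_lit 574) (nat_lit 5) (nat_lit 269) (nat_lit 263) (nat_lit 248))) (XT.nd (nat_lit 78) (nat_lit 684) (nat_lit 0) (XT.lf (nat_lit 0) (nat_lit 4748381661) (nat_lit 608) (nat_lit 838662514) (nat_lit 684) (nat_lit 1060579723) (nat_lit 566) (nat_lit 5) (nat_lit 574) (nat_lit 5) (nat_lit 575) (nat_lit 5) (nat_lit 270) (nat_lit 263) (nat_lit 247)) (XT.lf (nat_lit 0) (nat_lit 1576655170) (nat_lit 684) (nat_lit 2555367788) (nat_lit 760) (nat_lit 2551075053) (nat_lit 557) (nat_lit 5) (nat_lit 566) (nat_lit 5) (nat_lit 567) (nat_lit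 5) (nat_lit 271) (nat_lit 263) (nat_lit 246)))))) (XT.nd (nat_lit 468) (nat_lit 5928) (nat_lit 0) (XT.nd (nat_lit 234) (nat_lit 2584) (nat_lit 0) (XT.nd (nat_lit 78) (nat_lit 760) (nat_lit 0) (XT.lf (nat_lit 76) (nat_lit 2476312750) (nat_lit 0) (nat_lit 2550172174) (nat_lit 760) (nat_lit 1695184613) (nat_lit 558) (nat_lit 5) (nat_lit 557) (nat_lit 5) (nat_lit 567) (nat_lit 5) (nat_lit 272) (nat_lit 263) (nat_lit 245)) (XT.nd (nat_lit 78) (nat_lit 0) (nat_lit 76) (XT.lf (nat_lit 76) (nat_lit 853077161) (nat_lit 0) (nat_lit 840148624) (nat_lit 836) (nat_lit 5070147158) (nat_lit 548) (nat_lit 5) (nat_lit 547) (nat_lit 5) (nat_lit 558) (nat_lit 5) (nat_lit 273) (nat_lit 263) (nat_lit 244)) (XT.lf (nat_lit 0) (nat_lit 5074419413) (nat_lit 760) (nat_lit 741346669) (nat_lit 76) (nat_lit 992232791) (nat_lit 548) (nat_lit 5) (nat_lit 558) (nat_lit 5) (nat_lit 549) (nat_lit 5) (nat_lit 274) (nat_lit 263)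 (nat_lit 243)))) (XT.nd (nat_lit 78) (nat_lit 1824) (nat_lit 0) (XT.lf (nat_lit 0) (nat_lit 1597861836) (nat_lit 836) (nat_lit 2307767056) (nat_lit 76) (nat_lit 2949941436) (nat_lit 537) (nat_lit 5) (nat_lit 548) (nat_lit 5) (nat_lit 538) (nat_lit 5) (nat_lit 275) (nat_lit 263) (nat_lit 242)) (XT.nd (nat_lit 78) (nat_lit 988) (nat_lit 0) (XT.lf (nat_lit 0) (nat_lit 3050953484) (nat_lit 836) (nat_lit 1864347637) (nat_lit 912) (nat_lit 1991011676) (nat_lit 526) (nat_lit 5) (nat_lit 537) (nat_lit 5) (nat_lit 538) (nat_lit 5) (nat_lit 276) (nat_lit 263) (nat_lit 241)) (XT.lf (nat_lit 0) (nat_lit 1270207947) (nat_lit 988) (nat_lit 5386023210) (nat_lit 76) (nat_lit 304034484) (nat_lit 513) (nat_lit 5) (nat_lit 526) (nat_lit 5) (nat_lit 514) (nat_lit 5) (nat_lit 277) (nat_lit 263) (nat_lit 240))))) (XT.nd (nat_lit 234) (nat_lit 3800) (nat_lit 0) (XT.nd (nat_lit 78) (nat_lit 1140) (nat_lit 0) (XT.lf (nat_lit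 0) (nat_lit 99112103) (nat_lit 988) (nat_lit 4432238931) (nat_lit 1064) (nat_lit 2485792749) (nat_lit 500) (nat_lit 5) (nat_lit 513) (nat_lit 5) (nat_lit 514) (nat_lit 5) (nat_lit 278) (nat_lit 263) (nat_lit 239)) (XT.nd (nat_lit 78) (nat_lit 1064) (nat_lit 0) (XT.lf (nat_lit 0) (nat_lit 732071924) (nat_lit 1064) (nat_lit 1338708990) (nat_lit 76) (nat_lit 5006423776) (nat_lit 499) (nat_lit 5) (nat_lit 513) (nat_lit 5) (nat_lit 500) (nat_lit 5) (nat_lit 279) (nat_lit 263) (nat_lit 238)) (XT.lf (nat_lit 0) (nat_lit 3938667867) (nat_lit 1140) (nat_lit 2772906026) (nat_lit 76) (nat_lit 428786635) (nat_lit 485) (nat_lit 5) (nat_lit 500) (nat_lit 5) (nat_lit 486) (nat_lit 5) (nat_lit 280) (nat_lit 263) (nat_lit 237)))) (XT.nd (nat_lit 156) (nat_lit 1368) (nat_lit 0) (XT.nd (nat_lit 78) (nat_lit 1292) (nat_lit 0) (XT.lf (nat_lit 0) (nat_lit 3003941030) (nat_lit 1140) (nat_lit 4177320325) (nat_lit 1216)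 (nat_lit 25490660) (nat_lit 470) (nat_lit 5) (nat_lit 485) (nat_lit 5) (nat_lit 486) (nat_lit 5) (nat_lit 281) (nat_lit 263) (nat_lit 236)) (XT.lf (nat_lit 0) (nat_lit 1637943068) (nat_lit 1216) (nat_lit 1494036428) (nat_lit 1292) (nat_lit 4144293539) (nat_lit 453) (nat_lit 5) (nat_lit 469) (nat_lit 5) (nat_lit 470) (nat_lit 5) (nat_lit 282) (nat_lit 263) (nat_lit 235))) (XT.nd (nat_lit 78) (nat_lit 76) (nat_lit 0) (XT.lf (nat_lit 0) (nat_lit 278622961) (nat_lit 1292) (nat_lit 6045496772) (nat_lit 1368) (nat_lit 1025077308) (nat_lit 436) (nat_lit 5) (nat_lit 453) (nat_lit 5) (nat_lit 454) (nat_lit 5) (nat_lit 283) (nat_lit 263) (nat_lit 234)) (XT.lf (nat_lit 0) (nat_lit 2110638401) (nat_lit 1368) (nat_lit 1078397003) (nat_lit 76) (nat_lit 4236077454) (nat_lit 435) (nat_lit 5) (nat_lit 453) (nat_lit 5) (nat_lit 436) (nat_lit 5) (nat_lit 284) (nat_lit 263) (nat_lit 233))))))))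
noncomputable def xc57 : XT := (XT.nd (nat_lit 2028) (nat_lit 7600) (nat_lit 0) (XT.nd (nat_lit 1014) (nat_lit 7144) (nat_lit 0) (XT.nd (nat_lit 468) (nat_lit 5092) (nat_lit 0) (XT.nd (nat_lit 234) (nat_lit 3344) (nat_lit 0) (XT.nd (nat_lit 78) (nat_lit 3040) (nat_lit 0) (XT.lf (nat_lit 0) (nat_lit 5074931605) (nat_lit 1368) (nat_lit 190580733) (nat_lit 1444) (nat_lit 2238994994) (nat_lit 417) (nat_lit 5) (nat_lit 435) (nat_lit 5) (nat_lit 436) (nat_lit 5) (nat_lit 285) (nat_lit 263) (nat_lit 232)) (XT.nd (nat_lit 78) (nat_lit 1520) (nat_lit 0) (XT.lf (nat_lit 0) (nat_lit 875302434) (nat_lit 1520) (nat_lit 3799694480) (nat_lit 76) (nat_lit 2912102772) (nat_lit 397) (nat_lit 5) (nat_lit 417) (nat_lit 5) (nat_lit 398) (nat_lit 5) (nat_lit 286) (nat_lit 263) (nat_lit 231)) (XT.lf (nat_lit 0) (nat_lit 2489489559) (nat_lit 1520) (nat_lit 1507085563) (nat_lit 1596) (nat_lit 3676527475) (nat_lit 377)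 (nat_lit 5) (nat_lit 397) (nat_lit 5) (nat_lit 398) (nat_lit 5) (nat_lit 287) (nat_lit 263) (nat_lit 230)))) (XT.nd (nat_lit 78) (nat_lit 1748) (nat_lit 0) (XT.lf (nat_lit 0) (nat_lit 1182360156) (nat_lit 1596) (nat_lit 5986091789) (nat_lit 1672) (nat_lit 594199275) (nat_lit 356) (nat_lit 5) (nat_lit 377) (nat_lit 5) (nat_lit 378) (nat_lit 5) (nat_lit 288) (nat_lit 263) (nat_lit 229)) (XT.nd (nat_lit 78) (nat_lit 1672) (nat_lit 0) (XT.lf (nat_lit 0) (nat_lit 2505545890) (nat_lit 1672) (nat_lit 150705774) (nat_lit 76) (nat_lit 5199223586) (nat_lit 355) (nat_lit 5) (nat_lit 377) (nat_lit 5) (nat_lit 356) (nat_lit 5) (nat_lit 289) (nat_lit 263) (nat_lit 228)) (XT.lf (nat_lit 0) (nat_lit 5653547798) (nat_lit 1748) (nat_lit 1481995578) (nat_lit 76) (nat_lit 816292306) (nat_lit 333) (nat_lit 5) (nat_lit 356) (nat_lit 5) (nat_lit 334) (nat_lit 5) (nat_lit 290) (nat_lit 263) (nat_lit 227))))) (XT.nd (nat_lit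 234) (nat_lit 2356) (nat_lit 0) (XT.nd (nat_lit 78) (nat_lit 1672) (nat_lit 0) (XT.lf (nat_lit 0) (nat_lit 804042855) (nat_lit 1064) (nat_lit 2844388398) (nat_lit 76) (nat_lit 4403233846) (nat_lit 319) (nat_lit 5) (nat_lit 333) (nat_lit 5) (nat_lit 320) (nat_lit 5) (nat_lit 291) (nat_lit 263) (nat_lit 226)) (XT.nd (nat_lit 78) (nat_lit 836) (nat_lit 0) (XT.lf (nat_lit 0) (nat_lit 3921396767) (nat_lit 836) (nat_lit 1715716) (nat_lit 912) (nat_lit 4232064830) (nat_lit 308) (nat_lit 5) (nat_lit 319) (nat_lit 5) (nat_lit 320) (nat_lit 5) (nat_lit 292) (nat_lit 263) (nat_lit 225)) (XT.lf (nat_lit 0) (nat_lit 2599021996) (nat_lit 836) (nat_lit 4518405086) (nat_lit 912) (nat_lit 1144821363) (nat_lit 297) (nat_lit 5) (nat_lit 308) (nat_lit 5) (nat_lit 309) (nat_lit 5) (nat_lit 293) (nat_lit 263) (nat_lit 224)))) (XT.nd (nat_lit 156) (nat_lit 1520) (nat_lit 0) (XT.nd (nat_lit 78) (nat_lit 0) (nat_lit 0)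 (XT.lf (nat_lit 0) (nat_lit 1247663917) (nat_lit 760) (nat_lit 719903415) (nat_lit 836) (nat_lit 6405598584) (nat_lit 286) (nat_lit 5) (nat_lit 296) (nat_lit 5) (nat_lit 297) (nat_lit 5) (nat_lit 294) (nat_lit 263) (nat_lit 223)) (XT.lf (nat_lit 0) (nat_lit 5141208303) (nat_lit 836) (nat_lit 150298355) (nat_lit 76) (nat_lit 3196164631) (nat_lit 286) (nat_lit 5) (nat_lit 297) (nat_lit 5) (nat_lit 287) (nat_lit 5) (nat_lit 295) (nat_lit 263) (nat_lit 222))) (XT.nd (nat_lit 78) (nat_lit 760) (nat_lit 0) (XT.lf (nat_lit 0) (nat_lit 7045618783) (nat_lit 760) (nat_lit 1341200278) (nat_lit 836) (nat_lit 219335616) (nat_lit 276) (nat_lit 5) (nat_lit 286) (nat_lit 5) (nat_lit 287) (nat_lit 5) (nat_lit 296) (nat_lit 263) (nat_lit 221)) (XT.lf (nat_lit 0) (nat_lit 2945724130) (nat_lit 760) (nat_lit 3035875496) (nat_lit 76) (nat_lit 2746607773) (nat_lit 266) (nat_lit 5) (nat_lit 276) (nat_lit 5) (nat_lit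 267) (nat_lit 5) (nat_lit 297) (nat_lit 263) (nat_lit 220)))))) (XT.nd (nat_lit 468) (nat_lit 3572) (nat_lit 0) (XT.nd (nat_lit 234) (nat_lit 1368) (nat_lit 0) (XT.nd (nat_lit 78) (nat_lit 1444) (nat_lit 0) (XT.lf (nat_lit 0) (nat_lit 4300152091) (nat_lit 760) (nat_lit 1879074481) (nat_lit 836) (nat_lit 2675208861) (nat_lit 256) (nat_lit 5) (nat_lit 266) (nat_lit 5) (nat_lit 267) (nat_lit 5) (nat_lit 298) (nat_lit 263) (nat_lit 219)) (XT.nd (nat_lit 78) (nat_lit 684) (nat_lit 0) (XT.lf (nat_lit 0) (nat_lit 503204389) (nat_lit 760) (nat_lit 6128586443) (nat_lit 76) (nat_lit 2352963735) (nat_lit 246) (nat_lit 5) (nat_lit 256) (nat_lit 5) (nat_lit 247) (nat_lit 5) (nat_lit 299) (nat_lit 263) (nat_lit 218)) (XT.lf (nat_lit 0) (nat_lit 1343767179) (nat_lit 684) (nat_lit 2380909776) (nat_lit 760) (nat_lit 5394338275) (nat_lit 237) (nat_lit 5) (nat_lit 246) (nat_lit 5) (nat_lit 247) (nat_lit 5) (nat_lit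 300) (nat_lit 263) (nat_lit 217)))) (XT.nd (nat_lit 78) (nat_lit 1368) (nat_lit 0) (XT.lf (nat_lit 0) (nat_lit 7030514213) (nat_lit 760) (nat_lit 221758297) (nat_lit 76) (nat_lit 2005341516) (nat_lit 237) (nat_lit 5) (nat_lit 247) (nat_lit 5) (nat_lit 238) (nat_lit 5) (nat_lit 301) (nat_lit 263) (nat_lit 216)) (XT.nd (nat_lit 78) (nat_lit 684) (nat_lit 0) (XT.lf (nat_lit 0) (nat_lit 1021473902) (nat_lit 684) (nat_lit 1839490980) (nat_lit 76) (nat_lit 6539335207) (nat_lit 228) (nat_lit 5) (nat_lit 237) (nat_lit 5) (nat_lit 229) (nat_lit 5) (nat_lit 302) (nat_lit 263) (nat_lit 215)) (XT.lf (nat_lit 0) (nat_lit 4324976529) (nat_lit 760) (nat_lit 3535567879) (nat_lit 76) (nat_lit 1686733130) (nat_lit 219) (nat_lit 5) (nat_lit 229) (nat_lit 5) (nat_lit 220) (nat_lit 5) (nat_lit 303) (nat_lit 263) (nat_lit 214))))) (XT.nd (nat_lit 234) (nat_lit 1748) (nat_lit 0) (XT.nd (nat_lit 78) (nat_lit 1216) (nat_lit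 0) (XT.lf (nat_lit 0) (nat_lit 4389801130) (nat_lit 608) (nat_lit 3335140874) (nat_lit 684) (nat_lit 1973833222) (nat_lit 211) (nat_lit 5) (nat_lit 219) (nat_lit 5) (nat_lit 220) (nat_lit 5) (nat_lit 304) (nat_lit 263) (nat_lit 213)) (XT.nd (nat_lit 78) (nat_lit 532) (nat_lit 0) (XT.lf (nat_lit 0) (nat_lit 1342681203) (nat_lit 684) (nat_lit 7164088653) (nat_lit 76) (nat_lit 1348153337) (nat_lit 202) (nat_lit 5) (nat_lit 211) (nat_lit 5) (nat_lit 203) (nat_lit 5) (nat_lit 305) (nat_lit 263) (nat_lit 212)) (XT.lf (nat_lit 0) (nat_lit 890765240) (nat_lit 532) (nat_lit 3844893571) (nat_lit 608) (nat_lit 5279813822) (nat_lit 195) (nat_lit 5) (nat_lit 202) (nat_lit 5) (nat_lit 203) (nat_lit 5) (nat_lit 306) (nat_lit 263) (nat_lit 211)))) (XT.nd (nat_lit 156) (nat_lit 1064) (nat_lit 0) (XT.nd (nat_lit 78) (nat_lit 684) (nat_lit 0) (XT.lf (nat_lit 0) (nat_lit 8226051088) (nat_lit 608) (nat_lit 974484931)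 (nat_lit 76) (nat_lit 980442132) (nat_lit 195) (nat_lit 5) (nat_lit 203) (nat_lit 5) (nat_lit 196) (nat_lit 5) (nat_lit 307) (nat_lit 263) (nat_lit 210)) (XT.lf (nat_lit 0) (nat_lit 1466656804) (nat_lit 684) (nat_lit 2940244251) (nat_lit 76) (nat_lit 5944082005) (nat_lit 186) (nat_lit 5) (nat_lit 195) (nat_lit 5) (nat_lit 187) (nat_lit 5) (nat_lit 308) (nat_lit 263) (nat_lit 209))) (XT.nd (nat_lit 78) (nat_lit 532) (nat_lit 0) (XT.lf (nat_lit 0) (nat_lit 4953790067) (nat_lit 608) (nat_lit 5006582174) (nat_lit 76) (nat_lit 565716350) (nat_lit 179) (nat_lit 5) (nat_lit 187) (nat_lit 5) (nat_lit 180) (nat_lit 5) (nat_lit 309) (nat_lit 263) (nat_lit 208)) (XT.lf (nat_lit 0) (nat_lit 3512875957) (nat_lit 532) (nat_lit 5049190119) (nat_lit 608) (nat_lit 2144097379) (nat_lit 172) (nat_lit 5) (nat_lit 179) (nat_lit 5) (nat_lit 180) (nat_lit 5) (nat_lit 310) (nat_lit 263) (nat_lit 207))))))) (XT.nd (nat_lit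 1014) (nat_lit 2964) (nat_lit 0) (XT.nd (nat_lit 468) (nat_lit 2128) (nat_lit 0) (XT.nd (nat_lit 234) (nat_lit 1444) (nat_lit 0) (XT.nd (nat_lit 78) (nat_lit 532) (nat_lit 0) (XT.lf (nat_lit 0) (nat_lit 1357294470) (nat_lit 532) (nat_lit 9487840714) (nat_lit 76) (nat_lit 46599081) (nat_lit 165) (nat_lit 5) (nat_lit 172) (nat_lit 5) (nat_lit 166) (nat_lit 5) (nat_lit 311) (nat_lit 263) (nat_lit 206)) (XT.nd (nat_lit 78) (nat_lit 532) (nat_lit 0) (XT.lf (nat_lit 0) (nat_lit 4963610284) (nat_lit 532) (nat_lit 843216558) (nat_lit 76) (nat_lit 5275224864) (nat_lit 165) (nat_lit 5) (nat_lit 172) (nat_lit 5) (nat_lit 166) (nat_lit 5) (nat_lit 312) (nat_lit 263) (nat_lit 205)) (XT.lf (nat_lit 0) (nat_lit 8098666038) (nat_lit 532) (nat_lit 579616952) (nat_lit 608) (nat_lit 2599834271) (nat_lit 158) (nat_lit 5) (nat_lit 165) (nat_lit 5) (nat_lit 166) (nat_lit 5) (nat_lit 313) (nat_lit 263) (nat_lit 204))))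 (XT.nd (nat_lit 78) (nat_lit 912) (nat_lit 0) (XT.lf (nat_lit 0) (nat_lit 1034298744) (nat_lit 532) (nat_lit 5669135785) (nat_lit 76) (nat_lit 4776069120) (nat_lit 151) (nat_lit 5) (nat_lit 158) (nat_lit 5) (nat_lit 152) (nat_lit 5) (nat_lit 314) (nat_lit 263) (nat_lit 203)) (XT.nd (nat_lit 78) (nat_lit 456) (nat_lit 0) (XT.lf (nat_lit 0) (nat_lit 3382094042) (nat_lit 456) (nat_lit 1357027026) (nat_lit 532) (nat_lit 6947565883) (nat_lit 145) (nat_lit 5) (nat_lit 151) (nat_lit 5) (nat_lit 152) (nat_lit 5) (nat_lit 315) (nat_lit 263) (nat_lit 202)) (XT.lf (nat_lit 0) (nat_lit 798841555) (nat_lit 456) (nat_lit 7777244199) (nat_lit 532) (nat_lit 3323617672) (nat_lit 139) (nat_lit 5) (nat_lit 145) (nat_lit 5) (nat_lit 146) (nat_lit 5) (nat_lit 316) (nat_lit 263) (nat_lit 201))))) (XT.nd (nat_lit 234) (nat_lit 1216) (nat_lit 0) (XT.nd (nat_lit 78) (nat_lit 836) (nat_lit 0) (XT.lf (nat_lit 0) (nat_lit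 420264006) (nat_lit 532) (nat_lit 1908208538) (nat_lit 76) (nat_lit 9790288955) (nat_lit 138) (nat_lit 5) (nat_lit 145) (nat_lit 5) (nat_lit 139) (nat_lit 5) (nat_lit 317) (nat_lit 263) (nat_lit 200)) (XT.nd (nat_lit 78) (nat_lit 380) (nat_lit 0) (XT.lf (nat_lit 0) (nat_lit 4254695950) (nat_lit 532) (nat_lit 4793542003) (nat_lit 76) (nat_lit 3295280977) (nat_lit 132) (nat_lit 5) (nat_lit 139) (nat_lit 5) (nat_lit 133) (nat_lit 5) (nat_lit 318) (nat_lit 263) (nat_lit 199)) (XT.lf (nat_lit 0) (nat_lit 4724559073) (nat_lit 380) (nat_lit 3492013350) (nat_lit 456) (nat_lit 4358232189) (nat_lit 127) (nat_lit 5) (nat_lit 132) (nat_lit 5) (nat_lit 133) (nat_lit 5) (nat_lit 319) (nat_lit 263) (nat_lit 198)))) (XT.nd (nat_lit 156) (nat_lit 760) (nat_lit 0) (XT.nd (nat_lit 78) (nat_lit 76) (nat_lit 0) (XT.lf (nat_lit 0) (nat_lit 1724563765) (nat_lit 380) (nat_lit 10585101477) (nat_lit 456) (nat_lit 503149197)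 (nat_lit 122) (nat_lit 5) (nat_lit 127) (nat_lit 5) (nat_lit 128) (nat_lit 5) (nat_lit 320) (nat_lit 263) (nat_lit 197)) (XT.lf (nat_lit 0) (nat_lit 3453586314) (nat_lit 456) (nat_lit 1473423683) (nat_lit 76) (nat_lit 8129905925) (nat_lit 121) (nat_lit 5) (nat_lit 127) (nat_lit 5) (nat_lit 122) (nat_lit 5) (nat_lit 321) (nat_lit 263) (nat_lit 196))) (XT.nd (nat_lit 78) (nat_lit 380) (nat_lit 0) (XT.lf (nat_lit 0) (nat_lit 7539269553) (nat_lit 456) (nat_lit 4839066555) (nat_lit 76) (nat_lit 929626483) (nat_lit 116) (nat_lit 5) (nat_lit 122) (nat_lit 5) (nat_lit 117) (nat_lit 5) (nat_lit 322) (nat_lit 263) (nat_lit 195)) (XT.lf (nat_lit 0) (nat_lit 5135386162) (nat_lit 380) (nat_lit 6645146020) (nat_lit 456) (nat_lit 1785377707) (nat_lit 111) (nat_lit 5) (nat_lit 116) (nat_lit 5) (nat_lit 117) (nat_lit 5) (nat_lit 323) (nat_lit 263) (nat_lit 194)))))) (XT.nd (nat_lit 468) (nat_lit 1520) (nat_lit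 0) (XT.nd (nat_lit 234) (nat_lit 684) (nat_lit 0) (XT.nd (nat_lit 78) (nat_lit 380) (nat_lit 0) (XT.lf (nat_lit 0) (nat_lit 1588085810) (nat_lit 304) (nat_lit 699498741) (nat_lit 380) (nat_lit 11543727299) (nat_lit 106) (nat_lit 5) (nat_lit 110) (nat_lit 5) (nat_lit 111) (nat_lit 5) (nat_lit 324) (nat_lit 263) (nat_lit 193)) (XT.nd (nat_lit 78) (nat_lit 380) (nat_lit 0) (XT.lf (nat_lit 0) (nat_lit 6509293494) (nat_lit 380) (nat_lit 2190007606) (nat_lit 76) (nat_lit 5404149635) (nat_lit 106) (nat_lit 5) (nat_lit 111) (nat_lit 5) (nat_lit 107) (nat_lit 5) (nat_lit 325) (nat_lit 263) (nat_lit 192)) (XT.lf (nat_lit 0) (nat_lit 8207983796) (nat_lit 380) (nat_lit 2666814239) (nat_lit 456) (nat_lit 3508639250) (nat_lit 101) (nat_lit 5) (nat_lit 106) (nat_lit 5) (nat_lit 107) (nat_lit 5) (nat_lit 326) (nat_lit 263) (nat_lit 191)))) (XT.nd (nat_lit 78) (nat_lit 304) (nat_lit 0) (XT.lf (nat_lit 0) (nat_lit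 715829680) (nat_lit 380) (nat_lit 10426606583) (nat_lit 76) (nat_lit 3528810279) (nat_lit 96) (nat_lit 5) (nat_lit 101) (nat_lit 5) (nat_lit 97) (nat_lit 5) (nat_lit 327) (nat_lit 263) (nat_lit 190)) (XT.nd (nat_lit 78) (nat_lit 304) (nat_lit 0) (XT.lf (nat_lit 0) (nat_lit 5039957473) (nat_lit 380) (nat_lit 5675499) (nat_lit 76) (nat_lit 9921205777) (nat_lit 96) (nat_lit 5) (nat_lit 101) (nat_lit 5) (nat_lit 97) (nat_lit 5) (nat_lit 328) (nat_lit 263) (nat_lit 189)) (XT.lf (nat_lit 0) (nat_lit 9533882314) (nat_lit 380) (nat_lit 4466746108) (nat_lit 76) (nat_lit 1269892508) (nat_lit 92) (nat_lit 5) (nat_lit 97) (nat_lit 5) (nat_lit 93) (nat_lit 5) (nat_lit 329) (nat_lit 263) (nat_lit 188))))) (XT.nd (nat_lit 234) (nat_lit 836) (nat_lit 0) (XT.nd (nat_lit 78) (nat_lit 380) (nat_lit 0) (XT.lf (nat_lit 0) (nat_lit 6346651326) (nat_lit 304) (nat_lit 7853112019) (nat_lit 380) (nat_lit 1382830445) (nat_lit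 88) (nat_lit 5) (nat_lit 92) (nat_lit 5) (nat_lit 93) (nat_lit 5) (nat_lit 330) (nat_lit 263) (nat_lit 187)) (XT.nd (nat_lit 78) (nat_lit 0) (nat_lit 0) (XT.lf (nat_lit 0) (nat_lit 1585921320) (nat_lit 304) (nat_lit 1478378568) (nat_lit 380) (nat_lit 12839280353) (nat_lit 83) (nat_lit 5) (nat_lit 87) (nat_lit 5) (nat_lit 88) (nat_lit 5) (nat_lit 331) (nat_lit 263) (nat_lit 186)) (XT.lf (nat_lit 0) (nat_lit 7685418899) (nat_lit 380) (nat_lit 3473193679) (nat_lit 76) (nat_lit 5074234894) (nat_lit 83) (nat_lit 5) (nat_lit 88) (nat_lit 5) (nat_lit 84) (nat_lit 5) (nat_lit 332) (nat_lit 263) (nat_lit 185)))) (XT.nd (nat_lit 156) (nat_lit 228) (nat_lit 0) (XT.nd (nat_lit 78) (nat_lit 380) (nat_lit 0) (XT.lf (nat_lit 0) (nat_lit 7733367692) (nat_lit 228) (nat_lit 4736194425) (nat_lit 304) (nat_lit 4101963412) (nat_lit 80) (nat_lit 5) (nat_lit 83) (nat_lit 5) (nat_lit 84) (nat_lit 5) (nat_lit 333) (nat_lit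 263) (nat_lit 184)) (XT.lf (nat_lit 0) (nat_lit 486824997) (nat_lit 380) (nat_lit 14555273084) (nat_lit 76) (nat_lit 1877899280) (nat_lit 75) (nat_lit 5) (nat_lit 80) (nat_lit 5) (nat_lit 76) (nat_lit 5) (nat_lit 334) (nat_lit 263) (nat_lit 183))) (XT.nd (nat_lit 78) (nat_lit 228) (nat_lit 0) (XT.lf (nat_lit 0) (nat_lit 5215114460) (nat_lit 380) (nat_lit 3366637183) (nat_lit 76) (nat_lit 8695497140) (nat_lit 75) (nat_lit 5) (nat_lit 80) (nat_lit 5) (nat_lit 76) (nat_lit 5) (nat_lit 335) (nat_lit 263) (nat_lit 182)) (XT.lf (nat_lit 0) (nat_lit 8212864887) (nat_lit 228) (nat_lit 1892011596) (nat_lit 304) (nat_lit 7539967287) (nat_lit 72) (nat_lit 5) (nat_lit 75) (nat_lit 5) (nat_lit 76) (nat_lit 5) (nat_lit 336) (nat_lit 263) (nat_lit 181))))))))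
noncomputable def xc58 : XT := (XT.nd (nat_lit 35100) (nat_lit 0) (nat_lit 22116) (XT.nd (nat_lit 1014) (nat_lit 1292) (nat_lit 0) (XT.nd (nat_lit 468) (nat_lit 912) (nat_lit 0) (XT.nd (nat_lit 234) (nat_lit 532) (nat_lit 0) (XT.nd (nat_lit 78) (nat_lit 304) (nat_lit 0) (XT.lf (nat_lit 0) (nat_lit 2105623714) (nat_lit 304) (nat_lit 13071622205) (nat_lit 380) (nat_lit 2845520357) (nat_lit 68) (nat_lit 5) (nat_lit 72) (nat_lit 5) (nat_lit 73) (nat_lit 5) (nat_lit 337) (nat_lit 263) (nat_lit 180)) (XT.nd (nat_lit 78) (nat_lit 228) (nat_lit 0) (XT.lf (nat_lit 0) (nat_lit 2007879907) (nat_lit 380) (nat_lit 4370100280) (nat_lit 76) (nat_lit 12032920670) (nat_lit 67) (nat_lit 5) (nat_lit 72) (nat_lit 5) (nat_lit 68) (nat_lit 5) (nat_lit 338) (nat_lit 263) (nat_lit 179)) (XT.lf (nat_lit 0) (nat_lit 6989347185) (nat_lit 304) (nat_lit 11260579961) (nat_lit 76) (nat_lit 559970260) (nat_lit 64) (nat_lit 5)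 (nat_lit 68) (nat_lit 5) (nat_lit 65) (nat_lit 5) (nat_lit 339) (nat_lit 263) (nat_lit 178)))) (XT.nd (nat_lit 78) (nat_lit 304) (nat_lit 0) (XT.lf (nat_lit 0) (nat_lit 580616807) (nat_lit 228) (nat_lit 11584540375) (nat_lit 304) (nat_lit 7054824811) (nat_lit 61) (nat_lit 5) (nat_lit 64) (nat_lit 5) (nat_lit 65) (nat_lit 5) (nat_lit 340) (nat_lit 263) (nat_lit 177)) (XT.nd (nat_lit 78) (nat_lit 304) (nat_lit 0) (XT.lf (nat_lit 0) (nat_lit 12881983168) (nat_lit 228) (nat_lit 4659823980) (nat_lit 304) (nat_lit 2099666299) (nat_lit 61) (nat_lit 5) (nat_lit 64) (nat_lit 5) (nat_lit 65) (nat_lit 5) (nat_lit 341) (nat_lit 263) (nat_lit 176)) (XT.lf (nat_lit 0) (nat_lit 2986577413) (nat_lit 304) (nat_lit 14610449186) (nat_lit 76) (nat_lit 2477771234) (nat_lit 57) (nat_lit 5) (nat_lit 61) (nat_lit 5) (nat_lit 58) (nat_lit 5) (nat_lit 342) (nat_lit 263) (nat_lit 175))))) (XT.nd (nat_lit 234) (nat_lit 456)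 (nat_lit 0) (XT.nd (nat_lit 78) (nat_lit 456) (nat_lit 0) (XT.lf (nat_lit 0) (nat_lit 8244709389) (nat_lit 304) (nat_lit 2466175546) (nat_lit 76) (nat_lit 9809017352) (nat_lit 57) (nat_lit 5) (nat_lit 61) (nat_lit 5) (nat_lit 58) (nat_lit 5) (nat_lit 343) (nat_lit 263) (nat_lit 174)) (XT.nd (nat_lit 78) (nat_lit 228) (nat_lit 0) (XT.lf (nat_lit 0) (nat_lit 10128771474) (nat_lit 228) (nat_lit 3568833337) (nat_lit 304) (nat_lit 7280028711) (nat_lit 54) (nat_lit 5) (nat_lit 57) (nat_lit 5) (nat_lit 58) (nat_lit 5) (nat_lit 344) (nat_lit 263) (nat_lit 173)) (XT.lf (nat_lit 0) (nat_lit 1637126576) (nat_lit 228) (nat_lit 17700686035) (nat_lit 304) (nat_lit 2110823202) (nat_lit 51) (nat_lit 5) (nat_lit 54) (nat_lit 5) (nat_lit 55) (nat_lit 5) (nat_lit 345) (nat_lit 263) (nat_lit 172)))) (XT.nd (nat_lit 156) (nat_lit 152) (nat_lit 0) (XT.nd (nat_lit 78) (nat_lit 228) (nat_lit 0) (XT.lf (nat_lit 0) (nat_lit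 3241197600) (nat_lit 304) (nat_lit 7377159419) (nat_lit 76) (nat_lit 11313609161) (nat_lit 50) (nat_lit 5) (nat_lit 54) (nat_lit 5) (nat_lit 51) (nat_lit 5) (nat_lit 346) (nat_lit 263) (nat_lit 171)) (XT.lf (nat_lit 0) (nat_lit 5442985549) (nat_lit 228) (nat_lit 3290449360) (nat_lit 304) (nat_lit 13695928419) (nat_lit 47) (nat_lit 5) (nat_lit 50) (nat_lit 5) (nat_lit 51) (nat_lit 5) (nat_lit 347) (nat_lit 263) (nat_lit 170))) (XT.nd (nat_lit 78) (nat_lit 152) (nat_lit 0) (XT.lf (nat_lit 0) (nat_lit 14441628206) (nat_lit 304) (nat_lit 4264157583) (nat_lit 76) (nat_lit 4234885051) (nat_lit 47) (nat_lit 5) (nat_lit 51) (nat_lit 5) (nat_lit 48) (nat_lit 5) (nat_lit 348) (nat_lit 263) (nat_lit 169)) (XT.lf (nat_lit 0) (nat_lit 8891407480) (nat_lit 152) (nat_lit 11483399894) (nat_lit 228) (nat_lit 3091447273) (nat_lit 45) (nat_lit 5) (nat_lit 47) (nat_lit 5) (nat_lit 48) (nat_lit 5) (nat_lit 349) (nat_lit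 263) (nat_lit 168)))))) (XT.nd (nat_lit 468) (nat_lit 532) (nat_lit 0) (XT.nd (nat_lit 234) (nat_lit 304) (nat_lit 0) (XT.nd (nat_lit 78) (nat_lit 380) (nat_lit 0) (XT.lf (nat_lit 0) (nat_lit 2449267275) (nat_lit 228) (nat_lit 1565888417) (nat_lit 76) (nat_lit 19992071836) (nat_lit 44) (nat_lit 5) (nat_lit 47) (nat_lit 5) (nat_lit 45) (nat_lit 5) (nat_lit 350) (nat_lit 263) (nat_lit 167)) (XT.nd (nat_lit 78) (nat_lit 152) (nat_lit 0) (XT.lf (nat_lit 0) (nat_lit 8191359925) (nat_lit 304) (nat_lit 12659640241) (nat_lit 76) (nat_lit 3711488564) (nat_lit 41) (nat_lit 5) (nat_lit 45) (nat_lit 5) (nat_lit 42) (nat_lit 5) (nat_lit 351) (nat_lit 263) (nat_lit 166)) (XT.lf (nat_lit 0) (nat_lit 602800861) (nat_lit 152) (nat_lit 13519775200) (nat_lit 228) (nat_lit 11011505144) (nat_lit 39) (nat_lit 5) (nat_lit 41) (nat_lit 5) (nat_lit 42) (nat_lit 5) (nat_lit 352) (nat_lit 263) (nat_lit 165)))) (XT.nd (nat_lit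 78) (nat_lit 304) (nat_lit 0) (XT.lf (nat_lit 0) (nat_lit 14395998992) (nat_lit 152) (nat_lit 5897383735) (nat_lit 228) (nat_lit 5428215985) (nat_lit 39) (nat_lit 5) (nat_lit 41) (nat_lit 5) (nat_lit 42) (nat_lit 5) (nat_lit 353) (nat_lit 263) (nat_lit 164)) (XT.nd (nat_lit 78) (nat_lit 0) (nat_lit 0) (XT.lf (nat_lit 0) (nat_lit 322140963) (nat_lit 304) (nat_lit 24075276001) (nat_lit 76) (nat_lit 1929216744) (nat_lit 35) (nat_lit 5) (nat_lit 39) (nat_lit 5) (nat_lit 36) (nat_lit 5) (nat_lit 354) (nat_lit 263) (nat_lit 163)) (XT.lf (nat_lit 0) (nat_lit 6265111795) (nat_lit 304) (nat_lit 10673160727) (nat_lit 76) (nat_lit 10008962149) (nat_lit 35) (nat_lit 5) (nat_lit 39) (nat_lit 5) (nat_lit 36) (nat_lit 5) (nat_lit 355) (nat_lit 263) (nat_lit 162))))) (XT.nd (nat_lit 234) (nat_lit 228) (nat_lit 0) (XT.nd (nat_lit 78) (nat_lit 152) (nat_lit 0) (XT.lf (nat_lit 0) (nat_lit 3133986046) (nat_lit 152)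 (nat_lit 9250149597) (nat_lit 228) (nat_lit 15202372019) (nat_lit 33) (nat_lit 5) (nat_lit 35) (nat_lit 5) (nat_lit 36) (nat_lit 5) (nat_lit 356) (nat_lit 263) (nat_lit 161)) (XT.nd (nat_lit 78) (nat_lit 152) (nat_lit 0) (XT.lf (nat_lit 0) (nat_lit 17463927074) (nat_lit 152) (nat_lit 1272958024) (nat_lit 228) (nat_lit 9507079654) (nat_lit 33) (nat_lit 5) (nat_lit 35) (nat_lit 5) (nat_lit 36) (nat_lit 5) (nat_lit 357) (nat_lit 263) (nat_lit 160)) (XT.lf (nat_lit 0) (nat_lit 3263575176) (nat_lit 152) (nat_lit 22061292454) (nat_lit 228) (nat_lit 3595393658) (nat_lit 31) (nat_lit 5) (nat_lit 33) (nat_lit 5) (nat_lit 34) (nat_lit 5) (nat_lit 358) (nat_lit 263) (nat_lit 159)))) (XT.nd (nat_lit 33228) (nat_lit 0) (nat_lit 41876) (XT.nd (nat_lit 78) (nat_lit 152) (nat_lit 0) (XT.lf (nat_lit 0) (nat_lit 2521609003) (nat_lit 228) (nat_lit 11800979203) (nat_lit 76) (nat_lit 15292729616) (nat_lit 30) (nat_lit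 5) (nat_lit 33) (nat_lit 5) (nat_lit 31) (nat_lit 5) (nat_lit 359) (nat_lit 263) (nat_lit 158)) (XT.lf (nat_lit 0) (nat_lit 2442995489) (nat_lit 152) (nat_lit 6325666630) (nat_lit 228) (nat_lit 21562188949) (nat_lit 28) (nat_lit 5) (nat_lit 30) (nat_lit 5) (nat_lit 31) (nat_lit 5) (nat_lit 360) (nat_lit 263) (nat_lit 157))) (XT.nd (nat_lit 78) (nat_lit 532) (nat_lit 0) (XT.lf (nat_lit 0) (nat_lit 1572329844) (nat_lit 0) (nat_lit 1572329844) (nat_lit 380) (nat_lit 111858905) (nat_lit 586) (nat_lit 5) (nat_lit 586) (nat_lit 3) (nat_lit 591) (nat_lit 3) (nat_lit 264) (nat_lit 264) (nat_lit 252)) (XT.lf (nat_lit 76) (nat_lit 1072088057) (nat_lit 0) (nat_lit 2331439070) (nat_lit 532) (nat_lit 3128584893) (nat_lit 580) (nat_lit 5) (nat_lit 579) (nat_lit 3) (nat_lit 586) (nat_lit 5) (nat_lit 265) (nat_lit 264) (nat_lit 251))))))) (XT.nd (nat_lit 1014) (nat_lit 14744) (nat_lit 0) (XT.nd (nat_lit 468)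 (nat_lit 3268) (nat_lit 0) (XT.nd (nat_lit 234) (nat_lit 684) (nat_lit 0) (XT.nd (nat_lit 78) (nat_lit 532) (nat_lit 0) (XT.lf (nat_lit 0) (nat_lit 457181303) (nat_lit 532) (nat_lit 940139198) (nat_lit 608) (nat_lit 5156965773) (nat_lit 572) (nat_lit 5) (nat_lit 579) (nat_lit 3) (nat_lit 580) (nat_lit 5) (nat_lit 266) (nat_lit 264) (nat_lit 250)) (XT.nd (nat_lit 78) (nat_lit 532) (nat_lit 0) (XT.lf (nat_lit 76) (nat_lit 3669461486) (nat_lit 0) (nat_lit 323831348) (nat_lit 608) (nat_lit 2585940290) (nat_lit 573) (nat_lit 5) (nat_lit 572) (nat_lit 5) (nat_lit 580) (nat_lit 5) (nat_lit 267) (nat_lit 264) (nat_lit 249)) (XT.lf (nat_lit 0) (nat_lit 904253010) (nat_lit 608) (nat_lit 4845077155) (nat_lit 684) (nat_lit 857935805) (nat_lit 565) (nat_lit 5) (nat_lit 573) (nat_lit 5) (nat_lit 574) (nat_lit 5) (nat_lit 268) (nat_lit 264) (nat_lit 248)))) (XT.nd (nat_lit 78) (nat_lit 684) (nat_lit 0) (XT.lf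 (nat_lit 0) (nat_lit 4353795786) (nat_lit 608) (nat_lit 117179859) (nat_lit 684) (nat_lit 2167236095) (nat_lit 565) (nat_lit 5) (nat_lit 573) (nat_lit 5) (nat_lit 574) (nat_lit 5) (nat_lit 269) (nat_lit 264) (nat_lit 247)) (XT.nd (nat_lit 78) (nat_lit 0) (nat_lit 0) (XT.lf (nat_lit 0) (nat_lit 1121872039) (nat_lit 684) (nat_lit 1938662189) (nat_lit 760) (nat_lit 3611563244) (nat_lit 556) (nat_lit 5) (nat_lit 565) (nat_lit 5) (nat_lit 566) (nat_lit 5) (nat_lit 270) (nat_lit 264) (nat_lit 246)) (XT.lf (nat_lit 76) (nat_lit 2973459451) (nat_lit 0) (nat_lit 1519804041) (nat_lit 760) (nat_lit 2215748701) (nat_lit 557) (nat_lit 5) (nat_lit 556) (nat_lit 5) (nat_lit 566) (nat_lit 5) (nat_lit 271) (nat_lit 264) (nat_lit 245))))) (XT.nd (nat_lit 234) (nat_lit 1748) (nat_lit 0) (XT.nd (nat_lit 78) (nat_lit 836) (nat_lit 0) (XT.lf (nat_lit 0) (nat_lit 1100912261) (nat_lit 760) (nat_lit 5504084199) (nat_lit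 836) (nat_lit 144101080) (nat_lit 547) (nat_lit 5) (nat_lit 557) (nat_lit 5) (nat_lit 558) (nat_lit 5) (nat_lit 272) (nat_lit 264) (nat_lit 244)) (XT.nd (nat_lit 78) (nat_lit 836) (nat_lit 0) (XT.lf (nat_lit 0) (nat_lit 4402100226) (nat_lit 760) (nat_lit 465656330) (nat_lit 836) (nat_lit 1924212122) (nat_lit 547) (nat_lit 5) (nat_lit 557) (nat_lit 5) (nat_lit 558) (nat_lit 5) (nat_lit 273) (nat_lit 264) (nat_lit 243)) (XT.lf (nat_lit 0) (nat_lit 866199025) (nat_lit 836) (nat_lit 2132539147) (nat_lit 912) (nat_lit 3839179004) (nat_lit 536) (nat_lit 5) (nat_lit 547) (nat_lit 5) (nat_lit 548) (nat_lit 5) (nat_lit 274) (nat_lit 264) (nat_lit 242)))) (XT.nd (nat_lit 156) (nat_lit 912) (nat_lit 0) (XT.nd (nat_lit 78) (nat_lit 836) (nat_lit 0) (XT.lf (nat_lit 76) (nat_lit 3102413736) (nat_lit 0) (nat_lit 993413622) (nat_lit 912) (nat_lit 2791099074) (nat_lit 537) (nat_lit 5) (nat_lit 536) (nat_lit 5)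 (nat_lit 548) (nat_lit 5) (nat_lit 275) (nat_lit 264) (nat_lit 241)) (XT.lf (nat_lit 0) (nat_lit 397249642) (nat_lit 912) (nat_lit 5418833538) (nat_lit 76) (nat_lit 1123043633) (nat_lit 525) (nat_lit 5) (nat_lit 537) (nat_lit 5) (nat_lit 526) (nat_lit 5) (nat_lit 276) (nat_lit 264) (nat_lit 240))) (XT.nd (nat_lit 78) (nat_lit 912) (nat_lit 0) (XT.lf (nat_lit 0) (nat_lit 3565869013) (nat_lit 912) (nat_lit 58635780) (nat_lit 76) (nat_lit 3369721283) (nat_lit 525) (nat_lit 5) (nat_lit 537) (nat_lit 5) (nat_lit 526) (nat_lit 5) (nat_lit 277) (nat_lit 264) (nat_lit 239)) (XT.lf (nat_lit 0) (nat_lit 5459382907) (nat_lit 912) (nat_lit 1298683630) (nat_lit 988) (nat_lit 294489604) (nat_lit 513) (nat_lit 5) (nat_lit 525) (nat_lit 5) (nat_lit 526) (nat_lit 5) (nat_lit 278) (nat_lit 264) (nat_lit 238)))))) (XT.nd (nat_lit 468) (nat_lit 8816) (nat_lit 0) (XT.nd (nat_lit 234) (nat_lit 2584) (nat_lit 0) (XT.nd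 (nat_lit 78) (nat_lit 2280) (nat_lit 0) (XT.lf (nat_lit 0) (nat_lit 2823721445) (nat_lit 1064) (nat_lit 3132113623) (nat_lit 76) (nat_lit 1157985214) (nat_lit 499) (nat_lit 5) (nat_lit 513) (nat_lit 5) (nat_lit 500) (nat_lit 5) (nat_lit 279) (nat_lit 264) (nat_lit 237)) (XT.nd (nat_lit 78) (nat_lit 1216) (nat_lit 0) (XT.lf (nat_lit 0) (nat_lit 2515121260) (nat_lit 1064) (nat_lit 3449910918) (nat_lit 1140) (nat_lit 1213317116) (nat_lit 485) (nat_lit 5) (nat_lit 499) (nat_lit 5) (nat_lit 500) (nat_lit 5) (nat_lit 280) (nat_lit 264) (nat_lit 236)) (XT.lf (nat_lit 0) (nat_lit 1054946359) (nat_lit 1140) (nat_lit 802737711) (nat_lit 1216) (nat_lit 5388455190) (nat_lit 469) (nat_lit 5) (nat_lit 484) (nat_lit 5) (nat_lit 485) (nat_lit 5) (nat_lit 281) (nat_lit 264) (nat_lit 235)))) (XT.nd (nat_lit 78) (nat_lit 2584) (nat_lit 0) (XT.lf (nat_lit 0) (nat_lit 4950671132) (nat_lit 1216) (nat_lit 404958093)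 (nat_lit 76) (nat_lit 1961373072) (nat_lit 469) (nat_lit 5) (nat_lit 485) (nat_lit 5) (nat_lit 470) (nat_lit 5) (nat_lit 282) (nat_lit 264) (nat_lit 234)) (XT.nd (nat_lit 78) (nat_lit 1292) (nat_lit 0) (XT.lf (nat_lit 0) (nat_lit 682375645) (nat_lit 1292) (nat_lit 1848490032) (nat_lit 76) (nat_lit 4860234915) (nat_lit 452) (nat_lit 5) (nat_lit 469) (nat_lit 5) (nat_lit 453) (nat_lit 5) (nat_lit 283) (nat_lit 264) (nat_lit 233)) (XT.lf (nat_lit 0) (nat_lit 3729660429) (nat_lit 1368) (nat_lit 3300945054) (nat_lit 76) (nat_lit 437835173) (nat_lit 435) (nat_lit 5) (nat_lit 453) (nat_lit 5) (nat_lit 436) (nat_lit 5) (nat_lit 284) (nat_lit 264) (nat_lit 232))))) (XT.nd (nat_lit 234) (nat_lit 5928) (nat_lit 0) (XT.nd (nat_lit 78) (nat_lit 1520) (nat_lit 0) (XT.lf (nat_lit 0) (nat_lit 2784893035) (nat_lit 1368) (nat_lit 4039808669) (nat_lit 1444) (nat_lit 724386019) (nat_lit 417) (nat_lit 5) (nat_lit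 435) (nat_lit 5) (nat_lit 436) (nat_lit 5) (nat_lit 285) (nat_lit 264) (nat_lit 231)) (XT.nd (nat_lit 78) (nat_lit 0) (nat_lit 0) (XT.lf (nat_lit 0) (nat_lit 1393349662) (nat_lit 1444) (nat_lit 897630024) (nat_lit 1520) (nat_lit 5342138309) (nat_lit 397) (nat_lit 5) (nat_lit 416) (nat_lit 5) (nat_lit 417) (nat_lit 5) (nat_lit 286) (nat_lit 264) (nat_lit 230)) (XT.lf (nat_lit 0) (nat_lit 5347112823) (nat_lit 1520) (nat_lit 15244309) (nat_lit 76) (nat_lit 2358118261) (nat_lit 397) (nat_lit 5) (nat_lit 417) (nat_lit 5) (nat_lit 398) (nat_lit 5) (nat_lit 287) (nat_lit 264) (nat_lit 229)))) (XT.nd (nat_lit 156) (nat_lit 2736) (nat_lit 0) (XT.nd (nat_lit 78) (nat_lit 1596) (nat_lit 0) (XT.lf (nat_lit 0) (nat_lit 637662874) (nat_lit 1596) (nat_lit 1416132630) (nat_lit 76) (nat_lit 5757425749) (nat_lit 376) (nat_lit 5) (nat_lit 397) (nat_lit 5) (nat_lit 377) (nat_lit 5) (nat_lit 288) (nat_lit 264) (nat_lit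 228)) (XT.lf (nat_lit 0) (nat_lit 3665463033) (nat_lit 1672) (nat_lit 2845364545) (nat_lit 76) (nat_lit 1394471358) (nat_lit 355) (nat_lit 5) (nat_lit 377) (nat_lit 5) (nat_lit 356) (nat_lit 5) (nat_lit 289) (nat_lit 264) (nat_lit 227))) (XT.nd (nat_lit 78) (nat_lit 1064) (nat_lit 0) (XT.lf (nat_lit 0) (nat_lit 3707338746) (nat_lit 1672) (nat_lit 3042552242) (nat_lit 1748) (nat_lit 1253086240) (nat_lit 333) (nat_lit 5) (nat_lit 355) (nat_lit 5) (nat_lit 356) (nat_lit 5) (nat_lit 290) (nat_lit 264) (nat_lit 226)) (XT.lf (nat_lit 0) (nat_lit 1757319475) (nat_lit 1064) (nat_lit 5772179786) (nat_lit 76) (nat_lit 574780150) (nat_lit 319) (nat_lit 5) (nat_lit 333) (nat_lit 5) (nat_lit 320) (nat_lit 5) (nat_lit 291) (nat_lit 264) (nat_lit 225))))))))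
noncomputable def xc59 : XT := (XT.nd (nat_lit 2028) (nat_lit 6232) (nat_lit 0) (XT.nd (nat_lit 1014) (nat_lit 6080) (nat_lit 0) (XT.nd (nat_lit 468) (nat_lit 3572) (nat_lit 0) (XT.nd (nat_lit 234) (nat_lit 2280) (nat_lit 0) (XT.nd (nat_lit 78) (nat_lit 912) (nat_lit 0) (XT.lf (nat_lit 0) (nat_lit 916982922) (nat_lit 836) (nat_lit 3901230258) (nat_lit 912) (nat_lit 3390784825) (nat_lit 308) (nat_lit 5) (nat_lit 319) (nat_lit 5) (nat_lit 320) (nat_lit 5) (nat_lit 292) (nat_lit 264) (nat_lit 224)) (XT.nd (nat_lit 78) (nat_lit 912) (nat_lit 0) (XT.lf (nat_lit 0) (nat_lit 7811502176) (nat_lit 836) (nat_lit 121850783) (nat_lit 912) (nat_lit 384341289) (nat_lit 308) (nat_lit 5) (nat_lit 319) (nat_lit 5) (nat_lit 320) (nat_lit 5) (nat_lit 293) (nat_lit 264) (nat_lit 223)) (XT.lf (nat_lit 0) (nat_lit 2668633216) (nat_lit 912) (nat_lit 1977624095) (nat_lit 76) (nat_lit 3783284074) (nat_lit 296) (nat_lit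 5) (nat_lit 308) (nat_lit 5) (nat_lit 297) (nat_lit 5) (nat_lit 294) (nat_lit 264) (nat_lit 222)))) (XT.nd (nat_lit 78) (nat_lit 1520) (nat_lit 0) (XT.lf (nat_lit 0) (nat_lit 5070510370) (nat_lit 760) (nat_lit 701374278) (nat_lit 836) (nat_lit 2773608356) (nat_lit 286) (nat_lit 5) (nat_lit 296) (nat_lit 5) (nat_lit 297) (nat_lit 5) (nat_lit 295) (nat_lit 264) (nat_lit 221)) (XT.nd (nat_lit 78) (nat_lit 684) (nat_lit 0) (XT.lf (nat_lit 0) (nat_lit 286504132) (nat_lit 836) (nat_lit 5022667164) (nat_lit 76) (nat_lit 3356043362) (nat_lit 275) (nat_lit 5) (nat_lit 286) (nat_lit 5) (nat_lit 276) (nat_lit 5) (nat_lit 296) (nat_lit 264) (nat_lit 220)) (XT.lf (nat_lit 0) (nat_lit 2164377943) (nat_lit 684) (nat_lit 1208450102) (nat_lit 760) (nat_lit 5415963576) (nat_lit 266) (nat_lit 5) (nat_lit 275) (nat_lit 5) (nat_lit 276) (nat_lit 5) (nat_lit 297) (nat_lit 264) (nat_lit 219))))) (XT.nd (nat_lit 234)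 (nat_lit 2052) (nat_lit 0) (XT.nd (nat_lit 78) (nat_lit 760) (nat_lit 0) (XT.lf (nat_lit 0) (nat_lit 634958356) (nat_lit 760) (nat_lit 5905734497) (nat_lit 836) (nat_lit 2375674056) (nat_lit 256) (nat_lit 5) (nat_lit 266) (nat_lit 5) (nat_lit 267) (nat_lit 5) (nat_lit 298) (nat_lit 264) (nat_lit 218)) (XT.nd (nat_lit 78) (nat_lit 684) (nat_lit 0) (XT.lf (nat_lit 0) (nat_lit 731193620) (nat_lit 836) (nat_lit 931097264) (nat_lit 76) (nat_lit 7385741447) (nat_lit 255) (nat_lit 5) (nat_lit 266) (nat_lit 5) (nat_lit 256) (nat_lit 5) (nat_lit 299) (nat_lit 264) (nat_lit 217)) (XT.lf (nat_lit 0) (nat_lit 3894216318) (nat_lit 760) (nat_lit 2562459779) (nat_lit 76) (nat_lit 2726817778) (nat_lit 246) (nat_lit 5) (nat_lit 256) (nat_lit 5) (nat_lit 247) (nat_lit 5) (nat_lit 300) (nat_lit 264) (nat_lit 216)))) (XT.nd (nat_lit 156) (nat_lit 684) (nat_lit 0) (XT.nd (nat_lit 78) (nat_lit 684) (nat_lit 0) (XT.lf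 (nat_lit 0) (nat_lit 5073225412) (nat_lit 684) (nat_lit 2064732381) (nat_lit 760) (nat_lit 2185407749) (nat_lit 237) (nat_lit 5) (nat_lit 246) (nat_lit 5) (nat_lit 247) (nat_lit 5) (nat_lit 301) (nat_lit 264) (nat_lit 215)) (XT.lf (nat_lit 0) (nat_lit 990930455) (nat_lit 684) (nat_lit 6010691012) (nat_lit 76) (nat_lit 2465887962) (nat_lit 228) (nat_lit 5) (nat_lit 237) (nat_lit 5) (nat_lit 229) (nat_lit 5) (nat_lit 302) (nat_lit 264) (nat_lit 214))) (XT.nd (nat_lit 78) (nat_lit 0) (nat_lit 0) (XT.lf (nat_lit 0) (nat_lit 1760672569) (nat_lit 684) (nat_lit 2464305004) (nat_lit 760) (nat_lit 5390927021) (nat_lit 219) (nat_lit 5) (nat_lit 228) (nat_lit 5) (nat_lit 229) (nat_lit 5) (nat_lit 303) (nat_lit 264) (nat_lit 213)) (XT.lf (nat_lit 0) (nat_lit 7550395353) (nat_lit 760) (nat_lit 6716341) (nat_lit 76) (nat_lit 2211809315) (nat_lit 219) (nat_lit 5) (nat_lit 229) (nat_lit 5) (nat_lit 220) (nat_lit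 5) (nat_lit 304) (nat_lit 264) (nat_lit 212)))))) (XT.nd (nat_lit 468) (nat_lit 3040) (nat_lit 0) (XT.nd (nat_lit 234) (nat_lit 1216) (nat_lit 0) (XT.nd (nat_lit 78) (nat_lit 1140) (nat_lit 0) (XT.lf (nat_lit 0) (nat_lit 1045136830) (nat_lit 684) (nat_lit 1835820325) (nat_lit 76) (nat_lit 7045291253) (nat_lit 210) (nat_lit 5) (nat_lit 219) (nat_lit 5) (nat_lit 211) (nat_lit 5) (nat_lit 305) (nat_lit 264) (nat_lit 211)) (XT.nd (nat_lit 78) (nat_lit 532) (nat_lit 0) (XT.lf (nat_lit 0) (nat_lit 4372452433) (nat_lit 684) (nat_lit 3759877945) (nat_lit 76) (nat_lit 1955806377) (nat_lit 202) (nat_lit 5) (nat_lit 211) (nat_lit 5) (nat_lit 203) (nat_lit 5) (nat_lit 306) (nat_lit 264) (nat_lit 210)) (XT.lf (nat_lit 0) (nat_lit 4477905426) (nat_lit 532) (nat_lit 3325357986) (nat_lit 608) (nat_lit 2451595405) (nat_lit 195) (nat_lit 5) (nat_lit 202) (nat_lit 5) (nat_lit 203) (nat_lit 5) (nat_lit 307) (nat_lit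 264) (nat_lit 209)))) (XT.nd (nat_lit 78) (nat_lit 532) (nat_lit 0) (XT.lf (nat_lit 0) (nat_lit 895068271) (nat_lit 684) (nat_lit 7890959819) (nat_lit 76) (nat_lit 1640552530) (nat_lit 186) (nat_lit 5) (nat_lit 195) (nat_lit 5) (nat_lit 187) (nat_lit 5) (nat_lit 308) (nat_lit 264) (nat_lit 208)) (XT.nd (nat_lit 78) (nat_lit 0) (nat_lit 0) (XT.lf (nat_lit 0) (nat_lit 472424876) (nat_lit 532) (nat_lit 3846038637) (nat_lit 608) (nat_lit 6284520425) (nat_lit 179) (nat_lit 5) (nat_lit 186) (nat_lit 5) (nat_lit 187) (nat_lit 5) (nat_lit 309) (nat_lit 264) (nat_lit 207)) (XT.lf (nat_lit 0) (nat_lit 7852270606) (nat_lit 608) (nat_lit 1666082294) (nat_lit 76) (nat_lit 1266217638) (nat_lit 179) (nat_lit 5) (nat_lit 187) (nat_lit 5) (nat_lit 180) (nat_lit 5) (nat_lit 310) (nat_lit 264) (nat_lit 206))))) (XT.nd (nat_lit 234) (nat_lit 1444) (nat_lit 0) (XT.nd (nat_lit 78) (nat_lit 988) (nat_lit 0) (XT.lf (nat_lit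 0) (nat_lit 532648616) (nat_lit 608) (nat_lit 3922447781) (nat_lit 76) (nat_lit 6516104194) (nat_lit 171) (nat_lit 5) (nat_lit 179) (nat_lit 5) (nat_lit 172) (nat_lit 5) (nat_lit 311) (nat_lit 264) (nat_lit 205)) (XT.nd (nat_lit 78) (nat_lit 532) (nat_lit 0) (XT.lf (nat_lit 0) (nat_lit 4058242566) (nat_lit 532) (nat_lit 6306214482) (nat_lit 76) (nat_lit 798696081) (nat_lit 165) (nat_lit 5) (nat_lit 172) (nat_lit 5) (nat_lit 166) (nat_lit 5) (nat_lit 312) (nat_lit 264) (nat_lit 204)) (XT.lf (nat_lit 0) (nat_lit 2529970343) (nat_lit 532) (nat_lit 5181721352) (nat_lit 608) (nat_lit 3648771518) (nat_lit 158) (nat_lit 5) (nat_lit 165) (nat_lit 5) (nat_lit 166) (nat_lit 5) (nat_lit 313) (nat_lit 264) (nat_lit 203)))) (XT.nd (nat_lit 156) (nat_lit 912) (nat_lit 0) (XT.nd (nat_lit 78) (nat_lit 76) (nat_lit 0) (XT.lf (nat_lit 0) (nat_lit 88416831) (nat_lit 456) (nat_lit 11381004298) (nat_lit 532) (nat_lit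 94417466) (nat_lit 152) (nat_lit 5) (nat_lit 158) (nat_lit 5) (nat_lit 159) (nat_lit 5) (nat_lit 314) (nat_lit 264) (nat_lit 202)) (XT.lf (nat_lit 0) (nat_lit 3565418702) (nat_lit 532) (nat_lit 2500342437) (nat_lit 76) (nat_lit 5706216044) (nat_lit 151) (nat_lit 5) (nat_lit 158) (nat_lit 5) (nat_lit 152) (nat_lit 5) (nat_lit 315) (nat_lit 264) (nat_lit 201))) (XT.nd (nat_lit 78) (nat_lit 456) (nat_lit 0) (XT.lf (nat_lit 0) (nat_lit 6768255127) (nat_lit 456) (nat_lit 561638823) (nat_lit 532) (nat_lit 4656567491) (nat_lit 145) (nat_lit 5) (nat_lit 151) (nat_lit 5) (nat_lit 152) (nat_lit 5) (nat_lit 316) (nat_lit 264) (nat_lit 200)) (XT.lf (nat_lit 0) (nat_lit 4098875826) (nat_lit 456) (nat_lit 7138314138) (nat_lit 532) (nat_lit 969628004) (nat_lit 139) (nat_lit 5) (nat_lit 145) (nat_lit 5) (nat_lit 146) (nat_lit 5) (nat_lit 317) (nat_lit 264) (nat_lit 199))))))) (XT.nd (nat_lit 1014) (nat_lit 2660)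 (nat_lit 0) (XT.nd (nat_lit 468) (nat_lit 1824) (nat_lit 0) (XT.nd (nat_lit 234) (nat_lit 836) (nat_lit 0) (XT.nd (nat_lit 78) (nat_lit 380) (nat_lit 0) (XT.lf (nat_lit 0) (nat_lit 1264738840) (nat_lit 456) (nat_lit 1527332478) (nat_lit 532) (nat_lit 9641355609) (nat_lit 132) (nat_lit 5) (nat_lit 138) (nat_lit 5) (nat_lit 139) (nat_lit 5) (nat_lit 318) (nat_lit 264) (nat_lit 198)) (XT.nd (nat_lit 78) (nat_lit 380) (nat_lit 0) (XT.lf (nat_lit 0) (nat_lit 6690949180) (nat_lit 532) (nat_lit 1733728050) (nat_lit 76) (nat_lit 4241311498) (nat_lit 132) (nat_lit 5) (nat_lit 139) (nat_lit 5) (nat_lit 133) (nat_lit 5) (nat_lit 319) (nat_lit 264) (nat_lit 197)) (XT.lf (nat_lit 0) (nat_lit 8017941126) (nat_lit 380) (nat_lit 2706962256) (nat_lit 456) (nat_lit 2180293621) (nat_lit 127) (nat_lit 5) (nat_lit 132) (nat_lit 5) (nat_lit 133) (nat_lit 5) (nat_lit 320) (nat_lit 264) (nat_lit 196)))) (XT.nd (nat_lit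 78) (nat_lit 380) (nat_lit 0) (XT.lf (nat_lit 0) (nat_lit 1726772654) (nat_lit 456) (nat_lit 8245329673) (nat_lit 76) (nat_lit 3178862167) (nat_lit 121) (nat_lit 5) (nat_lit 127) (nat_lit 5) (nat_lit 122) (nat_lit 5) (nat_lit 321) (nat_lit 264) (nat_lit 195)) (XT.nd (nat_lit 78) (nat_lit 0) (nat_lit 0) (XT.lf (nat_lit 0) (nat_lit 1582943653) (nat_lit 380) (nat_lit 4157556381) (nat_lit 456) (nat_lit 7662964733) (nat_lit 116) (nat_lit 5) (nat_lit 121) (nat_lit 5) (nat_lit 122) (nat_lit 5) (nat_lit 322) (nat_lit 264) (nat_lit 194)) (XT.lf (nat_lit 0) (nat_lit 9900702128) (nat_lit 456) (nat_lit 1916204362) (nat_lit 76) (nat_lit 1846140851) (nat_lit 116) (nat_lit 5) (nat_lit 122) (nat_lit 5) (nat_lit 117) (nat_lit 5) (nat_lit 323) (nat_lit 264) (nat_lit 193))))) (XT.nd (nat_lit 234) (nat_lit 684) (nat_lit 0) (XT.nd (nat_lit 78) (nat_lit 684) (nat_lit 0) (XT.lf (nat_lit 0) (nat_lit 293085178) (nat_lit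 456) (nat_lit 5623848636) (nat_lit 76) (nat_lit 8012654793) (nat_lit 110) (nat_lit 5) (nat_lit 116) (nat_lit 5) (nat_lit 111) (nat_lit 5) (nat_lit 324) (nat_lit 264) (nat_lit 192)) (XT.nd (nat_lit 78) (nat_lit 380) (nat_lit 0) (XT.lf (nat_lit 0) (nat_lit 4423564103) (nat_lit 380) (nat_lit 9571032323) (nat_lit 76) (nat_lit 208968663) (nat_lit 106) (nat_lit 5) (nat_lit 111) (nat_lit 5) (nat_lit 107) (nat_lit 5) (nat_lit 325) (nat_lit 264) (nat_lit 191)) (XT.lf (nat_lit 0) (nat_lit 699891406) (nat_lit 380) (nat_lit 8020904540) (nat_lit 456) (nat_lit 5764133764) (nat_lit 101) (nat_lit 5) (nat_lit 106) (nat_lit 5) (nat_lit 107) (nat_lit 5) (nat_lit 326) (nat_lit 264) (nat_lit 190)))) (XT.nd (nat_lit 156) (nat_lit 304) (nat_lit 0) (XT.nd (nat_lit 78) (nat_lit 380) (nat_lit 0) (XT.lf (nat_lit 0) (nat_lit 11352841185) (nat_lit 380) (nat_lit 1820107423) (nat_lit 456) (nat_lit 1601291455) (nat_lit 101)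 (nat_lit 5) (nat_lit 106) (nat_lit 5) (nat_lit 107) (nat_lit 5) (nat_lit 327) (nat_lit 264) (nat_lit 189)) (XT.lf (nat_lit 0) (nat_lit 2690405326) (nat_lit 380) (nat_lit 7826535622) (nat_lit 76) (nat_lit 4554179560) (nat_lit 96) (nat_lit 5) (nat_lit 101) (nat_lit 5) (nat_lit 97) (nat_lit 5) (nat_lit 328) (nat_lit 264) (nat_lit 188))) (XT.nd (nat_lit 78) (nat_lit 0) (nat_lit 0) (XT.lf (nat_lit 0) (nat_lit 2859687864) (nat_lit 304) (nat_lit 4246249648) (nat_lit 380) (nat_lit 8270444350) (nat_lit 92) (nat_lit 5) (nat_lit 96) (nat_lit 5) (nat_lit 97) (nat_lit 5) (nat_lit 329) (nat_lit 264) (nat_lit 187)) (XT.lf (nat_lit 0) (nat_lit 11684940477) (nat_lit 380) (nat_lit 1786281533) (nat_lit 76) (nat_lit 2218981264) (nat_lit 92) (nat_lit 5) (nat_lit 97) (nat_lit 5) (nat_lit 93) (nat_lit 5) (nat_lit 330) (nat_lit 264) (nat_lit 186)))))) (XT.nd (nat_lit 546) (nat_lit 1140) (nat_lit 0) (XT.nd (nat_lit 234)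 (nat_lit 836) (nat_lit 0) (XT.nd (nat_lit 78) (nat_lit 304) (nat_lit 0) (XT.lf (nat_lit 0) (nat_lit 436257429) (nat_lit 380) (nat_lit 6709411871) (nat_lit 76) (nat_lit 8866671495) (nat_lit 87) (nat_lit 5) (nat_lit 92) (nat_lit 5) (nat_lit 88) (nat_lit 5) (nat_lit 331) (nat_lit 264) (nat_lit 185)) (XT.nd (nat_lit 78) (nat_lit 0) (nat_lit 0) (XT.lf (nat_lit 0) (nat_lit 4382525034) (nat_lit 304) (nat_lit 579797628) (nat_lit 380) (nat_lit 11381196598) (nat_lit 83) (nat_lit 5) (nat_lit 87) (nat_lit 5) (nat_lit 88) (nat_lit 5) (nat_lit 332) (nat_lit 264) (nat_lit 184)) (XT.lf (nat_lit 0) (nat_lit 9675414398) (nat_lit 380) (nat_lit 878290149) (nat_lit 76) (nat_lit 6129923660) (nat_lit 83) (nat_lit 5) (nat_lit 88) (nat_lit 5) (nat_lit 84) (nat_lit 5) (nat_lit 333) (nat_lit 264) (nat_lit 183)))) (XT.nd (nat_lit 156) (nat_lit 228) (nat_lit 0) (XT.nd (nat_lit 78) (nat_lit 380) (nat_lit 0) (XT.lf (nat_lit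 0) (nat_lit 10620678383) (nat_lit 228) (nat_lit 3948397942) (nat_lit 304) (nat_lit 2464099985) (nat_lit 80) (nat_lit 5) (nat_lit 83) (nat_lit 5) (nat_lit 84) (nat_lit 5) (nat_lit 334) (nat_lit 264) (nat_lit 182)) (XT.lf (nat_lit 0) (nat_lit 2211803365) (nat_lit 380) (nat_lit 12327052309) (nat_lit 76) (nat_lit 2853595206) (nat_lit 75) (nat_lit 5) (nat_lit 80) (nat_lit 5) (nat_lit 76) (nat_lit 5) (nat_lit 335) (nat_lit 264) (nat_lit 181))) (XT.nd (nat_lit 78) (nat_lit 228) (nat_lit 0) (XT.lf (nat_lit 0) (nat_lit 7032124805) (nat_lit 380) (nat_lit 880375164) (nat_lit 76) (nat_lit 9848943558) (nat_lit 75) (nat_lit 5) (nat_lit 80) (nat_lit 5) (nat_lit 76) (nat_lit 5) (nat_lit 336) (nat_lit 264) (nat_lit 180)) (XT.lf (nat_lit 0) (nat_lit 11004536730) (nat_lit 228) (nat_lit 1032202908) (nat_lit 304) (nat_lit 6103990078) (nat_lit 72) (nat_lit 5) (nat_lit 75) (nat_lit 5) (nat_lit 76) (nat_lit 5) (nat_lit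 337) (nat_lit 264) (nat_lit 179))))) (XT.nd (nat_lit 234) (nat_lit 532) (nat_lit 0) (XT.nd (nat_lit 78) (nat_lit 304) (nat_lit 0) (XT.lf (nat_lit 0) (nat_lit 4699846184) (nat_lit 304) (nat_lit 12536206543) (nat_lit 380) (nat_lit 1294467497) (nat_lit 68) (nat_lit 5) (nat_lit 72) (nat_lit 5) (nat_lit 73) (nat_lit 5) (nat_lit 338) (nat_lit 264) (nat_lit 178)) (XT.nd (nat_lit 78) (nat_lit 228) (nat_lit 0) (XT.lf (nat_lit 0) (nat_lit 3636035283) (nat_lit 380) (nat_lit 2022214857) (nat_lit 76) (nat_lit 13272801495) (nat_lit 67) (nat_lit 5) (nat_lit 72) (nat_lit 5) (nat_lit 68) (nat_lit 5) (nat_lit 339) (nat_lit 264) (nat_lit 177)) (XT.lf (nat_lit 0) (nat_lit 8742960987) (nat_lit 304) (nat_lit 9133919652) (nat_lit 76) (nat_lit 1465640975) (nat_lit 64) (nat_lit 5) (nat_lit 68) (nat_lit 5) (nat_lit 65) (nat_lit 5) (nat_lit 340) (nat_lit 264) (nat_lit 176)))) (XT.nd (nat_lit 156) (nat_lit 304) (nat_lit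 0) (XT.nd (nat_lit 78) (nat_lit 0) (nat_lit 0) (XT.lf (nat_lit 0) (nat_lit 3022529796) (nat_lit 228) (nat_lit 11022287980) (nat_lit 304) (nat_lit 5720698639) (nat_lit 61) (nat_lit 5) (nat_lit 64) (nat_lit 5) (nat_lit 65) (nat_lit 5) (nat_lit 341) (nat_lit 264) (nat_lit 175)) (XT.lf (nat_lit 0) (nat_lit 15622320804) (nat_lit 228) (nat_lit 3916328791) (nat_lit 304) (nat_lit 661907826) (nat_lit 61) (nat_lit 5) (nat_lit 64) (nat_lit 5) (nat_lit 65) (nat_lit 5) (nat_lit 342) (nat_lit 264) (nat_lit 174))) (XT.nd (nat_lit 78) (nat_lit 0) (nat_lit 0) (XT.lf (nat_lit 0) (nat_lit 4534999118) (nat_lit 304) (nat_lit 12688944917) (nat_lit 76) (nat_lit 3423208828) (nat_lit 57) (nat_lit 5) (nat_lit 61) (nat_lit 5) (nat_lit 58) (nat_lit 5) (nat_lit 343) (nat_lit 264) (nat_lit 173)) (XT.lf (nat_lit 0) (nat_lit 9908385022) (nat_lit 304) (nat_lit 249075624) (nat_lit 76) (nat_lit 10949020355) (nat_lit 57) (nat_lit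 5) (nat_lit 61) (nat_lit 5) (nat_lit 58) (nat_lit 5) (nat_lit 344) (nat_lit 264) (nat_lit 172))))))))
noncomputable def xc60 : XT := (XT.nd (nat_lit 35178) (nat_lit 0) (nat_lit 16416) (XT.nd (nat_lit 1014) (nat_lit 228) (nat_lit 0) (XT.nd (nat_lit 468) (nat_lit 912) (nat_lit 0) (XT.nd (nat_lit 234) (nat_lit 380) (nat_lit 0) (XT.nd (nat_lit 78) (nat_lit 304) (nat_lit 0) (XT.lf (nat_lit 0) (nat_lit 12686549672) (nat_lit 228) (nat_lit 2811699090) (nat_lit 304) (nat_lit 6080247929) (nat_lit 54) (nat_lit 5) (nat_lit 57) (nat_lit 5) (nat_lit 58) (nat_lit 5) (nat_lit 345) (nat_lit 264) (nat_lit 171)) (XT.nd (nat_lit 78) (nat_lit 76) (nat_lit 0) (XT.lf (nat_lit 0) (nat_lit 3926072422) (nat_lit 228) (nat_lit 17361103218) (nat_lit 304) (nat_lit 776882711) (nat_lit 51) (nat_lit 5) (nat_lit 54) (nat_lit 5) (nat_lit 55) (nat_lit 5) (nat_lit 346) (nat_lit 264) (nat_lit 170)) (XT.lf (nat_lit 0) (nat_lit 4677210036)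 (nat_lit 304) (nat_lit 5405467782) (nat_lit 76) (nat_lit 12479851256) (nat_lit 50) (nat_lit 5) (nat_lit 54) (nat_lit 5) (nat_lit 51) (nat_lit 5) (nat_lit 347) (nat_lit 264) (nat_lit 169)))) (XT.nd (nat_lit 78) (nat_lit 152) (nat_lit 0) (XT.lf (nat_lit 0) (nat_lit 7763702612) (nat_lit 228) (nat_lit 2545525812) (nat_lit 304) (nat_lit 12766137507) (nat_lit 47) (nat_lit 5) (nat_lit 50) (nat_lit 5) (nat_lit 51) (nat_lit 5) (nat_lit 348) (nat_lit 264) (nat_lit 168)) (XT.nd (nat_lit 78) (nat_lit 152) (nat_lit 0) (XT.lf (nat_lit 0) (nat_lit 16155719691) (nat_lit 304) (nat_lit 2276714989) (nat_lit 76) (nat_lit 5170254493) (nat_lit 47) (nat_lit 5) (nat_lit 51) (nat_lit 5) (nat_lit 48) (nat_lit 5) (nat_lit 349) (nat_lit 264) (nat_lit 167)) (XT.lf (nat_lit 0) (nat_lit 11239197704) (nat_lit 152) (nat_lit 11003901977) (nat_lit 228) (nat_lit 1901433741) (nat_lit 45) (nat_lit 5) (nat_lit 47) (nat_lit 5) (nat_lit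 48) (nat_lit 5) (nat_lit 350) (nat_lit 264) (nat_lit 166))))) (XT.nd (nat_lit 234) (nat_lit 456) (nat_lit 0) (XT.nd (nat_lit 78) (nat_lit 152) (nat_lit 0) (XT.lf (nat_lit 0) (nat_lit 430084650) (nat_lit 228) (nat_lit 3324514555) (nat_lit 304) (nat_lit 20947667520) (nat_lit 41) (nat_lit 5) (nat_lit 44) (nat_lit 5) (nat_lit 45) (nat_lit 5) (nat_lit 351) (nat_lit 264) (nat_lit 165)) (XT.nd (nat_lit 78) (nat_lit 152) (nat_lit 0) (XT.lf (nat_lit 0) (nat_lit 9648558305) (nat_lit 304) (nat_lit 11015703960) (nat_lit 76) (nat_lit 4610347169) (nat_lit 41) (nat_lit 5) (nat_lit 45) (nat_lit 5) (nat_lit 42) (nat_lit 5) (nat_lit 352) (nat_lit 264) (nat_lit 164)) (XT.lf (nat_lit 0) (nat_lit 2611777833) (nat_lit 152) (nat_lit 13123574117) (nat_lit 228) (nat_lit 10128460198) (nat_lit 39) (nat_lit 5) (nat_lit 41) (nat_lit 5) (nat_lit 42) (nat_lit 5) (nat_lit 353) (nat_lit 264) (nat_lit 163)))) (XT.nd (nat_lit 156)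 (nat_lit 152) (nat_lit 0) (XT.nd (nat_lit 78) (nat_lit 304) (nat_lit 0) (XT.lf (nat_lit 0) (nat_lit 16760784736) (nat_lit 152) (nat_lit 5295864141) (nat_lit 228) (nat_lit 4413013824) (nat_lit 39) (nat_lit 5) (nat_lit 41) (nat_lit 5) (nat_lit 42) (nat_lit 5) (nat_lit 354) (nat_lit 264) (nat_lit 162)) (XT.lf (nat_lit 0) (nat_lit 1478027874) (nat_lit 304) (nat_lit 22862054863) (nat_lit 76) (nat_lit 2752954673) (nat_lit 35) (nat_lit 5) (nat_lit 39) (nat_lit 5) (nat_lit 36) (nat_lit 5) (nat_lit 355) (nat_lit 264) (nat_lit 161))) (XT.nd (nat_lit 78) (nat_lit 152) (nat_lit 0) (XT.lf (nat_lit 0) (nat_lit 7565902704) (nat_lit 304) (nat_lit 9114249318) (nat_lit 76) (nat_lit 11052785796) (nat_lit 35) (nat_lit 5) (nat_lit 39) (nat_lit 5) (nat_lit 36) (nat_lit 5) (nat_lit 356) (nat_lit 264) (nat_lit 160)) (XT.lf (nat_lit 0) (nat_lit 5076625592) (nat_lit 152) (nat_lit 8771461399) (nat_lit 228) (nat_lit 14543723529)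 (nat_lit 33) (nat_lit 5) (nat_lit 35) (nat_lit 5) (nat_lit 36) (nat_lit 5) (nat_lit 357) (nat_lit 264) (nat_lit 159)))))) (XT.nd (nat_lit 33618) (nat_lit 0) (nat_lit 38380) (XT.nd (nat_lit 33384) (nat_lit 0) (nat_lit 40584) (XT.nd (nat_lit 78) (nat_lit 228) (nat_lit 0) (XT.lf (nat_lit 0) (nat_lit 19782621551) (nat_lit 152) (nat_lit 576979108) (nat_lit 228) (nat_lit 8710039956) (nat_lit 33) (nat_lit 5) (nat_lit 35) (nat_lit 5) (nat_lit 36) (nat_lit 5) (nat_lit 358) (nat_lit 264) (nat_lit 158)) (XT.nd (nat_lit 78) (nat_lit 76) (nat_lit 0) (XT.lf (nat_lit 0) (nat_lit 5143743554) (nat_lit 152) (nat_lit 21986787077) (nat_lit 228) (nat_lit 2636001807) (nat_lit 31) (nat_lit 5) (nat_lit 33) (nat_lit 5) (nat_lit 34) (nat_lit 5) (nat_lit 359) (nat_lit 264) (nat_lit 157)) (XT.lf (nat_lit 0) (nat_lit 3619836338) (nat_lit 228) (nat_lit 10410670237) (nat_lit 76) (nat_lit 16452421000) (nat_lit 30) (nat_lit 5)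 (nat_lit 33) (nat_lit 5) (nat_lit 31) (nat_lit 5) (nat_lit 360) (nat_lit 264) (nat_lit 156)))) (XT.nd (nat_lit 78) (nat_lit 608) (nat_lit 0) (XT.lf (nat_lit 0) (nat_lit 97197035) (nat_lit 0) (nat_lit 97197035) (nat_lit 532) (nat_lit 3082027749) (nat_lit 572) (nat_lit 5) (nat_lit 572) (nat_lit 3) (nat_lit 579) (nat_lit 3) (nat_lit 265) (nat_lit 265) (nat_lit 250)) (XT.nd (nat_lit 78) (nat_lit 608) (nat_lit 0) (XT.lf (nat_lit 0) (nat_lit 3863891127) (nat_lit 532) (nat_lit 1893617506) (nat_lit 608) (nat_lit 818607214) (nat_lit 572) (nat_lit 5) (nat_lit 579) (nat_lit 3) (nat_lit 580) (nat_lit 5) (nat_lit 266) (nat_lit 265) (nat_lit 249)) (XT.lf (nat_lit 0) (nat_lit 714991523) (nat_lit 608) (nat_lit 3939438483) (nat_lit 684) (nat_lit 1948104560) (nat_lit 564) (nat_lit 5) (nat_lit 572) (nat_lit 5) (nat_lit 573) (nat_lit 5) (nat_lit 267) (nat_lit 265) (nat_lit 248))))) (XT.nd (nat_lit 234) (nat_lit 1520)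 (nat_lit 0) (XT.nd (nat_lit 78) (nat_lit 684) (nat_lit 0) (XT.lf (nat_lit 76) (nat_lit 671756917) (nat_lit 0) (nat_lit 3421551557) (nat_lit 684) (nat_lit 2538585489) (nat_lit 565) (nat_lit 5) (nat_lit 564) (nat_lit 5) (nat_lit 573) (nat_lit 5) (nat_lit 268) (nat_lit 265) (nat_lit 247)) (XT.nd (nat_lit 78) (nat_lit 0) (nat_lit 0) (XT.lf (nat_lit 0) (nat_lit 795753055) (nat_lit 684) (nat_lit 1265014085) (nat_lit 760) (nat_lit 4603510809) (nat_lit 555) (nat_lit 5) (nat_lit 564) (nat_lit 5) (nat_lit 565) (nat_lit 5) (nat_lit 269) (nat_lit 265) (nat_lit 246)) (XT.lf (nat_lit 76) (nat_lit 3529858209) (nat_lit 0) (nat_lit 562662142) (nat_lit 760) (nat_lit 2607033185) (nat_lit 556) (nat_lit 5) (nat_lit 555) (nat_lit 5) (nat_lit 565) (nat_lit 5) (nat_lit 270) (nat_lit 265) (nat_lit 245)))) (XT.nd (nat_lit 156) (nat_lit 836) (nat_lit 0) (XT.nd (nat_lit 78) (nat_lit 0) (nat_lit 0) (XT.lf (nat_lit 0) (nat_lit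 644950711) (nat_lit 760) (nat_lit 5048560604) (nat_lit 836) (nat_lit 1044412231) (nat_lit 546) (nat_lit 5) (nat_lit 556) (nat_lit 5) (nat_lit 557) (nat_lit 5) (nat_lit 271) (nat_lit 265) (nat_lit 244)) (XT.lf (nat_lit 0) (nat_lit 3864148368) (nat_lit 760) (nat_lit 133658444) (nat_lit 836) (nat_lit 2781370486) (nat_lit 546) (nat_lit 5) (nat_lit 556) (nat_lit 5) (nat_lit 557) (nat_lit 5) (nat_lit 272) (nat_lit 265) (nat_lit 243))) (XT.nd (nat_lit 78) (nat_lit 0) (nat_lit 0) (XT.lf (nat_lit 0) (nat_lit 267778219) (nat_lit 836) (nat_lit 1902816027) (nat_lit 912) (nat_lit 4652913578) (nat_lit 535) (nat_lit 5) (nat_lit 546) (nat_lit 5) (nat_lit 547) (nat_lit 5) (nat_lit 273) (nat_lit 265) (nat_lit 242)) (XT.lf (nat_lit 76) (nat_lit 3210653731) (nat_lit 0) (nat_lit 202827377) (nat_lit 912) (nat_lit 3457326683) (nat_lit 536) (nat_lit 5) (nat_lit 535) (nat_lit 5) (nat_lit 547) (nat_lit 5) (nat_lit 274)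 (nat_lit 265) (nat_lit 241))))))) (XT.nd (nat_lit 1014) (nat_lit 11476) (nat_lit 0) (XT.nd (nat_lit 468) (nat_lit 6612) (nat_lit 0) (XT.nd (nat_lit 234) (nat_lit 3040) (nat_lit 0) (XT.nd (nat_lit 78) (nat_lit 912) (nat_lit 0) (XT.lf (nat_lit 76) (nat_lit 1519481560) (nat_lit 0) (nat_lit 5056958426) (nat_lit 912) (nat_lit 344789456) (nat_lit 537) (nat_lit 5) (nat_lit 536) (nat_lit 5) (nat_lit 548) (nat_lit 5) (nat_lit 275) (nat_lit 265) (nat_lit 240)) (XT.nd (nat_lit 78) (nat_lit 0) (nat_lit 0) (XT.lf (nat_lit 0) (nat_lit 2740035885) (nat_lit 912) (nat_lit 161412804) (nat_lit 988) (nat_lit 4073167467) (nat_lit 524) (nat_lit 5) (nat_lit 536) (nat_lit 5) (nat_lit 537) (nat_lit 5) (nat_lit 276) (nat_lit 265) (nat_lit 239)) (XT.lf (nat_lit 76) (nat_lit 5231314686) (nat_lit 0) (nat_lit 608712562) (nat_lit 988) (nat_lit 1191133744) (nat_lit 525) (nat_lit 5) (nat_lit 524) (nat_lit 5) (nat_lit 537) (nat_lit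 5) (nat_lit 277) (nat_lit 265) (nat_lit 238)))) (XT.nd (nat_lit 78) (nat_lit 2128) (nat_lit 0) (XT.lf (nat_lit 0) (nat_lit 1849987274) (nat_lit 988) (nat_lit 3440176392) (nat_lit 76) (nat_lit 1800489958) (nat_lit 512) (nat_lit 5) (nat_lit 525) (nat_lit 5) (nat_lit 513) (nat_lit 5) (nat_lit 278) (nat_lit 265) (nat_lit 237)) (XT.nd (nat_lit 78) (nat_lit 1140) (nat_lit 0) (XT.lf (nat_lit 0) (nat_lit 2079686421) (nat_lit 988) (nat_lit 2814356153) (nat_lit 1064) (nat_lit 2259310290) (nat_lit 499) (nat_lit 5) (nat_lit 512) (nat_lit 5) (nat_lit 513) (nat_lit 5) (nat_lit 279) (nat_lit 265) (nat_lit 236)) (XT.lf (nat_lit 0) (nat_lit 523190881) (nat_lit 1064) (nat_lit 204174020) (nat_lit 1140) (nat_lit 6492062753) (nat_lit 484) (nat_lit 5) (nat_lit 498) (nat_lit 5) (nat_lit 499) (nat_lit 5) (nat_lit 280) (nat_lit 265) (nat_lit 235))))) (XT.nd (nat_lit 234) (nat_lit 4180) (nat_lit 0) (XT.nd (nat_lit 78)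 (nat_lit 2432) (nat_lit 0) (XT.lf (nat_lit 0) (nat_lit 3726142015) (nat_lit 1140) (nat_lit 1034945079) (nat_lit 76) (nat_lit 2527161547) (nat_lit 484) (nat_lit 5) (nat_lit 499) (nat_lit 5) (nat_lit 485) (nat_lit 5) (nat_lit 281) (nat_lit 265) (nat_lit 234)) (XT.nd (nat_lit 78) (nat_lit 1292) (nat_lit 0) (XT.lf (nat_lit 0) (nat_lit 4785657957) (nat_lit 1140) (nat_lit 1966791260) (nat_lit 1216) (nat_lit 608056593) (nat_lit 469) (nat_lit 5) (nat_lit 484) (nat_lit 5) (nat_lit 485) (nat_lit 5) (nat_lit 282) (nat_lit 265) (nat_lit 233)) (XT.lf (nat_lit 0) (nat_lit 2344323517) (nat_lit 1292) (nat_lit 4126602390) (nat_lit 76) (nat_lit 964972833) (nat_lit 452) (nat_lit 5) (nat_lit 469) (nat_lit 5) (nat_lit 453) (nat_lit 5) (nat_lit 283) (nat_lit 265) (nat_lit 232)))) (XT.nd (nat_lit 156) (nat_lit 1444) (nat_lit 0) (XT.nd (nat_lit 78) (nat_lit 1444) (nat_lit 0) (XT.lf (nat_lit 0) (nat_lit 1825602201) (nat_lit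 1292) (nat_lit 3503118132) (nat_lit 1368) (nat_lit 2185832170) (nat_lit 435) (nat_lit 5) (nat_lit 452) (nat_lit 5) (nat_lit 453) (nat_lit 5) (nat_lit 284) (nat_lit 265) (nat_lit 231)) (XT.lf (nat_lit 0) (nat_lit 343812264) (nat_lit 1368) (nat_lit 393641535) (nat_lit 1444) (nat_lit 6859296258) (nat_lit 416) (nat_lit 5) (nat_lit 434) (nat_lit 5) (nat_lit 435) (nat_lit 5) (nat_lit 285) (nat_lit 265) (nat_lit 230))) (XT.nd (nat_lit 78) (nat_lit 1444) (nat_lit 0) (XT.lf (nat_lit 0) (nat_lit 3688767103) (nat_lit 1444) (nat_lit 1152212668) (nat_lit 76) (nat_lit 2840849229) (nat_lit 416) (nat_lit 5) (nat_lit 435) (nat_lit 5) (nat_lit 417) (nat_lit 5) (nat_lit 286) (nat_lit 265) (nat_lit 229)) (XT.lf (nat_lit 0) (nat_lit 5124373397) (nat_lit 1444) (nat_lit 1555501416) (nat_lit 1520) (nat_lit 1090662285) (nat_lit 397) (nat_lit 5) (nat_lit 416) (nat_lit 5) (nat_lit 417) (nat_lit 5) (nat_lit 287) (nat_lit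 265) (nat_lit 228)))))) (XT.nd (nat_lit 468) (nat_lit 4636) (nat_lit 0) (XT.nd (nat_lit 234) (nat_lit 1976) (nat_lit 0) (XT.nd (nat_lit 78) (nat_lit 3268) (nat_lit 0) (XT.lf (nat_lit 0) (nat_lit 1834792782) (nat_lit 1596) (nat_lit 4167273081) (nat_lit 76) (nat_lit 1860473255) (nat_lit 376) (nat_lit 5) (nat_lit 397) (nat_lit 5) (nat_lit 377) (nat_lit 5) (nat_lit 288) (nat_lit 265) (nat_lit 227)) (XT.nd (nat_lit 78) (nat_lit 1672) (nat_lit 0) (XT.lf (nat_lit 0) (nat_lit 2245450877) (nat_lit 1596) (nat_lit 2549609505) (nat_lit 1672) (nat_lit 3162953451) (nat_lit 355) (nat_lit 5) (nat_lit 376) (nat_lit 5) (nat_lit 377) (nat_lit 5) (nat_lit 289) (nat_lit 265) (nat_lit 226)) (XT.lf (nat_lit 0) (nat_lit 782393300) (nat_lit 1672) (nat_lit 7022490353) (nat_lit 1748) (nat_lit 252345598) (nat_lit 333) (nat_lit 5) (nat_lit 355) (nat_lit 5) (nat_lit 356) (nat_lit 5) (nat_lit 290) (nat_lit 265) (nat_lit 225))))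 (XT.nd (nat_lit 78) (nat_lit 1900) (nat_lit 0) (XT.lf (nat_lit 0) (nat_lit 2687539261) (nat_lit 1748) (nat_lit 716285072) (nat_lit 76) (nat_lit 4755767933) (nat_lit 332) (nat_lit 5) (nat_lit 355) (nat_lit 5) (nat_lit 333) (nat_lit 5) (nat_lit 291) (nat_lit 265) (nat_lit 224)) (XT.nd (nat_lit 78) (nat_lit 912) (nat_lit 0) (XT.lf (nat_lit 0) (nat_lit 5678092825) (nat_lit 1064) (nat_lit 2222358212) (nat_lit 76) (nat_lit 365308239) (nat_lit 319) (nat_lit 5) (nat_lit 333) (nat_lit 5) (nat_lit 320) (nat_lit 5) (nat_lit 292) (nat_lit 265) (nat_lit 223)) (XT.lf (nat_lit 0) (nat_lit 361604049) (nat_lit 912) (nat_lit 3770822578) (nat_lit 76) (nat_lit 4243047734) (nat_lit 307) (nat_lit 5) (nat_lit 319) (nat_lit 5) (nat_lit 308) (nat_lit 5) (nat_lit 293) (nat_lit 265) (nat_lit 222))))) (XT.nd (nat_lit 234) (nat_lit 2204) (nat_lit 0) (XT.nd (nat_lit 78) (nat_lit 1596) (nat_lit 0) (XT.lf (nat_lit 0) (nat_lit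 3131266616) (nat_lit 836) (nat_lit 195770007) (nat_lit 912) (nat_lit 5161923448) (nat_lit 296) (nat_lit 5) (nat_lit 307) (nat_lit 5) (nat_lit 308) (nat_lit 5) (nat_lit 294) (nat_lit 265) (nat_lit 221)) (XT.nd (nat_lit 78) (nat_lit 836) (nat_lit 0) (XT.lf (nat_lit 0) (nat_lit 1611138835) (nat_lit 760) (nat_lit 4760356542) (nat_lit 836) (nat_lit 2234629502) (nat_lit 286) (nat_lit 5) (nat_lit 296) (nat_lit 5) (nat_lit 297) (nat_lit 5) (nat_lit 295) (nat_lit 265) (nat_lit 220)) (XT.lf (nat_lit 0) (nat_lit 59146960) (nat_lit 760) (nat_lit 679248531) (nat_lit 836) (nat_lit 7989016965) (nat_lit 275) (nat_lit 5) (nat_lit 285) (nat_lit 5) (nat_lit 286) (nat_lit 5) (nat_lit 296) (nat_lit 265) (nat_lit 219)))) (XT.nd (nat_lit 156) (nat_lit 1520) (nat_lit 0) (XT.nd (nat_lit 78) (nat_lit 684) (nat_lit 0) (XT.lf (nat_lit 0) (nat_lit 3772505302) (nat_lit 836) (nat_lit 1540456971) (nat_lit 76) (nat_lit 3539105930)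 (nat_lit 275) (nat_lit 5) (nat_lit 286) (nat_lit 5) (nat_lit 276) (nat_lit 5) (nat_lit 297) (nat_lit 265) (nat_lit 218)) (XT.lf (nat_lit 0) (nat_lit 5803260162) (nat_lit 684) (nat_lit 1070079559) (nat_lit 760) (nat_lit 2107677876) (nat_lit 266) (nat_lit 5) (nat_lit 275) (nat_lit 5) (nat_lit 276) (nat_lit 5) (nat_lit 298) (nat_lit 265) (nat_lit 217))) (XT.nd (nat_lit 78) (nat_lit 684) (nat_lit 0) (XT.lf (nat_lit 0) (nat_lit 935167571) (nat_lit 836) (nat_lit 4881027439) (nat_lit 76) (nat_lit 3297695241) (nat_lit 255) (nat_lit 5) (nat_lit 266) (nat_lit 5) (nat_lit 256) (nat_lit 5) (nat_lit 299) (nat_lit 265) (nat_lit 216)) (XT.lf (nat_lit 0) (nat_lit 2602220923) (nat_lit 684) (nat_lit 1420250195) (nat_lit 760) (nat_lit 5228426015) (nat_lit 246) (nat_lit 5) (nat_lit 255) (nat_lit 5) (nat_lit 256) (nat_lit 5) (nat_lit 300) (nat_lit 265) (nat_lit 215))))))))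
noncomputable def xc61 : XT := (XT.nd (nat_lit 2028) (nat_lit 4940) (nat_lit 0) (XT.nd (nat_lit 1014) (nat_lit 4484) (nat_lit 0) (XT.nd (nat_lit 468) (nat_lit 2812) (nat_lit 0) (XT.nd (nat_lit 234) (nat_lit 1976) (nat_lit 0) (XT.nd (nat_lit 78) (nat_lit 684) (nat_lit 0) (XT.lf (nat_lit 0) (nat_lit 907285459) (nat_lit 684) (nat_lit 6291772467) (nat_lit 760) (nat_lit 2193084022) (nat_lit 237) (nat_lit 5) (nat_lit 246) (nat_lit 5) (nat_lit 247) (nat_lit 5) (nat_lit 301) (nat_lit 265) (nat_lit 214)) (XT.nd (nat_lit 78) (nat_lit 608) (nat_lit 0) (XT.lf (nat_lit 0) (nat_lit 914146712) (nat_lit 760) (nat_lit 841038642) (nat_lit 76) (nat_lit 7782514247) (nat_lit 236) (nat_lit 5) (nat_lit 246) (nat_lit 5) (nat_lit 237) (nat_lit 5) (nat_lit 302) (nat_lit 265) (nat_lit 213)) (XT.lf (nat_lit 0) (nat_lit 4090005942) (nat_lit 684) (nat_lit 2664548886) (nat_lit 76) (nat_lit 2932731468) (nat_lit 228) (nat_lit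 5) (nat_lit 237) (nat_lit 5) (nat_lit 229) (nat_lit 5) (nat_lit 303) (nat_lit 265) (nat_lit 212)))) (XT.nd (nat_lit 78) (nat_lit 1292) (nat_lit 0) (XT.lf (nat_lit 0) (nat_lit 5282742932) (nat_lit 684) (nat_lit 2071457742) (nat_lit 760) (nat_lit 2487353463) (nat_lit 219) (nat_lit 5) (nat_lit 228) (nat_lit 5) (nat_lit 229) (nat_lit 5) (nat_lit 304) (nat_lit 265) (nat_lit 211)) (XT.nd (nat_lit 78) (nat_lit 608) (nat_lit 0) (XT.lf (nat_lit 0) (nat_lit 707484008) (nat_lit 684) (nat_lit 6540353921) (nat_lit 76) (nat_lit 2752551195) (nat_lit 210) (nat_lit 5) (nat_lit 219) (nat_lit 5) (nat_lit 211) (nat_lit 5) (nat_lit 305) (nat_lit 265) (nat_lit 210)) (XT.lf (nat_lit 0) (nat_lit 1540777523) (nat_lit 608) (nat_lit 2422068613) (nat_lit 684) (nat_lit 6200895322) (nat_lit 202) (nat_lit 5) (nat_lit 210) (nat_lit 5) (nat_lit 211) (nat_lit 5) (nat_lit 306) (nat_lit 265) (nat_lit 209))))) (XT.nd (nat_lit 234)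 (nat_lit 1596) (nat_lit 0) (XT.nd (nat_lit 78) (nat_lit 1216) (nat_lit 0) (XT.lf (nat_lit 0) (nat_lit 7321507799) (nat_lit 684) (nat_lit 461293976) (nat_lit 76) (nat_lit 2549128924) (nat_lit 202) (nat_lit 5) (nat_lit 211) (nat_lit 5) (nat_lit 203) (nat_lit 5) (nat_lit 307) (nat_lit 265) (nat_lit 208)) (XT.nd (nat_lit 78) (nat_lit 608) (nat_lit 0) (XT.lf (nat_lit 0) (nat_lit 286222029) (nat_lit 608) (nat_lit 2538538450) (nat_lit 76) (nat_lit 7680134573) (nat_lit 194) (nat_lit 5) (nat_lit 202) (nat_lit 5) (nat_lit 195) (nat_lit 5) (nat_lit 308) (nat_lit 265) (nat_lit 207)) (XT.lf (nat_lit 0) (nat_lit 3644968580) (nat_lit 684) (nat_lit 4734794907) (nat_lit 76) (nat_lit 2302850212) (nat_lit 186) (nat_lit 5) (nat_lit 195) (nat_lit 5) (nat_lit 187) (nat_lit 5) (nat_lit 309) (nat_lit 265) (nat_lit 206)))) (XT.nd (nat_lit 156) (nat_lit 532) (nat_lit 0) (XT.nd (nat_lit 78) (nat_lit 532) (nat_lit 0) (XT.lf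 (nat_lit 0) (nat_lit 3824445659) (nat_lit 532) (nat_lit 3288979458) (nat_lit 608) (nat_lit 3752103899) (nat_lit 179) (nat_lit 5) (nat_lit 186) (nat_lit 5) (nat_lit 187) (nat_lit 5) (nat_lit 310) (nat_lit 265) (nat_lit 205)) (XT.lf (nat_lit 0) (nat_lit 1595173258) (nat_lit 532) (nat_lit 9095035620) (nat_lit 608) (nat_lit 363680222) (nat_lit 172) (nat_lit 5) (nat_lit 179) (nat_lit 5) (nat_lit 180) (nat_lit 5) (nat_lit 311) (nat_lit 265) (nat_lit 204))) (XT.nd (nat_lit 78) (nat_lit 456) (nat_lit 0) (XT.lf (nat_lit 0) (nat_lit 3105047237) (nat_lit 608) (nat_lit 767145615) (nat_lit 76) (nat_lit 7374948793) (nat_lit 171) (nat_lit 5) (nat_lit 179) (nat_lit 5) (nat_lit 172) (nat_lit 5) (nat_lit 312) (nat_lit 265) (nat_lit 203)) (XT.lf (nat_lit 0) (nat_lit 6687511063) (nat_lit 532) (nat_lit 3228117050) (nat_lit 76) (nat_lit 1530262795) (nat_lit 165) (nat_lit 5) (nat_lit 172) (nat_lit 5) (nat_lit 166) (nat_lit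 5) (nat_lit 313) (nat_lit 265) (nat_lit 202)))))) (XT.nd (nat_lit 468) (nat_lit 1976) (nat_lit 0) (XT.nd (nat_lit 234) (nat_lit 988) (nat_lit 0) (XT.nd (nat_lit 78) (nat_lit 988) (nat_lit 0) (XT.lf (nat_lit 0) (nat_lit 5820145520) (nat_lit 532) (nat_lit 4578252759) (nat_lit 608) (nat_lit 1251823762) (nat_lit 158) (nat_lit 5) (nat_lit 165) (nat_lit 5) (nat_lit 166) (nat_lit 5) (nat_lit 314) (nat_lit 265) (nat_lit 201)) (XT.nd (nat_lit 78) (nat_lit 456) (nat_lit 0) (XT.lf (nat_lit 0) (nat_lit 2331298271) (nat_lit 532) (nat_lit 8577434149) (nat_lit 76) (nat_lit 951634371) (nat_lit 151) (nat_lit 5) (nat_lit 158) (nat_lit 5) (nat_lit 152) (nat_lit 5) (nat_lit 315) (nat_lit 265) (nat_lit 200)) (XT.lf (nat_lit 0) (nat_lit 579449648) (nat_lit 456) (nat_lit 5453269330) (nat_lit 532) (nat_lit 6043410636) (nat_lit 145) (nat_lit 5) (nat_lit 151) (nat_lit 5) (nat_lit 152) (nat_lit 5) (nat_lit 316) (nat_lit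 265) (nat_lit 199)))) (XT.nd (nat_lit 78) (nat_lit 988) (nat_lit 0) (XT.lf (nat_lit 0) (nat_lit 9859191370) (nat_lit 532) (nat_lit 2232061830) (nat_lit 76) (nat_lit 206866376) (nat_lit 145) (nat_lit 5) (nat_lit 152) (nat_lit 5) (nat_lit 146) (nat_lit 5) (nat_lit 317) (nat_lit 265) (nat_lit 198)) (XT.nd (nat_lit 78) (nat_lit 456) (nat_lit 0) (XT.lf (nat_lit 0) (nat_lit 1296894000) (nat_lit 532) (nat_lit 5224689901) (nat_lit 76) (nat_lit 6004254518) (nat_lit 138) (nat_lit 5) (nat_lit 145) (nat_lit 5) (nat_lit 139) (nat_lit 5) (nat_lit 318) (nat_lit 265) (nat_lit 197)) (XT.lf (nat_lit 0) (nat_lit 4372068785) (nat_lit 456) (nat_lit 739724722) (nat_lit 532) (nat_lit 7648301956) (nat_lit 132) (nat_lit 5) (nat_lit 138) (nat_lit 5) (nat_lit 139) (nat_lit 5) (nat_lit 319) (nat_lit 265) (nat_lit 196))))) (XT.nd (nat_lit 234) (nat_lit 1140) (nat_lit 0) (XT.nd (nat_lit 78) (nat_lit 456) (nat_lit 0) (XT.lf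 (nat_lit 0) (nat_lit 1250378352) (nat_lit 380) (nat_lit 7825506146) (nat_lit 456) (nat_lit 3924831724) (nat_lit 127) (nat_lit 5) (nat_lit 132) (nat_lit 5) (nat_lit 133) (nat_lit 5) (nat_lit 320) (nat_lit 265) (nat_lit 195)) (XT.nd (nat_lit 78) (nat_lit 456) (nat_lit 0) (XT.lf (nat_lit 0) (nat_lit 11229207309) (nat_lit 380) (nat_lit 1949438449) (nat_lit 456) (nat_lit 69544890) (nat_lit 127) (nat_lit 5) (nat_lit 132) (nat_lit 5) (nat_lit 133) (nat_lit 5) (nat_lit 321) (nat_lit 265) (nat_lit 194)) (XT.lf (nat_lit 0) (nat_lit 3888312350) (nat_lit 456) (nat_lit 5502583295) (nat_lit 76) (nat_lit 4110954016) (nat_lit 121) (nat_lit 5) (nat_lit 127) (nat_lit 5) (nat_lit 122) (nat_lit 5) (nat_lit 322) (nat_lit 265) (nat_lit 193)))) (XT.nd (nat_lit 156) (nat_lit 380) (nat_lit 0) (XT.nd (nat_lit 78) (nat_lit 380) (nat_lit 0) (XT.lf (nat_lit 0) (nat_lit 4572027309) (nat_lit 380) (nat_lit 3408074393) (nat_lit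 456) (nat_lit 5782712441) (nat_lit 116) (nat_lit 5) (nat_lit 121) (nat_lit 5) (nat_lit 122) (nat_lit 5) (nat_lit 323) (nat_lit 265) (nat_lit 192)) (XT.lf (nat_lit 0) (nat_lit 930428722) (nat_lit 380) (nat_lit 11286017575) (nat_lit 456) (nat_lit 1814752144) (nat_lit 111) (nat_lit 5) (nat_lit 116) (nat_lit 5) (nat_lit 117) (nat_lit 5) (nat_lit 324) (nat_lit 265) (nat_lit 191))) (XT.nd (nat_lit 78) (nat_lit 304) (nat_lit 0) (XT.lf (nat_lit 0) (nat_lit 2288781496) (nat_lit 456) (nat_lit 2919860548) (nat_lit 76) (nat_lit 9097796071) (nat_lit 110) (nat_lit 5) (nat_lit 116) (nat_lit 5) (nat_lit 111) (nat_lit 5) (nat_lit 325) (nat_lit 265) (nat_lit 190)) (XT.lf (nat_lit 0) (nat_lit 6509357909) (nat_lit 380) (nat_lit 6997561312) (nat_lit 76) (nat_lit 1082428876) (nat_lit 106) (nat_lit 5) (nat_lit 111) (nat_lit 5) (nat_lit 107) (nat_lit 5) (nat_lit 326) (nat_lit 265) (nat_lit 189))))))) (XT.nd (nat_lit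 1014) (nat_lit 1976) (nat_lit 0) (XT.nd (nat_lit 468) (nat_lit 1520) (nat_lit 0) (XT.nd (nat_lit 234) (nat_lit 684) (nat_lit 0) (XT.nd (nat_lit 78) (nat_lit 380) (nat_lit 0) (XT.lf (nat_lit 0) (nat_lit 3535080261) (nat_lit 380) (nat_lit 7361812022) (nat_lit 456) (nat_lit 3983070425) (nat_lit 101) (nat_lit 5) (nat_lit 106) (nat_lit 5) (nat_lit 107) (nat_lit 5) (nat_lit 327) (nat_lit 265) (nat_lit 188)) (XT.nd (nat_lit 78) (nat_lit 304) (nat_lit 0) (XT.lf (nat_lit 0) (nat_lit 244495681) (nat_lit 456) (nat_lit 755060043) (nat_lit 76) (nat_lit 14179515395) (nat_lit 100) (nat_lit 5) (nat_lit 106) (nat_lit 5) (nat_lit 101) (nat_lit 5) (nat_lit 328) (nat_lit 265) (nat_lit 187)) (XT.lf (nat_lit 0) (nat_lit 4612102267) (nat_lit 380) (nat_lit 5315673138) (nat_lit 76) (nat_lit 5557526572) (nat_lit 96) (nat_lit 5) (nat_lit 101) (nat_lit 5) (nat_lit 97) (nat_lit 5) (nat_lit 329) (nat_lit 265) (nat_lit 186))))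 (XT.nd (nat_lit 78) (nat_lit 380) (nat_lit 0) (XT.lf (nat_lit 0) (nat_lit 5646592005) (nat_lit 304) (nat_lit 3477424920) (nat_lit 380) (nat_lit 6676458902) (nat_lit 92) (nat_lit 5) (nat_lit 96) (nat_lit 5) (nat_lit 97) (nat_lit 5) (nat_lit 330) (nat_lit 265) (nat_lit 185)) (XT.nd (nat_lit 78) (nat_lit 76) (nat_lit 0) (XT.lf (nat_lit 0) (nat_lit 823839868) (nat_lit 304) (nat_lit 12974978408) (nat_lit 380) (nat_lit 2325757062) (nat_lit 88) (nat_lit 5) (nat_lit 92) (nat_lit 5) (nat_lit 93) (nat_lit 5) (nat_lit 331) (nat_lit 265) (nat_lit 184)) (XT.lf (nat_lit 0) (nat_lit 2185505615) (nat_lit 380) (nat_lit 4276740729) (nat_lit 76) (nat_lit 9994725435) (nat_lit 87) (nat_lit 5) (nat_lit 92) (nat_lit 5) (nat_lit 88) (nat_lit 5) (nat_lit 332) (nat_lit 265) (nat_lit 183))))) (XT.nd (nat_lit 234) (nat_lit 988) (nat_lit 0) (XT.nd (nat_lit 78) (nat_lit 228) (nat_lit 0) (XT.lf (nat_lit 0) (nat_lit 6815502291)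 (nat_lit 380) (nat_lit 9695461893) (nat_lit 76) (nat_lit 287788017) (nat_lit 83) (nat_lit 5) (nat_lit 88) (nat_lit 5) (nat_lit 84) (nat_lit 5) (nat_lit 333) (nat_lit 265) (nat_lit 182)) (XT.nd (nat_lit 78) (nat_lit 0) (nat_lit 0) (XT.lf (nat_lit 0) (nat_lit 1661309515) (nat_lit 228) (nat_lit 9973587922) (nat_lit 304) (nat_lit 5514897497) (nat_lit 80) (nat_lit 5) (nat_lit 83) (nat_lit 5) (nat_lit 84) (nat_lit 5) (nat_lit 334) (nat_lit 265) (nat_lit 181)) (XT.lf (nat_lit 0) (nat_lit 13442182758) (nat_lit 228) (nat_lit 3190346612) (nat_lit 304) (nat_lit 878184801) (nat_lit 80) (nat_lit 5) (nat_lit 83) (nat_lit 5) (nat_lit 84) (nat_lit 5) (nat_lit 335) (nat_lit 265) (nat_lit 180)))) (XT.nd (nat_lit 156) (nat_lit 380) (nat_lit 0) (XT.nd (nat_lit 78) (nat_lit 228) (nat_lit 0) (XT.lf (nat_lit 0) (nat_lit 3890348642) (nat_lit 380) (nat_lit 10184959865) (nat_lit 76) (nat_lit 3805787046) (nat_lit 75) (nat_lit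 5) (nat_lit 80) (nat_lit 5) (nat_lit 76) (nat_lit 5) (nat_lit 336) (nat_lit 265) (nat_lit 179)) (XT.lf (nat_lit 0) (nat_lit 1552314220) (nat_lit 228) (nat_lit 7266087134) (nat_lit 304) (nat_lit 9443519971) (nat_lit 72) (nat_lit 5) (nat_lit 75) (nat_lit 5) (nat_lit 76) (nat_lit 5) (nat_lit 337) (nat_lit 265) (nat_lit 178))) (XT.nd (nat_lit 78) (nat_lit 380) (nat_lit 0) (XT.lf (nat_lit 0) (nat_lit 13733848904) (nat_lit 228) (nat_lit 199214772) (nat_lit 304) (nat_lit 4720349268) (nat_lit 72) (nat_lit 5) (nat_lit 75) (nat_lit 5) (nat_lit 76) (nat_lit 5) (nat_lit 338) (nat_lit 265) (nat_lit 177)) (XT.lf (nat_lit 0) (nat_lit 206436402) (nat_lit 380) (nat_lit 11830152698) (nat_lit 76) (nat_lit 7018780788) (nat_lit 67) (nat_lit 5) (nat_lit 72) (nat_lit 5) (nat_lit 68) (nat_lit 5) (nat_lit 339) (nat_lit 265) (nat_lit 176)))))) (XT.nd (nat_lit 468) (nat_lit 988) (nat_lit 0) (XT.nd (nat_lit 234) (nat_lit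 532) (nat_lit 0) (XT.nd (nat_lit 78) (nat_lit 228) (nat_lit 0) (XT.lf (nat_lit 0) (nat_lit 257175961) (nat_lit 228) (nat_lit 4967524153) (nat_lit 304) (nat_lit 14243920476) (nat_lit 64) (nat_lit 5) (nat_lit 67) (nat_lit 5) (nat_lit 68) (nat_lit 5) (nat_lit 340) (nat_lit 265) (nat_lit 175)) (XT.nd (nat_lit 78) (nat_lit 228) (nat_lit 0) (XT.lf (nat_lit 0) (nat_lit 10460555110) (nat_lit 304) (nat_lit 7084930636) (nat_lit 76) (nat_lit 2347456945) (nat_lit 64) (nat_lit 5) (nat_lit 68) (nat_lit 5) (nat_lit 65) (nat_lit 5) (nat_lit 341) (nat_lit 265) (nat_lit 174)) (XT.lf (nat_lit 0) (nat_lit 5398524274) (nat_lit 228) (nat_lit 10495393601) (nat_lit 304) (nat_lit 4435282256) (nat_lit 61) (nat_lit 5) (nat_lit 64) (nat_lit 5) (nat_lit 65) (nat_lit 5) (nat_lit 342) (nat_lit 265) (nat_lit 173)))) (XT.nd (nat_lit 78) (nat_lit 456) (nat_lit 0) (XT.lf (nat_lit 0) (nat_lit 723223046) (nat_lit 304) (nat_lit 2473156946)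 (nat_lit 76) (nat_lit 17581670081) (nat_lit 60) (nat_lit 5) (nat_lit 64) (nat_lit 5) (nat_lit 61) (nat_lit 5) (nat_lit 343) (nat_lit 265) (nat_lit 172)) (XT.nd (nat_lit 78) (nat_lit 228) (nat_lit 0) (XT.lf (nat_lit 0) (nat_lit 6046130986) (nat_lit 304) (nat_lit 10845258712) (nat_lit 76) (nat_lit 4347004591) (nat_lit 57) (nat_lit 5) (nat_lit 61) (nat_lit 5) (nat_lit 58) (nat_lit 5) (nat_lit 344) (nat_lit 265) (nat_lit 171)) (XT.lf (nat_lit 0) (nat_lit 1928309762) (nat_lit 228) (nat_lit 9624877642) (nat_lit 304) (nat_lit 10158885048) (nat_lit 54) (nat_lit 5) (nat_lit 57) (nat_lit 5) (nat_lit 58) (nat_lit 5) (nat_lit 345) (nat_lit 265) (nat_lit 170))))) (XT.nd (nat_lit 234) (nat_lit 684) (nat_lit 0) (XT.nd (nat_lit 78) (nat_lit 304) (nat_lit 0) (XT.lf (nat_lit 0) (nat_lit 15191677271) (nat_lit 228) (nat_lit 2081459388) (nat_lit 304) (nat_lit 4925883150) (nat_lit 54) (nat_lit 5) (nat_lit 57) (nat_lit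 5) (nat_lit 58) (nat_lit 5) (nat_lit 346) (nat_lit 265) (nat_lit 169)) (XT.nd (nat_lit 78) (nat_lit 0) (nat_lit 0) (XT.lf (nat_lit 0) (nat_lit 510088449) (nat_lit 304) (nat_lit 16547797702) (nat_lit 76) (nat_lit 5641599710) (nat_lit 50) (nat_lit 5) (nat_lit 54) (nat_lit 5) (nat_lit 51) (nat_lit 5) (nat_lit 347) (nat_lit 265) (nat_lit 168)) (XT.lf (nat_lit 0) (nat_lit 6079451596) (nat_lit 304) (nat_lit 3500512935) (nat_lit 76) (nat_lit 13633616969) (nat_lit 50) (nat_lit 5) (nat_lit 54) (nat_lit 5) (nat_lit 51) (nat_lit 5) (nat_lit 348) (nat_lit 265) (nat_lit 167)))) (XT.nd (nat_lit 156) (nat_lit 456) (nat_lit 0) (XT.nd (nat_lit 78) (nat_lit 0) (nat_lit 0) (XT.lf (nat_lit 0) (nat_lit 10030196022) (nat_lit 228) (nat_lit 1826682775) (nat_lit 304) (nat_lit 11885412740) (nat_lit 47) (nat_lit 5) (nat_lit 50) (nat_lit 5) (nat_lit 51) (nat_lit 5) (nat_lit 349) (nat_lit 265) (nat_lit 166)) (XT.lf (nat_lit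 0) (nat_lit 17847708314) (nat_lit 304) (nat_lit 351079854) (nat_lit 76) (nat_lit 6087283978) (nat_lit 47) (nat_lit 5) (nat_lit 51) (nat_lit 5) (nat_lit 48) (nat_lit 5) (nat_lit 350) (nat_lit 265) (nat_lit 165))) (XT.nd (nat_lit 78) (nat_lit 304) (nat_lit 0) (XT.lf (nat_lit 0) (nat_lit 13537960967) (nat_lit 152) (nat_lit 10557320089) (nat_lit 228) (nat_lit 749355298) (nat_lit 45) (nat_lit 5) (nat_lit 47) (nat_lit 5) (nat_lit 48) (nat_lit 5) (nat_lit 351) (nat_lit 265) (nat_lit 164)) (XT.lf (nat_lit 0) (nat_lit 2388866960) (nat_lit 228) (nat_lit 2649512522) (nat_lit 304) (nat_lit 20381022879) (nat_lit 41) (nat_lit 5) (nat_lit 44) (nat_lit 5) (nat_lit 45) (nat_lit 5) (nat_lit 352) (nat_lit 265) (nat_lit 163))))))))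
noncomputable def xc62 : XT := (XT.nd (nat_lit 35256) (nat_lit 0) (nat_lit 11780) (XT.nd (nat_lit 34242) (nat_lit 0) (nat_lit 31996) (XT.nd (nat_lit 468) (nat_lit 152) (nat_lit 0) (XT.nd (nat_lit 234) (nat_lit 456) (nat_lit 0) (XT.nd (nat_lit 78) (nat_lit 152) (nat_lit 0) (XT.lf (nat_lit 0) (nat_lit 11079930016) (nat_lit 304) (nat_lit 9438619712) (nat_lit 76) (nat_lit 5490965010) (nat_lit 41) (nat_lit 5) (nat_lit 45) (nat_lit 5) (nat_lit 42) (nat_lit 5) (nat_lit 353) (nat_lit 265) (nat_lit 162)) (XT.nd (nat_lit 78) (nat_lit 0) (nat_lit 0) (XT.lf (nat_lit 0) (nat_lit 4566738715) (nat_lit 152) (nat_lit 12761513276) (nat_lit 228) (nat_lit 9288577459) (nat_lit 39) (nat_lit 5) (nat_lit 41) (nat_lit 5) (nat_lit 42) (nat_lit 5) (nat_lit 354) (nat_lit 265) (nat_lit 161)) (XT.lf (nat_lit 0) (nat_lit 19085557352) (nat_lit 152) (nat_lit 4720984664) (nat_lit 228) (nat_lit 3434980409) (nat_lit 39) (nat_lit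 5) (nat_lit 41) (nat_lit 5) (nat_lit 42) (nat_lit 5) (nat_lit 355) (nat_lit 265) (nat_lit 160)))) (XT.nd (nat_lit 78) (nat_lit 152) (nat_lit 0) (XT.lf (nat_lit 0) (nat_lit 2602793522) (nat_lit 304) (nat_lit 21723541527) (nat_lit 76) (nat_lit 3557441161) (nat_lit 35) (nat_lit 5) (nat_lit 39) (nat_lit 5) (nat_lit 36) (nat_lit 5) (nat_lit 356) (nat_lit 265) (nat_lit 159)) (XT.nd (nat_lit 78) (nat_lit 152) (nat_lit 0) (XT.lf (nat_lit 0) (nat_lit 8841835913) (nat_lit 304) (nat_lit 7616438951) (nat_lit 76) (nat_lit 12085241067) (nat_lit 35) (nat_lit 5) (nat_lit 39) (nat_lit 5) (nat_lit 36) (nat_lit 5) (nat_lit 357) (nat_lit 265) (nat_lit 158)) (XT.lf (nat_lit 0) (nat_lit 6971425976) (nat_lit 152) (nat_lit 8321821108) (nat_lit 228) (nat_lit 13929305053) (nat_lit 33) (nat_lit 5) (nat_lit 35) (nat_lit 5) (nat_lit 36) (nat_lit 5) (nat_lit 358) (nat_lit 265) (nat_lit 157))))) (XT.nd (nat_lit 33462) (nat_lit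 0) (nat_lit 39064) (XT.nd (nat_lit 78) (nat_lit 152) (nat_lit 0) (XT.lf (nat_lit 0) (nat_lit 21970748952) (nat_lit 228) (nat_lit 7854114377) (nat_lit 76) (nat_lit 96453136) (nat_lit 33) (nat_lit 5) (nat_lit 36) (nat_lit 5) (nat_lit 34) (nat_lit 5) (nat_lit 359) (nat_lit 265) (nat_lit 156)) (XT.nd (nat_lit 33306) (nat_lit 0) (nat_lit 40432) (XT.lf (nat_lit 0) (nat_lit 6978007903) (nat_lit 152) (nat_lit 21952315706) (nat_lit 228) (nat_lit 1709092927) (nat_lit 31) (nat_lit 5) (nat_lit 33) (nat_lit 5) (nat_lit 34) (nat_lit 5) (nat_lit 360) (nat_lit 265) (nat_lit 155)) (XT.lf (nat_lit 0) (nat_lit 325960801) (nat_lit 684) (nat_lit 1487259077) (nat_lit 684) (nat_lit 1487259077) (nat_lit 563) (nat_lit 3) (nat_lit 572) (nat_lit 3) (nat_lit 572) (nat_lit 5) (nat_lit 266) (nat_lit 266) (nat_lit 248)))) (XT.nd (nat_lit 156) (nat_lit 684) (nat_lit 0) (XT.nd (nat_lit 78) (nat_lit 684) (nat_lit 0) (XT.lf (nat_lit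 76) (nat_lit 1523827697) (nat_lit 0) (nat_lit 2439675515) (nat_lit 684) (nat_lit 2665225611) (nat_lit 564) (nat_lit 5) (nat_lit 563) (nat_lit 3) (nat_lit 572) (nat_lit 5) (nat_lit 267) (nat_lit 266) (nat_lit 247)) (XT.lf (nat_lit 0) (nat_lit 598024296) (nat_lit 684) (nat_lit 532301311) (nat_lit 760) (nat_lit 5529306787) (nat_lit 554) (nat_lit 5) (nat_lit 563) (nat_lit 3) (nat_lit 564) (nat_lit 5) (nat_lit 268) (nat_lit 266) (nat_lit 246))) (XT.nd (nat_lit 78) (nat_lit 760) (nat_lit 0) (XT.lf (nat_lit 0) (nat_lit 3826024168) (nat_lit 684) (nat_lit 2547765808) (nat_lit 760) (nat_lit 319452946) (nat_lit 555) (nat_lit 5) (nat_lit 564) (nat_lit 5) (nat_lit 565) (nat_lit 5) (nat_lit 269) (nat_lit 266) (nat_lit 245)) (XT.lf (nat_lit 0) (nat_lit 319523217) (nat_lit 760) (nat_lit 4536162403) (nat_lit 836) (nat_lit 1874263968) (nat_lit 545) (nat_lit 5) (nat_lit 555) (nat_lit 5) (nat_lit 556) (nat_lit 5)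 (nat_lit 270) (nat_lit 266) (nat_lit 244)))))) (XT.nd (nat_lit 468) (nat_lit 5396) (nat_lit 0) (XT.nd (nat_lit 234) (nat_lit 912) (nat_lit 0) (XT.nd (nat_lit 78) (nat_lit 760) (nat_lit 0) (XT.lf (nat_lit 76) (nat_lit 260131081) (nat_lit 0) (nat_lit 3201683570) (nat_lit 836) (nat_lit 3307764491) (nat_lit 546) (nat_lit 5) (nat_lit 545) (nat_lit 5) (nat_lit 556) (nat_lit 5) (nat_lit 271) (nat_lit 266) (nat_lit 243)) (XT.nd (nat_lit 78) (nat_lit 760) (nat_lit 0) (XT.lf (nat_lit 76) (nat_lit 5194484468) (nat_lit 0) (nat_lit 1417305972) (nat_lit 836) (nat_lit 200512387) (nat_lit 546) (nat_lit 5) (nat_lit 545) (nat_lit 5) (nat_lit 556) (nat_lit 5) (nat_lit 272) (nat_lit 266) (nat_lit 242)) (XT.lf (nat_lit 0) (nat_lit 2871028033) (nat_lit 836) (nat_lit 3483504459) (nat_lit 912) (nat_lit 503343057) (nat_lit 535) (nat_lit 5) (nat_lit 546) (nat_lit 5) (nat_lit 547) (nat_lit 5) (nat_lit 273) (nat_lit 266)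 (nat_lit 241)))) (XT.nd (nat_lit 78) (nat_lit 912) (nat_lit 0) (XT.lf (nat_lit 76) (nat_lit 1574402353) (nat_lit 0) (nat_lit 4376720093) (nat_lit 912) (nat_lit 955444247) (nat_lit 536) (nat_lit 5) (nat_lit 535) (nat_lit 5) (nat_lit 547) (nat_lit 5) (nat_lit 274) (nat_lit 266) (nat_lit 240)) (XT.nd (nat_lit 78) (nat_lit 0) (nat_lit 0) (XT.lf (nat_lit 0) (nat_lit 2052558818) (nat_lit 912) (nat_lit 208459294) (nat_lit 988) (nat_lit 4697290200) (nat_lit 523) (nat_lit 5) (nat_lit 535) (nat_lit 5) (nat_lit 536) (nat_lit 5) (nat_lit 275) (nat_lit 266) (nat_lit 239)) (XT.lf (nat_lit 76) (nat_lit 5061260678) (nat_lit 0) (nat_lit 3005654) (nat_lit 988) (nat_lit 1948828850) (nat_lit 524) (nat_lit 5) (nat_lit 523) (nat_lit 5) (nat_lit 536) (nat_lit 5) (nat_lit 276) (nat_lit 266) (nat_lit 238))))) (XT.nd (nat_lit 234) (nat_lit 3572) (nat_lit 0) (XT.nd (nat_lit 78) (nat_lit 912) (nat_lit 0) (XT.lf (nat_lit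 0) (nat_lit 1016727740) (nat_lit 988) (nat_lit 3695008654) (nat_lit 1064) (nat_lit 2359101656) (nat_lit 511) (nat_lit 5) (nat_lit 524) (nat_lit 5) (nat_lit 525) (nat_lit 5) (nat_lit 277) (nat_lit 266) (nat_lit 237)) (XT.nd (nat_lit 78) (nat_lit 912) (nat_lit 0) (XT.lf (nat_lit 76) (nat_lit 1699723636) (nat_lit 0) (nat_lit 2267761191) (nat_lit 1064) (nat_lit 3164253494) (nat_lit 512) (nat_lit 5) (nat_lit 511) (nat_lit 5) (nat_lit 525) (nat_lit 5) (nat_lit 278) (nat_lit 266) (nat_lit 236)) (XT.lf (nat_lit 0) (nat_lit 41049905) (nat_lit 988) (nat_lit 6893719056) (nat_lit 1064) (nat_lit 261269530) (nat_lit 499) (nat_lit 5) (nat_lit 512) (nat_lit 5) (nat_lit 513) (nat_lit 5) (nat_lit 279) (nat_lit 266) (nat_lit 235)))) (XT.nd (nat_lit 156) (nat_lit 2432) (nat_lit 0) (XT.nd (nat_lit 78) (nat_lit 1064) (nat_lit 0) (XT.lf (nat_lit 0) (nat_lit 2647814347) (nat_lit 1064) (nat_lit 1612886323) (nat_lit 76)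 (nat_lit 3002243242) (nat_lit 498) (nat_lit 5) (nat_lit 512) (nat_lit 5) (nat_lit 499) (nat_lit 5) (nat_lit 280) (nat_lit 266) (nat_lit 234)) (XT.lf (nat_lit 0) (nat_lit 4078396366) (nat_lit 1064) (nat_lit 1494142899) (nat_lit 1140) (nat_lit 1760767214) (nat_lit 484) (nat_lit 5) (nat_lit 498) (nat_lit 5) (nat_lit 499) (nat_lit 5) (nat_lit 281) (nat_lit 266) (nat_lit 233))) (XT.nd (nat_lit 78) (nat_lit 1216) (nat_lit 0) (XT.lf (nat_lit 0) (nat_lit 1107270734) (nat_lit 1216) (nat_lit 4903140347) (nat_lit 76) (nat_lit 1396462474) (nat_lit 468) (nat_lit 5) (nat_lit 484) (nat_lit 5) (nat_lit 469) (nat_lit 5) (nat_lit 282) (nat_lit 266) (nat_lit 232)) (XT.lf (nat_lit 0) (nat_lit 917588077) (nat_lit 1216) (nat_lit 3067548266) (nat_lit 1292) (nat_lit 3498437919) (nat_lit 452) (nat_lit 5) (nat_lit 468) (nat_lit 5) (nat_lit 469) (nat_lit 5) (nat_lit 283) (nat_lit 266) (nat_lit 231))))))) (XT.nd (nat_lit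 1014) (nat_lit 7524) (nat_lit 0) (XT.nd (nat_lit 468) (nat_lit 6916) (nat_lit 0) (XT.nd (nat_lit 234) (nat_lit 3040) (nat_lit 0) (XT.nd (nat_lit 78) (nat_lit 2736) (nat_lit 0) (XT.lf (nat_lit 0) (nat_lit 6894284678) (nat_lit 1292) (nat_lit 652726837) (nat_lit 76) (nat_lit 16775793) (nat_lit 452) (nat_lit 5) (nat_lit 469) (nat_lit 5) (nat_lit 453) (nat_lit 5) (nat_lit 284) (nat_lit 266) (nat_lit 230)) (XT.nd (nat_lit 78) (nat_lit 1368) (nat_lit 0) (XT.lf (nat_lit 0) (nat_lit 2184572820) (nat_lit 1368) (nat_lit 2241809851) (nat_lit 76) (nat_lit 3220443458) (nat_lit 434) (nat_lit 5) (nat_lit 452) (nat_lit 5) (nat_lit 435) (nat_lit 5) (nat_lit 285) (nat_lit 266) (nat_lit 229)) (XT.lf (nat_lit 0) (nat_lit 3898860466) (nat_lit 1368) (nat_lit 1161840785) (nat_lit 1444) (nat_lit 2672757709) (nat_lit 416) (nat_lit 5) (nat_lit 434) (nat_lit 5) (nat_lit 435) (nat_lit 5) (nat_lit 286) (nat_lit 266) (nat_lit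 228)))) (XT.nd (nat_lit 78) (nat_lit 1520) (nat_lit 0) (XT.lf (nat_lit 0) (nat_lit 160294983) (nat_lit 1520) (nat_lit 5445367955) (nat_lit 76) (nat_lit 2217848775) (nat_lit 396) (nat_lit 5) (nat_lit 416) (nat_lit 5) (nat_lit 397) (nat_lit 5) (nat_lit 287) (nat_lit 266) (nat_lit 227)) (XT.nd (nat_lit 78) (nat_lit 0) (nat_lit 0) (XT.lf (nat_lit 0) (nat_lit 829387459) (nat_lit 1520) (nat_lit 2171297597) (nat_lit 1596) (nat_lit 4916148648) (nat_lit 376) (nat_lit 5) (nat_lit 396) (nat_lit 5) (nat_lit 397) (nat_lit 5) (nat_lit 288) (nat_lit 266) (nat_lit 226)) (XT.lf (nat_lit 0) (nat_lit 5893417794) (nat_lit 1596) (nat_lit 724700987) (nat_lit 76) (nat_lit 1395585366) (nat_lit 376) (nat_lit 5) (nat_lit 397) (nat_lit 5) (nat_lit 377) (nat_lit 5) (nat_lit 289) (nat_lit 266) (nat_lit 225))))) (XT.nd (nat_lit 234) (nat_lit 2584) (nat_lit 0) (XT.nd (nat_lit 78) (nat_lit 2660) (nat_lit 0) (XT.lf (nat_lit 0)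 (nat_lit 724982322) (nat_lit 1672) (nat_lit 2296299516) (nat_lit 76) (nat_lit 5092677442) (nat_lit 354) (nat_lit 5) (nat_lit 376) (nat_lit 5) (nat_lit 355) (nat_lit 5) (nat_lit 290) (nat_lit 266) (nat_lit 224)) (XT.nd (nat_lit 78) (nat_lit 988) (nat_lit 0) (XT.lf (nat_lit 0) (nat_lit 3589406085) (nat_lit 1748) (nat_lit 3899313267) (nat_lit 76) (nat_lit 729054819) (nat_lit 332) (nat_lit 5) (nat_lit 355) (nat_lit 5) (nat_lit 333) (nat_lit 5) (nat_lit 291) (nat_lit 266) (nat_lit 223)) (XT.lf (nat_lit 0) (nat_lit 2786224733) (nat_lit 988) (nat_lit 3733927042) (nat_lit 1064) (nat_lit 1805025966) (nat_lit 319) (nat_lit 5) (nat_lit 332) (nat_lit 5) (nat_lit 333) (nat_lit 5) (nat_lit 292) (nat_lit 266) (nat_lit 222)))) (XT.nd (nat_lit 156) (nat_lit 1672) (nat_lit 0) (XT.nd (nat_lit 78) (nat_lit 0) (nat_lit 0) (XT.lf (nat_lit 0) (nat_lit 1051886230) (nat_lit 912) (nat_lit 7207070522) (nat_lit 76) (nat_lit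 177514778) (nat_lit 307) (nat_lit 5) (nat_lit 319) (nat_lit 5) (nat_lit 308) (nat_lit 5) (nat_lit 293) (nat_lit 266) (nat_lit 221)) (XT.lf (nat_lit 0) (nat_lit 3962147283) (nat_lit 912) (nat_lit 380056900) (nat_lit 76) (nat_lit 4208893822) (nat_lit 307) (nat_lit 5) (nat_lit 319) (nat_lit 5) (nat_lit 308) (nat_lit 5) (nat_lit 294) (nat_lit 266) (nat_lit 220))) (XT.nd (nat_lit 78) (nat_lit 836) (nat_lit 0) (XT.lf (nat_lit 0) (nat_lit 6672248511) (nat_lit 836) (nat_lit 262120592) (nat_lit 912) (nat_lit 1735374698) (nat_lit 296) (nat_lit 5) (nat_lit 307) (nat_lit 5) (nat_lit 308) (nat_lit 5) (nat_lit 295) (nat_lit 266) (nat_lit 219)) (XT.lf (nat_lit 0) (nat_lit 1182266381) (nat_lit 836) (nat_lit 3676246034) (nat_lit 76) (nat_lit 3933465357) (nat_lit 285) (nat_lit 5) (nat_lit 296) (nat_lit 5) (nat_lit 286) (nat_lit 5) (nat_lit 296) (nat_lit 266) (nat_lit 218)))))) (XT.nd (nat_lit 468) (nat_lit 3800)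 (nat_lit 0) (XT.nd (nat_lit 234) (nat_lit 1444) (nat_lit 0) (XT.nd (nat_lit 78) (nat_lit 1520) (nat_lit 0) (XT.lf (nat_lit 0) (nat_lit 3517562278) (nat_lit 760) (nat_lit 618581257) (nat_lit 836) (nat_lit 4782128135) (nat_lit 275) (nat_lit 5) (nat_lit 285) (nat_lit 5) (nat_lit 286) (nat_lit 5) (nat_lit 297) (nat_lit 266) (nat_lit 217)) (XT.nd (nat_lit 78) (nat_lit 836) (nat_lit 0) (XT.lf (nat_lit 0) (nat_lit 1862098525) (nat_lit 684) (nat_lit 5313460629) (nat_lit 760) (nat_lit 1872922808) (nat_lit 266) (nat_lit 5) (nat_lit 275) (nat_lit 5) (nat_lit 276) (nat_lit 5) (nat_lit 298) (nat_lit 266) (nat_lit 216)) (XT.lf (nat_lit 0) (nat_lit 157964043) (nat_lit 760) (nat_lit 929247039) (nat_lit 836) (nat_lit 8095736660) (nat_lit 255) (nat_lit 5) (nat_lit 265) (nat_lit 5) (nat_lit 266) (nat_lit 5) (nat_lit 299) (nat_lit 266) (nat_lit 215)))) (XT.nd (nat_lit 78) (nat_lit 1444) (nat_lit 0) (XT.lf (nat_lit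 0) (nat_lit 4120937497) (nat_lit 836) (nat_lit 1603067475) (nat_lit 76) (nat_lit 3597051248) (nat_lit 255) (nat_lit 5) (nat_lit 266) (nat_lit 5) (nat_lit 256) (nat_lit 5) (nat_lit 300) (nat_lit 266) (nat_lit 214)) (XT.nd (nat_lit 78) (nat_lit 760) (nat_lit 0) (XT.lf (nat_lit 0) (nat_lit 6049121665) (nat_lit 684) (nat_lit 1181638911) (nat_lit 760) (nat_lit 2232904911) (nat_lit 246) (nat_lit 5) (nat_lit 255) (nat_lit 5) (nat_lit 256) (nat_lit 5) (nat_lit 301) (nat_lit 266) (nat_lit 213)) (XT.lf (nat_lit 0) (nat_lit 815015842) (nat_lit 760) (nat_lit 5305327415) (nat_lit 76) (nat_lit 3490109471) (nat_lit 236) (nat_lit 5) (nat_lit 246) (nat_lit 5) (nat_lit 237) (nat_lit 5) (nat_lit 302) (nat_lit 266) (nat_lit 212))))) (XT.nd (nat_lit 234) (nat_lit 2432) (nat_lit 0) (XT.nd (nat_lit 78) (nat_lit 760) (nat_lit 0) (XT.lf (nat_lit 0) (nat_lit 2486150729) (nat_lit 608) (nat_lit 1427160972) (nat_lit 684)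 (nat_lit 5848305956) (nat_lit 228) (nat_lit 5) (nat_lit 236) (nat_lit 5) (nat_lit 237) (nat_lit 5) (nat_lit 303) (nat_lit 266) (nat_lit 211)) (XT.nd (nat_lit 78) (nat_lit 76) (nat_lit 0) (XT.lf (nat_lit 0) (nat_lit 587245944) (nat_lit 684) (nat_lit 6522427433) (nat_lit 760) (nat_lit 2807594960) (nat_lit 219) (nat_lit 5) (nat_lit 228) (nat_lit 5) (nat_lit 229) (nat_lit 5) (nat_lit 304) (nat_lit 266) (nat_lit 210)) (XT.lf (nat_lit 0) (nat_lit 323072993) (nat_lit 760) (nat_lit 1368378955) (nat_lit 76) (nat_lit 8386085269) (nat_lit 218) (nat_lit 5) (nat_lit 228) (nat_lit 5) (nat_lit 219) (nat_lit 5) (nat_lit 305) (nat_lit 266) (nat_lit 209)))) (XT.nd (nat_lit 156) (nat_lit 1216) (nat_lit 0) (XT.nd (nat_lit 78) (nat_lit 608) (nat_lit 0) (XT.lf (nat_lit 0) (nat_lit 3521282754) (nat_lit 684) (nat_lit 3424462708) (nat_lit 76) (nat_lit 3296311329) (nat_lit 210) (nat_lit 5) (nat_lit 219) (nat_lit 5) (nat_lit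 211) (nat_lit 5) (nat_lit 306) (nat_lit 266) (nat_lit 208)) (XT.lf (nat_lit 0) (nat_lit 4845367762) (nat_lit 608) (nat_lit 1968756350) (nat_lit 684) (nat_lit 3597461813) (nat_lit 202) (nat_lit 5) (nat_lit 210) (nat_lit 5) (nat_lit 211) (nat_lit 5) (nat_lit 307) (nat_lit 266) (nat_lit 207))) (XT.nd (nat_lit 78) (nat_lit 684) (nat_lit 0) (XT.lf (nat_lit 0) (nat_lit 2776839069) (nat_lit 532) (nat_lit 7438466894) (nat_lit 608) (nat_lit 370750156) (nat_lit 195) (nat_lit 5) (nat_lit 202) (nat_lit 5) (nat_lit 203) (nat_lit 5) (nat_lit 308) (nat_lit 266) (nat_lit 206)) (XT.lf (nat_lit 0) (nat_lit 593512300) (nat_lit 608) (nat_lit 2323914677) (nat_lit 684) (nat_lit 7847926275) (nat_lit 186) (nat_lit 5) (nat_lit 194) (nat_lit 5) (nat_lit 195) (nat_lit 5) (nat_lit 309) (nat_lit 266) (nat_lit 205))))))))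
noncomputable def xc63 : XT := (XT.nd (nat_lit 2028) (nat_lit 3572) (nat_lit 0) (XT.nd (nat_lit 1014) (nat_lit 3116) (nat_lit 0) (XT.nd (nat_lit 468) (nat_lit 2736) (nat_lit 0) (XT.nd (nat_lit 234) (nat_lit 1064) (nat_lit 0) (XT.nd (nat_lit 78) (nat_lit 1140) (nat_lit 0) (XT.lf (nat_lit 0) (nat_lit 6321051789) (nat_lit 684) (nat_lit 1678711026) (nat_lit 76) (nat_lit 2949823462) (nat_lit 186) (nat_lit 5) (nat_lit 195) (nat_lit 5) (nat_lit 187) (nat_lit 5) (nat_lit 310) (nat_lit 266) (nat_lit 204)) (XT.nd (nat_lit 78) (nat_lit 608) (nat_lit 0) (XT.lf (nat_lit 0) (nat_lit 7085420935) (nat_lit 532) (nat_lit 2753809329) (nat_lit 608) (nat_lit 1299908661) (nat_lit 179) (nat_lit 5) (nat_lit 186) (nat_lit 5) (nat_lit 187) (nat_lit 5) (nat_lit 311) (nat_lit 266) (nat_lit 203)) (XT.lf (nat_lit 0) (nat_lit 2112282545) (nat_lit 608) (nat_lit 6562399013) (nat_lit 76) (nat_lit 2659227259) (nat_lit 171) (nat_lit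 5) (nat_lit 179) (nat_lit 5) (nat_lit 172) (nat_lit 5) (nat_lit 312) (nat_lit 266) (nat_lit 202)))) (XT.nd (nat_lit 78) (nat_lit 608) (nat_lit 0) (XT.lf (nat_lit 0) (nat_lit 2325431884) (nat_lit 456) (nat_lit 3297535259) (nat_lit 532) (nat_lit 5911145429) (nat_lit 165) (nat_lit 5) (nat_lit 171) (nat_lit 5) (nat_lit 172) (nat_lit 5) (nat_lit 313) (nat_lit 266) (nat_lit 201)) (XT.nd (nat_lit 78) (nat_lit 608) (nat_lit 0) (XT.lf (nat_lit 0) (nat_lit 9251715639) (nat_lit 532) (nat_lit 245232155) (nat_lit 76) (nat_lit 2243157041) (nat_lit 165) (nat_lit 5) (nat_lit 172) (nat_lit 5) (nat_lit 166) (nat_lit 5) (nat_lit 314) (nat_lit 266) (nat_lit 200)) (XT.lf (nat_lit 0) (nat_lit 1059079577) (nat_lit 608) (nat_lit 2934058675) (nat_lit 76) (nat_lit 7958326799) (nat_lit 157) (nat_lit 5) (nat_lit 165) (nat_lit 5) (nat_lit 158) (nat_lit 5) (nat_lit 315) (nat_lit 266) (nat_lit 199))))) (XT.nd (nat_lit 234)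 (nat_lit 1368) (nat_lit 0) (XT.nd (nat_lit 78) (nat_lit 912) (nat_lit 0) (XT.lf (nat_lit 0) (nat_lit 4689174642) (nat_lit 532) (nat_lit 5779220501) (nat_lit 76) (nat_lit 1700276207) (nat_lit 151) (nat_lit 5) (nat_lit 158) (nat_lit 5) (nat_lit 152) (nat_lit 5) (nat_lit 316) (nat_lit 266) (nat_lit 198)) (XT.nd (nat_lit 78) (nat_lit 456) (nat_lit 0) (XT.lf (nat_lit 0) (nat_lit 3602797358) (nat_lit 456) (nat_lit 4851718371) (nat_lit 532) (nat_lit 3937384676) (nat_lit 145) (nat_lit 5) (nat_lit 151) (nat_lit 5) (nat_lit 152) (nat_lit 5) (nat_lit 317) (nat_lit 266) (nat_lit 197)) (XT.lf (nat_lit 0) (nat_lit 668490742) (nat_lit 456) (nat_lit 11671188534) (nat_lit 532) (nat_lit 282042270) (nat_lit 139) (nat_lit 5) (nat_lit 145) (nat_lit 5) (nat_lit 146) (nat_lit 5) (nat_lit 318) (nat_lit 266) (nat_lit 196)))) (XT.nd (nat_lit 156) (nat_lit 836) (nat_lit 0) (XT.nd (nat_lit 78) (nat_lit 456) (nat_lit 0) (XT.lf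 (nat_lit 0) (nat_lit 3487287760) (nat_lit 532) (nat_lit 2440525543) (nat_lit 76) (nat_lit 6929202500) (nat_lit 138) (nat_lit 5) (nat_lit 145) (nat_lit 5) (nat_lit 139) (nat_lit 5) (nat_lit 319) (nat_lit 266) (nat_lit 195)) (XT.lf (nat_lit 0) (nat_lit 7372907783) (nat_lit 532) (nat_lit 5702954294) (nat_lit 76) (nat_lit 23358680) (nat_lit 132) (nat_lit 5) (nat_lit 139) (nat_lit 5) (nat_lit 133) (nat_lit 5) (nat_lit 320) (nat_lit 266) (nat_lit 194))) (XT.nd (nat_lit 78) (nat_lit 456) (nat_lit 0) (XT.lf (nat_lit 0) (nat_lit 4172091595) (nat_lit 380) (nat_lit 7245967763) (nat_lit 456) (nat_lit 1929802365) (nat_lit 127) (nat_lit 5) (nat_lit 132) (nat_lit 5) (nat_lit 133) (nat_lit 5) (nat_lit 321) (nat_lit 266) (nat_lit 193)) (XT.lf (nat_lit 0) (nat_lit 759376790) (nat_lit 380) (nat_lit 1199196655) (nat_lit 456) (nat_lit 11645080086) (nat_lit 121) (nat_lit 5) (nat_lit 126) (nat_lit 5) (nat_lit 127) (nat_lit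 5) (nat_lit 322) (nat_lit 266) (nat_lit 192)))))) (XT.nd (nat_lit 468) (nat_lit 1596) (nat_lit 0) (XT.nd (nat_lit 234) (nat_lit 684) (nat_lit 0) (XT.nd (nat_lit 78) (nat_lit 836) (nat_lit 0) (XT.lf (nat_lit 0) (nat_lit 5993590729) (nat_lit 456) (nat_lit 2849198858) (nat_lit 76) (nat_lit 5022977126) (nat_lit 121) (nat_lit 5) (nat_lit 127) (nat_lit 5) (nat_lit 122) (nat_lit 5) (nat_lit 323) (nat_lit 266) (nat_lit 191)) (XT.nd (nat_lit 78) (nat_lit 456) (nat_lit 0) (XT.lf (nat_lit 0) (nat_lit 7481923868) (nat_lit 380) (nat_lit 2686291101) (nat_lit 456) (nat_lit 3967183320) (nat_lit 116) (nat_lit 5) (nat_lit 121) (nat_lit 5) (nat_lit 122) (nat_lit 5) (nat_lit 324) (nat_lit 266) (nat_lit 190)) (XT.lf (nat_lit 0) (nat_lit 84352894) (nat_lit 456) (nat_lit 10692624190) (nat_lit 76) (nat_lit 3635557168) (nat_lit 110) (nat_lit 5) (nat_lit 116) (nat_lit 5) (nat_lit 111) (nat_lit 5) (nat_lit 325) (nat_lit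 266) (nat_lit 189)))) (XT.nd (nat_lit 78) (nat_lit 684) (nat_lit 0) (XT.lf (nat_lit 0) (nat_lit 4230292299) (nat_lit 456) (nat_lit 299657754) (nat_lit 76) (nat_lit 10166998814) (nat_lit 110) (nat_lit 5) (nat_lit 116) (nat_lit 5) (nat_lit 111) (nat_lit 5) (nat_lit 326) (nat_lit 266) (nat_lit 188)) (XT.nd (nat_lit 78) (nat_lit 380) (nat_lit 0) (XT.lf (nat_lit 0) (nat_lit 8545610352) (nat_lit 380) (nat_lit 4511096427) (nat_lit 76) (nat_lit 1932312575) (nat_lit 106) (nat_lit 5) (nat_lit 111) (nat_lit 5) (nat_lit 107) (nat_lit 5) (nat_lit 327) (nat_lit 266) (nat_lit 187)) (XT.lf (nat_lit 0) (nat_lit 6293778641) (nat_lit 380) (nat_lit 6734594319) (nat_lit 456) (nat_lit 2260742053) (nat_lit 101) (nat_lit 5) (nat_lit 106) (nat_lit 5) (nat_lit 107) (nat_lit 5) (nat_lit 328) (nat_lit 266) (nat_lit 186))))) (XT.nd (nat_lit 234) (nat_lit 912) (nat_lit 0) (XT.nd (nat_lit 78) (nat_lit 304) (nat_lit 0) (XT.lf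 (nat_lit 0) (nat_lit 1846440701) (nat_lit 304) (nat_lit 182101155) (nat_lit 380) (nat_lit 13569267704) (nat_lit 96) (nat_lit 5) (nat_lit 100) (nat_lit 5) (nat_lit 101) (nat_lit 5) (nat_lit 329) (nat_lit 266) (nat_lit 185)) (XT.nd (nat_lit 78) (nat_lit 304) (nat_lit 0) (XT.lf (nat_lit 0) (nat_lit 6485770060) (nat_lit 380) (nat_lit 2887096813) (nat_lit 76) (nat_lit 6541220627) (nat_lit 96) (nat_lit 5) (nat_lit 101) (nat_lit 5) (nat_lit 97) (nat_lit 5) (nat_lit 330) (nat_lit 266) (nat_lit 184)) (XT.lf (nat_lit 0) (nat_lit 8362048304) (nat_lit 304) (nat_lit 2736981697) (nat_lit 380) (nat_lit 5140397897) (nat_lit 92) (nat_lit 5) (nat_lit 96) (nat_lit 5) (nat_lit 97) (nat_lit 5) (nat_lit 331) (nat_lit 266) (nat_lit 183)))) (XT.nd (nat_lit 156) (nat_lit 532) (nat_lit 0) (XT.nd (nat_lit 78) (nat_lit 76) (nat_lit 0) (XT.lf (nat_lit 0) (nat_lit 3382404393) (nat_lit 304) (nat_lit 12503895251) (nat_lit 380)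 (nat_lit 687536452) (nat_lit 88) (nat_lit 5) (nat_lit 92) (nat_lit 5) (nat_lit 93) (nat_lit 5) (nat_lit 332) (nat_lit 266) (nat_lit 182)) (XT.lf (nat_lit 0) (nat_lit 3887568533) (nat_lit 380) (nat_lit 1922289158) (nat_lit 76) (nat_lit 11107135578) (nat_lit 87) (nat_lit 5) (nat_lit 92) (nat_lit 5) (nat_lit 88) (nat_lit 5) (nat_lit 333) (nat_lit 266) (nat_lit 181))) (XT.nd (nat_lit 78) (nat_lit 228) (nat_lit 0) (XT.lf (nat_lit 0) (nat_lit 8630097733) (nat_lit 380) (nat_lit 7516267500) (nat_lit 76) (nat_lit 1123217114) (nat_lit 83) (nat_lit 5) (nat_lit 88) (nat_lit 5) (nat_lit 84) (nat_lit 5) (nat_lit 334) (nat_lit 266) (nat_lit 180)) (XT.lf (nat_lit 0) (nat_lit 4141133289) (nat_lit 228) (nat_lit 9421821513) (nat_lit 304) (nat_lit 4068851040) (nat_lit 80) (nat_lit 5) (nat_lit 83) (nat_lit 5) (nat_lit 84) (nat_lit 5) (nat_lit 335) (nat_lit 266) (nat_lit 179))))))) (XT.nd (nat_lit 1014) (nat_lit 1292)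 (nat_lit 0) (XT.nd (nat_lit 468) (nat_lit 1064) (nat_lit 0) (XT.nd (nat_lit 234) (nat_lit 608) (nat_lit 0) (XT.nd (nat_lit 78) (nat_lit 532) (nat_lit 0) (XT.lf (nat_lit 0) (nat_lit 651369971) (nat_lit 304) (nat_lit 1804127609) (nat_lit 76) (nat_lit 15548915475) (nat_lit 79) (nat_lit 5) (nat_lit 83) (nat_lit 5) (nat_lit 80) (nat_lit 5) (nat_lit 336) (nat_lit 266) (nat_lit 178)) (XT.nd (nat_lit 78) (nat_lit 228) (nat_lit 0) (XT.lf (nat_lit 0) (nat_lit 5526703909) (nat_lit 380) (nat_lit 8122798214) (nat_lit 76) (nat_lit 4736799175) (nat_lit 75) (nat_lit 5) (nat_lit 80) (nat_lit 5) (nat_lit 76) (nat_lit 5) (nat_lit 337) (nat_lit 266) (nat_lit 177)) (XT.lf (nat_lit 0) (nat_lit 3928180805) (nat_lit 228) (nat_lit 6645279240) (nat_lit 304) (nat_lit 8205698859) (nat_lit 72) (nat_lit 5) (nat_lit 75) (nat_lit 5) (nat_lit 76) (nat_lit 5) (nat_lit 338) (nat_lit 266) (nat_lit 176)))) (XT.nd (nat_lit 78) (nat_lit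 608) (nat_lit 0) (XT.lf (nat_lit 0) (nat_lit 15802104548) (nat_lit 304) (nat_lit 2779924322) (nat_lit 76) (nat_lit 601179145) (nat_lit 72) (nat_lit 5) (nat_lit 76) (nat_lit 5) (nat_lit 73) (nat_lit 5) (nat_lit 339) (nat_lit 266) (nat_lit 175)) (XT.nd (nat_lit 78) (nat_lit 228) (nat_lit 0) (XT.lf (nat_lit 0) (nat_lit 1647497470) (nat_lit 380) (nat_lit 9916431692) (nat_lit 76) (nat_lit 8033655998) (nat_lit 67) (nat_lit 5) (nat_lit 72) (nat_lit 5) (nat_lit 68) (nat_lit 5) (nat_lit 340) (nat_lit 266) (nat_lit 174)) (XT.lf (nat_lit 0) (nat_lit 2496711072) (nat_lit 228) (nat_lit 4292296205) (nat_lit 304) (nat_lit 13234793942) (nat_lit 64) (nat_lit 5) (nat_lit 67) (nat_lit 5) (nat_lit 68) (nat_lit 5) (nat_lit 341) (nat_lit 266) (nat_lit 173))))) (XT.nd (nat_lit 234) (nat_lit 760) (nat_lit 0) (XT.nd (nat_lit 78) (nat_lit 304) (nat_lit 0) (XT.lf (nat_lit 0) (nat_lit 12146136580) (nat_lit 304) (nat_lit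 5107822031) (nat_lit 76) (nat_lit 3207631564) (nat_lit 64) (nat_lit 5) (nat_lit 68) (nat_lit 5) (nat_lit 65) (nat_lit 5) (nat_lit 342) (nat_lit 266) (nat_lit 172)) (XT.nd (nat_lit 78) (nat_lit 76) (nat_lit 0) (XT.lf (nat_lit 0) (nat_lit 7714611950) (nat_lit 228) (nat_lit 10001920016) (nat_lit 304) (nat_lit 3194943286) (nat_lit 61) (nat_lit 5) (nat_lit 64) (nat_lit 5) (nat_lit 65) (nat_lit 5) (nat_lit 343) (nat_lit 266) (nat_lit 171)) (XT.lf (nat_lit 0) (nat_lit 2060827585) (nat_lit 304) (nat_lit 437821729) (nat_lit 76) (nat_lit 18875772142) (nat_lit 60) (nat_lit 5) (nat_lit 64) (nat_lit 5) (nat_lit 61) (nat_lit 5) (nat_lit 344) (nat_lit 266) (nat_lit 170)))) (XT.nd (nat_lit 156) (nat_lit 304) (nat_lit 0) (XT.nd (nat_lit 78) (nat_lit 228) (nat_lit 0) (XT.lf (nat_lit 0) (nat_lit 7523661485) (nat_lit 304) (nat_lit 9073948972) (nat_lit 76) (nat_lit 5251379756) (nat_lit 57) (nat_lit 5) (nat_lit 61)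 (nat_lit 5) (nat_lit 58) (nat_lit 5) (nat_lit 345) (nat_lit 266) (nat_lit 169)) (XT.lf (nat_lit 0) (nat_lit 4048810617) (nat_lit 228) (nat_lit 9122759239) (nat_lit 304) (nat_lit 9165814496) (nat_lit 54) (nat_lit 5) (nat_lit 57) (nat_lit 5) (nat_lit 58) (nat_lit 5) (nat_lit 346) (nat_lit 266) (nat_lit 168))) (XT.nd (nat_lit 78) (nat_lit 304) (nat_lit 0) (XT.lf (nat_lit 0) (nat_lit 17650001921) (nat_lit 228) (nat_lit 1376073332) (nat_lit 304) (nat_lit 3813623622) (nat_lit 54) (nat_lit 5) (nat_lit 57) (nat_lit 5) (nat_lit 58) (nat_lit 5) (nat_lit 347) (nat_lit 266) (nat_lit 167)) (XT.lf (nat_lit 0) (nat_lit 1750561257) (nat_lit 304) (nat_lit 15037320099) (nat_lit 76) (nat_lit 6567517775) (nat_lit 50) (nat_lit 5) (nat_lit 54) (nat_lit 5) (nat_lit 51) (nat_lit 5) (nat_lit 348) (nat_lit 266) (nat_lit 166)))))) (XT.nd (nat_lit 546) (nat_lit 456) (nat_lit 0) (XT.nd (nat_lit 234) (nat_lit 456) (nat_lit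 0) (XT.nd (nat_lit 78) (nat_lit 380) (nat_lit 0) (XT.lf (nat_lit 0) (nat_lit 7451320731) (nat_lit 304) (nat_lit 1657070523) (nat_lit 76) (nat_lit 14777256618) (nat_lit 50) (nat_lit 5) (nat_lit 54) (nat_lit 5) (nat_lit 51) (nat_lit 5) (nat_lit 349) (nat_lit 266) (nat_lit 165)) (XT.nd (nat_lit 78) (nat_lit 152) (nat_lit 0) (XT.lf (nat_lit 0) (nat_lit 12247948290) (nat_lit 228) (nat_lit 1131922685) (nat_lit 304) (nat_lit 11050808289) (nat_lit 47) (nat_lit 5) (nat_lit 50) (nat_lit 5) (nat_lit 51) (nat_lit 5) (nat_lit 350) (nat_lit 266) (nat_lit 164)) (XT.lf (nat_lit 0) (nat_lit 1538035833) (nat_lit 152) (nat_lit 17993101774) (nat_lit 228) (nat_lit 5460037032) (nat_lit 45) (nat_lit 5) (nat_lit 47) (nat_lit 5) (nat_lit 48) (nat_lit 5) (nat_lit 351) (nat_lit 266) (nat_lit 163)))) (XT.nd (nat_lit 156) (nat_lit 152) (nat_lit 0) (XT.nd (nat_lit 78) (nat_lit 228) (nat_lit 0) (XT.lf (nat_lit 0) (nat_lit 363052206)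 (nat_lit 228) (nat_lit 9776437964) (nat_lit 76) (nat_lit 15427595513) (nat_lit 44) (nat_lit 5) (nat_lit 47) (nat_lit 5) (nat_lit 45) (nat_lit 5) (nat_lit 352) (nat_lit 266) (nat_lit 162)) (XT.lf (nat_lit 0) (nat_lit 4294711280) (nat_lit 228) (nat_lit 1998733527) (nat_lit 304) (nat_lit 19865981073) (nat_lit 41) (nat_lit 5) (nat_lit 44) (nat_lit 5) (nat_lit 45) (nat_lit 5) (nat_lit 353) (nat_lit 266) (nat_lit 161))) (XT.nd (nat_lit 78) (nat_lit 152) (nat_lit 0) (XT.lf (nat_lit 0) (nat_lit 12488692287) (nat_lit 304) (nat_lit 7923724419) (nat_lit 76) (nat_lit 6355389903) (nat_lit 41) (nat_lit 5) (nat_lit 45) (nat_lit 5) (nat_lit 42) (nat_lit 5) (nat_lit 354) (nat_lit 266) (nat_lit 160)) (XT.lf (nat_lit 0) (nat_lit 6472623473) (nat_lit 152) (nat_lit 12431974789) (nat_lit 228) (nat_lit 8489153395) (nat_lit 39) (nat_lit 5) (nat_lit 41) (nat_lit 5) (nat_lit 42) (nat_lit 5) (nat_lit 355) (nat_lit 266)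 (nat_lit 159))))) (XT.nd (nat_lit 234) (nat_lit 152) (nat_lit 0) (XT.nd (nat_lit 78) (nat_lit 304) (nat_lit 0) (XT.lf (nat_lit 0) (nat_lit 21375485817) (nat_lit 152) (nat_lit 4170979364) (nat_lit 228) (nat_lit 2491348862) (nat_lit 39) (nat_lit 5) (nat_lit 41) (nat_lit 5) (nat_lit 42) (nat_lit 5) (nat_lit 356) (nat_lit 266) (nat_lit 158)) (XT.nd (nat_lit 78) (nat_lit 0) (nat_lit 0) (XT.lf (nat_lit 0) (nat_lit 3699281335) (nat_lit 304) (nat_lit 20655599379) (nat_lit 76) (nat_lit 4344622354) (nat_lit 35) (nat_lit 5) (nat_lit 39) (nat_lit 5) (nat_lit 36) (nat_lit 5) (nat_lit 357) (nat_lit 266) (nat_lit 157)) (XT.lf (nat_lit 0) (nat_lit 10095832746) (nat_lit 304) (nat_lit 6175370572) (nat_lit 76) (nat_lit 13108437094) (nat_lit 35) (nat_lit 5) (nat_lit 39) (nat_lit 5) (nat_lit 36) (nat_lit 5) (nat_lit 358) (nat_lit 266) (nat_lit 156)))) (XT.nd (nat_lit 33462) (nat_lit 0) (nat_lit 39596) (XT.nd (nat_lit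 78) (nat_lit 0) (nat_lit 0) (XT.lf (nat_lit 0) (nat_lit 8823043651) (nat_lit 152) (nat_lit 7899608334) (nat_lit 228) (nat_lit 13356770234) (nat_lit 33) (nat_lit 5) (nat_lit 35) (nat_lit 5) (nat_lit 36) (nat_lit 5) (nat_lit 359) (nat_lit 266) (nat_lit 155)) (XT.lf (nat_lit 0) (nat_lit 23576443942) (nat_lit 228) (nat_lit 6480107546) (nat_lit 76) (nat_lit 743090172) (nat_lit 33) (nat_lit 5) (nat_lit 36) (nat_lit 5) (nat_lit 34) (nat_lit 5) (nat_lit 360) (nat_lit 266) (nat_lit 154))) (XT.nd (nat_lit 78) (nat_lit 0) (nat_lit 0) (XT.lf (nat_lit 0) (nat_lit 132559220) (nat_lit 0) (nat_lit 132559220) (nat_lit 684) (nat_lit 3063942692) (nat_lit 554) (nat_lit 5) (nat_lit 554) (nat_lit 3) (nat_lit 563) (nat_lit 3) (nat_lit 267) (nat_lit 267) (nat_lit 246)) (XT.lf (nat_lit 0) (nat_lit 3694655506) (nat_lit 684) (nat_lit 1868710711) (nat_lit 760) (nat_lit 1126686350) (nat_lit 554) (nat_lit 5) (nat_lit 563)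 (nat_lit 3) (nat_lit 564) (nat_lit 5) (nat_lit 268) (nat_lit 267) (nat_lit 245))))))))
noncomputable def xc64 : XT := (XT.nd (nat_lit 2028) (nat_lit 13300) (nat_lit 0) (XT.nd (nat_lit 1014) (nat_lit 13376) (nat_lit 0) (XT.nd (nat_lit 468) (nat_lit 2964) (nat_lit 0) (XT.nd (nat_lit 234) (nat_lit 1672) (nat_lit 0) (XT.nd (nat_lit 78) (nat_lit 0) (nat_lit 0) (XT.lf (nat_lit 0) (nat_lit 124370445) (nat_lit 760) (nat_lit 3964744267) (nat_lit 836) (nat_lit 2636053485) (nat_lit 544) (nat_lit 5) (nat_lit 554) (nat_lit 5) (nat_lit 555) (nat_lit 5) (nat_lit 269) (nat_lit 267) (nat_lit 244)) (XT.nd (nat_lit 78) (nat_lit 0) (nat_lit 0) (XT.lf (nat_lit 76) (nat_lit 716990385) (nat_lit 0) (nat_lit 2477364834) (nat_lit 836) (nat_lit 3568818450) (nat_lit 545) (nat_lit 5) (nat_lit 544) (nat_lit 5) (nat_lit 555) (nat_lit 5) (nat_lit 270) (nat_lit 267) (nat_lit 243)) (XT.lf (nat_lit 76) (nat_lit 5529279885) (nat_lit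 0) (nat_lit 736799644) (nat_lit 836) (nat_lit 538220532) (nat_lit 545) (nat_lit 5) (nat_lit 544) (nat_lit 5) (nat_lit 555) (nat_lit 5) (nat_lit 271) (nat_lit 267) (nat_lit 242)))) (XT.nd (nat_lit 78) (nat_lit 912) (nat_lit 0) (XT.lf (nat_lit 0) (nat_lit 2465545936) (nat_lit 836) (nat_lit 3249960166) (nat_lit 912) (nat_lit 1132661270) (nat_lit 534) (nat_lit 5) (nat_lit 545) (nat_lit 5) (nat_lit 546) (nat_lit 5) (nat_lit 272) (nat_lit 267) (nat_lit 241)) (XT.nd (nat_lit 78) (nat_lit 912) (nat_lit 0) (XT.lf (nat_lit 76) (nat_lit 1689821040) (nat_lit 0) (nat_lit 3775447772) (nat_lit 912) (nat_lit 1429908010) (nat_lit 535) (nat_lit 5) (nat_lit 534) (nat_lit 5) (nat_lit 546) (nat_lit 5) (nat_lit 273) (nat_lit 267) (nat_lit 240)) (XT.lf (nat_lit 0) (nat_lit 1502894324) (nat_lit 912) (nat_lit 197689004) (nat_lit 988) (nat_lit 5244703821) (nat_lit 522) (nat_lit 5) (nat_lit 534) (nat_lit 5) (nat_lit 535)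 (nat_lit 5) (nat_lit 274) (nat_lit 267) (nat_lit 239))))) (XT.nd (nat_lit 234) (nat_lit 2052) (nat_lit 0) (XT.nd (nat_lit 78) (nat_lit 988) (nat_lit 0) (XT.lf (nat_lit 0) (nat_lit 4433557946) (nat_lit 912) (nat_lit 2050420654) (nat_lit 988) (nat_lit 514295285) (nat_lit 523) (nat_lit 5) (nat_lit 535) (nat_lit 5) (nat_lit 536) (nat_lit 5) (nat_lit 275) (nat_lit 267) (nat_lit 238)) (XT.nd (nat_lit 78) (nat_lit 0) (nat_lit 0) (XT.lf (nat_lit 0) (nat_lit 323310624) (nat_lit 988) (nat_lit 3894505242) (nat_lit 1064) (nat_lit 2836538460) (nat_lit 510) (nat_lit 5) (nat_lit 523) (nat_lit 5) (nat_lit 524) (nat_lit 5) (nat_lit 276) (nat_lit 267) (nat_lit 237)) (XT.lf (nat_lit 76) (nat_lit 1377339028) (nat_lit 0) (nat_lit 1807319915) (nat_lit 1064) (nat_lit 3928825641) (nat_lit 511) (nat_lit 5) (nat_lit 510) (nat_lit 5) (nat_lit 524) (nat_lit 5) (nat_lit 277) (nat_lit 267) (nat_lit 236)))) (XT.nd (nat_lit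 156) (nat_lit 1064) (nat_lit 0) (XT.nd (nat_lit 78) (nat_lit 1064) (nat_lit 0) (XT.lf (nat_lit 0) (nat_lit 6063954097) (nat_lit 988) (nat_lit 385172009) (nat_lit 1064) (nat_lit 726753494) (nat_lit 511) (nat_lit 5) (nat_lit 524) (nat_lit 5) (nat_lit 525) (nat_lit 5) (nat_lit 278) (nat_lit 267) (nat_lit 235)) (XT.lf (nat_lit 0) (nat_lit 1714885983) (nat_lit 1064) (nat_lit 2136665315) (nat_lit 1140) (nat_lit 3389511898) (nat_lit 497) (nat_lit 5) (nat_lit 511) (nat_lit 5) (nat_lit 512) (nat_lit 5) (nat_lit 279) (nat_lit 267) (nat_lit 234))) (XT.nd (nat_lit 78) (nat_lit 1064) (nat_lit 0) (XT.lf (nat_lit 76) (nat_lit 3427526818) (nat_lit 0) (nat_lit 1114503628) (nat_lit 1140) (nat_lit 2767535036) (nat_lit 498) (nat_lit 5) (nat_lit 497) (nat_lit 5) (nat_lit 512) (nat_lit 5) (nat_lit 280) (nat_lit 267) (nat_lit 233)) (XT.lf (nat_lit 0) (nat_lit 17614465) (nat_lit 1140) (nat_lit 5628387192) (nat_lit 76)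 (nat_lit 1735334218) (nat_lit 483) (nat_lit 5) (nat_lit 498) (nat_lit 5) (nat_lit 484) (nat_lit 5) (nat_lit 281) (nat_lit 267) (nat_lit 232)))))) (XT.nd (nat_lit 468) (nat_lit 8208) (nat_lit 0) (XT.nd (nat_lit 234) (nat_lit 2736) (nat_lit 0) (XT.nd (nat_lit 78) (nat_lit 1292) (nat_lit 0) (XT.lf (nat_lit 0) (nat_lit 63032829) (nat_lit 1140) (nat_lit 2729955852) (nat_lit 1216) (nat_lit 4663132989) (nat_lit 468) (nat_lit 5) (nat_lit 483) (nat_lit 5) (nat_lit 484) (nat_lit 5) (nat_lit 282) (nat_lit 267) (nat_lit 231)) (XT.nd (nat_lit 78) (nat_lit 1292) (nat_lit 0) (XT.lf (nat_lit 0) (nat_lit 5603851021) (nat_lit 1216) (nat_lit 1600156218) (nat_lit 76) (nat_lit 330209515) (nat_lit 468) (nat_lit 5) (nat_lit 484) (nat_lit 5) (nat_lit 469) (nat_lit 5) (nat_lit 283) (nat_lit 267) (nat_lit 230)) (XT.lf (nat_lit 0) (nat_lit 833471395) (nat_lit 1292) (nat_lit 3281803475) (nat_lit 76) (nat_lit 3500156209)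 (nat_lit 451) (nat_lit 5) (nat_lit 468) (nat_lit 5) (nat_lit 452) (nat_lit 5) (nat_lit 284) (nat_lit 267) (nat_lit 229)))) (XT.nd (nat_lit 78) (nat_lit 1444) (nat_lit 0) (XT.lf (nat_lit 0) (nat_lit 2725077977) (nat_lit 1292) (nat_lit 873707768) (nat_lit 1368) (nat_lit 4101247017) (nat_lit 434) (nat_lit 5) (nat_lit 451) (nat_lit 5) (nat_lit 452) (nat_lit 5) (nat_lit 285) (nat_lit 267) (nat_lit 228)) (XT.nd (nat_lit 78) (nat_lit 76) (nat_lit 0) (XT.lf (nat_lit 0) (nat_lit 1101738764) (nat_lit 1368) (nat_lit 5309028414) (nat_lit 1444) (nat_lit 1377230083) (nat_lit 416) (nat_lit 5) (nat_lit 434) (nat_lit 5) (nat_lit 435) (nat_lit 5) (nat_lit 286) (nat_lit 267) (nat_lit 227)) (XT.lf (nat_lit 0) (nat_lit 1369046105) (nat_lit 1444) (nat_lit 531433007) (nat_lit 76) (nat_lit 5978844766) (nat_lit 415) (nat_lit 5) (nat_lit 434) (nat_lit 5) (nat_lit 416) (nat_lit 5) (nat_lit 287) (nat_lit 267) (nat_lit 226)))))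 (XT.nd (nat_lit 234) (nat_lit 3572) (nat_lit 0) (XT.nd (nat_lit 78) (nat_lit 3192) (nat_lit 0) (XT.lf (nat_lit 0) (nat_lit 4149520259) (nat_lit 1520) (nat_lit 2174976795) (nat_lit 76) (nat_lit 1649392164) (nat_lit 396) (nat_lit 5) (nat_lit 416) (nat_lit 5) (nat_lit 397) (nat_lit 5) (nat_lit 288) (nat_lit 267) (nat_lit 225)) (XT.nd (nat_lit 78) (nat_lit 1672) (nat_lit 0) (XT.lf (nat_lit 0) (nat_lit 4232312731) (nat_lit 1520) (nat_lit 2748690838) (nat_lit 1596) (nat_lit 1091024799) (nat_lit 376) (nat_lit 5) (nat_lit 396) (nat_lit 5) (nat_lit 397) (nat_lit 5) (nat_lit 289) (nat_lit 267) (nat_lit 224)) (XT.lf (nat_lit 0) (nat_lit 1665140985) (nat_lit 1672) (nat_lit 5533753553) (nat_lit 76) (nat_lit 974809002) (nat_lit 354) (nat_lit 5) (nat_lit 376) (nat_lit 5) (nat_lit 355) (nat_lit 5) (nat_lit 290) (nat_lit 267) (nat_lit 223)))) (XT.nd (nat_lit 156) (nat_lit 1900) (nat_lit 0) (XT.nd (nat_lit 78)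 (nat_lit 0) (nat_lit 0) (XT.lf (nat_lit 0) (nat_lit 1009812612) (nat_lit 1672) (nat_lit 3457395048) (nat_lit 1748) (nat_lit 3811598315) (nat_lit 332) (nat_lit 5) (nat_lit 354) (nat_lit 5) (nat_lit 355) (nat_lit 5) (nat_lit 291) (nat_lit 267) (nat_lit 222)) (XT.lf (nat_lit 0) (nat_lit 7322230324) (nat_lit 1748) (nat_lit 630412549) (nat_lit 76) (nat_lit 435120357) (nat_lit 332) (nat_lit 5) (nat_lit 355) (nat_lit 5) (nat_lit 333) (nat_lit 5) (nat_lit 292) (nat_lit 267) (nat_lit 221))) (XT.nd (nat_lit 78) (nat_lit 836) (nat_lit 0) (XT.lf (nat_lit 0) (nat_lit 1733712507) (nat_lit 1064) (nat_lit 2310832107) (nat_lit 76) (nat_lit 4455413078) (nat_lit 318) (nat_lit 5) (nat_lit 332) (nat_lit 5) (nat_lit 319) (nat_lit 5) (nat_lit 293) (nat_lit 267) (nat_lit 220)) (XT.lf (nat_lit 0) (nat_lit 4568583703) (nat_lit 912) (nat_lit 4021447342) (nat_lit 76) (nat_lit 26097169) (nat_lit 307) (nat_lit 5) (nat_lit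 319) (nat_lit 5) (nat_lit 308) (nat_lit 5) (nat_lit 294) (nat_lit 267) (nat_lit 219))))))) (XT.nd (nat_lit 1014) (nat_lit 5928) (nat_lit 0) (XT.nd (nat_lit 468) (nat_lit 3420) (nat_lit 0) (XT.nd (nat_lit 234) (nat_lit 2280) (nat_lit 0) (XT.nd (nat_lit 78) (nat_lit 836) (nat_lit 0) (XT.lf (nat_lit 0) (nat_lit 2949983673) (nat_lit 836) (nat_lit 4533813207) (nat_lit 912) (nat_lit 1252152494) (nat_lit 296) (nat_lit 5) (nat_lit 307) (nat_lit 5) (nat_lit 308) (nat_lit 5) (nat_lit 295) (nat_lit 267) (nat_lit 218)) (XT.nd (nat_lit 78) (nat_lit 0) (nat_lit 0) (XT.lf (nat_lit 0) (nat_lit 1267706454) (nat_lit 760) (nat_lit 308075538) (nat_lit 836) (nat_lit 7284039484) (nat_lit 285) (nat_lit 5) (nat_lit 295) (nat_lit 5) (nat_lit 296) (nat_lit 5) (nat_lit 296) (nat_lit 267) (nat_lit 217)) (XT.lf (nat_lit 0) (nat_lit 4473223085) (nat_lit 836) (nat_lit 474585413) (nat_lit 76) (nat_lit 4039468118) (nat_lit 285)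 (nat_lit 5) (nat_lit 296) (nat_lit 5) (nat_lit 286) (nat_lit 5) (nat_lit 297) (nat_lit 267) (nat_lit 216)))) (XT.nd (nat_lit 78) (nat_lit 1520) (nat_lit 0) (XT.lf (nat_lit 0) (nat_lit 6881304726) (nat_lit 760) (nat_lit 560746264) (nat_lit 836) (nat_lit 1676879246) (nat_lit 275) (nat_lit 5) (nat_lit 285) (nat_lit 5) (nat_lit 286) (nat_lit 5) (nat_lit 298) (nat_lit 267) (nat_lit 215)) (XT.nd (nat_lit 78) (nat_lit 760) (nat_lit 0) (XT.lf (nat_lit 0) (nat_lit 1230774445) (nat_lit 760) (nat_lit 4074025119) (nat_lit 76) (nat_lit 3949599231) (nat_lit 265) (nat_lit 5) (nat_lit 275) (nat_lit 5) (nat_lit 266) (nat_lit 5) (nat_lit 299) (nat_lit 267) (nat_lit 214)) (XT.lf (nat_lit 0) (nat_lit 3424338892) (nat_lit 760) (nat_lit 759950960) (nat_lit 836) (nat_lit 5209850819) (nat_lit 255) (nat_lit 5) (nat_lit 265) (nat_lit 5) (nat_lit 266) (nat_lit 5) (nat_lit 300) (nat_lit 267) (nat_lit 213))))) (XT.nd (nat_lit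 234) (nat_lit 1976) (nat_lit 0) (XT.nd (nat_lit 78) (nat_lit 760) (nat_lit 0) (XT.lf (nat_lit 0) (nat_lit 1597610192) (nat_lit 684) (nat_lit 5633777320) (nat_lit 760) (nat_lit 2306645264) (nat_lit 246) (nat_lit 5) (nat_lit 255) (nat_lit 5) (nat_lit 256) (nat_lit 5) (nat_lit 301) (nat_lit 267) (nat_lit 212)) (XT.nd (nat_lit 78) (nat_lit 684) (nat_lit 0) (XT.lf (nat_lit 0) (nat_lit 662715529) (nat_lit 760) (nat_lit 284849698) (nat_lit 76) (nat_lit 8738881871) (nat_lit 245) (nat_lit 5) (nat_lit 255) (nat_lit 5) (nat_lit 246) (nat_lit 5) (nat_lit 302) (nat_lit 267) (nat_lit 211)) (XT.lf (nat_lit 0) (nat_lit 3708979762) (nat_lit 760) (nat_lit 2241366639) (nat_lit 76) (nat_lit 3888332437) (nat_lit 236) (nat_lit 5) (nat_lit 246) (nat_lit 5) (nat_lit 237) (nat_lit 5) (nat_lit 303) (nat_lit 267) (nat_lit 210)))) (XT.nd (nat_lit 156) (nat_lit 684) (nat_lit 0) (XT.nd (nat_lit 78) (nat_lit 684) (nat_lit 0)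 (XT.lf (nat_lit 0) (nat_lit 5731564547) (nat_lit 608) (nat_lit 1105669015) (nat_lit 684) (nat_lit 3158483530) (nat_lit 228) (nat_lit 5) (nat_lit 236) (nat_lit 5) (nat_lit 237) (nat_lit 5) (nat_lit 304) (nat_lit 267) (nat_lit 209)) (XT.lf (nat_lit 0) (nat_lit 3779718694) (nat_lit 684) (nat_lit 6290933716) (nat_lit 760) (nat_lit 86637828) (nat_lit 219) (nat_lit 5) (nat_lit 228) (nat_lit 5) (nat_lit 229) (nat_lit 5) (nat_lit 305) (nat_lit 267) (nat_lit 208))) (XT.nd (nat_lit 78) (nat_lit 0) (nat_lit 0) (XT.lf (nat_lit 0) (nat_lit 1733831911) (nat_lit 608) (nat_lit 1297952085) (nat_lit 684) (nat_lit 7291679037) (nat_lit 210) (nat_lit 5) (nat_lit 218) (nat_lit 5) (nat_lit 219) (nat_lit 5) (nat_lit 306) (nat_lit 267) (nat_lit 207)) (XT.lf (nat_lit 0) (nat_lit 6259190278) (nat_lit 684) (nat_lit 405222954) (nat_lit 76) (nat_lit 3829910440) (nat_lit 210) (nat_lit 5) (nat_lit 219) (nat_lit 5) (nat_lit 211)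 (nat_lit 5) (nat_lit 307) (nat_lit 267) (nat_lit 206)))))) (XT.nd (nat_lit 468) (nat_lit 2964) (nat_lit 0) (XT.nd (nat_lit 234) (nat_lit 1140) (nat_lit 0) (XT.nd (nat_lit 78) (nat_lit 1216) (nat_lit 0) (XT.lf (nat_lit 0) (nat_lit 8062052117) (nat_lit 608) (nat_lit 1532037797) (nat_lit 684) (nat_lit 1076051736) (nat_lit 202) (nat_lit 5) (nat_lit 210) (nat_lit 5) (nat_lit 211) (nat_lit 5) (nat_lit 308) (nat_lit 267) (nat_lit 205)) (XT.nd (nat_lit 78) (nat_lit 608) (nat_lit 0) (XT.lf (nat_lit 0) (nat_lit 2165625776) (nat_lit 608) (nat_lit 4933807508) (nat_lit 76) (nat_lit 3751233154) (nat_lit 194) (nat_lit 5) (nat_lit 202) (nat_lit 5) (nat_lit 195) (nat_lit 5) (nat_lit 309) (nat_lit 267) (nat_lit 204)) (XT.lf (nat_lit 0) (nat_lit 3668113616) (nat_lit 608) (nat_lit 1825119917) (nat_lit 684) (nat_lit 5543206729) (nat_lit 186) (nat_lit 5) (nat_lit 194) (nat_lit 5) (nat_lit 195) (nat_lit 5) (nat_lit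 310) (nat_lit 267) (nat_lit 203)))) (XT.nd (nat_lit 78) (nat_lit 608) (nat_lit 0) (XT.lf (nat_lit 0) (nat_lit 1302552973) (nat_lit 532) (nat_lit 7635980518) (nat_lit 608) (nat_lit 2288936853) (nat_lit 179) (nat_lit 5) (nat_lit 186) (nat_lit 5) (nat_lit 187) (nat_lit 5) (nat_lit 311) (nat_lit 267) (nat_lit 202)) (XT.nd (nat_lit 78) (nat_lit 532) (nat_lit 0) (XT.lf (nat_lit 0) (nat_lit 1064478453) (nat_lit 608) (nat_lit 1167347413) (nat_lit 76) (nat_lit 9191996648) (nat_lit 178) (nat_lit 5) (nat_lit 186) (nat_lit 5) (nat_lit 179) (nat_lit 5) (nat_lit 312) (nat_lit 267) (nat_lit 201)) (XT.lf (nat_lit 0) (nat_lit 4515136695) (nat_lit 608) (nat_lit 3764034662) (nat_lit 76) (nat_lit 3346073795) (nat_lit 171) (nat_lit 5) (nat_lit 179) (nat_lit 5) (nat_lit 172) (nat_lit 5) (nat_lit 313) (nat_lit 267) (nat_lit 200))))) (XT.nd (nat_lit 234) (nat_lit 1900) (nat_lit 0) (XT.nd (nat_lit 78) (nat_lit 608) (nat_lit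 0) (XT.lf (nat_lit 0) (nat_lit 5341837011) (nat_lit 456) (nat_lit 2740296016) (nat_lit 532) (nat_lit 3750357253) (nat_lit 165) (nat_lit 5) (nat_lit 171) (nat_lit 5) (nat_lit 172) (nat_lit 5) (nat_lit 314) (nat_lit 267) (nat_lit 199)) (XT.nd (nat_lit 78) (nat_lit 76) (nat_lit 0) (XT.lf (nat_lit 0) (nat_lit 2685572036) (nat_lit 532) (nat_lit 9089031713) (nat_lit 608) (nat_lit 271014846) (nat_lit 158) (nat_lit 5) (nat_lit 165) (nat_lit 5) (nat_lit 166) (nat_lit 5) (nat_lit 315) (nat_lit 267) (nat_lit 198)) (XT.lf (nat_lit 0) (nat_lit 3288559215) (nat_lit 608) (nat_lit 135334614) (nat_lit 76) (nat_lit 8840464234) (nat_lit 157) (nat_lit 5) (nat_lit 165) (nat_lit 5) (nat_lit 158) (nat_lit 5) (nat_lit 316) (nat_lit 267) (nat_lit 197)))) (XT.nd (nat_lit 156) (nat_lit 988) (nat_lit 0) (XT.nd (nat_lit 78) (nat_lit 456) (nat_lit 0) (XT.lf (nat_lit 0) (nat_lit 6986450335) (nat_lit 532) (nat_lit 3072460748)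 (nat_lit 76) (nat_lit 2430041025) (nat_lit 151) (nat_lit 5) (nat_lit 158) (nat_lit 5) (nat_lit 152) (nat_lit 5) (nat_lit 317) (nat_lit 267) (nat_lit 196)) (XT.lf (nat_lit 0) (nat_lit 6544290856) (nat_lit 456) (nat_lit 4276043568) (nat_lit 532) (nat_lit 1899479938) (nat_lit 145) (nat_lit 5) (nat_lit 151) (nat_lit 5) (nat_lit 152) (nat_lit 5) (nat_lit 318) (nat_lit 267) (nat_lit 195))) (XT.nd (nat_lit 78) (nat_lit 456) (nat_lit 0) (XT.lf (nat_lit 0) (nat_lit 1802128738) (nat_lit 532) (nat_lit 9454693961) (nat_lit 76) (nat_lit 1700289412) (nat_lit 138) (nat_lit 5) (nat_lit 145) (nat_lit 5) (nat_lit 139) (nat_lit 5) (nat_lit 319) (nat_lit 267) (nat_lit 194)) (XT.lf (nat_lit 0) (nat_lit 261777016) (nat_lit 456) (nat_lit 5359811793) (nat_lit 532) (nat_lit 7579065800) (nat_lit 132) (nat_lit 5) (nat_lit 138) (nat_lit 5) (nat_lit 139) (nat_lit 5) (nat_lit 320) (nat_lit 267) (nat_lit 193))))))))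
noncomputable def xc65 : XT := (XT.nd (nat_lit 2028) (nat_lit 1672) (nat_lit 0) (XT.nd (nat_lit 1014) (nat_lit 2280) (nat_lit 0) (XT.nd (nat_lit 468) (nat_lit 1748) (nat_lit 0) (XT.nd (nat_lit 234) (nat_lit 836) (nat_lit 0) (XT.nd (nat_lit 78) (nat_lit 836) (nat_lit 0) (XT.lf (nat_lit 0) (nat_lit 9585524310) (nat_lit 532) (nat_lit 3110571985) (nat_lit 76) (nat_lit 754837529) (nat_lit 132) (nat_lit 5) (nat_lit 139) (nat_lit 5) (nat_lit 133) (nat_lit 5) (nat_lit 321) (nat_lit 267) (nat_lit 192)) (XT.nd (nat_lit 78) (nat_lit 380) (nat_lit 0) (XT.lf (nat_lit 0) (nat_lit 3746199) (nat_lit 456) (nat_lit 6692016245) (nat_lit 76) (nat_lit 7012119909) (nat_lit 126) (nat_lit 5) (nat_lit 132) (nat_lit 5) (nat_lit 127) (nat_lit 5) (nat_lit 322) (nat_lit 267) (nat_lit 191)) (XT.lf (nat_lit 0) (nat_lit 3483727078) (nat_lit 380) (nat_lit 459273696) (nat_lit 456) (nat_lit 10028922885) (nat_lit 121) (nat_lit 5)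 (nat_lit 126) (nat_lit 5) (nat_lit 127) (nat_lit 5) (nat_lit 323) (nat_lit 267) (nat_lit 190)))) (XT.nd (nat_lit 78) (nat_lit 836) (nat_lit 0) (XT.lf (nat_lit 0) (nat_lit 8047872019) (nat_lit 456) (nat_lit 278004132) (nat_lit 76) (nat_lit 5917086639) (nat_lit 121) (nat_lit 5) (nat_lit 127) (nat_lit 5) (nat_lit 122) (nat_lit 5) (nat_lit 324) (nat_lit 267) (nat_lit 189)) (XT.nd (nat_lit 78) (nat_lit 456) (nat_lit 0) (XT.lf (nat_lit 0) (nat_lit 10319950949) (nat_lit 380) (nat_lit 1990156745) (nat_lit 456) (nat_lit 2211365664) (nat_lit 116) (nat_lit 5) (nat_lit 121) (nat_lit 5) (nat_lit 122) (nat_lit 5) (nat_lit 325) (nat_lit 267) (nat_lit 188)) (XT.lf (nat_lit 0) (nat_lit 1905181887) (nat_lit 456) (nat_lit 8384472225) (nat_lit 76) (nat_lit 4517700447) (nat_lit 110) (nat_lit 5) (nat_lit 116) (nat_lit 5) (nat_lit 111) (nat_lit 5) (nat_lit 326) (nat_lit 267) (nat_lit 187))))) (XT.nd (nat_lit 234) (nat_lit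 1064) (nat_lit 0) (XT.nd (nat_lit 78) (nat_lit 380) (nat_lit 0) (XT.lf (nat_lit 0) (nat_lit 2273530163) (nat_lit 304) (nat_lit 3863770429) (nat_lit 380) (nat_lit 8963799652) (nat_lit 106) (nat_lit 5) (nat_lit 110) (nat_lit 5) (nat_lit 111) (nat_lit 5) (nat_lit 327) (nat_lit 267) (nat_lit 186)) (XT.nd (nat_lit 78) (nat_lit 380) (nat_lit 0) (XT.lf (nat_lit 0) (nat_lit 10537271061) (nat_lit 380) (nat_lit 2104821511) (nat_lit 76) (nat_lit 2760770059) (nat_lit 106) (nat_lit 5) (nat_lit 111) (nat_lit 5) (nat_lit 107) (nat_lit 5) (nat_lit 328) (nat_lit 267) (nat_lit 185)) (XT.lf (nat_lit 0) (nat_lit 8982965242) (nat_lit 380) (nat_lit 6137242889) (nat_lit 456) (nat_lit 592471860) (nat_lit 101) (nat_lit 5) (nat_lit 106) (nat_lit 5) (nat_lit 107) (nat_lit 5) (nat_lit 329) (nat_lit 267) (nat_lit 184)))) (XT.nd (nat_lit 156) (nat_lit 684) (nat_lit 0) (XT.nd (nat_lit 78) (nat_lit 0) (nat_lit 0) (XT.lf (nat_lit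 0) (nat_lit 3772942190) (nat_lit 380) (nat_lit 11650025611) (nat_lit 76) (nat_lit 608068813) (nat_lit 96) (nat_lit 5) (nat_lit 101) (nat_lit 5) (nat_lit 97) (nat_lit 5) (nat_lit 330) (nat_lit 267) (nat_lit 183)) (XT.lf (nat_lit 0) (nat_lit 8316034296) (nat_lit 380) (nat_lit 534227655) (nat_lit 76) (nat_lit 7507528184) (nat_lit 96) (nat_lit 5) (nat_lit 101) (nat_lit 5) (nat_lit 97) (nat_lit 5) (nat_lit 331) (nat_lit 267) (nat_lit 182))) (XT.nd (nat_lit 78) (nat_lit 380) (nat_lit 0) (XT.lf (nat_lit 0) (nat_lit 11012814117) (nat_lit 304) (nat_lit 2022818200) (nat_lit 380) (nat_lit 3657928928) (nat_lit 92) (nat_lit 5) (nat_lit 96) (nat_lit 5) (nat_lit 97) (nat_lit 5) (nat_lit 332) (nat_lit 267) (nat_lit 181)) (XT.lf (nat_lit 0) (nat_lit 889957900) (nat_lit 380) (nat_lit 11172136218) (nat_lit 76) (nat_lit 4976342550) (nat_lit 87) (nat_lit 5) (nat_lit 92) (nat_lit 5) (nat_lit 88) (nat_lit 5) (nat_lit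 333) (nat_lit 267) (nat_lit 180)))))) (XT.nd (nat_lit 468) (nat_lit 1140) (nat_lit 0) (XT.nd (nat_lit 234) (nat_lit 608) (nat_lit 0) (XT.nd (nat_lit 78) (nat_lit 228) (nat_lit 0) (XT.lf (nat_lit 0) (nat_lit 365063609) (nat_lit 304) (nat_lit 5184058300) (nat_lit 380) (nat_lit 11843579902) (nat_lit 83) (nat_lit 5) (nat_lit 87) (nat_lit 5) (nat_lit 88) (nat_lit 5) (nat_lit 334) (nat_lit 267) (nat_lit 179)) (XT.nd (nat_lit 78) (nat_lit 228) (nat_lit 0) (XT.lf (nat_lit 0) (nat_lit 10406702967) (nat_lit 380) (nat_lit 5413488724) (nat_lit 76) (nat_lit 1936247642) (nat_lit 83) (nat_lit 5) (nat_lit 88) (nat_lit 5) (nat_lit 84) (nat_lit 5) (nat_lit 335) (nat_lit 267) (nat_lit 178)) (XT.lf (nat_lit 0) (nat_lit 6555860726) (nat_lit 228) (nat_lit 8902351504) (nat_lit 304) (nat_lit 2671929502) (nat_lit 80) (nat_lit 5) (nat_lit 83) (nat_lit 5) (nat_lit 84) (nat_lit 5) (nat_lit 336) (nat_lit 267) (nat_lit 177))))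 (XT.nd (nat_lit 78) (nat_lit 228) (nat_lit 0) (XT.lf (nat_lit 0) (nat_lit 390805554) (nat_lit 304) (nat_lit 1738046070) (nat_lit 380) (nat_lit 16385725084) (nat_lit 75) (nat_lit 5) (nat_lit 79) (nat_lit 5) (nat_lit 80) (nat_lit 5) (nat_lit 337) (nat_lit 267) (nat_lit 176)) (XT.nd (nat_lit 78) (nat_lit 228) (nat_lit 0) (XT.lf (nat_lit 0) (nat_lit 7124916005) (nat_lit 380) (nat_lit 6134687980) (nat_lit 76) (nat_lit 5648851796) (nat_lit 75) (nat_lit 5) (nat_lit 80) (nat_lit 5) (nat_lit 76) (nat_lit 5) (nat_lit 338) (nat_lit 267) (nat_lit 175)) (XT.lf (nat_lit 0) (nat_lit 6241612201) (nat_lit 228) (nat_lit 6053997116) (nat_lit 304) (nat_lit 7018062010) (nat_lit 72) (nat_lit 5) (nat_lit 75) (nat_lit 5) (nat_lit 76) (nat_lit 5) (nat_lit 339) (nat_lit 267) (nat_lit 174))))) (XT.nd (nat_lit 234) (nat_lit 532) (nat_lit 0) (XT.nd (nat_lit 78) (nat_lit 608) (nat_lit 0) (XT.lf (nat_lit 0) (nat_lit 17645176261)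 (nat_lit 304) (nat_lit 708647340) (nat_lit 76) (nat_lit 1376759286) (nat_lit 72) (nat_lit 5) (nat_lit 76) (nat_lit 5) (nat_lit 73) (nat_lit 5) (nat_lit 340) (nat_lit 267) (nat_lit 173)) (XT.nd (nat_lit 78) (nat_lit 228) (nat_lit 0) (XT.lf (nat_lit 0) (nat_lit 3049423079) (nat_lit 380) (nat_lit 8075527445) (nat_lit 76) (nat_lit 9032806677) (nat_lit 67) (nat_lit 5) (nat_lit 72) (nat_lit 5) (nat_lit 68) (nat_lit 5) (nat_lit 341) (nat_lit 267) (nat_lit 172)) (XT.lf (nat_lit 0) (nat_lit 4675316648) (nat_lit 228) (nat_lit 3644126951) (nat_lit 304) (nat_lit 12277851382) (nat_lit 64) (nat_lit 5) (nat_lit 67) (nat_lit 5) (nat_lit 68) (nat_lit 5) (nat_lit 342) (nat_lit 267) (nat_lit 171)))) (XT.nd (nat_lit 156) (nat_lit 304) (nat_lit 0) (XT.nd (nat_lit 78) (nat_lit 228) (nat_lit 0) (XT.lf (nat_lit 0) (nat_lit 13803540582) (nat_lit 304) (nat_lit 3197095410) (nat_lit 76) (nat_lit 4048276488) (nat_lit 64)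 (nat_lit 5) (nat_lit 68) (nat_lit 5) (nat_lit 65) (nat_lit 5) (nat_lit 343) (nat_lit 267) (nat_lit 170)) (XT.lf (nat_lit 0) (nat_lit 9976526270) (nat_lit 228) (nat_lit 9540043982) (nat_lit 304) (nat_lit 1996232778) (nat_lit 61) (nat_lit 5) (nat_lit 64) (nat_lit 5) (nat_lit 65) (nat_lit 5) (nat_lit 344) (nat_lit 267) (nat_lit 169))) (XT.nd (nat_lit 78) (nat_lit 0) (nat_lit 0) (XT.lf (nat_lit 0) (nat_lit 1557910169) (nat_lit 228) (nat_lit 1815226584) (nat_lit 304) (nat_lit 18616893122) (nat_lit 57) (nat_lit 5) (nat_lit 60) (nat_lit 5) (nat_lit 61) (nat_lit 5) (nat_lit 345) (nat_lit 267) (nat_lit 168)) (XT.lf (nat_lit 0) (nat_lit 8971113783) (nat_lit 304) (nat_lit 7369857232) (nat_lit 76) (nat_lit 6138457418) (nat_lit 57) (nat_lit 5) (nat_lit 61) (nat_lit 5) (nat_lit 58) (nat_lit 5) (nat_lit 346) (nat_lit 267) (nat_lit 167))))))) (XT.nd (nat_lit 34476) (nat_lit 0) (nat_lit 35036) (XT.nd (nat_lit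 468) (nat_lit 760) (nat_lit 0) (XT.nd (nat_lit 234) (nat_lit 380) (nat_lit 0) (XT.nd (nat_lit 78) (nat_lit 304) (nat_lit 0) (XT.lf (nat_lit 0) (nat_lit 6114521860) (nat_lit 228) (nat_lit 8650976154) (nat_lit 304) (nat_lit 8217452987) (nat_lit 54) (nat_lit 5) (nat_lit 57) (nat_lit 5) (nat_lit 58) (nat_lit 5) (nat_lit 347) (nat_lit 267) (nat_lit 166)) (XT.nd (nat_lit 78) (nat_lit 304) (nat_lit 0) (XT.lf (nat_lit 0) (nat_lit 20067120352) (nat_lit 228) (nat_lit 693602268) (nat_lit 304) (nat_lit 2740327531) (nat_lit 54) (nat_lit 5) (nat_lit 57) (nat_lit 5) (nat_lit 58) (nat_lit 5) (nat_lit 348) (nat_lit 267) (nat_lit 165)) (XT.lf (nat_lit 0) (nat_lit 2957918470) (nat_lit 304) (nat_lit 13596733100) (nat_lit 76) (nat_lit 7477777425) (nat_lit 50) (nat_lit 5) (nat_lit 54) (nat_lit 5) (nat_lit 51) (nat_lit 5) (nat_lit 349) (nat_lit 267) (nat_lit 164)))) (XT.nd (nat_lit 78) (nat_lit 152) (nat_lit 0) (XT.lf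 (nat_lit 0) (nat_lit 131551027) (nat_lit 228) (nat_lit 8665367691) (nat_lit 304) (nat_lit 15782337713) (nat_lit 47) (nat_lit 5) (nat_lit 50) (nat_lit 5) (nat_lit 51) (nat_lit 5) (nat_lit 350) (nat_lit 267) (nat_lit 163)) (XT.nd (nat_lit 78) (nat_lit 152) (nat_lit 0) (XT.lf (nat_lit 0) (nat_lit 14422198301) (nat_lit 228) (nat_lit 459347635) (nat_lit 304) (nat_lit 10259543554) (nat_lit 47) (nat_lit 5) (nat_lit 50) (nat_lit 5) (nat_lit 51) (nat_lit 5) (nat_lit 351) (nat_lit 267) (nat_lit 162)) (XT.lf (nat_lit 0) (nat_lit 3379307194) (nat_lit 152) (nat_lit 17822105264) (nat_lit 228) (nat_lit 4517320728) (nat_lit 45) (nat_lit 5) (nat_lit 47) (nat_lit 5) (nat_lit 48) (nat_lit 5) (nat_lit 352) (nat_lit 267) (nat_lit 161))))) (XT.nd (nat_lit 234) (nat_lit 456) (nat_lit 0) (XT.nd (nat_lit 78) (nat_lit 228) (nat_lit 0) (XT.lf (nat_lit 0) (nat_lit 1434143033) (nat_lit 228) (nat_lit 8312330391) (nat_lit 76)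 (nat_lit 16565954560) (nat_lit 44) (nat_lit 5) (nat_lit 47) (nat_lit 5) (nat_lit 45) (nat_lit 5) (nat_lit 353) (nat_lit 267) (nat_lit 160)) (XT.nd (nat_lit 78) (nat_lit 0) (nat_lit 0) (XT.lf (nat_lit 0) (nat_lit 6152441591) (nat_lit 228) (nat_lit 1370351326) (nat_lit 304) (nat_lit 19400152142) (nat_lit 41) (nat_lit 5) (nat_lit 44) (nat_lit 5) (nat_lit 45) (nat_lit 5) (nat_lit 354) (nat_lit 267) (nat_lit 159)) (XT.lf (nat_lit 0) (nat_lit 13877929709) (nat_lit 304) (nat_lit 6466597915) (nat_lit 76) (nat_lit 7205582134) (nat_lit 41) (nat_lit 5) (nat_lit 45) (nat_lit 5) (nat_lit 42) (nat_lit 5) (nat_lit 355) (nat_lit 267) (nat_lit 158)))) (XT.nd (nat_lit 156) (nat_lit 304) (nat_lit 0) (XT.nd (nat_lit 78) (nat_lit 0) (nat_lit 0) (XT.lf (nat_lit 0) (nat_lit 8334143677) (nat_lit 152) (nat_lit 12133443897) (nat_lit 228) (nat_lit 7727632891) (nat_lit 39) (nat_lit 5) (nat_lit 41) (nat_lit 5) (nat_lit 42)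 (nat_lit 5) (nat_lit 356) (nat_lit 267) (nat_lit 157)) (XT.lf (nat_lit 0) (nat_lit 23635528547) (nat_lit 152) (nat_lit 3644176574) (nat_lit 228) (nat_lit 1579492137) (nat_lit 39) (nat_lit 5) (nat_lit 41) (nat_lit 5) (nat_lit 42) (nat_lit 5) (nat_lit 357) (nat_lit 267) (nat_lit 156))) (XT.nd (nat_lit 78) (nat_lit 0) (nat_lit 0) (XT.lf (nat_lit 0) (nat_lit 4770203226) (nat_lit 304) (nat_lit 19654333819) (nat_lit 76) (nat_lit 5116357912) (nat_lit 35) (nat_lit 5) (nat_lit 39) (nat_lit 5) (nat_lit 36) (nat_lit 5) (nat_lit 358) (nat_lit 267) (nat_lit 155)) (XT.lf (nat_lit 0) (nat_lit 11330691661) (nat_lit 304) (nat_lit 4786909804) (nat_lit 76) (nat_lit 14124405632) (nat_lit 35) (nat_lit 5) (nat_lit 39) (nat_lit 5) (nat_lit 36) (nat_lit 5) (nat_lit 359) (nat_lit 267) (nat_lit 154)))))) (XT.nd (nat_lit 468) (nat_lit 1900) (nat_lit 0) (XT.nd (nat_lit 234) (nat_lit 1672) (nat_lit 0) (XT.nd (nat_lit 78)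 (nat_lit 0) (nat_lit 0) (XT.lf (nat_lit 0) (nat_lit 29668403) (nat_lit 836) (nat_lit 1666059522) (nat_lit 836) (nat_lit 1666059522) (nat_lit 543) (nat_lit 3) (nat_lit 554) (nat_lit 3) (nat_lit 554) (nat_lit 5) (nat_lit 268) (nat_lit 268) (nat_lit 244)) (XT.nd (nat_lit 78) (nat_lit 0) (nat_lit 0) (XT.lf (nat_lit 76) (nat_lit 1237323068) (nat_lit 0) (nat_lit 1823355480) (nat_lit 836) (nat_lit 3699293891) (nat_lit 544) (nat_lit 5) (nat_lit 543) (nat_lit 3) (nat_lit 554) (nat_lit 5) (nat_lit 269) (nat_lit 268) (nat_lit 243)) (XT.lf (nat_lit 76) (nat_lit 5929018842) (nat_lit 0) (nat_lit 128443058) (nat_lit 836) (nat_lit 742065534) (nat_lit 544) (nat_lit 5) (nat_lit 543) (nat_lit 3) (nat_lit 554) (nat_lit 5) (nat_lit 270) (nat_lit 268) (nat_lit 242)))) (XT.nd (nat_lit 78) (nat_lit 912) (nat_lit 0) (XT.lf (nat_lit 0) (nat_lit 2195400738) (nat_lit 836) (nat_lit 2956064157) (nat_lit 912) (nat_lit 1690235479)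 (nat_lit 533) (nat_lit 5) (nat_lit 544) (nat_lit 5) (nat_lit 545) (nat_lit 5) (nat_lit 271) (nat_lit 268) (nat_lit 241)) (XT.nd (nat_lit 78) (nat_lit 912) (nat_lit 0) (XT.lf (nat_lit 76) (nat_lit 1867872973) (nat_lit 0) (nat_lit 3250627755) (nat_lit 912) (nat_lit 1768548227) (nat_lit 534) (nat_lit 5) (nat_lit 533) (nat_lit 5) (nat_lit 545) (nat_lit 5) (nat_lit 272) (nat_lit 268) (nat_lit 240)) (XT.lf (nat_lit 0) (nat_lit 1090604699) (nat_lit 912) (nat_lit 126984265) (nat_lit 988) (nat_lit 5717951475) (nat_lit 521) (nat_lit 5) (nat_lit 533) (nat_lit 5) (nat_lit 534) (nat_lit 5) (nat_lit 273) (nat_lit 268) (nat_lit 239))))) (XT.nd (nat_lit 234) (nat_lit 988) (nat_lit 0) (XT.nd (nat_lit 78) (nat_lit 988) (nat_lit 0) (XT.lf (nat_lit 0) (nat_lit 3943524251) (nat_lit 912) (nat_lit 2089599297) (nat_lit 988) (nat_lit 953637137) (nat_lit 522) (nat_lit 5) (nat_lit 534) (nat_lit 5) (nat_lit 535) (nat_lit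 5) (nat_lit 274) (nat_lit 268) (nat_lit 238)) (XT.nd (nat_lit 78) (nat_lit 988) (nat_lit 0) (XT.lf (nat_lit 76) (nat_lit 3003101228) (nat_lit 0) (nat_lit 3804196881) (nat_lit 988) (nat_lit 233857992) (nat_lit 523) (nat_lit 5) (nat_lit 522) (nat_lit 5) (nat_lit 535) (nat_lit 5) (nat_lit 275) (nat_lit 268) (nat_lit 237)) (XT.lf (nat_lit 76) (nat_lit 1114662853) (nat_lit 0) (nat_lit 1430309791) (nat_lit 1064) (nat_lit 4553601227) (nat_lit 510) (nat_lit 5) (nat_lit 509) (nat_lit 5) (nat_lit 523) (nat_lit 5) (nat_lit 276) (nat_lit 268) (nat_lit 236)))) (XT.nd (nat_lit 156) (nat_lit 0) (nat_lit 0) (XT.nd (nat_lit 78) (nat_lit 1064) (nat_lit 0) (XT.lf (nat_lit 0) (nat_lit 5339499305) (nat_lit 988) (nat_lit 752474538) (nat_lit 1064) (nat_lit 1067132225) (nat_lit 510) (nat_lit 5) (nat_lit 523) (nat_lit 5) (nat_lit 524) (nat_lit 5) (nat_lit 277) (nat_lit 268) (nat_lit 235)) (XT.lf (nat_lit 0) (nat_lit 926661689)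 (nat_lit 1064) (nat_lit 2604149527) (nat_lit 1140) (nat_lit 3691773757) (nat_lit 496) (nat_lit 5) (nat_lit 510) (nat_lit 5) (nat_lit 511) (nat_lit 5) (nat_lit 278) (nat_lit 268) (nat_lit 234))) (XT.nd (nat_lit 78) (nat_lit 0) (nat_lit 76) (XT.lf (nat_lit 76) (nat_lit 2835186578) (nat_lit 0) (nat_lit 824971265) (nat_lit 1140) (nat_lit 3629101518) (nat_lit 497) (nat_lit 5) (nat_lit 496) (nat_lit 5) (nat_lit 511) (nat_lit 5) (nat_lit 279) (nat_lit 268) (nat_lit 233)) (XT.lf (nat_lit 76) (nat_lit 1052886146) (nat_lit 0) (nat_lit 5368526712) (nat_lit 1140) (nat_lit 937725350) (nat_lit 498) (nat_lit 5) (nat_lit 497) (nat_lit 5) (nat_lit 512) (nat_lit 5) (nat_lit 280) (nat_lit 268) (nat_lit 232))))))))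
noncomputable def xc66 : XT := (XT.nd (nat_lit 2028) (nat_lit 9576) (nat_lit 0) (XT.nd (nat_lit 1014) (nat_lit 7600) (nat_lit 0) (XT.nd (nat_lit 468) (nat_lit 8816) (nat_lit 0) (XT.nd (nat_lit 234) (nat_lit 2584) (nat_lit 0) (XT.nd (nat_lit 78) (nat_lit 1064) (nat_lit 0) (XT.lf (nat_lit 0) (nat_lit 1756202309) (nat_lit 1140) (nat_lit 726223795) (nat_lit 1216) (nat_lit 4949645303) (nat_lit 482) (nat_lit 5) (nat_lit 497) (nat_lit 5) (nat_lit 498) (nat_lit 5) (nat_lit 281) (nat_lit 268) (nat_lit 231)) (XT.nd (nat_lit 78) (nat_lit 1140) (nat_lit 0) (XT.lf (nat_lit 0) (nat_lit 4467059501) (nat_lit 1140) (nat_lit 2493366449) (nat_lit 76) (nat_lit 547775905) (nat_lit 483) (nat_lit 5) (nat_lit 498) (nat_lit 5) (nat_lit 484) (nat_lit 5) (nat_lit 282) (nat_lit 268) (nat_lit 230)) (XT.lf (nat_lit 0) (nat_lit 3315194769) (nat_lit 1140) (nat_lit 3902022995) (nat_lit 1216) (nat_lit 370345987) (nat_lit 468)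 (nat_lit 5) (nat_lit 483) (nat_lit 5) (nat_lit 484) (nat_lit 5) (nat_lit 283) (nat_lit 268) (nat_lit 229)))) (XT.nd (nat_lit 78) (nat_lit 1292) (nat_lit 0) (XT.lf (nat_lit 0) (nat_lit 1605270272) (nat_lit 1216) (nat_lit 687831318) (nat_lit 1292) (nat_lit 5377122694) (nat_lit 451) (nat_lit 5) (nat_lit 467) (nat_lit 5) (nat_lit 468) (nat_lit 5) (nat_lit 284) (nat_lit 268) (nat_lit 228)) (XT.nd (nat_lit 78) (nat_lit 1292) (nat_lit 0) (XT.lf (nat_lit 0) (nat_lit 4996097679) (nat_lit 1292) (nat_lit 120980840) (nat_lit 76) (nat_lit 2639042542) (nat_lit 451) (nat_lit 5) (nat_lit 468) (nat_lit 5) (nat_lit 452) (nat_lit 5) (nat_lit 285) (nat_lit 268) (nat_lit 227)) (XT.lf (nat_lit 0) (nat_lit 6013229162) (nat_lit 1292) (nat_lit 1731447100) (nat_lit 1368) (nat_lit 100724665) (nat_lit 434) (nat_lit 5) (nat_lit 451) (nat_lit 5) (nat_lit 452) (nat_lit 5) (nat_lit 286) (nat_lit 268) (nat_lit 226))))) (XT.nd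 (nat_lit 234) (nat_lit 4408) (nat_lit 0) (XT.nd (nat_lit 78) (nat_lit 2964) (nat_lit 0) (XT.lf (nat_lit 0) (nat_lit 2566932499) (nat_lit 1444) (nat_lit 3576345302) (nat_lit 76) (nat_lit 1794566563) (nat_lit 415) (nat_lit 5) (nat_lit 434) (nat_lit 5) (nat_lit 416) (nat_lit 5) (nat_lit 287) (nat_lit 268) (nat_lit 225)) (XT.nd (nat_lit 78) (nat_lit 1520) (nat_lit 0) (XT.lf (nat_lit 0) (nat_lit 2693080945) (nat_lit 1444) (nat_lit 2585856749) (nat_lit 1520) (nat_lit 2754885108) (nat_lit 396) (nat_lit 5) (nat_lit 415) (nat_lit 5) (nat_lit 416) (nat_lit 5) (nat_lit 288) (nat_lit 268) (nat_lit 224)) (XT.lf (nat_lit 0) (nat_lit 1009656503) (nat_lit 1520) (nat_lit 7026599346) (nat_lit 1596) (nat_lit 97231853) (nat_lit 376) (nat_lit 5) (nat_lit 396) (nat_lit 5) (nat_lit 397) (nat_lit 5) (nat_lit 289) (nat_lit 268) (nat_lit 223)))) (XT.nd (nat_lit 156) (nat_lit 2736) (nat_lit 0) (XT.nd (nat_lit 78) (nat_lit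 1596) (nat_lit 0) (XT.lf (nat_lit 0) (nat_lit 2586436418) (nat_lit 1596) (nat_lit 710207615) (nat_lit 76) (nat_lit 4939619469) (nat_lit 375) (nat_lit 5) (nat_lit 396) (nat_lit 5) (nat_lit 376) (nat_lit 5) (nat_lit 290) (nat_lit 268) (nat_lit 222)) (XT.lf (nat_lit 0) (nat_lit 5320842298) (nat_lit 1672) (nat_lit 2435924178) (nat_lit 76) (nat_lit 585991902) (nat_lit 354) (nat_lit 5) (nat_lit 376) (nat_lit 5) (nat_lit 355) (nat_lit 5) (nat_lit 291) (nat_lit 268) (nat_lit 221))) (XT.nd (nat_lit 78) (nat_lit 1064) (nat_lit 0) (XT.lf (nat_lit 0) (nat_lit 4250997014) (nat_lit 1672) (nat_lit 3871799427) (nat_lit 1748) (nat_lit 330018645) (nat_lit 332) (nat_lit 5) (nat_lit 354) (nat_lit 5) (nat_lit 355) (nat_lit 5) (nat_lit 292) (nat_lit 268) (nat_lit 220)) (XT.lf (nat_lit 0) (nat_lit 2377163589) (nat_lit 1064) (nat_lit 6006574432) (nat_lit 76) (nat_lit 182860603) (nat_lit 318) (nat_lit 5) (nat_lit 332)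 (nat_lit 5) (nat_lit 319) (nat_lit 5) (nat_lit 293) (nat_lit 268) (nat_lit 219)))))) (XT.nd (nat_lit 468) (nat_lit 3572) (nat_lit 0) (XT.nd (nat_lit 234) (nat_lit 2280) (nat_lit 0) (XT.nd (nat_lit 78) (nat_lit 912) (nat_lit 0) (XT.lf (nat_lit 0) (nat_lit 818644909) (nat_lit 836) (nat_lit 4336053142) (nat_lit 912) (nat_lit 3529253021) (nat_lit 307) (nat_lit 5) (nat_lit 318) (nat_lit 5) (nat_lit 319) (nat_lit 5) (nat_lit 294) (nat_lit 268) (nat_lit 218)) (XT.nd (nat_lit 78) (nat_lit 912) (nat_lit 0) (XT.lf (nat_lit 0) (nat_lit 7869044411) (nat_lit 836) (nat_lit 122471511) (nat_lit 912) (nat_lit 813858384) (nat_lit 307) (nat_lit 5) (nat_lit 318) (nat_lit 5) (nat_lit 319) (nat_lit 5) (nat_lit 295) (nat_lit 268) (nat_lit 217)) (XT.lf (nat_lit 0) (nat_lit 1961707120) (nat_lit 912) (nat_lit 2750301862) (nat_lit 76) (nat_lit 4218145447) (nat_lit 295) (nat_lit 5) (nat_lit 307) (nat_lit 5) (nat_lit 296)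 (nat_lit 5) (nat_lit 296) (nat_lit 268) (nat_lit 216)))) (XT.nd (nat_lit 78) (nat_lit 1520) (nat_lit 0) (XT.lf (nat_lit 0) (nat_lit 4454676461) (nat_lit 760) (nat_lit 329124299) (nat_lit 836) (nat_lit 4275347333) (nat_lit 285) (nat_lit 5) (nat_lit 295) (nat_lit 5) (nat_lit 296) (nat_lit 5) (nat_lit 297) (nat_lit 268) (nat_lit 215)) (XT.nd (nat_lit 78) (nat_lit 760) (nat_lit 0) (XT.lf (nat_lit 0) (nat_lit 2667996920) (nat_lit 760) (nat_lit 5025355605) (nat_lit 836) (nat_lit 1498665365) (nat_lit 275) (nat_lit 5) (nat_lit 285) (nat_lit 5) (nat_lit 286) (nat_lit 5) (nat_lit 298) (nat_lit 268) (nat_lit 214)) (XT.lf (nat_lit 0) (nat_lit 831716408) (nat_lit 684) (nat_lit 491212095) (nat_lit 760) (nat_lit 8006238433) (nat_lit 265) (nat_lit 5) (nat_lit 274) (nat_lit 5) (nat_lit 275) (nat_lit 5) (nat_lit 299) (nat_lit 268) (nat_lit 213))))) (XT.nd (nat_lit 234) (nat_lit 2052) (nat_lit 0) (XT.nd (nat_lit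 78) (nat_lit 1520) (nat_lit 0) (XT.lf (nat_lit 0) (nat_lit 4222344023) (nat_lit 760) (nat_lit 1071140060) (nat_lit 76) (nat_lit 4176535056) (nat_lit 265) (nat_lit 5) (nat_lit 275) (nat_lit 5) (nat_lit 266) (nat_lit 5) (nat_lit 300) (nat_lit 268) (nat_lit 212)) (XT.nd (nat_lit 78) (nat_lit 760) (nat_lit 0) (XT.lf (nat_lit 0) (nat_lit 6601473742) (nat_lit 760) (nat_lit 596894564) (nat_lit 836) (nat_lit 2416991908) (nat_lit 255) (nat_lit 5) (nat_lit 265) (nat_lit 5) (nat_lit 266) (nat_lit 5) (nat_lit 301) (nat_lit 268) (nat_lit 211)) (XT.lf (nat_lit 0) (nat_lit 502348103) (nat_lit 760) (nat_lit 5039716486) (nat_lit 76) (nat_lit 4222779816) (nat_lit 245) (nat_lit 5) (nat_lit 255) (nat_lit 5) (nat_lit 246) (nat_lit 5) (nat_lit 302) (nat_lit 268) (nat_lit 210)))) (XT.nd (nat_lit 156) (nat_lit 760) (nat_lit 0) (XT.nd (nat_lit 78) (nat_lit 608) (nat_lit 0) (XT.lf (nat_lit 0) (nat_lit 2775523992) (nat_lit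 684) (nat_lit 689203347) (nat_lit 760) (nat_lit 6454051921) (nat_lit 236) (nat_lit 5) (nat_lit 245) (nat_lit 5) (nat_lit 246) (nat_lit 5) (nat_lit 303) (nat_lit 268) (nat_lit 209)) (XT.lf (nat_lit 0) (nat_lit 739187226) (nat_lit 608) (nat_lit 5790652857) (nat_lit 684) (nat_lit 3547264929) (nat_lit 228) (nat_lit 5) (nat_lit 236) (nat_lit 5) (nat_lit 237) (nat_lit 5) (nat_lit 304) (nat_lit 268) (nat_lit 208))) (XT.nd (nat_lit 78) (nat_lit 760) (nat_lit 0) (XT.lf (nat_lit 0) (nat_lit 8892322207) (nat_lit 608) (nat_lit 795444999) (nat_lit 684) (nat_lit 552444743) (nat_lit 228) (nat_lit 5) (nat_lit 236) (nat_lit 5) (nat_lit 237) (nat_lit 5) (nat_lit 305) (nat_lit 268) (nat_lit 207)) (XT.lf (nat_lit 0) (nat_lit 2521410703) (nat_lit 760) (nat_lit 3538685598) (nat_lit 76) (nat_lit 4347385244) (nat_lit 218) (nat_lit 5) (nat_lit 228) (nat_lit 5) (nat_lit 219) (nat_lit 5) (nat_lit 306) (nat_lit 268) (nat_lit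 206))))))) (XT.nd (nat_lit 1014) (nat_lit 3952) (nat_lit 0) (XT.nd (nat_lit 468) (nat_lit 2660) (nat_lit 0) (XT.nd (nat_lit 234) (nat_lit 1140) (nat_lit 0) (XT.nd (nat_lit 78) (nat_lit 1216) (nat_lit 0) (XT.lf (nat_lit 0) (nat_lit 4766328368) (nat_lit 608) (nat_lit 909233525) (nat_lit 684) (nat_lit 4904267532) (nat_lit 210) (nat_lit 5) (nat_lit 218) (nat_lit 5) (nat_lit 219) (nat_lit 5) (nat_lit 307) (nat_lit 268) (nat_lit 205)) (XT.nd (nat_lit 78) (nat_lit 608) (nat_lit 0) (XT.lf (nat_lit 0) (nat_lit 2558940904) (nat_lit 608) (nat_lit 6385805453) (nat_lit 684) (nat_lit 1812236843) (nat_lit 202) (nat_lit 5) (nat_lit 210) (nat_lit 5) (nat_lit 211) (nat_lit 5) (nat_lit 308) (nat_lit 268) (nat_lit 204)) (XT.lf (nat_lit 0) (nat_lit 253822104) (nat_lit 532) (nat_lit 1099923332) (nat_lit 608) (nat_lit 9585585616) (nat_lit 194) (nat_lit 5) (nat_lit 201) (nat_lit 5) (nat_lit 202) (nat_lit 5) (nat_lit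 309) (nat_lit 268) (nat_lit 203)))) (XT.nd (nat_lit 78) (nat_lit 1140) (nat_lit 0) (XT.lf (nat_lit 0) (nat_lit 4627135325) (nat_lit 608) (nat_lit 2152981424) (nat_lit 76) (nat_lit 4346092348) (nat_lit 194) (nat_lit 5) (nat_lit 202) (nat_lit 5) (nat_lit 195) (nat_lit 5) (nat_lit 310) (nat_lit 268) (nat_lit 202)) (XT.nd (nat_lit 78) (nat_lit 532) (nat_lit 0) (XT.lf (nat_lit 0) (nat_lit 6659480379) (nat_lit 608) (nat_lit 1343996239) (nat_lit 684) (nat_lit 3315161019) (nat_lit 186) (nat_lit 5) (nat_lit 194) (nat_lit 5) (nat_lit 195) (nat_lit 5) (nat_lit 311) (nat_lit 268) (nat_lit 201)) (XT.lf (nat_lit 0) (nat_lit 4220886600) (nat_lit 532) (nat_lit 7285006990) (nat_lit 608) (nat_lit 10487742) (nat_lit 179) (nat_lit 5) (nat_lit 186) (nat_lit 5) (nat_lit 187) (nat_lit 5) (nat_lit 312) (nat_lit 268) (nat_lit 200))))) (XT.nd (nat_lit 234) (nat_lit 1596) (nat_lit 0) (XT.nd (nat_lit 78) (nat_lit 456) (nat_lit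 0) (XT.lf (nat_lit 0) (nat_lit 1646341823) (nat_lit 532) (nat_lit 1709628430) (nat_lit 608) (nat_lit 8363539657) (nat_lit 171) (nat_lit 5) (nat_lit 178) (nat_lit 5) (nat_lit 179) (nat_lit 5) (nat_lit 313) (nat_lit 268) (nat_lit 199)) (XT.nd (nat_lit 78) (nat_lit 456) (nat_lit 0) (XT.lf (nat_lit 0) (nat_lit 6855780421) (nat_lit 608) (nat_lit 1053658199) (nat_lit 76) (nat_lit 4018677443) (nat_lit 171) (nat_lit 5) (nat_lit 179) (nat_lit 5) (nat_lit 172) (nat_lit 5) (nat_lit 314) (nat_lit 268) (nat_lit 198)) (XT.lf (nat_lit 0) (nat_lit 8279584977) (nat_lit 456) (nat_lit 2204006168) (nat_lit 532) (nat_lit 1658963231) (nat_lit 165) (nat_lit 5) (nat_lit 171) (nat_lit 5) (nat_lit 172) (nat_lit 5) (nat_lit 315) (nat_lit 268) (nat_lit 197)))) (XT.nd (nat_lit 156) (nat_lit 532) (nat_lit 0) (XT.nd (nat_lit 78) (nat_lit 456) (nat_lit 0) (XT.lf (nat_lit 0) (nat_lit 1858212108) (nat_lit 608) (nat_lit 6836369715)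 (nat_lit 76) (nat_lit 3668120279) (nat_lit 157) (nat_lit 5) (nat_lit 165) (nat_lit 5) (nat_lit 158) (nat_lit 5) (nat_lit 316) (nat_lit 268) (nat_lit 196)) (XT.lf (nat_lit 0) (nat_lit 2615948787) (nat_lit 456) (nat_lit 2859801543) (nat_lit 532) (nat_lit 7113168398) (nat_lit 151) (nat_lit 5) (nat_lit 157) (nat_lit 5) (nat_lit 158) (nat_lit 5) (nat_lit 317) (nat_lit 268) (nat_lit 195))) (XT.nd (nat_lit 78) (nat_lit 532) (nat_lit 0) (XT.lf (nat_lit 0) (nat_lit 9228846611) (nat_lit 532) (nat_lit 449829812) (nat_lit 76) (nat_lit 3142735385) (nat_lit 151) (nat_lit 5) (nat_lit 158) (nat_lit 5) (nat_lit 152) (nat_lit 5) (nat_lit 318) (nat_lit 268) (nat_lit 194)) (XT.lf (nat_lit 0) (nat_lit 74803120) (nat_lit 532) (nat_lit 3649194776) (nat_lit 76) (nat_lit 9336074770) (nat_lit 144) (nat_lit 5) (nat_lit 151) (nat_lit 5) (nat_lit 145) (nat_lit 5) (nat_lit 319) (nat_lit 268) (nat_lit 193)))))) (XT.nd (nat_lit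 468) (nat_lit 1824) (nat_lit 0) (XT.nd (nat_lit 234) (nat_lit 1216) (nat_lit 0) (XT.nd (nat_lit 78) (nat_lit 456) (nat_lit 0) (XT.lf (nat_lit 0) (nat_lit 3825107928) (nat_lit 532) (nat_lit 7046990047) (nat_lit 76) (nat_lit 2432914222) (nat_lit 138) (nat_lit 5) (nat_lit 145) (nat_lit 5) (nat_lit 139) (nat_lit 5) (nat_lit 320) (nat_lit 268) (nat_lit 192)) (XT.nd (nat_lit 78) (nat_lit 0) (nat_lit 0) (XT.lf (nat_lit 0) (nat_lit 2917311188) (nat_lit 456) (nat_lit 4801684065) (nat_lit 532) (nat_lit 5837710644) (nat_lit 132) (nat_lit 5) (nat_lit 138) (nat_lit 5) (nat_lit 139) (nat_lit 5) (nat_lit 321) (nat_lit 268) (nat_lit 191)) (XT.lf (nat_lit 0) (nat_lit 11750203145) (nat_lit 532) (nat_lit 599052744) (nat_lit 76) (nat_lit 1466311091) (nat_lit 132) (nat_lit 5) (nat_lit 139) (nat_lit 5) (nat_lit 133) (nat_lit 5) (nat_lit 322) (nat_lit 268) (nat_lit 190)))) (XT.nd (nat_lit 78) (nat_lit 760) (nat_lit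 0) (XT.lf (nat_lit 0) (nat_lit 1856411738) (nat_lit 456) (nat_lit 4304293799) (nat_lit 76) (nat_lit 7920074771) (nat_lit 126) (nat_lit 5) (nat_lit 132) (nat_lit 5) (nat_lit 127) (nat_lit 5) (nat_lit 323) (nat_lit 268) (nat_lit 189)) (XT.nd (nat_lit 78) (nat_lit 380) (nat_lit 0) (XT.lf (nat_lit 0) (nat_lit 5878096682) (nat_lit 456) (nat_lit 8220479179) (nat_lit 76) (nat_lit 254919436) (nat_lit 121) (nat_lit 5) (nat_lit 127) (nat_lit 5) (nat_lit 122) (nat_lit 5) (nat_lit 324) (nat_lit 268) (nat_lit 188)) (XT.lf (nat_lit 0) (nat_lit 2247296364) (nat_lit 380) (nat_lit 7823473871) (nat_lit 456) (nat_lit 4562638651) (nat_lit 116) (nat_lit 5) (nat_lit 121) (nat_lit 5) (nat_lit 122) (nat_lit 5) (nat_lit 325) (nat_lit 268) (nat_lit 187))))) (XT.nd (nat_lit 234) (nat_lit 1064) (nat_lit 0) (XT.nd (nat_lit 78) (nat_lit 760) (nat_lit 0) (XT.lf (nat_lit 0) (nat_lit 13093089270) (nat_lit 380) (nat_lit 1317725441)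 (nat_lit 456) (nat_lit 510496571) (nat_lit 116) (nat_lit 5) (nat_lit 121) (nat_lit 5) (nat_lit 122) (nat_lit 5) (nat_lit 326) (nat_lit 268) (nat_lit 186)) (XT.nd (nat_lit 78) (nat_lit 304) (nat_lit 0) (XT.lf (nat_lit 0) (nat_lit 3676257983) (nat_lit 456) (nat_lit 6157987078) (nat_lit 76) (nat_lit 5381930268) (nat_lit 110) (nat_lit 5) (nat_lit 116) (nat_lit 5) (nat_lit 111) (nat_lit 5) (nat_lit 327) (nat_lit 268) (nat_lit 185)) (XT.lf (nat_lit 0) (nat_lit 4779552462) (nat_lit 304) (nat_lit 3221695688) (nat_lit 380) (nat_lit 7518199738) (nat_lit 106) (nat_lit 5) (nat_lit 110) (nat_lit 5) (nat_lit 111) (nat_lit 5) (nat_lit 328) (nat_lit 268) (nat_lit 184)))) (XT.nd (nat_lit 156) (nat_lit 608) (nat_lit 0) (XT.nd (nat_lit 78) (nat_lit 76) (nat_lit 0) (XT.lf (nat_lit 0) (nat_lit 230769551) (nat_lit 380) (nat_lit 12259797467) (nat_lit 456) (nat_lit 3340580857) (nat_lit 101) (nat_lit 5) (nat_lit 106)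 (nat_lit 5) (nat_lit 107) (nat_lit 5) (nat_lit 329) (nat_lit 268) (nat_lit 183)) (XT.lf (nat_lit 0) (nat_lit 1012728993) (nat_lit 456) (nat_lit 4548334194) (nat_lit 76) (nat_lit 10589770850) (nat_lit 100) (nat_lit 5) (nat_lit 106) (nat_lit 5) (nat_lit 101) (nat_lit 5) (nat_lit 330) (nat_lit 268) (nat_lit 182))) (XT.nd (nat_lit 78) (nat_lit 304) (nat_lit 0) (XT.lf (nat_lit 0) (nat_lit 5474180101) (nat_lit 380) (nat_lit 9631097193) (nat_lit 76) (nat_lit 1373952565) (nat_lit 96) (nat_lit 5) (nat_lit 101) (nat_lit 5) (nat_lit 97) (nat_lit 5) (nat_lit 331) (nat_lit 268) (nat_lit 181)) (XT.lf (nat_lit 0) (nat_lit 1772437158) (nat_lit 304) (nat_lit 8346381776) (nat_lit 380) (nat_lit 6697690425) (nat_lit 92) (nat_lit 5) (nat_lit 96) (nat_lit 5) (nat_lit 97) (nat_lit 5) (nat_lit 332) (nat_lit 268) (nat_lit 180))))))))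
noncomputable def xc67 : XT := (XT.nd (nat_lit 2028) (nat_lit 304) (nat_lit 0) (XT.nd (nat_lit 1014) (nat_lit 1672) (nat_lit 0) (XT.nd (nat_lit 468) (nat_lit 1064) (nat_lit 0) (XT.nd (nat_lit 234) (nat_lit 608) (nat_lit 0) (XT.nd (nat_lit 78) (nat_lit 684) (nat_lit 0) (XT.lf (nat_lit 0) (nat_lit 13605338576) (nat_lit 304) (nat_lit 1332939123) (nat_lit 380) (nat_lit 2224938070) (nat_lit 92) (nat_lit 5) (nat_lit 96) (nat_lit 5) (nat_lit 97) (nat_lit 5) (nat_lit 333) (nat_lit 268) (nat_lit 179)) (XT.nd (nat_lit 78) (nat_lit 304) (nat_lit 0) (XT.lf (nat_lit 0) (nat_lit 2414283903) (nat_lit 380) (nat_lit 9235228879) (nat_lit 76) (nat_lit 5869248002) (nat_lit 87) (nat_lit 5) (nat_lit 92) (nat_lit 5) (nat_lit 88) (nat_lit 5) (nat_lit 334) (nat_lit 268) (nat_lit 178)) (XT.lf (nat_lit 0) (nat_lit 2611225283) (nat_lit 304) (nat_lit 4572889802) (nat_lit 380) (nat_lit 10700146479) (nat_lit 83) (nat_lit 5)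 (nat_lit 87) (nat_lit 5) (nat_lit 88) (nat_lit 5) (nat_lit 335) (nat_lit 268) (nat_lit 177)))) (XT.nd (nat_lit 78) (nat_lit 608) (nat_lit 0) (XT.lf (nat_lit 0) (nat_lit 12149484038) (nat_lit 380) (nat_lit 3381278624) (nat_lit 76) (nat_lit 2728932126) (nat_lit 83) (nat_lit 5) (nat_lit 88) (nat_lit 5) (nat_lit 84) (nat_lit 5) (nat_lit 336) (nat_lit 268) (nat_lit 176)) (XT.nd (nat_lit 78) (nat_lit 380) (nat_lit 0) (XT.lf (nat_lit 0) (nat_lit 8911546293) (nat_lit 228) (nat_lit 8413342631) (nat_lit 304) (nat_lit 1320296389) (nat_lit 80) (nat_lit 5) (nat_lit 83) (nat_lit 5) (nat_lit 84) (nat_lit 5) (nat_lit 337) (nat_lit 268) (nat_lit 175)) (XT.lf (nat_lit 0) (nat_lit 2545759220) (nat_lit 304) (nat_lit 1032730309) (nat_lit 380) (nat_lit 15463045598) (nat_lit 75) (nat_lit 5) (nat_lit 79) (nat_lit 5) (nat_lit 80) (nat_lit 5) (nat_lit 338) (nat_lit 268) (nat_lit 174))))) (XT.nd (nat_lit 234) (nat_lit 532)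 (nat_lit 0) (XT.nd (nat_lit 78) (nat_lit 532) (nat_lit 0) (XT.lf (nat_lit 0) (nat_lit 8688848213) (nat_lit 380) (nat_lit 4215048554) (nat_lit 76) (nat_lit 6544067793) (nat_lit 75) (nat_lit 5) (nat_lit 80) (nat_lit 5) (nat_lit 76) (nat_lit 5) (nat_lit 339) (nat_lit 268) (nat_lit 173)) (XT.nd (nat_lit 78) (nat_lit 304) (nat_lit 0) (XT.lf (nat_lit 0) (nat_lit 8498410923) (nat_lit 228) (nat_lit 5490362527) (nat_lit 304) (nat_lit 5877102489) (nat_lit 72) (nat_lit 5) (nat_lit 75) (nat_lit 5) (nat_lit 76) (nat_lit 5) (nat_lit 340) (nat_lit 268) (nat_lit 172)) (XT.lf (nat_lit 0) (nat_lit 1318371488) (nat_lit 304) (nat_lit 18155141686) (nat_lit 380) (nat_lit 822308915) (nat_lit 68) (nat_lit 5) (nat_lit 72) (nat_lit 5) (nat_lit 73) (nat_lit 5) (nat_lit 341) (nat_lit 268) (nat_lit 171)))) (XT.nd (nat_lit 156) (nat_lit 228) (nat_lit 0) (XT.nd (nat_lit 78) (nat_lit 228) (nat_lit 0) (XT.lf (nat_lit 0) (nat_lit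 4415767383) (nat_lit 380) (nat_lit 6302148818) (nat_lit 76) (nat_lit 10018411482) (nat_lit 67) (nat_lit 5) (nat_lit 72) (nat_lit 5) (nat_lit 68) (nat_lit 5) (nat_lit 342) (nat_lit 268) (nat_lit 170)) (XT.lf (nat_lit 0) (nat_lit 6798519161) (nat_lit 228) (nat_lit 3021112047) (nat_lit 304) (nat_lit 11369924903) (nat_lit 64) (nat_lit 5) (nat_lit 67) (nat_lit 5) (nat_lit 68) (nat_lit 5) (nat_lit 343) (nat_lit 268) (nat_lit 169))) (XT.nd (nat_lit 78) (nat_lit 228) (nat_lit 0) (XT.lf (nat_lit 0) (nat_lit 15436442072) (nat_lit 304) (nat_lit 1347526812) (nat_lit 76) (nat_lit 4871408237) (nat_lit 64) (nat_lit 5) (nat_lit 68) (nat_lit 5) (nat_lit 65) (nat_lit 5) (nat_lit 344) (nat_lit 268) (nat_lit 168)) (XT.lf (nat_lit 0) (nat_lit 12189740394) (nat_lit 228) (nat_lit 9108049775) (nat_lit 304) (nat_lit 835873926) (nat_lit 61) (nat_lit 5) (nat_lit 64) (nat_lit 5) (nat_lit 65) (nat_lit 5) (nat_lit 345) (nat_lit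 268) (nat_lit 167)))))) (XT.nd (nat_lit 468) (nat_lit 608) (nat_lit 0) (XT.nd (nat_lit 234) (nat_lit 532) (nat_lit 0) (XT.nd (nat_lit 78) (nat_lit 228) (nat_lit 0) (XT.lf (nat_lit 0) (nat_lit 3503845819) (nat_lit 228) (nat_lit 1151982972) (nat_lit 304) (nat_lit 17969692762) (nat_lit 57) (nat_lit 5) (nat_lit 60) (nat_lit 5) (nat_lit 61) (nat_lit 5) (nat_lit 346) (nat_lit 268) (nat_lit 166)) (XT.nd (nat_lit 78) (nat_lit 228) (nat_lit 0) (XT.lf (nat_lit 0) (nat_lit 10391856635) (nat_lit 304) (nat_lit 5728091030) (nat_lit 76) (nat_lit 7010269043) (nat_lit 57) (nat_lit 5) (nat_lit 61) (nat_lit 5) (nat_lit 58) (nat_lit 5) (nat_lit 347) (nat_lit 268) (nat_lit 165)) (XT.lf (nat_lit 0) (nat_lit 8130596713) (nat_lit 228) (nat_lit 8207832367) (nat_lit 304) (nat_lit 7310865120) (nat_lit 54) (nat_lit 5) (nat_lit 57) (nat_lit 5) (nat_lit 58) (nat_lit 5) (nat_lit 348) (nat_lit 268) (nat_lit 164)))) (XT.nd (nat_lit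 78) (nat_lit 532) (nat_lit 0) (XT.lf (nat_lit 0) (nat_lit 22448395319) (nat_lit 228) (nat_lit 32203470) (nat_lit 304) (nat_lit 1703011671) (nat_lit 54) (nat_lit 5) (nat_lit 57) (nat_lit 5) (nat_lit 58) (nat_lit 5) (nat_lit 349) (nat_lit 268) (nat_lit 163)) (XT.nd (nat_lit 78) (nat_lit 228) (nat_lit 0) (XT.lf (nat_lit 0) (nat_lit 4135203838) (nat_lit 304) (nat_lit 12221520189) (nat_lit 76) (nat_lit 8374402308) (nat_lit 50) (nat_lit 5) (nat_lit 54) (nat_lit 5) (nat_lit 51) (nat_lit 5) (nat_lit 350) (nat_lit 268) (nat_lit 162)) (XT.lf (nat_lit 0) (nat_lit 1889683541) (nat_lit 228) (nat_lit 8239374615) (nat_lit 304) (nat_lit 15165721453) (nat_lit 47) (nat_lit 5) (nat_lit 50) (nat_lit 5) (nat_lit 51) (nat_lit 5) (nat_lit 351) (nat_lit 268) (nat_lit 161))))) (XT.nd (nat_lit 234) (nat_lit 380) (nat_lit 0) (XT.nd (nat_lit 78) (nat_lit 228) (nat_lit 0) (XT.lf (nat_lit 0) (nat_lit 16366362732) (nat_lit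 304) (nat_lit 9317398852) (nat_lit 76) (nat_lit 190317575) (nat_lit 47) (nat_lit 5) (nat_lit 51) (nat_lit 5) (nat_lit 48) (nat_lit 5) (nat_lit 352) (nat_lit 268) (nat_lit 160)) (XT.nd (nat_lit 78) (nat_lit 76) (nat_lit 0) (XT.lf (nat_lit 0) (nat_lit 5172768873) (nat_lit 152) (nat_lit 17686781087) (nat_lit 228) (nat_lit 3609841562) (nat_lit 45) (nat_lit 5) (nat_lit 47) (nat_lit 5) (nat_lit 48) (nat_lit 5) (nat_lit 353) (nat_lit 268) (nat_lit 159)) (XT.lf (nat_lit 0) (nat_lit 2476506811) (nat_lit 228) (nat_lit 6905181582) (nat_lit 76) (nat_lit 17699686125) (nat_lit 44) (nat_lit 5) (nat_lit 47) (nat_lit 5) (nat_lit 45) (nat_lit 5) (nat_lit 354) (nat_lit 268) (nat_lit 158)))) (XT.nd (nat_lit 156) (nat_lit 152) (nat_lit 0) (XT.nd (nat_lit 78) (nat_lit 0) (nat_lit 0) (XT.lf (nat_lit 0) (nat_lit 7966658512) (nat_lit 228) (nat_lit 762631431) (nat_lit 304) (nat_lit 18981300487) (nat_lit 41) (nat_lit 5)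 (nat_lit 44) (nat_lit 5) (nat_lit 45) (nat_lit 5) (nat_lit 355) (nat_lit 268) (nat_lit 157)) (XT.lf (nat_lit 0) (nat_lit 15250603402) (nat_lit 304) (nat_lit 5063048264) (nat_lit 76) (nat_lit 8043420380) (nat_lit 41) (nat_lit 5) (nat_lit 45) (nat_lit 5) (nat_lit 42) (nat_lit 5) (nat_lit 356) (nat_lit 268) (nat_lit 156))) (XT.nd (nat_lit 78) (nat_lit 0) (nat_lit 0) (XT.lf (nat_lit 0) (nat_lit 10155797264) (nat_lit 152) (nat_lit 11864503359) (nat_lit 228) (nat_lit 7001600527) (nat_lit 39) (nat_lit 5) (nat_lit 41) (nat_lit 5) (nat_lit 42) (nat_lit 5) (nat_lit 357) (nat_lit 268) (nat_lit 155)) (XT.lf (nat_lit 0) (nat_lit 25870448070) (nat_lit 152) (nat_lit 3138993274) (nat_lit 228) (nat_lit 696914425) (nat_lit 39) (nat_lit 5) (nat_lit 41) (nat_lit 5) (nat_lit 42) (nat_lit 5) (nat_lit 358) (nat_lit 268) (nat_lit 154))))))) (XT.nd (nat_lit 34554) (nat_lit 0) (nat_lit 22496) (XT.nd (nat_lit 34008) (nat_lit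 0) (nat_lit 33896) (XT.nd (nat_lit 33774) (nat_lit 0) (nat_lit 36860) (XT.nd (nat_lit 33618) (nat_lit 0) (nat_lit 37772) (XT.lf (nat_lit 0) (nat_lit 5818148093) (nat_lit 304) (nat_lit 18716078508) (nat_lit 76) (nat_lit 5874426732) (nat_lit 35) (nat_lit 5) (nat_lit 39) (nat_lit 5) (nat_lit 36) (nat_lit 5) (nat_lit 359) (nat_lit 268) (nat_lit 153)) (XT.nd (nat_lit 78) (nat_lit 836) (nat_lit 0) (XT.lf (nat_lit 0) (nat_lit 2994211668) (nat_lit 836) (nat_lit 202376019) (nat_lit 836) (nat_lit 202376019) (nat_lit 543) (nat_lit 3) (nat_lit 554) (nat_lit 3) (nat_lit 554) (nat_lit 5) (nat_lit 269) (nat_lit 269) (nat_lit 242)) (XT.lf (nat_lit 0) (nat_lit 2060380997) (nat_lit 836) (nat_lit 2599636154) (nat_lit 912) (nat_lit 2178451258) (nat_lit 532) (nat_lit 5) (nat_lit 543) (nat_lit 3) (nat_lit 544) (nat_lit 5) (nat_lit 270) (nat_lit 269) (nat_lit 241)))) (XT.nd (nat_lit 78) (nat_lit 912) (nat_lit 0) (XT.lf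 (nat_lit 76) (nat_lit 2110733828) (nat_lit 0) (nat_lit 2799814134) (nat_lit 912) (nat_lit 1971627373) (nat_lit 533) (nat_lit 5) (nat_lit 532) (nat_lit 5) (nat_lit 544) (nat_lit 5) (nat_lit 271) (nat_lit 269) (nat_lit 240)) (XT.nd (nat_lit 78) (nat_lit 0) (nat_lit 76) (XT.lf (nat_lit 76) (nat_lit 5885887) (nat_lit 0) (nat_lit 809510295) (nat_lit 988) (nat_lit 6113662151) (nat_lit 521) (nat_lit 5) (nat_lit 520) (nat_lit 5) (nat_lit 533) (nat_lit 5) (nat_lit 272) (nat_lit 269) (nat_lit 239)) (XT.lf (nat_lit 0) (nat_lit 3593769149) (nat_lit 912) (nat_lit 2067205678) (nat_lit 988) (nat_lit 1317570052) (nat_lit 521) (nat_lit 5) (nat_lit 533) (nat_lit 5) (nat_lit 534) (nat_lit 5) (nat_lit 273) (nat_lit 269) (nat_lit 238))))) (XT.nd (nat_lit 234) (nat_lit 2052) (nat_lit 0) (XT.nd (nat_lit 78) (nat_lit 988) (nat_lit 0) (XT.lf (nat_lit 76) (nat_lit 2908043308) (nat_lit 0) (nat_lit 3468610139) (nat_lit 988)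 (nat_lit 654583269) (nat_lit 522) (nat_lit 5) (nat_lit 521) (nat_lit 5) (nat_lit 534) (nat_lit 5) (nat_lit 274) (nat_lit 269) (nat_lit 237)) (XT.nd (nat_lit 78) (nat_lit 0) (nat_lit 76) (XT.lf (nat_lit 76) (nat_lit 913854544) (nat_lit 0) (nat_lit 1134086810) (nat_lit 1064) (nat_lit 5039050308) (nat_lit 509) (nat_lit 5) (nat_lit 508) (nat_lit 5) (nat_lit 522) (nat_lit 5) (nat_lit 275) (nat_lit 269) (nat_lit 236)) (XT.lf (nat_lit 0) (nat_lit 4760591415) (nat_lit 988) (nat_lit 1059265983) (nat_lit 1064) (nat_lit 1325849443) (nat_lit 509) (nat_lit 5) (nat_lit 522) (nat_lit 5) (nat_lit 523) (nat_lit 5) (nat_lit 276) (nat_lit 269) (nat_lit 235)))) (XT.nd (nat_lit 156) (nat_lit 1064) (nat_lit 0) (XT.nd (nat_lit 78) (nat_lit 0) (nat_lit 0) (XT.lf (nat_lit 0) (nat_lit 282553168) (nat_lit 1064) (nat_lit 3013185127) (nat_lit 1140) (nat_lit 3911752797) (nat_lit 495) (nat_lit 5) (nat_lit 509) (nat_lit 5) (nat_lit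 510) (nat_lit 5) (nat_lit 277) (nat_lit 269) (nat_lit 234)) (XT.lf (nat_lit 76) (nat_lit 2303533680) (nat_lit 0) (nat_lit 622732104) (nat_lit 1140) (nat_lit 4346102294) (nat_lit 496) (nat_lit 5) (nat_lit 495) (nat_lit 5) (nat_lit 510) (nat_lit 5) (nat_lit 278) (nat_lit 269) (nat_lit 233))) (XT.nd (nat_lit 78) (nat_lit 1140) (nat_lit 0) (XT.lf (nat_lit 76) (nat_lit 412786849) (nat_lit 0) (nat_lit 5182189660) (nat_lit 1140) (nat_lit 1745420436) (nat_lit 497) (nat_lit 5) (nat_lit 496) (nat_lit 5) (nat_lit 511) (nat_lit 5) (nat_lit 279) (nat_lit 269) (nat_lit 232)) (XT.lf (nat_lit 0) (nat_lit 869288598) (nat_lit 1140) (nat_lit 1457564086) (nat_lit 1216) (nat_lit 5084641429) (nat_lit 481) (nat_lit 5) (nat_lit 496) (nat_lit 5) (nat_lit 497) (nat_lit 5) (nat_lit 280) (nat_lit 269) (nat_lit 231)))))) (XT.nd (nat_lit 468) (nat_lit 7752) (nat_lit 0) (XT.nd (nat_lit 234) (nat_lit 2508) (nat_lit 0) (XT.nd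 (nat_lit 78) (nat_lit 1216) (nat_lit 0) (XT.lf (nat_lit 0) (nat_lit 3483099381) (nat_lit 1140) (nat_lit 3330170294) (nat_lit 1216) (nat_lit 672446552) (nat_lit 482) (nat_lit 5) (nat_lit 497) (nat_lit 5) (nat_lit 498) (nat_lit 5) (nat_lit 281) (nat_lit 269) (nat_lit 230)) (XT.nd (nat_lit 78) (nat_lit 1216) (nat_lit 0) (XT.lf (nat_lit 76) (nat_lit 2349796174) (nat_lit 0) (nat_lit 3781425437) (nat_lit 1216) (nat_lit 1431932492) (nat_lit 483) (nat_lit 5) (nat_lit 482) (nat_lit 5) (nat_lit 498) (nat_lit 5) (nat_lit 282) (nat_lit 269) (nat_lit 229)) (XT.lf (nat_lit 76) (nat_lit 541683239) (nat_lit 0) (nat_lit 601048124) (nat_lit 1292) (nat_lit 6501271649) (nat_lit 467) (nat_lit 5) (nat_lit 466) (nat_lit 5) (nat_lit 483) (nat_lit 5) (nat_lit 283) (nat_lit 269) (nat_lit 228)))) (XT.nd (nat_lit 78) (nat_lit 2584) (nat_lit 0) (XT.lf (nat_lit 0) (nat_lit 3746975273) (nat_lit 1216) (nat_lit 1274552572) (nat_lit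 76) (nat_lit 2706223268) (nat_lit 467) (nat_lit 5) (nat_lit 483) (nat_lit 5) (nat_lit 468) (nat_lit 5) (nat_lit 284) (nat_lit 269) (nat_lit 227)) (XT.nd (nat_lit 78) (nat_lit 1368) (nat_lit 0) (XT.lf (nat_lit 0) (nat_lit 4726263939) (nat_lit 1216) (nat_lit 1658910490) (nat_lit 1292) (nat_lit 1429816709) (nat_lit 451) (nat_lit 5) (nat_lit 467) (nat_lit 5) (nat_lit 468) (nat_lit 5) (nat_lit 285) (nat_lit 269) (nat_lit 226)) (XT.lf (nat_lit 0) (nat_lit 1144584864) (nat_lit 1368) (nat_lit 4926470279) (nat_lit 76) (nat_lit 1834476685) (nat_lit 433) (nat_lit 5) (nat_lit 451) (nat_lit 5) (nat_lit 434) (nat_lit 5) (nat_lit 286) (nat_lit 269) (nat_lit 225))))) (XT.nd (nat_lit 234) (nat_lit 4864) (nat_lit 0) (XT.nd (nat_lit 78) (nat_lit 1520) (nat_lit 0) (XT.lf (nat_lit 0) (nat_lit 1207188735) (nat_lit 1368) (nat_lit 2534137200) (nat_lit 1444) (nat_lit 4258071871) (nat_lit 415) (nat_lit 5) (nat_lit 433)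 (nat_lit 5) (nat_lit 434) (nat_lit 5) (nat_lit 287) (nat_lit 269) (nat_lit 224)) (XT.nd (nat_lit 78) (nat_lit 1520) (nat_lit 0) (XT.lf (nat_lit 0) (nat_lit 6383100608) (nat_lit 1444) (nat_lit 571852456) (nat_lit 76) (nat_lit 1141870236) (nat_lit 415) (nat_lit 5) (nat_lit 434) (nat_lit 5) (nat_lit 416) (nat_lit 5) (nat_lit 288) (nat_lit 269) (nat_lit 223)) (XT.lf (nat_lit 0) (nat_lit 878174781) (nat_lit 1520) (nat_lit 2368194971) (nat_lit 76) (nat_lit 4951103796) (nat_lit 395) (nat_lit 5) (nat_lit 415) (nat_lit 5) (nat_lit 396) (nat_lit 5) (nat_lit 289) (nat_lit 269) (nat_lit 222)))) (XT.nd (nat_lit 156) (nat_lit 1748) (nat_lit 0) (XT.nd (nat_lit 78) (nat_lit 1596) (nat_lit 0) (XT.lf (nat_lit 0) (nat_lit 3488983791) (nat_lit 1596) (nat_lit 4193785879) (nat_lit 76) (nat_lit 618937958) (nat_lit 375) (nat_lit 5) (nat_lit 396) (nat_lit 5) (nat_lit 376) (nat_lit 5) (nat_lit 290) (nat_lit 269) (nat_lit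 221)) (XT.lf (nat_lit 0) (nat_lit 2350881519) (nat_lit 1596) (nat_lit 3811731018) (nat_lit 1672) (nat_lit 2246843592) (nat_lit 354) (nat_lit 5) (nat_lit 375) (nat_lit 5) (nat_lit 376) (nat_lit 5) (nat_lit 291) (nat_lit 269) (nat_lit 220))) (XT.nd (nat_lit 78) (nat_lit 0) (nat_lit 0) (XT.lf (nat_lit 0) (nat_lit 357036746) (nat_lit 1748) (nat_lit 7948507065) (nat_lit 76) (nat_lit 215591084) (nat_lit 331) (nat_lit 5) (nat_lit 354) (nat_lit 5) (nat_lit 332) (nat_lit 5) (nat_lit 292) (nat_lit 269) (nat_lit 219)) (XT.lf (nat_lit 0) (nat_lit 3009591571) (nat_lit 1748) (nat_lit 1251013975) (nat_lit 76) (nat_lit 4375311210) (nat_lit 331) (nat_lit 5) (nat_lit 354) (nat_lit 5) (nat_lit 332) (nat_lit 5) (nat_lit 293) (nat_lit 269) (nat_lit 218))))))))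
noncomputable def xc68 : XT := (XT.nd (nat_lit 2028) (nat_lit 6384) (nat_lit 0) (XT.nd (nat_lit 1014) (nat_lit 5548) (nat_lit 0) (XT.nd (nat_lit 468) (nat_lit 4256) (nat_lit 0) (XT.nd (nat_lit 234) (nat_lit 1596) (nat_lit 0) (XT.nd (nat_lit 78) (nat_lit 1748) (nat_lit 0) (XT.lf (nat_lit 0) (nat_lit 5662857910) (nat_lit 988) (nat_lit 51644228) (nat_lit 1064) (nat_lit 3040253711) (nat_lit 318) (nat_lit 5) (nat_lit 331) (nat_lit 5) (nat_lit 332) (nat_lit 5) (nat_lit 294) (nat_lit 269) (nat_lit 217)) (XT.nd (nat_lit 78) (nat_lit 912) (nat_lit 0) (XT.lf (nat_lit 0) (nat_lit 3888197200) (nat_lit 836) (nat_lit 4611483103) (nat_lit 912) (nat_lit 377564745) (nat_lit 307) (nat_lit 5) (nat_lit 318) (nat_lit 5) (nat_lit 319) (nat_lit 5) (nat_lit 295) (nat_lit 269) (nat_lit 216)) (XT.lf (nat_lit 0) (nat_lit 2069196865) (nat_lit 836) (nat_lit 238163833) (nat_lit 912) (nat_lit 6696337754) (nat_lit 295) (nat_lit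 5) (nat_lit 306) (nat_lit 5) (nat_lit 307) (nat_lit 5) (nat_lit 296) (nat_lit 269) (nat_lit 215)))) (XT.nd (nat_lit 78) (nat_lit 836) (nat_lit 0) (XT.lf (nat_lit 0) (nat_lit 186764665) (nat_lit 760) (nat_lit 4883841519) (nat_lit 836) (nat_lit 4063293550) (nat_lit 285) (nat_lit 5) (nat_lit 295) (nat_lit 5) (nat_lit 296) (nat_lit 5) (nat_lit 297) (nat_lit 269) (nat_lit 214)) (XT.nd (nat_lit 78) (nat_lit 836) (nat_lit 0) (XT.lf (nat_lit 0) (nat_lit 7556493599) (nat_lit 760) (nat_lit 350126781) (nat_lit 836) (nat_lit 1361649665) (nat_lit 285) (nat_lit 5) (nat_lit 295) (nat_lit 5) (nat_lit 296) (nat_lit 5) (nat_lit 298) (nat_lit 269) (nat_lit 213)) (XT.lf (nat_lit 0) (nat_lit 1410660104) (nat_lit 836) (nat_lit 3686080001) (nat_lit 76) (nat_lit 4309639264) (nat_lit 274) (nat_lit 5) (nat_lit 285) (nat_lit 5) (nat_lit 275) (nat_lit 5) (nat_lit 299) (nat_lit 269) (nat_lit 212))))) (XT.nd (nat_lit 234)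 (nat_lit 2736) (nat_lit 0) (XT.nd (nat_lit 78) (nat_lit 836) (nat_lit 0) (XT.lf (nat_lit 0) (nat_lit 3831252303) (nat_lit 684) (nat_lit 399260047) (nat_lit 760) (nat_lit 5318337992) (nat_lit 265) (nat_lit 5) (nat_lit 274) (nat_lit 5) (nat_lit 275) (nat_lit 5) (nat_lit 300) (nat_lit 269) (nat_lit 211)) (XT.nd (nat_lit 78) (nat_lit 76) (nat_lit 0) (XT.lf (nat_lit 0) (nat_lit 1866922719) (nat_lit 760) (nat_lit 5279250482) (nat_lit 836) (nat_lit 2549252187) (nat_lit 255) (nat_lit 5) (nat_lit 265) (nat_lit 5) (nat_lit 266) (nat_lit 5) (nat_lit 301) (nat_lit 269) (nat_lit 210)) (XT.lf (nat_lit 0) (nat_lit 286551127) (nat_lit 836) (nat_lit 151141273) (nat_lit 76) (nat_lit 9408965196) (nat_lit 254) (nat_lit 5) (nat_lit 265) (nat_lit 5) (nat_lit 255) (nat_lit 5) (nat_lit 302) (nat_lit 269) (nat_lit 209)))) (XT.nd (nat_lit 156) (nat_lit 1368) (nat_lit 0) (XT.nd (nat_lit 78) (nat_lit 684) (nat_lit 0) (XT.lf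 (nat_lit 0) (nat_lit 3201020296) (nat_lit 760) (nat_lit 2246716052) (nat_lit 76) (nat_lit 4553838980) (nat_lit 245) (nat_lit 5) (nat_lit 255) (nat_lit 5) (nat_lit 246) (nat_lit 5) (nat_lit 303) (nat_lit 269) (nat_lit 208)) (XT.lf (nat_lit 0) (nat_lit 5755215624) (nat_lit 684) (nat_lit 437697646) (nat_lit 760) (nat_lit 3968476162) (nat_lit 236) (nat_lit 5) (nat_lit 245) (nat_lit 5) (nat_lit 246) (nat_lit 5) (nat_lit 304) (nat_lit 269) (nat_lit 207))) (XT.nd (nat_lit 78) (nat_lit 760) (nat_lit 0) (XT.lf (nat_lit 0) (nat_lit 3663120826) (nat_lit 608) (nat_lit 5630980126) (nat_lit 684) (nat_lit 1031553466) (nat_lit 228) (nat_lit 5) (nat_lit 236) (nat_lit 5) (nat_lit 237) (nat_lit 5) (nat_lit 305) (nat_lit 269) (nat_lit 206)) (XT.lf (nat_lit 0) (nat_lit 1487790477) (nat_lit 684) (nat_lit 472682586) (nat_lit 760) (nat_lit 8534297554) (nat_lit 218) (nat_lit 5) (nat_lit 227) (nat_lit 5) (nat_lit 228)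 (nat_lit 5) (nat_lit 306) (nat_lit 269) (nat_lit 205)))))) (XT.nd (nat_lit 468) (nat_lit 3116) (nat_lit 0) (XT.nd (nat_lit 234) (nat_lit 1140) (nat_lit 0) (XT.nd (nat_lit 78) (nat_lit 1292) (nat_lit 0) (XT.lf (nat_lit 0) (nat_lit 5056735659) (nat_lit 760) (nat_lit 789125827) (nat_lit 76) (nat_lit 4822436278) (nat_lit 218) (nat_lit 5) (nat_lit 228) (nat_lit 5) (nat_lit 219) (nat_lit 5) (nat_lit 307) (nat_lit 269) (nat_lit 204)) (XT.nd (nat_lit 78) (nat_lit 684) (nat_lit 0) (XT.lf (nat_lit 0) (nat_lit 7718707887) (nat_lit 608) (nat_lit 533402677) (nat_lit 684) (nat_lit 2594838035) (nat_lit 210) (nat_lit 5) (nat_lit 218) (nat_lit 5) (nat_lit 219) (nat_lit 5) (nat_lit 308) (nat_lit 269) (nat_lit 203)) (XT.lf (nat_lit 0) (nat_lit 532531998) (nat_lit 684) (nat_lit 5587563978) (nat_lit 76) (nat_lit 4910299485) (nat_lit 201) (nat_lit 5) (nat_lit 210) (nat_lit 5) (nat_lit 202) (nat_lit 5) (nat_lit 309)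 (nat_lit 269) (nat_lit 202)))) (XT.nd (nat_lit 78) (nat_lit 608) (nat_lit 0) (XT.lf (nat_lit 0) (nat_lit 3059591729) (nat_lit 532) (nat_lit 658423937) (nat_lit 608) (nat_lit 7501035249) (nat_lit 194) (nat_lit 5) (nat_lit 201) (nat_lit 5) (nat_lit 202) (nat_lit 5) (nat_lit 310) (nat_lit 269) (nat_lit 201)) (XT.nd (nat_lit 78) (nat_lit 0) (nat_lit 0) (XT.lf (nat_lit 0) (nat_lit 550360097) (nat_lit 608) (nat_lit 6478132121) (nat_lit 684) (nat_lit 4384323256) (nat_lit 186) (nat_lit 5) (nat_lit 194) (nat_lit 5) (nat_lit 195) (nat_lit 5) (nat_lit 311) (nat_lit 269) (nat_lit 200)) (XT.lf (nat_lit 0) (nat_lit 9575188397) (nat_lit 608) (nat_lit 879200399) (nat_lit 684) (nat_lit 1157718958) (nat_lit 186) (nat_lit 5) (nat_lit 194) (nat_lit 5) (nat_lit 195) (nat_lit 5) (nat_lit 312) (nat_lit 269) (nat_lit 199))))) (XT.nd (nat_lit 234) (nat_lit 1520) (nat_lit 0) (XT.nd (nat_lit 78) (nat_lit 988) (nat_lit 0)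 (XT.lf (nat_lit 0) (nat_lit 2172706585) (nat_lit 608) (nat_lit 4769515079) (nat_lit 76) (nat_lit 4874202514) (nat_lit 178) (nat_lit 5) (nat_lit 186) (nat_lit 5) (nat_lit 179) (nat_lit 5) (nat_lit 313) (nat_lit 269) (nat_lit 198)) (XT.nd (nat_lit 78) (nat_lit 456) (nat_lit 0) (XT.lf (nat_lit 0) (nat_lit 4395975734) (nat_lit 532) (nat_lit 1197979463) (nat_lit 608) (nat_lit 6432663164) (nat_lit 171) (nat_lit 5) (nat_lit 178) (nat_lit 5) (nat_lit 179) (nat_lit 5) (nat_lit 314) (nat_lit 269) (nat_lit 197)) (XT.lf (nat_lit 0) (nat_lit 1596904420) (nat_lit 456) (nat_lit 7553520296) (nat_lit 532) (nat_lit 3092075091) (nat_lit 165) (nat_lit 5) (nat_lit 171) (nat_lit 5) (nat_lit 172) (nat_lit 5) (nat_lit 315) (nat_lit 269) (nat_lit 196)))) (XT.nd (nat_lit 156) (nat_lit 912) (nat_lit 0) (XT.nd (nat_lit 78) (nat_lit 532) (nat_lit 0) (XT.lf (nat_lit 0) (nat_lit 363824428) (nat_lit 532) (nat_lit 1320866100)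 (nat_lit 76) (nat_lit 10779760048) (nat_lit 164) (nat_lit 5) (nat_lit 171) (nat_lit 5) (nat_lit 165) (nat_lit 5) (nat_lit 316) (nat_lit 269) (nat_lit 195)) (XT.lf (nat_lit 0) (nat_lit 3925171931) (nat_lit 608) (nat_lit 4399679445) (nat_lit 76) (nat_lit 4366954712) (nat_lit 157) (nat_lit 5) (nat_lit 165) (nat_lit 5) (nat_lit 158) (nat_lit 5) (nat_lit 317) (nat_lit 269) (nat_lit 194))) (XT.nd (nat_lit 78) (nat_lit 456) (nat_lit 0) (XT.lf (nat_lit 0) (nat_lit 5293348847) (nat_lit 456) (nat_lit 2316182342) (nat_lit 532) (nat_lit 5316157354) (nat_lit 151) (nat_lit 5) (nat_lit 157) (nat_lit 5) (nat_lit 158) (nat_lit 5) (nat_lit 318) (nat_lit 269) (nat_lit 193)) (XT.lf (nat_lit 0) (nat_lit 2123489093) (nat_lit 456) (nat_lit 9312121587) (nat_lit 532) (nat_lit 1730381840) (nat_lit 145) (nat_lit 5) (nat_lit 151) (nat_lit 5) (nat_lit 152) (nat_lit 5) (nat_lit 319) (nat_lit 269) (nat_lit 192))))))) (XT.nd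 (nat_lit 1014) (nat_lit 2660) (nat_lit 0) (XT.nd (nat_lit 468) (nat_lit 1900) (nat_lit 0) (XT.nd (nat_lit 234) (nat_lit 836) (nat_lit 0) (XT.nd (nat_lit 78) (nat_lit 912) (nat_lit 0) (XT.lf (nat_lit 0) (nat_lit 1967525180) (nat_lit 532) (nat_lit 1214706277) (nat_lit 76) (nat_lit 10230440655) (nat_lit 144) (nat_lit 5) (nat_lit 151) (nat_lit 5) (nat_lit 145) (nat_lit 5) (nat_lit 320) (nat_lit 269) (nat_lit 191)) (XT.nd (nat_lit 78) (nat_lit 456) (nat_lit 0) (XT.lf (nat_lit 0) (nat_lit 5795752699) (nat_lit 532) (nat_lit 4721549214) (nat_lit 76) (nat_lit 3148390222) (nat_lit 138) (nat_lit 5) (nat_lit 145) (nat_lit 5) (nat_lit 139) (nat_lit 5) (nat_lit 321) (nat_lit 269) (nat_lit 190)) (XT.lf (nat_lit 0) (nat_lit 5500523673) (nat_lit 456) (nat_lit 4268081574) (nat_lit 532) (nat_lit 4157127824) (nat_lit 132) (nat_lit 5) (nat_lit 138) (nat_lit 5) (nat_lit 139) (nat_lit 5) (nat_lit 322) (nat_lit 269)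 (nat_lit 189)))) (XT.nd (nat_lit 78) (nat_lit 456) (nat_lit 0) (XT.lf (nat_lit 0) (nat_lit 1862713632) (nat_lit 380) (nat_lit 12021448714) (nat_lit 456) (nat_lit 308967629) (nat_lit 127) (nat_lit 5) (nat_lit 132) (nat_lit 5) (nat_lit 133) (nat_lit 5) (nat_lit 323) (nat_lit 269) (nat_lit 188)) (XT.nd (nat_lit 78) (nat_lit 380) (nat_lit 0) (XT.lf (nat_lit 0) (nat_lit 3658313114) (nat_lit 456) (nat_lit 1993529190) (nat_lit 76) (nat_lit 8815223687) (nat_lit 126) (nat_lit 5) (nat_lit 132) (nat_lit 5) (nat_lit 127) (nat_lit 5) (nat_lit 324) (nat_lit 269) (nat_lit 187)) (XT.lf (nat_lit 0) (nat_lit 7769848435) (nat_lit 456) (nat_lit 6035863530) (nat_lit 76) (nat_lit 942901814) (nat_lit 121) (nat_lit 5) (nat_lit 127) (nat_lit 5) (nat_lit 122) (nat_lit 5) (nat_lit 325) (nat_lit 269) (nat_lit 186))))) (XT.nd (nat_lit 234) (nat_lit 1064) (nat_lit 0) (XT.nd (nat_lit 78) (nat_lit 456) (nat_lit 0) (XT.lf (nat_lit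 0) (nat_lit 4706501461) (nat_lit 380) (nat_lit 7347366431) (nat_lit 456) (nat_lit 2983779885) (nat_lit 116) (nat_lit 5) (nat_lit 121) (nat_lit 5) (nat_lit 122) (nat_lit 5) (nat_lit 326) (nat_lit 269) (nat_lit 185)) (XT.nd (nat_lit 78) (nat_lit 0) (nat_lit 0) (XT.lf (nat_lit 0) (nat_lit 471588337) (nat_lit 380) (nat_lit 656476338) (nat_lit 456) (nat_lit 14206925831) (nat_lit 110) (nat_lit 5) (nat_lit 115) (nat_lit 5) (nat_lit 116) (nat_lit 5) (nat_lit 327) (nat_lit 269) (nat_lit 184)) (XT.lf (nat_lit 0) (nat_lit 5402080305) (nat_lit 456) (nat_lit 4006955822) (nat_lit 76) (nat_lit 6230256690) (nat_lit 110) (nat_lit 5) (nat_lit 116) (nat_lit 5) (nat_lit 111) (nat_lit 5) (nat_lit 328) (nat_lit 269) (nat_lit 183)))) (XT.nd (nat_lit 156) (nat_lit 380) (nat_lit 0) (XT.nd (nat_lit 78) (nat_lit 380) (nat_lit 0) (XT.lf (nat_lit 0) (nat_lit 7220814797) (nat_lit 304) (nat_lit 2603870310) (nat_lit 380) (nat_lit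 6127651938) (nat_lit 106) (nat_lit 5) (nat_lit 110) (nat_lit 5) (nat_lit 111) (nat_lit 5) (nat_lit 329) (nat_lit 269) (nat_lit 182)) (XT.lf (nat_lit 0) (nat_lit 2525888355) (nat_lit 380) (nat_lit 11896036978) (nat_lit 456) (nat_lit 1852027753) (nat_lit 101) (nat_lit 5) (nat_lit 106) (nat_lit 5) (nat_lit 107) (nat_lit 5) (nat_lit 330) (nat_lit 269) (nat_lit 181))) (XT.nd (nat_lit 78) (nat_lit 304) (nat_lit 0) (XT.lf (nat_lit 0) (nat_lit 2565376414) (nat_lit 456) (nat_lit 2442056462) (nat_lit 76) (nat_lit 11596532461) (nat_lit 100) (nat_lit 5) (nat_lit 106) (nat_lit 5) (nat_lit 101) (nat_lit 5) (nat_lit 331) (nat_lit 269) (nat_lit 180)) (XT.lf (nat_lit 0) (nat_lit 7135294602) (nat_lit 380) (nat_lit 7687558447) (nat_lit 76) (nat_lit 2119895138) (nat_lit 96) (nat_lit 5) (nat_lit 101) (nat_lit 5) (nat_lit 97) (nat_lit 5) (nat_lit 332) (nat_lit 269) (nat_lit 179)))))) (XT.nd (nat_lit 468) (nat_lit 1444)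 (nat_lit 0) (XT.nd (nat_lit 234) (nat_lit 532) (nat_lit 0) (XT.nd (nat_lit 78) (nat_lit 380) (nat_lit 0) (XT.lf (nat_lit 0) (nat_lit 4021862734) (nat_lit 304) (nat_lit 7868070682) (nat_lit 380) (nat_lit 5400826258) (nat_lit 92) (nat_lit 5) (nat_lit 96) (nat_lit 5) (nat_lit 97) (nat_lit 5) (nat_lit 333) (nat_lit 269) (nat_lit 178)) (XT.nd (nat_lit 78) (nat_lit 380) (nat_lit 0) (XT.lf (nat_lit 0) (nat_lit 16145782677) (nat_lit 304) (nat_lit 665449096) (nat_lit 380) (nat_lit 837516427) (nat_lit 92) (nat_lit 5) (nat_lit 96) (nat_lit 5) (nat_lit 97) (nat_lit 5) (nat_lit 334) (nat_lit 269) (nat_lit 177)) (XT.lf (nat_lit 0) (nat_lit 3898369755) (nat_lit 380) (nat_lit 7370640515) (nat_lit 76) (nat_lit 6746254065) (nat_lit 87) (nat_lit 5) (nat_lit 92) (nat_lit 5) (nat_lit 88) (nat_lit 5) (nat_lit 335) (nat_lit 269) (nat_lit 176)))) (XT.nd (nat_lit 78) (nat_lit 228) (nat_lit 0) (XT.lf (nat_lit 0) (nat_lit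 4796461623) (nat_lit 304) (nat_lit 3987397406) (nat_lit 380) (nat_lit 9608443907) (nat_lit 83) (nat_lit 5) (nat_lit 87) (nat_lit 5) (nat_lit 88) (nat_lit 5) (nat_lit 336) (nat_lit 269) (nat_lit 175)) (XT.nd (nat_lit 78) (nat_lit 228) (nat_lit 0) (XT.lf (nat_lit 0) (nat_lit 13862427397) (nat_lit 380) (nat_lit 1414082086) (nat_lit 76) (nat_lit 3503228268) (nat_lit 83) (nat_lit 5) (nat_lit 88) (nat_lit 5) (nat_lit 84) (nat_lit 5) (nat_lit 337) (nat_lit 269) (nat_lit 174)) (XT.lf (nat_lit 0) (nat_lit 11213966435) (nat_lit 228) (nat_lit 7953065544) (nat_lit 304) (nat_lit 10304943) (nat_lit 80) (nat_lit 5) (nat_lit 83) (nat_lit 5) (nat_lit 84) (nat_lit 5) (nat_lit 338) (nat_lit 269) (nat_lit 173))))) (XT.nd (nat_lit 234) (nat_lit 836) (nat_lit 0) (XT.nd (nat_lit 78) (nat_lit 228) (nat_lit 0) (XT.lf (nat_lit 0) (nat_lit 4642331356) (nat_lit 304) (nat_lit 349736214) (nat_lit 380) (nat_lit 14593869534)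 (nat_lit 75) (nat_lit 5) (nat_lit 79) (nat_lit 5) (nat_lit 80) (nat_lit 5) (nat_lit 339) (nat_lit 269) (nat_lit 172)) (XT.nd (nat_lit 78) (nat_lit 228) (nat_lit 0) (XT.lf (nat_lit 0) (nat_lit 10222192261) (nat_lit 380) (nat_lit 2358579787) (nat_lit 76) (nat_lit 7424479226) (nat_lit 75) (nat_lit 5) (nat_lit 80) (nat_lit 5) (nat_lit 76) (nat_lit 5) (nat_lit 340) (nat_lit 269) (nat_lit 171)) (XT.lf (nat_lit 0) (nat_lit 10704112949) (nat_lit 228) (nat_lit 4952599558) (nat_lit 304) (nat_lit 4779495891) (nat_lit 72) (nat_lit 5) (nat_lit 75) (nat_lit 5) (nat_lit 76) (nat_lit 5) (nat_lit 341) (nat_lit 269) (nat_lit 170)))) (XT.nd (nat_lit 156) (nat_lit 456) (nat_lit 0) (XT.nd (nat_lit 78) (nat_lit 0) (nat_lit 0) (XT.lf (nat_lit 0) (nat_lit 401859808) (nat_lit 380) (nat_lit 17584338616) (nat_lit 76) (nat_lit 2893208084) (nat_lit 67) (nat_lit 5) (nat_lit 72) (nat_lit 5) (nat_lit 68) (nat_lit 5) (nat_lit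 342) (nat_lit 269) (nat_lit 169)) (XT.lf (nat_lit 0) (nat_lit 5749919745) (nat_lit 380) (nat_lit 4591275069) (nat_lit 76) (nat_lit 10992562284) (nat_lit 67) (nat_lit 5) (nat_lit 72) (nat_lit 5) (nat_lit 68) (nat_lit 5) (nat_lit 343) (nat_lit 269) (nat_lit 168))) (XT.nd (nat_lit 78) (nat_lit 228) (nat_lit 0) (XT.lf (nat_lit 0) (nat_lit 8871588709) (nat_lit 228) (nat_lit 2421445935) (nat_lit 304) (nat_lit 10508023290) (nat_lit 64) (nat_lit 5) (nat_lit 67) (nat_lit 5) (nat_lit 68) (nat_lit 5) (nat_lit 344) (nat_lit 269) (nat_lit 167)) (XT.lf (nat_lit 0) (nat_lit 451775364) (nat_lit 228) (nat_lit 16599524633) (nat_lit 304) (nat_lit 5230112299) (nat_lit 61) (nat_lit 5) (nat_lit 64) (nat_lit 5) (nat_lit 65) (nat_lit 5) (nat_lit 345) (nat_lit 269) (nat_lit 166))))))))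
noncomputable def xc69 : XT := (XT.nd (nat_lit 35646) (nat_lit 0) (nat_lit 13680) (XT.nd (nat_lit 1014) (nat_lit 76) (nat_lit 0) (XT.nd (nat_lit 468) (nat_lit 836) (nat_lit 0) (XT.nd (nat_lit 234) (nat_lit 532) (nat_lit 0) (XT.nd (nat_lit 78) (nat_lit 228) (nat_lit 0) (XT.lf (nat_lit 0) (nat_lit 285455041) (nat_lit 304) (nat_lit 8416952507) (nat_lit 76) (nat_lit 14072113604) (nat_lit 60) (nat_lit 5) (nat_lit 64) (nat_lit 5) (nat_lit 61) (nat_lit 5) (nat_lit 346) (nat_lit 269) (nat_lit 165)) (XT.nd (nat_lit 78) (nat_lit 0) (nat_lit 0) (XT.lf (nat_lit 0) (nat_lit 5399137783) (nat_lit 228) (nat_lit 510040991) (nat_lit 304) (nat_lit 17372288914) (nat_lit 57) (nat_lit 5) (nat_lit 60) (nat_lit 5) (nat_lit 61) (nat_lit 5) (nat_lit 347) (nat_lit 269) (nat_lit 164)) (XT.lf (nat_lit 0) (nat_lit 11789114680) (nat_lit 304) (nat_lit 4144007737) (nat_lit 76) (nat_lit 7868760640) (nat_lit 57) (nat_lit 5) (nat_lit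 61) (nat_lit 5) (nat_lit 58) (nat_lit 5) (nat_lit 348) (nat_lit 269) (nat_lit 163)))) (XT.nd (nat_lit 78) (nat_lit 304) (nat_lit 0) (XT.lf (nat_lit 0) (nat_lit 10101952825) (nat_lit 228) (nat_lit 7791730575) (nat_lit 304) (nat_lit 6443272932) (nat_lit 54) (nat_lit 5) (nat_lit 57) (nat_lit 5) (nat_lit 58) (nat_lit 5) (nat_lit 349) (nat_lit 269) (nat_lit 162)) (XT.nd (nat_lit 78) (nat_lit 304) (nat_lit 0) (XT.lf (nat_lit 0) (nat_lit 24193055547) (nat_lit 304) (nat_lit 92925582) (nat_lit 76) (nat_lit 601877195) (nat_lit 54) (nat_lit 5) (nat_lit 58) (nat_lit 5) (nat_lit 55) (nat_lit 5) (nat_lit 350) (nat_lit 269) (nat_lit 161)) (XT.lf (nat_lit 0) (nat_lit 5285320670) (nat_lit 304) (nat_lit 10907408981) (nat_lit 76) (nat_lit 9259333652) (nat_lit 50) (nat_lit 5) (nat_lit 54) (nat_lit 5) (nat_lit 51) (nat_lit 5) (nat_lit 351) (nat_lit 269) (nat_lit 160))))) (XT.nd (nat_lit 234) (nat_lit 456) (nat_lit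 0) (XT.nd (nat_lit 78) (nat_lit 152) (nat_lit 0) (XT.lf (nat_lit 0) (nat_lit 3599862579) (nat_lit 228) (nat_lit 7839978318) (nat_lit 304) (nat_lit 14593182123) (nat_lit 47) (nat_lit 5) (nat_lit 50) (nat_lit 5) (nat_lit 51) (nat_lit 5) (nat_lit 352) (nat_lit 269) (nat_lit 159)) (XT.nd (nat_lit 78) (nat_lit 152) (nat_lit 0) (XT.lf (nat_lit 0) (nat_lit 17839012844) (nat_lit 304) (nat_lit 7975667907) (nat_lit 76) (nat_lit 815539291) (nat_lit 47) (nat_lit 5) (nat_lit 51) (nat_lit 5) (nat_lit 48) (nat_lit 5) (nat_lit 353) (nat_lit 269) (nat_lit 158)) (XT.lf (nat_lit 0) (nat_lit 6922901948) (nat_lit 152) (nat_lit 17585857199) (nat_lit 228) (nat_lit 2735010418) (nat_lit 45) (nat_lit 5) (nat_lit 47) (nat_lit 5) (nat_lit 48) (nat_lit 5) (nat_lit 354) (nat_lit 269) (nat_lit 157)))) (XT.nd (nat_lit 156) (nat_lit 152) (nat_lit 0) (XT.nd (nat_lit 78) (nat_lit 228) (nat_lit 0) (XT.lf (nat_lit 0) (nat_lit 3492775327)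 (nat_lit 228) (nat_lit 5550909259) (nat_lit 76) (nat_lit 18830877414) (nat_lit 44) (nat_lit 5) (nat_lit 47) (nat_lit 5) (nat_lit 45) (nat_lit 5) (nat_lit 355) (nat_lit 269) (nat_lit 156)) (XT.lf (nat_lit 0) (nat_lit 9741753727) (nat_lit 228) (nat_lit 173925462) (nat_lit 304) (nat_lit 18607336524) (nat_lit 41) (nat_lit 5) (nat_lit 44) (nat_lit 5) (nat_lit 45) (nat_lit 5) (nat_lit 356) (nat_lit 269) (nat_lit 155))) (XT.nd (nat_lit 78) (nat_lit 152) (nat_lit 0) (XT.lf (nat_lit 0) (nat_lit 16609559720) (nat_lit 304) (nat_lit 3709097891) (nat_lit 76) (nat_lit 8870707329) (nat_lit 41) (nat_lit 5) (nat_lit 45) (nat_lit 5) (nat_lit 42) (nat_lit 5) (nat_lit 357) (nat_lit 269) (nat_lit 154)) (XT.lf (nat_lit 0) (nat_lit 11941882509) (nat_lit 152) (nat_lit 11623828171) (nat_lit 228) (nat_lit 6308772353) (nat_lit 39) (nat_lit 5) (nat_lit 41) (nat_lit 5) (nat_lit 42) (nat_lit 5) (nat_lit 358) (nat_lit 269)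 (nat_lit 153)))))) (XT.nd (nat_lit 34086) (nat_lit 0) (nat_lit 33592) (XT.nd (nat_lit 33852) (nat_lit 0) (nat_lit 35644) (XT.nd (nat_lit 33696) (nat_lit 0) (nat_lit 36556) (XT.lf (nat_lit 0) (nat_lit 156674840) (nat_lit 228) (nat_lit 2496203571) (nat_lit 76) (nat_lit 27927098725) (nat_lit 38) (nat_lit 5) (nat_lit 41) (nat_lit 5) (nat_lit 39) (nat_lit 5) (nat_lit 359) (nat_lit 269) (nat_lit 152)) (XT.nd (nat_lit 78) (nat_lit 988) (nat_lit 0) (XT.lf (nat_lit 0) (nat_lit 1210312097) (nat_lit 0) (nat_lit 1210312097) (nat_lit 836) (nat_lit 1019651462) (nat_lit 532) (nat_lit 5) (nat_lit 532) (nat_lit 3) (nat_lit 543) (nat_lit 3) (nat_lit 270) (nat_lit 270) (nat_lit 240)) (XT.lf (nat_lit 76) (nat_lit 205580610) (nat_lit 0) (nat_lit 472681989) (nat_lit 988) (nat_lit 6247547886) (nat_lit 520) (nat_lit 5) (nat_lit 519) (nat_lit 3) (nat_lit 532) (nat_lit 5) (nat_lit 271) (nat_lit 270) (nat_lit 239)))) (XT.nd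 (nat_lit 78) (nat_lit 988) (nat_lit 0) (XT.lf (nat_lit 0) (nat_lit 3384023672) (nat_lit 912) (nat_lit 1981056413) (nat_lit 988) (nat_lit 1608538474) (nat_lit 520) (nat_lit 5) (nat_lit 532) (nat_lit 5) (nat_lit 533) (nat_lit 5) (nat_lit 272) (nat_lit 270) (nat_lit 238)) (XT.nd (nat_lit 78) (nat_lit 988) (nat_lit 0) (XT.lf (nat_lit 76) (nat_lit 2879026559) (nat_lit 0) (nat_lit 3210713699) (nat_lit 988) (nat_lit 934888858) (nat_lit 521) (nat_lit 5) (nat_lit 520) (nat_lit 5) (nat_lit 533) (nat_lit 5) (nat_lit 273) (nat_lit 270) (nat_lit 237)) (XT.lf (nat_lit 76) (nat_lit 777107722) (nat_lit 0) (nat_lit 916080474) (nat_lit 1064) (nat_lit 5385538496) (nat_lit 508) (nat_lit 5) (nat_lit 507) (nat_lit 5) (nat_lit 521) (nat_lit 5) (nat_lit 274) (nat_lit 270) (nat_lit 236))))) (XT.nd (nat_lit 234) (nat_lit 1064) (nat_lit 0) (XT.nd (nat_lit 78) (nat_lit 1064) (nat_lit 0) (XT.lf (nat_lit 0) (nat_lit 4326793122)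 (nat_lit 988) (nat_lit 1303385468) (nat_lit 1064) (nat_lit 1505490249) (nat_lit 508) (nat_lit 5) (nat_lit 521) (nat_lit 5) (nat_lit 522) (nat_lit 5) (nat_lit 275) (nat_lit 270) (nat_lit 235)) (XT.nd (nat_lit 78) (nat_lit 1064) (nat_lit 0) (XT.lf (nat_lit 76) (nat_lit 3832712603) (nat_lit 0) (nat_lit 3142208468) (nat_lit 1064) (nat_lit 220816987) (nat_lit 509) (nat_lit 5) (nat_lit 508) (nat_lit 5) (nat_lit 522) (nat_lit 5) (nat_lit 276) (nat_lit 270) (nat_lit 234)) (XT.lf (nat_lit 76) (nat_lit 1834752276) (nat_lit 0) (nat_lit 505055579) (nat_lit 1140) (nat_lit 4919067119) (nat_lit 495) (nat_lit 5) (nat_lit 494) (nat_lit 5) (nat_lit 509) (nat_lit 5) (nat_lit 277) (nat_lit 270) (nat_lit 233)))) (XT.nd (nat_lit 156) (nat_lit 0) (nat_lit 76) (XT.nd (nat_lit 78) (nat_lit 1140) (nat_lit 0) (XT.lf (nat_lit 0) (nat_lit 4920353445) (nat_lit 1064) (nat_lit 162878190) (nat_lit 1140) (nat_lit 2241842439) (nat_lit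 495) (nat_lit 5) (nat_lit 509) (nat_lit 5) (nat_lit 510) (nat_lit 5) (nat_lit 278) (nat_lit 270) (nat_lit 232)) (XT.lf (nat_lit 0) (nat_lit 131187816) (nat_lit 1140) (nat_lit 2129625066) (nat_lit 1216) (nat_lit 5133564621) (nat_lit 480) (nat_lit 5) (nat_lit 495) (nat_lit 5) (nat_lit 496) (nat_lit 5) (nat_lit 279) (nat_lit 270) (nat_lit 231))) (XT.nd (nat_lit 78) (nat_lit 0) (nat_lit 0) (XT.lf (nat_lit 0) (nat_lit 2651269911) (nat_lit 1140) (nat_lit 4108366514) (nat_lit 1216) (nat_lit 707100619) (nat_lit 481) (nat_lit 5) (nat_lit 496) (nat_lit 5) (nat_lit 497) (nat_lit 5) (nat_lit 280) (nat_lit 270) (nat_lit 230)) (XT.lf (nat_lit 76) (nat_lit 1445235834) (nat_lit 0) (nat_lit 3756092242) (nat_lit 1216) (nat_lit 2340958863) (nat_lit 482) (nat_lit 5) (nat_lit 481) (nat_lit 5) (nat_lit 497) (nat_lit 5) (nat_lit 281) (nat_lit 270) (nat_lit 229))))))) (XT.nd (nat_lit 1014) (nat_lit 7600) (nat_lit 0)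 (XT.nd (nat_lit 468) (nat_lit 8740) (nat_lit 0) (XT.nd (nat_lit 234) (nat_lit 2432) (nat_lit 0) (XT.nd (nat_lit 78) (nat_lit 0) (nat_lit 76) (XT.lf (nat_lit 0) (nat_lit 149875973) (nat_lit 1216) (nat_lit 457351566) (nat_lit 1292) (nat_lit 7014054370) (nat_lit 465) (nat_lit 5) (nat_lit 481) (nat_lit 5) (nat_lit 482) (nat_lit 5) (nat_lit 282) (nat_lit 270) (nat_lit 228)) (XT.nd (nat_lit 78) (nat_lit 0) (nat_lit 0) (XT.lf (nat_lit 0) (nat_lit 2655371261) (nat_lit 1216) (nat_lit 2371180314) (nat_lit 1292) (nat_lit 2676449798) (nat_lit 466) (nat_lit 5) (nat_lit 482) (nat_lit 5) (nat_lit 483) (nat_lit 5) (nat_lit 283) (nat_lit 270) (nat_lit 227)) (XT.lf (nat_lit 76) (nat_lit 3498443110) (nat_lit 0) (nat_lit 1688844723) (nat_lit 1292) (nat_lit 2600955500) (nat_lit 467) (nat_lit 5) (nat_lit 466) (nat_lit 5) (nat_lit 483) (nat_lit 5) (nat_lit 284) (nat_lit 270) (nat_lit 226)))) (XT.nd (nat_lit 78) (nat_lit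 1368) (nat_lit 0) (XT.lf (nat_lit 0) (nat_lit 1653100067) (nat_lit 1216) (nat_lit 6103744577) (nat_lit 1292) (nat_lit 120057491) (nat_lit 451) (nat_lit 5) (nat_lit 467) (nat_lit 5) (nat_lit 468) (nat_lit 5) (nat_lit 285) (nat_lit 270) (nat_lit 225)) (XT.nd (nat_lit 78) (nat_lit 1292) (nat_lit 0) (XT.lf (nat_lit 0) (nat_lit 2368579699) (nat_lit 1292) (nat_lit 220088533) (nat_lit 76) (nat_lit 5380019969) (nat_lit 450) (nat_lit 5) (nat_lit 467) (nat_lit 5) (nat_lit 451) (nat_lit 5) (nat_lit 286) (nat_lit 270) (nat_lit 224)) (XT.lf (nat_lit 0) (nat_lit 4903071748) (nat_lit 1368) (nat_lit 2086090051) (nat_lit 76) (nat_lit 1074679805) (nat_lit 433) (nat_lit 5) (nat_lit 451) (nat_lit 5) (nat_lit 434) (nat_lit 5) (nat_lit 287) (nat_lit 270) (nat_lit 223))))) (XT.nd (nat_lit 234) (nat_lit 4332) (nat_lit 0) (XT.nd (nat_lit 78) (nat_lit 3040) (nat_lit 0) (XT.lf (nat_lit 0) (nat_lit 4183099154) (nat_lit 1368)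 (nat_lit 3305231976) (nat_lit 1444) (nat_lit 674107484) (nat_lit 415) (nat_lit 5) (nat_lit 433) (nat_lit 5) (nat_lit 434) (nat_lit 5) (nat_lit 288) (nat_lit 270) (nat_lit 222)) (XT.nd (nat_lit 78) (nat_lit 1520) (nat_lit 0) (XT.lf (nat_lit 0) (nat_lit 1825466136) (nat_lit 1520) (nat_lit 5901518154) (nat_lit 76) (nat_lit 537582582) (nat_lit 395) (nat_lit 5) (nat_lit 415) (nat_lit 5) (nat_lit 396) (nat_lit 5) (nat_lit 289) (nat_lit 270) (nat_lit 221)) (XT.lf (nat_lit 0) (nat_lit 502924933) (nat_lit 1520) (nat_lit 3872191647) (nat_lit 1596) (nat_lit 3994945627) (nat_lit 375) (nat_lit 5) (nat_lit 395) (nat_lit 5) (nat_lit 396) (nat_lit 5) (nat_lit 290) (nat_lit 270) (nat_lit 220)))) (XT.nd (nat_lit 156) (nat_lit 2660) (nat_lit 0) (XT.nd (nat_lit 78) (nat_lit 1672) (nat_lit 0) (XT.lf (nat_lit 0) (nat_lit 6975516941) (nat_lit 1596) (nat_lit 1356916805) (nat_lit 76) (nat_lit 146878502) (nat_lit 375)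 (nat_lit 5) (nat_lit 396) (nat_lit 5) (nat_lit 376) (nat_lit 5) (nat_lit 291) (nat_lit 270) (nat_lit 219)) (XT.lf (nat_lit 0) (nat_lit 1043908595) (nat_lit 1672) (nat_lit 3262838911) (nat_lit 76) (nat_lit 4285110838) (nat_lit 353) (nat_lit 5) (nat_lit 375) (nat_lit 5) (nat_lit 354) (nat_lit 5) (nat_lit 292) (nat_lit 270) (nat_lit 218))) (XT.nd (nat_lit 78) (nat_lit 988) (nat_lit 0) (XT.lf (nat_lit 0) (nat_lit 3505701585) (nat_lit 1672) (nat_lit 110386925) (nat_lit 1748) (nat_lit 5092193360) (nat_lit 331) (nat_lit 5) (nat_lit 353) (nat_lit 5) (nat_lit 354) (nat_lit 5) (nat_lit 293) (nat_lit 270) (nat_lit 217)) (XT.lf (nat_lit 0) (nat_lit 1631000546) (nat_lit 988) (nat_lit 4632501277) (nat_lit 1064) (nat_lit 2564802257) (nat_lit 318) (nat_lit 5) (nat_lit 331) (nat_lit 5) (nat_lit 332) (nat_lit 5) (nat_lit 294) (nat_lit 270) (nat_lit 216)))))) (XT.nd (nat_lit 468) (nat_lit 4256) (nat_lit 0) (XT.nd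 (nat_lit 234) (nat_lit 1596) (nat_lit 0) (XT.nd (nat_lit 78) (nat_lit 1672) (nat_lit 0) (XT.lf (nat_lit 0) (nat_lit 12986955) (nat_lit 1064) (nat_lit 268692996) (nat_lit 76) (nat_lit 8670804511) (nat_lit 317) (nat_lit 5) (nat_lit 331) (nat_lit 5) (nat_lit 318) (nat_lit 5) (nat_lit 295) (nat_lit 270) (nat_lit 215)) (XT.nd (nat_lit 78) (nat_lit 836) (nat_lit 0) (XT.lf (nat_lit 0) (nat_lit 2646505901) (nat_lit 912) (nat_lit 2222567024) (nat_lit 76) (nat_lit 4210775661) (nat_lit 306) (nat_lit 5) (nat_lit 318) (nat_lit 5) (nat_lit 307) (nat_lit 5) (nat_lit 296) (nat_lit 270) (nat_lit 214)) (XT.lf (nat_lit 0) (nat_lit 4997629947) (nat_lit 836) (nat_lit 339597985) (nat_lit 912) (nat_lit 3874302167) (nat_lit 295) (nat_lit 5) (nat_lit 306) (nat_lit 5) (nat_lit 307) (nat_lit 5) (nat_lit 297) (nat_lit 270) (nat_lit 213)))) (XT.nd (nat_lit 78) (nat_lit 836) (nat_lit 0) (XT.lf (nat_lit 0) (nat_lit 3074092696)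 (nat_lit 760) (nat_lit 5041161380) (nat_lit 836) (nat_lit 1231834990) (nat_lit 285) (nat_lit 5) (nat_lit 295) (nat_lit 5) (nat_lit 296) (nat_lit 5) (nat_lit 298) (nat_lit 270) (nat_lit 212)) (XT.nd (nat_lit 78) (nat_lit 0) (nat_lit 0) (XT.lf (nat_lit 0) (nat_lit 1098615430) (nat_lit 760) (nat_lit 354143989) (nat_lit 836) (nat_lit 8034169874) (nat_lit 274) (nat_lit 5) (nat_lit 284) (nat_lit 5) (nat_lit 285) (nat_lit 5) (nat_lit 299) (nat_lit 270) (nat_lit 211)) (XT.lf (nat_lit 0) (nat_lit 4218594487) (nat_lit 836) (nat_lit 946592310) (nat_lit 76) (nat_lit 4465320514) (nat_lit 274) (nat_lit 5) (nat_lit 285) (nat_lit 5) (nat_lit 275) (nat_lit 5) (nat_lit 300) (nat_lit 270) (nat_lit 210))))) (XT.nd (nat_lit 234) (nat_lit 2052) (nat_lit 0) (XT.nd (nat_lit 78) (nat_lit 1520) (nat_lit 0) (XT.lf (nat_lit 0) (nat_lit 6750020962) (nat_lit 684) (nat_lit 310673788) (nat_lit 760) (nat_lit 2717884744) (nat_lit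 265) (nat_lit 5) (nat_lit 274) (nat_lit 5) (nat_lit 275) (nat_lit 5) (nat_lit 301) (nat_lit 270) (nat_lit 209)) (XT.nd (nat_lit 78) (nat_lit 684) (nat_lit 0) (XT.lf (nat_lit 0) (nat_lit 72204767) (nat_lit 836) (nat_lit 5194855113) (nat_lit 76) (nat_lit 4663756904) (nat_lit 254) (nat_lit 5) (nat_lit 265) (nat_lit 5) (nat_lit 255) (nat_lit 5) (nat_lit 302) (nat_lit 270) (nat_lit 208)) (XT.lf (nat_lit 0) (nat_lit 2647448836) (nat_lit 684) (nat_lit 250807821) (nat_lit 760) (nat_lit 7189270164) (nat_lit 245) (nat_lit 5) (nat_lit 254) (nat_lit 5) (nat_lit 255) (nat_lit 5) (nat_lit 303) (nat_lit 270) (nat_lit 207)))) (XT.nd (nat_lit 156) (nat_lit 1368) (nat_lit 0) (XT.nd (nat_lit 78) (nat_lit 0) (nat_lit 0) (XT.lf (nat_lit 0) (nat_lit 467193054) (nat_lit 684) (nat_lit 5362443209) (nat_lit 760) (nat_lit 4418938187) (nat_lit 236) (nat_lit 5) (nat_lit 245) (nat_lit 5) (nat_lit 246) (nat_lit 5) (nat_lit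 304) (nat_lit 270) (nat_lit 206)) (XT.lf (nat_lit 0) (nat_lit 8658031309) (nat_lit 684) (nat_lit 194271122) (nat_lit 760) (nat_lit 1562130017) (nat_lit 236) (nat_lit 5) (nat_lit 245) (nat_lit 5) (nat_lit 246) (nat_lit 5) (nat_lit 305) (nat_lit 270) (nat_lit 205))) (XT.nd (nat_lit 78) (nat_lit 684) (nat_lit 0) (XT.lf (nat_lit 0) (nat_lit 1390627675) (nat_lit 684) (nat_lit 4085695776) (nat_lit 76) (nat_lit 5108240137) (nat_lit 227) (nat_lit 5) (nat_lit 236) (nat_lit 5) (nat_lit 228) (nat_lit 5) (nat_lit 306) (nat_lit 270) (nat_lit 204)) (XT.lf (nat_lit 0) (nat_lit 4257302596) (nat_lit 684) (nat_lit 147824791) (nat_lit 760) (nat_lit 6354619474) (nat_lit 218) (nat_lit 5) (nat_lit 227) (nat_lit 5) (nat_lit 228) (nat_lit 5) (nat_lit 307) (nat_lit 270) (nat_lit 203))))))))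
noncomputable def xc70 : XT := (XT.nd (nat_lit 2028) (nat_lit 4332) (nat_lit 0) (XT.nd (nat_lit 1014) (nat_lit 3648) (nat_lit 0) (XT.nd (nat_lit 468) (nat_lit 2584) (nat_lit 0) (XT.nd (nat_lit 234) (nat_lit 1748) (nat_lit 0) (XT.nd (nat_lit 78) (nat_lit 684) (nat_lit 0) (XT.lf (nat_lit 0) (nat_lit 1903961503) (nat_lit 608) (nat_lit 5635324796) (nat_lit 684) (nat_lit 3400355978) (nat_lit 210) (nat_lit 5) (nat_lit 218) (nat_lit 5) (nat_lit 219) (nat_lit 5) (nat_lit 308) (nat_lit 270) (nat_lit 202)) (XT.nd (nat_lit 78) (nat_lit 684) (nat_lit 0) (XT.lf (nat_lit 0) (nat_lit 10598388333) (nat_lit 608) (nat_lit 169436943) (nat_lit 684) (nat_lit 357142105) (nat_lit 210) (nat_lit 5) (nat_lit 218) (nat_lit 5) (nat_lit 219) (nat_lit 5) (nat_lit 309) (nat_lit 270) (nat_lit 201)) (XT.lf (nat_lit 0) (nat_lit 2786848142) (nat_lit 684) (nat_lit 3074165018) (nat_lit 76) (nat_lit 5453598323) (nat_lit 201) (nat_lit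 5) (nat_lit 210) (nat_lit 5) (nat_lit 202) (nat_lit 5) (nat_lit 310) (nat_lit 270) (nat_lit 200)))) (XT.nd (nat_lit 78) (nat_lit 1216) (nat_lit 0) (XT.lf (nat_lit 0) (nat_lit 5788908902) (nat_lit 532) (nat_lit 230917635) (nat_lit 608) (nat_lit 5490117644) (nat_lit 194) (nat_lit 5) (nat_lit 201) (nat_lit 5) (nat_lit 202) (nat_lit 5) (nat_lit 311) (nat_lit 270) (nat_lit 199)) (XT.nd (nat_lit 78) (nat_lit 608) (nat_lit 0) (XT.lf (nat_lit 0) (nat_lit 3203689936) (nat_lit 608) (nat_lit 6182072466) (nat_lit 684) (nat_lit 2324690923) (nat_lit 186) (nat_lit 5) (nat_lit 194) (nat_lit 5) (nat_lit 195) (nat_lit 5) (nat_lit 312) (nat_lit 270) (nat_lit 198)) (XT.lf (nat_lit 0) (nat_lit 506001219) (nat_lit 532) (nat_lit 419914059) (nat_lit 608) (nat_lit 10990925292) (nat_lit 178) (nat_lit 5) (nat_lit 185) (nat_lit 5) (nat_lit 186) (nat_lit 5) (nat_lit 313) (nat_lit 270) (nat_lit 197))))) (XT.nd (nat_lit 234)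 (nat_lit 1596) (nat_lit 0) (XT.nd (nat_lit 78) (nat_lit 988) (nat_lit 0) (XT.lf (nat_lit 0) (nat_lit 4295920853) (nat_lit 608) (nat_lit 2325387449) (nat_lit 76) (nat_lit 5506767620) (nat_lit 178) (nat_lit 5) (nat_lit 186) (nat_lit 5) (nat_lit 179) (nat_lit 5) (nat_lit 314) (nat_lit 270) (nat_lit 196)) (XT.nd (nat_lit 78) (nat_lit 456) (nat_lit 0) (XT.lf (nat_lit 0) (nat_lit 7073093630) (nat_lit 532) (nat_lit 703295960) (nat_lit 608) (nat_lit 4569103628) (nat_lit 171) (nat_lit 5) (nat_lit 178) (nat_lit 5) (nat_lit 179) (nat_lit 5) (nat_lit 315) (nat_lit 270) (nat_lit 195)) (XT.lf (nat_lit 0) (nat_lit 4186610973) (nat_lit 456) (nat_lit 7214111952) (nat_lit 532) (nat_lit 1167952303) (nat_lit 165) (nat_lit 5) (nat_lit 171) (nat_lit 5) (nat_lit 172) (nat_lit 5) (nat_lit 316) (nat_lit 270) (nat_lit 194)))) (XT.nd (nat_lit 156) (nat_lit 988) (nat_lit 0) (XT.nd (nat_lit 78) (nat_lit 0) (nat_lit 0) (XT.lf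 (nat_lit 0) (nat_lit 1149539712) (nat_lit 532) (nat_lit 1165122470) (nat_lit 608) (nat_lit 10483415872) (nat_lit 157) (nat_lit 5) (nat_lit 164) (nat_lit 5) (nat_lit 165) (nat_lit 5) (nat_lit 317) (nat_lit 270) (nat_lit 193)) (XT.lf (nat_lit 0) (nat_lit 5938688668) (nat_lit 608) (nat_lit 2041537525) (nat_lit 76) (nat_lit 5052955176) (nat_lit 157) (nat_lit 5) (nat_lit 165) (nat_lit 5) (nat_lit 158) (nat_lit 5) (nat_lit 318) (nat_lit 270) (nat_lit 192))) (XT.nd (nat_lit 78) (nat_lit 532) (nat_lit 0) (XT.lf (nat_lit 0) (nat_lit 7901882177) (nat_lit 456) (nat_lit 1792385461) (nat_lit 532) (nat_lit 3580641512) (nat_lit 151) (nat_lit 5) (nat_lit 157) (nat_lit 5) (nat_lit 158) (nat_lit 5) (nat_lit 319) (nat_lit 270) (nat_lit 191)) (XT.lf (nat_lit 0) (nat_lit 76497302) (nat_lit 532) (nat_lit 8892338407) (nat_lit 76) (nat_lit 4554307117) (nat_lit 144) (nat_lit 5) (nat_lit 151) (nat_lit 5) (nat_lit 145)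 (nat_lit 5) (nat_lit 320) (nat_lit 270) (nat_lit 190)))))) (XT.nd (nat_lit 468) (nat_lit 1900) (nat_lit 0) (XT.nd (nat_lit 234) (nat_lit 836) (nat_lit 0) (XT.nd (nat_lit 78) (nat_lit 456) (nat_lit 0) (XT.lf (nat_lit 0) (nat_lit 1162023058) (nat_lit 456) (nat_lit 2654029299) (nat_lit 532) (nat_lit 9961896689) (nat_lit 138) (nat_lit 5) (nat_lit 144) (nat_lit 5) (nat_lit 145) (nat_lit 5) (nat_lit 321) (nat_lit 270) (nat_lit 189)) (XT.nd (nat_lit 78) (nat_lit 456) (nat_lit 0) (XT.lf (nat_lit 0) (nat_lit 7718981047) (nat_lit 532) (nat_lit 2471970755) (nat_lit 76) (nat_lit 3848449030) (nat_lit 138) (nat_lit 5) (nat_lit 145) (nat_lit 5) (nat_lit 139) (nat_lit 5) (nat_lit 322) (nat_lit 270) (nat_lit 188)) (XT.lf (nat_lit 0) (nat_lit 8017969535) (nat_lit 456) (nat_lit 3757371064) (nat_lit 532) (nat_lit 2532653102) (nat_lit 132) (nat_lit 5) (nat_lit 138) (nat_lit 5) (nat_lit 139) (nat_lit 5) (nat_lit 323)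 (nat_lit 270) (nat_lit 187)))) (XT.nd (nat_lit 78) (nat_lit 380) (nat_lit 0) (XT.lf (nat_lit 0) (nat_lit 1381285639) (nat_lit 456) (nat_lit 10329434063) (nat_lit 76) (nat_lit 2873160324) (nat_lit 126) (nat_lit 5) (nat_lit 132) (nat_lit 5) (nat_lit 127) (nat_lit 5) (nat_lit 324) (nat_lit 270) (nat_lit 186)) (XT.nd (nat_lit 78) (nat_lit 0) (nat_lit 0) (XT.lf (nat_lit 0) (nat_lit 249774328) (nat_lit 380) (nat_lit 5165879362) (nat_lit 456) (nat_lit 9451328573) (nat_lit 121) (nat_lit 5) (nat_lit 126) (nat_lit 5) (nat_lit 127) (nat_lit 5) (nat_lit 325) (nat_lit 270) (nat_lit 185)) (XT.lf (nat_lit 0) (nat_lit 9619881254) (nat_lit 456) (nat_lit 3925271960) (nat_lit 76) (nat_lit 1612469663) (nat_lit 121) (nat_lit 5) (nat_lit 127) (nat_lit 5) (nat_lit 122) (nat_lit 5) (nat_lit 326) (nat_lit 270) (nat_lit 184))))) (XT.nd (nat_lit 234) (nat_lit 1064) (nat_lit 0) (XT.nd (nat_lit 78) (nat_lit 456) (nat_lit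 0) (XT.lf (nat_lit 0) (nat_lit 7102184398) (nat_lit 380) (nat_lit 6897779265) (nat_lit 456) (nat_lit 1456045733) (nat_lit 116) (nat_lit 5) (nat_lit 121) (nat_lit 5) (nat_lit 122) (nat_lit 5) (nat_lit 327) (nat_lit 270) (nat_lit 183)) (XT.nd (nat_lit 78) (nat_lit 0) (nat_lit 0) (XT.lf (nat_lit 0) (nat_lit 2725553800) (nat_lit 380) (nat_lit 445740) (nat_lit 456) (nat_lit 13036732534) (nat_lit 110) (nat_lit 5) (nat_lit 115) (nat_lit 5) (nat_lit 116) (nat_lit 5) (nat_lit 328) (nat_lit 270) (nat_lit 182)) (XT.lf (nat_lit 0) (nat_lit 7086939004) (nat_lit 456) (nat_lit 1925476432) (nat_lit 76) (nat_lit 7064603843) (nat_lit 110) (nat_lit 5) (nat_lit 116) (nat_lit 5) (nat_lit 111) (nat_lit 5) (nat_lit 329) (nat_lit 270) (nat_lit 181)))) (XT.nd (nat_lit 156) (nat_lit 380) (nat_lit 0) (XT.nd (nat_lit 78) (nat_lit 380) (nat_lit 0) (XT.lf (nat_lit 0) (nat_lit 9603407533) (nat_lit 304) (nat_lit 2008524029)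 (nat_lit 380) (nat_lit 4788158099) (nat_lit 106) (nat_lit 5) (nat_lit 110) (nat_lit 5) (nat_lit 111) (nat_lit 5) (nat_lit 330) (nat_lit 270) (nat_lit 180)) (XT.lf (nat_lit 0) (nat_lit 4758508928) (nat_lit 380) (nat_lit 11563357890) (nat_lit 456) (nat_lit 410019985) (nat_lit 101) (nat_lit 5) (nat_lit 106) (nat_lit 5) (nat_lit 107) (nat_lit 5) (nat_lit 331) (nat_lit 270) (nat_lit 179))) (XT.nd (nat_lit 78) (nat_lit 304) (nat_lit 0) (XT.lf (nat_lit 0) (nat_lit 4077218988) (nat_lit 456) (nat_lit 401332147) (nat_lit 76) (nat_lit 12593941571) (nat_lit 100) (nat_lit 5) (nat_lit 106) (nat_lit 5) (nat_lit 101) (nat_lit 5) (nat_lit 332) (nat_lit 270) (nat_lit 178)) (XT.lf (nat_lit 0) (nat_lit 8760314981) (nat_lit 380) (nat_lit 5813866544) (nat_lit 76) (nat_lit 2847761948) (nat_lit 96) (nat_lit 5) (nat_lit 101) (nat_lit 5) (nat_lit 97) (nat_lit 5) (nat_lit 333) (nat_lit 270) (nat_lit 177))))))) (XT.nd (nat_lit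 1014) (nat_lit 1672) (nat_lit 0) (XT.nd (nat_lit 468) (nat_lit 1368) (nat_lit 0) (XT.nd (nat_lit 234) (nat_lit 608) (nat_lit 0) (XT.nd (nat_lit 78) (nat_lit 380) (nat_lit 0) (XT.lf (nat_lit 0) (nat_lit 6212697202) (nat_lit 304) (nat_lit 7417240763) (nat_lit 380) (nat_lit 4151035719) (nat_lit 92) (nat_lit 5) (nat_lit 96) (nat_lit 5) (nat_lit 97) (nat_lit 5) (nat_lit 334) (nat_lit 270) (nat_lit 176)) (XT.nd (nat_lit 78) (nat_lit 0) (nat_lit 0) (XT.lf (nat_lit 0) (nat_lit 492668886) (nat_lit 304) (nat_lit 11919216) (nat_lit 380) (nat_lit 17645814169) (nat_lit 87) (nat_lit 5) (nat_lit 91) (nat_lit 5) (nat_lit 92) (nat_lit 5) (nat_lit 335) (nat_lit 270) (nat_lit 175)) (XT.lf (nat_lit 0) (nat_lit 5345943277) (nat_lit 380) (nat_lit 5573053697) (nat_lit 76) (nat_lit 7609334139) (nat_lit 87) (nat_lit 5) (nat_lit 92) (nat_lit 5) (nat_lit 88) (nat_lit 5) (nat_lit 336) (nat_lit 270) (nat_lit 174)))) (XT.nd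 (nat_lit 78) (nat_lit 304) (nat_lit 0) (XT.lf (nat_lit 0) (nat_lit 6926310398) (nat_lit 304) (nat_lit 3425824975) (nat_lit 380) (nat_lit 8565085418) (nat_lit 83) (nat_lit 5) (nat_lit 87) (nat_lit 5) (nat_lit 88) (nat_lit 5) (nat_lit 337) (nat_lit 270) (nat_lit 173)) (XT.nd (nat_lit 78) (nat_lit 76) (nat_lit 0) (XT.lf (nat_lit 0) (nat_lit 499939032) (nat_lit 228) (nat_lit 15052658907) (nat_lit 304) (nat_lit 3764311987) (nat_lit 80) (nat_lit 5) (nat_lit 83) (nat_lit 5) (nat_lit 84) (nat_lit 5) (nat_lit 338) (nat_lit 270) (nat_lit 172)) (XT.lf (nat_lit 0) (nat_lit 1244968686) (nat_lit 304) (nat_lit 6266567659) (nat_lit 76) (nat_lit 12215314541) (nat_lit 79) (nat_lit 5) (nat_lit 83) (nat_lit 5) (nat_lit 80) (nat_lit 5) (nat_lit 339) (nat_lit 270) (nat_lit 171))))) (XT.nd (nat_lit 234) (nat_lit 836) (nat_lit 0) (XT.nd (nat_lit 78) (nat_lit 228) (nat_lit 0) (XT.lf (nat_lit 0) (nat_lit 6375101049) (nat_lit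 380) (nat_lit 13464409814) (nat_lit 76) (nat_lit 308660623) (nat_lit 75) (nat_lit 5) (nat_lit 80) (nat_lit 5) (nat_lit 76) (nat_lit 5) (nat_lit 340) (nat_lit 270) (nat_lit 170)) (XT.nd (nat_lit 78) (nat_lit 228) (nat_lit 0) (XT.lf (nat_lit 0) (nat_lit 11728479673) (nat_lit 380) (nat_lit 560244689) (nat_lit 76) (nat_lit 8292033472) (nat_lit 75) (nat_lit 5) (nat_lit 80) (nat_lit 5) (nat_lit 76) (nat_lit 5) (nat_lit 341) (nat_lit 270) (nat_lit 169)) (XT.lf (nat_lit 0) (nat_lit 12864005024) (nat_lit 228) (nat_lit 4439028572) (nat_lit 304) (nat_lit 3722089295) (nat_lit 72) (nat_lit 5) (nat_lit 75) (nat_lit 5) (nat_lit 76) (nat_lit 5) (nat_lit 342) (nat_lit 270) (nat_lit 168)))) (XT.nd (nat_lit 156) (nat_lit 456) (nat_lit 0) (XT.nd (nat_lit 78) (nat_lit 0) (nat_lit 0) (XT.lf (nat_lit 0) (nat_lit 1580594573) (nat_lit 380) (nat_lit 16267268567) (nat_lit 76) (nat_lit 3633983412) (nat_lit 67) (nat_lit 5)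 (nat_lit 72) (nat_lit 5) (nat_lit 68) (nat_lit 5) (nat_lit 343) (nat_lit 270) (nat_lit 167)) (XT.lf (nat_lit 0) (nat_lit 7055115368) (nat_lit 380) (nat_lit 2938139333) (nat_lit 76) (nat_lit 11957270304) (nat_lit 67) (nat_lit 5) (nat_lit 72) (nat_lit 5) (nat_lit 68) (nat_lit 5) (nat_lit 344) (nat_lit 270) (nat_lit 166))) (XT.nd (nat_lit 78) (nat_lit 228) (nat_lit 0) (XT.lf (nat_lit 0) (nat_lit 10899555556) (nat_lit 228) (nat_lit 1843415852) (nat_lit 304) (nat_lit 9689321714) (nat_lit 64) (nat_lit 5) (nat_lit 67) (nat_lit 5) (nat_lit 68) (nat_lit 5) (nat_lit 345) (nat_lit 270) (nat_lit 165)) (XT.lf (nat_lit 0) (nat_lit 2216835026) (nat_lit 228) (nat_lit 16440259726) (nat_lit 304) (nat_lit 4270317869) (nat_lit 61) (nat_lit 5) (nat_lit 64) (nat_lit 5) (nat_lit 65) (nat_lit 5) (nat_lit 346) (nat_lit 270) (nat_lit 164)))))) (XT.nd (nat_lit 468) (nat_lit 836) (nat_lit 0) (XT.nd (nat_lit 234) (nat_lit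 532) (nat_lit 0) (XT.nd (nat_lit 78) (nat_lit 228) (nat_lit 0) (XT.lf (nat_lit 0) (nat_lit 1363972193) (nat_lit 304) (nat_lit 6954220207) (nat_lit 76) (nat_lit 15117635211) (nat_lit 60) (nat_lit 5) (nat_lit 64) (nat_lit 5) (nat_lit 61) (nat_lit 5) (nat_lit 347) (nat_lit 270) (nat_lit 163)) (XT.nd (nat_lit 78) (nat_lit 0) (nat_lit 0) (XT.lf (nat_lit 0) (nat_lit 7136929041) (nat_lit 304) (nat_lit 16710606386) (nat_lit 76) (nat_lit 110852130) (nat_lit 57) (nat_lit 5) (nat_lit 61) (nat_lit 5) (nat_lit 58) (nat_lit 5) (nat_lit 348) (nat_lit 270) (nat_lit 162)) (XT.lf (nat_lit 0) (nat_lit 13165978191) (nat_lit 304) (nat_lit 2613199282) (nat_lit 76) (nat_lit 8715798599) (nat_lit 57) (nat_lit 5) (nat_lit 61) (nat_lit 5) (nat_lit 58) (nat_lit 5) (nat_lit 349) (nat_lit 270) (nat_lit 161)))) (XT.nd (nat_lit 78) (nat_lit 304) (nat_lit 0) (XT.lf (nat_lit 0) (nat_lit 12033287600) (nat_lit 228) (nat_lit 7401166569)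 (nat_lit 304) (nat_lit 5612046526) (nat_lit 54) (nat_lit 5) (nat_lit 57) (nat_lit 5) (nat_lit 58) (nat_lit 5) (nat_lit 350) (nat_lit 270) (nat_lit 160)) (XT.nd (nat_lit 78) (nat_lit 0) (nat_lit 0) (XT.lf (nat_lit 0) (nat_lit 289280566) (nat_lit 304) (nat_lit 24095038641) (nat_lit 76) (nat_lit 1229895207) (nat_lit 50) (nat_lit 5) (nat_lit 54) (nat_lit 5) (nat_lit 51) (nat_lit 5) (nat_lit 351) (nat_lit 270) (nat_lit 159)) (XT.lf (nat_lit 0) (nat_lit 6411040923) (nat_lit 304) (nat_lit 9650356753) (nat_lit 76) (nat_lit 10134436005) (nat_lit 50) (nat_lit 5) (nat_lit 54) (nat_lit 5) (nat_lit 51) (nat_lit 5) (nat_lit 352) (nat_lit 270) (nat_lit 158))))) (XT.nd (nat_lit 234) (nat_lit 456) (nat_lit 0) (XT.nd (nat_lit 78) (nat_lit 152) (nat_lit 0) (XT.lf (nat_lit 0) (nat_lit 5266429982) (nat_lit 228) (nat_lit 7465716329) (nat_lit 304) (nat_lit 14062449947) (nat_lit 47) (nat_lit 5) (nat_lit 50) (nat_lit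 5) (nat_lit 51) (nat_lit 5) (nat_lit 353) (nat_lit 270) (nat_lit 157)) (XT.nd (nat_lit 78) (nat_lit 152) (nat_lit 0) (XT.lf (nat_lit 0) (nat_lit 19299491204) (nat_lit 304) (nat_lit 6686751583) (nat_lit 76) (nat_lit 1423955124) (nat_lit 47) (nat_lit 5) (nat_lit 51) (nat_lit 5) (nat_lit 48) (nat_lit 5) (nat_lit 354) (nat_lit 270) (nat_lit 156)) (XT.lf (nat_lit 0) (nat_lit 8633982359) (nat_lit 152) (nat_lit 17518157845) (nat_lit 228) (nat_lit 1890369817) (nat_lit 45) (nat_lit 5) (nat_lit 47) (nat_lit 5) (nat_lit 48) (nat_lit 5) (nat_lit 355) (nat_lit 270) (nat_lit 155)))) (XT.nd (nat_lit 156) (nat_lit 152) (nat_lit 0) (XT.nd (nat_lit 78) (nat_lit 228) (nat_lit 0) (XT.lf (nat_lit 0) (nat_lit 4485458777) (nat_lit 228) (nat_lit 4245641108) (nat_lit 76) (nat_lit 19961550465) (nat_lit 44) (nat_lit 5) (nat_lit 47) (nat_lit 5) (nat_lit 45) (nat_lit 5) (nat_lit 356) (nat_lit 270) (nat_lit 154)) (XT.lf (nat_lit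 0) (nat_lit 11087169181) (nat_lit 304) (nat_lit 17881554378) (nat_lit 76) (nat_lit 392123101) (nat_lit 41) (nat_lit 5) (nat_lit 45) (nat_lit 5) (nat_lit 42) (nat_lit 5) (nat_lit 357) (nat_lit 270) (nat_lit 153))) (XT.nd (nat_lit 78) (nat_lit 152) (nat_lit 0) (XT.lf (nat_lit 0) (nat_lit 17957538485) (nat_lit 304) (nat_lit 2400970487) (nat_lit 76) (nat_lit 9689174987) (nat_lit 41) (nat_lit 5) (nat_lit 45) (nat_lit 5) (nat_lit 42) (nat_lit 5) (nat_lit 358) (nat_lit 270) (nat_lit 152)) (XT.lf (nat_lit 0) (nat_lit 13696511240) (nat_lit 152) (nat_lit 11410180599) (nat_lit 228) (nat_lit 5646988120) (nat_lit 39) (nat_lit 5) (nat_lit 41) (nat_lit 5) (nat_lit 42) (nat_lit 5) (nat_lit 359) (nat_lit 270) (nat_lit 151))))))))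
noncomputable def xc71 : XT := (XT.nd (nat_lit 2028) (nat_lit 12768) (nat_lit 0) (XT.nd (nat_lit 1014) (nat_lit 12084) (nat_lit 0) (XT.nd (nat_lit 468) (nat_lit 2128) (nat_lit 0) (XT.nd (nat_lit 234) (nat_lit 988) (nat_lit 0) (XT.nd (nat_lit 78) (nat_lit 988) (nat_lit 0) (XT.lf (nat_lit 0) (nat_lit 1657063221) (nat_lit 988) (nat_lit 914462633) (nat_lit 988) (nat_lit 914462633) (nat_lit 519) (nat_lit 3) (nat_lit 532) (nat_lit 3) (nat_lit 532) (nat_lit 5) (nat_lit 271) (nat_lit 271) (nat_lit 238)) (XT.nd (nat_lit 78) (nat_lit 988) (nat_lit 0) (XT.lf (nat_lit 76) (nat_lit 2918275637) (nat_lit 0) (nat_lit 3028063002) (nat_lit 988) (nat_lit 1074988274) (nat_lit 520) (nat_lit 5) (nat_lit 519) (nat_lit 3) (nat_lit 532) (nat_lit 5) (nat_lit 272) (nat_lit 271) (nat_lit 237)) (XT.lf (nat_lit 76) (nat_lit 706655136) (nat_lit 0) (nat_lit 773788840) (nat_lit 1064) (nat_lit 5593326945) (nat_lit 507) (nat_lit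 5) (nat_lit 506) (nat_lit 5) (nat_lit 520) (nat_lit 5) (nat_lit 273) (nat_lit 271) (nat_lit 236)))) (XT.nd (nat_lit 78) (nat_lit 1064) (nat_lit 0) (XT.lf (nat_lit 0) (nat_lit 4037776460) (nat_lit 988) (nat_lit 1482636318) (nat_lit 1064) (nat_lit 1608569494) (nat_lit 507) (nat_lit 5) (nat_lit 520) (nat_lit 5) (nat_lit 521) (nat_lit 5) (nat_lit 274) (nat_lit 271) (nat_lit 235)) (XT.nd (nat_lit 78) (nat_lit 1064) (nat_lit 0) (XT.lf (nat_lit 76) (nat_lit 3536383498) (nat_lit 0) (nat_lit 3068162971) (nat_lit 1064) (nat_lit 582778246) (nat_lit 508) (nat_lit 5) (nat_lit 507) (nat_lit 5) (nat_lit 521) (nat_lit 5) (nat_lit 275) (nat_lit 271) (nat_lit 234)) (XT.lf (nat_lit 76) (nat_lit 1431057918) (nat_lit 0) (nat_lit 469288998) (nat_lit 1140) (nat_lit 5348419840) (nat_lit 494) (nat_lit 5) (nat_lit 493) (nat_lit 5) (nat_lit 508) (nat_lit 5) (nat_lit 276) (nat_lit 271) (nat_lit 233))))) (XT.nd (nat_lit 234)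 (nat_lit 1140) (nat_lit 0) (XT.nd (nat_lit 78) (nat_lit 1064) (nat_lit 0) (XT.lf (nat_lit 0) (nat_lit 4398248756) (nat_lit 1064) (nat_lit 669489095) (nat_lit 1140) (nat_lit 2245392459) (nat_lit 494) (nat_lit 5) (nat_lit 508) (nat_lit 5) (nat_lit 509) (nat_lit 5) (nat_lit 277) (nat_lit 271) (nat_lit 232)) (XT.nd (nat_lit 78) (nat_lit 1064) (nat_lit 0) (XT.lf (nat_lit 76) (nat_lit 4637432966) (nat_lit 0) (nat_lit 2278473971) (nat_lit 1140) (nat_lit 464737280) (nat_lit 495) (nat_lit 5) (nat_lit 494) (nat_lit 5) (nat_lit 509) (nat_lit 5) (nat_lit 278) (nat_lit 271) (nat_lit 231)) (XT.lf (nat_lit 0) (nat_lit 1970980415) (nat_lit 1140) (nat_lit 4825734199) (nat_lit 1216) (nat_lit 654530382) (nat_lit 480) (nat_lit 5) (nat_lit 495) (nat_lit 5) (nat_lit 496) (nat_lit 5) (nat_lit 279) (nat_lit 271) (nat_lit 230)))) (XT.nd (nat_lit 156) (nat_lit 1140) (nat_lit 0) (XT.nd (nat_lit 78) (nat_lit 0) (nat_lit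 0) (XT.lf (nat_lit 76) (nat_lit 603743677) (nat_lit 0) (nat_lit 3823133846) (nat_lit 1216) (nat_lit 3098063443) (nat_lit 481) (nat_lit 5) (nat_lit 480) (nat_lit 5) (nat_lit 496) (nat_lit 5) (nat_lit 280) (nat_lit 271) (nat_lit 229)) (XT.lf (nat_lit 76) (nat_lit 6208094587) (nat_lit 0) (nat_lit 698684102) (nat_lit 1216) (nat_lit 695166507) (nat_lit 481) (nat_lit 5) (nat_lit 480) (nat_lit 5) (nat_lit 496) (nat_lit 5) (nat_lit 281) (nat_lit 271) (nat_lit 228))) (XT.nd (nat_lit 78) (nat_lit 0) (nat_lit 0) (XT.lf (nat_lit 0) (nat_lit 1720521279) (nat_lit 1216) (nat_lit 3408608893) (nat_lit 1292) (nat_lit 2552716253) (nat_lit 465) (nat_lit 5) (nat_lit 481) (nat_lit 5) (nat_lit 482) (nat_lit 5) (nat_lit 282) (nat_lit 271) (nat_lit 227)) (XT.lf (nat_lit 76) (nat_lit 2332035983) (nat_lit 0) (nat_lit 1818143169) (nat_lit 1292) (nat_lit 3614950797) (nat_lit 466) (nat_lit 5) (nat_lit 465) (nat_lit 5) (nat_lit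 482) (nat_lit 5) (nat_lit 283) (nat_lit 271) (nat_lit 226)))))) (XT.nd (nat_lit 468) (nat_lit 8208) (nat_lit 0) (XT.nd (nat_lit 234) (nat_lit 2660) (nat_lit 0) (XT.nd (nat_lit 78) (nat_lit 1292) (nat_lit 0) (XT.lf (nat_lit 76) (nat_lit 380090654) (nat_lit 0) (nat_lit 6232344294) (nat_lit 1292) (nat_lit 1239376106) (nat_lit 467) (nat_lit 5) (nat_lit 466) (nat_lit 5) (nat_lit 483) (nat_lit 5) (nat_lit 284) (nat_lit 271) (nat_lit 225)) (XT.nd (nat_lit 78) (nat_lit 0) (nat_lit 76) (XT.lf (nat_lit 0) (nat_lit 1165787342) (nat_lit 1292) (nat_lit 1574255934) (nat_lit 1368) (nat_lit 5201498120) (nat_lit 449) (nat_lit 5) (nat_lit 466) (nat_lit 5) (nat_lit 467) (nat_lit 5) (nat_lit 285) (nat_lit 271) (nat_lit 224)) (XT.lf (nat_lit 0) (nat_lit 3588618944) (nat_lit 1292) (nat_lit 3543947559) (nat_lit 76) (nat_lit 902072435) (nat_lit 450) (nat_lit 5) (nat_lit 467) (nat_lit 5) (nat_lit 451) (nat_lit 5) (nat_lit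 286) (nat_lit 271) (nat_lit 223)))) (XT.nd (nat_lit 78) (nat_lit 1444) (nat_lit 0) (XT.lf (nat_lit 0) (nat_lit 2589568254) (nat_lit 1292) (nat_lit 3469461009) (nat_lit 1368) (nat_lit 2072085923) (nat_lit 433) (nat_lit 5) (nat_lit 450) (nat_lit 5) (nat_lit 451) (nat_lit 5) (nat_lit 287) (nat_lit 271) (nat_lit 222)) (XT.nd (nat_lit 78) (nat_lit 0) (nat_lit 0) (XT.lf (nat_lit 0) (nat_lit 329211855) (nat_lit 1444) (nat_lit 7556660222) (nat_lit 76) (nat_lit 345424057) (nat_lit 414) (nat_lit 5) (nat_lit 433) (nat_lit 5) (nat_lit 415) (nat_lit 5) (nat_lit 288) (nat_lit 271) (nat_lit 221)) (XT.lf (nat_lit 0) (nat_lit 2767529681) (nat_lit 1444) (nat_lit 1273458433) (nat_lit 76) (nat_lit 4293435120) (nat_lit 414) (nat_lit 5) (nat_lit 433) (nat_lit 5) (nat_lit 415) (nat_lit 5) (nat_lit 289) (nat_lit 271) (nat_lit 220))))) (XT.nd (nat_lit 234) (nat_lit 3572) (nat_lit 0) (XT.nd (nat_lit 78) (nat_lit 3192)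 (nat_lit 0) (XT.lf (nat_lit 0) (nat_lit 5212645653) (nat_lit 1444) (nat_lit 34147176) (nat_lit 1520) (nat_lit 3194570458) (nat_lit 395) (nat_lit 5) (nat_lit 414) (nat_lit 5) (nat_lit 415) (nat_lit 5) (nat_lit 290) (nat_lit 271) (nat_lit 219)) (XT.nd (nat_lit 78) (nat_lit 1672) (nat_lit 0) (XT.lf (nat_lit 0) (nat_lit 3321841488) (nat_lit 1520) (nat_lit 4471025142) (nat_lit 1596) (nat_lit 758869126) (nat_lit 375) (nat_lit 5) (nat_lit 395) (nat_lit 5) (nat_lit 396) (nat_lit 5) (nat_lit 291) (nat_lit 271) (nat_lit 218)) (XT.lf (nat_lit 0) (nat_lit 1400213940) (nat_lit 1596) (nat_lit 294728220) (nat_lit 1672) (nat_lit 6970959583) (nat_lit 353) (nat_lit 5) (nat_lit 374) (nat_lit 5) (nat_lit 375) (nat_lit 5) (nat_lit 292) (nat_lit 271) (nat_lit 217)))) (XT.nd (nat_lit 156) (nat_lit 1900) (nat_lit 0) (XT.nd (nat_lit 78) (nat_lit 1672) (nat_lit 0) (XT.lf (nat_lit 0) (nat_lit 4212001897) (nat_lit 1672)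 (nat_lit 568314521) (nat_lit 76) (nat_lit 4003144427) (nat_lit 353) (nat_lit 5) (nat_lit 375) (nat_lit 5) (nat_lit 354) (nat_lit 5) (nat_lit 293) (nat_lit 271) (nat_lit 216)) (XT.lf (nat_lit 0) (nat_lit 6357978662) (nat_lit 1672) (nat_lit 429842172) (nat_lit 1748) (nat_lit 2117126314) (nat_lit 331) (nat_lit 5) (nat_lit 353) (nat_lit 5) (nat_lit 354) (nat_lit 5) (nat_lit 294) (nat_lit 271) (nat_lit 215))) (XT.nd (nat_lit 78) (nat_lit 836) (nat_lit 0) (XT.lf (nat_lit 0) (nat_lit 405889584) (nat_lit 1064) (nat_lit 4584779062) (nat_lit 76) (nat_lit 4039409447) (nat_lit 317) (nat_lit 5) (nat_lit 331) (nat_lit 5) (nat_lit 318) (nat_lit 5) (nat_lit 295) (nat_lit 271) (nat_lit 214)) (XT.lf (nat_lit 0) (nat_lit 2485250044) (nat_lit 836) (nat_lit 469494384) (nat_lit 912) (nat_lit 6204420832) (nat_lit 306) (nat_lit 5) (nat_lit 317) (nat_lit 5) (nat_lit 318) (nat_lit 5) (nat_lit 296) (nat_lit 271) (nat_lit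 213))))))) (XT.nd (nat_lit 1014) (nat_lit 5472) (nat_lit 0) (XT.nd (nat_lit 468) (nat_lit 4180) (nat_lit 0) (XT.nd (nat_lit 234) (nat_lit 1444) (nat_lit 0) (XT.nd (nat_lit 78) (nat_lit 836) (nat_lit 0) (XT.lf (nat_lit 0) (nat_lit 463204161) (nat_lit 836) (nat_lit 5122050094) (nat_lit 912) (nat_lit 3706825659) (nat_lit 295) (nat_lit 5) (nat_lit 306) (nat_lit 5) (nat_lit 307) (nat_lit 5) (nat_lit 297) (nat_lit 271) (nat_lit 212)) (XT.nd (nat_lit 78) (nat_lit 836) (nat_lit 0) (XT.lf (nat_lit 0) (nat_lit 7849375394) (nat_lit 836) (nat_lit 438662573) (nat_lit 912) (nat_lit 1141133815) (nat_lit 295) (nat_lit 5) (nat_lit 306) (nat_lit 5) (nat_lit 307) (nat_lit 5) (nat_lit 298) (nat_lit 271) (nat_lit 211)) (XT.lf (nat_lit 0) (nat_lit 1495162608) (nat_lit 836) (nat_lit 3697384671) (nat_lit 76) (nat_lit 4377421824) (nat_lit 284) (nat_lit 5) (nat_lit 295) (nat_lit 5) (nat_lit 285) (nat_lit 5) (nat_lit 299)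 (nat_lit 271) (nat_lit 210)))) (XT.nd (nat_lit 78) (nat_lit 684) (nat_lit 0) (XT.lf (nat_lit 0) (nat_lit 3842431908) (nat_lit 760) (nat_lit 338804417) (nat_lit 836) (nat_lit 5533931947) (nat_lit 274) (nat_lit 5) (nat_lit 284) (nat_lit 5) (nat_lit 285) (nat_lit 5) (nat_lit 300) (nat_lit 271) (nat_lit 209)) (XT.nd (nat_lit 78) (nat_lit 0) (nat_lit 0) (XT.lf (nat_lit 0) (nat_lit 1734218921) (nat_lit 684) (nat_lit 5229050089) (nat_lit 760) (nat_lit 2901197966) (nat_lit 265) (nat_lit 5) (nat_lit 274) (nat_lit 5) (nat_lit 275) (nat_lit 5) (nat_lit 301) (nat_lit 271) (nat_lit 208)) (XT.lf (nat_lit 0) (nat_lit 9595401305) (nat_lit 684) (nat_lit 225202731) (nat_lit 760) (nat_lit 197853384) (nat_lit 265) (nat_lit 5) (nat_lit 274) (nat_lit 5) (nat_lit 275) (nat_lit 5) (nat_lit 302) (nat_lit 271) (nat_lit 207))))) (XT.nd (nat_lit 234) (nat_lit 1976) (nat_lit 0) (XT.nd (nat_lit 78) (nat_lit 1368) (nat_lit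 0) (XT.lf (nat_lit 0) (nat_lit 2584972854) (nat_lit 836) (nat_lit 2662931271) (nat_lit 76) (nat_lit 4928228693) (nat_lit 254) (nat_lit 5) (nat_lit 265) (nat_lit 5) (nat_lit 255) (nat_lit 5) (nat_lit 303) (nat_lit 271) (nat_lit 206)) (XT.nd (nat_lit 78) (nat_lit 684) (nat_lit 0) (XT.lf (nat_lit 0) (nat_lit 5371035930) (nat_lit 684) (nat_lit 68813706) (nat_lit 760) (nat_lit 4898883451) (nat_lit 245) (nat_lit 5) (nat_lit 254) (nat_lit 5) (nat_lit 255) (nat_lit 5) (nat_lit 304) (nat_lit 271) (nat_lit 205)) (XT.lf (nat_lit 0) (nat_lit 3131848861) (nat_lit 684) (nat_lit 5274231600) (nat_lit 760) (nat_lit 2099661255) (nat_lit 236) (nat_lit 5) (nat_lit 245) (nat_lit 5) (nat_lit 246) (nat_lit 5) (nat_lit 305) (nat_lit 271) (nat_lit 204)))) (XT.nd (nat_lit 156) (nat_lit 1292) (nat_lit 0) (XT.nd (nat_lit 78) (nat_lit 0) (nat_lit 0) (XT.lf (nat_lit 0) (nat_lit 766976814) (nat_lit 684) (nat_lit 9859272745)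 (nat_lit 76) (nat_lit 51577355) (nat_lit 227) (nat_lit 5) (nat_lit 236) (nat_lit 5) (nat_lit 228) (nat_lit 5) (nat_lit 306) (nat_lit 271) (nat_lit 203)) (XT.lf (nat_lit 0) (nat_lit 3731519723) (nat_lit 684) (nat_lit 1597450014) (nat_lit 76) (nat_lit 5525059846) (nat_lit 227) (nat_lit 5) (nat_lit 236) (nat_lit 5) (nat_lit 228) (nat_lit 5) (nat_lit 307) (nat_lit 271) (nat_lit 202))) (XT.nd (nat_lit 78) (nat_lit 608) (nat_lit 0) (XT.lf (nat_lit 0) (nat_lit 6787250687) (nat_lit 760) (nat_lit 4083140375) (nat_lit 76) (nat_lit 165122166) (nat_lit 218) (nat_lit 5) (nat_lit 228) (nat_lit 5) (nat_lit 219) (nat_lit 5) (nat_lit 308) (nat_lit 271) (nat_lit 201)) (XT.lf (nat_lit 0) (nat_lit 4532069872) (nat_lit 608) (nat_lit 5435483749) (nat_lit 684) (nat_lit 1254268530) (nat_lit 210) (nat_lit 5) (nat_lit 218) (nat_lit 5) (nat_lit 219) (nat_lit 5) (nat_lit 309) (nat_lit 271) (nat_lit 200)))))) (XT.nd (nat_lit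 546) (nat_lit 2508) (nat_lit 0) (XT.nd (nat_lit 234) (nat_lit 1748) (nat_lit 0) (XT.nd (nat_lit 78) (nat_lit 532) (nat_lit 0) (XT.lf (nat_lit 0) (nat_lit 1805388946) (nat_lit 684) (nat_lit 9401889239) (nat_lit 76) (nat_lit 206244713) (nat_lit 201) (nat_lit 5) (nat_lit 210) (nat_lit 5) (nat_lit 202) (nat_lit 5) (nat_lit 310) (nat_lit 271) (nat_lit 199)) (XT.nd (nat_lit 78) (nat_lit 532) (nat_lit 0) (XT.lf (nat_lit 0) (nat_lit 4980303886) (nat_lit 684) (nat_lit 639265941) (nat_lit 76) (nat_lit 5990464688) (nat_lit 201) (nat_lit 5) (nat_lit 210) (nat_lit 5) (nat_lit 202) (nat_lit 5) (nat_lit 311) (nat_lit 271) (nat_lit 198)) (XT.lf (nat_lit 0) (nat_lit 8266154210) (nat_lit 608) (nat_lit 3364678711) (nat_lit 76) (nat_lit 181329583) (nat_lit 194) (nat_lit 5) (nat_lit 202) (nat_lit 5) (nat_lit 195) (nat_lit 5) (nat_lit 312) (nat_lit 271) (nat_lit 197)))) (XT.nd (nat_lit 156) (nat_lit 532) (nat_lit 0)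 (XT.nd (nat_lit 78) (nat_lit 608) (nat_lit 0) (XT.lf (nat_lit 0) (nat_lit 5785255470) (nat_lit 608) (nat_lit 5905282195) (nat_lit 684) (nat_lit 329051284) (nat_lit 186) (nat_lit 5) (nat_lit 194) (nat_lit 5) (nat_lit 195) (nat_lit 5) (nat_lit 313) (nat_lit 271) (nat_lit 196)) (XT.lf (nat_lit 0) (nat_lit 2948974945) (nat_lit 608) (nat_lit 9238499018) (nat_lit 76) (nat_lit 45334800) (nat_lit 178) (nat_lit 5) (nat_lit 186) (nat_lit 5) (nat_lit 179) (nat_lit 5) (nat_lit 314) (nat_lit 271) (nat_lit 195))) (XT.nd (nat_lit 78) (nat_lit 0) (nat_lit 0) (XT.lf (nat_lit 0) (nat_lit 44126117) (nat_lit 532) (nat_lit 6320852411) (nat_lit 608) (nat_lit 6086552207) (nat_lit 171) (nat_lit 5) (nat_lit 178) (nat_lit 5) (nat_lit 179) (nat_lit 5) (nat_lit 315) (nat_lit 271) (nat_lit 194)) (XT.lf (nat_lit 0) (nat_lit 9684417954) (nat_lit 532) (nat_lit 224231876) (nat_lit 608) (nat_lit 2767691082) (nat_lit 171) (nat_lit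 5) (nat_lit 178) (nat_lit 5) (nat_lit 179) (nat_lit 5) (nat_lit 316) (nat_lit 271) (nat_lit 193))))) (XT.nd (nat_lit 234) (nat_lit 988) (nat_lit 0) (XT.nd (nat_lit 78) (nat_lit 988) (nat_lit 0) (XT.lf (nat_lit 0) (nat_lit 688960789) (nat_lit 532) (nat_lit 6203428796) (nat_lit 76) (nat_lit 6014514959) (nat_lit 164) (nat_lit 5) (nat_lit 171) (nat_lit 5) (nat_lit 165) (nat_lit 5) (nat_lit 317) (nat_lit 271) (nat_lit 192)) (XT.nd (nat_lit 78) (nat_lit 456) (nat_lit 0) (XT.lf (nat_lit 0) (nat_lit 3567013952) (nat_lit 532) (nat_lit 654088404) (nat_lit 608) (nat_lit 8922756995) (nat_lit 157) (nat_lit 5) (nat_lit 164) (nat_lit 5) (nat_lit 165) (nat_lit 5) (nat_lit 318) (nat_lit 271) (nat_lit 191)) (XT.lf (nat_lit 0) (nat_lit 247652882) (nat_lit 456) (nat_lit 7657741482) (nat_lit 532) (nat_lit 5481631897) (nat_lit 151) (nat_lit 5) (nat_lit 157) (nat_lit 5) (nat_lit 158) (nat_lit 5) (nat_lit 319) (nat_lit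 271) (nat_lit 190)))) (XT.nd (nat_lit 156) (nat_lit 456) (nat_lit 0) (XT.nd (nat_lit 78) (nat_lit 532) (nat_lit 0) (XT.lf (nat_lit 0) (nat_lit 10448046820) (nat_lit 456) (nat_lit 1286931507) (nat_lit 532) (nat_lit 1901840979) (nat_lit 151) (nat_lit 5) (nat_lit 157) (nat_lit 5) (nat_lit 158) (nat_lit 5) (nat_lit 320) (nat_lit 271) (nat_lit 189)) (XT.lf (nat_lit 0) (nat_lit 1808847364) (nat_lit 532) (nat_lit 6831020809) (nat_lit 76) (nat_lit 5253092882) (nat_lit 144) (nat_lit 5) (nat_lit 151) (nat_lit 5) (nat_lit 145) (nat_lit 5) (nat_lit 321) (nat_lit 271) (nat_lit 188))) (XT.nd (nat_lit 78) (nat_lit 0) (nat_lit 0) (XT.lf (nat_lit 0) (nat_lit 3487201042) (nat_lit 456) (nat_lit 2137868332) (nat_lit 532) (nat_lit 8531089616) (nat_lit 138) (nat_lit 5) (nat_lit 144) (nat_lit 5) (nat_lit 145) (nat_lit 5) (nat_lit 322) (nat_lit 271) (nat_lit 187)) (XT.lf (nat_lit 0) (nat_lit 9599486069) (nat_lit 532)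 (nat_lit 292171035) (nat_lit 76) (nat_lit 4534745277) (nat_lit 138) (nat_lit 5) (nat_lit 145) (nat_lit 5) (nat_lit 139) (nat_lit 5) (nat_lit 323) (nat_lit 271) (nat_lit 186))))))))
noncomputable def xc72 : XT := (XT.nd (nat_lit 2028) (nat_lit 1216) (nat_lit 0) (XT.nd (nat_lit 1014) (nat_lit 2280) (nat_lit 0) (XT.nd (nat_lit 468) (nat_lit 1748) (nat_lit 0) (XT.nd (nat_lit 234) (nat_lit 836) (nat_lit 0) (XT.nd (nat_lit 78) (nat_lit 836) (nat_lit 0) (XT.lf (nat_lit 0) (nat_lit 10475899659) (nat_lit 456) (nat_lit 3268006270) (nat_lit 532) (nat_lit 959854718) (nat_lit 132) (nat_lit 5) (nat_lit 138) (nat_lit 5) (nat_lit 139) (nat_lit 5) (nat_lit 324) (nat_lit 271) (nat_lit 185)) (XT.nd (nat_lit 78) (nat_lit 380) (nat_lit 0) (XT.lf (nat_lit 0) (nat_lit 3020752832) (nat_lit 456) (nat_lit 8406468969) (nat_lit 76) (nat_lit 3561103487) (nat_lit 126) (nat_lit 5) (nat_lit 132) (nat_lit 5) (nat_lit 127) (nat_lit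 5) (nat_lit 325) (nat_lit 271) (nat_lit 184)) (XT.lf (nat_lit 0) (nat_lit 2453890366) (nat_lit 380) (nat_lit 4689978967) (nat_lit 456) (nat_lit 8136729256) (nat_lit 121) (nat_lit 5) (nat_lit 126) (nat_lit 5) (nat_lit 127) (nat_lit 5) (nat_lit 326) (nat_lit 271) (nat_lit 183)))) (XT.nd (nat_lit 78) (nat_lit 836) (nat_lit 0) (XT.lf (nat_lit 0) (nat_lit 11432596238) (nat_lit 456) (nat_lit 1882913732) (nat_lit 76) (nat_lit 2265312407) (nat_lit 121) (nat_lit 5) (nat_lit 127) (nat_lit 5) (nat_lit 122) (nat_lit 5) (nat_lit 327) (nat_lit 271) (nat_lit 182)) (XT.nd (nat_lit 78) (nat_lit 380) (nat_lit 0) (XT.lf (nat_lit 0) (nat_lit 24360086) (nat_lit 456) (nat_lit 6448642137) (nat_lit 76) (nat_lit 9415797440) (nat_lit 115) (nat_lit 5) (nat_lit 121) (nat_lit 5) (nat_lit 116) (nat_lit 5) (nat_lit 328) (nat_lit 271) (nat_lit 181)) (XT.lf (nat_lit 0) (nat_lit 4286219544) (nat_lit 456) (nat_lit 11290729413)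 (nat_lit 76) (nat_lit 628128901) (nat_lit 110) (nat_lit 5) (nat_lit 116) (nat_lit 5) (nat_lit 111) (nat_lit 5) (nat_lit 329) (nat_lit 271) (nat_lit 180))))) (XT.nd (nat_lit 234) (nat_lit 988) (nat_lit 0) (XT.nd (nat_lit 78) (nat_lit 456) (nat_lit 0) (XT.lf (nat_lit 0) (nat_lit 93284885) (nat_lit 304) (nat_lit 8642249508) (nat_lit 380) (nat_lit 7794136518) (nat_lit 106) (nat_lit 5) (nat_lit 110) (nat_lit 5) (nat_lit 111) (nat_lit 5) (nat_lit 330) (nat_lit 271) (nat_lit 179)) (XT.nd (nat_lit 78) (nat_lit 456) (nat_lit 0) (XT.lf (nat_lit 0) (nat_lit 11933142610) (nat_lit 304) (nat_lit 1433976856) (nat_lit 380) (nat_lit 3495924440) (nat_lit 106) (nat_lit 5) (nat_lit 110) (nat_lit 5) (nat_lit 111) (nat_lit 5) (nat_lit 331) (nat_lit 271) (nat_lit 178)) (XT.lf (nat_lit 0) (nat_lit 976306848) (nat_lit 456) (nat_lit 10277423625) (nat_lit 76) (nat_lit 5951438072) (nat_lit 100) (nat_lit 5) (nat_lit 106)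 (nat_lit 5) (nat_lit 101) (nat_lit 5) (nat_lit 332) (nat_lit 271) (nat_lit 177)))) (XT.nd (nat_lit 156) (nat_lit 684) (nat_lit 0) (XT.nd (nat_lit 78) (nat_lit 0) (nat_lit 0) (XT.lf (nat_lit 0) (nat_lit 1600250019) (nat_lit 304) (nat_lit 3962188649) (nat_lit 380) (nat_lit 11994128108) (nat_lit 96) (nat_lit 5) (nat_lit 100) (nat_lit 5) (nat_lit 101) (nat_lit 5) (nat_lit 333) (nat_lit 271) (nat_lit 176)) (XT.lf (nat_lit 0) (nat_lit 10353091007) (nat_lit 380) (nat_lit 4004760384) (nat_lit 76) (nat_lit 3559332949) (nat_lit 96) (nat_lit 5) (nat_lit 101) (nat_lit 5) (nat_lit 97) (nat_lit 5) (nat_lit 334) (nat_lit 271) (nat_lit 175))) (XT.nd (nat_lit 78) (nat_lit 380) (nat_lit 0) (XT.lf (nat_lit 0) (nat_lit 8350419985) (nat_lit 304) (nat_lit 6992315211) (nat_lit 380) (nat_lit 2944795440) (nat_lit 92) (nat_lit 5) (nat_lit 96) (nat_lit 5) (nat_lit 97) (nat_lit 5) (nat_lit 335) (nat_lit 271) (nat_lit 174))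 (XT.lf (nat_lit 0) (nat_lit 1811512473) (nat_lit 380) (nat_lit 16227476908) (nat_lit 76) (nat_lit 629333201) (nat_lit 87) (nat_lit 5) (nat_lit 92) (nat_lit 5) (nat_lit 88) (nat_lit 5) (nat_lit 336) (nat_lit 271) (nat_lit 173)))))) (XT.nd (nat_lit 468) (nat_lit 1140) (nat_lit 0) (XT.nd (nat_lit 234) (nat_lit 608) (nat_lit 0) (XT.nd (nat_lit 78) (nat_lit 532) (nat_lit 0) (XT.lf (nat_lit 0) (nat_lit 6760560834) (nat_lit 380) (nat_lit 3837421259) (nat_lit 76) (nat_lit 8460380166) (nat_lit 87) (nat_lit 5) (nat_lit 92) (nat_lit 5) (nat_lit 88) (nat_lit 5) (nat_lit 337) (nat_lit 271) (nat_lit 172)) (XT.nd (nat_lit 78) (nat_lit 228) (nat_lit 0) (XT.lf (nat_lit 0) (nat_lit 9006052699) (nat_lit 304) (nat_lit 2886508713) (nat_lit 380) (nat_lit 7566866139) (nat_lit 83) (nat_lit 5) (nat_lit 87) (nat_lit 5) (nat_lit 88) (nat_lit 5) (nat_lit 338) (nat_lit 271) (nat_lit 171)) (XT.lf (nat_lit 0) (nat_lit 2377317974)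 (nat_lit 228) (nat_lit 14852037926) (nat_lit 304) (nat_lit 2642165855) (nat_lit 80) (nat_lit 5) (nat_lit 83) (nat_lit 5) (nat_lit 84) (nat_lit 5) (nat_lit 339) (nat_lit 271) (nat_lit 170)))) (XT.nd (nat_lit 78) (nat_lit 532) (nat_lit 0) (XT.lf (nat_lit 0) (nat_lit 2465693722) (nat_lit 304) (nat_lit 4630043028) (nat_lit 76) (nat_lit 13198593597) (nat_lit 79) (nat_lit 5) (nat_lit 83) (nat_lit 5) (nat_lit 80) (nat_lit 5) (nat_lit 340) (nat_lit 271) (nat_lit 169)) (XT.nd (nat_lit 78) (nat_lit 228) (nat_lit 0) (XT.lf (nat_lit 0) (nat_lit 7731035288) (nat_lit 380) (nat_lit 12053689205) (nat_lit 76) (nat_lit 943959149) (nat_lit 75) (nat_lit 5) (nat_lit 80) (nat_lit 5) (nat_lit 76) (nat_lit 5) (nat_lit 341) (nat_lit 271) (nat_lit 168)) (XT.lf (nat_lit 0) (nat_lit 1200491568) (nat_lit 228) (nat_lit 12018395336) (nat_lit 304) (nat_lit 7955901866) (nat_lit 72) (nat_lit 5) (nat_lit 75) (nat_lit 5) (nat_lit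 76) (nat_lit 5) (nat_lit 342) (nat_lit 271) (nat_lit 167))))) (XT.nd (nat_lit 234) (nat_lit 760) (nat_lit 0) (XT.nd (nat_lit 78) (nat_lit 380) (nat_lit 0) (XT.lf (nat_lit 0) (nat_lit 14983141016) (nat_lit 228) (nat_lit 3948060516) (nat_lit 304) (nat_lit 2701890845) (nat_lit 72) (nat_lit 5) (nat_lit 75) (nat_lit 5) (nat_lit 76) (nat_lit 5) (nat_lit 343) (nat_lit 271) (nat_lit 166)) (XT.nd (nat_lit 78) (nat_lit 0) (nat_lit 0) (XT.lf (nat_lit 0) (nat_lit 2727719236) (nat_lit 380) (nat_lit 15016574015) (nat_lit 76) (nat_lit 4359440925) (nat_lit 67) (nat_lit 5) (nat_lit 72) (nat_lit 5) (nat_lit 68) (nat_lit 5) (nat_lit 344) (nat_lit 271) (nat_lit 165)) (XT.lf (nat_lit 0) (nat_lit 8334445359) (nat_lit 380) (nat_lit 1338213018) (nat_lit 76) (nat_lit 12914471919) (nat_lit 67) (nat_lit 5) (nat_lit 72) (nat_lit 5) (nat_lit 68) (nat_lit 5) (nat_lit 345) (nat_lit 271) (nat_lit 164)))) (XT.nd (nat_lit 156)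 (nat_lit 304) (nat_lit 0) (XT.nd (nat_lit 78) (nat_lit 228) (nat_lit 0) (XT.lf (nat_lit 0) (nat_lit 12887225779) (nat_lit 228) (nat_lit 1285396185) (nat_lit 304) (nat_lit 8911152015) (nat_lit 64) (nat_lit 5) (nat_lit 67) (nat_lit 5) (nat_lit 68) (nat_lit 5) (nat_lit 346) (nat_lit 271) (nat_lit 163)) (XT.lf (nat_lit 0) (nat_lit 3934302846) (nat_lit 228) (nat_lit 16313945747) (nat_lit 304) (nat_lit 3345832629) (nat_lit 61) (nat_lit 5) (nat_lit 64) (nat_lit 5) (nat_lit 65) (nat_lit 5) (nat_lit 347) (nat_lit 271) (nat_lit 162))) (XT.nd (nat_lit 78) (nat_lit 228) (nat_lit 0) (XT.lf (nat_lit 0) (nat_lit 2413425152) (nat_lit 304) (nat_lit 5546067780) (nat_lit 76) (nat_lit 16158739156) (nat_lit 60) (nat_lit 5) (nat_lit 64) (nat_lit 5) (nat_lit 61) (nat_lit 5) (nat_lit 348) (nat_lit 271) (nat_lit 161)) (XT.lf (nat_lit 0) (nat_lit 8344425330) (nat_lit 304) (nat_lit 15605003522) (nat_lit 76) (nat_lit 707357441)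 (nat_lit 57) (nat_lit 5) (nat_lit 61) (nat_lit 5) (nat_lit 58) (nat_lit 5) (nat_lit 349) (nat_lit 271) (nat_lit 160))))))) (XT.nd (nat_lit 34788) (nat_lit 0) (nat_lit 30932) (XT.nd (nat_lit 468) (nat_lit 456) (nat_lit 0) (XT.nd (nat_lit 234) (nat_lit 228) (nat_lit 0) (XT.nd (nat_lit 78) (nat_lit 532) (nat_lit 0) (XT.lf (nat_lit 0) (nat_lit 14525412312) (nat_lit 304) (nat_lit 1131477731) (nat_lit 76) (nat_lit 9553175224) (nat_lit 57) (nat_lit 5) (nat_lit 61) (nat_lit 5) (nat_lit 58) (nat_lit 5) (nat_lit 350) (nat_lit 271) (nat_lit 159)) (XT.nd (nat_lit 78) (nat_lit 304) (nat_lit 0) (XT.lf (nat_lit 0) (nat_lit 13929092704) (nat_lit 228) (nat_lit 7034723931) (nat_lit 304) (nat_lit 4814695231) (nat_lit 54) (nat_lit 5) (nat_lit 57) (nat_lit 5) (nat_lit 58) (nat_lit 5) (nat_lit 351) (nat_lit 271) (nat_lit 158)) (XT.lf (nat_lit 0) (nat_lit 1236949889) (nat_lit 304) (nat_lit 23279759220) (nat_lit 76)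 (nat_lit 1846716669) (nat_lit 50) (nat_lit 5) (nat_lit 54) (nat_lit 5) (nat_lit 51) (nat_lit 5) (nat_lit 352) (nat_lit 271) (nat_lit 157)))) (XT.nd (nat_lit 78) (nat_lit 228) (nat_lit 0) (XT.lf (nat_lit 0) (nat_lit 7515013808) (nat_lit 304) (nat_lit 8446536795) (nat_lit 76) (nat_lit 11001502683) (nat_lit 50) (nat_lit 5) (nat_lit 54) (nat_lit 5) (nat_lit 51) (nat_lit 5) (nat_lit 353) (nat_lit 271) (nat_lit 156)) (XT.nd (nat_lit 78) (nat_lit 0) (nat_lit 0) (XT.lf (nat_lit 0) (nat_lit 6893526026) (nat_lit 228) (nat_lit 7115212054) (nat_lit 304) (nat_lit 13571393254) (nat_lit 47) (nat_lit 5) (nat_lit 50) (nat_lit 5) (nat_lit 51) (nat_lit 5) (nat_lit 354) (nat_lit 271) (nat_lit 155)) (XT.lf (nat_lit 0) (nat_lit 20750667451) (nat_lit 304) (nat_lit 5446891918) (nat_lit 76) (nat_lit 2017102333) (nat_lit 47) (nat_lit 5) (nat_lit 51) (nat_lit 5) (nat_lit 48) (nat_lit 5) (nat_lit 355) (nat_lit 271) (nat_lit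 154))))) (XT.nd (nat_lit 234) (nat_lit 0) (nat_lit 0) (XT.nd (nat_lit 78) (nat_lit 304) (nat_lit 0) (XT.lf (nat_lit 0) (nat_lit 10310094254) (nat_lit 152) (nat_lit 17482598735) (nat_lit 228) (nat_lit 1073585847) (nat_lit 45) (nat_lit 5) (nat_lit 47) (nat_lit 5) (nat_lit 48) (nat_lit 5) (nat_lit 356) (nat_lit 271) (nat_lit 153)) (XT.nd (nat_lit 78) (nat_lit 228) (nat_lit 0) (XT.lf (nat_lit 0) (nat_lit 5456953628) (nat_lit 228) (nat_lit 2985701991) (nat_lit 76) (nat_lit 21093667532) (nat_lit 44) (nat_lit 5) (nat_lit 47) (nat_lit 5) (nat_lit 45) (nat_lit 5) (nat_lit 357) (nat_lit 271) (nat_lit 152)) (XT.lf (nat_lit 0) (nat_lit 12244727921) (nat_lit 304) (nat_lit 17039942426) (nat_lit 76) (nat_lit 940145472) (nat_lit 41) (nat_lit 5) (nat_lit 45) (nat_lit 5) (nat_lit 42) (nat_lit 5) (nat_lit 358) (nat_lit 271) (nat_lit 151)))) (XT.nd (nat_lit 33930) (nat_lit 0) (nat_lit 35340) (XT.nd (nat_lit 33852)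 (nat_lit 0) (nat_lit 35340) (XT.lf (nat_lit 0) (nat_lit 19297180818) (nat_lit 304) (nat_lit 1135078647) (nat_lit 76) (nat_lit 10500489730) (nat_lit 41) (nat_lit 5) (nat_lit 45) (nat_lit 5) (nat_lit 42) (nat_lit 5) (nat_lit 359) (nat_lit 271) (nat_lit 150)) (XT.lf (nat_lit 0) (nat_lit 352386795) (nat_lit 0) (nat_lit 352386795) (nat_lit 988) (nat_lit 2831286175) (nat_lit 506) (nat_lit 5) (nat_lit 506) (nat_lit 3) (nat_lit 519) (nat_lit 3) (nat_lit 272) (nat_lit 272) (nat_lit 236))) (XT.nd (nat_lit 78) (nat_lit 0) (nat_lit 0) (XT.lf (nat_lit 0) (nat_lit 3893322788) (nat_lit 988) (nat_lit 1594781105) (nat_lit 1064) (nat_lit 1637536725) (nat_lit 506) (nat_lit 5) (nat_lit 519) (nat_lit 3) (nat_lit 520) (nat_lit 5) (nat_lit 273) (nat_lit 272) (nat_lit 235)) (XT.lf (nat_lit 76) (nat_lit 3309453492) (nat_lit 0) (nat_lit 3072979902) (nat_lit 1064) (nat_lit 799846609) (nat_lit 507) (nat_lit 5) (nat_lit 506)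 (nat_lit 5) (nat_lit 520) (nat_lit 5) (nat_lit 274) (nat_lit 272) (nat_lit 234)))))) (XT.nd (nat_lit 468) (nat_lit 2356) (nat_lit 0) (XT.nd (nat_lit 234) (nat_lit 988) (nat_lit 0) (XT.nd (nat_lit 78) (nat_lit 0) (nat_lit 76) (XT.lf (nat_lit 76) (nat_lit 1094702777) (nat_lit 0) (nat_lit 512852327) (nat_lit 1140) (nat_lit 5634478363) (nat_lit 493) (nat_lit 5) (nat_lit 492) (nat_lit 5) (nat_lit 507) (nat_lit 5) (nat_lit 275) (nat_lit 272) (nat_lit 233)) (XT.nd (nat_lit 78) (nat_lit 0) (nat_lit 0) (XT.lf (nat_lit 0) (nat_lit 4025594138) (nat_lit 1064) (nat_lit 1110239213) (nat_lit 1140) (nat_lit 2168774110) (nat_lit 493) (nat_lit 5) (nat_lit 507) (nat_lit 5) (nat_lit 508) (nat_lit 5) (nat_lit 276) (nat_lit 272) (nat_lit 232)) (XT.lf (nat_lit 76) (nat_lit 4077388993) (nat_lit 0) (nat_lit 2380350156) (nat_lit 1140) (nat_lit 912604064) (nat_lit 494) (nat_lit 5) (nat_lit 493) (nat_lit 5) (nat_lit 508)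 (nat_lit 5) (nat_lit 277) (nat_lit 272) (nat_lit 231)))) (XT.nd (nat_lit 78) (nat_lit 0) (nat_lit 0) (XT.lf (nat_lit 0) (nat_lit 1441750368) (nat_lit 1140) (nat_lit 5480027190) (nat_lit 1216) (nat_lit 517446713) (nat_lit 479) (nat_lit 5) (nat_lit 494) (nat_lit 5) (nat_lit 495) (nat_lit 5) (nat_lit 278) (nat_lit 272) (nat_lit 230)) (XT.nd (nat_lit 78) (nat_lit 0) (nat_lit 0) (XT.lf (nat_lit 0) (nat_lit 3808442267) (nat_lit 1140) (nat_lit 170164291) (nat_lit 1216) (nat_lit 3532469487) (nat_lit 479) (nat_lit 5) (nat_lit 494) (nat_lit 5) (nat_lit 495) (nat_lit 5) (nat_lit 279) (nat_lit 272) (nat_lit 229)) (XT.lf (nat_lit 76) (nat_lit 5318006157) (nat_lit 0) (nat_lit 880767994) (nat_lit 1216) (nat_lit 1387360363) (nat_lit 480) (nat_lit 5) (nat_lit 479) (nat_lit 5) (nat_lit 495) (nat_lit 5) (nat_lit 280) (nat_lit 272) (nat_lit 228))))) (XT.nd (nat_lit 234) (nat_lit 1216) (nat_lit 0) (XT.nd (nat_lit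 78) (nat_lit 0) (nat_lit 0) (XT.lf (nat_lit 0) (nat_lit 941772207) (nat_lit 1216) (nat_lit 4384567561) (nat_lit 1292) (nat_lit 2337924744) (nat_lit 464) (nat_lit 5) (nat_lit 480) (nat_lit 5) (nat_lit 481) (nat_lit 5) (nat_lit 281) (nat_lit 272) (nat_lit 227)) (XT.nd (nat_lit 78) (nat_lit 0) (nat_lit 76) (XT.lf (nat_lit 76) (nat_lit 1229326492) (nat_lit 0) (nat_lit 2043798090) (nat_lit 1292) (nat_lit 4472502561) (nat_lit 465) (nat_lit 5) (nat_lit 464) (nat_lit 5) (nat_lit 481) (nat_lit 5) (nat_lit 282) (nat_lit 272) (nat_lit 226)) (XT.lf (nat_lit 0) (nat_lit 5636860972) (nat_lit 1216) (nat_lit 819097233) (nat_lit 1292) (nat_lit 1374316823) (nat_lit 465) (nat_lit 5) (nat_lit 481) (nat_lit 5) (nat_lit 482) (nat_lit 5) (nat_lit 283) (nat_lit 272) (nat_lit 225)))) (XT.nd (nat_lit 156) (nat_lit 0) (nat_lit 76) (XT.nd (nat_lit 78) (nat_lit 0) (nat_lit 76) (XT.lf (nat_lit 0) (nat_lit 124283040) (nat_lit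 1292) (nat_lit 2868823754) (nat_lit 1368) (nat_lit 4924979176) (nat_lit 448) (nat_lit 5) (nat_lit 465) (nat_lit 5) (nat_lit 466) (nat_lit 5) (nat_lit 284) (nat_lit 272) (nat_lit 224)) (XT.lf (nat_lit 0) (nat_lit 2438860762) (nat_lit 1292) (nat_lit 4943074480) (nat_lit 1368) (nat_lit 627249199) (nat_lit 449) (nat_lit 5) (nat_lit 466) (nat_lit 5) (nat_lit 467) (nat_lit 5) (nat_lit 285) (nat_lit 272) (nat_lit 223))) (XT.nd (nat_lit 78) (nat_lit 0) (nat_lit 76) (XT.lf (nat_lit 76) (nat_lit 1056950596) (nat_lit 0) (nat_lit 3741620240) (nat_lit 1368) (nat_lit 3305014788) (nat_lit 450) (nat_lit 5) (nat_lit 449) (nat_lit 5) (nat_lit 467) (nat_lit 5) (nat_lit 286) (nat_lit 272) (nat_lit 222)) (XT.lf (nat_lit 0) (nat_lit 7193927006) (nat_lit 1292) (nat_lit 949006966) (nat_lit 76) (nat_lit 58668991) (nat_lit 450) (nat_lit 5) (nat_lit 467) (nat_lit 5) (nat_lit 451) (nat_lit 5) (nat_lit 287) (nat_lit 272)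 (nat_lit 221))))))))
noncomputable def xc73 : XT := (XT.nd (nat_lit 2028) (nat_lit 8436) (nat_lit 0) (XT.nd (nat_lit 1014) (nat_lit 6840) (nat_lit 0) (XT.nd (nat_lit 468) (nat_lit 5244) (nat_lit 0) (XT.nd (nat_lit 234) (nat_lit 3192) (nat_lit 0) (XT.nd (nat_lit 78) (nat_lit 2812) (nat_lit 0) (XT.lf (nat_lit 0) (nat_lit 1333325035) (nat_lit 1368) (nat_lit 2986868224) (nat_lit 76) (nat_lit 3982417254) (nat_lit 432) (nat_lit 5) (nat_lit 450) (nat_lit 5) (nat_lit 433) (nat_lit 5) (nat_lit 288) (nat_lit 272) (nat_lit 220)) (XT.nd (nat_lit 78) (nat_lit 1444) (nat_lit 0) (XT.lf (nat_lit 0) (nat_lit 3360411701) (nat_lit 1368) (nat_lit 333027207) (nat_lit 1444) (nat_lit 4713899758) (nat_lit 414) (nat_lit 5) (nat_lit 432) (nat_lit 5) (nat_lit 433) (nat_lit 5) (nat_lit 289) (nat_lit 272) (nat_lit 219)) (XT.lf (nat_lit 0) (nat_lit 1365071354) (nat_lit 1444) (nat_lit 4748899073) (nat_lit 1520) (nat_lit 2401518821)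 (nat_lit 395) (nat_lit 5) (nat_lit 414) (nat_lit 5) (nat_lit 415) (nat_lit 5) (nat_lit 290) (nat_lit 272) (nat_lit 218)))) (XT.nd (nat_lit 78) (nat_lit 3192) (nat_lit 0) (XT.lf (nat_lit 0) (nat_lit 7984719043) (nat_lit 1444) (nat_lit 596219524) (nat_lit 1520) (nat_lit 46540113) (nat_lit 395) (nat_lit 5) (nat_lit 414) (nat_lit 5) (nat_lit 415) (nat_lit 5) (nat_lit 291) (nat_lit 272) (nat_lit 217)) (XT.nd (nat_lit 78) (nat_lit 1596) (nat_lit 0) (XT.lf (nat_lit 0) (nat_lit 2350410139) (nat_lit 1596) (nat_lit 2693933910) (nat_lit 76) (nat_lit 3698191667) (nat_lit 374) (nat_lit 5) (nat_lit 395) (nat_lit 5) (nat_lit 375) (nat_lit 5) (nat_lit 292) (nat_lit 272) (nat_lit 216)) (XT.lf (nat_lit 0) (nat_lit 4086396576) (nat_lit 1596) (nat_lit 707429608) (nat_lit 1672) (nat_lit 4067773713) (nat_lit 353) (nat_lit 5) (nat_lit 374) (nat_lit 5) (nat_lit 375) (nat_lit 5) (nat_lit 293) (nat_lit 272) (nat_lit 215)))))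 (XT.nd (nat_lit 234) (nat_lit 2508) (nat_lit 0) (XT.nd (nat_lit 78) (nat_lit 1064) (nat_lit 0) (XT.lf (nat_lit 0) (nat_lit 2073950096) (nat_lit 1672) (nat_lit 5234589583) (nat_lit 1748) (nat_lit 1675799898) (nat_lit 331) (nat_lit 5) (nat_lit 353) (nat_lit 5) (nat_lit 354) (nat_lit 5) (nat_lit 294) (nat_lit 272) (nat_lit 214)) (XT.nd (nat_lit 78) (nat_lit 0) (nat_lit 0) (XT.lf (nat_lit 0) (nat_lit 22216532) (nat_lit 988) (nat_lit 735502285) (nat_lit 1064) (nat_lit 8353398342) (nat_lit 317) (nat_lit 5) (nat_lit 330) (nat_lit 5) (nat_lit 331) (nat_lit 5) (nat_lit 295) (nat_lit 272) (nat_lit 213)) (XT.lf (nat_lit 0) (nat_lit 3258097313) (nat_lit 1064) (nat_lit 2072410463) (nat_lit 76) (nat_lit 3910694972) (nat_lit 317) (nat_lit 5) (nat_lit 331) (nat_lit 5) (nat_lit 318) (nat_lit 5) (nat_lit 296) (nat_lit 272) (nat_lit 212)))) (XT.nd (nat_lit 156) (nat_lit 836) (nat_lit 0) (XT.nd (nat_lit 78) (nat_lit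 836) (nat_lit 0) (XT.lf (nat_lit 0) (nat_lit 5166727843) (nat_lit 836) (nat_lit 650896465) (nat_lit 912) (nat_lit 3557940804) (nat_lit 306) (nat_lit 5) (nat_lit 317) (nat_lit 5) (nat_lit 318) (nat_lit 5) (nat_lit 297) (nat_lit 272) (nat_lit 211)) (XT.lf (nat_lit 0) (nat_lit 3100223148) (nat_lit 836) (nat_lit 5361999605) (nat_lit 912) (nat_lit 1051625169) (nat_lit 295) (nat_lit 5) (nat_lit 306) (nat_lit 5) (nat_lit 307) (nat_lit 5) (nat_lit 298) (nat_lit 272) (nat_lit 210))) (XT.nd (nat_lit 78) (nat_lit 0) (nat_lit 0) (XT.lf (nat_lit 0) (nat_lit 977883495) (nat_lit 760) (nat_lit 519118104) (nat_lit 836) (nat_lit 8159387859) (nat_lit 284) (nat_lit 5) (nat_lit 294) (nat_lit 5) (nat_lit 295) (nat_lit 5) (nat_lit 299) (nat_lit 272) (nat_lit 209)) (XT.lf (nat_lit 0) (nat_lit 4129622763) (nat_lit 836) (nat_lit 1210923080) (nat_lit 76) (nat_lit 4462137006) (nat_lit 284) (nat_lit 5) (nat_lit 295) (nat_lit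 5) (nat_lit 285) (nat_lit 5) (nat_lit 300) (nat_lit 272) (nat_lit 208)))))) (XT.nd (nat_lit 468) (nat_lit 3116) (nat_lit 0) (XT.nd (nat_lit 234) (nat_lit 1444) (nat_lit 0) (XT.nd (nat_lit 78) (nat_lit 1520) (nat_lit 0) (XT.lf (nat_lit 0) (nat_lit 6512948541) (nat_lit 760) (nat_lit 324495091) (nat_lit 836) (nat_lit 3116046594) (nat_lit 274) (nat_lit 5) (nat_lit 284) (nat_lit 5) (nat_lit 285) (nat_lit 5) (nat_lit 301) (nat_lit 272) (nat_lit 207)) (XT.nd (nat_lit 78) (nat_lit 836) (nat_lit 0) (XT.lf (nat_lit 0) (nat_lit 4352148124) (nat_lit 684) (nat_lit 5293891231) (nat_lit 760) (nat_lit 462439825) (nat_lit 265) (nat_lit 5) (nat_lit 274) (nat_lit 5) (nat_lit 275) (nat_lit 5) (nat_lit 302) (nat_lit 272) (nat_lit 206)) (XT.lf (nat_lit 0) (nat_lit 2119022333) (nat_lit 760) (nat_lit 113685368) (nat_lit 836) (nat_lit 8035326793) (nat_lit 254) (nat_lit 5) (nat_lit 264) (nat_lit 5) (nat_lit 265) (nat_lit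 5) (nat_lit 303) (nat_lit 272) (nat_lit 205)))) (XT.nd (nat_lit 78) (nat_lit 1444) (nat_lit 0) (XT.lf (nat_lit 0) (nat_lit 5029005162) (nat_lit 836) (nat_lit 209338678) (nat_lit 76) (nat_lit 5193484435) (nat_lit 254) (nat_lit 5) (nat_lit 265) (nat_lit 5) (nat_lit 255) (nat_lit 5) (nat_lit 304) (nat_lit 272) (nat_lit 204)) (XT.nd (nat_lit 78) (nat_lit 760) (nat_lit 0) (XT.lf (nat_lit 0) (nat_lit 7917483381) (nat_lit 760) (nat_lit 2576582065) (nat_lit 76) (nat_lit 106347795) (nat_lit 245) (nat_lit 5) (nat_lit 255) (nat_lit 5) (nat_lit 246) (nat_lit 5) (nat_lit 305) (nat_lit 272) (nat_lit 203)) (XT.lf (nat_lit 0) (nat_lit 146501123) (nat_lit 760) (nat_lit 5050187911) (nat_lit 76) (nat_lit 5576802539) (nat_lit 235) (nat_lit 5) (nat_lit 245) (nat_lit 5) (nat_lit 236) (nat_lit 5) (nat_lit 306) (nat_lit 272) (nat_lit 202))))) (XT.nd (nat_lit 234) (nat_lit 1824) (nat_lit 0) (XT.nd (nat_lit 78) (nat_lit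 684) (nat_lit 0) (XT.lf (nat_lit 0) (nat_lit 3022193125) (nat_lit 684) (nat_lit 7620277495) (nat_lit 76) (nat_lit 309020312) (nat_lit 227) (nat_lit 5) (nat_lit 236) (nat_lit 5) (nat_lit 228) (nat_lit 5) (nat_lit 307) (nat_lit 272) (nat_lit 201)) (XT.nd (nat_lit 78) (nat_lit 0) (nat_lit 0) (XT.lf (nat_lit 0) (nat_lit 826410081) (nat_lit 684) (nat_lit 5189612105) (nat_lit 760) (nat_lit 5118209527) (nat_lit 218) (nat_lit 5) (nat_lit 227) (nat_lit 5) (nat_lit 228) (nat_lit 5) (nat_lit 308) (nat_lit 272) (nat_lit 200)) (XT.lf (nat_lit 0) (nat_lit 9112612056) (nat_lit 760) (nat_lit 1742265137) (nat_lit 76) (nat_lit 467356245) (nat_lit 218) (nat_lit 5) (nat_lit 228) (nat_lit 5) (nat_lit 219) (nat_lit 5) (nat_lit 309) (nat_lit 272) (nat_lit 199)))) (XT.nd (nat_lit 156) (nat_lit 532) (nat_lit 0) (XT.nd (nat_lit 78) (nat_lit 608) (nat_lit 0) (XT.lf (nat_lit 0) (nat_lit 816303271) (nat_lit 684) (nat_lit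 4429042789) (nat_lit 76) (nat_lit 6269655079) (nat_lit 209) (nat_lit 5) (nat_lit 218) (nat_lit 5) (nat_lit 210) (nat_lit 5) (nat_lit 310) (nat_lit 272) (nat_lit 198)) (XT.lf (nat_lit 0) (nat_lit 3907948965) (nat_lit 684) (nat_lit 7230427444) (nat_lit 76) (nat_lit 574818866) (nat_lit 201) (nat_lit 5) (nat_lit 210) (nat_lit 5) (nat_lit 202) (nat_lit 5) (nat_lit 311) (nat_lit 272) (nat_lit 197))) (XT.nd (nat_lit 78) (nat_lit 0) (nat_lit 0) (XT.lf (nat_lit 0) (nat_lit 1746518757) (nat_lit 532) (nat_lit 5383270066) (nat_lit 608) (nat_lit 4786831285) (nat_lit 194) (nat_lit 5) (nat_lit 201) (nat_lit 5) (nat_lit 202) (nat_lit 5) (nat_lit 312) (nat_lit 272) (nat_lit 196)) (XT.lf (nat_lit 0) (nat_lit 10462745798) (nat_lit 608) (nat_lit 1084203879) (nat_lit 76) (nat_lit 578941557) (nat_lit 194) (nat_lit 5) (nat_lit 202) (nat_lit 5) (nat_lit 195) (nat_lit 5) (nat_lit 313) (nat_lit 272) (nat_lit 195)))))))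 (XT.nd (nat_lit 1014) (nat_lit 3268) (nat_lit 0) (XT.nd (nat_lit 468) (nat_lit 2356) (nat_lit 0) (XT.nd (nat_lit 234) (nat_lit 1064) (nat_lit 0) (XT.nd (nat_lit 78) (nat_lit 1064) (nat_lit 0) (XT.lf (nat_lit 0) (nat_lit 1586808411) (nat_lit 684) (nat_lit 4049266666) (nat_lit 76) (nat_lit 6704135964) (nat_lit 185) (nat_lit 5) (nat_lit 194) (nat_lit 5) (nat_lit 186) (nat_lit 5) (nat_lit 314) (nat_lit 272) (nat_lit 194)) (XT.nd (nat_lit 78) (nat_lit 532) (nat_lit 0) (XT.lf (nat_lit 0) (nat_lit 4920835992) (nat_lit 608) (nat_lit 7147987515) (nat_lit 76) (nat_lit 491763951) (nat_lit 178) (nat_lit 5) (nat_lit 186) (nat_lit 5) (nat_lit 179) (nat_lit 5) (nat_lit 315) (nat_lit 272) (nat_lit 193)) (XT.lf (nat_lit 0) (nat_lit 2374703798) (nat_lit 532) (nat_lit 6024882874) (nat_lit 608) (nat_lit 4387123866) (nat_lit 171) (nat_lit 5) (nat_lit 178) (nat_lit 5) (nat_lit 179) (nat_lit 5) (nat_lit 316) (nat_lit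 272) (nat_lit 192)))) (XT.nd (nat_lit 78) (nat_lit 1064) (nat_lit 0) (XT.lf (nat_lit 0) (nat_lit 11997430753) (nat_lit 608) (nat_lit 784581876) (nat_lit 76) (nat_lit 237338624) (nat_lit 171) (nat_lit 5) (nat_lit 179) (nat_lit 5) (nat_lit 172) (nat_lit 5) (nat_lit 317) (nat_lit 272) (nat_lit 191)) (XT.nd (nat_lit 78) (nat_lit 532) (nat_lit 0) (XT.lf (nat_lit 0) (nat_lit 2478103758) (nat_lit 532) (nat_lit 4106294056) (nat_lit 76) (nat_lit 6672964734) (nat_lit 164) (nat_lit 5) (nat_lit 171) (nat_lit 5) (nat_lit 165) (nat_lit 5) (nat_lit 318) (nat_lit 272) (nat_lit 190)) (XT.lf (nat_lit 0) (nat_lit 5920219156) (nat_lit 532) (nat_lit 159065247) (nat_lit 608) (nat_lit 7422920285) (nat_lit 157) (nat_lit 5) (nat_lit 164) (nat_lit 5) (nat_lit 165) (nat_lit 5) (nat_lit 319) (nat_lit 272) (nat_lit 189))))) (XT.nd (nat_lit 234) (nat_lit 1368) (nat_lit 0) (XT.nd (nat_lit 78) (nat_lit 532) (nat_lit 0) (XT.lf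 (nat_lit 0) (nat_lit 2496935068) (nat_lit 456) (nat_lit 7344536331) (nat_lit 532) (nat_lit 3911886895) (nat_lit 151) (nat_lit 5) (nat_lit 157) (nat_lit 5) (nat_lit 158) (nat_lit 5) (nat_lit 320) (nat_lit 272) (nat_lit 188)) (XT.nd (nat_lit 78) (nat_lit 532) (nat_lit 0) (XT.lf (nat_lit 0) (nat_lit 12938044146) (nat_lit 456) (nat_lit 798415768) (nat_lit 532) (nat_lit 275212753) (nat_lit 151) (nat_lit 5) (nat_lit 157) (nat_lit 5) (nat_lit 158) (nat_lit 5) (nat_lit 321) (nat_lit 272) (nat_lit 187)) (XT.lf (nat_lit 0) (nat_lit 3493855686) (nat_lit 532) (nat_lit 4841505444) (nat_lit 76) (nat_lit 5940572134) (nat_lit 144) (nat_lit 5) (nat_lit 151) (nat_lit 5) (nat_lit 145) (nat_lit 5) (nat_lit 322) (nat_lit 272) (nat_lit 186)))) (XT.nd (nat_lit 156) (nat_lit 456) (nat_lit 0) (XT.nd (nat_lit 78) (nat_lit 456) (nat_lit 0) (XT.lf (nat_lit 0) (nat_lit 5750660783) (nat_lit 456) (nat_lit 1640422852) (nat_lit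 532) (nat_lit 7156648119) (nat_lit 138) (nat_lit 5) (nat_lit 144) (nat_lit 5) (nat_lit 145) (nat_lit 5) (nat_lit 323) (nat_lit 272) (nat_lit 185)) (XT.lf (nat_lit 0) (nat_lit 1847871383) (nat_lit 456) (nat_lit 9605876815) (nat_lit 532) (nat_lit 3372987924) (nat_lit 132) (nat_lit 5) (nat_lit 138) (nat_lit 5) (nat_lit 139) (nat_lit 5) (nat_lit 324) (nat_lit 272) (nat_lit 184))) (XT.nd (nat_lit 78) (nat_lit 380) (nat_lit 0) (XT.lf (nat_lit 0) (nat_lit 558064630) (nat_lit 532) (nat_lit 2236713190) (nat_lit 76) (nat_lit 12318470832) (nat_lit 131) (nat_lit 5) (nat_lit 138) (nat_lit 5) (nat_lit 132) (nat_lit 5) (nat_lit 325) (nat_lit 272) (nat_lit 183)) (XT.lf (nat_lit 0) (nat_lit 4617670660) (nat_lit 456) (nat_lit 6553989538) (nat_lit 76) (nat_lit 4235142127) (nat_lit 126) (nat_lit 5) (nat_lit 132) (nat_lit 5) (nat_lit 127) (nat_lit 5) (nat_lit 326) (nat_lit 272) (nat_lit 182)))))) (XT.nd (nat_lit 468)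 (nat_lit 1748) (nat_lit 0) (XT.nd (nat_lit 234) (nat_lit 684) (nat_lit 0) (XT.nd (nat_lit 78) (nat_lit 456) (nat_lit 0) (XT.lf (nat_lit 0) (nat_lit 4598034750) (nat_lit 380) (nat_lit 4236016468) (nat_lit 456) (nat_lit 6874431686) (nat_lit 121) (nat_lit 5) (nat_lit 126) (nat_lit 5) (nat_lit 127) (nat_lit 5) (nat_lit 327) (nat_lit 272) (nat_lit 181)) (XT.nd (nat_lit 78) (nat_lit 76) (nat_lit 0) (XT.lf (nat_lit 0) (nat_lit 98001026) (nat_lit 380) (nat_lit 13114837294) (nat_lit 456) (nat_lit 2805676720) (nat_lit 116) (nat_lit 5) (nat_lit 121) (nat_lit 5) (nat_lit 122) (nat_lit 5) (nat_lit 328) (nat_lit 272) (nat_lit 180)) (XT.lf (nat_lit 0) (nat_lit 1443149141) (nat_lit 456) (nat_lit 4619233660) (nat_lit 76) (nat_lit 10273780486) (nat_lit 115) (nat_lit 5) (nat_lit 121) (nat_lit 5) (nat_lit 116) (nat_lit 5) (nat_lit 329) (nat_lit 272) (nat_lit 179)))) (XT.nd (nat_lit 78) (nat_lit 304) (nat_lit 0) (XT.lf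 (nat_lit 0) (nat_lit 5808380453) (nat_lit 456) (nat_lit 9614594826) (nat_lit 76) (nat_lit 1239471582) (nat_lit 110) (nat_lit 5) (nat_lit 116) (nat_lit 5) (nat_lit 111) (nat_lit 5) (nat_lit 330) (nat_lit 272) (nat_lit 178)) (XT.nd (nat_lit 78) (nat_lit 0) (nat_lit 0) (XT.lf (nat_lit 0) (nat_lit 2078251248) (nat_lit 304) (nat_lit 8285203504) (nat_lit 380) (nat_lit 6633903912) (nat_lit 106) (nat_lit 5) (nat_lit 110) (nat_lit 5) (nat_lit 111) (nat_lit 5) (nat_lit 331) (nat_lit 272) (nat_lit 177)) (XT.lf (nat_lit 0) (nat_lit 14215571662) (nat_lit 304) (nat_lit 878633551) (nat_lit 380) (nat_lit 2247349065) (nat_lit 106) (nat_lit 5) (nat_lit 110) (nat_lit 5) (nat_lit 111) (nat_lit 5) (nat_lit 332) (nat_lit 272) (nat_lit 176))))) (XT.nd (nat_lit 234) (nat_lit 988) (nat_lit 0) (XT.nd (nat_lit 78) (nat_lit 304) (nat_lit 0) (XT.lf (nat_lit 0) (nat_lit 2318715690) (nat_lit 456) (nat_lit 8651149670) (nat_lit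 76) (nat_lit 6724377743) (nat_lit 100) (nat_lit 5) (nat_lit 106) (nat_lit 5) (nat_lit 101) (nat_lit 5) (nat_lit 333) (nat_lit 272) (nat_lit 175)) (XT.nd (nat_lit 78) (nat_lit 0) (nat_lit 0) (XT.lf (nat_lit 0) (nat_lit 3551467651) (nat_lit 304) (nat_lit 3465074513) (nat_lit 380) (nat_lit 11040182731) (nat_lit 96) (nat_lit 5) (nat_lit 100) (nat_lit 5) (nat_lit 101) (nat_lit 5) (nat_lit 334) (nat_lit 272) (nat_lit 174)) (XT.lf (nat_lit 0) (nat_lit 11917304792) (nat_lit 380) (nat_lit 2255243325) (nat_lit 76) (nat_lit 4256308190) (nat_lit 96) (nat_lit 5) (nat_lit 101) (nat_lit 5) (nat_lit 97) (nat_lit 5) (nat_lit 335) (nat_lit 272) (nat_lit 173)))) (XT.nd (nat_lit 156) (nat_lit 304) (nat_lit 0) (XT.nd (nat_lit 78) (nat_lit 380) (nat_lit 0) (XT.lf (nat_lit 0) (nat_lit 10440259444) (nat_lit 304) (nat_lit 6591807757) (nat_lit 380) (nat_lit 1778759672) (nat_lit 92) (nat_lit 5) (nat_lit 96) (nat_lit 5)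 (nat_lit 97) (nat_lit 5) (nat_lit 336) (nat_lit 272) (nat_lit 172)) (XT.lf (nat_lit 0) (nat_lit 3083565865) (nat_lit 380) (nat_lit 14866899226) (nat_lit 76) (nat_lit 1252840384) (nat_lit 87) (nat_lit 5) (nat_lit 92) (nat_lit 5) (nat_lit 88) (nat_lit 5) (nat_lit 337) (nat_lit 272) (nat_lit 171))) (XT.nd (nat_lit 78) (nat_lit 304) (nat_lit 0) (XT.lf (nat_lit 0) (nat_lit 8145618453) (nat_lit 380) (nat_lit 2158949733) (nat_lit 76) (nat_lit 9301208257) (nat_lit 87) (nat_lit 5) (nat_lit 92) (nat_lit 5) (nat_lit 88) (nat_lit 5) (nat_lit 338) (nat_lit 272) (nat_lit 170)) (XT.lf (nat_lit 0) (nat_lit 11040729510) (nat_lit 304) (nat_lit 2367871614) (nat_lit 380) (nat_lit 6610752280) (nat_lit 83) (nat_lit 5) (nat_lit 87) (nat_lit 5) (nat_lit 88) (nat_lit 5) (nat_lit 339) (nat_lit 272) (nat_lit 169))))))))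
noncomputable def xc74 : XT := (XT.nd (nat_lit 35880) (nat_lit 0) (nat_lit 16188) (XT.nd (nat_lit 1014) (nat_lit 988) (nat_lit 0) (XT.nd (nat_lit 468) (nat_lit 988) (nat_lit 0) (XT.nd (nat_lit 234) (nat_lit 608) (nat_lit 0) (XT.nd (nat_lit 78) (nat_lit 380) (nat_lit 0) (XT.lf (nat_lit 0) (nat_lit 4204110010) (nat_lit 228) (nat_lit 14682837308) (nat_lit 304) (nat_lit 1557253724) (nat_lit 80) (nat_lit 5) (nat_lit 83) (nat_lit 5) (nat_lit 84) (nat_lit 5) (nat_lit 340) (nat_lit 272) (nat_lit 168)) (XT.nd (nat_lit 78) (nat_lit 304) (nat_lit 0) (XT.lf (nat_lit 0) (nat_lit 3655109887) (nat_lit 304) (nat_lit 3049157665) (nat_lit 76) (nat_lit 14175963056) (nat_lit 79) (nat_lit 5) (nat_lit 83) (nat_lit 5) (nat_lit 80) (nat_lit 5) (nat_lit 341) (nat_lit 272) (nat_lit 167)) (XT.lf (nat_lit 0) (nat_lit 9060790088) (nat_lit 380) (nat_lit 10704815477) (nat_lit 76) (nat_lit 1562379448) (nat_lit 75) (nat_lit 5)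 (nat_lit 80) (nat_lit 5) (nat_lit 76) (nat_lit 5) (nat_lit 342) (nat_lit 272) (nat_lit 166)))) (XT.nd (nat_lit 78) (nat_lit 380) (nat_lit 0) (XT.lf (nat_lit 0) (nat_lit 2919240141) (nat_lit 228) (nat_lit 11772987087) (nat_lit 304) (nat_lit 7095684621) (nat_lit 72) (nat_lit 5) (nat_lit 75) (nat_lit 5) (nat_lit 76) (nat_lit 5) (nat_lit 343) (nat_lit 272) (nat_lit 165)) (XT.nd (nat_lit 78) (nat_lit 380) (nat_lit 0) (XT.lf (nat_lit 0) (nat_lit 17066357408) (nat_lit 228) (nat_lit 3478191546) (nat_lit 304) (nat_lit 1716059900) (nat_lit 72) (nat_lit 5) (nat_lit 75) (nat_lit 5) (nat_lit 76) (nat_lit 5) (nat_lit 344) (nat_lit 272) (nat_lit 164)) (XT.lf (nat_lit 0) (nat_lit 3846129968) (nat_lit 380) (nat_lit 13828167842) (nat_lit 76) (nat_lit 5071276101) (nat_lit 67) (nat_lit 5) (nat_lit 72) (nat_lit 5) (nat_lit 68) (nat_lit 5) (nat_lit 345) (nat_lit 272) (nat_lit 163))))) (XT.nd (nat_lit 234) (nat_lit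 532) (nat_lit 0) (XT.nd (nat_lit 78) (nat_lit 228) (nat_lit 0) (XT.lf (nat_lit 0) (nat_lit 215637051) (nat_lit 228) (nat_lit 9376629256) (nat_lit 304) (nat_lit 13651797188) (nat_lit 64) (nat_lit 5) (nat_lit 67) (nat_lit 5) (nat_lit 68) (nat_lit 5) (nat_lit 346) (nat_lit 272) (nat_lit 162)) (XT.nd (nat_lit 78) (nat_lit 228) (nat_lit 0) (XT.lf (nat_lit 0) (nat_lit 14839196079) (nat_lit 228) (nat_lit 745843129) (nat_lit 304) (nat_lit 8170993551) (nat_lit 64) (nat_lit 5) (nat_lit 67) (nat_lit 5) (nat_lit 68) (nat_lit 5) (nat_lit 347) (nat_lit 272) (nat_lit 161)) (XT.lf (nat_lit 0) (nat_lit 5608522683) (nat_lit 228) (nat_lit 16219405433) (nat_lit 304) (nat_lit 2454036077) (nat_lit 61) (nat_lit 5) (nat_lit 64) (nat_lit 5) (nat_lit 65) (nat_lit 5) (nat_lit 348) (nat_lit 272) (nat_lit 160)))) (XT.nd (nat_lit 156) (nat_lit 228) (nat_lit 0) (XT.nd (nat_lit 78) (nat_lit 228) (nat_lit 0) (XT.lf (nat_lit 0)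 (nat_lit 3436467734) (nat_lit 304) (nat_lit 4188480511) (nat_lit 76) (nat_lit 17197347017) (nat_lit 60) (nat_lit 5) (nat_lit 64) (nat_lit 5) (nat_lit 61) (nat_lit 5) (nat_lit 349) (nat_lit 272) (nat_lit 159)) (XT.lf (nat_lit 0) (nat_lit 9531121949) (nat_lit 304) (nat_lit 14558476415) (nat_lit 76) (nat_lit 1287706968) (nat_lit 57) (nat_lit 5) (nat_lit 61) (nat_lit 5) (nat_lit 58) (nat_lit 5) (nat_lit 350) (nat_lit 272) (nat_lit 158))) (XT.nd (nat_lit 78) (nat_lit 0) (nat_lit 0) (XT.lf (nat_lit 0) (nat_lit 309193464) (nat_lit 228) (nat_lit 15563079830) (nat_lit 304) (nat_lit 10075428003) (nat_lit 54) (nat_lit 5) (nat_lit 57) (nat_lit 5) (nat_lit 58) (nat_lit 5) (nat_lit 351) (nat_lit 272) (nat_lit 157)) (XT.lf (nat_lit 0) (nat_lit 15793667791) (nat_lit 228) (nat_lit 6691069037) (nat_lit 304) (nat_lit 4048859256) (nat_lit 54) (nat_lit 5) (nat_lit 57) (nat_lit 5) (nat_lit 58) (nat_lit 5) (nat_lit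 352) (nat_lit 272) (nat_lit 156)))))) (XT.nd (nat_lit 468) (nat_lit 228) (nat_lit 0) (XT.nd (nat_lit 234) (nat_lit 228) (nat_lit 0) (XT.nd (nat_lit 78) (nat_lit 228) (nat_lit 0) (XT.lf (nat_lit 0) (nat_lit 2159147373) (nat_lit 304) (nat_lit 22528316404) (nat_lit 76) (nat_lit 2448752730) (nat_lit 50) (nat_lit 5) (nat_lit 54) (nat_lit 5) (nat_lit 51) (nat_lit 5) (nat_lit 353) (nat_lit 272) (nat_lit 155)) (XT.nd (nat_lit 78) (nat_lit 228) (nat_lit 0) (XT.lf (nat_lit 0) (nat_lit 8599773918) (nat_lit 304) (nat_lit 7292325528) (nat_lit 76) (nat_lit 11862260929) (nat_lit 50) (nat_lit 5) (nat_lit 54) (nat_lit 5) (nat_lit 51) (nat_lit 5) (nat_lit 354) (nat_lit 272) (nat_lit 154)) (XT.lf (nat_lit 0) (nat_lit 8485102420) (nat_lit 228) (nat_lit 6787169909) (nat_lit 304) (nat_lit 13118010788) (nat_lit 47) (nat_lit 5) (nat_lit 50) (nat_lit 5) (nat_lit 51) (nat_lit 5) (nat_lit 355) (nat_lit 272) (nat_lit 153))))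 (XT.nd (nat_lit 78) (nat_lit 228) (nat_lit 0) (XT.lf (nat_lit 0) (nat_lit 22195311626) (nat_lit 304) (nat_lit 4252524887) (nat_lit 76) (nat_lit 2596447108) (nat_lit 47) (nat_lit 5) (nat_lit 51) (nat_lit 5) (nat_lit 48) (nat_lit 5) (nat_lit 356) (nat_lit 272) (nat_lit 152)) (XT.nd (nat_lit 78) (nat_lit 76) (nat_lit 0) (XT.lf (nat_lit 0) (nat_lit 11955142604) (nat_lit 152) (nat_lit 17478182508) (nat_lit 228) (nat_lit 282440548) (nat_lit 45) (nat_lit 5) (nat_lit 47) (nat_lit 5) (nat_lit 48) (nat_lit 5) (nat_lit 357) (nat_lit 272) (nat_lit 151)) (XT.lf (nat_lit 0) (nat_lit 6409550056) (nat_lit 228) (nat_lit 1767601876) (nat_lit 76) (nat_lit 22229136199) (nat_lit 44) (nat_lit 5) (nat_lit 47) (nat_lit 5) (nat_lit 45) (nat_lit 5) (nat_lit 358) (nat_lit 272) (nat_lit 150))))) (XT.nd (nat_lit 34086) (nat_lit 0) (nat_lit 33212) (XT.nd (nat_lit 33930) (nat_lit 0) (nat_lit 34200) (XT.lf (nat_lit 0) (nat_lit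 13389658281) (nat_lit 304) (nat_lit 16252188316) (nat_lit 76) (nat_lit 1473825073) (nat_lit 41) (nat_lit 5) (nat_lit 45) (nat_lit 5) (nat_lit 42) (nat_lit 5) (nat_lit 359) (nat_lit 272) (nat_lit 149)) (XT.nd (nat_lit 78) (nat_lit 1140) (nat_lit 0) (XT.lf (nat_lit 0) (nat_lit 1577103579) (nat_lit 0) (nat_lit 1577103579) (nat_lit 988) (nat_lit 436092332) (nat_lit 506) (nat_lit 5) (nat_lit 506) (nat_lit 3) (nat_lit 519) (nat_lit 3) (nat_lit 273) (nat_lit 273) (nat_lit 234)) (XT.lf (nat_lit 76) (nat_lit 827980832) (nat_lit 0) (nat_lit 633233011) (nat_lit 1140) (nat_lit 5777454636) (nat_lit 492) (nat_lit 5) (nat_lit 491) (nat_lit 3) (nat_lit 506) (nat_lit 5) (nat_lit 274) (nat_lit 273) (nat_lit 233)))) (XT.nd (nat_lit 156) (nat_lit 1064) (nat_lit 0) (XT.nd (nat_lit 78) (nat_lit 0) (nat_lit 0) (XT.lf (nat_lit 0) (nat_lit 3802112290) (nat_lit 1064) (nat_lit 1482869817) (nat_lit 1140) (nat_lit 2014515007)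 (nat_lit 492) (nat_lit 5) (nat_lit 506) (nat_lit 5) (nat_lit 507) (nat_lit 5) (nat_lit 275) (nat_lit 273) (nat_lit 232)) (XT.lf (nat_lit 76) (nat_lit 3587764032) (nat_lit 0) (nat_lit 2564718739) (nat_lit 1140) (nat_lit 1210998769) (nat_lit 493) (nat_lit 5) (nat_lit 492) (nat_lit 5) (nat_lit 507) (nat_lit 5) (nat_lit 276) (nat_lit 273) (nat_lit 231))) (XT.nd (nat_lit 78) (nat_lit 0) (nat_lit 0) (XT.lf (nat_lit 0) (nat_lit 1063209461) (nat_lit 1140) (nat_lit 6068968564) (nat_lit 1216) (nat_lit 298484496) (nat_lit 478) (nat_lit 5) (nat_lit 493) (nat_lit 5) (nat_lit 494) (nat_lit 5) (nat_lit 277) (nat_lit 273) (nat_lit 230)) (XT.lf (nat_lit 0) (nat_lit 3347949096) (nat_lit 1140) (nat_lit 869432995) (nat_lit 1216) (nat_lit 3283248631) (nat_lit 478) (nat_lit 5) (nat_lit 493) (nat_lit 5) (nat_lit 494) (nat_lit 5) (nat_lit 278) (nat_lit 273) (nat_lit 229))))))) (XT.nd (nat_lit 1014) (nat_lit 10640) (nat_lit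 0) (XT.nd (nat_lit 468) (nat_lit 4104) (nat_lit 0) (XT.nd (nat_lit 234) (nat_lit 1140) (nat_lit 0) (XT.nd (nat_lit 78) (nat_lit 1140) (nat_lit 0) (XT.lf (nat_lit 76) (nat_lit 4496933900) (nat_lit 0) (nat_lit 1151705547) (nat_lit 1216) (nat_lit 1925214275) (nat_lit 479) (nat_lit 5) (nat_lit 478) (nat_lit 5) (nat_lit 494) (nat_lit 5) (nat_lit 279) (nat_lit 273) (nat_lit 228)) (XT.nd (nat_lit 78) (nat_lit 0) (nat_lit 0) (XT.lf (nat_lit 0) (nat_lit 318582283) (nat_lit 1216) (nat_lit 5296764071) (nat_lit 1292) (nat_lit 2034891138) (nat_lit 463) (nat_lit 5) (nat_lit 479) (nat_lit 5) (nat_lit 480) (nat_lit 5) (nat_lit 280) (nat_lit 273) (nat_lit 227)) (XT.lf (nat_lit 76) (nat_lit 192619285) (nat_lit 0) (nat_lit 2362894672) (nat_lit 1292) (nat_lit 5174200797) (nat_lit 464) (nat_lit 5) (nat_lit 463) (nat_lit 5) (nat_lit 480) (nat_lit 5) (nat_lit 281) (nat_lit 273) (nat_lit 226)))) (XT.nd (nat_lit 78) (nat_lit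 1216) (nat_lit 0) (XT.lf (nat_lit 0) (nat_lit 4826116376) (nat_lit 1216) (nat_lit 1948899834) (nat_lit 1292) (nat_lit 1037322108) (nat_lit 464) (nat_lit 5) (nat_lit 480) (nat_lit 5) (nat_lit 481) (nat_lit 5) (nat_lit 282) (nat_lit 273) (nat_lit 225)) (XT.nd (nat_lit 78) (nat_lit 1216) (nat_lit 0) (XT.lf (nat_lit 76) (nat_lit 3791761194) (nat_lit 0) (nat_lit 3339732376) (nat_lit 1292) (nat_lit 766704408) (nat_lit 465) (nat_lit 5) (nat_lit 464) (nat_lit 5) (nat_lit 481) (nat_lit 5) (nat_lit 283) (nat_lit 273) (nat_lit 224)) (XT.lf (nat_lit 0) (nat_lit 1453029545) (nat_lit 1292) (nat_lit 6281113754) (nat_lit 1368) (nat_lit 253307835) (nat_lit 448) (nat_lit 5) (nat_lit 465) (nat_lit 5) (nat_lit 466) (nat_lit 5) (nat_lit 284) (nat_lit 273) (nat_lit 223))))) (XT.nd (nat_lit 234) (nat_lit 2812) (nat_lit 0) (XT.nd (nat_lit 78) (nat_lit 1292) (nat_lit 0) (XT.lf (nat_lit 0) (nat_lit 3708791350) (nat_lit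 1292) (nat_lit 406968536) (nat_lit 1368) (nat_lit 3964007249) (nat_lit 448) (nat_lit 5) (nat_lit 465) (nat_lit 5) (nat_lit 466) (nat_lit 5) (nat_lit 285) (nat_lit 273) (nat_lit 222)) (XT.nd (nat_lit 78) (nat_lit 1292) (nat_lit 0) (XT.lf (nat_lit 76) (nat_lit 5669011665) (nat_lit 0) (nat_lit 331524141) (nat_lit 1368) (nat_lit 2175031832) (nat_lit 449) (nat_lit 5) (nat_lit 448) (nat_lit 5) (nat_lit 466) (nat_lit 5) (nat_lit 286) (nat_lit 273) (nat_lit 221)) (XT.lf (nat_lit 0) (nat_lit 68292170) (nat_lit 1368) (nat_lit 4641461746) (nat_lit 1444) (nat_lit 3564901477) (nat_lit 431) (nat_lit 5) (nat_lit 449) (nat_lit 5) (nat_lit 450) (nat_lit 5) (nat_lit 287) (nat_lit 273) (nat_lit 220)))) (XT.nd (nat_lit 156) (nat_lit 2812) (nat_lit 0) (XT.nd (nat_lit 78) (nat_lit 0) (nat_lit 76) (XT.lf (nat_lit 76) (nat_lit 1569144545) (nat_lit 0) (nat_lit 744321282) (nat_lit 1444) (nat_lit 6063755469) (nat_lit 432)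 (nat_lit 5) (nat_lit 431) (nat_lit 5) (nat_lit 450) (nat_lit 5) (nat_lit 288) (nat_lit 273) (nat_lit 219)) (XT.lf (nat_lit 0) (nat_lit 4615461165) (nat_lit 1368) (nat_lit 524802897) (nat_lit 76) (nat_lit 3342883654) (nat_lit 432) (nat_lit 5) (nat_lit 450) (nat_lit 5) (nat_lit 433) (nat_lit 5) (nat_lit 289) (nat_lit 273) (nat_lit 218))) (XT.nd (nat_lit 78) (nat_lit 1520) (nat_lit 0) (XT.lf (nat_lit 0) (nat_lit 5971497589) (nat_lit 1368) (nat_lit 996748069) (nat_lit 1444) (nat_lit 1624442431) (nat_lit 414) (nat_lit 5) (nat_lit 432) (nat_lit 5) (nat_lit 433) (nat_lit 5) (nat_lit 290) (nat_lit 273) (nat_lit 217)) (XT.lf (nat_lit 0) (nat_lit 666957976) (nat_lit 1520) (nat_lit 4764639161) (nat_lit 76) (nat_lit 3274098638) (nat_lit 394) (nat_lit 5) (nat_lit 414) (nat_lit 5) (nat_lit 395) (nat_lit 5) (nat_lit 291) (nat_lit 273) (nat_lit 216)))))) (XT.nd (nat_lit 468) (nat_lit 3952) (nat_lit 0) (XT.nd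 (nat_lit 234) (nat_lit 3572) (nat_lit 0) (XT.nd (nat_lit 78) (nat_lit 1596) (nat_lit 0) (XT.lf (nat_lit 0) (nat_lit 1871779915) (nat_lit 1520) (nat_lit 1110619783) (nat_lit 1596) (nat_lit 5839997238) (nat_lit 374) (nat_lit 5) (nat_lit 394) (nat_lit 5) (nat_lit 395) (nat_lit 5) (nat_lit 292) (nat_lit 273) (nat_lit 215)) (XT.nd (nat_lit 78) (nat_lit 1596) (nat_lit 0) (XT.lf (nat_lit 0) (nat_lit 5363512747) (nat_lit 1596) (nat_lit 241259334) (nat_lit 76) (nat_lit 3337966363) (nat_lit 374) (nat_lit 5) (nat_lit 395) (nat_lit 5) (nat_lit 375) (nat_lit 5) (nat_lit 293) (nat_lit 273) (nat_lit 214)) (XT.lf (nat_lit 0) (nat_lit 6701378159) (nat_lit 1596) (nat_lit 1109328848) (nat_lit 1672) (nat_lit 1256151860) (nat_lit 353) (nat_lit 5) (nat_lit 374) (nat_lit 5) (nat_lit 375) (nat_lit 5) (nat_lit 294) (nat_lit 273) (nat_lit 213)))) (XT.nd (nat_lit 78) (nat_lit 1824) (nat_lit 0) (XT.lf (nat_lit 0) (nat_lit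 1121432991) (nat_lit 1748) (nat_lit 4551985089) (nat_lit 76) (nat_lit 3521201373) (nat_lit 330) (nat_lit 5) (nat_lit 353) (nat_lit 5) (nat_lit 331) (nat_lit 5) (nat_lit 295) (nat_lit 273) (nat_lit 212)) (XT.nd (nat_lit 78) (nat_lit 836) (nat_lit 0) (XT.lf (nat_lit 0) (nat_lit 2535948411) (nat_lit 988) (nat_lit 1003409834) (nat_lit 1064) (nat_lit 5787023916) (nat_lit 317) (nat_lit 5) (nat_lit 330) (nat_lit 5) (nat_lit 331) (nat_lit 5) (nat_lit 296) (nat_lit 273) (nat_lit 211)) (XT.lf (nat_lit 0) (nat_lit 368040320) (nat_lit 836) (nat_lit 5667191116) (nat_lit 912) (nat_lit 3426813400) (nat_lit 306) (nat_lit 5) (nat_lit 317) (nat_lit 5) (nat_lit 318) (nat_lit 5) (nat_lit 297) (nat_lit 273) (nat_lit 210))))) (XT.nd (nat_lit 234) (nat_lit 2280) (nat_lit 0) (XT.nd (nat_lit 78) (nat_lit 1672) (nat_lit 0) (XT.lf (nat_lit 0) (nat_lit 7779002085) (nat_lit 836) (nat_lit 828135914) (nat_lit 912) (nat_lit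 994669929) (nat_lit 306) (nat_lit 5) (nat_lit 317) (nat_lit 5) (nat_lit 318) (nat_lit 5) (nat_lit 298) (nat_lit 273) (nat_lit 209)) (XT.nd (nat_lit 78) (nat_lit 760) (nat_lit 0) (XT.lf (nat_lit 0) (nat_lit 1504435203) (nat_lit 912) (nat_lit 4089663562) (nat_lit 76) (nat_lit 4151243966) (nat_lit 294) (nat_lit 5) (nat_lit 306) (nat_lit 5) (nat_lit 295) (nat_lit 5) (nat_lit 299) (nat_lit 273) (nat_lit 208)) (XT.lf (nat_lit 0) (nat_lit 3475846257) (nat_lit 760) (nat_lit 580542968) (nat_lit 836) (nat_lit 5836884676) (nat_lit 284) (nat_lit 5) (nat_lit 294) (nat_lit 5) (nat_lit 295) (nat_lit 5) (nat_lit 300) (nat_lit 273) (nat_lit 207)))) (XT.nd (nat_lit 156) (nat_lit 1520) (nat_lit 0) (XT.nd (nat_lit 78) (nat_lit 0) (nat_lit 0) (XT.lf (nat_lit 0) (nat_lit 1216993023) (nat_lit 760) (nat_lit 5485371289) (nat_lit 836) (nat_lit 3342977606) (nat_lit 274) (nat_lit 5) (nat_lit 284) (nat_lit 5) (nat_lit 285)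 (nat_lit 5) (nat_lit 301) (nat_lit 273) (nat_lit 206)) (XT.lf (nat_lit 0) (nat_lit 9116899233) (nat_lit 760) (nat_lit 311161362) (nat_lit 836) (nat_lit 773951300) (nat_lit 274) (nat_lit 5) (nat_lit 284) (nat_lit 5) (nat_lit 285) (nat_lit 5) (nat_lit 302) (nat_lit 273) (nat_lit 205))) (XT.nd (nat_lit 78) (nat_lit 760) (nat_lit 0) (XT.lf (nat_lit 0) (nat_lit 1879512415) (nat_lit 760) (nat_lit 3473835594) (nat_lit 76) (nat_lit 5009196962) (nat_lit 264) (nat_lit 5) (nat_lit 274) (nat_lit 5) (nat_lit 265) (nat_lit 5) (nat_lit 303) (nat_lit 273) (nat_lit 204)) (XT.lf (nat_lit 0) (nat_lit 4594903565) (nat_lit 760) (nat_lit 1591868) (nat_lit 836) (nat_lit 5931450893) (nat_lit 254) (nat_lit 5) (nat_lit 264) (nat_lit 5) (nat_lit 265) (nat_lit 5) (nat_lit 304) (nat_lit 273) (nat_lit 203))))))))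
noncomputable def xc75 : XT := (XT.nd (nat_lit 2028) (nat_lit 5168) (nat_lit 0) (XT.nd (nat_lit 1014) (nat_lit 4256) (nat_lit 0) (XT.nd (nat_lit 468) (nat_lit 2964) (nat_lit 0) (XT.nd (nat_lit 234) (nat_lit 1900) (nat_lit 0) (XT.nd (nat_lit 78) (nat_lit 760) (nat_lit 0) (XT.lf (nat_lit 0) (nat_lit 2201299991) (nat_lit 684) (nat_lit 5223504935) (nat_lit 760) (nat_lit 3272950408) (nat_lit 245) (nat_lit 5) (nat_lit 254) (nat_lit 5) (nat_lit 255) (nat_lit 5) (nat_lit 305) (nat_lit 273) (nat_lit 202)) (XT.nd (nat_lit 78) (nat_lit 760) (nat_lit 0) (XT.lf (nat_lit 0) (nat_lit 10337021686) (nat_lit 760) (nat_lit 259982062) (nat_lit 76) (nat_lit 275714433) (nat_lit 245) (nat_lit 5) (nat_lit 255) (nat_lit 5) (nat_lit 246) (nat_lit 5) (nat_lit 306) (nat_lit 273) (nat_lit 201)) (XT.lf (nat_lit 0) (nat_lit 2300758217) (nat_lit 760) (nat_lit 2816096071) (nat_lit 76) (nat_lit 5934877172) (nat_lit 235) (nat_lit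 5) (nat_lit 245) (nat_lit 5) (nat_lit 236) (nat_lit 5) (nat_lit 307) (nat_lit 273) (nat_lit 200)))) (XT.nd (nat_lit 78) (nat_lit 1292) (nat_lit 0) (XT.lf (nat_lit 0) (nat_lit 5216928113) (nat_lit 684) (nat_lit 5459618752) (nat_lit 76) (nat_lit 559497101) (nat_lit 227) (nat_lit 5) (nat_lit 236) (nat_lit 5) (nat_lit 228) (nat_lit 5) (nat_lit 308) (nat_lit 273) (nat_lit 199)) (XT.nd (nat_lit 78) (nat_lit 608) (nat_lit 0) (XT.lf (nat_lit 0) (nat_lit 3201706432) (nat_lit 684) (nat_lit 5052843076) (nat_lit 760) (nat_lit 3170693553) (nat_lit 218) (nat_lit 5) (nat_lit 227) (nat_lit 5) (nat_lit 228) (nat_lit 5) (nat_lit 309) (nat_lit 273) (nat_lit 198)) (XT.lf (nat_lit 0) (nat_lit 534438127) (nat_lit 608) (nat_lit 10854969289) (nat_lit 684) (nat_lit 230624034) (nat_lit 210) (nat_lit 5) (nat_lit 218) (nat_lit 5) (nat_lit 219) (nat_lit 5) (nat_lit 310) (nat_lit 273) (nat_lit 197))))) (XT.nd (nat_lit 234)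 (nat_lit 1748) (nat_lit 0) (XT.nd (nat_lit 78) (nat_lit 1140) (nat_lit 0) (XT.lf (nat_lit 0) (nat_lit 2812002099) (nat_lit 684) (nat_lit 2249712915) (nat_lit 76) (nat_lit 6757598039) (nat_lit 209) (nat_lit 5) (nat_lit 218) (nat_lit 5) (nat_lit 210) (nat_lit 5) (nat_lit 311) (nat_lit 273) (nat_lit 196)) (XT.nd (nat_lit 78) (nat_lit 532) (nat_lit 0) (XT.lf (nat_lit 0) (nat_lit 5955999339) (nat_lit 684) (nat_lit 5134663792) (nat_lit 76) (nat_lit 933647758) (nat_lit 201) (nat_lit 5) (nat_lit 210) (nat_lit 5) (nat_lit 202) (nat_lit 5) (nat_lit 312) (nat_lit 273) (nat_lit 195)) (XT.lf (nat_lit 0) (nat_lit 4074070367) (nat_lit 532) (nat_lit 5158958608) (nat_lit 608) (nat_lit 3001687266) (nat_lit 194) (nat_lit 5) (nat_lit 201) (nat_lit 5) (nat_lit 202) (nat_lit 5) (nat_lit 313) (nat_lit 273) (nat_lit 194)))) (XT.nd (nat_lit 156) (nat_lit 1064) (nat_lit 0) (XT.nd (nat_lit 78) (nat_lit 0) (nat_lit 0) (XT.lf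 (nat_lit 0) (nat_lit 167357871) (nat_lit 684) (nat_lit 11309344613) (nat_lit 76) (nat_lit 974491582) (nat_lit 185) (nat_lit 5) (nat_lit 194) (nat_lit 5) (nat_lit 186) (nat_lit 5) (nat_lit 314) (nat_lit 273) (nat_lit 193)) (XT.lf (nat_lit 0) (nat_lit 3445409177) (nat_lit 684) (nat_lit 1936890102) (nat_lit 76) (nat_lit 7290405220) (nat_lit 185) (nat_lit 5) (nat_lit 194) (nat_lit 5) (nat_lit 186) (nat_lit 5) (nat_lit 315) (nat_lit 273) (nat_lit 192))) (XT.nd (nat_lit 78) (nat_lit 532) (nat_lit 0) (XT.lf (nat_lit 0) (nat_lit 6843738478) (nat_lit 608) (nat_lit 5130674408) (nat_lit 76) (nat_lit 926037190) (nat_lit 178) (nat_lit 5) (nat_lit 186) (nat_lit 5) (nat_lit 179) (nat_lit 5) (nat_lit 316) (nat_lit 273) (nat_lit 191)) (XT.lf (nat_lit 0) (nat_lit 4641490108) (nat_lit 532) (nat_lit 5747909397) (nat_lit 608) (nat_lit 2744748603) (nat_lit 171) (nat_lit 5) (nat_lit 178) (nat_lit 5) (nat_lit 179) (nat_lit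 5) (nat_lit 317) (nat_lit 273) (nat_lit 190)))))) (XT.nd (nat_lit 468) (nat_lit 2204) (nat_lit 0) (XT.nd (nat_lit 234) (nat_lit 988) (nat_lit 0) (XT.nd (nat_lit 78) (nat_lit 532) (nat_lit 0) (XT.lf (nat_lit 0) (nat_lit 672840042) (nat_lit 532) (nat_lit 12005292153) (nat_lit 76) (nat_lit 696364542) (nat_lit 164) (nat_lit 5) (nat_lit 171) (nat_lit 5) (nat_lit 165) (nat_lit 5) (nat_lit 318) (nat_lit 273) (nat_lit 189)) (XT.nd (nat_lit 78) (nat_lit 532) (nat_lit 0) (XT.lf (nat_lit 0) (nat_lit 4219403366) (nat_lit 532) (nat_lit 2077312454) (nat_lit 76) (nat_lit 7323728025) (nat_lit 164) (nat_lit 5) (nat_lit 171) (nat_lit 5) (nat_lit 165) (nat_lit 5) (nat_lit 319) (nat_lit 273) (nat_lit 188)) (XT.lf (nat_lit 0) (nat_lit 7895899787) (nat_lit 608) (nat_lit 5660371359) (nat_lit 76) (nat_lit 317052371) (nat_lit 157) (nat_lit 5) (nat_lit 165) (nat_lit 5) (nat_lit 158) (nat_lit 5) (nat_lit 320) (nat_lit 273)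 (nat_lit 187)))) (XT.nd (nat_lit 78) (nat_lit 532) (nat_lit 0) (XT.lf (nat_lit 0) (nat_lit 4685004209) (nat_lit 456) (nat_lit 7053101853) (nat_lit 532) (nat_lit 2394599370) (nat_lit 151) (nat_lit 5) (nat_lit 157) (nat_lit 5) (nat_lit 158) (nat_lit 5) (nat_lit 321) (nat_lit 273) (nat_lit 186)) (XT.nd (nat_lit 78) (nat_lit 0) (nat_lit 0) (XT.lf (nat_lit 0) (nat_lit 982482217) (nat_lit 456) (nat_lit 310364233) (nat_lit 532) (nat_lit 13106594488) (nat_lit 144) (nat_lit 5) (nat_lit 150) (nat_lit 5) (nat_lit 151) (nat_lit 5) (nat_lit 322) (nat_lit 273) (nat_lit 185)) (XT.lf (nat_lit 0) (nat_lit 5135802943) (nat_lit 532) (nat_lit 2918274795) (nat_lit 76) (nat_lit 6618258113) (nat_lit 144) (nat_lit 5) (nat_lit 151) (nat_lit 5) (nat_lit 145) (nat_lit 5) (nat_lit 323) (nat_lit 273) (nat_lit 184))))) (XT.nd (nat_lit 234) (nat_lit 1216) (nat_lit 0) (XT.nd (nat_lit 78) (nat_lit 532) (nat_lit 0) (XT.lf (nat_lit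 0) (nat_lit 7958097856) (nat_lit 456) (nat_lit 1160291085) (nat_lit 532) (nat_lit 5834563525) (nat_lit 138) (nat_lit 5) (nat_lit 144) (nat_lit 5) (nat_lit 145) (nat_lit 5) (nat_lit 324) (nat_lit 273) (nat_lit 183)) (XT.nd (nat_lit 78) (nat_lit 76) (nat_lit 0) (XT.lf (nat_lit 0) (nat_lit 3932534439) (nat_lit 456) (nat_lit 9343059207) (nat_lit 532) (nat_lit 1965312148) (nat_lit 132) (nat_lit 5) (nat_lit 138) (nat_lit 5) (nat_lit 139) (nat_lit 5) (nat_lit 325) (nat_lit 273) (nat_lit 182)) (XT.lf (nat_lit 0) (nat_lit 2020511785) (nat_lit 532) (nat_lit 313462381) (nat_lit 76) (nat_lit 13202741516) (nat_lit 131) (nat_lit 5) (nat_lit 138) (nat_lit 5) (nat_lit 132) (nat_lit 5) (nat_lit 326) (nat_lit 273) (nat_lit 181)))) (XT.nd (nat_lit 156) (nat_lit 456) (nat_lit 0) (XT.nd (nat_lit 78) (nat_lit 380) (nat_lit 0) (XT.lf (nat_lit 0) (nat_lit 6176028514) (nat_lit 456) (nat_lit 4766752593) (nat_lit 76) (nat_lit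 4896842009) (nat_lit 126) (nat_lit 5) (nat_lit 132) (nat_lit 5) (nat_lit 127) (nat_lit 5) (nat_lit 327) (nat_lit 273) (nat_lit 180)) (XT.lf (nat_lit 0) (nat_lit 6687646707) (nat_lit 380) (nat_lit 3802571118) (nat_lit 456) (nat_lit 5660738679) (nat_lit 121) (nat_lit 5) (nat_lit 126) (nat_lit 5) (nat_lit 127) (nat_lit 5) (nat_lit 328) (nat_lit 273) (nat_lit 179))) (XT.nd (nat_lit 78) (nat_lit 76) (nat_lit 0) (XT.lf (nat_lit 0) (nat_lit 2045682118) (nat_lit 380) (nat_lit 12930327489) (nat_lit 456) (nat_lit 1494795079) (nat_lit 116) (nat_lit 5) (nat_lit 121) (nat_lit 5) (nat_lit 122) (nat_lit 5) (nat_lit 329) (nat_lit 273) (nat_lit 178)) (XT.lf (nat_lit 0) (nat_lit 2823099524) (nat_lit 456) (nat_lit 2851063812) (nat_lit 76) (nat_lit 11124466446) (nat_lit 115) (nat_lit 5) (nat_lit 121) (nat_lit 5) (nat_lit 116) (nat_lit 5) (nat_lit 330) (nat_lit 273) (nat_lit 177))))))) (XT.nd (nat_lit 1014) (nat_lit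 2128) (nat_lit 0) (XT.nd (nat_lit 468) (nat_lit 1596) (nat_lit 0) (XT.nd (nat_lit 234) (nat_lit 760) (nat_lit 0) (XT.nd (nat_lit 78) (nat_lit 304) (nat_lit 0) (XT.lf (nat_lit 0) (nat_lit 7296209323) (nat_lit 456) (nat_lit 8003837206) (nat_lit 76) (nat_lit 1835142688) (nat_lit 110) (nat_lit 5) (nat_lit 116) (nat_lit 5) (nat_lit 111) (nat_lit 5) (nat_lit 331) (nat_lit 273) (nat_lit 176)) (XT.nd (nat_lit 78) (nat_lit 0) (nat_lit 0) (XT.lf (nat_lit 0) (nat_lit 4008982061) (nat_lit 304) (nat_lit 7952825036) (nat_lit 380) (nat_lit 5518888886) (nat_lit 106) (nat_lit 5) (nat_lit 110) (nat_lit 5) (nat_lit 111) (nat_lit 5) (nat_lit 332) (nat_lit 273) (nat_lit 175)) (XT.lf (nat_lit 0) (nat_lit 16456003157) (nat_lit 304) (nat_lit 340978409) (nat_lit 380) (nat_lit 1039010174) (nat_lit 106) (nat_lit 5) (nat_lit 110) (nat_lit 5) (nat_lit 111) (nat_lit 5) (nat_lit 333) (nat_lit 273) (nat_lit 174)))) (XT.nd (nat_lit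 78) (nat_lit 304) (nat_lit 0) (XT.lf (nat_lit 0) (nat_lit 3626018359) (nat_lit 456) (nat_lit 7087141258) (nat_lit 76) (nat_lit 7486384812) (nat_lit 100) (nat_lit 5) (nat_lit 106) (nat_lit 5) (nat_lit 101) (nat_lit 5) (nat_lit 334) (nat_lit 273) (nat_lit 173)) (XT.nd (nat_lit 78) (nat_lit 0) (nat_lit 0) (XT.lf (nat_lit 0) (nat_lit 5451969765) (nat_lit 304) (nat_lit 2988406713) (nat_lit 380) (nat_lit 10133034720) (nat_lit 96) (nat_lit 5) (nat_lit 100) (nat_lit 5) (nat_lit 101) (nat_lit 5) (nat_lit 335) (nat_lit 273) (nat_lit 172)) (XT.lf (nat_lit 0) (nat_lit 13456482013) (nat_lit 380) (nat_lit 560566879) (nat_lit 76) (nat_lit 4940313066) (nat_lit 96) (nat_lit 5) (nat_lit 101) (nat_lit 5) (nat_lit 97) (nat_lit 5) (nat_lit 336) (nat_lit 273) (nat_lit 171))))) (XT.nd (nat_lit 234) (nat_lit 912) (nat_lit 0) (XT.nd (nat_lit 78) (nat_lit 380) (nat_lit 0) (XT.lf (nat_lit 0) (nat_lit 12487209202) (nat_lit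 304) (nat_lit 6214317470) (nat_lit 380) (nat_lit 649749353) (nat_lit 92) (nat_lit 5) (nat_lit 96) (nat_lit 5) (nat_lit 97) (nat_lit 5) (nat_lit 337) (nat_lit 273) (nat_lit 170)) (XT.nd (nat_lit 78) (nat_lit 0) (nat_lit 0) (XT.lf (nat_lit 0) (nat_lit 4323879437) (nat_lit 380) (nat_lit 13571552645) (nat_lit 76) (nat_lit 1860344709) (nat_lit 87) (nat_lit 5) (nat_lit 92) (nat_lit 5) (nat_lit 88) (nat_lit 5) (nat_lit 338) (nat_lit 273) (nat_lit 169)) (XT.lf (nat_lit 0) (nat_lit 9504362342) (nat_lit 380) (nat_lit 533083703) (nat_lit 76) (nat_lit 10133564032) (nat_lit 87) (nat_lit 5) (nat_lit 92) (nat_lit 5) (nat_lit 88) (nat_lit 5) (nat_lit 339) (nat_lit 273) (nat_lit 168)))) (XT.nd (nat_lit 156) (nat_lit 380) (nat_lit 0) (XT.nd (nat_lit 78) (nat_lit 228) (nat_lit 0) (XT.lf (nat_lit 0) (nat_lit 13035157380) (nat_lit 304) (nat_lit 1868418215) (nat_lit 380) (nat_lit 5693870924) (nat_lit 83) (nat_lit 5)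 (nat_lit 87) (nat_lit 5) (nat_lit 88) (nat_lit 5) (nat_lit 340) (nat_lit 273) (nat_lit 167)) (XT.lf (nat_lit 0) (nat_lit 5984934504) (nat_lit 228) (nat_lit 14543850510) (nat_lit 304) (nat_lit 506622758) (nat_lit 80) (nat_lit 5) (nat_lit 83) (nat_lit 5) (nat_lit 84) (nat_lit 5) (nat_lit 341) (nat_lit 273) (nat_lit 166))) (XT.nd (nat_lit 78) (nat_lit 304) (nat_lit 0) (XT.lf (nat_lit 0) (nat_lit 4816177411) (nat_lit 304) (nat_lit 1519568531) (nat_lit 76) (nat_lit 15149278191) (nat_lit 79) (nat_lit 5) (nat_lit 83) (nat_lit 5) (nat_lit 80) (nat_lit 5) (nat_lit 342) (nat_lit 273) (nat_lit 165)) (XT.lf (nat_lit 0) (nat_lit 10367417959) (nat_lit 380) (nat_lit 9413664340) (nat_lit 76) (nat_lit 2165478115) (nat_lit 75) (nat_lit 5) (nat_lit 80) (nat_lit 5) (nat_lit 76) (nat_lit 5) (nat_lit 343) (nat_lit 273) (nat_lit 164)))))) (XT.nd (nat_lit 546) (nat_lit 988) (nat_lit 0) (XT.nd (nat_lit 234) (nat_lit 532)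 (nat_lit 0) (XT.nd (nat_lit 78) (nat_lit 380) (nat_lit 0) (XT.lf (nat_lit 0) (nat_lit 4592955367) (nat_lit 228) (nat_lit 11555001179) (nat_lit 304) (nat_lit 6272741888) (nat_lit 72) (nat_lit 5) (nat_lit 75) (nat_lit 5) (nat_lit 76) (nat_lit 5) (nat_lit 344) (nat_lit 273) (nat_lit 163)) (XT.nd (nat_lit 78) (nat_lit 380) (nat_lit 0) (XT.lf (nat_lit 0) (nat_lit 19118287956) (nat_lit 228) (nat_lit 3027997952) (nat_lit 304) (nat_lit 761897743) (nat_lit 72) (nat_lit 5) (nat_lit 75) (nat_lit 5) (nat_lit 76) (nat_lit 5) (nat_lit 345) (nat_lit 273) (nat_lit 162)) (XT.lf (nat_lit 0) (nat_lit 4938589138) (nat_lit 380) (nat_lit 12698189244) (nat_lit 76) (nat_lit 5771111572) (nat_lit 67) (nat_lit 5) (nat_lit 72) (nat_lit 5) (nat_lit 68) (nat_lit 5) (nat_lit 346) (nat_lit 273) (nat_lit 161)))) (XT.nd (nat_lit 156) (nat_lit 304) (nat_lit 0) (XT.nd (nat_lit 78) (nat_lit 0) (nat_lit 0) (XT.lf (nat_lit 0) (nat_lit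 1741866868) (nat_lit 228) (nat_lit 9096651490) (nat_lit 304) (nat_lit 13083202536) (nat_lit 64) (nat_lit 5) (nat_lit 67) (nat_lit 5) (nat_lit 68) (nat_lit 5) (nat_lit 347) (nat_lit 273) (nat_lit 160)) (XT.lf (nat_lit 0) (nat_lit 16759867791) (nat_lit 228) (nat_lit 223289643) (nat_lit 304) (nat_lit 7466464554) (nat_lit 64) (nat_lit 5) (nat_lit 67) (nat_lit 5) (nat_lit 68) (nat_lit 5) (nat_lit 348) (nat_lit 273) (nat_lit 159))) (XT.nd (nat_lit 78) (nat_lit 76) (nat_lit 0) (XT.lf (nat_lit 0) (nat_lit 7243637400) (nat_lit 228) (nat_lit 16155550527) (nat_lit 304) (nat_lit 1592440334) (nat_lit 61) (nat_lit 5) (nat_lit 64) (nat_lit 5) (nat_lit 65) (nat_lit 5) (nat_lit 349) (nat_lit 273) (nat_lit 158)) (XT.lf (nat_lit 0) (nat_lit 4435630979) (nat_lit 304) (nat_lit 2877647697) (nat_lit 76) (nat_lit 18235320106) (nat_lit 60) (nat_lit 5) (nat_lit 64) (nat_lit 5) (nat_lit 61) (nat_lit 5) (nat_lit 350) (nat_lit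 273) (nat_lit 157))))) (XT.nd (nat_lit 234) (nat_lit 532) (nat_lit 0) (XT.nd (nat_lit 78) (nat_lit 228) (nat_lit 0) (XT.lf (nat_lit 0) (nat_lit 10699668350) (nat_lit 304) (nat_lit 13567502162) (nat_lit 76) (nat_lit 1853370699) (nat_lit 57) (nat_lit 5) (nat_lit 61) (nat_lit 5) (nat_lit 58) (nat_lit 5) (nat_lit 351) (nat_lit 273) (nat_lit 156)) (XT.nd (nat_lit 78) (nat_lit 0) (nat_lit 0) (XT.lf (nat_lit 0) (nat_lit 1723034614) (nat_lit 228) (nat_lit 15491431826) (nat_lit 304) (nat_lit 9493926929) (nat_lit 54) (nat_lit 5) (nat_lit 57) (nat_lit 5) (nat_lit 58) (nat_lit 5) (nat_lit 352) (nat_lit 273) (nat_lit 155)) (XT.lf (nat_lit 0) (nat_lit 17631133499) (nat_lit 228) (nat_lit 6368946352) (nat_lit 304) (nat_lit 3312301816) (nat_lit 54) (nat_lit 5) (nat_lit 57) (nat_lit 5) (nat_lit 58) (nat_lit 5) (nat_lit 353) (nat_lit 273) (nat_lit 154)))) (XT.nd (nat_lit 156) (nat_lit 228) (nat_lit 0) (XT.nd (nat_lit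 78) (nat_lit 0) (nat_lit 0) (XT.lf (nat_lit 0) (nat_lit 3058203053) (nat_lit 304) (nat_lit 21837556798) (nat_lit 76) (nat_lit 3037470813) (nat_lit 50) (nat_lit 5) (nat_lit 54) (nat_lit 5) (nat_lit 51) (nat_lit 5) (nat_lit 354) (nat_lit 273) (nat_lit 153)) (XT.lf (nat_lit 0) (nat_lit 9667748940) (nat_lit 304) (nat_lit 6184290344) (nat_lit 76) (nat_lit 12718376816) (nat_lit 50) (nat_lit 5) (nat_lit 54) (nat_lit 5) (nat_lit 51) (nat_lit 5) (nat_lit 355) (nat_lit 273) (nat_lit 152))) (XT.nd (nat_lit 78) (nat_lit 0) (nat_lit 0) (XT.lf (nat_lit 0) (nat_lit 10044934609) (nat_lit 228) (nat_lit 6480370730) (nat_lit 304) (nat_lit 12700424460) (nat_lit 47) (nat_lit 5) (nat_lit 50) (nat_lit 5) (nat_lit 51) (nat_lit 5) (nat_lit 356) (nat_lit 273) (nat_lit 151)) (XT.lf (nat_lit 0) (nat_lit 23636101836) (nat_lit 304) (nat_lit 3100268614) (nat_lit 76) (nat_lit 3163389163) (nat_lit 47) (nat_lit 5) (nat_lit 51)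 (nat_lit 5) (nat_lit 48) (nat_lit 5) (nat_lit 357) (nat_lit 273) (nat_lit 150))))))))
noncomputable def xc76 : XT := (XT.nd (nat_lit 36036) (nat_lit 0) (nat_lit 7600) (XT.nd (nat_lit 35022) (nat_lit 0) (nat_lit 19912) (XT.nd (nat_lit 34476) (nat_lit 0) (nat_lit 30552) (XT.nd (nat_lit 34242) (nat_lit 0) (nat_lit 32908) (XT.nd (nat_lit 34086) (nat_lit 0) (nat_lit 33972) (XT.lf (nat_lit 0) (nat_lit 478812125) (nat_lit 228) (nat_lit 17021969277) (nat_lit 76) (nat_lit 13090839940) (nat_lit 44) (nat_lit 5) (nat_lit 47) (nat_lit 5) (nat_lit 45) (nat_lit 5) (nat_lit 358) (nat_lit 273) (nat_lit 149)) (XT.nd (nat_lit 78) (nat_lit 0) (nat_lit 0) (XT.lf (nat_lit 0) (nat_lit 1863818414) (nat_lit 1140) (nat_lit 892539349) (nat_lit 1140) (nat_lit 892539349) (nat_lit 491) (nat_lit 3) (nat_lit 506) (nat_lit 3) (nat_lit 506) (nat_lit 5) (nat_lit 274) (nat_lit 274) (nat_lit 232)) (XT.lf (nat_lit 76) (nat_lit 3170864732)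 (nat_lit 0) (nat_lit 2829046495) (nat_lit 1140) (nat_lit 1360141176) (nat_lit 492) (nat_lit 5) (nat_lit 491) (nat_lit 3) (nat_lit 506) (nat_lit 5) (nat_lit 275) (nat_lit 274) (nat_lit 231)))) (XT.nd (nat_lit 78) (nat_lit 0) (nat_lit 0) (XT.lf (nat_lit 0) (nat_lit 835097661) (nat_lit 1140) (nat_lit 6590245192) (nat_lit 1216) (nat_lit 207998) (nat_lit 477) (nat_lit 5) (nat_lit 492) (nat_lit 5) (nat_lit 493) (nat_lit 5) (nat_lit 276) (nat_lit 274) (nat_lit 230)) (XT.nd (nat_lit 78) (nat_lit 0) (nat_lit 0) (XT.lf (nat_lit 0) (nat_lit 3041140961) (nat_lit 1140) (nat_lit 1499690194) (nat_lit 1216) (nat_lit 2952841805) (nat_lit 477) (nat_lit 5) (nat_lit 492) (nat_lit 5) (nat_lit 493) (nat_lit 5) (nat_lit 277) (nat_lit 274) (nat_lit 229)) (XT.lf (nat_lit 76) (nat_lit 3747176061) (nat_lit 0) (nat_lit 1508796907) (nat_lit 1216) (nat_lit 2309117539) (nat_lit 478) (nat_lit 5) (nat_lit 477) (nat_lit 5) (nat_lit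 493) (nat_lit 5) (nat_lit 278) (nat_lit 274) (nat_lit 228))))) (XT.nd (nat_lit 234) (nat_lit 1216) (nat_lit 0) (XT.nd (nat_lit 78) (nat_lit 1216) (nat_lit 0) (XT.lf (nat_lit 76) (nat_lit 1495868899) (nat_lit 0) (nat_lit 5992396972) (nat_lit 1216) (nat_lit 151465289) (nat_lit 479) (nat_lit 5) (nat_lit 478) (nat_lit 5) (nat_lit 494) (nat_lit 5) (nat_lit 279) (nat_lit 274) (nat_lit 227)) (XT.nd (nat_lit 78) (nat_lit 0) (nat_lit 76) (XT.lf (nat_lit 0) (nat_lit 2001887564) (nat_lit 1216) (nat_lit 765580123) (nat_lit 1292) (nat_lit 4949807839) (nat_lit 462) (nat_lit 5) (nat_lit 478) (nat_lit 5) (nat_lit 479) (nat_lit 5) (nat_lit 280) (nat_lit 274) (nat_lit 226)) (XT.lf (nat_lit 0) (nat_lit 4177171960) (nat_lit 1216) (nat_lit 3011989940) (nat_lit 1292) (nat_lit 608869763) (nat_lit 463) (nat_lit 5) (nat_lit 479) (nat_lit 5) (nat_lit 480) (nat_lit 5) (nat_lit 281) (nat_lit 274) (nat_lit 225)))) (XT.nd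 (nat_lit 156) (nat_lit 0) (nat_lit 76) (XT.nd (nat_lit 78) (nat_lit 1292) (nat_lit 0) (XT.lf (nat_lit 76) (nat_lit 2602429160) (nat_lit 0) (nat_lit 3782283256) (nat_lit 1292) (nat_lit 1497248644) (nat_lit 464) (nat_lit 5) (nat_lit 463) (nat_lit 5) (nat_lit 480) (nat_lit 5) (nat_lit 282) (nat_lit 274) (nat_lit 224)) (XT.lf (nat_lit 76) (nat_lit 412266067) (nat_lit 0) (nat_lit 219631551) (nat_lit 1368) (nat_lit 7337489731) (nat_lit 447) (nat_lit 5) (nat_lit 446) (nat_lit 5) (nat_lit 464) (nat_lit 5) (nat_lit 283) (nat_lit 274) (nat_lit 223))) (XT.nd (nat_lit 78) (nat_lit 0) (nat_lit 0) (XT.lf (nat_lit 0) (nat_lit 2792723689) (nat_lit 1292) (nat_lit 1792208097) (nat_lit 1368) (nat_lit 3474627418) (nat_lit 447) (nat_lit 5) (nat_lit 464) (nat_lit 5) (nat_lit 465) (nat_lit 5) (nat_lit 284) (nat_lit 274) (nat_lit 222)) (XT.lf (nat_lit 76) (nat_lit 4152111736) (nat_lit 0) (nat_lit 826359228) (nat_lit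 1368) (nat_lit 3174844541) (nat_lit 448) (nat_lit 5) (nat_lit 447) (nat_lit 5) (nat_lit 465) (nat_lit 5) (nat_lit 285) (nat_lit 274) (nat_lit 221)))))) (XT.nd (nat_lit 468) (nat_lit 8132) (nat_lit 0) (XT.nd (nat_lit 234) (nat_lit 1292) (nat_lit 0) (XT.nd (nat_lit 78) (nat_lit 1368) (nat_lit 0) (XT.lf (nat_lit 76) (nat_lit 2008827442) (nat_lit 0) (nat_lit 5199498696) (nat_lit 1368) (nat_lit 1042066499) (nat_lit 449) (nat_lit 5) (nat_lit 448) (nat_lit 5) (nat_lit 466) (nat_lit 5) (nat_lit 286) (nat_lit 274) (nat_lit 220)) (XT.nd (nat_lit 78) (nat_lit 0) (nat_lit 76) (XT.lf (nat_lit 0) (nat_lit 1106997508) (nat_lit 1368) (nat_lit 156609948) (nat_lit 1444) (nat_lit 7087350810) (nat_lit 430) (nat_lit 5) (nat_lit 448) (nat_lit 5) (nat_lit 449) (nat_lit 5) (nat_lit 287) (nat_lit 274) (nat_lit 219)) (XT.lf (nat_lit 0) (nat_lit 3301381715) (nat_lit 1368) (nat_lit 2335168570) (nat_lit 1444) (nat_lit 2818025569)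 (nat_lit 431) (nat_lit 5) (nat_lit 449) (nat_lit 5) (nat_lit 450) (nat_lit 5) (nat_lit 288) (nat_lit 274) (nat_lit 218)))) (XT.nd (nat_lit 78) (nat_lit 1368) (nat_lit 0) (XT.lf (nat_lit 76) (nat_lit 4022079977) (nat_lit 0) (nat_lit 1513343067) (nat_lit 1444) (nat_lit 3026473160) (nat_lit 432) (nat_lit 5) (nat_lit 431) (nat_lit 5) (nat_lit 450) (nat_lit 5) (nat_lit 289) (nat_lit 274) (nat_lit 217)) (XT.nd (nat_lit 78) (nat_lit 76) (nat_lit 0) (XT.lf (nat_lit 0) (nat_lit 1889428203) (nat_lit 1368) (nat_lit 5932788704) (nat_lit 1444) (nat_lit 850573318) (nat_lit 414) (nat_lit 5) (nat_lit 432) (nat_lit 5) (nat_lit 433) (nat_lit 5) (nat_lit 290) (nat_lit 274) (nat_lit 216)) (XT.lf (nat_lit 0) (nat_lit 1354236127) (nat_lit 1444) (nat_lit 279530013) (nat_lit 76) (nat_lit 7153492319) (nat_lit 413) (nat_lit 5) (nat_lit 432) (nat_lit 5) (nat_lit 414) (nat_lit 5) (nat_lit 291) (nat_lit 274) (nat_lit 215)))))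 (XT.nd (nat_lit 234) (nat_lit 3572) (nat_lit 0) (XT.nd (nat_lit 78) (nat_lit 3116) (nat_lit 0) (XT.lf (nat_lit 0) (nat_lit 3616631264) (nat_lit 1520) (nat_lit 2471692532) (nat_lit 76) (nat_lit 2816728024) (nat_lit 394) (nat_lit 5) (nat_lit 414) (nat_lit 5) (nat_lit 395) (nat_lit 5) (nat_lit 292) (nat_lit 274) (nat_lit 214)) (XT.nd (nat_lit 78) (nat_lit 1596) (nat_lit 0) (XT.lf (nat_lit 0) (nat_lit 4324299763) (nat_lit 1520) (nat_lit 1607465240) (nat_lit 1596) (nat_lit 3094978269) (nat_lit 374) (nat_lit 5) (nat_lit 394) (nat_lit 5) (nat_lit 395) (nat_lit 5) (nat_lit 293) (nat_lit 274) (nat_lit 213)) (XT.lf (nat_lit 0) (nat_lit 2167996300) (nat_lit 1596) (nat_lit 6144171482) (nat_lit 1672) (nat_lit 840061215) (nat_lit 353) (nat_lit 5) (nat_lit 374) (nat_lit 5) (nat_lit 375) (nat_lit 5) (nat_lit 294) (nat_lit 274) (nat_lit 212)))) (XT.nd (nat_lit 156) (nat_lit 1824) (nat_lit 0) (XT.nd (nat_lit 78)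 (nat_lit 1672) (nat_lit 0) (XT.lf (nat_lit 0) (nat_lit 1452116975) (nat_lit 1672) (nat_lit 39571241) (nat_lit 76) (nat_lit 7789874381) (nat_lit 352) (nat_lit 5) (nat_lit 374) (nat_lit 5) (nat_lit 353) (nat_lit 5) (nat_lit 295) (nat_lit 274) (nat_lit 211)) (XT.lf (nat_lit 0) (nat_lit 3817786054) (nat_lit 1748) (nat_lit 2280674663) (nat_lit 76) (nat_lit 3315936947) (nat_lit 330) (nat_lit 5) (nat_lit 353) (nat_lit 5) (nat_lit 331) (nat_lit 5) (nat_lit 296) (nat_lit 274) (nat_lit 210))) (XT.nd (nat_lit 78) (nat_lit 836) (nat_lit 0) (XT.lf (nat_lit 0) (nat_lit 4980832012) (nat_lit 988) (nat_lit 1265242246) (nat_lit 1064) (nat_lit 3305364224) (nat_lit 317) (nat_lit 5) (nat_lit 330) (nat_lit 5) (nat_lit 331) (nat_lit 5) (nat_lit 297) (nat_lit 274) (nat_lit 209)) (XT.lf (nat_lit 0) (nat_lit 2764782896) (nat_lit 836) (nat_lit 5990325835) (nat_lit 912) (nat_lit 937375958) (nat_lit 306) (nat_lit 5) (nat_lit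 317) (nat_lit 5) (nat_lit 318) (nat_lit 5) (nat_lit 298) (nat_lit 274) (nat_lit 208))))))) (XT.nd (nat_lit 1014) (nat_lit 4940) (nat_lit 0) (XT.nd (nat_lit 468) (nat_lit 4180) (nat_lit 0) (XT.nd (nat_lit 234) (nat_lit 1520) (nat_lit 0) (XT.nd (nat_lit 78) (nat_lit 760) (nat_lit 0) (XT.lf (nat_lit 0) (nat_lit 487292814) (nat_lit 836) (nat_lit 988529780) (nat_lit 912) (nat_lit 8361916997) (nat_lit 294) (nat_lit 5) (nat_lit 305) (nat_lit 5) (nat_lit 306) (nat_lit 5) (nat_lit 299) (nat_lit 274) (nat_lit 207)) (XT.nd (nat_lit 78) (nat_lit 760) (nat_lit 0) (XT.lf (nat_lit 0) (nat_lit 3975247501) (nat_lit 912) (nat_lit 1847062421) (nat_lit 76) (nat_lit 4164435148) (nat_lit 294) (nat_lit 5) (nat_lit 306) (nat_lit 5) (nat_lit 295) (nat_lit 5) (nat_lit 300) (nat_lit 274) (nat_lit 206)) (XT.lf (nat_lit 0) (nat_lit 5907038655) (nat_lit 760) (nat_lit 641178525) (nat_lit 836) (nat_lit 3592079048) (nat_lit 284)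 (nat_lit 5) (nat_lit 294) (nat_lit 5) (nat_lit 295) (nat_lit 5) (nat_lit 301) (nat_lit 274) (nat_lit 205)))) (XT.nd (nat_lit 78) (nat_lit 760) (nat_lit 0) (XT.lf (nat_lit 0) (nat_lit 3591912751) (nat_lit 760) (nat_lit 5627535746) (nat_lit 836) (nat_lit 1078629370) (nat_lit 274) (nat_lit 5) (nat_lit 284) (nat_lit 5) (nat_lit 285) (nat_lit 5) (nat_lit 302) (nat_lit 274) (nat_lit 204)) (XT.nd (nat_lit 78) (nat_lit 0) (nat_lit 0) (XT.lf (nat_lit 0) (nat_lit 1205929037) (nat_lit 684) (nat_lit 280841099) (nat_lit 760) (nat_lit 8973742859) (nat_lit 264) (nat_lit 5) (nat_lit 273) (nat_lit 5) (nat_lit 274) (nat_lit 5) (nat_lit 303) (nat_lit 274) (nat_lit 203)) (XT.lf (nat_lit 0) (nat_lit 4150600875) (nat_lit 760) (nat_lit 1266717968) (nat_lit 76) (nat_lit 5209679218) (nat_lit 264) (nat_lit 5) (nat_lit 274) (nat_lit 5) (nat_lit 265) (nat_lit 5) (nat_lit 304) (nat_lit 274) (nat_lit 202))))) (XT.nd (nat_lit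 234) (nat_lit 1976) (nat_lit 0) (XT.nd (nat_lit 78) (nat_lit 1444) (nat_lit 0) (XT.lf (nat_lit 0) (nat_lit 6900046942) (nat_lit 836) (nat_lit 3792529821) (nat_lit 76) (nat_lit 105827637) (nat_lit 254) (nat_lit 5) (nat_lit 265) (nat_lit 5) (nat_lit 255) (nat_lit 5) (nat_lit 305) (nat_lit 274) (nat_lit 201)) (XT.nd (nat_lit 78) (nat_lit 760) (nat_lit 0) (XT.lf (nat_lit 0) (nat_lit 4548217764) (nat_lit 684) (nat_lit 5216729891) (nat_lit 760) (nat_lit 1209385394) (nat_lit 245) (nat_lit 5) (nat_lit 254) (nat_lit 5) (nat_lit 255) (nat_lit 5) (nat_lit 306) (nat_lit 274) (nat_lit 200)) (XT.lf (nat_lit 0) (nat_lit 1540940468) (nat_lit 760) (nat_lit 9150566998) (nat_lit 76) (nat_lit 463844172) (nat_lit 235) (nat_lit 5) (nat_lit 245) (nat_lit 5) (nat_lit 236) (nat_lit 5) (nat_lit 307) (nat_lit 274) (nat_lit 199)))) (XT.nd (nat_lit 156) (nat_lit 1368) (nat_lit 0) (XT.nd (nat_lit 78) (nat_lit 608) (nat_lit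 0) (XT.lf (nat_lit 0) (nat_lit 4396232146) (nat_lit 760) (nat_lit 651924529) (nat_lit 76) (nat_lit 6292743034) (nat_lit 235) (nat_lit 5) (nat_lit 245) (nat_lit 5) (nat_lit 236) (nat_lit 5) (nat_lit 308) (nat_lit 274) (nat_lit 198)) (XT.lf (nat_lit 0) (nat_lit 7356722970) (nat_lit 684) (nat_lit 3371293950) (nat_lit 76) (nat_lit 803641972) (nat_lit 227) (nat_lit 5) (nat_lit 236) (nat_lit 5) (nat_lit 228) (nat_lit 5) (nat_lit 309) (nat_lit 274) (nat_lit 197))) (XT.nd (nat_lit 78) (nat_lit 684) (nat_lit 0) (XT.lf (nat_lit 0) (nat_lit 5513333125) (nat_lit 684) (nat_lit 4928759227) (nat_lit 760) (nat_lit 1285361668) (nat_lit 218) (nat_lit 5) (nat_lit 227) (nat_lit 5) (nat_lit 228) (nat_lit 5) (nat_lit 310) (nat_lit 274) (nat_lit 196)) (XT.lf (nat_lit 0) (nat_lit 1679368514) (nat_lit 684) (nat_lit 9171763344) (nat_lit 76) (nat_lit 1077591457) (nat_lit 209) (nat_lit 5) (nat_lit 218) (nat_lit 5) (nat_lit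 210) (nat_lit 5) (nat_lit 311) (nat_lit 274) (nat_lit 195)))))) (XT.nd (nat_lit 468) (nat_lit 2584) (nat_lit 0) (XT.nd (nat_lit 234) (nat_lit 1216) (nat_lit 0) (XT.nd (nat_lit 78) (nat_lit 1140) (nat_lit 0) (XT.lf (nat_lit 0) (nat_lit 4754416388) (nat_lit 684) (nat_lit 137732949) (nat_lit 76) (nat_lit 7242966481) (nat_lit 209) (nat_lit 5) (nat_lit 218) (nat_lit 5) (nat_lit 210) (nat_lit 5) (nat_lit 312) (nat_lit 274) (nat_lit 194)) (XT.nd (nat_lit 78) (nat_lit 532) (nat_lit 0) (XT.lf (nat_lit 0) (nat_lit 7954654722) (nat_lit 684) (nat_lit 3108784320) (nat_lit 76) (nat_lit 1283633179) (nat_lit 201) (nat_lit 5) (nat_lit 210) (nat_lit 5) (nat_lit 202) (nat_lit 5) (nat_lit 313) (nat_lit 274) (nat_lit 193)) (XT.lf (nat_lit 0) (nat_lit 6340845261) (nat_lit 532) (nat_lit 4950064853) (nat_lit 608) (nat_lit 1273707007) (nat_lit 194) (nat_lit 5) (nat_lit 201) (nat_lit 5) (nat_lit 202) (nat_lit 5) (nat_lit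 314) (nat_lit 274) (nat_lit 192)))) (XT.nd (nat_lit 78) (nat_lit 532) (nat_lit 0) (XT.lf (nat_lit 0) (nat_lit 1930627649) (nat_lit 684) (nat_lit 9479834113) (nat_lit 76) (nat_lit 1377653686) (nat_lit 185) (nat_lit 5) (nat_lit 194) (nat_lit 5) (nat_lit 186) (nat_lit 5) (nat_lit 315) (nat_lit 274) (nat_lit 191)) (XT.nd (nat_lit 78) (nat_lit 0) (nat_lit 0) (XT.lf (nat_lit 0) (nat_lit 112095520) (nat_lit 532) (nat_lit 5144441636) (nat_lit 608) (nat_lit 7760785923) (nat_lit 178) (nat_lit 5) (nat_lit 185) (nat_lit 5) (nat_lit 186) (nat_lit 5) (nat_lit 316) (nat_lit 274) (nat_lit 190)) (XT.lf (nat_lit 0) (nat_lit 8722419852) (nat_lit 608) (nat_lit 3180953645) (nat_lit 76) (nat_lit 1349256442) (nat_lit 178) (nat_lit 5) (nat_lit 186) (nat_lit 5) (nat_lit 179) (nat_lit 5) (nat_lit 317) (nat_lit 274) (nat_lit 189))))) (XT.nd (nat_lit 234) (nat_lit 1520) (nat_lit 0) (XT.nd (nat_lit 78) (nat_lit 532) (nat_lit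 0) (XT.lf (nat_lit 0) (nat_lit 6850246731) (nat_lit 532) (nat_lit 5488901714) (nat_lit 608) (nat_lit 1154936307) (nat_lit 171) (nat_lit 5) (nat_lit 178) (nat_lit 5) (nat_lit 179) (nat_lit 5) (nat_lit 318) (nat_lit 274) (nat_lit 188)) (XT.nd (nat_lit 78) (nat_lit 0) (nat_lit 0) (XT.lf (nat_lit 0) (nat_lit 2311429607) (nat_lit 532) (nat_lit 10275965069) (nat_lit 76) (nat_lit 1154706302) (nat_lit 164) (nat_lit 5) (nat_lit 171) (nat_lit 5) (nat_lit 165) (nat_lit 5) (nat_lit 319) (nat_lit 274) (nat_lit 187)) (XT.lf (nat_lit 0) (nat_lit 5917251839) (nat_lit 532) (nat_lit 111004789) (nat_lit 76) (nat_lit 7968149403) (nat_lit 164) (nat_lit 5) (nat_lit 171) (nat_lit 5) (nat_lit 165) (nat_lit 5) (nat_lit 320) (nat_lit 274) (nat_lit 186)))) (XT.nd (nat_lit 156) (nat_lit 532) (nat_lit 0) (XT.nd (nat_lit 78) (nat_lit 456) (nat_lit 0) (XT.lf (nat_lit 0) (nat_lit 9674204429) (nat_lit 608) (nat_lit 3805477062)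 (nat_lit 76) (nat_lit 777823082) (nat_lit 157) (nat_lit 5) (nat_lit 165) (nat_lit 5) (nat_lit 158) (nat_lit 5) (nat_lit 321) (nat_lit 274) (nat_lit 185)) (XT.lf (nat_lit 0) (nat_lit 6817411333) (nat_lit 456) (nat_lit 6782302065) (nat_lit 532) (nat_lit 925628480) (nat_lit 151) (nat_lit 5) (nat_lit 157) (nat_lit 5) (nat_lit 158) (nat_lit 5) (nat_lit 322) (nat_lit 274) (nat_lit 184))) (XT.nd (nat_lit 78) (nat_lit 0) (nat_lit 0) (XT.lf (nat_lit 0) (nat_lit 2821917065) (nat_lit 532) (nat_lit 11809162996) (nat_lit 76) (nat_lit 169438616) (nat_lit 144) (nat_lit 5) (nat_lit 151) (nat_lit 5) (nat_lit 145) (nat_lit 5) (nat_lit 323) (nat_lit 274) (nat_lit 183)) (XT.lf (nat_lit 0) (nat_lit 6738770977) (nat_lit 532) (nat_lit 1056086200) (nat_lit 76) (nat_lit 7287603118) (nat_lit 144) (nat_lit 5) (nat_lit 151) (nat_lit 5) (nat_lit 145) (nat_lit 5) (nat_lit 324) (nat_lit 274) (nat_lit 182))))))))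
noncomputable def xc77 : XT := (XT.nd (nat_lit 2028) (nat_lit 1064) (nat_lit 0) (XT.nd (nat_lit 1014) (nat_lit 2356) (nat_lit 0) (XT.nd (nat_lit 468) (nat_lit 1824) (nat_lit 0) (XT.nd (nat_lit 234) (nat_lit 760) (nat_lit 0) (XT.nd (nat_lit 78) (nat_lit 912) (nat_lit 0) (XT.lf (nat_lit 0) (nat_lit 10114945467) (nat_lit 456) (nat_lit 696141901) (nat_lit 532) (nat_lit 4561034084) (nat_lit 138) (nat_lit 5) (nat_lit 144) (nat_lit 5) (nat_lit 145) (nat_lit 5) (nat_lit 325) (nat_lit 274) (nat_lit 181)) (XT.nd (nat_lit 78) (nat_lit 456) (nat_lit 0) (XT.lf (nat_lit 0) (nat_lit 5963251460) (nat_lit 456) (nat_lit 9103986375) (nat_lit 532) (nat_lit 602021146) (nat_lit 132) (nat_lit 5) (nat_lit 138) (nat_lit 5) (nat_lit 139) (nat_lit 5) (nat_lit 326) (nat_lit 274) (nat_lit 180)) (XT.lf (nat_lit 0) (nat_lit 1573873224) (nat_lit 380) (nat_lit 1880188366) (nat_lit 456) (nat_lit 12520338888) (nat_lit 126) (nat_lit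 5) (nat_lit 131) (nat_lit 5) (nat_lit 132) (nat_lit 5) (nat_lit 327) (nat_lit 274) (nat_lit 179)))) (XT.nd (nat_lit 78) (nat_lit 760) (nat_lit 0) (XT.lf (nat_lit 0) (nat_lit 7699633183) (nat_lit 456) (nat_lit 3039780026) (nat_lit 76) (nat_lit 5547702041) (nat_lit 126) (nat_lit 5) (nat_lit 132) (nat_lit 5) (nat_lit 127) (nat_lit 5) (nat_lit 328) (nat_lit 274) (nat_lit 178)) (XT.nd (nat_lit 78) (nat_lit 380) (nat_lit 0) (XT.lf (nat_lit 0) (nat_lit 8727913128) (nat_lit 380) (nat_lit 3388298884) (nat_lit 456) (nat_lit 4492144441) (nat_lit 121) (nat_lit 5) (nat_lit 126) (nat_lit 5) (nat_lit 127) (nat_lit 5) (nat_lit 329) (nat_lit 274) (nat_lit 177)) (XT.lf (nat_lit 0) (nat_lit 3940157550) (nat_lit 380) (nat_lit 12773459367) (nat_lit 456) (nat_lit 224668677) (nat_lit 116) (nat_lit 5) (nat_lit 121) (nat_lit 5) (nat_lit 122) (nat_lit 5) (nat_lit 330) (nat_lit 274) (nat_lit 176))))) (XT.nd (nat_lit 234)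 (nat_lit 1064) (nat_lit 0) (XT.nd (nat_lit 78) (nat_lit 684) (nat_lit 0) (XT.lf (nat_lit 0) (nat_lit 4167718901) (nat_lit 456) (nat_lit 1139303938) (nat_lit 76) (nat_lit 11969532840) (nat_lit 115) (nat_lit 5) (nat_lit 121) (nat_lit 5) (nat_lit 116) (nat_lit 5) (nat_lit 331) (nat_lit 274) (nat_lit 175)) (XT.nd (nat_lit 78) (nat_lit 304) (nat_lit 0) (XT.lf (nat_lit 0) (nat_lit 8753268339) (nat_lit 456) (nat_lit 6453778446) (nat_lit 76) (nat_lit 2416624491) (nat_lit 110) (nat_lit 5) (nat_lit 116) (nat_lit 5) (nat_lit 111) (nat_lit 5) (nat_lit 332) (nat_lit 274) (nat_lit 174)) (XT.lf (nat_lit 0) (nat_lit 5890381955) (nat_lit 304) (nat_lit 7643823234) (nat_lit 380) (nat_lit 4445854230) (nat_lit 106) (nat_lit 5) (nat_lit 110) (nat_lit 5) (nat_lit 111) (nat_lit 5) (nat_lit 333) (nat_lit 274) (nat_lit 173)))) (XT.nd (nat_lit 156) (nat_lit 608) (nat_lit 0) (XT.nd (nat_lit 78) (nat_lit 0) (nat_lit 0) (XT.lf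 (nat_lit 0) (nat_lit 133852171) (nat_lit 456) (nat_lit 18031815736) (nat_lit 76) (nat_lit 180993928) (nat_lit 100) (nat_lit 5) (nat_lit 106) (nat_lit 5) (nat_lit 101) (nat_lit 5) (nat_lit 334) (nat_lit 274) (nat_lit 172)) (XT.lf (nat_lit 0) (nat_lit 4901488700) (nat_lit 456) (nat_lit 5580891417) (nat_lit 76) (nat_lit 8239089974) (nat_lit 100) (nat_lit 5) (nat_lit 106) (nat_lit 5) (nat_lit 101) (nat_lit 5) (nat_lit 335) (nat_lit 274) (nat_lit 171))) (XT.nd (nat_lit 78) (nat_lit 304) (nat_lit 0) (XT.lf (nat_lit 0) (nat_lit 7306506410) (nat_lit 304) (nat_lit 2530768844) (nat_lit 380) (nat_lit 9269758825) (nat_lit 96) (nat_lit 5) (nat_lit 100) (nat_lit 5) (nat_lit 101) (nat_lit 5) (nat_lit 336) (nat_lit 274) (nat_lit 170)) (XT.lf (nat_lit 0) (nat_lit 1098187621) (nat_lit 304) (nat_lit 13882945084) (nat_lit 380) (nat_lit 4521845836) (nat_lit 92) (nat_lit 5) (nat_lit 96) (nat_lit 5) (nat_lit 97) (nat_lit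 5) (nat_lit 337) (nat_lit 274) (nat_lit 169)))))) (XT.nd (nat_lit 468) (nat_lit 1368) (nat_lit 0) (XT.nd (nat_lit 234) (nat_lit 304) (nat_lit 0) (XT.nd (nat_lit 78) (nat_lit 608) (nat_lit 0) (XT.lf (nat_lit 0) (nat_lit 439418579) (nat_lit 380) (nat_lit 5416156554) (nat_lit 76) (nat_lit 14053676261) (nat_lit 91) (nat_lit 5) (nat_lit 96) (nat_lit 5) (nat_lit 92) (nat_lit 5) (nat_lit 338) (nat_lit 274) (nat_lit 168)) (XT.nd (nat_lit 78) (nat_lit 304) (nat_lit 0) (XT.lf (nat_lit 0) (nat_lit 5535513622) (nat_lit 380) (nat_lit 12337306485) (nat_lit 76) (nat_lit 2453358475) (nat_lit 87) (nat_lit 5) (nat_lit 92) (nat_lit 5) (nat_lit 88) (nat_lit 5) (nat_lit 339) (nat_lit 274) (nat_lit 167)) (XT.lf (nat_lit 0) (nat_lit 1058389944) (nat_lit 304) (nat_lit 9788380671) (nat_lit 380) (nat_lit 9907609502) (nat_lit 83) (nat_lit 5) (nat_lit 87) (nat_lit 5) (nat_lit 88) (nat_lit 5) (nat_lit 340) (nat_lit 274) (nat_lit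 166)))) (XT.nd (nat_lit 78) (nat_lit 304) (nat_lit 0) (XT.lf (nat_lit 0) (nat_lit 14993943260) (nat_lit 304) (nat_lit 1386729649) (nat_lit 380) (nat_lit 4813500395) (nat_lit 83) (nat_lit 5) (nat_lit 87) (nat_lit 5) (nat_lit 88) (nat_lit 5) (nat_lit 341) (nat_lit 274) (nat_lit 165)) (XT.nd (nat_lit 78) (nat_lit 0) (nat_lit 0) (XT.lf (nat_lit 0) (nat_lit 505812852) (nat_lit 304) (nat_lit 13924751043) (nat_lit 76) (nat_lit 7214989992) (nat_lit 79) (nat_lit 5) (nat_lit 83) (nat_lit 5) (nat_lit 80) (nat_lit 5) (nat_lit 342) (nat_lit 274) (nat_lit 164)) (XT.lf (nat_lit 0) (nat_lit 5951721483) (nat_lit 304) (nat_lit 37147420) (nat_lit 76) (nat_lit 16120333257) (nat_lit 79) (nat_lit 5) (nat_lit 83) (nat_lit 5) (nat_lit 80) (nat_lit 5) (nat_lit 343) (nat_lit 274) (nat_lit 163))))) (XT.nd (nat_lit 234) (nat_lit 760) (nat_lit 0) (XT.nd (nat_lit 78) (nat_lit 304) (nat_lit 0) (XT.lf (nat_lit 0) (nat_lit 11653842673)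 (nat_lit 380) (nat_lit 8176331032) (nat_lit 76) (nat_lit 2754740021) (nat_lit 75) (nat_lit 5) (nat_lit 80) (nat_lit 5) (nat_lit 76) (nat_lit 5) (nat_lit 344) (nat_lit 274) (nat_lit 162)) (XT.nd (nat_lit 78) (nat_lit 76) (nat_lit 0) (XT.lf (nat_lit 0) (nat_lit 6225831237) (nat_lit 228) (nat_lit 11363263506) (nat_lit 304) (nat_lit 5484570791) (nat_lit 72) (nat_lit 5) (nat_lit 75) (nat_lit 5) (nat_lit 76) (nat_lit 5) (nat_lit 345) (nat_lit 274) (nat_lit 161)) (XT.lf (nat_lit 0) (nat_lit 161021312) (nat_lit 304) (nat_lit 2434029528) (nat_lit 76) (nat_lit 20981275725) (nat_lit 71) (nat_lit 5) (nat_lit 75) (nat_lit 5) (nat_lit 72) (nat_lit 5) (nat_lit 346) (nat_lit 274) (nat_lit 160)))) (XT.nd (nat_lit 156) (nat_lit 228) (nat_lit 0) (XT.nd (nat_lit 78) (nat_lit 228) (nat_lit 0) (XT.lf (nat_lit 0) (nat_lit 6007733966) (nat_lit 380) (nat_lit 11622990484) (nat_lit 76) (nat_lit 6460502049) (nat_lit 67)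 (nat_lit 5) (nat_lit 72) (nat_lit 5) (nat_lit 68) (nat_lit 5) (nat_lit 347) (nat_lit 274) (nat_lit 159)) (XT.lf (nat_lit 0) (nat_lit 3226643098) (nat_lit 228) (nat_lit 8840493968) (nat_lit 304) (nat_lit 12553699773) (nat_lit 64) (nat_lit 5) (nat_lit 67) (nat_lit 5) (nat_lit 68) (nat_lit 5) (nat_lit 348) (nat_lit 274) (nat_lit 158))) (XT.nd (nat_lit 78) (nat_lit 228) (nat_lit 0) (XT.lf (nat_lit 0) (nat_lit 18371642558) (nat_lit 304) (nat_lit 6513496387) (nat_lit 76) (nat_lit 279939062) (nat_lit 64) (nat_lit 5) (nat_lit 68) (nat_lit 5) (nat_lit 65) (nat_lit 5) (nat_lit 349) (nat_lit 274) (nat_lit 157)) (XT.lf (nat_lit 0) (nat_lit 8843601849) (nat_lit 228) (nat_lit 16121377314) (nat_lit 304) (nat_lit 758681990) (nat_lit 61) (nat_lit 5) (nat_lit 64) (nat_lit 5) (nat_lit 65) (nat_lit 5) (nat_lit 350) (nat_lit 274) (nat_lit 156))))))) (XT.nd (nat_lit 35100) (nat_lit 0) (nat_lit 26372) (XT.nd (nat_lit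 468) (nat_lit 228) (nat_lit 0) (XT.nd (nat_lit 234) (nat_lit 304) (nat_lit 0) (XT.nd (nat_lit 78) (nat_lit 456) (nat_lit 0) (XT.lf (nat_lit 0) (nat_lit 5413331083) (nat_lit 304) (nat_lit 1609950141) (nat_lit 76) (nat_lit 19274464428) (nat_lit 60) (nat_lit 5) (nat_lit 64) (nat_lit 5) (nat_lit 61) (nat_lit 5) (nat_lit 351) (nat_lit 274) (nat_lit 155)) (XT.nd (nat_lit 78) (nat_lit 228) (nat_lit 0) (XT.lf (nat_lit 0) (nat_lit 11852605562) (nat_lit 304) (nat_lit 12628756142) (nat_lit 76) (nat_lit 2405750520) (nat_lit 57) (nat_lit 5) (nat_lit 61) (nat_lit 5) (nat_lit 58) (nat_lit 5) (nat_lit 352) (nat_lit 274) (nat_lit 154)) (XT.lf (nat_lit 0) (nat_lit 3098663200) (nat_lit 228) (nat_lit 15448548803) (nat_lit 304) (nat_lit 8945712487) (nat_lit 54) (nat_lit 5) (nat_lit 57) (nat_lit 5) (nat_lit 58) (nat_lit 5) (nat_lit 353) (nat_lit 274) (nat_lit 153)))) (XT.nd (nat_lit 78) (nat_lit 304) (nat_lit 0) (XT.lf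 (nat_lit 0) (nat_lit 19445443765) (nat_lit 228) (nat_lit 6067173987) (nat_lit 304) (nat_lit 2602901695) (nat_lit 54) (nat_lit 5) (nat_lit 57) (nat_lit 5) (nat_lit 58) (nat_lit 5) (nat_lit 354) (nat_lit 274) (nat_lit 152)) (XT.nd (nat_lit 78) (nat_lit 0) (nat_lit 0) (XT.lf (nat_lit 0) (nat_lit 3936339245) (nat_lit 304) (nat_lit 21204523357) (nat_lit 76) (nat_lit 3614272664) (nat_lit 50) (nat_lit 5) (nat_lit 54) (nat_lit 5) (nat_lit 51) (nat_lit 5) (nat_lit 355) (nat_lit 274) (nat_lit 151)) (XT.lf (nat_lit 0) (nat_lit 10721266944) (nat_lit 304) (nat_lit 5119178136) (nat_lit 76) (nat_lit 13571459894) (nat_lit 50) (nat_lit 5) (nat_lit 54) (nat_lit 5) (nat_lit 51) (nat_lit 5) (nat_lit 356) (nat_lit 274) (nat_lit 150))))) (XT.nd (nat_lit 34320) (nat_lit 0) (nat_lit 31464) (XT.nd (nat_lit 78) (nat_lit 0) (nat_lit 0) (XT.lf (nat_lit 0) (nat_lit 11576633402) (nat_lit 228) (nat_lit 6193667442) (nat_lit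 304) (nat_lit 12316872531) (nat_lit 47) (nat_lit 5) (nat_lit 50) (nat_lit 5) (nat_lit 51) (nat_lit 5) (nat_lit 357) (nat_lit 274) (nat_lit 149)) (XT.nd (nat_lit 34164) (nat_lit 0) (nat_lit 32604) (XT.lf (nat_lit 0) (nat_lit 25075631551) (nat_lit 304) (nat_lit 1986912248) (nat_lit 76) (nat_lit 3719266088) (nat_lit 47) (nat_lit 5) (nat_lit 51) (nat_lit 5) (nat_lit 48) (nat_lit 5) (nat_lit 358) (nat_lit 274) (nat_lit 148)) (XT.lf (nat_lit 0) (nat_lit 189932900) (nat_lit 0) (nat_lit 189932900) (nat_lit 1140) (nat_lit 3332051437) (nat_lit 476) (nat_lit 5) (nat_lit 476) (nat_lit 3) (nat_lit 491) (nat_lit 3) (nat_lit 275) (nat_lit 275) (nat_lit 230)))) (XT.nd (nat_lit 156) (nat_lit 1140) (nat_lit 0) (XT.nd (nat_lit 78) (nat_lit 0) (nat_lit 0) (XT.lf (nat_lit 0) (nat_lit 2887793087) (nat_lit 1140) (nat_lit 2058604512) (nat_lit 1216) (nat_lit 2543798215) (nat_lit 476) (nat_lit 5) (nat_lit 491) (nat_lit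 3) (nat_lit 492) (nat_lit 5) (nat_lit 276) (nat_lit 275) (nat_lit 229)) (XT.lf (nat_lit 76) (nat_lit 3071071641) (nat_lit 0) (nat_lit 1949416196) (nat_lit 1216) (nat_lit 2539348251) (nat_lit 477) (nat_lit 5) (nat_lit 476) (nat_lit 5) (nat_lit 492) (nat_lit 5) (nat_lit 277) (nat_lit 275) (nat_lit 228))) (XT.nd (nat_lit 78) (nat_lit 1216) (nat_lit 0) (XT.lf (nat_lit 76) (nat_lit 709129169) (nat_lit 0) (nat_lit 6454724277) (nat_lit 1216) (nat_lit 468879221) (nat_lit 478) (nat_lit 5) (nat_lit 477) (nat_lit 5) (nat_lit 493) (nat_lit 5) (nat_lit 278) (nat_lit 275) (nat_lit 227)) (XT.lf (nat_lit 0) (nat_lit 1607617706) (nat_lit 1216) (nat_lit 1651482880) (nat_lit 1292) (nat_lit 4449280885) (nat_lit 461) (nat_lit 5) (nat_lit 477) (nat_lit 5) (nat_lit 478) (nat_lit 5) (nat_lit 279) (nat_lit 275) (nat_lit 226)))))) (XT.nd (nat_lit 468) (nat_lit 3952) (nat_lit 0) (XT.nd (nat_lit 234) (nat_lit 1216) (nat_lit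 0) (XT.nd (nat_lit 78) (nat_lit 0) (nat_lit 0) (XT.lf (nat_lit 0) (nat_lit 3689581746) (nat_lit 1216) (nat_lit 4006026831) (nat_lit 1292) (nat_lit 91731569) (nat_lit 462) (nat_lit 5) (nat_lit 478) (nat_lit 5) (nat_lit 479) (nat_lit 5) (nat_lit 280) (nat_lit 275) (nat_lit 225)) (XT.nd (nat_lit 78) (nat_lit 0) (nat_lit 0) (XT.lf (nat_lit 76) (nat_lit 1484453761) (nat_lit 0) (nat_lit 4318725483) (nat_lit 1292) (nat_lit 2066195371) (nat_lit 463) (nat_lit 5) (nat_lit 462) (nat_lit 5) (nat_lit 479) (nat_lit 5) (nat_lit 281) (nat_lit 275) (nat_lit 224)) (XT.lf (nat_lit 76) (nat_lit 7150802911) (nat_lit 0) (nat_lit 784862067) (nat_lit 1292) (nat_lit 19183423) (nat_lit 463) (nat_lit 5) (nat_lit 462) (nat_lit 5) (nat_lit 479) (nat_lit 5) (nat_lit 282) (nat_lit 275) (nat_lit 223)))) (XT.nd (nat_lit 78) (nat_lit 0) (nat_lit 0) (XT.lf (nat_lit 0) (nat_lit 2042880560) (nat_lit 1292) (nat_lit 3110254616) (nat_lit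 1368) (nat_lit 2889942735) (nat_lit 446) (nat_lit 5) (nat_lit 463) (nat_lit 5) (nat_lit 464) (nat_lit 5) (nat_lit 283) (nat_lit 275) (nat_lit 222)) (XT.nd (nat_lit 78) (nat_lit 0) (nat_lit 76) (XT.lf (nat_lit 76) (nat_lit 2704683399) (nat_lit 0) (nat_lit 1421965885) (nat_lit 1368) (nat_lit 4008181639) (nat_lit 447) (nat_lit 5) (nat_lit 446) (nat_lit 5) (nat_lit 464) (nat_lit 5) (nat_lit 284) (nat_lit 275) (nat_lit 221)) (XT.lf (nat_lit 76) (nat_lit 452632865) (nat_lit 0) (nat_lit 5793831876) (nat_lit 1368) (nat_lit 1983479962) (nat_lit 448) (nat_lit 5) (nat_lit 447) (nat_lit 5) (nat_lit 465) (nat_lit 5) (nat_lit 285) (nat_lit 275) (nat_lit 220))))) (XT.nd (nat_lit 234) (nat_lit 2660) (nat_lit 0) (XT.nd (nat_lit 78) (nat_lit 0) (nat_lit 76) (XT.lf (nat_lit 0) (nat_lit 81974201) (nat_lit 1368) (nat_lit 1796746757) (nat_lit 1444) (nat_lit 6449625780) (nat_lit 429) (nat_lit 5) (nat_lit 447) (nat_lit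 5) (nat_lit 448) (nat_lit 5) (nat_lit 286) (nat_lit 275) (nat_lit 219)) (XT.nd (nat_lit 78) (nat_lit 0) (nat_lit 0) (XT.lf (nat_lit 0) (nat_lit 2162009163) (nat_lit 1368) (nat_lit 4081457659) (nat_lit 1444) (nat_lit 2186453369) (nat_lit 430) (nat_lit 5) (nat_lit 448) (nat_lit 5) (nat_lit 449) (nat_lit 5) (nat_lit 287) (nat_lit 275) (nat_lit 218)) (XT.lf (nat_lit 76) (nat_lit 2138963805) (nat_lit 0) (nat_lit 2142568833) (nat_lit 1444) (nat_lit 4253537206) (nat_lit 431) (nat_lit 5) (nat_lit 430) (nat_lit 5) (nat_lit 449) (nat_lit 5) (nat_lit 288) (nat_lit 275) (nat_lit 217)))) (XT.nd (nat_lit 156) (nat_lit 2812) (nat_lit 0) (XT.nd (nat_lit 78) (nat_lit 0) (nat_lit 0) (XT.lf (nat_lit 0) (nat_lit 6445988988) (nat_lit 1368) (nat_lit 100070427) (nat_lit 1444) (nat_lit 2097756314) (nat_lit 431) (nat_lit 5) (nat_lit 449) (nat_lit 5) (nat_lit 450) (nat_lit 5) (nat_lit 289) (nat_lit 275) (nat_lit 216))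 (XT.lf (nat_lit 76) (nat_lit 6410497204) (nat_lit 0) (nat_lit 2262572321) (nat_lit 1444) (nat_lit 82867342) (nat_lit 432) (nat_lit 5) (nat_lit 431) (nat_lit 5) (nat_lit 450) (nat_lit 5) (nat_lit 290) (nat_lit 275) (nat_lit 215))) (XT.nd (nat_lit 78) (nat_lit 1444) (nat_lit 0) (XT.lf (nat_lit 0) (nat_lit 2053329499) (nat_lit 1444) (nat_lit 4641919542) (nat_lit 76) (nat_lit 2176258518) (nat_lit 413) (nat_lit 5) (nat_lit 432) (nat_lit 5) (nat_lit 414) (nat_lit 5) (nat_lit 291) (nat_lit 275) (nat_lit 214)) (XT.lf (nat_lit 0) (nat_lit 2009561378) (nat_lit 1444) (nat_lit 2231290920) (nat_lit 1520) (nat_lit 4749976426) (nat_lit 394) (nat_lit 5) (nat_lit 413) (nat_lit 5) (nat_lit 414) (nat_lit 5) (nat_lit 292) (nat_lit 275) (nat_lit 213))))))))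
noncomputable def xc78 : XT := (XT.nd (nat_lit 2028) (nat_lit 7828) (nat_lit 0) (XT.nd (nat_lit 1014) (nat_lit 5776) (nat_lit 0) (XT.nd (nat_lit 468) (nat_lit 4788) (nat_lit 0) (XT.nd (nat_lit 234) (nat_lit 2660) (nat_lit 0) (XT.nd (nat_lit 78) (nat_lit 3192) (nat_lit 0) (XT.lf (nat_lit 0) (nat_lit 6486620021) (nat_lit 1520) (nat_lit 249787314) (nat_lit 76) (nat_lit 2377529635) (nat_lit 394) (nat_lit 5) (nat_lit 414) (nat_lit 5) (nat_lit 395) (nat_lit 5) (nat_lit 293) (nat_lit 275) (nat_lit 212)) (XT.nd (nat_lit 78) (nat_lit 1672) (nat_lit 0) (XT.lf (nat_lit 0) (nat_lit 6712833968) (nat_lit 1520) (nat_lit 2092607723) (nat_lit 1596) (nat_lit 435241241) (nat_lit 374) (nat_lit 5) (nat_lit 394) (nat_lit 5) (nat_lit 395) (nat_lit 5) (nat_lit 294) (nat_lit 275) (nat_lit 211)) (XT.lf (nat_lit 0) (nat_lit 1795584538) (nat_lit 1672) (nat_lit 4869235559) (nat_lit 76) (nat_lit 2706291967) (nat_lit 352) (nat_lit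 5) (nat_lit 374) (nat_lit 5) (nat_lit 353) (nat_lit 5) (nat_lit 295) (nat_lit 275) (nat_lit 210)))) (XT.nd (nat_lit 78) (nat_lit 988) (nat_lit 0) (XT.lf (nat_lit 0) (nat_lit 2239984722) (nat_lit 1672) (nat_lit 1842568849) (nat_lit 1748) (nat_lit 5422994004) (nat_lit 330) (nat_lit 5) (nat_lit 352) (nat_lit 5) (nat_lit 353) (nat_lit 5) (nat_lit 296) (nat_lit 275) (nat_lit 209)) (XT.nd (nat_lit 78) (nat_lit 988) (nat_lit 0) (XT.lf (nat_lit 0) (nat_lit 6442179258) (nat_lit 1748) (nat_lit 79446511) (nat_lit 76) (nat_lit 3122361548) (nat_lit 330) (nat_lit 5) (nat_lit 353) (nat_lit 5) (nat_lit 331) (nat_lit 5) (nat_lit 297) (nat_lit 275) (nat_lit 208)) (XT.lf (nat_lit 0) (nat_lit 7363083016) (nat_lit 988) (nat_lit 1521627373) (nat_lit 1064) (nat_lit 901678126) (nat_lit 317) (nat_lit 5) (nat_lit 330) (nat_lit 5) (nat_lit 331) (nat_lit 5) (nat_lit 298) (nat_lit 275) (nat_lit 207))))) (XT.nd (nat_lit 234)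 (nat_lit 2280) (nat_lit 0) (XT.nd (nat_lit 78) (nat_lit 1596) (nat_lit 0) (XT.lf (nat_lit 0) (nat_lit 1458555879) (nat_lit 912) (nat_lit 4846021381) (nat_lit 76) (nat_lit 3628135174) (nat_lit 305) (nat_lit 5) (nat_lit 317) (nat_lit 5) (nat_lit 306) (nat_lit 5) (nat_lit 299) (nat_lit 275) (nat_lit 206)) (XT.nd (nat_lit 78) (nat_lit 760) (nat_lit 0) (XT.lf (nat_lit 0) (nat_lit 2748111514) (nat_lit 836) (nat_lit 1127725353) (nat_lit 912) (nat_lit 6207546957) (nat_lit 294) (nat_lit 5) (nat_lit 305) (nat_lit 5) (nat_lit 306) (nat_lit 5) (nat_lit 300) (nat_lit 275) (nat_lit 205)) (XT.lf (nat_lit 0) (nat_lit 331385552) (nat_lit 760) (nat_lit 6051706278) (nat_lit 836) (nat_lit 3855179810) (nat_lit 284) (nat_lit 5) (nat_lit 294) (nat_lit 5) (nat_lit 295) (nat_lit 5) (nat_lit 301) (nat_lit 275) (nat_lit 204)))) (XT.nd (nat_lit 156) (nat_lit 1444) (nat_lit 0) (XT.nd (nat_lit 78) (nat_lit 836) (nat_lit 0)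 (XT.lf (nat_lit 0) (nat_lit 8277592270) (nat_lit 760) (nat_lit 701152186) (nat_lit 836) (nat_lit 1418842109) (nat_lit 284) (nat_lit 5) (nat_lit 294) (nat_lit 5) (nat_lit 295) (nat_lit 5) (nat_lit 302) (nat_lit 275) (nat_lit 203)) (XT.lf (nat_lit 0) (nat_lit 1103247860) (nat_lit 836) (nat_lit 4664599565) (nat_lit 76) (nat_lit 4793194541) (nat_lit 273) (nat_lit 5) (nat_lit 284) (nat_lit 5) (nat_lit 274) (nat_lit 5) (nat_lit 303) (nat_lit 275) (nat_lit 202))) (XT.nd (nat_lit 78) (nat_lit 760) (nat_lit 0) (XT.lf (nat_lit 0) (nat_lit 3441375205) (nat_lit 684) (nat_lit 239874523) (nat_lit 760) (nat_lit 7048013945) (nat_lit 264) (nat_lit 5) (nat_lit 273) (nat_lit 5) (nat_lit 274) (nat_lit 5) (nat_lit 304) (nat_lit 275) (nat_lit 201)) (XT.lf (nat_lit 0) (nat_lit 885547347) (nat_lit 760) (nat_lit 5482891185) (nat_lit 836) (nat_lit 4533496106) (nat_lit 254) (nat_lit 5) (nat_lit 264) (nat_lit 5) (nat_lit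 265) (nat_lit 5) (nat_lit 305) (nat_lit 275) (nat_lit 200)))))) (XT.nd (nat_lit 468) (nat_lit 2964) (nat_lit 0) (XT.nd (nat_lit 234) (nat_lit 1368) (nat_lit 0) (XT.nd (nat_lit 78) (nat_lit 1444) (nat_lit 0) (XT.lf (nat_lit 0) (nat_lit 9148397479) (nat_lit 836) (nat_lit 1720903155) (nat_lit 76) (nat_lit 210280399) (nat_lit 254) (nat_lit 5) (nat_lit 265) (nat_lit 5) (nat_lit 255) (nat_lit 5) (nat_lit 306) (nat_lit 275) (nat_lit 199)) (XT.nd (nat_lit 78) (nat_lit 684) (nat_lit 0) (XT.lf (nat_lit 0) (nat_lit 781605941) (nat_lit 760) (nat_lit 4432285098) (nat_lit 76) (nat_lit 6047760369) (nat_lit 244) (nat_lit 5) (nat_lit 254) (nat_lit 5) (nat_lit 245) (nat_lit 5) (nat_lit 307) (nat_lit 275) (nat_lit 198)) (XT.lf (nat_lit 0) (nat_lit 3554597015) (nat_lit 760) (nat_lit 7241924373) (nat_lit 76) (nat_lit 652341581) (nat_lit 235) (nat_lit 5) (nat_lit 245) (nat_lit 5) (nat_lit 236) (nat_lit 5) (nat_lit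 308) (nat_lit 275) (nat_lit 197)))) (XT.nd (nat_lit 78) (nat_lit 760) (nat_lit 0) (XT.lf (nat_lit 0) (nat_lit 1467334552) (nat_lit 608) (nat_lit 4980436062) (nat_lit 684) (nat_lit 5193214850) (nat_lit 227) (nat_lit 5) (nat_lit 235) (nat_lit 5) (nat_lit 236) (nat_lit 5) (nat_lit 309) (nat_lit 275) (nat_lit 196)) (XT.nd (nat_lit 78) (nat_lit 760) (nat_lit 0) (XT.lf (nat_lit 0) (nat_lit 9446862886) (nat_lit 684) (nat_lit 1349599925) (nat_lit 76) (nat_lit 1042059797) (nat_lit 227) (nat_lit 5) (nat_lit 236) (nat_lit 5) (nat_lit 228) (nat_lit 5) (nat_lit 310) (nat_lit 275) (nat_lit 195)) (XT.lf (nat_lit 0) (nat_lit 535724588) (nat_lit 760) (nat_lit 4277457816) (nat_lit 76) (nat_lit 7227805939) (nat_lit 217) (nat_lit 5) (nat_lit 227) (nat_lit 5) (nat_lit 218) (nat_lit 5) (nat_lit 311) (nat_lit 275) (nat_lit 194))))) (XT.nd (nat_lit 234) (nat_lit 1748) (nat_lit 0) (XT.nd (nat_lit 78) (nat_lit 608) (nat_lit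 0) (XT.lf (nat_lit 0) (nat_lit 3533685712) (nat_lit 684) (nat_lit 7330924640) (nat_lit 76) (nat_lit 1384327454) (nat_lit 209) (nat_lit 5) (nat_lit 218) (nat_lit 5) (nat_lit 210) (nat_lit 5) (nat_lit 312) (nat_lit 275) (nat_lit 193)) (XT.nd (nat_lit 78) (nat_lit 0) (nat_lit 0) (XT.lf (nat_lit 0) (nat_lit 1937911906) (nat_lit 608) (nat_lit 4723113496) (nat_lit 684) (nat_lit 5801341559) (nat_lit 201) (nat_lit 5) (nat_lit 209) (nat_lit 5) (nat_lit 210) (nat_lit 5) (nat_lit 313) (nat_lit 275) (nat_lit 192)) (XT.lf (nat_lit 0) (nat_lit 9908795733) (nat_lit 684) (nat_lit 1147264755) (nat_lit 76) (nat_lit 1625635424) (nat_lit 201) (nat_lit 5) (nat_lit 210) (nat_lit 5) (nat_lit 202) (nat_lit 5) (nat_lit 314) (nat_lit 275) (nat_lit 191)))) (XT.nd (nat_lit 156) (nat_lit 532) (nat_lit 0) (XT.nd (nat_lit 78) (nat_lit 608) (nat_lit 0) (XT.lf (nat_lit 0) (nat_lit 396481222) (nat_lit 608) (nat_lit 4356638182)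 (nat_lit 76) (nat_lit 8153375479) (nat_lit 193) (nat_lit 5) (nat_lit 201) (nat_lit 5) (nat_lit 194) (nat_lit 5) (nat_lit 315) (nat_lit 275) (nat_lit 190)) (XT.lf (nat_lit 0) (nat_lit 3645864834) (nat_lit 684) (nat_lit 7719935765) (nat_lit 76) (nat_lit 1771445693) (nat_lit 185) (nat_lit 5) (nat_lit 194) (nat_lit 5) (nat_lit 186) (nat_lit 5) (nat_lit 316) (nat_lit 275) (nat_lit 189))) (XT.nd (nat_lit 78) (nat_lit 0) (nat_lit 0) (XT.lf (nat_lit 0) (nat_lit 2126585526) (nat_lit 532) (nat_lit 4909752262) (nat_lit 608) (nat_lit 6337736432) (nat_lit 178) (nat_lit 5) (nat_lit 185) (nat_lit 5) (nat_lit 186) (nat_lit 5) (nat_lit 317) (nat_lit 275) (nat_lit 188)) (XT.lf (nat_lit 0) (nat_lit 10561403429) (nat_lit 608) (nat_lit 1293498857) (nat_lit 76) (nat_lit 1762472506) (nat_lit 178) (nat_lit 5) (nat_lit 186) (nat_lit 5) (nat_lit 179) (nat_lit 5) (nat_lit 318) (nat_lit 275) (nat_lit 187))))))) (XT.nd (nat_lit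 1014) (nat_lit 3040) (nat_lit 0) (XT.nd (nat_lit 468) (nat_lit 2204) (nat_lit 0) (XT.nd (nat_lit 234) (nat_lit 988) (nat_lit 0) (XT.nd (nat_lit 78) (nat_lit 988) (nat_lit 0) (XT.lf (nat_lit 0) (nat_lit 381511743) (nat_lit 608) (nat_lit 4862818618) (nat_lit 76) (nat_lit 8622395714) (nat_lit 170) (nat_lit 5) (nat_lit 178) (nat_lit 5) (nat_lit 171) (nat_lit 5) (nat_lit 319) (nat_lit 275) (nat_lit 186)) (XT.nd (nat_lit 78) (nat_lit 532) (nat_lit 0) (XT.lf (nat_lit 0) (nat_lit 3906273827) (nat_lit 532) (nat_lit 8614703208) (nat_lit 76) (nat_lit 1601686848) (nat_lit 164) (nat_lit 5) (nat_lit 171) (nat_lit 5) (nat_lit 165) (nat_lit 5) (nat_lit 320) (nat_lit 275) (nat_lit 185)) (XT.lf (nat_lit 0) (nat_lit 1821732968) (nat_lit 532) (nat_lit 5765933579) (nat_lit 608) (nat_lit 6797618288) (nat_lit 157) (nat_lit 5) (nat_lit 164) (nat_lit 5) (nat_lit 165) (nat_lit 5) (nat_lit 321) (nat_lit 275) (nat_lit 184))))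 (XT.nd (nat_lit 78) (nat_lit 988) (nat_lit 0) (XT.lf (nat_lit 0) (nat_lit 11417373957) (nat_lit 608) (nat_lit 2011162310) (nat_lit 76) (nat_lit 1226512793) (nat_lit 157) (nat_lit 5) (nat_lit 165) (nat_lit 5) (nat_lit 158) (nat_lit 5) (nat_lit 322) (nat_lit 275) (nat_lit 183)) (XT.nd (nat_lit 78) (nat_lit 456) (nat_lit 0) (XT.lf (nat_lit 0) (nat_lit 492418817) (nat_lit 532) (nat_lit 6035346400) (nat_lit 76) (nat_lit 8403726724) (nat_lit 150) (nat_lit 5) (nat_lit 157) (nat_lit 5) (nat_lit 151) (nat_lit 5) (nat_lit 323) (nat_lit 275) (nat_lit 182)) (XT.lf (nat_lit 0) (nat_lit 4313267728) (nat_lit 532) (nat_lit 10270489499) (nat_lit 76) (nat_lit 631606495) (nat_lit 144) (nat_lit 5) (nat_lit 151) (nat_lit 5) (nat_lit 145) (nat_lit 5) (nat_lit 324) (nat_lit 275) (nat_lit 181))))) (XT.nd (nat_lit 234) (nat_lit 1216) (nat_lit 0) (XT.nd (nat_lit 78) (nat_lit 532) (nat_lit 0) (XT.lf (nat_lit 0) (nat_lit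 760012886) (nat_lit 456) (nat_lit 7551577233) (nat_lit 532) (nat_lit 7194924406) (nat_lit 138) (nat_lit 5) (nat_lit 144) (nat_lit 5) (nat_lit 145) (nat_lit 5) (nat_lit 325) (nat_lit 275) (nat_lit 180)) (XT.nd (nat_lit 78) (nat_lit 532) (nat_lit 0) (XT.lf (nat_lit 0) (nat_lit 12226391450) (nat_lit 456) (nat_lit 246710468) (nat_lit 532) (nat_lit 3332452394) (nat_lit 138) (nat_lit 5) (nat_lit 144) (nat_lit 5) (nat_lit 145) (nat_lit 5) (nat_lit 326) (nat_lit 275) (nat_lit 179)) (XT.lf (nat_lit 0) (nat_lit 711075774) (nat_lit 532) (nat_lit 8171707545) (nat_lit 76) (nat_lit 7229243367) (nat_lit 131) (nat_lit 5) (nat_lit 138) (nat_lit 5) (nat_lit 132) (nat_lit 5) (nat_lit 327) (nat_lit 275) (nat_lit 178)))) (XT.nd (nat_lit 156) (nat_lit 836) (nat_lit 0) (XT.nd (nat_lit 78) (nat_lit 0) (nat_lit 0) (XT.lf (nat_lit 0) (nat_lit 3412992709) (nat_lit 380) (nat_lit 1440815313) (nat_lit 456) (nat_lit 11572998986)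 (nat_lit 126) (nat_lit 5) (nat_lit 131) (nat_lit 5) (nat_lit 132) (nat_lit 5) (nat_lit 328) (nat_lit 275) (nat_lit 177)) (XT.lf (nat_lit 0) (nat_lit 9192120731) (nat_lit 456) (nat_lit 1368342505) (nat_lit 76) (nat_lit 6189158809) (nat_lit 126) (nat_lit 5) (nat_lit 132) (nat_lit 5) (nat_lit 127) (nat_lit 5) (nat_lit 329) (nat_lit 275) (nat_lit 176))) (XT.nd (nat_lit 78) (nat_lit 456) (nat_lit 0) (XT.lf (nat_lit 0) (nat_lit 10723784851) (nat_lit 380) (nat_lit 2991927899) (nat_lit 456) (nat_lit 3365322953) (nat_lit 121) (nat_lit 5) (nat_lit 126) (nat_lit 5) (nat_lit 127) (nat_lit 5) (nat_lit 330) (nat_lit 275) (nat_lit 175)) (XT.lf (nat_lit 0) (nat_lit 994855734) (nat_lit 456) (nat_lit 11641625943) (nat_lit 76) (nat_lit 4784707781) (nat_lit 115) (nat_lit 5) (nat_lit 121) (nat_lit 5) (nat_lit 116) (nat_lit 5) (nat_lit 331) (nat_lit 275) (nat_lit 174)))))) (XT.nd (nat_lit 468) (nat_lit 1596) (nat_lit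 0) (XT.nd (nat_lit 234) (nat_lit 760) (nat_lit 0) (XT.nd (nat_lit 78) (nat_lit 304) (nat_lit 0) (XT.lf (nat_lit 0) (nat_lit 527555820) (nat_lit 380) (nat_lit 4956221352) (nat_lit 456) (nat_lit 12286468077) (nat_lit 110) (nat_lit 5) (nat_lit 115) (nat_lit 5) (nat_lit 116) (nat_lit 5) (nat_lit 332) (nat_lit 275) (nat_lit 173)) (XT.nd (nat_lit 78) (nat_lit 304) (nat_lit 0) (XT.lf (nat_lit 0) (nat_lit 10182962945) (nat_lit 456) (nat_lit 4959981227) (nat_lit 76) (nat_lit 2985331654) (nat_lit 110) (nat_lit 5) (nat_lit 116) (nat_lit 5) (nat_lit 111) (nat_lit 5) (nat_lit 333) (nat_lit 275) (nat_lit 172)) (XT.lf (nat_lit 0) (nat_lit 7727127754) (nat_lit 304) (nat_lit 7356985087) (nat_lit 380) (nat_lit 3411729316) (nat_lit 106) (nat_lit 5) (nat_lit 110) (nat_lit 5) (nat_lit 111) (nat_lit 5) (nat_lit 334) (nat_lit 275) (nat_lit 171)))) (XT.nd (nat_lit 78) (nat_lit 304) (nat_lit 0) (XT.lf (nat_lit 0) (nat_lit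 1270576270) (nat_lit 456) (nat_lit 16903970131) (nat_lit 76) (nat_lit 699155413) (nat_lit 100) (nat_lit 5) (nat_lit 106) (nat_lit 5) (nat_lit 101) (nat_lit 5) (nat_lit 335) (nat_lit 275) (nat_lit 170)) (XT.nd (nat_lit 78) (nat_lit 304) (nat_lit 0) (XT.lf (nat_lit 0) (nat_lit 6148250384) (nat_lit 456) (nat_lit 4128123910) (nat_lit 76) (nat_lit 8984060408) (nat_lit 100) (nat_lit 5) (nat_lit 106) (nat_lit 5) (nat_lit 101) (nat_lit 5) (nat_lit 336) (nat_lit 275) (nat_lit 169)) (XT.lf (nat_lit 0) (nat_lit 9119610124) (nat_lit 304) (nat_lit 2090818529) (nat_lit 380) (nat_lit 8447590550) (nat_lit 96) (nat_lit 5) (nat_lit 100) (nat_lit 5) (nat_lit 101) (nat_lit 5) (nat_lit 337) (nat_lit 275) (nat_lit 168))))) (XT.nd (nat_lit 234) (nat_lit 912) (nat_lit 0) (XT.nd (nat_lit 78) (nat_lit 380) (nat_lit 0) (XT.lf (nat_lit 0) (nat_lit 2717752756) (nat_lit 304) (nat_lit 13773003212) (nat_lit 380) (nat_lit 3575462322)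 (nat_lit 92) (nat_lit 5) (nat_lit 96) (nat_lit 5) (nat_lit 97) (nat_lit 5) (nat_lit 338) (nat_lit 275) (nat_lit 167)) (XT.nd (nat_lit 78) (nat_lit 304) (nat_lit 0) (XT.lf (nat_lit 0) (nat_lit 1489346529) (nat_lit 380) (nat_lit 4023841445) (nat_lit 76) (nat_lit 14971991337) (nat_lit 91) (nat_lit 5) (nat_lit 96) (nat_lit 5) (nat_lit 92) (nat_lit 5) (nat_lit 339) (nat_lit 275) (nat_lit 166)) (XT.lf (nat_lit 0) (nat_lit 6721390325) (nat_lit 380) (nat_lit 11160255598) (nat_lit 76) (nat_lit 3033324980) (nat_lit 87) (nat_lit 5) (nat_lit 92) (nat_lit 5) (nat_lit 88) (nat_lit 5) (nat_lit 340) (nat_lit 275) (nat_lit 165)))) (XT.nd (nat_lit 156) (nat_lit 608) (nat_lit 0) (XT.nd (nat_lit 78) (nat_lit 0) (nat_lit 0) (XT.lf (nat_lit 0) (nat_lit 2612210727) (nat_lit 304) (nat_lit 9559953340) (nat_lit 380) (nat_lit 9184268217) (nat_lit 83) (nat_lit 5) (nat_lit 87) (nat_lit 5) (nat_lit 88) (nat_lit 5) (nat_lit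 341) (nat_lit 275) (nat_lit 164)) (XT.lf (nat_lit 0) (nat_lit 16921498533) (nat_lit 304) (nat_lit 921458965) (nat_lit 380) (nat_lit 3967061164) (nat_lit 83) (nat_lit 5) (nat_lit 87) (nat_lit 5) (nat_lit 88) (nat_lit 5) (nat_lit 342) (nat_lit 275) (nat_lit 163))) (XT.nd (nat_lit 78) (nat_lit 304) (nat_lit 0) (XT.lf (nat_lit 0) (nat_lit 1483180199) (nat_lit 304) (nat_lit 12858990500) (nat_lit 76) (nat_lit 7932970489) (nat_lit 79) (nat_lit 5) (nat_lit 83) (nat_lit 5) (nat_lit 80) (nat_lit 5) (nat_lit 343) (nat_lit 275) (nat_lit 162)) (XT.lf (nat_lit 0) (nat_lit 1420664677) (nat_lit 304) (nat_lit 5653000271) (nat_lit 380) (nat_lit 15679425579) (nat_lit 75) (nat_lit 5) (nat_lit 79) (nat_lit 5) (nat_lit 80) (nat_lit 5) (nat_lit 344) (nat_lit 275) (nat_lit 161))))))))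
noncomputable def xc79 : XT := (XT.nd (nat_lit 36192) (nat_lit 0) (nat_lit 11704) (XT.nd (nat_lit 1014) (nat_lit 228) (nat_lit 0) (XT.nd (nat_lit 468) (nat_lit 1064) (nat_lit 0) (XT.nd (nat_lit 234) (nat_lit 532) (nat_lit 0) (XT.nd (nat_lit 78) (nat_lit 304) (nat_lit 0) (XT.lf (nat_lit 0) (nat_lit 12922868053) (nat_lit 380) (nat_lit 6989117203) (nat_lit 76) (nat_lit 3331582958) (nat_lit 75) (nat_lit 5) (nat_lit 80) (nat_lit 5) (nat_lit 76) (nat_lit 5) (nat_lit 345) (nat_lit 275) (nat_lit 160)) (XT.nd (nat_lit 78) (nat_lit 76) (nat_lit 0) (XT.lf (nat_lit 0) (nat_lit 7821869262) (nat_lit 228) (nat_lit 11196679359) (nat_lit 304) (nat_lit 4728801239) (nat_lit 72) (nat_lit 5) (nat_lit 75) (nat_lit 5) (nat_lit 76) (nat_lit 5) (nat_lit 346) (nat_lit 275) (nat_lit 159)) (XT.lf (nat_lit 0) (nat_lit 1047635144) (nat_lit 304) (nat_lit 1126648970) (nat_lit 76) (nat_lit 22091230165) (nat_lit 71) (nat_lit 5)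 (nat_lit 75) (nat_lit 5) (nat_lit 72) (nat_lit 5) (nat_lit 347) (nat_lit 275) (nat_lit 158)))) (XT.nd (nat_lit 78) (nat_lit 228) (nat_lit 0) (XT.lf (nat_lit 0) (nat_lit 7056084708) (nat_lit 380) (nat_lit 10599124409) (nat_lit 76) (nat_lit 7140938968) (nat_lit 67) (nat_lit 5) (nat_lit 72) (nat_lit 5) (nat_lit 68) (nat_lit 5) (nat_lit 348) (nat_lit 275) (nat_lit 157)) (XT.nd (nat_lit 78) (nat_lit 0) (nat_lit 0) (XT.lf (nat_lit 0) (nat_lit 4673730094) (nat_lit 228) (nat_lit 8607021759) (nat_lit 304) (nat_lit 12061238433) (nat_lit 64) (nat_lit 5) (nat_lit 67) (nat_lit 5) (nat_lit 68) (nat_lit 5) (nat_lit 349) (nat_lit 275) (nat_lit 156)) (XT.lf (nat_lit 0) (nat_lit 19752732109) (nat_lit 304) (nat_lit 5384123071) (nat_lit 76) (nat_lit 766149523) (nat_lit 64) (nat_lit 5) (nat_lit 68) (nat_lit 5) (nat_lit 65) (nat_lit 5) (nat_lit 350) (nat_lit 275) (nat_lit 155))))) (XT.nd (nat_lit 234) (nat_lit 532)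 (nat_lit 0) (XT.nd (nat_lit 78) (nat_lit 228) (nat_lit 0) (XT.lf (nat_lit 0) (nat_lit 48836574) (nat_lit 304) (nat_lit 16066798133) (nat_lit 76) (nat_lit 10363030866) (nat_lit 60) (nat_lit 5) (nat_lit 64) (nat_lit 5) (nat_lit 61) (nat_lit 5) (nat_lit 351) (nat_lit 275) (nat_lit 154)) (XT.nd (nat_lit 78) (nat_lit 228) (nat_lit 0) (XT.lf (nat_lit 0) (nat_lit 6371876904) (nat_lit 304) (nat_lit 381948347) (nat_lit 76) (nat_lit 20316535404) (nat_lit 60) (nat_lit 5) (nat_lit 64) (nat_lit 5) (nat_lit 61) (nat_lit 5) (nat_lit 352) (nat_lit 275) (nat_lit 153)) (XT.lf (nat_lit 0) (nat_lit 12992373719) (nat_lit 304) (nat_lit 11739100506) (nat_lit 76) (nat_lit 2946184606) (nat_lit 57) (nat_lit 5) (nat_lit 61) (nat_lit 5) (nat_lit 58) (nat_lit 5) (nat_lit 353) (nat_lit 275) (nat_lit 152)))) (XT.nd (nat_lit 156) (nat_lit 304) (nat_lit 0) (XT.nd (nat_lit 78) (nat_lit 0) (nat_lit 0) (XT.lf (nat_lit 0) (nat_lit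 4439561214) (nat_lit 228) (nat_lit 15433519097) (nat_lit 304) (nat_lit 8428871070) (nat_lit 54) (nat_lit 5) (nat_lit 57) (nat_lit 5) (nat_lit 58) (nat_lit 5) (nat_lit 354) (nat_lit 275) (nat_lit 151)) (XT.lf (nat_lit 0) (nat_lit 21240397483) (nat_lit 228) (nat_lit 5784639528) (nat_lit 304) (nat_lit 1918646230) (nat_lit 54) (nat_lit 5) (nat_lit 57) (nat_lit 5) (nat_lit 58) (nat_lit 5) (nat_lit 355) (nat_lit 275) (nat_lit 150))) (XT.nd (nat_lit 78) (nat_lit 0) (nat_lit 0) (XT.lf (nat_lit 0) (nat_lit 4795677515) (nat_lit 304) (nat_lit 20626444574) (nat_lit 76) (nat_lit 4180498683) (nat_lit 50) (nat_lit 5) (nat_lit 54) (nat_lit 5) (nat_lit 51) (nat_lit 5) (nat_lit 356) (nat_lit 275) (nat_lit 149)) (XT.lf (nat_lit 0) (nat_lit 11762563294) (nat_lit 304) (nat_lit 4093904467) (nat_lit 76) (nat_lit 14423067612) (nat_lit 50) (nat_lit 5) (nat_lit 54) (nat_lit 5) (nat_lit 51) (nat_lit 5) (nat_lit 357) (nat_lit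 275) (nat_lit 148)))))) (XT.nd (nat_lit 34632) (nat_lit 0) (nat_lit 29032) (XT.nd (nat_lit 34398) (nat_lit 0) (nat_lit 31388) (XT.nd (nat_lit 34242) (nat_lit 0) (nat_lit 32604) (XT.lf (nat_lit 0) (nat_lit 13083655992) (nat_lit 228) (nat_lit 5925980992) (nat_lit 304) (nat_lit 11965703184) (nat_lit 47) (nat_lit 5) (nat_lit 50) (nat_lit 5) (nat_lit 51) (nat_lit 5) (nat_lit 358) (nat_lit 275) (nat_lit 147)) (XT.nd (nat_lit 78) (nat_lit 0) (nat_lit 0) (XT.lf (nat_lit 0) (nat_lit 1235502979) (nat_lit 0) (nat_lit 1235502979) (nat_lit 1140) (nat_lit 1308036640) (nat_lit 476) (nat_lit 5) (nat_lit 476) (nat_lit 3) (nat_lit 491) (nat_lit 3) (nat_lit 276) (nat_lit 276) (nat_lit 228)) (XT.lf (nat_lit 0) (nat_lit 6999655317) (nat_lit 1140) (nat_lit 2196069) (nat_lit 1216) (nat_lit 627424816) (nat_lit 476) (nat_lit 5) (nat_lit 491) (nat_lit 3) (nat_lit 492) (nat_lit 5) (nat_lit 277) (nat_lit 276) (nat_lit 227))))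 (XT.nd (nat_lit 78) (nat_lit 0) (nat_lit 0) (XT.lf (nat_lit 0) (nat_lit 1371169505) (nat_lit 1216) (nat_lit 2465244263) (nat_lit 1292) (nat_lit 3866634857) (nat_lit 460) (nat_lit 5) (nat_lit 476) (nat_lit 5) (nat_lit 477) (nat_lit 5) (nat_lit 278) (nat_lit 276) (nat_lit 226)) (XT.nd (nat_lit 78) (nat_lit 0) (nat_lit 76) (XT.lf (nat_lit 76) (nat_lit 2848185448) (nat_lit 0) (nat_lit 518194270) (nat_lit 1292) (nat_lit 4413805503) (nat_lit 461) (nat_lit 5) (nat_lit 460) (nat_lit 5) (nat_lit 477) (nat_lit 5) (nat_lit 279) (nat_lit 276) (nat_lit 225)) (XT.lf (nat_lit 76) (nat_lit 440222627) (nat_lit 0) (nat_lit 4946274971) (nat_lit 1292) (nat_lit 2473927815) (nat_lit 462) (nat_lit 5) (nat_lit 461) (nat_lit 5) (nat_lit 478) (nat_lit 5) (nat_lit 280) (nat_lit 276) (nat_lit 224))))) (XT.nd (nat_lit 234) (nat_lit 1216) (nat_lit 0) (XT.nd (nat_lit 78) (nat_lit 1216) (nat_lit 0) (XT.lf (nat_lit 76) (nat_lit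 5996217577) (nat_lit 0) (nat_lit 1436286650) (nat_lit 1292) (nat_lit 511350767) (nat_lit 462) (nat_lit 5) (nat_lit 461) (nat_lit 5) (nat_lit 478) (nat_lit 5) (nat_lit 281) (nat_lit 276) (nat_lit 223)) (XT.nd (nat_lit 78) (nat_lit 0) (nat_lit 0) (XT.lf (nat_lit 0) (nat_lit 1458753558) (nat_lit 1292) (nat_lit 4358708015) (nat_lit 1368) (nat_lit 2212844349) (nat_lit 445) (nat_lit 5) (nat_lit 462) (nat_lit 5) (nat_lit 463) (nat_lit 5) (nat_lit 282) (nat_lit 276) (nat_lit 222)) (XT.lf (nat_lit 76) (nat_lit 1329143782) (nat_lit 0) (nat_lit 2115348554) (nat_lit 1368) (nat_lit 4675602087) (nat_lit 446) (nat_lit 5) (nat_lit 445) (nat_lit 5) (nat_lit 463) (nat_lit 5) (nat_lit 283) (nat_lit 276) (nat_lit 221)))) (XT.nd (nat_lit 156) (nat_lit 1292) (nat_lit 0) (XT.nd (nat_lit 78) (nat_lit 0) (nat_lit 0) (XT.lf (nat_lit 0) (nat_lit 5464352555) (nat_lit 1292) (nat_lit 1018954398) (nat_lit 1368) (nat_lit 1729857496)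 (nat_lit 446) (nat_lit 5) (nat_lit 463) (nat_lit 5) (nat_lit 464) (nat_lit 5) (nat_lit 284) (nat_lit 276) (nat_lit 220)) (XT.lf (nat_lit 76) (nat_lit 4934989092) (nat_lit 0) (nat_lit 2591729572) (nat_lit 1368) (nat_lit 782746265) (nat_lit 447) (nat_lit 5) (nat_lit 446) (nat_lit 5) (nat_lit 464) (nat_lit 5) (nat_lit 285) (nat_lit 276) (nat_lit 219))) (XT.nd (nat_lit 78) (nat_lit 0) (nat_lit 0) (XT.lf (nat_lit 0) (nat_lit 1196602233) (nat_lit 1368) (nat_lit 5761190540) (nat_lit 1444) (nat_lit 1451361324) (nat_lit 429) (nat_lit 5) (nat_lit 447) (nat_lit 5) (nat_lit 448) (nat_lit 5) (nat_lit 286) (nat_lit 276) (nat_lit 218)) (XT.lf (nat_lit 76) (nat_lit 324653627) (nat_lit 0) (nat_lit 2881103674) (nat_lit 1444) (nat_lit 5306422696) (nat_lit 430) (nat_lit 5) (nat_lit 429) (nat_lit 5) (nat_lit 448) (nat_lit 5) (nat_lit 287) (nat_lit 276) (nat_lit 217))))))) (XT.nd (nat_lit 1014) (nat_lit 7904) (nat_lit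 0) (XT.nd (nat_lit 468) (nat_lit 6764) (nat_lit 0) (XT.nd (nat_lit 234) (nat_lit 1368) (nat_lit 0) (XT.nd (nat_lit 78) (nat_lit 1368) (nat_lit 0) (XT.lf (nat_lit 0) (nat_lit 5263216654) (nat_lit 1368) (nat_lit 1997863373) (nat_lit 1444) (nat_lit 1357524742) (nat_lit 430) (nat_lit 5) (nat_lit 448) (nat_lit 5) (nat_lit 449) (nat_lit 5) (nat_lit 288) (nat_lit 276) (nat_lit 216)) (XT.nd (nat_lit 78) (nat_lit 1368) (nat_lit 0) (XT.lf (nat_lit 76) (nat_lit 4373380390) (nat_lit 0) (nat_lit 2998598833) (nat_lit 1444) (nat_lit 1356518157) (nat_lit 431) (nat_lit 5) (nat_lit 430) (nat_lit 5) (nat_lit 449) (nat_lit 5) (nat_lit 289) (nat_lit 276) (nat_lit 215)) (XT.lf (nat_lit 0) (nat_lit 672627350) (nat_lit 1444) (nat_lit 6749320925) (nat_lit 1520) (nat_lit 1420120361) (nat_lit 412) (nat_lit 5) (nat_lit 431) (nat_lit 5) (nat_lit 432) (nat_lit 5) (nat_lit 290) (nat_lit 276) (nat_lit 214)))) (XT.nd (nat_lit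 78) (nat_lit 1368) (nat_lit 0) (XT.lf (nat_lit 0) (nat_lit 2738466891) (nat_lit 1444) (nat_lit 237032345) (nat_lit 1520) (nat_lit 5983545098) (nat_lit 412) (nat_lit 5) (nat_lit 431) (nat_lit 5) (nat_lit 432) (nat_lit 5) (nat_lit 291) (nat_lit 276) (nat_lit 213)) (XT.nd (nat_lit 78) (nat_lit 1444) (nat_lit 0) (XT.lf (nat_lit 0) (nat_lit 4865358203) (nat_lit 1444) (nat_lit 2576204765) (nat_lit 76) (nat_lit 1638044634) (nat_lit 413) (nat_lit 5) (nat_lit 432) (nat_lit 5) (nat_lit 414) (nat_lit 5) (nat_lit 292) (nat_lit 276) (nat_lit 212)) (XT.lf (nat_lit 0) (nat_lit 4239047526) (nat_lit 1444) (nat_lit 2813433463) (nat_lit 1520) (nat_lit 2151436372) (nat_lit 394) (nat_lit 5) (nat_lit 413) (nat_lit 5) (nat_lit 414) (nat_lit 5) (nat_lit 293) (nat_lit 276) (nat_lit 211))))) (XT.nd (nat_lit 234) (nat_lit 3572) (nat_lit 0) (XT.nd (nat_lit 78) (nat_lit 1672) (nat_lit 0) (XT.lf (nat_lit 0) (nat_lit 1932314707)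 (nat_lit 1520) (nat_lit 7364418790) (nat_lit 1596) (nat_lit 35448991) (nat_lit 374) (nat_lit 5) (nat_lit 394) (nat_lit 5) (nat_lit 395) (nat_lit 5) (nat_lit 294) (nat_lit 276) (nat_lit 210)) (XT.nd (nat_lit 78) (nat_lit 1596) (nat_lit 0) (XT.lf (nat_lit 0) (nat_lit 2118129355) (nat_lit 1596) (nat_lit 434880452) (nat_lit 76) (nat_lit 6911016423) (nat_lit 373) (nat_lit 5) (nat_lit 394) (nat_lit 5) (nat_lit 374) (nat_lit 5) (nat_lit 295) (nat_lit 276) (nat_lit 209)) (XT.lf (nat_lit 0) (nat_lit 4346859473) (nat_lit 1672) (nat_lit 2829521074) (nat_lit 76) (nat_lit 2423271646) (nat_lit 352) (nat_lit 5) (nat_lit 374) (nat_lit 5) (nat_lit 353) (nat_lit 5) (nat_lit 296) (nat_lit 276) (nat_lit 208)))) (XT.nd (nat_lit 156) (nat_lit 912) (nat_lit 0) (XT.nd (nat_lit 78) (nat_lit 988) (nat_lit 0) (XT.lf (nat_lit 0) (nat_lit 4457513945) (nat_lit 1672) (nat_lit 2186144978) (nat_lit 1748) (nat_lit 3095714461)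 (nat_lit 330) (nat_lit 5) (nat_lit 352) (nat_lit 5) (nat_lit 353) (nat_lit 5) (nat_lit 297) (nat_lit 276) (nat_lit 207)) (XT.lf (nat_lit 0) (nat_lit 2084874891) (nat_lit 988) (nat_lit 6929889548) (nat_lit 1064) (nat_lit 868462855) (nat_lit 317) (nat_lit 5) (nat_lit 330) (nat_lit 5) (nat_lit 331) (nat_lit 5) (nat_lit 298) (nat_lit 276) (nat_lit 206))) (XT.nd (nat_lit 78) (nat_lit 836) (nat_lit 0) (XT.lf (nat_lit 0) (nat_lit 1411684353) (nat_lit 1064) (nat_lit 352007902) (nat_lit 76) (nat_lit 8267470702) (nat_lit 316) (nat_lit 5) (nat_lit 330) (nat_lit 5) (nat_lit 317) (nat_lit 5) (nat_lit 299) (nat_lit 276) (nat_lit 205)) (XT.lf (nat_lit 0) (nat_lit 3775279327) (nat_lit 912) (nat_lit 2839226684) (nat_lit 76) (nat_lit 3568424419) (nat_lit 305) (nat_lit 5) (nat_lit 317) (nat_lit 5) (nat_lit 306) (nat_lit 5) (nat_lit 300) (nat_lit 276) (nat_lit 204)))))) (XT.nd (nat_lit 546) (nat_lit 3344) (nat_lit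 0) (XT.nd (nat_lit 234) (nat_lit 2888) (nat_lit 0) (XT.nd (nat_lit 78) (nat_lit 836) (nat_lit 0) (XT.lf (nat_lit 0) (nat_lit 4947813710) (nat_lit 836) (nat_lit 1264808767) (nat_lit 912) (nat_lit 4126615716) (nat_lit 294) (nat_lit 5) (nat_lit 305) (nat_lit 5) (nat_lit 306) (nat_lit 5) (nat_lit 301) (nat_lit 276) (nat_lit 203)) (XT.nd (nat_lit 78) (nat_lit 76) (nat_lit 0) (XT.lf (nat_lit 0) (nat_lit 2470785813) (nat_lit 760) (nat_lit 6272809218) (nat_lit 836) (nat_lit 1756272767) (nat_lit 284) (nat_lit 5) (nat_lit 294) (nat_lit 5) (nat_lit 295) (nat_lit 5) (nat_lit 302) (nat_lit 276) (nat_lit 202)) (XT.lf (nat_lit 0) (nat_lit 679621434) (nat_lit 836) (nat_lit 76404459) (nat_lit 76) (nat_lit 9909173611) (nat_lit 283) (nat_lit 5) (nat_lit 294) (nat_lit 5) (nat_lit 284) (nat_lit 5) (nat_lit 303) (nat_lit 276) (nat_lit 201)))) (XT.nd (nat_lit 156) (nat_lit 1444) (nat_lit 0) (XT.nd (nat_lit 78) (nat_lit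 684) (nat_lit 0) (XT.lf (nat_lit 0) (nat_lit 3209740809) (nat_lit 836) (nat_lit 2697329302) (nat_lit 76) (nat_lit 4927328230) (nat_lit 273) (nat_lit 5) (nat_lit 284) (nat_lit 5) (nat_lit 274) (nat_lit 5) (nat_lit 304) (nat_lit 276) (nat_lit 200)) (XT.lf (nat_lit 0) (nat_lit 5617637761) (nat_lit 684) (nat_lit 200514241) (nat_lit 760) (nat_lit 5190511768) (nat_lit 264) (nat_lit 5) (nat_lit 273) (nat_lit 5) (nat_lit 274) (nat_lit 5) (nat_lit 305) (nat_lit 276) (nat_lit 199))) (XT.nd (nat_lit 78) (nat_lit 684) (nat_lit 0) (XT.lf (nat_lit 0) (nat_lit 2992994049) (nat_lit 760) (nat_lit 5547743102) (nat_lit 836) (nat_lit 2646738852) (nat_lit 254) (nat_lit 5) (nat_lit 264) (nat_lit 5) (nat_lit 265) (nat_lit 5) (nat_lit 306) (nat_lit 276) (nat_lit 198)) (XT.lf (nat_lit 0) (nat_lit 291240941) (nat_lit 684) (nat_lit 11057666730) (nat_lit 760) (nat_lit 22702963) (nat_lit 245) (nat_lit 5) (nat_lit 254) (nat_lit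 5) (nat_lit 255) (nat_lit 5) (nat_lit 307) (nat_lit 276) (nat_lit 197))))) (XT.nd (nat_lit 234) (nat_lit 1976) (nat_lit 0) (XT.nd (nat_lit 78) (nat_lit 1292) (nat_lit 0) (XT.lf (nat_lit 0) (nat_lit 2700553932) (nat_lit 760) (nat_lit 2511784003) (nat_lit 76) (nat_lit 6347504814) (nat_lit 244) (nat_lit 5) (nat_lit 254) (nat_lit 5) (nat_lit 245) (nat_lit 5) (nat_lit 308) (nat_lit 276) (nat_lit 196)) (XT.nd (nat_lit 78) (nat_lit 608) (nat_lit 0) (XT.lf (nat_lit 0) (nat_lit 5515724823) (nat_lit 760) (nat_lit 5401344764) (nat_lit 76) (nat_lit 836472186) (nat_lit 235) (nat_lit 5) (nat_lit 245) (nat_lit 5) (nat_lit 236) (nat_lit 5) (nat_lit 309) (nat_lit 276) (nat_lit 195)) (XT.lf (nat_lit 0) (nat_lit 3535805963) (nat_lit 608) (nat_lit 4919017480) (nat_lit 684) (nat_lit 3497471340) (nat_lit 227) (nat_lit 5) (nat_lit 235) (nat_lit 5) (nat_lit 236) (nat_lit 5) (nat_lit 310) (nat_lit 276) (nat_lit 194))))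 (XT.nd (nat_lit 156) (nat_lit 1216) (nat_lit 0) (XT.nd (nat_lit 78) (nat_lit 76) (nat_lit 0) (XT.lf (nat_lit 0) (nat_lit 619003979) (nat_lit 684) (nat_lit 10877408601) (nat_lit 760) (nat_lit 660342974) (nat_lit 218) (nat_lit 5) (nat_lit 227) (nat_lit 5) (nat_lit 228) (nat_lit 5) (nat_lit 311) (nat_lit 276) (nat_lit 193)) (XT.lf (nat_lit 0) (nat_lit 2288325335) (nat_lit 760) (nat_lit 2412671056) (nat_lit 76) (nat_lit 7664968221) (nat_lit 217) (nat_lit 5) (nat_lit 227) (nat_lit 5) (nat_lit 218) (nat_lit 5) (nat_lit 312) (nat_lit 276) (nat_lit 192))) (XT.nd (nat_lit 78) (nat_lit 608) (nat_lit 0) (XT.lf (nat_lit 0) (nat_lit 5340079111) (nat_lit 684) (nat_lit 5556327349) (nat_lit 76) (nat_lit 1684513375) (nat_lit 209) (nat_lit 5) (nat_lit 218) (nat_lit 5) (nat_lit 210) (nat_lit 5) (nat_lit 313) (nat_lit 276) (nat_lit 191)) (XT.lf (nat_lit 0) (nat_lit 3958215494) (nat_lit 608) (nat_lit 4566237469) (nat_lit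 684) (nat_lit 4277077684) (nat_lit 201) (nat_lit 5) (nat_lit 209) (nat_lit 5) (nat_lit 210) (nat_lit 5) (nat_lit 314) (nat_lit 276) (nat_lit 190))))))))
noncomputable def xc80 : XT := (XT.nd (nat_lit 2028) (nat_lit 3116) (nat_lit 0) (XT.nd (nat_lit 1014) (nat_lit 3572) (nat_lit 0) (XT.nd (nat_lit 468) (nat_lit 2432) (nat_lit 0) (XT.nd (nat_lit 234) (nat_lit 1140) (nat_lit 0) (XT.nd (nat_lit 78) (nat_lit 684) (nat_lit 0) (XT.lf (nat_lit 0) (nat_lit 765182952) (nat_lit 532) (nat_lit 11062869301) (nat_lit 608) (nat_lit 1200261105) (nat_lit 194) (nat_lit 5) (nat_lit 201) (nat_lit 5) (nat_lit 202) (nat_lit 5) (nat_lit 315) (nat_lit 276) (nat_lit 189)) (XT.nd (nat_lit 78) (nat_lit 608) (nat_lit 0) (XT.lf (nat_lit 0) (nat_lit 2002487636) (nat_lit 608) (nat_lit 2559418586) (nat_lit 76) (nat_lit 8698574806) (nat_lit 193) (nat_lit 5) (nat_lit 201) (nat_lit 5) (nat_lit 194) (nat_lit 5) (nat_lit 316) (nat_lit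 276) (nat_lit 188)) (XT.lf (nat_lit 0) (nat_lit 5317422280) (nat_lit 684) (nat_lit 6024591268) (nat_lit 76) (nat_lit 2156818676) (nat_lit 185) (nat_lit 5) (nat_lit 194) (nat_lit 5) (nat_lit 186) (nat_lit 5) (nat_lit 317) (nat_lit 276) (nat_lit 187)))) (XT.nd (nat_lit 78) (nat_lit 608) (nat_lit 0) (XT.lf (nat_lit 0) (nat_lit 4086063308) (nat_lit 532) (nat_lit 4690353697) (nat_lit 608) (nat_lit 4967049345) (nat_lit 178) (nat_lit 5) (nat_lit 185) (nat_lit 5) (nat_lit 186) (nat_lit 5) (nat_lit 318) (nat_lit 276) (nat_lit 186)) (XT.nd (nat_lit 78) (nat_lit 76) (nat_lit 0) (XT.lf (nat_lit 0) (nat_lit 543887132) (nat_lit 532) (nat_lit 11824656554) (nat_lit 608) (nat_lit 1626332488) (nat_lit 171) (nat_lit 5) (nat_lit 178) (nat_lit 5) (nat_lit 179) (nat_lit 5) (nat_lit 319) (nat_lit 276) (nat_lit 185)) (XT.lf (nat_lit 0) (nat_lit 1859159873) (nat_lit 608) (nat_lit 3149328143) (nat_lit 76) (nat_lit 9243760352)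 (nat_lit 170) (nat_lit 5) (nat_lit 178) (nat_lit 5) (nat_lit 171) (nat_lit 5) (nat_lit 320) (nat_lit 276) (nat_lit 184))))) (XT.nd (nat_lit 234) (nat_lit 1444) (nat_lit 0) (XT.nd (nat_lit 78) (nat_lit 532) (nat_lit 0) (XT.lf (nat_lit 0) (nat_lit 5461393358) (nat_lit 532) (nat_lit 7016663190) (nat_lit 76) (nat_lit 2038406845) (nat_lit 164) (nat_lit 5) (nat_lit 171) (nat_lit 5) (nat_lit 165) (nat_lit 5) (nat_lit 321) (nat_lit 276) (nat_lit 183)) (XT.nd (nat_lit 78) (nat_lit 0) (nat_lit 0) (XT.lf (nat_lit 0) (nat_lit 3702746871) (nat_lit 532) (nat_lit 5520457447) (nat_lit 608) (nat_lit 5564391800) (nat_lit 157) (nat_lit 5) (nat_lit 164) (nat_lit 5) (nat_lit 165) (nat_lit 5) (nat_lit 322) (nat_lit 276) (nat_lit 182)) (XT.lf (nat_lit 0) (nat_lit 13129433676) (nat_lit 608) (nat_lit 272572622) (nat_lit 76) (nat_lit 1664246078) (nat_lit 157) (nat_lit 5) (nat_lit 165) (nat_lit 5) (nat_lit 158) (nat_lit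 5) (nat_lit 323) (nat_lit 276) (nat_lit 181)))) (XT.nd (nat_lit 156) (nat_lit 456) (nat_lit 0) (XT.nd (nat_lit 78) (nat_lit 456) (nat_lit 0) (XT.lf (nat_lit 0) (nat_lit 1858225573) (nat_lit 532) (nat_lit 4427706655) (nat_lit 76) (nat_lit 9065477327) (nat_lit 150) (nat_lit 5) (nat_lit 157) (nat_lit 5) (nat_lit 151) (nat_lit 5) (nat_lit 324) (nat_lit 276) (nat_lit 180)) (XT.lf (nat_lit 0) (nat_lit 5768608969) (nat_lit 532) (nat_lit 8794318778) (nat_lit 76) (nat_lit 1081400877) (nat_lit 144) (nat_lit 5) (nat_lit 151) (nat_lit 5) (nat_lit 145) (nat_lit 5) (nat_lit 325) (nat_lit 276) (nat_lit 179))) (XT.nd (nat_lit 78) (nat_lit 0) (nat_lit 0) (XT.lf (nat_lit 0) (nat_lit 2538150768) (nat_lit 456) (nat_lit 7321507375) (nat_lit 532) (nat_lit 6085128727) (nat_lit 138) (nat_lit 5) (nat_lit 144) (nat_lit 5) (nat_lit 145) (nat_lit 5) (nat_lit 326) (nat_lit 276) (nat_lit 178)) (XT.lf (nat_lit 0) (nat_lit 14109416941)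 (nat_lit 532) (nat_lit 1957416115) (nat_lit 76) (nat_lit 186724394) (nat_lit 138) (nat_lit 5) (nat_lit 145) (nat_lit 5) (nat_lit 139) (nat_lit 5) (nat_lit 327) (nat_lit 276) (nat_lit 177)))))) (XT.nd (nat_lit 468) (nat_lit 1444) (nat_lit 0) (XT.nd (nat_lit 234) (nat_lit 836) (nat_lit 0) (XT.nd (nat_lit 78) (nat_lit 760) (nat_lit 0) (XT.lf (nat_lit 0) (nat_lit 1979486066) (nat_lit 532) (nat_lit 6699963475) (nat_lit 76) (nat_lit 7890119693) (nat_lit 131) (nat_lit 5) (nat_lit 138) (nat_lit 5) (nat_lit 132) (nat_lit 5) (nat_lit 328) (nat_lit 276) (nat_lit 176)) (XT.nd (nat_lit 78) (nat_lit 380) (nat_lit 0) (XT.lf (nat_lit 0) (nat_lit 5204423201) (nat_lit 380) (nat_lit 1016720793) (nat_lit 456) (nat_lit 10673181633) (nat_lit 126) (nat_lit 5) (nat_lit 131) (nat_lit 5) (nat_lit 132) (nat_lit 5) (nat_lit 329) (nat_lit 276) (nat_lit 175)) (XT.lf (nat_lit 0) (nat_lit 255405606) (nat_lit 380) (nat_lit 10403220383)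 (nat_lit 456) (nat_lit 6568843517) (nat_lit 121) (nat_lit 5) (nat_lit 126) (nat_lit 5) (nat_lit 127) (nat_lit 5) (nat_lit 330) (nat_lit 276) (nat_lit 174)))) (XT.nd (nat_lit 78) (nat_lit 836) (nat_lit 0) (XT.lf (nat_lit 0) (nat_lit 12679992062) (nat_lit 380) (nat_lit 2612254166) (nat_lit 456) (nat_lit 2277117007) (nat_lit 121) (nat_lit 5) (nat_lit 126) (nat_lit 5) (nat_lit 127) (nat_lit 5) (nat_lit 331) (nat_lit 276) (nat_lit 173)) (XT.nd (nat_lit 78) (nat_lit 380) (nat_lit 0) (XT.lf (nat_lit 0) (nat_lit 2177712535) (nat_lit 456) (nat_lit 10346098132) (nat_lit 76) (nat_lit 5396190596) (nat_lit 115) (nat_lit 5) (nat_lit 121) (nat_lit 5) (nat_lit 116) (nat_lit 5) (nat_lit 332) (nat_lit 276) (nat_lit 172)) (XT.lf (nat_lit 0) (nat_lit 2161474538) (nat_lit 380) (nat_lit 4616749956) (nat_lit 456) (nat_lit 11501788019) (nat_lit 110) (nat_lit 5) (nat_lit 115) (nat_lit 5) (nat_lit 116) (nat_lit 5) (nat_lit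 333) (nat_lit 276) (nat_lit 171))))) (XT.nd (nat_lit 234) (nat_lit 684) (nat_lit 0) (XT.nd (nat_lit 78) (nat_lit 760) (nat_lit 0) (XT.lf (nat_lit 0) (nat_lit 11588552272) (nat_lit 456) (nat_lit 3518234361) (nat_lit 76) (nat_lit 3542615639) (nat_lit 110) (nat_lit 5) (nat_lit 116) (nat_lit 5) (nat_lit 111) (nat_lit 5) (nat_lit 334) (nat_lit 276) (nat_lit 170)) (XT.nd (nat_lit 78) (nat_lit 456) (nat_lit 0) (XT.lf (nat_lit 0) (nat_lit 9523683165) (nat_lit 304) (nat_lit 7091171080) (nat_lit 380) (nat_lit 2413599963) (nat_lit 106) (nat_lit 5) (nat_lit 110) (nat_lit 5) (nat_lit 111) (nat_lit 5) (nat_lit 335) (nat_lit 276) (nat_lit 169)) (XT.lf (nat_lit 0) (nat_lit 2376379988) (nat_lit 456) (nat_lit 15838085109) (nat_lit 76) (nat_lit 1203428847) (nat_lit 100) (nat_lit 5) (nat_lit 106) (nat_lit 5) (nat_lit 101) (nat_lit 5) (nat_lit 336) (nat_lit 276) (nat_lit 168)))) (XT.nd (nat_lit 156) (nat_lit 380)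 (nat_lit 0) (XT.nd (nat_lit 78) (nat_lit 304) (nat_lit 0) (XT.lf (nat_lit 0) (nat_lit 7369286662) (nat_lit 456) (nat_lit 2724779156) (nat_lit 76) (nat_lit 9722804329) (nat_lit 100) (nat_lit 5) (nat_lit 106) (nat_lit 5) (nat_lit 101) (nat_lit 5) (nat_lit 337) (nat_lit 276) (nat_lit 167)) (XT.lf (nat_lit 0) (nat_lit 10895610081) (nat_lit 304) (nat_lit 1667282946) (nat_lit 380) (nat_lit 7663916712) (nat_lit 96) (nat_lit 5) (nat_lit 100) (nat_lit 5) (nat_lit 101) (nat_lit 5) (nat_lit 338) (nat_lit 276) (nat_lit 166))) (XT.nd (nat_lit 78) (nat_lit 76) (nat_lit 0) (XT.lf (nat_lit 0) (nat_lit 4294826396) (nat_lit 304) (nat_lit 13689982333) (nat_lit 380) (nat_lit 2662800762) (nat_lit 92) (nat_lit 5) (nat_lit 96) (nat_lit 5) (nat_lit 97) (nat_lit 5) (nat_lit 339) (nat_lit 276) (nat_lit 165)) (XT.lf (nat_lit 0) (nat_lit 2511258891) (nat_lit 380) (nat_lit 2679008753) (nat_lit 76) (nat_lit 15889342979) (nat_lit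 91) (nat_lit 5) (nat_lit 96) (nat_lit 5) (nat_lit 92) (nat_lit 5) (nat_lit 340) (nat_lit 276) (nat_lit 164))))))) (XT.nd (nat_lit 1014) (nat_lit 532) (nat_lit 0) (XT.nd (nat_lit 468) (nat_lit 1368) (nat_lit 0) (XT.nd (nat_lit 234) (nat_lit 608) (nat_lit 0) (XT.nd (nat_lit 78) (nat_lit 304) (nat_lit 0) (XT.lf (nat_lit 0) (nat_lit 7884301988) (nat_lit 380) (nat_lit 10036707076) (nat_lit 76) (nat_lit 3601623014) (nat_lit 87) (nat_lit 5) (nat_lit 92) (nat_lit 5) (nat_lit 88) (nat_lit 5) (nat_lit 341) (nat_lit 276) (nat_lit 163)) (XT.nd (nat_lit 78) (nat_lit 0) (nat_lit 0) (XT.lf (nat_lit 0) (nat_lit 4125273142) (nat_lit 304) (nat_lit 9354642646) (nat_lit 380) (nat_lit 8497811562) (nat_lit 83) (nat_lit 5) (nat_lit 87) (nat_lit 5) (nat_lit 88) (nat_lit 5) (nat_lit 342) (nat_lit 276) (nat_lit 162)) (XT.lf (nat_lit 0) (nat_lit 18822052318) (nat_lit 304) (nat_lit 471326720) (nat_lit 380) (nat_lit 3152107269)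 (nat_lit 83) (nat_lit 5) (nat_lit 87) (nat_lit 5) (nat_lit 88) (nat_lit 5) (nat_lit 343) (nat_lit 276) (nat_lit 161)))) (XT.nd (nat_lit 78) (nat_lit 304) (nat_lit 0) (XT.lf (nat_lit 0) (nat_lit 2434634753) (nat_lit 304) (nat_lit 11846416286) (nat_lit 76) (nat_lit 8643700481) (nat_lit 79) (nat_lit 5) (nat_lit 83) (nat_lit 5) (nat_lit 80) (nat_lit 5) (nat_lit 344) (nat_lit 276) (nat_lit 160)) (XT.nd (nat_lit 78) (nat_lit 0) (nat_lit 0) (XT.lf (nat_lit 0) (nat_lit 2838942077) (nat_lit 304) (nat_lit 5336407362) (nat_lit 380) (nat_lit 15242054293) (nat_lit 75) (nat_lit 5) (nat_lit 79) (nat_lit 5) (nat_lit 80) (nat_lit 5) (nat_lit 345) (nat_lit 276) (nat_lit 159)) (XT.lf (nat_lit 0) (nat_lit 14177186294) (nat_lit 380) (nat_lit 5848518536) (nat_lit 76) (nat_lit 3897362040) (nat_lit 75) (nat_lit 5) (nat_lit 80) (nat_lit 5) (nat_lit 76) (nat_lit 5) (nat_lit 346) (nat_lit 276) (nat_lit 158))))) (XT.nd (nat_lit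 234) (nat_lit 760) (nat_lit 0) (XT.nd (nat_lit 78) (nat_lit 380) (nat_lit 0) (XT.lf (nat_lit 0) (nat_lit 9384890962) (nat_lit 228) (nat_lit 11054229234) (nat_lit 304) (nat_lit 4003187968) (nat_lit 72) (nat_lit 5) (nat_lit 75) (nat_lit 5) (nat_lit 76) (nat_lit 5) (nat_lit 347) (nat_lit 276) (nat_lit 157)) (XT.nd (nat_lit 78) (nat_lit 0) (nat_lit 0) (XT.lf (nat_lit 0) (nat_lit 142582306) (nat_lit 304) (nat_lit 1768572861) (nat_lit 380) (nat_lit 23065243076) (nat_lit 67) (nat_lit 5) (nat_lit 71) (nat_lit 5) (nat_lit 72) (nat_lit 5) (nat_lit 348) (nat_lit 276) (nat_lit 156)) (XT.lf (nat_lit 0) (nat_lit 8086052406) (nat_lit 380) (nat_lit 9623332669) (nat_lit 76) (nat_lit 7813854910) (nat_lit 67) (nat_lit 5) (nat_lit 72) (nat_lit 5) (nat_lit 68) (nat_lit 5) (nat_lit 349) (nat_lit 276) (nat_lit 155)))) (XT.nd (nat_lit 156) (nat_lit 532) (nat_lit 0) (XT.nd (nat_lit 78) (nat_lit 0) (nat_lit 0) (XT.lf (nat_lit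 0) (nat_lit 6086717661) (nat_lit 228) (nat_lit 8395172060) (nat_lit 304) (nat_lit 11603891560) (nat_lit 64) (nat_lit 5) (nat_lit 67) (nat_lit 5) (nat_lit 68) (nat_lit 5) (nat_lit 350) (nat_lit 276) (nat_lit 154)) (XT.lf (nat_lit 0) (nat_lit 21127612379) (nat_lit 304) (nat_lit 4296916244) (nat_lit 76) (nat_lit 1239517917) (nat_lit 64) (nat_lit 5) (nat_lit 68) (nat_lit 5) (nat_lit 65) (nat_lit 5) (nat_lit 351) (nat_lit 276) (nat_lit 153))) (XT.nd (nat_lit 78) (nat_lit 228) (nat_lit 0) (XT.lf (nat_lit 0) (nat_lit 823258845) (nat_lit 304) (nat_lit 15309675574) (nat_lit 76) (nat_lit 11124249018) (nat_lit 60) (nat_lit 5) (nat_lit 64) (nat_lit 5) (nat_lit 61) (nat_lit 5) (nat_lit 352) (nat_lit 276) (nat_lit 152)) (XT.lf (nat_lit 0) (nat_lit 820388180) (nat_lit 228) (nat_lit 6498415394) (nat_lit 304) (nat_lit 20548180689) (nat_lit 57) (nat_lit 5) (nat_lit 60) (nat_lit 5) (nat_lit 61) (nat_lit 5) (nat_lit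 353) (nat_lit 276) (nat_lit 151)))))) (XT.nd (nat_lit 34710) (nat_lit 0) (nat_lit 29944) (XT.nd (nat_lit 234) (nat_lit 304) (nat_lit 0) (XT.nd (nat_lit 78) (nat_lit 228) (nat_lit 0) (XT.lf (nat_lit 0) (nat_lit 14121319208) (nat_lit 304) (nat_lit 10895573343) (nat_lit 76) (nat_lit 3475951585) (nat_lit 57) (nat_lit 5) (nat_lit 61) (nat_lit 5) (nat_lit 58) (nat_lit 5) (nat_lit 354) (nat_lit 276) (nat_lit 150)) (XT.nd (nat_lit 78) (nat_lit 0) (nat_lit 0) (XT.lf (nat_lit 0) (nat_lit 5749049414) (nat_lit 228) (nat_lit 15445505564) (nat_lit 304) (nat_lit 7941598837) (nat_lit 54) (nat_lit 5) (nat_lit 57) (nat_lit 5) (nat_lit 58) (nat_lit 5) (nat_lit 355) (nat_lit 276) (nat_lit 149)) (XT.lf (nat_lit 0) (nat_lit 23019649566) (nat_lit 228) (nat_lit 5520296086) (nat_lit 304) (nat_lit 1257624680) (nat_lit 54) (nat_lit 5) (nat_lit 57) (nat_lit 5) (nat_lit 58) (nat_lit 5) (nat_lit 356) (nat_lit 276) (nat_lit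 148)))) (XT.nd (nat_lit 78) (nat_lit 0) (nat_lit 0) (XT.lf (nat_lit 0) (nat_lit 5638245260) (nat_lit 304) (nat_lit 20100724307) (nat_lit 76) (nat_lit 4737432014) (nat_lit 50) (nat_lit 5) (nat_lit 54) (nat_lit 5) (nat_lit 51) (nat_lit 5) (nat_lit 357) (nat_lit 276) (nat_lit 147)) (XT.nd (nat_lit 34320) (nat_lit 0) (nat_lit 31084) (XT.lf (nat_lit 0) (nat_lit 12793787202) (nat_lit 304) (nat_lit 3105543344) (nat_lit 76) (nat_lit 15274709515) (nat_lit 50) (nat_lit 5) (nat_lit 54) (nat_lit 5) (nat_lit 51) (nat_lit 5) (nat_lit 358) (nat_lit 276) (nat_lit 146)) (XT.lf (nat_lit 0) (nat_lit 646186195) (nat_lit 1292) (nat_lit 1602224804) (nat_lit 1292) (nat_lit 1602224804) (nat_lit 459) (nat_lit 3) (nat_lit 476) (nat_lit 3) (nat_lit 476) (nat_lit 5) (nat_lit 277) (nat_lit 277) (nat_lit 226))))) (XT.nd (nat_lit 234) (nat_lit 1140) (nat_lit 0) (XT.nd (nat_lit 78) (nat_lit 0) (nat_lit 76) (XT.lf (nat_lit 76)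 (nat_lit 1991322776) (nat_lit 0) (nat_lit 1213815718) (nat_lit 1292) (nat_lit 4571465043) (nat_lit 460) (nat_lit 5) (nat_lit 459) (nat_lit 3) (nat_lit 476) (nat_lit 5) (nat_lit 278) (nat_lit 277) (nat_lit 225)) (XT.nd (nat_lit 78) (nat_lit 0) (nat_lit 0) (XT.lf (nat_lit 0) (nat_lit 5137816019) (nat_lit 1216) (nat_lit 520913938) (nat_lit 1292) (nat_lit 2196305422) (nat_lit 460) (nat_lit 5) (nat_lit 476) (nat_lit 5) (nat_lit 477) (nat_lit 5) (nat_lit 279) (nat_lit 277) (nat_lit 224)) (XT.lf (nat_lit 76) (nat_lit 4919174344) (nat_lit 0) (nat_lit 2178089617) (nat_lit 1292) (nat_lit 839268304) (nat_lit 461) (nat_lit 5) (nat_lit 460) (nat_lit 5) (nat_lit 477) (nat_lit 5) (nat_lit 280) (nat_lit 277) (nat_lit 223)))) (XT.nd (nat_lit 156) (nat_lit 0) (nat_lit 76) (XT.nd (nat_lit 78) (nat_lit 0) (nat_lit 0) (XT.lf (nat_lit 0) (nat_lit 1039950862) (nat_lit 1292) (nat_lit 5535137432) (nat_lit 1368) (nat_lit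 1446141406) (nat_lit 444) (nat_lit 5) (nat_lit 461) (nat_lit 5) (nat_lit 462) (nat_lit 5) (nat_lit 281) (nat_lit 277) (nat_lit 222)) (XT.lf (nat_lit 76) (nat_lit 27940096) (nat_lit 0) (nat_lit 2903600508) (nat_lit 1368) (nat_lit 5177549795) (nat_lit 445) (nat_lit 5) (nat_lit 444) (nat_lit 5) (nat_lit 462) (nat_lit 5) (nat_lit 282) (nat_lit 277) (nat_lit 221))) (XT.nd (nat_lit 78) (nat_lit 0) (nat_lit 0) (XT.lf (nat_lit 0) (nat_lit 4857236978) (nat_lit 1292) (nat_lit 2412041692) (nat_lit 1368) (nat_lit 930839923) (nat_lit 445) (nat_lit 5) (nat_lit 462) (nat_lit 5) (nat_lit 463) (nat_lit 5) (nat_lit 283) (nat_lit 277) (nat_lit 220)) (XT.lf (nat_lit 76) (nat_lit 3412741865) (nat_lit 0) (nat_lit 3405364951) (nat_lit 1368) (nat_lit 1476299322) (nat_lit 446) (nat_lit 5) (nat_lit 445) (nat_lit 5) (nat_lit 463) (nat_lit 5) (nat_lit 284) (nat_lit 277) (nat_lit 219))))))))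
noncomputable def xc81 : XT := (XT.nd (nat_lit 2028) (nat_lit 9804) (nat_lit 0) (XT.nd (nat_lit 1014) (nat_lit 8892) (nat_lit 0) (XT.nd (nat_lit 468) (nat_lit 4484) (nat_lit 0) (XT.nd (nat_lit 234) (nat_lit 1292) (nat_lit 0) (XT.nd (nat_lit 78) (nat_lit 0) (nat_lit 0) (XT.lf (nat_lit 0) (nat_lit 404538600) (nat_lit 1368) (nat_lit 7371872164) (nat_lit 1444) (nat_lit 615844239) (nat_lit 428) (nat_lit 5) (nat_lit 446) (nat_lit 5) (nat_lit 447) (nat_lit 5) (nat_lit 285) (nat_lit 277) (nat_lit 218)) (XT.nd (nat_lit 78) (nat_lit 0) (nat_lit 76) (XT.lf (nat_lit 0) (nat_lit 2316609877) (nat_lit 1368) (nat_lit 1399730199) (nat_lit 1444) (nat_lit 4776677532) (nat_lit 428) (nat_lit 5) (nat_lit 446) (nat_lit 5) (nat_lit 447) (nat_lit 5) (nat_lit 286) (nat_lit 277) (nat_lit 217)) (XT.lf (nat_lit 0) (nat_lit 4260865356) (nat_lit 1368) (nat_lit 3826215675) (nat_lit 1444) (nat_lit 510294304) (nat_lit 429) (nat_lit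 5) (nat_lit 447) (nat_lit 5) (nat_lit 448) (nat_lit 5) (nat_lit 287) (nat_lit 277) (nat_lit 216)))) (XT.nd (nat_lit 78) (nat_lit 1368) (nat_lit 0) (XT.lf (nat_lit 76) (nat_lit 2408007094) (nat_lit 0) (nat_lit 3847546451) (nat_lit 1444) (nat_lit 2449534834) (nat_lit 430) (nat_lit 5) (nat_lit 429) (nat_lit 5) (nat_lit 448) (nat_lit 5) (nat_lit 288) (nat_lit 277) (nat_lit 215)) (XT.nd (nat_lit 78) (nat_lit 1444) (nat_lit 0) (XT.lf (nat_lit 76) (nat_lit 21890229) (nat_lit 0) (nat_lit 8261413515) (nat_lit 1444) (nat_lit 533329388) (nat_lit 431) (nat_lit 5) (nat_lit 430) (nat_lit 5) (nat_lit 449) (nat_lit 5) (nat_lit 289) (nat_lit 277) (nat_lit 214)) (XT.lf (nat_lit 0) (nat_lit 1434718945) (nat_lit 1444) (nat_lit 2390513212) (nat_lit 1520) (nat_lit 5105901713) (nat_lit 411) (nat_lit 5) (nat_lit 430) (nat_lit 5) (nat_lit 431) (nat_lit 5) (nat_lit 290) (nat_lit 277) (nat_lit 213))))) (XT.nd (nat_lit 234)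 (nat_lit 4560) (nat_lit 0) (XT.nd (nat_lit 78) (nat_lit 0) (nat_lit 0) (XT.lf (nat_lit 0) (nat_lit 3433292413) (nat_lit 1444) (nat_lit 4837027409) (nat_lit 1520) (nat_lit 779164540) (nat_lit 412) (nat_lit 5) (nat_lit 431) (nat_lit 5) (nat_lit 432) (nat_lit 5) (nat_lit 291) (nat_lit 277) (nat_lit 212)) (XT.nd (nat_lit 78) (nat_lit 0) (nat_lit 76) (XT.lf (nat_lit 76) (nat_lit 1833075609) (nat_lit 0) (nat_lit 3660113086) (nat_lit 1520) (nat_lit 3678227451) (nat_lit 413) (nat_lit 5) (nat_lit 412) (nat_lit 5) (nat_lit 432) (nat_lit 5) (nat_lit 292) (nat_lit 277) (nat_lit 211)) (XT.lf (nat_lit 0) (nat_lit 7603861901) (nat_lit 1444) (nat_lit 575092979) (nat_lit 76) (nat_lit 1118327797) (nat_lit 413) (nat_lit 5) (nat_lit 432) (nat_lit 5) (nat_lit 414) (nat_lit 5) (nat_lit 293) (nat_lit 277) (nat_lit 210)))) (XT.nd (nat_lit 156) (nat_lit 1596) (nat_lit 0) (XT.nd (nat_lit 78) (nat_lit 1520) (nat_lit 0)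 (XT.lf (nat_lit 0) (nat_lit 362890389) (nat_lit 1520) (nat_lit 3018139901) (nat_lit 76) (nat_lit 6045571769) (nat_lit 393) (nat_lit 5) (nat_lit 413) (nat_lit 5) (nat_lit 394) (nat_lit 5) (nat_lit 294) (nat_lit 277) (nat_lit 209)) (XT.lf (nat_lit 0) (nat_lit 2449935647) (nat_lit 1596) (nat_lit 5518817693) (nat_lit 76) (nat_lit 1591034894) (nat_lit 373) (nat_lit 5) (nat_lit 394) (nat_lit 5) (nat_lit 374) (nat_lit 5) (nat_lit 295) (nat_lit 277) (nat_lit 208))) (XT.nd (nat_lit 78) (nat_lit 0) (nat_lit 0) (XT.lf (nat_lit 0) (nat_lit 1614813901) (nat_lit 1596) (nat_lit 2990906146) (nat_lit 1672) (nat_lit 5091177989) (nat_lit 352) (nat_lit 5) (nat_lit 373) (nat_lit 5) (nat_lit 374) (nat_lit 5) (nat_lit 296) (nat_lit 277) (nat_lit 207)) (XT.lf (nat_lit 0) (nat_lit 6831311254) (nat_lit 1672) (nat_lit 854088531) (nat_lit 76) (nat_lit 2152667807) (nat_lit 352) (nat_lit 5) (nat_lit 374) (nat_lit 5) (nat_lit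 353) (nat_lit 5) (nat_lit 297) (nat_lit 277) (nat_lit 206)))))) (XT.nd (nat_lit 468) (nat_lit 3648) (nat_lit 0) (XT.nd (nat_lit 234) (nat_lit 1672) (nat_lit 0) (XT.nd (nat_lit 78) (nat_lit 1900) (nat_lit 0) (XT.lf (nat_lit 0) (nat_lit 6618131324) (nat_lit 1672) (nat_lit 2523478845) (nat_lit 1748) (nat_lit 841550960) (nat_lit 330) (nat_lit 5) (nat_lit 352) (nat_lit 5) (nat_lit 353) (nat_lit 5) (nat_lit 298) (nat_lit 277) (nat_lit 205)) (XT.nd (nat_lit 78) (nat_lit 836) (nat_lit 0) (XT.lf (nat_lit 0) (nat_lit 1377634797) (nat_lit 1064) (nat_lit 5950799217) (nat_lit 76) (nat_lit 2803893817) (nat_lit 316) (nat_lit 5) (nat_lit 330) (nat_lit 5) (nat_lit 317) (nat_lit 5) (nat_lit 299) (nat_lit 277) (nat_lit 204)) (XT.lf (nat_lit 0) (nat_lit 1674633781) (nat_lit 836) (nat_lit 1984856256) (nat_lit 912) (nat_lit 6626261771) (nat_lit 305) (nat_lit 5) (nat_lit 316) (nat_lit 5) (nat_lit 317) (nat_lit 5) (nat_lit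 300) (nat_lit 277) (nat_lit 203)))) (XT.nd (nat_lit 78) (nat_lit 1672) (nat_lit 0) (XT.lf (nat_lit 0) (nat_lit 6031026887) (nat_lit 912) (nat_lit 895771814) (nat_lit 76) (nat_lit 3516598076) (nat_lit 305) (nat_lit 5) (nat_lit 317) (nat_lit 5) (nat_lit 306) (nat_lit 5) (nat_lit 301) (nat_lit 277) (nat_lit 202)) (XT.nd (nat_lit 78) (nat_lit 836) (nat_lit 0) (XT.lf (nat_lit 0) (nat_lit 7091967654) (nat_lit 836) (nat_lit 1400077616) (nat_lit 912) (nat_lit 2113400662) (nat_lit 294) (nat_lit 5) (nat_lit 305) (nat_lit 5) (nat_lit 306) (nat_lit 5) (nat_lit 302) (nat_lit 277) (nat_lit 201)) (XT.lf (nat_lit 0) (nat_lit 274824273) (nat_lit 836) (nat_lit 6221606326) (nat_lit 76) (nat_lit 4275459953) (nat_lit 283) (nat_lit 5) (nat_lit 294) (nat_lit 5) (nat_lit 284) (nat_lit 5) (nat_lit 303) (nat_lit 277) (nat_lit 200))))) (XT.nd (nat_lit 234) (nat_lit 2204) (nat_lit 0) (XT.nd (nat_lit 78) (nat_lit 684) (nat_lit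 0) (XT.lf (nat_lit 0) (nat_lit 1923819249) (nat_lit 760) (nat_lit 788740156) (nat_lit 836) (nat_lit 8230396581) (nat_lit 273) (nat_lit 5) (nat_lit 283) (nat_lit 5) (nat_lit 284) (nat_lit 5) (nat_lit 304) (nat_lit 277) (nat_lit 199)) (XT.nd (nat_lit 78) (nat_lit 684) (nat_lit 0) (XT.lf (nat_lit 0) (nat_lit 5260407163) (nat_lit 836) (nat_lit 792003305) (nat_lit 76) (nat_lit 5066040577) (nat_lit 273) (nat_lit 5) (nat_lit 284) (nat_lit 5) (nat_lit 274) (nat_lit 5) (nat_lit 305) (nat_lit 277) (nat_lit 198)) (XT.lf (nat_lit 0) (nat_lit 7740188290) (nat_lit 684) (nat_lit 162645686) (nat_lit 760) (nat_lit 3396050294) (nat_lit 264) (nat_lit 5) (nat_lit 273) (nat_lit 5) (nat_lit 274) (nat_lit 5) (nat_lit 306) (nat_lit 277) (nat_lit 197)))) (XT.nd (nat_lit 156) (nat_lit 684) (nat_lit 0) (XT.nd (nat_lit 78) (nat_lit 760) (nat_lit 0) (XT.lf (nat_lit 0) (nat_lit 5044213110) (nat_lit 760) (nat_lit 5620260024)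 (nat_lit 836) (nat_lit 819493702) (nat_lit 254) (nat_lit 5) (nat_lit 264) (nat_lit 5) (nat_lit 265) (nat_lit 5) (nat_lit 307) (nat_lit 277) (nat_lit 196)) (XT.lf (nat_lit 0) (nat_lit 1817213714) (nat_lit 760) (nat_lit 9418969107) (nat_lit 76) (nat_lit 438076060) (nat_lit 244) (nat_lit 5) (nat_lit 254) (nat_lit 5) (nat_lit 245) (nat_lit 5) (nat_lit 308) (nat_lit 277) (nat_lit 195))) (XT.nd (nat_lit 78) (nat_lit 684) (nat_lit 0) (XT.lf (nat_lit 0) (nat_lit 4568260920) (nat_lit 760) (nat_lit 651545433) (nat_lit 76) (nat_lit 6649450020) (nat_lit 244) (nat_lit 5) (nat_lit 254) (nat_lit 5) (nat_lit 245) (nat_lit 5) (nat_lit 309) (nat_lit 277) (nat_lit 194)) (XT.lf (nat_lit 0) (nat_lit 7429231159) (nat_lit 760) (nat_lit 3623676048) (nat_lit 76) (nat_lit 1016680272) (nat_lit 235) (nat_lit 5) (nat_lit 245) (nat_lit 5) (nat_lit 236) (nat_lit 5) (nat_lit 310) (nat_lit 277) (nat_lit 193))))))) (XT.nd (nat_lit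 1014) (nat_lit 3876) (nat_lit 0) (XT.nd (nat_lit 468) (nat_lit 2736) (nat_lit 0) (XT.nd (nat_lit 234) (nat_lit 1824) (nat_lit 0) (XT.nd (nat_lit 78) (nat_lit 760) (nat_lit 0) (XT.lf (nat_lit 0) (nat_lit 5550119726) (nat_lit 608) (nat_lit 4867858940) (nat_lit 684) (nat_lit 1857141493) (nat_lit 227) (nat_lit 5) (nat_lit 235) (nat_lit 5) (nat_lit 236) (nat_lit 5) (nat_lit 311) (nat_lit 277) (nat_lit 192)) (XT.nd (nat_lit 78) (nat_lit 0) (nat_lit 0) (XT.lf (nat_lit 0) (nat_lit 1014717562) (nat_lit 760) (nat_lit 9944409385) (nat_lit 76) (nat_lit 1527222136) (nat_lit 217) (nat_lit 5) (nat_lit 227) (nat_lit 5) (nat_lit 218) (nat_lit 5) (nat_lit 312) (nat_lit 277) (nat_lit 191)) (XT.lf (nat_lit 0) (nat_lit 3993820234) (nat_lit 760) (nat_lit 606353390) (nat_lit 76) (nat_lit 8102597636) (nat_lit 217) (nat_lit 5) (nat_lit 227) (nat_lit 5) (nat_lit 218) (nat_lit 5) (nat_lit 313) (nat_lit 277) (nat_lit 190))))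 (XT.nd (nat_lit 78) (nat_lit 1216) (nat_lit 0) (XT.lf (nat_lit 0) (nat_lit 7103055382) (nat_lit 684) (nat_lit 3842986035) (nat_lit 76) (nat_lit 1978856956) (nat_lit 209) (nat_lit 5) (nat_lit 218) (nat_lit 5) (nat_lit 210) (nat_lit 5) (nat_lit 314) (nat_lit 277) (nat_lit 189)) (XT.nd (nat_lit 78) (nat_lit 608) (nat_lit 0) (XT.lf (nat_lit 0) (nat_lit 5926491822) (nat_lit 608) (nat_lit 4421794268) (nat_lit 684) (nat_lit 2804575496) (nat_lit 201) (nat_lit 5) (nat_lit 209) (nat_lit 5) (nat_lit 210) (nat_lit 5) (nat_lit 315) (nat_lit 277) (nat_lit 188)) (XT.lf (nat_lit 0) (nat_lit 327626482) (nat_lit 608) (nat_lit 10751231873) (nat_lit 76) (nat_lit 2308223480) (nat_lit 193) (nat_lit 5) (nat_lit 201) (nat_lit 5) (nat_lit 194) (nat_lit 5) (nat_lit 316) (nat_lit 277) (nat_lit 187))))) (XT.nd (nat_lit 234) (nat_lit 1596) (nat_lit 0) (XT.nd (nat_lit 78) (nat_lit 1140) (nat_lit 0) (XT.lf (nat_lit 0) (nat_lit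 3565165694) (nat_lit 608) (nat_lit 818952826) (nat_lit 76) (nat_lit 9242874555) (nat_lit 193) (nat_lit 5) (nat_lit 201) (nat_lit 5) (nat_lit 194) (nat_lit 5) (nat_lit 317) (nat_lit 277) (nat_lit 186)) (XT.nd (nat_lit 78) (nat_lit 532) (nat_lit 0) (XT.lf (nat_lit 0) (nat_lit 6949450841) (nat_lit 684) (nat_lit 4389000823) (nat_lit 76) (nat_lit 2534681510) (nat_lit 185) (nat_lit 5) (nat_lit 194) (nat_lit 5) (nat_lit 186) (nat_lit 5) (nat_lit 318) (nat_lit 277) (nat_lit 185)) (XT.lf (nat_lit 0) (nat_lit 5995505623) (nat_lit 532) (nat_lit 4485422746) (nat_lit 608) (nat_lit 3644839051) (nat_lit 178) (nat_lit 5) (nat_lit 185) (nat_lit 5) (nat_lit 186) (nat_lit 5) (nat_lit 319) (nat_lit 277) (nat_lit 184)))) (XT.nd (nat_lit 156) (nat_lit 988) (nat_lit 0) (XT.nd (nat_lit 78) (nat_lit 76) (nat_lit 0) (XT.lf (nat_lit 0) (nat_lit 2345382907) (nat_lit 532) (nat_lit 11807228033) (nat_lit 608) (nat_lit 232707083)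 (nat_lit 171) (nat_lit 5) (nat_lit 178) (nat_lit 5) (nat_lit 179) (nat_lit 5) (nat_lit 320) (nat_lit 277) (nat_lit 183)) (XT.lf (nat_lit 0) (nat_lit 3296971410) (nat_lit 608) (nat_lit 1491168688) (nat_lit 76) (nat_lit 9862945879) (nat_lit 170) (nat_lit 5) (nat_lit 178) (nat_lit 5) (nat_lit 171) (nat_lit 5) (nat_lit 321) (nat_lit 277) (nat_lit 182))) (XT.nd (nat_lit 78) (nat_lit 532) (nat_lit 0) (XT.lf (nat_lit 0) (nat_lit 6980623334) (nat_lit 532) (nat_lit 5477251583) (nat_lit 76) (nat_lit 2465917228) (nat_lit 164) (nat_lit 5) (nat_lit 171) (nat_lit 5) (nat_lit 165) (nat_lit 5) (nat_lit 322) (nat_lit 277) (nat_lit 181)) (XT.lf (nat_lit 0) (nat_lit 5535350544) (nat_lit 532) (nat_lit 5291638011) (nat_lit 608) (nat_lit 4376667095) (nat_lit 157) (nat_lit 5) (nat_lit 164) (nat_lit 5) (nat_lit 165) (nat_lit 5) (nat_lit 323) (nat_lit 277) (nat_lit 180)))))) (XT.nd (nat_lit 468) (nat_lit 1900) (nat_lit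 0) (XT.nd (nat_lit 234) (nat_lit 988) (nat_lit 0) (XT.nd (nat_lit 78) (nat_lit 532) (nat_lit 0) (XT.lf (nat_lit 0) (nat_lit 1433712525) (nat_lit 456) (nat_lit 13389834162) (nat_lit 532) (nat_lit 667691973) (nat_lit 151) (nat_lit 5) (nat_lit 157) (nat_lit 5) (nat_lit 158) (nat_lit 5) (nat_lit 324) (nat_lit 277) (nat_lit 179)) (XT.nd (nat_lit 78) (nat_lit 456) (nat_lit 0) (XT.lf (nat_lit 0) (nat_lit 3187451643) (nat_lit 532) (nat_lit 2874516424) (nat_lit 76) (nat_lit 9723565505) (nat_lit 150) (nat_lit 5) (nat_lit 157) (nat_lit 5) (nat_lit 151) (nat_lit 5) (nat_lit 325) (nat_lit 277) (nat_lit 178)) (XT.lf (nat_lit 0) (nat_lit 7191495883) (nat_lit 532) (nat_lit 7376288217) (nat_lit 76) (nat_lit 1519956757) (nat_lit 144) (nat_lit 5) (nat_lit 151) (nat_lit 5) (nat_lit 145) (nat_lit 5) (nat_lit 326) (nat_lit 277) (nat_lit 177)))) (XT.nd (nat_lit 78) (nat_lit 532) (nat_lit 0) (XT.lf (nat_lit 0) (nat_lit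 4268869233) (nat_lit 456) (nat_lit 7110747115) (nat_lit 532) (nat_lit 5018136534) (nat_lit 138) (nat_lit 5) (nat_lit 144) (nat_lit 5) (nat_lit 145) (nat_lit 5) (nat_lit 327) (nat_lit 277) (nat_lit 176)) (XT.nd (nat_lit 78) (nat_lit 532) (nat_lit 0) (XT.lf (nat_lit 0) (nat_lit 15723925603) (nat_lit 532) (nat_lit 387830774) (nat_lit 76) (nat_lit 604715093) (nat_lit 138) (nat_lit 5) (nat_lit 145) (nat_lit 5) (nat_lit 139) (nat_lit 5) (nat_lit 328) (nat_lit 277) (nat_lit 175)) (XT.lf (nat_lit 0) (nat_lit 3214361287) (nat_lit 532) (nat_lit 5282623897) (nat_lit 76) (nat_lit 8545334948) (nat_lit 131) (nat_lit 5) (nat_lit 138) (nat_lit 5) (nat_lit 132) (nat_lit 5) (nat_lit 329) (nat_lit 277) (nat_lit 174))))) (XT.nd (nat_lit 234) (nat_lit 1140) (nat_lit 0) (XT.nd (nat_lit 78) (nat_lit 380) (nat_lit 0) (XT.lf (nat_lit 0) (nat_lit 6952638760) (nat_lit 380) (nat_lit 606729459) (nat_lit 456) (nat_lit 9817953080)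 (nat_lit 126) (nat_lit 5) (nat_lit 131) (nat_lit 5) (nat_lit 132) (nat_lit 5) (nat_lit 330) (nat_lit 277) (nat_lit 173)) (XT.nd (nat_lit 78) (nat_lit 0) (nat_lit 0) (XT.lf (nat_lit 0) (nat_lit 1849954827) (nat_lit 380) (nat_lit 10259558189) (nat_lit 456) (nat_lit 5611379081) (nat_lit 121) (nat_lit 5) (nat_lit 126) (nat_lit 5) (nat_lit 127) (nat_lit 5) (nat_lit 331) (nat_lit 277) (nat_lit 172)) (XT.lf (nat_lit 0) (nat_lit 14601058866) (nat_lit 380) (nat_lit 2248137514) (nat_lit 456) (nat_lit 1224527855) (nat_lit 121) (nat_lit 5) (nat_lit 126) (nat_lit 5) (nat_lit 127) (nat_lit 5) (nat_lit 332) (nat_lit 277) (nat_lit 171)))) (XT.nd (nat_lit 156) (nat_lit 304) (nat_lit 0) (XT.nd (nat_lit 78) (nat_lit 380) (nat_lit 0) (XT.lf (nat_lit 0) (nat_lit 3329867483) (nat_lit 456) (nat_lit 9106121391) (nat_lit 76) (nat_lit 5999156135) (nat_lit 115) (nat_lit 5) (nat_lit 121) (nat_lit 5) (nat_lit 116) (nat_lit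 5) (nat_lit 333) (nat_lit 277) (nat_lit 170)) (XT.lf (nat_lit 0) (nat_lit 3751525714) (nat_lit 380) (nat_lit 4295116686) (nat_lit 456) (nat_lit 10759770210) (nat_lit 110) (nat_lit 5) (nat_lit 115) (nat_lit 5) (nat_lit 116) (nat_lit 5) (nat_lit 334) (nat_lit 277) (nat_lit 169))) (XT.nd (nat_lit 78) (nat_lit 304) (nat_lit 0) (XT.lf (nat_lit 0) (nat_lit 12973159014) (nat_lit 456) (nat_lit 2124538954) (nat_lit 76) (nat_lit 4089768871) (nat_lit 110) (nat_lit 5) (nat_lit 116) (nat_lit 5) (nat_lit 111) (nat_lit 5) (nat_lit 335) (nat_lit 277) (nat_lit 168)) (XT.lf (nat_lit 0) (nat_lit 11284312671) (nat_lit 304) (nat_lit 6845311096) (nat_lit 380) (nat_lit 1448698853) (nat_lit 106) (nat_lit 5) (nat_lit 110) (nat_lit 5) (nat_lit 111) (nat_lit 5) (nat_lit 336) (nat_lit 277) (nat_lit 167))))))))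
noncomputable def xc82 : XT := (XT.nd (nat_lit 36348) (nat_lit 0) (nat_lit 16264) (XT.nd (nat_lit 1014) (nat_lit 1292) (nat_lit 0) (XT.nd (nat_lit 468) (nat_lit 1520) (nat_lit 0) (XT.nd (nat_lit 234) (nat_lit 684) (nat_lit 0) (XT.nd (nat_lit 78) (nat_lit 304) (nat_lit 0) (XT.lf (nat_lit 0) (nat_lit 3454068249) (nat_lit 456) (nat_lit 14830520409) (nat_lit 76) (nat_lit 1695087158) (nat_lit 100) (nat_lit 5) (nat_lit 106) (nat_lit 5) (nat_lit 101) (nat_lit 5) (nat_lit 337) (nat_lit 277) (nat_lit 166)) (XT.nd (nat_lit 78) (nat_lit 304) (nat_lit 0) (XT.lf (nat_lit 0) (nat_lit 8567449593) (nat_lit 456) (nat_lit 1367000925) (nat_lit 76) (nat_lit 10456775299) (nat_lit 100) (nat_lit 5) (nat_lit 106) (nat_lit 5) (nat_lit 101) (nat_lit 5) (nat_lit 338) (nat_lit 277) (nat_lit 165)) (XT.lf (nat_lit 0) (nat_lit 12638645461) (nat_lit 304) (nat_lit 1258954617) (nat_lit 380) (nat_lit 6916266531) (nat_lit 96) (nat_lit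 5) (nat_lit 100) (nat_lit 5) (nat_lit 101) (nat_lit 5) (nat_lit 339) (nat_lit 277) (nat_lit 164)))) (XT.nd (nat_lit 78) (nat_lit 380) (nat_lit 0) (XT.lf (nat_lit 0) (nat_lit 5833362070) (nat_lit 304) (nat_lit 13632955367) (nat_lit 380) (nat_lit 1781307246) (nat_lit 92) (nat_lit 5) (nat_lit 96) (nat_lit 5) (nat_lit 97) (nat_lit 5) (nat_lit 340) (nat_lit 277) (nat_lit 163)) (XT.nd (nat_lit 78) (nat_lit 304) (nat_lit 0) (XT.lf (nat_lit 0) (nat_lit 3507731511) (nat_lit 380) (nat_lit 1377959527) (nat_lit 76) (nat_lit 16807339040) (nat_lit 91) (nat_lit 5) (nat_lit 96) (nat_lit 5) (nat_lit 92) (nat_lit 5) (nat_lit 341) (nat_lit 277) (nat_lit 162)) (XT.lf (nat_lit 0) (nat_lit 9026920174) (nat_lit 380) (nat_lit 8963167710) (nat_lit 76) (nat_lit 4159571115) (nat_lit 87) (nat_lit 5) (nat_lit 92) (nat_lit 5) (nat_lit 88) (nat_lit 5) (nat_lit 342) (nat_lit 277) (nat_lit 161))))) (XT.nd (nat_lit 234) (nat_lit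 912) (nat_lit 0) (XT.nd (nat_lit 78) (nat_lit 304) (nat_lit 0) (XT.lf (nat_lit 0) (nat_lit 5601370005) (nat_lit 304) (nat_lit 9171421717) (nat_lit 380) (nat_lit 7845983065) (nat_lit 83) (nat_lit 5) (nat_lit 87) (nat_lit 5) (nat_lit 88) (nat_lit 5) (nat_lit 343) (nat_lit 277) (nat_lit 160)) (XT.nd (nat_lit 78) (nat_lit 304) (nat_lit 0) (XT.lf (nat_lit 0) (nat_lit 20699664050) (nat_lit 304) (nat_lit 35116805) (nat_lit 380) (nat_lit 2366318212) (nat_lit 83) (nat_lit 5) (nat_lit 87) (nat_lit 5) (nat_lit 88) (nat_lit 5) (nat_lit 344) (nat_lit 277) (nat_lit 159)) (XT.lf (nat_lit 0) (nat_lit 3362569779) (nat_lit 304) (nat_lit 10883735507) (nat_lit 76) (nat_lit 9348615113) (nat_lit 79) (nat_lit 5) (nat_lit 83) (nat_lit 5) (nat_lit 80) (nat_lit 5) (nat_lit 345) (nat_lit 277) (nat_lit 158)))) (XT.nd (nat_lit 156) (nat_lit 608) (nat_lit 0) (XT.nd (nat_lit 78) (nat_lit 0) (nat_lit 0) (XT.lf (nat_lit 0) (nat_lit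 4220799434) (nat_lit 304) (nat_lit 5038225554) (nat_lit 380) (nat_lit 14843670664) (nat_lit 75) (nat_lit 5) (nat_lit 79) (nat_lit 5) (nat_lit 80) (nat_lit 5) (nat_lit 346) (nat_lit 277) (nat_lit 157)) (XT.lf (nat_lit 0) (nat_lit 15419385848) (nat_lit 380) (nat_lit 4751213056) (nat_lit 76) (nat_lit 4453373855) (nat_lit 75) (nat_lit 5) (nat_lit 80) (nat_lit 5) (nat_lit 76) (nat_lit 5) (nat_lit 347) (nat_lit 277) (nat_lit 156))) (XT.nd (nat_lit 78) (nat_lit 380) (nat_lit 0) (XT.lf (nat_lit 0) (nat_lit 10918549691) (nat_lit 228) (nat_lit 10934964881) (nat_lit 304) (nat_lit 3305603045) (nat_lit 72) (nat_lit 5) (nat_lit 75) (nat_lit 5) (nat_lit 76) (nat_lit 5) (nat_lit 348) (nat_lit 277) (nat_lit 155)) (XT.lf (nat_lit 0) (nat_lit 1389627704) (nat_lit 304) (nat_lit 1370383938) (nat_lit 380) (nat_lit 22949433705) (nat_lit 67) (nat_lit 5) (nat_lit 71) (nat_lit 5) (nat_lit 72) (nat_lit 5) (nat_lit 349)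 (nat_lit 277) (nat_lit 154)))))) (XT.nd (nat_lit 468) (nat_lit 532) (nat_lit 0) (XT.nd (nat_lit 234) (nat_lit 532) (nat_lit 0) (XT.nd (nat_lit 78) (nat_lit 228) (nat_lit 0) (XT.lf (nat_lit 0) (nat_lit 9099946220) (nat_lit 380) (nat_lit 8692534607) (nat_lit 76) (nat_lit 8480627776) (nat_lit 67) (nat_lit 5) (nat_lit 72) (nat_lit 5) (nat_lit 68) (nat_lit 5) (nat_lit 350) (nat_lit 277) (nat_lit 153)) (XT.nd (nat_lit 78) (nat_lit 0) (nat_lit 0) (XT.lf (nat_lit 0) (nat_lit 7469032326) (nat_lit 228) (nat_lit 8203950257) (nat_lit 304) (nat_lit 11179848795) (nat_lit 64) (nat_lit 5) (nat_lit 67) (nat_lit 5) (nat_lit 68) (nat_lit 5) (nat_lit 351) (nat_lit 277) (nat_lit 152)) (XT.lf (nat_lit 0) (nat_lit 22498831934) (nat_lit 304) (nat_lit 3248775452) (nat_lit 76) (nat_lit 1701233484) (nat_lit 64) (nat_lit 5) (nat_lit 68) (nat_lit 5) (nat_lit 65) (nat_lit 5) (nat_lit 352) (nat_lit 277) (nat_lit 151)))) (XT.nd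 (nat_lit 78) (nat_lit 228) (nat_lit 0) (XT.lf (nat_lit 0) (nat_lit 1576542881) (nat_lit 304) (nat_lit 14600970268) (nat_lit 76) (nat_lit 11882453090) (nat_lit 60) (nat_lit 5) (nat_lit 64) (nat_lit 5) (nat_lit 61) (nat_lit 5) (nat_lit 353) (nat_lit 277) (nat_lit 150)) (XT.nd (nat_lit 78) (nat_lit 0) (nat_lit 0) (XT.lf (nat_lit 0) (nat_lit 1994046058) (nat_lit 228) (nat_lit 6259147305) (nat_lit 304) (nat_lit 20435153453) (nat_lit 57) (nat_lit 5) (nat_lit 60) (nat_lit 5) (nat_lit 61) (nat_lit 5) (nat_lit 354) (nat_lit 277) (nat_lit 149)) (XT.lf (nat_lit 0) (nat_lit 15241701433) (nat_lit 304) (nat_lit 10095378446) (nat_lit 76) (nat_lit 3996274472) (nat_lit 57) (nat_lit 5) (nat_lit 61) (nat_lit 5) (nat_lit 58) (nat_lit 5) (nat_lit 355) (nat_lit 277) (nat_lit 148))))) (XT.nd (nat_lit 34554) (nat_lit 0) (nat_lit 29868) (XT.nd (nat_lit 78) (nat_lit 304) (nat_lit 0) (XT.lf (nat_lit 0) (nat_lit 7030297750)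 (nat_lit 228) (nat_lit 15483741966) (nat_lit 304) (nat_lit 7482195407) (nat_lit 54) (nat_lit 5) (nat_lit 57) (nat_lit 5) (nat_lit 58) (nat_lit 5) (nat_lit 356) (nat_lit 277) (nat_lit 147)) (XT.nd (nat_lit 78) (nat_lit 304) (nat_lit 0) (XT.lf (nat_lit 0) (nat_lit 24786721436) (nat_lit 228) (nat_lit 5273158595) (nat_lit 304) (nat_lit 618021969) (nat_lit 54) (nat_lit 5) (nat_lit 57) (nat_lit 5) (nat_lit 58) (nat_lit 5) (nat_lit 357) (nat_lit 277) (nat_lit 146)) (XT.lf (nat_lit 0) (nat_lit 6465981948) (nat_lit 304) (nat_lit 19624932194) (nat_lit 76) (nat_lit 5286302424) (nat_lit 50) (nat_lit 5) (nat_lit 54) (nat_lit 5) (nat_lit 51) (nat_lit 5) (nat_lit 358) (nat_lit 277) (nat_lit 145)))) (XT.nd (nat_lit 156) (nat_lit 1216) (nat_lit 0) (XT.nd (nat_lit 78) (nat_lit 0) (nat_lit 0) (XT.lf (nat_lit 0) (nat_lit 2527947260) (nat_lit 1292) (nat_lit 699331435) (nat_lit 1292) (nat_lit 699331435) (nat_lit 459)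 (nat_lit 3) (nat_lit 476) (nat_lit 3) (nat_lit 476) (nat_lit 5) (nat_lit 278) (nat_lit 278) (nat_lit 224)) (XT.lf (nat_lit 76) (nat_lit 3922126289) (nat_lit 0) (nat_lit 3007577613) (nat_lit 1292) (nat_lit 1003168861) (nat_lit 460) (nat_lit 5) (nat_lit 459) (nat_lit 3) (nat_lit 476) (nat_lit 5) (nat_lit 279) (nat_lit 278) (nat_lit 223))) (XT.nd (nat_lit 78) (nat_lit 0) (nat_lit 0) (XT.lf (nat_lit 0) (nat_lit 786197341) (nat_lit 1292) (nat_lit 6637075035) (nat_lit 1368) (nat_lit 592567126) (nat_lit 443) (nat_lit 5) (nat_lit 460) (nat_lit 5) (nat_lit 461) (nat_lit 5) (nat_lit 280) (nat_lit 278) (nat_lit 222)) (XT.lf (nat_lit 0) (nat_lit 2595221707) (nat_lit 1292) (nat_lit 1180752423) (nat_lit 1368) (nat_lit 4325677587) (nat_lit 443) (nat_lit 5) (nat_lit 460) (nat_lit 5) (nat_lit 461) (nat_lit 5) (nat_lit 281) (nat_lit 278) (nat_lit 221))))))) (XT.nd (nat_lit 1014) (nat_lit 9804) (nat_lit 0) (XT.nd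 (nat_lit 468) (nat_lit 2584) (nat_lit 0) (XT.nd (nat_lit 234) (nat_lit 1292) (nat_lit 0) (XT.nd (nat_lit 78) (nat_lit 0) (nat_lit 0) (XT.lf (nat_lit 0) (nat_lit 4421773503) (nat_lit 1292) (nat_lit 3730103624) (nat_lit 1368) (nat_lit 38974891) (nat_lit 444) (nat_lit 5) (nat_lit 461) (nat_lit 5) (nat_lit 462) (nat_lit 5) (nat_lit 282) (nat_lit 278) (nat_lit 220)) (XT.nd (nat_lit 78) (nat_lit 0) (nat_lit 0) (XT.lf (nat_lit 76) (nat_lit 1967887670) (nat_lit 0) (nat_lit 4317222258) (nat_lit 1368) (nat_lit 1998055197) (nat_lit 445) (nat_lit 5) (nat_lit 444) (nat_lit 5) (nat_lit 462) (nat_lit 5) (nat_lit 283) (nat_lit 278) (nat_lit 219)) (XT.lf (nat_lit 76) (nat_lit 7850783484) (nat_lit 0) (nat_lit 316370808) (nat_lit 1368) (nat_lit 211911501) (nat_lit 445) (nat_lit 5) (nat_lit 444) (nat_lit 5) (nat_lit 462) (nat_lit 5) (nat_lit 284) (nat_lit 278) (nat_lit 218)))) (XT.nd (nat_lit 78) (nat_lit 0) (nat_lit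 0) (XT.lf (nat_lit 0) (nat_lit 1605935461) (nat_lit 1368) (nat_lit 3046960378) (nat_lit 1444) (nat_lit 3824817652) (nat_lit 427) (nat_lit 5) (nat_lit 445) (nat_lit 5) (nat_lit 446) (nat_lit 5) (nat_lit 285) (nat_lit 278) (nat_lit 217)) (XT.nd (nat_lit 78) (nat_lit 0) (nat_lit 76) (XT.lf (nat_lit 76) (nat_lit 2994550404) (nat_lit 0) (nat_lit 446640449) (nat_lit 1444) (nat_lit 5138855394) (nat_lit 428) (nat_lit 5) (nat_lit 427) (nat_lit 5) (nat_lit 446) (nat_lit 5) (nat_lit 286) (nat_lit 278) (nat_lit 216)) (XT.lf (nat_lit 76) (nat_lit 516933660) (nat_lit 0) (nat_lit 4806138760) (nat_lit 1444) (nat_lit 3362611884) (nat_lit 429) (nat_lit 5) (nat_lit 428) (nat_lit 5) (nat_lit 447) (nat_lit 5) (nat_lit 287) (nat_lit 278) (nat_lit 215))))) (XT.nd (nat_lit 234) (nat_lit 1292) (nat_lit 0) (XT.nd (nat_lit 78) (nat_lit 1368) (nat_lit 0) (XT.lf (nat_lit 76) (nat_lit 6838030742) (nat_lit 0) (nat_lit 407833010)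 (nat_lit 1444) (nat_lit 1549003427) (nat_lit 429) (nat_lit 5) (nat_lit 428) (nat_lit 5) (nat_lit 447) (nat_lit 5) (nat_lit 288) (nat_lit 278) (nat_lit 214)) (XT.nd (nat_lit 78) (nat_lit 0) (nat_lit 0) (XT.lf (nat_lit 0) (nat_lit 315728436) (nat_lit 1444) (nat_lit 4474619217) (nat_lit 1520) (nat_lit 4116980106) (nat_lit 410) (nat_lit 5) (nat_lit 429) (nat_lit 5) (nat_lit 430) (nat_lit 5) (nat_lit 289) (nat_lit 278) (nat_lit 213)) (XT.lf (nat_lit 76) (nat_lit 1992625520) (nat_lit 0) (nat_lit 198194765) (nat_lit 1520) (nat_lit 6832687665) (nat_lit 411) (nat_lit 5) (nat_lit 410) (nat_lit 5) (nat_lit 430) (nat_lit 5) (nat_lit 290) (nat_lit 278) (nat_lit 212)))) (XT.nd (nat_lit 156) (nat_lit 1368) (nat_lit 0) (XT.nd (nat_lit 78) (nat_lit 0) (nat_lit 76) (XT.lf (nat_lit 0) (nat_lit 4129855846) (nat_lit 1444) (nat_lit 495798548) (nat_lit 1520) (nat_lit 4517423422) (nat_lit 411) (nat_lit 5) (nat_lit 430)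 (nat_lit 5) (nat_lit 431) (nat_lit 5) (nat_lit 291) (nat_lit 278) (nat_lit 211)) (XT.lf (nat_lit 0) (nat_lit 6119462307) (nat_lit 1444) (nat_lit 2988761718) (nat_lit 1520) (nat_lit 158219152) (nat_lit 412) (nat_lit 5) (nat_lit 431) (nat_lit 5) (nat_lit 432) (nat_lit 5) (nat_lit 292) (nat_lit 278) (nat_lit 210))) (XT.nd (nat_lit 78) (nat_lit 1444) (nat_lit 0) (XT.lf (nat_lit 76) (nat_lit 3849104225) (nat_lit 0) (nat_lit 4329545607) (nat_lit 1520) (nat_lit 1214716562) (nat_lit 413) (nat_lit 5) (nat_lit 412) (nat_lit 5) (nat_lit 432) (nat_lit 5) (nat_lit 293) (nat_lit 278) (nat_lit 209)) (XT.lf (nat_lit 0) (nat_lit 750270247) (nat_lit 1520) (nat_lit 8144477998) (nat_lit 76) (nat_lit 629601964) (nat_lit 393) (nat_lit 5) (nat_lit 413) (nat_lit 5) (nat_lit 394) (nat_lit 5) (nat_lit 294) (nat_lit 278) (nat_lit 208)))))) (XT.nd (nat_lit 468) (nat_lit 3952) (nat_lit 0) (XT.nd (nat_lit 234) (nat_lit 2736)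 (nat_lit 0) (XT.nd (nat_lit 78) (nat_lit 3116) (nat_lit 0) (XT.lf (nat_lit 0) (nat_lit 2777214638) (nat_lit 1520) (nat_lit 1146870146) (nat_lit 76) (nat_lit 5734678541) (nat_lit 393) (nat_lit 5) (nat_lit 413) (nat_lit 5) (nat_lit 394) (nat_lit 5) (nat_lit 295) (nat_lit 278) (nat_lit 207)) (XT.nd (nat_lit 78) (nat_lit 1596) (nat_lit 0) (XT.lf (nat_lit 0) (nat_lit 4866698153) (nat_lit 1596) (nat_lit 3702283007) (nat_lit 76) (nat_lit 1228242185) (nat_lit 373) (nat_lit 5) (nat_lit 394) (nat_lit 5) (nat_lit 374) (nat_lit 5) (nat_lit 296) (nat_lit 278) (nat_lit 206)) (XT.lf (nat_lit 0) (nat_lit 3613200330) (nat_lit 1596) (nat_lit 3418365652) (nat_lit 1672) (nat_lit 2908064881) (nat_lit 352) (nat_lit 5) (nat_lit 373) (nat_lit 5) (nat_lit 374) (nat_lit 5) (nat_lit 297) (nat_lit 278) (nat_lit 205)))) (XT.nd (nat_lit 78) (nat_lit 1064) (nat_lit 0) (XT.lf (nat_lit 0) (nat_lit 1076454186) (nat_lit 1672) (nat_lit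 8185699588) (nat_lit 1748) (nat_lit 824187659) (nat_lit 330) (nat_lit 5) (nat_lit 352) (nat_lit 5) (nat_lit 353) (nat_lit 5) (nat_lit 298) (nat_lit 278) (nat_lit 204)) (XT.nd (nat_lit 78) (nat_lit 988) (nat_lit 0) (XT.lf (nat_lit 0) (nat_lit 1327861459) (nat_lit 1748) (nat_lit 1518561085) (nat_lit 76) (nat_lit 7390443225) (nat_lit 329) (nat_lit 5) (nat_lit 352) (nat_lit 5) (nat_lit 330) (nat_lit 5) (nat_lit 299) (nat_lit 278) (nat_lit 203)) (XT.lf (nat_lit 0) (nat_lit 3549626288) (nat_lit 1064) (nat_lit 4172780670) (nat_lit 76) (nat_lit 2669105677) (nat_lit 316) (nat_lit 5) (nat_lit 330) (nat_lit 5) (nat_lit 317) (nat_lit 5) (nat_lit 300) (nat_lit 278) (nat_lit 202))))) (XT.nd (nat_lit 234) (nat_lit 2280) (nat_lit 0) (XT.nd (nat_lit 78) (nat_lit 836) (nat_lit 0) (XT.lf (nat_lit 0) (nat_lit 3649672740) (nat_lit 836) (nat_lit 2200703394) (nat_lit 912) (nat_lit 4700217675) (nat_lit 305) (nat_lit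 5) (nat_lit 316) (nat_lit 5) (nat_lit 317) (nat_lit 5) (nat_lit 301) (nat_lit 278) (nat_lit 201)) (XT.nd (nat_lit 78) (nat_lit 0) (nat_lit 0) (XT.lf (nat_lit 0) (nat_lit 1002685343) (nat_lit 836) (nat_lit 7235283985) (nat_lit 912) (nat_lit 2476162007) (nat_lit 294) (nat_lit 5) (nat_lit 305) (nat_lit 5) (nat_lit 306) (nat_lit 5) (nat_lit 302) (nat_lit 278) (nat_lit 200)) (XT.lf (nat_lit 0) (nat_lit 9185883750) (nat_lit 836) (nat_lit 1533817701) (nat_lit 912) (nat_lit 162462475) (nat_lit 294) (nat_lit 5) (nat_lit 305) (nat_lit 5) (nat_lit 306) (nat_lit 5) (nat_lit 303) (nat_lit 278) (nat_lit 199)))) (XT.nd (nat_lit 156) (nat_lit 684) (nat_lit 0) (XT.nd (nat_lit 78) (nat_lit 760) (nat_lit 0) (XT.lf (nat_lit 0) (nat_lit 2224873484) (nat_lit 836) (nat_lit 4488560723) (nat_lit 76) (nat_lit 4340885208) (nat_lit 283) (nat_lit 5) (nat_lit 294) (nat_lit 5) (nat_lit 284) (nat_lit 5) (nat_lit 304) (nat_lit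 278) (nat_lit 198)) (XT.lf (nat_lit 0) (nat_lit 3870082868) (nat_lit 760) (nat_lit 821362103) (nat_lit 836) (nat_lit 6540012855) (nat_lit 273) (nat_lit 5) (nat_lit 283) (nat_lit 5) (nat_lit 284) (nat_lit 5) (nat_lit 305) (nat_lit 278) (nat_lit 197))) (XT.nd (nat_lit 78) (nat_lit 0) (nat_lit 0) (XT.lf (nat_lit 0) (nat_lit 1070503681) (nat_lit 684) (nat_lit 6196851176) (nat_lit 760) (nat_lit 4145883841) (nat_lit 264) (nat_lit 5) (nat_lit 273) (nat_lit 5) (nat_lit 274) (nat_lit 5) (nat_lit 306) (nat_lit 278) (nat_lit 196)) (XT.lf (nat_lit 0) (nat_lit 9814246514) (nat_lit 684) (nat_lit 126160194) (nat_lit 760) (nat_lit 1659703104) (nat_lit 264) (nat_lit 5) (nat_lit 273) (nat_lit 5) (nat_lit 274) (nat_lit 5) (nat_lit 307) (nat_lit 278) (nat_lit 195))))))))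
noncomputable def xc83 : XT := (XT.nd (nat_lit 2028) (nat_lit 5092) (nat_lit 0) (XT.nd (nat_lit 1014) (nat_lit 4332) (nat_lit 0) (XT.nd (nat_lit 468) (nat_lit 2964) (nat_lit 0) (XT.nd (nat_lit 234) (nat_lit 1368) (nat_lit 0) (XT.nd (nat_lit 78) (nat_lit 1368) (nat_lit 0) (XT.lf (nat_lit 0) (nat_lit 940619112) (nat_lit 836) (nat_lit 4753412417) (nat_lit 76) (nat_lit 6097443520) (nat_lit 253) (nat_lit 5) (nat_lit 264) (nat_lit 5) (nat_lit 254) (nat_lit 5) (nat_lit 308) (nat_lit 278) (nat_lit 194)) (XT.nd (nat_lit 78) (nat_lit 684) (nat_lit 0) (XT.lf (nat_lit 0) (nat_lit 3606380970) (nat_lit 760) (nat_lit 7822322559) (nat_lit 76) (nat_lit 559490247) (nat_lit 244) (nat_lit 5) (nat_lit 254) (nat_lit 5) (nat_lit 245) (nat_lit 5) (nat_lit 309) (nat_lit 278) (nat_lit 193)) (XT.lf (nat_lit 0) (nat_lit 1168717326) (nat_lit 684) (nat_lit 5228306542) (nat_lit 760) (nat_lit 5792922636) (nat_lit 235) (nat_lit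 5) (nat_lit 244) (nat_lit 5) (nat_lit 245) (nat_lit 5) (nat_lit 310) (nat_lit 278) (nat_lit 192)))) (XT.nd (nat_lit 78) (nat_lit 1368) (nat_lit 0) (XT.lf (nat_lit 0) (nat_lit 9299798349) (nat_lit 760) (nat_lit 1904024505) (nat_lit 76) (nat_lit 1193390427) (nat_lit 235) (nat_lit 5) (nat_lit 245) (nat_lit 5) (nat_lit 236) (nat_lit 5) (nat_lit 311) (nat_lit 278) (nat_lit 191)) (XT.nd (nat_lit 78) (nat_lit 760) (nat_lit 0) (XT.lf (nat_lit 0) (nat_lit 7515322143) (nat_lit 608) (nat_lit 4826573505) (nat_lit 684) (nat_lit 267786468) (nat_lit 227) (nat_lit 5) (nat_lit 235) (nat_lit 5) (nat_lit 236) (nat_lit 5) (nat_lit 312) (nat_lit 278) (nat_lit 190)) (XT.lf (nat_lit 0) (nat_lit 2634329128) (nat_lit 760) (nat_lit 8418763221) (nat_lit 76) (nat_lit 1774670227) (nat_lit 217) (nat_lit 5) (nat_lit 227) (nat_lit 5) (nat_lit 218) (nat_lit 5) (nat_lit 313) (nat_lit 278) (nat_lit 189))))) (XT.nd (nat_lit 234)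 (nat_lit 1748) (nat_lit 0) (XT.nd (nat_lit 78) (nat_lit 608) (nat_lit 0) (XT.lf (nat_lit 0) (nat_lit 1161542708) (nat_lit 608) (nat_lit 4502517171) (nat_lit 684) (nat_lit 7387433029) (nat_lit 209) (nat_lit 5) (nat_lit 217) (nat_lit 5) (nat_lit 218) (nat_lit 5) (nat_lit 314) (nat_lit 278) (nat_lit 188)) (XT.nd (nat_lit 78) (nat_lit 608) (nat_lit 0) (XT.lf (nat_lit 0) (nat_lit 8826915163) (nat_lit 684) (nat_lit 2186165960) (nat_lit 76) (nat_lit 2268035257) (nat_lit 209) (nat_lit 5) (nat_lit 218) (nat_lit 5) (nat_lit 210) (nat_lit 5) (nat_lit 315) (nat_lit 278) (nat_lit 187)) (XT.lf (nat_lit 0) (nat_lit 7847645859) (nat_lit 608) (nat_lit 4289173023) (nat_lit 684) (nat_lit 1379791545) (nat_lit 201) (nat_lit 5) (nat_lit 209) (nat_lit 5) (nat_lit 210) (nat_lit 5) (nat_lit 316) (nat_lit 278) (nat_lit 186)))) (XT.nd (nat_lit 156) (nat_lit 532) (nat_lit 0) (XT.nd (nat_lit 78) (nat_lit 608) (nat_lit 0)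 (XT.lf (nat_lit 0) (nat_lit 1796293557) (nat_lit 608) (nat_lit 9309450073) (nat_lit 76) (nat_lit 2652559995) (nat_lit 193) (nat_lit 5) (nat_lit 201) (nat_lit 5) (nat_lit 194) (nat_lit 5) (nat_lit 317) (nat_lit 278) (nat_lit 185)) (XT.lf (nat_lit 0) (nat_lit 880963412) (nat_lit 608) (nat_lit 4213224896) (nat_lit 684) (nat_lit 8911994663) (nat_lit 185) (nat_lit 5) (nat_lit 193) (nat_lit 5) (nat_lit 194) (nat_lit 5) (nat_lit 318) (nat_lit 278) (nat_lit 184))) (XT.nd (nat_lit 78) (nat_lit 532) (nat_lit 0) (XT.lf (nat_lit 0) (nat_lit 8545912396) (nat_lit 684) (nat_lit 2808607332) (nat_lit 76) (nat_lit 2905903663) (nat_lit 185) (nat_lit 5) (nat_lit 194) (nat_lit 5) (nat_lit 186) (nat_lit 5) (nat_lit 319) (nat_lit 278) (nat_lit 183)) (XT.lf (nat_lit 0) (nat_lit 7859658111) (nat_lit 532) (nat_lit 4294185106) (nat_lit 608) (nat_lit 2367416596) (nat_lit 178) (nat_lit 5) (nat_lit 185) (nat_lit 5) (nat_lit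 186) (nat_lit 5) (nat_lit 320) (nat_lit 278) (nat_lit 182)))))) (XT.nd (nat_lit 468) (nat_lit 2204) (nat_lit 0) (XT.nd (nat_lit 234) (nat_lit 1064) (nat_lit 0) (XT.nd (nat_lit 78) (nat_lit 456) (nat_lit 0) (XT.lf (nat_lit 0) (nat_lit 1105238501) (nat_lit 608) (nat_lit 10697985402) (nat_lit 76) (nat_lit 2985791734) (nat_lit 170) (nat_lit 5) (nat_lit 178) (nat_lit 5) (nat_lit 171) (nat_lit 5) (nat_lit 321) (nat_lit 278) (nat_lit 181)) (XT.nd (nat_lit 78) (nat_lit 0) (nat_lit 0) (XT.lf (nat_lit 0) (nat_lit 117670151) (nat_lit 456) (nat_lit 4581676571) (nat_lit 532) (nat_lit 10364175922) (nat_lit 164) (nat_lit 5) (nat_lit 170) (nat_lit 5) (nat_lit 171) (nat_lit 5) (nat_lit 322) (nat_lit 278) (nat_lit 180)) (XT.lf (nat_lit 0) (nat_lit 8467625384) (nat_lit 532) (nat_lit 3992109706) (nat_lit 76) (nat_lit 2885222465) (nat_lit 164) (nat_lit 5) (nat_lit 171) (nat_lit 5) (nat_lit 165) (nat_lit 5) (nat_lit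 323) (nat_lit 278) (nat_lit 179)))) (XT.nd (nat_lit 78) (nat_lit 532) (nat_lit 0) (XT.lf (nat_lit 0) (nat_lit 7324109965) (nat_lit 532) (nat_lit 5078596068) (nat_lit 608) (nat_lit 3231073472) (nat_lit 157) (nat_lit 5) (nat_lit 164) (nat_lit 5) (nat_lit 165) (nat_lit 5) (nat_lit 324) (nat_lit 278) (nat_lit 178)) (XT.nd (nat_lit 78) (nat_lit 0) (nat_lit 0) (XT.lf (nat_lit 0) (nat_lit 557684546) (nat_lit 532) (nat_lit 12837872757) (nat_lit 76) (nat_lit 2534859013) (nat_lit 150) (nat_lit 5) (nat_lit 157) (nat_lit 5) (nat_lit 151) (nat_lit 5) (nat_lit 325) (nat_lit 278) (nat_lit 177)) (XT.lf (nat_lit 0) (nat_lit 4483451573) (nat_lit 532) (nat_lit 1371515013) (nat_lit 76) (nat_lit 10379231239) (nat_lit 150) (nat_lit 5) (nat_lit 157) (nat_lit 5) (nat_lit 151) (nat_lit 5) (nat_lit 326) (nat_lit 278) (nat_lit 176))))) (XT.nd (nat_lit 234) (nat_lit 760) (nat_lit 0) (XT.nd (nat_lit 78) (nat_lit 988) (nat_lit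 0) (XT.lf (nat_lit 0) (nat_lit 8585324128) (nat_lit 532) (nat_lit 6012262391) (nat_lit 76) (nat_lit 1948356716) (nat_lit 144) (nat_lit 5) (nat_lit 151) (nat_lit 5) (nat_lit 145) (nat_lit 5) (nat_lit 327) (nat_lit 278) (nat_lit 175)) (XT.nd (nat_lit 78) (nat_lit 532) (nat_lit 0) (XT.lf (nat_lit 0) (nat_lit 5956529939) (nat_lit 456) (nat_lit 6918371083) (nat_lit 532) (nat_lit 3990863629) (nat_lit 138) (nat_lit 5) (nat_lit 144) (nat_lit 5) (nat_lit 145) (nat_lit 5) (nat_lit 328) (nat_lit 278) (nat_lit 174)) (XT.lf (nat_lit 0) (nat_lit 129693276) (nat_lit 532) (nat_lit 16044935153) (nat_lit 76) (nat_lit 1019895488) (nat_lit 131) (nat_lit 5) (nat_lit 138) (nat_lit 5) (nat_lit 132) (nat_lit 5) (nat_lit 329) (nat_lit 278) (nat_lit 173)))) (XT.nd (nat_lit 156) (nat_lit 380) (nat_lit 0) (XT.nd (nat_lit 78) (nat_lit 380) (nat_lit 0) (XT.lf (nat_lit 0) (nat_lit 4418804794) (nat_lit 532) (nat_lit 3915663380)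 (nat_lit 76) (nat_lit 9196182379) (nat_lit 131) (nat_lit 5) (nat_lit 138) (nat_lit 5) (nat_lit 132) (nat_lit 5) (nat_lit 330) (nat_lit 278) (nat_lit 172)) (XT.lf (nat_lit 0) (nat_lit 8661908717) (nat_lit 380) (nat_lit 209724483) (nat_lit 456) (nat_lit 9004541818) (nat_lit 126) (nat_lit 5) (nat_lit 131) (nat_lit 5) (nat_lit 132) (nat_lit 5) (nat_lit 331) (nat_lit 278) (nat_lit 171))) (XT.nd (nat_lit 78) (nat_lit 0) (nat_lit 0) (XT.lf (nat_lit 0) (nat_lit 3401246717) (nat_lit 380) (nat_lit 10137748549) (nat_lit 456) (nat_lit 4691465441) (nat_lit 121) (nat_lit 5) (nat_lit 126) (nat_lit 5) (nat_lit 127) (nat_lit 5) (nat_lit 332) (nat_lit 278) (nat_lit 170)) (XT.lf (nat_lit 0) (nat_lit 16491317083) (nat_lit 380) (nat_lit 1898497769) (nat_lit 456) (nat_lit 204705426) (nat_lit 121) (nat_lit 5) (nat_lit 126) (nat_lit 5) (nat_lit 127) (nat_lit 5) (nat_lit 333) (nat_lit 278) (nat_lit 169))))))) (XT.nd (nat_lit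 1014) (nat_lit 1900) (nat_lit 0) (XT.nd (nat_lit 468) (nat_lit 1596) (nat_lit 0) (XT.nd (nat_lit 234) (nat_lit 760) (nat_lit 0) (XT.nd (nat_lit 78) (nat_lit 380) (nat_lit 0) (XT.lf (nat_lit 0) (nat_lit 4454198961) (nat_lit 456) (nat_lit 7917942337) (nat_lit 76) (nat_lit 6594890854) (nat_lit 115) (nat_lit 5) (nat_lit 121) (nat_lit 5) (nat_lit 116) (nat_lit 5) (nat_lit 334) (nat_lit 278) (nat_lit 168)) (XT.nd (nat_lit 78) (nat_lit 0) (nat_lit 0) (XT.lf (nat_lit 0) (nat_lit 5301725309) (nat_lit 380) (nat_lit 3990248093) (nat_lit 456) (nat_lit 10057894215) (nat_lit 110) (nat_lit 5) (nat_lit 115) (nat_lit 5) (nat_lit 116) (nat_lit 5) (nat_lit 335) (nat_lit 278) (nat_lit 167)) (XT.lf (nat_lit 0) (nat_lit 14339778776) (nat_lit 456) (nat_lit 775095334) (nat_lit 76) (nat_lit 4628028684) (nat_lit 110) (nat_lit 5) (nat_lit 116) (nat_lit 5) (nat_lit 111) (nat_lit 5) (nat_lit 336) (nat_lit 278) (nat_lit 166))))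 (XT.nd (nat_lit 78) (nat_lit 456) (nat_lit 0) (XT.lf (nat_lit 0) (nat_lit 13013094677) (nat_lit 304) (nat_lit 6618400548) (nat_lit 380) (nat_lit 514396497) (nat_lit 106) (nat_lit 5) (nat_lit 110) (nat_lit 5) (nat_lit 111) (nat_lit 5) (nat_lit 337) (nat_lit 278) (nat_lit 165)) (XT.nd (nat_lit 78) (nat_lit 0) (nat_lit 0) (XT.lf (nat_lit 0) (nat_lit 4506315861) (nat_lit 456) (nat_lit 13877842229) (nat_lit 76) (nat_lit 2175344472) (nat_lit 100) (nat_lit 5) (nat_lit 106) (nat_lit 5) (nat_lit 101) (nat_lit 5) (nat_lit 338) (nat_lit 278) (nat_lit 164)) (XT.lf (nat_lit 0) (nat_lit 9745468775) (nat_lit 456) (nat_lit 51123776) (nat_lit 76) (nat_lit 11187376324) (nat_lit 100) (nat_lit 5) (nat_lit 106) (nat_lit 5) (nat_lit 101) (nat_lit 5) (nat_lit 339) (nat_lit 278) (nat_lit 163))))) (XT.nd (nat_lit 234) (nat_lit 912) (nat_lit 0) (XT.nd (nat_lit 78) (nat_lit 380) (nat_lit 0) (XT.lf (nat_lit 0) (nat_lit 14352678119)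 (nat_lit 304) (nat_lit 864687420) (nat_lit 380) (nat_lit 6202303228) (nat_lit 96) (nat_lit 5) (nat_lit 100) (nat_lit 5) (nat_lit 101) (nat_lit 5) (nat_lit 340) (nat_lit 278) (nat_lit 162)) (XT.nd (nat_lit 78) (nat_lit 76) (nat_lit 0) (XT.lf (nat_lit 0) (nat_lit 7337131791) (nat_lit 304) (nat_lit 13601067003) (nat_lit 380) (nat_lit 928555929) (nat_lit 92) (nat_lit 5) (nat_lit 96) (nat_lit 5) (nat_lit 97) (nat_lit 5) (nat_lit 341) (nat_lit 278) (nat_lit 161)) (XT.lf (nat_lit 0) (nat_lit 4481221401) (nat_lit 380) (nat_lit 117177954) (nat_lit 76) (nat_lit 17727541652) (nat_lit 91) (nat_lit 5) (nat_lit 96) (nat_lit 5) (nat_lit 92) (nat_lit 5) (nat_lit 342) (nat_lit 278) (nat_lit 160)))) (XT.nd (nat_lit 156) (nat_lit 304) (nat_lit 0) (XT.nd (nat_lit 78) (nat_lit 304) (nat_lit 0) (XT.lf (nat_lit 0) (nat_lit 10151803683) (nat_lit 380) (nat_lit 7936332155) (nat_lit 76) (nat_lit 4708431593) (nat_lit 87)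 (nat_lit 5) (nat_lit 92) (nat_lit 5) (nat_lit 88) (nat_lit 5) (nat_lit 343) (nat_lit 278) (nat_lit 159)) (XT.lf (nat_lit 0) (nat_lit 7044120001) (nat_lit 304) (nat_lit 9009331634) (nat_lit 380) (nat_lit 7226651609) (nat_lit 83) (nat_lit 5) (nat_lit 87) (nat_lit 5) (nat_lit 88) (nat_lit 5) (nat_lit 344) (nat_lit 278) (nat_lit 158))) (XT.nd (nat_lit 78) (nat_lit 304) (nat_lit 0) (XT.lf (nat_lit 0) (nat_lit 22172429213) (nat_lit 380) (nat_lit 1221685093) (nat_lit 76) (nat_lit 383234506) (nat_lit 83) (nat_lit 5) (nat_lit 88) (nat_lit 5) (nat_lit 84) (nat_lit 5) (nat_lit 345) (nat_lit 278) (nat_lit 157)) (XT.lf (nat_lit 0) (nat_lit 4269268328) (nat_lit 304) (nat_lit 9967837103) (nat_lit 76) (nat_lit 10049097713) (nat_lit 79) (nat_lit 5) (nat_lit 83) (nat_lit 5) (nat_lit 80) (nat_lit 5) (nat_lit 346) (nat_lit 278) (nat_lit 156)))))) (XT.nd (nat_lit 468) (nat_lit 760) (nat_lit 0) (XT.nd (nat_lit 234)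 (nat_lit 608) (nat_lit 0) (XT.nd (nat_lit 78) (nat_lit 228) (nat_lit 0) (XT.lf (nat_lit 0) (nat_lit 5569677253) (nat_lit 304) (nat_lit 4757405096) (nat_lit 380) (nat_lit 14482453065) (nat_lit 75) (nat_lit 5) (nat_lit 79) (nat_lit 5) (nat_lit 80) (nat_lit 5) (nat_lit 347) (nat_lit 278) (nat_lit 155)) (XT.nd (nat_lit 78) (nat_lit 228) (nat_lit 0) (XT.lf (nat_lit 0) (nat_lit 16651958908) (nat_lit 380) (nat_lit 3694050101) (nat_lit 76) (nat_lit 5000860407) (nat_lit 75) (nat_lit 5) (nat_lit 80) (nat_lit 5) (nat_lit 76) (nat_lit 5) (nat_lit 348) (nat_lit 278) (nat_lit 154)) (XT.lf (nat_lit 0) (nat_lit 12426341831) (nat_lit 228) (nat_lit 10838005598) (nat_lit 304) (nat_lit 2634028783) (nat_lit 72) (nat_lit 5) (nat_lit 75) (nat_lit 5) (nat_lit 76) (nat_lit 5) (nat_lit 349) (nat_lit 278) (nat_lit 153)))) (XT.nd (nat_lit 78) (nat_lit 228) (nat_lit 0) (XT.lf (nat_lit 0) (nat_lit 2602744500) (nat_lit 304)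 (nat_lit 986152720) (nat_lit 380) (nat_lit 22876519164) (nat_lit 67) (nat_lit 5) (nat_lit 71) (nat_lit 5) (nat_lit 72) (nat_lit 5) (nat_lit 350) (nat_lit 278) (nat_lit 152)) (XT.nd (nat_lit 78) (nat_lit 228) (nat_lit 0) (XT.lf (nat_lit 0) (nat_lit 10099980370) (nat_lit 380) (nat_lit 7803816780) (nat_lit 76) (nat_lit 9142584754) (nat_lit 67) (nat_lit 5) (nat_lit 72) (nat_lit 5) (nat_lit 68) (nat_lit 5) (nat_lit 351) (nat_lit 278) (nat_lit 151)) (XT.lf (nat_lit 0) (nat_lit 8823947989) (nat_lit 228) (nat_lit 8032426230) (nat_lit 304) (nat_lit 10787409862) (nat_lit 64) (nat_lit 5) (nat_lit 67) (nat_lit 5) (nat_lit 68) (nat_lit 5) (nat_lit 352) (nat_lit 278) (nat_lit 150))))) (XT.nd (nat_lit 234) (nat_lit 228) (nat_lit 0) (XT.nd (nat_lit 78) (nat_lit 532) (nat_lit 0) (XT.lf (nat_lit 0) (nat_lit 23868858806) (nat_lit 304) (nat_lit 2236757823) (nat_lit 76) (nat_lit 2152430758) (nat_lit 64) (nat_lit 5)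 (nat_lit 68) (nat_lit 5) (nat_lit 65) (nat_lit 5) (nat_lit 353) (nat_lit 278) (nat_lit 149)) (XT.nd (nat_lit 78) (nat_lit 228) (nat_lit 0) (XT.lf (nat_lit 0) (nat_lit 2310601605) (nat_lit 304) (nat_lit 13938051527) (nat_lit 76) (nat_lit 12639036590) (nat_lit 60) (nat_lit 5) (nat_lit 64) (nat_lit 5) (nat_lit 61) (nat_lit 5) (nat_lit 354) (nat_lit 278) (nat_lit 148)) (XT.lf (nat_lit 0) (nat_lit 3136953717) (nat_lit 228) (nat_lit 6037627209) (nat_lit 304) (nat_lit 20360610114) (nat_lit 57) (nat_lit 5) (nat_lit 60) (nat_lit 5) (nat_lit 61) (nat_lit 5) (nat_lit 355) (nat_lit 278) (nat_lit 147)))) (XT.nd (nat_lit 34632) (nat_lit 0) (nat_lit 29488) (XT.nd (nat_lit 78) (nat_lit 228) (nat_lit 0) (XT.lf (nat_lit 0) (nat_lit 16355699248) (nat_lit 304) (nat_lit 9335875677) (nat_lit 76) (nat_lit 4508324400) (nat_lit 57) (nat_lit 5) (nat_lit 61) (nat_lit 5) (nat_lit 58) (nat_lit 5) (nat_lit 356) (nat_lit 278)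 (nat_lit 146)) (XT.lf (nat_lit 0) (nat_lit 8286335209) (nat_lit 228) (nat_lit 15547529591) (nat_lit 304) (nat_lit 7049057918) (nat_lit 54) (nat_lit 5) (nat_lit 57) (nat_lit 5) (nat_lit 58) (nat_lit 5) (nat_lit 357) (nat_lit 278) (nat_lit 145))) (XT.nd (nat_lit 78) (nat_lit 0) (nat_lit 0) (XT.lf (nat_lit 0) (nat_lit 174901445) (nat_lit 0) (nat_lit 174901445) (nat_lit 1292) (nat_lit 3657239071) (nat_lit 442) (nat_lit 5) (nat_lit 442) (nat_lit 3) (nat_lit 459) (nat_lit 3) (nat_lit 279) (nat_lit 279) (nat_lit 222)) (XT.lf (nat_lit 0) (nat_lit 2427212408) (nat_lit 1292) (nat_lit 2310773151) (nat_lit 1368) (nat_lit 3359946907) (nat_lit 442) (nat_lit 5) (nat_lit 459) (nat_lit 3) (nat_lit 460) (nat_lit 5) (nat_lit 280) (nat_lit 279) (nat_lit 221))))))))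
noncomputable def xc84 : XT := (XT.nd (nat_lit 2028) (nat_lit 11172) (nat_lit 0) (XT.nd (nat_lit 1014) (nat_lit 10336) (nat_lit 0) (XT.nd (nat_lit 468) (nat_lit 1292) (nat_lit 0) (XT.nd (nat_lit 234) (nat_lit 1216) (nat_lit 0) (XT.nd (nat_lit 78) (nat_lit 0) (nat_lit 76) (XT.lf (nat_lit 76) (nat_lit 3208386918) (nat_lit 0) (nat_lit 955493919) (nat_lit 1368) (nat_lit 4021349809) (nat_lit 443) (nat_lit 5) (nat_lit 442) (nat_lit 5) (nat_lit 460) (nat_lit 5) (nat_lit 281) (nat_lit 279) (nat_lit 220)) (XT.nd (nat_lit 78) (nat_lit 0) (nat_lit 0) (XT.lf (nat_lit 76) (nat_lit 602943648) (nat_lit 0) (nat_lit 5324431823) (nat_lit 1368) (nat_lit 2348354332) (nat_lit 444) (nat_lit 5) (nat_lit 443) (nat_lit 5) (nat_lit 461) (nat_lit 5) (nat_lit 282) (nat_lit 279) (nat_lit 219)) (XT.lf (nat_lit 76) (nat_lit 6376666420) (nat_lit 0) (nat_lit 1344776050) (nat_lit 1368) (nat_lit 648022440) (nat_lit 444) (nat_lit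 5) (nat_lit 443) (nat_lit 5) (nat_lit 461) (nat_lit 5) (nat_lit 283) (nat_lit 279) (nat_lit 218)))) (XT.nd (nat_lit 78) (nat_lit 0) (nat_lit 0) (XT.lf (nat_lit 0) (nat_lit 1071156756) (nat_lit 1368) (nat_lit 4618760564) (nat_lit 1444) (nat_lit 2776376078) (nat_lit 426) (nat_lit 5) (nat_lit 444) (nat_lit 5) (nat_lit 445) (nat_lit 5) (nat_lit 284) (nat_lit 279) (nat_lit 217)) (XT.nd (nat_lit 78) (nat_lit 0) (nat_lit 76) (XT.lf (nat_lit 76) (nat_lit 1292306396) (nat_lit 0) (nat_lit 1512486262) (nat_lit 1444) (nat_lit 5761783391) (nat_lit 427) (nat_lit 5) (nat_lit 426) (nat_lit 5) (nat_lit 445) (nat_lit 5) (nat_lit 285) (nat_lit 279) (nat_lit 216)) (XT.lf (nat_lit 0) (nat_lit 4582364042) (nat_lit 1368) (nat_lit 1280247636) (nat_lit 1444) (nat_lit 2807483660) (nat_lit 427) (nat_lit 5) (nat_lit 445) (nat_lit 5) (nat_lit 446) (nat_lit 5) (nat_lit 286) (nat_lit 279) (nat_lit 215))))) (XT.nd (nat_lit 234)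 (nat_lit 0) (nat_lit 76) (XT.nd (nat_lit 78) (nat_lit 1368) (nat_lit 0) (XT.lf (nat_lit 76) (nat_lit 4912362655) (nat_lit 0) (nat_lit 1486894023) (nat_lit 1444) (nat_lit 2377808387) (nat_lit 428) (nat_lit 5) (nat_lit 427) (nat_lit 5) (nat_lit 446) (nat_lit 5) (nat_lit 287) (nat_lit 279) (nat_lit 214)) (XT.nd (nat_lit 78) (nat_lit 1444) (nat_lit 0) (XT.lf (nat_lit 76) (nat_lit 2396722464) (nat_lit 0) (nat_lit 5863353150) (nat_lit 1444) (nat_lit 627442739) (nat_lit 429) (nat_lit 5) (nat_lit 428) (nat_lit 5) (nat_lit 447) (nat_lit 5) (nat_lit 288) (nat_lit 279) (nat_lit 213)) (XT.lf (nat_lit 0) (nat_lit 1142783652) (nat_lit 1444) (nat_lit 156052782) (nat_lit 1520) (nat_lit 7702700685) (nat_lit 409) (nat_lit 5) (nat_lit 428) (nat_lit 5) (nat_lit 429) (nat_lit 5) (nat_lit 289) (nat_lit 279) (nat_lit 212)))) (XT.nd (nat_lit 156) (nat_lit 0) (nat_lit 76) (XT.nd (nat_lit 78) (nat_lit 0) (nat_lit 0) (XT.lf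 (nat_lit 0) (nat_lit 2969803403) (nat_lit 1444) (nat_lit 2728385192) (nat_lit 1520) (nat_lit 3420518772) (nat_lit 410) (nat_lit 5) (nat_lit 429) (nat_lit 5) (nat_lit 430) (nat_lit 5) (nat_lit 290) (nat_lit 279) (nat_lit 211)) (XT.lf (nat_lit 76) (nat_lit 3902368454) (nat_lit 0) (nat_lit 933763474) (nat_lit 1520) (nat_lit 4403627227) (nat_lit 411) (nat_lit 5) (nat_lit 410) (nat_lit 5) (nat_lit 430) (nat_lit 5) (nat_lit 291) (nat_lit 279) (nat_lit 210))) (XT.nd (nat_lit 78) (nat_lit 0) (nat_lit 0) (XT.lf (nat_lit 76) (nat_lit 1360722546) (nat_lit 0) (nat_lit 5401717900) (nat_lit 1520) (nat_lit 2601977000) (nat_lit 412) (nat_lit 5) (nat_lit 411) (nat_lit 5) (nat_lit 431) (nat_lit 5) (nat_lit 292) (nat_lit 279) (nat_lit 209)) (XT.lf (nat_lit 76) (nat_lit 8290582790) (nat_lit 0) (nat_lit 450273391) (nat_lit 1520) (nat_lit 752126105) (nat_lit 412) (nat_lit 5) (nat_lit 411) (nat_lit 5) (nat_lit 431)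 (nat_lit 5) (nat_lit 293) (nat_lit 279) (nat_lit 208)))))) (XT.nd (nat_lit 468) (nat_lit 4256) (nat_lit 0) (XT.nd (nat_lit 234) (nat_lit 3344) (nat_lit 0) (XT.nd (nat_lit 78) (nat_lit 1444) (nat_lit 0) (XT.lf (nat_lit 0) (nat_lit 1159540013) (nat_lit 1520) (nat_lit 3819614964) (nat_lit 1596) (nat_lit 4645721053) (nat_lit 392) (nat_lit 5) (nat_lit 412) (nat_lit 5) (nat_lit 413) (nat_lit 5) (nat_lit 294) (nat_lit 279) (nat_lit 207)) (XT.nd (nat_lit 78) (nat_lit 1520) (nat_lit 0) (XT.lf (nat_lit 0) (nat_lit 3106212857) (nat_lit 1520) (nat_lit 6484138598) (nat_lit 76) (nat_lit 170567323) (nat_lit 393) (nat_lit 5) (nat_lit 413) (nat_lit 5) (nat_lit 394) (nat_lit 5) (nat_lit 295) (nat_lit 279) (nat_lit 206)) (XT.lf (nat_lit 0) (nat_lit 676797879) (nat_lit 1520) (nat_lit 4453597809) (nat_lit 1596) (nat_lit 4770312617) (nat_lit 373) (nat_lit 5) (nat_lit 393) (nat_lit 5) (nat_lit 394) (nat_lit 5) (nat_lit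 296) (nat_lit 279) (nat_lit 205)))) (XT.nd (nat_lit 78) (nat_lit 3344) (nat_lit 0) (XT.lf (nat_lit 0) (nat_lit 7221450570) (nat_lit 1596) (nat_lit 1945032884) (nat_lit 76) (nat_lit 878131438) (nat_lit 373) (nat_lit 5) (nat_lit 394) (nat_lit 5) (nat_lit 374) (nat_lit 5) (nat_lit 297) (nat_lit 279) (nat_lit 204)) (XT.nd (nat_lit 78) (nat_lit 1748) (nat_lit 0) (XT.lf (nat_lit 0) (nat_lit 5559603703) (nat_lit 1596) (nat_lit 3839261727) (nat_lit 1672) (nat_lit 793545636) (nat_lit 352) (nat_lit 5) (nat_lit 373) (nat_lit 5) (nat_lit 374) (nat_lit 5) (nat_lit 298) (nat_lit 279) (nat_lit 203)) (XT.lf (nat_lit 0) (nat_lit 1281920112) (nat_lit 1748) (nat_lit 7389437409) (nat_lit 76) (nat_lit 1673118612) (nat_lit 329) (nat_lit 5) (nat_lit 352) (nat_lit 5) (nat_lit 330) (nat_lit 5) (nat_lit 299) (nat_lit 279) (nat_lit 202))))) (XT.nd (nat_lit 234) (nat_lit 2432) (nat_lit 0) (XT.nd (nat_lit 78) (nat_lit 836)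 (nat_lit 0) (XT.lf (nat_lit 0) (nat_lit 269744831) (nat_lit 988) (nat_lit 3157664757) (nat_lit 1064) (nat_lit 7073259383) (nat_lit 316) (nat_lit 5) (nat_lit 329) (nat_lit 5) (nat_lit 330) (nat_lit 5) (nat_lit 300) (nat_lit 279) (nat_lit 201)) (XT.nd (nat_lit 78) (nat_lit 836) (nat_lit 0) (XT.lf (nat_lit 0) (nat_lit 5664468783) (nat_lit 1064) (nat_lit 2453735112) (nat_lit 76) (nat_lit 2542839933) (nat_lit 316) (nat_lit 5) (nat_lit 330) (nat_lit 5) (nat_lit 317) (nat_lit 5) (nat_lit 301) (nat_lit 279) (nat_lit 200)) (XT.lf (nat_lit 0) (nat_lit 5573471476) (nat_lit 836) (nat_lit 2414053604) (nat_lit 912) (nat_lit 2838366303) (nat_lit 305) (nat_lit 5) (nat_lit 316) (nat_lit 5) (nat_lit 317) (nat_lit 5) (nat_lit 302) (nat_lit 279) (nat_lit 199)))) (XT.nd (nat_lit 156) (nat_lit 760) (nat_lit 0) (XT.nd (nat_lit 78) (nat_lit 836) (nat_lit 0) (XT.lf (nat_lit 0) (nat_lit 2859131987) (nat_lit 836) (nat_lit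 7541408288) (nat_lit 912) (nat_lit 594776764) (nat_lit 294) (nat_lit 5) (nat_lit 305) (nat_lit 5) (nat_lit 306) (nat_lit 5) (nat_lit 303) (nat_lit 279) (nat_lit 198)) (XT.lf (nat_lit 0) (nat_lit 54542742) (nat_lit 760) (nat_lit 1654476612) (nat_lit 836) (nat_lit 9460311332) (nat_lit 283) (nat_lit 5) (nat_lit 293) (nat_lit 5) (nat_lit 294) (nat_lit 5) (nat_lit 304) (nat_lit 279) (nat_lit 197))) (XT.nd (nat_lit 78) (nat_lit 760) (nat_lit 0) (XT.lf (nat_lit 0) (nat_lit 4121956650) (nat_lit 836) (nat_lit 2813722029) (nat_lit 76) (nat_lit 4411880410) (nat_lit 283) (nat_lit 5) (nat_lit 294) (nat_lit 5) (nat_lit 284) (nat_lit 5) (nat_lit 305) (nat_lit 279) (nat_lit 196)) (XT.lf (nat_lit 0) (nat_lit 5766323955) (nat_lit 760) (nat_lit 854448382) (nat_lit 836) (nat_lit 4910126311) (nat_lit 273) (nat_lit 5) (nat_lit 283) (nat_lit 5) (nat_lit 284) (nat_lit 5) (nat_lit 306) (nat_lit 279) (nat_lit 195)))))))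 (XT.nd (nat_lit 1014) (nat_lit 4484) (nat_lit 0) (XT.nd (nat_lit 468) (nat_lit 3800) (nat_lit 0) (XT.nd (nat_lit 234) (nat_lit 1368) (nat_lit 0) (XT.nd (nat_lit 78) (nat_lit 836) (nat_lit 0) (XT.lf (nat_lit 0) (nat_lit 2890825175) (nat_lit 684) (nat_lit 6342596650) (nat_lit 760) (nat_lit 2485572299) (nat_lit 264) (nat_lit 5) (nat_lit 273) (nat_lit 5) (nat_lit 274) (nat_lit 5) (nat_lit 307) (nat_lit 279) (nat_lit 194)) (XT.nd (nat_lit 78) (nat_lit 760) (nat_lit 0) (XT.lf (nat_lit 0) (nat_lit 22908215) (nat_lit 760) (nat_lit 67892708) (nat_lit 76) (nat_lit 11821734669) (nat_lit 263) (nat_lit 5) (nat_lit 273) (nat_lit 5) (nat_lit 264) (nat_lit 5) (nat_lit 308) (nat_lit 279) (nat_lit 193)) (XT.lf (nat_lit 0) (nat_lit 2640651603) (nat_lit 836) (nat_lit 3129539529) (nat_lit 76) (nat_lit 6340038632) (nat_lit 253) (nat_lit 5) (nat_lit 264) (nat_lit 5) (nat_lit 254) (nat_lit 5) (nat_lit 309) (nat_lit 279)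 (nat_lit 192)))) (XT.nd (nat_lit 78) (nat_lit 684) (nat_lit 0) (XT.lf (nat_lit 0) (nat_lit 5349647188) (nat_lit 760) (nat_lit 6285651279) (nat_lit 76) (nat_lit 678331608) (nat_lit 244) (nat_lit 5) (nat_lit 254) (nat_lit 5) (nat_lit 245) (nat_lit 5) (nat_lit 310) (nat_lit 279) (nat_lit 191)) (XT.nd (nat_lit 78) (nat_lit 0) (nat_lit 0) (XT.lf (nat_lit 0) (nat_lit 2946381901) (nat_lit 684) (nat_lit 5241318071) (nat_lit 760) (nat_lit 4334505526) (nat_lit 235) (nat_lit 5) (nat_lit 244) (nat_lit 5) (nat_lit 245) (nat_lit 5) (nat_lit 311) (nat_lit 279) (nat_lit 190)) (XT.lf (nat_lit 0) (nat_lit 11131898393) (nat_lit 760) (nat_lit 237738864) (nat_lit 76) (nat_lit 1367008849) (nat_lit 235) (nat_lit 5) (nat_lit 245) (nat_lit 5) (nat_lit 236) (nat_lit 5) (nat_lit 312) (nat_lit 279) (nat_lit 189))))) (XT.nd (nat_lit 234) (nat_lit 1824) (nat_lit 0) (XT.nd (nat_lit 78) (nat_lit 1292) (nat_lit 0) (XT.lf (nat_lit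 0) (nat_lit 1258096065) (nat_lit 684) (nat_lit 3528263958) (nat_lit 76) (nat_lit 8169689410) (nat_lit 226) (nat_lit 5) (nat_lit 235) (nat_lit 5) (nat_lit 227) (nat_lit 5) (nat_lit 313) (nat_lit 279) (nat_lit 188)) (XT.nd (nat_lit 78) (nat_lit 608) (nat_lit 0) (XT.lf (nat_lit 0) (nat_lit 4211304179) (nat_lit 760) (nat_lit 6952051498) (nat_lit 76) (nat_lit 2017967291) (nat_lit 217) (nat_lit 5) (nat_lit 227) (nat_lit 5) (nat_lit 218) (nat_lit 5) (nat_lit 314) (nat_lit 279) (nat_lit 187)) (XT.lf (nat_lit 0) (nat_lit 2887770421) (nat_lit 608) (nat_lit 4411508530) (nat_lit 684) (nat_lit 6113177476) (nat_lit 209) (nat_lit 5) (nat_lit 217) (nat_lit 5) (nat_lit 218) (nat_lit 5) (nat_lit 315) (nat_lit 279) (nat_lit 186)))) (XT.nd (nat_lit 156) (nat_lit 1140) (nat_lit 0) (XT.nd (nat_lit 78) (nat_lit 684) (nat_lit 0) (XT.lf (nat_lit 0) (nat_lit 10515766467) (nat_lit 684) (nat_lit 581367626) (nat_lit 76) (nat_lit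 2552696724) (nat_lit 209) (nat_lit 5) (nat_lit 218) (nat_lit 5) (nat_lit 210) (nat_lit 5) (nat_lit 316) (nat_lit 279) (nat_lit 185)) (XT.lf (nat_lit 0) (nat_lit 1103014) (nat_lit 684) (nat_lit 4166690599) (nat_lit 76) (nat_lit 9725248146) (nat_lit 200) (nat_lit 5) (nat_lit 209) (nat_lit 5) (nat_lit 201) (nat_lit 5) (nat_lit 317) (nat_lit 279) (nat_lit 184))) (XT.nd (nat_lit 78) (nat_lit 608) (nat_lit 0) (XT.lf (nat_lit 0) (nat_lit 3225277359) (nat_lit 608) (nat_lit 7925693934) (nat_lit 76) (nat_lit 2991435325) (nat_lit 193) (nat_lit 5) (nat_lit 201) (nat_lit 5) (nat_lit 194) (nat_lit 5) (nat_lit 318) (nat_lit 279) (nat_lit 183)) (XT.lf (nat_lit 0) (nat_lit 2543451114) (nat_lit 608) (nat_lit 4049228907) (nat_lit 684) (nat_lit 7805664229) (nat_lit 185) (nat_lit 5) (nat_lit 193) (nat_lit 5) (nat_lit 194) (nat_lit 5) (nat_lit 319) (nat_lit 279) (nat_lit 182)))))) (XT.nd (nat_lit 468) (nat_lit 2356)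 (nat_lit 0) (XT.nd (nat_lit 234) (nat_lit 988) (nat_lit 0) (XT.nd (nat_lit 78) (nat_lit 1140) (nat_lit 0) (XT.lf (nat_lit 0) (nat_lit 10110592182) (nat_lit 684) (nat_lit 1279081487) (nat_lit 76) (nat_lit 3271317843) (nat_lit 185) (nat_lit 5) (nat_lit 194) (nat_lit 5) (nat_lit 186) (nat_lit 5) (nat_lit 320) (nat_lit 279) (nat_lit 181)) (XT.nd (nat_lit 78) (nat_lit 608) (nat_lit 0) (XT.lf (nat_lit 0) (nat_lit 9683050190) (nat_lit 532) (nat_lit 4115912608) (nat_lit 608) (nat_lit 1131277603) (nat_lit 178) (nat_lit 5) (nat_lit 185) (nat_lit 5) (nat_lit 186) (nat_lit 5) (nat_lit 321) (nat_lit 279) (nat_lit 180)) (XT.lf (nat_lit 0) (nat_lit 2403155052) (nat_lit 608) (nat_lit 9415011726) (nat_lit 76) (nat_lit 3388227452) (nat_lit 170) (nat_lit 5) (nat_lit 178) (nat_lit 5) (nat_lit 171) (nat_lit 5) (nat_lit 322) (nat_lit 279) (nat_lit 179)))) (XT.nd (nat_lit 78) (nat_lit 532) (nat_lit 0) (XT.lf (nat_lit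 0) (nat_lit 1699091906) (nat_lit 456) (nat_lit 4379401681) (nat_lit 532) (nat_lit 9411203750) (nat_lit 164) (nat_lit 5) (nat_lit 170) (nat_lit 5) (nat_lit 171) (nat_lit 5) (nat_lit 323) (nat_lit 279) (nat_lit 178)) (XT.nd (nat_lit 78) (nat_lit 532) (nat_lit 0) (XT.lf (nat_lit 0) (nat_lit 9925898984) (nat_lit 532) (nat_lit 2557099292) (nat_lit 76) (nat_lit 3297283635) (nat_lit 164) (nat_lit 5) (nat_lit 171) (nat_lit 5) (nat_lit 165) (nat_lit 5) (nat_lit 324) (nat_lit 279) (nat_lit 177)) (XT.lf (nat_lit 0) (nat_lit 9073382614) (nat_lit 532) (nat_lit 4880505197) (nat_lit 608) (nat_lit 2124410959) (nat_lit 157) (nat_lit 5) (nat_lit 164) (nat_lit 5) (nat_lit 165) (nat_lit 5) (nat_lit 325) (nat_lit 279) (nat_lit 176))))) (XT.nd (nat_lit 234) (nat_lit 1368) (nat_lit 0) (XT.nd (nat_lit 78) (nat_lit 456) (nat_lit 0) (XT.lf (nat_lit 0) (nat_lit 1739829045) (nat_lit 532) (nat_lit 11680060490) (nat_lit 76)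 (nat_lit 2964262812) (nat_lit 150) (nat_lit 5) (nat_lit 157) (nat_lit 5) (nat_lit 151) (nat_lit 5) (nat_lit 326) (nat_lit 279) (nat_lit 175)) (XT.nd (nat_lit 78) (nat_lit 0) (nat_lit 0) (XT.lf (nat_lit 0) (nat_lit 86481966) (nat_lit 456) (nat_lit 5663504518) (nat_lit 532) (nat_lit 10947753755) (nat_lit 144) (nat_lit 5) (nat_lit 150) (nat_lit 5) (nat_lit 151) (nat_lit 5) (nat_lit 327) (nat_lit 279) (nat_lit 174)) (XT.lf (nat_lit 0) (nat_lit 9953340415) (nat_lit 532) (nat_lit 4698319326) (nat_lit 76) (nat_lit 2367634317) (nat_lit 144) (nat_lit 5) (nat_lit 151) (nat_lit 5) (nat_lit 145) (nat_lit 5) (nat_lit 328) (nat_lit 279) (nat_lit 173)))) (XT.nd (nat_lit 156) (nat_lit 380) (nat_lit 0) (XT.nd (nat_lit 78) (nat_lit 532) (nat_lit 0) (XT.lf (nat_lit 0) (nat_lit 7605293354) (nat_lit 456) (nat_lit 6743512520) (nat_lit 532) (nat_lit 3000384052) (nat_lit 138) (nat_lit 5) (nat_lit 144) (nat_lit 5) (nat_lit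 145) (nat_lit 5) (nat_lit 329) (nat_lit 279) (nat_lit 172)) (XT.lf (nat_lit 0) (nat_lit 1209324528) (nat_lit 532) (nat_lit 15045274243) (nat_lit 76) (nat_lit 1433489811) (nat_lit 131) (nat_lit 5) (nat_lit 138) (nat_lit 5) (nat_lit 132) (nat_lit 5) (nat_lit 330) (nat_lit 279) (nat_lit 171))) (XT.nd (nat_lit 78) (nat_lit 380) (nat_lit 0) (XT.lf (nat_lit 0) (nat_lit 5595777145) (nat_lit 532) (nat_lit 2595260501) (nat_lit 76) (nat_lit 9843910044) (nat_lit 131) (nat_lit 5) (nat_lit 138) (nat_lit 5) (nat_lit 132) (nat_lit 5) (nat_lit 331) (nat_lit 279) (nat_lit 170)) (XT.lf (nat_lit 0) (nat_lit 10162093441) (nat_lit 456) (nat_lit 8056111530) (nat_lit 76) (nat_lit 173056242) (nat_lit 126) (nat_lit 5) (nat_lit 132) (nat_lit 5) (nat_lit 127) (nat_lit 5) (nat_lit 332) (nat_lit 279) (nat_lit 169))))))))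
noncomputable def xc85 : XT := (XT.nd (nat_lit 36582) (nat_lit 0) (nat_lit 17176) (XT.nd (nat_lit 1014) (nat_lit 1976) (nat_lit 0) (XT.nd (nat_lit 468) (nat_lit 1672) (nat_lit 0) (XT.nd (nat_lit 234) (nat_lit 760) (nat_lit 0) (XT.nd (nat_lit 78) (nat_lit 456) (nat_lit 0) (XT.lf (nat_lit 0) (nat_lit 4913212712) (nat_lit 380) (nat_lit 10036945210) (nat_lit 456) (nat_lit 3806424682) (nat_lit 121) (nat_lit 5) (nat_lit 126) (nat_lit 5) (nat_lit 127) (nat_lit 5) (nat_lit 333) (nat_lit 279) (nat_lit 168)) (XT.nd (nat_lit 78) (nat_lit 380) (nat_lit 0) (XT.lf (nat_lit 0) (nat_lit 774764692) (nat_lit 456) (nat_lit 782347382) (nat_lit 76) (nat_lit 17574955536) (nat_lit 120) (nat_lit 5) (nat_lit 126) (nat_lit 5) (nat_lit 121) (nat_lit 5) (nat_lit 334) (nat_lit 279) (nat_lit 167)) (XT.lf (nat_lit 0) (nat_lit 5553453598) (nat_lit 456) (nat_lit 6778006107) (nat_lit 76) (nat_lit 7184631288) (nat_lit 115) (nat_lit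 5) (nat_lit 121) (nat_lit 5) (nat_lit 116) (nat_lit 5) (nat_lit 335) (nat_lit 279) (nat_lit 166)))) (XT.nd (nat_lit 78) (nat_lit 380) (nat_lit 0) (XT.lf (nat_lit 0) (nat_lit 6815903680) (nat_lit 380) (nat_lit 3701130866) (nat_lit 456) (nat_lit 9393782139) (nat_lit 110) (nat_lit 5) (nat_lit 115) (nat_lit 5) (nat_lit 116) (nat_lit 5) (nat_lit 336) (nat_lit 279) (nat_lit 165)) (XT.nd (nat_lit 78) (nat_lit 76) (nat_lit 0) (XT.lf (nat_lit 0) (nat_lit 540802009) (nat_lit 304) (nat_lit 15153998174) (nat_lit 380) (nat_lit 4621290297) (nat_lit 106) (nat_lit 5) (nat_lit 110) (nat_lit 5) (nat_lit 111) (nat_lit 5) (nat_lit 337) (nat_lit 279) (nat_lit 164)) (XT.lf (nat_lit 0) (nat_lit 386668692) (nat_lit 380) (nat_lit 6020233300) (nat_lit 76) (nat_lit 14324670512) (nat_lit 105) (nat_lit 5) (nat_lit 110) (nat_lit 5) (nat_lit 106) (nat_lit 5) (nat_lit 338) (nat_lit 279) (nat_lit 163))))) (XT.nd (nat_lit 234)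 (nat_lit 988) (nat_lit 0) (XT.nd (nat_lit 78) (nat_lit 304) (nat_lit 0) (XT.lf (nat_lit 0) (nat_lit 5535675913) (nat_lit 456) (nat_lit 12976811305) (nat_lit 76) (nat_lit 2645359919) (nat_lit 100) (nat_lit 5) (nat_lit 106) (nat_lit 5) (nat_lit 101) (nat_lit 5) (nat_lit 339) (nat_lit 279) (nat_lit 162)) (XT.nd (nat_lit 78) (nat_lit 0) (nat_lit 0) (XT.lf (nat_lit 0) (nat_lit 1242636209) (nat_lit 304) (nat_lit 9671391420) (nat_lit 380) (nat_lit 10681395552) (nat_lit 96) (nat_lit 5) (nat_lit 100) (nat_lit 5) (nat_lit 101) (nat_lit 5) (nat_lit 340) (nat_lit 279) (nat_lit 161)) (XT.lf (nat_lit 0) (nat_lit 16041504569) (nat_lit 304) (nat_lit 483392832) (nat_lit 380) (nat_lit 5519816101) (nat_lit 96) (nat_lit 5) (nat_lit 100) (nat_lit 5) (nat_lit 101) (nat_lit 5) (nat_lit 341) (nat_lit 279) (nat_lit 160)))) (XT.nd (nat_lit 156) (nat_lit 304) (nat_lit 0) (XT.nd (nat_lit 78) (nat_lit 380) (nat_lit 0) (XT.lf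 (nat_lit 0) (nat_lit 8809737835) (nat_lit 304) (nat_lit 13593530133) (nat_lit 380) (nat_lit 102241116) (nat_lit 92) (nat_lit 5) (nat_lit 96) (nat_lit 5) (nat_lit 97) (nat_lit 5) (nat_lit 342) (nat_lit 279) (nat_lit 159)) (XT.lf (nat_lit 0) (nat_lit 1121387225) (nat_lit 304) (nat_lit 4319967994) (nat_lit 380) (nat_lit 17537364813) (nat_lit 87) (nat_lit 5) (nat_lit 91) (nat_lit 5) (nat_lit 92) (nat_lit 5) (nat_lit 343) (nat_lit 279) (nat_lit 158))) (XT.nd (nat_lit 78) (nat_lit 304) (nat_lit 0) (XT.lf (nat_lit 0) (nat_lit 11261406246) (nat_lit 380) (nat_lit 6953071770) (nat_lit 76) (nat_lit 5249414340) (nat_lit 87) (nat_lit 5) (nat_lit 92) (nat_lit 5) (nat_lit 88) (nat_lit 5) (nat_lit 344) (nat_lit 279) (nat_lit 157)) (XT.lf (nat_lit 0) (nat_lit 8456978992) (nat_lit 304) (nat_lit 8867477796) (nat_lit 380) (nat_lit 6637804115) (nat_lit 83) (nat_lit 5) (nat_lit 87) (nat_lit 5) (nat_lit 88) (nat_lit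 5) (nat_lit 345) (nat_lit 279) (nat_lit 156)))))) (XT.nd (nat_lit 468) (nat_lit 760) (nat_lit 0) (XT.nd (nat_lit 234) (nat_lit 608) (nat_lit 0) (XT.nd (nat_lit 78) (nat_lit 608) (nat_lit 0) (XT.lf (nat_lit 0) (nat_lit 23606609323) (nat_lit 380) (nat_lit 78622069) (nat_lit 76) (nat_lit 789613656) (nat_lit 83) (nat_lit 5) (nat_lit 88) (nat_lit 5) (nat_lit 84) (nat_lit 5) (nat_lit 346) (nat_lit 279) (nat_lit 155)) (XT.nd (nat_lit 78) (nat_lit 304) (nat_lit 0) (XT.lf (nat_lit 0) (nat_lit 5156910387) (nat_lit 304) (nat_lit 9095781189) (nat_lit 76) (nat_lit 10746483687) (nat_lit 79) (nat_lit 5) (nat_lit 83) (nat_lit 5) (nat_lit 80) (nat_lit 5) (nat_lit 347) (nat_lit 279) (nat_lit 154)) (XT.lf (nat_lit 0) (nat_lit 6888859036) (nat_lit 304) (nat_lit 4492956710) (nat_lit 380) (nat_lit 14156696928) (nat_lit 75) (nat_lit 5) (nat_lit 79) (nat_lit 5) (nat_lit 80) (nat_lit 5) (nat_lit 348) (nat_lit 279) (nat_lit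 153)))) (XT.nd (nat_lit 78) (nat_lit 608) (nat_lit 0) (XT.lf (nat_lit 0) (nat_lit 17877308499) (nat_lit 380) (nat_lit 2674039908) (nat_lit 76) (nat_lit 5541012845) (nat_lit 75) (nat_lit 5) (nat_lit 80) (nat_lit 5) (nat_lit 76) (nat_lit 5) (nat_lit 349) (nat_lit 279) (nat_lit 152)) (XT.nd (nat_lit 78) (nat_lit 380) (nat_lit 0) (XT.lf (nat_lit 0) (nat_lit 13911617381) (nat_lit 228) (nat_lit 10762534748) (nat_lit 304) (nat_lit 1986551058) (nat_lit 72) (nat_lit 5) (nat_lit 75) (nat_lit 5) (nat_lit 76) (nat_lit 5) (nat_lit 350) (nat_lit 279) (nat_lit 151)) (XT.lf (nat_lit 0) (nat_lit 3785010043) (nat_lit 304) (nat_lit 614810979) (nat_lit 380) (nat_lit 22845124520) (nat_lit 67) (nat_lit 5) (nat_lit 71) (nat_lit 5) (nat_lit 72) (nat_lit 5) (nat_lit 351) (nat_lit 279) (nat_lit 150))))) (XT.nd (nat_lit 234) (nat_lit 532) (nat_lit 0) (XT.nd (nat_lit 78) (nat_lit 228) (nat_lit 0) (XT.lf (nat_lit 0) (nat_lit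 11088280718) (nat_lit 380) (nat_lit 6954423068) (nat_lit 76) (nat_lit 9801006085) (nat_lit 67) (nat_lit 5) (nat_lit 72) (nat_lit 5) (nat_lit 68) (nat_lit 5) (nat_lit 352) (nat_lit 279) (nat_lit 149)) (XT.nd (nat_lit 78) (nat_lit 0) (nat_lit 0) (XT.lf (nat_lit 0) (nat_lit 10154596010) (nat_lit 228) (nat_lit 7879730872) (nat_lit 304) (nat_lit 10424978433) (nat_lit 64) (nat_lit 5) (nat_lit 67) (nat_lit 5) (nat_lit 68) (nat_lit 5) (nat_lit 353) (nat_lit 279) (nat_lit 148)) (XT.lf (nat_lit 0) (nat_lit 25240087086) (nat_lit 304) (nat_lit 1258068408) (nat_lit 76) (nat_lit 2594193114) (nat_lit 64) (nat_lit 5) (nat_lit 68) (nat_lit 5) (nat_lit 65) (nat_lit 5) (nat_lit 354) (nat_lit 279) (nat_lit 147)))) (XT.nd (nat_lit 156) (nat_lit 0) (nat_lit 0) (XT.nd (nat_lit 78) (nat_lit 228) (nat_lit 0) (XT.lf (nat_lit 0) (nat_lit 3027259118) (nat_lit 304) (nat_lit 13318444135) (nat_lit 76) (nat_lit 13395349650)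 (nat_lit 60) (nat_lit 5) (nat_lit 64) (nat_lit 5) (nat_lit 61) (nat_lit 5) (nat_lit 355) (nat_lit 279) (nat_lit 146)) (XT.lf (nat_lit 0) (nat_lit 4251975024) (nat_lit 228) (nat_lit 5832956689) (nat_lit 304) (nat_lit 20323301410) (nat_lit 57) (nat_lit 5) (nat_lit 60) (nat_lit 5) (nat_lit 61) (nat_lit 5) (nat_lit 356) (nat_lit 279) (nat_lit 145))) (XT.nd (nat_lit 34632) (nat_lit 0) (nat_lit 29260) (XT.lf (nat_lit 0) (nat_lit 17465417045) (nat_lit 304) (nat_lit 8614571872) (nat_lit 76) (nat_lit 5013224139) (nat_lit 57) (nat_lit 5) (nat_lit 61) (nat_lit 5) (nat_lit 58) (nat_lit 5) (nat_lit 357) (nat_lit 279) (nat_lit 144)) (XT.lf (nat_lit 0) (nat_lit 1019505576) (nat_lit 0) (nat_lit 1019505576) (nat_lit 1292) (nat_lit 2052666741) (nat_lit 442) (nat_lit 5) (nat_lit 442) (nat_lit 3) (nat_lit 459) (nat_lit 3) (nat_lit 280) (nat_lit 280) (nat_lit 220))))))) (XT.nd (nat_lit 1014) (nat_lit 9500) (nat_lit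 0) (XT.nd (nat_lit 468) (nat_lit 1292) (nat_lit 0) (XT.nd (nat_lit 234) (nat_lit 0) (nat_lit 0) (XT.nd (nat_lit 78) (nat_lit 1292) (nat_lit 0) (XT.lf (nat_lit 0) (nat_lit 5749086084) (nat_lit 1292) (nat_lit 670616582) (nat_lit 1368) (nat_lit 1852301105) (nat_lit 442) (nat_lit 5) (nat_lit 459) (nat_lit 3) (nat_lit 460) (nat_lit 5) (nat_lit 281) (nat_lit 280) (nat_lit 219)) (XT.nd (nat_lit 78) (nat_lit 1292) (nat_lit 0) (XT.lf (nat_lit 76) (nat_lit 4986384011) (nat_lit 0) (nat_lit 2467756824) (nat_lit 1368) (nat_lit 909567504) (nat_lit 443) (nat_lit 5) (nat_lit 442) (nat_lit 5) (nat_lit 460) (nat_lit 5) (nat_lit 282) (nat_lit 280) (nat_lit 218)) (XT.lf (nat_lit 0) (nat_lit 711925974) (nat_lit 1368) (nat_lit 6112562070) (nat_lit 1444) (nat_lit 1634256920) (nat_lit 425) (nat_lit 5) (nat_lit 443) (nat_lit 5) (nat_lit 444) (nat_lit 5) (nat_lit 283) (nat_lit 280) (nat_lit 217)))) (XT.nd (nat_lit 78)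 (nat_lit 0) (nat_lit 76) (XT.lf (nat_lit 0) (nat_lit 2350036293) (nat_lit 1368) (nat_lit 325236032) (nat_lit 1444) (nat_lit 5881702212) (nat_lit 425) (nat_lit 5) (nat_lit 443) (nat_lit 5) (nat_lit 444) (nat_lit 5) (nat_lit 284) (nat_lit 280) (nat_lit 216)) (XT.nd (nat_lit 78) (nat_lit 0) (nat_lit 0) (XT.lf (nat_lit 0) (nat_lit 4027377245) (nat_lit 1368) (nat_lit 2992205712) (nat_lit 1444) (nat_lit 1638832979) (nat_lit 426) (nat_lit 5) (nat_lit 444) (nat_lit 5) (nat_lit 445) (nat_lit 5) (nat_lit 285) (nat_lit 280) (nat_lit 215)) (XT.lf (nat_lit 76) (nat_lit 3067556320) (nat_lit 0) (nat_lit 2671572742) (nat_lit 1444) (nat_lit 3024154448) (nat_lit 427) (nat_lit 5) (nat_lit 426) (nat_lit 5) (nat_lit 445) (nat_lit 5) (nat_lit 286) (nat_lit 280) (nat_lit 214))))) (XT.nd (nat_lit 234) (nat_lit 0) (nat_lit 76) (XT.nd (nat_lit 78) (nat_lit 1444) (nat_lit 0) (XT.lf (nat_lit 76) (nat_lit 438554430) (nat_lit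 0) (nat_lit 7044284879) (nat_lit 1444) (nat_lit 1388908542) (nat_lit 428) (nat_lit 5) (nat_lit 427) (nat_lit 5) (nat_lit 446) (nat_lit 5) (nat_lit 287) (nat_lit 280) (nat_lit 213)) (XT.nd (nat_lit 78) (nat_lit 0) (nat_lit 76) (XT.lf (nat_lit 0) (nat_lit 294807065) (nat_lit 1444) (nat_lit 2202624186) (nat_lit 1520) (nat_lit 6485990612) (nat_lit 408) (nat_lit 5) (nat_lit 427) (nat_lit 5) (nat_lit 428) (nat_lit 5) (nat_lit 288) (nat_lit 280) (nat_lit 212)) (XT.lf (nat_lit 0) (nat_lit 2000396533) (nat_lit 1444) (nat_lit 4886052054) (nat_lit 1520) (nat_lit 2212067340) (nat_lit 409) (nat_lit 5) (nat_lit 428) (nat_lit 5) (nat_lit 429) (nat_lit 5) (nat_lit 289) (nat_lit 280) (nat_lit 211)))) (XT.nd (nat_lit 156) (nat_lit 0) (nat_lit 76) (XT.nd (nat_lit 78) (nat_lit 0) (nat_lit 76) (XT.lf (nat_lit 76) (nat_lit 1603275133) (nat_lit 0) (nat_lit 2145547826) (nat_lit 1520) (nat_lit 5468462864) (nat_lit 410)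 (nat_lit 5) (nat_lit 409) (nat_lit 5) (nat_lit 429) (nat_lit 5) (nat_lit 290) (nat_lit 280) (nat_lit 210)) (XT.lf (nat_lit 0) (nat_lit 5551689582) (nat_lit 1444) (nat_lit 1037710966) (nat_lit 1520) (nat_lit 2750233272) (nat_lit 410) (nat_lit 5) (nat_lit 429) (nat_lit 5) (nat_lit 430) (nat_lit 5) (nat_lit 291) (nat_lit 280) (nat_lit 209))) (XT.nd (nat_lit 78) (nat_lit 0) (nat_lit 76) (XT.lf (nat_lit 76) (nat_lit 5763208164) (nat_lit 0) (nat_lit 1649515907) (nat_lit 1520) (nat_lit 2052899708) (nat_lit 411) (nat_lit 5) (nat_lit 410) (nat_lit 5) (nat_lit 430) (nat_lit 5) (nat_lit 292) (nat_lit 280) (nat_lit 208)) (XT.lf (nat_lit 76) (nat_lit 3171910534) (nat_lit 0) (nat_lit 6161249871) (nat_lit 1520) (nat_lit 262213224) (nat_lit 412) (nat_lit 5) (nat_lit 411) (nat_lit 5) (nat_lit 431) (nat_lit 5) (nat_lit 293) (nat_lit 280) (nat_lit 207)))))) (XT.nd (nat_lit 468) (nat_lit 5168) (nat_lit 0) (XT.nd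 (nat_lit 234) (nat_lit 3040) (nat_lit 0) (XT.nd (nat_lit 78) (nat_lit 0) (nat_lit 76) (XT.lf (nat_lit 76) (nat_lit 525532854) (nat_lit 0) (nat_lit 1029964028) (nat_lit 1596) (nat_lit 8173481690) (nat_lit 392) (nat_lit 5) (nat_lit 391) (nat_lit 5) (nat_lit 412) (nat_lit 5) (nat_lit 294) (nat_lit 280) (nat_lit 206)) (XT.nd (nat_lit 78) (nat_lit 0) (nat_lit 0) (XT.lf (nat_lit 0) (nat_lit 3451173146) (nat_lit 1520) (nat_lit 2159435082) (nat_lit 1596) (nat_lit 4255456517) (nat_lit 392) (nat_lit 5) (nat_lit 412) (nat_lit 5) (nat_lit 413) (nat_lit 5) (nat_lit 295) (nat_lit 280) (nat_lit 205)) (XT.lf (nat_lit 76) (nat_lit 5122237344) (nat_lit 0) (nat_lit 278455634) (nat_lit 1596) (nat_lit 4606677366) (nat_lit 393) (nat_lit 5) (nat_lit 392) (nat_lit 5) (nat_lit 413) (nat_lit 5) (nat_lit 296) (nat_lit 280) (nat_lit 204)))) (XT.nd (nat_lit 78) (nat_lit 1672) (nat_lit 0) (XT.lf (nat_lit 0) (nat_lit 2463312270)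 (nat_lit 1520) (nat_lit 4967885822) (nat_lit 1596) (nat_lit 2721311979) (nat_lit 373) (nat_lit 5) (nat_lit 393) (nat_lit 5) (nat_lit 394) (nat_lit 5) (nat_lit 297) (nat_lit 280) (nat_lit 203)) (XT.nd (nat_lit 78) (nat_lit 1672) (nat_lit 0) (XT.lf (nat_lit 0) (nat_lit 9520054189) (nat_lit 1596) (nat_lit 242314389) (nat_lit 76) (nat_lit 539730342) (nat_lit 373) (nat_lit 5) (nat_lit 394) (nat_lit 5) (nat_lit 374) (nat_lit 5) (nat_lit 298) (nat_lit 280) (nat_lit 202)) (XT.lf (nat_lit 0) (nat_lit 1241519938) (nat_lit 1672) (nat_lit 3004659181) (nat_lit 76) (nat_lit 6209038844) (nat_lit 351) (nat_lit 5) (nat_lit 373) (nat_lit 5) (nat_lit 352) (nat_lit 5) (nat_lit 299) (nat_lit 280) (nat_lit 201))))) (XT.nd (nat_lit 234) (nat_lit 2508) (nat_lit 0) (XT.nd (nat_lit 78) (nat_lit 988) (nat_lit 0) (XT.lf (nat_lit 0) (nat_lit 3318398029) (nat_lit 1748) (nat_lit 5834105970) (nat_lit 76) (nat_lit 1460298899)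 (nat_lit 329) (nat_lit 5) (nat_lit 352) (nat_lit 5) (nat_lit 330) (nat_lit 5) (nat_lit 300) (nat_lit 280) (nat_lit 200)) (XT.nd (nat_lit 78) (nat_lit 0) (nat_lit 0) (XT.lf (nat_lit 0) (nat_lit 2026021786) (nat_lit 988) (nat_lit 3455386011) (nat_lit 1064) (nat_lit 5293270237) (nat_lit 316) (nat_lit 5) (nat_lit 329) (nat_lit 5) (nat_lit 330) (nat_lit 5) (nat_lit 301) (nat_lit 280) (nat_lit 199)) (XT.lf (nat_lit 0) (nat_lit 7727468834) (nat_lit 1064) (nat_lit 788984475) (nat_lit 76) (nat_lit 2424630914) (nat_lit 316) (nat_lit 5) (nat_lit 330) (nat_lit 5) (nat_lit 317) (nat_lit 5) (nat_lit 302) (nat_lit 280) (nat_lit 198)))) (XT.nd (nat_lit 156) (nat_lit 760) (nat_lit 0) (XT.nd (nat_lit 78) (nat_lit 912) (nat_lit 0) (XT.lf (nat_lit 0) (nat_lit 7450835441) (nat_lit 836) (nat_lit 2625347026) (nat_lit 912) (nat_lit 1035631626) (nat_lit 305) (nat_lit 5) (nat_lit 316) (nat_lit 5) (nat_lit 317) (nat_lit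 5) (nat_lit 303) (nat_lit 280) (nat_lit 197)) (XT.lf (nat_lit 0) (nat_lit 1214644585) (nat_lit 912) (nat_lit 6628808089) (nat_lit 76) (nat_lit 3443635657) (nat_lit 293) (nat_lit 5) (nat_lit 305) (nat_lit 5) (nat_lit 294) (nat_lit 5) (nat_lit 304) (nat_lit 280) (nat_lit 196))) (XT.nd (nat_lit 78) (nat_lit 0) (nat_lit 0) (XT.lf (nat_lit 0) (nat_lit 1775313134) (nat_lit 760) (nat_lit 1762381307) (nat_lit 836) (nat_lit 7929436843) (nat_lit 283) (nat_lit 5) (nat_lit 293) (nat_lit 5) (nat_lit 294) (nat_lit 5) (nat_lit 305) (nat_lit 280) (nat_lit 195)) (XT.lf (nat_lit 0) (nat_lit 5970883482) (nat_lit 836) (nat_lit 1192510619) (nat_lit 76) (nat_lit 4488405590) (nat_lit 283) (nat_lit 5) (nat_lit 294) (nat_lit 5) (nat_lit 284) (nat_lit 5) (nat_lit 306) (nat_lit 280) (nat_lit 194))))))))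
noncomputable def xc86 : XT := (XT.nd (nat_lit 2028) (nat_lit 5624) (nat_lit 0) (XT.nd (nat_lit 1014) (nat_lit 4712) (nat_lit 0) (XT.nd (nat_lit 468) (nat_lit 3192) (nat_lit 0) (XT.nd (nat_lit 234) (nat_lit 1368) (nat_lit 0) (XT.nd (nat_lit 78) (nat_lit 1520) (nat_lit 0) (XT.lf (nat_lit 0) (nat_lit 7617265037) (nat_lit 760) (nat_lit 888042448) (nat_lit 836) (nat_lit 3336168030) (nat_lit 273) (nat_lit 5) (nat_lit 283) (nat_lit 5) (nat_lit 284) (nat_lit 5) (nat_lit 307) (nat_lit 280) (nat_lit 193)) (XT.nd (nat_lit 78) (nat_lit 836) (nat_lit 0) (XT.lf (nat_lit 0) (nat_lit 4663105951) (nat_lit 684) (nat_lit 6495019841) (nat_lit 760) (nat_lit 877899806) (nat_lit 264) (nat_lit 5) (nat_lit 273) (nat_lit 5) (nat_lit 274) (nat_lit 5) (nat_lit 308) (nat_lit 280) (nat_lit 192)) (XT.lf (nat_lit 0) (nat_lit 1610584051) (nat_lit 760) (nat_lit 35290513) (nat_lit 836) (nat_lit 10590083497) (nat_lit 253) (nat_lit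 5) (nat_lit 263) (nat_lit 5) (nat_lit 264) (nat_lit 5) (nat_lit 309) (nat_lit 280) (nat_lit 191)))) (XT.nd (nat_lit 78) (nat_lit 1368) (nat_lit 0) (XT.lf (nat_lit 0) (nat_lit 4295716111) (nat_lit 836) (nat_lit 1558353361) (nat_lit 76) (nat_lit 6586486192) (nat_lit 253) (nat_lit 5) (nat_lit 264) (nat_lit 5) (nat_lit 254) (nat_lit 5) (nat_lit 310) (nat_lit 280) (nat_lit 190)) (XT.nd (nat_lit 78) (nat_lit 684) (nat_lit 0) (XT.lf (nat_lit 0) (nat_lit 7051351412) (nat_lit 760) (nat_lit 4804562078) (nat_lit 76) (nat_lit 794879741) (nat_lit 244) (nat_lit 5) (nat_lit 254) (nat_lit 5) (nat_lit 245) (nat_lit 5) (nat_lit 311) (nat_lit 280) (nat_lit 189)) (XT.lf (nat_lit 0) (nat_lit 4677343868) (nat_lit 684) (nat_lit 5262976816) (nat_lit 760) (nat_lit 2926031134) (nat_lit 235) (nat_lit 5) (nat_lit 244) (nat_lit 5) (nat_lit 245) (nat_lit 5) (nat_lit 312) (nat_lit 280) (nat_lit 188))))) (XT.nd (nat_lit 234)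 (nat_lit 1824) (nat_lit 0) (XT.nd (nat_lit 78) (nat_lit 760) (nat_lit 0) (XT.lf (nat_lit 0) (nat_lit 1397938989) (nat_lit 608) (nat_lit 11540944152) (nat_lit 684) (nat_lit 149061938) (nat_lit 227) (nat_lit 5) (nat_lit 235) (nat_lit 5) (nat_lit 236) (nat_lit 5) (nat_lit 313) (nat_lit 280) (nat_lit 187)) (XT.nd (nat_lit 78) (nat_lit 684) (nat_lit 0) (XT.lf (nat_lit 0) (nat_lit 2738292241) (nat_lit 684) (nat_lit 2015546499) (nat_lit 76) (nat_lit 8560767787) (nat_lit 226) (nat_lit 5) (nat_lit 235) (nat_lit 5) (nat_lit 227) (nat_lit 5) (nat_lit 314) (nat_lit 280) (nat_lit 186)) (XT.lf (nat_lit 0) (nat_lit 5749600300) (nat_lit 760) (nat_lit 5540031819) (nat_lit 76) (nat_lit 2257653220) (nat_lit 217) (nat_lit 5) (nat_lit 227) (nat_lit 5) (nat_lit 218) (nat_lit 5) (nat_lit 315) (nat_lit 280) (nat_lit 185)))) (XT.nd (nat_lit 156) (nat_lit 608) (nat_lit 0) (XT.nd (nat_lit 78) (nat_lit 608) (nat_lit 0) (XT.lf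 (nat_lit 0) (nat_lit 4568692753) (nat_lit 608) (nat_lit 4330747786) (nat_lit 684) (nat_lit 4886563804) (nat_lit 209) (nat_lit 5) (nat_lit 217) (nat_lit 5) (nat_lit 218) (nat_lit 5) (nat_lit 316) (nat_lit 280) (nat_lit 184)) (XT.lf (nat_lit 0) (nat_lit 988654199) (nat_lit 608) (nat_lit 11191302167) (nat_lit 684) (nat_lit 1851227937) (nat_lit 201) (nat_lit 5) (nat_lit 209) (nat_lit 5) (nat_lit 210) (nat_lit 5) (nat_lit 317) (nat_lit 280) (nat_lit 183))) (XT.nd (nat_lit 78) (nat_lit 532) (nat_lit 0) (XT.lf (nat_lit 0) (nat_lit 1324210104) (nat_lit 684) (nat_lit 2724045328) (nat_lit 76) (nat_lit 10234005210) (nat_lit 200) (nat_lit 5) (nat_lit 209) (nat_lit 5) (nat_lit 201) (nat_lit 5) (nat_lit 318) (nat_lit 280) (nat_lit 182)) (XT.lf (nat_lit 0) (nat_lit 4618194597) (nat_lit 608) (nat_lit 6595890390) (nat_lit 76) (nat_lit 3325592118) (nat_lit 193) (nat_lit 5) (nat_lit 201) (nat_lit 5) (nat_lit 194)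 (nat_lit 5) (nat_lit 319) (nat_lit 280) (nat_lit 181)))))) (XT.nd (nat_lit 468) (nat_lit 2508) (nat_lit 0) (XT.nd (nat_lit 234) (nat_lit 988) (nat_lit 0) (XT.nd (nat_lit 78) (nat_lit 608) (nat_lit 0) (XT.lf (nat_lit 0) (nat_lit 4161896978) (nat_lit 608) (nat_lit 3896982770) (nat_lit 684) (nat_lit 6744999322) (nat_lit 185) (nat_lit 5) (nat_lit 193) (nat_lit 5) (nat_lit 194) (nat_lit 5) (nat_lit 320) (nat_lit 280) (nat_lit 180)) (XT.nd (nat_lit 78) (nat_lit 76) (nat_lit 0) (XT.lf (nat_lit 0) (nat_lit 206399290) (nat_lit 532) (nat_lit 11442051241) (nat_lit 608) (nat_lit 3426663294) (nat_lit 178) (nat_lit 5) (nat_lit 185) (nat_lit 5) (nat_lit 186) (nat_lit 5) (nat_lit 321) (nat_lit 280) (nat_lit 179)) (XT.lf (nat_lit 0) (nat_lit 66031616) (nat_lit 608) (nat_lit 3883445896) (nat_lit 76) (nat_lit 11403534440) (nat_lit 177) (nat_lit 5) (nat_lit 185) (nat_lit 5) (nat_lit 178) (nat_lit 5) (nat_lit 322)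 (nat_lit 280) (nat_lit 178)))) (XT.nd (nat_lit 78) (nat_lit 456) (nat_lit 0) (XT.lf (nat_lit 0) (nat_lit 3667406737) (nat_lit 608) (nat_lit 8185620022) (nat_lit 76) (nat_lit 3784776685) (nat_lit 170) (nat_lit 5) (nat_lit 178) (nat_lit 5) (nat_lit 171) (nat_lit 5) (nat_lit 323) (nat_lit 280) (nat_lit 177)) (XT.nd (nat_lit 78) (nat_lit 0) (nat_lit 0) (XT.lf (nat_lit 0) (nat_lit 3237378878) (nat_lit 456) (nat_lit 4190560159) (nat_lit 532) (nat_lit 8502195297) (nat_lit 164) (nat_lit 5) (nat_lit 170) (nat_lit 5) (nat_lit 171) (nat_lit 5) (nat_lit 324) (nat_lit 280) (nat_lit 176)) (XT.lf (nat_lit 0) (nat_lit 11358792212) (nat_lit 532) (nat_lit 1168288937) (nat_lit 76) (nat_lit 3703021350) (nat_lit 164) (nat_lit 5) (nat_lit 171) (nat_lit 5) (nat_lit 165) (nat_lit 5) (nat_lit 325) (nat_lit 280) (nat_lit 175))))) (XT.nd (nat_lit 234) (nat_lit 988) (nat_lit 0) (XT.nd (nat_lit 78) (nat_lit 988) (nat_lit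 0) (XT.lf (nat_lit 0) (nat_lit 10787331051) (nat_lit 532) (nat_lit 4696588791) (nat_lit 608) (nat_lit 1053639830) (nat_lit 157) (nat_lit 5) (nat_lit 164) (nat_lit 5) (nat_lit 165) (nat_lit 5) (nat_lit 326) (nat_lit 280) (nat_lit 174)) (XT.nd (nat_lit 78) (nat_lit 456) (nat_lit 0) (XT.lf (nat_lit 0) (nat_lit 2890538349) (nat_lit 532) (nat_lit 10576085407) (nat_lit 76) (nat_lit 3386264529) (nat_lit 150) (nat_lit 5) (nat_lit 157) (nat_lit 5) (nat_lit 151) (nat_lit 5) (nat_lit 327) (nat_lit 280) (nat_lit 173)) (XT.lf (nat_lit 0) (nat_lit 1519857785) (nat_lit 456) (nat_lit 5478436742) (nat_lit 532) (nat_lit 10178067242) (nat_lit 144) (nat_lit 5) (nat_lit 150) (nat_lit 5) (nat_lit 151) (nat_lit 5) (nat_lit 328) (nat_lit 280) (nat_lit 172)))) (XT.nd (nat_lit 156) (nat_lit 532) (nat_lit 0) (XT.nd (nat_lit 78) (nat_lit 456) (nat_lit 0) (XT.lf (nat_lit 0) (nat_lit 11298652441) (nat_lit 532) (nat_lit 3430737529)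 (nat_lit 76) (nat_lit 2778777305) (nat_lit 144) (nat_lit 5) (nat_lit 151) (nat_lit 5) (nat_lit 145) (nat_lit 5) (nat_lit 329) (nat_lit 280) (nat_lit 171)) (XT.lf (nat_lit 0) (nat_lit 9219131783) (nat_lit 456) (nat_lit 6585360081) (nat_lit 532) (nat_lit 2043920424) (nat_lit 138) (nat_lit 5) (nat_lit 144) (nat_lit 5) (nat_lit 145) (nat_lit 5) (nat_lit 330) (nat_lit 280) (nat_lit 170))) (XT.nd (nat_lit 78) (nat_lit 0) (nat_lit 0) (XT.lf (nat_lit 0) (nat_lit 2259592815) (nat_lit 532) (nat_lit 14100639479) (nat_lit 76) (nat_lit 1837506344) (nat_lit 131) (nat_lit 5) (nat_lit 138) (nat_lit 5) (nat_lit 132) (nat_lit 5) (nat_lit 331) (nat_lit 280) (nat_lit 169)) (XT.lf (nat_lit 0) (nat_lit 6748105364) (nat_lit 532) (nat_lit 1317785314) (nat_lit 76) (nat_lit 10489724275) (nat_lit 131) (nat_lit 5) (nat_lit 138) (nat_lit 5) (nat_lit 132) (nat_lit 5) (nat_lit 332) (nat_lit 280) (nat_lit 168))))))) (XT.nd (nat_lit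 1014) (nat_lit 2280) (nat_lit 0) (XT.nd (nat_lit 468) (nat_lit 1444) (nat_lit 0) (XT.nd (nat_lit 234) (nat_lit 684) (nat_lit 0) (XT.nd (nat_lit 78) (nat_lit 836) (nat_lit 0) (XT.lf (nat_lit 0) (nat_lit 11433789842) (nat_lit 456) (nat_lit 6946885044) (nat_lit 76) (nat_lit 542315580) (nat_lit 126) (nat_lit 5) (nat_lit 132) (nat_lit 5) (nat_lit 127) (nat_lit 5) (nat_lit 333) (nat_lit 280) (nat_lit 167)) (XT.nd (nat_lit 78) (nat_lit 456) (nat_lit 0) (XT.lf (nat_lit 0) (nat_lit 6389602018) (nat_lit 380) (nat_lit 9956362742) (nat_lit 456) (nat_lit 2953716939) (nat_lit 121) (nat_lit 5) (nat_lit 126) (nat_lit 5) (nat_lit 127) (nat_lit 5) (nat_lit 334) (nat_lit 280) (nat_lit 166)) (XT.lf (nat_lit 0) (nat_lit 504009407) (nat_lit 380) (nat_lit 1223697200) (nat_lit 456) (nat_lit 17959108129) (nat_lit 115) (nat_lit 5) (nat_lit 120) (nat_lit 5) (nat_lit 121) (nat_lit 5) (nat_lit 335) (nat_lit 280) (nat_lit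 165)))) (XT.nd (nat_lit 78) (nat_lit 684) (nat_lit 0) (XT.lf (nat_lit 0) (nat_lit 6630254837) (nat_lit 456) (nat_lit 5682944462) (nat_lit 76) (nat_lit 7769567633) (nat_lit 115) (nat_lit 5) (nat_lit 121) (nat_lit 5) (nat_lit 116) (nat_lit 5) (nat_lit 336) (nat_lit 280) (nat_lit 164)) (XT.nd (nat_lit 78) (nat_lit 304) (nat_lit 0) (XT.lf (nat_lit 0) (nat_lit 8297717591) (nat_lit 380) (nat_lit 3426808330) (nat_lit 456) (nat_lit 8765190378) (nat_lit 110) (nat_lit 5) (nat_lit 115) (nat_lit 5) (nat_lit 116) (nat_lit 5) (nat_lit 337) (nat_lit 280) (nat_lit 163)) (XT.lf (nat_lit 0) (nat_lit 1829304164) (nat_lit 304) (nat_lit 15213029943) (nat_lit 380) (nat_lit 3865137056) (nat_lit 106) (nat_lit 5) (nat_lit 110) (nat_lit 5) (nat_lit 111) (nat_lit 5) (nat_lit 338) (nat_lit 280) (nat_lit 162))))) (XT.nd (nat_lit 234) (nat_lit 684) (nat_lit 0) (XT.nd (nat_lit 78) (nat_lit 684) (nat_lit 0) (XT.lf (nat_lit 0)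 (nat_lit 1255605249) (nat_lit 380) (nat_lit 4953684432) (nat_lit 76) (nat_lit 15126542403) (nat_lit 105) (nat_lit 5) (nat_lit 110) (nat_lit 5) (nat_lit 106) (nat_lit 5) (nat_lit 339) (nat_lit 280) (nat_lit 161)) (XT.nd (nat_lit 78) (nat_lit 304) (nat_lit 0) (XT.lf (nat_lit 0) (nat_lit 6544587718) (nat_lit 456) (nat_lit 12124371662) (nat_lit 76) (nat_lit 3106241230) (nat_lit 100) (nat_lit 5) (nat_lit 106) (nat_lit 5) (nat_lit 101) (nat_lit 5) (nat_lit 340) (nat_lit 280) (nat_lit 160)) (XT.lf (nat_lit 0) (nat_lit 2501513457) (nat_lit 304) (nat_lit 9566159172) (nat_lit 380) (nat_lit 10158578948) (nat_lit 96) (nat_lit 5) (nat_lit 100) (nat_lit 5) (nat_lit 101) (nat_lit 5) (nat_lit 341) (nat_lit 280) (nat_lit 159)))) (XT.nd (nat_lit 156) (nat_lit 304) (nat_lit 0) (XT.nd (nat_lit 78) (nat_lit 380) (nat_lit 0) (XT.lf (nat_lit 0) (nat_lit 17708767339) (nat_lit 304) (nat_lit 114036373) (nat_lit 380) (nat_lit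 4866713040) (nat_lit 96) (nat_lit 5) (nat_lit 100) (nat_lit 5) (nat_lit 101) (nat_lit 5) (nat_lit 342) (nat_lit 280) (nat_lit 158)) (XT.lf (nat_lit 0) (nat_lit 690651803) (nat_lit 380) (nat_lit 12914336070) (nat_lit 76) (nat_lit 9559337449) (nat_lit 91) (nat_lit 5) (nat_lit 96) (nat_lit 5) (nat_lit 92) (nat_lit 5) (nat_lit 343) (nat_lit 280) (nat_lit 157))) (XT.nd (nat_lit 78) (nat_lit 0) (nat_lit 0) (XT.lf (nat_lit 0) (nat_lit 2327320734) (nat_lit 304) (nat_lit 4056322375) (nat_lit 380) (nat_lit 17268400172) (nat_lit 87) (nat_lit 5) (nat_lit 91) (nat_lit 5) (nat_lit 92) (nat_lit 5) (nat_lit 344) (nat_lit 280) (nat_lit 156)) (XT.lf (nat_lit 0) (nat_lit 12358083812) (nat_lit 380) (nat_lit 6010424081) (nat_lit 76) (nat_lit 5783680444) (nat_lit 87) (nat_lit 5) (nat_lit 92) (nat_lit 5) (nat_lit 88) (nat_lit 5) (nat_lit 345) (nat_lit 280) (nat_lit 155)))))) (XT.nd (nat_lit 468) (nat_lit 1140) (nat_lit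 0) (XT.nd (nat_lit 234) (nat_lit 532) (nat_lit 0) (XT.nd (nat_lit 78) (nat_lit 304) (nat_lit 0) (XT.lf (nat_lit 0) (nat_lit 9843250707) (nat_lit 304) (nat_lit 8745026509) (nat_lit 380) (nat_lit 6077538632) (nat_lit 83) (nat_lit 5) (nat_lit 87) (nat_lit 5) (nat_lit 88) (nat_lit 5) (nat_lit 346) (nat_lit 280) (nat_lit 154)) (XT.nd (nat_lit 78) (nat_lit 76) (nat_lit 0) (XT.lf (nat_lit 0) (nat_lit 1044714071) (nat_lit 228) (nat_lit 24001739580) (nat_lit 304) (nat_lit 147585236) (nat_lit 80) (nat_lit 5) (nat_lit 83) (nat_lit 5) (nat_lit 84) (nat_lit 5) (nat_lit 347) (nat_lit 280) (nat_lit 153)) (XT.lf (nat_lit 0) (nat_lit 6027579625) (nat_lit 304) (nat_lit 8264789015) (nat_lit 76) (nat_lit 11442064212) (nat_lit 79) (nat_lit 5) (nat_lit 83) (nat_lit 5) (nat_lit 80) (nat_lit 5) (nat_lit 348) (nat_lit 280) (nat_lit 152)))) (XT.nd (nat_lit 78) (nat_lit 228) (nat_lit 0) (XT.lf (nat_lit 0) (nat_lit 8181481510)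 (nat_lit 304) (nat_lit 4243948127) (nat_lit 380) (nat_lit 13864808403) (nat_lit 75) (nat_lit 5) (nat_lit 79) (nat_lit 5) (nat_lit 80) (nat_lit 5) (nat_lit 349) (nat_lit 280) (nat_lit 151)) (XT.nd (nat_lit 78) (nat_lit 228) (nat_lit 0) (XT.lf (nat_lit 0) (nat_lit 19097755214) (nat_lit 380) (nat_lit 1688343775) (nat_lit 76) (nat_lit 6074974991) (nat_lit 75) (nat_lit 5) (nat_lit 80) (nat_lit 5) (nat_lit 76) (nat_lit 5) (nat_lit 350) (nat_lit 280) (nat_lit 150)) (XT.lf (nat_lit 0) (nat_lit 15377589991) (nat_lit 228) (nat_lit 10707796484) (nat_lit 304) (nat_lit 1361352992) (nat_lit 72) (nat_lit 5) (nat_lit 75) (nat_lit 5) (nat_lit 76) (nat_lit 5) (nat_lit 351) (nat_lit 280) (nat_lit 149))))) (XT.nd (nat_lit 234) (nat_lit 532) (nat_lit 0) (XT.nd (nat_lit 78) (nat_lit 228) (nat_lit 0) (XT.lf (nat_lit 0) (nat_lit 4939358919) (nat_lit 304) (nat_lit 255343796) (nat_lit 380) (nat_lit 22853986392) (nat_lit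 67) (nat_lit 5) (nat_lit 71) (nat_lit 5) (nat_lit 72) (nat_lit 5) (nat_lit 352) (nat_lit 280) (nat_lit 148)) (XT.nd (nat_lit 78) (nat_lit 228) (nat_lit 0) (XT.lf (nat_lit 0) (nat_lit 12066890999) (nat_lit 380) (nat_lit 6141745349) (nat_lit 76) (nat_lit 10457128631) (nat_lit 67) (nat_lit 5) (nat_lit 72) (nat_lit 5) (nat_lit 68) (nat_lit 5) (nat_lit 353) (nat_lit 280) (nat_lit 147)) (XT.lf (nat_lit 0) (nat_lit 11463974753) (nat_lit 228) (nat_lit 7745052816) (nat_lit 304) (nat_lit 10091056351) (nat_lit 64) (nat_lit 5) (nat_lit 67) (nat_lit 5) (nat_lit 68) (nat_lit 5) (nat_lit 354) (nat_lit 280) (nat_lit 146)))) (XT.nd (nat_lit 156) (nat_lit 228) (nat_lit 0) (XT.nd (nat_lit 78) (nat_lit 304) (nat_lit 0) (XT.lf (nat_lit 0) (nat_lit 26614843206) (nat_lit 304) (nat_lit 310051057) (nat_lit 76) (nat_lit 3027556124) (nat_lit 64) (nat_lit 5) (nat_lit 68) (nat_lit 5) (nat_lit 65) (nat_lit 5) (nat_lit 355)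 (nat_lit 280) (nat_lit 145)) (XT.lf (nat_lit 0) (nat_lit 3728256423) (nat_lit 304) (nat_lit 12739819555) (nat_lit 76) (nat_lit 14152702610) (nat_lit 60) (nat_lit 5) (nat_lit 64) (nat_lit 5) (nat_lit 61) (nat_lit 5) (nat_lit 356) (nat_lit 280) (nat_lit 144))) (XT.nd (nat_lit 34710) (nat_lit 0) (nat_lit 29260) (XT.lf (nat_lit 0) (nat_lit 5341842404) (nat_lit 228) (nat_lit 5644292515) (nat_lit 304) (nat_lit 20322078587) (nat_lit 57) (nat_lit 5) (nat_lit 60) (nat_lit 5) (nat_lit 61) (nat_lit 5) (nat_lit 357) (nat_lit 280) (nat_lit 143)) (XT.lf (nat_lit 0) (nat_lit 1841265300) (nat_lit 0) (nat_lit 1841265300) (nat_lit 1292) (nat_lit 498364470) (nat_lit 442) (nat_lit 5) (nat_lit 442) (nat_lit 3) (nat_lit 459) (nat_lit 3) (nat_lit 281) (nat_lit 281) (nat_lit 218))))))))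
noncomputable def xc87 : XT := (XT.nd (nat_lit 2028) (nat_lit 11172) (nat_lit 0) (XT.nd (nat_lit 1014) (nat_lit 8892) (nat_lit 0) (XT.nd (nat_lit 468) (nat_lit 2584) (nat_lit 0) (XT.nd (nat_lit 234) (nat_lit 0) (nat_lit 76) (XT.nd (nat_lit 78) (nat_lit 0) (nat_lit 0) (XT.lf (nat_lit 0) (nat_lit 528017079) (nat_lit 1368) (nat_lit 7525755084) (nat_lit 1444) (nat_lit 401287670) (nat_lit 424) (nat_lit 5) (nat_lit 442) (nat_lit 5) (nat_lit 443) (nat_lit 5) (nat_lit 282) (nat_lit 281) (nat_lit 217)) (XT.nd (nat_lit 78) (nat_lit 0) (nat_lit 76) (XT.lf (nat_lit 0) (nat_lit 2082340764) (nat_lit 1368) (nat_lit 1843908651) (nat_lit 1444) (nat_lit 4624867580) (nat_lit 424) (nat_lit 5) (nat_lit 442) (nat_lit 5) (nat_lit 443) (nat_lit 5) (nat_lit 283) (nat_lit 281) (nat_lit 216)) (XT.lf (nat_lit 0) (nat_lit 3654395898) (nat_lit 1368) (nat_lit 4623110970) (nat_lit 1444) (nat_lit 373193654) (nat_lit 425) (nat_lit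 5) (nat_lit 443) (nat_lit 5) (nat_lit 444) (nat_lit 5) (nat_lit 284) (nat_lit 281) (nat_lit 215)))) (XT.nd (nat_lit 78) (nat_lit 0) (nat_lit 76) (XT.lf (nat_lit 76) (nat_lit 1306243319) (nat_lit 0) (nat_lit 3958806269) (nat_lit 1444) (nat_lit 3488457973) (nat_lit 426) (nat_lit 5) (nat_lit 425) (nat_lit 5) (nat_lit 444) (nat_lit 5) (nat_lit 285) (nat_lit 281) (nat_lit 214)) (XT.nd (nat_lit 78) (nat_lit 0) (nat_lit 0) (XT.lf (nat_lit 0) (nat_lit 6904429863) (nat_lit 1368) (nat_lit 1418179190) (nat_lit 1444) (nat_lit 537244476) (nat_lit 426) (nat_lit 5) (nat_lit 444) (nat_lit 5) (nat_lit 445) (nat_lit 5) (nat_lit 286) (nat_lit 281) (nat_lit 213)) (XT.lf (nat_lit 76) (nat_lit 4796382643) (nat_lit 0) (nat_lit 3801500199) (nat_lit 1444) (nat_lit 371470236) (nat_lit 427) (nat_lit 5) (nat_lit 426) (nat_lit 5) (nat_lit 445) (nat_lit 5) (nat_lit 287) (nat_lit 281) (nat_lit 212))))) (XT.nd (nat_lit 234)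 (nat_lit 1368) (nat_lit 0) (XT.nd (nat_lit 78) (nat_lit 0) (nat_lit 0) (XT.lf (nat_lit 0) (nat_lit 1221029915) (nat_lit 1444) (nat_lit 6966106959) (nat_lit 1520) (nat_lit 895344145) (nat_lit 408) (nat_lit 5) (nat_lit 427) (nat_lit 5) (nat_lit 428) (nat_lit 5) (nat_lit 288) (nat_lit 281) (nat_lit 211)) (XT.nd (nat_lit 78) (nat_lit 0) (nat_lit 76) (XT.lf (nat_lit 0) (nat_lit 2859809972) (nat_lit 1444) (nat_lit 607737846) (nat_lit 1520) (nat_lit 5731391234) (nat_lit 408) (nat_lit 5) (nat_lit 427) (nat_lit 5) (nat_lit 428) (nat_lit 5) (nat_lit 289) (nat_lit 281) (nat_lit 210)) (XT.lf (nat_lit 0) (nat_lit 4547152383) (nat_lit 1444) (nat_lit 3340417832) (nat_lit 1520) (nat_lit 1431387385) (nat_lit 409) (nat_lit 5) (nat_lit 428) (nat_lit 5) (nat_lit 429) (nat_lit 5) (nat_lit 290) (nat_lit 281) (nat_lit 209)))) (XT.nd (nat_lit 156) (nat_lit 1444) (nat_lit 0) (XT.nd (nat_lit 78) (nat_lit 0) (nat_lit 76)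 (XT.lf (nat_lit 76) (nat_lit 3316134980) (nat_lit 0) (nat_lit 2970275922) (nat_lit 1520) (nat_lit 3156193044) (nat_lit 410) (nat_lit 5) (nat_lit 409) (nat_lit 5) (nat_lit 429) (nat_lit 5) (nat_lit 291) (nat_lit 281) (nat_lit 208)) (XT.lf (nat_lit 76) (nat_lit 609932631) (nat_lit 0) (nat_lit 7461963339) (nat_lit 1520) (nat_lit 1498234346) (nat_lit 411) (nat_lit 5) (nat_lit 410) (nat_lit 5) (nat_lit 430) (nat_lit 5) (nat_lit 292) (nat_lit 281) (nat_lit 207))) (XT.nd (nat_lit 78) (nat_lit 0) (nat_lit 76) (XT.lf (nat_lit 0) (nat_lit 222862942) (nat_lit 1520) (nat_lit 2122903380) (nat_lit 1596) (nat_lit 7355415142) (nat_lit 390) (nat_lit 5) (nat_lit 410) (nat_lit 5) (nat_lit 411) (nat_lit 5) (nat_lit 293) (nat_lit 281) (nat_lit 206)) (XT.lf (nat_lit 0) (nat_lit 1982602779) (nat_lit 1520) (nat_lit 4913362892) (nat_lit 1596) (nat_lit 2939900805) (nat_lit 391) (nat_lit 5) (nat_lit 411) (nat_lit 5) (nat_lit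 412) (nat_lit 5) (nat_lit 294) (nat_lit 281) (nat_lit 205)))))) (XT.nd (nat_lit 468) (nat_lit 5928) (nat_lit 0) (XT.nd (nat_lit 234) (nat_lit 3040) (nat_lit 0) (XT.nd (nat_lit 78) (nat_lit 0) (nat_lit 76) (XT.lf (nat_lit 76) (nat_lit 2214751876) (nat_lit 0) (nat_lit 1581906399) (nat_lit 1596) (nat_lit 6177949601) (nat_lit 392) (nat_lit 5) (nat_lit 391) (nat_lit 5) (nat_lit 412) (nat_lit 5) (nat_lit 295) (nat_lit 281) (nat_lit 204)) (XT.nd (nat_lit 78) (nat_lit 0) (nat_lit 0) (XT.lf (nat_lit 0) (nat_lit 5682003027) (nat_lit 1520) (nat_lit 551328766) (nat_lit 1596) (nat_lit 3883887328) (nat_lit 392) (nat_lit 5) (nat_lit 412) (nat_lit 5) (nat_lit 413) (nat_lit 5) (nat_lit 296) (nat_lit 281) (nat_lit 203)) (XT.lf (nat_lit 76) (nat_lit 6921653190) (nat_lit 0) (nat_lit 717080516) (nat_lit 1596) (nat_lit 2625122132) (nat_lit 393) (nat_lit 5) (nat_lit 392) (nat_lit 5) (nat_lit 413) (nat_lit 5) (nat_lit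 297) (nat_lit 281) (nat_lit 202)))) (XT.nd (nat_lit 78) (nat_lit 1672) (nat_lit 0) (XT.lf (nat_lit 0) (nat_lit 4202034387) (nat_lit 1520) (nat_lit 5475749882) (nat_lit 1596) (nat_lit 736677404) (nat_lit 373) (nat_lit 5) (nat_lit 393) (nat_lit 5) (nat_lit 394) (nat_lit 5) (nat_lit 298) (nat_lit 281) (nat_lit 201)) (XT.nd (nat_lit 78) (nat_lit 0) (nat_lit 0) (XT.lf (nat_lit 0) (nat_lit 1191902716) (nat_lit 1672) (nat_lit 9148344331) (nat_lit 76) (nat_lit 229235437) (nat_lit 351) (nat_lit 5) (nat_lit 373) (nat_lit 5) (nat_lit 352) (nat_lit 5) (nat_lit 299) (nat_lit 281) (nat_lit 200)) (XT.lf (nat_lit 0) (nat_lit 3209345446) (nat_lit 1672) (nat_lit 1434109342) (nat_lit 76) (nat_lit 6084820628) (nat_lit 351) (nat_lit 5) (nat_lit 373) (nat_lit 5) (nat_lit 352) (nat_lit 5) (nat_lit 300) (nat_lit 281) (nat_lit 199))))) (XT.nd (nat_lit 234) (nat_lit 2432) (nat_lit 0) (XT.nd (nat_lit 78) (nat_lit 1824)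 (nat_lit 0) (XT.lf (nat_lit 0) (nat_lit 5301275744) (nat_lit 1748) (nat_lit 4334122494) (nat_lit 76) (nat_lit 1256192632) (nat_lit 329) (nat_lit 5) (nat_lit 352) (nat_lit 5) (nat_lit 330) (nat_lit 5) (nat_lit 301) (nat_lit 281) (nat_lit 198)) (XT.nd (nat_lit 78) (nat_lit 836) (nat_lit 0) (XT.lf (nat_lit 0) (nat_lit 3734634102) (nat_lit 988) (nat_lit 3750386370) (nat_lit 1064) (nat_lit 3574241096) (nat_lit 316) (nat_lit 5) (nat_lit 329) (nat_lit 5) (nat_lit 330) (nat_lit 5) (nat_lit 302) (nat_lit 281) (nat_lit 197)) (XT.lf (nat_lit 0) (nat_lit 836895586) (nat_lit 836) (nat_lit 8912227249) (nat_lit 912) (nat_lit 1482578483) (nat_lit 305) (nat_lit 5) (nat_lit 316) (nat_lit 5) (nat_lit 317) (nat_lit 5) (nat_lit 303) (nat_lit 281) (nat_lit 196)))) (XT.nd (nat_lit 156) (nat_lit 1520) (nat_lit 0) (XT.nd (nat_lit 78) (nat_lit 836) (nat_lit 0) (XT.lf (nat_lit 0) (nat_lit 703464062) (nat_lit 912) (nat_lit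 2126822764) (nat_lit 76) (nat_lit 8578165479) (nat_lit 304) (nat_lit 5) (nat_lit 316) (nat_lit 5) (nat_lit 305) (nat_lit 5) (nat_lit 304) (nat_lit 281) (nat_lit 195)) (XT.lf (nat_lit 0) (nat_lit 2965882706) (nat_lit 912) (nat_lit 5180500140) (nat_lit 76) (nat_lit 3443341350) (nat_lit 293) (nat_lit 5) (nat_lit 305) (nat_lit 5) (nat_lit 294) (nat_lit 5) (nat_lit 305) (nat_lit 281) (nat_lit 194))) (XT.nd (nat_lit 78) (nat_lit 760) (nat_lit 0) (XT.lf (nat_lit 0) (nat_lit 3449021308) (nat_lit 760) (nat_lit 1870178183) (nat_lit 836) (nat_lit 6456806395) (nat_lit 283) (nat_lit 5) (nat_lit 293) (nat_lit 5) (nat_lit 294) (nat_lit 5) (nat_lit 306) (nat_lit 281) (nat_lit 193)) (XT.lf (nat_lit 0) (nat_lit 384469781) (nat_lit 760) (nat_lit 7394267121) (nat_lit 836) (nat_lit 4188457917) (nat_lit 273) (nat_lit 5) (nat_lit 283) (nat_lit 5) (nat_lit 284) (nat_lit 5) (nat_lit 307) (nat_lit 281) (nat_lit 192)))))))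 (XT.nd (nat_lit 1014) (nat_lit 5092) (nat_lit 0) (XT.nd (nat_lit 468) (nat_lit 3192) (nat_lit 0) (XT.nd (nat_lit 234) (nat_lit 1368) (nat_lit 0) (XT.nd (nat_lit 78) (nat_lit 1520) (nat_lit 0) (XT.lf (nat_lit 0) (nat_lit 9427413078) (nat_lit 760) (nat_lit 922187364) (nat_lit 836) (nat_lit 1813798486) (nat_lit 273) (nat_lit 5) (nat_lit 283) (nat_lit 5) (nat_lit 284) (nat_lit 5) (nat_lit 308) (nat_lit 281) (nat_lit 191)) (XT.nd (nat_lit 78) (nat_lit 760) (nat_lit 0) (XT.lf (nat_lit 0) (nat_lit 672498274) (nat_lit 760) (nat_lit 5977177650) (nat_lit 76) (nat_lit 5714786248) (nat_lit 263) (nat_lit 5) (nat_lit 273) (nat_lit 5) (nat_lit 264) (nat_lit 5) (nat_lit 309) (nat_lit 281) (nat_lit 190)) (XT.lf (nat_lit 0) (nat_lit 3224961360) (nat_lit 836) (nat_lit 9327324127) (nat_lit 76) (nat_lit 18735654) (nat_lit 253) (nat_lit 5) (nat_lit 264) (nat_lit 5) (nat_lit 254) (nat_lit 5) (nat_lit 310) (nat_lit 281)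 (nat_lit 189)))) (XT.nd (nat_lit 78) (nat_lit 1368) (nat_lit 0) (XT.lf (nat_lit 0) (nat_lit 5909972606) (nat_lit 836) (nat_lit 35613573) (nat_lit 76) (nat_lit 6837098405) (nat_lit 253) (nat_lit 5) (nat_lit 264) (nat_lit 5) (nat_lit 254) (nat_lit 5) (nat_lit 311) (nat_lit 281) (nat_lit 188)) (XT.nd (nat_lit 78) (nat_lit 684) (nat_lit 0) (XT.lf (nat_lit 0) (nat_lit 8715634727) (nat_lit 760) (nat_lit 3374885442) (nat_lit 76) (nat_lit 909402149) (nat_lit 244) (nat_lit 5) (nat_lit 254) (nat_lit 5) (nat_lit 245) (nat_lit 5) (nat_lit 312) (nat_lit 281) (nat_lit 187)) (XT.lf (nat_lit 0) (nat_lit 6365944427) (nat_lit 684) (nat_lit 5293068216) (nat_lit 760) (nat_lit 1563619254) (nat_lit 235) (nat_lit 5) (nat_lit 244) (nat_lit 5) (nat_lit 245) (nat_lit 5) (nat_lit 313) (nat_lit 281) (nat_lit 186))))) (XT.nd (nat_lit 234) (nat_lit 1824) (nat_lit 0) (XT.nd (nat_lit 78) (nat_lit 684) (nat_lit 0) (XT.lf (nat_lit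 0) (nat_lit 1248919917) (nat_lit 684) (nat_lit 10468286735) (nat_lit 76) (nat_lit 1734149739) (nat_lit 226) (nat_lit 5) (nat_lit 235) (nat_lit 5) (nat_lit 227) (nat_lit 5) (nat_lit 314) (nat_lit 281) (nat_lit 185)) (XT.nd (nat_lit 78) (nat_lit 684) (nat_lit 0) (XT.lf (nat_lit 0) (nat_lit 4180091582) (nat_lit 684) (nat_lit 550359791) (nat_lit 76) (nat_lit 8955198225) (nat_lit 226) (nat_lit 5) (nat_lit 235) (nat_lit 5) (nat_lit 227) (nat_lit 5) (nat_lit 315) (nat_lit 281) (nat_lit 184)) (XT.lf (nat_lit 0) (nat_lit 7252993198) (nat_lit 760) (nat_lit 4178679541) (nat_lit 76) (nat_lit 2494245962) (nat_lit 217) (nat_lit 5) (nat_lit 227) (nat_lit 5) (nat_lit 218) (nat_lit 5) (nat_lit 316) (nat_lit 281) (nat_lit 183)))) (XT.nd (nat_lit 156) (nat_lit 608) (nat_lit 0) (XT.nd (nat_lit 78) (nat_lit 608) (nat_lit 0) (XT.lf (nat_lit 0) (nat_lit 6208524031) (nat_lit 608) (nat_lit 4259797375) (nat_lit 684) (nat_lit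 3704092006) (nat_lit 209) (nat_lit 5) (nat_lit 217) (nat_lit 5) (nat_lit 218) (nat_lit 5) (nat_lit 317) (nat_lit 281) (nat_lit 182)) (XT.lf (nat_lit 0) (nat_lit 2522150856) (nat_lit 608) (nat_lit 11298212623) (nat_lit 684) (nat_lit 605156079) (nat_lit 201) (nat_lit 5) (nat_lit 209) (nat_lit 5) (nat_lit 210) (nat_lit 5) (nat_lit 318) (nat_lit 281) (nat_lit 181))) (XT.nd (nat_lit 78) (nat_lit 532) (nat_lit 0) (XT.lf (nat_lit 0) (nat_lit 2611060547) (nat_lit 684) (nat_lit 1328109991) (nat_lit 76) (nat_lit 10745568321) (nat_lit 200) (nat_lit 5) (nat_lit 209) (nat_lit 5) (nat_lit 201) (nat_lit 5) (nat_lit 319) (nat_lit 281) (nat_lit 180)) (XT.lf (nat_lit 0) (nat_lit 5978494528) (nat_lit 608) (nat_lit 5316177920) (nat_lit 76) (nat_lit 3655743267) (nat_lit 193) (nat_lit 5) (nat_lit 201) (nat_lit 5) (nat_lit 194) (nat_lit 5) (nat_lit 320) (nat_lit 281) (nat_lit 179)))))) (XT.nd (nat_lit 546) (nat_lit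 2356) (nat_lit 0) (XT.nd (nat_lit 234) (nat_lit 1520) (nat_lit 0) (XT.nd (nat_lit 78) (nat_lit 608) (nat_lit 0) (XT.lf (nat_lit 0) (nat_lit 5740370940) (nat_lit 608) (nat_lit 3755882069) (nat_lit 684) (nat_lit 5726843285) (nat_lit 185) (nat_lit 5) (nat_lit 193) (nat_lit 5) (nat_lit 194) (nat_lit 5) (nat_lit 321) (nat_lit 281) (nat_lit 178)) (XT.nd (nat_lit 78) (nat_lit 76) (nat_lit 0) (XT.lf (nat_lit 0) (nat_lit 1665472305) (nat_lit 532) (nat_lit 11504274558) (nat_lit 608) (nat_lit 2333225256) (nat_lit 178) (nat_lit 5) (nat_lit 185) (nat_lit 5) (nat_lit 186) (nat_lit 5) (nat_lit 322) (nat_lit 281) (nat_lit 177)) (XT.lf (nat_lit 0) (nat_lit 1214176701) (nat_lit 608) (nat_lit 2573241131) (nat_lit 76) (nat_lit 12002349085) (nat_lit 177) (nat_lit 5) (nat_lit 185) (nat_lit 5) (nat_lit 178) (nat_lit 5) (nat_lit 323) (nat_lit 281) (nat_lit 176)))) (XT.nd (nat_lit 156) (nat_lit 532) (nat_lit 0) (XT.nd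 (nat_lit 78) (nat_lit 456) (nat_lit 0) (XT.lf (nat_lit 0) (nat_lit 4901151281) (nat_lit 608) (nat_lit 7006132485) (nat_lit 76) (nat_lit 4176293790) (nat_lit 170) (nat_lit 5) (nat_lit 178) (nat_lit 5) (nat_lit 171) (nat_lit 5) (nat_lit 324) (nat_lit 281) (nat_lit 175)) (XT.lf (nat_lit 0) (nat_lit 4736436539) (nat_lit 456) (nat_lit 4014435534) (nat_lit 532) (nat_lit 7634304641) (nat_lit 164) (nat_lit 5) (nat_lit 170) (nat_lit 5) (nat_lit 171) (nat_lit 5) (nat_lit 325) (nat_lit 281) (nat_lit 174))) (XT.nd (nat_lit 78) (nat_lit 0) (nat_lit 0) (XT.lf (nat_lit 0) (nat_lit 180425000) (nat_lit 532) (nat_lit 12590258359) (nat_lit 608) (nat_lit 3924064958) (nat_lit 157) (nat_lit 5) (nat_lit 164) (nat_lit 5) (nat_lit 165) (nat_lit 5) (nat_lit 326) (nat_lit 281) (nat_lit 173)) (XT.lf (nat_lit 0) (nat_lit 12469935769) (nat_lit 532) (nat_lit 4526117276) (nat_lit 608) (nat_lit 15870707) (nat_lit 157) (nat_lit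 5) (nat_lit 164) (nat_lit 5) (nat_lit 165) (nat_lit 5) (nat_lit 327) (nat_lit 281) (nat_lit 172))))) (XT.nd (nat_lit 234) (nat_lit 1368) (nat_lit 0) (XT.nd (nat_lit 78) (nat_lit 456) (nat_lit 0) (XT.lf (nat_lit 0) (nat_lit 4012709710) (nat_lit 532) (nat_lit 9522478256) (nat_lit 76) (nat_lit 3801806496) (nat_lit 150) (nat_lit 5) (nat_lit 157) (nat_lit 5) (nat_lit 151) (nat_lit 5) (nat_lit 328) (nat_lit 281) (nat_lit 171)) (XT.nd (nat_lit 78) (nat_lit 0) (nat_lit 0) (XT.lf (nat_lit 0) (nat_lit 2914102175) (nat_lit 456) (nat_lit 5308193831) (nat_lit 532) (nat_lit 9448326664) (nat_lit 144) (nat_lit 5) (nat_lit 150) (nat_lit 5) (nat_lit 151) (nat_lit 5) (nat_lit 329) (nat_lit 281) (nat_lit 170)) (XT.lf (nat_lit 0) (nat_lit 12624238288) (nat_lit 532) (nat_lit 2205983742) (nat_lit 76) (nat_lit 3182730650) (nat_lit 144) (nat_lit 5) (nat_lit 151) (nat_lit 5) (nat_lit 145) (nat_lit 5) (nat_lit 330) (nat_lit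 281) (nat_lit 169)))) (XT.nd (nat_lit 156) (nat_lit 380) (nat_lit 0) (XT.nd (nat_lit 78) (nat_lit 532) (nat_lit 0) (XT.lf (nat_lit 0) (nat_lit 10801841685) (nat_lit 456) (nat_lit 6443154822) (nat_lit 532) (nat_lit 1118834842) (nat_lit 138) (nat_lit 5) (nat_lit 144) (nat_lit 5) (nat_lit 145) (nat_lit 5) (nat_lit 331) (nat_lit 281) (nat_lit 168)) (XT.lf (nat_lit 0) (nat_lit 3283162060) (nat_lit 532) (nat_lit 13207801381) (nat_lit 76) (nat_lit 2232919816) (nat_lit 131) (nat_lit 5) (nat_lit 138) (nat_lit 5) (nat_lit 132) (nat_lit 5) (nat_lit 332) (nat_lit 281) (nat_lit 167))) (XT.nd (nat_lit 78) (nat_lit 380) (nat_lit 0) (XT.lf (nat_lit 0) (nat_lit 7878491690) (nat_lit 532) (nat_lit 79787531) (nat_lit 76) (nat_lit 11134792976) (nat_lit 131) (nat_lit 5) (nat_lit 138) (nat_lit 5) (nat_lit 132) (nat_lit 5) (nat_lit 333) (nat_lit 281) (nat_lit 166)) (XT.lf (nat_lit 0) (nat_lit 12688136932) (nat_lit 456)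 (nat_lit 5881929515) (nat_lit 76) (nat_lit 901753724) (nat_lit 126) (nat_lit 5) (nat_lit 132) (nat_lit 5) (nat_lit 127) (nat_lit 5) (nat_lit 334) (nat_lit 281) (nat_lit 165))))))))
noncomputable def xc88 : XT := (XT.nd (nat_lit 36738) (nat_lit 0) (nat_lit 15428) (XT.nd (nat_lit 1014) (nat_lit 1748) (nat_lit 0) (XT.nd (nat_lit 468) (nat_lit 1672) (nat_lit 0) (XT.nd (nat_lit 234) (nat_lit 760) (nat_lit 0) (XT.nd (nat_lit 78) (nat_lit 456) (nat_lit 0) (XT.lf (nat_lit 0) (nat_lit 7833993372) (nat_lit 380) (nat_lit 9895273415) (nat_lit 456) (nat_lit 2130932007) (nat_lit 121) (nat_lit 5) (nat_lit 126) (nat_lit 5) (nat_lit 127) (nat_lit 5) (nat_lit 335) (nat_lit 281) (nat_lit 164)) (XT.nd (nat_lit 78) (nat_lit 0) (nat_lit 0) (XT.lf (nat_lit 0) (nat_lit 1763861620) (nat_lit 380) (nat_lit 897003744) (nat_lit 456) (nat_lit 17598341984) (nat_lit 115) (nat_lit 5) (nat_lit 120) (nat_lit 5) (nat_lit 121) (nat_lit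 5) (nat_lit 336) (nat_lit 281) (nat_lit 163)) (XT.lf (nat_lit 0) (nat_lit 7687111047) (nat_lit 456) (nat_lit 4629564545) (nat_lit 76) (nat_lit 8350847146) (nat_lit 115) (nat_lit 5) (nat_lit 121) (nat_lit 5) (nat_lit 116) (nat_lit 5) (nat_lit 337) (nat_lit 281) (nat_lit 162)))) (XT.nd (nat_lit 78) (nat_lit 380) (nat_lit 0) (XT.lf (nat_lit 0) (nat_lit 9750661562) (nat_lit 380) (nat_lit 3166377155) (nat_lit 456) (nat_lit 8170001849) (nat_lit 110) (nat_lit 5) (nat_lit 115) (nat_lit 5) (nat_lit 116) (nat_lit 5) (nat_lit 338) (nat_lit 281) (nat_lit 161)) (XT.nd (nat_lit 78) (nat_lit 76) (nat_lit 0) (XT.lf (nat_lit 0) (nat_lit 3083427417) (nat_lit 304) (nat_lit 15296541044) (nat_lit 380) (nat_lit 3137663937) (nat_lit 106) (nat_lit 5) (nat_lit 110) (nat_lit 5) (nat_lit 111) (nat_lit 5) (nat_lit 339) (nat_lit 281) (nat_lit 160)) (XT.lf (nat_lit 0) (nat_lit 2101395281) (nat_lit 380) (nat_lit 3926730948)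 (nat_lit 76) (nat_lit 15931108564) (nat_lit 105) (nat_lit 5) (nat_lit 110) (nat_lit 5) (nat_lit 106) (nat_lit 5) (nat_lit 340) (nat_lit 281) (nat_lit 159))))) (XT.nd (nat_lit 234) (nat_lit 988) (nat_lit 0) (XT.nd (nat_lit 78) (nat_lit 304) (nat_lit 0) (XT.lf (nat_lit 0) (nat_lit 7535384325) (nat_lit 456) (nat_lit 11317640014) (nat_lit 76) (nat_lit 3559048142) (nat_lit 100) (nat_lit 5) (nat_lit 106) (nat_lit 5) (nat_lit 101) (nat_lit 5) (nat_lit 341) (nat_lit 281) (nat_lit 158)) (XT.nd (nat_lit 78) (nat_lit 0) (nat_lit 0) (XT.lf (nat_lit 0) (nat_lit 3728032290) (nat_lit 304) (nat_lit 9480466041) (nat_lit 380) (nat_lit 9668484332) (nat_lit 96) (nat_lit 5) (nat_lit 100) (nat_lit 5) (nat_lit 101) (nat_lit 5) (nat_lit 342) (nat_lit 281) (nat_lit 157)) (XT.lf (nat_lit 0) (nat_lit 19115186567) (nat_lit 380) (nat_lit 3998234314) (nat_lit 76) (nat_lit 241160844) (nat_lit 96) (nat_lit 5) (nat_lit 101) (nat_lit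 5) (nat_lit 97) (nat_lit 5) (nat_lit 343) (nat_lit 281) (nat_lit 156)))) (XT.nd (nat_lit 156) (nat_lit 304) (nat_lit 0) (XT.nd (nat_lit 78) (nat_lit 304) (nat_lit 0) (XT.lf (nat_lit 0) (nat_lit 1460338287) (nat_lit 380) (nat_lit 12178545692) (nat_lit 76) (nat_lit 10204947680) (nat_lit 91) (nat_lit 5) (nat_lit 96) (nat_lit 5) (nat_lit 92) (nat_lit 5) (nat_lit 344) (nat_lit 281) (nat_lit 155)) (XT.lf (nat_lit 0) (nat_lit 3502137898) (nat_lit 304) (nat_lit 3807341240) (nat_lit 380) (nat_lit 17037007757) (nat_lit 87) (nat_lit 5) (nat_lit 91) (nat_lit 5) (nat_lit 92) (nat_lit 5) (nat_lit 345) (nat_lit 281) (nat_lit 154))) (XT.nd (nat_lit 78) (nat_lit 304) (nat_lit 0) (XT.lf (nat_lit 0) (nat_lit 13444101449) (nat_lit 380) (nat_lit 5105582836) (nat_lit 76) (nat_lit 6312345606) (nat_lit 87) (nat_lit 5) (nat_lit 92) (nat_lit 5) (nat_lit 88) (nat_lit 5) (nat_lit 346) (nat_lit 281) (nat_lit 153)) (XT.lf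 (nat_lit 0) (nat_lit 11206096860) (nat_lit 304) (nat_lit 8641201772) (nat_lit 380) (nat_lit 5544057828) (nat_lit 83) (nat_lit 5) (nat_lit 87) (nat_lit 5) (nat_lit 88) (nat_lit 5) (nat_lit 347) (nat_lit 281) (nat_lit 152)))))) (XT.nd (nat_lit 468) (nat_lit 532) (nat_lit 0) (XT.nd (nat_lit 234) (nat_lit 608) (nat_lit 0) (XT.nd (nat_lit 78) (nat_lit 304) (nat_lit 0) (XT.lf (nat_lit 0) (nat_lit 545089548) (nat_lit 304) (nat_lit 23801103407) (nat_lit 76) (nat_lit 1589397838) (nat_lit 79) (nat_lit 5) (nat_lit 83) (nat_lit 5) (nat_lit 80) (nat_lit 5) (nat_lit 348) (nat_lit 281) (nat_lit 151)) (XT.nd (nat_lit 78) (nat_lit 304) (nat_lit 0) (XT.lf (nat_lit 0) (nat_lit 6883269797) (nat_lit 304) (nat_lit 7472233476) (nat_lit 76) (nat_lit 12137089748) (nat_lit 79) (nat_lit 5) (nat_lit 83) (nat_lit 5) (nat_lit 80) (nat_lit 5) (nat_lit 349) (nat_lit 281) (nat_lit 150)) (XT.lf (nat_lit 0) (nat_lit 9450544300)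 (nat_lit 304) (nat_lit 4009500820) (nat_lit 380) (nat_lit 13605298387) (nat_lit 75) (nat_lit 5) (nat_lit 79) (nat_lit 5) (nat_lit 80) (nat_lit 5) (nat_lit 350) (nat_lit 281) (nat_lit 149)))) (XT.nd (nat_lit 78) (nat_lit 608) (nat_lit 0) (XT.lf (nat_lit 0) (nat_lit 20315543617) (nat_lit 380) (nat_lit 734264773) (nat_lit 76) (nat_lit 6603846695) (nat_lit 75) (nat_lit 5) (nat_lit 80) (nat_lit 5) (nat_lit 76) (nat_lit 5) (nat_lit 351) (nat_lit 281) (nat_lit 148)) (XT.nd (nat_lit 78) (nat_lit 380) (nat_lit 0) (XT.lf (nat_lit 0) (nat_lit 16827346467) (nat_lit 228) (nat_lit 10673092678) (nat_lit 304) (nat_lit 756708995) (nat_lit 72) (nat_lit 5) (nat_lit 75) (nat_lit 5) (nat_lit 76) (nat_lit 5) (nat_lit 352) (nat_lit 281) (nat_lit 147)) (XT.lf (nat_lit 0) (nat_lit 5975983637) (nat_lit 380) (nat_lit 22809338992) (nat_lit 76) (nat_lit 91991219) (nat_lit 67) (nat_lit 5) (nat_lit 72) (nat_lit 5) (nat_lit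 68) (nat_lit 5) (nat_lit 353) (nat_lit 281) (nat_lit 146))))) (XT.nd (nat_lit 234) (nat_lit 76) (nat_lit 0) (XT.nd (nat_lit 78) (nat_lit 456) (nat_lit 0) (XT.lf (nat_lit 0) (nat_lit 13037778735) (nat_lit 380) (nat_lit 5363314695) (nat_lit 76) (nat_lit 11112149271) (nat_lit 67) (nat_lit 5) (nat_lit 72) (nat_lit 5) (nat_lit 68) (nat_lit 5) (nat_lit 354) (nat_lit 281) (nat_lit 145)) (XT.nd (nat_lit 78) (nat_lit 228) (nat_lit 0) (XT.lf (nat_lit 0) (nat_lit 12754958623) (nat_lit 228) (nat_lit 7627635353) (nat_lit 304) (nat_lit 9784238193) (nat_lit 64) (nat_lit 5) (nat_lit 67) (nat_lit 5) (nat_lit 68) (nat_lit 5) (nat_lit 355) (nat_lit 281) (nat_lit 144)) (XT.lf (nat_lit 0) (nat_lit 617924380) (nat_lit 228) (nat_lit 27381479507) (nat_lit 304) (nat_lit 2839598328) (nat_lit 61) (nat_lit 5) (nat_lit 64) (nat_lit 5) (nat_lit 65) (nat_lit 5) (nat_lit 356) (nat_lit 281) (nat_lit 143)))) (XT.nd (nat_lit 34866)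 (nat_lit 0) (nat_lit 27588) (XT.nd (nat_lit 34788) (nat_lit 0) (nat_lit 27588) (XT.lf (nat_lit 0) (nat_lit 4415256845) (nat_lit 304) (nat_lit 12199987650) (nat_lit 76) (nat_lit 14912369438) (nat_lit 60) (nat_lit 5) (nat_lit 64) (nat_lit 5) (nat_lit 61) (nat_lit 5) (nat_lit 357) (nat_lit 281) (nat_lit 142)) (XT.lf (nat_lit 0) (nat_lit 996564793) (nat_lit 1444) (nat_lit 1639008892) (nat_lit 1444) (nat_lit 1639008892) (nat_lit 423) (nat_lit 3) (nat_lit 442) (nat_lit 3) (nat_lit 442) (nat_lit 5) (nat_lit 282) (nat_lit 282) (nat_lit 216))) (XT.nd (nat_lit 78) (nat_lit 0) (nat_lit 76) (XT.lf (nat_lit 76) (nat_lit 2470008700) (nat_lit 0) (nat_lit 999667823) (nat_lit 1444) (nat_lit 5177134179) (nat_lit 424) (nat_lit 5) (nat_lit 423) (nat_lit 3) (nat_lit 442) (nat_lit 5) (nat_lit 283) (nat_lit 282) (nat_lit 215)) (XT.lf (nat_lit 0) (nat_lit 4979110429) (nat_lit 1368) (nat_lit 364064512) (nat_lit 1444)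 (nat_lit 3404503606) (nat_lit 424) (nat_lit 5) (nat_lit 442) (nat_lit 5) (nat_lit 443) (nat_lit 5) (nat_lit 284) (nat_lit 282) (nat_lit 214))))))) (XT.nd (nat_lit 1014) (nat_lit 9652) (nat_lit 0) (XT.nd (nat_lit 468) (nat_lit 1216) (nat_lit 0) (XT.nd (nat_lit 234) (nat_lit 0) (nat_lit 76) (XT.nd (nat_lit 78) (nat_lit 1368) (nat_lit 0) (XT.lf (nat_lit 76) (nat_lit 5661251923) (nat_lit 0) (nat_lit 861799583) (nat_lit 1444) (nat_lit 2328799297) (nat_lit 425) (nat_lit 5) (nat_lit 424) (nat_lit 5) (nat_lit 443) (nat_lit 5) (nat_lit 285) (nat_lit 282) (nat_lit 213)) (XT.nd (nat_lit 78) (nat_lit 1444) (nat_lit 0) (XT.lf (nat_lit 76) (nat_lit 2896649692) (nat_lit 0) (nat_lit 5209654341) (nat_lit 1444) (nat_lit 853045355) (nat_lit 426) (nat_lit 5) (nat_lit 425) (nat_lit 5) (nat_lit 444) (nat_lit 5) (nat_lit 286) (nat_lit 282) (nat_lit 212)) (XT.lf (nat_lit 76) (nat_lit 101220256) (nat_lit 0) (nat_lit 533469842)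 (nat_lit 1520) (nat_lit 8435825182) (nat_lit 407) (nat_lit 5) (nat_lit 406) (nat_lit 5) (nat_lit 426) (nat_lit 5) (nat_lit 287) (nat_lit 282) (nat_lit 211)))) (XT.nd (nat_lit 78) (nat_lit 0) (nat_lit 76) (XT.lf (nat_lit 0) (nat_lit 2174414783) (nat_lit 1444) (nat_lit 2716057545) (nat_lit 1520) (nat_lit 4294108510) (nat_lit 407) (nat_lit 5) (nat_lit 426) (nat_lit 5) (nat_lit 427) (nat_lit 5) (nat_lit 288) (nat_lit 282) (nat_lit 210)) (XT.nd (nat_lit 78) (nat_lit 0) (nat_lit 0) (XT.lf (nat_lit 0) (nat_lit 3739368282) (nat_lit 1444) (nat_lit 5562502725) (nat_lit 1520) (nat_lit 671366) (nat_lit 408) (nat_lit 5) (nat_lit 427) (nat_lit 5) (nat_lit 428) (nat_lit 5) (nat_lit 289) (nat_lit 282) (nat_lit 209)) (XT.lf (nat_lit 76) (nat_lit 952136333) (nat_lit 0) (nat_lit 4409074566) (nat_lit 1520) (nat_lit 4062686204) (nat_lit 409) (nat_lit 5) (nat_lit 408) (nat_lit 5) (nat_lit 428) (nat_lit 5) (nat_lit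 290) (nat_lit 282) (nat_lit 208))))) (XT.nd (nat_lit 234) (nat_lit 0) (nat_lit 0) (XT.nd (nat_lit 78) (nat_lit 1444) (nat_lit 0) (XT.lf (nat_lit 0) (nat_lit 7027561632) (nat_lit 1444) (nat_lit 1845554691) (nat_lit 1520) (nat_lit 675910706) (nat_lit 409) (nat_lit 5) (nat_lit 428) (nat_lit 5) (nat_lit 429) (nat_lit 5) (nat_lit 291) (nat_lit 282) (nat_lit 207)) (XT.nd (nat_lit 78) (nat_lit 1444) (nat_lit 0) (XT.lf (nat_lit 76) (nat_lit 4984816496) (nat_lit 0) (nat_lit 3776097991) (nat_lit 1520) (nat_lit 916706240) (nat_lit 410) (nat_lit 5) (nat_lit 409) (nat_lit 5) (nat_lit 429) (nat_lit 5) (nat_lit 292) (nat_lit 282) (nat_lit 206)) (XT.lf (nat_lit 0) (nat_lit 719405072) (nat_lit 1520) (nat_lit 7590968673) (nat_lit 1596) (nat_lit 1499793293) (nat_lit 390) (nat_lit 5) (nat_lit 410) (nat_lit 5) (nat_lit 411) (nat_lit 5) (nat_lit 293) (nat_lit 282) (nat_lit 205)))) (XT.nd (nat_lit 156) (nat_lit 0) (nat_lit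 76) (XT.nd (nat_lit 78) (nat_lit 0) (nat_lit 76) (XT.lf (nat_lit 0) (nat_lit 2406585090) (nat_lit 1520) (nat_lit 605992826) (nat_lit 1596) (nat_lit 6933748143) (nat_lit 390) (nat_lit 5) (nat_lit 410) (nat_lit 5) (nat_lit 411) (nat_lit 5) (nat_lit 294) (nat_lit 282) (nat_lit 204)) (XT.lf (nat_lit 0) (nat_lit 4162111270) (nat_lit 1520) (nat_lit 3457360479) (nat_lit 1596) (nat_lit 2466788440) (nat_lit 391) (nat_lit 5) (nat_lit 411) (nat_lit 5) (nat_lit 412) (nat_lit 5) (nat_lit 295) (nat_lit 282) (nat_lit 203))) (XT.nd (nat_lit 78) (nat_lit 0) (nat_lit 76) (XT.lf (nat_lit 76) (nat_lit 3858584419) (nat_lit 0) (nat_lit 2120497015) (nat_lit 1596) (nat_lit 4251178993) (nat_lit 392) (nat_lit 5) (nat_lit 391) (nat_lit 5) (nat_lit 412) (nat_lit 5) (nat_lit 296) (nat_lit 282) (nat_lit 202)) (XT.lf (nat_lit 76) (nat_lit 1022398992) (nat_lit 0) (nat_lit 6841881486) (nat_lit 1596) (nat_lit 2514068173) (nat_lit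 393) (nat_lit 5) (nat_lit 392) (nat_lit 5) (nat_lit 413) (nat_lit 5) (nat_lit 297) (nat_lit 282) (nat_lit 201)))))) (XT.nd (nat_lit 468) (nat_lit 4028) (nat_lit 0) (XT.nd (nat_lit 234) (nat_lit 2660) (nat_lit 0) (XT.nd (nat_lit 78) (nat_lit 3116) (nat_lit 0) (XT.lf (nat_lit 76) (nat_lit 8680578803) (nat_lit 0) (nat_lit 1144164816) (nat_lit 1596) (nat_lit 705802881) (nat_lit 393) (nat_lit 5) (nat_lit 392) (nat_lit 5) (nat_lit 413) (nat_lit 5) (nat_lit 298) (nat_lit 282) (nat_lit 200)) (XT.nd (nat_lit 78) (nat_lit 1596) (nat_lit 0) (XT.lf (nat_lit 0) (nat_lit 1173291208) (nat_lit 1596) (nat_lit 4797087087) (nat_lit 76) (nat_lit 4716185921) (nat_lit 372) (nat_lit 5) (nat_lit 393) (nat_lit 5) (nat_lit 373) (nat_lit 5) (nat_lit 299) (nat_lit 282) (nat_lit 199)) (XT.lf (nat_lit 0) (nat_lit 3036237302) (nat_lit 1596) (nat_lit 66201748) (nat_lit 1672) (nat_lit 7744702725) (nat_lit 351) (nat_lit 5) (nat_lit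 372) (nat_lit 5) (nat_lit 373) (nat_lit 5) (nat_lit 300) (nat_lit 282) (nat_lit 198)))) (XT.nd (nat_lit 78) (nat_lit 988) (nat_lit 0) (XT.lf (nat_lit 0) (nat_lit 89399099) (nat_lit 1672) (nat_lit 5036563874) (nat_lit 1748) (nat_lit 5885880566) (nat_lit 329) (nat_lit 5) (nat_lit 351) (nat_lit 5) (nat_lit 352) (nat_lit 5) (nat_lit 301) (nat_lit 282) (nat_lit 197)) (XT.nd (nat_lit 78) (nat_lit 988) (nat_lit 0) (XT.lf (nat_lit 0) (nat_lit 7235529187) (nat_lit 1748) (nat_lit 2885291748) (nat_lit 76) (nat_lit 1060194526) (nat_lit 329) (nat_lit 5) (nat_lit 352) (nat_lit 5) (nat_lit 330) (nat_lit 5) (nat_lit 302) (nat_lit 282) (nat_lit 196)) (XT.lf (nat_lit 0) (nat_lit 5399912509) (nat_lit 988) (nat_lit 4043253112) (nat_lit 1064) (nat_lit 1911436046) (nat_lit 316) (nat_lit 5) (nat_lit 329) (nat_lit 5) (nat_lit 330) (nat_lit 5) (nat_lit 303) (nat_lit 282) (nat_lit 195))))) (XT.nd (nat_lit 234) (nat_lit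 2280) (nat_lit 0) (XT.nd (nat_lit 78) (nat_lit 836) (nat_lit 0) (XT.lf (nat_lit 0) (nat_lit 197995724) (nat_lit 912) (nat_lit 9107357070) (nat_lit 76) (nat_lit 2227716570) (nat_lit 304) (nat_lit 5) (nat_lit 316) (nat_lit 5) (nat_lit 305) (nat_lit 5) (nat_lit 304) (nat_lit 282) (nat_lit 194)) (XT.nd (nat_lit 78) (nat_lit 836) (nat_lit 0) (XT.lf (nat_lit 0) (nat_lit 2379931042) (nat_lit 912) (nat_lit 647541840) (nat_lit 76) (nat_lit 8688493878) (nat_lit 304) (nat_lit 5) (nat_lit 316) (nat_lit 5) (nat_lit 305) (nat_lit 5) (nat_lit 305) (nat_lit 282) (nat_lit 193)) (XT.lf (nat_lit 0) (nat_lit 4671221506) (nat_lit 912) (nat_lit 3783297375) (nat_lit 76) (nat_lit 3448985472) (nat_lit 293) (nat_lit 5) (nat_lit 305) (nat_lit 5) (nat_lit 294) (nat_lit 5) (nat_lit 306) (nat_lit 282) (nat_lit 192)))) (XT.nd (nat_lit 156) (nat_lit 760) (nat_lit 0) (XT.nd (nat_lit 78) (nat_lit 760) (nat_lit 0) (XT.lf (nat_lit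 0) (nat_lit 5079920339) (nat_lit 760) (nat_lit 1978056020) (nat_lit 836) (nat_lit 5038187509) (nat_lit 283) (nat_lit 5) (nat_lit 293) (nat_lit 5) (nat_lit 294) (nat_lit 5) (nat_lit 307) (nat_lit 282) (nat_lit 191)) (XT.lf (nat_lit 0) (nat_lit 1931567069) (nat_lit 760) (nat_lit 7623380225) (nat_lit 836) (nat_lit 2738913028) (nat_lit 273) (nat_lit 5) (nat_lit 283) (nat_lit 5) (nat_lit 284) (nat_lit 5) (nat_lit 308) (nat_lit 282) (nat_lit 190))) (XT.nd (nat_lit 78) (nat_lit 760) (nat_lit 0) (XT.lf (nat_lit 0) (nat_lit 11201073524) (nat_lit 760) (nat_lit 956925888) (nat_lit 836) (nat_lit 338893385) (nat_lit 273) (nat_lit 5) (nat_lit 283) (nat_lit 5) (nat_lit 284) (nat_lit 5) (nat_lit 309) (nat_lit 282) (nat_lit 189)) (XT.lf (nat_lit 0) (nat_lit 2167718794) (nat_lit 760) (nat_lit 4637915657) (nat_lit 76) (nat_lit 5898880625) (nat_lit 263) (nat_lit 5) (nat_lit 273) (nat_lit 5) (nat_lit 264) (nat_lit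 5) (nat_lit 310) (nat_lit 282) (nat_lit 188))))))))
noncomputable def xc89 : XT := (XT.nd (nat_lit 2028) (nat_lit 4560) (nat_lit 0) (XT.nd (nat_lit 1014) (nat_lit 4332) (nat_lit 0) (XT.nd (nat_lit 468) (nat_lit 2964) (nat_lit 0) (XT.nd (nat_lit 234) (nat_lit 2052) (nat_lit 0) (XT.nd (nat_lit 78) (nat_lit 684) (nat_lit 0) (XT.lf (nat_lit 0) (nat_lit 4763831572) (nat_lit 836) (nat_lit 8083366774) (nat_lit 76) (nat_lit 70771148) (nat_lit 253) (nat_lit 5) (nat_lit 264) (nat_lit 5) (nat_lit 254) (nat_lit 5) (nat_lit 311) (nat_lit 282) (nat_lit 187)) (XT.nd (nat_lit 78) (nat_lit 0) (nat_lit 0) (XT.lf (nat_lit 0) (nat_lit 1461886139) (nat_lit 684) (nat_lit 6034995015) (nat_lit 760) (nat_lit 5639790951) (nat_lit 244) (nat_lit 5) (nat_lit 253) (nat_lit 5) (nat_lit 254) (nat_lit 5) (nat_lit 312) (nat_lit 282) (nat_lit 186)) (XT.lf (nat_lit 0) (nat_lit 10346453164) (nat_lit 760) (nat_lit 1992661841) (nat_lit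 76) (nat_lit 1022155055) (nat_lit 244) (nat_lit 5) (nat_lit 254) (nat_lit 5) (nat_lit 245) (nat_lit 5) (nat_lit 313) (nat_lit 282) (nat_lit 185)))) (XT.nd (nat_lit 78) (nat_lit 1368) (nat_lit 0) (XT.lf (nat_lit 0) (nat_lit 8016325384) (nat_lit 684) (nat_lit 5331398481) (nat_lit 760) (nat_lit 243582017) (nat_lit 235) (nat_lit 5) (nat_lit 244) (nat_lit 5) (nat_lit 245) (nat_lit 5) (nat_lit 314) (nat_lit 282) (nat_lit 184)) (XT.nd (nat_lit 78) (nat_lit 684) (nat_lit 0) (XT.lf (nat_lit 0) (nat_lit 2606436615) (nat_lit 684) (nat_lit 9301118732) (nat_lit 76) (nat_lit 1919773653) (nat_lit 226) (nat_lit 5) (nat_lit 235) (nat_lit 5) (nat_lit 227) (nat_lit 5) (nat_lit 315) (nat_lit 282) (nat_lit 183)) (XT.lf (nat_lit 0) (nat_lit 882781628) (nat_lit 684) (nat_lit 4710045373) (nat_lit 760) (nat_lit 8476512324) (nat_lit 217) (nat_lit 5) (nat_lit 226) (nat_lit 5) (nat_lit 227) (nat_lit 5) (nat_lit 316) (nat_lit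 282) (nat_lit 182))))) (XT.nd (nat_lit 234) (nat_lit 1672) (nat_lit 0) (XT.nd (nat_lit 78) (nat_lit 1292) (nat_lit 0) (XT.lf (nat_lit 0) (nat_lit 8725088497) (nat_lit 760) (nat_lit 2864174500) (nat_lit 76) (nat_lit 2728243051) (nat_lit 217) (nat_lit 5) (nat_lit 227) (nat_lit 5) (nat_lit 218) (nat_lit 5) (nat_lit 317) (nat_lit 282) (nat_lit 181)) (XT.nd (nat_lit 78) (nat_lit 684) (nat_lit 0) (XT.lf (nat_lit 0) (nat_lit 7811285073) (nat_lit 608) (nat_lit 4198249375) (nat_lit 684) (nat_lit 2562440036) (nat_lit 209) (nat_lit 5) (nat_lit 217) (nat_lit 5) (nat_lit 218) (nat_lit 5) (nat_lit 318) (nat_lit 282) (nat_lit 180)) (XT.lf (nat_lit 0) (nat_lit 595664206) (nat_lit 684) (nat_lit 10821804665) (nat_lit 76) (nat_lit 3415664589) (nat_lit 200) (nat_lit 5) (nat_lit 209) (nat_lit 5) (nat_lit 201) (nat_lit 5) (nat_lit 319) (nat_lit 282) (nat_lit 179)))) (XT.nd (nat_lit 156) (nat_lit 1140) (nat_lit 0) (XT.nd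 (nat_lit 78) (nat_lit 0) (nat_lit 0) (XT.lf (nat_lit 0) (nat_lit 25210505) (nat_lit 532) (nat_lit 3839879652) (nat_lit 608) (nat_lit 11235689899) (nat_lit 193) (nat_lit 5) (nat_lit 200) (nat_lit 5) (nat_lit 201) (nat_lit 5) (nat_lit 320) (nat_lit 282) (nat_lit 178)) (XT.lf (nat_lit 0) (nat_lit 7309469774) (nat_lit 608) (nat_lit 4082893740) (nat_lit 76) (nat_lit 3982574001) (nat_lit 193) (nat_lit 5) (nat_lit 201) (nat_lit 5) (nat_lit 194) (nat_lit 5) (nat_lit 321) (nat_lit 282) (nat_lit 177))) (XT.nd (nat_lit 78) (nat_lit 532) (nat_lit 0) (XT.lf (nat_lit 0) (nat_lit 7282755555) (nat_lit 608) (nat_lit 3625359187) (nat_lit 684) (nat_lit 4748204605) (nat_lit 185) (nat_lit 5) (nat_lit 193) (nat_lit 5) (nat_lit 194) (nat_lit 5) (nat_lit 322) (nat_lit 282) (nat_lit 176)) (XT.lf (nat_lit 0) (nat_lit 3084916196) (nat_lit 532) (nat_lit 11584497318) (nat_lit 608) (nat_lit 1275653029) (nat_lit 178) (nat_lit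 5) (nat_lit 185) (nat_lit 5) (nat_lit 186) (nat_lit 5) (nat_lit 323) (nat_lit 282) (nat_lit 175)))))) (XT.nd (nat_lit 468) (nat_lit 2204) (nat_lit 0) (XT.nd (nat_lit 234) (nat_lit 1064) (nat_lit 0) (XT.nd (nat_lit 78) (nat_lit 988) (nat_lit 0) (XT.lf (nat_lit 0) (nat_lit 2330971628) (nat_lit 608) (nat_lit 1305629107) (nat_lit 76) (nat_lit 12604392046) (nat_lit 177) (nat_lit 5) (nat_lit 185) (nat_lit 5) (nat_lit 178) (nat_lit 5) (nat_lit 324) (nat_lit 282) (nat_lit 174)) (XT.nd (nat_lit 78) (nat_lit 456) (nat_lit 0) (XT.lf (nat_lit 0) (nat_lit 6107401902) (nat_lit 608) (nat_lit 5873064375) (nat_lit 76) (nat_lit 4563599575) (nat_lit 170) (nat_lit 5) (nat_lit 178) (nat_lit 5) (nat_lit 171) (nat_lit 5) (nat_lit 325) (nat_lit 282) (nat_lit 173)) (XT.lf (nat_lit 0) (nat_lit 6199989051) (nat_lit 456) (nat_lit 3850354104) (nat_lit 532) (nat_lit 6804839564) (nat_lit 164) (nat_lit 5) (nat_lit 170) (nat_lit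 5) (nat_lit 171) (nat_lit 5) (nat_lit 326) (nat_lit 282) (nat_lit 172)))) (XT.nd (nat_lit 78) (nat_lit 532) (nat_lit 0) (XT.lf (nat_lit 0) (nat_lit 1505240455) (nat_lit 532) (nat_lit 12665665936) (nat_lit 608) (nat_lit 3003555530) (nat_lit 157) (nat_lit 5) (nat_lit 164) (nat_lit 5) (nat_lit 165) (nat_lit 5) (nat_lit 327) (nat_lit 282) (nat_lit 171)) (XT.nd (nat_lit 78) (nat_lit 456) (nat_lit 0) (XT.lf (nat_lit 0) (nat_lit 978639198) (nat_lit 608) (nat_lit 3383199098) (nat_lit 76) (nat_lit 13139800959) (nat_lit 156) (nat_lit 5) (nat_lit 164) (nat_lit 5) (nat_lit 157) (nat_lit 5) (nat_lit 328) (nat_lit 282) (nat_lit 170)) (XT.lf (nat_lit 0) (nat_lit 5109106847) (nat_lit 532) (nat_lit 8515957568) (nat_lit 76) (nat_lit 4211792476) (nat_lit 150) (nat_lit 5) (nat_lit 157) (nat_lit 5) (nat_lit 151) (nat_lit 5) (nat_lit 329) (nat_lit 282) (nat_lit 169))))) (XT.nd (nat_lit 234) (nat_lit 1292) (nat_lit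 0) (XT.nd (nat_lit 78) (nat_lit 456) (nat_lit 0) (XT.lf (nat_lit 0) (nat_lit 4272755947) (nat_lit 456) (nat_lit 5152050812) (nat_lit 532) (nat_lit 8756111843) (nat_lit 144) (nat_lit 5) (nat_lit 150) (nat_lit 5) (nat_lit 151) (nat_lit 5) (nat_lit 330) (nat_lit 282) (nat_lit 168)) (XT.nd (nat_lit 78) (nat_lit 456) (nat_lit 0) (XT.lf (nat_lit 0) (nat_lit 13932955327) (nat_lit 532) (nat_lit 1020701370) (nat_lit 76) (nat_lit 3580399417) (nat_lit 144) (nat_lit 5) (nat_lit 151) (nat_lit 5) (nat_lit 145) (nat_lit 5) (nat_lit 331) (nat_lit 282) (nat_lit 167)) (XT.lf (nat_lit 0) (nat_lit 12357055337) (nat_lit 456) (nat_lit 6316187367) (nat_lit 532) (nat_lit 222620270) (nat_lit 138) (nat_lit 5) (nat_lit 144) (nat_lit 5) (nat_lit 145) (nat_lit 5) (nat_lit 332) (nat_lit 282) (nat_lit 166)))) (XT.nd (nat_lit 156) (nat_lit 380) (nat_lit 0) (XT.nd (nat_lit 78) (nat_lit 380) (nat_lit 0) (XT.lf (nat_lit 0) (nat_lit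 4282572617) (nat_lit 532) (nat_lit 12363713730) (nat_lit 76) (nat_lit 2620661752) (nat_lit 131) (nat_lit 5) (nat_lit 138) (nat_lit 5) (nat_lit 132) (nat_lit 5) (nat_lit 333) (nat_lit 282) (nat_lit 165)) (XT.lf (nat_lit 0) (nat_lit 1136925643) (nat_lit 380) (nat_lit 7859977904) (nat_lit 456) (nat_lit 10650704779) (nat_lit 126) (nat_lit 5) (nat_lit 131) (nat_lit 5) (nat_lit 132) (nat_lit 5) (nat_lit 334) (nat_lit 282) (nat_lit 164))) (XT.nd (nat_lit 78) (nat_lit 380) (nat_lit 0) (XT.lf (nat_lit 0) (nat_lit 13927800169) (nat_lit 456) (nat_lit 4858121512) (nat_lit 76) (nat_lit 1252275728) (nat_lit 126) (nat_lit 5) (nat_lit 132) (nat_lit 5) (nat_lit 127) (nat_lit 5) (nat_lit 335) (nat_lit 282) (nat_lit 163)) (XT.lf (nat_lit 0) (nat_lit 9249806173) (nat_lit 380) (nat_lit 9853004263) (nat_lit 456) (nat_lit 1335781412) (nat_lit 121) (nat_lit 5) (nat_lit 126) (nat_lit 5) (nat_lit 127) (nat_lit 5) (nat_lit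 336) (nat_lit 282) (nat_lit 162))))))) (XT.nd (nat_lit 1014) (nat_lit 1368) (nat_lit 0) (XT.nd (nat_lit 468) (nat_lit 1596) (nat_lit 0) (XT.nd (nat_lit 234) (nat_lit 760) (nat_lit 0) (XT.nd (nat_lit 78) (nat_lit 380) (nat_lit 0) (XT.lf (nat_lit 0) (nat_lit 2990056695) (nat_lit 380) (nat_lit 581370382) (nat_lit 456) (nat_lit 17278390095) (nat_lit 115) (nat_lit 5) (nat_lit 120) (nat_lit 5) (nat_lit 121) (nat_lit 5) (nat_lit 337) (nat_lit 282) (nat_lit 161)) (XT.nd (nat_lit 78) (nat_lit 380) (nat_lit 0) (XT.lf (nat_lit 0) (nat_lit 8726423185) (nat_lit 456) (nat_lit 3614838274) (nat_lit 76) (nat_lit 8929577371) (nat_lit 115) (nat_lit 5) (nat_lit 121) (nat_lit 5) (nat_lit 116) (nat_lit 5) (nat_lit 338) (nat_lit 282) (nat_lit 160)) (XT.lf (nat_lit 0) (nat_lit 11178078613) (nat_lit 380) (nat_lit 2918984244) (nat_lit 456) (nat_lit 7606218654) (nat_lit 110) (nat_lit 5) (nat_lit 115) (nat_lit 5) (nat_lit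 116) (nat_lit 5) (nat_lit 339) (nat_lit 282) (nat_lit 159)))) (XT.nd (nat_lit 78) (nat_lit 456) (nat_lit 0) (XT.lf (nat_lit 0) (nat_lit 4306332848) (nat_lit 304) (nat_lit 15403962305) (nat_lit 380) (nat_lit 2436782798) (nat_lit 106) (nat_lit 5) (nat_lit 110) (nat_lit 5) (nat_lit 111) (nat_lit 5) (nat_lit 340) (nat_lit 282) (nat_lit 158)) (XT.nd (nat_lit 78) (nat_lit 380) (nat_lit 0) (XT.lf (nat_lit 0) (nat_lit 2926169513) (nat_lit 380) (nat_lit 2936451042) (nat_lit 76) (nat_lit 16739676084) (nat_lit 105) (nat_lit 5) (nat_lit 110) (nat_lit 5) (nat_lit 106) (nat_lit 5) (nat_lit 341) (nat_lit 282) (nat_lit 157)) (XT.lf (nat_lit 0) (nat_lit 8510299635) (nat_lit 456) (nat_lit 10553895769) (nat_lit 76) (nat_lit 4004795621) (nat_lit 100) (nat_lit 5) (nat_lit 106) (nat_lit 5) (nat_lit 101) (nat_lit 5) (nat_lit 342) (nat_lit 282) (nat_lit 156))))) (XT.nd (nat_lit 234) (nat_lit 912) (nat_lit 0) (XT.nd (nat_lit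 78) (nat_lit 380) (nat_lit 0) (XT.lf (nat_lit 0) (nat_lit 4925247403) (nat_lit 304) (nat_lit 9413595352) (nat_lit 380) (nat_lit 9209314633) (nat_lit 96) (nat_lit 5) (nat_lit 100) (nat_lit 5) (nat_lit 101) (nat_lit 5) (nat_lit 343) (nat_lit 282) (nat_lit 155)) (XT.nd (nat_lit 78) (nat_lit 380) (nat_lit 0) (XT.lf (nat_lit 0) (nat_lit 20403564734) (nat_lit 380) (nat_lit 3051940445) (nat_lit 76) (nat_lit 584975775) (nat_lit 96) (nat_lit 5) (nat_lit 101) (nat_lit 5) (nat_lit 97) (nat_lit 5) (nat_lit 344) (nat_lit 282) (nat_lit 154)) (XT.lf (nat_lit 0) (nat_lit 2210121600) (nat_lit 380) (nat_lit 11485159053) (nat_lit 76) (nat_lit 10849327902) (nat_lit 91) (nat_lit 5) (nat_lit 96) (nat_lit 5) (nat_lit 92) (nat_lit 5) (nat_lit 345) (nat_lit 282) (nat_lit 153)))) (XT.nd (nat_lit 156) (nat_lit 608) (nat_lit 0) (XT.nd (nat_lit 78) (nat_lit 0) (nat_lit 0) (XT.lf (nat_lit 0) (nat_lit 4648768198) (nat_lit 304)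 (nat_lit 3572168692) (nat_lit 380) (nat_lit 16841694745) (nat_lit 87) (nat_lit 5) (nat_lit 91) (nat_lit 5) (nat_lit 92) (nat_lit 5) (nat_lit 346) (nat_lit 282) (nat_lit 152)) (XT.lf (nat_lit 0) (nat_lit 14521639898) (nat_lit 380) (nat_lit 4235888632) (nat_lit 76) (nat_lit 6836483388) (nat_lit 87) (nat_lit 5) (nat_lit 92) (nat_lit 5) (nat_lit 88) (nat_lit 5) (nat_lit 347) (nat_lit 282) (nat_lit 151))) (XT.nd (nat_lit 78) (nat_lit 304) (nat_lit 0) (XT.lf (nat_lit 0) (nat_lit 12548546740) (nat_lit 304) (nat_lit 8555282268) (nat_lit 380) (nat_lit 5035662849) (nat_lit 83) (nat_lit 5) (nat_lit 87) (nat_lit 5) (nat_lit 88) (nat_lit 5) (nat_lit 348) (nat_lit 282) (nat_lit 150)) (XT.lf (nat_lit 0) (nat_lit 1216648820) (nat_lit 304) (nat_lit 23504943103) (nat_lit 76) (nat_lit 1978597841) (nat_lit 79) (nat_lit 5) (nat_lit 83) (nat_lit 5) (nat_lit 80) (nat_lit 5) (nat_lit 349) (nat_lit 282) (nat_lit 149))))))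 (XT.nd (nat_lit 468) (nat_lit 456) (nat_lit 0) (XT.nd (nat_lit 234) (nat_lit 380) (nat_lit 0) (XT.nd (nat_lit 78) (nat_lit 532) (nat_lit 0) (XT.lf (nat_lit 0) (nat_lit 7725890790) (nat_lit 304) (nat_lit 6715630183) (nat_lit 76) (nat_lit 12832773381) (nat_lit 79) (nat_lit 5) (nat_lit 83) (nat_lit 5) (nat_lit 80) (nat_lit 5) (nat_lit 350) (nat_lit 282) (nat_lit 148)) (XT.nd (nat_lit 78) (nat_lit 228) (nat_lit 0) (XT.lf (nat_lit 0) (nat_lit 10698919094) (nat_lit 304) (nat_lit 3788786929) (nat_lit 380) (nat_lit 13376776909) (nat_lit 75) (nat_lit 5) (nat_lit 79) (nat_lit 5) (nat_lit 80) (nat_lit 5) (nat_lit 351) (nat_lit 282) (nat_lit 147)) (XT.lf (nat_lit 0) (nat_lit 193296138) (nat_lit 228) (nat_lit 21340807181) (nat_lit 304) (nat_lit 6936645870) (nat_lit 72) (nat_lit 5) (nat_lit 75) (nat_lit 5) (nat_lit 76) (nat_lit 5) (nat_lit 352) (nat_lit 282) (nat_lit 146)))) (XT.nd (nat_lit 78) (nat_lit 380)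 (nat_lit 0) (XT.lf (nat_lit 0) (nat_lit 18263855781) (nat_lit 228) (nat_lit 10657780037) (nat_lit 304) (nat_lit 170979135) (nat_lit 72) (nat_lit 5) (nat_lit 75) (nat_lit 5) (nat_lit 76) (nat_lit 5) (nat_lit 353) (nat_lit 282) (nat_lit 145)) (XT.nd (nat_lit 78) (nat_lit 0) (nat_lit 0) (XT.lf (nat_lit 0) (nat_lit 6746409754) (nat_lit 380) (nat_lit 22558975458) (nat_lit 76) (nat_lit 426116762) (nat_lit 67) (nat_lit 5) (nat_lit 72) (nat_lit 5) (nat_lit 68) (nat_lit 5) (nat_lit 354) (nat_lit 282) (nat_lit 144)) (XT.lf (nat_lit 0) (nat_lit 14002840842) (nat_lit 380) (nat_lit 4616793063) (nat_lit 76) (nat_lit 11767228124) (nat_lit 67) (nat_lit 5) (nat_lit 72) (nat_lit 5) (nat_lit 68) (nat_lit 5) (nat_lit 355) (nat_lit 282) (nat_lit 143))))) (XT.nd (nat_lit 35022) (nat_lit 0) (nat_lit 26144) (XT.nd (nat_lit 78) (nat_lit 228) (nat_lit 0) (XT.lf (nat_lit 0) (nat_lit 14030306625) (nat_lit 228) (nat_lit 7526773540)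 (nat_lit 304) (nat_lit 9503206144) (nat_lit 64) (nat_lit 5) (nat_lit 67) (nat_lit 5) (nat_lit 68) (nat_lit 5) (nat_lit 356) (nat_lit 282) (nat_lit 142)) (XT.nd (nat_lit 34866) (nat_lit 0) (nat_lit 27512) (XT.lf (nat_lit 0) (nat_lit 1523935952) (nat_lit 228) (nat_lit 27869900413) (nat_lit 304) (nat_lit 2358964718) (nat_lit 61) (nat_lit 5) (nat_lit 64) (nat_lit 5) (nat_lit 65) (nat_lit 5) (nat_lit 357) (nat_lit 282) (nat_lit 141)) (XT.lf (nat_lit 0) (nat_lit 2443322868) (nat_lit 1444) (nat_lit 964758490) (nat_lit 1444) (nat_lit 964758490) (nat_lit 423) (nat_lit 3) (nat_lit 442) (nat_lit 3) (nat_lit 442) (nat_lit 5) (nat_lit 283) (nat_lit 283) (nat_lit 214)))) (XT.nd (nat_lit 156) (nat_lit 1368) (nat_lit 0) (XT.nd (nat_lit 78) (nat_lit 0) (nat_lit 76) (XT.lf (nat_lit 76) (nat_lit 3967477017) (nat_lit 0) (nat_lit 2366717914) (nat_lit 1444) (nat_lit 2513621270) (nat_lit 424) (nat_lit 5) (nat_lit 423)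 (nat_lit 3) (nat_lit 442) (nat_lit 5) (nat_lit 284) (nat_lit 283) (nat_lit 213)) (XT.lf (nat_lit 76) (nat_lit 1086297391) (nat_lit 0) (nat_lit 6720838373) (nat_lit 1444) (nat_lit 1146302759) (nat_lit 425) (nat_lit 5) (nat_lit 424) (nat_lit 5) (nat_lit 443) (nat_lit 5) (nat_lit 285) (nat_lit 283) (nat_lit 212))) (XT.nd (nat_lit 78) (nat_lit 0) (nat_lit 76) (XT.lf (nat_lit 0) (nat_lit 256030101) (nat_lit 1444) (nat_lit 1809373166) (nat_lit 1520) (nat_lit 6996901682) (nat_lit 405) (nat_lit 5) (nat_lit 424) (nat_lit 5) (nat_lit 425) (nat_lit 5) (nat_lit 286) (nat_lit 283) (nat_lit 211)) (XT.lf (nat_lit 0) (nat_lit 1681788538) (nat_lit 1444) (nat_lit 4739967385) (nat_lit 1520) (nat_lit 2752647711) (nat_lit 406) (nat_lit 5) (nat_lit 425) (nat_lit 5) (nat_lit 426) (nat_lit 5) (nat_lit 287) (nat_lit 283) (nat_lit 210))))))))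
noncomputable def xc90 : XT := (XT.nd (nat_lit 2028) (nat_lit 9804) (nat_lit 0) (XT.nd (nat_lit 1014) (nat_lit 9652) (nat_lit 0) (XT.nd (nat_lit 468) (nat_lit 1368) (nat_lit 0) (XT.nd (nat_lit 234) (nat_lit 1292) (nat_lit 0) (XT.nd (nat_lit 78) (nat_lit 0) (nat_lit 76) (XT.lf (nat_lit 76) (nat_lit 1578847463) (nat_lit 0) (nat_lit 1559119277) (nat_lit 1520) (nat_lit 6152200354) (nat_lit 407) (nat_lit 5) (nat_lit 406) (nat_lit 5) (nat_lit 426) (nat_lit 5) (nat_lit 288) (nat_lit 283) (nat_lit 209)) (XT.nd (nat_lit 78) (nat_lit 0) (nat_lit 0) (XT.lf (nat_lit 0) (nat_lit 4645162423) (nat_lit 1444) (nat_lit 1308597979) (nat_lit 1520) (nat_lit 3455549571) (nat_lit 407) (nat_lit 5) (nat_lit 426) (nat_lit 5) (nat_lit 427) (nat_lit 5) (nat_lit 289) (nat_lit 283) (nat_lit 208)) (XT.lf (nat_lit 76) (nat_lit 5317030467) (nat_lit 0) (nat_lit 879476316) (nat_lit 1520) (nat_lit 3335593308) (nat_lit 408) (nat_lit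 5) (nat_lit 407) (nat_lit 5) (nat_lit 427) (nat_lit 5) (nat_lit 290) (nat_lit 283) (nat_lit 207)))) (XT.nd (nat_lit 78) (nat_lit 1444) (nat_lit 0) (XT.lf (nat_lit 76) (nat_lit 2476058258) (nat_lit 0) (nat_lit 5326811716) (nat_lit 1520) (nat_lit 1855584477) (nat_lit 409) (nat_lit 5) (nat_lit 408) (nat_lit 5) (nat_lit 428) (nat_lit 5) (nat_lit 291) (nat_lit 283) (nat_lit 206)) (XT.nd (nat_lit 78) (nat_lit 1444) (nat_lit 0) (XT.lf (nat_lit 76) (nat_lit 9391052020) (nat_lit 0) (nat_lit 57147293) (nat_lit 1520) (nat_lit 340633271) (nat_lit 409) (nat_lit 5) (nat_lit 408) (nat_lit 5) (nat_lit 428) (nat_lit 5) (nat_lit 292) (nat_lit 283) (nat_lit 205)) (XT.lf (nat_lit 0) (nat_lit 1239501785) (nat_lit 1520) (nat_lit 3317132924) (nat_lit 1596) (nat_lit 5365660609) (nat_lit 389) (nat_lit 5) (nat_lit 409) (nat_lit 5) (nat_lit 410) (nat_lit 5) (nat_lit 293) (nat_lit 283) (nat_lit 204))))) (XT.nd (nat_lit 234)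 (nat_lit 1444) (nat_lit 0) (XT.nd (nat_lit 78) (nat_lit 0) (nat_lit 0) (XT.lf (nat_lit 0) (nat_lit 2854614661) (nat_lit 1520) (nat_lit 6284136903) (nat_lit 1596) (nat_lit 921166263) (nat_lit 390) (nat_lit 5) (nat_lit 410) (nat_lit 5) (nat_lit 411) (nat_lit 5) (nat_lit 294) (nat_lit 283) (nat_lit 203)) (XT.nd (nat_lit 78) (nat_lit 0) (nat_lit 76) (XT.lf (nat_lit 76) (nat_lit 877196868) (nat_lit 0) (nat_lit 3659346591) (nat_lit 1596) (nat_lit 5664801948) (nat_lit 391) (nat_lit 5) (nat_lit 390) (nat_lit 5) (nat_lit 411) (nat_lit 5) (nat_lit 295) (nat_lit 283) (nat_lit 202)) (XT.lf (nat_lit 0) (nat_lit 6285306597) (nat_lit 1520) (nat_lit 2049719903) (nat_lit 1596) (nat_lit 2011704160) (nat_lit 391) (nat_lit 5) (nat_lit 411) (nat_lit 5) (nat_lit 412) (nat_lit 5) (nat_lit 296) (nat_lit 283) (nat_lit 201)))) (XT.nd (nat_lit 156) (nat_lit 1520) (nat_lit 0) (XT.nd (nat_lit 78) (nat_lit 0) (nat_lit 76)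 (XT.lf (nat_lit 76) (nat_lit 5461183299) (nat_lit 0) (nat_lit 2647052282) (nat_lit 1596) (nat_lit 2387848969) (nat_lit 392) (nat_lit 5) (nat_lit 391) (nat_lit 5) (nat_lit 412) (nat_lit 5) (nat_lit 297) (nat_lit 283) (nat_lit 200)) (XT.lf (nat_lit 76) (nat_lit 2559164181) (nat_lit 0) (nat_lit 7440897043) (nat_lit 1596) (nat_lit 649613602) (nat_lit 393) (nat_lit 5) (nat_lit 392) (nat_lit 5) (nat_lit 413) (nat_lit 5) (nat_lit 298) (nat_lit 283) (nat_lit 199))) (XT.nd (nat_lit 78) (nat_lit 0) (nat_lit 76) (XT.lf (nat_lit 0) (nat_lit 1141232013) (nat_lit 1596) (nat_lit 411889879) (nat_lit 1672) (nat_lit 9254332312) (nat_lit 371) (nat_lit 5) (nat_lit 392) (nat_lit 5) (nat_lit 393) (nat_lit 5) (nat_lit 299) (nat_lit 283) (nat_lit 198)) (XT.lf (nat_lit 0) (nat_lit 3020269969) (nat_lit 1596) (nat_lit 3435875250) (nat_lit 76) (nat_lit 4512906925) (nat_lit 372) (nat_lit 5) (nat_lit 393) (nat_lit 5) (nat_lit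 373) (nat_lit 5) (nat_lit 300) (nat_lit 283) (nat_lit 197)))))) (XT.nd (nat_lit 468) (nat_lit 3724) (nat_lit 0) (XT.nd (nat_lit 234) (nat_lit 2736) (nat_lit 0) (XT.nd (nat_lit 78) (nat_lit 1672) (nat_lit 0) (XT.lf (nat_lit 0) (nat_lit 4608030015) (nat_lit 1596) (nat_lit 356105662) (nat_lit 1672) (nat_lit 6171229049) (nat_lit 351) (nat_lit 5) (nat_lit 372) (nat_lit 5) (nat_lit 373) (nat_lit 5) (nat_lit 301) (nat_lit 283) (nat_lit 196)) (XT.nd (nat_lit 78) (nat_lit 0) (nat_lit 0) (XT.lf (nat_lit 0) (nat_lit 1587190920) (nat_lit 1672) (nat_lit 5417553432) (nat_lit 1748) (nat_lit 4301188586) (nat_lit 329) (nat_lit 5) (nat_lit 351) (nat_lit 5) (nat_lit 352) (nat_lit 5) (nat_lit 302) (nat_lit 283) (nat_lit 195)) (XT.lf (nat_lit 0) (nat_lit 9125905620) (nat_lit 1748) (nat_lit 1483628782) (nat_lit 76) (nat_lit 871730887) (nat_lit 329) (nat_lit 5) (nat_lit 352) (nat_lit 5) (nat_lit 330) (nat_lit 5) (nat_lit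 303) (nat_lit 283) (nat_lit 194)))) (XT.nd (nat_lit 78) (nat_lit 1748) (nat_lit 0) (XT.lf (nat_lit 0) (nat_lit 7025986974) (nat_lit 988) (nat_lit 4334552732) (nat_lit 1064) (nat_lit 300353940) (nat_lit 316) (nat_lit 5) (nat_lit 329) (nat_lit 5) (nat_lit 330) (nat_lit 5) (nat_lit 304) (nat_lit 283) (nat_lit 193)) (XT.nd (nat_lit 78) (nat_lit 836) (nat_lit 0) (XT.lf (nat_lit 0) (nat_lit 1811084195) (nat_lit 912) (nat_lit 7882436416) (nat_lit 76) (nat_lit 2151813539) (nat_lit 304) (nat_lit 5) (nat_lit 316) (nat_lit 5) (nat_lit 305) (nat_lit 5) (nat_lit 305) (nat_lit 283) (nat_lit 192)) (XT.lf (nat_lit 0) (nat_lit 798004051) (nat_lit 836) (nat_lit 3218844540) (nat_lit 912) (nat_lit 8017748602) (nat_lit 293) (nat_lit 5) (nat_lit 304) (nat_lit 5) (nat_lit 305) (nat_lit 5) (nat_lit 306) (nat_lit 283) (nat_lit 191))))) (XT.nd (nat_lit 234) (nat_lit 2204) (nat_lit 0) (XT.nd (nat_lit 78) (nat_lit 1520)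 (nat_lit 0) (XT.lf (nat_lit 0) (nat_lit 6334934661) (nat_lit 912) (nat_lit 2433305138) (nat_lit 76) (nat_lit 3460404779) (nat_lit 293) (nat_lit 5) (nat_lit 305) (nat_lit 5) (nat_lit 294) (nat_lit 5) (nat_lit 307) (nat_lit 283) (nat_lit 190)) (XT.nd (nat_lit 78) (nat_lit 760) (nat_lit 0) (XT.lf (nat_lit 0) (nat_lit 6672065701) (nat_lit 760) (nat_lit 2086198240) (nat_lit 836) (nat_lit 3669563996) (nat_lit 283) (nat_lit 5) (nat_lit 293) (nat_lit 5) (nat_lit 294) (nat_lit 5) (nat_lit 308) (nat_lit 283) (nat_lit 189)) (XT.lf (nat_lit 0) (nat_lit 3436929667) (nat_lit 760) (nat_lit 7858948528) (nat_lit 836) (nat_lit 1336304637) (nat_lit 273) (nat_lit 5) (nat_lit 283) (nat_lit 5) (nat_lit 284) (nat_lit 5) (nat_lit 309) (nat_lit 283) (nat_lit 188)))) (XT.nd (nat_lit 156) (nat_lit 1444) (nat_lit 0) (XT.nd (nat_lit 78) (nat_lit 0) (nat_lit 0) (XT.lf (nat_lit 0) (nat_lit 94313037) (nat_lit 684) (nat_lit 984441065)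 (nat_lit 760) (nat_lit 11763286225) (nat_lit 263) (nat_lit 5) (nat_lit 272) (nat_lit 5) (nat_lit 273) (nat_lit 5) (nat_lit 310) (nat_lit 283) (nat_lit 187)) (XT.lf (nat_lit 0) (nat_lit 3623122280) (nat_lit 760) (nat_lit 3345648355) (nat_lit 76) (nat_lit 6087771627) (nat_lit 263) (nat_lit 5) (nat_lit 273) (nat_lit 5) (nat_lit 264) (nat_lit 5) (nat_lit 311) (nat_lit 283) (nat_lit 186))) (XT.nd (nat_lit 78) (nat_lit 684) (nat_lit 0) (XT.lf (nat_lit 0) (nat_lit 6266084224) (nat_lit 836) (nat_lit 6889561738) (nat_lit 76) (nat_lit 121412922) (nat_lit 253) (nat_lit 5) (nat_lit 264) (nat_lit 5) (nat_lit 254) (nat_lit 5) (nat_lit 312) (nat_lit 283) (nat_lit 185)) (XT.lf (nat_lit 0) (nat_lit 2918746403) (nat_lit 684) (nat_lit 6131960688) (nat_lit 760) (nat_lit 4452260632) (nat_lit 244) (nat_lit 5) (nat_lit 253) (nat_lit 5) (nat_lit 254) (nat_lit 5) (nat_lit 313) (nat_lit 283) (nat_lit 184))))))) (XT.nd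 (nat_lit 1014) (nat_lit 4180) (nat_lit 0) (XT.nd (nat_lit 468) (nat_lit 2964) (nat_lit 0) (XT.nd (nat_lit 234) (nat_lit 1292) (nat_lit 0) (XT.nd (nat_lit 78) (nat_lit 1368) (nat_lit 0) (XT.lf (nat_lit 0) (nat_lit 11947589897) (nat_lit 760) (nat_lit 654128788) (nat_lit 76) (nat_lit 1133384172) (nat_lit 244) (nat_lit 5) (nat_lit 254) (nat_lit 5) (nat_lit 245) (nat_lit 5) (nat_lit 314) (nat_lit 283) (nat_lit 183)) (XT.nd (nat_lit 78) (nat_lit 608) (nat_lit 0) (XT.lf (nat_lit 0) (nat_lit 1023979901) (nat_lit 760) (nat_lit 4346942307) (nat_lit 76) (nat_lit 8601590743) (nat_lit 234) (nat_lit 5) (nat_lit 244) (nat_lit 5) (nat_lit 235) (nat_lit 5) (nat_lit 315) (nat_lit 283) (nat_lit 182)) (XT.lf (nat_lit 0) (nat_lit 3928902595) (nat_lit 684) (nat_lit 8183963581) (nat_lit 76) (nat_lit 2103297131) (nat_lit 226) (nat_lit 5) (nat_lit 235) (nat_lit 5) (nat_lit 227) (nat_lit 5) (nat_lit 316) (nat_lit 283)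 (nat_lit 181)))) (XT.nd (nat_lit 78) (nat_lit 608) (nat_lit 0) (XT.lf (nat_lit 0) (nat_lit 2282802286) (nat_lit 684) (nat_lit 4694759364) (nat_lit 760) (nat_lit 7488450796) (nat_lit 217) (nat_lit 5) (nat_lit 226) (nat_lit 5) (nat_lit 227) (nat_lit 5) (nat_lit 317) (nat_lit 283) (nat_lit 180)) (XT.nd (nat_lit 78) (nat_lit 608) (nat_lit 0) (XT.lf (nat_lit 0) (nat_lit 10169332907) (nat_lit 760) (nat_lit 1592888474) (nat_lit 76) (nat_lit 2960123059) (nat_lit 217) (nat_lit 5) (nat_lit 227) (nat_lit 5) (nat_lit 218) (nat_lit 5) (nat_lit 318) (nat_lit 283) (nat_lit 179)) (XT.lf (nat_lit 0) (nat_lit 9380815747) (nat_lit 608) (nat_lit 4145723935) (nat_lit 684) (nat_lit 1458452901) (nat_lit 209) (nat_lit 5) (nat_lit 217) (nat_lit 5) (nat_lit 218) (nat_lit 5) (nat_lit 319) (nat_lit 283) (nat_lit 178))))) (XT.nd (nat_lit 234) (nat_lit 1748) (nat_lit 0) (XT.nd (nat_lit 78) (nat_lit 532) (nat_lit 0) (XT.lf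 (nat_lit 0) (nat_lit 1754829386) (nat_lit 684) (nat_lit 9794193604) (nat_lit 76) (nat_lit 3705320305) (nat_lit 200) (nat_lit 5) (nat_lit 209) (nat_lit 5) (nat_lit 201) (nat_lit 5) (nat_lit 320) (nat_lit 283) (nat_lit 177)) (XT.nd (nat_lit 78) (nat_lit 0) (nat_lit 0) (XT.lf (nat_lit 0) (nat_lit 1356293125) (nat_lit 532) (nat_lit 3741440743) (nat_lit 608) (nat_lit 10432805418) (nat_lit 193) (nat_lit 5) (nat_lit 200) (nat_lit 5) (nat_lit 201) (nat_lit 5) (nat_lit 321) (nat_lit 283) (nat_lit 176)) (XT.lf (nat_lit 0) (nat_lit 8614266554) (nat_lit 608) (nat_lit 2892561702) (nat_lit 76) (nat_lit 4306743875) (nat_lit 193) (nat_lit 5) (nat_lit 201) (nat_lit 5) (nat_lit 194) (nat_lit 5) (nat_lit 322) (nat_lit 283) (nat_lit 175)))) (XT.nd (nat_lit 156) (nat_lit 608) (nat_lit 0) (XT.nd (nat_lit 78) (nat_lit 532) (nat_lit 0) (XT.lf (nat_lit 0) (nat_lit 8792758145) (nat_lit 608) (nat_lit 3504881256) (nat_lit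 684) (nat_lit 3806246956) (nat_lit 185) (nat_lit 5) (nat_lit 193) (nat_lit 5) (nat_lit 194) (nat_lit 5) (nat_lit 323) (nat_lit 283) (nat_lit 174)) (XT.lf (nat_lit 0) (nat_lit 4468329665) (nat_lit 532) (nat_lit 11682333419) (nat_lit 608) (nat_lit 251080708) (nat_lit 178) (nat_lit 5) (nat_lit 185) (nat_lit 5) (nat_lit 186) (nat_lit 5) (nat_lit 324) (nat_lit 283) (nat_lit 173))) (XT.nd (nat_lit 78) (nat_lit 532) (nat_lit 0) (XT.lf (nat_lit 0) (nat_lit 3419252767) (nat_lit 608) (nat_lit 77186276) (nat_lit 76) (nat_lit 13210606084) (nat_lit 177) (nat_lit 5) (nat_lit 185) (nat_lit 5) (nat_lit 178) (nat_lit 5) (nat_lit 325) (nat_lit 283) (nat_lit 172)) (XT.lf (nat_lit 0) (nat_lit 7289036705) (nat_lit 608) (nat_lit 4783112385) (nat_lit 76) (nat_lit 4947483687) (nat_lit 170) (nat_lit 5) (nat_lit 178) (nat_lit 5) (nat_lit 171) (nat_lit 5) (nat_lit 326) (nat_lit 283) (nat_lit 171)))))) (XT.nd (nat_lit 468)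 (nat_lit 1748) (nat_lit 0) (XT.nd (nat_lit 234) (nat_lit 1368) (nat_lit 0) (XT.nd (nat_lit 78) (nat_lit 608) (nat_lit 0) (XT.lf (nat_lit 0) (nat_lit 7631590963) (nat_lit 456) (nat_lit 3697682527) (nat_lit 532) (nat_lit 6011252433) (nat_lit 164) (nat_lit 5) (nat_lit 170) (nat_lit 5) (nat_lit 171) (nat_lit 5) (nat_lit 327) (nat_lit 283) (nat_lit 170)) (XT.nd (nat_lit 78) (nat_lit 76) (nat_lit 0) (XT.lf (nat_lit 0) (nat_lit 2794061261) (nat_lit 532) (nat_lit 12760689007) (nat_lit 608) (nat_lit 2115029548) (nat_lit 157) (nat_lit 5) (nat_lit 164) (nat_lit 5) (nat_lit 165) (nat_lit 5) (nat_lit 328) (nat_lit 283) (nat_lit 169)) (XT.lf (nat_lit 0) (nat_lit 1945666049) (nat_lit 608) (nat_lit 2264087670) (nat_lit 76) (nat_lit 13797475450) (nat_lit 156) (nat_lit 5) (nat_lit 164) (nat_lit 5) (nat_lit 157) (nat_lit 5) (nat_lit 329) (nat_lit 283) (nat_lit 168)))) (XT.nd (nat_lit 78) (nat_lit 912) (nat_lit 0)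 (XT.lf (nat_lit 0) (nat_lit 6182368596) (nat_lit 532) (nat_lit 7553418540) (nat_lit 76) (nat_lit 4617090341) (nat_lit 150) (nat_lit 5) (nat_lit 157) (nat_lit 5) (nat_lit 151) (nat_lit 5) (nat_lit 330) (nat_lit 283) (nat_lit 167)) (XT.nd (nat_lit 78) (nat_lit 456) (nat_lit 0) (XT.lf (nat_lit 0) (nat_lit 5599195489) (nat_lit 456) (nat_lit 5009328112) (nat_lit 532) (nat_lit 8099137719) (nat_lit 144) (nat_lit 5) (nat_lit 150) (nat_lit 5) (nat_lit 151) (nat_lit 5) (nat_lit 331) (nat_lit 283) (nat_lit 166)) (XT.lf (nat_lit 0) (nat_lit 130005485) (nat_lit 456) (nat_lit 15098387248) (nat_lit 532) (nat_lit 3843490082) (nat_lit 138) (nat_lit 5) (nat_lit 144) (nat_lit 5) (nat_lit 145) (nat_lit 5) (nat_lit 332) (nat_lit 283) (nat_lit 165))))) (XT.nd (nat_lit 234) (nat_lit 836) (nat_lit 0) (XT.nd (nat_lit 78) (nat_lit 836) (nat_lit 0) (XT.lf (nat_lit 0) (nat_lit 638620651) (nat_lit 532) (nat_lit 5560889111)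 (nat_lit 76) (nat_lit 13245345738) (nat_lit 137) (nat_lit 5) (nat_lit 144) (nat_lit 5) (nat_lit 138) (nat_lit 5) (nat_lit 333) (nat_lit 283) (nat_lit 164)) (XT.nd (nat_lit 78) (nat_lit 380) (nat_lit 0) (XT.lf (nat_lit 0) (nat_lit 5260249243) (nat_lit 532) (nat_lit 11565502990) (nat_lit 76) (nat_lit 3001623336) (nat_lit 131) (nat_lit 5) (nat_lit 138) (nat_lit 5) (nat_lit 132) (nat_lit 5) (nat_lit 334) (nat_lit 283) (nat_lit 163)) (XT.lf (nat_lit 0) (nat_lit 2321187947) (nat_lit 380) (nat_lit 7777555757) (nat_lit 456) (nat_lit 10121074615) (nat_lit 126) (nat_lit 5) (nat_lit 131) (nat_lit 5) (nat_lit 132) (nat_lit 5) (nat_lit 335) (nat_lit 283) (nat_lit 162)))) (XT.nd (nat_lit 156) (nat_lit 456) (nat_lit 0) (XT.nd (nat_lit 78) (nat_lit 380) (nat_lit 0) (XT.lf (nat_lit 0) (nat_lit 15155342092) (nat_lit 456) (nat_lit 3872499442) (nat_lit 76) (nat_lit 1594744925) (nat_lit 126) (nat_lit 5) (nat_lit 132)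 (nat_lit 5) (nat_lit 127) (nat_lit 5) (nat_lit 336) (nat_lit 283) (nat_lit 161)) (XT.lf (nat_lit 0) (nat_lit 10640311010) (nat_lit 380) (nat_lit 9828934335) (nat_lit 456) (nat_lit 566090922) (nat_lit 121) (nat_lit 5) (nat_lit 126) (nat_lit 5) (nat_lit 127) (nat_lit 5) (nat_lit 337) (nat_lit 283) (nat_lit 160))) (XT.nd (nat_lit 78) (nat_lit 0) (nat_lit 0) (XT.lf (nat_lit 0) (nat_lit 4185686595) (nat_lit 380) (nat_lit 275931415) (nat_lit 456) (nat_lit 16997512702) (nat_lit 115) (nat_lit 5) (nat_lit 120) (nat_lit 5) (nat_lit 121) (nat_lit 5) (nat_lit 338) (nat_lit 283) (nat_lit 159)) (XT.lf (nat_lit 0) (nat_lit 9750492068) (nat_lit 456) (nat_lit 2635892332) (nat_lit 76) (nat_lit 9506829205) (nat_lit 115) (nat_lit 5) (nat_lit 121) (nat_lit 5) (nat_lit 116) (nat_lit 5) (nat_lit 339) (nat_lit 283) (nat_lit 158))))))))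
noncomputable def xc91 : XT := (XT.nd (nat_lit 36972) (nat_lit 0) (nat_lit 11400) (XT.nd (nat_lit 1014) (nat_lit 608) (nat_lit 0) (XT.nd (nat_lit 468) (nat_lit 1596) (nat_lit 0) (XT.nd (nat_lit 234) (nat_lit 684) (nat_lit 0) (XT.nd (nat_lit 78) (nat_lit 380) (nat_lit 0) (XT.lf (nat_lit 0) (nat_lit 12583170432) (nat_lit 380) (nat_lit 2683823801) (nat_lit 456) (nat_lit 7071955171) (nat_lit 110) (nat_lit 5) (nat_lit 115) (nat_lit 5) (nat_lit 116) (nat_lit 5) (nat_lit 340) (nat_lit 283) (nat_lit 157)) (XT.nd (nat_lit 78) (nat_lit 76) (nat_lit 0) (XT.lf (nat_lit 0) (nat_lit 5501035708) (nat_lit 304) (nat_lit 15534782304) (nat_lit 380) (nat_lit 1760512112) (nat_lit 106) (nat_lit 5) (nat_lit 110) (nat_lit 5) (nat_lit 111) (nat_lit 5) (nat_lit 341) (nat_lit 283) (nat_lit 156)) (XT.lf (nat_lit 0) (nat_lit 3731960417) (nat_lit 380) (nat_lit 1980071169) (nat_lit 76) (nat_lit 17553520870) (nat_lit 105) (nat_lit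 5) (nat_lit 110) (nat_lit 5) (nat_lit 106) (nat_lit 5) (nat_lit 342) (nat_lit 283) (nat_lit 155)))) (XT.nd (nat_lit 78) (nat_lit 304) (nat_lit 0) (XT.lf (nat_lit 0) (nat_lit 9471475135) (nat_lit 456) (nat_lit 9830571606) (nat_lit 76) (nat_lit 4444456914) (nat_lit 100) (nat_lit 5) (nat_lit 106) (nat_lit 5) (nat_lit 101) (nat_lit 5) (nat_lit 343) (nat_lit 283) (nat_lit 154)) (XT.nd (nat_lit 78) (nat_lit 0) (nat_lit 0) (XT.lf (nat_lit 0) (nat_lit 6096074053) (nat_lit 304) (nat_lit 9364883719) (nat_lit 380) (nat_lit 8779378379) (nat_lit 96) (nat_lit 5) (nat_lit 100) (nat_lit 5) (nat_lit 101) (nat_lit 5) (nat_lit 344) (nat_lit 283) (nat_lit 153)) (XT.lf (nat_lit 0) (nat_lit 21689554766) (nat_lit 380) (nat_lit 2138464349) (nat_lit 76) (nat_lit 919784078) (nat_lit 96) (nat_lit 5) (nat_lit 101) (nat_lit 5) (nat_lit 97) (nat_lit 5) (nat_lit 345) (nat_lit 283) (nat_lit 152))))) (XT.nd (nat_lit 234) (nat_lit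 912) (nat_lit 0) (XT.nd (nat_lit 78) (nat_lit 304) (nat_lit 0) (XT.lf (nat_lit 0) (nat_lit 2941872665) (nat_lit 380) (nat_lit 10831746994) (nat_lit 76) (nat_lit 11493623642) (nat_lit 91) (nat_lit 5) (nat_lit 96) (nat_lit 5) (nat_lit 92) (nat_lit 5) (nat_lit 346) (nat_lit 283) (nat_lit 151)) (XT.nd (nat_lit 78) (nat_lit 0) (nat_lit 0) (XT.lf (nat_lit 0) (nat_lit 5770007248) (nat_lit 304) (nat_lit 3349997543) (nat_lit 380) (nat_lit 16681073927) (nat_lit 87) (nat_lit 5) (nat_lit 91) (nat_lit 5) (nat_lit 92) (nat_lit 5) (nat_lit 347) (nat_lit 283) (nat_lit 150)) (XT.lf (nat_lit 0) (nat_lit 15592801778) (nat_lit 380) (nat_lit 3398820047) (nat_lit 76) (nat_lit 7357128285) (nat_lit 87) (nat_lit 5) (nat_lit 92) (nat_lit 5) (nat_lit 88) (nat_lit 5) (nat_lit 348) (nat_lit 283) (nat_lit 149)))) (XT.nd (nat_lit 156) (nat_lit 304) (nat_lit 0) (XT.nd (nat_lit 78) (nat_lit 304) (nat_lit 0) (XT.lf (nat_lit 0)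 (nat_lit 13873506275) (nat_lit 304) (nat_lit 8486598519) (nat_lit 380) (nat_lit 4550747519) (nat_lit 83) (nat_lit 5) (nat_lit 87) (nat_lit 5) (nat_lit 88) (nat_lit 5) (nat_lit 349) (nat_lit 283) (nat_lit 148)) (XT.lf (nat_lit 0) (nat_lit 1870743333) (nat_lit 304) (nat_lit 23257887224) (nat_lit 76) (nat_lit 2359869310) (nat_lit 79) (nat_lit 5) (nat_lit 83) (nat_lit 5) (nat_lit 80) (nat_lit 5) (nat_lit 350) (nat_lit 283) (nat_lit 147))) (XT.nd (nat_lit 78) (nat_lit 304) (nat_lit 0) (XT.lf (nat_lit 0) (nat_lit 8557274356) (nat_lit 304) (nat_lit 5992629018) (nat_lit 76) (nat_lit 13530293994) (nat_lit 79) (nat_lit 5) (nat_lit 83) (nat_lit 5) (nat_lit 80) (nat_lit 5) (nat_lit 351) (nat_lit 283) (nat_lit 146)) (XT.lf (nat_lit 0) (nat_lit 11929358309) (nat_lit 304) (nat_lit 3581026353) (nat_lit 380) (nat_lit 13177947848) (nat_lit 75) (nat_lit 5) (nat_lit 79) (nat_lit 5) (nat_lit 80) (nat_lit 5) (nat_lit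 352) (nat_lit 283) (nat_lit 145)))))) (XT.nd (nat_lit 35412) (nat_lit 0) (nat_lit 24396) (XT.nd (nat_lit 234) (nat_lit 0) (nat_lit 0) (XT.nd (nat_lit 78) (nat_lit 380) (nat_lit 0) (XT.lf (nat_lit 0) (nat_lit 1103647372) (nat_lit 228) (nat_lit 21655297979) (nat_lit 304) (nat_lit 6554035411) (nat_lit 72) (nat_lit 5) (nat_lit 75) (nat_lit 5) (nat_lit 76) (nat_lit 5) (nat_lit 353) (nat_lit 283) (nat_lit 144)) (XT.nd (nat_lit 78) (nat_lit 304) (nat_lit 0) (XT.lf (nat_lit 0) (nat_lit 392184262) (nat_lit 304) (nat_lit 10266451376) (nat_lit 76) (nat_lit 19295161594) (nat_lit 71) (nat_lit 5) (nat_lit 75) (nat_lit 5) (nat_lit 72) (nat_lit 5) (nat_lit 354) (nat_lit 283) (nat_lit 143)) (XT.lf (nat_lit 0) (nat_lit 7506014421) (nat_lit 380) (nat_lit 22354753389) (nat_lit 76) (nat_lit 751244318) (nat_lit 67) (nat_lit 5) (nat_lit 72) (nat_lit 5) (nat_lit 68) (nat_lit 5) (nat_lit 355) (nat_lit 283) (nat_lit 142))))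 (XT.nd (nat_lit 35022) (nat_lit 0) (nat_lit 25612) (XT.lf (nat_lit 0) (nat_lit 14963908955) (nat_lit 380) (nat_lit 3899965465) (nat_lit 76) (nat_lit 12423491622) (nat_lit 67) (nat_lit 5) (nat_lit 72) (nat_lit 5) (nat_lit 68) (nat_lit 5) (nat_lit 356) (nat_lit 283) (nat_lit 141)) (XT.nd (nat_lit 78) (nat_lit 1444) (nat_lit 0) (XT.lf (nat_lit 0) (nat_lit 3852150060) (nat_lit 1444) (nat_lit 311807882) (nat_lit 1444) (nat_lit 311807882) (nat_lit 423) (nat_lit 3) (nat_lit 442) (nat_lit 3) (nat_lit 442) (nat_lit 5) (nat_lit 284) (nat_lit 284) (nat_lit 212)) (XT.lf (nat_lit 0) (nat_lit 67093195) (nat_lit 1444) (nat_lit 3630483364) (nat_lit 1520) (nat_lit 5360618808) (nat_lit 404) (nat_lit 5) (nat_lit 423) (nat_lit 3) (nat_lit 424) (nat_lit 5) (nat_lit 285) (nat_lit 284) (nat_lit 211))))) (XT.nd (nat_lit 234) (nat_lit 1292) (nat_lit 0) (XT.nd (nat_lit 78) (nat_lit 0) (nat_lit 0) (XT.lf (nat_lit 0) (nat_lit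 1381622733) (nat_lit 1444) (nat_lit 6676683738) (nat_lit 1520) (nat_lit 1110089639) (nat_lit 405) (nat_lit 5) (nat_lit 424) (nat_lit 5) (nat_lit 425) (nat_lit 5) (nat_lit 286) (nat_lit 284) (nat_lit 210)) (XT.nd (nat_lit 78) (nat_lit 0) (nat_lit 76) (XT.lf (nat_lit 0) (nat_lit 2736361092) (nat_lit 1444) (nat_lit 486173007) (nat_lit 1520) (nat_lit 6059408071) (nat_lit 405) (nat_lit 5) (nat_lit 424) (nat_lit 5) (nat_lit 425) (nat_lit 5) (nat_lit 287) (nat_lit 284) (nat_lit 209)) (XT.lf (nat_lit 0) (nat_lit 4134826581) (nat_lit 1444) (nat_lit 3469301283) (nat_lit 1520) (nat_lit 1794758205) (nat_lit 406) (nat_lit 5) (nat_lit 425) (nat_lit 5) (nat_lit 426) (nat_lit 5) (nat_lit 288) (nat_lit 284) (nat_lit 208)))) (XT.nd (nat_lit 156) (nat_lit 1368) (nat_lit 0) (XT.nd (nat_lit 78) (nat_lit 0) (nat_lit 76) (XT.lf (nat_lit 76) (nat_lit 3016155952) (nat_lit 0) (nat_lit 2557580423) (nat_lit 1520) (nat_lit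 3945683714) (nat_lit 407) (nat_lit 5) (nat_lit 406) (nat_lit 5) (nat_lit 426) (nat_lit 5) (nat_lit 289) (nat_lit 284) (nat_lit 207)) (XT.lf (nat_lit 76) (nat_lit 56353133) (nat_lit 0) (nat_lit 6995958826) (nat_lit 1520) (nat_lit 2591378307) (nat_lit 408) (nat_lit 5) (nat_lit 407) (nat_lit 5) (nat_lit 427) (nat_lit 5) (nat_lit 290) (nat_lit 284) (nat_lit 206))) (XT.nd (nat_lit 78) (nat_lit 1444) (nat_lit 0) (XT.lf (nat_lit 76) (nat_lit 6857241720) (nat_lit 0) (nat_lit 1735511857) (nat_lit 1520) (nat_lit 1178633445) (nat_lit 408) (nat_lit 5) (nat_lit 407) (nat_lit 5) (nat_lit 427) (nat_lit 5) (nat_lit 291) (nat_lit 284) (nat_lit 205)) (XT.lf (nat_lit 0) (nat_lit 280311990) (nat_lit 1520) (nat_lit 5944799049) (nat_lit 1596) (nat_lit 3677665152) (nat_lit 388) (nat_lit 5) (nat_lit 408) (nat_lit 5) (nat_lit 409) (nat_lit 5) (nat_lit 292) (nat_lit 284) (nat_lit 204))))))) (XT.nd (nat_lit 1014) (nat_lit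 7448) (nat_lit 0) (XT.nd (nat_lit 468) (nat_lit 5548) (nat_lit 0) (XT.nd (nat_lit 234) (nat_lit 0) (nat_lit 152) (XT.nd (nat_lit 78) (nat_lit 0) (nat_lit 76) (XT.lf (nat_lit 76) (nat_lit 1004436292) (nat_lit 0) (nat_lit 759230112) (nat_lit 1596) (nat_lit 8274396699) (nat_lit 389) (nat_lit 5) (nat_lit 388) (nat_lit 5) (nat_lit 409) (nat_lit 5) (nat_lit 293) (nat_lit 284) (nat_lit 203)) (XT.nd (nat_lit 78) (nat_lit 0) (nat_lit 76) (XT.lf (nat_lit 0) (nat_lit 3323369621) (nat_lit 1520) (nat_lit 1993020732) (nat_lit 1596) (nat_lit 4860424953) (nat_lit 389) (nat_lit 5) (nat_lit 409) (nat_lit 5) (nat_lit 410) (nat_lit 5) (nat_lit 294) (nat_lit 284) (nat_lit 202)) (XT.lf (nat_lit 0) (nat_lit 4932549676) (nat_lit 1520) (nat_lit 5026190248) (nat_lit 1596) (nat_lit 360978809) (nat_lit 390) (nat_lit 5) (nat_lit 410) (nat_lit 5) (nat_lit 411) (nat_lit 5) (nat_lit 295) (nat_lit 284) (nat_lit 201)))) (XT.nd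 (nat_lit 78) (nat_lit 0) (nat_lit 76) (XT.lf (nat_lit 76) (nat_lit 2326516266) (nat_lit 0) (nat_lit 4289631099) (nat_lit 1596) (nat_lit 3850280197) (nat_lit 391) (nat_lit 5) (nat_lit 390) (nat_lit 5) (nat_lit 411) (nat_lit 5) (nat_lit 296) (nat_lit 284) (nat_lit 200)) (XT.nd (nat_lit 78) (nat_lit 0) (nat_lit 0) (XT.lf (nat_lit 0) (nat_lit 8357485352) (nat_lit 1520) (nat_lit 686608435) (nat_lit 1596) (nat_lit 1573339163) (nat_lit 391) (nat_lit 5) (nat_lit 411) (nat_lit 5) (nat_lit 412) (nat_lit 5) (nat_lit 297) (nat_lit 284) (nat_lit 199)) (XT.lf (nat_lit 76) (nat_lit 7026509371) (nat_lit 0) (nat_lit 3162829537) (nat_lit 1596) (nat_lit 582902863) (nat_lit 392) (nat_lit 5) (nat_lit 391) (nat_lit 5) (nat_lit 412) (nat_lit 5) (nat_lit 298) (nat_lit 284) (nat_lit 198))))) (XT.nd (nat_lit 234) (nat_lit 4256) (nat_lit 0) (XT.nd (nat_lit 78) (nat_lit 0) (nat_lit 0) (XT.lf (nat_lit 0) (nat_lit 1144211778)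 (nat_lit 1596) (nat_lit 6883389640) (nat_lit 1672) (nat_lit 2903686372) (nat_lit 371) (nat_lit 5) (nat_lit 392) (nat_lit 5) (nat_lit 393) (nat_lit 5) (nat_lit 299) (nat_lit 284) (nat_lit 197)) (XT.nd (nat_lit 78) (nat_lit 0) (nat_lit 76) (XT.lf (nat_lit 76) (nat_lit 992156089) (nat_lit 0) (nat_lit 1941733646) (nat_lit 1672) (nat_lit 8160800849) (nat_lit 372) (nat_lit 5) (nat_lit 371) (nat_lit 5) (nat_lit 393) (nat_lit 5) (nat_lit 300) (nat_lit 284) (nat_lit 196)) (XT.lf (nat_lit 0) (nat_lit 4818654508) (nat_lit 1596) (nat_lit 2120227358) (nat_lit 76) (nat_lit 4323320457) (nat_lit 372) (nat_lit 5) (nat_lit 393) (nat_lit 5) (nat_lit 373) (nat_lit 5) (nat_lit 301) (nat_lit 284) (nat_lit 195)))) (XT.nd (nat_lit 156) (nat_lit 1064) (nat_lit 0) (XT.nd (nat_lit 78) (nat_lit 1672) (nat_lit 0) (XT.lf (nat_lit 0) (nat_lit 6141977951) (nat_lit 1596) (nat_lit 638179031) (nat_lit 1672) (nat_lit 4654212317)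 (nat_lit 351) (nat_lit 5) (nat_lit 372) (nat_lit 5) (nat_lit 373) (nat_lit 5) (nat_lit 302) (nat_lit 284) (nat_lit 194)) (XT.lf (nat_lit 0) (nat_lit 3044091073) (nat_lit 1672) (nat_lit 5796775899) (nat_lit 1748) (nat_lit 2770059858) (nat_lit 329) (nat_lit 5) (nat_lit 351) (nat_lit 5) (nat_lit 352) (nat_lit 5) (nat_lit 303) (nat_lit 284) (nat_lit 193))) (XT.nd (nat_lit 78) (nat_lit 1064) (nat_lit 0) (XT.lf (nat_lit 0) (nat_lit 10976938475) (nat_lit 1748) (nat_lit 125345941) (nat_lit 76) (nat_lit 690257708) (nat_lit 329) (nat_lit 5) (nat_lit 352) (nat_lit 5) (nat_lit 330) (nat_lit 5) (nat_lit 304) (nat_lit 284) (nat_lit 192)) (XT.lf (nat_lit 0) (nat_lit 1246717973) (nat_lit 1064) (nat_lit 3369748423) (nat_lit 76) (nat_lit 7361715551) (nat_lit 315) (nat_lit 5) (nat_lit 329) (nat_lit 5) (nat_lit 316) (nat_lit 5) (nat_lit 305) (nat_lit 284) (nat_lit 191)))))) (XT.nd (nat_lit 546) (nat_lit 3496) (nat_lit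 0) (XT.nd (nat_lit 234) (nat_lit 2280) (nat_lit 0) (XT.nd (nat_lit 78) (nat_lit 836) (nat_lit 0) (XT.lf (nat_lit 0) (nat_lit 3380308417) (nat_lit 912) (nat_lit 6706767585) (nat_lit 76) (nat_lit 2081826962) (nat_lit 304) (nat_lit 5) (nat_lit 316) (nat_lit 5) (nat_lit 305) (nat_lit 5) (nat_lit 306) (nat_lit 284) (nat_lit 190)) (XT.nd (nat_lit 78) (nat_lit 0) (nat_lit 0) (XT.lf (nat_lit 0) (nat_lit 2211175771) (nat_lit 836) (nat_lit 3405966728) (nat_lit 912) (nat_lit 6747446961) (nat_lit 293) (nat_lit 5) (nat_lit 304) (nat_lit 5) (nat_lit 305) (nat_lit 5) (nat_lit 307) (nat_lit 284) (nat_lit 189)) (XT.lf (nat_lit 0) (nat_lit 7961099686) (nat_lit 912) (nat_lit 1126823514) (nat_lit 76) (nat_lit 3477450726) (nat_lit 293) (nat_lit 5) (nat_lit 305) (nat_lit 5) (nat_lit 294) (nat_lit 5) (nat_lit 308) (nat_lit 284) (nat_lit 188)))) (XT.nd (nat_lit 156) (nat_lit 684) (nat_lit 0) (XT.nd (nat_lit 78) (nat_lit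 836) (nat_lit 0) (XT.lf (nat_lit 0) (nat_lit 8229328014) (nat_lit 760) (nat_lit 2194783376) (nat_lit 836) (nat_lit 2347122744) (nat_lit 283) (nat_lit 5) (nat_lit 293) (nat_lit 5) (nat_lit 294) (nat_lit 5) (nat_lit 309) (nat_lit 284) (nat_lit 187)) (XT.lf (nat_lit 0) (nat_lit 22846186) (nat_lit 836) (nat_lit 8078190195) (nat_lit 76) (nat_lit 4881366070) (nat_lit 272) (nat_lit 5) (nat_lit 283) (nat_lit 5) (nat_lit 273) (nat_lit 5) (nat_lit 310) (nat_lit 284) (nat_lit 186))) (XT.nd (nat_lit 78) (nat_lit 0) (nat_lit 0) (XT.lf (nat_lit 0) (nat_lit 1458673035) (nat_lit 684) (nat_lit 1002243177) (nat_lit 760) (nat_lit 10738126395) (nat_lit 263) (nat_lit 5) (nat_lit 272) (nat_lit 5) (nat_lit 273) (nat_lit 5) (nat_lit 311) (nat_lit 284) (nat_lit 185)) (XT.lf (nat_lit 0) (nat_lit 5042374834) (nat_lit 760) (nat_lit 2096781524) (nat_lit 76) (nat_lit 6281644839) (nat_lit 263) (nat_lit 5) (nat_lit 273) (nat_lit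 5) (nat_lit 264) (nat_lit 5) (nat_lit 312) (nat_lit 284) (nat_lit 184))))) (XT.nd (nat_lit 234) (nat_lit 1368) (nat_lit 0) (XT.nd (nat_lit 78) (nat_lit 1368) (nat_lit 0) (XT.lf (nat_lit 0) (nat_lit 7735372911) (nat_lit 836) (nat_lit 5742392393) (nat_lit 76) (nat_lit 170788781) (nat_lit 253) (nat_lit 5) (nat_lit 264) (nat_lit 5) (nat_lit 254) (nat_lit 5) (nat_lit 313) (nat_lit 284) (nat_lit 183)) (XT.nd (nat_lit 78) (nat_lit 684) (nat_lit 0) (XT.lf (nat_lit 0) (nat_lit 4338200284) (nat_lit 684) (nat_lit 6236662106) (nat_lit 760) (nat_lit 3306985914) (nat_lit 244) (nat_lit 5) (nat_lit 253) (nat_lit 5) (nat_lit 254) (nat_lit 5) (nat_lit 314) (nat_lit 284) (nat_lit 182)) (XT.lf (nat_lit 0) (nat_lit 652853668) (nat_lit 684) (nat_lit 12874051885) (nat_lit 760) (nat_lit 594710523) (nat_lit 235) (nat_lit 5) (nat_lit 244) (nat_lit 5) (nat_lit 245) (nat_lit 5) (nat_lit 315) (nat_lit 284) (nat_lit 181))))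 (XT.nd (nat_lit 156) (nat_lit 684) (nat_lit 0) (XT.nd (nat_lit 78) (nat_lit 608) (nat_lit 0) (XT.lf (nat_lit 0) (nat_lit 2253284384) (nat_lit 760) (nat_lit 3163693620) (nat_lit 76) (nat_lit 8949670571) (nat_lit 234) (nat_lit 5) (nat_lit 244) (nat_lit 5) (nat_lit 235) (nat_lit 5) (nat_lit 316) (nat_lit 284) (nat_lit 180)) (XT.lf (nat_lit 0) (nat_lit 5219616202) (nat_lit 684) (nat_lit 7113440720) (nat_lit 76) (nat_lit 2285097401) (nat_lit 226) (nat_lit 5) (nat_lit 235) (nat_lit 5) (nat_lit 227) (nat_lit 5) (nat_lit 317) (nat_lit 284) (nat_lit 179))) (XT.nd (nat_lit 78) (nat_lit 0) (nat_lit 0) (XT.lf (nat_lit 0) (nat_lit 3645976909) (nat_lit 684) (nat_lit 4688003530) (nat_lit 760) (nat_lit 6542063789) (nat_lit 217) (nat_lit 5) (nat_lit 226) (nat_lit 5) (nat_lit 227) (nat_lit 5) (nat_lit 318) (nat_lit 284) (nat_lit 178)) (XT.lf (nat_lit 0) (nat_lit 11589024785) (nat_lit 760) (nat_lit 361373345) (nat_lit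 76) (nat_lit 3190346977) (nat_lit 217) (nat_lit 5) (nat_lit 227) (nat_lit 5) (nat_lit 218) (nat_lit 5) (nat_lit 319) (nat_lit 284) (nat_lit 177))))))))
noncomputable def xc92 : XT := (XT.nd (nat_lit 2028) (nat_lit 2204) (nat_lit 0) (XT.nd (nat_lit 1014) (nat_lit 3648) (nat_lit 0) (XT.nd (nat_lit 468) (nat_lit 2508) (nat_lit 0) (XT.nd (nat_lit 234) (nat_lit 1216) (nat_lit 0) (XT.nd (nat_lit 78) (nat_lit 1216) (nat_lit 0) (XT.lf (nat_lit 0) (nat_lit 10920786851) (nat_lit 608) (nat_lit 4101867809) (nat_lit 684) (nat_lit 389132366) (nat_lit 209) (nat_lit 5) (nat_lit 217) (nat_lit 5) (nat_lit 218) (nat_lit 5) (nat_lit 320) (nat_lit 284) (nat_lit 176)) (XT.nd (nat_lit 78) (nat_lit 532) (nat_lit 0) (XT.lf (nat_lit 0) (nat_lit 2883254506) (nat_lit 684) (nat_lit 8813379766) (nat_lit 76) (nat_lit 3992920463) (nat_lit 200) (nat_lit 5) (nat_lit 209) (nat_lit 5) (nat_lit 201) (nat_lit 5) (nat_lit 321) (nat_lit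 284) (nat_lit 175)) (XT.lf (nat_lit 0) (nat_lit 2650942052) (nat_lit 532) (nat_lit 3652312207) (nat_lit 608) (nat_lit 9671272492) (nat_lit 193) (nat_lit 5) (nat_lit 200) (nat_lit 5) (nat_lit 201) (nat_lit 5) (nat_lit 322) (nat_lit 284) (nat_lit 174)))) (XT.nd (nat_lit 78) (nat_lit 1216) (nat_lit 0) (XT.lf (nat_lit 0) (nat_lit 9895894369) (nat_lit 608) (nat_lit 1741880876) (nat_lit 76) (nat_lit 4628888650) (nat_lit 193) (nat_lit 5) (nat_lit 201) (nat_lit 5) (nat_lit 194) (nat_lit 5) (nat_lit 323) (nat_lit 284) (nat_lit 173)) (XT.nd (nat_lit 78) (nat_lit 608) (nat_lit 0) (XT.lf (nat_lit 0) (nat_lit 10273922286) (nat_lit 608) (nat_lit 3393948227) (nat_lit 684) (nat_lit 2898279790) (nat_lit 185) (nat_lit 5) (nat_lit 193) (nat_lit 5) (nat_lit 194) (nat_lit 5) (nat_lit 324) (nat_lit 284) (nat_lit 172)) (XT.lf (nat_lit 0) (nat_lit 733469880) (nat_lit 608) (nat_lit 11059046488) (nat_lit 76) (nat_lit 5080752700)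 (nat_lit 177) (nat_lit 5) (nat_lit 185) (nat_lit 5) (nat_lit 178) (nat_lit 5) (nat_lit 325) (nat_lit 284) (nat_lit 171))))) (XT.nd (nat_lit 234) (nat_lit 1520) (nat_lit 0) (XT.nd (nat_lit 78) (nat_lit 456) (nat_lit 0) (XT.lf (nat_lit 0) (nat_lit 1130166074) (nat_lit 532) (nat_lit 3358896483) (nat_lit 608) (nat_lit 12699085402) (nat_lit 170) (nat_lit 5) (nat_lit 177) (nat_lit 5) (nat_lit 178) (nat_lit 5) (nat_lit 326) (nat_lit 284) (nat_lit 170)) (XT.nd (nat_lit 78) (nat_lit 456) (nat_lit 0) (XT.lf (nat_lit 0) (nat_lit 8448807577) (nat_lit 608) (nat_lit 3733143677) (nat_lit 76) (nat_lit 5328706883) (nat_lit 170) (nat_lit 5) (nat_lit 178) (nat_lit 5) (nat_lit 171) (nat_lit 5) (nat_lit 327) (nat_lit 284) (nat_lit 169)) (XT.lf (nat_lit 0) (nat_lit 9034638267) (nat_lit 456) (nat_lit 3555825557) (nat_lit 532) (nat_lit 5251131604) (nat_lit 164) (nat_lit 5) (nat_lit 170) (nat_lit 5) (nat_lit 171) (nat_lit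 5) (nat_lit 328) (nat_lit 284) (nat_lit 168)))) (XT.nd (nat_lit 156) (nat_lit 912) (nat_lit 0) (XT.nd (nat_lit 78) (nat_lit 76) (nat_lit 0) (XT.lf (nat_lit 0) (nat_lit 4050155313) (nat_lit 532) (nat_lit 12874919889) (nat_lit 608) (nat_lit 1256025304) (nat_lit 157) (nat_lit 5) (nat_lit 164) (nat_lit 5) (nat_lit 165) (nat_lit 5) (nat_lit 329) (nat_lit 284) (nat_lit 167)) (XT.lf (nat_lit 0) (nat_lit 2887877744) (nat_lit 608) (nat_lit 1181470757) (nat_lit 76) (nat_lit 14459755320) (nat_lit 156) (nat_lit 5) (nat_lit 164) (nat_lit 5) (nat_lit 157) (nat_lit 5) (nat_lit 330) (nat_lit 284) (nat_lit 166))) (XT.nd (nat_lit 78) (nat_lit 456) (nat_lit 0) (XT.lf (nat_lit 0) (nat_lit 7235017092) (nat_lit 532) (nat_lit 6631922544) (nat_lit 76) (nat_lit 5018534610) (nat_lit 150) (nat_lit 5) (nat_lit 157) (nat_lit 5) (nat_lit 151) (nat_lit 5) (nat_lit 331) (nat_lit 284) (nat_lit 165)) (XT.lf (nat_lit 0) (nat_lit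 6896643371) (nat_lit 456) (nat_lit 4879389061) (nat_lit 532) (nat_lit 7475246472) (nat_lit 144) (nat_lit 5) (nat_lit 150) (nat_lit 5) (nat_lit 151) (nat_lit 5) (nat_lit 332) (nat_lit 284) (nat_lit 164)))))) (XT.nd (nat_lit 468) (nat_lit 1824) (nat_lit 0) (XT.nd (nat_lit 234) (nat_lit 836) (nat_lit 0) (XT.nd (nat_lit 78) (nat_lit 532) (nat_lit 0) (XT.lf (nat_lit 0) (nat_lit 1260589993) (nat_lit 456) (nat_lit 15258253676) (nat_lit 532) (nat_lit 3107914723) (nat_lit 138) (nat_lit 5) (nat_lit 144) (nat_lit 5) (nat_lit 145) (nat_lit 5) (nat_lit 333) (nat_lit 284) (nat_lit 163)) (XT.nd (nat_lit 78) (nat_lit 456) (nat_lit 0) (XT.lf (nat_lit 0) (nat_lit 1473042004) (nat_lit 532) (nat_lit 4622433480) (nat_lit 76) (nat_lit 13915840829) (nat_lit 137) (nat_lit 5) (nat_lit 144) (nat_lit 5) (nat_lit 138) (nat_lit 5) (nat_lit 334) (nat_lit 284) (nat_lit 162)) (XT.lf (nat_lit 0) (nat_lit 6218508647) (nat_lit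 532) (nat_lit 10810458321) (nat_lit 76) (nat_lit 3376658115) (nat_lit 131) (nat_lit 5) (nat_lit 138) (nat_lit 5) (nat_lit 132) (nat_lit 5) (nat_lit 335) (nat_lit 284) (nat_lit 161)))) (XT.nd (nat_lit 78) (nat_lit 456) (nat_lit 0) (XT.lf (nat_lit 0) (nat_lit 3474954545) (nat_lit 380) (nat_lit 7710928160) (nat_lit 456) (nat_lit 9624300305) (nat_lit 126) (nat_lit 5) (nat_lit 131) (nat_lit 5) (nat_lit 132) (nat_lit 5) (nat_lit 336) (nat_lit 284) (nat_lit 160)) (XT.nd (nat_lit 78) (nat_lit 456) (nat_lit 0) (XT.lf (nat_lit 0) (nat_lit 16373229725) (nat_lit 456) (nat_lit 2922253729) (nat_lit 76) (nat_lit 1929985637) (nat_lit 126) (nat_lit 5) (nat_lit 132) (nat_lit 5) (nat_lit 127) (nat_lit 5) (nat_lit 337) (nat_lit 284) (nat_lit 159)) (XT.lf (nat_lit 0) (nat_lit 177843078) (nat_lit 456) (nat_lit 9643455604) (nat_lit 76) (nat_lit 11829603127) (nat_lit 120) (nat_lit 5) (nat_lit 126) (nat_lit 5) (nat_lit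 121) (nat_lit 5) (nat_lit 338) (nat_lit 284) (nat_lit 158))))) (XT.nd (nat_lit 234) (nat_lit 1064) (nat_lit 0) (XT.nd (nat_lit 78) (nat_lit 380) (nat_lit 0) (XT.lf (nat_lit 0) (nat_lit 5333695243) (nat_lit 456) (nat_lit 16734082661) (nat_lit 76) (nat_lit 19871993) (nat_lit 115) (nat_lit 5) (nat_lit 121) (nat_lit 5) (nat_lit 116) (nat_lit 5) (nat_lit 339) (nat_lit 284) (nat_lit 157)) (XT.nd (nat_lit 78) (nat_lit 380) (nat_lit 0) (XT.lf (nat_lit 0) (nat_lit 10761525245) (nat_lit 456) (nat_lit 1689998709) (nat_lit 76) (nat_lit 10083639804) (nat_lit 115) (nat_lit 5) (nat_lit 121) (nat_lit 5) (nat_lit 116) (nat_lit 5) (nat_lit 340) (nat_lit 284) (nat_lit 156)) (XT.lf (nat_lit 0) (nat_lit 13969007011) (nat_lit 380) (nat_lit 2460134566) (nat_lit 456) (nat_lit 6565431535) (nat_lit 110) (nat_lit 5) (nat_lit 115) (nat_lit 5) (nat_lit 116) (nat_lit 5) (nat_lit 341) (nat_lit 284) (nat_lit 155)))) (XT.nd (nat_lit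 156) (nat_lit 684) (nat_lit 0) (XT.nd (nat_lit 78) (nat_lit 76) (nat_lit 0) (XT.lf (nat_lit 0) (nat_lit 6670414856) (nat_lit 304) (nat_lit 15688544814) (nat_lit 380) (nat_lit 1106970448) (nat_lit 106) (nat_lit 5) (nat_lit 110) (nat_lit 5) (nat_lit 111) (nat_lit 5) (nat_lit 342) (nat_lit 284) (nat_lit 154)) (XT.lf (nat_lit 0) (nat_lit 4520708577) (nat_lit 380) (nat_lit 1054956947) (nat_lit 76) (nat_lit 18373890756) (nat_lit 105) (nat_lit 5) (nat_lit 110) (nat_lit 5) (nat_lit 106) (nat_lit 5) (nat_lit 343) (nat_lit 284) (nat_lit 153))) (XT.nd (nat_lit 78) (nat_lit 304) (nat_lit 0) (XT.lf (nat_lit 0) (nat_lit 10420966273) (nat_lit 456) (nat_lit 9145244588) (nat_lit 76) (nat_lit 4878966438) (nat_lit 100) (nat_lit 5) (nat_lit 106) (nat_lit 5) (nat_lit 101) (nat_lit 5) (nat_lit 344) (nat_lit 284) (nat_lit 152)) (XT.lf (nat_lit 0) (nat_lit 7243297144) (nat_lit 304) (nat_lit 9333718351) (nat_lit 380)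 (nat_lit 8377083706) (nat_lit 96) (nat_lit 5) (nat_lit 100) (nat_lit 5) (nat_lit 101) (nat_lit 5) (nat_lit 345) (nat_lit 284) (nat_lit 151))))))) (XT.nd (nat_lit 36036) (nat_lit 0) (nat_lit 23028) (XT.nd (nat_lit 468) (nat_lit 912) (nat_lit 0) (XT.nd (nat_lit 234) (nat_lit 608) (nat_lit 0) (XT.nd (nat_lit 78) (nat_lit 684) (nat_lit 0) (XT.lf (nat_lit 0) (nat_lit 22975440853) (nat_lit 380) (nat_lit 1255277050) (nat_lit 76) (nat_lit 1246424665) (nat_lit 96) (nat_lit 5) (nat_lit 101) (nat_lit 5) (nat_lit 97) (nat_lit 5) (nat_lit 346) (nat_lit 284) (nat_lit 150)) (XT.nd (nat_lit 78) (nat_lit 304) (nat_lit 0) (XT.lf (nat_lit 0) (nat_lit 3657376858) (nat_lit 380) (nat_lit 10216019952) (nat_lit 76) (nat_lit 12138946917) (nat_lit 91) (nat_lit 5) (nat_lit 96) (nat_lit 5) (nat_lit 92) (nat_lit 5) (nat_lit 347) (nat_lit 284) (nat_lit 149)) (XT.lf (nat_lit 0) (nat_lit 6868525511) (nat_lit 304) (nat_lit 3140066505)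 (nat_lit 380) (nat_lit 16553858242) (nat_lit 87) (nat_lit 5) (nat_lit 91) (nat_lit 5) (nat_lit 92) (nat_lit 5) (nat_lit 348) (nat_lit 284) (nat_lit 148)))) (XT.nd (nat_lit 78) (nat_lit 608) (nat_lit 0) (XT.lf (nat_lit 0) (nat_lit 16659617486) (nat_lit 380) (nat_lit 2591985285) (nat_lit 76) (nat_lit 7875278644) (nat_lit 87) (nat_lit 5) (nat_lit 92) (nat_lit 5) (nat_lit 88) (nat_lit 5) (nat_lit 349) (nat_lit 284) (nat_lit 147)) (XT.nd (nat_lit 78) (nat_lit 304) (nat_lit 0) (XT.lf (nat_lit 0) (nat_lit 15183766637) (nat_lit 304) (nat_lit 8434530231) (nat_lit 380) (nat_lit 4087792883) (nat_lit 83) (nat_lit 5) (nat_lit 87) (nat_lit 5) (nat_lit 88) (nat_lit 5) (nat_lit 350) (nat_lit 284) (nat_lit 146)) (XT.lf (nat_lit 0) (nat_lit 2509008198) (nat_lit 304) (nat_lit 23058080083) (nat_lit 76) (nat_lit 2734099770) (nat_lit 79) (nat_lit 5) (nat_lit 83) (nat_lit 5) (nat_lit 80) (nat_lit 5) (nat_lit 351) (nat_lit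 284) (nat_lit 145))))) (XT.nd (nat_lit 234) (nat_lit 380) (nat_lit 0) (XT.nd (nat_lit 78) (nat_lit 532) (nat_lit 0) (XT.lf (nat_lit 0) (nat_lit 9379179543) (nat_lit 304) (nat_lit 5301006182) (nat_lit 76) (nat_lit 14230799299) (nat_lit 79) (nat_lit 5) (nat_lit 83) (nat_lit 5) (nat_lit 80) (nat_lit 5) (nat_lit 352) (nat_lit 284) (nat_lit 144)) (XT.nd (nat_lit 78) (nat_lit 228) (nat_lit 0) (XT.lf (nat_lit 0) (nat_lit 13144503307) (nat_lit 304) (nat_lit 3385484024) (nat_lit 380) (nat_lit 13007603968) (nat_lit 75) (nat_lit 5) (nat_lit 79) (nat_lit 5) (nat_lit 80) (nat_lit 5) (nat_lit 353) (nat_lit 284) (nat_lit 143)) (XT.lf (nat_lit 0) (nat_lit 1989384138) (nat_lit 228) (nat_lit 21997921931) (nat_lit 304) (nat_lit 6193855799) (nat_lit 72) (nat_lit 5) (nat_lit 75) (nat_lit 5) (nat_lit 76) (nat_lit 5) (nat_lit 354) (nat_lit 284) (nat_lit 142)))) (XT.nd (nat_lit 35178) (nat_lit 0) (nat_lit 25612) (XT.nd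 (nat_lit 78) (nat_lit 304) (nat_lit 0) (XT.lf (nat_lit 0) (nat_lit 937443124) (nat_lit 304) (nat_lit 9739279342) (nat_lit 76) (nat_lit 20164736625) (nat_lit 71) (nat_lit 5) (nat_lit 75) (nat_lit 5) (nat_lit 72) (nat_lit 5) (nat_lit 355) (nat_lit 284) (nat_lit 141)) (XT.lf (nat_lit 0) (nat_lit 8256420958) (nat_lit 380) (nat_lit 22194977165) (nat_lit 76) (nat_lit 1068195875) (nat_lit 67) (nat_lit 5) (nat_lit 72) (nat_lit 5) (nat_lit 68) (nat_lit 5) (nat_lit 356) (nat_lit 284) (nat_lit 140))) (XT.nd (nat_lit 78) (nat_lit 0) (nat_lit 0) (XT.lf (nat_lit 0) (nat_lit 319472066) (nat_lit 0) (nat_lit 319472066) (nat_lit 1444) (nat_lit 3944290042) (nat_lit 404) (nat_lit 5) (nat_lit 404) (nat_lit 3) (nat_lit 423) (nat_lit 3) (nat_lit 285) (nat_lit 285) (nat_lit 210)) (XT.lf (nat_lit 0) (nat_lit 2540750360) (nat_lit 1444) (nat_lit 2439128004) (nat_lit 1520) (nat_lit 4297851051) (nat_lit 404) (nat_lit 5) (nat_lit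 423) (nat_lit 3) (nat_lit 424) (nat_lit 5) (nat_lit 286) (nat_lit 285) (nat_lit 209)))))) (XT.nd (nat_lit 468) (nat_lit 1292) (nat_lit 0) (XT.nd (nat_lit 234) (nat_lit 1368) (nat_lit 0) (XT.nd (nat_lit 78) (nat_lit 0) (nat_lit 0) (XT.lf (nat_lit 0) (nat_lit 3823702568) (nat_lit 1444) (nat_lit 5539623713) (nat_lit 1520) (nat_lit 29411104) (nat_lit 405) (nat_lit 5) (nat_lit 424) (nat_lit 5) (nat_lit 425) (nat_lit 5) (nat_lit 287) (nat_lit 285) (nat_lit 208)) (XT.nd (nat_lit 78) (nat_lit 0) (nat_lit 76) (XT.lf (nat_lit 76) (nat_lit 808250441) (nat_lit 0) (nat_lit 4346159038) (nat_lit 1520) (nat_lit 4356652400) (nat_lit 406) (nat_lit 5) (nat_lit 405) (nat_lit 5) (nat_lit 425) (nat_lit 5) (nat_lit 288) (nat_lit 285) (nat_lit 207)) (XT.lf (nat_lit 0) (nat_lit 6523537593) (nat_lit 1444) (nat_lit 2241619435) (nat_lit 1520) (nat_lit 867859187) (nat_lit 406) (nat_lit 5) (nat_lit 425) (nat_lit 5) (nat_lit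 426) (nat_lit 5) (nat_lit 289) (nat_lit 285) (nat_lit 206)))) (XT.nd (nat_lit 78) (nat_lit 1444) (nat_lit 0) (XT.lf (nat_lit 76) (nat_lit 4416795279) (nat_lit 0) (nat_lit 3531364643) (nat_lit 1520) (nat_lit 1810229500) (nat_lit 407) (nat_lit 5) (nat_lit 406) (nat_lit 5) (nat_lit 426) (nat_lit 5) (nat_lit 290) (nat_lit 285) (nat_lit 205)) (XT.nd (nat_lit 78) (nat_lit 1520) (nat_lit 0) (XT.lf (nat_lit 76) (nat_lit 1398529493) (nat_lit 0) (nat_lit 8011324244) (nat_lit 1520) (nat_lit 477830664) (nat_lit 408) (nat_lit 5) (nat_lit 407) (nat_lit 5) (nat_lit 427) (nat_lit 5) (nat_lit 291) (nat_lit 285) (nat_lit 204)) (XT.lf (nat_lit 0) (nat_lit 901492234) (nat_lit 1520) (nat_lit 1662061367) (nat_lit 1596) (nat_lit 7456859740) (nat_lit 387) (nat_lit 5) (nat_lit 407) (nat_lit 5) (nat_lit 408) (nat_lit 5) (nat_lit 292) (nat_lit 285) (nat_lit 203))))) (XT.nd (nat_lit 234) (nat_lit 1368) (nat_lit 0) (XT.nd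 (nat_lit 78) (nat_lit 0) (nat_lit 0) (XT.lf (nat_lit 0) (nat_lit 2330853114) (nat_lit 1520) (nat_lit 4765182879) (nat_lit 1596) (nat_lit 3060765632) (nat_lit 388) (nat_lit 5) (nat_lit 408) (nat_lit 5) (nat_lit 409) (nat_lit 5) (nat_lit 293) (nat_lit 285) (nat_lit 202)) (XT.nd (nat_lit 78) (nat_lit 0) (nat_lit 76) (XT.lf (nat_lit 76) (nat_lit 2370498233) (nat_lit 0) (nat_lit 1437404098) (nat_lit 1596) (nat_lit 6489325451) (nat_lit 389) (nat_lit 5) (nat_lit 388) (nat_lit 5) (nat_lit 409) (nat_lit 5) (nat_lit 294) (nat_lit 285) (nat_lit 201)) (XT.lf (nat_lit 0) (nat_lit 5352265526) (nat_lit 1520) (nat_lit 710907142) (nat_lit 1596) (nat_lit 4378275146) (nat_lit 389) (nat_lit 5) (nat_lit 409) (nat_lit 5) (nat_lit 410) (nat_lit 5) (nat_lit 295) (nat_lit 285) (nat_lit 200)))) (XT.nd (nat_lit 156) (nat_lit 1444) (nat_lit 0) (XT.nd (nat_lit 78) (nat_lit 0) (nat_lit 76) (XT.lf (nat_lit 76) (nat_lit 6774962781)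 (nat_lit 0) (nat_lit 184693138) (nat_lit 1596) (nat_lit 3630044545) (nat_lit 390) (nat_lit 5) (nat_lit 389) (nat_lit 5) (nat_lit 410) (nat_lit 5) (nat_lit 296) (nat_lit 285) (nat_lit 199)) (XT.lf (nat_lit 76) (nat_lit 3737629024) (nat_lit 0) (nat_lit 4908945078) (nat_lit 1596) (nat_lit 2095239250) (nat_lit 391) (nat_lit 5) (nat_lit 390) (nat_lit 5) (nat_lit 411) (nat_lit 5) (nat_lit 297) (nat_lit 285) (nat_lit 198))) (XT.nd (nat_lit 78) (nat_lit 1596) (nat_lit 0) (XT.lf (nat_lit 76) (nat_lit 644065364) (nat_lit 0) (nat_lit 9743818337) (nat_lit 1596) (nat_lit 510567896) (nat_lit 392) (nat_lit 5) (nat_lit 391) (nat_lit 5) (nat_lit 412) (nat_lit 5) (nat_lit 298) (nat_lit 285) (nat_lit 197)) (XT.lf (nat_lit 0) (nat_lit 1153143496) (nat_lit 1596) (nat_lit 2508149238) (nat_lit 1672) (nat_lit 7397462236) (nat_lit 370) (nat_lit 5) (nat_lit 391) (nat_lit 5) (nat_lit 392) (nat_lit 5) (nat_lit 299) (nat_lit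 285) (nat_lit 196))))))))
noncomputable def xc93 : XT := (XT.nd (nat_lit 2028) (nat_lit 7752) (nat_lit 0) (XT.nd (nat_lit 1014) (nat_lit 5928) (nat_lit 0) (XT.nd (nat_lit 468) (nat_lit 3952) (nat_lit 0) (XT.nd (nat_lit 234) (nat_lit 4256) (nat_lit 0) (XT.nd (nat_lit 78) (nat_lit 0) (nat_lit 0) (XT.lf (nat_lit 0) (nat_lit 2879488642) (nat_lit 1596) (nat_lit 5727376416) (nat_lit 1672) (nat_lit 2616576499) (nat_lit 371) (nat_lit 5) (nat_lit 392) (nat_lit 5) (nat_lit 393) (nat_lit 5) (nat_lit 300) (nat_lit 285) (nat_lit 195)) (XT.nd (nat_lit 78) (nat_lit 0) (nat_lit 76) (XT.lf (nat_lit 76) (nat_lit 2362330499) (nat_lit 0) (nat_lit 2319687020) (nat_lit 1672) (nat_lit 6710597136) (nat_lit 372) (nat_lit 5) (nat_lit 371) (nat_lit 5) (nat_lit 393) (nat_lit 5) (nat_lit 301) (nat_lit 285) (nat_lit 194)) (XT.lf (nat_lit 0) (nat_lit 6572957229) (nat_lit 1596) (nat_lit 846550600) (nat_lit 76) (nat_lit 4146701212)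 (nat_lit 372) (nat_lit 5) (nat_lit 393) (nat_lit 5) (nat_lit 373) (nat_lit 5) (nat_lit 302) (nat_lit 285) (nat_lit 193)))) (XT.nd (nat_lit 78) (nat_lit 2736) (nat_lit 0) (XT.lf (nat_lit 0) (nat_lit 7641825032) (nat_lit 1596) (nat_lit 913135693) (nat_lit 1672) (nat_lit 3189395663) (nat_lit 351) (nat_lit 5) (nat_lit 372) (nat_lit 5) (nat_lit 373) (nat_lit 5) (nat_lit 303) (nat_lit 285) (nat_lit 192)) (XT.nd (nat_lit 78) (nat_lit 1064) (nat_lit 0) (XT.lf (nat_lit 0) (nat_lit 4463799541) (nat_lit 1672) (nat_lit 6174935811) (nat_lit 1748) (nat_lit 1288297496) (nat_lit 329) (nat_lit 5) (nat_lit 351) (nat_lit 5) (nat_lit 352) (nat_lit 5) (nat_lit 304) (nat_lit 285) (nat_lit 191)) (XT.lf (nat_lit 0) (nat_lit 676911466) (nat_lit 1064) (nat_lit 10910341359) (nat_lit 76) (nat_lit 527561962) (nat_lit 315) (nat_lit 5) (nat_lit 329) (nat_lit 5) (nat_lit 316) (nat_lit 5) (nat_lit 305) (nat_lit 285) (nat_lit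 190))))) (XT.nd (nat_lit 234) (nat_lit 2280) (nat_lit 0) (XT.nd (nat_lit 78) (nat_lit 1672) (nat_lit 0) (XT.lf (nat_lit 0) (nat_lit 2747052078) (nat_lit 1064) (nat_lit 2149135861) (nat_lit 76) (nat_lit 7410630935) (nat_lit 315) (nat_lit 5) (nat_lit 329) (nat_lit 5) (nat_lit 316) (nat_lit 5) (nat_lit 306) (nat_lit 285) (nat_lit 189)) (XT.nd (nat_lit 78) (nat_lit 836) (nat_lit 0) (XT.lf (nat_lit 0) (nat_lit 4909648385) (nat_lit 912) (nat_lit 5576891413) (nat_lit 76) (nat_lit 2017463990) (nat_lit 304) (nat_lit 5) (nat_lit 316) (nat_lit 5) (nat_lit 305) (nat_lit 5) (nat_lit 307) (nat_lit 285) (nat_lit 188)) (XT.lf (nat_lit 0) (nat_lit 3586995065) (nat_lit 836) (nat_lit 3593504248) (nat_lit 912) (nat_lit 5525764330) (nat_lit 293) (nat_lit 5) (nat_lit 304) (nat_lit 5) (nat_lit 305) (nat_lit 5) (nat_lit 308) (nat_lit 285) (nat_lit 187)))) (XT.nd (nat_lit 156) (nat_lit 1520) (nat_lit 0) (XT.nd (nat_lit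 78) (nat_lit 0) (nat_lit 0) (XT.lf (nat_lit 0) (nat_lit 141520789) (nat_lit 760) (nat_lit 9413008729) (nat_lit 836) (nat_lit 3359386843) (nat_lit 283) (nat_lit 5) (nat_lit 293) (nat_lit 5) (nat_lit 294) (nat_lit 5) (nat_lit 309) (nat_lit 285) (nat_lit 186)) (XT.lf (nat_lit 0) (nat_lit 9755405085) (nat_lit 760) (nat_lit 2303985525) (nat_lit 836) (nat_lit 1067241232) (nat_lit 283) (nat_lit 5) (nat_lit 293) (nat_lit 5) (nat_lit 294) (nat_lit 5) (nat_lit 310) (nat_lit 285) (nat_lit 185))) (XT.nd (nat_lit 78) (nat_lit 684) (nat_lit 0) (XT.lf (nat_lit 0) (nat_lit 1325434024) (nat_lit 836) (nat_lit 7015998146) (nat_lit 76) (nat_lit 5003178150) (nat_lit 272) (nat_lit 5) (nat_lit 283) (nat_lit 5) (nat_lit 273) (nat_lit 5) (nat_lit 311) (nat_lit 285) (nat_lit 184)) (XT.lf (nat_lit 0) (nat_lit 2785806406) (nat_lit 684) (nat_lit 1021252766) (nat_lit 760) (nat_lit 9761317961) (nat_lit 263) (nat_lit 5) (nat_lit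 272) (nat_lit 5) (nat_lit 273) (nat_lit 5) (nat_lit 312) (nat_lit 285) (nat_lit 183)))))) (XT.nd (nat_lit 468) (nat_lit 3116) (nat_lit 0) (XT.nd (nat_lit 234) (nat_lit 1368) (nat_lit 0) (XT.nd (nat_lit 78) (nat_lit 1444) (nat_lit 0) (XT.lf (nat_lit 0) (nat_lit 6428973523) (nat_lit 760) (nat_lit 887900369) (nat_lit 76) (nat_lit 6480689021) (nat_lit 263) (nat_lit 5) (nat_lit 273) (nat_lit 5) (nat_lit 264) (nat_lit 5) (nat_lit 313) (nat_lit 285) (nat_lit 182)) (XT.nd (nat_lit 78) (nat_lit 684) (nat_lit 0) (XT.lf (nat_lit 0) (nat_lit 9175188043) (nat_lit 836) (nat_lit 4638524852) (nat_lit 76) (nat_lit 219020627) (nat_lit 253) (nat_lit 5) (nat_lit 264) (nat_lit 5) (nat_lit 254) (nat_lit 5) (nat_lit 314) (nat_lit 285) (nat_lit 181)) (XT.lf (nat_lit 0) (nat_lit 5723781760) (nat_lit 684) (nat_lit 6349054265) (nat_lit 760) (nat_lit 2200763747) (nat_lit 244) (nat_lit 5) (nat_lit 253) (nat_lit 5) (nat_lit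 254) (nat_lit 5) (nat_lit 315) (nat_lit 285) (nat_lit 180)))) (XT.nd (nat_lit 78) (nat_lit 608) (nat_lit 0) (XT.lf (nat_lit 0) (nat_lit 559156729) (nat_lit 760) (nat_lit 12593453085) (nat_lit 76) (nat_lit 1368423836) (nat_lit 234) (nat_lit 5) (nat_lit 244) (nat_lit 5) (nat_lit 235) (nat_lit 5) (nat_lit 316) (nat_lit 285) (nat_lit 179)) (XT.nd (nat_lit 78) (nat_lit 608) (nat_lit 0) (XT.lf (nat_lit 0) (nat_lit 3450664315) (nat_lit 760) (nat_lit 2020356756) (nat_lit 76) (nat_lit 9303024582) (nat_lit 234) (nat_lit 5) (nat_lit 244) (nat_lit 5) (nat_lit 235) (nat_lit 5) (nat_lit 317) (nat_lit 285) (nat_lit 178)) (XT.lf (nat_lit 0) (nat_lit 6481725027) (nat_lit 684) (nat_lit 6086348354) (nat_lit 76) (nat_lit 2465537735) (nat_lit 226) (nat_lit 5) (nat_lit 235) (nat_lit 5) (nat_lit 227) (nat_lit 5) (nat_lit 318) (nat_lit 285) (nat_lit 177))))) (XT.nd (nat_lit 234) (nat_lit 1748) (nat_lit 0) (XT.nd (nat_lit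 78) (nat_lit 684) (nat_lit 0) (XT.lf (nat_lit 0) (nat_lit 4975726237) (nat_lit 684) (nat_lit 4689517786) (nat_lit 760) (nat_lit 5634507690) (nat_lit 217) (nat_lit 5) (nat_lit 226) (nat_lit 5) (nat_lit 227) (nat_lit 5) (nat_lit 319) (nat_lit 285) (nat_lit 176)) (XT.nd (nat_lit 78) (nat_lit 76) (nat_lit 0) (XT.lf (nat_lit 0) (nat_lit 844728852) (nat_lit 608) (nat_lit 12148079826) (nat_lit 684) (nat_lit 2580115200) (nat_lit 209) (nat_lit 5) (nat_lit 217) (nat_lit 5) (nat_lit 218) (nat_lit 5) (nat_lit 320) (nat_lit 285) (nat_lit 175)) (XT.lf (nat_lit 0) (nat_lit 639869251) (nat_lit 684) (nat_lit 3422189854) (nat_lit 76) (nat_lit 11790548252) (nat_lit 208) (nat_lit 5) (nat_lit 217) (nat_lit 5) (nat_lit 209) (nat_lit 5) (nat_lit 321) (nat_lit 285) (nat_lit 174)))) (XT.nd (nat_lit 156) (nat_lit 608) (nat_lit 0) (XT.nd (nat_lit 78) (nat_lit 532) (nat_lit 0) (XT.lf (nat_lit 0) (nat_lit 3983778192) (nat_lit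 684) (nat_lit 7876311043) (nat_lit 76) (nat_lit 4279020217) (nat_lit 200) (nat_lit 5) (nat_lit 209) (nat_lit 5) (nat_lit 201) (nat_lit 5) (nat_lit 322) (nat_lit 285) (nat_lit 173)) (XT.lf (nat_lit 0) (nat_lit 3912448004) (nat_lit 532) (nat_lit 3572069377) (nat_lit 608) (nat_lit 8948575256) (nat_lit 193) (nat_lit 5) (nat_lit 200) (nat_lit 5) (nat_lit 201) (nat_lit 5) (nat_lit 323) (nat_lit 285) (nat_lit 172))) (XT.nd (nat_lit 78) (nat_lit 608) (nat_lit 0) (XT.lf (nat_lit 0) (nat_lit 11157235163) (nat_lit 608) (nat_lit 627714758) (nat_lit 76) (nat_lit 4949622081) (nat_lit 193) (nat_lit 5) (nat_lit 201) (nat_lit 5) (nat_lit 194) (nat_lit 5) (nat_lit 324) (nat_lit 285) (nat_lit 171)) (XT.lf (nat_lit 0) (nat_lit 11729638679) (nat_lit 608) (nat_lit 3292091052) (nat_lit 684) (nat_lit 2021749464) (nat_lit 185) (nat_lit 5) (nat_lit 193) (nat_lit 5) (nat_lit 194) (nat_lit 5) (nat_lit 325) (nat_lit 285)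 (nat_lit 170))))))) (XT.nd (nat_lit 1014) (nat_lit 3268) (nat_lit 0) (XT.nd (nat_lit 468) (nat_lit 2280) (nat_lit 0) (XT.nd (nat_lit 234) (nat_lit 1064) (nat_lit 0) (XT.nd (nat_lit 78) (nat_lit 532) (nat_lit 0) (XT.lf (nat_lit 0) (nat_lit 1687410306) (nat_lit 608) (nat_lit 10230773603) (nat_lit 76) (nat_lit 5441902875) (nat_lit 177) (nat_lit 5) (nat_lit 185) (nat_lit 5) (nat_lit 178) (nat_lit 5) (nat_lit 326) (nat_lit 285) (nat_lit 169)) (XT.nd (nat_lit 78) (nat_lit 0) (nat_lit 0) (XT.lf (nat_lit 0) (nat_lit 2305294995) (nat_lit 532) (nat_lit 3230641574) (nat_lit 608) (nat_lit 12148891757) (nat_lit 170) (nat_lit 5) (nat_lit 177) (nat_lit 5) (nat_lit 178) (nat_lit 5) (nat_lit 327) (nat_lit 285) (nat_lit 168)) (XT.lf (nat_lit 0) (nat_lit 9589348598) (nat_lit 608) (nat_lit 2720185513) (nat_lit 76) (nat_lit 5708003177) (nat_lit 170) (nat_lit 5) (nat_lit 178) (nat_lit 5) (nat_lit 171) (nat_lit 5) (nat_lit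 328) (nat_lit 285) (nat_lit 167)))) (XT.nd (nat_lit 78) (nat_lit 608) (nat_lit 0) (XT.lf (nat_lit 0) (nat_lit 10412378872) (nat_lit 456) (nat_lit 3424223913) (nat_lit 532) (nat_lit 4522193310) (nat_lit 164) (nat_lit 5) (nat_lit 170) (nat_lit 5) (nat_lit 171) (nat_lit 5) (nat_lit 329) (nat_lit 285) (nat_lit 166)) (XT.nd (nat_lit 78) (nat_lit 76) (nat_lit 0) (XT.lf (nat_lit 0) (nat_lit 5276638966) (nat_lit 532) (nat_lit 13007995849) (nat_lit 608) (nat_lit 424203630) (nat_lit 157) (nat_lit 5) (nat_lit 164) (nat_lit 5) (nat_lit 165) (nat_lit 5) (nat_lit 330) (nat_lit 285) (nat_lit 165)) (XT.lf (nat_lit 0) (nat_lit 3807619661) (nat_lit 608) (nat_lit 132421014) (nat_lit 76) (nat_lit 15127646957) (nat_lit 156) (nat_lit 5) (nat_lit 164) (nat_lit 5) (nat_lit 157) (nat_lit 5) (nat_lit 331) (nat_lit 285) (nat_lit 164))))) (XT.nd (nat_lit 234) (nat_lit 912) (nat_lit 0) (XT.nd (nat_lit 78) (nat_lit 912) (nat_lit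 0) (XT.lf (nat_lit 0) (nat_lit 8269465510) (nat_lit 532) (nat_lit 5748687221) (nat_lit 76) (nat_lit 5416928860) (nat_lit 150) (nat_lit 5) (nat_lit 157) (nat_lit 5) (nat_lit 151) (nat_lit 5) (nat_lit 332) (nat_lit 285) (nat_lit 163)) (XT.nd (nat_lit 78) (nat_lit 456) (nat_lit 0) (XT.lf (nat_lit 0) (nat_lit 8168178376) (nat_lit 456) (nat_lit 4761637550) (nat_lit 532) (nat_lit 6882400107) (nat_lit 144) (nat_lit 5) (nat_lit 150) (nat_lit 5) (nat_lit 151) (nat_lit 5) (nat_lit 333) (nat_lit 285) (nat_lit 162)) (XT.lf (nat_lit 0) (nat_lit 2360415745) (nat_lit 456) (nat_lit 15439740386) (nat_lit 532) (nat_lit 2399116100) (nat_lit 138) (nat_lit 5) (nat_lit 144) (nat_lit 5) (nat_lit 145) (nat_lit 5) (nat_lit 334) (nat_lit 285) (nat_lit 161)))) (XT.nd (nat_lit 156) (nat_lit 380) (nat_lit 0) (XT.nd (nat_lit 78) (nat_lit 456) (nat_lit 0) (XT.lf (nat_lit 0) (nat_lit 2285696582) (nat_lit 532) (nat_lit 3719271907)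 (nat_lit 76) (nat_lit 14590771721) (nat_lit 137) (nat_lit 5) (nat_lit 144) (nat_lit 5) (nat_lit 138) (nat_lit 5) (nat_lit 335) (nat_lit 285) (nat_lit 160)) (XT.lf (nat_lit 0) (nat_lit 7159566617) (nat_lit 532) (nat_lit 10096022180) (nat_lit 76) (nat_lit 3746584570) (nat_lit 131) (nat_lit 5) (nat_lit 138) (nat_lit 5) (nat_lit 132) (nat_lit 5) (nat_lit 336) (nat_lit 285) (nat_lit 159))) (XT.nd (nat_lit 78) (nat_lit 0) (nat_lit 0) (XT.lf (nat_lit 0) (nat_lit 4601100589) (nat_lit 380) (nat_lit 7659520337) (nat_lit 456) (nat_lit 9158569376) (nat_lit 126) (nat_lit 5) (nat_lit 131) (nat_lit 5) (nat_lit 132) (nat_lit 5) (nat_lit 337) (nat_lit 285) (nat_lit 158)) (XT.lf (nat_lit 0) (nat_lit 17583841614) (nat_lit 456) (nat_lit 2004717556) (nat_lit 76) (nat_lit 2258785729) (nat_lit 126) (nat_lit 5) (nat_lit 132) (nat_lit 5) (nat_lit 127) (nat_lit 5) (nat_lit 338) (nat_lit 285) (nat_lit 157)))))) (XT.nd (nat_lit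 468) (nat_lit 1672) (nat_lit 0) (XT.nd (nat_lit 234) (nat_lit 760) (nat_lit 0) (XT.nd (nat_lit 78) (nat_lit 380) (nat_lit 0) (XT.lf (nat_lit 0) (nat_lit 893207227) (nat_lit 456) (nat_lit 8933951929) (nat_lit 76) (nat_lit 12458593246) (nat_lit 120) (nat_lit 5) (nat_lit 126) (nat_lit 5) (nat_lit 121) (nat_lit 5) (nat_lit 339) (nat_lit 285) (nat_lit 156)) (XT.nd (nat_lit 78) (nat_lit 0) (nat_lit 0) (XT.lf (nat_lit 0) (nat_lit 6191296796) (nat_lit 456) (nat_lit 16240988254) (nat_lit 76) (nat_lit 303580506) (nat_lit 115) (nat_lit 5) (nat_lit 121) (nat_lit 5) (nat_lit 116) (nat_lit 5) (nat_lit 340) (nat_lit 285) (nat_lit 155)) (XT.lf (nat_lit 0) (nat_lit 11761643522) (nat_lit 456) (nat_lit 774565771) (nat_lit 76) (nat_lit 10661015361) (nat_lit 115) (nat_lit 5) (nat_lit 121) (nat_lit 5) (nat_lit 116) (nat_lit 5) (nat_lit 341) (nat_lit 285) (nat_lit 154)))) (XT.nd (nat_lit 78) (nat_lit 380) (nat_lit 0)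 (XT.lf (nat_lit 0) (nat_lit 15338535763) (nat_lit 380) (nat_lit 2247197204) (nat_lit 456) (nat_lit 6084967493) (nat_lit 110) (nat_lit 5) (nat_lit 115) (nat_lit 5) (nat_lit 116) (nat_lit 5) (nat_lit 342) (nat_lit 285) (nat_lit 153)) (XT.nd (nat_lit 78) (nat_lit 76) (nat_lit 0) (XT.lf (nat_lit 0) (nat_lit 7817221690) (nat_lit 304) (nat_lit 15864846404) (nat_lit 380) (nat_lit 474370317) (nat_lit 106) (nat_lit 5) (nat_lit 110) (nat_lit 5) (nat_lit 111) (nat_lit 5) (nat_lit 343) (nat_lit 285) (nat_lit 152)) (XT.lf (nat_lit 0) (nat_lit 5294268705) (nat_lit 380) (nat_lit 158604564) (nat_lit 76) (nat_lit 19202008468) (nat_lit 105) (nat_lit 5) (nat_lit 110) (nat_lit 5) (nat_lit 106) (nat_lit 5) (nat_lit 344) (nat_lit 285) (nat_lit 151))))) (XT.nd (nat_lit 234) (nat_lit 988) (nat_lit 0) (XT.nd (nat_lit 78) (nat_lit 304) (nat_lit 0) (XT.lf (nat_lit 0) (nat_lit 11360748513) (nat_lit 456) (nat_lit 8495627784)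 (nat_lit 76) (nat_lit 5309222523) (nat_lit 100) (nat_lit 5) (nat_lit 106) (nat_lit 5) (nat_lit 101) (nat_lit 5) (nat_lit 345) (nat_lit 285) (nat_lit 150)) (XT.nd (nat_lit 78) (nat_lit 0) (nat_lit 0) (XT.lf (nat_lit 0) (nat_lit 8369579817) (nat_lit 304) (nat_lit 9319534521) (nat_lit 380) (nat_lit 8000932721) (nat_lit 96) (nat_lit 5) (nat_lit 100) (nat_lit 5) (nat_lit 101) (nat_lit 5) (nat_lit 346) (nat_lit 285) (nat_lit 149)) (XT.lf (nat_lit 0) (nat_lit 24263440476) (nat_lit 380) (nat_lit 399975395) (nat_lit 76) (nat_lit 1565697944) (nat_lit 96) (nat_lit 5) (nat_lit 101) (nat_lit 5) (nat_lit 97) (nat_lit 5) (nat_lit 347) (nat_lit 285) (nat_lit 148)))) (XT.nd (nat_lit 156) (nat_lit 304) (nat_lit 0) (XT.nd (nat_lit 78) (nat_lit 304) (nat_lit 0) (XT.lf (nat_lit 0) (nat_lit 4358339574) (nat_lit 380) (nat_lit 9635819947) (nat_lit 76) (nat_lit 12786379125) (nat_lit 91) (nat_lit 5) (nat_lit 96) (nat_lit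 5) (nat_lit 92) (nat_lit 5) (nat_lit 348) (nat_lit 285) (nat_lit 147)) (XT.lf (nat_lit 0) (nat_lit 7946876540) (nat_lit 304) (nat_lit 2941657542) (nat_lit 380) (nat_lit 16458855643) (nat_lit 87) (nat_lit 5) (nat_lit 91) (nat_lit 5) (nat_lit 92) (nat_lit 5) (nat_lit 349) (nat_lit 285) (nat_lit 146))) (XT.nd (nat_lit 78) (nat_lit 304) (nat_lit 0) (XT.lf (nat_lit 0) (nat_lit 17724050798) (nat_lit 380) (nat_lit 1813114282) (nat_lit 76) (nat_lit 8391899443) (nat_lit 87) (nat_lit 5) (nat_lit 92) (nat_lit 5) (nat_lit 88) (nat_lit 5) (nat_lit 350) (nat_lit 285) (nat_lit 145)) (XT.lf (nat_lit 0) (nat_lit 16482012385) (nat_lit 304) (nat_lit 8398503792) (nat_lit 380) (nat_lit 3645362043) (nat_lit 83) (nat_lit 5) (nat_lit 87) (nat_lit 5) (nat_lit 88) (nat_lit 5) (nat_lit 351) (nat_lit 285) (nat_lit 144))))))))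
noncomputable def xc94 : XT := (XT.nd (nat_lit 37128) (nat_lit 0) (nat_lit 6004) (XT.nd (nat_lit 36114) (nat_lit 0) (nat_lit 18544) (XT.nd (nat_lit 35568) (nat_lit 0) (nat_lit 23940) (XT.nd (nat_lit 234) (nat_lit 304) (nat_lit 0) (XT.nd (nat_lit 78) (nat_lit 304) (nat_lit 0) (XT.lf (nat_lit 0) (nat_lit 3133003644) (nat_lit 304) (nat_lit 22903801411) (nat_lit 76) (nat_lit 3102138769) (nat_lit 79) (nat_lit 5) (nat_lit 83) (nat_lit 5) (nat_lit 80) (nat_lit 5) (nat_lit 352) (nat_lit 285) (nat_lit 143)) (XT.nd (nat_lit 78) (nat_lit 304) (nat_lit 0) (XT.lf (nat_lit 0) (nat_lit 10193297843) (nat_lit 304) (nat_lit 4638656684) (nat_lit 76) (nat_lit 14935408721) (nat_lit 79) (nat_lit 5) (nat_lit 83) (nat_lit 5) (nat_lit 80) (nat_lit 5) (nat_lit 353) (nat_lit 285) (nat_lit 142)) (XT.lf (nat_lit 0) (nat_lit 14346892180) (nat_lit 304) (nat_lit 3201467320) (nat_lit 380) (nat_lit 12864622251) (nat_lit 75) (nat_lit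 5) (nat_lit 79) (nat_lit 5) (nat_lit 80) (nat_lit 5) (nat_lit 354) (nat_lit 285) (nat_lit 141)))) (XT.nd (nat_lit 78) (nat_lit 76) (nat_lit 0) (XT.lf (nat_lit 0) (nat_lit 2852748709) (nat_lit 228) (nat_lit 22368449666) (nat_lit 304) (nat_lit 5854833435) (nat_lit 72) (nat_lit 5) (nat_lit 75) (nat_lit 5) (nat_lit 76) (nat_lit 5) (nat_lit 355) (nat_lit 285) (nat_lit 140)) (XT.nd (nat_lit 35178) (nat_lit 0) (nat_lit 25308) (XT.lf (nat_lit 0) (nat_lit 1468435051) (nat_lit 304) (nat_lit 9244234067) (nat_lit 76) (nat_lit 21043710380) (nat_lit 71) (nat_lit 5) (nat_lit 75) (nat_lit 5) (nat_lit 72) (nat_lit 5) (nat_lit 356) (nat_lit 285) (nat_lit 139)) (XT.lf (nat_lit 0) (nat_lit 930923772) (nat_lit 0) (nat_lit 930923772) (nat_lit 1444) (nat_lit 2833459961) (nat_lit 404) (nat_lit 5) (nat_lit 404) (nat_lit 3) (nat_lit 423) (nat_lit 3) (nat_lit 286) (nat_lit 286) (nat_lit 208))))) (XT.nd (nat_lit 234) (nat_lit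 1368) (nat_lit 0) (XT.nd (nat_lit 78) (nat_lit 0) (nat_lit 0) (XT.lf (nat_lit 0) (nat_lit 4946734742) (nat_lit 1444) (nat_lit 1286672792) (nat_lit 1520) (nat_lit 3273439122) (nat_lit 404) (nat_lit 5) (nat_lit 423) (nat_lit 3) (nat_lit 424) (nat_lit 5) (nat_lit 287) (nat_lit 286) (nat_lit 207)) (XT.nd (nat_lit 78) (nat_lit 0) (nat_lit 76) (XT.lf (nat_lit 76) (nat_lit 5174655044) (nat_lit 0) (nat_lit 1033292525) (nat_lit 1520) (nat_lit 3418638147) (nat_lit 405) (nat_lit 5) (nat_lit 404) (nat_lit 5) (nat_lit 424) (nat_lit 5) (nat_lit 288) (nat_lit 286) (nat_lit 206)) (XT.lf (nat_lit 76) (nat_lit 2072636942) (nat_lit 0) (nat_lit 5441374203) (nat_lit 1520) (nat_lit 2235814162) (nat_lit 406) (nat_lit 5) (nat_lit 405) (nat_lit 5) (nat_lit 425) (nat_lit 5) (nat_lit 289) (nat_lit 286) (nat_lit 205)))) (XT.nd (nat_lit 156) (nat_lit 0) (nat_lit 76) (XT.nd (nat_lit 78) (nat_lit 1444) (nat_lit 0) (XT.lf (nat_lit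 76) (nat_lit 8823155625) (nat_lit 0) (nat_lit 30954180) (nat_lit 1520) (nat_lit 1022802449) (nat_lit 406) (nat_lit 5) (nat_lit 405) (nat_lit 5) (nat_lit 425) (nat_lit 5) (nat_lit 290) (nat_lit 286) (nat_lit 204)) (XT.lf (nat_lit 0) (nat_lit 256500818) (nat_lit 1520) (nat_lit 4224645586) (nat_lit 1596) (nat_lit 5526023475) (nat_lit 386) (nat_lit 5) (nat_lit 406) (nat_lit 5) (nat_lit 407) (nat_lit 5) (nat_lit 291) (nat_lit 286) (nat_lit 203))) (XT.nd (nat_lit 78) (nat_lit 0) (nat_lit 0) (XT.lf (nat_lit 0) (nat_lit 1552699890) (nat_lit 1520) (nat_lit 7447793070) (nat_lit 1596) (nat_lit 1140902452) (nat_lit 387) (nat_lit 5) (nat_lit 407) (nat_lit 5) (nat_lit 408) (nat_lit 5) (nat_lit 292) (nat_lit 286) (nat_lit 202)) (XT.lf (nat_lit 0) (nat_lit 2907576453) (nat_lit 1520) (nat_lit 456737752) (nat_lit 1596) (nat_lit 6914980051) (nat_lit 387) (nat_lit 5) (nat_lit 407) (nat_lit 5) (nat_lit 408) (nat_lit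 5) (nat_lit 293) (nat_lit 286) (nat_lit 201)))))) (XT.nd (nat_lit 468) (nat_lit 4180) (nat_lit 0) (XT.nd (nat_lit 234) (nat_lit 1368) (nat_lit 0) (XT.nd (nat_lit 78) (nat_lit 0) (nat_lit 0) (XT.lf (nat_lit 0) (nat_lit 4325683754) (nat_lit 1520) (nat_lit 3628130691) (nat_lit 1596) (nat_lit 2467105073) (nat_lit 388) (nat_lit 5) (nat_lit 408) (nat_lit 5) (nat_lit 409) (nat_lit 5) (nat_lit 294) (nat_lit 286) (nat_lit 200)) (XT.nd (nat_lit 78) (nat_lit 0) (nat_lit 76) (XT.lf (nat_lit 76) (nat_lit 3700854250) (nat_lit 0) (nat_lit 2098300829) (nat_lit 1596) (nat_lit 4767421984) (nat_lit 389) (nat_lit 5) (nat_lit 388) (nat_lit 5) (nat_lit 409) (nat_lit 5) (nat_lit 295) (nat_lit 286) (nat_lit 199)) (XT.lf (nat_lit 76) (nat_lit 539717557) (nat_lit 0) (nat_lit 6795071281) (nat_lit 1596) (nat_lit 3381495111) (nat_lit 390) (nat_lit 5) (nat_lit 389) (nat_lit 5) (nat_lit 410) (nat_lit 5) (nat_lit 296) (nat_lit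 286) (nat_lit 198)))) (XT.nd (nat_lit 78) (nat_lit 1444) (nat_lit 0) (XT.lf (nat_lit 76) (nat_lit 8222564017) (nat_lit 0) (nat_lit 719447286) (nat_lit 1596) (nat_lit 1927997995) (nat_lit 390) (nat_lit 5) (nat_lit 389) (nat_lit 5) (nat_lit 410) (nat_lit 5) (nat_lit 297) (nat_lit 286) (nat_lit 197)) (XT.nd (nat_lit 78) (nat_lit 1520) (nat_lit 0) (XT.lf (nat_lit 76) (nat_lit 5114078066) (nat_lit 0) (nat_lit 5518674591) (nat_lit 1596) (nat_lit 394924259) (nat_lit 391) (nat_lit 5) (nat_lit 390) (nat_lit 5) (nat_lit 411) (nat_lit 5) (nat_lit 298) (nat_lit 286) (nat_lit 196)) (XT.lf (nat_lit 0) (nat_lit 1175826922) (nat_lit 1596) (nat_lit 9251751965) (nat_lit 1672) (nat_lit 762232393) (nat_lit 370) (nat_lit 5) (nat_lit 391) (nat_lit 5) (nat_lit 392) (nat_lit 5) (nat_lit 299) (nat_lit 286) (nat_lit 195))))) (XT.nd (nat_lit 234) (nat_lit 4180) (nat_lit 0) (XT.nd (nat_lit 78) (nat_lit 0) (nat_lit 76) (XT.lf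 (nat_lit 0) (nat_lit 2833189044) (nat_lit 1596) (nat_lit 1314605888) (nat_lit 1672) (nat_lit 7208099237) (nat_lit 370) (nat_lit 5) (nat_lit 391) (nat_lit 5) (nat_lit 392) (nat_lit 5) (nat_lit 300) (nat_lit 286) (nat_lit 194)) (XT.nd (nat_lit 78) (nat_lit 0) (nat_lit 0) (XT.lf (nat_lit 0) (nat_lit 4569182295) (nat_lit 1596) (nat_lit 4614896726) (nat_lit 1672) (nat_lit 2342335114) (nat_lit 371) (nat_lit 5) (nat_lit 392) (nat_lit 5) (nat_lit 393) (nat_lit 5) (nat_lit 301) (nat_lit 286) (nat_lit 193)) (XT.lf (nat_lit 76) (nat_lit 3696665139) (nat_lit 0) (nat_lit 2690626829) (nat_lit 1672) (nat_lit 5314188839) (nat_lit 372) (nat_lit 5) (nat_lit 371) (nat_lit 5) (nat_lit 393) (nat_lit 5) (nat_lit 302) (nat_lit 286) (nat_lit 192)))) (XT.nd (nat_lit 156) (nat_lit 2736) (nat_lit 0) (XT.nd (nat_lit 78) (nat_lit 0) (nat_lit 0) (XT.lf (nat_lit 0) (nat_lit 393734815) (nat_lit 1596) (nat_lit 7896304765) (nat_lit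 1672) (nat_lit 3591188918) (nat_lit 351) (nat_lit 5) (nat_lit 372) (nat_lit 5) (nat_lit 373) (nat_lit 5) (nat_lit 303) (nat_lit 286) (nat_lit 191)) (XT.lf (nat_lit 0) (nat_lit 9111147406) (nat_lit 1596) (nat_lit 1181656440) (nat_lit 1672) (nat_lit 1772736103) (nat_lit 351) (nat_lit 5) (nat_lit 372) (nat_lit 5) (nat_lit 373) (nat_lit 5) (nat_lit 304) (nat_lit 286) (nat_lit 190))) (XT.nd (nat_lit 78) (nat_lit 988) (nat_lit 0) (XT.lf (nat_lit 0) (nat_lit 146145930) (nat_lit 1748) (nat_lit 6405588707) (nat_lit 76) (nat_lit 5702717840) (nat_lit 328) (nat_lit 5) (nat_lit 351) (nat_lit 5) (nat_lit 329) (nat_lit 5) (nat_lit 305) (nat_lit 286) (nat_lit 189)) (XT.lf (nat_lit 0) (nat_lit 2117541690) (nat_lit 1064) (nat_lit 9954442847) (nat_lit 76) (nat_lit 376460585) (nat_lit 315) (nat_lit 5) (nat_lit 329) (nat_lit 5) (nat_lit 316) (nat_lit 5) (nat_lit 306) (nat_lit 286) (nat_lit 188))))))) (XT.nd (nat_lit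 1014) (nat_lit 5776) (nat_lit 0) (XT.nd (nat_lit 468) (nat_lit 3496) (nat_lit 0) (XT.nd (nat_lit 234) (nat_lit 1596) (nat_lit 0) (XT.nd (nat_lit 78) (nat_lit 1672) (nat_lit 0) (XT.lf (nat_lit 0) (nat_lit 4208417893) (nat_lit 1064) (nat_lit 967776197) (nat_lit 76) (nat_lit 7470883614) (nat_lit 315) (nat_lit 5) (nat_lit 329) (nat_lit 5) (nat_lit 316) (nat_lit 5) (nat_lit 307) (nat_lit 286) (nat_lit 187)) (XT.nd (nat_lit 78) (nat_lit 836) (nat_lit 0) (XT.lf (nat_lit 0) (nat_lit 6402899487) (nat_lit 912) (nat_lit 4489528347) (nat_lit 76) (nat_lit 1958449989) (nat_lit 304) (nat_lit 5) (nat_lit 316) (nat_lit 5) (nat_lit 305) (nat_lit 5) (nat_lit 308) (nat_lit 286) (nat_lit 186)) (XT.lf (nat_lit 0) (nat_lit 4928919198) (nat_lit 836) (nat_lit 3781767965) (nat_lit 912) (nat_lit 4349180731) (nat_lit 293) (nat_lit 5) (nat_lit 304) (nat_lit 5) (nat_lit 305) (nat_lit 5) (nat_lit 309) (nat_lit 286) (nat_lit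 185)))) (XT.nd (nat_lit 78) (nat_lit 836) (nat_lit 0) (XT.lf (nat_lit 0) (nat_lit 1387705472) (nat_lit 760) (nat_lit 9737494765) (nat_lit 836) (nat_lit 2149202239) (nat_lit 283) (nat_lit 5) (nat_lit 293) (nat_lit 5) (nat_lit 294) (nat_lit 5) (nat_lit 310) (nat_lit 286) (nat_lit 184)) (XT.nd (nat_lit 78) (nat_lit 760) (nat_lit 0) (XT.lf (nat_lit 0) (nat_lit 171248455) (nat_lit 836) (nat_lit 2241577151) (nat_lit 76) (nat_lit 11081435692) (nat_lit 282) (nat_lit 5) (nat_lit 293) (nat_lit 5) (nat_lit 283) (nat_lit 5) (nat_lit 311) (nat_lit 286) (nat_lit 183)) (XT.lf (nat_lit 0) (nat_lit 2592364971) (nat_lit 836) (nat_lit 5996826139) (nat_lit 76) (nat_lit 5130058391) (nat_lit 272) (nat_lit 5) (nat_lit 283) (nat_lit 5) (nat_lit 273) (nat_lit 5) (nat_lit 312) (nat_lit 286) (nat_lit 182))))) (XT.nd (nat_lit 234) (nat_lit 2052) (nat_lit 0) (XT.nd (nat_lit 78) (nat_lit 760) (nat_lit 0) (XT.lf (nat_lit 0)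 (nat_lit 4079082907) (nat_lit 684) (nat_lit 1041467400) (nat_lit 760) (nat_lit 8829770446) (nat_lit 263) (nat_lit 5) (nat_lit 272) (nat_lit 5) (nat_lit 273) (nat_lit 5) (nat_lit 313) (nat_lit 286) (nat_lit 181)) (XT.nd (nat_lit 78) (nat_lit 0) (nat_lit 0) (XT.lf (nat_lit 0) (nat_lit 288019001) (nat_lit 760) (nat_lit 7500108333) (nat_lit 836) (nat_lit 6398947351) (nat_lit 253) (nat_lit 5) (nat_lit 263) (nat_lit 5) (nat_lit 264) (nat_lit 5) (nat_lit 314) (nat_lit 286) (nat_lit 180)) (XT.lf (nat_lit 0) (nat_lit 10588867611) (nat_lit 836) (nat_lit 3574796902) (nat_lit 76) (nat_lit 266224843) (nat_lit 253) (nat_lit 5) (nat_lit 264) (nat_lit 5) (nat_lit 254) (nat_lit 5) (nat_lit 315) (nat_lit 286) (nat_lit 179)))) (XT.nd (nat_lit 156) (nat_lit 608) (nat_lit 0) (XT.nd (nat_lit 78) (nat_lit 760) (nat_lit 0) (XT.lf (nat_lit 0) (nat_lit 7078863550) (nat_lit 684) (nat_lit 6469106718) (nat_lit 760) (nat_lit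 1130551629) (nat_lit 244) (nat_lit 5) (nat_lit 253) (nat_lit 5) (nat_lit 254) (nat_lit 5) (nat_lit 316) (nat_lit 286) (nat_lit 178)) (XT.lf (nat_lit 0) (nat_lit 1672806576) (nat_lit 760) (nat_lit 11769074471) (nat_lit 76) (nat_lit 1491868681) (nat_lit 234) (nat_lit 5) (nat_lit 244) (nat_lit 5) (nat_lit 235) (nat_lit 5) (nat_lit 317) (nat_lit 286) (nat_lit 177))) (XT.nd (nat_lit 78) (nat_lit 608) (nat_lit 0) (XT.lf (nat_lit 0) (nat_lit 4619111570) (nat_lit 760) (nat_lit 913800267) (nat_lit 76) (nat_lit 9662107680) (nat_lit 234) (nat_lit 5) (nat_lit 244) (nat_lit 5) (nat_lit 235) (nat_lit 5) (nat_lit 318) (nat_lit 286) (nat_lit 176)) (XT.lf (nat_lit 0) (nat_lit 7718235728) (nat_lit 684) (nat_lit 5099652739) (nat_lit 76) (nat_lit 2644968485) (nat_lit 226) (nat_lit 5) (nat_lit 235) (nat_lit 5) (nat_lit 227) (nat_lit 5) (nat_lit 319) (nat_lit 286) (nat_lit 175)))))) (XT.nd (nat_lit 468) (nat_lit 2660)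 (nat_lit 0) (XT.nd (nat_lit 234) (nat_lit 1748) (nat_lit 0) (XT.nd (nat_lit 78) (nat_lit 684) (nat_lit 0) (XT.lf (nat_lit 0) (nat_lit 6275313813) (nat_lit 684) (nat_lit 4699063862) (nat_lit 760) (nat_lit 4763088577) (nat_lit 217) (nat_lit 5) (nat_lit 226) (nat_lit 5) (nat_lit 227) (nat_lit 5) (nat_lit 320) (nat_lit 286) (nat_lit 174)) (XT.nd (nat_lit 78) (nat_lit 76) (nat_lit 0) (XT.lf (nat_lit 0) (nat_lit 2021819170) (nat_lit 608) (nat_lit 12358569911) (nat_lit 684) (nat_lit 1638898157) (nat_lit 209) (nat_lit 5) (nat_lit 217) (nat_lit 5) (nat_lit 218) (nat_lit 5) (nat_lit 321) (nat_lit 286) (nat_lit 173)) (XT.lf (nat_lit 0) (nat_lit 1635046987) (nat_lit 684) (nat_lit 2392856279) (nat_lit 76) (nat_lit 12279936072) (nat_lit 208) (nat_lit 5) (nat_lit 217) (nat_lit 5) (nat_lit 209) (nat_lit 5) (nat_lit 322) (nat_lit 286) (nat_lit 172)))) (XT.nd (nat_lit 78) (nat_lit 1140) (nat_lit 0) (XT.lf (nat_lit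 0) (nat_lit 5059108346) (nat_lit 684) (nat_lit 6980099557) (nat_lit 76) (nat_lit 4564155966) (nat_lit 200) (nat_lit 5) (nat_lit 209) (nat_lit 5) (nat_lit 201) (nat_lit 5) (nat_lit 323) (nat_lit 286) (nat_lit 171)) (XT.nd (nat_lit 78) (nat_lit 608) (nat_lit 0) (XT.lf (nat_lit 0) (nat_lit 5143948781) (nat_lit 532) (nat_lit 3500315259) (nat_lit 608) (nat_lit 8262337998) (nat_lit 193) (nat_lit 5) (nat_lit 200) (nat_lit 5) (nat_lit 201) (nat_lit 5) (nat_lit 324) (nat_lit 286) (nat_lit 170)) (XT.lf (nat_lit 0) (nat_lit 458937971) (nat_lit 608) (nat_lit 11945093763) (nat_lit 684) (nat_lit 4813579377) (nat_lit 185) (nat_lit 5) (nat_lit 193) (nat_lit 5) (nat_lit 194) (nat_lit 5) (nat_lit 325) (nat_lit 286) (nat_lit 169))))) (XT.nd (nat_lit 234) (nat_lit 1520) (nat_lit 0) (XT.nd (nat_lit 78) (nat_lit 1140) (nat_lit 0) (XT.lf (nat_lit 0) (nat_lit 13163155443) (nat_lit 608) (nat_lit 3198869975) (nat_lit 684)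 (nat_lit 1174230848) (nat_lit 185) (nat_lit 5) (nat_lit 193) (nat_lit 5) (nat_lit 194) (nat_lit 5) (nat_lit 326) (nat_lit 286) (nat_lit 168)) (XT.nd (nat_lit 78) (nat_lit 532) (nat_lit 0) (XT.lf (nat_lit 0) (nat_lit 2616471987) (nat_lit 608) (nat_lit 9444243819) (nat_lit 76) (nat_lit 5801905737) (nat_lit 177) (nat_lit 5) (nat_lit 185) (nat_lit 5) (nat_lit 178) (nat_lit 5) (nat_lit 327) (nat_lit 286) (nat_lit 167)) (XT.lf (nat_lit 0) (nat_lit 3450166861) (nat_lit 532) (nat_lit 3111685807) (nat_lit 608) (nat_lit 11635645052) (nat_lit 170) (nat_lit 5) (nat_lit 177) (nat_lit 5) (nat_lit 178) (nat_lit 5) (nat_lit 328) (nat_lit 286) (nat_lit 166)))) (XT.nd (nat_lit 156) (nat_lit 1064) (nat_lit 0) (XT.nd (nat_lit 78) (nat_lit 456) (nat_lit 0) (XT.lf (nat_lit 0) (nat_lit 10713184012) (nat_lit 608) (nat_lit 1741415478) (nat_lit 76) (nat_lit 6086081889) (nat_lit 170) (nat_lit 5) (nat_lit 178) (nat_lit 5)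 (nat_lit 171) (nat_lit 5) (nat_lit 329) (nat_lit 286) (nat_lit 165)) (XT.lf (nat_lit 0) (nat_lit 11767922504) (nat_lit 456) (nat_lit 3302352259) (nat_lit 532) (nat_lit 3822274001) (nat_lit 164) (nat_lit 5) (nat_lit 170) (nat_lit 5) (nat_lit 171) (nat_lit 5) (nat_lit 330) (nat_lit 286) (nat_lit 164))) (XT.nd (nat_lit 78) (nat_lit 456) (nat_lit 0) (XT.lf (nat_lit 0) (nat_lit 377641045) (nat_lit 608) (nat_lit 12779421960) (nat_lit 76) (nat_lit 6096311598) (nat_lit 156) (nat_lit 5) (nat_lit 164) (nat_lit 5) (nat_lit 157) (nat_lit 5) (nat_lit 331) (nat_lit 286) (nat_lit 163)) (XT.lf (nat_lit 0) (nat_lit 897618261) (nat_lit 456) (nat_lit 3815339838) (nat_lit 532) (nat_lit 14910346777) (nat_lit 150) (nat_lit 5) (nat_lit 156) (nat_lit 5) (nat_lit 157) (nat_lit 5) (nat_lit 332) (nat_lit 286) (nat_lit 162))))))))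
noncomputable def xc95 : XT := (XT.nd (nat_lit 37206) (nat_lit 0) (nat_lit 13756) (XT.nd (nat_lit 1014) (nat_lit 2128) (nat_lit 0) (XT.nd (nat_lit 468) (nat_lit 1976) (nat_lit 0) (XT.nd (nat_lit 234) (nat_lit 912) (nat_lit 0) (XT.nd (nat_lit 78) (nat_lit 912) (nat_lit 0) (XT.lf (nat_lit 0) (nat_lit 9288025396) (nat_lit 532) (nat_lit 4901077144) (nat_lit 76) (nat_lit 5813048010) (nat_lit 150) (nat_lit 5) (nat_lit 157) (nat_lit 5) (nat_lit 151) (nat_lit 5) (nat_lit 333) (nat_lit 286) (nat_lit 161)) (XT.nd (nat_lit 78) (nat_lit 456) (nat_lit 0) (XT.lf (nat_lit 0) (nat_lit 9416744986) (nat_lit 456) (nat_lit 4655515818) (nat_lit 532) (nat_lit 6318673449) (nat_lit 144) (nat_lit 5) (nat_lit 150) (nat_lit 5) (nat_lit 151) (nat_lit 5) (nat_lit 334) (nat_lit 286) (nat_lit 160)) (XT.lf (nat_lit 0) (nat_lit 3432272663) (nat_lit 456) (nat_lit 15642530203) (nat_lit 532) (nat_lit 1715093670) (nat_lit 138) (nat_lit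 5) (nat_lit 144) (nat_lit 5) (nat_lit 145) (nat_lit 5) (nat_lit 335) (nat_lit 286) (nat_lit 159)))) (XT.nd (nat_lit 78) (nat_lit 836) (nat_lit 0) (XT.lf (nat_lit 0) (nat_lit 3078617860) (nat_lit 532) (nat_lit 2848821054) (nat_lit 76) (nat_lit 15271171532) (nat_lit 137) (nat_lit 5) (nat_lit 144) (nat_lit 5) (nat_lit 138) (nat_lit 5) (nat_lit 336) (nat_lit 286) (nat_lit 158)) (XT.nd (nat_lit 78) (nat_lit 380) (nat_lit 0) (XT.lf (nat_lit 0) (nat_lit 8085544784) (nat_lit 532) (nat_lit 9419781449) (nat_lit 76) (nat_lit 4112188547) (nat_lit 131) (nat_lit 5) (nat_lit 138) (nat_lit 5) (nat_lit 132) (nat_lit 5) (nat_lit 337) (nat_lit 286) (nat_lit 157)) (XT.lf (nat_lit 0) (nat_lit 5702369922) (nat_lit 380) (nat_lit 7622800463) (nat_lit 456) (nat_lit 8722175605) (nat_lit 126) (nat_lit 5) (nat_lit 131) (nat_lit 5) (nat_lit 132) (nat_lit 5) (nat_lit 338) (nat_lit 286) (nat_lit 156))))) (XT.nd (nat_lit 234)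 (nat_lit 1140) (nat_lit 0) (XT.nd (nat_lit 78) (nat_lit 836) (nat_lit 0) (XT.lf (nat_lit 0) (nat_lit 18789474495) (nat_lit 456) (nat_lit 1117358107) (nat_lit 76) (nat_lit 2581899025) (nat_lit 126) (nat_lit 5) (nat_lit 132) (nat_lit 5) (nat_lit 127) (nat_lit 5) (nat_lit 339) (nat_lit 286) (nat_lit 155)) (XT.nd (nat_lit 78) (nat_lit 380) (nat_lit 0) (XT.lf (nat_lit 0) (nat_lit 1589273739) (nat_lit 456) (nat_lit 8260498771) (nat_lit 76) (nat_lit 13090718490) (nat_lit 120) (nat_lit 5) (nat_lit 126) (nat_lit 5) (nat_lit 121) (nat_lit 5) (nat_lit 340) (nat_lit 286) (nat_lit 154)) (XT.lf (nat_lit 0) (nat_lit 7034581835) (nat_lit 456) (nat_lit 15790224796) (nat_lit 76) (nat_lit 579548467) (nat_lit 115) (nat_lit 5) (nat_lit 121) (nat_lit 5) (nat_lit 116) (nat_lit 5) (nat_lit 341) (nat_lit 286) (nat_lit 153)))) (XT.nd (nat_lit 156) (nat_lit 760) (nat_lit 0) (XT.nd (nat_lit 78) (nat_lit 0) (nat_lit 0) (XT.lf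 (nat_lit 0) (nat_lit 114370158) (nat_lit 380) (nat_lit 12639259542) (nat_lit 456) (nat_lit 11126306138) (nat_lit 110) (nat_lit 5) (nat_lit 115) (nat_lit 5) (nat_lit 116) (nat_lit 5) (nat_lit 342) (nat_lit 286) (nat_lit 152)) (XT.lf (nat_lit 0) (nat_lit 16694590168) (nat_lit 380) (nat_lit 2044331851) (nat_lit 456) (nat_lit 5628976610) (nat_lit 110) (nat_lit 5) (nat_lit 115) (nat_lit 5) (nat_lit 116) (nat_lit 5) (nat_lit 343) (nat_lit 286) (nat_lit 151))) (XT.nd (nat_lit 78) (nat_lit 380) (nat_lit 0) (XT.lf (nat_lit 0) (nat_lit 137164795) (nat_lit 380) (nat_lit 15925248965) (nat_lit 76) (nat_lit 8806003355) (nat_lit 105) (nat_lit 5) (nat_lit 110) (nat_lit 5) (nat_lit 106) (nat_lit 5) (nat_lit 344) (nat_lit 286) (nat_lit 150)) (XT.lf (nat_lit 0) (nat_lit 720821028) (nat_lit 380) (nat_lit 5338274356) (nat_lit 456) (nat_lit 19322933482) (nat_lit 100) (nat_lit 5) (nat_lit 105) (nat_lit 5) (nat_lit 106)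 (nat_lit 5) (nat_lit 345) (nat_lit 286) (nat_lit 149)))))) (XT.nd (nat_lit 468) (nat_lit 1140) (nat_lit 0) (XT.nd (nat_lit 234) (nat_lit 380) (nat_lit 0) (XT.nd (nat_lit 78) (nat_lit 608) (nat_lit 0) (XT.lf (nat_lit 0) (nat_lit 12292723058) (nat_lit 456) (nat_lit 7879562372) (nat_lit 76) (nat_lit 5736090011) (nat_lit 100) (nat_lit 5) (nat_lit 106) (nat_lit 5) (nat_lit 101) (nat_lit 5) (nat_lit 346) (nat_lit 286) (nat_lit 148)) (XT.nd (nat_lit 78) (nat_lit 304) (nat_lit 0) (XT.lf (nat_lit 0) (nat_lit 9477471584) (nat_lit 304) (nat_lit 9321813194) (nat_lit 380) (nat_lit 7649516178) (nat_lit 96) (nat_lit 5) (nat_lit 100) (nat_lit 5) (nat_lit 101) (nat_lit 5) (nat_lit 347) (nat_lit 286) (nat_lit 147)) (XT.lf (nat_lit 0) (nat_lit 435436583) (nat_lit 304) (nat_lit 25123100729) (nat_lit 380) (nat_lit 1445758885) (nat_lit 92) (nat_lit 5) (nat_lit 96) (nat_lit 5) (nat_lit 97) (nat_lit 5) (nat_lit 348)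 (nat_lit 286) (nat_lit 146)))) (XT.nd (nat_lit 78) (nat_lit 304) (nat_lit 0) (XT.lf (nat_lit 0) (nat_lit 5046391496) (nat_lit 380) (nat_lit 9089113036) (nat_lit 76) (nat_lit 13436973798) (nat_lit 91) (nat_lit 5) (nat_lit 96) (nat_lit 5) (nat_lit 92) (nat_lit 5) (nat_lit 349) (nat_lit 286) (nat_lit 145)) (XT.nd (nat_lit 78) (nat_lit 0) (nat_lit 0) (XT.lf (nat_lit 0) (nat_lit 9007504784) (nat_lit 304) (nat_lit 2754093377) (nat_lit 380) (nat_lit 16394964280) (nat_lit 87) (nat_lit 5) (nat_lit 91) (nat_lit 5) (nat_lit 92) (nat_lit 5) (nat_lit 350) (nat_lit 286) (nat_lit 144)) (XT.lf (nat_lit 0) (nat_lit 18788004188) (nat_lit 380) (nat_lit 1060051247) (nat_lit 76) (nat_lit 8907924914) (nat_lit 87) (nat_lit 5) (nat_lit 92) (nat_lit 5) (nat_lit 88) (nat_lit 5) (nat_lit 351) (nat_lit 286) (nat_lit 143))))) (XT.nd (nat_lit 234) (nat_lit 532) (nat_lit 0) (XT.nd (nat_lit 78) (nat_lit 304) (nat_lit 0) (XT.lf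 (nat_lit 0) (nat_lit 17770829197) (nat_lit 304) (nat_lit 8377989921) (nat_lit 380) (nat_lit 3222095299) (nat_lit 83) (nat_lit 5) (nat_lit 87) (nat_lit 5) (nat_lit 88) (nat_lit 5) (nat_lit 352) (nat_lit 286) (nat_lit 142)) (XT.nd (nat_lit 78) (nat_lit 0) (nat_lit 0) (XT.lf (nat_lit 0) (nat_lit 3744219883) (nat_lit 304) (nat_lit 22793459450) (nat_lit 76) (nat_lit 3464800449) (nat_lit 79) (nat_lit 5) (nat_lit 83) (nat_lit 5) (nat_lit 80) (nat_lit 5) (nat_lit 353) (nat_lit 286) (nat_lit 141)) (XT.lf (nat_lit 0) (nat_lit 11001258068) (nat_lit 304) (nat_lit 4003587255) (nat_lit 76) (nat_lit 15645216144) (nat_lit 79) (nat_lit 5) (nat_lit 83) (nat_lit 5) (nat_lit 80) (nat_lit 5) (nat_lit 354) (nat_lit 286) (nat_lit 140)))) (XT.nd (nat_lit 35334) (nat_lit 0) (nat_lit 25232) (XT.nd (nat_lit 78) (nat_lit 228) (nat_lit 0) (XT.lf (nat_lit 0) (nat_lit 15538967127) (nat_lit 304) (nat_lit 3028323647) (nat_lit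 380) (nat_lit 12747959508) (nat_lit 75) (nat_lit 5) (nat_lit 79) (nat_lit 5) (nat_lit 80) (nat_lit 5) (nat_lit 355) (nat_lit 286) (nat_lit 139)) (XT.lf (nat_lit 0) (nat_lit 3695879523) (nat_lit 228) (nat_lit 22766706546) (nat_lit 304) (nat_lit 5535768251) (nat_lit 72) (nat_lit 5) (nat_lit 75) (nat_lit 5) (nat_lit 76) (nat_lit 5) (nat_lit 356) (nat_lit 286) (nat_lit 138))) (XT.nd (nat_lit 78) (nat_lit 0) (nat_lit 0) (XT.lf (nat_lit 0) (nat_lit 1526169369) (nat_lit 0) (nat_lit 1526169369) (nat_lit 1444) (nat_lit 1759863721) (nat_lit 404) (nat_lit 5) (nat_lit 404) (nat_lit 3) (nat_lit 423) (nat_lit 3) (nat_lit 287) (nat_lit 287) (nat_lit 206)) (XT.lf (nat_lit 0) (nat_lit 7291160793) (nat_lit 1444) (nat_lit 170000045) (nat_lit 1520) (nat_lit 2284501697) (nat_lit 404) (nat_lit 5) (nat_lit 423) (nat_lit 3) (nat_lit 424) (nat_lit 5) (nat_lit 288) (nat_lit 287) (nat_lit 205))))))) (XT.nd (nat_lit 1014)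 (nat_lit 8816) (nat_lit 0) (XT.nd (nat_lit 468) (nat_lit 1216) (nat_lit 0) (XT.nd (nat_lit 234) (nat_lit 0) (nat_lit 76) (XT.nd (nat_lit 78) (nat_lit 1444) (nat_lit 0) (XT.lf (nat_lit 76) (nat_lit 6466424695) (nat_lit 0) (nat_lit 2067202552) (nat_lit 1520) (nat_lit 1336570089) (nat_lit 405) (nat_lit 5) (nat_lit 404) (nat_lit 5) (nat_lit 424) (nat_lit 5) (nat_lit 289) (nat_lit 287) (nat_lit 204)) (XT.nd (nat_lit 78) (nat_lit 1520) (nat_lit 0) (XT.lf (nat_lit 76) (nat_lit 3303765986) (nat_lit 0) (nat_lit 6514060612) (nat_lit 1520) (nat_lit 180598259) (nat_lit 406) (nat_lit 5) (nat_lit 405) (nat_lit 5) (nat_lit 425) (nat_lit 5) (nat_lit 290) (nat_lit 287) (nat_lit 203)) (XT.lf (nat_lit 76) (nat_lit 86749926) (nat_lit 0) (nat_lit 907595986) (nat_lit 1596) (nat_lit 9136114976) (nat_lit 386) (nat_lit 5) (nat_lit 385) (nat_lit 5) (nat_lit 406) (nat_lit 5) (nat_lit 291) (nat_lit 287) (nat_lit 202))))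 (XT.nd (nat_lit 78) (nat_lit 0) (nat_lit 76) (XT.lf (nat_lit 0) (nat_lit 2240426849) (nat_lit 1520) (nat_lit 3158915752) (nat_lit 1596) (nat_lit 4866367058) (nat_lit 386) (nat_lit 5) (nat_lit 406) (nat_lit 5) (nat_lit 407) (nat_lit 5) (nat_lit 292) (nat_lit 287) (nat_lit 201)) (XT.nd (nat_lit 78) (nat_lit 0) (nat_lit 0) (XT.lf (nat_lit 0) (nat_lit 3520678413) (nat_lit 1520) (nat_lit 6452600205) (nat_lit 1596) (nat_lit 431842651) (nat_lit 387) (nat_lit 5) (nat_lit 407) (nat_lit 5) (nat_lit 408) (nat_lit 5) (nat_lit 293) (nat_lit 287) (nat_lit 200)) (XT.lf (nat_lit 76) (nat_lit 722164103) (nat_lit 0) (nat_lit 4142762903) (nat_lit 1596) (nat_lit 5683316375) (nat_lit 388) (nat_lit 5) (nat_lit 387) (nat_lit 5) (nat_lit 408) (nat_lit 5) (nat_lit 294) (nat_lit 287) (nat_lit 199))))) (XT.nd (nat_lit 234) (nat_lit 1444) (nat_lit 0) (XT.nd (nat_lit 78) (nat_lit 0) (nat_lit 0) (XT.lf (nat_lit 0) (nat_lit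 6269861889) (nat_lit 1520) (nat_lit 2530444614) (nat_lit 1596) (nat_lit 1894984256) (nat_lit 388) (nat_lit 5) (nat_lit 408) (nat_lit 5) (nat_lit 409) (nat_lit 5) (nat_lit 295) (nat_lit 287) (nat_lit 198)) (XT.nd (nat_lit 78) (nat_lit 0) (nat_lit 76) (XT.lf (nat_lit 76) (nat_lit 4998835359) (nat_lit 0) (nat_lit 2743561673) (nat_lit 1596) (nat_lit 3103881131) (nat_lit 389) (nat_lit 5) (nat_lit 388) (nat_lit 5) (nat_lit 409) (nat_lit 5) (nat_lit 296) (nat_lit 287) (nat_lit 197)) (XT.lf (nat_lit 76) (nat_lit 1764018165) (nat_lit 0) (nat_lit 7512722793) (nat_lit 1596) (nat_lit 1724738132) (nat_lit 390) (nat_lit 5) (nat_lit 389) (nat_lit 5) (nat_lit 410) (nat_lit 5) (nat_lit 297) (nat_lit 287) (nat_lit 196)))) (XT.nd (nat_lit 156) (nat_lit 0) (nat_lit 76) (XT.nd (nat_lit 78) (nat_lit 1520) (nat_lit 0) (XT.lf (nat_lit 76) (nat_lit 9642162375) (nat_lit 0) (nat_lit 1239865047) (nat_lit 1596) (nat_lit 278845865)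 (nat_lit 390) (nat_lit 5) (nat_lit 389) (nat_lit 5) (nat_lit 410) (nat_lit 5) (nat_lit 298) (nat_lit 287) (nat_lit 195)) (XT.lf (nat_lit 0) (nat_lit 1238724884) (nat_lit 1596) (nat_lit 4873111447) (nat_lit 1672) (nat_lit 5212206050) (nat_lit 369) (nat_lit 5) (nat_lit 390) (nat_lit 5) (nat_lit 391) (nat_lit 5) (nat_lit 299) (nat_lit 287) (nat_lit 194))) (XT.nd (nat_lit 78) (nat_lit 0) (nat_lit 0) (XT.lf (nat_lit 0) (nat_lit 2808627209) (nat_lit 1596) (nat_lit 8297471683) (nat_lit 1672) (nat_lit 385791728) (nat_lit 370) (nat_lit 5) (nat_lit 391) (nat_lit 5) (nat_lit 392) (nat_lit 5) (nat_lit 300) (nat_lit 287) (nat_lit 193)) (XT.lf (nat_lit 0) (nat_lit 4469180326) (nat_lit 1596) (nat_lit 158089850) (nat_lit 1672) (nat_lit 7036664897) (nat_lit 370) (nat_lit 5) (nat_lit 391) (nat_lit 5) (nat_lit 392) (nat_lit 5) (nat_lit 301) (nat_lit 287) (nat_lit 192)))))) (XT.nd (nat_lit 546) (nat_lit 3876) (nat_lit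 0) (XT.nd (nat_lit 234) (nat_lit 3572) (nat_lit 0) (XT.nd (nat_lit 78) (nat_lit 1520) (nat_lit 0) (XT.lf (nat_lit 0) (nat_lit 6217530262) (nat_lit 1596) (nat_lit 3542766775) (nat_lit 1672) (nat_lit 2080115132) (nat_lit 371) (nat_lit 5) (nat_lit 392) (nat_lit 5) (nat_lit 393) (nat_lit 5) (nat_lit 302) (nat_lit 287) (nat_lit 191)) (XT.nd (nat_lit 78) (nat_lit 1520) (nat_lit 0) (XT.lf (nat_lit 76) (nat_lit 4998501775) (nat_lit 0) (nat_lit 3055396155) (nat_lit 1672) (nat_lit 3967604313) (nat_lit 372) (nat_lit 5) (nat_lit 371) (nat_lit 5) (nat_lit 393) (nat_lit 5) (nat_lit 303) (nat_lit 287) (nat_lit 190)) (XT.lf (nat_lit 0) (nat_lit 1609496009) (nat_lit 1596) (nat_lit 8367297478) (nat_lit 1672) (nat_lit 2230631935) (nat_lit 351) (nat_lit 5) (nat_lit 372) (nat_lit 5) (nat_lit 373) (nat_lit 5) (nat_lit 304) (nat_lit 287) (nat_lit 189)))) (XT.nd (nat_lit 156) (nat_lit 1824) (nat_lit 0) (XT.nd (nat_lit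 78) (nat_lit 1748) (nat_lit 0) (XT.lf (nat_lit 0) (nat_lit 10553364498) (nat_lit 1596) (nat_lit 1444391153) (nat_lit 1672) (nat_lit 400391341) (nat_lit 351) (nat_lit 5) (nat_lit 372) (nat_lit 5) (nat_lit 373) (nat_lit 5) (nat_lit 305) (nat_lit 287) (nat_lit 188)) (XT.lf (nat_lit 0) (nat_lit 1522657002) (nat_lit 1748) (nat_lit 5397901356) (nat_lit 76) (nat_lit 5672718508) (nat_lit 328) (nat_lit 5) (nat_lit 351) (nat_lit 5) (nat_lit 329) (nat_lit 5) (nat_lit 306) (nat_lit 287) (nat_lit 187))) (XT.nd (nat_lit 78) (nat_lit 836) (nat_lit 0) (XT.lf (nat_lit 0) (nat_lit 3519858477) (nat_lit 1064) (nat_lit 9043528813) (nat_lit 76) (nat_lit 230408531) (nat_lit 315) (nat_lit 5) (nat_lit 329) (nat_lit 5) (nat_lit 316) (nat_lit 5) (nat_lit 307) (nat_lit 287) (nat_lit 186)) (XT.lf (nat_lit 0) (nat_lit 179867295) (nat_lit 836) (nat_lit 5455767589) (nat_lit 912) (nat_lit 7363547663) (nat_lit 304) (nat_lit 5)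 (nat_lit 315) (nat_lit 5) (nat_lit 316) (nat_lit 5) (nat_lit 308) (nat_lit 287) (nat_lit 185))))) (XT.nd (nat_lit 234) (nat_lit 2280) (nat_lit 0) (XT.nd (nat_lit 78) (nat_lit 1596) (nat_lit 0) (XT.lf (nat_lit 0) (nat_lit 7863684418) (nat_lit 912) (nat_lit 3441567569) (nat_lit 76) (nat_lit 1904527534) (nat_lit 304) (nat_lit 5) (nat_lit 316) (nat_lit 5) (nat_lit 305) (nat_lit 5) (nat_lit 309) (nat_lit 287) (nat_lit 184)) (XT.nd (nat_lit 78) (nat_lit 760) (nat_lit 0) (XT.lf (nat_lit 0) (nat_lit 6240246366) (nat_lit 836) (nat_lit 3971060942) (nat_lit 912) (nat_lit 3214356381) (nat_lit 293) (nat_lit 5) (nat_lit 304) (nat_lit 5) (nat_lit 305) (nat_lit 5) (nat_lit 310) (nat_lit 287) (nat_lit 183)) (XT.lf (nat_lit 0) (nat_lit 2599983312) (nat_lit 760) (nat_lit 10069298912) (nat_lit 836) (nat_lit 977966922) (nat_lit 283) (nat_lit 5) (nat_lit 293) (nat_lit 5) (nat_lit 294) (nat_lit 5) (nat_lit 311) (nat_lit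 287) (nat_lit 182)))) (XT.nd (nat_lit 156) (nat_lit 1444) (nat_lit 0) (XT.nd (nat_lit 78) (nat_lit 760) (nat_lit 0) (XT.lf (nat_lit 0) (nat_lit 1360371159) (nat_lit 836) (nat_lit 1155417647) (nat_lit 76) (nat_lit 11358498519) (nat_lit 282) (nat_lit 5) (nat_lit 293) (nat_lit 5) (nat_lit 283) (nat_lit 5) (nat_lit 312) (nat_lit 287) (nat_lit 181)) (XT.lf (nat_lit 0) (nat_lit 3826859387) (nat_lit 836) (nat_lit 5017666024) (nat_lit 76) (nat_lit 5262077682) (nat_lit 272) (nat_lit 5) (nat_lit 283) (nat_lit 5) (nat_lit 273) (nat_lit 5) (nat_lit 313) (nat_lit 287) (nat_lit 180))) (XT.nd (nat_lit 78) (nat_lit 760) (nat_lit 0) (XT.lf (nat_lit 0) (nat_lit 5341715843) (nat_lit 684) (nat_lit 1062886793) (nat_lit 760) (nat_lit 7940561331) (nat_lit 263) (nat_lit 5) (nat_lit 272) (nat_lit 5) (nat_lit 273) (nat_lit 5) (nat_lit 314) (nat_lit 287) (nat_lit 179)) (XT.lf (nat_lit 0) (nat_lit 1441640345) (nat_lit 760)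 (nat_lit 7685137218) (nat_lit 836) (nat_lit 5462782348) (nat_lit 253) (nat_lit 5) (nat_lit 263) (nat_lit 5) (nat_lit 264) (nat_lit 5) (nat_lit 315) (nat_lit 287) (nat_lit 178))))))))
noncomputable def xc96 : XT := (XT.nd (nat_lit 2028) (nat_lit 3116) (nat_lit 0) (XT.nd (nat_lit 1014) (nat_lit 4332) (nat_lit 0) (XT.nd (nat_lit 468) (nat_lit 3040) (nat_lit 0) (XT.nd (nat_lit 234) (nat_lit 1292) (nat_lit 0) (XT.nd (nat_lit 78) (nat_lit 1444) (nat_lit 0) (XT.lf (nat_lit 0) (nat_lit 11979607377) (nat_lit 836) (nat_lit 2548207559) (nat_lit 76) (nat_lit 312512650) (nat_lit 253) (nat_lit 5) (nat_lit 264) (nat_lit 5) (nat_lit 254) (nat_lit 5) (nat_lit 316) (nat_lit 287) (nat_lit 177)) (XT.nd (nat_lit 78) (nat_lit 760) (nat_lit 0) (XT.lf (nat_lit 0) (nat_lit 8406667610) (nat_lit 684) (nat_lit 6596803092) (nat_lit 760) (nat_lit 93457686) (nat_lit 244) (nat_lit 5) (nat_lit 253) (nat_lit 5) (nat_lit 254) (nat_lit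 5) (nat_lit 317) (nat_lit 287) (nat_lit 176)) (XT.lf (nat_lit 0) (nat_lit 2756900798) (nat_lit 760) (nat_lit 10988974675) (nat_lit 76) (nat_lit 1614287227) (nat_lit 234) (nat_lit 5) (nat_lit 244) (nat_lit 5) (nat_lit 235) (nat_lit 5) (nat_lit 318) (nat_lit 287) (nat_lit 175)))) (XT.nd (nat_lit 78) (nat_lit 684) (nat_lit 0) (XT.lf (nat_lit 0) (nat_lit 161065142) (nat_lit 608) (nat_lit 5601461657) (nat_lit 684) (nat_lit 9867351981) (nat_lit 226) (nat_lit 5) (nat_lit 234) (nat_lit 5) (nat_lit 235) (nat_lit 5) (nat_lit 319) (nat_lit 287) (nat_lit 174)) (XT.nd (nat_lit 78) (nat_lit 684) (nat_lit 0) (XT.lf (nat_lit 0) (nat_lit 8932023303) (nat_lit 684) (nat_lit 4150478058) (nat_lit 76) (nat_lit 2823728056) (nat_lit 226) (nat_lit 5) (nat_lit 235) (nat_lit 5) (nat_lit 227) (nat_lit 5) (nat_lit 320) (nat_lit 287) (nat_lit 173)) (XT.lf (nat_lit 0) (nat_lit 7547856184) (nat_lit 684) (nat_lit 4716424262)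 (nat_lit 760) (nat_lit 3925253227) (nat_lit 217) (nat_lit 5) (nat_lit 226) (nat_lit 5) (nat_lit 227) (nat_lit 5) (nat_lit 321) (nat_lit 287) (nat_lit 172))))) (XT.nd (nat_lit 234) (nat_lit 1748) (nat_lit 0) (XT.nd (nat_lit 78) (nat_lit 684) (nat_lit 0) (XT.lf (nat_lit 0) (nat_lit 3168107125) (nat_lit 608) (nat_lit 12584212192) (nat_lit 684) (nat_lit 727917586) (nat_lit 209) (nat_lit 5) (nat_lit 217) (nat_lit 5) (nat_lit 218) (nat_lit 5) (nat_lit 322) (nat_lit 287) (nat_lit 171)) (XT.nd (nat_lit 78) (nat_lit 608) (nat_lit 0) (XT.lf (nat_lit 0) (nat_lit 2604054715) (nat_lit 684) (nat_lit 1397624087) (nat_lit 76) (nat_lit 12776217435) (nat_lit 208) (nat_lit 5) (nat_lit 217) (nat_lit 5) (nat_lit 209) (nat_lit 5) (nat_lit 323) (nat_lit 287) (nat_lit 170)) (XT.lf (nat_lit 0) (nat_lit 6111830609) (nat_lit 684) (nat_lit 6122011907) (nat_lit 76) (nat_lit 4848846827) (nat_lit 200) (nat_lit 5) (nat_lit 209)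 (nat_lit 5) (nat_lit 201) (nat_lit 5) (nat_lit 324) (nat_lit 287) (nat_lit 169)))) (XT.nd (nat_lit 156) (nat_lit 608) (nat_lit 0) (XT.nd (nat_lit 78) (nat_lit 608) (nat_lit 0) (XT.lf (nat_lit 0) (nat_lit 6348439114) (nat_lit 532) (nat_lit 3436679039) (nat_lit 608) (nat_lit 7610316993) (nat_lit 193) (nat_lit 5) (nat_lit 200) (nat_lit 5) (nat_lit 201) (nat_lit 5) (nat_lit 325) (nat_lit 287) (nat_lit 168)) (XT.lf (nat_lit 0) (nat_lit 1522829997) (nat_lit 608) (nat_lit 12117054529) (nat_lit 684) (nat_lit 4076267243) (nat_lit 185) (nat_lit 5) (nat_lit 193) (nat_lit 5) (nat_lit 194) (nat_lit 5) (nat_lit 326) (nat_lit 287) (nat_lit 167))) (XT.nd (nat_lit 78) (nat_lit 608) (nat_lit 0) (XT.lf (nat_lit 0) (nat_lit 14577587860) (nat_lit 608) (nat_lit 3113872923) (nat_lit 684) (nat_lit 353419409) (nat_lit 185) (nat_lit 5) (nat_lit 193) (nat_lit 5) (nat_lit 194) (nat_lit 5) (nat_lit 327) (nat_lit 287) (nat_lit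 166)) (XT.lf (nat_lit 0) (nat_lit 3522979505) (nat_lit 608) (nat_lit 8696886817) (nat_lit 76) (nat_lit 6161414672) (nat_lit 177) (nat_lit 5) (nat_lit 185) (nat_lit 5) (nat_lit 178) (nat_lit 5) (nat_lit 328) (nat_lit 287) (nat_lit 165)))))) (XT.nd (nat_lit 468) (nat_lit 2280) (nat_lit 0) (XT.nd (nat_lit 234) (nat_lit 1064) (nat_lit 0) (XT.nd (nat_lit 78) (nat_lit 456) (nat_lit 0) (XT.lf (nat_lit 0) (nat_lit 4567634555) (nat_lit 532) (nat_lit 3001553475) (nat_lit 608) (nat_lit 11157385289) (nat_lit 170) (nat_lit 5) (nat_lit 177) (nat_lit 5) (nat_lit 178) (nat_lit 5) (nat_lit 329) (nat_lit 287) (nat_lit 164)) (XT.nd (nat_lit 78) (nat_lit 456) (nat_lit 0) (XT.lf (nat_lit 0) (nat_lit 11822735774) (nat_lit 608) (nat_lit 794152239) (nat_lit 76) (nat_lit 6463629580) (nat_lit 170) (nat_lit 5) (nat_lit 178) (nat_lit 5) (nat_lit 171) (nat_lit 5) (nat_lit 330) (nat_lit 287) (nat_lit 163)) (XT.lf (nat_lit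 0) (nat_lit 13104250089) (nat_lit 456) (nat_lit 3189717322) (nat_lit 532) (nat_lit 3149323115) (nat_lit 164) (nat_lit 5) (nat_lit 170) (nat_lit 5) (nat_lit 171) (nat_lit 5) (nat_lit 331) (nat_lit 287) (nat_lit 162)))) (XT.nd (nat_lit 78) (nat_lit 456) (nat_lit 0) (XT.lf (nat_lit 0) (nat_lit 1151379903) (nat_lit 608) (nat_lit 12170339103) (nat_lit 76) (nat_lit 6493434673) (nat_lit 156) (nat_lit 5) (nat_lit 164) (nat_lit 5) (nat_lit 157) (nat_lit 5) (nat_lit 332) (nat_lit 287) (nat_lit 161)) (XT.nd (nat_lit 78) (nat_lit 0) (nat_lit 0) (XT.lf (nat_lit 0) (nat_lit 1900910751) (nat_lit 456) (nat_lit 3699978814) (nat_lit 532) (nat_lit 14595626350) (nat_lit 150) (nat_lit 5) (nat_lit 156) (nat_lit 5) (nat_lit 157) (nat_lit 5) (nat_lit 333) (nat_lit 287) (nat_lit 160)) (XT.lf (nat_lit 0) (nat_lit 10292913610) (nat_lit 532) (nat_lit 4086594995) (nat_lit 76) (nat_lit 6207640492) (nat_lit 150) (nat_lit 5)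 (nat_lit 157) (nat_lit 5) (nat_lit 151) (nat_lit 5) (nat_lit 334) (nat_lit 287) (nat_lit 159))))) (XT.nd (nat_lit 234) (nat_lit 1292) (nat_lit 0) (XT.nd (nat_lit 78) (nat_lit 532) (nat_lit 0) (XT.lf (nat_lit 0) (nat_lit 10645162369) (nat_lit 456) (nat_lit 4560502381) (nat_lit 532) (nat_lit 5782247546) (nat_lit 144) (nat_lit 5) (nat_lit 150) (nat_lit 5) (nat_lit 151) (nat_lit 5) (nat_lit 335) (nat_lit 287) (nat_lit 158)) (XT.nd (nat_lit 78) (nat_lit 76) (nat_lit 0) (XT.lf (nat_lit 0) (nat_lit 4478821242) (nat_lit 456) (nat_lit 15866351877) (nat_lit 532) (nat_lit 1053947824) (nat_lit 138) (nat_lit 5) (nat_lit 144) (nat_lit 5) (nat_lit 145) (nat_lit 5) (nat_lit 336) (nat_lit 287) (nat_lit 157)) (XT.lf (nat_lit 0) (nat_lit 3853746100) (nat_lit 532) (nat_lit 2008629157) (nat_lit 76) (nat_lit 15958052705) (nat_lit 137) (nat_lit 5) (nat_lit 144) (nat_lit 5) (nat_lit 138) (nat_lit 5) (nat_lit 337) (nat_lit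 287) (nat_lit 156)))) (XT.nd (nat_lit 156) (nat_lit 456) (nat_lit 0) (XT.nd (nat_lit 78) (nat_lit 380) (nat_lit 0) (XT.lf (nat_lit 0) (nat_lit 8998477014) (nat_lit 532) (nat_lit 8779459069) (nat_lit 76) (nat_lit 4474225557) (nat_lit 131) (nat_lit 5) (nat_lit 138) (nat_lit 5) (nat_lit 132) (nat_lit 5) (nat_lit 338) (nat_lit 287) (nat_lit 155)) (XT.lf (nat_lit 0) (nat_lit 6781383630) (nat_lit 380) (nat_lit 7600277498) (nat_lit 456) (nat_lit 8313512990) (nat_lit 126) (nat_lit 5) (nat_lit 131) (nat_lit 5) (nat_lit 132) (nat_lit 5) (nat_lit 339) (nat_lit 287) (nat_lit 154))) (XT.nd (nat_lit 78) (nat_lit 456) (nat_lit 0) (XT.lf (nat_lit 0) (nat_lit 19992349637) (nat_lit 456) (nat_lit 257768307) (nat_lit 76) (nat_lit 2900047602) (nat_lit 126) (nat_lit 5) (nat_lit 132) (nat_lit 5) (nat_lit 127) (nat_lit 5) (nat_lit 340) (nat_lit 287) (nat_lit 153)) (XT.lf (nat_lit 0) (nat_lit 2267803393) (nat_lit 456)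 (nat_lit 7620886346) (nat_lit 76) (nat_lit 13726976144) (nat_lit 120) (nat_lit 5) (nat_lit 126) (nat_lit 5) (nat_lit 121) (nat_lit 5) (nat_lit 341) (nat_lit 287) (nat_lit 152))))))) (XT.nd (nat_lit 1014) (nat_lit 0) (nat_lit 0) (XT.nd (nat_lit 468) (nat_lit 1596) (nat_lit 0) (XT.nd (nat_lit 234) (nat_lit 760) (nat_lit 0) (XT.nd (nat_lit 78) (nat_lit 380) (nat_lit 0) (XT.lf (nat_lit 0) (nat_lit 7865419587) (nat_lit 456) (nat_lit 15379783075) (nat_lit 76) (nat_lit 848476580) (nat_lit 115) (nat_lit 5) (nat_lit 121) (nat_lit 5) (nat_lit 116) (nat_lit 5) (nat_lit 342) (nat_lit 287) (nat_lit 151)) (XT.nd (nat_lit 78) (nat_lit 0) (nat_lit 0) (XT.lf (nat_lit 0) (nat_lit 987605469) (nat_lit 380) (nat_lit 12756028329) (nat_lit 456) (nat_lit 10840153665) (nat_lit 110) (nat_lit 5) (nat_lit 115) (nat_lit 5) (nat_lit 116) (nat_lit 5) (nat_lit 343) (nat_lit 287) (nat_lit 150)) (XT.lf (nat_lit 0) (nat_lit 18039897976)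 (nat_lit 380) (nat_lit 1850895788) (nat_lit 456) (nat_lit 5195960804) (nat_lit 110) (nat_lit 5) (nat_lit 115) (nat_lit 5) (nat_lit 116) (nat_lit 5) (nat_lit 344) (nat_lit 287) (nat_lit 149)))) (XT.nd (nat_lit 78) (nat_lit 380) (nat_lit 0) (XT.lf (nat_lit 0) (nat_lit 725084175) (nat_lit 380) (nat_lit 15553753975) (nat_lit 76) (nat_lit 9323587087) (nat_lit 105) (nat_lit 5) (nat_lit 110) (nat_lit 5) (nat_lit 106) (nat_lit 5) (nat_lit 345) (nat_lit 287) (nat_lit 148)) (XT.nd (nat_lit 78) (nat_lit 0) (nat_lit 0) (XT.lf (nat_lit 0) (nat_lit 1577920005) (nat_lit 380) (nat_lit 5235173117) (nat_lit 456) (nat_lit 19318594537) (nat_lit 100) (nat_lit 5) (nat_lit 105) (nat_lit 5) (nat_lit 106) (nat_lit 5) (nat_lit 346) (nat_lit 287) (nat_lit 147)) (XT.lf (nat_lit 0) (nat_lit 13218722291) (nat_lit 456) (nat_lit 7295010187) (nat_lit 76) (nat_lit 6160402716) (nat_lit 100) (nat_lit 5) (nat_lit 106) (nat_lit 5)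 (nat_lit 101) (nat_lit 5) (nat_lit 347) (nat_lit 287) (nat_lit 146))))) (XT.nd (nat_lit 234) (nat_lit 912) (nat_lit 0) (XT.nd (nat_lit 78) (nat_lit 380) (nat_lit 0) (XT.lf (nat_lit 0) (nat_lit 10569416027) (nat_lit 304) (nat_lit 9340078805) (nat_lit 380) (nat_lit 7321508474) (nat_lit 96) (nat_lit 5) (nat_lit 100) (nat_lit 5) (nat_lit 101) (nat_lit 5) (nat_lit 348) (nat_lit 287) (nat_lit 145)) (XT.nd (nat_lit 78) (nat_lit 76) (nat_lit 0) (XT.lf (nat_lit 0) (nat_lit 1252426693) (nat_lit 304) (nat_lit 25610055900) (nat_lit 380) (nat_lit 940871475) (nat_lit 92) (nat_lit 5) (nat_lit 96) (nat_lit 5) (nat_lit 97) (nat_lit 5) (nat_lit 349) (nat_lit 287) (nat_lit 144)) (XT.lf (nat_lit 0) (nat_lit 5723093577) (nat_lit 380) (nat_lit 8573982196) (nat_lit 76) (nat_lit 14091759230) (nat_lit 91) (nat_lit 5) (nat_lit 96) (nat_lit 5) (nat_lit 92) (nat_lit 5) (nat_lit 350) (nat_lit 287) (nat_lit 143)))) (XT.nd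 (nat_lit 156) (nat_lit 608) (nat_lit 0) (XT.nd (nat_lit 78) (nat_lit 0) (nat_lit 0) (XT.lf (nat_lit 0) (nat_lit 10052752971) (nat_lit 304) (nat_lit 2576735133) (nat_lit 380) (nat_lit 16361167971) (nat_lit 87) (nat_lit 5) (nat_lit 91) (nat_lit 5) (nat_lit 92) (nat_lit 5) (nat_lit 351) (nat_lit 287) (nat_lit 142)) (XT.lf (nat_lit 0) (nat_lit 19853323894) (nat_lit 380) (nat_lit 330747625) (nat_lit 76) (nat_lit 9424261057) (nat_lit 87) (nat_lit 5) (nat_lit 92) (nat_lit 5) (nat_lit 88) (nat_lit 5) (nat_lit 352) (nat_lit 287) (nat_lit 141))) (XT.nd (nat_lit 78) (nat_lit 304) (nat_lit 0) (XT.lf (nat_lit 0) (nat_lit 19052711205) (nat_lit 304) (nat_lit 8372501468) (nat_lit 380) (nat_lit 2816705556) (nat_lit 83) (nat_lit 5) (nat_lit 87) (nat_lit 5) (nat_lit 88) (nat_lit 5) (nat_lit 353) (nat_lit 287) (nat_lit 140)) (XT.lf (nat_lit 0) (nat_lit 4344081713) (nat_lit 304) (nat_lit 22725584467) (nat_lit 76)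 (nat_lit 3822865979) (nat_lit 79) (nat_lit 5) (nat_lit 83) (nat_lit 5) (nat_lit 80) (nat_lit 5) (nat_lit 354) (nat_lit 287) (nat_lit 139)))))) (XT.nd (nat_lit 35802) (nat_lit 0) (nat_lit 21964) (XT.nd (nat_lit 35568) (nat_lit 0) (nat_lit 23180) (XT.nd (nat_lit 35412) (nat_lit 0) (nat_lit 24700) (XT.lf (nat_lit 0) (nat_lit 11804630989) (nat_lit 304) (nat_lit 3393909662) (nat_lit 76) (nat_lit 16361292548) (nat_lit 79) (nat_lit 5) (nat_lit 83) (nat_lit 5) (nat_lit 80) (nat_lit 5) (nat_lit 355) (nat_lit 287) (nat_lit 138)) (XT.nd (nat_lit 78) (nat_lit 0) (nat_lit 0) (XT.lf (nat_lit 0) (nat_lit 2106705967) (nat_lit 0) (nat_lit 2106705967) (nat_lit 1444) (nat_lit 720567975) (nat_lit 404) (nat_lit 5) (nat_lit 404) (nat_lit 3) (nat_lit 423) (nat_lit 3) (nat_lit 288) (nat_lit 288) (nat_lit 204)) (XT.lf (nat_lit 76) (nat_lit 926000149) (nat_lit 0) (nat_lit 8659870921) (nat_lit 1520) (nat_lit 408314525)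 (nat_lit 405) (nat_lit 5) (nat_lit 404) (nat_lit 5) (nat_lit 424) (nat_lit 5) (nat_lit 289) (nat_lit 288) (nat_lit 203)))) (XT.nd (nat_lit 78) (nat_lit 0) (nat_lit 76) (XT.lf (nat_lit 0) (nat_lit 673601660) (nat_lit 1520) (nat_lit 2396436789) (nat_lit 1596) (nat_lit 7053584082) (nat_lit 384) (nat_lit 5) (nat_lit 404) (nat_lit 5) (nat_lit 405) (nat_lit 5) (nat_lit 290) (nat_lit 288) (nat_lit 202)) (XT.nd (nat_lit 78) (nat_lit 0) (nat_lit 0) (XT.lf (nat_lit 0) (nat_lit 1790649188) (nat_lit 1520) (nat_lit 5764056351) (nat_lit 1596) (nat_lit 2702061007) (nat_lit 385) (nat_lit 5) (nat_lit 405) (nat_lit 5) (nat_lit 406) (nat_lit 5) (nat_lit 291) (nat_lit 288) (nat_lit 201)) (XT.lf (nat_lit 76) (nat_lit 1201250257) (nat_lit 0) (nat_lit 1746869250) (nat_lit 1596) (nat_lit 7445688289) (nat_lit 386) (nat_lit 5) (nat_lit 385) (nat_lit 5) (nat_lit 406) (nat_lit 5) (nat_lit 292) (nat_lit 288) (nat_lit 200)))))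 (XT.nd (nat_lit 234) (nat_lit 1368) (nat_lit 0) (XT.nd (nat_lit 78) (nat_lit 0) (nat_lit 0) (XT.lf (nat_lit 0) (nat_lit 4170426917) (nat_lit 1520) (nat_lit 2129666633) (nat_lit 1596) (nat_lit 4234304416) (nat_lit 386) (nat_lit 5) (nat_lit 406) (nat_lit 5) (nat_lit 407) (nat_lit 5) (nat_lit 293) (nat_lit 288) (nat_lit 199)) (XT.nd (nat_lit 78) (nat_lit 0) (nat_lit 76) (XT.lf (nat_lit 76) (nat_lit 5179862282) (nat_lit 0) (nat_lit 259220966) (nat_lit 1596) (nat_lit 5239967779) (nat_lit 387) (nat_lit 5) (nat_lit 386) (nat_lit 5) (nat_lit 407) (nat_lit 5) (nat_lit 294) (nat_lit 288) (nat_lit 198)) (XT.lf (nat_lit 76) (nat_lit 1873865681) (nat_lit 0) (nat_lit 4902697003) (nat_lit 1596) (nat_lit 4050903376) (nat_lit 388) (nat_lit 5) (nat_lit 387) (nat_lit 5) (nat_lit 408) (nat_lit 5) (nat_lit 295) (nat_lit 288) (nat_lit 197)))) (XT.nd (nat_lit 156) (nat_lit 1520) (nat_lit 0) (XT.nd (nat_lit 78) (nat_lit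 0) (nat_lit 0) (XT.lf (nat_lit 0) (nat_lit 8168210948) (nat_lit 1520) (nat_lit 1469087713) (nat_lit 1596) (nat_lit 1342790548) (nat_lit 388) (nat_lit 5) (nat_lit 408) (nat_lit 5) (nat_lit 409) (nat_lit 5) (nat_lit 296) (nat_lit 288) (nat_lit 196)) (XT.lf (nat_lit 76) (nat_lit 6267619801) (nat_lit 0) (nat_lit 3374753262) (nat_lit 1596) (nat_lit 1494138189) (nat_lit 389) (nat_lit 5) (nat_lit 388) (nat_lit 5) (nat_lit 409) (nat_lit 5) (nat_lit 297) (nat_lit 288) (nat_lit 195))) (XT.nd (nat_lit 78) (nat_lit 1596) (nat_lit 0) (XT.lf (nat_lit 76) (nat_lit 2955697387) (nat_lit 0) (nat_lit 8222409664) (nat_lit 1596) (nat_lit 119206422) (nat_lit 390) (nat_lit 5) (nat_lit 389) (nat_lit 5) (nat_lit 410) (nat_lit 5) (nat_lit 298) (nat_lit 288) (nat_lit 194)) (XT.lf (nat_lit 0) (nat_lit 1304456954) (nat_lit 1596) (nat_lit 434049663) (nat_lit 1672) (nat_lit 9723807648) (nat_lit 368) (nat_lit 5) (nat_lit 389)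 (nat_lit 5) (nat_lit 390) (nat_lit 5) (nat_lit 299) (nat_lit 288) (nat_lit 193))))))))
noncomputable def xc97 : XT := (XT.nd (nat_lit 2028) (nat_lit 8284) (nat_lit 0) (XT.nd (nat_lit 1014) (nat_lit 6232) (nat_lit 0) (XT.nd (nat_lit 468) (nat_lit 5244) (nat_lit 0) (XT.nd (nat_lit 234) (nat_lit 1368) (nat_lit 0) (XT.nd (nat_lit 78) (nat_lit 0) (nat_lit 76) (XT.lf (nat_lit 0) (nat_lit 2821896606) (nat_lit 1596) (nat_lit 3873811025) (nat_lit 1672) (nat_lit 4935519812) (nat_lit 369) (nat_lit 5) (nat_lit 390) (nat_lit 5) (nat_lit 391) (nat_lit 5) (nat_lit 300) (nat_lit 288) (nat_lit 192)) (XT.nd (nat_lit 78) (nat_lit 0) (nat_lit 0) (XT.lf (nat_lit 0) (nat_lit 4398707006) (nat_lit 1596) (nat_lit 7385275237) (nat_lit 1672) (nat_lit 20979735) (nat_lit 370) (nat_lit 5) (nat_lit 391) (nat_lit 5) (nat_lit 392) (nat_lit 5) (nat_lit 301) (nat_lit 288) (nat_lit 191)) (XT.lf (nat_lit 76) (nat_lit 977286289) (nat_lit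 0) (nat_lit 5094276754) (nat_lit 1672) (nat_lit 5911400692) (nat_lit 371) (nat_lit 5) (nat_lit 370) (nat_lit 5) (nat_lit 392) (nat_lit 5) (nat_lit 302) (nat_lit 288) (nat_lit 190)))) (XT.nd (nat_lit 78) (nat_lit 1520) (nat_lit 0) (XT.lf (nat_lit 0) (nat_lit 7828575443) (nat_lit 1596) (nat_lit 2507964989) (nat_lit 1672) (nat_lit 1829114838) (nat_lit 371) (nat_lit 5) (nat_lit 392) (nat_lit 5) (nat_lit 393) (nat_lit 5) (nat_lit 303) (nat_lit 288) (nat_lit 189)) (XT.nd (nat_lit 78) (nat_lit 1520) (nat_lit 0) (XT.lf (nat_lit 76) (nat_lit 6271028873) (nat_lit 0) (nat_lit 3414802899) (nat_lit 1672) (nat_lit 2667073397) (nat_lit 372) (nat_lit 5) (nat_lit 371) (nat_lit 5) (nat_lit 393) (nat_lit 5) (nat_lit 304) (nat_lit 288) (nat_lit 188)) (XT.lf (nat_lit 0) (nat_lit 2792618432) (nat_lit 1596) (nat_lit 8838981469) (nat_lit 1672) (nat_lit 913544247) (nat_lit 351) (nat_lit 5) (nat_lit 372) (nat_lit 5) (nat_lit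 373) (nat_lit 5) (nat_lit 305) (nat_lit 288) (nat_lit 187))))) (XT.nd (nat_lit 234) (nat_lit 2508) (nat_lit 0) (XT.nd (nat_lit 78) (nat_lit 2660) (nat_lit 0) (XT.lf (nat_lit 0) (nat_lit 919078620) (nat_lit 1672) (nat_lit 776714695) (nat_lit 76) (nat_lit 11046503334) (nat_lit 350) (nat_lit 5) (nat_lit 372) (nat_lit 5) (nat_lit 351) (nat_lit 5) (nat_lit 306) (nat_lit 288) (nat_lit 186)) (XT.nd (nat_lit 78) (nat_lit 988) (nat_lit 0) (XT.lf (nat_lit 0) (nat_lit 2861697722) (nat_lit 1748) (nat_lit 4428859970) (nat_lit 76) (nat_lit 5653362061) (nat_lit 328) (nat_lit 5) (nat_lit 351) (nat_lit 5) (nat_lit 329) (nat_lit 5) (nat_lit 307) (nat_lit 288) (nat_lit 185)) (XT.lf (nat_lit 0) (nat_lit 4887392714) (nat_lit 1064) (nat_lit 8174720321) (nat_lit 76) (nat_lit 89007211) (nat_lit 315) (nat_lit 5) (nat_lit 329) (nat_lit 5) (nat_lit 316) (nat_lit 5) (nat_lit 308) (nat_lit 288) (nat_lit 184)))) (XT.nd (nat_lit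 156) (nat_lit 1672) (nat_lit 0) (XT.nd (nat_lit 78) (nat_lit 0) (nat_lit 0) (XT.lf (nat_lit 0) (nat_lit 1306880669) (nat_lit 836) (nat_lit 5730288539) (nat_lit 912) (nat_lit 6326125259) (nat_lit 304) (nat_lit 5) (nat_lit 315) (nat_lit 5) (nat_lit 316) (nat_lit 5) (nat_lit 309) (nat_lit 288) (nat_lit 183)) (XT.lf (nat_lit 0) (nat_lit 9295464444) (nat_lit 912) (nat_lit 2430056722) (nat_lit 76) (nat_lit 1855455465) (nat_lit 304) (nat_lit 5) (nat_lit 316) (nat_lit 5) (nat_lit 305) (nat_lit 5) (nat_lit 310) (nat_lit 288) (nat_lit 182))) (XT.nd (nat_lit 78) (nat_lit 836) (nat_lit 0) (XT.lf (nat_lit 0) (nat_lit 7524126010) (nat_lit 836) (nat_lit 4161679185) (nat_lit 912) (nat_lit 2118120684) (nat_lit 293) (nat_lit 5) (nat_lit 304) (nat_lit 5) (nat_lit 305) (nat_lit 5) (nat_lit 311) (nat_lit 288) (nat_lit 181)) (XT.lf (nat_lit 0) (nat_lit 155405311) (nat_lit 836) (nat_lit 10252331266) (nat_lit 76) (nat_lit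 3624981416) (nat_lit 282) (nat_lit 5) (nat_lit 293) (nat_lit 5) (nat_lit 283) (nat_lit 5) (nat_lit 312) (nat_lit 288) (nat_lit 180)))))) (XT.nd (nat_lit 468) (nat_lit 3268) (nat_lit 0) (XT.nd (nat_lit 234) (nat_lit 1520) (nat_lit 0) (XT.nd (nat_lit 78) (nat_lit 1444) (nat_lit 0) (XT.lf (nat_lit 0) (nat_lit 2517201947) (nat_lit 836) (nat_lit 102883628) (nat_lit 76) (nat_lit 11647052284) (nat_lit 282) (nat_lit 5) (nat_lit 293) (nat_lit 5) (nat_lit 283) (nat_lit 5) (nat_lit 313) (nat_lit 288) (nat_lit 179)) (XT.nd (nat_lit 78) (nat_lit 684) (nat_lit 0) (XT.lf (nat_lit 0) (nat_lit 5031987976) (nat_lit 836) (nat_lit 4075666173) (nat_lit 76) (nat_lit 5399313695) (nat_lit 272) (nat_lit 5) (nat_lit 283) (nat_lit 5) (nat_lit 273) (nat_lit 5) (nat_lit 314) (nat_lit 288) (nat_lit 178)) (XT.lf (nat_lit 0) (nat_lit 6576772152) (nat_lit 684) (nat_lit 1085512742) (nat_lit 760) (nat_lit 7090926132) (nat_lit 263)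 (nat_lit 5) (nat_lit 272) (nat_lit 5) (nat_lit 273) (nat_lit 5) (nat_lit 315) (nat_lit 288) (nat_lit 177)))) (XT.nd (nat_lit 78) (nat_lit 760) (nat_lit 0) (XT.lf (nat_lit 0) (nat_lit 2564143748) (nat_lit 760) (nat_lit 7878011662) (nat_lit 836) (nat_lit 4563291869) (nat_lit 253) (nat_lit 5) (nat_lit 263) (nat_lit 5) (nat_lit 264) (nat_lit 5) (nat_lit 316) (nat_lit 288) (nat_lit 176)) (XT.nd (nat_lit 78) (nat_lit 760) (nat_lit 0) (XT.lf (nat_lit 0) (nat_lit 13350470512) (nat_lit 836) (nat_lit 1555907202) (nat_lit 76) (nat_lit 357990454) (nat_lit 253) (nat_lit 5) (nat_lit 264) (nat_lit 5) (nat_lit 254) (nat_lit 5) (nat_lit 317) (nat_lit 288) (nat_lit 175)) (XT.lf (nat_lit 0) (nat_lit 901291007) (nat_lit 760) (nat_lit 5824801515) (nat_lit 76) (nat_lit 8802935933) (nat_lit 243) (nat_lit 5) (nat_lit 253) (nat_lit 5) (nat_lit 244) (nat_lit 5) (nat_lit 318) (nat_lit 288) (nat_lit 174))))) (XT.nd (nat_lit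 234) (nat_lit 1976) (nat_lit 0) (XT.nd (nat_lit 78) (nat_lit 608) (nat_lit 0) (XT.lf (nat_lit 0) (nat_lit 3814167181) (nat_lit 760) (nat_lit 10250520595) (nat_lit 76) (nat_lit 1735920184) (nat_lit 234) (nat_lit 5) (nat_lit 244) (nat_lit 5) (nat_lit 235) (nat_lit 5) (nat_lit 319) (nat_lit 288) (nat_lit 173)) (XT.nd (nat_lit 78) (nat_lit 0) (nat_lit 0) (XT.lf (nat_lit 0) (nat_lit 1216691384) (nat_lit 608) (nat_lit 5671707807) (nat_lit 684) (nat_lit 9190472881) (nat_lit 226) (nat_lit 5) (nat_lit 234) (nat_lit 5) (nat_lit 235) (nat_lit 5) (nat_lit 320) (nat_lit 288) (nat_lit 172)) (XT.lf (nat_lit 0) (nat_lit 10125839882) (nat_lit 684) (nat_lit 3236096875) (nat_lit 76) (nat_lit 3002143844) (nat_lit 226) (nat_lit 5) (nat_lit 235) (nat_lit 5) (nat_lit 227) (nat_lit 5) (nat_lit 321) (nat_lit 288) (nat_lit 171)))) (XT.nd (nat_lit 156) (nat_lit 608) (nat_lit 0) (XT.nd (nat_lit 78) (nat_lit 684) (nat_lit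 0) (XT.lf (nat_lit 0) (nat_lit 8796332549) (nat_lit 684) (nat_lit 4741401280) (nat_lit 760) (nat_lit 3118580616) (nat_lit 217) (nat_lit 5) (nat_lit 226) (nat_lit 5) (nat_lit 227) (nat_lit 5) (nat_lit 322) (nat_lit 288) (nat_lit 170)) (XT.lf (nat_lit 0) (nat_lit 153239533) (nat_lit 684) (nat_lit 12670686074) (nat_lit 76) (nat_lit 4132196070) (nat_lit 208) (nat_lit 5) (nat_lit 217) (nat_lit 5) (nat_lit 209) (nat_lit 5) (nat_lit 323) (nat_lit 288) (nat_lit 169))) (XT.nd (nat_lit 78) (nat_lit 608) (nat_lit 0) (XT.lf (nat_lit 0) (nat_lit 3549323419) (nat_lit 684) (nat_lit 433786119) (nat_lit 76) (nat_lit 13280046215) (nat_lit 208) (nat_lit 5) (nat_lit 217) (nat_lit 5) (nat_lit 209) (nat_lit 5) (nat_lit 324) (nat_lit 288) (nat_lit 168)) (XT.lf (nat_lit 0) (nat_lit 7144416381) (nat_lit 684) (nat_lit 5299459957) (nat_lit 76) (nat_lit 5133596030) (nat_lit 200) (nat_lit 5) (nat_lit 209) (nat_lit 5) (nat_lit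 201) (nat_lit 5) (nat_lit 325) (nat_lit 288) (nat_lit 167))))))) (XT.nd (nat_lit 1014) (nat_lit 3496) (nat_lit 0) (XT.nd (nat_lit 468) (nat_lit 2052) (nat_lit 0) (XT.nd (nat_lit 234) (nat_lit 1520) (nat_lit 0) (XT.nd (nat_lit 78) (nat_lit 684) (nat_lit 0) (XT.lf (nat_lit 0) (nat_lit 7528779995) (nat_lit 532) (nat_lit 3380814684) (nat_lit 608) (nat_lit 6990392792) (nat_lit 193) (nat_lit 5) (nat_lit 200) (nat_lit 5) (nat_lit 201) (nat_lit 5) (nat_lit 326) (nat_lit 288) (nat_lit 166)) (XT.nd (nat_lit 78) (nat_lit 76) (nat_lit 0) (XT.lf (nat_lit 0) (nat_lit 2558357376) (nat_lit 608) (nat_lit 12304873784) (nat_lit 684) (nat_lit 3367450053) (nat_lit 185) (nat_lit 5) (nat_lit 193) (nat_lit 5) (nat_lit 194) (nat_lit 5) (nat_lit 327) (nat_lit 288) (nat_lit 165)) (XT.lf (nat_lit 0) (nat_lit 437067865) (nat_lit 684) (nat_lit 2596713162) (nat_lit 76) (nat_lit 15535926791) (nat_lit 184) (nat_lit 5) (nat_lit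 193) (nat_lit 5) (nat_lit 185) (nat_lit 5) (nat_lit 328) (nat_lit 288) (nat_lit 164)))) (XT.nd (nat_lit 78) (nat_lit 988) (nat_lit 0) (XT.lf (nat_lit 0) (nat_lit 4409150895) (nat_lit 608) (nat_lit 7986274601) (nat_lit 76) (nat_lit 6521063186) (nat_lit 177) (nat_lit 5) (nat_lit 185) (nat_lit 5) (nat_lit 178) (nat_lit 5) (nat_lit 329) (nat_lit 288) (nat_lit 163)) (XT.nd (nat_lit 78) (nat_lit 456) (nat_lit 0) (XT.lf (nat_lit 0) (nat_lit 5660420674) (nat_lit 532) (nat_lit 2899797925) (nat_lit 608) (nat_lit 10712269809) (nat_lit 170) (nat_lit 5) (nat_lit 177) (nat_lit 5) (nat_lit 178) (nat_lit 5) (nat_lit 330) (nat_lit 288) (nat_lit 162)) (XT.lf (nat_lit 0) (nat_lit 125803110) (nat_lit 456) (nat_lit 12795344384) (nat_lit 532) (nat_lit 6716325586) (nat_lit 164) (nat_lit 5) (nat_lit 170) (nat_lit 5) (nat_lit 171) (nat_lit 5) (nat_lit 331) (nat_lit 288) (nat_lit 161))))) (XT.nd (nat_lit 234) (nat_lit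 988) (nat_lit 0) (XT.nd (nat_lit 78) (nat_lit 1064) (nat_lit 0) (XT.lf (nat_lit 0) (nat_lit 14424222639) (nat_lit 456) (nat_lit 3085856098) (nat_lit 532) (nat_lit 2501396262) (nat_lit 164) (nat_lit 5) (nat_lit 170) (nat_lit 5) (nat_lit 171) (nat_lit 5) (nat_lit 332) (nat_lit 288) (nat_lit 160)) (XT.nd (nat_lit 78) (nat_lit 456) (nat_lit 0) (XT.lf (nat_lit 0) (nat_lit 1904565495) (nat_lit 608) (nat_lit 11599955341) (nat_lit 76) (nat_lit 6890173548) (nat_lit 156) (nat_lit 5) (nat_lit 164) (nat_lit 5) (nat_lit 157) (nat_lit 5) (nat_lit 333) (nat_lit 288) (nat_lit 159)) (XT.lf (nat_lit 0) (nat_lit 2878254732) (nat_lit 456) (nat_lit 3594349638) (nat_lit 532) (nat_lit 14315207998) (nat_lit 150) (nat_lit 5) (nat_lit 156) (nat_lit 5) (nat_lit 157) (nat_lit 5) (nat_lit 334) (nat_lit 288) (nat_lit 158)))) (XT.nd (nat_lit 156) (nat_lit 532) (nat_lit 0) (XT.nd (nat_lit 78) (nat_lit 456) (nat_lit 0) (XT.lf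 (nat_lit 0) (nat_lit 11286258895) (nat_lit 532) (nat_lit 3302873246) (nat_lit 76) (nat_lit 6601430307) (nat_lit 150) (nat_lit 5) (nat_lit 157) (nat_lit 5) (nat_lit 151) (nat_lit 5) (nat_lit 335) (nat_lit 288) (nat_lit 157)) (XT.lf (nat_lit 0) (nat_lit 11856132881) (nat_lit 456) (nat_lit 4476110070) (nat_lit 532) (nat_lit 5271403438) (nat_lit 144) (nat_lit 5) (nat_lit 150) (nat_lit 5) (nat_lit 151) (nat_lit 5) (nat_lit 336) (nat_lit 288) (nat_lit 156))) (XT.nd (nat_lit 78) (nat_lit 76) (nat_lit 0) (XT.lf (nat_lit 0) (nat_lit 5502600904) (nat_lit 456) (nat_lit 16110978279) (nat_lit 532) (nat_lit 413873682) (nat_lit 138) (nat_lit 5) (nat_lit 144) (nat_lit 5) (nat_lit 145) (nat_lit 5) (nat_lit 337) (nat_lit 288) (nat_lit 155)) (XT.lf (nat_lit 0) (nat_lit 4612934414) (nat_lit 532) (nat_lit 1196367975) (nat_lit 76) (nat_lit 16652409355) (nat_lit 137) (nat_lit 5) (nat_lit 144) (nat_lit 5) (nat_lit 138)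 (nat_lit 5) (nat_lit 338) (nat_lit 288) (nat_lit 154)))))) (XT.nd (nat_lit 468) (nat_lit 1444) (nat_lit 0) (XT.nd (nat_lit 234) (nat_lit 836) (nat_lit 0) (XT.nd (nat_lit 78) (nat_lit 760) (nat_lit 0) (XT.lf (nat_lit 0) (nat_lit 9900315466) (nat_lit 532) (nat_lit 8172906162) (nat_lit 76) (nat_lit 4833422966) (nat_lit 131) (nat_lit 5) (nat_lit 138) (nat_lit 5) (nat_lit 132) (nat_lit 5) (nat_lit 339) (nat_lit 288) (nat_lit 153)) (XT.nd (nat_lit 78) (nat_lit 380) (nat_lit 0) (XT.lf (nat_lit 0) (nat_lit 7840648130) (nat_lit 380) (nat_lit 7591499153) (nat_lit 456) (nat_lit 7931070059) (nat_lit 126) (nat_lit 5) (nat_lit 131) (nat_lit 5) (nat_lit 132) (nat_lit 5) (nat_lit 340) (nat_lit 288) (nat_lit 152)) (XT.lf (nat_lit 0) (nat_lit 584000256) (nat_lit 380) (nat_lit 20614410321) (nat_lit 456) (nat_lit 2633715413) (nat_lit 121) (nat_lit 5) (nat_lit 126) (nat_lit 5) (nat_lit 127) (nat_lit 5) (nat_lit 341)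 (nat_lit 288) (nat_lit 151)))) (XT.nd (nat_lit 78) (nat_lit 760) (nat_lit 0) (XT.lf (nat_lit 0) (nat_lit 2930475483) (nat_lit 456) (nat_lit 7013027511) (nat_lit 76) (nat_lit 14368341558) (nat_lit 120) (nat_lit 5) (nat_lit 126) (nat_lit 5) (nat_lit 121) (nat_lit 5) (nat_lit 342) (nat_lit 288) (nat_lit 150)) (XT.nd (nat_lit 78) (nat_lit 380) (nat_lit 0) (XT.lf (nat_lit 0) (nat_lit 8685603399) (nat_lit 456) (nat_lit 15007781841) (nat_lit 76) (nat_lit 1111033016) (nat_lit 115) (nat_lit 5) (nat_lit 121) (nat_lit 5) (nat_lit 116) (nat_lit 5) (nat_lit 343) (nat_lit 288) (nat_lit 149)) (XT.lf (nat_lit 0) (nat_lit 1837107520) (nat_lit 380) (nat_lit 12891363530) (nat_lit 456) (nat_lit 10581003804) (nat_lit 110) (nat_lit 5) (nat_lit 115) (nat_lit 5) (nat_lit 116) (nat_lit 5) (nat_lit 344) (nat_lit 288) (nat_lit 148))))) (XT.nd (nat_lit 234) (nat_lit 684) (nat_lit 0) (XT.nd (nat_lit 78) (nat_lit 760) (nat_lit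 0) (XT.lf (nat_lit 0) (nat_lit 19377088980) (nat_lit 380) (nat_lit 1666281255) (nat_lit 456) (nat_lit 4784505191) (nat_lit 110) (nat_lit 5) (nat_lit 115) (nat_lit 5) (nat_lit 116) (nat_lit 5) (nat_lit 345) (nat_lit 288) (nat_lit 147)) (XT.nd (nat_lit 78) (nat_lit 380) (nat_lit 0) (XT.lf (nat_lit 0) (nat_lit 1297128374) (nat_lit 380) (nat_lit 15219864701) (nat_lit 76) (nat_lit 9842151926) (nat_lit 105) (nat_lit 5) (nat_lit 110) (nat_lit 5) (nat_lit 106) (nat_lit 5) (nat_lit 346) (nat_lit 288) (nat_lit 146)) (XT.lf (nat_lit 0) (nat_lit 2412772306) (nat_lit 380) (nat_lit 5144090438) (nat_lit 456) (nat_lit 19347650959) (nat_lit 100) (nat_lit 5) (nat_lit 105) (nat_lit 5) (nat_lit 106) (nat_lit 5) (nat_lit 347) (nat_lit 288) (nat_lit 145)))) (XT.nd (nat_lit 156) (nat_lit 380) (nat_lit 0) (XT.nd (nat_lit 78) (nat_lit 304) (nat_lit 0) (XT.lf (nat_lit 0) (nat_lit 14140514935) (nat_lit 456) (nat_lit 6740046695)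 (nat_lit 76) (nat_lit 6582965768) (nat_lit 100) (nat_lit 5) (nat_lit 106) (nat_lit 5) (nat_lit 101) (nat_lit 5) (nat_lit 348) (nat_lit 288) (nat_lit 144)) (XT.lf (nat_lit 0) (nat_lit 11647758095) (nat_lit 304) (nat_lit 9373897169) (nat_lit 380) (nat_lit 7015662928) (nat_lit 96) (nat_lit 5) (nat_lit 100) (nat_lit 5) (nat_lit 101) (nat_lit 5) (nat_lit 349) (nat_lit 288) (nat_lit 143))) (XT.nd (nat_lit 78) (nat_lit 76) (nat_lit 0) (XT.lf (nat_lit 0) (nat_lit 2047777806) (nat_lit 304) (nat_lit 26126931570) (nat_lit 380) (nat_lit 452309820) (nat_lit 92) (nat_lit 5) (nat_lit 96) (nat_lit 5) (nat_lit 97) (nat_lit 5) (nat_lit 350) (nat_lit 288) (nat_lit 142)) (XT.lf (nat_lit 0) (nat_lit 6389941758) (nat_lit 380) (nat_lit 8088620616) (nat_lit 76) (nat_lit 14751740980) (nat_lit 91) (nat_lit 5) (nat_lit 96) (nat_lit 5) (nat_lit 92) (nat_lit 5) (nat_lit 351) (nat_lit 288) (nat_lit 141))))))))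
noncomputable def xc98 : XT := (XT.nd (nat_lit 37440) (nat_lit 0) (nat_lit 5396) (XT.nd (nat_lit 36426) (nat_lit 0) (nat_lit 17100) (XT.nd (nat_lit 35880) (nat_lit 0) (nat_lit 23180) (XT.nd (nat_lit 234) (nat_lit 304) (nat_lit 0) (XT.nd (nat_lit 78) (nat_lit 304) (nat_lit 0) (XT.lf (nat_lit 0) (nat_lit 11084869111) (nat_lit 304) (nat_lit 2408980117) (nat_lit 380) (nat_lit 16356531960) (nat_lit 87) (nat_lit 5) (nat_lit 91) (nat_lit 5) (nat_lit 92) (nat_lit 5) (nat_lit 352) (nat_lit 288) (nat_lit 140)) (XT.nd (nat_lit 78) (nat_lit 0) (nat_lit 0) (XT.lf (nat_lit 0) (nat_lit 381751291) (nat_lit 304) (nat_lit 20542532022) (nat_lit 380) (nat_lit 9562515308) (nat_lit 83) (nat_lit 5) (nat_lit 87) (nat_lit 5) (nat_lit 88) (nat_lit 5) (nat_lit 353) (nat_lit 288) (nat_lit 139)) (XT.lf (nat_lit 0) (nat_lit 20330067951) (nat_lit 304) (nat_lit 8381591348) (nat_lit 380) (nat_lit 2427973995) (nat_lit 83) (nat_lit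 5) (nat_lit 87) (nat_lit 5) (nat_lit 88) (nat_lit 5) (nat_lit 354) (nat_lit 288) (nat_lit 138)))) (XT.nd (nat_lit 35490) (nat_lit 0) (nat_lit 23104) (XT.lf (nat_lit 0) (nat_lit 4933952881) (nat_lit 304) (nat_lit 22698822671) (nat_lit 76) (nat_lit 4177085860) (nat_lit 79) (nat_lit 5) (nat_lit 83) (nat_lit 5) (nat_lit 80) (nat_lit 5) (nat_lit 355) (nat_lit 288) (nat_lit 137)) (XT.nd (nat_lit 78) (nat_lit 0) (nat_lit 76) (XT.lf (nat_lit 0) (nat_lit 283449223) (nat_lit 1596) (nat_lit 2388610422) (nat_lit 1596) (nat_lit 2388610422) (nat_lit 383) (nat_lit 3) (nat_lit 404) (nat_lit 3) (nat_lit 404) (nat_lit 5) (nat_lit 289) (nat_lit 289) (nat_lit 202)) (XT.lf (nat_lit 0) (nat_lit 1557974737) (nat_lit 1520) (nat_lit 8269043347) (nat_lit 1596) (nat_lit 425436536) (nat_lit 384) (nat_lit 5) (nat_lit 404) (nat_lit 5) (nat_lit 405) (nat_lit 5) (nat_lit 290) (nat_lit 289) (nat_lit 201))))) (XT.nd (nat_lit 234)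 (nat_lit 0) (nat_lit 152) (XT.nd (nat_lit 78) (nat_lit 0) (nat_lit 76) (XT.lf (nat_lit 0) (nat_lit 2609365949) (nat_lit 1520) (nat_lit 1430992920) (nat_lit 1596) (nat_lit 6346573159) (nat_lit 384) (nat_lit 5) (nat_lit 404) (nat_lit 5) (nat_lit 405) (nat_lit 5) (nat_lit 291) (nat_lit 289) (nat_lit 200)) (XT.nd (nat_lit 78) (nat_lit 0) (nat_lit 0) (XT.lf (nat_lit 0) (nat_lit 3705265789) (nat_lit 1520) (nat_lit 4871623583) (nat_lit 1596) (nat_lit 1948334991) (nat_lit 385) (nat_lit 5) (nat_lit 405) (nat_lit 5) (nat_lit 406) (nat_lit 5) (nat_lit 292) (nat_lit 289) (nat_lit 199)) (XT.lf (nat_lit 76) (nat_lit 2285358113) (nat_lit 0) (nat_lit 2564705985) (nat_lit 1596) (nat_lit 5817319720) (nat_lit 386) (nat_lit 5) (nat_lit 385) (nat_lit 5) (nat_lit 406) (nat_lit 5) (nat_lit 293) (nat_lit 289) (nat_lit 198)))) (XT.nd (nat_lit 156) (nat_lit 0) (nat_lit 76) (XT.nd (nat_lit 78) (nat_lit 0) (nat_lit 0) (XT.lf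 (nat_lit 0) (nat_lit 6051395377) (nat_lit 1520) (nat_lit 1134063191) (nat_lit 1596) (nat_lit 3627943358) (nat_lit 386) (nat_lit 5) (nat_lit 406) (nat_lit 5) (nat_lit 407) (nat_lit 5) (nat_lit 294) (nat_lit 289) (nat_lit 197)) (XT.lf (nat_lit 76) (nat_lit 6377562569) (nat_lit 0) (nat_lit 936174734) (nat_lit 1596) (nat_lit 3649600414) (nat_lit 387) (nat_lit 5) (nat_lit 386) (nat_lit 5) (nat_lit 407) (nat_lit 5) (nat_lit 295) (nat_lit 289) (nat_lit 196))) (XT.nd (nat_lit 78) (nat_lit 0) (nat_lit 76) (XT.lf (nat_lit 76) (nat_lit 2995249579) (nat_lit 0) (nat_lit 5648940146) (nat_lit 1596) (nat_lit 2473012539) (nat_lit 388) (nat_lit 5) (nat_lit 387) (nat_lit 5) (nat_lit 408) (nat_lit 5) (nat_lit 296) (nat_lit 289) (nat_lit 195)) (XT.lf (nat_lit 0) (nat_lit 10025334949) (nat_lit 1520) (nat_lit 441174068) (nat_lit 1596) (nat_lit 808992602) (nat_lit 388) (nat_lit 5) (nat_lit 408) (nat_lit 5) (nat_lit 409)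 (nat_lit 5) (nat_lit 297) (nat_lit 289) (nat_lit 194)))))) (XT.nd (nat_lit 468) (nat_lit 4788) (nat_lit 0) (XT.nd (nat_lit 234) (nat_lit 0) (nat_lit 152) (XT.nd (nat_lit 78) (nat_lit 0) (nat_lit 76) (XT.lf (nat_lit 0) (nat_lit 65278430) (nat_lit 1596) (nat_lit 3927655886) (nat_lit 1672) (nat_lit 7444526484) (nat_lit 367) (nat_lit 5) (nat_lit 388) (nat_lit 5) (nat_lit 389) (nat_lit 5) (nat_lit 298) (nat_lit 289) (nat_lit 193)) (XT.nd (nat_lit 78) (nat_lit 0) (nat_lit 0) (XT.lf (nat_lit 0) (nat_lit 1420479514) (nat_lit 1596) (nat_lit 7495574362) (nat_lit 1672) (nat_lit 2687745899) (nat_lit 368) (nat_lit 5) (nat_lit 389) (nat_lit 5) (nat_lit 390) (nat_lit 5) (nat_lit 299) (nat_lit 289) (nat_lit 192)) (XT.lf (nat_lit 76) (nat_lit 624707454) (nat_lit 0) (nat_lit 2219688557) (nat_lit 1672) (nat_lit 8930202633) (nat_lit 369) (nat_lit 5) (nat_lit 368) (nat_lit 5) (nat_lit 390) (nat_lit 5) (nat_lit 300)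 (nat_lit 289) (nat_lit 191)))) (XT.nd (nat_lit 78) (nat_lit 0) (nat_lit 0) (XT.lf (nat_lit 0) (nat_lit 4363816183) (nat_lit 1596) (nat_lit 2910287619) (nat_lit 1672) (nat_lit 4675391967) (nat_lit 369) (nat_lit 5) (nat_lit 390) (nat_lit 5) (nat_lit 391) (nat_lit 5) (nat_lit 301) (nat_lit 289) (nat_lit 190)) (XT.nd (nat_lit 78) (nat_lit 0) (nat_lit 76) (XT.lf (nat_lit 76) (nat_lit 5614642628) (nat_lit 0) (nat_lit 337598196) (nat_lit 1672) (nat_lit 6176959684) (nat_lit 370) (nat_lit 5) (nat_lit 369) (nat_lit 5) (nat_lit 391) (nat_lit 5) (nat_lit 302) (nat_lit 289) (nat_lit 189)) (XT.lf (nat_lit 76) (nat_lit 2083315967) (nat_lit 0) (nat_lit 5555424201) (nat_lit 1672) (nat_lit 4674576070) (nat_lit 371) (nat_lit 5) (nat_lit 370) (nat_lit 5) (nat_lit 392) (nat_lit 5) (nat_lit 303) (nat_lit 289) (nat_lit 188))))) (XT.nd (nat_lit 234) (nat_lit 3496) (nat_lit 0) (XT.nd (nat_lit 78) (nat_lit 1596) (nat_lit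 0) (XT.lf (nat_lit 0) (nat_lit 9406178747) (nat_lit 1596) (nat_lit 1507622084) (nat_lit 1672) (nat_lit 1588575192) (nat_lit 371) (nat_lit 5) (nat_lit 392) (nat_lit 5) (nat_lit 393) (nat_lit 5) (nat_lit 304) (nat_lit 289) (nat_lit 187)) (XT.nd (nat_lit 78) (nat_lit 1596) (nat_lit 0) (XT.lf (nat_lit 76) (nat_lit 7517291555) (nat_lit 0) (nat_lit 3769622196) (nat_lit 1672) (nat_lit 1409015050) (nat_lit 372) (nat_lit 5) (nat_lit 371) (nat_lit 5) (nat_lit 393) (nat_lit 5) (nat_lit 305) (nat_lit 289) (nat_lit 186)) (XT.lf (nat_lit 0) (nat_lit 358839637) (nat_lit 1672) (nat_lit 8950901262) (nat_lit 76) (nat_lit 3584842570) (nat_lit 350) (nat_lit 5) (nat_lit 372) (nat_lit 5) (nat_lit 351) (nat_lit 5) (nat_lit 306) (nat_lit 289) (nat_lit 185)))) (XT.nd (nat_lit 156) (nat_lit 1824) (nat_lit 0) (XT.nd (nat_lit 78) (nat_lit 0) (nat_lit 0) (XT.lf (nat_lit 0) (nat_lit 259790038) (nat_lit 1672) (nat_lit 1938498617)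 (nat_lit 1748) (nat_lit 10899993460) (nat_lit 328) (nat_lit 5) (nat_lit 350) (nat_lit 5) (nat_lit 351) (nat_lit 5) (nat_lit 307) (nat_lit 289) (nat_lit 184)) (XT.lf (nat_lit 0) (nat_lit 4166665450) (nat_lit 1748) (nat_lit 3495670131) (nat_lit 76) (nat_lit 5644305177) (nat_lit 328) (nat_lit 5) (nat_lit 351) (nat_lit 5) (nat_lit 329) (nat_lit 5) (nat_lit 308) (nat_lit 289) (nat_lit 183))) (XT.nd (nat_lit 78) (nat_lit 836) (nat_lit 0) (XT.lf (nat_lit 0) (nat_lit 6175067279) (nat_lit 988) (nat_lit 48761861) (nat_lit 1064) (nat_lit 7296849535) (nat_lit 315) (nat_lit 5) (nat_lit 328) (nat_lit 5) (nat_lit 329) (nat_lit 5) (nat_lit 309) (nat_lit 289) (nat_lit 182)) (XT.lf (nat_lit 0) (nat_lit 2403319019) (nat_lit 836) (nat_lit 6006681992) (nat_lit 912) (nat_lit 5329813405) (nat_lit 304) (nat_lit 5) (nat_lit 315) (nat_lit 5) (nat_lit 316) (nat_lit 5) (nat_lit 310) (nat_lit 289) (nat_lit 181))))))) (XT.nd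 (nat_lit 1014) (nat_lit 5092) (nat_lit 0) (XT.nd (nat_lit 468) (nat_lit 3496) (nat_lit 0) (XT.nd (nat_lit 234) (nat_lit 1444) (nat_lit 0) (XT.nd (nat_lit 78) (nat_lit 1672) (nat_lit 0) (XT.lf (nat_lit 0) (nat_lit 10701550070) (nat_lit 912) (nat_lit 1452192211) (nat_lit 76) (nat_lit 1811008003) (nat_lit 304) (nat_lit 5) (nat_lit 316) (nat_lit 5) (nat_lit 305) (nat_lit 5) (nat_lit 311) (nat_lit 289) (nat_lit 180)) (XT.nd (nat_lit 78) (nat_lit 836) (nat_lit 0) (XT.lf (nat_lit 0) (nat_lit 8783568568) (nat_lit 836) (nat_lit 4353912363) (nat_lit 912) (nat_lit 1057461845) (nat_lit 293) (nat_lit 5) (nat_lit 304) (nat_lit 5) (nat_lit 305) (nat_lit 5) (nat_lit 312) (nat_lit 289) (nat_lit 179)) (XT.lf (nat_lit 0) (nat_lit 1243581697) (nat_lit 836) (nat_lit 9504370574) (nat_lit 76) (nat_lit 3683050091) (nat_lit 282) (nat_lit 5) (nat_lit 293) (nat_lit 5) (nat_lit 283) (nat_lit 5) (nat_lit 313) (nat_lit 289)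 (nat_lit 178)))) (XT.nd (nat_lit 78) (nat_lit 684) (nat_lit 0) (XT.lf (nat_lit 0) (nat_lit 931027474) (nat_lit 760) (nat_lit 2719690939) (nat_lit 836) (nat_lit 11022276596) (nat_lit 272) (nat_lit 5) (nat_lit 282) (nat_lit 5) (nat_lit 283) (nat_lit 5) (nat_lit 314) (nat_lit 289) (nat_lit 177)) (XT.nd (nat_lit 78) (nat_lit 684) (nat_lit 0) (XT.lf (nat_lit 0) (nat_lit 6210681434) (nat_lit 836) (nat_lit 3168122008) (nat_lit 76) (nat_lit 5541850822) (nat_lit 272) (nat_lit 5) (nat_lit 283) (nat_lit 5) (nat_lit 273) (nat_lit 5) (nat_lit 315) (nat_lit 289) (nat_lit 176)) (XT.lf (nat_lit 0) (nat_lit 7787181955) (nat_lit 684) (nat_lit 1109349069) (nat_lit 760) (nat_lit 6278249034) (nat_lit 263) (nat_lit 5) (nat_lit 272) (nat_lit 5) (nat_lit 273) (nat_lit 5) (nat_lit 316) (nat_lit 289) (nat_lit 175))))) (XT.nd (nat_lit 234) (nat_lit 1976) (nat_lit 0) (XT.nd (nat_lit 78) (nat_lit 760) (nat_lit 0) (XT.lf (nat_lit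 0) (nat_lit 3658368648) (nat_lit 760) (nat_lit 8078835307) (nat_lit 836) (nat_lit 3697858690) (nat_lit 253) (nat_lit 5) (nat_lit 263) (nat_lit 5) (nat_lit 264) (nat_lit 5) (nat_lit 317) (nat_lit 289) (nat_lit 174)) (XT.nd (nat_lit 78) (nat_lit 760) (nat_lit 0) (XT.lf (nat_lit 0) (nat_lit 14704396744) (nat_lit 836) (nat_lit 595188260) (nat_lit 76) (nat_lit 402760165) (nat_lit 253) (nat_lit 5) (nat_lit 264) (nat_lit 5) (nat_lit 254) (nat_lit 5) (nat_lit 318) (nat_lit 289) (nat_lit 173)) (XT.lf (nat_lit 0) (nat_lit 1867428558) (nat_lit 760) (nat_lit 4995169941) (nat_lit 76) (nat_lit 9112675695) (nat_lit 243) (nat_lit 5) (nat_lit 253) (nat_lit 5) (nat_lit 244) (nat_lit 5) (nat_lit 319) (nat_lit 289) (nat_lit 172)))) (XT.nd (nat_lit 156) (nat_lit 684) (nat_lit 0) (XT.nd (nat_lit 78) (nat_lit 608) (nat_lit 0) (XT.lf (nat_lit 0) (nat_lit 4847207862) (nat_lit 760) (nat_lit 9551227541) (nat_lit 76) (nat_lit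 1856999902) (nat_lit 234) (nat_lit 5) (nat_lit 244) (nat_lit 5) (nat_lit 235) (nat_lit 5) (nat_lit 320) (nat_lit 289) (nat_lit 171)) (XT.lf (nat_lit 0) (nat_lit 2243666523) (nat_lit 608) (nat_lit 5749675330) (nat_lit 684) (nat_lit 8549135829) (nat_lit 226) (nat_lit 5) (nat_lit 234) (nat_lit 5) (nat_lit 235) (nat_lit 5) (nat_lit 321) (nat_lit 289) (nat_lit 170))) (XT.nd (nat_lit 78) (nat_lit 684) (nat_lit 0) (XT.lf (nat_lit 0) (nat_lit 11302323044) (nat_lit 684) (nat_lit 2353921110) (nat_lit 76) (nat_lit 3180533116) (nat_lit 226) (nat_lit 5) (nat_lit 235) (nat_lit 5) (nat_lit 227) (nat_lit 5) (nat_lit 322) (nat_lit 289) (nat_lit 169)) (XT.lf (nat_lit 0) (nat_lit 10023593888) (nat_lit 684) (nat_lit 4773816087) (nat_lit 760) (nat_lit 2340773902) (nat_lit 217) (nat_lit 5) (nat_lit 226) (nat_lit 5) (nat_lit 227) (nat_lit 5) (nat_lit 323) (nat_lit 289) (nat_lit 168)))))) (XT.nd (nat_lit 468) (nat_lit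 2584) (nat_lit 0) (XT.nd (nat_lit 234) (nat_lit 1216) (nat_lit 0) (XT.nd (nat_lit 78) (nat_lit 608) (nat_lit 0) (XT.lf (nat_lit 0) (nat_lit 999727071) (nat_lit 684) (nat_lit 12074334142) (nat_lit 76) (nat_lit 4373193270) (nat_lit 208) (nat_lit 5) (nat_lit 217) (nat_lit 5) (nat_lit 209) (nat_lit 5) (nat_lit 324) (nat_lit 289) (nat_lit 167)) (XT.nd (nat_lit 78) (nat_lit 0) (nat_lit 0) (XT.lf (nat_lit 0) (nat_lit 507892971) (nat_lit 608) (nat_lit 3968577001) (nat_lit 684) (nat_lit 13287474846) (nat_lit 200) (nat_lit 5) (nat_lit 208) (nat_lit 5) (nat_lit 209) (nat_lit 5) (nat_lit 325) (nat_lit 289) (nat_lit 166)) (XT.lf (nat_lit 0) (nat_lit 8159230402) (nat_lit 684) (nat_lit 4509992151) (nat_lit 76) (nat_lit 5418892250) (nat_lit 200) (nat_lit 5) (nat_lit 209) (nat_lit 5) (nat_lit 201) (nat_lit 5) (nat_lit 326) (nat_lit 289) (nat_lit 165)))) (XT.nd (nat_lit 78) (nat_lit 684) (nat_lit 0) (XT.lf (nat_lit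 0) (nat_lit 8687707499) (nat_lit 532) (nat_lit 3332399625) (nat_lit 608) (nat_lit 6400562949) (nat_lit 193) (nat_lit 5) (nat_lit 200) (nat_lit 5) (nat_lit 201) (nat_lit 5) (nat_lit 327) (nat_lit 289) (nat_lit 164)) (XT.nd (nat_lit 78) (nat_lit 76) (nat_lit 0) (XT.lf (nat_lit 0) (nat_lit 3568129569) (nat_lit 608) (nat_lit 12508413078) (nat_lit 684) (nat_lit 2685077186) (nat_lit 185) (nat_lit 5) (nat_lit 193) (nat_lit 5) (nat_lit 194) (nat_lit 5) (nat_lit 328) (nat_lit 289) (nat_lit 163)) (XT.lf (nat_lit 0) (nat_lit 1200783770) (nat_lit 684) (nat_lit 1758190325) (nat_lit 76) (nat_lit 16152209868) (nat_lit 184) (nat_lit 5) (nat_lit 193) (nat_lit 5) (nat_lit 185) (nat_lit 5) (nat_lit 329) (nat_lit 289) (nat_lit 162))))) (XT.nd (nat_lit 234) (nat_lit 1064) (nat_lit 0) (XT.nd (nat_lit 78) (nat_lit 988) (nat_lit 0) (XT.lf (nat_lit 0) (nat_lit 5277104566) (nat_lit 608) (nat_lit 7310113173) (nat_lit 76)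 (nat_lit 6881466571) (nat_lit 177) (nat_lit 5) (nat_lit 185) (nat_lit 5) (nat_lit 178) (nat_lit 5) (nat_lit 330) (nat_lit 289) (nat_lit 161)) (XT.nd (nat_lit 78) (nat_lit 456) (nat_lit 0) (XT.lf (nat_lit 0) (nat_lit 6731126010) (nat_lit 532) (nat_lit 2805999937) (nat_lit 608) (nat_lit 10298566701) (nat_lit 170) (nat_lit 5) (nat_lit 177) (nat_lit 5) (nat_lit 178) (nat_lit 5) (nat_lit 331) (nat_lit 289) (nat_lit 160)) (XT.lf (nat_lit 0) (nat_lit 1029426763) (nat_lit 456) (nat_lit 12985464188) (nat_lit 532) (nat_lit 6197032298) (nat_lit 164) (nat_lit 5) (nat_lit 170) (nat_lit 5) (nat_lit 171) (nat_lit 5) (nat_lit 332) (nat_lit 289) (nat_lit 159)))) (XT.nd (nat_lit 156) (nat_lit 456) (nat_lit 0) (XT.nd (nat_lit 78) (nat_lit 608) (nat_lit 0) (XT.lf (nat_lit 0) (nat_lit 15730589668) (nat_lit 456) (nat_lit 2990334181) (nat_lit 532) (nat_lit 1876648776) (nat_lit 164) (nat_lit 5) (nat_lit 170) (nat_lit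 5) (nat_lit 171) (nat_lit 5) (nat_lit 333) (nat_lit 289) (nat_lit 158)) (XT.lf (nat_lit 0) (nat_lit 2639093539) (nat_lit 608) (nat_lit 11066161244) (nat_lit 76) (nat_lit 7287222647) (nat_lit 156) (nat_lit 5) (nat_lit 164) (nat_lit 5) (nat_lit 157) (nat_lit 5) (nat_lit 334) (nat_lit 289) (nat_lit 157))) (XT.nd (nat_lit 78) (nat_lit 0) (nat_lit 0) (XT.lf (nat_lit 0) (nat_lit 3832089090) (nat_lit 456) (nat_lit 3497986951) (nat_lit 532) (nat_lit 14067609715) (nat_lit 150) (nat_lit 5) (nat_lit 156) (nat_lit 5) (nat_lit 157) (nat_lit 5) (nat_lit 335) (nat_lit 289) (nat_lit 156)) (XT.lf (nat_lit 0) (nat_lit 12270108117) (nat_lit 532) (nat_lit 2547666296) (nat_lit 76) (nat_lit 6995118989) (nat_lit 150) (nat_lit 5) (nat_lit 157) (nat_lit 5) (nat_lit 151) (nat_lit 5) (nat_lit 336) (nat_lit 289) (nat_lit 155))))))))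
noncomputable def xc99 : XT := (XT.nd (nat_lit 37518) (nat_lit 0) (nat_lit 10868) (XT.nd (nat_lit 1014) (nat_lit 1292) (nat_lit 0) (XT.nd (nat_lit 468) (nat_lit 1596) (nat_lit 0) (XT.nd (nat_lit 234) (nat_lit 1216) (nat_lit 0) (XT.nd (nat_lit 78) (nat_lit 532) (nat_lit 0) (XT.lf (nat_lit 0) (nat_lit 13052250123) (nat_lit 456) (nat_lit 4401884198) (nat_lit 532) (nat_lit 4784516288) (nat_lit 144) (nat_lit 5) (nat_lit 150) (nat_lit 5) (nat_lit 151) (nat_lit 5) (nat_lit 337) (nat_lit 289) (nat_lit 154)) (XT.nd (nat_lit 78) (nat_lit 0) (nat_lit 0) (XT.lf (nat_lit 0) (nat_lit 204131976) (nat_lit 532) (nat_lit 16170722911) (nat_lit 76) (nat_lit 6300536085) (nat_lit 137) (nat_lit 5) (nat_lit 144) (nat_lit 5) (nat_lit 138) (nat_lit 5) (nat_lit 338) (nat_lit 289) (nat_lit 153)) (XT.lf (nat_lit 0) (nat_lit 5357954486) (nat_lit 532) (nat_lit 409825178) (nat_lit 76) (nat_lit 17355219517) (nat_lit 137) (nat_lit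 5) (nat_lit 144) (nat_lit 5) (nat_lit 138) (nat_lit 5) (nat_lit 339) (nat_lit 289) (nat_lit 152)))) (XT.nd (nat_lit 78) (nat_lit 760) (nat_lit 0) (XT.lf (nat_lit 0) (nat_lit 10792936337) (nat_lit 532) (nat_lit 7598094591) (nat_lit 76) (nat_lit 5190482062) (nat_lit 131) (nat_lit 5) (nat_lit 138) (nat_lit 5) (nat_lit 132) (nat_lit 5) (nat_lit 340) (nat_lit 289) (nat_lit 151)) (XT.nd (nat_lit 78) (nat_lit 380) (nat_lit 0) (XT.lf (nat_lit 0) (nat_lit 8882562823) (nat_lit 380) (nat_lit 7596049980) (nat_lit 456) (nat_lit 7573424518) (nat_lit 126) (nat_lit 5) (nat_lit 131) (nat_lit 5) (nat_lit 132) (nat_lit 5) (nat_lit 341) (nat_lit 289) (nat_lit 150)) (XT.lf (nat_lit 0) (nat_lit 1405582840) (nat_lit 380) (nat_lit 21001913404) (nat_lit 456) (nat_lit 2127736182) (nat_lit 121) (nat_lit 5) (nat_lit 126) (nat_lit 5) (nat_lit 127) (nat_lit 5) (nat_lit 342) (nat_lit 289) (nat_lit 149))))) (XT.nd (nat_lit 234)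 (nat_lit 760) (nat_lit 0) (XT.nd (nat_lit 78) (nat_lit 760) (nat_lit 0) (XT.lf (nat_lit 0) (nat_lit 3578893083) (nat_lit 456) (nat_lit 6434950597) (nat_lit 76) (nat_lit 15015770474) (nat_lit 120) (nat_lit 5) (nat_lit 126) (nat_lit 5) (nat_lit 121) (nat_lit 5) (nat_lit 343) (nat_lit 289) (nat_lit 148)) (XT.nd (nat_lit 78) (nat_lit 380) (nat_lit 0) (XT.lf (nat_lit 0) (nat_lit 9496856037) (nat_lit 456) (nat_lit 14672460837) (nat_lit 76) (nat_lit 1367855512) (nat_lit 115) (nat_lit 5) (nat_lit 121) (nat_lit 5) (nat_lit 116) (nat_lit 5) (nat_lit 344) (nat_lit 289) (nat_lit 147)) (XT.lf (nat_lit 0) (nat_lit 2665030517) (nat_lit 380) (nat_lit 13044957438) (nat_lit 456) (nat_lit 10347623785) (nat_lit 110) (nat_lit 5) (nat_lit 115) (nat_lit 5) (nat_lit 116) (nat_lit 5) (nat_lit 345) (nat_lit 289) (nat_lit 146)))) (XT.nd (nat_lit 156) (nat_lit 380) (nat_lit 0) (XT.nd (nat_lit 78) (nat_lit 380) (nat_lit 0)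 (XT.lf (nat_lit 0) (nat_lit 20708702398) (nat_lit 380) (nat_lit 1489913385) (nat_lit 456) (nat_lit 4393273227) (nat_lit 110) (nat_lit 5) (nat_lit 115) (nat_lit 5) (nat_lit 116) (nat_lit 5) (nat_lit 346) (nat_lit 289) (nat_lit 145)) (XT.lf (nat_lit 0) (nat_lit 1854744905) (nat_lit 380) (nat_lit 14921910833) (nat_lit 76) (nat_lit 10362562328) (nat_lit 105) (nat_lit 5) (nat_lit 110) (nat_lit 5) (nat_lit 106) (nat_lit 5) (nat_lit 347) (nat_lit 289) (nat_lit 144))) (XT.nd (nat_lit 78) (nat_lit 0) (nat_lit 0) (XT.lf (nat_lit 0) (nat_lit 3227463611) (nat_lit 380) (nat_lit 5064519408) (nat_lit 456) (nat_lit 19409180107) (nat_lit 100) (nat_lit 5) (nat_lit 105) (nat_lit 5) (nat_lit 106) (nat_lit 5) (nat_lit 348) (nat_lit 289) (nat_lit 143)) (XT.lf (nat_lit 0) (nat_lit 15059810951) (nat_lit 456) (nat_lit 6212854377) (nat_lit 76) (nat_lit 7004557834) (nat_lit 100) (nat_lit 5) (nat_lit 106) (nat_lit 5) (nat_lit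 101) (nat_lit 5) (nat_lit 349) (nat_lit 289) (nat_lit 142)))))) (XT.nd (nat_lit 35958) (nat_lit 0) (nat_lit 22800) (XT.nd (nat_lit 234) (nat_lit 608) (nat_lit 0) (XT.nd (nat_lit 78) (nat_lit 380) (nat_lit 0) (XT.lf (nat_lit 0) (nat_lit 12714751011) (nat_lit 304) (nat_lit 9422873534) (nat_lit 380) (nat_lit 6730807337) (nat_lit 96) (nat_lit 5) (nat_lit 100) (nat_lit 5) (nat_lit 101) (nat_lit 5) (nat_lit 350) (nat_lit 289) (nat_lit 141)) (XT.nd (nat_lit 78) (nat_lit 0) (nat_lit 0) (XT.lf (nat_lit 0) (nat_lit 20964345) (nat_lit 380) (nat_lit 26652641364) (nat_lit 76) (nat_lit 2802384851) (nat_lit 91) (nat_lit 5) (nat_lit 96) (nat_lit 5) (nat_lit 92) (nat_lit 5) (nat_lit 351) (nat_lit 289) (nat_lit 140)) (XT.lf (nat_lit 0) (nat_lit 7048371440) (nat_lit 380) (nat_lit 7631325378) (nat_lit 76) (nat_lit 15417904270) (nat_lit 91) (nat_lit 5) (nat_lit 96) (nat_lit 5) (nat_lit 92) (nat_lit 5) (nat_lit 352)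 (nat_lit 289) (nat_lit 139)))) (XT.nd (nat_lit 78) (nat_lit 304) (nat_lit 0) (XT.lf (nat_lit 0) (nat_lit 12106013121) (nat_lit 304) (nat_lit 2250259729) (nat_lit 380) (nat_lit 16380198933) (nat_lit 87) (nat_lit 5) (nat_lit 91) (nat_lit 5) (nat_lit 92) (nat_lit 5) (nat_lit 353) (nat_lit 289) (nat_lit 138)) (XT.nd (nat_lit 78) (nat_lit 0) (nat_lit 0) (XT.lf (nat_lit 0) (nat_lit 1078422674) (nat_lit 304) (nat_lit 20923773843) (nat_lit 380) (nat_lit 9389941516) (nat_lit 83) (nat_lit 5) (nat_lit 87) (nat_lit 5) (nat_lit 88) (nat_lit 5) (nat_lit 354) (nat_lit 289) (nat_lit 137)) (XT.lf (nat_lit 0) (nat_lit 21605231004) (nat_lit 304) (nat_lit 8404850604) (nat_lit 380) (nat_lit 2054745981) (nat_lit 83) (nat_lit 5) (nat_lit 87) (nat_lit 5) (nat_lit 88) (nat_lit 5) (nat_lit 355) (nat_lit 289) (nat_lit 136))))) (XT.nd (nat_lit 234) (nat_lit 0) (nat_lit 152) (XT.nd (nat_lit 78) (nat_lit 0) (nat_lit 0) (XT.lf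 (nat_lit 0) (nat_lit 1249536212) (nat_lit 1596) (nat_lit 1971379130) (nat_lit 1596) (nat_lit 1971379130) (nat_lit 383) (nat_lit 3) (nat_lit 404) (nat_lit 3) (nat_lit 404) (nat_lit 5) (nat_lit 290) (nat_lit 290) (nat_lit 200)) (XT.nd (nat_lit 78) (nat_lit 0) (nat_lit 76) (XT.lf (nat_lit 76) (nat_lit 3007770065) (nat_lit 0) (nat_lit 459691878) (nat_lit 1596) (nat_lit 7053284119) (nat_lit 384) (nat_lit 5) (nat_lit 383) (nat_lit 3) (nat_lit 404) (nat_lit 5) (nat_lit 291) (nat_lit 290) (nat_lit 199)) (XT.lf (nat_lit 0) (nat_lit 4493242403) (nat_lit 1520) (nat_lit 496133120) (nat_lit 1596) (nat_lit 5671084365) (nat_lit 384) (nat_lit 5) (nat_lit 404) (nat_lit 5) (nat_lit 405) (nat_lit 5) (nat_lit 292) (nat_lit 290) (nat_lit 198)))) (XT.nd (nat_lit 156) (nat_lit 0) (nat_lit 76) (XT.nd (nat_lit 78) (nat_lit 0) (nat_lit 0) (XT.lf (nat_lit 0) (nat_lit 5570497780) (nat_lit 1520) (nat_lit 4013573536) (nat_lit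 1596) (nat_lit 1219917432) (nat_lit 385) (nat_lit 5) (nat_lit 405) (nat_lit 5) (nat_lit 406) (nat_lit 5) (nat_lit 293) (nat_lit 290) (nat_lit 197)) (XT.lf (nat_lit 76) (nat_lit 3341825679) (nat_lit 0) (nat_lit 3363138971) (nat_lit 1596) (nat_lit 4246397500) (nat_lit 386) (nat_lit 5) (nat_lit 385) (nat_lit 5) (nat_lit 406) (nat_lit 5) (nat_lit 294) (nat_lit 290) (nat_lit 196))) (XT.nd (nat_lit 78) (nat_lit 0) (nat_lit 0) (XT.lf (nat_lit 0) (nat_lit 7887999594) (nat_lit 1520) (nat_lit 169410904) (nat_lit 1596) (nat_lit 3045491065) (nat_lit 386) (nat_lit 5) (nat_lit 406) (nat_lit 5) (nat_lit 407) (nat_lit 5) (nat_lit 295) (nat_lit 290) (nat_lit 195)) (XT.lf (nat_lit 76) (nat_lit 7551361327) (nat_lit 0) (nat_lit 1595023610) (nat_lit 1596) (nat_lit 2111839488) (nat_lit 387) (nat_lit 5) (nat_lit 386) (nat_lit 5) (nat_lit 407) (nat_lit 5) (nat_lit 296) (nat_lit 290) (nat_lit 194))))))) (XT.nd (nat_lit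 1014) (nat_lit 7752) (nat_lit 0) (XT.nd (nat_lit 468) (nat_lit 2964) (nat_lit 0) (XT.nd (nat_lit 234) (nat_lit 0) (nat_lit 76) (XT.nd (nat_lit 78) (nat_lit 1520) (nat_lit 0) (XT.lf (nat_lit 76) (nat_lit 4089129998) (nat_lit 0) (nat_lit 6383176221) (nat_lit 1596) (nat_lit 945338518) (nat_lit 388) (nat_lit 5) (nat_lit 387) (nat_lit 5) (nat_lit 408) (nat_lit 5) (nat_lit 297) (nat_lit 290) (nat_lit 193)) (XT.nd (nat_lit 78) (nat_lit 0) (nat_lit 0) (XT.lf (nat_lit 0) (nat_lit 264126456) (nat_lit 1596) (nat_lit 11019962019) (nat_lit 1672) (nat_lit 297531189) (nat_lit 367) (nat_lit 5) (nat_lit 388) (nat_lit 5) (nat_lit 389) (nat_lit 5) (nat_lit 298) (nat_lit 290) (nat_lit 192)) (XT.lf (nat_lit 0) (nat_lit 1560362430) (nat_lit 1596) (nat_lit 3030017238) (nat_lit 1672) (nat_lit 7158773502) (nat_lit 367) (nat_lit 5) (nat_lit 388) (nat_lit 5) (nat_lit 389) (nat_lit 5) (nat_lit 299) (nat_lit 290) (nat_lit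 191)))) (XT.nd (nat_lit 78) (nat_lit 0) (nat_lit 0) (XT.lf (nat_lit 0) (nat_lit 2916248593) (nat_lit 1596) (nat_lit 6687834352) (nat_lit 1672) (nat_lit 2317244485) (nat_lit 368) (nat_lit 5) (nat_lit 389) (nat_lit 5) (nat_lit 390) (nat_lit 5) (nat_lit 300) (nat_lit 290) (nat_lit 190)) (XT.nd (nat_lit 78) (nat_lit 0) (nat_lit 76) (XT.lf (nat_lit 76) (nat_lit 1659303092) (nat_lit 0) (nat_lit 2687850199) (nat_lit 1672) (nat_lit 7750855927) (nat_lit 369) (nat_lit 5) (nat_lit 368) (nat_lit 5) (nat_lit 390) (nat_lit 5) (nat_lit 301) (nat_lit 290) (nat_lit 189)) (XT.lf (nat_lit 0) (nat_lit 5868340508) (nat_lit 1596) (nat_lit 1979839873) (nat_lit 1672) (nat_lit 4430892260) (nat_lit 369) (nat_lit 5) (nat_lit 390) (nat_lit 5) (nat_lit 391) (nat_lit 5) (nat_lit 302) (nat_lit 290) (nat_lit 188))))) (XT.nd (nat_lit 234) (nat_lit 3116) (nat_lit 0) (XT.nd (nat_lit 78) (nat_lit 0) (nat_lit 76) (XT.lf (nat_lit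 76) (nat_lit 6784326392) (nat_lit 0) (nat_lit 686584186) (nat_lit 1672) (nat_lit 4993969910) (nat_lit 370) (nat_lit 5) (nat_lit 369) (nat_lit 5) (nat_lit 391) (nat_lit 5) (nat_lit 303) (nat_lit 290) (nat_lit 187)) (XT.nd (nat_lit 78) (nat_lit 0) (nat_lit 76) (XT.lf (nat_lit 76) (nat_lit 3160718915) (nat_lit 0) (nat_lit 6012707292) (nat_lit 1672) (nat_lit 3481825661) (nat_lit 371) (nat_lit 5) (nat_lit 370) (nat_lit 5) (nat_lit 392) (nat_lit 5) (nat_lit 304) (nat_lit 290) (nat_lit 186)) (XT.lf (nat_lit 0) (nat_lit 10954031034) (nat_lit 1596) (nat_lit 539011691) (nat_lit 1672) (nat_lit 1357777277) (nat_lit 371) (nat_lit 5) (nat_lit 392) (nat_lit 5) (nat_lit 393) (nat_lit 5) (nat_lit 305) (nat_lit 290) (nat_lit 185)))) (XT.nd (nat_lit 156) (nat_lit 1672) (nat_lit 0) (XT.nd (nat_lit 78) (nat_lit 1596) (nat_lit 0) (XT.lf (nat_lit 76) (nat_lit 8740201023) (nat_lit 0) (nat_lit 4120598702) (nat_lit 1672)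 (nat_lit 190025676) (nat_lit 372) (nat_lit 5) (nat_lit 371) (nat_lit 5) (nat_lit 393) (nat_lit 5) (nat_lit 306) (nat_lit 290) (nat_lit 184)) (XT.lf (nat_lit 0) (nat_lit 1583149436) (nat_lit 1672) (nat_lit 8193798221) (nat_lit 76) (nat_lit 3478988173) (nat_lit 350) (nat_lit 5) (nat_lit 372) (nat_lit 5) (nat_lit 351) (nat_lit 5) (nat_lit 307) (nat_lit 290) (nat_lit 183))) (XT.nd (nat_lit 78) (nat_lit 0) (nat_lit 0) (XT.lf (nat_lit 0) (nat_lit 1276574188) (nat_lit 1672) (nat_lit 2172412812) (nat_lit 1748) (nat_lit 10017369699) (nat_lit 328) (nat_lit 5) (nat_lit 350) (nat_lit 5) (nat_lit 351) (nat_lit 5) (nat_lit 308) (nat_lit 290) (nat_lit 182)) (XT.lf (nat_lit 0) (nat_lit 5440799918) (nat_lit 1748) (nat_lit 2595680552) (nat_lit 76) (nat_lit 5645232272) (nat_lit 328) (nat_lit 5) (nat_lit 351) (nat_lit 5) (nat_lit 329) (nat_lit 5) (nat_lit 309) (nat_lit 290) (nat_lit 181)))))) (XT.nd (nat_lit 468)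 (nat_lit 3496) (nat_lit 0) (XT.nd (nat_lit 234) (nat_lit 2432) (nat_lit 0) (XT.nd (nat_lit 78) (nat_lit 836) (nat_lit 0) (XT.lf (nat_lit 0) (nat_lit 7348876326) (nat_lit 988) (nat_lit 183750624) (nat_lit 1064) (nat_lit 6370119214) (nat_lit 315) (nat_lit 5) (nat_lit 328) (nat_lit 5) (nat_lit 329) (nat_lit 5) (nat_lit 310) (nat_lit 290) (nat_lit 180)) (XT.nd (nat_lit 78) (nat_lit 0) (nat_lit 0) (XT.lf (nat_lit 0) (nat_lit 3471961083) (nat_lit 836) (nat_lit 6285369395) (nat_lit 912) (nat_lit 4371698937) (nat_lit 304) (nat_lit 5) (nat_lit 315) (nat_lit 5) (nat_lit 316) (nat_lit 5) (nat_lit 311) (nat_lit 290) (nat_lit 179)) (XT.lf (nat_lit 0) (nat_lit 12085111128) (nat_lit 912) (nat_lit 505310045) (nat_lit 76) (nat_lit 1770973904) (nat_lit 304) (nat_lit 5) (nat_lit 316) (nat_lit 5) (nat_lit 305) (nat_lit 5) (nat_lit 312) (nat_lit 290) (nat_lit 178)))) (XT.nd (nat_lit 78) (nat_lit 1596) (nat_lit 0)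 (XT.lf (nat_lit 0) (nat_lit 10021454717) (nat_lit 836) (nat_lit 4548044488) (nat_lit 912) (nat_lit 29517061) (nat_lit 293) (nat_lit 5) (nat_lit 304) (nat_lit 5) (nat_lit 305) (nat_lit 5) (nat_lit 313) (nat_lit 290) (nat_lit 177)) (XT.nd (nat_lit 78) (nat_lit 760) (nat_lit 0) (XT.lf (nat_lit 0) (nat_lit 2302205226) (nat_lit 836) (nat_lit 8794562838) (nat_lit 76) (nat_lit 3745770109) (nat_lit 282) (nat_lit 5) (nat_lit 293) (nat_lit 5) (nat_lit 283) (nat_lit 5) (nat_lit 314) (nat_lit 290) (nat_lit 176)) (XT.lf (nat_lit 0) (nat_lit 1937755451) (nat_lit 760) (nat_lit 2820408523) (nat_lit 836) (nat_lit 10334122660) (nat_lit 272) (nat_lit 5) (nat_lit 282) (nat_lit 5) (nat_lit 283) (nat_lit 5) (nat_lit 315) (nat_lit 290) (nat_lit 175))))) (XT.nd (nat_lit 234) (nat_lit 2052) (nat_lit 0) (XT.nd (nat_lit 78) (nat_lit 1444) (nat_lit 0) (XT.lf (nat_lit 0) (nat_lit 7365739570) (nat_lit 836) (nat_lit 2292467062)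 (nat_lit 76) (nat_lit 5689780131) (nat_lit 272) (nat_lit 5) (nat_lit 283) (nat_lit 5) (nat_lit 273) (nat_lit 5) (nat_lit 316) (nat_lit 290) (nat_lit 174)) (XT.nd (nat_lit 78) (nat_lit 760) (nat_lit 0) (XT.lf (nat_lit 0) (nat_lit 8975747588) (nat_lit 684) (nat_lit 1134401569) (nat_lit 760) (nat_lit 5500054058) (nat_lit 263) (nat_lit 5) (nat_lit 272) (nat_lit 5) (nat_lit 273) (nat_lit 5) (nat_lit 317) (nat_lit 290) (nat_lit 173)) (XT.lf (nat_lit 0) (nat_lit 4727023080) (nat_lit 760) (nat_lit 8287722465) (nat_lit 836) (nat_lit 2864000470) (nat_lit 253) (nat_lit 5) (nat_lit 263) (nat_lit 5) (nat_lit 264) (nat_lit 5) (nat_lit 318) (nat_lit 290) (nat_lit 172)))) (XT.nd (nat_lit 156) (nat_lit 1292) (nat_lit 0) (XT.nd (nat_lit 78) (nat_lit 76) (nat_lit 0) (XT.lf (nat_lit 0) (nat_lit 340995809) (nat_lit 684) (nat_lit 15705429169) (nat_lit 760) (nat_lit 108137668) (nat_lit 244) (nat_lit 5) (nat_lit 253)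 (nat_lit 5) (nat_lit 254) (nat_lit 5) (nat_lit 319) (nat_lit 290) (nat_lit 171)) (XT.lf (nat_lit 0) (nat_lit 2808642122) (nat_lit 760) (nat_lit 4198304690) (nat_lit 76) (nat_lit 9429087056) (nat_lit 243) (nat_lit 5) (nat_lit 253) (nat_lit 5) (nat_lit 244) (nat_lit 5) (nat_lit 320) (nat_lit 290) (nat_lit 170))) (XT.nd (nat_lit 78) (nat_lit 608) (nat_lit 0) (XT.lf (nat_lit 0) (nat_lit 5858507466) (nat_lit 760) (nat_lit 8888750632) (nat_lit 76) (nat_lit 1977751008) (nat_lit 234) (nat_lit 5) (nat_lit 244) (nat_lit 5) (nat_lit 235) (nat_lit 5) (nat_lit 321) (nat_lit 290) (nat_lit 169)) (XT.lf (nat_lit 0) (nat_lit 3244593633) (nat_lit 608) (nat_lit 5835273601) (nat_lit 684) (nat_lit 7941201158) (nat_lit 226) (nat_lit 5) (nat_lit 234) (nat_lit 5) (nat_lit 235) (nat_lit 5) (nat_lit 322) (nat_lit 290) (nat_lit 168))))))))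
noncomputable def xc100 : XT := (XT.nd (nat_lit 2028) (nat_lit 1672) (nat_lit 0) (XT.nd (nat_lit 1014) (nat_lit 3876) (nat_lit 0) (XT.nd (nat_lit 468) (nat_lit 2812) (nat_lit 0) (XT.nd (nat_lit 234) (nat_lit 1140) (nat_lit 0) (XT.nd (nat_lit 78) (nat_lit 1368) (nat_lit 0) (XT.lf (nat_lit 0) (nat_lit 12464003692) (nat_lit 684) (nat_lit 1501493525) (nat_lit 76) (nat_lit 3359203852) (nat_lit 226) (nat_lit 5) (nat_lit 235) (nat_lit 5) (nat_lit 227) (nat_lit 5) (nat_lit 323) (nat_lit 290) (nat_lit 167)) (XT.nd (nat_lit 78) (nat_lit 684) (nat_lit 0) (XT.lf (nat_lit 0) (nat_lit 11232371611) (nat_lit 684) (nat_lit 4813507871) (nat_lit 760) (nat_lit 1589652852) (nat_lit 217) (nat_lit 5) (nat_lit 226) (nat_lit 5) (nat_lit 227) (nat_lit 5) (nat_lit 324) (nat_lit 290) (nat_lit 166)) (XT.lf (nat_lit 0) (nat_lit 1823281284) (nat_lit 684) (nat_lit 11516145169) (nat_lit 76) (nat_lit 4614702309) (nat_lit 208)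 (nat_lit 5) (nat_lit 217) (nat_lit 5) (nat_lit 209) (nat_lit 5) (nat_lit 325) (nat_lit 290) (nat_lit 165)))) (XT.nd (nat_lit 78) (nat_lit 532) (nat_lit 0) (XT.lf (nat_lit 0) (nat_lit 1428616053) (nat_lit 608) (nat_lit 3958475970) (nat_lit 684) (nat_lit 12893592051) (nat_lit 200) (nat_lit 5) (nat_lit 208) (nat_lit 5) (nat_lit 209) (nat_lit 5) (nat_lit 326) (nat_lit 290) (nat_lit 164)) (XT.nd (nat_lit 78) (nat_lit 532) (nat_lit 0) (XT.lf (nat_lit 0) (nat_lit 9158537928) (nat_lit 684) (nat_lit 3751285313) (nat_lit 76) (nat_lit 5705210868) (nat_lit 200) (nat_lit 5) (nat_lit 209) (nat_lit 5) (nat_lit 201) (nat_lit 5) (nat_lit 327) (nat_lit 290) (nat_lit 163)) (XT.lf (nat_lit 0) (nat_lit 9827841132) (nat_lit 532) (nat_lit 3291133513) (nat_lit 608) (nat_lit 5838935171) (nat_lit 193) (nat_lit 5) (nat_lit 200) (nat_lit 5) (nat_lit 201) (nat_lit 5) (nat_lit 328) (nat_lit 290) (nat_lit 162))))) (XT.nd (nat_lit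 234) (nat_lit 1596) (nat_lit 0) (XT.nd (nat_lit 78) (nat_lit 608) (nat_lit 0) (XT.lf (nat_lit 0) (nat_lit 4554635679) (nat_lit 608) (nat_lit 12727565066) (nat_lit 684) (nat_lit 2027203289) (nat_lit 185) (nat_lit 5) (nat_lit 193) (nat_lit 5) (nat_lit 194) (nat_lit 5) (nat_lit 329) (nat_lit 290) (nat_lit 161)) (XT.nd (nat_lit 78) (nat_lit 532) (nat_lit 0) (XT.lf (nat_lit 0) (nat_lit 1944323419) (nat_lit 684) (nat_lit 947118302) (nat_lit 76) (nat_lit 16778359041) (nat_lit 184) (nat_lit 5) (nat_lit 193) (nat_lit 5) (nat_lit 185) (nat_lit 5) (nat_lit 330) (nat_lit 290) (nat_lit 160)) (XT.lf (nat_lit 0) (nat_lit 6128865855) (nat_lit 608) (nat_lit 6666234679) (nat_lit 76) (nat_lit 7243223501) (nat_lit 177) (nat_lit 5) (nat_lit 185) (nat_lit 5) (nat_lit 178) (nat_lit 5) (nat_lit 331) (nat_lit 290) (nat_lit 159)))) (XT.nd (nat_lit 156) (nat_lit 608) (nat_lit 0) (XT.nd (nat_lit 78) (nat_lit 456) (nat_lit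 0) (XT.lf (nat_lit 0) (nat_lit 7782237579) (nat_lit 532) (nat_lit 2719766205) (nat_lit 608) (nat_lit 9914648593) (nat_lit 170) (nat_lit 5) (nat_lit 177) (nat_lit 5) (nat_lit 178) (nat_lit 5) (nat_lit 332) (nat_lit 290) (nat_lit 158)) (XT.lf (nat_lit 0) (nat_lit 1908504080) (nat_lit 456) (nat_lit 13192409084) (nat_lit 532) (nat_lit 5703536108) (nat_lit 164) (nat_lit 5) (nat_lit 170) (nat_lit 5) (nat_lit 171) (nat_lit 5) (nat_lit 333) (nat_lit 290) (nat_lit 157))) (XT.nd (nat_lit 78) (nat_lit 608) (nat_lit 0) (XT.lf (nat_lit 0) (nat_lit 17025997178) (nat_lit 456) (nat_lit 2902744179) (nat_lit 532) (nat_lit 1273329638) (nat_lit 164) (nat_lit 5) (nat_lit 170) (nat_lit 5) (nat_lit 171) (nat_lit 5) (nat_lit 334) (nat_lit 290) (nat_lit 156)) (XT.lf (nat_lit 0) (nat_lit 3356772405) (nat_lit 608) (nat_lit 10566971837) (nat_lit 76) (nat_lit 7685256700) (nat_lit 156) (nat_lit 5) (nat_lit 164) (nat_lit 5)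 (nat_lit 157) (nat_lit 5) (nat_lit 335) (nat_lit 290) (nat_lit 155)))))) (XT.nd (nat_lit 468) (nat_lit 1976) (nat_lit 0) (XT.nd (nat_lit 234) (nat_lit 988) (nat_lit 0) (XT.nd (nat_lit 78) (nat_lit 456) (nat_lit 0) (XT.lf (nat_lit 0) (nat_lit 4764741193) (nat_lit 456) (nat_lit 3410454907) (nat_lit 532) (nat_lit 13851449184) (nat_lit 150) (nat_lit 5) (nat_lit 156) (nat_lit 5) (nat_lit 157) (nat_lit 5) (nat_lit 336) (nat_lit 290) (nat_lit 154)) (XT.nd (nat_lit 78) (nat_lit 456) (nat_lit 0) (XT.lf (nat_lit 0) (nat_lit 13246432167) (nat_lit 532) (nat_lit 1818843060) (nat_lit 76) (nat_lit 7389387464) (nat_lit 150) (nat_lit 5) (nat_lit 157) (nat_lit 5) (nat_lit 151) (nat_lit 5) (nat_lit 337) (nat_lit 290) (nat_lit 153)) (XT.lf (nat_lit 0) (nat_lit 14236006575) (nat_lit 456) (nat_lit 4337400830) (nat_lit 532) (nat_lit 4320049841) (nat_lit 144) (nat_lit 5) (nat_lit 150) (nat_lit 5) (nat_lit 151) (nat_lit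 5) (nat_lit 338) (nat_lit 290) (nat_lit 152)))) (XT.nd (nat_lit 78) (nat_lit 456) (nat_lit 0) (XT.lf (nat_lit 0) (nat_lit 799219080) (nat_lit 532) (nat_lit 15857365146) (nat_lit 76) (nat_lit 6686870499) (nat_lit 137) (nat_lit 5) (nat_lit 144) (nat_lit 5) (nat_lit 138) (nat_lit 5) (nat_lit 339) (nat_lit 290) (nat_lit 151)) (XT.nd (nat_lit 78) (nat_lit 0) (nat_lit 0) (XT.lf (nat_lit 0) (nat_lit 357795386) (nat_lit 456) (nat_lit 5735029657) (nat_lit 532) (nat_lit 17711974956) (nat_lit 131) (nat_lit 5) (nat_lit 137) (nat_lit 5) (nat_lit 138) (nat_lit 5) (nat_lit 340) (nat_lit 290) (nat_lit 150)) (XT.lf (nat_lit 0) (nat_lit 11678145304) (nat_lit 532) (nat_lit 7053109956) (nat_lit 76) (nat_lit 5546080026) (nat_lit 131) (nat_lit 5) (nat_lit 138) (nat_lit 5) (nat_lit 132) (nat_lit 5) (nat_lit 341) (nat_lit 290) (nat_lit 149))))) (XT.nd (nat_lit 234) (nat_lit 1140) (nat_lit 0) (XT.nd (nat_lit 78) (nat_lit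 456) (nat_lit 0) (XT.lf (nat_lit 0) (nat_lit 9909427350) (nat_lit 380) (nat_lit 7613549590) (nat_lit 456) (nat_lit 7239238205) (nat_lit 126) (nat_lit 5) (nat_lit 131) (nat_lit 5) (nat_lit 132) (nat_lit 5) (nat_lit 342) (nat_lit 290) (nat_lit 148)) (XT.nd (nat_lit 78) (nat_lit 76) (nat_lit 0) (XT.lf (nat_lit 0) (nat_lit 2205656419) (nat_lit 380) (nat_lit 21414297862) (nat_lit 456) (nat_lit 1640158433) (nat_lit 121) (nat_lit 5) (nat_lit 126) (nat_lit 5) (nat_lit 127) (nat_lit 5) (nat_lit 343) (nat_lit 290) (nat_lit 147)) (XT.lf (nat_lit 0) (nat_lit 4214588027) (nat_lit 456) (nat_lit 5884792648) (nat_lit 76) (nat_lit 15670201237) (nat_lit 120) (nat_lit 5) (nat_lit 126) (nat_lit 5) (nat_lit 121) (nat_lit 5) (nat_lit 344) (nat_lit 290) (nat_lit 146)))) (XT.nd (nat_lit 156) (nat_lit 380) (nat_lit 0) (XT.nd (nat_lit 78) (nat_lit 380) (nat_lit 0) (XT.lf (nat_lit 0) (nat_lit 10300834709) (nat_lit 456)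 (nat_lit 14372174243) (nat_lit 76) (nat_lit 1619553357) (nat_lit 115) (nat_lit 5) (nat_lit 121) (nat_lit 5) (nat_lit 116) (nat_lit 5) (nat_lit 345) (nat_lit 290) (nat_lit 145)) (XT.lf (nat_lit 0) (nat_lit 3473428762) (nat_lit 380) (nat_lit 13216542756) (nat_lit 456) (nat_lit 10138861120) (nat_lit 110) (nat_lit 5) (nat_lit 115) (nat_lit 5) (nat_lit 116) (nat_lit 5) (nat_lit 346) (nat_lit 290) (nat_lit 144))) (XT.nd (nat_lit 78) (nat_lit 380) (nat_lit 0) (XT.lf (nat_lit 0) (nat_lit 22037193887) (nat_lit 380) (nat_lit 1321248257) (nat_lit 456) (nat_lit 4021002124) (nat_lit 110) (nat_lit 5) (nat_lit 115) (nat_lit 5) (nat_lit 116) (nat_lit 5) (nat_lit 347) (nat_lit 290) (nat_lit 143)) (XT.lf (nat_lit 0) (nat_lit 2399314277) (nat_lit 380) (nat_lit 14658332594) (nat_lit 76) (nat_lit 10885660749) (nat_lit 105) (nat_lit 5) (nat_lit 110) (nat_lit 5) (nat_lit 106) (nat_lit 5) (nat_lit 348) (nat_lit 290)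 (nat_lit 142))))))) (XT.nd (nat_lit 36582) (nat_lit 0) (nat_lit 18620) (XT.nd (nat_lit 468) (nat_lit 304) (nat_lit 0) (XT.nd (nat_lit 234) (nat_lit 684) (nat_lit 0) (XT.nd (nat_lit 78) (nat_lit 304) (nat_lit 0) (XT.lf (nat_lit 0) (nat_lit 4023984131) (nat_lit 380) (nat_lit 4995987704) (nat_lit 456) (nat_lit 19502342134) (nat_lit 100) (nat_lit 5) (nat_lit 105) (nat_lit 5) (nat_lit 106) (nat_lit 5) (nat_lit 349) (nat_lit 290) (nat_lit 141)) (XT.nd (nat_lit 78) (nat_lit 304) (nat_lit 0) (XT.lf (nat_lit 0) (nat_lit 15978266198) (nat_lit 456) (nat_lit 5711716472) (nat_lit 76) (nat_lit 7425933227) (nat_lit 100) (nat_lit 5) (nat_lit 106) (nat_lit 5) (nat_lit 101) (nat_lit 5) (nat_lit 350) (nat_lit 290) (nat_lit 140)) (XT.lf (nat_lit 0) (nat_lit 13772562825) (nat_lit 304) (nat_lit 9486650747) (nat_lit 380) (nat_lit 6465839788) (nat_lit 96) (nat_lit 5) (nat_lit 100) (nat_lit 5) (nat_lit 101) (nat_lit 5)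 (nat_lit 351) (nat_lit 290) (nat_lit 139)))) (XT.nd (nat_lit 78) (nat_lit 304) (nat_lit 0) (XT.lf (nat_lit 0) (nat_lit 474730585) (nat_lit 380) (nat_lit 26772653755) (nat_lit 76) (nat_lit 3103554513) (nat_lit 91) (nat_lit 5) (nat_lit 96) (nat_lit 5) (nat_lit 92) (nat_lit 5) (nat_lit 352) (nat_lit 290) (nat_lit 138)) (XT.nd (nat_lit 78) (nat_lit 304) (nat_lit 0) (XT.lf (nat_lit 0) (nat_lit 7699761719) (nat_lit 380) (nat_lit 7200491498) (nat_lit 76) (nat_lit 16091216268) (nat_lit 91) (nat_lit 5) (nat_lit 96) (nat_lit 5) (nat_lit 92) (nat_lit 5) (nat_lit 353) (nat_lit 290) (nat_lit 137)) (XT.lf (nat_lit 0) (nat_lit 13118263112) (nat_lit 304) (nat_lit 2100037488) (nat_lit 380) (nat_lit 16431385290) (nat_lit 87) (nat_lit 5) (nat_lit 91) (nat_lit 5) (nat_lit 92) (nat_lit 5) (nat_lit 354) (nat_lit 290) (nat_lit 136))))) (XT.nd (nat_lit 35802) (nat_lit 0) (nat_lit 22876) (XT.nd (nat_lit 35646) (nat_lit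 0) (nat_lit 22800) (XT.lf (nat_lit 0) (nat_lit 1756659834) (nat_lit 304) (nat_lit 21329944840) (nat_lit 380) (nat_lit 9238564778) (nat_lit 83) (nat_lit 5) (nat_lit 87) (nat_lit 5) (nat_lit 88) (nat_lit 5) (nat_lit 355) (nat_lit 290) (nat_lit 135)) (XT.nd (nat_lit 78) (nat_lit 0) (nat_lit 0) (XT.lf (nat_lit 0) (nat_lit 2189636599) (nat_lit 1596) (nat_lit 1569695162) (nat_lit 1596) (nat_lit 1569695162) (nat_lit 383) (nat_lit 3) (nat_lit 404) (nat_lit 3) (nat_lit 404) (nat_lit 5) (nat_lit 291) (nat_lit 291) (nat_lit 198)) (XT.lf (nat_lit 76) (nat_lit 4004701163) (nat_lit 0) (nat_lit 1325320652) (nat_lit 1596) (nat_lit 5469265043) (nat_lit 384) (nat_lit 5) (nat_lit 383) (nat_lit 3) (nat_lit 404) (nat_lit 5) (nat_lit 292) (nat_lit 291) (nat_lit 197)))) (XT.nd (nat_lit 156) (nat_lit 0) (nat_lit 76) (XT.nd (nat_lit 78) (nat_lit 0) (nat_lit 76) (XT.lf (nat_lit 76) (nat_lit 416100584) (nat_lit 0) (nat_lit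 5916587600) (nat_lit 1596) (nat_lit 4611637321) (nat_lit 385) (nat_lit 5) (nat_lit 384) (nat_lit 5) (nat_lit 405) (nat_lit 5) (nat_lit 293) (nat_lit 291) (nat_lit 196)) (XT.lf (nat_lit 0) (nat_lit 7390995707) (nat_lit 1520) (nat_lit 3187427104) (nat_lit 1596) (nat_lit 514816766) (nat_lit 385) (nat_lit 5) (nat_lit 405) (nat_lit 5) (nat_lit 406) (nat_lit 5) (nat_lit 294) (nat_lit 291) (nat_lit 195))) (XT.nd (nat_lit 78) (nat_lit 0) (nat_lit 76) (XT.lf (nat_lit 76) (nat_lit 4373277380) (nat_lit 0) (nat_lit 4144108365) (nat_lit 1596) (nat_lit 2728543114) (nat_lit 386) (nat_lit 5) (nat_lit 385) (nat_lit 5) (nat_lit 406) (nat_lit 5) (nat_lit 295) (nat_lit 291) (nat_lit 194)) (XT.lf (nat_lit 76) (nat_lit 777044039) (nat_lit 0) (nat_lit 8912695633) (nat_lit 1596) (nat_lit 1713249156) (nat_lit 387) (nat_lit 5) (nat_lit 386) (nat_lit 5) (nat_lit 407) (nat_lit 5) (nat_lit 296) (nat_lit 291) (nat_lit 193))))))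 (XT.nd (nat_lit 468) (nat_lit 2888) (nat_lit 0) (XT.nd (nat_lit 234) (nat_lit 0) (nat_lit 76) (XT.nd (nat_lit 78) (nat_lit 1520) (nat_lit 0) (XT.lf (nat_lit 76) (nat_lit 8703976142) (nat_lit 0) (nat_lit 2237429539) (nat_lit 1596) (nat_lit 622504563) (nat_lit 387) (nat_lit 5) (nat_lit 386) (nat_lit 5) (nat_lit 407) (nat_lit 5) (nat_lit 297) (nat_lit 291) (nat_lit 192)) (XT.nd (nat_lit 78) (nat_lit 0) (nat_lit 0) (XT.lf (nat_lit 0) (nat_lit 529179634) (nat_lit 1596) (nat_lit 6574288683) (nat_lit 1672) (nat_lit 4625461098) (nat_lit 366) (nat_lit 5) (nat_lit 387) (nat_lit 5) (nat_lit 388) (nat_lit 5) (nat_lit 298) (nat_lit 291) (nat_lit 191)) (XT.lf (nat_lit 76) (nat_lit 1532622715) (nat_lit 0) (nat_lit 190299636) (nat_lit 1672) (nat_lit 10175605218) (nat_lit 367) (nat_lit 5) (nat_lit 366) (nat_lit 5) (nat_lit 388) (nat_lit 5) (nat_lit 299) (nat_lit 291) (nat_lit 190)))) (XT.nd (nat_lit 78) (nat_lit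 0) (nat_lit 76) (XT.lf (nat_lit 0) (nat_lit 3014587429) (nat_lit 1596) (nat_lit 2163741467) (nat_lit 1672) (nat_lit 6893671710) (nat_lit 367) (nat_lit 5) (nat_lit 388) (nat_lit 5) (nat_lit 389) (nat_lit 5) (nat_lit 300) (nat_lit 291) (nat_lit 189)) (XT.nd (nat_lit 78) (nat_lit 0) (nat_lit 0) (XT.lf (nat_lit 0) (nat_lit 4373473720) (nat_lit 1596) (nat_lit 5915138023) (nat_lit 1672) (nat_lit 1961524954) (nat_lit 368) (nat_lit 5) (nat_lit 389) (nat_lit 5) (nat_lit 390) (nat_lit 5) (nat_lit 301) (nat_lit 291) (nat_lit 188)) (XT.lf (nat_lit 76) (nat_lit 2666622400) (nat_lit 0) (nat_lit 3147004873) (nat_lit 1672) (nat_lit 6619207049) (nat_lit 369) (nat_lit 5) (nat_lit 368) (nat_lit 5) (nat_lit 390) (nat_lit 5) (nat_lit 302) (nat_lit 291) (nat_lit 187))))) (XT.nd (nat_lit 234) (nat_lit 3116) (nat_lit 0) (XT.nd (nat_lit 78) (nat_lit 0) (nat_lit 0) (XT.lf (nat_lit 0) (nat_lit 7339149739) (nat_lit 1596)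 (nat_lit 1079902075) (nat_lit 1672) (nat_lit 4201144444) (nat_lit 369) (nat_lit 5) (nat_lit 390) (nat_lit 5) (nat_lit 391) (nat_lit 5) (nat_lit 303) (nat_lit 291) (nat_lit 186)) (XT.nd (nat_lit 78) (nat_lit 0) (nat_lit 76) (XT.lf (nat_lit 76) (nat_lit 7931625140) (nat_lit 0) (nat_lit 1026587917) (nat_lit 1672) (nat_lit 3854036379) (nat_lit 370) (nat_lit 5) (nat_lit 369) (nat_lit 5) (nat_lit 391) (nat_lit 5) (nat_lit 304) (nat_lit 291) (nat_lit 185)) (XT.lf (nat_lit 76) (nat_lit 4212184339) (nat_lit 0) (nat_lit 6467026077) (nat_lit 1672) (nat_lit 2329811686) (nat_lit 371) (nat_lit 5) (nat_lit 370) (nat_lit 5) (nat_lit 392) (nat_lit 5) (nat_lit 305) (nat_lit 291) (nat_lit 184)))) (XT.nd (nat_lit 156) (nat_lit 1596) (nat_lit 0) (XT.nd (nat_lit 78) (nat_lit 1672) (nat_lit 0) (XT.lf (nat_lit 76) (nat_lit 405780386) (nat_lit 0) (nat_lit 12072518639) (nat_lit 1672) (nat_lit 732894099) (nat_lit 372) (nat_lit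 5) (nat_lit 371) (nat_lit 5) (nat_lit 393) (nat_lit 5) (nat_lit 306) (nat_lit 291) (nat_lit 183)) (XT.lf (nat_lit 0) (nat_lit 980106801) (nat_lit 1672) (nat_lit 3481764934) (nat_lit 1748) (nat_lit 8955859634) (nat_lit 349) (nat_lit 5) (nat_lit 371) (nat_lit 5) (nat_lit 372) (nat_lit 5) (nat_lit 307) (nat_lit 291) (nat_lit 182))) (XT.nd (nat_lit 78) (nat_lit 1672) (nat_lit 0) (XT.lf (nat_lit 0) (nat_lit 2774526104) (nat_lit 1672) (nat_lit 7472857451) (nat_lit 76) (nat_lit 3382208158) (nat_lit 350) (nat_lit 5) (nat_lit 372) (nat_lit 5) (nat_lit 351) (nat_lit 5) (nat_lit 308) (nat_lit 291) (nat_lit 181)) (XT.lf (nat_lit 0) (nat_lit 2265941684) (nat_lit 1672) (nat_lit 2403255133) (nat_lit 1748) (nat_lit 9177704567) (nat_lit 328) (nat_lit 5) (nat_lit 350) (nat_lit 5) (nat_lit 351) (nat_lit 5) (nat_lit 309) (nat_lit 291) (nat_lit 180))))))))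
noncomputable def xc101 : XT := (XT.nd (nat_lit 2028) (nat_lit 5548) (nat_lit 0) (XT.nd (nat_lit 1014) (nat_lit 5320) (nat_lit 0) (XT.nd (nat_lit 468) (nat_lit 3648) (nat_lit 0) (XT.nd (nat_lit 234) (nat_lit 1672) (nat_lit 0) (XT.nd (nat_lit 78) (nat_lit 1824) (nat_lit 0) (XT.lf (nat_lit 0) (nat_lit 6687193399) (nat_lit 1748) (nat_lit 1726374342) (nat_lit 76) (nat_lit 5655854147) (nat_lit 328) (nat_lit 5) (nat_lit 351) (nat_lit 5) (nat_lit 329) (nat_lit 5) (nat_lit 310) (nat_lit 291) (nat_lit 179)) (XT.nd (nat_lit 78) (nat_lit 836) (nat_lit 0) (XT.lf (nat_lit 0) (nat_lit 8501152427) (nat_lit 988) (nat_lit 315124117) (nat_lit 1064) (nat_lit 5481351166) (nat_lit 315) (nat_lit 5) (nat_lit 328) (nat_lit 5) (nat_lit 329) (nat_lit 5) (nat_lit 311) (nat_lit 291) (nat_lit 178)) (XT.lf (nat_lit 0) (nat_lit 4515456792) (nat_lit 836) (nat_lit 6566763866) (nat_lit 912) (nat_lit 3449019317) (nat_lit 304) (nat_lit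 5) (nat_lit 315) (nat_lit 5) (nat_lit 316) (nat_lit 5) (nat_lit 312) (nat_lit 291) (nat_lit 177)))) (XT.nd (nat_lit 78) (nat_lit 836) (nat_lit 0) (XT.lf (nat_lit 0) (nat_lit 418613007) (nat_lit 836) (nat_lit 13033291242) (nat_lit 912) (nat_lit 1319260587) (nat_lit 293) (nat_lit 5) (nat_lit 304) (nat_lit 5) (nat_lit 305) (nat_lit 5) (nat_lit 313) (nat_lit 291) (nat_lit 176)) (XT.nd (nat_lit 78) (nat_lit 760) (nat_lit 0) (XT.lf (nat_lit 0) (nat_lit 955735528) (nat_lit 912) (nat_lit 3782205553) (nat_lit 76) (nat_lit 10278395088) (nat_lit 292) (nat_lit 5) (nat_lit 304) (nat_lit 5) (nat_lit 293) (nat_lit 5) (nat_lit 314) (nat_lit 291) (nat_lit 175)) (XT.lf (nat_lit 0) (nat_lit 3333959740) (nat_lit 836) (nat_lit 8120574430) (nat_lit 76) (nat_lit 3813114006) (nat_lit 282) (nat_lit 5) (nat_lit 293) (nat_lit 5) (nat_lit 283) (nat_lit 5) (nat_lit 315) (nat_lit 291) (nat_lit 174))))) (XT.nd (nat_lit 234)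 (nat_lit 2204) (nat_lit 0) (XT.nd (nat_lit 78) (nat_lit 684) (nat_lit 0) (XT.lf (nat_lit 0) (nat_lit 2918498306) (nat_lit 760) (nat_lit 2923049674) (nat_lit 836) (nat_lit 9683808669) (nat_lit 272) (nat_lit 5) (nat_lit 282) (nat_lit 5) (nat_lit 283) (nat_lit 5) (nat_lit 316) (nat_lit 291) (nat_lit 173)) (XT.nd (nat_lit 78) (nat_lit 684) (nat_lit 0) (XT.lf (nat_lit 0) (nat_lit 8499839943) (nat_lit 836) (nat_lit 1446264540) (nat_lit 76) (nat_lit 5843199318) (nat_lit 272) (nat_lit 5) (nat_lit 283) (nat_lit 5) (nat_lit 273) (nat_lit 5) (nat_lit 317) (nat_lit 291) (nat_lit 172)) (XT.lf (nat_lit 0) (nat_lit 10145152142) (nat_lit 684) (nat_lit 1160677964) (nat_lit 760) (nat_lit 4753996723) (nat_lit 263) (nat_lit 5) (nat_lit 272) (nat_lit 5) (nat_lit 273) (nat_lit 5) (nat_lit 318) (nat_lit 291) (nat_lit 171)))) (XT.nd (nat_lit 156) (nat_lit 684) (nat_lit 0) (XT.nd (nat_lit 78) (nat_lit 760) (nat_lit 0)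 (XT.lf (nat_lit 0) (nat_lit 5772692168) (nat_lit 760) (nat_lit 8504798006) (nat_lit 836) (nat_lit 2059361542) (nat_lit 253) (nat_lit 5) (nat_lit 263) (nat_lit 5) (nat_lit 264) (nat_lit 5) (nat_lit 319) (nat_lit 291) (nat_lit 170)) (XT.lf (nat_lit 0) (nat_lit 749487447) (nat_lit 760) (nat_lit 15368104707) (nat_lit 76) (nat_lit 503662075) (nat_lit 243) (nat_lit 5) (nat_lit 253) (nat_lit 5) (nat_lit 244) (nat_lit 5) (nat_lit 320) (nat_lit 291) (nat_lit 169))) (XT.nd (nat_lit 78) (nat_lit 684) (nat_lit 0) (XT.lf (nat_lit 0) (nat_lit 3727278525) (nat_lit 760) (nat_lit 3431879101) (nat_lit 76) (nat_lit 9752520597) (nat_lit 243) (nat_lit 5) (nat_lit 253) (nat_lit 5) (nat_lit 244) (nat_lit 5) (nat_lit 321) (nat_lit 291) (nat_lit 168)) (XT.lf (nat_lit 0) (nat_lit 6850440811) (nat_lit 760) (nat_lit 8260876686) (nat_lit 76) (nat_lit 2098391021) (nat_lit 234) (nat_lit 5) (nat_lit 244) (nat_lit 5) (nat_lit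 235) (nat_lit 5) (nat_lit 322) (nat_lit 291) (nat_lit 167)))))) (XT.nd (nat_lit 468) (nat_lit 2736) (nat_lit 0) (XT.nd (nat_lit 234) (nat_lit 1292) (nat_lit 0) (XT.nd (nat_lit 78) (nat_lit 684) (nat_lit 0) (XT.lf (nat_lit 0) (nat_lit 4221955116) (nat_lit 608) (nat_lit 5928427776) (nat_lit 684) (nat_lit 7364649045) (nat_lit 226) (nat_lit 5) (nat_lit 234) (nat_lit 5) (nat_lit 235) (nat_lit 5) (nat_lit 323) (nat_lit 291) (nat_lit 166)) (XT.nd (nat_lit 78) (nat_lit 684) (nat_lit 0) (XT.lf (nat_lit 0) (nat_lit 13613313527) (nat_lit 684) (nat_lit 676479684) (nat_lit 76) (nat_lit 3538455548) (nat_lit 226) (nat_lit 5) (nat_lit 235) (nat_lit 5) (nat_lit 227) (nat_lit 5) (nat_lit 324) (nat_lit 291) (nat_lit 165)) (XT.lf (nat_lit 0) (nat_lit 12425285738) (nat_lit 684) (nat_lit 4860333035) (nat_lit 760) (nat_lit 863146692) (nat_lit 217) (nat_lit 5) (nat_lit 226) (nat_lit 5) (nat_lit 227) (nat_lit 5) (nat_lit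 325) (nat_lit 291) (nat_lit 164)))) (XT.nd (nat_lit 78) (nat_lit 608) (nat_lit 0) (XT.lf (nat_lit 0) (nat_lit 2625988396) (nat_lit 684) (nat_lit 10994046342) (nat_lit 76) (nat_lit 4857124189) (nat_lit 208) (nat_lit 5) (nat_lit 217) (nat_lit 5) (nat_lit 209) (nat_lit 5) (nat_lit 326) (nat_lit 291) (nat_lit 163)) (XT.nd (nat_lit 78) (nat_lit 0) (nat_lit 0) (XT.lf (nat_lit 0) (nat_lit 2324982209) (nat_lit 608) (nat_lit 3955486125) (nat_lit 684) (nat_lit 12533385918) (nat_lit 200) (nat_lit 5) (nat_lit 208) (nat_lit 5) (nat_lit 209) (nat_lit 5) (nat_lit 327) (nat_lit 291) (nat_lit 162)) (XT.lf (nat_lit 0) (nat_lit 10144511536) (nat_lit 684) (nat_lit 3021136906) (nat_lit 76) (nat_lit 5993015183) (nat_lit 200) (nat_lit 5) (nat_lit 209) (nat_lit 5) (nat_lit 201) (nat_lit 5) (nat_lit 328) (nat_lit 291) (nat_lit 161))))) (XT.nd (nat_lit 234) (nat_lit 1520) (nat_lit 0) (XT.nd (nat_lit 78) (nat_lit 684) (nat_lit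 0) (XT.lf (nat_lit 0) (nat_lit 10951691737) (nat_lit 532) (nat_lit 3256737064) (nat_lit 608) (nat_lit 5303720847) (nat_lit 193) (nat_lit 5) (nat_lit 200) (nat_lit 5) (nat_lit 201) (nat_lit 5) (nat_lit 329) (nat_lit 291) (nat_lit 160)) (XT.nd (nat_lit 78) (nat_lit 76) (nat_lit 0) (XT.lf (nat_lit 0) (nat_lit 5520252243) (nat_lit 608) (nat_lit 12962252416) (nat_lit 684) (nat_lit 1391981861) (nat_lit 185) (nat_lit 5) (nat_lit 193) (nat_lit 5) (nat_lit 194) (nat_lit 5) (nat_lit 330) (nat_lit 291) (nat_lit 159)) (XT.lf (nat_lit 0) (nat_lit 2669554936) (nat_lit 684) (nat_lit 161300791) (nat_lit 76) (nat_lit 17415165253) (nat_lit 184) (nat_lit 5) (nat_lit 193) (nat_lit 5) (nat_lit 185) (nat_lit 5) (nat_lit 331) (nat_lit 291) (nat_lit 158)))) (XT.nd (nat_lit 156) (nat_lit 456) (nat_lit 0) (XT.nd (nat_lit 78) (nat_lit 532) (nat_lit 0) (XT.lf (nat_lit 0) (nat_lit 6966373222) (nat_lit 608) (nat_lit 6052590002)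 (nat_lit 76) (nat_lit 7606917540) (nat_lit 177) (nat_lit 5) (nat_lit 185) (nat_lit 5) (nat_lit 178) (nat_lit 5) (nat_lit 332) (nat_lit 291) (nat_lit 157)) (XT.lf (nat_lit 0) (nat_lit 8816136216) (nat_lit 532) (nat_lit 2640727907) (nat_lit 608) (nat_lit 9558986808) (nat_lit 170) (nat_lit 5) (nat_lit 177) (nat_lit 5) (nat_lit 178) (nat_lit 5) (nat_lit 333) (nat_lit 291) (nat_lit 156))) (XT.nd (nat_lit 78) (nat_lit 0) (nat_lit 0) (XT.lf (nat_lit 0) (nat_lit 2765263882) (nat_lit 456) (nat_lit 13416045408) (nat_lit 532) (nat_lit 5234235783) (nat_lit 164) (nat_lit 5) (nat_lit 170) (nat_lit 5) (nat_lit 171) (nat_lit 5) (nat_lit 334) (nat_lit 291) (nat_lit 155)) (XT.lf (nat_lit 0) (nat_lit 18312995228) (nat_lit 456) (nat_lit 2822704223) (nat_lit 532) (nat_lit 689775733) (nat_lit 164) (nat_lit 5) (nat_lit 170) (nat_lit 5) (nat_lit 171) (nat_lit 5) (nat_lit 335) (nat_lit 291) (nat_lit 154))))))) (XT.nd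 (nat_lit 1014) (nat_lit 1444) (nat_lit 0) (XT.nd (nat_lit 468) (nat_lit 1596) (nat_lit 0) (XT.nd (nat_lit 234) (nat_lit 1444) (nat_lit 0) (XT.nd (nat_lit 78) (nat_lit 456) (nat_lit 0) (XT.lf (nat_lit 0) (nat_lit 4059328776) (nat_lit 608) (nat_lit 10100519548) (nat_lit 76) (nat_lit 8084932484) (nat_lit 156) (nat_lit 5) (nat_lit 164) (nat_lit 5) (nat_lit 157) (nat_lit 5) (nat_lit 336) (nat_lit 291) (nat_lit 153)) (XT.nd (nat_lit 78) (nat_lit 0) (nat_lit 0) (XT.lf (nat_lit 0) (nat_lit 5678434141) (nat_lit 456) (nat_lit 3331345561) (nat_lit 532) (nat_lit 13665438485) (nat_lit 150) (nat_lit 5) (nat_lit 156) (nat_lit 5) (nat_lit 157) (nat_lit 5) (nat_lit 337) (nat_lit 291) (nat_lit 152)) (XT.lf (nat_lit 0) (nat_lit 14217131577) (nat_lit 532) (nat_lit 1114379955) (nat_lit 76) (nat_lit 7784897823) (nat_lit 150) (nat_lit 5) (nat_lit 157) (nat_lit 5) (nat_lit 151) (nat_lit 5) (nat_lit 338) (nat_lit 291)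 (nat_lit 151)))) (XT.nd (nat_lit 78) (nat_lit 988) (nat_lit 0) (XT.lf (nat_lit 0) (nat_lit 15409800834) (nat_lit 456) (nat_lit 4282265154) (nat_lit 532) (nat_lit 3876551200) (nat_lit 144) (nat_lit 5) (nat_lit 150) (nat_lit 5) (nat_lit 151) (nat_lit 5) (nat_lit 339) (nat_lit 291) (nat_lit 150)) (XT.nd (nat_lit 78) (nat_lit 456) (nat_lit 0) (XT.lf (nat_lit 0) (nat_lit 1378349904) (nat_lit 532) (nat_lit 15580442635) (nat_lit 76) (nat_lit 7073468067) (nat_lit 137) (nat_lit 5) (nat_lit 144) (nat_lit 5) (nat_lit 138) (nat_lit 5) (nat_lit 340) (nat_lit 291) (nat_lit 149)) (XT.lf (nat_lit 0) (nat_lit 1108961967) (nat_lit 456) (nat_lit 5710439918) (nat_lit 532) (nat_lit 17688283091) (nat_lit 131) (nat_lit 5) (nat_lit 137) (nat_lit 5) (nat_lit 138) (nat_lit 5) (nat_lit 341) (nat_lit 291) (nat_lit 148))))) (XT.nd (nat_lit 234) (nat_lit 836) (nat_lit 0) (XT.nd (nat_lit 78) (nat_lit 760) (nat_lit 0) (XT.lf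 (nat_lit 0) (nat_lit 12557682684) (nat_lit 532) (nat_lit 6536144982) (nat_lit 76) (nat_lit 5900871798) (nat_lit 131) (nat_lit 5) (nat_lit 138) (nat_lit 5) (nat_lit 132) (nat_lit 5) (nat_lit 342) (nat_lit 291) (nat_lit 147)) (XT.nd (nat_lit 78) (nat_lit 380) (nat_lit 0) (XT.lf (nat_lit 0) (nat_lit 10923448452) (nat_lit 380) (nat_lit 7643650969) (nat_lit 456) (nat_lit 6927252329) (nat_lit 126) (nat_lit 5) (nat_lit 131) (nat_lit 5) (nat_lit 132) (nat_lit 5) (nat_lit 343) (nat_lit 291) (nat_lit 146)) (XT.lf (nat_lit 0) (nat_lit 2986225296) (nat_lit 380) (nat_lit 21851549172) (nat_lit 456) (nat_lit 1169606531) (nat_lit 121) (nat_lit 5) (nat_lit 126) (nat_lit 5) (nat_lit 127) (nat_lit 5) (nat_lit 344) (nat_lit 291) (nat_lit 145)))) (XT.nd (nat_lit 156) (nat_lit 380) (nat_lit 0) (XT.nd (nat_lit 78) (nat_lit 380) (nat_lit 0) (XT.lf (nat_lit 0) (nat_lit 4839025622) (nat_lit 456) (nat_lit 5360793053) (nat_lit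 76) (nat_lit 16332556920) (nat_lit 120) (nat_lit 5) (nat_lit 126) (nat_lit 5) (nat_lit 121) (nat_lit 5) (nat_lit 345) (nat_lit 291) (nat_lit 144)) (XT.lf (nat_lit 0) (nat_lit 11099135828) (nat_lit 456) (nat_lit 14105384507) (nat_lit 76) (nat_lit 1866709265) (nat_lit 115) (nat_lit 5) (nat_lit 121) (nat_lit 5) (nat_lit 116) (nat_lit 5) (nat_lit 346) (nat_lit 291) (nat_lit 143))) (XT.nd (nat_lit 78) (nat_lit 0) (nat_lit 0) (XT.lf (nat_lit 0) (nat_lit 4264263097) (nat_lit 380) (nat_lit 13405890952) (nat_lit 456) (nat_lit 9953639284) (nat_lit 110) (nat_lit 5) (nat_lit 115) (nat_lit 5) (nat_lit 116) (nat_lit 5) (nat_lit 347) (nat_lit 291) (nat_lit 142)) (XT.lf (nat_lit 0) (nat_lit 23364942201) (nat_lit 380) (nat_lit 1159771057) (nat_lit 456) (nat_lit 3666498528) (nat_lit 110) (nat_lit 5) (nat_lit 115) (nat_lit 5) (nat_lit 116) (nat_lit 5) (nat_lit 348) (nat_lit 291) (nat_lit 141)))))) (XT.nd (nat_lit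 36192) (nat_lit 0) (nat_lit 20824) (XT.nd (nat_lit 234) (nat_lit 684) (nat_lit 0) (XT.nd (nat_lit 78) (nat_lit 380) (nat_lit 0) (XT.lf (nat_lit 0) (nat_lit 2932154318) (nat_lit 380) (nat_lit 14427674839) (nat_lit 76) (nat_lit 11412269738) (nat_lit 105) (nat_lit 5) (nat_lit 110) (nat_lit 5) (nat_lit 106) (nat_lit 5) (nat_lit 349) (nat_lit 291) (nat_lit 140)) (XT.nd (nat_lit 78) (nat_lit 0) (nat_lit 0) (XT.lf (nat_lit 0) (nat_lit 4804234819) (nat_lit 380) (nat_lit 4938055773) (nat_lit 456) (nat_lit 19626376131) (nat_lit 100) (nat_lit 5) (nat_lit 105) (nat_lit 5) (nat_lit 106) (nat_lit 5) (nat_lit 350) (nat_lit 291) (nat_lit 139)) (XT.lf (nat_lit 0) (nat_lit 16897486856) (nat_lit 456) (nat_lit 5235011094) (nat_lit 76) (nat_lit 7847823918) (nat_lit 100) (nat_lit 5) (nat_lit 106) (nat_lit 5) (nat_lit 101) (nat_lit 5) (nat_lit 351) (nat_lit 291) (nat_lit 138)))) (XT.nd (nat_lit 78) (nat_lit 380) (nat_lit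 0) (XT.lf (nat_lit 0) (nat_lit 14823282629) (nat_lit 304) (nat_lit 9564907549) (nat_lit 380) (nat_lit 6219724709) (nat_lit 96) (nat_lit 5) (nat_lit 100) (nat_lit 5) (nat_lit 101) (nat_lit 5) (nat_lit 352) (nat_lit 291) (nat_lit 137)) (XT.nd (nat_lit 78) (nat_lit 0) (nat_lit 0) (XT.lf (nat_lit 0) (nat_lit 916097878) (nat_lit 380) (nat_lit 26935276434) (nat_lit 76) (nat_lit 3401296945) (nat_lit 91) (nat_lit 5) (nat_lit 96) (nat_lit 5) (nat_lit 92) (nat_lit 5) (nat_lit 353) (nat_lit 291) (nat_lit 136)) (XT.lf (nat_lit 0) (nat_lit 8345439400) (nat_lit 380) (nat_lit 6794606308) (nat_lit 76) (nat_lit 16772628286) (nat_lit 91) (nat_lit 5) (nat_lit 96) (nat_lit 5) (nat_lit 92) (nat_lit 5) (nat_lit 354) (nat_lit 291) (nat_lit 135))))) (XT.nd (nat_lit 234) (nat_lit 1368) (nat_lit 0) (XT.nd (nat_lit 78) (nat_lit 0) (nat_lit 0) (XT.lf (nat_lit 0) (nat_lit 3106126245) (nat_lit 1596) (nat_lit 1182413935) (nat_lit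 1596) (nat_lit 1182413935) (nat_lit 383) (nat_lit 3) (nat_lit 404) (nat_lit 3) (nat_lit 404) (nat_lit 5) (nat_lit 292) (nat_lit 292) (nat_lit 196)) (XT.nd (nat_lit 78) (nat_lit 0) (nat_lit 76) (XT.lf (nat_lit 76) (nat_lit 4979492019) (nat_lit 0) (nat_lit 2168019302) (nat_lit 1596) (nat_lit 3940801191) (nat_lit 384) (nat_lit 5) (nat_lit 383) (nat_lit 3) (nat_lit 404) (nat_lit 5) (nat_lit 293) (nat_lit 292) (nat_lit 195)) (XT.lf (nat_lit 76) (nat_lit 1308882261) (nat_lit 0) (nat_lit 6823750245) (nat_lit 1596) (nat_lit 3106074778) (nat_lit 385) (nat_lit 5) (nat_lit 384) (nat_lit 5) (nat_lit 405) (nat_lit 5) (nat_lit 294) (nat_lit 292) (nat_lit 194)))) (XT.nd (nat_lit 156) (nat_lit 1444) (nat_lit 0) (XT.nd (nat_lit 78) (nat_lit 0) (nat_lit 76) (XT.lf (nat_lit 76) (nat_lit 9001204072) (nat_lit 0) (nat_lit 171104475) (nat_lit 1596) (nat_lit 2220838778) (nat_lit 385) (nat_lit 5) (nat_lit 384) (nat_lit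 5) (nat_lit 405) (nat_lit 5) (nat_lit 295) (nat_lit 292) (nat_lit 193)) (XT.lf (nat_lit 76) (nat_lit 5382218118) (nat_lit 0) (nat_lit 4909467741) (nat_lit 1596) (nat_lit 1259596966) (nat_lit 386) (nat_lit 5) (nat_lit 385) (nat_lit 5) (nat_lit 406) (nat_lit 5) (nat_lit 296) (nat_lit 292) (nat_lit 192))) (XT.nd (nat_lit 78) (nat_lit 1596) (nat_lit 0) (XT.lf (nat_lit 76) (nat_lit 1699456308) (nat_lit 0) (nat_lit 9757314580) (nat_lit 1596) (nat_lit 257180505) (nat_lit 387) (nat_lit 5) (nat_lit 386) (nat_lit 5) (nat_lit 407) (nat_lit 5) (nat_lit 297) (nat_lit 292) (nat_lit 191)) (XT.lf (nat_lit 0) (nat_lit 811593988) (nat_lit 1596) (nat_lit 2047937533) (nat_lit 1672) (nat_lit 9020968756) (nat_lit 365) (nat_lit 5) (nat_lit 386) (nat_lit 5) (nat_lit 387) (nat_lit 5) (nat_lit 298) (nat_lit 292) (nat_lit 190))))))))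
noncomputable def xc102 : XT := (XT.nd (nat_lit 2028) (nat_lit 9196) (nat_lit 0) (XT.nd (nat_lit 1014) (nat_lit 7752) (nat_lit 0) (XT.nd (nat_lit 468) (nat_lit 2888) (nat_lit 0) (XT.nd (nat_lit 234) (nat_lit 0) (nat_lit 152) (XT.nd (nat_lit 78) (nat_lit 0) (nat_lit 0) (XT.lf (nat_lit 0) (nat_lit 1949624798) (nat_lit 1596) (nat_lit 5859311103) (nat_lit 1672) (nat_lit 4242291123) (nat_lit 366) (nat_lit 5) (nat_lit 387) (nat_lit 5) (nat_lit 388) (nat_lit 5) (nat_lit 299) (nat_lit 292) (nat_lit 189)) (XT.nd (nat_lit 78) (nat_lit 0) (nat_lit 76) (XT.lf (nat_lit 76) (nat_lit 2476008175) (nat_lit 0) (nat_lit 668088383) (nat_lit 1672) (nat_lit 9082561304) (nat_lit 367) (nat_lit 5) (nat_lit 366) (nat_lit 5) (nat_lit 388) (nat_lit 5) (nat_lit 300) (nat_lit 292) (nat_lit 188)) (XT.lf (nat_lit 0) (nat_lit 4431647850) (nat_lit 1596) (nat_lit 1326423257) (nat_lit 1672) (nat_lit 6648163077) (nat_lit 367) (nat_lit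 5) (nat_lit 388) (nat_lit 5) (nat_lit 389) (nat_lit 5) (nat_lit 301) (nat_lit 292) (nat_lit 187)))) (XT.nd (nat_lit 78) (nat_lit 0) (nat_lit 0) (XT.lf (nat_lit 0) (nat_lit 5795787055) (nat_lit 1596) (nat_lit 5175134005) (nat_lit 1672) (nat_lit 1619544172) (nat_lit 368) (nat_lit 5) (nat_lit 389) (nat_lit 5) (nat_lit 390) (nat_lit 5) (nat_lit 302) (nat_lit 292) (nat_lit 186)) (XT.nd (nat_lit 78) (nat_lit 0) (nat_lit 76) (XT.lf (nat_lit 76) (nat_lit 3649194562) (nat_lit 0) (nat_lit 3598205639) (nat_lit 1672) (nat_lit 5531917906) (nat_lit 369) (nat_lit 5) (nat_lit 368) (nat_lit 5) (nat_lit 390) (nat_lit 5) (nat_lit 303) (nat_lit 292) (nat_lit 185)) (XT.lf (nat_lit 0) (nat_lit 8779758782) (nat_lit 1596) (nat_lit 208035781) (nat_lit 1672) (nat_lit 3985323198) (nat_lit 369) (nat_lit 5) (nat_lit 390) (nat_lit 5) (nat_lit 391) (nat_lit 5) (nat_lit 304) (nat_lit 292) (nat_lit 184))))) (XT.nd (nat_lit 234)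 (nat_lit 1596) (nat_lit 0) (XT.nd (nat_lit 78) (nat_lit 1520) (nat_lit 0) (XT.lf (nat_lit 76) (nat_lit 9059166652) (nat_lit 0) (nat_lit 1358456537) (nat_lit 1672) (nat_lit 2753941919) (nat_lit 370) (nat_lit 5) (nat_lit 369) (nat_lit 5) (nat_lit 391) (nat_lit 5) (nat_lit 305) (nat_lit 292) (nat_lit 183)) (XT.nd (nat_lit 78) (nat_lit 1596) (nat_lit 0) (XT.lf (nat_lit 76) (nat_lit 5240278456) (nat_lit 0) (nat_lit 6919249289) (nat_lit 1672) (nat_lit 1215363738) (nat_lit 371) (nat_lit 5) (nat_lit 370) (nat_lit 5) (nat_lit 392) (nat_lit 5) (nat_lit 306) (nat_lit 292) (nat_lit 182)) (XT.lf (nat_lit 0) (nat_lit 394112933) (nat_lit 1672) (nat_lit 12255637632) (nat_lit 1748) (nat_lit 933949959) (nat_lit 349) (nat_lit 5) (nat_lit 371) (nat_lit 5) (nat_lit 372) (nat_lit 5) (nat_lit 307) (nat_lit 292) (nat_lit 181)))) (XT.nd (nat_lit 156) (nat_lit 1596) (nat_lit 0) (XT.nd (nat_lit 78) (nat_lit 0) (nat_lit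 76) (XT.lf (nat_lit 0) (nat_lit 2115425982) (nat_lit 1672) (nat_lit 2684240891) (nat_lit 1748) (nat_lit 8997366905) (nat_lit 349) (nat_lit 5) (nat_lit 371) (nat_lit 5) (nat_lit 372) (nat_lit 5) (nat_lit 308) (nat_lit 292) (nat_lit 180)) (XT.lf (nat_lit 0) (nat_lit 3935980555) (nat_lit 1672) (nat_lit 6785784133) (nat_lit 76) (nat_lit 3294071556) (nat_lit 350) (nat_lit 5) (nat_lit 372) (nat_lit 5) (nat_lit 351) (nat_lit 5) (nat_lit 309) (nat_lit 292) (nat_lit 179))) (XT.nd (nat_lit 78) (nat_lit 0) (nat_lit 0) (XT.lf (nat_lit 0) (nat_lit 3230394881) (nat_lit 1672) (nat_lit 2631512592) (nat_lit 1748) (nat_lit 8378300834) (nat_lit 328) (nat_lit 5) (nat_lit 350) (nat_lit 5) (nat_lit 351) (nat_lit 5) (nat_lit 310) (nat_lit 292) (nat_lit 178)) (XT.lf (nat_lit 0) (nat_lit 7908800325) (nat_lit 1748) (nat_lit 885360758) (nat_lit 76) (nat_lit 5675906722) (nat_lit 328) (nat_lit 5) (nat_lit 351) (nat_lit 5)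 (nat_lit 329) (nat_lit 5) (nat_lit 311) (nat_lit 292) (nat_lit 177)))))) (XT.nd (nat_lit 468) (nat_lit 3496) (nat_lit 0) (XT.nd (nat_lit 234) (nat_lit 1596) (nat_lit 0) (XT.nd (nat_lit 78) (nat_lit 1672) (nat_lit 0) (XT.lf (nat_lit 0) (nat_lit 9634507116) (nat_lit 988) (nat_lit 443213880) (nat_lit 1064) (nat_lit 4627909125) (nat_lit 315) (nat_lit 5) (nat_lit 328) (nat_lit 5) (nat_lit 329) (nat_lit 5) (nat_lit 312) (nat_lit 292) (nat_lit 176)) (XT.nd (nat_lit 78) (nat_lit 836) (nat_lit 0) (XT.lf (nat_lit 0) (nat_lit 5536335593) (nat_lit 836) (nat_lit 6851271155) (nat_lit 912) (nat_lit 2559153495) (nat_lit 304) (nat_lit 5) (nat_lit 315) (nat_lit 5) (nat_lit 316) (nat_lit 5) (nat_lit 313) (nat_lit 292) (nat_lit 175)) (XT.lf (nat_lit 0) (nat_lit 1322866296) (nat_lit 836) (nat_lit 13482414976) (nat_lit 912) (nat_lit 389091488) (nat_lit 293) (nat_lit 5) (nat_lit 304) (nat_lit 5) (nat_lit 305) (nat_lit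 5) (nat_lit 314) (nat_lit 292) (nat_lit 174)))) (XT.nd (nat_lit 78) (nat_lit 1520) (nat_lit 0) (XT.lf (nat_lit 0) (nat_lit 1913561488) (nat_lit 912) (nat_lit 3016714749) (nat_lit 76) (nat_lit 10517081137) (nat_lit 292) (nat_lit 5) (nat_lit 304) (nat_lit 5) (nat_lit 293) (nat_lit 5) (nat_lit 315) (nat_lit 292) (nat_lit 173)) (XT.nd (nat_lit 78) (nat_lit 760) (nat_lit 0) (XT.lf (nat_lit 0) (nat_lit 4341404639) (nat_lit 836) (nat_lit 7480201378) (nat_lit 76) (nat_lit 3885063081) (nat_lit 282) (nat_lit 5) (nat_lit 293) (nat_lit 5) (nat_lit 283) (nat_lit 5) (nat_lit 316) (nat_lit 292) (nat_lit 172)) (XT.lf (nat_lit 0) (nat_lit 3875701848) (nat_lit 760) (nat_lit 3027735127) (nat_lit 836) (nat_lit 9069112570) (nat_lit 272) (nat_lit 5) (nat_lit 282) (nat_lit 5) (nat_lit 283) (nat_lit 5) (nat_lit 317) (nat_lit 292) (nat_lit 171))))) (XT.nd (nat_lit 234) (nat_lit 2052) (nat_lit 0) (XT.nd (nat_lit 78) (nat_lit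 1444) (nat_lit 0) (XT.lf (nat_lit 0) (nat_lit 9615546034) (nat_lit 836) (nat_lit 627199338) (nat_lit 76) (nat_lit 6002212691) (nat_lit 272) (nat_lit 5) (nat_lit 283) (nat_lit 5) (nat_lit 273) (nat_lit 5) (nat_lit 318) (nat_lit 292) (nat_lit 170)) (XT.nd (nat_lit 78) (nat_lit 760) (nat_lit 0) (XT.lf (nat_lit 0) (nat_lit 11297967567) (nat_lit 684) (nat_lit 1188187856) (nat_lit 760) (nat_lit 4037856179) (nat_lit 263) (nat_lit 5) (nat_lit 272) (nat_lit 5) (nat_lit 273) (nat_lit 5) (nat_lit 319) (nat_lit 292) (nat_lit 169)) (XT.lf (nat_lit 0) (nat_lit 6797846160) (nat_lit 760) (nat_lit 8730197264) (nat_lit 836) (nat_lit 1281705173) (nat_lit 253) (nat_lit 5) (nat_lit 263) (nat_lit 5) (nat_lit 264) (nat_lit 5) (nat_lit 320) (nat_lit 292) (nat_lit 168)))) (XT.nd (nat_lit 156) (nat_lit 1292) (nat_lit 0) (XT.nd (nat_lit 78) (nat_lit 0) (nat_lit 0) (XT.lf (nat_lit 0) (nat_lit 1582046963) (nat_lit 760) (nat_lit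 14962764616) (nat_lit 76) (nat_lit 558151480) (nat_lit 243) (nat_lit 5) (nat_lit 253) (nat_lit 5) (nat_lit 244) (nat_lit 5) (nat_lit 321) (nat_lit 292) (nat_lit 167)) (XT.lf (nat_lit 0) (nat_lit 4625577358) (nat_lit 760) (nat_lit 2693686705) (nat_lit 76) (nat_lit 10083328781) (nat_lit 243) (nat_lit 5) (nat_lit 253) (nat_lit 5) (nat_lit 244) (nat_lit 5) (nat_lit 322) (nat_lit 292) (nat_lit 166))) (XT.nd (nat_lit 78) (nat_lit 608) (nat_lit 0) (XT.lf (nat_lit 0) (nat_lit 7825280193) (nat_lit 760) (nat_lit 7665516574) (nat_lit 76) (nat_lit 2219130934) (nat_lit 234) (nat_lit 5) (nat_lit 244) (nat_lit 5) (nat_lit 235) (nat_lit 5) (nat_lit 323) (nat_lit 292) (nat_lit 165)) (XT.lf (nat_lit 0) (nat_lit 5178120484) (nat_lit 608) (nat_lit 6029078202) (nat_lit 684) (nat_lit 6817572541) (nat_lit 226) (nat_lit 5) (nat_lit 234) (nat_lit 5) (nat_lit 235) (nat_lit 5) (nat_lit 324) (nat_lit 292) (nat_lit 164)))))))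 (XT.nd (nat_lit 1014) (nat_lit 3876) (nat_lit 0) (XT.nd (nat_lit 468) (nat_lit 2812) (nat_lit 0) (XT.nd (nat_lit 234) (nat_lit 1140) (nat_lit 0) (XT.nd (nat_lit 78) (nat_lit 684) (nat_lit 0) (XT.lf (nat_lit 0) (nat_lit 124978764) (nat_lit 684) (nat_lit 14628424794) (nat_lit 760) (nat_lit 3594412655) (nat_lit 217) (nat_lit 5) (nat_lit 226) (nat_lit 5) (nat_lit 227) (nat_lit 5) (nat_lit 325) (nat_lit 292) (nat_lit 163)) (XT.nd (nat_lit 78) (nat_lit 684) (nat_lit 0) (XT.lf (nat_lit 0) (nat_lit 13604852660) (nat_lit 684) (nat_lit 4914164449) (nat_lit 760) (nat_lit 159287350) (nat_lit 217) (nat_lit 5) (nat_lit 226) (nat_lit 5) (nat_lit 227) (nat_lit 5) (nat_lit 326) (nat_lit 292) (nat_lit 162)) (XT.lf (nat_lit 0) (nat_lit 3409837964) (nat_lit 684) (nat_lit 10506087375) (nat_lit 76) (nat_lit 5100849800) (nat_lit 208) (nat_lit 5) (nat_lit 217) (nat_lit 5) (nat_lit 209) (nat_lit 5) (nat_lit 327) (nat_lit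 292) (nat_lit 161)))) (XT.nd (nat_lit 78) (nat_lit 532) (nat_lit 0) (XT.lf (nat_lit 0) (nat_lit 3199244519) (nat_lit 608) (nat_lit 3959395195) (nat_lit 684) (nat_lit 12205255254) (nat_lit 200) (nat_lit 5) (nat_lit 208) (nat_lit 5) (nat_lit 209) (nat_lit 5) (nat_lit 328) (nat_lit 292) (nat_lit 160)) (XT.nd (nat_lit 78) (nat_lit 532) (nat_lit 0) (XT.lf (nat_lit 0) (nat_lit 11119237561) (nat_lit 684) (nat_lit 2317457726) (nat_lit 76) (nat_lit 6282757555) (nat_lit 200) (nat_lit 5) (nat_lit 209) (nat_lit 5) (nat_lit 201) (nat_lit 5) (nat_lit 329) (nat_lit 292) (nat_lit 159)) (XT.lf (nat_lit 0) (nat_lit 12061668987) (nat_lit 532) (nat_lit 3228950953) (nat_lit 608) (nat_lit 4793228947) (nat_lit 193) (nat_lit 5) (nat_lit 200) (nat_lit 5) (nat_lit 201) (nat_lit 5) (nat_lit 330) (nat_lit 292) (nat_lit 158))))) (XT.nd (nat_lit 234) (nat_lit 1596) (nat_lit 0) (XT.nd (nat_lit 78) (nat_lit 608) (nat_lit 0)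 (XT.lf (nat_lit 0) (nat_lit 6467250604) (nat_lit 608) (nat_lit 13212426800) (nat_lit 684) (nat_lit 777659191) (nat_lit 185) (nat_lit 5) (nat_lit 193) (nat_lit 5) (nat_lit 194) (nat_lit 5) (nat_lit 331) (nat_lit 292) (nat_lit 157)) (XT.nd (nat_lit 78) (nat_lit 0) (nat_lit 0) (XT.lf (nat_lit 0) (nat_lit 609342690) (nat_lit 532) (nat_lit 2772874073) (nat_lit 608) (nat_lit 17458028329) (nat_lit 177) (nat_lit 5) (nat_lit 184) (nat_lit 5) (nat_lit 185) (nat_lit 5) (nat_lit 332) (nat_lit 292) (nat_lit 156)) (XT.lf (nat_lit 0) (nat_lit 7791484120) (nat_lit 608) (nat_lit 5467241773) (nat_lit 76) (nat_lit 7973118595) (nat_lit 177) (nat_lit 5) (nat_lit 185) (nat_lit 5) (nat_lit 178) (nat_lit 5) (nat_lit 333) (nat_lit 292) (nat_lit 155)))) (XT.nd (nat_lit 156) (nat_lit 608) (nat_lit 0) (XT.nd (nat_lit 78) (nat_lit 456) (nat_lit 0) (XT.lf (nat_lit 0) (nat_lit 9835103769) (nat_lit 532) (nat_lit 2568539352)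 (nat_lit 608) (nat_lit 9230145853) (nat_lit 170) (nat_lit 5) (nat_lit 177) (nat_lit 5) (nat_lit 178) (nat_lit 5) (nat_lit 334) (nat_lit 292) (nat_lit 154)) (XT.lf (nat_lit 0) (nat_lit 3601831639) (nat_lit 456) (nat_lit 13656272128) (nat_lit 532) (nat_lit 4787618395) (nat_lit 164) (nat_lit 5) (nat_lit 170) (nat_lit 5) (nat_lit 171) (nat_lit 5) (nat_lit 335) (nat_lit 292) (nat_lit 153))) (XT.nd (nat_lit 78) (nat_lit 608) (nat_lit 0) (XT.lf (nat_lit 0) (nat_lit 19594045124) (nat_lit 456) (nat_lit 2749856571) (nat_lit 532) (nat_lit 124406421) (nat_lit 164) (nat_lit 5) (nat_lit 170) (nat_lit 5) (nat_lit 171) (nat_lit 5) (nat_lit 336) (nat_lit 292) (nat_lit 152)) (XT.lf (nat_lit 0) (nat_lit 4748413004) (nat_lit 608) (nat_lit 9665047584) (nat_lit 76) (nat_lit 8486890471) (nat_lit 156) (nat_lit 5) (nat_lit 164) (nat_lit 5) (nat_lit 157) (nat_lit 5) (nat_lit 337) (nat_lit 292) (nat_lit 151)))))) (XT.nd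 (nat_lit 468) (nat_lit 1976) (nat_lit 0) (XT.nd (nat_lit 234) (nat_lit 988) (nat_lit 0) (XT.nd (nat_lit 78) (nat_lit 456) (nat_lit 0) (XT.lf (nat_lit 0) (nat_lit 6575293634) (nat_lit 456) (nat_lit 3260277358) (nat_lit 532) (nat_lit 13508379136) (nat_lit 150) (nat_lit 5) (nat_lit 156) (nat_lit 5) (nat_lit 157) (nat_lit 5) (nat_lit 338) (nat_lit 292) (nat_lit 150)) (XT.nd (nat_lit 78) (nat_lit 456) (nat_lit 0) (XT.lf (nat_lit 0) (nat_lit 15184041834) (nat_lit 532) (nat_lit 432354293) (nat_lit 76) (nat_lit 8182295012) (nat_lit 150) (nat_lit 5) (nat_lit 157) (nat_lit 5) (nat_lit 151) (nat_lit 5) (nat_lit 339) (nat_lit 292) (nat_lit 149)) (XT.lf (nat_lit 0) (nat_lit 16575944479) (nat_lit 456) (nat_lit 4236109958) (nat_lit 532) (nat_lit 3452645891) (nat_lit 144) (nat_lit 5) (nat_lit 150) (nat_lit 5) (nat_lit 151) (nat_lit 5) (nat_lit 340) (nat_lit 292) (nat_lit 148)))) (XT.nd (nat_lit 78) (nat_lit 456)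 (nat_lit 0) (XT.lf (nat_lit 0) (nat_lit 1942986527) (nat_lit 532) (nat_lit 15338417262) (nat_lit 76) (nat_lit 7460986891) (nat_lit 137) (nat_lit 5) (nat_lit 144) (nat_lit 5) (nat_lit 138) (nat_lit 5) (nat_lit 341) (nat_lit 292) (nat_lit 147)) (XT.nd (nat_lit 78) (nat_lit 0) (nat_lit 0) (XT.lf (nat_lit 0) (nat_lit 1840159679) (nat_lit 456) (nat_lit 5696400462) (nat_lit 532) (nat_lit 17695742675) (nat_lit 131) (nat_lit 5) (nat_lit 137) (nat_lit 5) (nat_lit 138) (nat_lit 5) (nat_lit 342) (nat_lit 292) (nat_lit 146)) (XT.lf (nat_lit 0) (nat_lit 13433228341) (nat_lit 532) (nat_lit 6045493283) (nat_lit 76) (nat_lit 6255491854) (nat_lit 131) (nat_lit 5) (nat_lit 138) (nat_lit 5) (nat_lit 132) (nat_lit 5) (nat_lit 343) (nat_lit 292) (nat_lit 145))))) (XT.nd (nat_lit 234) (nat_lit 1140) (nat_lit 0) (XT.nd (nat_lit 78) (nat_lit 456) (nat_lit 0) (XT.lf (nat_lit 0) (nat_lit 11926746477) (nat_lit 380) (nat_lit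 7686038914) (nat_lit 456) (nat_lit 6636283000) (nat_lit 126) (nat_lit 5) (nat_lit 131) (nat_lit 5) (nat_lit 132) (nat_lit 5) (nat_lit 344) (nat_lit 292) (nat_lit 144)) (XT.nd (nat_lit 78) (nat_lit 76) (nat_lit 0) (XT.lf (nat_lit 0) (nat_lit 3749201803) (nat_lit 380) (nat_lit 22313696056) (nat_lit 456) (nat_lit 714774231) (nat_lit 121) (nat_lit 5) (nat_lit 126) (nat_lit 5) (nat_lit 127) (nat_lit 5) (nat_lit 345) (nat_lit 292) (nat_lit 143)) (XT.lf (nat_lit 0) (nat_lit 5453609110) (nat_lit 456) (nat_lit 4861287525) (nat_lit 76) (nat_lit 17003747356) (nat_lit 120) (nat_lit 5) (nat_lit 126) (nat_lit 5) (nat_lit 121) (nat_lit 5) (nat_lit 346) (nat_lit 292) (nat_lit 142)))) (XT.nd (nat_lit 156) (nat_lit 380) (nat_lit 0) (XT.nd (nat_lit 78) (nat_lit 380) (nat_lit 0) (XT.lf (nat_lit 0) (nat_lit 11893299533) (nat_lit 456) (nat_lit 13870656550) (nat_lit 76) (nat_lit 2109881161) (nat_lit 115) (nat_lit 5)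 (nat_lit 121) (nat_lit 5) (nat_lit 116) (nat_lit 5) (nat_lit 347) (nat_lit 292) (nat_lit 141)) (XT.lf (nat_lit 0) (nat_lit 5039407007) (nat_lit 380) (nat_lit 13612810741) (nat_lit 456) (nat_lit 9790953648) (nat_lit 110) (nat_lit 5) (nat_lit 115) (nat_lit 5) (nat_lit 116) (nat_lit 5) (nat_lit 348) (nat_lit 292) (nat_lit 140))) (XT.nd (nat_lit 78) (nat_lit 380) (nat_lit 0) (XT.lf (nat_lit 0) (nat_lit 24694255532) (nat_lit 380) (nat_lit 1004994344) (nat_lit 456) (nat_lit 3328634440) (nat_lit 110) (nat_lit 5) (nat_lit 115) (nat_lit 5) (nat_lit 116) (nat_lit 5) (nat_lit 349) (nat_lit 292) (nat_lit 139)) (XT.lf (nat_lit 0) (nat_lit 3454524276) (nat_lit 380) (nat_lit 14228581497) (nat_lit 76) (nat_lit 11943193930) (nat_lit 105) (nat_lit 5) (nat_lit 110) (nat_lit 5) (nat_lit 106) (nat_lit 5) (nat_lit 350) (nat_lit 292) (nat_lit 138))))))))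
noncomputable def xc103 : XT := (XT.nd (nat_lit 37830) (nat_lit 0) (nat_lit 4028) (XT.nd (nat_lit 36816) (nat_lit 0) (nat_lit 16188) (XT.nd (nat_lit 36270) (nat_lit 0) (nat_lit 20748) (XT.nd (nat_lit 234) (nat_lit 380) (nat_lit 0) (XT.nd (nat_lit 78) (nat_lit 304) (nat_lit 0) (XT.lf (nat_lit 0) (nat_lit 5570033241) (nat_lit 380) (nat_lit 4890315119) (nat_lit 456) (nat_lit 19780596516) (nat_lit 100) (nat_lit 5) (nat_lit 105) (nat_lit 5) (nat_lit 106) (nat_lit 5) (nat_lit 351) (nat_lit 292) (nat_lit 137)) (XT.nd (nat_lit 78) (nat_lit 304) (nat_lit 0) (XT.lf (nat_lit 0) (nat_lit 17819033643) (nat_lit 456) (nat_lit 4781205670) (nat_lit 76) (nat_lit 8270941448) (nat_lit 100) (nat_lit 5) (nat_lit 106) (nat_lit 5) (nat_lit 101) (nat_lit 5) (nat_lit 352) (nat_lit 292) (nat_lit 136)) (XT.lf (nat_lit 0) (nat_lit 15868926456) (nat_lit 304) (nat_lit 9657356971) (nat_lit 380) (nat_lit 5991489161) (nat_lit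 96) (nat_lit 5) (nat_lit 100) (nat_lit 5) (nat_lit 101) (nat_lit 5) (nat_lit 353) (nat_lit 292) (nat_lit 135)))) (XT.nd (nat_lit 35880) (nat_lit 0) (nat_lit 22192) (XT.lf (nat_lit 0) (nat_lit 1346187445) (nat_lit 380) (nat_lit 27139548382) (nat_lit 76) (nat_lit 3696224717) (nat_lit 91) (nat_lit 5) (nat_lit 96) (nat_lit 5) (nat_lit 92) (nat_lit 5) (nat_lit 354) (nat_lit 292) (nat_lit 134)) (XT.nd (nat_lit 78) (nat_lit 0) (nat_lit 0) (XT.lf (nat_lit 0) (nat_lit 4001271148) (nat_lit 1596) (nat_lit 808449006) (nat_lit 1596) (nat_lit 808449006) (nat_lit 383) (nat_lit 3) (nat_lit 404) (nat_lit 3) (nat_lit 404) (nat_lit 5) (nat_lit 293) (nat_lit 293) (nat_lit 194)) (XT.lf (nat_lit 76) (nat_lit 5934466205) (nat_lit 0) (nat_lit 2989906926) (nat_lit 1596) (nat_lit 2463642247) (nat_lit 384) (nat_lit 5) (nat_lit 383) (nat_lit 3) (nat_lit 404) (nat_lit 5) (nat_lit 294) (nat_lit 293) (nat_lit 193))))) (XT.nd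 (nat_lit 234) (nat_lit 0) (nat_lit 76) (XT.nd (nat_lit 78) (nat_lit 1520) (nat_lit 0) (XT.lf (nat_lit 76) (nat_lit 2177914644) (nat_lit 0) (nat_lit 7716242012) (nat_lit 1596) (nat_lit 1649712613) (nat_lit 385) (nat_lit 5) (nat_lit 384) (nat_lit 5) (nat_lit 405) (nat_lit 5) (nat_lit 295) (nat_lit 293) (nat_lit 192)) (XT.nd (nat_lit 78) (nat_lit 1520) (nat_lit 0) (XT.lf (nat_lit 76) (nat_lit 10076838170) (nat_lit 0) (nat_lit 843984464) (nat_lit 1596) (nat_lit 783051894) (nat_lit 385) (nat_lit 5) (nat_lit 384) (nat_lit 5) (nat_lit 405) (nat_lit 5) (nat_lit 296) (nat_lit 293) (nat_lit 191)) (XT.lf (nat_lit 0) (nat_lit 162239090) (nat_lit 1596) (nat_lit 5497662002) (nat_lit 1672) (nat_lit 6207713272) (nat_lit 364) (nat_lit 5) (nat_lit 385) (nat_lit 5) (nat_lit 386) (nat_lit 5) (nat_lit 297) (nat_lit 293) (nat_lit 190)))) (XT.nd (nat_lit 156) (nat_lit 0) (nat_lit 76) (XT.nd (nat_lit 78) (nat_lit 0)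 (nat_lit 0) (XT.lf (nat_lit 0) (nat_lit 1140873870) (nat_lit 1596) (nat_lit 9445606535) (nat_lit 1672) (nat_lit 1449399137) (nat_lit 365) (nat_lit 5) (nat_lit 386) (nat_lit 5) (nat_lit 387) (nat_lit 5) (nat_lit 298) (nat_lit 293) (nat_lit 189)) (XT.lf (nat_lit 0) (nat_lit 2197393879) (nat_lit 1596) (nat_lit 1267042141) (nat_lit 1672) (nat_lit 8743814420) (nat_lit 365) (nat_lit 5) (nat_lit 386) (nat_lit 5) (nat_lit 387) (nat_lit 5) (nat_lit 299) (nat_lit 293) (nat_lit 188))) (XT.nd (nat_lit 78) (nat_lit 0) (nat_lit 0) (XT.lf (nat_lit 0) (nat_lit 3332055267) (nat_lit 1596) (nat_lit 5175248565) (nat_lit 1672) (nat_lit 3877587184) (nat_lit 366) (nat_lit 5) (nat_lit 387) (nat_lit 5) (nat_lit 388) (nat_lit 5) (nat_lit 300) (nat_lit 293) (nat_lit 187)) (XT.lf (nat_lit 76) (nat_lit 3396180378) (nat_lit 0) (nat_lit 1133111484) (nat_lit 1672) (nat_lit 8036994905) (nat_lit 367) (nat_lit 5) (nat_lit 366)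 (nat_lit 5) (nat_lit 388) (nat_lit 5) (nat_lit 301) (nat_lit 293) (nat_lit 186)))))) (XT.nd (nat_lit 468) (nat_lit 4788) (nat_lit 0) (XT.nd (nat_lit 234) (nat_lit 0) (nat_lit 152) (XT.nd (nat_lit 78) (nat_lit 0) (nat_lit 76) (XT.lf (nat_lit 0) (nat_lit 5815066507) (nat_lit 1596) (nat_lit 515777220) (nat_lit 1672) (nat_lit 6421254134) (nat_lit 367) (nat_lit 5) (nat_lit 388) (nat_lit 5) (nat_lit 389) (nat_lit 5) (nat_lit 302) (nat_lit 293) (nat_lit 185)) (XT.nd (nat_lit 78) (nat_lit 0) (nat_lit 0) (XT.lf (nat_lit 0) (nat_lit 7186654845) (nat_lit 1596) (nat_lit 4465595718) (nat_lit 1672) (nat_lit 1290313050) (nat_lit 368) (nat_lit 5) (nat_lit 389) (nat_lit 5) (nat_lit 390) (nat_lit 5) (nat_lit 303) (nat_lit 293) (nat_lit 184)) (XT.lf (nat_lit 76) (nat_lit 4609432478) (nat_lit 0) (nat_lit 4042461186) (nat_lit 1672) (nat_lit 4485824020) (nat_lit 369) (nat_lit 5) (nat_lit 368) (nat_lit 5) (nat_lit 390)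 (nat_lit 5) (nat_lit 304) (nat_lit 293) (nat_lit 183)))) (XT.nd (nat_lit 78) (nat_lit 0) (nat_lit 0) (XT.lf (nat_lit 76) (nat_lit 646557807) (nat_lit 0) (nat_lit 9551168236) (nat_lit 1672) (nat_lit 3140291299) (nat_lit 370) (nat_lit 5) (nat_lit 369) (nat_lit 5) (nat_lit 391) (nat_lit 5) (nat_lit 305) (nat_lit 293) (nat_lit 182)) (XT.nd (nat_lit 78) (nat_lit 0) (nat_lit 76) (XT.lf (nat_lit 76) (nat_lit 10169468146) (nat_lit 0) (nat_lit 1682998510) (nat_lit 1672) (nat_lit 1690631671) (nat_lit 370) (nat_lit 5) (nat_lit 369) (nat_lit 5) (nat_lit 391) (nat_lit 5) (nat_lit 306) (nat_lit 293) (nat_lit 181)) (XT.lf (nat_lit 76) (nat_lit 6247452486) (nat_lit 0) (nat_lit 7370216747) (nat_lit 1672) (nat_lit 135468444) (nat_lit 371) (nat_lit 5) (nat_lit 370) (nat_lit 5) (nat_lit 392) (nat_lit 5) (nat_lit 307) (nat_lit 293) (nat_lit 180))))) (XT.nd (nat_lit 234) (nat_lit 3420) (nat_lit 0) (XT.nd (nat_lit 78)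 (nat_lit 0) (nat_lit 0) (XT.lf (nat_lit 0) (nat_lit 1479641154) (nat_lit 1672) (nat_lit 11747600944) (nat_lit 1748) (nat_lit 741416498) (nat_lit 349) (nat_lit 5) (nat_lit 371) (nat_lit 5) (nat_lit 372) (nat_lit 5) (nat_lit 308) (nat_lit 293) (nat_lit 179)) (XT.nd (nat_lit 78) (nat_lit 0) (nat_lit 76) (XT.lf (nat_lit 0) (nat_lit 3221320638) (nat_lit 1672) (nat_lit 1914568295) (nat_lit 1748) (nat_lit 9053159796) (nat_lit 349) (nat_lit 5) (nat_lit 371) (nat_lit 5) (nat_lit 372) (nat_lit 5) (nat_lit 309) (nat_lit 293) (nat_lit 178)) (XT.lf (nat_lit 0) (nat_lit 5070384477) (nat_lit 1672) (nat_lit 6130408613) (nat_lit 76) (nat_lit 3214174834) (nat_lit 350) (nat_lit 5) (nat_lit 372) (nat_lit 5) (nat_lit 351) (nat_lit 5) (nat_lit 310) (nat_lit 293) (nat_lit 177)))) (XT.nd (nat_lit 156) (nat_lit 1824) (nat_lit 0) (XT.nd (nat_lit 78) (nat_lit 0) (nat_lit 0) (XT.lf (nat_lit 0) (nat_lit 4172320344) (nat_lit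 1672) (nat_lit 2857653563) (nat_lit 1748) (nat_lit 7616609167) (nat_lit 328) (nat_lit 5) (nat_lit 350) (nat_lit 5) (nat_lit 351) (nat_lit 5) (nat_lit 311) (nat_lit 293) (nat_lit 176)) (XT.lf (nat_lit 0) (nat_lit 9108446392) (nat_lit 1748) (nat_lit 70367416) (nat_lit 76) (nat_lit 5705149849) (nat_lit 328) (nat_lit 5) (nat_lit 351) (nat_lit 5) (nat_lit 329) (nat_lit 5) (nat_lit 312) (nat_lit 293) (nat_lit 175))) (XT.nd (nat_lit 78) (nat_lit 836) (nat_lit 0) (XT.lf (nat_lit 0) (nat_lit 10751443278) (nat_lit 988) (nat_lit 568336141) (nat_lit 1064) (nat_lit 3807294447) (nat_lit 315) (nat_lit 5) (nat_lit 328) (nat_lit 5) (nat_lit 329) (nat_lit 5) (nat_lit 313) (nat_lit 293) (nat_lit 174)) (XT.lf (nat_lit 0) (nat_lit 6537014310) (nat_lit 836) (nat_lit 7139290553) (nat_lit 912) (nat_lit 1699613272) (nat_lit 304) (nat_lit 5) (nat_lit 315) (nat_lit 5) (nat_lit 316) (nat_lit 5) (nat_lit 314) (nat_lit 293)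 (nat_lit 173))))))) (XT.nd (nat_lit 1014) (nat_lit 5472) (nat_lit 0) (XT.nd (nat_lit 468) (nat_lit 3572) (nat_lit 0) (XT.nd (nat_lit 234) (nat_lit 1444) (nat_lit 0) (XT.nd (nat_lit 78) (nat_lit 760) (nat_lit 0) (XT.lf (nat_lit 0) (nat_lit 506583021) (nat_lit 912) (nat_lit 13431693350) (nat_lit 76) (nat_lit 1693077789) (nat_lit 292) (nat_lit 5) (nat_lit 304) (nat_lit 5) (nat_lit 293) (nat_lit 5) (nat_lit 315) (nat_lit 293) (nat_lit 172)) (XT.nd (nat_lit 78) (nat_lit 760) (nat_lit 0) (XT.lf (nat_lit 0) (nat_lit 2846784993) (nat_lit 912) (nat_lit 2278714948) (nat_lit 76) (nat_lit 10766926869) (nat_lit 292) (nat_lit 5) (nat_lit 304) (nat_lit 5) (nat_lit 293) (nat_lit 5) (nat_lit 316) (nat_lit 293) (nat_lit 171)) (XT.lf (nat_lit 0) (nat_lit 5326982914) (nat_lit 836) (nat_lit 6871361793) (nat_lit 76) (nat_lit 3961607107) (nat_lit 282) (nat_lit 5) (nat_lit 293) (nat_lit 5) (nat_lit 283) (nat_lit 5) (nat_lit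 317) (nat_lit 293) (nat_lit 170)))) (XT.nd (nat_lit 78) (nat_lit 684) (nat_lit 0) (XT.lf (nat_lit 0) (nat_lit 4811700109) (nat_lit 760) (nat_lit 3134585621) (nat_lit 836) (nat_lit 8487938366) (nat_lit 272) (nat_lit 5) (nat_lit 282) (nat_lit 5) (nat_lit 283) (nat_lit 5) (nat_lit 318) (nat_lit 293) (nat_lit 169)) (XT.nd (nat_lit 78) (nat_lit 0) (nat_lit 0) (XT.lf (nat_lit 0) (nat_lit 169147886) (nat_lit 684) (nat_lit 10547265316) (nat_lit 760) (nat_lit 5998881488) (nat_lit 263) (nat_lit 5) (nat_lit 272) (nat_lit 5) (nat_lit 273) (nat_lit 5) (nat_lit 319) (nat_lit 293) (nat_lit 168)) (XT.lf (nat_lit 0) (nat_lit 12436662331) (nat_lit 684) (nat_lit 1216942695) (nat_lit 760) (nat_lit 3349527782) (nat_lit 263) (nat_lit 5) (nat_lit 272) (nat_lit 5) (nat_lit 273) (nat_lit 5) (nat_lit 320) (nat_lit 293) (nat_lit 167))))) (XT.nd (nat_lit 234) (nat_lit 2052) (nat_lit 0) (XT.nd (nat_lit 78) (nat_lit 760) (nat_lit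 0) (XT.lf (nat_lit 0) (nat_lit 7804848022) (nat_lit 760) (nat_lit 8964065967) (nat_lit 836) (nat_lit 528906242) (nat_lit 253) (nat_lit 5) (nat_lit 263) (nat_lit 5) (nat_lit 264) (nat_lit 5) (nat_lit 321) (nat_lit 293) (nat_lit 166)) (XT.nd (nat_lit 78) (nat_lit 0) (nat_lit 0) (XT.lf (nat_lit 0) (nat_lit 2393081651) (nat_lit 760) (nat_lit 14594998264) (nat_lit 76) (nat_lit 612015021) (nat_lit 243) (nat_lit 5) (nat_lit 253) (nat_lit 5) (nat_lit 244) (nat_lit 5) (nat_lit 322) (nat_lit 293) (nat_lit 165)) (XT.lf (nat_lit 0) (nat_lit 5505677960) (nat_lit 760) (nat_lit 1981633918) (nat_lit 76) (nat_lit 10421866505) (nat_lit 243) (nat_lit 5) (nat_lit 253) (nat_lit 5) (nat_lit 244) (nat_lit 5) (nat_lit 323) (nat_lit 293) (nat_lit 164)))) (XT.nd (nat_lit 156) (nat_lit 760) (nat_lit 0) (XT.nd (nat_lit 78) (nat_lit 608) (nat_lit 0) (XT.lf (nat_lit 0) (nat_lit 8785202288) (nat_lit 760) (nat_lit 7100698009)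 (nat_lit 76) (nat_lit 2340175767) (nat_lit 234) (nat_lit 5) (nat_lit 244) (nat_lit 5) (nat_lit 235) (nat_lit 5) (nat_lit 324) (nat_lit 293) (nat_lit 163)) (XT.lf (nat_lit 0) (nat_lit 6115353734) (nat_lit 608) (nat_lit 6137179876) (nat_lit 684) (nat_lit 6298171001) (nat_lit 226) (nat_lit 5) (nat_lit 234) (nat_lit 5) (nat_lit 235) (nat_lit 5) (nat_lit 325) (nat_lit 293) (nat_lit 162))) (XT.nd (nat_lit 78) (nat_lit 76) (nat_lit 0) (XT.lf (nat_lit 0) (nat_lit 912037205) (nat_lit 684) (nat_lit 14977977949) (nat_lit 760) (nat_lit 2993746255) (nat_lit 217) (nat_lit 5) (nat_lit 226) (nat_lit 5) (nat_lit 227) (nat_lit 5) (nat_lit 326) (nat_lit 293) (nat_lit 161)) (XT.lf (nat_lit 0) (nat_lit 516927230) (nat_lit 760) (nat_lit 4454494668) (nat_lit 76) (nat_lit 14253096406) (nat_lit 216) (nat_lit 5) (nat_lit 226) (nat_lit 5) (nat_lit 217) (nat_lit 5) (nat_lit 327) (nat_lit 293) (nat_lit 160)))))) (XT.nd (nat_lit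 546) (nat_lit 2508) (nat_lit 0) (XT.nd (nat_lit 234) (nat_lit 1748) (nat_lit 0) (XT.nd (nat_lit 78) (nat_lit 608) (nat_lit 0) (XT.lf (nat_lit 0) (nat_lit 4176729121) (nat_lit 684) (nat_lit 10050433576) (nat_lit 76) (nat_lit 5346260897) (nat_lit 208) (nat_lit 5) (nat_lit 217) (nat_lit 5) (nat_lit 209) (nat_lit 5) (nat_lit 328) (nat_lit 293) (nat_lit 159)) (XT.nd (nat_lit 78) (nat_lit 0) (nat_lit 0) (XT.lf (nat_lit 0) (nat_lit 4053552369) (nat_lit 608) (nat_lit 3970008974) (nat_lit 684) (nat_lit 11907700742) (nat_lit 200) (nat_lit 5) (nat_lit 208) (nat_lit 5) (nat_lit 209) (nat_lit 5) (nat_lit 329) (nat_lit 293) (nat_lit 158)) (XT.lf (nat_lit 0) (nat_lit 12084722198) (nat_lit 684) (nat_lit 1638265003) (nat_lit 76) (nat_lit 6574880509) (nat_lit 200) (nat_lit 5) (nat_lit 209) (nat_lit 5) (nat_lit 201) (nat_lit 5) (nat_lit 330) (nat_lit 293) (nat_lit 157)))) (XT.nd (nat_lit 156) (nat_lit 608) (nat_lit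 0) (XT.nd (nat_lit 78) (nat_lit 608) (nat_lit 0) (XT.lf (nat_lit 0) (nat_lit 13160088477) (nat_lit 532) (nat_lit 3207534796) (nat_lit 608) (nat_lit 4305860272) (nat_lit 193) (nat_lit 5) (nat_lit 200) (nat_lit 5) (nat_lit 201) (nat_lit 5) (nat_lit 331) (nat_lit 293) (nat_lit 156)) (XT.lf (nat_lit 0) (nat_lit 7397803888) (nat_lit 608) (nat_lit 13478067973) (nat_lit 684) (nat_lit 182568639) (nat_lit 185) (nat_lit 5) (nat_lit 193) (nat_lit 5) (nat_lit 194) (nat_lit 5) (nat_lit 332) (nat_lit 293) (nat_lit 155))) (XT.nd (nat_lit 78) (nat_lit 0) (nat_lit 0) (XT.lf (nat_lit 0) (nat_lit 1360670776) (nat_lit 532) (nat_lit 2720305548) (nat_lit 608) (nat_lit 17372054236) (nat_lit 177) (nat_lit 5) (nat_lit 184) (nat_lit 5) (nat_lit 185) (nat_lit 5) (nat_lit 333) (nat_lit 293) (nat_lit 154)) (XT.lf (nat_lit 0) (nat_lit 8605980554) (nat_lit 608) (nat_lit 4908357784) (nat_lit 76) (nat_lit 8342384289) (nat_lit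 177) (nat_lit 5) (nat_lit 185) (nat_lit 5) (nat_lit 178) (nat_lit 5) (nat_lit 334) (nat_lit 293) (nat_lit 153))))) (XT.nd (nat_lit 234) (nat_lit 1444) (nat_lit 0) (XT.nd (nat_lit 78) (nat_lit 532) (nat_lit 0) (XT.lf (nat_lit 0) (nat_lit 10841329911) (nat_lit 532) (nat_lit 2502876717) (nat_lit 608) (nat_lit 8926778233) (nat_lit 170) (nat_lit 5) (nat_lit 177) (nat_lit 5) (nat_lit 178) (nat_lit 5) (nat_lit 335) (nat_lit 293) (nat_lit 152)) (XT.nd (nat_lit 78) (nat_lit 76) (nat_lit 0) (XT.lf (nat_lit 0) (nat_lit 4420236140) (nat_lit 456) (nat_lit 13913019730) (nat_lit 532) (nat_lit 4362254147) (nat_lit 164) (nat_lit 5) (nat_lit 170) (nat_lit 5) (nat_lit 171) (nat_lit 5) (nat_lit 336) (nat_lit 293) (nat_lit 151)) (XT.lf (nat_lit 0) (nat_lit 418717050) (nat_lit 532) (nat_lit 2262339424) (nat_lit 76) (nat_lit 20449999375) (nat_lit 163) (nat_lit 5) (nat_lit 170) (nat_lit 5) (nat_lit 164) (nat_lit 5) (nat_lit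 337) (nat_lit 293) (nat_lit 150)))) (XT.nd (nat_lit 156) (nat_lit 456) (nat_lit 0) (XT.nd (nat_lit 78) (nat_lit 456) (nat_lit 0) (XT.lf (nat_lit 0) (nat_lit 5425604166) (nat_lit 608) (nat_lit 9258903666) (nat_lit 76) (nat_lit 8891756411) (nat_lit 156) (nat_lit 5) (nat_lit 164) (nat_lit 5) (nat_lit 157) (nat_lit 5) (nat_lit 338) (nat_lit 293) (nat_lit 149)) (XT.lf (nat_lit 0) (nat_lit 7457354468) (nat_lit 456) (nat_lit 3196893700) (nat_lit 532) (nat_lit 13379157418) (nat_lit 150) (nat_lit 5) (nat_lit 156) (nat_lit 5) (nat_lit 157) (nat_lit 5) (nat_lit 339) (nat_lit 293) (nat_lit 148))) (XT.nd (nat_lit 78) (nat_lit 0) (nat_lit 0) (XT.lf (nat_lit 0) (nat_lit 232106089) (nat_lit 456) (nat_lit 15918339336) (nat_lit 532) (nat_lit 8351609339) (nat_lit 144) (nat_lit 5) (nat_lit 150) (nat_lit 5) (nat_lit 151) (nat_lit 5) (nat_lit 340) (nat_lit 293) (nat_lit 147)) (XT.lf (nat_lit 0) (nat_lit 17736668586)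 (nat_lit 456) (nat_lit 4198594190) (nat_lit 532) (nat_lit 3047033219) (nat_lit 144) (nat_lit 5) (nat_lit 150) (nat_lit 5) (nat_lit 151) (nat_lit 5) (nat_lit 341) (nat_lit 293) (nat_lit 146))))))))
noncomputable def xc104 : XT := (XT.nd (nat_lit 37908) (nat_lit 0) (nat_lit 7372) (XT.nd (nat_lit 36894) (nat_lit 0) (nat_lit 20292) (XT.nd (nat_lit 468) (nat_lit 1824) (nat_lit 0) (XT.nd (nat_lit 234) (nat_lit 836) (nat_lit 0) (XT.nd (nat_lit 78) (nat_lit 456) (nat_lit 0) (XT.lf (nat_lit 0) (nat_lit 2494523485) (nat_lit 532) (nat_lit 15129855809) (nat_lit 76) (nat_lit 7850067494) (nat_lit 137) (nat_lit 5) (nat_lit 144) (nat_lit 5) (nat_lit 138) (nat_lit 5) (nat_lit 342) (nat_lit 293) (nat_lit 145)) (XT.nd (nat_lit 78) (nat_lit 0) (nat_lit 0) (XT.lf (nat_lit 0) (nat_lit 2553229350) (nat_lit 456) (nat_lit 5692579824) (nat_lit 532) (nat_lit 17733459230) (nat_lit 131) (nat_lit 5) (nat_lit 137) (nat_lit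 5) (nat_lit 138) (nat_lit 5) (nat_lit 343) (nat_lit 293) (nat_lit 144)) (XT.lf (nat_lit 0) (nat_lit 14306406336) (nat_lit 532) (nat_lit 5579543492) (nat_lit 76) (nat_lit 6610555895) (nat_lit 131) (nat_lit 5) (nat_lit 138) (nat_lit 5) (nat_lit 132) (nat_lit 5) (nat_lit 344) (nat_lit 293) (nat_lit 143)))) (XT.nd (nat_lit 78) (nat_lit 456) (nat_lit 0) (XT.lf (nat_lit 0) (nat_lit 12921361551) (nat_lit 380) (nat_lit 7740428561) (nat_lit 456) (nat_lit 6365217000) (nat_lit 126) (nat_lit 5) (nat_lit 131) (nat_lit 5) (nat_lit 132) (nat_lit 5) (nat_lit 345) (nat_lit 293) (nat_lit 142)) (XT.nd (nat_lit 78) (nat_lit 76) (nat_lit 0) (XT.lf (nat_lit 0) (nat_lit 4496412280) (nat_lit 380) (nat_lit 22800809274) (nat_lit 456) (nat_lit 274420402) (nat_lit 121) (nat_lit 5) (nat_lit 126) (nat_lit 5) (nat_lit 127) (nat_lit 5) (nat_lit 346) (nat_lit 293) (nat_lit 141)) (XT.lf (nat_lit 0) (nat_lit 6059683892) (nat_lit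 456) (nat_lit 4384702436) (nat_lit 76) (nat_lit 17684671097) (nat_lit 120) (nat_lit 5) (nat_lit 126) (nat_lit 5) (nat_lit 121) (nat_lit 5) (nat_lit 347) (nat_lit 293) (nat_lit 140))))) (XT.nd (nat_lit 234) (nat_lit 1064) (nat_lit 0) (XT.nd (nat_lit 78) (nat_lit 380) (nat_lit 0) (XT.lf (nat_lit 0) (nat_lit 12684813977) (nat_lit 456) (nat_lit 13666652303) (nat_lit 76) (nat_lit 2349603854) (nat_lit 115) (nat_lit 5) (nat_lit 121) (nat_lit 5) (nat_lit 116) (nat_lit 5) (nat_lit 348) (nat_lit 293) (nat_lit 139)) (XT.nd (nat_lit 78) (nat_lit 0) (nat_lit 0) (XT.lf (nat_lit 0) (nat_lit 5800652387) (nat_lit 380) (nat_lit 13837146670) (nat_lit 456) (nat_lit 9649867652) (nat_lit 110) (nat_lit 5) (nat_lit 115) (nat_lit 5) (nat_lit 116) (nat_lit 5) (nat_lit 349) (nat_lit 293) (nat_lit 138)) (XT.lf (nat_lit 0) (nat_lit 26027377538) (nat_lit 380) (nat_lit 856456415) (nat_lit 456) (nat_lit 3006343371) (nat_lit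 110) (nat_lit 5) (nat_lit 115) (nat_lit 5) (nat_lit 116) (nat_lit 5) (nat_lit 350) (nat_lit 293) (nat_lit 137)))) (XT.nd (nat_lit 156) (nat_lit 304) (nat_lit 0) (XT.nd (nat_lit 78) (nat_lit 380) (nat_lit 0) (XT.lf (nat_lit 0) (nat_lit 3967628690) (nat_lit 380) (nat_lit 14059790355) (nat_lit 76) (nat_lit 12479221956) (nat_lit 105) (nat_lit 5) (nat_lit 110) (nat_lit 5) (nat_lit 106) (nat_lit 5) (nat_lit 351) (nat_lit 293) (nat_lit 136)) (XT.lf (nat_lit 0) (nat_lit 6323119135) (nat_lit 380) (nat_lit 4852386691) (nat_lit 456) (nat_lit 19964389659) (nat_lit 100) (nat_lit 5) (nat_lit 105) (nat_lit 5) (nat_lit 106) (nat_lit 5) (nat_lit 352) (nat_lit 293) (nat_lit 135))) (XT.nd (nat_lit 78) (nat_lit 304) (nat_lit 0) (XT.lf (nat_lit 0) (nat_lit 18744425825) (nat_lit 456) (nat_lit 4348851703) (nat_lit 76) (nat_lit 8695978742) (nat_lit 100) (nat_lit 5) (nat_lit 106) (nat_lit 5) (nat_lit 101) (nat_lit 5)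 (nat_lit 353) (nat_lit 293) (nat_lit 134)) (XT.lf (nat_lit 0) (nat_lit 16911442876) (nat_lit 304) (nat_lit 9763744845) (nat_lit 380) (nat_lit 5780219329) (nat_lit 96) (nat_lit 5) (nat_lit 100) (nat_lit 5) (nat_lit 101) (nat_lit 5) (nat_lit 354) (nat_lit 293) (nat_lit 133)))))) (XT.nd (nat_lit 468) (nat_lit 0) (nat_lit 152) (XT.nd (nat_lit 234) (nat_lit 1520) (nat_lit 0) (XT.nd (nat_lit 78) (nat_lit 0) (nat_lit 0) (XT.lf (nat_lit 0) (nat_lit 4877234550) (nat_lit 1596) (nat_lit 446768508) (nat_lit 1596) (nat_lit 446768508) (nat_lit 383) (nat_lit 3) (nat_lit 404) (nat_lit 3) (nat_lit 404) (nat_lit 5) (nat_lit 294) (nat_lit 294) (nat_lit 192)) (XT.nd (nat_lit 78) (nat_lit 0) (nat_lit 76) (XT.lf (nat_lit 76) (nat_lit 6871845488) (nat_lit 0) (nat_lit 3793005063) (nat_lit 1596) (nat_lit 1033750044) (nat_lit 384) (nat_lit 5) (nat_lit 383) (nat_lit 3) (nat_lit 404) (nat_lit 5) (nat_lit 295) (nat_lit 294)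 (nat_lit 191)) (XT.lf (nat_lit 76) (nat_lit 3025386040) (nat_lit 0) (nat_lit 8596027190) (nat_lit 1596) (nat_lit 238609771) (nat_lit 385) (nat_lit 5) (nat_lit 384) (nat_lit 5) (nat_lit 405) (nat_lit 5) (nat_lit 296) (nat_lit 294) (nat_lit 190)))) (XT.nd (nat_lit 78) (nat_lit 0) (nat_lit 76) (XT.lf (nat_lit 0) (nat_lit 603489136) (nat_lit 1596) (nat_lit 891180585) (nat_lit 1672) (nat_lit 10530957805) (nat_lit 363) (nat_lit 5) (nat_lit 384) (nat_lit 5) (nat_lit 385) (nat_lit 5) (nat_lit 297) (nat_lit 294) (nat_lit 189)) (XT.nd (nat_lit 78) (nat_lit 0) (nat_lit 76) (XT.lf (nat_lit 0) (nat_lit 1526903162) (nat_lit 1596) (nat_lit 4863222305) (nat_lit 1672) (nat_lit 5804885588) (nat_lit 364) (nat_lit 5) (nat_lit 385) (nat_lit 5) (nat_lit 386) (nat_lit 5) (nat_lit 298) (nat_lit 294) (nat_lit 188)) (XT.lf (nat_lit 0) (nat_lit 2496898213) (nat_lit 1596) (nat_lit 8911175199) (nat_lit 1672) (nat_lit 961052570)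 (nat_lit 365) (nat_lit 5) (nat_lit 386) (nat_lit 5) (nat_lit 387) (nat_lit 5) (nat_lit 299) (nat_lit 294) (nat_lit 187))))) (XT.nd (nat_lit 234) (nat_lit 0) (nat_lit 152) (XT.nd (nat_lit 78) (nat_lit 0) (nat_lit 76) (XT.lf (nat_lit 0) (nat_lit 3546614848) (nat_lit 1596) (nat_lit 511073278) (nat_lit 1672) (nat_lit 8489790463) (nat_lit 365) (nat_lit 5) (nat_lit 386) (nat_lit 5) (nat_lit 387) (nat_lit 5) (nat_lit 300) (nat_lit 294) (nat_lit 186)) (XT.nd (nat_lit 78) (nat_lit 0) (nat_lit 0) (XT.lf (nat_lit 0) (nat_lit 4679958979) (nat_lit 1596) (nat_lit 4520022592) (nat_lit 1672) (nat_lit 3530183371) (nat_lit 366) (nat_lit 5) (nat_lit 387) (nat_lit 5) (nat_lit 388) (nat_lit 5) (nat_lit 301) (nat_lit 294) (nat_lit 185)) (XT.lf (nat_lit 76) (nat_lit 4295400089) (nat_lit 0) (nat_lit 1586541579) (nat_lit 1672) (nat_lit 7035722589) (nat_lit 367) (nat_lit 5) (nat_lit 366) (nat_lit 5) (nat_lit 388) (nat_lit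 5) (nat_lit 302) (nat_lit 294) (nat_lit 184)))) (XT.nd (nat_lit 156) (nat_lit 0) (nat_lit 76) (XT.nd (nat_lit 78) (nat_lit 0) (nat_lit 76) (XT.lf (nat_lit 76) (nat_lit 273962604) (nat_lit 0) (nat_lit 6896021818) (nat_lit 1672) (nat_lit 5939828520) (nat_lit 368) (nat_lit 5) (nat_lit 367) (nat_lit 5) (nat_lit 389) (nat_lit 5) (nat_lit 303) (nat_lit 294) (nat_lit 183)) (XT.lf (nat_lit 0) (nat_lit 8549388224) (nat_lit 1596) (nat_lit 3784413899) (nat_lit 1672) (nat_lit 972893261) (nat_lit 368) (nat_lit 5) (nat_lit 389) (nat_lit 5) (nat_lit 390) (nat_lit 5) (nat_lit 304) (nat_lit 294) (nat_lit 182))) (XT.nd (nat_lit 78) (nat_lit 0) (nat_lit 76) (XT.lf (nat_lit 76) (nat_lit 5549640308) (nat_lit 0) (nat_lit 4480738866) (nat_lit 1672) (nat_lit 3477924027) (nat_lit 369) (nat_lit 5) (nat_lit 368) (nat_lit 5) (nat_lit 390) (nat_lit 5) (nat_lit 305) (nat_lit 294) (nat_lit 181)) (XT.lf (nat_lit 76) (nat_lit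 1480057933) (nat_lit 0) (nat_lit 10113225882) (nat_lit 1672) (nat_lit 2121948091) (nat_lit 370) (nat_lit 5) (nat_lit 369) (nat_lit 5) (nat_lit 391) (nat_lit 5) (nat_lit 306) (nat_lit 294) (nat_lit 180))))))) (XT.nd (nat_lit 1014) (nat_lit 6004) (nat_lit 0) (XT.nd (nat_lit 468) (nat_lit 4256) (nat_lit 0) (XT.nd (nat_lit 234) (nat_lit 1520) (nat_lit 0) (XT.nd (nat_lit 78) (nat_lit 1596) (nat_lit 0) (XT.lf (nat_lit 76) (nat_lit 11264943833) (nat_lit 0) (nat_lit 2000986134) (nat_lit 1672) (nat_lit 661203100) (nat_lit 370) (nat_lit 5) (nat_lit 369) (nat_lit 5) (nat_lit 391) (nat_lit 5) (nat_lit 307) (nat_lit 294) (nat_lit 179)) (XT.nd (nat_lit 78) (nat_lit 0) (nat_lit 76) (XT.lf (nat_lit 0) (nat_lit 900769542) (nat_lit 1672) (nat_lit 6913927469) (nat_lit 1748) (nat_lit 6329236051) (nat_lit 348) (nat_lit 5) (nat_lit 370) (nat_lit 5) (nat_lit 371) (nat_lit 5) (nat_lit 308) (nat_lit 294) (nat_lit 178))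 (XT.lf (nat_lit 0) (nat_lit 2536100171) (nat_lit 1672) (nat_lit 11274592252) (nat_lit 1748) (nat_lit 555767619) (nat_lit 349) (nat_lit 5) (nat_lit 371) (nat_lit 5) (nat_lit 372) (nat_lit 5) (nat_lit 309) (nat_lit 294) (nat_lit 177)))) (XT.nd (nat_lit 78) (nat_lit 1596) (nat_lit 0) (XT.lf (nat_lit 0) (nat_lit 4300552280) (nat_lit 1672) (nat_lit 1170610470) (nat_lit 1748) (nat_lit 9122918304) (nat_lit 349) (nat_lit 5) (nat_lit 371) (nat_lit 5) (nat_lit 372) (nat_lit 5) (nat_lit 310) (nat_lit 294) (nat_lit 176)) (XT.nd (nat_lit 78) (nat_lit 1672) (nat_lit 0) (XT.lf (nat_lit 0) (nat_lit 6180479333) (nat_lit 1672) (nat_lit 5504679016) (nat_lit 76) (nat_lit 3142140406) (nat_lit 350) (nat_lit 5) (nat_lit 372) (nat_lit 5) (nat_lit 351) (nat_lit 5) (nat_lit 311) (nat_lit 294) (nat_lit 175)) (XT.lf (nat_lit 0) (nat_lit 5093996332) (nat_lit 1672) (nat_lit 3082129134) (nat_lit 1748) (nat_lit 6890219430) (nat_lit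 328) (nat_lit 5) (nat_lit 350) (nat_lit 5) (nat_lit 351) (nat_lit 5) (nat_lit 312) (nat_lit 294) (nat_lit 174))))) (XT.nd (nat_lit 234) (nat_lit 2432) (nat_lit 0) (XT.nd (nat_lit 78) (nat_lit 836) (nat_lit 0) (XT.lf (nat_lit 0) (nat_lit 730345689) (nat_lit 988) (nat_lit 9563233373) (nat_lit 1064) (nat_lit 5017762403) (nat_lit 315) (nat_lit 5) (nat_lit 328) (nat_lit 5) (nat_lit 329) (nat_lit 5) (nat_lit 313) (nat_lit 294) (nat_lit 173)) (XT.nd (nat_lit 78) (nat_lit 836) (nat_lit 0) (XT.lf (nat_lit 0) (nat_lit 11854362624) (nat_lit 988) (nat_lit 690792809) (nat_lit 1064) (nat_lit 3017137795) (nat_lit 315) (nat_lit 5) (nat_lit 328) (nat_lit 5) (nat_lit 329) (nat_lit 5) (nat_lit 314) (nat_lit 294) (nat_lit 172)) (XT.lf (nat_lit 0) (nat_lit 7519804585) (nat_lit 836) (nat_lit 7431215772) (nat_lit 912) (nat_lit 868035143) (nat_lit 304) (nat_lit 5) (nat_lit 315) (nat_lit 5) (nat_lit 316) (nat_lit 5) (nat_lit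 315) (nat_lit 294) (nat_lit 171)))) (XT.nd (nat_lit 156) (nat_lit 1520) (nat_lit 0) (XT.nd (nat_lit 78) (nat_lit 0) (nat_lit 0) (XT.lf (nat_lit 0) (nat_lit 1372087949) (nat_lit 912) (nat_lit 13030274010) (nat_lit 76) (nat_lit 1680116044) (nat_lit 292) (nat_lit 5) (nat_lit 304) (nat_lit 5) (nat_lit 293) (nat_lit 5) (nat_lit 316) (nat_lit 294) (nat_lit 170)) (XT.lf (nat_lit 0) (nat_lit 3757729744) (nat_lit 912) (nat_lit 1566134512) (nat_lit 76) (nat_lit 11028037511) (nat_lit 292) (nat_lit 5) (nat_lit 304) (nat_lit 5) (nat_lit 293) (nat_lit 5) (nat_lit 317) (nat_lit 294) (nat_lit 169))) (XT.nd (nat_lit 78) (nat_lit 760) (nat_lit 0) (XT.lf (nat_lit 0) (nat_lit 6293028744) (nat_lit 836) (nat_lit 6292088728) (nat_lit 76) (nat_lit 4042744069) (nat_lit 282) (nat_lit 5) (nat_lit 293) (nat_lit 5) (nat_lit 283) (nat_lit 5) (nat_lit 318) (nat_lit 294) (nat_lit 168)) (XT.lf (nat_lit 0) (nat_lit 5728722623)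 (nat_lit 760) (nat_lit 3243722106) (nat_lit 836) (nat_lit 7938308837) (nat_lit 272) (nat_lit 5) (nat_lit 282) (nat_lit 5) (nat_lit 283) (nat_lit 5) (nat_lit 319) (nat_lit 294) (nat_lit 167)))))) (XT.nd (nat_lit 468) (nat_lit 3116) (nat_lit 0) (XT.nd (nat_lit 234) (nat_lit 1368) (nat_lit 0) (XT.nd (nat_lit 78) (nat_lit 836) (nat_lit 0) (XT.lf (nat_lit 0) (nat_lit 950684202) (nat_lit 684) (nat_lit 10856993181) (nat_lit 760) (nat_lit 5392960474) (nat_lit 263) (nat_lit 5) (nat_lit 272) (nat_lit 5) (nat_lit 273) (nat_lit 5) (nat_lit 320) (nat_lit 294) (nat_lit 166)) (XT.nd (nat_lit 78) (nat_lit 836) (nat_lit 0) (XT.lf (nat_lit 0) (nat_lit 13563608686) (nat_lit 684) (nat_lit 1246955739) (nat_lit 760) (nat_lit 2687016082) (nat_lit 263) (nat_lit 5) (nat_lit 272) (nat_lit 5) (nat_lit 273) (nat_lit 5) (nat_lit 321) (nat_lit 294) (nat_lit 165)) (XT.lf (nat_lit 0) (nat_lit 198418782) (nat_lit 836) (nat_lit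 9006809905) (nat_lit 76) (nat_lit 8596210363) (nat_lit 252) (nat_lit 5) (nat_lit 263) (nat_lit 5) (nat_lit 253) (nat_lit 5) (nat_lit 322) (nat_lit 294) (nat_lit 164)))) (XT.nd (nat_lit 78) (nat_lit 684) (nat_lit 0) (XT.lf (nat_lit 0) (nat_lit 3184615150) (nat_lit 760) (nat_lit 14263077932) (nat_lit 76) (nat_lit 665363686) (nat_lit 243) (nat_lit 5) (nat_lit 253) (nat_lit 5) (nat_lit 244) (nat_lit 5) (nat_lit 323) (nat_lit 294) (nat_lit 163)) (XT.nd (nat_lit 78) (nat_lit 684) (nat_lit 0) (XT.lf (nat_lit 0) (nat_lit 6369626017) (nat_lit 760) (nat_lit 1293733149) (nat_lit 76) (nat_lit 10768491640) (nat_lit 243) (nat_lit 5) (nat_lit 253) (nat_lit 5) (nat_lit 244) (nat_lit 5) (nat_lit 324) (nat_lit 294) (nat_lit 162)) (XT.lf (nat_lit 0) (nat_lit 9732294684) (nat_lit 760) (nat_lit 6564558743) (nat_lit 76) (nat_lit 2461725092) (nat_lit 234) (nat_lit 5) (nat_lit 244) (nat_lit 5) (nat_lit 235) (nat_lit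 5) (nat_lit 325) (nat_lit 294) (nat_lit 161))))) (XT.nd (nat_lit 234) (nat_lit 1748) (nat_lit 0) (XT.nd (nat_lit 78) (nat_lit 760) (nat_lit 0) (XT.lf (nat_lit 0) (nat_lit 7035820318) (nat_lit 608) (nat_lit 6252701933) (nat_lit 684) (nat_lit 5804743885) (nat_lit 226) (nat_lit 5) (nat_lit 234) (nat_lit 5) (nat_lit 235) (nat_lit 5) (nat_lit 326) (nat_lit 294) (nat_lit 160)) (XT.nd (nat_lit 78) (nat_lit 76) (nat_lit 0) (XT.lf (nat_lit 0) (nat_lit 1677742253) (nat_lit 684) (nat_lit 15343143860) (nat_lit 760) (nat_lit 2415730592) (nat_lit 217) (nat_lit 5) (nat_lit 226) (nat_lit 5) (nat_lit 227) (nat_lit 5) (nat_lit 327) (nat_lit 294) (nat_lit 159)) (XT.lf (nat_lit 0) (nat_lit 1172308218) (nat_lit 760) (nat_lit 3862240677) (nat_lit 76) (nat_lit 14753361011) (nat_lit 216) (nat_lit 5) (nat_lit 226) (nat_lit 5) (nat_lit 217) (nat_lit 5) (nat_lit 328) (nat_lit 294) (nat_lit 158)))) (XT.nd (nat_lit 156) (nat_lit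 532) (nat_lit 0) (XT.nd (nat_lit 78) (nat_lit 608) (nat_lit 0) (XT.lf (nat_lit 0) (nat_lit 4928476482) (nat_lit 684) (nat_lit 9625359328) (nat_lit 76) (nat_lit 5593731015) (nat_lit 208) (nat_lit 5) (nat_lit 217) (nat_lit 5) (nat_lit 209) (nat_lit 5) (nat_lit 329) (nat_lit 294) (nat_lit 157)) (XT.lf (nat_lit 0) (nat_lit 4889958181) (nat_lit 608) (nat_lit 3987150455) (nat_lit 684) (nat_lit 11639319388) (nat_lit 200) (nat_lit 5) (nat_lit 208) (nat_lit 5) (nat_lit 209) (nat_lit 5) (nat_lit 330) (nat_lit 294) (nat_lit 156))) (XT.nd (nat_lit 78) (nat_lit 532) (nat_lit 0) (XT.lf (nat_lit 0) (nat_lit 13042897299) (nat_lit 684) (nat_lit 981675886) (nat_lit 76) (nat_lit 6869817778) (nat_lit 200) (nat_lit 5) (nat_lit 209) (nat_lit 5) (nat_lit 201) (nat_lit 5) (nat_lit 331) (nat_lit 294) (nat_lit 155)) (XT.lf (nat_lit 0) (nat_lit 14249178453) (nat_lit 532) (nat_lit 3192266180) (nat_lit 608) (nat_lit 3840102022)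 (nat_lit 193) (nat_lit 5) (nat_lit 200) (nat_lit 5) (nat_lit 201) (nat_lit 5) (nat_lit 332) (nat_lit 294) (nat_lit 154))))))))
noncomputable def xc105 : XT := (XT.nd (nat_lit 38064) (nat_lit 0) (nat_lit 10868) (XT.nd (nat_lit 1014) (nat_lit 2356) (nat_lit 0) (XT.nd (nat_lit 468) (nat_lit 2432) (nat_lit 0) (XT.nd (nat_lit 234) (nat_lit 1064) (nat_lit 0) (XT.nd (nat_lit 78) (nat_lit 532) (nat_lit 0) (XT.lf (nat_lit 0) (nat_lit 389695918) (nat_lit 684) (nat_lit 13366871929) (nat_lit 76) (nat_lit 7921682622) (nat_lit 184) (nat_lit 5) (nat_lit 193) (nat_lit 5) (nat_lit 185) (nat_lit 5) (nat_lit 333) (nat_lit 294) (nat_lit 153)) (XT.nd (nat_lit 78) (nat_lit 0) (nat_lit 0) (XT.lf (nat_lit 0) (nat_lit 2092458762) (nat_lit 532) (nat_lit 2673952845) (nat_lit 608) (nat_lit 17318501053) (nat_lit 177) (nat_lit 5) (nat_lit 184) (nat_lit 5) (nat_lit 185) (nat_lit 5) (nat_lit 334) (nat_lit 294) (nat_lit 152))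 (XT.lf (nat_lit 0) (nat_lit 9411574346) (nat_lit 608) (nat_lit 4374204763) (nat_lit 76) (nat_lit 8715261280) (nat_lit 177) (nat_lit 5) (nat_lit 185) (nat_lit 5) (nat_lit 178) (nat_lit 5) (nat_lit 335) (nat_lit 294) (nat_lit 151)))) (XT.nd (nat_lit 78) (nat_lit 532) (nat_lit 0) (XT.lf (nat_lit 0) (nat_lit 11836918596) (nat_lit 532) (nat_lit 2443436846) (nat_lit 608) (nat_lit 8647619572) (nat_lit 170) (nat_lit 5) (nat_lit 177) (nat_lit 5) (nat_lit 178) (nat_lit 5) (nat_lit 336) (nat_lit 294) (nat_lit 150)) (XT.nd (nat_lit 78) (nat_lit 76) (nat_lit 0) (XT.lf (nat_lit 0) (nat_lit 5222415806) (nat_lit 456) (nat_lit 14186249175) (nat_lit 532) (nat_lit 3956791487) (nat_lit 164) (nat_lit 5) (nat_lit 170) (nat_lit 5) (nat_lit 171) (nat_lit 5) (nat_lit 337) (nat_lit 294) (nat_lit 149)) (XT.lf (nat_lit 0) (nat_lit 945158384) (nat_lit 532) (nat_lit 1672919101) (nat_lit 76) (nat_lit 21196241598) (nat_lit 163)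 (nat_lit 5) (nat_lit 170) (nat_lit 5) (nat_lit 164) (nat_lit 5) (nat_lit 338) (nat_lit 294) (nat_lit 148))))) (XT.nd (nat_lit 234) (nat_lit 988) (nat_lit 0) (XT.nd (nat_lit 78) (nat_lit 912) (nat_lit 0) (XT.lf (nat_lit 0) (nat_lit 6092414871) (nat_lit 608) (nat_lit 8880534152) (nat_lit 76) (nat_lit 9300142835) (nat_lit 156) (nat_lit 5) (nat_lit 164) (nat_lit 5) (nat_lit 157) (nat_lit 5) (nat_lit 339) (nat_lit 294) (nat_lit 147)) (XT.nd (nat_lit 78) (nat_lit 456) (nat_lit 0) (XT.lf (nat_lit 0) (nat_lit 8326566689) (nat_lit 456) (nat_lit 3140861611) (nat_lit 532) (nat_lit 13276739991) (nat_lit 150) (nat_lit 5) (nat_lit 156) (nat_lit 5) (nat_lit 157) (nat_lit 5) (nat_lit 340) (nat_lit 294) (nat_lit 146)) (XT.lf (nat_lit 0) (nat_lit 883191381) (nat_lit 456) (nat_lit 16236084597) (nat_lit 532) (nat_lit 8107796407) (nat_lit 144) (nat_lit 5) (nat_lit 150) (nat_lit 5) (nat_lit 151) (nat_lit 5) (nat_lit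 341) (nat_lit 294) (nat_lit 145)))) (XT.nd (nat_lit 156) (nat_lit 456) (nat_lit 0) (XT.nd (nat_lit 78) (nat_lit 532) (nat_lit 0) (XT.lf (nat_lit 0) (nat_lit 18894129915) (nat_lit 456) (nat_lit 4169401608) (nat_lit 532) (nat_lit 2658481874) (nat_lit 144) (nat_lit 5) (nat_lit 150) (nat_lit 5) (nat_lit 151) (nat_lit 5) (nat_lit 342) (nat_lit 294) (nat_lit 144)) (XT.lf (nat_lit 0) (nat_lit 3034292135) (nat_lit 532) (nat_lit 14953424430) (nat_lit 76) (nat_lit 8241334432) (nat_lit 137) (nat_lit 5) (nat_lit 144) (nat_lit 5) (nat_lit 138) (nat_lit 5) (nat_lit 343) (nat_lit 294) (nat_lit 143))) (XT.nd (nat_lit 78) (nat_lit 0) (nat_lit 0) (XT.lf (nat_lit 0) (nat_lit 3249926977) (nat_lit 456) (nat_lit 5698673787) (nat_lit 532) (nat_lit 17800616437) (nat_lit 131) (nat_lit 5) (nat_lit 137) (nat_lit 5) (nat_lit 138) (nat_lit 5) (nat_lit 344) (nat_lit 294) (nat_lit 142)) (XT.lf (nat_lit 0) (nat_lit 15178789350)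 (nat_lit 532) (nat_lit 5136773713) (nat_lit 76) (nat_lit 6966662454) (nat_lit 131) (nat_lit 5) (nat_lit 138) (nat_lit 5) (nat_lit 132) (nat_lit 5) (nat_lit 345) (nat_lit 294) (nat_lit 141)))))) (XT.nd (nat_lit 468) (nat_lit 760) (nat_lit 0) (XT.nd (nat_lit 234) (nat_lit 760) (nat_lit 0) (XT.nd (nat_lit 78) (nat_lit 456) (nat_lit 0) (XT.lf (nat_lit 0) (nat_lit 13909259424) (nat_lit 380) (nat_lit 7806564011) (nat_lit 456) (nat_lit 6113007810) (nat_lit 126) (nat_lit 5) (nat_lit 131) (nat_lit 5) (nat_lit 132) (nat_lit 5) (nat_lit 346) (nat_lit 294) (nat_lit 140)) (XT.nd (nat_lit 78) (nat_lit 0) (nat_lit 0) (XT.lf (nat_lit 0) (nat_lit 150633165) (nat_lit 456) (nat_lit 23161356527) (nat_lit 76) (nat_lit 5077958725) (nat_lit 120) (nat_lit 5) (nat_lit 126) (nat_lit 5) (nat_lit 121) (nat_lit 5) (nat_lit 347) (nat_lit 294) (nat_lit 139)) (XT.lf (nat_lit 0) (nat_lit 6658541530) (nat_lit 456) (nat_lit 3929549462)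 (nat_lit 76) (nat_lit 18376217281) (nat_lit 120) (nat_lit 5) (nat_lit 126) (nat_lit 5) (nat_lit 121) (nat_lit 5) (nat_lit 348) (nat_lit 294) (nat_lit 138)))) (XT.nd (nat_lit 78) (nat_lit 380) (nat_lit 0) (XT.lf (nat_lit 0) (nat_lit 13475119408) (nat_lit 456) (nat_lit 13492125579) (nat_lit 76) (nat_lit 2586390640) (nat_lit 115) (nat_lit 5) (nat_lit 121) (nat_lit 5) (nat_lit 116) (nat_lit 5) (nat_lit 349) (nat_lit 294) (nat_lit 137)) (XT.nd (nat_lit 78) (nat_lit 0) (nat_lit 0) (XT.lf (nat_lit 0) (nat_lit 6549715007) (nat_lit 380) (nat_lit 14078777809) (nat_lit 456) (nat_lit 9529509213) (nat_lit 110) (nat_lit 5) (nat_lit 115) (nat_lit 5) (nat_lit 116) (nat_lit 5) (nat_lit 350) (nat_lit 294) (nat_lit 136)) (XT.lf (nat_lit 0) (nat_lit 27366493086) (nat_lit 380) (nat_lit 713719756) (nat_lit 456) (nat_lit 2698616712) (nat_lit 110) (nat_lit 5) (nat_lit 115) (nat_lit 5) (nat_lit 116) (nat_lit 5) (nat_lit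 351) (nat_lit 294) (nat_lit 135))))) (XT.nd (nat_lit 36270) (nat_lit 0) (nat_lit 19912) (XT.nd (nat_lit 78) (nat_lit 380) (nat_lit 0) (XT.lf (nat_lit 0) (nat_lit 4472621059) (nat_lit 380) (nat_lit 13920128143) (nat_lit 76) (nat_lit 13021128268) (nat_lit 105) (nat_lit 5) (nat_lit 110) (nat_lit 5) (nat_lit 106) (nat_lit 5) (nat_lit 352) (nat_lit 294) (nat_lit 134)) (XT.nd (nat_lit 36114) (nat_lit 0) (nat_lit 21508) (XT.lf (nat_lit 0) (nat_lit 7065159675) (nat_lit 380) (nat_lit 4823919380) (nat_lit 456) (nat_lit 20177210733) (nat_lit 100) (nat_lit 5) (nat_lit 105) (nat_lit 5) (nat_lit 106) (nat_lit 5) (nat_lit 353) (nat_lit 294) (nat_lit 133)) (XT.lf (nat_lit 0) (nat_lit 5736083650) (nat_lit 1596) (nat_lit 96391783) (nat_lit 1596) (nat_lit 96391783) (nat_lit 383) (nat_lit 3) (nat_lit 404) (nat_lit 3) (nat_lit 404) (nat_lit 5) (nat_lit 295) (nat_lit 295) (nat_lit 190)))) (XT.nd (nat_lit 156) (nat_lit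 0) (nat_lit 76) (XT.nd (nat_lit 78) (nat_lit 0) (nat_lit 76) (XT.lf (nat_lit 0) (nat_lit 348088653) (nat_lit 1596) (nat_lit 4228819501) (nat_lit 1672) (nat_lit 7443332112) (nat_lit 362) (nat_lit 5) (nat_lit 383) (nat_lit 3) (nat_lit 384) (nat_lit 5) (nat_lit 296) (nat_lit 295) (nat_lit 189)) (XT.lf (nat_lit 0) (nat_lit 1116149038) (nat_lit 1596) (nat_lit 8341351983) (nat_lit 1672) (nat_lit 2729744903) (nat_lit 363) (nat_lit 5) (nat_lit 384) (nat_lit 5) (nat_lit 385) (nat_lit 5) (nat_lit 297) (nat_lit 295) (nat_lit 188))) (XT.nd (nat_lit 78) (nat_lit 0) (nat_lit 76) (XT.lf (nat_lit 0) (nat_lit 1940714015) (nat_lit 1596) (nat_lit 183228238) (nat_lit 1672) (nat_lit 10234677711) (nat_lit 363) (nat_lit 5) (nat_lit 384) (nat_lit 5) (nat_lit 385) (nat_lit 5) (nat_lit 298) (nat_lit 295) (nat_lit 187)) (XT.lf (nat_lit 0) (nat_lit 2854449251) (nat_lit 1596) (nat_lit 4255636500) (nat_lit 1672) (nat_lit 5423787474)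 (nat_lit 364) (nat_lit 5) (nat_lit 385) (nat_lit 5) (nat_lit 386) (nat_lit 5) (nat_lit 299) (nat_lit 295) (nat_lit 186))))))) (XT.nd (nat_lit 1014) (nat_lit 7904) (nat_lit 0) (XT.nd (nat_lit 468) (nat_lit 1368) (nat_lit 0) (XT.nd (nat_lit 234) (nat_lit 0) (nat_lit 76) (XT.nd (nat_lit 78) (nat_lit 0) (nat_lit 0) (XT.lf (nat_lit 0) (nat_lit 3817726667) (nat_lit 1596) (nat_lit 8407655962) (nat_lit 1672) (nat_lit 488584739) (nat_lit 365) (nat_lit 5) (nat_lit 386) (nat_lit 5) (nat_lit 387) (nat_lit 5) (nat_lit 300) (nat_lit 295) (nat_lit 185)) (XT.nd (nat_lit 78) (nat_lit 0) (nat_lit 76) (XT.lf (nat_lit 76) (nat_lit 224947166) (nat_lit 0) (nat_lit 4639159164) (nat_lit 1672) (nat_lit 8034299062) (nat_lit 366) (nat_lit 5) (nat_lit 365) (nat_lit 5) (nat_lit 387) (nat_lit 5) (nat_lit 301) (nat_lit 295) (nat_lit 184)) (XT.lf (nat_lit 0) (nat_lit 5996662823) (nat_lit 1596) (nat_lit 3891664904) (nat_lit 1672)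 (nat_lit 3198977525) (nat_lit 366) (nat_lit 5) (nat_lit 387) (nat_lit 5) (nat_lit 388) (nat_lit 5) (nat_lit 302) (nat_lit 295) (nat_lit 183)))) (XT.nd (nat_lit 78) (nat_lit 0) (nat_lit 76) (XT.lf (nat_lit 76) (nat_lit 5175826140) (nat_lit 0) (nat_lit 2029497192) (nat_lit 1672) (nat_lit 6075729921) (nat_lit 367) (nat_lit 5) (nat_lit 366) (nat_lit 5) (nat_lit 388) (nat_lit 5) (nat_lit 303) (nat_lit 295) (nat_lit 182)) (XT.nd (nat_lit 78) (nat_lit 0) (nat_lit 76) (XT.lf (nat_lit 76) (nat_lit 1047826860) (nat_lit 0) (nat_lit 7453253880) (nat_lit 1672) (nat_lit 4978539215) (nat_lit 368) (nat_lit 5) (nat_lit 367) (nat_lit 5) (nat_lit 389) (nat_lit 5) (nat_lit 304) (nat_lit 295) (nat_lit 181)) (XT.lf (nat_lit 0) (nat_lit 9887153436) (nat_lit 1596) (nat_lit 3129589552) (nat_lit 1672) (nat_lit 666394150) (nat_lit 368) (nat_lit 5) (nat_lit 389) (nat_lit 5) (nat_lit 390) (nat_lit 5) (nat_lit 305) (nat_lit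 295) (nat_lit 180))))) (XT.nd (nat_lit 234) (nat_lit 0) (nat_lit 76) (XT.nd (nat_lit 78) (nat_lit 1596) (nat_lit 0) (XT.lf (nat_lit 76) (nat_lit 6472020605) (nat_lit 0) (nat_lit 4913967559) (nat_lit 1672) (nat_lit 2505369757) (nat_lit 369) (nat_lit 5) (nat_lit 368) (nat_lit 5) (nat_lit 390) (nat_lit 5) (nat_lit 306) (nat_lit 295) (nat_lit 179)) (XT.nd (nat_lit 78) (nat_lit 1672) (nat_lit 0) (XT.lf (nat_lit 76) (nat_lit 2291830198) (nat_lit 0) (nat_lit 10676329133) (nat_lit 1672) (nat_lit 1136919620) (nat_lit 370) (nat_lit 5) (nat_lit 369) (nat_lit 5) (nat_lit 391) (nat_lit 5) (nat_lit 307) (nat_lit 295) (nat_lit 178)) (XT.lf (nat_lit 0) (nat_lit 332682269) (nat_lit 1672) (nat_lit 1978243183) (nat_lit 1748) (nat_lit 12012997334) (nat_lit 347) (nat_lit 5) (nat_lit 369) (nat_lit 5) (nat_lit 370) (nat_lit 5) (nat_lit 308) (nat_lit 295) (nat_lit 177)))) (XT.nd (nat_lit 156) (nat_lit 0) (nat_lit 76)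 (XT.nd (nat_lit 78) (nat_lit 0) (nat_lit 76) (XT.lf (nat_lit 0) (nat_lit 1906652130) (nat_lit 1672) (nat_lit 6352165973) (nat_lit 1748) (nat_lit 6288868462) (nat_lit 348) (nat_lit 5) (nat_lit 370) (nat_lit 5) (nat_lit 371) (nat_lit 5) (nat_lit 309) (nat_lit 295) (nat_lit 176)) (XT.lf (nat_lit 0) (nat_lit 3566156014) (nat_lit 1672) (nat_lit 10834776744) (nat_lit 1748) (nat_lit 376483088) (nat_lit 349) (nat_lit 5) (nat_lit 371) (nat_lit 5) (nat_lit 372) (nat_lit 5) (nat_lit 310) (nat_lit 295) (nat_lit 175))) (XT.nd (nat_lit 78) (nat_lit 0) (nat_lit 76) (XT.lf (nat_lit 0) (nat_lit 5355756069) (nat_lit 1672) (nat_lit 450337254) (nat_lit 1748) (nat_lit 9206355796) (nat_lit 349) (nat_lit 5) (nat_lit 371) (nat_lit 5) (nat_lit 372) (nat_lit 5) (nat_lit 311) (nat_lit 295) (nat_lit 174)) (XT.lf (nat_lit 0) (nat_lit 7268884873) (nat_lit 1672) (nat_lit 4906654286) (nat_lit 76) (nat_lit 3077615218) (nat_lit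 350) (nat_lit 5) (nat_lit 372) (nat_lit 5) (nat_lit 351) (nat_lit 5) (nat_lit 312) (nat_lit 295) (nat_lit 173)))))) (XT.nd (nat_lit 468) (nat_lit 3724) (nat_lit 0) (XT.nd (nat_lit 234) (nat_lit 1748) (nat_lit 0) (XT.nd (nat_lit 78) (nat_lit 988) (nat_lit 0) (XT.lf (nat_lit 0) (nat_lit 5997599876) (nat_lit 1672) (nat_lit 3305374386) (nat_lit 1748) (nat_lit 6196852480) (nat_lit 328) (nat_lit 5) (nat_lit 350) (nat_lit 5) (nat_lit 351) (nat_lit 5) (nat_lit 313) (nat_lit 295) (nat_lit 172)) (XT.nd (nat_lit 78) (nat_lit 0) (nat_lit 0) (XT.lf (nat_lit 0) (nat_lit 1509902707) (nat_lit 988) (nat_lit 9952466863) (nat_lit 1064) (nat_lit 4290260824) (nat_lit 315) (nat_lit 5) (nat_lit 328) (nat_lit 5) (nat_lit 329) (nat_lit 5) (nat_lit 314) (nat_lit 295) (nat_lit 171)) (XT.lf (nat_lit 0) (nat_lit 12945572772) (nat_lit 988) (nat_lit 810872409) (nat_lit 1064) (nat_lit 2255191296) (nat_lit 315) (nat_lit 5) (nat_lit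 328) (nat_lit 5) (nat_lit 329) (nat_lit 5) (nat_lit 315) (nat_lit 295) (nat_lit 170)))) (XT.nd (nat_lit 78) (nat_lit 912) (nat_lit 0) (XT.lf (nat_lit 0) (nat_lit 8486919927) (nat_lit 836) (nat_lit 7727435780) (nat_lit 912) (nat_lit 62172600) (nat_lit 304) (nat_lit 5) (nat_lit 315) (nat_lit 5) (nat_lit 316) (nat_lit 5) (nat_lit 316) (nat_lit 295) (nat_lit 169)) (XT.nd (nat_lit 78) (nat_lit 0) (nat_lit 0) (XT.lf (nat_lit 0) (nat_lit 2214746899) (nat_lit 912) (nat_lit 12662986227) (nat_lit 76) (nat_lit 1670425191) (nat_lit 292) (nat_lit 5) (nat_lit 304) (nat_lit 5) (nat_lit 293) (nat_lit 5) (nat_lit 317) (nat_lit 295) (nat_lit 168)) (XT.lf (nat_lit 0) (nat_lit 4648613395) (nat_lit 912) (nat_lit 877005923) (nat_lit 76) (nat_lit 11300534623) (nat_lit 292) (nat_lit 5) (nat_lit 304) (nat_lit 5) (nat_lit 293) (nat_lit 5) (nat_lit 318) (nat_lit 295) (nat_lit 167))))) (XT.nd (nat_lit 234) (nat_lit 1520)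 (nat_lit 0) (XT.nd (nat_lit 78) (nat_lit 1444) (nat_lit 0) (XT.lf (nat_lit 0) (nat_lit 7241774685) (nat_lit 836) (nat_lit 5740523444) (nat_lit 76) (nat_lit 4128479920) (nat_lit 282) (nat_lit 5) (nat_lit 293) (nat_lit 5) (nat_lit 283) (nat_lit 5) (nat_lit 319) (nat_lit 295) (nat_lit 166)) (XT.nd (nat_lit 78) (nat_lit 684) (nat_lit 0) (XT.lf (nat_lit 0) (nat_lit 6628901307) (nat_lit 760) (nat_lit 3355265945) (nat_lit 836) (nat_lit 7418358677) (nat_lit 272) (nat_lit 5) (nat_lit 282) (nat_lit 5) (nat_lit 283) (nat_lit 5) (nat_lit 320) (nat_lit 295) (nat_lit 165)) (XT.lf (nat_lit 0) (nat_lit 1711094520) (nat_lit 684) (nat_lit 11176396921) (nat_lit 760) (nat_lit 4813974984) (nat_lit 263) (nat_lit 5) (nat_lit 272) (nat_lit 5) (nat_lit 273) (nat_lit 5) (nat_lit 321) (nat_lit 295) (nat_lit 164)))) (XT.nd (nat_lit 156) (nat_lit 684) (nat_lit 0) (XT.nd (nat_lit 78) (nat_lit 836) (nat_lit 0) (XT.lf (nat_lit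 0) (nat_lit 14681089560) (nat_lit 684) (nat_lit 1278242027) (nat_lit 760) (nat_lit 2048428211) (nat_lit 263) (nat_lit 5) (nat_lit 272) (nat_lit 5) (nat_lit 273) (nat_lit 5) (nat_lit 322) (nat_lit 295) (nat_lit 163)) (XT.lf (nat_lit 0) (nat_lit 898166623) (nat_lit 836) (nat_lit 8553652490) (nat_lit 76) (nat_lit 8869159829) (nat_lit 252) (nat_lit 5) (nat_lit 263) (nat_lit 5) (nat_lit 253) (nat_lit 5) (nat_lit 323) (nat_lit 295) (nat_lit 162))) (XT.nd (nat_lit 78) (nat_lit 0) (nat_lit 0) (XT.lf (nat_lit 0) (nat_lit 3958578574) (nat_lit 760) (nat_lit 13965387953) (nat_lit 76) (nat_lit 718304344) (nat_lit 243) (nat_lit 5) (nat_lit 253) (nat_lit 5) (nat_lit 244) (nat_lit 5) (nat_lit 324) (nat_lit 295) (nat_lit 161)) (XT.lf (nat_lit 0) (nat_lit 7219379816) (nat_lit 760) (nat_lit 628096292) (nat_lit 76) (nat_lit 11123565562) (nat_lit 243) (nat_lit 5) (nat_lit 253) (nat_lit 5) (nat_lit 244) (nat_lit 5)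 (nat_lit 325) (nat_lit 295) (nat_lit 160))))))))
noncomputable def xc106 : XT := (XT.nd (nat_lit 2028) (nat_lit 380) (nat_lit 0) (XT.nd (nat_lit 1014) (nat_lit 4104) (nat_lit 0) (XT.nd (nat_lit 468) (nat_lit 2736) (nat_lit 0) (XT.nd (nat_lit 234) (nat_lit 1292) (nat_lit 0) (XT.nd (nat_lit 78) (nat_lit 1292) (nat_lit 0) (XT.lf (nat_lit 0) (nat_lit 10668562069) (nat_lit 760) (nat_lit 6055340160) (nat_lit 76) (nat_lit 2583973538) (nat_lit 234) (nat_lit 5) (nat_lit 244) (nat_lit 5) (nat_lit 235) (nat_lit 5) (nat_lit 326) (nat_lit 295) (nat_lit 159)) (XT.nd (nat_lit 78) (nat_lit 684) (nat_lit 0) (XT.lf (nat_lit 0) (nat_lit 7941593741) (nat_lit 608) (nat_lit 6375627191) (nat_lit 684) (nat_lit 5335684914) (nat_lit 226) (nat_lit 5) (nat_lit 234) (nat_lit 5) (nat_lit 235) (nat_lit 5) (nat_lit 327) (nat_lit 295) (nat_lit 158)) (XT.lf (nat_lit 0) (nat_lit 2424034491) (nat_lit 684) (nat_lit 15724096647) (nat_lit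 760) (nat_lit 1858710521) (nat_lit 217) (nat_lit 5) (nat_lit 226) (nat_lit 5) (nat_lit 227) (nat_lit 5) (nat_lit 328) (nat_lit 295) (nat_lit 157)))) (XT.nd (nat_lit 78) (nat_lit 1216) (nat_lit 0) (XT.lf (nat_lit 0) (nat_lit 1810619298) (nat_lit 760) (nat_lit 3293888055) (nat_lit 76) (nat_lit 15264461900) (nat_lit 216) (nat_lit 5) (nat_lit 226) (nat_lit 5) (nat_lit 217) (nat_lit 5) (nat_lit 329) (nat_lit 295) (nat_lit 156)) (XT.nd (nat_lit 78) (nat_lit 608) (nat_lit 0) (XT.lf (nat_lit 0) (nat_lit 5666815731) (nat_lit 684) (nat_lit 9229241932) (nat_lit 76) (nat_lit 5843626357) (nat_lit 208) (nat_lit 5) (nat_lit 217) (nat_lit 5) (nat_lit 209) (nat_lit 5) (nat_lit 330) (nat_lit 295) (nat_lit 155)) (XT.lf (nat_lit 0) (nat_lit 5710423767) (nat_lit 608) (nat_lit 4010659033) (nat_lit 684) (nat_lit 11398799303) (nat_lit 200) (nat_lit 5) (nat_lit 208) (nat_lit 5) (nat_lit 209) (nat_lit 5) (nat_lit 331)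 (nat_lit 295) (nat_lit 154))))) (XT.nd (nat_lit 234) (nat_lit 1520) (nat_lit 0) (XT.nd (nat_lit 78) (nat_lit 1216) (nat_lit 0) (XT.lf (nat_lit 0) (nat_lit 13995625856) (nat_lit 684) (nat_lit 345901289) (nat_lit 76) (nat_lit 7167995311) (nat_lit 200) (nat_lit 5) (nat_lit 209) (nat_lit 5) (nat_lit 201) (nat_lit 5) (nat_lit 332) (nat_lit 295) (nat_lit 153)) (XT.nd (nat_lit 78) (nat_lit 684) (nat_lit 0) (XT.lf (nat_lit 0) (nat_lit 15331086197) (nat_lit 532) (nat_lit 3182939754) (nat_lit 608) (nat_lit 3394522672) (nat_lit 193) (nat_lit 5) (nat_lit 200) (nat_lit 5) (nat_lit 201) (nat_lit 5) (nat_lit 333) (nat_lit 295) (nat_lit 152)) (XT.lf (nat_lit 0) (nat_lit 943639000) (nat_lit 684) (nat_lit 13105833723) (nat_lit 76) (nat_lit 8267844586) (nat_lit 184) (nat_lit 5) (nat_lit 193) (nat_lit 5) (nat_lit 185) (nat_lit 5) (nat_lit 334) (nat_lit 295) (nat_lit 151)))) (XT.nd (nat_lit 156) (nat_lit 988) (nat_lit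 0) (XT.nd (nat_lit 78) (nat_lit 0) (nat_lit 0) (XT.lf (nat_lit 0) (nat_lit 2806536005) (nat_lit 532) (nat_lit 2633555095) (nat_lit 608) (nat_lit 17296332255) (nat_lit 177) (nat_lit 5) (nat_lit 184) (nat_lit 5) (nat_lit 185) (nat_lit 5) (nat_lit 335) (nat_lit 295) (nat_lit 150)) (XT.lf (nat_lit 0) (nat_lit 10209912126) (nat_lit 608) (nat_lit 3863142515) (nat_lit 76) (nat_lit 9092286526) (nat_lit 177) (nat_lit 5) (nat_lit 185) (nat_lit 5) (nat_lit 178) (nat_lit 5) (nat_lit 336) (nat_lit 295) (nat_lit 149))) (XT.nd (nat_lit 78) (nat_lit 456) (nat_lit 0) (XT.lf (nat_lit 0) (nat_lit 12823894179) (nat_lit 532) (nat_lit 2389936132) (nat_lit 608) (nat_lit 8391484007) (nat_lit 170) (nat_lit 5) (nat_lit 177) (nat_lit 5) (nat_lit 178) (nat_lit 5) (nat_lit 337) (nat_lit 295) (nat_lit 148)) (XT.lf (nat_lit 0) (nat_lit 6010224657) (nat_lit 456) (nat_lit 14475950942) (nat_lit 532) (nat_lit 3569952498) (nat_lit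 164) (nat_lit 5) (nat_lit 170) (nat_lit 5) (nat_lit 171) (nat_lit 5) (nat_lit 338) (nat_lit 295) (nat_lit 147)))))) (XT.nd (nat_lit 468) (nat_lit 2052) (nat_lit 0) (XT.nd (nat_lit 234) (nat_lit 988) (nat_lit 0) (XT.nd (nat_lit 78) (nat_lit 988) (nat_lit 0) (XT.lf (nat_lit 0) (nat_lit 1457894154) (nat_lit 532) (nat_lit 1103547333) (nat_lit 76) (nat_lit 21957251140) (nat_lit 163) (nat_lit 5) (nat_lit 170) (nat_lit 5) (nat_lit 164) (nat_lit 5) (nat_lit 339) (nat_lit 295) (nat_lit 146)) (XT.nd (nat_lit 78) (nat_lit 456) (nat_lit 0) (XT.lf (nat_lit 0) (nat_lit 6750295791) (nat_lit 608) (nat_lit 8528478479) (nat_lit 76) (nat_lit 9712650496) (nat_lit 156) (nat_lit 5) (nat_lit 164) (nat_lit 5) (nat_lit 157) (nat_lit 5) (nat_lit 340) (nat_lit 295) (nat_lit 145)) (XT.lf (nat_lit 0) (nat_lit 9184801419) (nat_lit 456) (nat_lit 3091870474) (nat_lit 532) (nat_lit 13200169770) (nat_lit 150) (nat_lit 5) (nat_lit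 156) (nat_lit 5) (nat_lit 157) (nat_lit 5) (nat_lit 341) (nat_lit 295) (nat_lit 144)))) (XT.nd (nat_lit 78) (nat_lit 532) (nat_lit 0) (XT.lf (nat_lit 0) (nat_lit 1516833988) (nat_lit 456) (nat_lit 16572535671) (nat_lit 532) (nat_lit 7885047443) (nat_lit 144) (nat_lit 5) (nat_lit 150) (nat_lit 5) (nat_lit 151) (nat_lit 5) (nat_lit 342) (nat_lit 295) (nat_lit 143)) (XT.nd (nat_lit 78) (nat_lit 532) (nat_lit 0) (XT.lf (nat_lit 0) (nat_lit 20050416789) (nat_lit 456) (nat_lit 4148239517) (nat_lit 532) (nat_lit 2285825790) (nat_lit 144) (nat_lit 5) (nat_lit 150) (nat_lit 5) (nat_lit 151) (nat_lit 5) (nat_lit 343) (nat_lit 295) (nat_lit 142)) (XT.lf (nat_lit 0) (nat_lit 3563564791) (nat_lit 532) (nat_lit 14807883461) (nat_lit 76) (nat_lit 8635397835) (nat_lit 137) (nat_lit 5) (nat_lit 144) (nat_lit 5) (nat_lit 138) (nat_lit 5) (nat_lit 344) (nat_lit 295) (nat_lit 141))))) (XT.nd (nat_lit 234) (nat_lit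 1216) (nat_lit 0) (XT.nd (nat_lit 78) (nat_lit 380) (nat_lit 0) (XT.lf (nat_lit 0) (nat_lit 3931929212) (nat_lit 456) (nat_lit 5714404072) (nat_lit 532) (nat_lit 17896472456) (nat_lit 131) (nat_lit 5) (nat_lit 137) (nat_lit 5) (nat_lit 138) (nat_lit 5) (nat_lit 345) (nat_lit 295) (nat_lit 140)) (XT.nd (nat_lit 78) (nat_lit 380) (nat_lit 0) (XT.lf (nat_lit 0) (nat_lit 16051902888) (nat_lit 532) (nat_lit 4715746295) (nat_lit 76) (nat_lit 7324394425) (nat_lit 131) (nat_lit 5) (nat_lit 138) (nat_lit 5) (nat_lit 132) (nat_lit 5) (nat_lit 346) (nat_lit 295) (nat_lit 139)) (XT.lf (nat_lit 0) (nat_lit 14892337024) (nat_lit 380) (nat_lit 7884217047) (nat_lit 456) (nat_lit 5878671869) (nat_lit 126) (nat_lit 5) (nat_lit 131) (nat_lit 5) (nat_lit 132) (nat_lit 5) (nat_lit 347) (nat_lit 295) (nat_lit 138)))) (XT.nd (nat_lit 156) (nat_lit 760) (nat_lit 0) (XT.nd (nat_lit 78) (nat_lit 0) (nat_lit 0) (XT.lf (nat_lit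 0) (nat_lit 560071695) (nat_lit 456) (nat_lit 23286591352) (nat_lit 76) (nat_lit 5386614041) (nat_lit 120) (nat_lit 5) (nat_lit 126) (nat_lit 5) (nat_lit 121) (nat_lit 5) (nat_lit 348) (nat_lit 295) (nat_lit 137)) (XT.lf (nat_lit 0) (nat_lit 7251423538) (nat_lit 456) (nat_lit 3494420537) (nat_lit 76) (nat_lit 19079267445) (nat_lit 120) (nat_lit 5) (nat_lit 126) (nat_lit 5) (nat_lit 121) (nat_lit 5) (nat_lit 349) (nat_lit 295) (nat_lit 136))) (XT.nd (nat_lit 78) (nat_lit 380) (nat_lit 0) (XT.lf (nat_lit 0) (nat_lit 14265612045) (nat_lit 456) (nat_lit 13345917253) (nat_lit 76) (nat_lit 2820734804) (nat_lit 115) (nat_lit 5) (nat_lit 121) (nat_lit 5) (nat_lit 116) (nat_lit 5) (nat_lit 350) (nat_lit 295) (nat_lit 135)) (XT.lf (nat_lit 0) (nat_lit 7288239682) (nat_lit 380) (nat_lit 14337616530) (nat_lit 456) (nat_lit 9429067344) (nat_lit 110) (nat_lit 5) (nat_lit 115) (nat_lit 5) (nat_lit 116) (nat_lit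 5) (nat_lit 351) (nat_lit 295) (nat_lit 134))))))) (XT.nd (nat_lit 37128) (nat_lit 0) (nat_lit 14212) (XT.nd (nat_lit 36582) (nat_lit 0) (nat_lit 19684) (XT.nd (nat_lit 36348) (nat_lit 0) (nat_lit 19532) (XT.nd (nat_lit 78) (nat_lit 380) (nat_lit 0) (XT.lf (nat_lit 0) (nat_lit 28713733728) (nat_lit 380) (nat_lit 576369589) (nat_lit 456) (nat_lit 2404500315) (nat_lit 110) (nat_lit 5) (nat_lit 115) (nat_lit 5) (nat_lit 116) (nat_lit 5) (nat_lit 352) (nat_lit 295) (nat_lit 133)) (XT.nd (nat_lit 36192) (nat_lit 0) (nat_lit 19532) (XT.lf (nat_lit 0) (nat_lit 4970607314) (nat_lit 380) (nat_lit 13808505932) (nat_lit 76) (nat_lit 13569674881) (nat_lit 105) (nat_lit 5) (nat_lit 110) (nat_lit 5) (nat_lit 106) (nat_lit 5) (nat_lit 353) (nat_lit 295) (nat_lit 132)) (XT.lf (nat_lit 0) (nat_lit 242011073) (nat_lit 0) (nat_lit 242011073) (nat_lit 1596) (nat_lit 5608419271) (nat_lit 362) (nat_lit 5) (nat_lit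 362) (nat_lit 3) (nat_lit 383) (nat_lit 3) (nat_lit 296) (nat_lit 296) (nat_lit 188)))) (XT.nd (nat_lit 78) (nat_lit 0) (nat_lit 76) (XT.lf (nat_lit 0) (nat_lit 1677116143) (nat_lit 1596) (nat_lit 3662098343) (nat_lit 1672) (nat_lit 7013867308) (nat_lit 362) (nat_lit 5) (nat_lit 383) (nat_lit 3) (nat_lit 384) (nat_lit 5) (nat_lit 297) (nat_lit 296) (nat_lit 187)) (XT.nd (nat_lit 78) (nat_lit 0) (nat_lit 0) (XT.lf (nat_lit 0) (nat_lit 2430332738) (nat_lit 1596) (nat_lit 7878303451) (nat_lit 1672) (nat_lit 2217259747) (nat_lit 363) (nat_lit 5) (nat_lit 384) (nat_lit 5) (nat_lit 385) (nat_lit 5) (nat_lit 298) (nat_lit 296) (nat_lit 186)) (XT.lf (nat_lit 76) (nat_lit 510483680) (nat_lit 0) (nat_lit 2735163462) (nat_lit 1672) (nat_lit 9457483223) (nat_lit 364) (nat_lit 5) (nat_lit 363) (nat_lit 5) (nat_lit 385) (nat_lit 5) (nat_lit 299) (nat_lit 296) (nat_lit 185))))) (XT.nd (nat_lit 234) (nat_lit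 0) (nat_lit 152) (XT.nd (nat_lit 78) (nat_lit 0) (nat_lit 76) (XT.lf (nat_lit 0) (nat_lit 4148244661) (nat_lit 1596) (nat_lit 3673076096) (nat_lit 1672) (nat_lit 5063129732) (nat_lit 364) (nat_lit 5) (nat_lit 385) (nat_lit 5) (nat_lit 386) (nat_lit 5) (nat_lit 300) (nat_lit 296) (nat_lit 184)) (XT.nd (nat_lit 78) (nat_lit 0) (nat_lit 0) (XT.lf (nat_lit 0) (nat_lit 5106658982) (nat_lit 1596) (nat_lit 7933281350) (nat_lit 1672) (nat_lit 30719510) (nat_lit 365) (nat_lit 5) (nat_lit 386) (nat_lit 5) (nat_lit 387) (nat_lit 5) (nat_lit 301) (nat_lit 296) (nat_lit 183)) (XT.lf (nat_lit 76) (nat_lit 946511581) (nat_lit 0) (nat_lit 5208353674) (nat_lit 1672) (nat_lit 7106393122) (nat_lit 366) (nat_lit 5) (nat_lit 365) (nat_lit 5) (nat_lit 387) (nat_lit 5) (nat_lit 302) (nat_lit 296) (nat_lit 182)))) (XT.nd (nat_lit 156) (nat_lit 0) (nat_lit 76) (XT.nd (nat_lit 78) (nat_lit 0) (nat_lit 0) (XT.lf (nat_lit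 0) (nat_lit 7285343059) (nat_lit 1596) (nat_lit 3288310821) (nat_lit 1672) (nat_lit 2882927483) (nat_lit 366) (nat_lit 5) (nat_lit 387) (nat_lit 5) (nat_lit 388) (nat_lit 5) (nat_lit 303) (nat_lit 296) (nat_lit 181)) (XT.lf (nat_lit 76) (nat_lit 6039522122) (nat_lit 0) (nat_lit 2463046228) (nat_lit 1672) (nat_lit 5154161358) (nat_lit 367) (nat_lit 5) (nat_lit 366) (nat_lit 5) (nat_lit 388) (nat_lit 5) (nat_lit 304) (nat_lit 296) (nat_lit 180))) (XT.nd (nat_lit 78) (nat_lit 0) (nat_lit 76) (XT.lf (nat_lit 76) (nat_lit 1800955867) (nat_lit 0) (nat_lit 8007091300) (nat_lit 1672) (nat_lit 4053822283) (nat_lit 368) (nat_lit 5) (nat_lit 367) (nat_lit 5) (nat_lit 389) (nat_lit 5) (nat_lit 305) (nat_lit 296) (nat_lit 179)) (XT.lf (nat_lit 0) (nat_lit 11202981503) (nat_lit 1596) (nat_lit 2499227297) (nat_lit 1672) (nat_lit 369969811) (nat_lit 368) (nat_lit 5) (nat_lit 389) (nat_lit 5) (nat_lit 390) (nat_lit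 5) (nat_lit 306) (nat_lit 296) (nat_lit 178)))))) (XT.nd (nat_lit 468) (nat_lit 4180) (nat_lit 0) (XT.nd (nat_lit 234) (nat_lit 0) (nat_lit 76) (XT.nd (nat_lit 78) (nat_lit 1596) (nat_lit 0) (XT.lf (nat_lit 76) (nat_lit 7378681071) (nat_lit 0) (nat_lit 5343040396) (nat_lit 1672) (nat_lit 1565456865) (nat_lit 369) (nat_lit 5) (nat_lit 368) (nat_lit 5) (nat_lit 390) (nat_lit 5) (nat_lit 307) (nat_lit 296) (nat_lit 177)) (XT.nd (nat_lit 78) (nat_lit 1672) (nat_lit 0) (XT.lf (nat_lit 76) (nat_lit 3083905424) (nat_lit 0) (nat_lit 11241417267) (nat_lit 1672) (nat_lit 182539213) (nat_lit 370) (nat_lit 5) (nat_lit 369) (nat_lit 5) (nat_lit 391) (nat_lit 5) (nat_lit 308) (nat_lit 296) (nat_lit 176)) (XT.lf (nat_lit 0) (nat_lit 1289773220) (nat_lit 1672) (nat_lit 1321792600) (nat_lit 1748) (nat_lit 12122173899) (nat_lit 347) (nat_lit 5) (nat_lit 369) (nat_lit 5) (nat_lit 370) (nat_lit 5) (nat_lit 309) (nat_lit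 296) (nat_lit 175)))) (XT.nd (nat_lit 78) (nat_lit 0) (nat_lit 76) (XT.lf (nat_lit 0) (nat_lit 2886520656) (nat_lit 1672) (nat_lit 5817705672) (nat_lit 1748) (nat_lit 6260506832) (nat_lit 348) (nat_lit 5) (nat_lit 370) (nat_lit 5) (nat_lit 371) (nat_lit 5) (nat_lit 310) (nat_lit 296) (nat_lit 174)) (XT.nd (nat_lit 78) (nat_lit 0) (nat_lit 0) (XT.lf (nat_lit 0) (nat_lit 4572351588) (nat_lit 1672) (nat_lit 10426430211) (nat_lit 1748) (nat_lit 203068787) (nat_lit 349) (nat_lit 5) (nat_lit 371) (nat_lit 5) (nat_lit 372) (nat_lit 5) (nat_lit 311) (nat_lit 296) (nat_lit 173)) (XT.lf (nat_lit 76) (nat_lit 251479796) (nat_lit 0) (nat_lit 6139602013) (nat_lit 1748) (nat_lit 9053370521) (nat_lit 350) (nat_lit 5) (nat_lit 349) (nat_lit 5) (nat_lit 372) (nat_lit 5) (nat_lit 312) (nat_lit 296) (nat_lit 172))))) (XT.nd (nat_lit 234) (nat_lit 1748) (nat_lit 0) (XT.nd (nat_lit 78) (nat_lit 2660) (nat_lit 0) (XT.lf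 (nat_lit 0) (nat_lit 8338107192) (nat_lit 1672) (nat_lit 4334497612) (nat_lit 76) (nat_lit 3020269437) (nat_lit 350) (nat_lit 5) (nat_lit 372) (nat_lit 5) (nat_lit 351) (nat_lit 5) (nat_lit 313) (nat_lit 296) (nat_lit 171)) (XT.nd (nat_lit 78) (nat_lit 988) (nat_lit 0) (XT.lf (nat_lit 0) (nat_lit 6885213473) (nat_lit 1672) (nat_lit 3527809610) (nat_lit 1748) (nat_lit 5534352423) (nat_lit 328) (nat_lit 5) (nat_lit 350) (nat_lit 5) (nat_lit 351) (nat_lit 5) (nat_lit 314) (nat_lit 296) (nat_lit 170)) (XT.lf (nat_lit 0) (nat_lit 2269354419) (nat_lit 988) (nat_lit 10347502825) (nat_lit 1064) (nat_lit 3591336966) (nat_lit 315) (nat_lit 5) (nat_lit 328) (nat_lit 5) (nat_lit 329) (nat_lit 5) (nat_lit 315) (nat_lit 296) (nat_lit 169)))) (XT.nd (nat_lit 156) (nat_lit 836) (nat_lit 0) (XT.nd (nat_lit 78) (nat_lit 912) (nat_lit 0) (XT.lf (nat_lit 0) (nat_lit 14027293966) (nat_lit 988) (nat_lit 928850966)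 (nat_lit 1064) (nat_lit 1519321130) (nat_lit 315) (nat_lit 5) (nat_lit 328) (nat_lit 5) (nat_lit 329) (nat_lit 5) (nat_lit 316) (nat_lit 296) (nat_lit 168)) (XT.lf (nat_lit 0) (nat_lit 710666762) (nat_lit 912) (nat_lit 7312899903) (nat_lit 76) (nat_lit 8725046669) (nat_lit 303) (nat_lit 5) (nat_lit 315) (nat_lit 5) (nat_lit 304) (nat_lit 5) (nat_lit 317) (nat_lit 296) (nat_lit 167))) (XT.nd (nat_lit 78) (nat_lit 0) (nat_lit 0) (XT.lf (nat_lit 0) (nat_lit 3036676450) (nat_lit 912) (nat_lit 12328203362) (nat_lit 76) (nat_lit 1663893273) (nat_lit 292) (nat_lit 5) (nat_lit 304) (nat_lit 5) (nat_lit 293) (nat_lit 5) (nat_lit 318) (nat_lit 296) (nat_lit 166)) (XT.lf (nat_lit 0) (nat_lit 5521554461) (nat_lit 912) (nat_lit 209459352) (nat_lit 76) (nat_lit 11584555833) (nat_lit 292) (nat_lit 5) (nat_lit 304) (nat_lit 5) (nat_lit 293) (nat_lit 5) (nat_lit 319) (nat_lit 296) (nat_lit 165))))))))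
noncomputable def xc107 : XT := (XT.nd (nat_lit 2028) (nat_lit 2052) (nat_lit 0) (XT.nd (nat_lit 1014) (nat_lit 4788) (nat_lit 0) (XT.nd (nat_lit 468) (nat_lit 3268) (nat_lit 0) (XT.nd (nat_lit 234) (nat_lit 1520) (nat_lit 0) (XT.nd (nat_lit 78) (nat_lit 1444) (nat_lit 0) (XT.lf (nat_lit 0) (nat_lit 8175358474) (nat_lit 836) (nat_lit 5214909053) (nat_lit 76) (nat_lit 4218828360) (nat_lit 282) (nat_lit 5) (nat_lit 293) (nat_lit 5) (nat_lit 283) (nat_lit 5) (nat_lit 320) (nat_lit 296) (nat_lit 164)) (XT.nd (nat_lit 78) (nat_lit 684) (nat_lit 0) (XT.lf (nat_lit 0) (nat_lit 7514276976) (nat_lit 760) (nat_lit 3469339115) (nat_lit 836) (nat_lit 6926328020) (nat_lit 272) (nat_lit 5) (nat_lit 282) (nat_lit 5) (nat_lit 283) (nat_lit 5) (nat_lit 321) (nat_lit 296) (nat_lit 163)) (XT.lf (nat_lit 0) (nat_lit 2452303679) (nat_lit 684) (nat_lit 11505744767) (nat_lit 760) (nat_lit 4260143405) (nat_lit 263) (nat_lit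 5) (nat_lit 272) (nat_lit 5) (nat_lit 273) (nat_lit 5) (nat_lit 322) (nat_lit 296) (nat_lit 162)))) (XT.nd (nat_lit 78) (nat_lit 1520) (nat_lit 0) (XT.lf (nat_lit 0) (nat_lit 15791305085) (nat_lit 684) (nat_lit 1310818354) (nat_lit 760) (nat_lit 1431967632) (nat_lit 263) (nat_lit 5) (nat_lit 272) (nat_lit 5) (nat_lit 273) (nat_lit 5) (nat_lit 323) (nat_lit 296) (nat_lit 161)) (XT.nd (nat_lit 78) (nat_lit 684) (nat_lit 0) (XT.lf (nat_lit 0) (nat_lit 1579080213) (nat_lit 836) (nat_lit 8128424274) (nat_lit 76) (nat_lit 9149433091) (nat_lit 252) (nat_lit 5) (nat_lit 263) (nat_lit 5) (nat_lit 253) (nat_lit 5) (nat_lit 324) (nat_lit 296) (nat_lit 160)) (XT.lf (nat_lit 0) (nat_lit 4716816532) (nat_lit 760) (nat_lit 13700418668) (nat_lit 76) (nat_lit 770940049) (nat_lit 243) (nat_lit 5) (nat_lit 253) (nat_lit 5) (nat_lit 244) (nat_lit 5) (nat_lit 325) (nat_lit 296) (nat_lit 159))))) (XT.nd (nat_lit 234)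 (nat_lit 1976) (nat_lit 0) (XT.nd (nat_lit 78) (nat_lit 608) (nat_lit 0) (XT.lf (nat_lit 0) (nat_lit 17298294) (nat_lit 684) (nat_lit 8039630180) (nat_lit 760) (nat_lit 11470267687) (nat_lit 234) (nat_lit 5) (nat_lit 243) (nat_lit 5) (nat_lit 244) (nat_lit 5) (nat_lit 326) (nat_lit 296) (nat_lit 158)) (XT.nd (nat_lit 78) (nat_lit 608) (nat_lit 0) (XT.lf (nat_lit 0) (nat_lit 11595932105) (nat_lit 760) (nat_lit 5571381225) (nat_lit 76) (nat_lit 2707111269) (nat_lit 234) (nat_lit 5) (nat_lit 244) (nat_lit 5) (nat_lit 235) (nat_lit 5) (nat_lit 327) (nat_lit 296) (nat_lit 157)) (XT.lf (nat_lit 0) (nat_lit 8834661814) (nat_lit 608) (nat_lit 6505951714) (nat_lit 684) (nat_lit 4889476559) (nat_lit 226) (nat_lit 5) (nat_lit 234) (nat_lit 5) (nat_lit 235) (nat_lit 5) (nat_lit 328) (nat_lit 296) (nat_lit 156)))) (XT.nd (nat_lit 156) (nat_lit 1216) (nat_lit 0) (XT.nd (nat_lit 78) (nat_lit 76) (nat_lit 0)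 (XT.lf (nat_lit 0) (nat_lit 3152764546) (nat_lit 684) (nat_lit 16121032546) (nat_lit 760) (nat_lit 1321115263) (nat_lit 217) (nat_lit 5) (nat_lit 226) (nat_lit 5) (nat_lit 227) (nat_lit 5) (nat_lit 329) (nat_lit 296) (nat_lit 155)) (XT.lf (nat_lit 0) (nat_lit 2433456901) (nat_lit 760) (nat_lit 2747761872) (nat_lit 76) (nat_lit 15786963632) (nat_lit 216) (nat_lit 5) (nat_lit 226) (nat_lit 5) (nat_lit 217) (nat_lit 5) (nat_lit 330) (nat_lit 296) (nat_lit 154))) (XT.nd (nat_lit 78) (nat_lit 608) (nat_lit 0) (XT.lf (nat_lit 0) (nat_lit 6393408905) (nat_lit 684) (nat_lit 8860555824) (nat_lit 76) (nat_lit 6096306636) (nat_lit 208) (nat_lit 5) (nat_lit 217) (nat_lit 5) (nat_lit 209) (nat_lit 5) (nat_lit 331) (nat_lit 296) (nat_lit 153)) (XT.lf (nat_lit 0) (nat_lit 6516826347) (nat_lit 608) (nat_lit 4040389742) (nat_lit 684) (nat_lit 11184914789) (nat_lit 200) (nat_lit 5) (nat_lit 208) (nat_lit 5) (nat_lit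 209) (nat_lit 5) (nat_lit 332) (nat_lit 296) (nat_lit 152)))))) (XT.nd (nat_lit 468) (nat_lit 2508) (nat_lit 0) (XT.nd (nat_lit 234) (nat_lit 1064) (nat_lit 0) (XT.nd (nat_lit 78) (nat_lit 684) (nat_lit 0) (XT.lf (nat_lit 0) (nat_lit 274358172) (nat_lit 532) (nat_lit 14672130367) (nat_lit 608) (nat_lit 7197255372) (nat_lit 193) (nat_lit 5) (nat_lit 200) (nat_lit 5) (nat_lit 201) (nat_lit 5) (nat_lit 333) (nat_lit 296) (nat_lit 151)) (XT.nd (nat_lit 78) (nat_lit 684) (nat_lit 0) (XT.lf (nat_lit 0) (nat_lit 16407884076) (nat_lit 532) (nat_lit 3179366385) (nat_lit 608) (nat_lit 2967767146) (nat_lit 193) (nat_lit 5) (nat_lit 200) (nat_lit 5) (nat_lit 201) (nat_lit 5) (nat_lit 334) (nat_lit 296) (nat_lit 150)) (XT.lf (nat_lit 0) (nat_lit 1483072880) (nat_lit 684) (nat_lit 12874968426) (nat_lit 76) (nat_lit 8618162406) (nat_lit 184) (nat_lit 5) (nat_lit 193) (nat_lit 5) (nat_lit 185) (nat_lit 5) (nat_lit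 335) (nat_lit 296) (nat_lit 149)))) (XT.nd (nat_lit 78) (nat_lit 532) (nat_lit 0) (XT.lf (nat_lit 0) (nat_lit 3504648081) (nat_lit 532) (nat_lit 2598869284) (nat_lit 608) (nat_lit 17304595558) (nat_lit 177) (nat_lit 5) (nat_lit 184) (nat_lit 5) (nat_lit 185) (nat_lit 5) (nat_lit 336) (nat_lit 296) (nat_lit 148)) (XT.nd (nat_lit 78) (nat_lit 532) (nat_lit 0) (XT.lf (nat_lit 0) (nat_lit 11002580072) (nat_lit 608) (nat_lit 3373618380) (nat_lit 76) (nat_lit 9473988488) (nat_lit 177) (nat_lit 5) (nat_lit 185) (nat_lit 5) (nat_lit 178) (nat_lit 5) (nat_lit 337) (nat_lit 296) (nat_lit 147)) (XT.lf (nat_lit 0) (nat_lit 13804207220) (nat_lit 532) (nat_lit 2342109455) (nat_lit 608) (nat_lit 8157259867) (nat_lit 170) (nat_lit 5) (nat_lit 177) (nat_lit 5) (nat_lit 178) (nat_lit 5) (nat_lit 338) (nat_lit 296) (nat_lit 146))))) (XT.nd (nat_lit 234) (nat_lit 1444) (nat_lit 0) (XT.nd (nat_lit 78) (nat_lit 608)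 (nat_lit 0) (XT.lf (nat_lit 0) (nat_lit 6785437964) (nat_lit 456) (nat_lit 14782144158) (nat_lit 532) (nat_lit 3200528561) (nat_lit 164) (nat_lit 5) (nat_lit 170) (nat_lit 5) (nat_lit 171) (nat_lit 5) (nat_lit 339) (nat_lit 296) (nat_lit 145)) (XT.nd (nat_lit 78) (nat_lit 532) (nat_lit 0) (XT.lf (nat_lit 0) (nat_lit 1958206545) (nat_lit 532) (nat_lit 552659652) (nat_lit 76) (nat_lit 22733908436) (nat_lit 163) (nat_lit 5) (nat_lit 170) (nat_lit 5) (nat_lit 164) (nat_lit 5) (nat_lit 340) (nat_lit 296) (nat_lit 144)) (XT.lf (nat_lit 0) (nat_lit 7400639968) (nat_lit 608) (nat_lit 8201363940) (nat_lit 76) (nat_lit 10129869748) (nat_lit 156) (nat_lit 5) (nat_lit 164) (nat_lit 5) (nat_lit 157) (nat_lit 5) (nat_lit 341) (nat_lit 296) (nat_lit 143)))) (XT.nd (nat_lit 156) (nat_lit 532) (nat_lit 0) (XT.nd (nat_lit 78) (nat_lit 456) (nat_lit 0) (XT.lf (nat_lit 0) (nat_lit 10033856376) (nat_lit 456) (nat_lit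 3049630843) (nat_lit 532) (nat_lit 13148562063) (nat_lit 150) (nat_lit 5) (nat_lit 156) (nat_lit 5) (nat_lit 157) (nat_lit 5) (nat_lit 342) (nat_lit 296) (nat_lit 142)) (XT.lf (nat_lit 0) (nat_lit 2134633159) (nat_lit 456) (nat_lit 16927727140) (nat_lit 532) (nat_lit 7682365332) (nat_lit 144) (nat_lit 5) (nat_lit 150) (nat_lit 5) (nat_lit 151) (nat_lit 5) (nat_lit 343) (nat_lit 296) (nat_lit 141))) (XT.nd (nat_lit 78) (nat_lit 532) (nat_lit 0) (XT.lf (nat_lit 0) (nat_lit 21207554682) (nat_lit 456) (nat_lit 4134837575) (nat_lit 532) (nat_lit 1927960239) (nat_lit 144) (nat_lit 5) (nat_lit 150) (nat_lit 5) (nat_lit 151) (nat_lit 5) (nat_lit 344) (nat_lit 296) (nat_lit 140)) (XT.lf (nat_lit 0) (nat_lit 4083558635) (nat_lit 532) (nat_lit 14692082542) (nat_lit 76) (nat_lit 9032854878) (nat_lit 137) (nat_lit 5) (nat_lit 144) (nat_lit 5) (nat_lit 138) (nat_lit 5) (nat_lit 345) (nat_lit 296) (nat_lit 139)))))))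 (XT.nd (nat_lit 37206) (nat_lit 0) (nat_lit 16568) (XT.nd (nat_lit 468) (nat_lit 380) (nat_lit 0) (XT.nd (nat_lit 234) (nat_lit 836) (nat_lit 0) (XT.nd (nat_lit 78) (nat_lit 380) (nat_lit 0) (XT.lf (nat_lit 0) (nat_lit 4600838569) (nat_lit 456) (nat_lit 5739517099) (nat_lit 532) (nat_lit 18020356474) (nat_lit 131) (nat_lit 5) (nat_lit 137) (nat_lit 5) (nat_lit 138) (nat_lit 5) (nat_lit 346) (nat_lit 296) (nat_lit 138)) (XT.nd (nat_lit 78) (nat_lit 380) (nat_lit 0) (XT.lf (nat_lit 0) (nat_lit 16927229281) (nat_lit 532) (nat_lit 4315102906) (nat_lit 76) (nat_lit 7684320525) (nat_lit 131) (nat_lit 5) (nat_lit 138) (nat_lit 5) (nat_lit 132) (nat_lit 5) (nat_lit 347) (nat_lit 296) (nat_lit 137)) (XT.lf (nat_lit 0) (nat_lit 15872427728) (nat_lit 380) (nat_lit 7973185934) (nat_lit 456) (nat_lit 5661285041) (nat_lit 126) (nat_lit 5) (nat_lit 131) (nat_lit 5) (nat_lit 132) (nat_lit 5) (nat_lit 348) (nat_lit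 296) (nat_lit 136)))) (XT.nd (nat_lit 78) (nat_lit 380) (nat_lit 0) (XT.lf (nat_lit 0) (nat_lit 958549343) (nat_lit 456) (nat_lit 23448280929) (nat_lit 76) (nat_lit 5695555807) (nat_lit 120) (nat_lit 5) (nat_lit 126) (nat_lit 5) (nat_lit 121) (nat_lit 5) (nat_lit 349) (nat_lit 296) (nat_lit 135)) (XT.nd (nat_lit 78) (nat_lit 380) (nat_lit 0) (XT.lf (nat_lit 0) (nat_lit 7839524980) (nat_lit 456) (nat_lit 3077983091) (nat_lit 76) (nat_lit 19794697259) (nat_lit 120) (nat_lit 5) (nat_lit 126) (nat_lit 5) (nat_lit 121) (nat_lit 5) (nat_lit 350) (nat_lit 296) (nat_lit 134)) (XT.lf (nat_lit 0) (nat_lit 15057647758) (nat_lit 456) (nat_lit 13226950731) (nat_lit 76) (nat_lit 3053111062) (nat_lit 115) (nat_lit 5) (nat_lit 121) (nat_lit 5) (nat_lit 116) (nat_lit 5) (nat_lit 351) (nat_lit 296) (nat_lit 133))))) (XT.nd (nat_lit 36426) (nat_lit 0) (nat_lit 19152) (XT.nd (nat_lit 78) (nat_lit 0) (nat_lit 0) (XT.lf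 (nat_lit 0) (nat_lit 8017805173) (nat_lit 380) (nat_lit 14613607395) (nat_lit 456) (nat_lit 9347788977) (nat_lit 110) (nat_lit 5) (nat_lit 115) (nat_lit 5) (nat_lit 116) (nat_lit 5) (nat_lit 352) (nat_lit 296) (nat_lit 132)) (XT.nd (nat_lit 36270) (nat_lit 0) (nat_lit 19152) (XT.lf (nat_lit 0) (nat_lit 30071182924) (nat_lit 380) (nat_lit 444012491) (nat_lit 456) (nat_lit 2123091260) (nat_lit 110) (nat_lit 5) (nat_lit 115) (nat_lit 5) (nat_lit 116) (nat_lit 5) (nat_lit 353) (nat_lit 296) (nat_lit 131)) (XT.lf (nat_lit 0) (nat_lit 570358622) (nat_lit 0) (nat_lit 570358622) (nat_lit 1596) (nat_lit 5120977235) (nat_lit 362) (nat_lit 5) (nat_lit 362) (nat_lit 3) (nat_lit 383) (nat_lit 3) (nat_lit 297) (nat_lit 297) (nat_lit 186)))) (XT.nd (nat_lit 156) (nat_lit 0) (nat_lit 76) (XT.nd (nat_lit 78) (nat_lit 0) (nat_lit 76) (XT.lf (nat_lit 0) (nat_lit 2970322294) (nat_lit 1596) (nat_lit 3118190209) (nat_lit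 1672) (nat_lit 6608989928) (nat_lit 362) (nat_lit 5) (nat_lit 383) (nat_lit 3) (nat_lit 384) (nat_lit 5) (nat_lit 298) (nat_lit 297) (nat_lit 185)) (XT.lf (nat_lit 0) (nat_lit 3710424573) (nat_lit 1596) (nat_lit 7442309175) (nat_lit 1672) (nat_lit 1723519736) (nat_lit 363) (nat_lit 5) (nat_lit 384) (nat_lit 5) (nat_lit 385) (nat_lit 5) (nat_lit 299) (nat_lit 297) (nat_lit 184))) (XT.nd (nat_lit 78) (nat_lit 0) (nat_lit 76) (XT.lf (nat_lit 76) (nat_lit 1187233598) (nat_lit 0) (nat_lit 3332098653) (nat_lit 1672) (nat_lit 8540127175) (nat_lit 364) (nat_lit 5) (nat_lit 363) (nat_lit 5) (nat_lit 385) (nat_lit 5) (nat_lit 300) (nat_lit 297) (nat_lit 183)) (XT.lf (nat_lit 0) (nat_lit 5411500496) (nat_lit 1596) (nat_lit 3113808960) (nat_lit 1672) (nat_lit 4721695916) (nat_lit 364) (nat_lit 5) (nat_lit 385) (nat_lit 5) (nat_lit 386) (nat_lit 5) (nat_lit 301) (nat_lit 297) (nat_lit 182)))))) (XT.nd (nat_lit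 546) (nat_lit 2736) (nat_lit 0) (XT.nd (nat_lit 234) (nat_lit 0) (nat_lit 152) (XT.nd (nat_lit 78) (nat_lit 0) (nat_lit 76) (XT.lf (nat_lit 76) (nat_lit 5950310412) (nat_lit 0) (nat_lit 419255547) (nat_lit 1672) (nat_lit 7069852095) (nat_lit 365) (nat_lit 5) (nat_lit 364) (nat_lit 5) (nat_lit 386) (nat_lit 5) (nat_lit 302) (nat_lit 297) (nat_lit 181)) (XT.nd (nat_lit 78) (nat_lit 0) (nat_lit 76) (XT.lf (nat_lit 76) (nat_lit 1648689566) (nat_lit 0) (nat_lit 5769939127) (nat_lit 1672) (nat_lit 6217751649) (nat_lit 366) (nat_lit 5) (nat_lit 365) (nat_lit 5) (nat_lit 387) (nat_lit 5) (nat_lit 303) (nat_lit 297) (nat_lit 180)) (XT.lf (nat_lit 0) (nat_lit 8549035174) (nat_lit 1596) (nat_lit 2708193032) (nat_lit 1672) (nat_lit 2581047537) (nat_lit 366) (nat_lit 5) (nat_lit 387) (nat_lit 5) (nat_lit 388) (nat_lit 5) (nat_lit 304) (nat_lit 297) (nat_lit 179)))) (XT.nd (nat_lit 156) (nat_lit 0) (nat_lit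 152) (XT.nd (nat_lit 78) (nat_lit 0) (nat_lit 76) (XT.lf (nat_lit 76) (nat_lit 6888462709) (nat_lit 0) (nat_lit 2888209291) (nat_lit 1672) (nat_lit 4268310695) (nat_lit 367) (nat_lit 5) (nat_lit 366) (nat_lit 5) (nat_lit 388) (nat_lit 5) (nat_lit 305) (nat_lit 297) (nat_lit 178)) (XT.lf (nat_lit 76) (nat_lit 2535250544) (nat_lit 0) (nat_lit 8558586727) (nat_lit 1672) (nat_lit 3163020033) (nat_lit 368) (nat_lit 5) (nat_lit 367) (nat_lit 5) (nat_lit 389) (nat_lit 5) (nat_lit 306) (nat_lit 297) (nat_lit 177))) (XT.nd (nat_lit 78) (nat_lit 0) (nat_lit 0) (XT.lf (nat_lit 0) (nat_lit 12499777391) (nat_lit 1596) (nat_lit 1891529083) (nat_lit 1672) (nat_lit 82816323) (nat_lit 368) (nat_lit 5) (nat_lit 389) (nat_lit 5) (nat_lit 390) (nat_lit 5) (nat_lit 307) (nat_lit 297) (nat_lit 176)) (XT.lf (nat_lit 76) (nat_lit 8271640945) (nat_lit 0) (nat_lit 5768817336) (nat_lit 1672) (nat_lit 655615985) (nat_lit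 369) (nat_lit 5) (nat_lit 368) (nat_lit 5) (nat_lit 390) (nat_lit 5) (nat_lit 308) (nat_lit 297) (nat_lit 175))))) (XT.nd (nat_lit 234) (nat_lit 1444) (nat_lit 0) (XT.nd (nat_lit 78) (nat_lit 0) (nat_lit 0) (XT.lf (nat_lit 0) (nat_lit 733975206) (nat_lit 1672) (nat_lit 11070505058) (nat_lit 1748) (nat_lit 3119320794) (nat_lit 347) (nat_lit 5) (nat_lit 369) (nat_lit 5) (nat_lit 370) (nat_lit 5) (nat_lit 309) (nat_lit 297) (nat_lit 174)) (XT.nd (nat_lit 78) (nat_lit 0) (nat_lit 76) (XT.lf (nat_lit 0) (nat_lit 2221208883) (nat_lit 1672) (nat_lit 686738225) (nat_lit 1748) (nat_lit 12249046435) (nat_lit 347) (nat_lit 5) (nat_lit 369) (nat_lit 5) (nat_lit 370) (nat_lit 5) (nat_lit 310) (nat_lit 297) (nat_lit 173)) (XT.lf (nat_lit 0) (nat_lit 3842820266) (nat_lit 1672) (nat_lit 5308830978) (nat_lit 1748) (nat_lit 6243752630) (nat_lit 348) (nat_lit 5) (nat_lit 370) (nat_lit 5) (nat_lit 371) (nat_lit 5)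 (nat_lit 311) (nat_lit 297) (nat_lit 172)))) (XT.nd (nat_lit 156) (nat_lit 1596) (nat_lit 0) (XT.nd (nat_lit 78) (nat_lit 0) (nat_lit 0) (XT.lf (nat_lit 0) (nat_lit 5557114645) (nat_lit 1672) (nat_lit 10047932859) (nat_lit 1748) (nat_lit 35055097) (nat_lit 349) (nat_lit 5) (nat_lit 371) (nat_lit 5) (nat_lit 372) (nat_lit 5) (nat_lit 312) (nat_lit 297) (nat_lit 171)) (XT.lf (nat_lit 76) (nat_lit 939099085) (nat_lit 0) (nat_lit 6471036025) (nat_lit 1748) (nat_lit 8480277527) (nat_lit 350) (nat_lit 5) (nat_lit 349) (nat_lit 5) (nat_lit 372) (nat_lit 5) (nat_lit 313) (nat_lit 297) (nat_lit 170))) (XT.nd (nat_lit 78) (nat_lit 1672) (nat_lit 0) (XT.lf (nat_lit 0) (nat_lit 9390546358) (nat_lit 1672) (nat_lit 3786470233) (nat_lit 76) (nat_lit 2969795195) (nat_lit 350) (nat_lit 5) (nat_lit 372) (nat_lit 5) (nat_lit 351) (nat_lit 5) (nat_lit 314) (nat_lit 297) (nat_lit 169)) (XT.lf (nat_lit 0) (nat_lit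 7758831429) (nat_lit 1672) (nat_lit 3749841459) (nat_lit 1748) (nat_lit 4900679319) (nat_lit 328) (nat_lit 5) (nat_lit 350) (nat_lit 5) (nat_lit 351) (nat_lit 5) (nat_lit 315) (nat_lit 297) (nat_lit 168))))))))
noncomputable def xc108 : XT := (XT.nd (nat_lit 2028) (nat_lit 3648) (nat_lit 0) (XT.nd (nat_lit 1014) (nat_lit 5396) (nat_lit 0) (XT.nd (nat_lit 468) (nat_lit 3648) (nat_lit 0) (XT.nd (nat_lit 234) (nat_lit 1596) (nat_lit 0) (XT.nd (nat_lit 78) (nat_lit 912) (nat_lit 0) (XT.lf (nat_lit 0) (nat_lit 3010594285) (nat_lit 988) (nat_lit 10748852555) (nat_lit 1064) (nat_lit 2918954837) (nat_lit 315) (nat_lit 5) (nat_lit 328) (nat_lit 5) (nat_lit 329) (nat_lit 5) (nat_lit 316) (nat_lit 297) (nat_lit 167)) (XT.nd (nat_lit 78) (nat_lit 912) (nat_lit 0) (XT.lf (nat_lit 0) (nat_lit 15101665439) (nat_lit 988) (nat_lit 1044992849) (nat_lit 1064) (nat_lit 807500533) (nat_lit 315) (nat_lit 5) (nat_lit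 328) (nat_lit 5) (nat_lit 329) (nat_lit 5) (nat_lit 317) (nat_lit 297) (nat_lit 166)) (XT.lf (nat_lit 0) (nat_lit 1461428440) (nat_lit 912) (nat_lit 6863061758) (nat_lit 76) (nat_lit 8911293442) (nat_lit 303) (nat_lit 5) (nat_lit 315) (nat_lit 5) (nat_lit 304) (nat_lit 5) (nat_lit 318) (nat_lit 297) (nat_lit 165)))) (XT.nd (nat_lit 78) (nat_lit 760) (nat_lit 0) (XT.lf (nat_lit 0) (nat_lit 3839895835) (nat_lit 912) (nat_lit 12024402134) (nat_lit 76) (nat_lit 1660417034) (nat_lit 292) (nat_lit 5) (nat_lit 304) (nat_lit 5) (nat_lit 293) (nat_lit 5) (nat_lit 319) (nat_lit 297) (nat_lit 164)) (XT.nd (nat_lit 78) (nat_lit 0) (nat_lit 0) (XT.lf (nat_lit 0) (nat_lit 444107955) (nat_lit 760) (nat_lit 5937354342) (nat_lit 836) (nat_lit 11439030095) (nat_lit 282) (nat_lit 5) (nat_lit 292) (nat_lit 5) (nat_lit 293) (nat_lit 5) (nat_lit 320) (nat_lit 297) (nat_lit 163)) (XT.lf (nat_lit 0) (nat_lit 9095829472)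 (nat_lit 836) (nat_lit 4713584533) (nat_lit 76) (nat_lit 4313810632) (nat_lit 282) (nat_lit 5) (nat_lit 293) (nat_lit 5) (nat_lit 283) (nat_lit 5) (nat_lit 321) (nat_lit 297) (nat_lit 162))))) (XT.nd (nat_lit 234) (nat_lit 2204) (nat_lit 0) (XT.nd (nat_lit 78) (nat_lit 684) (nat_lit 0) (XT.lf (nat_lit 0) (nat_lit 8386805511) (nat_lit 760) (nat_lit 3586064393) (nat_lit 836) (nat_lit 6460556341) (nat_lit 272) (nat_lit 5) (nat_lit 282) (nat_lit 5) (nat_lit 283) (nat_lit 5) (nat_lit 322) (nat_lit 297) (nat_lit 161)) (XT.nd (nat_lit 78) (nat_lit 0) (nat_lit 0) (XT.lf (nat_lit 0) (nat_lit 3176147390) (nat_lit 684) (nat_lit 11845314261) (nat_lit 760) (nat_lit 3729779333) (nat_lit 263) (nat_lit 5) (nat_lit 272) (nat_lit 5) (nat_lit 273) (nat_lit 5) (nat_lit 323) (nat_lit 297) (nat_lit 160)) (XT.lf (nat_lit 0) (nat_lit 16896378801) (nat_lit 684) (nat_lit 1344703246) (nat_lit 760) (nat_lit 835928239) (nat_lit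 263) (nat_lit 5) (nat_lit 272) (nat_lit 5) (nat_lit 273) (nat_lit 5) (nat_lit 324) (nat_lit 297) (nat_lit 159)))) (XT.nd (nat_lit 156) (nat_lit 684) (nat_lit 0) (XT.nd (nat_lit 78) (nat_lit 684) (nat_lit 0) (XT.lf (nat_lit 0) (nat_lit 2242880738) (nat_lit 836) (nat_lit 7729579489) (nat_lit 76) (nat_lit 9437299501) (nat_lit 252) (nat_lit 5) (nat_lit 263) (nat_lit 5) (nat_lit 253) (nat_lit 5) (nat_lit 325) (nat_lit 297) (nat_lit 158)) (XT.lf (nat_lit 0) (nat_lit 5461092826) (nat_lit 760) (nat_lit 13466760737) (nat_lit 76) (nat_lit 823370329) (nat_lit 243) (nat_lit 5) (nat_lit 253) (nat_lit 5) (nat_lit 244) (nat_lit 5) (nat_lit 326) (nat_lit 297) (nat_lit 157))) (XT.nd (nat_lit 78) (nat_lit 0) (nat_lit 0) (XT.lf (nat_lit 0) (nat_lit 652028721) (nat_lit 684) (nat_lit 8235940667) (nat_lit 760) (nat_lit 11212730581) (nat_lit 234) (nat_lit 5) (nat_lit 243) (nat_lit 5) (nat_lit 244) (nat_lit 5) (nat_lit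 327) (nat_lit 297) (nat_lit 156)) (XT.lf (nat_lit 0) (nat_lit 12516260980) (nat_lit 760) (nat_lit 5111112783) (nat_lit 76) (nat_lit 2831324442) (nat_lit 234) (nat_lit 5) (nat_lit 244) (nat_lit 5) (nat_lit 235) (nat_lit 5) (nat_lit 328) (nat_lit 297) (nat_lit 155)))))) (XT.nd (nat_lit 468) (nat_lit 2280) (nat_lit 0) (XT.nd (nat_lit 234) (nat_lit 1748) (nat_lit 0) (XT.nd (nat_lit 78) (nat_lit 760) (nat_lit 0) (XT.lf (nat_lit 0) (nat_lit 9716932567) (nat_lit 608) (nat_lit 6643684424) (nat_lit 684) (nat_lit 4464684842) (nat_lit 226) (nat_lit 5) (nat_lit 234) (nat_lit 5) (nat_lit 235) (nat_lit 5) (nat_lit 329) (nat_lit 297) (nat_lit 154)) (XT.nd (nat_lit 78) (nat_lit 76) (nat_lit 0) (XT.lf (nat_lit 0) (nat_lit 3865698902) (nat_lit 684) (nat_lit 16534169603) (nat_lit 760) (nat_lit 801453242) (nat_lit 217) (nat_lit 5) (nat_lit 226) (nat_lit 5) (nat_lit 227) (nat_lit 5) (nat_lit 330) (nat_lit 297) (nat_lit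 153)) (XT.lf (nat_lit 0) (nat_lit 3042344315) (nat_lit 760) (nat_lit 2222274260) (nat_lit 76) (nat_lit 16321433957) (nat_lit 216) (nat_lit 5) (nat_lit 226) (nat_lit 5) (nat_lit 217) (nat_lit 5) (nat_lit 331) (nat_lit 297) (nat_lit 152)))) (XT.nd (nat_lit 78) (nat_lit 1140) (nat_lit 0) (XT.lf (nat_lit 0) (nat_lit 7109849406) (nat_lit 684) (nat_lit 8517867111) (nat_lit 76) (nat_lit 6352125883) (nat_lit 208) (nat_lit 5) (nat_lit 217) (nat_lit 5) (nat_lit 209) (nat_lit 5) (nat_lit 332) (nat_lit 297) (nat_lit 151)) (XT.nd (nat_lit 78) (nat_lit 532) (nat_lit 0) (XT.lf (nat_lit 0) (nat_lit 7310964249) (nat_lit 608) (nat_lit 4076212555) (nat_lit 684) (nat_lit 10996521716) (nat_lit 200) (nat_lit 5) (nat_lit 208) (nat_lit 5) (nat_lit 209) (nat_lit 5) (nat_lit 333) (nat_lit 297) (nat_lit 150)) (XT.lf (nat_lit 0) (nat_lit 881487260) (nat_lit 532) (nat_lit 15016118005) (nat_lit 608) (nat_lit 6899977687) (nat_lit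 193) (nat_lit 5) (nat_lit 200) (nat_lit 5) (nat_lit 201) (nat_lit 5) (nat_lit 334) (nat_lit 297) (nat_lit 149))))) (XT.nd (nat_lit 234) (nat_lit 1064) (nat_lit 0) (XT.nd (nat_lit 78) (nat_lit 1216) (nat_lit 0) (XT.lf (nat_lit 0) (nat_lit 17481575300) (nat_lit 532) (nat_lit 3181372354) (nat_lit 608) (nat_lit 2558552253) (nat_lit 193) (nat_lit 5) (nat_lit 200) (nat_lit 5) (nat_lit 201) (nat_lit 5) (nat_lit 335) (nat_lit 297) (nat_lit 148)) (XT.nd (nat_lit 78) (nat_lit 532) (nat_lit 0) (XT.lf (nat_lit 0) (nat_lit 2009349127) (nat_lit 684) (nat_lit 12672999636) (nat_lit 76) (nat_lit 8973118328) (nat_lit 184) (nat_lit 5) (nat_lit 193) (nat_lit 5) (nat_lit 185) (nat_lit 5) (nat_lit 336) (nat_lit 297) (nat_lit 147)) (XT.lf (nat_lit 0) (nat_lit 4188462231) (nat_lit 532) (nat_lit 2569669311) (nat_lit 608) (nat_lit 17342418819) (nat_lit 177) (nat_lit 5) (nat_lit 184) (nat_lit 5) (nat_lit 185) (nat_lit 5)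 (nat_lit 337) (nat_lit 297) (nat_lit 146)))) (XT.nd (nat_lit 156) (nat_lit 532) (nat_lit 0) (XT.nd (nat_lit 78) (nat_lit 532) (nat_lit 0) (XT.lf (nat_lit 0) (nat_lit 11791108395) (nat_lit 608) (nat_lit 2904162015) (nat_lit 76) (nat_lit 9860888288) (nat_lit 177) (nat_lit 5) (nat_lit 185) (nat_lit 5) (nat_lit 178) (nat_lit 5) (nat_lit 338) (nat_lit 297) (nat_lit 145)) (XT.lf (nat_lit 0) (nat_lit 14779739993) (nat_lit 532) (nat_lit 2299709187) (nat_lit 608) (nat_lit 7943905591) (nat_lit 170) (nat_lit 5) (nat_lit 177) (nat_lit 5) (nat_lit 178) (nat_lit 5) (nat_lit 339) (nat_lit 297) (nat_lit 144))) (XT.nd (nat_lit 78) (nat_lit 76) (nat_lit 0) (XT.lf (nat_lit 0) (nat_lit 7549757599) (nat_lit 456) (nat_lit 15104875791) (nat_lit 532) (nat_lit 2847376248) (nat_lit 164) (nat_lit 5) (nat_lit 170) (nat_lit 5) (nat_lit 171) (nat_lit 5) (nat_lit 340) (nat_lit 297) (nat_lit 143)) (XT.lf (nat_lit 0) (nat_lit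 2447319002) (nat_lit 532) (nat_lit 18768990) (nat_lit 76) (nat_lit 23527095227) (nat_lit 163) (nat_lit 5) (nat_lit 170) (nat_lit 5) (nat_lit 164) (nat_lit 5) (nat_lit 341) (nat_lit 297) (nat_lit 142))))))) (XT.nd (nat_lit 37362) (nat_lit 0) (nat_lit 17556) (XT.nd (nat_lit 468) (nat_lit 1216) (nat_lit 0) (XT.nd (nat_lit 234) (nat_lit 988) (nat_lit 0) (XT.nd (nat_lit 78) (nat_lit 912) (nat_lit 0) (XT.lf (nat_lit 0) (nat_lit 8044786892) (nat_lit 608) (nat_lit 7897900766) (nat_lit 76) (nat_lit 10552381860) (nat_lit 156) (nat_lit 5) (nat_lit 164) (nat_lit 5) (nat_lit 157) (nat_lit 5) (nat_lit 342) (nat_lit 297) (nat_lit 141)) (XT.nd (nat_lit 78) (nat_lit 456) (nat_lit 0) (XT.lf (nat_lit 0) (nat_lit 10875461110) (nat_lit 456) (nat_lit 3013873332) (nat_lit 532) (nat_lit 13121100931) (nat_lit 150) (nat_lit 5) (nat_lit 156) (nat_lit 5) (nat_lit 157) (nat_lit 5) (nat_lit 343) (nat_lit 297) (nat_lit 140))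 (XT.lf (nat_lit 0) (nat_lit 2738114280) (nat_lit 456) (nat_lit 17301724850) (nat_lit 532) (nat_lit 7498816560) (nat_lit 144) (nat_lit 5) (nat_lit 150) (nat_lit 5) (nat_lit 151) (nat_lit 5) (nat_lit 344) (nat_lit 297) (nat_lit 139)))) (XT.nd (nat_lit 78) (nat_lit 988) (nat_lit 0) (XT.lf (nat_lit 0) (nat_lit 22367511542) (nat_lit 456) (nat_lit 4128946678) (nat_lit 532) (nat_lit 1583838141) (nat_lit 144) (nat_lit 5) (nat_lit 150) (nat_lit 5) (nat_lit 151) (nat_lit 5) (nat_lit 345) (nat_lit 297) (nat_lit 138)) (XT.nd (nat_lit 78) (nat_lit 456) (nat_lit 0) (XT.lf (nat_lit 0) (nat_lit 4595439416) (nat_lit 532) (nat_lit 14604956035) (nat_lit 76) (nat_lit 9434291187) (nat_lit 137) (nat_lit 5) (nat_lit 144) (nat_lit 5) (nat_lit 138) (nat_lit 5) (nat_lit 346) (nat_lit 297) (nat_lit 137)) (XT.lf (nat_lit 0) (nat_lit 5258188339) (nat_lit 456) (nat_lit 5773782831) (nat_lit 532) (nat_lit 18171665484) (nat_lit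 131) (nat_lit 5) (nat_lit 137) (nat_lit 5) (nat_lit 138) (nat_lit 5) (nat_lit 347) (nat_lit 297) (nat_lit 136))))) (XT.nd (nat_lit 234) (nat_lit 380) (nat_lit 0) (XT.nd (nat_lit 78) (nat_lit 836) (nat_lit 0) (XT.lf (nat_lit 0) (nat_lit 17806211497) (nat_lit 532) (nat_lit 3933559879) (nat_lit 76) (nat_lit 8046996682) (nat_lit 131) (nat_lit 5) (nat_lit 138) (nat_lit 5) (nat_lit 132) (nat_lit 5) (nat_lit 348) (nat_lit 297) (nat_lit 135)) (XT.nd (nat_lit 78) (nat_lit 456) (nat_lit 0) (XT.lf (nat_lit 0) (nat_lit 16851306370) (nat_lit 380) (nat_lit 8073294299) (nat_lit 456) (nat_lit 5459979296) (nat_lit 126) (nat_lit 5) (nat_lit 131) (nat_lit 5) (nat_lit 132) (nat_lit 5) (nat_lit 349) (nat_lit 297) (nat_lit 134)) (XT.lf (nat_lit 0) (nat_lit 1347071586) (nat_lit 456) (nat_lit 23645641917) (nat_lit 76) (nat_lit 6005307716) (nat_lit 120) (nat_lit 5) (nat_lit 126) (nat_lit 5) (nat_lit 121) (nat_lit 5) (nat_lit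 350) (nat_lit 297) (nat_lit 133)))) (XT.nd (nat_lit 36504) (nat_lit 0) (nat_lit 18772) (XT.nd (nat_lit 78) (nat_lit 380) (nat_lit 0) (XT.lf (nat_lit 0) (nat_lit 8423997877) (nat_lit 456) (nat_lit 2678975555) (nat_lit 76) (nat_lit 20523378210) (nat_lit 120) (nat_lit 5) (nat_lit 126) (nat_lit 5) (nat_lit 121) (nat_lit 5) (nat_lit 351) (nat_lit 297) (nat_lit 132)) (XT.lf (nat_lit 0) (nat_lit 15852545588) (nat_lit 456) (nat_lit 13134227685) (nat_lit 76) (nat_lit 3283976912) (nat_lit 115) (nat_lit 5) (nat_lit 121) (nat_lit 5) (nat_lit 116) (nat_lit 5) (nat_lit 352) (nat_lit 297) (nat_lit 131))) (XT.nd (nat_lit 78) (nat_lit 0) (nat_lit 0) (XT.lf (nat_lit 0) (nat_lit 890124878) (nat_lit 0) (nat_lit 890124878) (nat_lit 1596) (nat_lit 4656551490) (nat_lit 362) (nat_lit 5) (nat_lit 362) (nat_lit 3) (nat_lit 383) (nat_lit 3) (nat_lit 298) (nat_lit 298) (nat_lit 184)) (XT.lf (nat_lit 0) (nat_lit 4230977507)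 (nat_lit 1596) (nat_lit 2595493965) (nat_lit 1672) (nat_lit 6227286584) (nat_lit 362) (nat_lit 5) (nat_lit 383) (nat_lit 3) (nat_lit 384) (nat_lit 5) (nat_lit 299) (nat_lit 298) (nat_lit 183)))))) (XT.nd (nat_lit 468) (nat_lit 1292) (nat_lit 0) (XT.nd (nat_lit 234) (nat_lit 0) (nat_lit 76) (XT.nd (nat_lit 78) (nat_lit 0) (nat_lit 0) (XT.lf (nat_lit 0) (nat_lit 4959621987) (nat_lit 1596) (nat_lit 7031830331) (nat_lit 1672) (nat_lit 1247128615) (nat_lit 363) (nat_lit 5) (nat_lit 384) (nat_lit 5) (nat_lit 385) (nat_lit 5) (nat_lit 300) (nat_lit 298) (nat_lit 182)) (XT.nd (nat_lit 78) (nat_lit 0) (nat_lit 76) (XT.lf (nat_lit 76) (nat_lit 1846316914) (nat_lit 0) (nat_lit 3917385665) (nat_lit 1672) (nat_lit 7664197383) (nat_lit 364) (nat_lit 5) (nat_lit 363) (nat_lit 5) (nat_lit 385) (nat_lit 5) (nat_lit 301) (nat_lit 298) (nat_lit 181)) (XT.lf (nat_lit 0) (nat_lit 6647281739) (nat_lit 1596) (nat_lit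 2576193519) (nat_lit 1672) (nat_lit 4398338114) (nat_lit 364) (nat_lit 5) (nat_lit 385) (nat_lit 5) (nat_lit 386) (nat_lit 5) (nat_lit 302) (nat_lit 298) (nat_lit 180)))) (XT.nd (nat_lit 78) (nat_lit 0) (nat_lit 76) (XT.lf (nat_lit 76) (nat_lit 6749611727) (nat_lit 0) (nat_lit 857242900) (nat_lit 1672) (nat_lit 6213721511) (nat_lit 365) (nat_lit 5) (nat_lit 364) (nat_lit 5) (nat_lit 386) (nat_lit 5) (nat_lit 303) (nat_lit 298) (nat_lit 179)) (XT.nd (nat_lit 78) (nat_lit 0) (nat_lit 76) (XT.lf (nat_lit 76) (nat_lit 2333255011) (nat_lit 0) (nat_lit 6325104266) (nat_lit 1672) (nat_lit 5365700668) (nat_lit 366) (nat_lit 5) (nat_lit 365) (nat_lit 5) (nat_lit 387) (nat_lit 5) (nat_lit 304) (nat_lit 298) (nat_lit 178)) (XT.lf (nat_lit 0) (nat_lit 9790643211) (nat_lit 1596) (nat_lit 2149635719) (nat_lit 1672) (nat_lit 2292405092) (nat_lit 366) (nat_lit 5) (nat_lit 387) (nat_lit 5) (nat_lit 388) (nat_lit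 5) (nat_lit 305) (nat_lit 298) (nat_lit 177))))) (XT.nd (nat_lit 234) (nat_lit 1520) (nat_lit 0) (XT.nd (nat_lit 78) (nat_lit 0) (nat_lit 76) (XT.lf (nat_lit 76) (nat_lit 7724539649) (nat_lit 0) (nat_lit 3305962814) (nat_lit 1672) (nat_lit 3415612064) (nat_lit 367) (nat_lit 5) (nat_lit 366) (nat_lit 5) (nat_lit 388) (nat_lit 5) (nat_lit 306) (nat_lit 298) (nat_lit 176)) (XT.nd (nat_lit 78) (nat_lit 0) (nat_lit 0) (XT.lf (nat_lit 76) (nat_lit 3252524011) (nat_lit 0) (nat_lit 9108758117) (nat_lit 1672) (nat_lit 2303610589) (nat_lit 368) (nat_lit 5) (nat_lit 367) (nat_lit 5) (nat_lit 389) (nat_lit 5) (nat_lit 307) (nat_lit 298) (nat_lit 175)) (XT.lf (nat_lit 76) (nat_lit 13583183696) (nat_lit 0) (nat_lit 198433339) (nat_lit 1672) (nat_lit 1107643283) (nat_lit 368) (nat_lit 5) (nat_lit 367) (nat_lit 5) (nat_lit 389) (nat_lit 5) (nat_lit 308) (nat_lit 298) (nat_lit 174)))) (XT.nd (nat_lit 156) (nat_lit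 0) (nat_lit 76) (XT.nd (nat_lit 78) (nat_lit 0) (nat_lit 76) (XT.lf (nat_lit 0) (nat_lit 223623781) (nat_lit 1672) (nat_lit 5967003204) (nat_lit 1748) (nat_lit 8927712644) (nat_lit 346) (nat_lit 5) (nat_lit 368) (nat_lit 5) (nat_lit 369) (nat_lit 5) (nat_lit 309) (nat_lit 298) (nat_lit 173)) (XT.lf (nat_lit 0) (nat_lit 1622734721) (nat_lit 1672) (nat_lit 10747563751) (nat_lit 1748) (nat_lit 2983004612) (nat_lit 347) (nat_lit 5) (nat_lit 369) (nat_lit 5) (nat_lit 370) (nat_lit 5) (nat_lit 310) (nat_lit 298) (nat_lit 172))) (XT.nd (nat_lit 78) (nat_lit 0) (nat_lit 76) (XT.lf (nat_lit 0) (nat_lit 3129340547) (nat_lit 1672) (nat_lit 71363228) (nat_lit 1748) (nat_lit 12393318016) (nat_lit 347) (nat_lit 5) (nat_lit 369) (nat_lit 5) (nat_lit 370) (nat_lit 5) (nat_lit 311) (nat_lit 298) (nat_lit 171)) (XT.lf (nat_lit 0) (nat_lit 4777884296) (nat_lit 1672) (nat_lit 4823920336) (nat_lit 1748) (nat_lit 6238238923)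 (nat_lit 348) (nat_lit 5) (nat_lit 370) (nat_lit 5) (nat_lit 371) (nat_lit 5) (nat_lit 312) (nat_lit 298) (nat_lit 170))))))))
noncomputable def xc109 : XT := (XT.nd (nat_lit 2028) (nat_lit 4332) (nat_lit 0) (XT.nd (nat_lit 1014) (nat_lit 6536) (nat_lit 0) (XT.nd (nat_lit 468) (nat_lit 3952) (nat_lit 0) (XT.nd (nat_lit 234) (nat_lit 2508) (nat_lit 0) (XT.nd (nat_lit 78) (nat_lit 0) (nat_lit 76) (XT.lf (nat_lit 76) (nat_lit 6393901718) (nat_lit 0) (nat_lit 129705734) (nat_lit 1748) (nat_lit 9568899877) (nat_lit 349) (nat_lit 5) (nat_lit 348) (nat_lit 5) (nat_lit 371) (nat_lit 5) (nat_lit 313) (nat_lit 298) (nat_lit 169)) (XT.nd (nat_lit 78) (nat_lit 0) (nat_lit 76) (XT.lf (nat_lit 76) (nat_lit 1608307872) (nat_lit 0) (nat_lit 6803960537) (nat_lit 1748) (nat_lit 7938480640) (nat_lit 350) (nat_lit 5) (nat_lit 349) (nat_lit 5) (nat_lit 372) (nat_lit 5) (nat_lit 314) (nat_lit 298) (nat_lit 168)) (XT.lf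 (nat_lit 0) (nat_lit 10428503629) (nat_lit 1672) (nat_lit 3260925583) (nat_lit 76) (nat_lit 2925905429) (nat_lit 350) (nat_lit 5) (nat_lit 372) (nat_lit 5) (nat_lit 351) (nat_lit 5) (nat_lit 315) (nat_lit 298) (nat_lit 167)))) (XT.nd (nat_lit 78) (nat_lit 988) (nat_lit 0) (XT.lf (nat_lit 0) (nat_lit 8620365862) (nat_lit 1672) (nat_lit 3971864048) (nat_lit 1748) (nat_lit 4293902285) (nat_lit 328) (nat_lit 5) (nat_lit 350) (nat_lit 5) (nat_lit 351) (nat_lit 5) (nat_lit 316) (nat_lit 298) (nat_lit 166)) (XT.nd (nat_lit 78) (nat_lit 0) (nat_lit 0) (XT.lf (nat_lit 0) (nat_lit 3735429253) (nat_lit 988) (nat_lit 11157023331) (nat_lit 1064) (nat_lit 2271183453) (nat_lit 315) (nat_lit 5) (nat_lit 328) (nat_lit 5) (nat_lit 329) (nat_lit 5) (nat_lit 317) (nat_lit 298) (nat_lit 165)) (XT.lf (nat_lit 0) (nat_lit 16170751460) (nat_lit 988) (nat_lit 1159551566) (nat_lit 1064) (nat_lit 117803190) (nat_lit 315)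 (nat_lit 5) (nat_lit 328) (nat_lit 5) (nat_lit 329) (nat_lit 5) (nat_lit 318) (nat_lit 298) (nat_lit 164))))) (XT.nd (nat_lit 234) (nat_lit 1444) (nat_lit 0) (XT.nd (nat_lit 78) (nat_lit 1596) (nat_lit 0) (XT.lf (nat_lit 0) (nat_lit 2192840033) (nat_lit 912) (nat_lit 6438144730) (nat_lit 76) (nat_lit 9107461893) (nat_lit 303) (nat_lit 5) (nat_lit 315) (nat_lit 5) (nat_lit 304) (nat_lit 5) (nat_lit 319) (nat_lit 298) (nat_lit 163)) (XT.nd (nat_lit 78) (nat_lit 760) (nat_lit 0) (XT.lf (nat_lit 0) (nat_lit 4626333253) (nat_lit 912) (nat_lit 11750156982) (nat_lit 76) (nat_lit 1659901486) (nat_lit 292) (nat_lit 5) (nat_lit 304) (nat_lit 5) (nat_lit 293) (nat_lit 5) (nat_lit 320) (nat_lit 298) (nat_lit 162)) (XT.lf (nat_lit 0) (nat_lit 1082106660) (nat_lit 760) (nat_lit 6146545161) (nat_lit 836) (nat_lit 11112719147) (nat_lit 282) (nat_lit 5) (nat_lit 292) (nat_lit 5) (nat_lit 293) (nat_lit 5) (nat_lit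 321) (nat_lit 298) (nat_lit 161)))) (XT.nd (nat_lit 156) (nat_lit 684) (nat_lit 0) (XT.nd (nat_lit 78) (nat_lit 760) (nat_lit 0) (XT.lf (nat_lit 0) (nat_lit 10005154771) (nat_lit 836) (nat_lit 4234979069) (nat_lit 76) (nat_lit 4413455341) (nat_lit 282) (nat_lit 5) (nat_lit 293) (nat_lit 5) (nat_lit 283) (nat_lit 5) (nat_lit 322) (nat_lit 298) (nat_lit 160)) (XT.lf (nat_lit 0) (nat_lit 9248363702) (nat_lit 760) (nat_lit 3705565549) (nat_lit 836) (nat_lit 6019476698) (nat_lit 272) (nat_lit 5) (nat_lit 282) (nat_lit 5) (nat_lit 283) (nat_lit 5) (nat_lit 323) (nat_lit 298) (nat_lit 159))) (XT.nd (nat_lit 78) (nat_lit 0) (nat_lit 0) (XT.lf (nat_lit 0) (nat_lit 3884377990) (nat_lit 684) (nat_lit 12195392467) (nat_lit 760) (nat_lit 3221285896) (nat_lit 263) (nat_lit 5) (nat_lit 272) (nat_lit 5) (nat_lit 273) (nat_lit 5) (nat_lit 324) (nat_lit 298) (nat_lit 158)) (XT.lf (nat_lit 0) (nat_lit 17998363542)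 (nat_lit 684) (nat_lit 1379916943) (nat_lit 760) (nat_lit 258688788) (nat_lit 263) (nat_lit 5) (nat_lit 272) (nat_lit 5) (nat_lit 273) (nat_lit 5) (nat_lit 325) (nat_lit 298) (nat_lit 157)))))) (XT.nd (nat_lit 468) (nat_lit 3040) (nat_lit 0) (XT.nd (nat_lit 234) (nat_lit 1292) (nat_lit 0) (XT.nd (nat_lit 78) (nat_lit 1368) (nat_lit 0) (XT.lf (nat_lit 0) (nat_lit 2891209783) (nat_lit 836) (nat_lit 7355662828) (nat_lit 76) (nat_lit 9733033641) (nat_lit 252) (nat_lit 5) (nat_lit 263) (nat_lit 5) (nat_lit 253) (nat_lit 5) (nat_lit 326) (nat_lit 298) (nat_lit 156)) (XT.nd (nat_lit 78) (nat_lit 684) (nat_lit 0) (XT.lf (nat_lit 0) (nat_lit 6193095841) (nat_lit 760) (nat_lit 13263099792) (nat_lit 76) (nat_lit 875691458) (nat_lit 243) (nat_lit 5) (nat_lit 253) (nat_lit 5) (nat_lit 244) (nat_lit 5) (nat_lit 327) (nat_lit 298) (nat_lit 155)) (XT.lf (nat_lit 0) (nat_lit 1269394727) (nat_lit 684) (nat_lit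 8440716673) (nat_lit 760) (nat_lit 10982004254) (nat_lit 234) (nat_lit 5) (nat_lit 243) (nat_lit 5) (nat_lit 244) (nat_lit 5) (nat_lit 328) (nat_lit 298) (nat_lit 154)))) (XT.nd (nat_lit 78) (nat_lit 1292) (nat_lit 0) (XT.lf (nat_lit 0) (nat_lit 13431338698) (nat_lit 760) (nat_lit 4673052182) (nat_lit 76) (nat_lit 2956795644) (nat_lit 234) (nat_lit 5) (nat_lit 244) (nat_lit 5) (nat_lit 235) (nat_lit 5) (nat_lit 329) (nat_lit 298) (nat_lit 153)) (XT.nd (nat_lit 78) (nat_lit 684) (nat_lit 0) (XT.lf (nat_lit 0) (nat_lit 10590239864) (nat_lit 608) (nat_lit 6788846742) (nat_lit 684) (nat_lit 4059954435) (nat_lit 226) (nat_lit 5) (nat_lit 234) (nat_lit 5) (nat_lit 235) (nat_lit 5) (nat_lit 330) (nat_lit 298) (nat_lit 152)) (XT.lf (nat_lit 0) (nat_lit 4564525387) (nat_lit 684) (nat_lit 16963747410) (nat_lit 760) (nat_lit 298307209) (nat_lit 217) (nat_lit 5) (nat_lit 226) (nat_lit 5) (nat_lit 227) (nat_lit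 5) (nat_lit 331) (nat_lit 298) (nat_lit 151))))) (XT.nd (nat_lit 234) (nat_lit 1748) (nat_lit 0) (XT.nd (nat_lit 78) (nat_lit 1216) (nat_lit 0) (XT.lf (nat_lit 0) (nat_lit 3638736435) (nat_lit 760) (nat_lit 1715919142) (nat_lit 76) (nat_lit 16868444696) (nat_lit 216) (nat_lit 5) (nat_lit 226) (nat_lit 5) (nat_lit 217) (nat_lit 5) (nat_lit 332) (nat_lit 298) (nat_lit 150)) (XT.nd (nat_lit 78) (nat_lit 608) (nat_lit 0) (XT.lf (nat_lit 0) (nat_lit 7817666741) (nat_lit 684) (nat_lit 8199828435) (nat_lit 76) (nat_lit 6611433224) (nat_lit 208) (nat_lit 5) (nat_lit 217) (nat_lit 5) (nat_lit 209) (nat_lit 5) (nat_lit 333) (nat_lit 298) (nat_lit 149)) (XT.lf (nat_lit 0) (nat_lit 8094562298) (nat_lit 608) (nat_lit 4118011723) (nat_lit 684) (nat_lit 10832553181) (nat_lit 200) (nat_lit 5) (nat_lit 208) (nat_lit 5) (nat_lit 209) (nat_lit 5) (nat_lit 334) (nat_lit 298) (nat_lit 148)))) (XT.nd (nat_lit 156)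 (nat_lit 1216) (nat_lit 0) (XT.nd (nat_lit 78) (nat_lit 0) (nat_lit 0) (XT.lf (nat_lit 0) (nat_lit 1472451006) (nat_lit 532) (nat_lit 15375946183) (nat_lit 608) (nat_lit 6623241185) (nat_lit 193) (nat_lit 5) (nat_lit 200) (nat_lit 5) (nat_lit 201) (nat_lit 5) (nat_lit 335) (nat_lit 298) (nat_lit 147)) (XT.lf (nat_lit 0) (nat_lit 18554099382) (nat_lit 532) (nat_lit 3188798610) (nat_lit 608) (nat_lit 2165662380) (nat_lit 193) (nat_lit 5) (nat_lit 200) (nat_lit 5) (nat_lit 201) (nat_lit 5) (nat_lit 336) (nat_lit 298) (nat_lit 146))) (XT.nd (nat_lit 78) (nat_lit 532) (nat_lit 0) (XT.lf (nat_lit 0) (nat_lit 2523757286) (nat_lit 684) (nat_lit 12498737893) (nat_lit 76) (nat_lit 9333188539) (nat_lit 184) (nat_lit 5) (nat_lit 193) (nat_lit 5) (nat_lit 185) (nat_lit 5) (nat_lit 337) (nat_lit 298) (nat_lit 145)) (XT.lf (nat_lit 0) (nat_lit 4859572509) (nat_lit 532) (nat_lit 2545745109) (nat_lit 608) (nat_lit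 17409006205) (nat_lit 177) (nat_lit 5) (nat_lit 184) (nat_lit 5) (nat_lit 185) (nat_lit 5) (nat_lit 338) (nat_lit 298) (nat_lit 144))))))) (XT.nd (nat_lit 1014) (nat_lit 0) (nat_lit 0) (XT.nd (nat_lit 468) (nat_lit 2280) (nat_lit 0) (XT.nd (nat_lit 234) (nat_lit 1064) (nat_lit 0) (XT.nd (nat_lit 78) (nat_lit 988) (nat_lit 0) (XT.lf (nat_lit 0) (nat_lit 12576975609) (nat_lit 608) (nat_lit 2453380460) (nat_lit 76) (nat_lit 10253500821) (nat_lit 177) (nat_lit 5) (nat_lit 185) (nat_lit 5) (nat_lit 178) (nat_lit 5) (nat_lit 339) (nat_lit 298) (nat_lit 143)) (XT.nd (nat_lit 78) (nat_lit 456) (nat_lit 0) (XT.lf (nat_lit 0) (nat_lit 15752311716) (nat_lit 532) (nat_lit 2262504260) (nat_lit 608) (nat_lit 7750445898) (nat_lit 170) (nat_lit 5) (nat_lit 177) (nat_lit 5) (nat_lit 178) (nat_lit 5) (nat_lit 340) (nat_lit 298) (nat_lit 142)) (XT.lf (nat_lit 0) (nat_lit 8304817106) (nat_lit 456) (nat_lit 15444219923)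 (nat_lit 532) (nat_lit 2509413456) (nat_lit 164) (nat_lit 5) (nat_lit 170) (nat_lit 5) (nat_lit 171) (nat_lit 5) (nat_lit 341) (nat_lit 298) (nat_lit 141)))) (XT.nd (nat_lit 78) (nat_lit 456) (nat_lit 0) (XT.lf (nat_lit 0) (nat_lit 506177746) (nat_lit 532) (nat_lit 2423508745) (nat_lit 608) (nat_lit 23834804730) (nat_lit 156) (nat_lit 5) (nat_lit 163) (nat_lit 5) (nat_lit 164) (nat_lit 5) (nat_lit 342) (nat_lit 298) (nat_lit 140)) (XT.nd (nat_lit 78) (nat_lit 456) (nat_lit 0) (XT.lf (nat_lit 0) (nat_lit 8684026366) (nat_lit 608) (nat_lit 7616877478) (nat_lit 76) (nat_lit 10980760292) (nat_lit 156) (nat_lit 5) (nat_lit 164) (nat_lit 5) (nat_lit 157) (nat_lit 5) (nat_lit 343) (nat_lit 298) (nat_lit 139)) (XT.lf (nat_lit 0) (nat_lit 11711281963) (nat_lit 456) (nat_lit 2984347561) (nat_lit 532) (nat_lit 13117035783) (nat_lit 150) (nat_lit 5) (nat_lit 156) (nat_lit 5) (nat_lit 157) (nat_lit 5) (nat_lit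 344) (nat_lit 298) (nat_lit 138))))) (XT.nd (nat_lit 234) (nat_lit 1292) (nat_lit 0) (XT.nd (nat_lit 78) (nat_lit 532) (nat_lit 0) (XT.lf (nat_lit 0) (nat_lit 3328733650) (nat_lit 456) (nat_lit 17694625116) (nat_lit 532) (nat_lit 7333527750) (nat_lit 144) (nat_lit 5) (nat_lit 150) (nat_lit 5) (nat_lit 151) (nat_lit 5) (nat_lit 345) (nat_lit 298) (nat_lit 137)) (XT.nd (nat_lit 78) (nat_lit 532) (nat_lit 0) (XT.lf (nat_lit 0) (nat_lit 23532202851) (nat_lit 456) (nat_lit 4130337915) (nat_lit 532) (nat_lit 1252466580) (nat_lit 144) (nat_lit 5) (nat_lit 150) (nat_lit 5) (nat_lit 151) (nat_lit 5) (nat_lit 346) (nat_lit 298) (nat_lit 136)) (XT.lf (nat_lit 0) (nat_lit 5100324959) (nat_lit 532) (nat_lit 14545518719) (nat_lit 76) (nat_lit 9840282183) (nat_lit 137) (nat_lit 5) (nat_lit 144) (nat_lit 5) (nat_lit 138) (nat_lit 5) (nat_lit 347) (nat_lit 298) (nat_lit 135)))) (XT.nd (nat_lit 156) (nat_lit 836)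 (nat_lit 0) (XT.nd (nat_lit 78) (nat_lit 0) (nat_lit 0) (XT.lf (nat_lit 0) (nat_lit 5905447244) (nat_lit 456) (nat_lit 5816993694) (nat_lit 532) (nat_lit 18349861274) (nat_lit 131) (nat_lit 5) (nat_lit 137) (nat_lit 5) (nat_lit 138) (nat_lit 5) (nat_lit 348) (nat_lit 298) (nat_lit 134)) (XT.lf (nat_lit 0) (nat_lit 18690256771) (nat_lit 532) (nat_lit 3569903828) (nat_lit 76) (nat_lit 8412967373) (nat_lit 131) (nat_lit 5) (nat_lit 138) (nat_lit 5) (nat_lit 132) (nat_lit 5) (nat_lit 349) (nat_lit 298) (nat_lit 133))) (XT.nd (nat_lit 78) (nat_lit 456) (nat_lit 0) (XT.lf (nat_lit 0) (nat_lit 17830694001) (nat_lit 380) (nat_lit 8184390089) (nat_lit 456) (nat_lit 5273939579) (nat_lit 126) (nat_lit 5) (nat_lit 131) (nat_lit 5) (nat_lit 132) (nat_lit 5) (nat_lit 350) (nat_lit 298) (nat_lit 132)) (XT.lf (nat_lit 0) (nat_lit 1726597469) (nat_lit 456) (nat_lit 23877975225) (nat_lit 76) (nat_lit 6316379601)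 (nat_lit 120) (nat_lit 5) (nat_lit 126) (nat_lit 5) (nat_lit 121) (nat_lit 5) (nat_lit 351) (nat_lit 298) (nat_lit 131)))))) (XT.nd (nat_lit 36894) (nat_lit 0) (nat_lit 17176) (XT.nd (nat_lit 36660) (nat_lit 0) (nat_lit 18468) (XT.nd (nat_lit 36504) (nat_lit 0) (nat_lit 18392) (XT.lf (nat_lit 0) (nat_lit 9005954450) (nat_lit 456) (nat_lit 2296203123) (nat_lit 76) (nat_lit 21266179220) (nat_lit 120) (nat_lit 5) (nat_lit 126) (nat_lit 5) (nat_lit 121) (nat_lit 5) (nat_lit 352) (nat_lit 298) (nat_lit 130)) (XT.nd (nat_lit 78) (nat_lit 0) (nat_lit 0) (XT.lf (nat_lit 0) (nat_lit 1202110459) (nat_lit 0) (nat_lit 1202110459) (nat_lit 1596) (nat_lit 4213671862) (nat_lit 362) (nat_lit 5) (nat_lit 362) (nat_lit 3) (nat_lit 383) (nat_lit 3) (nat_lit 299) (nat_lit 299) (nat_lit 182)) (XT.lf (nat_lit 0) (nat_lit 5462200869) (nat_lit 1596) (nat_lit 2092491643) (nat_lit 1672) (nat_lit 5867424966) (nat_lit 362)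 (nat_lit 5) (nat_lit 383) (nat_lit 3) (nat_lit 384) (nat_lit 5) (nat_lit 300) (nat_lit 299) (nat_lit 181)))) (XT.nd (nat_lit 78) (nat_lit 0) (nat_lit 0) (XT.lf (nat_lit 0) (nat_lit 6180976088) (nat_lit 1596) (nat_lit 6645416856) (nat_lit 1672) (nat_lit 786760671) (nat_lit 363) (nat_lit 5) (nat_lit 384) (nat_lit 5) (nat_lit 385) (nat_lit 5) (nat_lit 301) (nat_lit 299) (nat_lit 180)) (XT.nd (nat_lit 78) (nat_lit 0) (nat_lit 76) (XT.lf (nat_lit 76) (nat_lit 2489383214) (nat_lit 0) (nat_lit 4492371701) (nat_lit 1672) (nat_lit 6826978797) (nat_lit 364) (nat_lit 5) (nat_lit 363) (nat_lit 5) (nat_lit 385) (nat_lit 5) (nat_lit 302) (nat_lit 299) (nat_lit 179)) (XT.lf (nat_lit 0) (nat_lit 7858516789) (nat_lit 1596) (nat_lit 2058673301) (nat_lit 1672) (nat_lit 4091972978) (nat_lit 364) (nat_lit 5) (nat_lit 385) (nat_lit 5) (nat_lit 386) (nat_lit 5) (nat_lit 303) (nat_lit 299) (nat_lit 178))))) (XT.nd (nat_lit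 234) (nat_lit 1368) (nat_lit 0) (XT.nd (nat_lit 78) (nat_lit 0) (nat_lit 76) (XT.lf (nat_lit 76) (nat_lit 7537256081) (nat_lit 0) (nat_lit 1283949617) (nat_lit 1672) (nat_lit 5393227561) (nat_lit 365) (nat_lit 5) (nat_lit 364) (nat_lit 5) (nat_lit 386) (nat_lit 5) (nat_lit 304) (nat_lit 299) (nat_lit 177)) (XT.nd (nat_lit 78) (nat_lit 0) (nat_lit 76) (XT.lf (nat_lit 76) (nat_lit 3001899808) (nat_lit 0) (nat_lit 6874992152) (nat_lit 1672) (nat_lit 4547707102) (nat_lit 366) (nat_lit 5) (nat_lit 365) (nat_lit 5) (nat_lit 387) (nat_lit 5) (nat_lit 305) (nat_lit 299) (nat_lit 176)) (XT.lf (nat_lit 0) (nat_lit 11012948595) (nat_lit 1596) (nat_lit 1611049003) (nat_lit 1672) (nat_lit 2016117511) (nat_lit 366) (nat_lit 5) (nat_lit 387) (nat_lit 5) (nat_lit 388) (nat_lit 5) (nat_lit 306) (nat_lit 299) (nat_lit 175)))) (XT.nd (nat_lit 156) (nat_lit 1520) (nat_lit 0) (XT.nd (nat_lit 78) (nat_lit 0) (nat_lit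 76) (XT.lf (nat_lit 76) (nat_lit 8549567439) (nat_lit 0) (nat_lit 3717242032) (nat_lit 1672) (nat_lit 2593631418) (nat_lit 367) (nat_lit 5) (nat_lit 366) (nat_lit 5) (nat_lit 388) (nat_lit 5) (nat_lit 307) (nat_lit 299) (nat_lit 174)) (XT.lf (nat_lit 76) (nat_lit 3954507262) (nat_lit 0) (nat_lit 9658591497) (nat_lit 1672) (nat_lit 1473199588) (nat_lit 368) (nat_lit 5) (nat_lit 367) (nat_lit 5) (nat_lit 389) (nat_lit 5) (nat_lit 308) (nat_lit 299) (nat_lit 173))) (XT.nd (nat_lit 78) (nat_lit 1596) (nat_lit 0) (XT.lf (nat_lit 76) (nat_lit 14577482636) (nat_lit 0) (nat_lit 472901520) (nat_lit 1672) (nat_lit 267552855) (nat_lit 368) (nat_lit 5) (nat_lit 367) (nat_lit 5) (nat_lit 389) (nat_lit 5) (nat_lit 309) (nat_lit 299) (nat_lit 172)) (XT.lf (nat_lit 0) (nat_lit 1069291651) (nat_lit 1672) (nat_lit 5537304917) (nat_lit 1748) (nat_lit 8947662415) (nat_lit 346) (nat_lit 5) (nat_lit 368) (nat_lit 5)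 (nat_lit 369) (nat_lit 5) (nat_lit 310) (nat_lit 299) (nat_lit 171))))))))
noncomputable def xc110 : XT := (XT.nd (nat_lit 2028) (nat_lit 5548) (nat_lit 0) (XT.nd (nat_lit 1014) (nat_lit 6764) (nat_lit 0) (XT.nd (nat_lit 468) (nat_lit 4940) (nat_lit 0) (XT.nd (nat_lit 234) (nat_lit 0) (nat_lit 76) (XT.nd (nat_lit 78) (nat_lit 0) (nat_lit 0) (XT.lf (nat_lit 0) (nat_lit 2488402585) (nat_lit 1672) (nat_lit 10452537126) (nat_lit 1748) (nat_lit 2855795903) (nat_lit 347) (nat_lit 5) (nat_lit 369) (nat_lit 5) (nat_lit 370) (nat_lit 5) (nat_lit 311) (nat_lit 299) (nat_lit 170)) (XT.nd (nat_lit 78) (nat_lit 0) (nat_lit 76) (XT.lf (nat_lit 76) (nat_lit 532955131) (nat_lit 0) (nat_lit 3486916049) (nat_lit 1748) (nat_lit 12025235493) (nat_lit 348) (nat_lit 5) (nat_lit 347) (nat_lit 5) (nat_lit 370) (nat_lit 5) (nat_lit 312) (nat_lit 299) (nat_lit 169)) (XT.lf (nat_lit 0) (nat_lit 5693941555) (nat_lit 1672)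 (nat_lit 4361440688) (nat_lit 1748) (nat_lit 6243628822) (nat_lit 348) (nat_lit 5) (nat_lit 370) (nat_lit 5) (nat_lit 371) (nat_lit 5) (nat_lit 313) (nat_lit 299) (nat_lit 168)))) (XT.nd (nat_lit 78) (nat_lit 0) (nat_lit 76) (XT.lf (nat_lit 76) (nat_lit 7183064974) (nat_lit 0) (nat_lit 290343371) (nat_lit 1748) (nat_lit 9086035669) (nat_lit 349) (nat_lit 5) (nat_lit 348) (nat_lit 5) (nat_lit 371) (nat_lit 5) (nat_lit 314) (nat_lit 299) (nat_lit 167)) (XT.nd (nat_lit 78) (nat_lit 0) (nat_lit 76) (XT.lf (nat_lit 76) (nat_lit 2260794844) (nat_lit 0) (nat_lit 7138905474) (nat_lit 1748) (nat_lit 7426135283) (nat_lit 350) (nat_lit 5) (nat_lit 349) (nat_lit 5) (nat_lit 372) (nat_lit 5) (nat_lit 315) (nat_lit 299) (nat_lit 166)) (XT.lf (nat_lit 0) (nat_lit 11454188298) (nat_lit 1672) (nat_lit 2756303773) (nat_lit 76) (nat_lit 2888332774) (nat_lit 350) (nat_lit 5) (nat_lit 372) (nat_lit 5) (nat_lit 351)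 (nat_lit 5) (nat_lit 316) (nat_lit 299) (nat_lit 165))))) (XT.nd (nat_lit 234) (nat_lit 2432) (nat_lit 0) (XT.nd (nat_lit 78) (nat_lit 1064) (nat_lit 0) (XT.lf (nat_lit 0) (nat_lit 9471652387) (nat_lit 1672) (nat_lit 4194259997) (nat_lit 1748) (nat_lit 3712192994) (nat_lit 328) (nat_lit 5) (nat_lit 350) (nat_lit 5) (nat_lit 351) (nat_lit 5) (nat_lit 317) (nat_lit 299) (nat_lit 164)) (XT.nd (nat_lit 78) (nat_lit 76) (nat_lit 0) (XT.lf (nat_lit 0) (nat_lit 4445585391) (nat_lit 988) (nat_lit 11572519401) (nat_lit 1064) (nat_lit 1646190452) (nat_lit 315) (nat_lit 5) (nat_lit 328) (nat_lit 5) (nat_lit 329) (nat_lit 5) (nat_lit 318) (nat_lit 299) (nat_lit 163)) (XT.lf (nat_lit 0) (nat_lit 544368636) (nat_lit 1064) (nat_lit 724748874) (nat_lit 76) (nat_lit 16688525435) (nat_lit 314) (nat_lit 5) (nat_lit 328) (nat_lit 5) (nat_lit 315) (nat_lit 5) (nat_lit 319) (nat_lit 299) (nat_lit 162)))) (XT.nd (nat_lit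 156) (nat_lit 760) (nat_lit 0) (XT.nd (nat_lit 78) (nat_lit 836) (nat_lit 0) (XT.lf (nat_lit 0) (nat_lit 2906724715) (nat_lit 912) (nat_lit 6036691202) (nat_lit 76) (nat_lit 9313600866) (nat_lit 303) (nat_lit 5) (nat_lit 315) (nat_lit 5) (nat_lit 304) (nat_lit 5) (nat_lit 320) (nat_lit 299) (nat_lit 161)) (XT.lf (nat_lit 0) (nat_lit 5397831840) (nat_lit 912) (nat_lit 11504134765) (nat_lit 76) (nat_lit 1662259508) (nat_lit 292) (nat_lit 5) (nat_lit 304) (nat_lit 5) (nat_lit 293) (nat_lit 5) (nat_lit 321) (nat_lit 299) (nat_lit 160))) (XT.nd (nat_lit 78) (nat_lit 0) (nat_lit 0) (XT.lf (nat_lit 0) (nat_lit 1703386398) (nat_lit 760) (nat_lit 6360228149) (nat_lit 836) (nat_lit 10815049867) (nat_lit 282) (nat_lit 5) (nat_lit 292) (nat_lit 5) (nat_lit 293) (nat_lit 5) (nat_lit 322) (nat_lit 299) (nat_lit 159)) (XT.lf (nat_lit 0) (nat_lit 10905224970) (nat_lit 836) (nat_lit 3777606724) (nat_lit 76) (nat_lit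 4517798289) (nat_lit 282) (nat_lit 5) (nat_lit 293) (nat_lit 5) (nat_lit 283) (nat_lit 5) (nat_lit 323) (nat_lit 299) (nat_lit 158)))))) (XT.nd (nat_lit 468) (nat_lit 3116) (nat_lit 0) (XT.nd (nat_lit 234) (nat_lit 2128) (nat_lit 0) (XT.nd (nat_lit 78) (nat_lit 760) (nat_lit 0) (XT.lf (nat_lit 0) (nat_lit 10100754783) (nat_lit 760) (nat_lit 3827967527) (nat_lit 836) (nat_lit 5601610312) (nat_lit 272) (nat_lit 5) (nat_lit 282) (nat_lit 5) (nat_lit 283) (nat_lit 5) (nat_lit 324) (nat_lit 299) (nat_lit 157)) (XT.nd (nat_lit 78) (nat_lit 76) (nat_lit 0) (XT.lf (nat_lit 0) (nat_lit 4578669890) (nat_lit 684) (nat_lit 12556276183) (nat_lit 760) (nat_lit 2733150397) (nat_lit 263) (nat_lit 5) (nat_lit 272) (nat_lit 5) (nat_lit 273) (nat_lit 5) (nat_lit 325) (nat_lit 299) (nat_lit 156)) (XT.lf (nat_lit 0) (nat_lit 297340865) (nat_lit 760) (nat_lit 1117145206) (nat_lit 76) (nat_lit 18799910852) (nat_lit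 262) (nat_lit 5) (nat_lit 272) (nat_lit 5) (nat_lit 263) (nat_lit 5) (nat_lit 326) (nat_lit 299) (nat_lit 155)))) (XT.nd (nat_lit 78) (nat_lit 1368) (nat_lit 0) (XT.lf (nat_lit 0) (nat_lit 3525634476) (nat_lit 836) (nat_lit 7005304297) (nat_lit 76) (nat_lit 10036915644) (nat_lit 252) (nat_lit 5) (nat_lit 263) (nat_lit 5) (nat_lit 253) (nat_lit 5) (nat_lit 327) (nat_lit 299) (nat_lit 154)) (XT.nd (nat_lit 78) (nat_lit 684) (nat_lit 0) (XT.lf (nat_lit 0) (nat_lit 6914443652) (nat_lit 760) (nat_lit 13088211404) (nat_lit 76) (nat_lit 927996719) (nat_lit 243) (nat_lit 5) (nat_lit 253) (nat_lit 5) (nat_lit 244) (nat_lit 5) (nat_lit 328) (nat_lit 299) (nat_lit 153)) (XT.lf (nat_lit 0) (nat_lit 1870965253) (nat_lit 684) (nat_lit 8654064280) (nat_lit 760) (nat_lit 10776910470) (nat_lit 234) (nat_lit 5) (nat_lit 243) (nat_lit 5) (nat_lit 244) (nat_lit 5) (nat_lit 329) (nat_lit 299) (nat_lit 152))))) (XT.nd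 (nat_lit 234) (nat_lit 1748) (nat_lit 0) (XT.nd (nat_lit 78) (nat_lit 1368) (nat_lit 0) (XT.lf (nat_lit 0) (nat_lit 14342894080) (nat_lit 760) (nat_lit 4255798196) (nat_lit 76) (nat_lit 3083704310) (nat_lit 234) (nat_lit 5) (nat_lit 244) (nat_lit 5) (nat_lit 235) (nat_lit 5) (nat_lit 330) (nat_lit 299) (nat_lit 151)) (XT.nd (nat_lit 78) (nat_lit 760) (nat_lit 0) (XT.lf (nat_lit 0) (nat_lit 11456348719) (nat_lit 608) (nat_lit 6941472258) (nat_lit 684) (nat_lit 3674004032) (nat_lit 226) (nat_lit 5) (nat_lit 234) (nat_lit 5) (nat_lit 235) (nat_lit 5) (nat_lit 331) (nat_lit 299) (nat_lit 150)) (XT.lf (nat_lit 0) (nat_lit 187182802) (nat_lit 760) (nat_lit 17221587999) (nat_lit 76) (nat_lit 5062419479) (nat_lit 216) (nat_lit 5) (nat_lit 226) (nat_lit 5) (nat_lit 217) (nat_lit 5) (nat_lit 332) (nat_lit 299) (nat_lit 149)))) (XT.nd (nat_lit 156) (nat_lit 1140) (nat_lit 0) (XT.nd (nat_lit 78) (nat_lit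 608) (nat_lit 0) (XT.lf (nat_lit 0) (nat_lit 4224024260) (nat_lit 760) (nat_lit 1227267254) (nat_lit 76) (nat_lit 17428572616) (nat_lit 216) (nat_lit 5) (nat_lit 226) (nat_lit 5) (nat_lit 217) (nat_lit 5) (nat_lit 333) (nat_lit 299) (nat_lit 148)) (XT.lf (nat_lit 0) (nat_lit 8518331018) (nat_lit 684) (nat_lit 7905174132) (nat_lit 76) (nat_lit 6874573624) (nat_lit 208) (nat_lit 5) (nat_lit 217) (nat_lit 5) (nat_lit 209) (nat_lit 5) (nat_lit 334) (nat_lit 299) (nat_lit 147))) (XT.nd (nat_lit 78) (nat_lit 532) (nat_lit 0) (XT.lf (nat_lit 0) (nat_lit 8869276932) (nat_lit 608) (nat_lit 4165685162) (nat_lit 684) (nat_lit 10692015414) (nat_lit 200) (nat_lit 5) (nat_lit 208) (nat_lit 5) (nat_lit 209) (nat_lit 5) (nat_lit 335) (nat_lit 299) (nat_lit 146)) (XT.lf (nat_lit 0) (nat_lit 2048737956) (nat_lit 532) (nat_lit 15751773195) (nat_lit 608) (nat_lit 6365971003) (nat_lit 193) (nat_lit 5) (nat_lit 200)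 (nat_lit 5) (nat_lit 201) (nat_lit 5) (nat_lit 336) (nat_lit 299) (nat_lit 145))))))) (XT.nd (nat_lit 1014) (nat_lit 836) (nat_lit 0) (XT.nd (nat_lit 468) (nat_lit 2508) (nat_lit 0) (XT.nd (nat_lit 234) (nat_lit 988) (nat_lit 0) (XT.nd (nat_lit 78) (nat_lit 1216) (nat_lit 0) (XT.lf (nat_lit 0) (nat_lit 19627337335) (nat_lit 532) (nat_lit 3201500070) (nat_lit 608) (nat_lit 1787945439) (nat_lit 193) (nat_lit 5) (nat_lit 200) (nat_lit 5) (nat_lit 201) (nat_lit 5) (nat_lit 337) (nat_lit 299) (nat_lit 144)) (XT.nd (nat_lit 78) (nat_lit 532) (nat_lit 0) (XT.lf (nat_lit 0) (nat_lit 3027528902) (nat_lit 684) (nat_lit 12351076096) (nat_lit 76) (nat_lit 9698844164) (nat_lit 184) (nat_lit 5) (nat_lit 193) (nat_lit 5) (nat_lit 185) (nat_lit 5) (nat_lit 338) (nat_lit 299) (nat_lit 143)) (XT.lf (nat_lit 0) (nat_lit 5519504666) (nat_lit 532) (nat_lit 2526901814) (nat_lit 608) (nat_lit 17503634598) (nat_lit 177)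 (nat_lit 5) (nat_lit 184) (nat_lit 5) (nat_lit 185) (nat_lit 5) (nat_lit 339) (nat_lit 299) (nat_lit 142)))) (XT.nd (nat_lit 78) (nat_lit 988) (nat_lit 0) (XT.lf (nat_lit 0) (nat_lit 13361612582) (nat_lit 608) (nat_lit 2019953487) (nat_lit 76) (nat_lit 10652335824) (nat_lit 177) (nat_lit 5) (nat_lit 185) (nat_lit 5) (nat_lit 178) (nat_lit 5) (nat_lit 340) (nat_lit 299) (nat_lit 141)) (XT.nd (nat_lit 78) (nat_lit 456) (nat_lit 0) (XT.lf (nat_lit 0) (nat_lit 16723683521) (nat_lit 532) (nat_lit 2230279282) (nat_lit 608) (nat_lit 7575968173) (nat_lit 170) (nat_lit 5) (nat_lit 177) (nat_lit 5) (nat_lit 178) (nat_lit 5) (nat_lit 341) (nat_lit 299) (nat_lit 140)) (XT.lf (nat_lit 0) (nat_lit 9052186503) (nat_lit 456) (nat_lit 15800277088) (nat_lit 532) (nat_lit 2185615758) (nat_lit 164) (nat_lit 5) (nat_lit 170) (nat_lit 5) (nat_lit 171) (nat_lit 5) (nat_lit 342) (nat_lit 299) (nat_lit 139))))) (XT.nd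 (nat_lit 234) (nat_lit 1444) (nat_lit 0) (XT.nd (nat_lit 78) (nat_lit 456) (nat_lit 0) (XT.lf (nat_lit 0) (nat_lit 1016948638) (nat_lit 532) (nat_lit 2386220967) (nat_lit 608) (nat_lit 24156253677) (nat_lit 156) (nat_lit 5) (nat_lit 163) (nat_lit 5) (nat_lit 164) (nat_lit 5) (nat_lit 343) (nat_lit 299) (nat_lit 138)) (XT.nd (nat_lit 78) (nat_lit 456) (nat_lit 0) (XT.lf (nat_lit 0) (nat_lit 9319602173) (nat_lit 608) (nat_lit 7357156533) (nat_lit 76) (nat_lit 11415571899) (nat_lit 156) (nat_lit 5) (nat_lit 164) (nat_lit 5) (nat_lit 157) (nat_lit 5) (nat_lit 344) (nat_lit 299) (nat_lit 137)) (XT.lf (nat_lit 0) (nat_lit 12542926784) (nat_lit 456) (nat_lit 2960821177) (nat_lit 532) (nat_lit 13135678183) (nat_lit 150) (nat_lit 5) (nat_lit 156) (nat_lit 5) (nat_lit 157) (nat_lit 5) (nat_lit 345) (nat_lit 299) (nat_lit 136)))) (XT.nd (nat_lit 156) (nat_lit 988) (nat_lit 0) (XT.nd (nat_lit 78) (nat_lit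 0) (nat_lit 0) (XT.lf (nat_lit 0) (nat_lit 3907883001) (nat_lit 456) (nat_lit 18106554001) (nat_lit 532) (nat_lit 7185682413) (nat_lit 144) (nat_lit 5) (nat_lit 150) (nat_lit 5) (nat_lit 151) (nat_lit 5) (nat_lit 346) (nat_lit 299) (nat_lit 135)) (XT.lf (nat_lit 0) (nat_lit 24703496453) (nat_lit 456) (nat_lit 4138801578) (nat_lit 532) (nat_lit 932903520) (nat_lit 144) (nat_lit 5) (nat_lit 150) (nat_lit 5) (nat_lit 151) (nat_lit 5) (nat_lit 347) (nat_lit 299) (nat_lit 134))) (XT.nd (nat_lit 78) (nat_lit 456) (nat_lit 0) (XT.lf (nat_lit 0) (nat_lit 5599288483) (nat_lit 532) (nat_lit 14512861756) (nat_lit 76) (nat_lit 10251394372) (nat_lit 137) (nat_lit 5) (nat_lit 144) (nat_lit 5) (nat_lit 138) (nat_lit 5) (nat_lit 348) (nat_lit 299) (nat_lit 133)) (XT.lf (nat_lit 0) (nat_lit 6544023853) (nat_lit 456) (nat_lit 5868963566) (nat_lit 532) (nat_lit 18554467609) (nat_lit 131) (nat_lit 5) (nat_lit 137)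 (nat_lit 5) (nat_lit 138) (nat_lit 5) (nat_lit 349) (nat_lit 299) (nat_lit 132)))))) (XT.nd (nat_lit 36972) (nat_lit 0) (nat_lit 18468) (XT.nd (nat_lit 36738) (nat_lit 0) (nat_lit 18392) (XT.nd (nat_lit 78) (nat_lit 836) (nat_lit 0) (XT.lf (nat_lit 0) (nat_lit 19580740069) (nat_lit 532) (nat_lit 3222987514) (nat_lit 76) (nat_lit 8782766885) (nat_lit 131) (nat_lit 5) (nat_lit 138) (nat_lit 5) (nat_lit 132) (nat_lit 5) (nat_lit 350) (nat_lit 299) (nat_lit 131)) (XT.nd (nat_lit 78) (nat_lit 456) (nat_lit 0) (XT.lf (nat_lit 0) (nat_lit 18812262422) (nat_lit 380) (nat_lit 8306344604) (nat_lit 456) (nat_lit 5102400866) (nat_lit 126) (nat_lit 5) (nat_lit 131) (nat_lit 5) (nat_lit 132) (nat_lit 5) (nat_lit 351) (nat_lit 299) (nat_lit 130)) (XT.lf (nat_lit 0) (nat_lit 2098042614) (nat_lit 456) (nat_lit 24144662347) (nat_lit 76) (nat_lit 6629268720) (nat_lit 120) (nat_lit 5) (nat_lit 126) (nat_lit 5) (nat_lit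 121) (nat_lit 5) (nat_lit 352) (nat_lit 299) (nat_lit 129)))) (XT.nd (nat_lit 78) (nat_lit 0) (nat_lit 0) (XT.lf (nat_lit 0) (nat_lit 1507079262) (nat_lit 0) (nat_lit 1507079262) (nat_lit 1596) (nat_lit 3790948101) (nat_lit 362) (nat_lit 5) (nat_lit 362) (nat_lit 3) (nat_lit 383) (nat_lit 3) (nat_lit 300) (nat_lit 300) (nat_lit 180)) (XT.nd (nat_lit 78) (nat_lit 0) (nat_lit 76) (XT.lf (nat_lit 0) (nat_lit 6666969936) (nat_lit 1596) (nat_lit 1607743402) (nat_lit 1672) (nat_lit 5528149179) (nat_lit 362) (nat_lit 5) (nat_lit 383) (nat_lit 3) (nat_lit 384) (nat_lit 5) (nat_lit 301) (nat_lit 300) (nat_lit 179)) (XT.lf (nat_lit 0) (nat_lit 7377401168) (nat_lit 1596) (nat_lit 6281702366) (nat_lit 1672) (nat_lit 341156402) (nat_lit 363) (nat_lit 5) (nat_lit 384) (nat_lit 5) (nat_lit 385) (nat_lit 5) (nat_lit 302) (nat_lit 300) (nat_lit 178))))) (XT.nd (nat_lit 234) (nat_lit 0) (nat_lit 152) (XT.nd (nat_lit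 78) (nat_lit 0) (nat_lit 76) (XT.lf (nat_lit 76) (nat_lit 3118006451) (nat_lit 0) (nat_lit 5058346987) (nat_lit 1672) (nat_lit 6025902113) (nat_lit 364) (nat_lit 5) (nat_lit 363) (nat_lit 5) (nat_lit 385) (nat_lit 5) (nat_lit 303) (nat_lit 300) (nat_lit 177)) (XT.nd (nat_lit 78) (nat_lit 0) (nat_lit 0) (XT.lf (nat_lit 0) (nat_lit 9048006479) (nat_lit 1596) (nat_lit 1559771776) (nat_lit 1672) (nat_lit 3801577978) (nat_lit 364) (nat_lit 5) (nat_lit 385) (nat_lit 5) (nat_lit 386) (nat_lit 5) (nat_lit 304) (nat_lit 300) (nat_lit 176)) (XT.lf (nat_lit 76) (nat_lit 8314939417) (nat_lit 0) (nat_lit 1700439102) (nat_lit 1672) (nat_lit 4605919292) (nat_lit 365) (nat_lit 5) (nat_lit 364) (nat_lit 5) (nat_lit 386) (nat_lit 5) (nat_lit 305) (nat_lit 300) (nat_lit 175)))) (XT.nd (nat_lit 156) (nat_lit 0) (nat_lit 76) (XT.nd (nat_lit 78) (nat_lit 0) (nat_lit 76) (XT.lf (nat_lit 76) (nat_lit 3656239154) (nat_lit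 0) (nat_lit 7420703466) (nat_lit 1672) (nat_lit 3761370301) (nat_lit 366) (nat_lit 5) (nat_lit 365) (nat_lit 5) (nat_lit 387) (nat_lit 5) (nat_lit 306) (nat_lit 300) (nat_lit 174)) (XT.lf (nat_lit 0) (nat_lit 12218618501) (nat_lit 1596) (nat_lit 1090923702) (nat_lit 1672) (nat_lit 1751349142) (nat_lit 366) (nat_lit 5) (nat_lit 387) (nat_lit 5) (nat_lit 388) (nat_lit 5) (nat_lit 307) (nat_lit 300) (nat_lit 173))) (XT.nd (nat_lit 78) (nat_lit 0) (nat_lit 76) (XT.lf (nat_lit 76) (nat_lit 9365288697) (nat_lit 0) (nat_lit 4122943791) (nat_lit 1672) (nat_lit 1800058507) (nat_lit 367) (nat_lit 5) (nat_lit 366) (nat_lit 5) (nat_lit 388) (nat_lit 5) (nat_lit 308) (nat_lit 300) (nat_lit 172)) (XT.lf (nat_lit 76) (nat_lit 4642854547) (nat_lit 0) (nat_lit 10209043592) (nat_lit 1672) (nat_lit 669512346) (nat_lit 368) (nat_lit 5) (nat_lit 367) (nat_lit 5) (nat_lit 389) (nat_lit 5) (nat_lit 309) (nat_lit 300)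 (nat_lit 171))))))))
noncomputable def xc111 : XT := (XT.nd (nat_lit 2028) (nat_lit 5852) (nat_lit 0) (XT.nd (nat_lit 1014) (nat_lit 6384) (nat_lit 0) (XT.nd (nat_lit 468) (nat_lit 4028) (nat_lit 0) (XT.nd (nat_lit 234) (nat_lit 0) (nat_lit 152) (XT.nd (nat_lit 78) (nat_lit 0) (nat_lit 76) (XT.lf (nat_lit 0) (nat_lit 540426181) (nat_lit 1672) (nat_lit 196137151) (nat_lit 1748) (nat_lit 15023872901) (nat_lit 345) (nat_lit 5) (nat_lit 367) (nat_lit 5) (nat_lit 368) (nat_lit 5) (nat_lit 310) (nat_lit 300) (nat_lit 170)) (XT.nd (nat_lit 78) (nat_lit 0) (nat_lit 76) (XT.lf (nat_lit 0) (nat_lit 1892169869) (nat_lit 1672) (nat_lit 5129658034) (nat_lit 1748) (nat_lit 8982440097) (nat_lit 346) (nat_lit 5) (nat_lit 368) (nat_lit 5) (nat_lit 369) (nat_lit 5) (nat_lit 311) (nat_lit 300) (nat_lit 169)) (XT.lf (nat_lit 0) (nat_lit 3333142156) (nat_lit 1672) (nat_lit 10184104060) (nat_lit 1748) (nat_lit 2737210334)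 (nat_lit 347) (nat_lit 5) (nat_lit 369) (nat_lit 5) (nat_lit 370) (nat_lit 5) (nat_lit 312) (nat_lit 300) (nat_lit 168)))) (XT.nd (nat_lit 78) (nat_lit 0) (nat_lit 76) (XT.lf (nat_lit 76) (nat_lit 1121510556) (nat_lit 0) (nat_lit 3770332003) (nat_lit 1748) (nat_lit 11618833127) (nat_lit 348) (nat_lit 5) (nat_lit 347) (nat_lit 5) (nat_lit 370) (nat_lit 5) (nat_lit 313) (nat_lit 300) (nat_lit 167)) (XT.nd (nat_lit 78) (nat_lit 0) (nat_lit 0) (XT.lf (nat_lit 0) (nat_lit 6593123201) (nat_lit 1672) (nat_lit 3919942258) (nat_lit 1748) (nat_lit 6259614029) (nat_lit 348) (nat_lit 5) (nat_lit 370) (nat_lit 5) (nat_lit 371) (nat_lit 5) (nat_lit 314) (nat_lit 300) (nat_lit 166)) (XT.lf (nat_lit 76) (nat_lit 7961613011) (nat_lit 0) (nat_lit 446802248) (nat_lit 1748) (nat_lit 8632882736) (nat_lit 349) (nat_lit 5) (nat_lit 348) (nat_lit 5) (nat_lit 371) (nat_lit 5) (nat_lit 315) (nat_lit 300) (nat_lit 165)))))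 (XT.nd (nat_lit 234) (nat_lit 2736) (nat_lit 0) (XT.nd (nat_lit 78) (nat_lit 1596) (nat_lit 0) (XT.lf (nat_lit 76) (nat_lit 2898170707) (nat_lit 0) (nat_lit 7476388804) (nat_lit 1748) (nat_lit 6941501323) (nat_lit 350) (nat_lit 5) (nat_lit 349) (nat_lit 5) (nat_lit 372) (nat_lit 5) (nat_lit 316) (nat_lit 300) (nat_lit 164)) (XT.nd (nat_lit 78) (nat_lit 1672) (nat_lit 0) (XT.lf (nat_lit 0) (nat_lit 12469724174) (nat_lit 1672) (nat_lit 2271126378) (nat_lit 76) (nat_lit 2856828531) (nat_lit 350) (nat_lit 5) (nat_lit 372) (nat_lit 5) (nat_lit 351) (nat_lit 5) (nat_lit 317) (nat_lit 300) (nat_lit 163)) (XT.lf (nat_lit 0) (nat_lit 10314455507) (nat_lit 1672) (nat_lit 4417401425) (nat_lit 1748) (nat_lit 3153819545) (nat_lit 328) (nat_lit 5) (nat_lit 350) (nat_lit 5) (nat_lit 351) (nat_lit 5) (nat_lit 318) (nat_lit 300) (nat_lit 162)))) (XT.nd (nat_lit 156) (nat_lit 1672) (nat_lit 0) (XT.nd (nat_lit 78)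 (nat_lit 76) (nat_lit 0) (XT.lf (nat_lit 0) (nat_lit 5142713213) (nat_lit 988) (nat_lit 11995842942) (nat_lit 1064) (nat_lit 1042236073) (nat_lit 315) (nat_lit 5) (nat_lit 328) (nat_lit 5) (nat_lit 329) (nat_lit 5) (nat_lit 319) (nat_lit 300) (nat_lit 161)) (XT.lf (nat_lit 0) (nat_lit 1186691364) (nat_lit 1064) (nat_lit 190228995) (nat_lit 76) (nat_lit 17106328854) (nat_lit 314) (nat_lit 5) (nat_lit 328) (nat_lit 5) (nat_lit 315) (nat_lit 5) (nat_lit 320) (nat_lit 300) (nat_lit 160))) (XT.nd (nat_lit 78) (nat_lit 836) (nat_lit 0) (XT.lf (nat_lit 0) (nat_lit 3604822376) (nat_lit 912) (nat_lit 5657326417) (nat_lit 76) (nat_lit 9529774956) (nat_lit 303) (nat_lit 5) (nat_lit 315) (nat_lit 5) (nat_lit 304) (nat_lit 5) (nat_lit 321) (nat_lit 300) (nat_lit 159)) (XT.lf (nat_lit 0) (nat_lit 6156155324) (nat_lit 912) (nat_lit 11285089775) (nat_lit 76) (nat_lit 1667411465) (nat_lit 292) (nat_lit 5) (nat_lit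 304) (nat_lit 5) (nat_lit 293) (nat_lit 5) (nat_lit 322) (nat_lit 300) (nat_lit 158)))))) (XT.nd (nat_lit 468) (nat_lit 3344) (nat_lit 0) (XT.nd (nat_lit 234) (nat_lit 1520) (nat_lit 0) (XT.nd (nat_lit 78) (nat_lit 760) (nat_lit 0) (XT.lf (nat_lit 0) (nat_lit 2309504050) (nat_lit 760) (nat_lit 6578640455) (nat_lit 836) (nat_lit 10544675410) (nat_lit 282) (nat_lit 5) (nat_lit 292) (nat_lit 5) (nat_lit 293) (nat_lit 5) (nat_lit 323) (nat_lit 300) (nat_lit 157)) (XT.nd (nat_lit 78) (nat_lit 760) (nat_lit 0) (XT.lf (nat_lit 0) (nat_lit 11797859669) (nat_lit 836) (nat_lit 3340061405) (nat_lit 76) (nat_lit 4626882325) (nat_lit 282) (nat_lit 5) (nat_lit 293) (nat_lit 5) (nat_lit 283) (nat_lit 5) (nat_lit 324) (nat_lit 300) (nat_lit 156)) (XT.lf (nat_lit 0) (nat_lit 10945713678) (nat_lit 760) (nat_lit 3953396629) (nat_lit 836) (nat_lit 5205561452) (nat_lit 272) (nat_lit 5) (nat_lit 282) (nat_lit 5) (nat_lit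 283) (nat_lit 5) (nat_lit 325) (nat_lit 300) (nat_lit 155)))) (XT.nd (nat_lit 78) (nat_lit 836) (nat_lit 0) (XT.lf (nat_lit 0) (nat_lit 5260624727) (nat_lit 684) (nat_lit 12928272171) (nat_lit 760) (nat_lit 2263939257) (nat_lit 263) (nat_lit 5) (nat_lit 272) (nat_lit 5) (nat_lit 273) (nat_lit 5) (nat_lit 326) (nat_lit 300) (nat_lit 154)) (XT.nd (nat_lit 78) (nat_lit 760) (nat_lit 0) (XT.lf (nat_lit 0) (nat_lit 834393606) (nat_lit 760) (nat_lit 614427371) (nat_lit 76) (nat_lit 19360964373) (nat_lit 262) (nat_lit 5) (nat_lit 272) (nat_lit 5) (nat_lit 263) (nat_lit 5) (nat_lit 327) (nat_lit 300) (nat_lit 153)) (XT.lf (nat_lit 0) (nat_lit 4147652356) (nat_lit 836) (nat_lit 6677214378) (nat_lit 76) (nat_lit 10349231514) (nat_lit 252) (nat_lit 5) (nat_lit 263) (nat_lit 5) (nat_lit 253) (nat_lit 5) (nat_lit 328) (nat_lit 300) (nat_lit 152))))) (XT.nd (nat_lit 234) (nat_lit 1976) (nat_lit 0) (XT.nd (nat_lit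 78) (nat_lit 684) (nat_lit 0) (XT.lf (nat_lit 0) (nat_lit 7626688853) (nat_lit 760) (nat_lit 12940956359) (nat_lit 76) (nat_lit 980376650) (nat_lit 243) (nat_lit 5) (nat_lit 253) (nat_lit 5) (nat_lit 244) (nat_lit 5) (nat_lit 329) (nat_lit 300) (nat_lit 151)) (XT.nd (nat_lit 78) (nat_lit 0) (nat_lit 0) (XT.lf (nat_lit 0) (nat_lit 2458236339) (nat_lit 684) (nat_lit 8876101239) (nat_lit 760) (nat_lit 10596349454) (nat_lit 234) (nat_lit 5) (nat_lit 243) (nat_lit 5) (nat_lit 244) (nat_lit 5) (nat_lit 330) (nat_lit 300) (nat_lit 150)) (XT.lf (nat_lit 0) (nat_lit 15252599530) (nat_lit 760) (nat_lit 3858026247) (nat_lit 76) (nat_lit 3212227124) (nat_lit 234) (nat_lit 5) (nat_lit 244) (nat_lit 5) (nat_lit 235) (nat_lit 5) (nat_lit 331) (nat_lit 300) (nat_lit 149)))) (XT.nd (nat_lit 156) (nat_lit 608) (nat_lit 0) (XT.nd (nat_lit 78) (nat_lit 760) (nat_lit 0) (XT.lf (nat_lit 0) (nat_lit 12316960340) (nat_lit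 608) (nat_lit 7101606439) (nat_lit 684) (nat_lit 3305621988) (nat_lit 226) (nat_lit 5) (nat_lit 234) (nat_lit 5) (nat_lit 235) (nat_lit 5) (nat_lit 332) (nat_lit 300) (nat_lit 148)) (XT.lf (nat_lit 0) (nat_lit 655056279) (nat_lit 760) (nat_lit 17213838103) (nat_lit 76) (nat_lit 5266791654) (nat_lit 216) (nat_lit 5) (nat_lit 226) (nat_lit 5) (nat_lit 217) (nat_lit 5) (nat_lit 333) (nat_lit 300) (nat_lit 147))) (XT.nd (nat_lit 78) (nat_lit 608) (nat_lit 0) (XT.lf (nat_lit 0) (nat_lit 4799539156) (nat_lit 760) (nat_lit 754961450) (nat_lit 76) (nat_lit 18002400272) (nat_lit 216) (nat_lit 5) (nat_lit 226) (nat_lit 5) (nat_lit 217) (nat_lit 5) (nat_lit 334) (nat_lit 300) (nat_lit 146)) (XT.lf (nat_lit 0) (nat_lit 9213257210) (nat_lit 684) (nat_lit 7632715674) (nat_lit 76) (nat_lit 7141888600) (nat_lit 208) (nat_lit 5) (nat_lit 217) (nat_lit 5) (nat_lit 209) (nat_lit 5) (nat_lit 335) (nat_lit 300) (nat_lit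 145))))))) (XT.nd (nat_lit 1014) (nat_lit 988) (nat_lit 0) (XT.nd (nat_lit 468) (nat_lit 2508) (nat_lit 0) (XT.nd (nat_lit 234) (nat_lit 1216) (nat_lit 0) (XT.nd (nat_lit 78) (nat_lit 532) (nat_lit 0) (XT.lf (nat_lit 0) (nat_lit 9636701046) (nat_lit 608) (nat_lit 4219143875) (nat_lit 684) (nat_lit 10573983943) (nat_lit 200) (nat_lit 5) (nat_lit 208) (nat_lit 5) (nat_lit 209) (nat_lit 5) (nat_lit 336) (nat_lit 300) (nat_lit 144)) (XT.nd (nat_lit 78) (nat_lit 0) (nat_lit 0) (XT.lf (nat_lit 0) (nat_lit 2611768029) (nat_lit 532) (nat_lit 16143780276) (nat_lit 608) (nat_lit 6127157110) (nat_lit 193) (nat_lit 5) (nat_lit 200) (nat_lit 5) (nat_lit 201) (nat_lit 5) (nat_lit 337) (nat_lit 300) (nat_lit 143)) (XT.lf (nat_lit 0) (nat_lit 20703116614) (nat_lit 532) (nat_lit 3219344961) (nat_lit 608) (nat_lit 1424309023) (nat_lit 193) (nat_lit 5) (nat_lit 200) (nat_lit 5) (nat_lit 201) (nat_lit 5) (nat_lit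 338) (nat_lit 300) (nat_lit 142)))) (XT.nd (nat_lit 78) (nat_lit 532) (nat_lit 0) (XT.lf (nat_lit 0) (nat_lit 3521841335) (nat_lit 684) (nat_lit 12228985196) (nat_lit 76) (nat_lit 10070552225) (nat_lit 184) (nat_lit 5) (nat_lit 193) (nat_lit 5) (nat_lit 185) (nat_lit 5) (nat_lit 339) (nat_lit 300) (nat_lit 141)) (XT.nd (nat_lit 78) (nat_lit 0) (nat_lit 0) (XT.lf (nat_lit 0) (nat_lit 6169720762) (nat_lit 532) (nat_lit 2512958987) (nat_lit 608) (nat_lit 17625650231) (nat_lit 177) (nat_lit 5) (nat_lit 184) (nat_lit 5) (nat_lit 185) (nat_lit 5) (nat_lit 340) (nat_lit 300) (nat_lit 140)) (XT.lf (nat_lit 0) (nat_lit 14146406388) (nat_lit 608) (nat_lit 1602629208) (nat_lit 76) (nat_lit 11057898904) (nat_lit 177) (nat_lit 5) (nat_lit 185) (nat_lit 5) (nat_lit 178) (nat_lit 5) (nat_lit 341) (nat_lit 300) (nat_lit 139))))) (XT.nd (nat_lit 234) (nat_lit 912) (nat_lit 0) (XT.nd (nat_lit 78) (nat_lit 1064)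 (nat_lit 0) (XT.lf (nat_lit 0) (nat_lit 17695563179) (nat_lit 532) (nat_lit 2202833710) (nat_lit 608) (nat_lit 7419619070) (nat_lit 170) (nat_lit 5) (nat_lit 177) (nat_lit 5) (nat_lit 178) (nat_lit 5) (nat_lit 342) (nat_lit 300) (nat_lit 138)) (XT.nd (nat_lit 78) (nat_lit 608) (nat_lit 0) (XT.lf (nat_lit 0) (nat_lit 9793376836) (nat_lit 456) (nat_lit 16173173673) (nat_lit 532) (nat_lit 1875012959) (nat_lit 164) (nat_lit 5) (nat_lit 170) (nat_lit 5) (nat_lit 171) (nat_lit 5) (nat_lit 343) (nat_lit 300) (nat_lit 137)) (XT.lf (nat_lit 0) (nat_lit 1514594018) (nat_lit 532) (nat_lit 2354128606) (nat_lit 608) (nat_lit 24509940067) (nat_lit 156) (nat_lit 5) (nat_lit 163) (nat_lit 5) (nat_lit 164) (nat_lit 5) (nat_lit 344) (nat_lit 300) (nat_lit 136)))) (XT.nd (nat_lit 156) (nat_lit 456) (nat_lit 0) (XT.nd (nat_lit 78) (nat_lit 456) (nat_lit 0) (XT.lf (nat_lit 0) (nat_lit 9952715562) (nat_lit 608) (nat_lit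 7117670202) (nat_lit 76) (nat_lit 11857378106) (nat_lit 156) (nat_lit 5) (nat_lit 164) (nat_lit 5) (nat_lit 157) (nat_lit 5) (nat_lit 345) (nat_lit 300) (nat_lit 135)) (XT.lf (nat_lit 0) (nat_lit 13371949399) (nat_lit 456) (nat_lit 2943078925) (nat_lit 532) (nat_lit 13176398851) (nat_lit 150) (nat_lit 5) (nat_lit 156) (nat_lit 5) (nat_lit 157) (nat_lit 5) (nat_lit 346) (nat_lit 300) (nat_lit 134))) (XT.nd (nat_lit 78) (nat_lit 0) (nat_lit 0) (XT.lf (nat_lit 0) (nat_lit 4476893779) (nat_lit 456) (nat_lit 18537666666) (nat_lit 532) (nat_lit 7054517878) (nat_lit 144) (nat_lit 5) (nat_lit 150) (nat_lit 5) (nat_lit 151) (nat_lit 5) (nat_lit 347) (nat_lit 300) (nat_lit 133)) (XT.lf (nat_lit 0) (nat_lit 25883217160) (nat_lit 456) (nat_lit 4154146251) (nat_lit 532) (nat_lit 624254695) (nat_lit 144) (nat_lit 5) (nat_lit 150) (nat_lit 5) (nat_lit 151) (nat_lit 5) (nat_lit 348) (nat_lit 300) (nat_lit 132))))))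 (XT.nd (nat_lit 37206) (nat_lit 0) (nat_lit 16264) (XT.nd (nat_lit 36894) (nat_lit 0) (nat_lit 17556) (XT.nd (nat_lit 78) (nat_lit 456) (nat_lit 0) (XT.lf (nat_lit 0) (nat_lit 6093361751) (nat_lit 532) (nat_lit 14506148896) (nat_lit 76) (nat_lit 10668186580) (nat_lit 137) (nat_lit 5) (nat_lit 144) (nat_lit 5) (nat_lit 138) (nat_lit 5) (nat_lit 349) (nat_lit 300) (nat_lit 131)) (XT.nd (nat_lit 78) (nat_lit 0) (nat_lit 0) (XT.lf (nat_lit 0) (nat_lit 7175270755) (nat_lit 456) (nat_lit 5929526828) (nat_lit 532) (nat_lit 18785067606) (nat_lit 131) (nat_lit 5) (nat_lit 137) (nat_lit 5) (nat_lit 138) (nat_lit 5) (nat_lit 350) (nat_lit 300) (nat_lit 130)) (XT.lf (nat_lit 0) (nat_lit 20479007398) (nat_lit 532) (nat_lit 2891725938) (nat_lit 76) (nat_lit 9156920540) (nat_lit 131) (nat_lit 5) (nat_lit 138) (nat_lit 5) (nat_lit 132) (nat_lit 5) (nat_lit 351) (nat_lit 300) (nat_lit 129)))) (XT.nd (nat_lit 156)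 (nat_lit 0) (nat_lit 0) (XT.nd (nat_lit 78) (nat_lit 0) (nat_lit 0) (XT.lf (nat_lit 0) (nat_lit 1805760854) (nat_lit 0) (nat_lit 1805760854) (nat_lit 1596) (nat_lit 3387065161) (nat_lit 362) (nat_lit 5) (nat_lit 362) (nat_lit 3) (nat_lit 383) (nat_lit 3) (nat_lit 301) (nat_lit 301) (nat_lit 178)) (XT.lf (nat_lit 0) (nat_lit 7848129983) (nat_lit 1596) (nat_lit 1139882773) (nat_lit 1672) (nat_lit 5208275363) (nat_lit 362) (nat_lit 5) (nat_lit 383) (nat_lit 3) (nat_lit 384) (nat_lit 5) (nat_lit 302) (nat_lit 301) (nat_lit 177))) (XT.nd (nat_lit 78) (nat_lit 0) (nat_lit 76) (XT.lf (nat_lit 76) (nat_lit 8460192252) (nat_lit 0) (nat_lit 92089357) (nat_lit 1672) (nat_lit 5847907912) (nat_lit 363) (nat_lit 5) (nat_lit 362) (nat_lit 5) (nat_lit 384) (nat_lit 5) (nat_lit 303) (nat_lit 301) (nat_lit 176)) (XT.lf (nat_lit 76) (nat_lit 3733689863) (nat_lit 0) (nat_lit 5616548650) (nat_lit 1672) (nat_lit 5258535104)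 (nat_lit 364) (nat_lit 5) (nat_lit 363) (nat_lit 5) (nat_lit 385) (nat_lit 5) (nat_lit 304) (nat_lit 301) (nat_lit 175))))) (XT.nd (nat_lit 234) (nat_lit 1444) (nat_lit 0) (XT.nd (nat_lit 78) (nat_lit 0) (nat_lit 0) (XT.lf (nat_lit 0) (nat_lit 10218432615) (nat_lit 1596) (nat_lit 1078087481) (nat_lit 1672) (nat_lit 3526187869) (nat_lit 364) (nat_lit 5) (nat_lit 385) (nat_lit 5) (nat_lit 386) (nat_lit 5) (nat_lit 305) (nat_lit 301) (nat_lit 174)) (XT.nd (nat_lit 78) (nat_lit 0) (nat_lit 76) (XT.lf (nat_lit 76) (nat_lit 9084291129) (nat_lit 0) (nat_lit 2107726190) (nat_lit 1672) (nat_lit 3849474290) (nat_lit 365) (nat_lit 5) (nat_lit 364) (nat_lit 5) (nat_lit 386) (nat_lit 5) (nat_lit 306) (nat_lit 301) (nat_lit 173)) (XT.lf (nat_lit 76) (nat_lit 4297816565) (nat_lit 0) (nat_lit 7963299638) (nat_lit 1672) (nat_lit 3004414054) (nat_lit 366) (nat_lit 5) (nat_lit 365) (nat_lit 5) (nat_lit 387) (nat_lit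 5) (nat_lit 307) (nat_lit 301) (nat_lit 172)))) (XT.nd (nat_lit 156) (nat_lit 1596) (nat_lit 0) (XT.nd (nat_lit 78) (nat_lit 0) (nat_lit 0) (XT.lf (nat_lit 0) (nat_lit 13410213769) (nat_lit 1596) (nat_lit 587826386) (nat_lit 1672) (nat_lit 1497308512) (nat_lit 366) (nat_lit 5) (nat_lit 387) (nat_lit 5) (nat_lit 388) (nat_lit 5) (nat_lit 308) (nat_lit 301) (nat_lit 171)) (XT.lf (nat_lit 76) (nat_lit 10173379260) (nat_lit 0) (nat_lit 4523929209) (nat_lit 1672) (nat_lit 1032699292) (nat_lit 367) (nat_lit 5) (nat_lit 366) (nat_lit 5) (nat_lit 388) (nat_lit 5) (nat_lit 309) (nat_lit 301) (nat_lit 170))) (XT.nd (nat_lit 78) (nat_lit 0) (nat_lit 0) (XT.lf (nat_lit 0) (nat_lit 108175945) (nat_lit 1672) (nat_lit 10652142465) (nat_lit 1748) (nat_lit 5210246583) (nat_lit 345) (nat_lit 5) (nat_lit 367) (nat_lit 5) (nat_lit 368) (nat_lit 5) (nat_lit 310) (nat_lit 301) (nat_lit 169)) (XT.lf (nat_lit 76) (nat_lit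 334691403) (nat_lit 0) (nat_lit 989877363) (nat_lit 1748) (nat_lit 14892542576) (nat_lit 346) (nat_lit 5) (nat_lit 345) (nat_lit 5) (nat_lit 368) (nat_lit 5) (nat_lit 311) (nat_lit 301) (nat_lit 168))))))))
noncomputable def xc112 : XT := (XT.nd (nat_lit 2028) (nat_lit 5244) (nat_lit 0) (XT.nd (nat_lit 1014) (nat_lit 6232) (nat_lit 0) (XT.nd (nat_lit 468) (nat_lit 4864) (nat_lit 0) (XT.nd (nat_lit 234) (nat_lit 0) (nat_lit 152) (XT.nd (nat_lit 78) (nat_lit 0) (nat_lit 76) (XT.lf (nat_lit 0) (nat_lit 2694339309) (nat_lit 1672) (nat_lit 4742718261) (nat_lit 1748) (nat_lit 9031673701) (nat_lit 346) (nat_lit 5) (nat_lit 368) (nat_lit 5) (nat_lit 369) (nat_lit 5) (nat_lit 312) (nat_lit 301) (nat_lit 167)) (XT.nd (nat_lit 78) (nat_lit 0) (nat_lit 0) (XT.lf (nat_lit 0) (nat_lit 4159017743) (nat_lit 1672) (nat_lit 9941027711) (nat_lit 1748) (nat_lit 2626792525) (nat_lit 347) (nat_lit 5) (nat_lit 369)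 (nat_lit 5) (nat_lit 370) (nat_lit 5) (nat_lit 313) (nat_lit 301) (nat_lit 166)) (XT.lf (nat_lit 76) (nat_lit 1694854970) (nat_lit 0) (nat_lit 4051986098) (nat_lit 1748) (nat_lit 11244276780) (nat_lit 348) (nat_lit 5) (nat_lit 347) (nat_lit 5) (nat_lit 370) (nat_lit 5) (nat_lit 314) (nat_lit 301) (nat_lit 165)))) (XT.nd (nat_lit 78) (nat_lit 0) (nat_lit 0) (XT.lf (nat_lit 0) (nat_lit 7477469258) (nat_lit 1672) (nat_lit 3498053626) (nat_lit 1748) (nat_lit 6285913471) (nat_lit 348) (nat_lit 5) (nat_lit 370) (nat_lit 5) (nat_lit 371) (nat_lit 5) (nat_lit 315) (nat_lit 301) (nat_lit 164)) (XT.nd (nat_lit 78) (nat_lit 0) (nat_lit 76) (XT.lf (nat_lit 76) (nat_lit 8731195767) (nat_lit 0) (nat_lit 599473520) (nat_lit 1748) (nat_lit 8207795316) (nat_lit 349) (nat_lit 5) (nat_lit 348) (nat_lit 5) (nat_lit 371) (nat_lit 5) (nat_lit 316) (nat_lit 301) (nat_lit 163)) (XT.lf (nat_lit 76) (nat_lit 3521973231)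 (nat_lit 0) (nat_lit 7816917782) (nat_lit 1748) (nat_lit 6482937032) (nat_lit 350) (nat_lit 5) (nat_lit 349) (nat_lit 5) (nat_lit 372) (nat_lit 5) (nat_lit 317) (nat_lit 301) (nat_lit 162))))) (XT.nd (nat_lit 234) (nat_lit 2508) (nat_lit 0) (XT.nd (nat_lit 78) (nat_lit 2660) (nat_lit 0) (XT.lf (nat_lit 0) (nat_lit 13477155730) (nat_lit 1672) (nat_lit 1803991523) (nat_lit 76) (nat_lit 2831161697) (nat_lit 350) (nat_lit 5) (nat_lit 372) (nat_lit 5) (nat_lit 351) (nat_lit 5) (nat_lit 318) (nat_lit 301) (nat_lit 161)) (XT.nd (nat_lit 78) (nat_lit 988) (nat_lit 0) (XT.lf (nat_lit 0) (nat_lit 11150473721) (nat_lit 1672) (nat_lit 4641650895) (nat_lit 1748) (nat_lit 2617140664) (nat_lit 328) (nat_lit 5) (nat_lit 350) (nat_lit 5) (nat_lit 351) (nat_lit 5) (nat_lit 319) (nat_lit 301) (nat_lit 160)) (XT.lf (nat_lit 0) (nat_lit 5828392724) (nat_lit 988) (nat_lit 12427494985) (nat_lit 1064) (nat_lit 457667457)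 (nat_lit 315) (nat_lit 5) (nat_lit 328) (nat_lit 5) (nat_lit 329) (nat_lit 5) (nat_lit 320) (nat_lit 301) (nat_lit 159)))) (XT.nd (nat_lit 156) (nat_lit 1596) (nat_lit 0) (XT.nd (nat_lit 78) (nat_lit 0) (nat_lit 0) (XT.lf (nat_lit 0) (nat_lit 332758939) (nat_lit 836) (nat_lit 1481750844) (nat_lit 912) (nat_lit 17210823990) (nat_lit 303) (nat_lit 5) (nat_lit 314) (nat_lit 5) (nat_lit 315) (nat_lit 5) (nat_lit 321) (nat_lit 301) (nat_lit 158)) (XT.lf (nat_lit 0) (nat_lit 4288795042) (nat_lit 912) (nat_lit 5298753703) (nat_lit 76) (nat_lit 9756064155) (nat_lit 303) (nat_lit 5) (nat_lit 315) (nat_lit 5) (nat_lit 304) (nat_lit 5) (nat_lit 322) (nat_lit 301) (nat_lit 157))) (XT.nd (nat_lit 78) (nat_lit 760) (nat_lit 0) (XT.lf (nat_lit 0) (nat_lit 6902993371) (nat_lit 912) (nat_lit 11091859046) (nat_lit 76) (nat_lit 1675284852) (nat_lit 292) (nat_lit 5) (nat_lit 304) (nat_lit 5) (nat_lit 293) (nat_lit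 5) (nat_lit 323) (nat_lit 301) (nat_lit 156)) (XT.lf (nat_lit 0) (nat_lit 2901945039) (nat_lit 760) (nat_lit 6802020463) (nat_lit 836) (nat_lit 10300335162) (nat_lit 282) (nat_lit 5) (nat_lit 292) (nat_lit 5) (nat_lit 293) (nat_lit 5) (nat_lit 324) (nat_lit 301) (nat_lit 155)))))) (XT.nd (nat_lit 468) (nat_lit 3268) (nat_lit 0) (XT.nd (nat_lit 234) (nat_lit 1520) (nat_lit 0) (XT.nd (nat_lit 78) (nat_lit 1444) (nat_lit 0) (XT.lf (nat_lit 0) (nat_lit 12684812661) (nat_lit 836) (nat_lit 2921012121) (nat_lit 76) (nat_lit 4740757215) (nat_lit 282) (nat_lit 5) (nat_lit 293) (nat_lit 5) (nat_lit 283) (nat_lit 5) (nat_lit 325) (nat_lit 301) (nat_lit 154)) (XT.nd (nat_lit 78) (nat_lit 684) (nat_lit 0) (XT.lf (nat_lit 0) (nat_lit 11784911982) (nat_lit 760) (nat_lit 4081980690) (nat_lit 836) (nat_lit 4830012612) (nat_lit 272) (nat_lit 5) (nat_lit 282) (nat_lit 5) (nat_lit 283) (nat_lit 5) (nat_lit 326) (nat_lit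 301) (nat_lit 153)) (XT.lf (nat_lit 0) (nat_lit 5931776243) (nat_lit 684) (nat_lit 13311697396) (nat_lit 760) (nat_lit 1812293242) (nat_lit 263) (nat_lit 5) (nat_lit 272) (nat_lit 5) (nat_lit 273) (nat_lit 5) (nat_lit 327) (nat_lit 301) (nat_lit 152)))) (XT.nd (nat_lit 78) (nat_lit 1444) (nat_lit 0) (XT.lf (nat_lit 0) (nat_lit 1357240962) (nat_lit 760) (nat_lit 127409923) (nat_lit 76) (nat_lit 19939018486) (nat_lit 262) (nat_lit 5) (nat_lit 272) (nat_lit 5) (nat_lit 263) (nat_lit 5) (nat_lit 328) (nat_lit 301) (nat_lit 151)) (XT.nd (nat_lit 78) (nat_lit 684) (nat_lit 0) (XT.lf (nat_lit 0) (nat_lit 4758695975) (nat_lit 836) (nat_lit 6370179458) (nat_lit 76) (nat_lit 10670273453) (nat_lit 252) (nat_lit 5) (nat_lit 263) (nat_lit 5) (nat_lit 253) (nat_lit 5) (nat_lit 329) (nat_lit 301) (nat_lit 150)) (XT.lf (nat_lit 0) (nat_lit 8331323142) (nat_lit 760) (nat_lit 12820276211) (nat_lit 76) (nat_lit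 1032919281) (nat_lit 243) (nat_lit 5) (nat_lit 253) (nat_lit 5) (nat_lit 244) (nat_lit 5) (nat_lit 330) (nat_lit 301) (nat_lit 149))))) (XT.nd (nat_lit 234) (nat_lit 1976) (nat_lit 0) (XT.nd (nat_lit 78) (nat_lit 608) (nat_lit 0) (XT.lf (nat_lit 0) (nat_lit 3032635826) (nat_lit 684) (nat_lit 9106956838) (nat_lit 760) (nat_lit 10439295712) (nat_lit 234) (nat_lit 5) (nat_lit 243) (nat_lit 5) (nat_lit 244) (nat_lit 5) (nat_lit 331) (nat_lit 301) (nat_lit 148)) (XT.nd (nat_lit 78) (nat_lit 608) (nat_lit 0) (XT.lf (nat_lit 0) (nat_lit 16162075552) (nat_lit 760) (nat_lit 3478483882) (nat_lit 76) (nat_lit 3342538404) (nat_lit 234) (nat_lit 5) (nat_lit 244) (nat_lit 5) (nat_lit 235) (nat_lit 5) (nat_lit 332) (nat_lit 301) (nat_lit 147)) (XT.lf (nat_lit 0) (nat_lit 13173716922) (nat_lit 608) (nat_lit 7269306354) (nat_lit 684) (nat_lit 2953662206) (nat_lit 226) (nat_lit 5) (nat_lit 234) (nat_lit 5) (nat_lit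 235) (nat_lit 5) (nat_lit 333) (nat_lit 301) (nat_lit 146)))) (XT.nd (nat_lit 156) (nat_lit 1216) (nat_lit 0) (XT.nd (nat_lit 78) (nat_lit 0) (nat_lit 0) (XT.lf (nat_lit 0) (nat_lit 1110430461) (nat_lit 760) (nat_lit 17235958274) (nat_lit 76) (nat_lit 5474281304) (nat_lit 216) (nat_lit 5) (nat_lit 226) (nat_lit 5) (nat_lit 217) (nat_lit 5) (nat_lit 334) (nat_lit 301) (nat_lit 145)) (XT.lf (nat_lit 0) (nat_lit 5366556878) (nat_lit 760) (nat_lit 297712263) (nat_lit 76) (nat_lit 18590516843) (nat_lit 216) (nat_lit 5) (nat_lit 226) (nat_lit 5) (nat_lit 217) (nat_lit 5) (nat_lit 335) (nat_lit 301) (nat_lit 144))) (XT.nd (nat_lit 78) (nat_lit 608) (nat_lit 0) (XT.lf (nat_lit 0) (nat_lit 9903809193) (nat_lit 684) (nat_lit 7381337372) (nat_lit 76) (nat_lit 7413716911) (nat_lit 208) (nat_lit 5) (nat_lit 217) (nat_lit 5) (nat_lit 209) (nat_lit 5) (nat_lit 336) (nat_lit 301) (nat_lit 143)) (XT.lf (nat_lit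 0) (nat_lit 10398368583) (nat_lit 608) (nat_lit 4278311421) (nat_lit 684) (nat_lit 10477599980) (nat_lit 200) (nat_lit 5) (nat_lit 208) (nat_lit 5) (nat_lit 209) (nat_lit 5) (nat_lit 337) (nat_lit 301) (nat_lit 142))))))) (XT.nd (nat_lit 1014) (nat_lit 456) (nat_lit 0) (XT.nd (nat_lit 468) (nat_lit 2508) (nat_lit 0) (XT.nd (nat_lit 234) (nat_lit 1064) (nat_lit 0) (XT.nd (nat_lit 78) (nat_lit 684) (nat_lit 0) (XT.lf (nat_lit 0) (nat_lit 3162896952) (nat_lit 532) (nat_lit 16552171246) (nat_lit 608) (nat_lit 5905850679) (nat_lit 193) (nat_lit 5) (nat_lit 200) (nat_lit 5) (nat_lit 201) (nat_lit 5) (nat_lit 338) (nat_lit 301) (nat_lit 141)) (XT.nd (nat_lit 78) (nat_lit 684) (nat_lit 0) (XT.lf (nat_lit 0) (nat_lit 21783215824) (nat_lit 532) (nat_lit 3242214205) (nat_lit 608) (nat_lit 1073716794) (nat_lit 193) (nat_lit 5) (nat_lit 200) (nat_lit 5) (nat_lit 201) (nat_lit 5) (nat_lit 339) (nat_lit 301)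 (nat_lit 140)) (XT.lf (nat_lit 0) (nat_lit 4007821362) (nat_lit 684) (nat_lit 12131510156) (nat_lit 76) (nat_lit 10448776565) (nat_lit 184) (nat_lit 5) (nat_lit 193) (nat_lit 5) (nat_lit 185) (nat_lit 5) (nat_lit 340) (nat_lit 301) (nat_lit 139)))) (XT.nd (nat_lit 78) (nat_lit 532) (nat_lit 0) (XT.lf (nat_lit 0) (nat_lit 6811623542) (nat_lit 532) (nat_lit 2503749887) (nat_lit 608) (nat_lit 17774465544) (nat_lit 177) (nat_lit 5) (nat_lit 184) (nat_lit 5) (nat_lit 185) (nat_lit 5) (nat_lit 341) (nat_lit 301) (nat_lit 138)) (XT.nd (nat_lit 78) (nat_lit 532) (nat_lit 0) (XT.lf (nat_lit 0) (nat_lit 14932703970) (nat_lit 608) (nat_lit 1200219929) (nat_lit 76) (nat_lit 11470692526) (nat_lit 177) (nat_lit 5) (nat_lit 185) (nat_lit 5) (nat_lit 178) (nat_lit 5) (nat_lit 342) (nat_lit 301) (nat_lit 137)) (XT.lf (nat_lit 0) (nat_lit 18669609594) (nat_lit 532) (nat_lit 2179981074) (nat_lit 608) (nat_lit 7280601319)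 (nat_lit 170) (nat_lit 5) (nat_lit 177) (nat_lit 5) (nat_lit 178) (nat_lit 5) (nat_lit 343) (nat_lit 301) (nat_lit 136))))) (XT.nd (nat_lit 234) (nat_lit 1444) (nat_lit 0) (XT.nd (nat_lit 78) (nat_lit 608) (nat_lit 0) (XT.lf (nat_lit 0) (nat_lit 10529844497) (nat_lit 456) (nat_lit 16563061381) (nat_lit 532) (nat_lit 1576685847) (nat_lit 164) (nat_lit 5) (nat_lit 170) (nat_lit 5) (nat_lit 171) (nat_lit 5) (nat_lit 344) (nat_lit 301) (nat_lit 135)) (XT.nd (nat_lit 78) (nat_lit 0) (nat_lit 0) (XT.lf (nat_lit 0) (nat_lit 2000353189) (nat_lit 532) (nat_lit 2327025072) (nat_lit 608) (nat_lit 24895534036) (nat_lit 156) (nat_lit 5) (nat_lit 163) (nat_lit 5) (nat_lit 164) (nat_lit 5) (nat_lit 345) (nat_lit 301) (nat_lit 134)) (XT.lf (nat_lit 0) (nat_lit 10584528553) (nat_lit 608) (nat_lit 6897416703) (nat_lit 76) (nat_lit 12306736031) (nat_lit 156) (nat_lit 5) (nat_lit 164) (nat_lit 5) (nat_lit 157) (nat_lit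 5) (nat_lit 346) (nat_lit 301) (nat_lit 133)))) (XT.nd (nat_lit 156) (nat_lit 532) (nat_lit 0) (XT.nd (nat_lit 78) (nat_lit 456) (nat_lit 0) (XT.lf (nat_lit 0) (nat_lit 14199853863) (nat_lit 456) (nat_lit 2930921781) (nat_lit 532) (nat_lit 13238624855) (nat_lit 150) (nat_lit 5) (nat_lit 156) (nat_lit 5) (nat_lit 157) (nat_lit 5) (nat_lit 347) (nat_lit 301) (nat_lit 132)) (XT.lf (nat_lit 0) (nat_lit 5037041188) (nat_lit 456) (nat_lit 18988146788) (nat_lit 532) (nat_lit 6939322414) (nat_lit 144) (nat_lit 5) (nat_lit 150) (nat_lit 5) (nat_lit 151) (nat_lit 5) (nat_lit 348) (nat_lit 301) (nat_lit 131))) (XT.nd (nat_lit 78) (nat_lit 532) (nat_lit 0) (XT.lf (nat_lit 0) (nat_lit 27073151146) (nat_lit 456) (nat_lit 4176197942) (nat_lit 532) (nat_lit 325670686) (nat_lit 144) (nat_lit 5) (nat_lit 150) (nat_lit 5) (nat_lit 151) (nat_lit 5) (nat_lit 349) (nat_lit 301) (nat_lit 130)) (XT.lf (nat_lit 0) (nat_lit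 6583538053) (nat_lit 532) (nat_lit 14524612924) (nat_lit 76) (nat_lit 11091211135) (nat_lit 137) (nat_lit 5) (nat_lit 144) (nat_lit 5) (nat_lit 138) (nat_lit 5) (nat_lit 350) (nat_lit 301) (nat_lit 129)))))) (XT.nd (nat_lit 37206) (nat_lit 0) (nat_lit 16264) (XT.nd (nat_lit 36972) (nat_lit 0) (nat_lit 17556) (XT.nd (nat_lit 36816) (nat_lit 0) (nat_lit 17556) (XT.lf (nat_lit 0) (nat_lit 7800488522) (nat_lit 456) (nat_lit 5998537484) (nat_lit 532) (nat_lit 19041301290) (nat_lit 131) (nat_lit 5) (nat_lit 137) (nat_lit 5) (nat_lit 138) (nat_lit 5) (nat_lit 351) (nat_lit 301) (nat_lit 128)) (XT.nd (nat_lit 78) (nat_lit 0) (nat_lit 0) (XT.lf (nat_lit 0) (nat_lit 2098852725) (nat_lit 0) (nat_lit 2098852725) (nat_lit 1596) (nat_lit 3000778743) (nat_lit 362) (nat_lit 5) (nat_lit 362) (nat_lit 3) (nat_lit 383) (nat_lit 3) (nat_lit 302) (nat_lit 302) (nat_lit 176)) (XT.lf (nat_lit 0) (nat_lit 9008402753)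 (nat_lit 1596) (nat_lit 687612171) (nat_lit 1672) (nat_lit 4906687550) (nat_lit 362) (nat_lit 5) (nat_lit 383) (nat_lit 3) (nat_lit 384) (nat_lit 5) (nat_lit 303) (nat_lit 302) (nat_lit 175)))) (XT.nd (nat_lit 78) (nat_lit 0) (nat_lit 76) (XT.lf (nat_lit 76) (nat_lit 9192572755) (nat_lit 0) (nat_lit 517276635) (nat_lit 1672) (nat_lit 5103376596) (nat_lit 363) (nat_lit 5) (nat_lit 362) (nat_lit 5) (nat_lit 384) (nat_lit 5) (nat_lit 304) (nat_lit 302) (nat_lit 174)) (XT.nd (nat_lit 78) (nat_lit 0) (nat_lit 76) (XT.lf (nat_lit 76) (nat_lit 4337870620) (nat_lit 0) (nat_lit 6168164398) (nat_lit 1672) (nat_lit 4522574432) (nat_lit 364) (nat_lit 5) (nat_lit 363) (nat_lit 5) (nat_lit 385) (nat_lit 5) (nat_lit 305) (nat_lit 302) (nat_lit 173)) (XT.lf (nat_lit 0) (nat_lit 11372366065) (nat_lit 1596) (nat_lit 612289425) (nat_lit 1672) (nat_lit 3264891360) (nat_lit 364) (nat_lit 5) (nat_lit 385) (nat_lit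 5) (nat_lit 386) (nat_lit 5) (nat_lit 306) (nat_lit 302) (nat_lit 172))))) (XT.nd (nat_lit 234) (nat_lit 1444) (nat_lit 0) (XT.nd (nat_lit 78) (nat_lit 0) (nat_lit 76) (XT.lf (nat_lit 76) (nat_lit 9846878802) (nat_lit 0) (nat_lit 2506780311) (nat_lit 1672) (nat_lit 3121690934) (nat_lit 365) (nat_lit 5) (nat_lit 364) (nat_lit 5) (nat_lit 386) (nat_lit 5) (nat_lit 307) (nat_lit 302) (nat_lit 171)) (XT.nd (nat_lit 78) (nat_lit 0) (nat_lit 76) (XT.lf (nat_lit 76) (nat_lit 4928108622) (nat_lit 0) (nat_lit 8503805818) (nat_lit 1672) (nat_lit 2274679047) (nat_lit 366) (nat_lit 5) (nat_lit 365) (nat_lit 5) (nat_lit 387) (nat_lit 5) (nat_lit 308) (nat_lit 302) (nat_lit 170)) (XT.lf (nat_lit 0) (nat_lit 14590196412) (nat_lit 1596) (nat_lit 100394699) (nat_lit 1672) (nat_lit 1253245673) (nat_lit 366) (nat_lit 5) (nat_lit 387) (nat_lit 5) (nat_lit 388) (nat_lit 5) (nat_lit 309) (nat_lit 302) (nat_lit 169))))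 (XT.nd (nat_lit 156) (nat_lit 0) (nat_lit 0) (XT.nd (nat_lit 78) (nat_lit 1596) (nat_lit 0) (XT.lf (nat_lit 76) (nat_lit 10975453013) (nat_lit 0) (nat_lit 4921026202) (nat_lit 1672) (nat_lit 289468780) (nat_lit 367) (nat_lit 5) (nat_lit 366) (nat_lit 5) (nat_lit 388) (nat_lit 5) (nat_lit 310) (nat_lit 302) (nat_lit 168)) (XT.lf (nat_lit 0) (nat_lit 854874390) (nat_lit 1672) (nat_lit 10454888164) (nat_lit 1748) (nat_lit 5124293644) (nat_lit 345) (nat_lit 5) (nat_lit 367) (nat_lit 5) (nat_lit 368) (nat_lit 5) (nat_lit 311) (nat_lit 302) (nat_lit 167))) (XT.nd (nat_lit 78) (nat_lit 0) (nat_lit 76) (XT.lf (nat_lit 76) (nat_lit 853165953) (nat_lit 0) (nat_lit 1236240157) (nat_lit 1748) (nat_lit 14598981925) (nat_lit 346) (nat_lit 5) (nat_lit 345) (nat_lit 5) (nat_lit 368) (nat_lit 5) (nat_lit 312) (nat_lit 302) (nat_lit 166)) (XT.lf (nat_lit 0) (nat_lit 3477784574) (nat_lit 1672) (nat_lit 4375216122)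 (nat_lit 1748) (nat_lit 9095026967) (nat_lit 346) (nat_lit 5) (nat_lit 368) (nat_lit 5) (nat_lit 369) (nat_lit 5) (nat_lit 313) (nat_lit 302) (nat_lit 165))))))))
noncomputable def xc113 : XT := (XT.nd (nat_lit 2028) (nat_lit 3724) (nat_lit 0) (XT.nd (nat_lit 1014) (nat_lit 6764) (nat_lit 0) (XT.nd (nat_lit 468) (nat_lit 4940) (nat_lit 0) (XT.nd (nat_lit 234) (nat_lit 0) (nat_lit 76) (XT.nd (nat_lit 78) (nat_lit 0) (nat_lit 0) (XT.lf (nat_lit 0) (nat_lit 4968001039) (nat_lit 1672) (nat_lit 9722150925) (nat_lit 1748) (nat_lit 2524114428) (nat_lit 347) (nat_lit 5) (nat_lit 369) (nat_lit 5) (nat_lit 370) (nat_lit 5) (nat_lit 314) (nat_lit 302) (nat_lit 164)) (XT.nd (nat_lit 78) (nat_lit 0) (nat_lit 76) (XT.lf (nat_lit 76) (nat_lit 2254418779) (nat_lit 0) (nat_lit 4332414693) (nat_lit 1748) (nat_lit 10899993866) (nat_lit 348) (nat_lit 5) (nat_lit 347) (nat_lit 5) (nat_lit 370) (nat_lit 5) (nat_lit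 315) (nat_lit 302) (nat_lit 163)) (XT.lf (nat_lit 0) (nat_lit 8348934782) (nat_lit 1672) (nat_lit 3094477090) (nat_lit 1748) (nat_lit 6322272024) (nat_lit 348) (nat_lit 5) (nat_lit 370) (nat_lit 5) (nat_lit 371) (nat_lit 5) (nat_lit 316) (nat_lit 302) (nat_lit 162)))) (XT.nd (nat_lit 78) (nat_lit 0) (nat_lit 76) (XT.lf (nat_lit 76) (nat_lit 9493399682) (nat_lit 0) (nat_lit 748730422) (nat_lit 1748) (nat_lit 7809223914) (nat_lit 349) (nat_lit 5) (nat_lit 348) (nat_lit 5) (nat_lit 371) (nat_lit 5) (nat_lit 317) (nat_lit 302) (nat_lit 161)) (XT.nd (nat_lit 78) (nat_lit 0) (nat_lit 76) (XT.lf (nat_lit 76) (nat_lit 4133672019) (nat_lit 0) (nat_lit 8160990132) (nat_lit 1748) (nat_lit 6048893396) (nat_lit 350) (nat_lit 5) (nat_lit 349) (nat_lit 5) (nat_lit 372) (nat_lit 5) (nat_lit 318) (nat_lit 302) (nat_lit 160)) (XT.lf (nat_lit 0) (nat_lit 14478453936) (nat_lit 1672) (nat_lit 1353569231) (nat_lit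 76) (nat_lit 2811118049) (nat_lit 350) (nat_lit 5) (nat_lit 372) (nat_lit 5) (nat_lit 351) (nat_lit 5) (nat_lit 319) (nat_lit 302) (nat_lit 159))))) (XT.nd (nat_lit 234) (nat_lit 1596) (nat_lit 0) (XT.nd (nat_lit 78) (nat_lit 1900) (nat_lit 0) (XT.lf (nat_lit 0) (nat_lit 11981344375) (nat_lit 1672) (nat_lit 4867362319) (nat_lit 1748) (nat_lit 2100600244) (nat_lit 328) (nat_lit 5) (nat_lit 350) (nat_lit 5) (nat_lit 351) (nat_lit 5) (nat_lit 320) (nat_lit 302) (nat_lit 158)) (XT.nd (nat_lit 78) (nat_lit 836) (nat_lit 0) (XT.lf (nat_lit 0) (nat_lit 107656036) (nat_lit 1064) (nat_lit 12759597844) (nat_lit 76) (nat_lit 6395759730) (nat_lit 314) (nat_lit 5) (nat_lit 328) (nat_lit 5) (nat_lit 315) (nat_lit 5) (nat_lit 321) (nat_lit 302) (nat_lit 157)) (XT.lf (nat_lit 0) (nat_lit 843541679) (nat_lit 836) (nat_lit 1584840414) (nat_lit 912) (nat_lit 17155987029) (nat_lit 303) (nat_lit 5) (nat_lit 314) (nat_lit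 5) (nat_lit 315) (nat_lit 5) (nat_lit 322) (nat_lit 302) (nat_lit 156)))) (XT.nd (nat_lit 156) (nat_lit 760) (nat_lit 0) (XT.nd (nat_lit 78) (nat_lit 836) (nat_lit 0) (XT.lf (nat_lit 0) (nat_lit 4960232005) (nat_lit 912) (nat_lit 4959749958) (nat_lit 76) (nat_lit 9992563546) (nat_lit 303) (nat_lit 5) (nat_lit 315) (nat_lit 5) (nat_lit 304) (nat_lit 5) (nat_lit 323) (nat_lit 302) (nat_lit 155)) (XT.lf (nat_lit 0) (nat_lit 7639966655) (nat_lit 912) (nat_lit 10923357939) (nat_lit 76) (nat_lit 1685813964) (nat_lit 292) (nat_lit 5) (nat_lit 304) (nat_lit 5) (nat_lit 293) (nat_lit 5) (nat_lit 324) (nat_lit 302) (nat_lit 154))) (XT.nd (nat_lit 78) (nat_lit 0) (nat_lit 0) (XT.lf (nat_lit 0) (nat_lit 3482127972) (nat_lit 760) (nat_lit 7030608171) (nat_lit 836) (nat_lit 10080850062) (nat_lit 282) (nat_lit 5) (nat_lit 292) (nat_lit 5) (nat_lit 293) (nat_lit 5) (nat_lit 325) (nat_lit 302) (nat_lit 153)) (XT.lf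 (nat_lit 0) (nat_lit 13567776875) (nat_lit 836) (nat_lit 2519198497) (nat_lit 76) (nat_lit 4859479526) (nat_lit 282) (nat_lit 5) (nat_lit 293) (nat_lit 5) (nat_lit 283) (nat_lit 5) (nat_lit 326) (nat_lit 302) (nat_lit 152)))))) (XT.nd (nat_lit 468) (nat_lit 3116) (nat_lit 0) (XT.nd (nat_lit 234) (nat_lit 1368) (nat_lit 0) (XT.nd (nat_lit 78) (nat_lit 1520) (nat_lit 0) (XT.lf (nat_lit 0) (nat_lit 12619962682) (nat_lit 760) (nat_lit 4213849256) (nat_lit 836) (nat_lit 4473719962) (nat_lit 272) (nat_lit 5) (nat_lit 282) (nat_lit 5) (nat_lit 283) (nat_lit 5) (nat_lit 327) (nat_lit 302) (nat_lit 151)) (XT.nd (nat_lit 78) (nat_lit 836) (nat_lit 0) (XT.lf (nat_lit 0) (nat_lit 6593594903) (nat_lit 684) (nat_lit 13706879272) (nat_lit 760) (nat_lit 1376922957) (nat_lit 263) (nat_lit 5) (nat_lit 272) (nat_lit 5) (nat_lit 273) (nat_lit 5) (nat_lit 328) (nat_lit 302) (nat_lit 150)) (XT.lf (nat_lit 0) (nat_lit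 349790702) (nat_lit 760) (nat_lit 1519677461) (nat_lit 836) (nat_lit 20187053879) (nat_lit 252) (nat_lit 5) (nat_lit 262) (nat_lit 5) (nat_lit 263) (nat_lit 5) (nat_lit 329) (nat_lit 302) (nat_lit 149)))) (XT.nd (nat_lit 78) (nat_lit 1368) (nat_lit 0) (XT.lf (nat_lit 0) (nat_lit 5360137267) (nat_lit 836) (nat_lit 6083057533) (nat_lit 76) (nat_lit 11000340176) (nat_lit 252) (nat_lit 5) (nat_lit 263) (nat_lit 5) (nat_lit 253) (nat_lit 5) (nat_lit 330) (nat_lit 302) (nat_lit 148)) (XT.nd (nat_lit 78) (nat_lit 684) (nat_lit 0) (XT.lf (nat_lit 0) (nat_lit 9029781663) (nat_lit 760) (nat_lit 12725189108) (nat_lit 76) (nat_lit 1085710358) (nat_lit 243) (nat_lit 5) (nat_lit 253) (nat_lit 5) (nat_lit 244) (nat_lit 5) (nat_lit 331) (nat_lit 302) (nat_lit 147)) (XT.lf (nat_lit 0) (nat_lit 3595527803) (nat_lit 684) (nat_lit 9346771785) (nat_lit 760) (nat_lit 10304794098) (nat_lit 234) (nat_lit 5) (nat_lit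 243) (nat_lit 5) (nat_lit 244) (nat_lit 5) (nat_lit 332) (nat_lit 302) (nat_lit 146))))) (XT.nd (nat_lit 234) (nat_lit 1748) (nat_lit 0) (XT.nd (nat_lit 78) (nat_lit 1368) (nat_lit 0) (XT.lf (nat_lit 0) (nat_lit 17072895060) (nat_lit 760) (nat_lit 3115986526) (nat_lit 76) (nat_lit 3474810472) (nat_lit 234) (nat_lit 5) (nat_lit 244) (nat_lit 5) (nat_lit 235) (nat_lit 5) (nat_lit 333) (nat_lit 302) (nat_lit 145)) (XT.nd (nat_lit 78) (nat_lit 760) (nat_lit 0) (XT.lf (nat_lit 0) (nat_lit 14028206185) (nat_lit 608) (nat_lit 7444640444) (nat_lit 684) (nat_lit 2617040248) (nat_lit 226) (nat_lit 5) (nat_lit 234) (nat_lit 5) (nat_lit 235) (nat_lit 5) (nat_lit 334) (nat_lit 302) (nat_lit 144)) (XT.lf (nat_lit 0) (nat_lit 1554453614) (nat_lit 760) (nat_lit 17287116604) (nat_lit 76) (nat_lit 5685154950) (nat_lit 216) (nat_lit 5) (nat_lit 226) (nat_lit 5) (nat_lit 217) (nat_lit 5) (nat_lit 335) (nat_lit 302)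 (nat_lit 143)))) (XT.nd (nat_lit 156) (nat_lit 1140) (nat_lit 0) (XT.nd (nat_lit 78) (nat_lit 0) (nat_lit 0) (XT.lf (nat_lit 0) (nat_lit 147642649) (nat_lit 608) (nat_lit 5779617334) (nat_lit 684) (nat_lit 19046834901) (nat_lit 208) (nat_lit 5) (nat_lit 216) (nat_lit 5) (nat_lit 217) (nat_lit 5) (nat_lit 336) (nat_lit 302) (nat_lit 142)) (XT.lf (nat_lit 0) (nat_lit 10591303586) (nat_lit 684) (nat_lit 7149992337) (nat_lit 76) (nat_lit 7690395224) (nat_lit 208) (nat_lit 5) (nat_lit 217) (nat_lit 5) (nat_lit 209) (nat_lit 5) (nat_lit 337) (nat_lit 302) (nat_lit 141))) (XT.nd (nat_lit 78) (nat_lit 532) (nat_lit 0) (XT.lf (nat_lit 0) (nat_lit 11155758896) (nat_lit 608) (nat_lit 4343123418) (nat_lit 684) (nat_lit 10402067030) (nat_lit 200) (nat_lit 5) (nat_lit 208) (nat_lit 5) (nat_lit 209) (nat_lit 5) (nat_lit 338) (nat_lit 302) (nat_lit 140)) (XT.lf (nat_lit 0) (nat_lit 3703420473) (nat_lit 532) (nat_lit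 16977172204) (nat_lit 608) (nat_lit 5701160666) (nat_lit 193) (nat_lit 5) (nat_lit 200) (nat_lit 5) (nat_lit 201) (nat_lit 5) (nat_lit 339) (nat_lit 302) (nat_lit 139))))))) (XT.nd (nat_lit 37908) (nat_lit 0) (nat_lit 15200) (XT.nd (nat_lit 468) (nat_lit 1520) (nat_lit 0) (XT.nd (nat_lit 234) (nat_lit 988) (nat_lit 0) (XT.nd (nat_lit 78) (nat_lit 1216) (nat_lit 0) (XT.lf (nat_lit 0) (nat_lit 22869369204) (nat_lit 532) (nat_lit 3270000845) (nat_lit 608) (nat_lit 735185061) (nat_lit 193) (nat_lit 5) (nat_lit 200) (nat_lit 5) (nat_lit 201) (nat_lit 5) (nat_lit 340) (nat_lit 302) (nat_lit 138)) (XT.nd (nat_lit 78) (nat_lit 532) (nat_lit 0) (XT.lf (nat_lit 0) (nat_lit 4486548590) (nat_lit 684) (nat_lit 12057766143) (nat_lit 76) (nat_lit 10833978737) (nat_lit 184) (nat_lit 5) (nat_lit 193) (nat_lit 5) (nat_lit 185) (nat_lit 5) (nat_lit 341) (nat_lit 302) (nat_lit 137)) (XT.lf (nat_lit 0) (nat_lit 7446560576)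 (nat_lit 532) (nat_lit 2499120776) (nat_lit 608) (nat_lit 17949556241) (nat_lit 177) (nat_lit 5) (nat_lit 184) (nat_lit 5) (nat_lit 185) (nat_lit 5) (nat_lit 342) (nat_lit 302) (nat_lit 136)))) (XT.nd (nat_lit 78) (nat_lit 988) (nat_lit 0) (XT.lf (nat_lit 0) (nat_lit 15721815630) (nat_lit 608) (nat_lit 811598235) (nat_lit 76) (nat_lit 11891216973) (nat_lit 177) (nat_lit 5) (nat_lit 185) (nat_lit 5) (nat_lit 178) (nat_lit 5) (nat_lit 343) (nat_lit 302) (nat_lit 135)) (XT.nd (nat_lit 78) (nat_lit 456) (nat_lit 0) (XT.lf (nat_lit 0) (nat_lit 19647437084) (nat_lit 532) (nat_lit 2161548243) (nat_lit 608) (nat_lit 7158170717) (nat_lit 170) (nat_lit 5) (nat_lit 177) (nat_lit 5) (nat_lit 178) (nat_lit 5) (nat_lit 344) (nat_lit 302) (nat_lit 134)) (XT.lf (nat_lit 0) (nat_lit 11262995329) (nat_lit 456) (nat_lit 16970116762) (nat_lit 532) (nat_lit 1289763120) (nat_lit 164) (nat_lit 5) (nat_lit 170) (nat_lit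 5) (nat_lit 171) (nat_lit 5) (nat_lit 345) (nat_lit 302) (nat_lit 133))))) (XT.nd (nat_lit 234) (nat_lit 456) (nat_lit 0) (XT.nd (nat_lit 78) (nat_lit 456) (nat_lit 0) (XT.lf (nat_lit 0) (nat_lit 2475408888) (nat_lit 532) (nat_lit 2304718385) (nat_lit 608) (nat_lit 25312770278) (nat_lit 156) (nat_lit 5) (nat_lit 163) (nat_lit 5) (nat_lit 164) (nat_lit 5) (nat_lit 346) (nat_lit 302) (nat_lit 132)) (XT.nd (nat_lit 78) (nat_lit 456) (nat_lit 0) (XT.lf (nat_lit 0) (nat_lit 11216167081) (nat_lit 608) (nat_lit 6695456552) (nat_lit 76) (nat_lit 12764199571) (nat_lit 156) (nat_lit 5) (nat_lit 164) (nat_lit 5) (nat_lit 157) (nat_lit 5) (nat_lit 347) (nat_lit 302) (nat_lit 131)) (XT.lf (nat_lit 0) (nat_lit 15028098496) (nat_lit 456) (nat_lit 2924166135) (nat_lit 532) (nat_lit 13321836989) (nat_lit 150) (nat_lit 5) (nat_lit 156) (nat_lit 5) (nat_lit 157) (nat_lit 5) (nat_lit 348) (nat_lit 302) (nat_lit 130))))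 (XT.nd (nat_lit 37050) (nat_lit 0) (nat_lit 16568) (XT.nd (nat_lit 78) (nat_lit 0) (nat_lit 0) (XT.lf (nat_lit 0) (nat_lit 5589548027) (nat_lit 456) (nat_lit 19458206049) (nat_lit 532) (nat_lit 6839432523) (nat_lit 144) (nat_lit 5) (nat_lit 150) (nat_lit 5) (nat_lit 151) (nat_lit 5) (nat_lit 349) (nat_lit 302) (nat_lit 129)) (XT.lf (nat_lit 0) (nat_lit 28275050150) (nat_lit 456) (nat_lit 4204799275) (nat_lit 532) (nat_lit 36344142) (nat_lit 144) (nat_lit 5) (nat_lit 150) (nat_lit 5) (nat_lit 151) (nat_lit 5) (nat_lit 350) (nat_lit 302) (nat_lit 128))) (XT.nd (nat_lit 78) (nat_lit 0) (nat_lit 0) (XT.lf (nat_lit 0) (nat_lit 2387022420) (nat_lit 0) (nat_lit 2387022420) (nat_lit 1596) (nat_lit 2630911095) (nat_lit 362) (nat_lit 5) (nat_lit 362) (nat_lit 3) (nat_lit 383) (nat_lit 3) (nat_lit 303) (nat_lit 303) (nat_lit 174)) (XT.lf (nat_lit 0) (nat_lit 10150394746) (nat_lit 1596) (nat_lit 249698651)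 (nat_lit 1672) (nat_lit 4622333765) (nat_lit 362) (nat_lit 5) (nat_lit 383) (nat_lit 3) (nat_lit 384) (nat_lit 5) (nat_lit 304) (nat_lit 303) (nat_lit 173)))))) (XT.nd (nat_lit 468) (nat_lit 1368) (nat_lit 0) (XT.nd (nat_lit 234) (nat_lit 0) (nat_lit 152) (XT.nd (nat_lit 78) (nat_lit 0) (nat_lit 76) (XT.lf (nat_lit 76) (nat_lit 9919452525) (nat_lit 0) (nat_lit 930970631) (nat_lit 1672) (nat_lit 4389319298) (nat_lit 363) (nat_lit 5) (nat_lit 362) (nat_lit 5) (nat_lit 384) (nat_lit 5) (nat_lit 305) (nat_lit 303) (nat_lit 172)) (XT.nd (nat_lit 78) (nat_lit 0) (nat_lit 76) (XT.lf (nat_lit 76) (nat_lit 4931924226) (nat_lit 0) (nat_lit 6714336004) (nat_lit 1672) (nat_lit 3815837936) (nat_lit 364) (nat_lit 5) (nat_lit 363) (nat_lit 5) (nat_lit 385) (nat_lit 5) (nat_lit 306) (nat_lit 303) (nat_lit 171)) (XT.lf (nat_lit 0) (nat_lit 12512274413) (nat_lit 1596) (nat_lit 161112741) (nat_lit 1672) (nat_lit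 3016827972) (nat_lit 364) (nat_lit 5) (nat_lit 385) (nat_lit 5) (nat_lit 386) (nat_lit 5) (nat_lit 307) (nat_lit 303) (nat_lit 170)))) (XT.nd (nat_lit 78) (nat_lit 0) (nat_lit 76) (XT.lf (nat_lit 76) (nat_lit 10604212718) (nat_lit 0) (nat_lit 2898528479) (nat_lit 1672) (nat_lit 2420481087) (nat_lit 365) (nat_lit 5) (nat_lit 364) (nat_lit 5) (nat_lit 386) (nat_lit 5) (nat_lit 308) (nat_lit 303) (nat_lit 169)) (XT.nd (nat_lit 78) (nat_lit 0) (nat_lit 76) (XT.lf (nat_lit 76) (nat_lit 5548529467) (nat_lit 0) (nat_lit 9043213696) (nat_lit 1672) (nat_lit 1570115734) (nat_lit 366) (nat_lit 5) (nat_lit 365) (nat_lit 5) (nat_lit 387) (nat_lit 5) (nat_lit 309) (nat_lit 303) (nat_lit 168)) (XT.lf (nat_lit 76) (nat_lit 377619604) (nat_lit 0) (nat_lit 15385768889) (nat_lit 1672) (nat_lit 643281855) (nat_lit 367) (nat_lit 5) (nat_lit 366) (nat_lit 5) (nat_lit 388) (nat_lit 5) (nat_lit 310) (nat_lit 303) (nat_lit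 167))))) (XT.nd (nat_lit 234) (nat_lit 0) (nat_lit 152) (XT.nd (nat_lit 78) (nat_lit 0) (nat_lit 76) (XT.lf (nat_lit 0) (nat_lit 425955021) (nat_lit 1672) (nat_lit 4886218470) (nat_lit 1748) (nat_lit 11344253068) (nat_lit 344) (nat_lit 5) (nat_lit 366) (nat_lit 5) (nat_lit 367) (nat_lit 5) (nat_lit 311) (nat_lit 303) (nat_lit 166)) (XT.nd (nat_lit 78) (nat_lit 0) (nat_lit 0) (XT.lf (nat_lit 0) (nat_lit 1581296536) (nat_lit 1672) (nat_lit 10281383734) (nat_lit 1748) (nat_lit 5049668851) (nat_lit 345) (nat_lit 5) (nat_lit 367) (nat_lit 5) (nat_lit 368) (nat_lit 5) (nat_lit 312) (nat_lit 303) (nat_lit 165)) (XT.lf (nat_lit 76) (nat_lit 1358008558) (nat_lit 0) (nat_lit 1477556292) (nat_lit 1748) (nat_lit 14339112823) (nat_lit 346) (nat_lit 5) (nat_lit 345) (nat_lit 5) (nat_lit 368) (nat_lit 5) (nat_lit 313) (nat_lit 303) (nat_lit 164)))) (XT.nd (nat_lit 156) (nat_lit 0) (nat_lit 76) (XT.nd (nat_lit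 78) (nat_lit 0) (nat_lit 76) (XT.lf (nat_lit 0) (nat_lit 4244400217) (nat_lit 1672) (nat_lit 4025952587) (nat_lit 1748) (nat_lit 9172197745) (nat_lit 346) (nat_lit 5) (nat_lit 368) (nat_lit 5) (nat_lit 369) (nat_lit 5) (nat_lit 314) (nat_lit 303) (nat_lit 163)) (XT.lf (nat_lit 0) (nat_lit 5761977223) (nat_lit 1672) (nat_lit 9526391928) (nat_lit 1748) (nat_lit 2428773790) (nat_lit 347) (nat_lit 5) (nat_lit 369) (nat_lit 5) (nat_lit 370) (nat_lit 5) (nat_lit 315) (nat_lit 303) (nat_lit 162))) (XT.nd (nat_lit 78) (nat_lit 0) (nat_lit 76) (XT.lf (nat_lit 76) (nat_lit 2801567000) (nat_lit 0) (nat_lit 4612136415) (nat_lit 1748) (nat_lit 10584509736) (nat_lit 348) (nat_lit 5) (nat_lit 347) (nat_lit 5) (nat_lit 370) (nat_lit 5) (nat_lit 316) (nat_lit 303) (nat_lit 161)) (XT.lf (nat_lit 0) (nat_lit 9209395705) (nat_lit 1672) (nat_lit 2707984280) (nat_lit 1748) (nat_lit 6368459319) (nat_lit 348) (nat_lit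 5) (nat_lit 370) (nat_lit 5) (nat_lit 371) (nat_lit 5) (nat_lit 317) (nat_lit 303) (nat_lit 160))))))))
noncomputable def xc114 : XT := (XT.nd (nat_lit 2028) (nat_lit 2508) (nat_lit 0) (XT.nd (nat_lit 1014) (nat_lit 5700) (nat_lit 0) (XT.nd (nat_lit 468) (nat_lit 3876) (nat_lit 0) (XT.nd (nat_lit 234) (nat_lit 3420) (nat_lit 0) (XT.nd (nat_lit 78) (nat_lit 0) (nat_lit 76) (XT.lf (nat_lit 76) (nat_lit 10249752282) (nat_lit 0) (nat_lit 894929442) (nat_lit 1748) (nat_lit 7435709829) (nat_lit 349) (nat_lit 5) (nat_lit 348) (nat_lit 5) (nat_lit 371) (nat_lit 5) (nat_lit 318) (nat_lit 303) (nat_lit 159)) (XT.nd (nat_lit 78) (nat_lit 0) (nat_lit 76) (XT.lf (nat_lit 76) (nat_lit 4734673028) (nat_lit 0) (nat_lit 8509095184) (nat_lit 1748) (nat_lit 5637908744) (nat_lit 350) (nat_lit 5) (nat_lit 349) (nat_lit 5) (nat_lit 372) (nat_lit 5) (nat_lit 319) (nat_lit 303) (nat_lit 158)) (XT.lf (nat_lit 0) (nat_lit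 15475521792) (nat_lit 1672) (nat_lit 918597048) (nat_lit 76) (nat_lit 2796499286) (nat_lit 350) (nat_lit 5) (nat_lit 372) (nat_lit 5) (nat_lit 351) (nat_lit 5) (nat_lit 320) (nat_lit 303) (nat_lit 157)))) (XT.nd (nat_lit 78) (nat_lit 1900) (nat_lit 0) (XT.lf (nat_lit 0) (nat_lit 12808648257) (nat_lit 1672) (nat_lit 5094881820) (nat_lit 1748) (nat_lit 1602722183) (nat_lit 328) (nat_lit 5) (nat_lit 350) (nat_lit 5) (nat_lit 351) (nat_lit 5) (nat_lit 321) (nat_lit 303) (nat_lit 156)) (XT.nd (nat_lit 78) (nat_lit 836) (nat_lit 0) (XT.lf (nat_lit 0) (nat_lit 650871630) (nat_lit 1064) (nat_lit 12662548994) (nat_lit 76) (nat_lit 6516163361) (nat_lit 314) (nat_lit 5) (nat_lit 328) (nat_lit 5) (nat_lit 315) (nat_lit 5) (nat_lit 322) (nat_lit 303) (nat_lit 155)) (XT.lf (nat_lit 0) (nat_lit 1340899933) (nat_lit 836) (nat_lit 1687656665) (nat_lit 912) (nat_lit 17132291977) (nat_lit 303) (nat_lit 5) (nat_lit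 314) (nat_lit 5) (nat_lit 315) (nat_lit 5) (nat_lit 323) (nat_lit 303) (nat_lit 154))))) (XT.nd (nat_lit 234) (nat_lit 2280) (nat_lit 0) (XT.nd (nat_lit 78) (nat_lit 1596) (nat_lit 0) (XT.lf (nat_lit 0) (nat_lit 5620654681) (nat_lit 912) (nat_lit 4639161407) (nat_lit 76) (nat_lit 10239383026) (nat_lit 303) (nat_lit 5) (nat_lit 315) (nat_lit 5) (nat_lit 304) (nat_lit 5) (nat_lit 324) (nat_lit 303) (nat_lit 153)) (XT.nd (nat_lit 78) (nat_lit 760) (nat_lit 0) (XT.lf (nat_lit 0) (nat_lit 8368631658) (nat_lit 912) (nat_lit 10778575995) (nat_lit 76) (nat_lit 1698939580) (nat_lit 292) (nat_lit 5) (nat_lit 304) (nat_lit 5) (nat_lit 293) (nat_lit 5) (nat_lit 325) (nat_lit 303) (nat_lit 152)) (XT.lf (nat_lit 0) (nat_lit 4051409023) (nat_lit 760) (nat_lit 7264645555) (nat_lit 836) (nat_lit 9885118192) (nat_lit 282) (nat_lit 5) (nat_lit 292) (nat_lit 5) (nat_lit 293) (nat_lit 5) (nat_lit 326) (nat_lit 303)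 (nat_lit 151)))) (XT.nd (nat_lit 156) (nat_lit 1520) (nat_lit 0) (XT.nd (nat_lit 78) (nat_lit 760) (nat_lit 0) (XT.lf (nat_lit 0) (nat_lit 14448389062) (nat_lit 836) (nat_lit 2133426551) (nat_lit 76) (nat_lit 4983112527) (nat_lit 282) (nat_lit 5) (nat_lit 293) (nat_lit 5) (nat_lit 283) (nat_lit 5) (nat_lit 327) (nat_lit 303) (nat_lit 150)) (XT.lf (nat_lit 0) (nat_lit 13452424641) (nat_lit 760) (nat_lit 4349133755) (nat_lit 836) (nat_lit 4135509063) (nat_lit 272) (nat_lit 5) (nat_lit 282) (nat_lit 5) (nat_lit 283) (nat_lit 5) (nat_lit 328) (nat_lit 303) (nat_lit 149))) (XT.nd (nat_lit 78) (nat_lit 836) (nat_lit 0) (XT.lf (nat_lit 0) (nat_lit 7247492272) (nat_lit 684) (nat_lit 14114155925) (nat_lit 760) (nat_lit 956604590) (nat_lit 263) (nat_lit 5) (nat_lit 272) (nat_lit 5) (nat_lit 273) (nat_lit 5) (nat_lit 329) (nat_lit 303) (nat_lit 148)) (XT.lf (nat_lit 0) (nat_lit 815338558) (nat_lit 760) (nat_lit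 1555470830) (nat_lit 836) (nat_lit 20338100484) (nat_lit 252) (nat_lit 5) (nat_lit 262) (nat_lit 5) (nat_lit 263) (nat_lit 5) (nat_lit 330) (nat_lit 303) (nat_lit 147)))))) (XT.nd (nat_lit 468) (nat_lit 2964) (nat_lit 0) (XT.nd (nat_lit 234) (nat_lit 1368) (nat_lit 0) (XT.nd (nat_lit 78) (nat_lit 1368) (nat_lit 0) (XT.lf (nat_lit 0) (nat_lit 5953291665) (nat_lit 836) (nat_lit 5814774155) (nat_lit 76) (nat_lit 11339737242) (nat_lit 252) (nat_lit 5) (nat_lit 263) (nat_lit 5) (nat_lit 253) (nat_lit 5) (nat_lit 331) (nat_lit 303) (nat_lit 146)) (XT.nd (nat_lit 78) (nat_lit 684) (nat_lit 0) (XT.lf (nat_lit 0) (nat_lit 9723447125) (nat_lit 760) (nat_lit 12654785870) (nat_lit 76) (nat_lit 1138833557) (nat_lit 243) (nat_lit 5) (nat_lit 253) (nat_lit 5) (nat_lit 244) (nat_lit 5) (nat_lit 332) (nat_lit 303) (nat_lit 145)) (XT.lf (nat_lit 0) (nat_lit 4148216807) (nat_lit 684) (nat_lit 9595698119) (nat_lit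 760) (nat_lit 10191956127) (nat_lit 234) (nat_lit 5) (nat_lit 243) (nat_lit 5) (nat_lit 244) (nat_lit 5) (nat_lit 333) (nat_lit 303) (nat_lit 144)))) (XT.nd (nat_lit 78) (nat_lit 1368) (nat_lit 0) (XT.lf (nat_lit 0) (nat_lit 17986587464) (nat_lit 760) (nat_lit 2769413457) (nat_lit 76) (nat_lit 3609214005) (nat_lit 234) (nat_lit 5) (nat_lit 244) (nat_lit 5) (nat_lit 235) (nat_lit 5) (nat_lit 334) (nat_lit 303) (nat_lit 143)) (XT.nd (nat_lit 78) (nat_lit 760) (nat_lit 0) (XT.lf (nat_lit 0) (nat_lit 14881965704) (nat_lit 608) (nat_lit 7627688300) (nat_lit 684) (nat_lit 2294729677) (nat_lit 226) (nat_lit 5) (nat_lit 234) (nat_lit 5) (nat_lit 235) (nat_lit 5) (nat_lit 335) (nat_lit 303) (nat_lit 142)) (XT.lf (nat_lit 0) (nat_lit 1988221014) (nat_lit 760) (nat_lit 17366555421) (nat_lit 76) (nat_lit 5899677180) (nat_lit 216) (nat_lit 5) (nat_lit 226) (nat_lit 5) (nat_lit 217) (nat_lit 5) (nat_lit 336)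 (nat_lit 303) (nat_lit 141))))) (XT.nd (nat_lit 234) (nat_lit 1748) (nat_lit 0) (XT.nd (nat_lit 78) (nat_lit 608) (nat_lit 0) (XT.lf (nat_lit 0) (nat_lit 584121522) (nat_lit 608) (nat_lit 5899619463) (nat_lit 684) (nat_lit 19231682480) (nat_lit 208) (nat_lit 5) (nat_lit 216) (nat_lit 5) (nat_lit 217) (nat_lit 5) (nat_lit 337) (nat_lit 303) (nat_lit 140)) (XT.nd (nat_lit 78) (nat_lit 608) (nat_lit 0) (XT.lf (nat_lit 0) (nat_lit 11277013395) (nat_lit 684) (nat_lit 6937698671) (nat_lit 76) (nat_lit 7972258749) (nat_lit 208) (nat_lit 5) (nat_lit 217) (nat_lit 5) (nat_lit 209) (nat_lit 5) (nat_lit 338) (nat_lit 303) (nat_lit 139)) (XT.lf (nat_lit 0) (nat_lit 11910300883) (nat_lit 608) (nat_lit 4413527079) (nat_lit 684) (nat_lit 10346647704) (nat_lit 200) (nat_lit 5) (nat_lit 208) (nat_lit 5) (nat_lit 209) (nat_lit 5) (nat_lit 339) (nat_lit 303) (nat_lit 138)))) (XT.nd (nat_lit 156) (nat_lit 1216) (nat_lit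 0) (XT.nd (nat_lit 78) (nat_lit 0) (nat_lit 0) (XT.lf (nat_lit 0) (nat_lit 4234578335) (nat_lit 532) (nat_lit 17419031267) (nat_lit 608) (nat_lit 5512250596) (nat_lit 193) (nat_lit 5) (nat_lit 200) (nat_lit 5) (nat_lit 201) (nat_lit 5) (nat_lit 340) (nat_lit 303) (nat_lit 137)) (XT.lf (nat_lit 0) (nat_lit 23963270909) (nat_lit 532) (nat_lit 3302609508) (nat_lit 608) (nat_lit 407779555) (nat_lit 193) (nat_lit 5) (nat_lit 200) (nat_lit 5) (nat_lit 201) (nat_lit 5) (nat_lit 341) (nat_lit 303) (nat_lit 136))) (XT.nd (nat_lit 78) (nat_lit 532) (nat_lit 0) (XT.lf (nat_lit 0) (nat_lit 4959058695) (nat_lit 684) (nat_lit 12006934968) (nat_lit 76) (nat_lit 11226618870) (nat_lit 184) (nat_lit 5) (nat_lit 193) (nat_lit 5) (nat_lit 185) (nat_lit 5) (nat_lit 342) (nat_lit 303) (nat_lit 135)) (XT.lf (nat_lit 0) (nat_lit 8075828190) (nat_lit 532) (nat_lit 2498930288) (nat_lit 608) (nat_lit 18150458547) (nat_lit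 177) (nat_lit 5) (nat_lit 184) (nat_lit 5) (nat_lit 185) (nat_lit 5) (nat_lit 343) (nat_lit 303) (nat_lit 134))))))) (XT.nd (nat_lit 37986) (nat_lit 0) (nat_lit 13984) (XT.nd (nat_lit 468) (nat_lit 456) (nat_lit 0) (XT.nd (nat_lit 234) (nat_lit 1064) (nat_lit 0) (XT.nd (nat_lit 78) (nat_lit 988) (nat_lit 0) (XT.lf (nat_lit 0) (nat_lit 16515018351) (nat_lit 608) (nat_lit 435693292) (nat_lit 76) (nat_lit 12319971270) (nat_lit 177) (nat_lit 5) (nat_lit 185) (nat_lit 5) (nat_lit 178) (nat_lit 5) (nat_lit 344) (nat_lit 303) (nat_lit 133)) (XT.nd (nat_lit 78) (nat_lit 456) (nat_lit 0) (XT.lf (nat_lit 0) (nat_lit 20630619460) (nat_lit 532) (nat_lit 2147374742) (nat_lit 608) (nat_lit 7051633304) (nat_lit 170) (nat_lit 5) (nat_lit 177) (nat_lit 5) (nat_lit 178) (nat_lit 5) (nat_lit 345) (nat_lit 303) (nat_lit 132)) (XT.lf (nat_lit 0) (nat_lit 11994188513) (nat_lit 456) (nat_lit 17394540784) (nat_lit 532)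 (nat_lit 1013418496) (nat_lit 164) (nat_lit 5) (nat_lit 170) (nat_lit 5) (nat_lit 171) (nat_lit 5) (nat_lit 346) (nat_lit 303) (nat_lit 131)))) (XT.nd (nat_lit 78) (nat_lit 456) (nat_lit 0) (XT.lf (nat_lit 0) (nat_lit 2940890972) (nat_lit 532) (nat_lit 2287030415) (nat_lit 608) (nat_lit 25761445705) (nat_lit 156) (nat_lit 5) (nat_lit 163) (nat_lit 5) (nat_lit 164) (nat_lit 5) (nat_lit 347) (nat_lit 303) (nat_lit 130)) (XT.nd (nat_lit 78) (nat_lit 456) (nat_lit 0) (XT.lf (nat_lit 0) (nat_lit 11848723987) (nat_lit 608) (nat_lit 6510909133) (nat_lit 76) (nat_lit 13230320448) (nat_lit 156) (nat_lit 5) (nat_lit 164) (nat_lit 5) (nat_lit 157) (nat_lit 5) (nat_lit 348) (nat_lit 303) (nat_lit 129)) (XT.lf (nat_lit 0) (nat_lit 15858099728) (nat_lit 456) (nat_lit 2922643028) (nat_lit 532) (nat_lit 13425567306) (nat_lit 150) (nat_lit 5) (nat_lit 156) (nat_lit 5) (nat_lit 157) (nat_lit 5) (nat_lit 349) (nat_lit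 303) (nat_lit 128))))) (XT.nd (nat_lit 37206) (nat_lit 0) (nat_lit 16568) (XT.nd (nat_lit 37050) (nat_lit 0) (nat_lit 16568) (XT.lf (nat_lit 0) (nat_lit 6135588322) (nat_lit 456) (nat_lit 19948083683) (nat_lit 532) (nat_lit 6754230388) (nat_lit 144) (nat_lit 5) (nat_lit 150) (nat_lit 5) (nat_lit 151) (nat_lit 5) (nat_lit 350) (nat_lit 303) (nat_lit 127)) (XT.nd (nat_lit 78) (nat_lit 0) (nat_lit 0) (XT.lf (nat_lit 0) (nat_lit 2670909570) (nat_lit 0) (nat_lit 2670909570) (nat_lit 1596) (nat_lit 2276347043) (nat_lit 362) (nat_lit 5) (nat_lit 362) (nat_lit 3) (nat_lit 383) (nat_lit 3) (nat_lit 304) (nat_lit 304) (nat_lit 172)) (XT.lf (nat_lit 76) (nat_lit 177356151) (nat_lit 0) (nat_lit 11100400423) (nat_lit 1672) (nat_lit 4178017718) (nat_lit 363) (nat_lit 5) (nat_lit 362) (nat_lit 5) (nat_lit 384) (nat_lit 5) (nat_lit 305) (nat_lit 304) (nat_lit 171)))) (XT.nd (nat_lit 156) (nat_lit 0) (nat_lit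 152) (XT.nd (nat_lit 78) (nat_lit 0) (nat_lit 76) (XT.lf (nat_lit 76) (nat_lit 10642243555) (nat_lit 0) (nat_lit 1334218533) (nat_lit 1672) (nat_lit 3703618733) (nat_lit 363) (nat_lit 5) (nat_lit 362) (nat_lit 5) (nat_lit 384) (nat_lit 5) (nat_lit 306) (nat_lit 304) (nat_lit 170)) (XT.lf (nat_lit 76) (nat_lit 5517168678) (nat_lit 0) (nat_lit 7256162609) (nat_lit 1672) (nat_lit 3136257340) (nat_lit 364) (nat_lit 5) (nat_lit 363) (nat_lit 5) (nat_lit 385) (nat_lit 5) (nat_lit 307) (nat_lit 304) (nat_lit 169))) (XT.nd (nat_lit 78) (nat_lit 0) (nat_lit 0) (XT.lf (nat_lit 76) (nat_lit 280321890) (nat_lit 0) (nat_lit 13362027363) (nat_lit 1672) (nat_lit 2502683224) (nat_lit 365) (nat_lit 5) (nat_lit 364) (nat_lit 5) (nat_lit 386) (nat_lit 5) (nat_lit 308) (nat_lit 304) (nat_lit 168)) (XT.lf (nat_lit 76) (nat_lit 11357750120) (nat_lit 0) (nat_lit 3283858128) (nat_lit 1672) (nat_lit 1743863192) (nat_lit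 365) (nat_lit 5) (nat_lit 364) (nat_lit 5) (nat_lit 386) (nat_lit 5) (nat_lit 309) (nat_lit 304) (nat_lit 167)))))) (XT.nd (nat_lit 468) (nat_lit 1216) (nat_lit 0) (XT.nd (nat_lit 234) (nat_lit 0) (nat_lit 76) (XT.nd (nat_lit 78) (nat_lit 1596) (nat_lit 0) (XT.lf (nat_lit 76) (nat_lit 6160435050) (nat_lit 0) (nat_lit 9582484189) (nat_lit 1672) (nat_lit 888777614) (nat_lit 366) (nat_lit 5) (nat_lit 365) (nat_lit 5) (nat_lit 387) (nat_lit 5) (nat_lit 310) (nat_lit 304) (nat_lit 166)) (XT.nd (nat_lit 78) (nat_lit 0) (nat_lit 0) (XT.lf (nat_lit 0) (nat_lit 45330459) (nat_lit 1672) (nat_lit 16040906224) (nat_lit 1748) (nat_lit 798022152) (nat_lit 344) (nat_lit 5) (nat_lit 366) (nat_lit 5) (nat_lit 367) (nat_lit 5) (nat_lit 311) (nat_lit 304) (nat_lit 165)) (XT.lf (nat_lit 0) (nat_lit 1117588924) (nat_lit 1672) (nat_lit 4581626255) (nat_lit 1748) (nat_lit 11442634601) (nat_lit 344) (nat_lit 5) (nat_lit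 366) (nat_lit 5) (nat_lit 367) (nat_lit 5) (nat_lit 312) (nat_lit 304) (nat_lit 164)))) (XT.nd (nat_lit 78) (nat_lit 0) (nat_lit 0) (XT.lf (nat_lit 0) (nat_lit 2289283941) (nat_lit 1672) (nat_lit 10130638636) (nat_lit 1748) (nat_lit 4985913745) (nat_lit 345) (nat_lit 5) (nat_lit 367) (nat_lit 5) (nat_lit 368) (nat_lit 5) (nat_lit 313) (nat_lit 304) (nat_lit 163)) (XT.nd (nat_lit 78) (nat_lit 0) (nat_lit 76) (XT.lf (nat_lit 76) (nat_lit 1850485668) (nat_lit 0) (nat_lit 1714388336) (nat_lit 1748) (nat_lit 14111506436) (nat_lit 346) (nat_lit 5) (nat_lit 345) (nat_lit 5) (nat_lit 368) (nat_lit 5) (nat_lit 314) (nat_lit 304) (nat_lit 162)) (XT.lf (nat_lit 0) (nat_lit 4995996626) (nat_lit 1672) (nat_lit 3693794962) (nat_lit 1748) (nat_lit 9262916481) (nat_lit 346) (nat_lit 5) (nat_lit 368) (nat_lit 5) (nat_lit 369) (nat_lit 5) (nat_lit 315) (nat_lit 304) (nat_lit 161))))) (XT.nd (nat_lit 234) (nat_lit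 1444) (nat_lit 0) (XT.nd (nat_lit 78) (nat_lit 0) (nat_lit 0) (XT.lf (nat_lit 0) (nat_lit 6542750718) (nat_lit 1672) (nat_lit 9352740265) (nat_lit 1748) (nat_lit 2340392710) (nat_lit 347) (nat_lit 5) (nat_lit 369) (nat_lit 5) (nat_lit 370) (nat_lit 5) (nat_lit 316) (nat_lit 304) (nat_lit 160)) (XT.nd (nat_lit 78) (nat_lit 0) (nat_lit 76) (XT.lf (nat_lit 76) (nat_lit 3337603507) (nat_lit 0) (nat_lit 4891653567) (nat_lit 1748) (nat_lit 10296442290) (nat_lit 348) (nat_lit 5) (nat_lit 347) (nat_lit 5) (nat_lit 370) (nat_lit 5) (nat_lit 317) (nat_lit 304) (nat_lit 159)) (XT.lf (nat_lit 0) (nat_lit 10060654370) (nat_lit 1672) (nat_lit 2337412024) (nat_lit 1748) (nat_lit 6424268621) (nat_lit 348) (nat_lit 5) (nat_lit 370) (nat_lit 5) (nat_lit 371) (nat_lit 5) (nat_lit 318) (nat_lit 304) (nat_lit 158)))) (XT.nd (nat_lit 156) (nat_lit 1520) (nat_lit 0) (XT.nd (nat_lit 78) (nat_lit 0) (nat_lit 76) (XT.lf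 (nat_lit 76) (nat_lit 11001726526) (nat_lit 0) (nat_lit 1038411416) (nat_lit 1748) (nat_lit 7085880000) (nat_lit 349) (nat_lit 5) (nat_lit 348) (nat_lit 5) (nat_lit 371) (nat_lit 5) (nat_lit 319) (nat_lit 304) (nat_lit 157)) (XT.lf (nat_lit 76) (nat_lit 5326322841) (nat_lit 0) (nat_lit 8861714960) (nat_lit 1748) (nat_lit 5248603690) (nat_lit 350) (nat_lit 5) (nat_lit 349) (nat_lit 5) (nat_lit 372) (nat_lit 5) (nat_lit 320) (nat_lit 304) (nat_lit 156))) (XT.nd (nat_lit 78) (nat_lit 1672) (nat_lit 0) (XT.lf (nat_lit 0) (nat_lit 16470199583) (nat_lit 1672) (nat_lit 497875895) (nat_lit 76) (nat_lit 2787122228) (nat_lit 350) (nat_lit 5) (nat_lit 372) (nat_lit 5) (nat_lit 351) (nat_lit 5) (nat_lit 321) (nat_lit 304) (nat_lit 155)) (XT.lf (nat_lit 0) (nat_lit 13633913975) (nat_lit 1672) (nat_lit 5324548551) (nat_lit 1748) (nat_lit 1122105508) (nat_lit 328) (nat_lit 5) (nat_lit 350) (nat_lit 5) (nat_lit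 351) (nat_lit 5) (nat_lit 322) (nat_lit 304) (nat_lit 154))))))))
noncomputable def xc115 : XT := (XT.nd (nat_lit 2028) (nat_lit 456) (nat_lit 0) (XT.nd (nat_lit 1014) (nat_lit 5928) (nat_lit 0) (XT.nd (nat_lit 468) (nat_lit 3648) (nat_lit 0) (XT.nd (nat_lit 234) (nat_lit 1596) (nat_lit 0) (XT.nd (nat_lit 78) (nat_lit 836) (nat_lit 0) (XT.lf (nat_lit 0) (nat_lit 1179386292) (nat_lit 1064) (nat_lit 12590133272) (nat_lit 76) (nat_lit 6644281724) (nat_lit 314) (nat_lit 5) (nat_lit 328) (nat_lit 5) (nat_lit 315) (nat_lit 5) (nat_lit 323) (nat_lit 304) (nat_lit 153)) (XT.nd (nat_lit 78) (nat_lit 0) (nat_lit 0) (XT.lf (nat_lit 0) (nat_lit 1826081219) (nat_lit 836) (nat_lit 1790384620) (nat_lit 912) (nat_lit 17138790980) (nat_lit 303) (nat_lit 5) (nat_lit 314) (nat_lit 5) (nat_lit 315) (nat_lit 5) (nat_lit 324) (nat_lit 304) (nat_lit 152)) (XT.lf (nat_lit 0) (nat_lit 6271521201) (nat_lit 912) (nat_lit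 4335899592) (nat_lit 76) (nat_lit 10496647064) (nat_lit 303) (nat_lit 5) (nat_lit 315) (nat_lit 5) (nat_lit 304) (nat_lit 5) (nat_lit 325) (nat_lit 304) (nat_lit 151)))) (XT.nd (nat_lit 78) (nat_lit 760) (nat_lit 0) (XT.lf (nat_lit 0) (nat_lit 9090485219) (nat_lit 912) (nat_lit 10656573030) (nat_lit 76) (nat_lit 1714608680) (nat_lit 292) (nat_lit 5) (nat_lit 304) (nat_lit 5) (nat_lit 293) (nat_lit 5) (nat_lit 326) (nat_lit 304) (nat_lit 150)) (XT.nd (nat_lit 78) (nat_lit 0) (nat_lit 0) (XT.lf (nat_lit 0) (nat_lit 4611086097) (nat_lit 760) (nat_lit 7504376927) (nat_lit 836) (nat_lit 9712110637) (nat_lit 282) (nat_lit 5) (nat_lit 292) (nat_lit 5) (nat_lit 293) (nat_lit 5) (nat_lit 327) (nat_lit 304) (nat_lit 149)) (XT.lf (nat_lit 0) (nat_lit 15328234249) (nat_lit 836) (nat_lit 1762564704) (nat_lit 76) (nat_lit 5111726097) (nat_lit 282) (nat_lit 5) (nat_lit 293) (nat_lit 5) (nat_lit 283) (nat_lit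 5) (nat_lit 328) (nat_lit 304) (nat_lit 148))))) (XT.nd (nat_lit 234) (nat_lit 1368) (nat_lit 0) (XT.nd (nat_lit 78) (nat_lit 1520) (nat_lit 0) (XT.lf (nat_lit 0) (nat_lit 14283806862) (nat_lit 760) (nat_lit 4487967672) (nat_lit 836) (nat_lit 3814270820) (nat_lit 272) (nat_lit 5) (nat_lit 282) (nat_lit 5) (nat_lit 283) (nat_lit 5) (nat_lit 329) (nat_lit 304) (nat_lit 147)) (XT.nd (nat_lit 78) (nat_lit 836) (nat_lit 0) (XT.lf (nat_lit 0) (nat_lit 7894825157) (nat_lit 684) (nat_lit 14533876460) (nat_lit 760) (nat_lit 550175896) (nat_lit 263) (nat_lit 5) (nat_lit 272) (nat_lit 5) (nat_lit 273) (nat_lit 5) (nat_lit 330) (nat_lit 304) (nat_lit 146)) (XT.lf (nat_lit 0) (nat_lit 1268730880) (nat_lit 760) (nat_lit 1592900386) (nat_lit 836) (nat_lit 20519772378) (nat_lit 252) (nat_lit 5) (nat_lit 262) (nat_lit 5) (nat_lit 263) (nat_lit 5) (nat_lit 331) (nat_lit 304) (nat_lit 145)))) (XT.nd (nat_lit 156)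 (nat_lit 684) (nat_lit 0) (XT.nd (nat_lit 78) (nat_lit 684) (nat_lit 0) (XT.lf (nat_lit 0) (nat_lit 6539422020) (nat_lit 836) (nat_lit 5564318611) (nat_lit 76) (nat_lit 11688777375) (nat_lit 252) (nat_lit 5) (nat_lit 263) (nat_lit 5) (nat_lit 253) (nat_lit 5) (nat_lit 332) (nat_lit 304) (nat_lit 144)) (XT.lf (nat_lit 0) (nat_lit 10413653707) (nat_lit 760) (nat_lit 12608226306) (nat_lit 76) (nat_lit 1192370690) (nat_lit 243) (nat_lit 5) (nat_lit 253) (nat_lit 5) (nat_lit 244) (nat_lit 5) (nat_lit 333) (nat_lit 304) (nat_lit 143))) (XT.nd (nat_lit 78) (nat_lit 0) (nat_lit 0) (XT.lf (nat_lit 0) (nat_lit 4691951813) (nat_lit 684) (nat_lit 9853899141) (nat_lit 760) (nat_lit 10099956498) (nat_lit 234) (nat_lit 5) (nat_lit 243) (nat_lit 5) (nat_lit 244) (nat_lit 5) (nat_lit 334) (nat_lit 304) (nat_lit 142)) (XT.lf (nat_lit 0) (nat_lit 18904642579) (nat_lit 760) (nat_lit 2437704018) (nat_lit 76) (nat_lit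 3745918382) (nat_lit 234) (nat_lit 5) (nat_lit 244) (nat_lit 5) (nat_lit 235) (nat_lit 5) (nat_lit 335) (nat_lit 304) (nat_lit 141)))))) (XT.nd (nat_lit 468) (nat_lit 2812) (nat_lit 0) (XT.nd (nat_lit 234) (nat_lit 1140) (nat_lit 0) (XT.nd (nat_lit 78) (nat_lit 1368) (nat_lit 0) (XT.lf (nat_lit 0) (nat_lit 15736487013) (nat_lit 608) (nat_lit 7818540481) (nat_lit 684) (nat_lit 1985758599) (nat_lit 226) (nat_lit 5) (nat_lit 234) (nat_lit 5) (nat_lit 235) (nat_lit 5) (nat_lit 336) (nat_lit 304) (nat_lit 140)) (XT.nd (nat_lit 78) (nat_lit 608) (nat_lit 0) (XT.lf (nat_lit 0) (nat_lit 2412778373) (nat_lit 760) (nat_lit 17473587826) (nat_lit 76) (nat_lit 6118111157) (nat_lit 216) (nat_lit 5) (nat_lit 226) (nat_lit 5) (nat_lit 217) (nat_lit 5) (nat_lit 337) (nat_lit 304) (nat_lit 139)) (XT.lf (nat_lit 0) (nat_lit 1008893347) (nat_lit 608) (nat_lit 6026286254) (nat_lit 684) (nat_lit 19444265466) (nat_lit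 208) (nat_lit 5) (nat_lit 216) (nat_lit 5) (nat_lit 217) (nat_lit 5) (nat_lit 338) (nat_lit 304) (nat_lit 138)))) (XT.nd (nat_lit 78) (nat_lit 1140) (nat_lit 0) (XT.lf (nat_lit 0) (nat_lit 11962171475) (nat_lit 684) (nat_lit 6743535884) (nat_lit 76) (nat_lit 8259641864) (nat_lit 208) (nat_lit 5) (nat_lit 217) (nat_lit 5) (nat_lit 209) (nat_lit 5) (nat_lit 339) (nat_lit 304) (nat_lit 137)) (XT.nd (nat_lit 78) (nat_lit 532) (nat_lit 0) (XT.lf (nat_lit 0) (nat_lit 12663376918) (nat_lit 608) (nat_lit 4489480783) (nat_lit 684) (nat_lit 10310660731) (nat_lit 200) (nat_lit 5) (nat_lit 208) (nat_lit 5) (nat_lit 209) (nat_lit 5) (nat_lit 340) (nat_lit 304) (nat_lit 136)) (XT.lf (nat_lit 0) (nat_lit 4757558044) (nat_lit 532) (nat_lit 17878018358) (nat_lit 608) (nat_lit 5338335533) (nat_lit 193) (nat_lit 5) (nat_lit 200) (nat_lit 5) (nat_lit 201) (nat_lit 5) (nat_lit 341) (nat_lit 304) (nat_lit 135)))))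 (XT.nd (nat_lit 234) (nat_lit 1596) (nat_lit 0) (XT.nd (nat_lit 78) (nat_lit 1216) (nat_lit 0) (XT.lf (nat_lit 0) (nat_lit 25066579093) (nat_lit 532) (nat_lit 3339955903) (nat_lit 608) (nat_lit 90612377) (nat_lit 193) (nat_lit 5) (nat_lit 200) (nat_lit 5) (nat_lit 201) (nat_lit 5) (nat_lit 342) (nat_lit 304) (nat_lit 134)) (XT.nd (nat_lit 78) (nat_lit 532) (nat_lit 0) (XT.lf (nat_lit 0) (nat_lit 5426346477) (nat_lit 684) (nat_lit 11978261728) (nat_lit 76) (nat_lit 11627156497) (nat_lit 184) (nat_lit 5) (nat_lit 193) (nat_lit 5) (nat_lit 185) (nat_lit 5) (nat_lit 343) (nat_lit 304) (nat_lit 133)) (XT.lf (nat_lit 0) (nat_lit 8700675188) (nat_lit 532) (nat_lit 2503048811) (nat_lit 608) (nat_lit 18376766648) (nat_lit 177) (nat_lit 5) (nat_lit 184) (nat_lit 5) (nat_lit 185) (nat_lit 5) (nat_lit 344) (nat_lit 304) (nat_lit 132)))) (XT.nd (nat_lit 156) (nat_lit 1064) (nat_lit 0) (XT.nd (nat_lit 78) (nat_lit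 532) (nat_lit 0) (XT.lf (nat_lit 0) (nat_lit 17313558968) (nat_lit 608) (nat_lit 71487353) (nat_lit 76) (nat_lit 12757454080) (nat_lit 177) (nat_lit 5) (nat_lit 185) (nat_lit 5) (nat_lit 178) (nat_lit 5) (nat_lit 345) (nat_lit 304) (nat_lit 131)) (XT.lf (nat_lit 0) (nat_lit 21620693915) (nat_lit 532) (nat_lit 2137312105) (nat_lit 608) (nat_lit 6960342701) (nat_lit 170) (nat_lit 5) (nat_lit 177) (nat_lit 5) (nat_lit 178) (nat_lit 5) (nat_lit 346) (nat_lit 304) (nat_lit 130))) (XT.nd (nat_lit 78) (nat_lit 608) (nat_lit 0) (XT.lf (nat_lit 0) (nat_lit 12724740272) (nat_lit 456) (nat_lit 17836558475) (nat_lit 532) (nat_lit 746867976) (nat_lit 164) (nat_lit 5) (nat_lit 170) (nat_lit 5) (nat_lit 171) (nat_lit 5) (nat_lit 347) (nat_lit 304) (nat_lit 129)) (XT.lf (nat_lit 0) (nat_lit 3397879900) (nat_lit 532) (nat_lit 2273796175) (nat_lit 608) (nat_lit 26241417286) (nat_lit 156) (nat_lit 5) (nat_lit 163)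 (nat_lit 5) (nat_lit 164) (nat_lit 5) (nat_lit 348) (nat_lit 304) (nat_lit 128))))))) (XT.nd (nat_lit 38064) (nat_lit 0) (nat_lit 10032) (XT.nd (nat_lit 37518) (nat_lit 0) (nat_lit 14744) (XT.nd (nat_lit 37284) (nat_lit 0) (nat_lit 16112) (XT.nd (nat_lit 78) (nat_lit 456) (nat_lit 0) (XT.lf (nat_lit 0) (nat_lit 12483261862) (nat_lit 608) (nat_lit 6342949467) (nat_lit 76) (nat_lit 13705649225) (nat_lit 156) (nat_lit 5) (nat_lit 164) (nat_lit 5) (nat_lit 157) (nat_lit 5) (nat_lit 349) (nat_lit 304) (nat_lit 127)) (XT.nd (nat_lit 37128) (nat_lit 0) (nat_lit 16112) (XT.lf (nat_lit 0) (nat_lit 16691235761) (nat_lit 456) (nat_lit 2926197434) (nat_lit 532) (nat_lit 13549396827) (nat_lit 150) (nat_lit 5) (nat_lit 156) (nat_lit 5) (nat_lit 157) (nat_lit 5) (nat_lit 350) (nat_lit 304) (nat_lit 126)) (XT.lf (nat_lit 0) (nat_lit 2951127795) (nat_lit 0) (nat_lit 2951127795) (nat_lit 1596) (nat_lit 1936030248)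 (nat_lit 362) (nat_lit 5) (nat_lit 362) (nat_lit 3) (nat_lit 383) (nat_lit 3) (nat_lit 305) (nat_lit 305) (nat_lit 170)))) (XT.nd (nat_lit 78) (nat_lit 0) (nat_lit 0) (XT.lf (nat_lit 76) (nat_lit 595499606) (nat_lit 0) (nat_lit 11797799604) (nat_lit 1672) (nat_lit 3509785294) (nat_lit 363) (nat_lit 5) (nat_lit 362) (nat_lit 5) (nat_lit 384) (nat_lit 5) (nat_lit 306) (nat_lit 305) (nat_lit 169)) (XT.nd (nat_lit 78) (nat_lit 0) (nat_lit 76) (XT.lf (nat_lit 76) (nat_lit 11362309668) (nat_lit 0) (nat_lit 1728019038) (nat_lit 1672) (nat_lit 3044268115) (nat_lit 363) (nat_lit 5) (nat_lit 362) (nat_lit 5) (nat_lit 384) (nat_lit 5) (nat_lit 307) (nat_lit 305) (nat_lit 168)) (XT.lf (nat_lit 76) (nat_lit 6094868416) (nat_lit 0) (nat_lit 7794703860) (nat_lit 1672) (nat_lit 2481871374) (nat_lit 364) (nat_lit 5) (nat_lit 363) (nat_lit 5) (nat_lit 385) (nat_lit 5) (nat_lit 308) (nat_lit 305) (nat_lit 167)))))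 (XT.nd (nat_lit 234) (nat_lit 1520) (nat_lit 0) (XT.nd (nat_lit 78) (nat_lit 0) (nat_lit 0) (XT.lf (nat_lit 76) (nat_lit 711460693) (nat_lit 0) (nat_lit 14052571480) (nat_lit 1672) (nat_lit 1850353694) (nat_lit 365) (nat_lit 5) (nat_lit 364) (nat_lit 5) (nat_lit 386) (nat_lit 5) (nat_lit 309) (nat_lit 305) (nat_lit 166)) (XT.nd (nat_lit 78) (nat_lit 0) (nat_lit 76) (XT.lf (nat_lit 76) (nat_lit 12108899271) (nat_lit 0) (nat_lit 3663619791) (nat_lit 1672) (nat_lit 1089955762) (nat_lit 365) (nat_lit 5) (nat_lit 364) (nat_lit 5) (nat_lit 386) (nat_lit 5) (nat_lit 310) (nat_lit 305) (nat_lit 165)) (XT.lf (nat_lit 76) (nat_lit 6765127165) (nat_lit 0) (nat_lit 10122549988) (nat_lit 1672) (nat_lit 228814878) (nat_lit 366) (nat_lit 5) (nat_lit 365) (nat_lit 5) (nat_lit 387) (nat_lit 5) (nat_lit 311) (nat_lit 305) (nat_lit 164)))) (XT.nd (nat_lit 156) (nat_lit 0) (nat_lit 76) (XT.nd (nat_lit 78) (nat_lit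 0) (nat_lit 0) (XT.lf (nat_lit 0) (nat_lit 705773142) (nat_lit 1672) (nat_lit 16084095770) (nat_lit 1748) (nat_lit 587063730) (nat_lit 344) (nat_lit 5) (nat_lit 366) (nat_lit 5) (nat_lit 367) (nat_lit 5) (nat_lit 312) (nat_lit 305) (nat_lit 163)) (XT.lf (nat_lit 0) (nat_lit 1791002775) (nat_lit 1672) (nat_lit 4293795780) (nat_lit 1748) (nat_lit 11557856273) (nat_lit 344) (nat_lit 5) (nat_lit 366) (nat_lit 5) (nat_lit 367) (nat_lit 5) (nat_lit 313) (nat_lit 305) (nat_lit 162))) (XT.nd (nat_lit 78) (nat_lit 0) (nat_lit 0) (XT.lf (nat_lit 0) (nat_lit 2980592782) (nat_lit 1672) (nat_lit 10001730376) (nat_lit 1748) (nat_lit 4932601940) (nat_lit 345) (nat_lit 5) (nat_lit 367) (nat_lit 5) (nat_lit 368) (nat_lit 5) (nat_lit 314) (nat_lit 305) (nat_lit 161)) (XT.lf (nat_lit 76) (nat_lit 2331805547) (nat_lit 0) (nat_lit 1947274746) (nat_lit 1748) (nat_lit 13914831107) (nat_lit 346) (nat_lit 5) (nat_lit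 345) (nat_lit 5) (nat_lit 368) (nat_lit 5) (nat_lit 315) (nat_lit 305) (nat_lit 160)))))) (XT.nd (nat_lit 468) (nat_lit 4864) (nat_lit 0) (XT.nd (nat_lit 234) (nat_lit 0) (nat_lit 152) (XT.nd (nat_lit 78) (nat_lit 0) (nat_lit 76) (XT.lf (nat_lit 0) (nat_lit 5734305598) (nat_lit 1672) (nat_lit 3377672998) (nat_lit 1748) (nat_lit 9366944803) (nat_lit 346) (nat_lit 5) (nat_lit 368) (nat_lit 5) (nat_lit 369) (nat_lit 5) (nat_lit 316) (nat_lit 305) (nat_lit 159)) (XT.nd (nat_lit 78) (nat_lit 0) (nat_lit 0) (XT.lf (nat_lit 0) (nat_lit 7312050658) (nat_lit 1672) (nat_lit 9200252985) (nat_lit 1748) (nat_lit 2258616280) (nat_lit 347) (nat_lit 5) (nat_lit 369) (nat_lit 5) (nat_lit 370) (nat_lit 5) (nat_lit 317) (nat_lit 305) (nat_lit 158)) (XT.lf (nat_lit 76) (nat_lit 3863775063) (nat_lit 0) (nat_lit 5171453471) (nat_lit 1748) (nat_lit 10034496894) (nat_lit 348) (nat_lit 5) (nat_lit 347) (nat_lit 5) (nat_lit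 370) (nat_lit 5) (nat_lit 318) (nat_lit 305) (nat_lit 157)))) (XT.nd (nat_lit 78) (nat_lit 0) (nat_lit 0) (XT.lf (nat_lit 0) (nat_lit 10904444774) (nat_lit 1672) (nat_lit 1981658444) (nat_lit 1748) (nat_lit 6489515789) (nat_lit 348) (nat_lit 5) (nat_lit 370) (nat_lit 5) (nat_lit 371) (nat_lit 5) (nat_lit 319) (nat_lit 305) (nat_lit 156)) (XT.nd (nat_lit 78) (nat_lit 0) (nat_lit 76) (XT.lf (nat_lit 76) (nat_lit 11750744931) (nat_lit 0) (nat_lit 1179502575) (nat_lit 1748) (nat_lit 6758442145) (nat_lit 349) (nat_lit 5) (nat_lit 348) (nat_lit 5) (nat_lit 371) (nat_lit 5) (nat_lit 320) (nat_lit 305) (nat_lit 155)) (XT.lf (nat_lit 76) (nat_lit 5909912717) (nat_lit 0) (nat_lit 9219325218) (nat_lit 1748) (nat_lit 4879676358) (nat_lit 350) (nat_lit 5) (nat_lit 349) (nat_lit 5) (nat_lit 372) (nat_lit 5) (nat_lit 321) (nat_lit 305) (nat_lit 154))))) (XT.nd (nat_lit 234) (nat_lit 2432) (nat_lit 0) (XT.nd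 (nat_lit 78) (nat_lit 2736) (nat_lit 0) (XT.lf (nat_lit 0) (nat_lit 17464269882) (nat_lit 1672) (nat_lit 90266159) (nat_lit 76) (nat_lit 2782818055) (nat_lit 350) (nat_lit 5) (nat_lit 372) (nat_lit 5) (nat_lit 351) (nat_lit 5) (nat_lit 322) (nat_lit 305) (nat_lit 153)) (XT.nd (nat_lit 78) (nat_lit 1064) (nat_lit 0) (XT.lf (nat_lit 0) (nat_lit 14458622100) (nat_lit 1672) (nat_lit 5556695485) (nat_lit 1748) (nat_lit 657419781) (nat_lit 328) (nat_lit 5) (nat_lit 350) (nat_lit 5) (nat_lit 351) (nat_lit 5) (nat_lit 323) (nat_lit 305) (nat_lit 152)) (XT.lf (nat_lit 0) (nat_lit 1694538371) (nat_lit 1064) (nat_lit 12541508501) (nat_lit 76) (nat_lit 6780110753) (nat_lit 314) (nat_lit 5) (nat_lit 328) (nat_lit 5) (nat_lit 315) (nat_lit 5) (nat_lit 324) (nat_lit 305) (nat_lit 151)))) (XT.nd (nat_lit 156) (nat_lit 1596) (nat_lit 0) (XT.nd (nat_lit 78) (nat_lit 0) (nat_lit 0) (XT.lf (nat_lit 0) (nat_lit 2300275747)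 (nat_lit 836) (nat_lit 1893203761) (nat_lit 912) (nat_lit 17174615794) (nat_lit 303) (nat_lit 5) (nat_lit 314) (nat_lit 5) (nat_lit 315) (nat_lit 5) (nat_lit 325) (nat_lit 305) (nat_lit 150)) (XT.lf (nat_lit 0) (nat_lit 6914230774) (nat_lit 912) (nat_lit 4048937597) (nat_lit 76) (nat_lit 10764494488) (nat_lit 303) (nat_lit 5) (nat_lit 315) (nat_lit 5) (nat_lit 304) (nat_lit 5) (nat_lit 326) (nat_lit 305) (nat_lit 149))) (XT.nd (nat_lit 78) (nat_lit 760) (nat_lit 0) (XT.lf (nat_lit 0) (nat_lit 9806968850) (nat_lit 912) (nat_lit 10556475477) (nat_lit 76) (nat_lit 1732774165) (nat_lit 292) (nat_lit 5) (nat_lit 304) (nat_lit 5) (nat_lit 293) (nat_lit 5) (nat_lit 327) (nat_lit 305) (nat_lit 148)) (XT.lf (nat_lit 0) (nat_lit 5162402753) (nat_lit 760) (nat_lit 7750049290) (nat_lit 836) (nat_lit 9560867584) (nat_lit 282) (nat_lit 5) (nat_lit 292) (nat_lit 5) (nat_lit 293) (nat_lit 5) (nat_lit 328) (nat_lit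 305) (nat_lit 147))))))))
noncomputable def xc116 : XT := (XT.nd (nat_lit 39234) (nat_lit 0) (nat_lit 5928) (XT.nd (nat_lit 1014) (nat_lit 3344) (nat_lit 0) (XT.nd (nat_lit 468) (nat_lit 3268) (nat_lit 0) (XT.nd (nat_lit 234) (nat_lit 1520) (nat_lit 0) (XT.nd (nat_lit 78) (nat_lit 1444) (nat_lit 0) (XT.lf (nat_lit 0) (nat_lit 16208849977) (nat_lit 836) (nat_lit 1405540011) (nat_lit 76) (nat_lit 5245396661) (nat_lit 282) (nat_lit 5) (nat_lit 293) (nat_lit 5) (nat_lit 283) (nat_lit 5) (nat_lit 329) (nat_lit 305) (nat_lit 146)) (XT.nd (nat_lit 78) (nat_lit 684) (nat_lit 0) (XT.lf (nat_lit 0) (nat_lit 15115572535) (nat_lit 760) (nat_lit 4630486713) (nat_lit 836) (nat_lit 3508957674) (nat_lit 272) (nat_lit 5) (nat_lit 282) (nat_lit 5) (nat_lit 283) (nat_lit 5) (nat_lit 330) (nat_lit 305) (nat_lit 145)) (XT.lf (nat_lit 0) (nat_lit 8536899544) (nat_lit 684) (nat_lit 14966401244) (nat_lit 760) (nat_lit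 156532402) (nat_lit 263) (nat_lit 5) (nat_lit 272) (nat_lit 5) (nat_lit 273) (nat_lit 5) (nat_lit 331) (nat_lit 305) (nat_lit 144)))) (XT.nd (nat_lit 78) (nat_lit 684) (nat_lit 0) (XT.lf (nat_lit 0) (nat_lit 1711102512) (nat_lit 760) (nat_lit 1631982930) (nat_lit 836) (nat_lit 20731490425) (nat_lit 252) (nat_lit 5) (nat_lit 262) (nat_lit 5) (nat_lit 263) (nat_lit 5) (nat_lit 332) (nat_lit 305) (nat_lit 143)) (XT.nd (nat_lit 78) (nat_lit 684) (nat_lit 0) (XT.lf (nat_lit 0) (nat_lit 7119742305) (nat_lit 836) (nat_lit 5330740327) (nat_lit 76) (nat_lit 12047780799) (nat_lit 252) (nat_lit 5) (nat_lit 263) (nat_lit 5) (nat_lit 253) (nat_lit 5) (nat_lit 333) (nat_lit 305) (nat_lit 142)) (XT.lf (nat_lit 0) (nat_lit 11101690774) (nat_lit 760) (nat_lit 12584735758) (nat_lit 76) (nat_lit 1246401897) (nat_lit 243) (nat_lit 5) (nat_lit 253) (nat_lit 5) (nat_lit 244) (nat_lit 5) (nat_lit 334) (nat_lit 305)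 (nat_lit 141))))) (XT.nd (nat_lit 234) (nat_lit 1976) (nat_lit 0) (XT.nd (nat_lit 78) (nat_lit 608) (nat_lit 0) (XT.lf (nat_lit 0) (nat_lit 5227929993) (nat_lit 684) (nat_lit 10121549368) (nat_lit 760) (nat_lit 10028029835) (nat_lit 234) (nat_lit 5) (nat_lit 243) (nat_lit 5) (nat_lit 244) (nat_lit 5) (nat_lit 335) (nat_lit 305) (nat_lit 140)) (XT.nd (nat_lit 78) (nat_lit 608) (nat_lit 0) (XT.lf (nat_lit 0) (nat_lit 19828514339) (nat_lit 760) (nat_lit 2119854045) (nat_lit 76) (nat_lit 3885092009) (nat_lit 234) (nat_lit 5) (nat_lit 244) (nat_lit 5) (nat_lit 235) (nat_lit 5) (nat_lit 336) (nat_lit 305) (nat_lit 139)) (XT.lf (nat_lit 0) (nat_lit 16593219513) (nat_lit 608) (nat_lit 8017298346) (nat_lit 684) (nat_lit 1689206399) (nat_lit 226) (nat_lit 5) (nat_lit 234) (nat_lit 5) (nat_lit 235) (nat_lit 5) (nat_lit 337) (nat_lit 305) (nat_lit 138)))) (XT.nd (nat_lit 156) (nat_lit 608) (nat_lit 0) (XT.nd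 (nat_lit 78) (nat_lit 608) (nat_lit 0) (XT.lf (nat_lit 0) (nat_lit 2829125084) (nat_lit 760) (nat_lit 17607594446) (nat_lit 76) (nat_lit 6340719118) (nat_lit 216) (nat_lit 5) (nat_lit 226) (nat_lit 5) (nat_lit 217) (nat_lit 5) (nat_lit 338) (nat_lit 305) (nat_lit 137)) (XT.lf (nat_lit 0) (nat_lit 1423030615) (nat_lit 608) (nat_lit 6159641725) (nat_lit 684) (nat_lit 19684142125) (nat_lit 208) (nat_lit 5) (nat_lit 216) (nat_lit 5) (nat_lit 217) (nat_lit 5) (nat_lit 339) (nat_lit 305) (nat_lit 136))) (XT.nd (nat_lit 78) (nat_lit 608) (nat_lit 0) (XT.lf (nat_lit 0) (nat_lit 12647973821) (nat_lit 684) (nat_lit 6566641520) (nat_lit 76) (nat_lit 8552878715) (nat_lit 208) (nat_lit 5) (nat_lit 217) (nat_lit 5) (nat_lit 209) (nat_lit 5) (nat_lit 340) (nat_lit 305) (nat_lit 135)) (XT.lf (nat_lit 0) (nat_lit 13416326589) (nat_lit 608) (nat_lit 4570953680) (nat_lit 684) (nat_lit 10293478145) (nat_lit 200)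 (nat_lit 5) (nat_lit 208) (nat_lit 5) (nat_lit 209) (nat_lit 5) (nat_lit 341) (nat_lit 305) (nat_lit 134)))))) (XT.nd (nat_lit 468) (nat_lit 1064) (nat_lit 0) (XT.nd (nat_lit 234) (nat_lit 1064) (nat_lit 0) (XT.nd (nat_lit 78) (nat_lit 684) (nat_lit 0) (XT.lf (nat_lit 0) (nat_lit 5273498432) (nat_lit 532) (nat_lit 18354425035) (nat_lit 608) (nat_lit 5178679226) (nat_lit 193) (nat_lit 5) (nat_lit 200) (nat_lit 5) (nat_lit 201) (nat_lit 5) (nat_lit 342) (nat_lit 305) (nat_lit 133)) (XT.nd (nat_lit 78) (nat_lit 608) (nat_lit 0) (XT.lf (nat_lit 0) (nat_lit 214312770) (nat_lit 608) (nat_lit 3166215430) (nat_lit 76) (nat_lit 25965168891) (nat_lit 192) (nat_lit 5) (nat_lit 200) (nat_lit 5) (nat_lit 193) (nat_lit 5) (nat_lit 343) (nat_lit 305) (nat_lit 132)) (XT.lf (nat_lit 0) (nat_lit 5889368770) (nat_lit 684) (nat_lit 11971051667) (nat_lit 76) (nat_lit 12036051371) (nat_lit 184) (nat_lit 5) (nat_lit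 193) (nat_lit 5) (nat_lit 185) (nat_lit 5) (nat_lit 344) (nat_lit 305) (nat_lit 131)))) (XT.nd (nat_lit 78) (nat_lit 532) (nat_lit 0) (XT.lf (nat_lit 0) (nat_lit 9322306389) (nat_lit 532) (nat_lit 2511357936) (nat_lit 608) (nat_lit 18628130297) (nat_lit 177) (nat_lit 5) (nat_lit 184) (nat_lit 5) (nat_lit 185) (nat_lit 5) (nat_lit 345) (nat_lit 305) (nat_lit 130)) (XT.nd (nat_lit 78) (nat_lit 0) (nat_lit 0) (XT.lf (nat_lit 0) (nat_lit 285735001) (nat_lit 532) (nat_lit 17834777374) (nat_lit 608) (nat_lit 12920284754) (nat_lit 170) (nat_lit 5) (nat_lit 177) (nat_lit 5) (nat_lit 178) (nat_lit 5) (nat_lit 346) (nat_lit 305) (nat_lit 129)) (XT.lf (nat_lit 0) (nat_lit 22619164737) (nat_lit 532) (nat_lit 2131223267) (nat_lit 608) (nat_lit 6883697611) (nat_lit 170) (nat_lit 5) (nat_lit 177) (nat_lit 5) (nat_lit 178) (nat_lit 5) (nat_lit 347) (nat_lit 305) (nat_lit 128))))) (XT.nd (nat_lit 37440) (nat_lit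 0) (nat_lit 15656) (XT.nd (nat_lit 78) (nat_lit 608) (nat_lit 0) (XT.lf (nat_lit 0) (nat_lit 13455927390) (nat_lit 456) (nat_lit 18296418607) (nat_lit 532) (nat_lit 489367261) (nat_lit 164) (nat_lit 5) (nat_lit 170) (nat_lit 5) (nat_lit 171) (nat_lit 5) (nat_lit 348) (nat_lit 305) (nat_lit 127)) (XT.nd (nat_lit 37284) (nat_lit 0) (nat_lit 15656) (XT.lf (nat_lit 0) (nat_lit 3847410037) (nat_lit 532) (nat_lit 2264863155) (nat_lit 608) (nat_lit 26752600054) (nat_lit 156) (nat_lit 5) (nat_lit 163) (nat_lit 5) (nat_lit 164) (nat_lit 5) (nat_lit 349) (nat_lit 305) (nat_lit 126)) (XT.lf (nat_lit 0) (nat_lit 3228266529) (nat_lit 0) (nat_lit 3228266529) (nat_lit 1596) (nat_lit 1608959674) (nat_lit 362) (nat_lit 5) (nat_lit 362) (nat_lit 3) (nat_lit 383) (nat_lit 3) (nat_lit 306) (nat_lit 306) (nat_lit 168)))) (XT.nd (nat_lit 156) (nat_lit 0) (nat_lit 76) (XT.nd (nat_lit 78) (nat_lit 0) (nat_lit 0) (XT.lf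 (nat_lit 76) (nat_lit 1002489649) (nat_lit 0) (nat_lit 12495203446) (nat_lit 1672) (nat_lit 2867060231) (nat_lit 363) (nat_lit 5) (nat_lit 362) (nat_lit 5) (nat_lit 384) (nat_lit 5) (nat_lit 307) (nat_lit 306) (nat_lit 167)) (XT.lf (nat_lit 76) (nat_lit 12080970273) (nat_lit 0) (nat_lit 2113325487) (nat_lit 1672) (nat_lit 2409364486) (nat_lit 363) (nat_lit 5) (nat_lit 362) (nat_lit 5) (nat_lit 384) (nat_lit 5) (nat_lit 308) (nat_lit 306) (nat_lit 166))) (XT.nd (nat_lit 78) (nat_lit 0) (nat_lit 76) (XT.lf (nat_lit 76) (nat_lit 6666238060) (nat_lit 0) (nat_lit 8330982880) (nat_lit 1672) (nat_lit 1850819280) (nat_lit 364) (nat_lit 5) (nat_lit 363) (nat_lit 5) (nat_lit 385) (nat_lit 5) (nat_lit 309) (nat_lit 306) (nat_lit 165)) (XT.lf (nat_lit 76) (nat_lit 1131267278) (nat_lit 0) (nat_lit 14747202915) (nat_lit 1672) (nat_lit 1220210590) (nat_lit 365) (nat_lit 5) (nat_lit 364) (nat_lit 5) (nat_lit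 386) (nat_lit 5) (nat_lit 310) (nat_lit 306) (nat_lit 164))))))) (XT.nd (nat_lit 1014) (nat_lit 7144) (nat_lit 0) (XT.nd (nat_lit 468) (nat_lit 1140) (nat_lit 0) (XT.nd (nat_lit 234) (nat_lit 0) (nat_lit 76) (XT.nd (nat_lit 78) (nat_lit 1596) (nat_lit 0) (XT.lf (nat_lit 76) (nat_lit 12859023301) (nat_lit 0) (nat_lit 4038629637) (nat_lit 1672) (nat_lit 456971216) (nat_lit 365) (nat_lit 5) (nat_lit 364) (nat_lit 5) (nat_lit 386) (nat_lit 5) (nat_lit 311) (nat_lit 306) (nat_lit 163)) (XT.nd (nat_lit 78) (nat_lit 0) (nat_lit 76) (XT.lf (nat_lit 0) (nat_lit 406134283) (nat_lit 1672) (nat_lit 10255458331) (nat_lit 1748) (nat_lit 6954997610) (nat_lit 343) (nat_lit 5) (nat_lit 365) (nat_lit 5) (nat_lit 366) (nat_lit 5) (nat_lit 312) (nat_lit 306) (nat_lit 162)) (XT.lf (nat_lit 0) (nat_lit 1348195058) (nat_lit 1672) (nat_lit 16153726156) (nat_lit 1748) (nat_lit 383260724) (nat_lit 344) (nat_lit 5) (nat_lit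 366) (nat_lit 5) (nat_lit 367) (nat_lit 5) (nat_lit 313) (nat_lit 306) (nat_lit 161)))) (XT.nd (nat_lit 78) (nat_lit 0) (nat_lit 76) (XT.lf (nat_lit 0) (nat_lit 2447886958) (nat_lit 1672) (nat_lit 4021743161) (nat_lit 1748) (nat_lit 11689626022) (nat_lit 344) (nat_lit 5) (nat_lit 366) (nat_lit 5) (nat_lit 367) (nat_lit 5) (nat_lit 314) (nat_lit 306) (nat_lit 160)) (XT.nd (nat_lit 78) (nat_lit 0) (nat_lit 0) (XT.lf (nat_lit 0) (nat_lit 3656899361) (nat_lit 1672) (nat_lit 9893800931) (nat_lit 1748) (nat_lit 4889337451) (nat_lit 345) (nat_lit 5) (nat_lit 367) (nat_lit 5) (nat_lit 368) (nat_lit 5) (nat_lit 315) (nat_lit 306) (nat_lit 159)) (XT.lf (nat_lit 76) (nat_lit 2803122057) (nat_lit 0) (nat_lit 2176731503) (nat_lit 1748) (nat_lit 13747847233) (nat_lit 346) (nat_lit 5) (nat_lit 345) (nat_lit 5) (nat_lit 368) (nat_lit 5) (nat_lit 316) (nat_lit 306) (nat_lit 158))))) (XT.nd (nat_lit 234) (nat_lit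 1368) (nat_lit 0) (XT.nd (nat_lit 78) (nat_lit 0) (nat_lit 76) (XT.lf (nat_lit 0) (nat_lit 6460985602) (nat_lit 1672) (nat_lit 3076575238) (nat_lit 1748) (nat_lit 9484074201) (nat_lit 346) (nat_lit 5) (nat_lit 368) (nat_lit 5) (nat_lit 369) (nat_lit 5) (nat_lit 317) (nat_lit 306) (nat_lit 157)) (XT.nd (nat_lit 78) (nat_lit 0) (nat_lit 0) (XT.lf (nat_lit 0) (nat_lit 8071536052) (nat_lit 1672) (nat_lit 9068051046) (nat_lit 1748) (nat_lit 2183111302) (nat_lit 347) (nat_lit 5) (nat_lit 369) (nat_lit 5) (nat_lit 370) (nat_lit 5) (nat_lit 318) (nat_lit 306) (nat_lit 156)) (XT.lf (nat_lit 76) (nat_lit 4381275128) (nat_lit 0) (nat_lit 5452009740) (nat_lit 1748) (nat_lit 9797461611) (nat_lit 348) (nat_lit 5) (nat_lit 347) (nat_lit 5) (nat_lit 370) (nat_lit 5) (nat_lit 319) (nat_lit 306) (nat_lit 155)))) (XT.nd (nat_lit 156) (nat_lit 1520) (nat_lit 0) (XT.nd (nat_lit 78) (nat_lit 0) (nat_lit 0) (XT.lf (nat_lit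 0) (nat_lit 11742437551) (nat_lit 1672) (nat_lit 1639679279) (nat_lit 1748) (nat_lit 6564038296) (nat_lit 348) (nat_lit 5) (nat_lit 370) (nat_lit 5) (nat_lit 371) (nat_lit 5) (nat_lit 320) (nat_lit 306) (nat_lit 154)) (XT.lf (nat_lit 76) (nat_lit 12498183490) (nat_lit 0) (nat_lit 1318515531) (nat_lit 1748) (nat_lit 6452180181) (nat_lit 349) (nat_lit 5) (nat_lit 348) (nat_lit 5) (nat_lit 371) (nat_lit 5) (nat_lit 321) (nat_lit 306) (nat_lit 153))) (XT.nd (nat_lit 78) (nat_lit 1596) (nat_lit 0) (XT.lf (nat_lit 76) (nat_lit 6486682425) (nat_lit 0) (nat_lit 9582396452) (nat_lit 1748) (nat_lit 4529897884) (nat_lit 350) (nat_lit 5) (nat_lit 349) (nat_lit 5) (nat_lit 372) (nat_lit 5) (nat_lit 322) (nat_lit 306) (nat_lit 152)) (XT.lf (nat_lit 0) (nat_lit 309373487) (nat_lit 1672) (nat_lit 18152097464) (nat_lit 1748) (nat_lit 2476066770) (nat_lit 328) (nat_lit 5) (nat_lit 350) (nat_lit 5) (nat_lit 351)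 (nat_lit 5) (nat_lit 323) (nat_lit 306) (nat_lit 151)))))) (XT.nd (nat_lit 468) (nat_lit 3648) (nat_lit 0) (XT.nd (nat_lit 234) (nat_lit 1596) (nat_lit 0) (XT.nd (nat_lit 78) (nat_lit 1900) (nat_lit 0) (XT.lf (nat_lit 0) (nat_lit 15284209121) (nat_lit 1672) (nat_lit 5791650170) (nat_lit 1748) (nat_lit 207400747) (nat_lit 328) (nat_lit 5) (nat_lit 350) (nat_lit 5) (nat_lit 351) (nat_lit 5) (nat_lit 324) (nat_lit 306) (nat_lit 150)) (XT.nd (nat_lit 78) (nat_lit 836) (nat_lit 0) (XT.lf (nat_lit 0) (nat_lit 2197604223) (nat_lit 1064) (nat_lit 12515898002) (nat_lit 76) (nat_lit 6923659779) (nat_lit 314) (nat_lit 5) (nat_lit 328) (nat_lit 5) (nat_lit 315) (nat_lit 5) (nat_lit 325) (nat_lit 306) (nat_lit 149)) (XT.lf (nat_lit 0) (nat_lit 2764620141) (nat_lit 836) (nat_lit 1996288498) (nat_lit 912) (nat_lit 17238973963) (nat_lit 303) (nat_lit 5) (nat_lit 314) (nat_lit 5) (nat_lit 315) (nat_lit 5) (nat_lit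 326) (nat_lit 306) (nat_lit 148)))) (XT.nd (nat_lit 78) (nat_lit 1596) (nat_lit 0) (XT.lf (nat_lit 0) (nat_lit 7550127804) (nat_lit 912) (nat_lit 3777306485) (nat_lit 76) (nat_lit 11043078312) (nat_lit 303) (nat_lit 5) (nat_lit 315) (nat_lit 5) (nat_lit 304) (nat_lit 5) (nat_lit 327) (nat_lit 306) (nat_lit 147)) (XT.nd (nat_lit 78) (nat_lit 760) (nat_lit 0) (XT.lf (nat_lit 0) (nat_lit 10519472830) (nat_lit 912) (nat_lit 10477472933) (nat_lit 76) (nat_lit 1753394607) (nat_lit 292) (nat_lit 5) (nat_lit 304) (nat_lit 5) (nat_lit 293) (nat_lit 5) (nat_lit 328) (nat_lit 306) (nat_lit 146)) (XT.lf (nat_lit 0) (nat_lit 5706551934) (nat_lit 760) (nat_lit 8001912684) (nat_lit 836) (nat_lit 9430494656) (nat_lit 282) (nat_lit 5) (nat_lit 292) (nat_lit 5) (nat_lit 293) (nat_lit 5) (nat_lit 329) (nat_lit 306) (nat_lit 145))))) (XT.nd (nat_lit 234) (nat_lit 2128) (nat_lit 0) (XT.nd (nat_lit 78) (nat_lit 1520)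 (nat_lit 0) (XT.lf (nat_lit 0) (nat_lit 17091730333) (nat_lit 836) (nat_lit 1061334608) (nat_lit 76) (nat_lit 5384207124) (nat_lit 282) (nat_lit 5) (nat_lit 293) (nat_lit 5) (nat_lit 283) (nat_lit 5) (nat_lit 330) (nat_lit 306) (nat_lit 144)) (XT.nd (nat_lit 78) (nat_lit 760) (nat_lit 0) (XT.lf (nat_lit 0) (nat_lit 15949142894) (nat_lit 760) (nat_lit 4776828981) (nat_lit 836) (nat_lit 3218580000) (nat_lit 272) (nat_lit 5) (nat_lit 282) (nat_lit 5) (nat_lit 283) (nat_lit 5) (nat_lit 331) (nat_lit 306) (nat_lit 143)) (XT.lf (nat_lit 0) (nat_lit 222420330) (nat_lit 760) (nat_lit 15188189310) (nat_lit 76) (nat_lit 8951061436) (nat_lit 262) (nat_lit 5) (nat_lit 272) (nat_lit 5) (nat_lit 263) (nat_lit 5) (nat_lit 332) (nat_lit 306) (nat_lit 142)))) (XT.nd (nat_lit 156) (nat_lit 1368) (nat_lit 0) (XT.nd (nat_lit 78) (nat_lit 0) (nat_lit 0) (XT.lf (nat_lit 0) (nat_lit 2143536260) (nat_lit 760) (nat_lit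 1672737623) (nat_lit 836) (nat_lit 20972744097) (nat_lit 252) (nat_lit 5) (nat_lit 262) (nat_lit 5) (nat_lit 263) (nat_lit 5) (nat_lit 333) (nat_lit 306) (nat_lit 141)) (XT.lf (nat_lit 0) (nat_lit 7695421127) (nat_lit 836) (nat_lit 5113145484) (nat_lit 76) (nat_lit 12417075570) (nat_lit 252) (nat_lit 5) (nat_lit 263) (nat_lit 5) (nat_lit 253) (nat_lit 5) (nat_lit 334) (nat_lit 306) (nat_lit 140))) (XT.nd (nat_lit 78) (nat_lit 684) (nat_lit 0) (XT.lf (nat_lit 0) (nat_lit 11788806401) (nat_lit 760) (nat_lit 12583601861) (nat_lit 76) (nat_lit 1301005837) (nat_lit 243) (nat_lit 5) (nat_lit 253) (nat_lit 5) (nat_lit 244) (nat_lit 5) (nat_lit 335) (nat_lit 306) (nat_lit 139)) (XT.lf (nat_lit 0) (nat_lit 5757300295) (nat_lit 684) (nat_lit 10398834508) (nat_lit 760) (nat_lit 9975467621) (nat_lit 234) (nat_lit 5) (nat_lit 243) (nat_lit 5) (nat_lit 244) (nat_lit 5) (nat_lit 336) (nat_lit 306) (nat_lit 138))))))))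
noncomputable def xc117 : XT := (XT.nd (nat_lit 39312) (nat_lit 0) (nat_lit 2128) (XT.nd (nat_lit 38298) (nat_lit 0) (nat_lit 13528) (XT.nd (nat_lit 468) (nat_lit 2736) (nat_lit 0) (XT.nd (nat_lit 234) (nat_lit 1216) (nat_lit 0) (XT.nd (nat_lit 78) (nat_lit 1368) (nat_lit 0) (XT.lf (nat_lit 0) (nat_lit 20759624349) (nat_lit 760) (nat_lit 1814912487) (nat_lit 76) (nat_lit 4026902641) (nat_lit 234) (nat_lit 5) (nat_lit 244) (nat_lit 5) (nat_lit 235) (nat_lit 5) (nat_lit 337) (nat_lit 306) (nat_lit 137)) (XT.nd (nat_lit 78) (nat_lit 760) (nat_lit 0) (XT.lf (nat_lit 0) (nat_lit 17453574200) (nat_lit 608) (nat_lit 8224073919) (nat_lit 684) (nat_lit 1404200663) (nat_lit 226) (nat_lit 5) (nat_lit 234) (nat_lit 5) (nat_lit 235) (nat_lit 5) (nat_lit 338) (nat_lit 306) (nat_lit 136)) (XT.lf (nat_lit 0) (nat_lit 3238217292) (nat_lit 760) (nat_lit 17768020398) (nat_lit 76) (nat_lit 6567762849) (nat_lit 216)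 (nat_lit 5) (nat_lit 226) (nat_lit 5) (nat_lit 217) (nat_lit 5) (nat_lit 339) (nat_lit 306) (nat_lit 135)))) (XT.nd (nat_lit 78) (nat_lit 608) (nat_lit 0) (XT.lf (nat_lit 0) (nat_lit 1827556266) (nat_lit 608) (nat_lit 6299720715) (nat_lit 684) (nat_lit 19950930595) (nat_lit 208) (nat_lit 5) (nat_lit 216) (nat_lit 5) (nat_lit 217) (nat_lit 5) (nat_lit 340) (nat_lit 306) (nat_lit 134)) (XT.nd (nat_lit 78) (nat_lit 608) (nat_lit 0) (XT.lf (nat_lit 0) (nat_lit 13335582705) (nat_lit 684) (nat_lit 6406207982) (nat_lit 76) (nat_lit 8852303794) (nat_lit 208) (nat_lit 5) (nat_lit 217) (nat_lit 5) (nat_lit 209) (nat_lit 5) (nat_lit 341) (nat_lit 306) (nat_lit 133)) (XT.lf (nat_lit 0) (nat_lit 14170450248) (nat_lit 608) (nat_lit 4657925323) (nat_lit 684) (nat_lit 10294522656) (nat_lit 200) (nat_lit 5) (nat_lit 208) (nat_lit 5) (nat_lit 209) (nat_lit 5) (nat_lit 342) (nat_lit 306) (nat_lit 132))))) (XT.nd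 (nat_lit 234) (nat_lit 1520) (nat_lit 0) (XT.nd (nat_lit 78) (nat_lit 684) (nat_lit 0) (XT.lf (nat_lit 0) (nat_lit 5783493043) (nat_lit 532) (nat_lit 18848564361) (nat_lit 608) (nat_lit 5032591425) (nat_lit 193) (nat_lit 5) (nat_lit 200) (nat_lit 5) (nat_lit 201) (nat_lit 5) (nat_lit 343) (nat_lit 306) (nat_lit 131)) (XT.nd (nat_lit 78) (nat_lit 608) (nat_lit 0) (XT.lf (nat_lit 0) (nat_lit 509571893) (nat_lit 608) (nat_lit 2915585969) (nat_lit 76) (nat_lit 26794899375) (nat_lit 192) (nat_lit 5) (nat_lit 200) (nat_lit 5) (nat_lit 193) (nat_lit 5) (nat_lit 344) (nat_lit 306) (nat_lit 130)) (XT.lf (nat_lit 0) (nat_lit 6349047192) (nat_lit 684) (nat_lit 11984667229) (nat_lit 76) (nat_lit 12453764243) (nat_lit 184) (nat_lit 5) (nat_lit 193) (nat_lit 5) (nat_lit 185) (nat_lit 5) (nat_lit 345) (nat_lit 306) (nat_lit 129)))) (XT.nd (nat_lit 156) (nat_lit 456) (nat_lit 0) (XT.nd (nat_lit 78) (nat_lit 532)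 (nat_lit 0) (XT.lf (nat_lit 0) (nat_lit 9941885983) (nat_lit 532) (nat_lit 2523749913) (nat_lit 608) (nat_lit 18904252602) (nat_lit 177) (nat_lit 5) (nat_lit 184) (nat_lit 5) (nat_lit 185) (nat_lit 5) (nat_lit 346) (nat_lit 306) (nat_lit 128)) (XT.lf (nat_lit 0) (nat_lit 633967250) (nat_lit 532) (nat_lit 18301657394) (nat_lit 608) (nat_lit 13030752160) (nat_lit 170) (nat_lit 5) (nat_lit 177) (nat_lit 5) (nat_lit 178) (nat_lit 5) (nat_lit 347) (nat_lit 306) (nat_lit 127))) (XT.nd (nat_lit 78) (nat_lit 456) (nat_lit 0) (XT.lf (nat_lit 0) (nat_lit 23627506863) (nat_lit 532) (nat_lit 2128982003) (nat_lit 608) (nat_lit 6821139475) (nat_lit 170) (nat_lit 5) (nat_lit 177) (nat_lit 5) (nat_lit 178) (nat_lit 5) (nat_lit 348) (nat_lit 306) (nat_lit 126)) (XT.lf (nat_lit 0) (nat_lit 14188990554) (nat_lit 456) (nat_lit 18774393434) (nat_lit 532) (nat_lit 240209318) (nat_lit 164) (nat_lit 5) (nat_lit 170)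 (nat_lit 5) (nat_lit 171) (nat_lit 5) (nat_lit 349) (nat_lit 306) (nat_lit 125)))))) (XT.nd (nat_lit 468) (nat_lit 0) (nat_lit 76) (XT.nd (nat_lit 234) (nat_lit 1520) (nat_lit 0) (XT.nd (nat_lit 78) (nat_lit 0) (nat_lit 0) (XT.lf (nat_lit 0) (nat_lit 3502892732) (nat_lit 0) (nat_lit 3502892732) (nat_lit 1596) (nat_lit 1294186254) (nat_lit 362) (nat_lit 5) (nat_lit 362) (nat_lit 3) (nat_lit 383) (nat_lit 3) (nat_lit 307) (nat_lit 307) (nat_lit 166)) (XT.nd (nat_lit 78) (nat_lit 0) (nat_lit 0) (XT.lf (nat_lit 76) (nat_lit 1399352023) (nat_lit 0) (nat_lit 13193812828) (nat_lit 1672) (nat_lit 2247992745) (nat_lit 363) (nat_lit 5) (nat_lit 362) (nat_lit 5) (nat_lit 384) (nat_lit 5) (nat_lit 308) (nat_lit 307) (nat_lit 165)) (XT.lf (nat_lit 76) (nat_lit 12799503929) (nat_lit 0) (nat_lit 2491048823) (nat_lit 1672) (nat_lit 1797102418) (nat_lit 363) (nat_lit 5) (nat_lit 362) (nat_lit 5) (nat_lit 384)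 (nat_lit 5) (nat_lit 309) (nat_lit 307) (nat_lit 164)))) (XT.nd (nat_lit 78) (nat_lit 1596) (nat_lit 0) (XT.lf (nat_lit 76) (nat_lit 7232445950) (nat_lit 0) (nat_lit 8865989098) (nat_lit 1672) (nat_lit 1241334682) (nat_lit 364) (nat_lit 5) (nat_lit 363) (nat_lit 5) (nat_lit 385) (nat_lit 5) (nat_lit 310) (nat_lit 307) (nat_lit 163)) (XT.nd (nat_lit 78) (nat_lit 1672) (nat_lit 0) (XT.lf (nat_lit 76) (nat_lit 1540794667) (nat_lit 0) (nat_lit 15446998859) (nat_lit 1672) (nat_lit 610522521) (nat_lit 365) (nat_lit 5) (nat_lit 364) (nat_lit 5) (nat_lit 386) (nat_lit 5) (nat_lit 311) (nat_lit 307) (nat_lit 162)) (XT.lf (nat_lit 0) (nat_lit 154733596) (nat_lit 1672) (nat_lit 4253899941) (nat_lit 1748) (nat_lit 13453671934) (nat_lit 342) (nat_lit 5) (nat_lit 364) (nat_lit 5) (nat_lit 365) (nat_lit 5) (nat_lit 312) (nat_lit 307) (nat_lit 161))))) (XT.nd (nat_lit 234) (nat_lit 0) (nat_lit 152) (XT.nd (nat_lit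 78) (nat_lit 0) (nat_lit 76) (XT.lf (nat_lit 0) (nat_lit 1020375651) (nat_lit 1672) (nat_lit 10181448694) (nat_lit 1748) (nat_lit 6930607187) (nat_lit 343) (nat_lit 5) (nat_lit 365) (nat_lit 5) (nat_lit 366) (nat_lit 5) (nat_lit 313) (nat_lit 307) (nat_lit 160)) (XT.nd (nat_lit 78) (nat_lit 0) (nat_lit 0) (XT.lf (nat_lit 0) (nat_lit 1974227414) (nat_lit 1672) (nat_lit 16249147171) (nat_lit 1748) (nat_lit 186053750) (nat_lit 344) (nat_lit 5) (nat_lit 366) (nat_lit 5) (nat_lit 367) (nat_lit 5) (nat_lit 314) (nat_lit 307) (nat_lit 159)) (XT.lf (nat_lit 0) (nat_lit 3089854153) (nat_lit 1672) (nat_lit 3764540339) (nat_lit 1748) (nat_lit 11837688787) (nat_lit 344) (nat_lit 5) (nat_lit 366) (nat_lit 5) (nat_lit 367) (nat_lit 5) (nat_lit 315) (nat_lit 307) (nat_lit 158)))) (XT.nd (nat_lit 156) (nat_lit 0) (nat_lit 76) (XT.nd (nat_lit 78) (nat_lit 0) (nat_lit 0) (XT.lf (nat_lit 0) (nat_lit 4319805319)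 (nat_lit 1672) (nat_lit 9806053403) (nat_lit 1748) (nat_lit 4855753133) (nat_lit 345) (nat_lit 5) (nat_lit 367) (nat_lit 5) (nat_lit 368) (nat_lit 5) (nat_lit 316) (nat_lit 307) (nat_lit 157)) (XT.lf (nat_lit 76) (nat_lit 3265538221) (nat_lit 0) (nat_lit 2403253652) (nat_lit 1748) (nat_lit 13609402446) (nat_lit 346) (nat_lit 5) (nat_lit 345) (nat_lit 5) (nat_lit 368) (nat_lit 5) (nat_lit 317) (nat_lit 307) (nat_lit 156))) (XT.nd (nat_lit 78) (nat_lit 0) (nat_lit 76) (XT.lf (nat_lit 0) (nat_lit 7177626780) (nat_lit 1672) (nat_lit 2789545556) (nat_lit 1748) (nat_lit 9614124804) (nat_lit 346) (nat_lit 5) (nat_lit 368) (nat_lit 5) (nat_lit 369) (nat_lit 5) (nat_lit 318) (nat_lit 307) (nat_lit 155)) (XT.lf (nat_lit 0) (nat_lit 8822800688) (nat_lit 1672) (nat_lit 8955315946) (nat_lit 1748) (nat_lit 2113565084) (nat_lit 347) (nat_lit 5) (nat_lit 369) (nat_lit 5) (nat_lit 370) (nat_lit 5) (nat_lit 319)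 (nat_lit 307) (nat_lit 154))))))) (XT.nd (nat_lit 1014) (nat_lit 6080) (nat_lit 0) (XT.nd (nat_lit 468) (nat_lit 4180) (nat_lit 0) (XT.nd (nat_lit 234) (nat_lit 1520) (nat_lit 0) (XT.nd (nat_lit 78) (nat_lit 0) (nat_lit 76) (XT.lf (nat_lit 76) (nat_lit 4891247470) (nat_lit 0) (nat_lit 5733783497) (nat_lit 1748) (nat_lit 9584202700) (nat_lit 348) (nat_lit 5) (nat_lit 347) (nat_lit 5) (nat_lit 370) (nat_lit 5) (nat_lit 320) (nat_lit 307) (nat_lit 153)) (XT.nd (nat_lit 78) (nat_lit 0) (nat_lit 0) (XT.lf (nat_lit 0) (nat_lit 12576244690) (nat_lit 1672) (nat_lit 1310484400) (nat_lit 1748) (nat_lit 6647694324) (nat_lit 348) (nat_lit 5) (nat_lit 370) (nat_lit 5) (nat_lit 371) (nat_lit 5) (nat_lit 321) (nat_lit 307) (nat_lit 152)) (XT.lf (nat_lit 76) (nat_lit 13245375401) (nat_lit 0) (nat_lit 1455750212) (nat_lit 1748) (nat_lit 6165949915) (nat_lit 349) (nat_lit 5) (nat_lit 348) (nat_lit 5) (nat_lit 371)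 (nat_lit 5) (nat_lit 322) (nat_lit 307) (nat_lit 151)))) (XT.nd (nat_lit 78) (nat_lit 1672) (nat_lit 0) (XT.lf (nat_lit 76) (nat_lit 7057823878) (nat_lit 0) (nat_lit 9951394859) (nat_lit 1748) (nat_lit 4198108172) (nat_lit 350) (nat_lit 5) (nat_lit 349) (nat_lit 5) (nat_lit 372) (nat_lit 5) (nat_lit 323) (nat_lit 307) (nat_lit 150)) (XT.nd (nat_lit 78) (nat_lit 76) (nat_lit 0) (XT.lf (nat_lit 0) (nat_lit 699070574) (nat_lit 1672) (nat_lit 18762926233) (nat_lit 1748) (nat_lit 2094288940) (nat_lit 328) (nat_lit 5) (nat_lit 350) (nat_lit 5) (nat_lit 351) (nat_lit 5) (nat_lit 324) (nat_lit 307) (nat_lit 149)) (XT.lf (nat_lit 0) (nat_lit 226148373) (nat_lit 1748) (nat_lit 5802069499) (nat_lit 76) (nat_lit 15884405255) (nat_lit 327) (nat_lit 5) (nat_lit 350) (nat_lit 5) (nat_lit 328) (nat_lit 5) (nat_lit 325) (nat_lit 307) (nat_lit 148))))) (XT.nd (nat_lit 234) (nat_lit 2356) (nat_lit 0) (XT.nd (nat_lit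 78) (nat_lit 836) (nat_lit 0) (XT.lf (nat_lit 0) (nat_lit 2689802216) (nat_lit 1064) (nat_lit 12512587352) (nat_lit 76) (nat_lit 7074951157) (nat_lit 314) (nat_lit 5) (nat_lit 328) (nat_lit 5) (nat_lit 315) (nat_lit 5) (nat_lit 326) (nat_lit 307) (nat_lit 147)) (XT.nd (nat_lit 78) (nat_lit 0) (nat_lit 0) (XT.lf (nat_lit 0) (nat_lit 3220200957) (nat_lit 836) (nat_lit 2099808622) (nat_lit 912) (nat_lit 17331145251) (nat_lit 303) (nat_lit 5) (nat_lit 314) (nat_lit 5) (nat_lit 315) (nat_lit 5) (nat_lit 327) (nat_lit 307) (nat_lit 146)) (XT.lf (nat_lit 0) (nat_lit 8180505808) (nat_lit 912) (nat_lit 3520091945) (nat_lit 76) (nat_lit 11332565580) (nat_lit 303) (nat_lit 5) (nat_lit 315) (nat_lit 5) (nat_lit 304) (nat_lit 5) (nat_lit 328) (nat_lit 307) (nat_lit 145)))) (XT.nd (nat_lit 156) (nat_lit 760) (nat_lit 0) (XT.nd (nat_lit 78) (nat_lit 760) (nat_lit 0) (XT.lf (nat_lit 0) (nat_lit 11229340090) (nat_lit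 912) (nat_lit 10418814928) (nat_lit 76) (nat_lit 1776434015) (nat_lit 292) (nat_lit 5) (nat_lit 304) (nat_lit 5) (nat_lit 293) (nat_lit 5) (nat_lit 329) (nat_lit 307) (nat_lit 144)) (XT.lf (nat_lit 0) (nat_lit 6244679492) (nat_lit 760) (nat_lit 8260220526) (nat_lit 836) (nat_lit 9320159466) (nat_lit 282) (nat_lit 5) (nat_lit 292) (nat_lit 5) (nat_lit 293) (nat_lit 5) (nat_lit 330) (nat_lit 307) (nat_lit 143))) (XT.nd (nat_lit 78) (nat_lit 760) (nat_lit 0) (XT.lf (nat_lit 0) (nat_lit 17978329785) (nat_lit 836) (nat_lit 728982354) (nat_lit 76) (nat_lit 5528246829) (nat_lit 282) (nat_lit 5) (nat_lit 293) (nat_lit 5) (nat_lit 283) (nat_lit 5) (nat_lit 331) (nat_lit 307) (nat_lit 142)) (XT.lf (nat_lit 0) (nat_lit 16785900887) (nat_lit 760) (nat_lit 4927135138) (nat_lit 836) (nat_lit 2942202717) (nat_lit 272) (nat_lit 5) (nat_lit 282) (nat_lit 5) (nat_lit 283) (nat_lit 5) (nat_lit 332) (nat_lit 307)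 (nat_lit 141)))))) (XT.nd (nat_lit 468) (nat_lit 3192) (nat_lit 0) (XT.nd (nat_lit 234) (nat_lit 1368) (nat_lit 0) (XT.nd (nat_lit 78) (nat_lit 760) (nat_lit 0) (XT.lf (nat_lit 0) (nat_lit 588725484) (nat_lit 760) (nat_lit 15278686961) (nat_lit 76) (nat_lit 9217588691) (nat_lit 262) (nat_lit 5) (nat_lit 272) (nat_lit 5) (nat_lit 263) (nat_lit 5) (nat_lit 333) (nat_lit 307) (nat_lit 140)) (XT.nd (nat_lit 78) (nat_lit 0) (nat_lit 0) (XT.lf (nat_lit 0) (nat_lit 2567066284) (nat_lit 760) (nat_lit 1715185946) (nat_lit 836) (nat_lit 21243088602) (nat_lit 252) (nat_lit 5) (nat_lit 262) (nat_lit 5) (nat_lit 263) (nat_lit 5) (nat_lit 334) (nat_lit 307) (nat_lit 139)) (XT.lf (nat_lit 0) (nat_lit 8267585064) (nat_lit 836) (nat_lit 4910693819) (nat_lit 76) (nat_lit 12796997911) (nat_lit 252) (nat_lit 5) (nat_lit 263) (nat_lit 5) (nat_lit 253) (nat_lit 5) (nat_lit 335) (nat_lit 307) (nat_lit 138)))) (XT.nd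 (nat_lit 78) (nat_lit 684) (nat_lit 0) (XT.lf (nat_lit 0) (nat_lit 12476210723) (nat_lit 760) (nat_lit 12604171497) (nat_lit 76) (nat_lit 1356259862) (nat_lit 243) (nat_lit 5) (nat_lit 253) (nat_lit 5) (nat_lit 244) (nat_lit 5) (nat_lit 336) (nat_lit 307) (nat_lit 137)) (XT.nd (nat_lit 78) (nat_lit 0) (nat_lit 0) (XT.lf (nat_lit 0) (nat_lit 6281166822) (nat_lit 684) (nat_lit 10685951451) (nat_lit 760) (nat_lit 9941615325) (nat_lit 234) (nat_lit 5) (nat_lit 243) (nat_lit 5) (nat_lit 244) (nat_lit 5) (nat_lit 337) (nat_lit 307) (nat_lit 136)) (XT.lf (nat_lit 0) (nat_lit 21699365270) (nat_lit 760) (nat_lit 1521978224) (nat_lit 76) (nat_lit 4171517686) (nat_lit 234) (nat_lit 5) (nat_lit 244) (nat_lit 5) (nat_lit 235) (nat_lit 5) (nat_lit 338) (nat_lit 307) (nat_lit 135))))) (XT.nd (nat_lit 234) (nat_lit 1216) (nat_lit 0) (XT.nd (nat_lit 78) (nat_lit 1368) (nat_lit 0) (XT.lf (nat_lit 0) (nat_lit 18318927209)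 (nat_lit 608) (nat_lit 8438989768) (nat_lit 684) (nat_lit 1129914270) (nat_lit 226) (nat_lit 5) (nat_lit 234) (nat_lit 5) (nat_lit 235) (nat_lit 5) (nat_lit 339) (nat_lit 307) (nat_lit 134)) (XT.nd (nat_lit 78) (nat_lit 608) (nat_lit 0) (XT.lf (nat_lit 0) (nat_lit 3640970801) (nat_lit 760) (nat_lit 17954372462) (nat_lit 76) (nat_lit 6799504149) (nat_lit 216) (nat_lit 5) (nat_lit 226) (nat_lit 5) (nat_lit 217) (nat_lit 5) (nat_lit 340) (nat_lit 307) (nat_lit 133)) (XT.lf (nat_lit 0) (nat_lit 2223446892) (nat_lit 608) (nat_lit 6446568627) (nat_lit 684) (nat_lit 20244306478) (nat_lit 208) (nat_lit 5) (nat_lit 216) (nat_lit 5) (nat_lit 217) (nat_lit 5) (nat_lit 341) (nat_lit 307) (nat_lit 132)))) (XT.nd (nat_lit 156) (nat_lit 608) (nat_lit 0) (XT.nd (nat_lit 78) (nat_lit 608) (nat_lit 0) (XT.lf (nat_lit 0) (nat_lit 14026129656) (nat_lit 684) (nat_lit 6261479542) (nat_lit 76) (nat_lit 9158252507) (nat_lit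 208) (nat_lit 5) (nat_lit 217) (nat_lit 5) (nat_lit 209) (nat_lit 5) (nat_lit 342) (nat_lit 307) (nat_lit 131)) (XT.lf (nat_lit 0) (nat_lit 14927012395) (nat_lit 608) (nat_lit 4750385330) (nat_lit 684) (nat_lit 10313265175) (nat_lit 200) (nat_lit 5) (nat_lit 208) (nat_lit 5) (nat_lit 209) (nat_lit 5) (nat_lit 343) (nat_lit 307) (nat_lit 130))) (XT.nd (nat_lit 78) (nat_lit 76) (nat_lit 0) (XT.lf (nat_lit 0) (nat_lit 6288593326) (nat_lit 532) (nat_lit 19360770821) (nat_lit 608) (nat_lit 4899425347) (nat_lit 193) (nat_lit 5) (nat_lit 200) (nat_lit 5) (nat_lit 201) (nat_lit 5) (nat_lit 344) (nat_lit 307) (nat_lit 129)) (XT.lf (nat_lit 0) (nat_lit 797108780) (nat_lit 608) (nat_lit 2677277393) (nat_lit 76) (nat_lit 27646607057) (nat_lit 192) (nat_lit 5) (nat_lit 200) (nat_lit 5) (nat_lit 193) (nat_lit 5) (nat_lit 345) (nat_lit 307) (nat_lit 128))))))))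
noncomputable def xc118 : XT := (XT.nd (nat_lit 39468) (nat_lit 0) (nat_lit 532) (XT.nd (nat_lit 38454) (nat_lit 0) (nat_lit 9272) (XT.nd (nat_lit 37908) (nat_lit 0) (nat_lit 13072) (XT.nd (nat_lit 37674) (nat_lit 0) (nat_lit 14592) (XT.nd (nat_lit 78) (nat_lit 1064) (nat_lit 0) (XT.lf (nat_lit 0) (nat_lit 6806270761) (nat_lit 684) (nat_lit 12018525288) (nat_lit 76) (nat_lit 12880757631) (nat_lit 184) (nat_lit 5) (nat_lit 193) (nat_lit 5) (nat_lit 185) (nat_lit 5) (nat_lit 346) (nat_lit 307) (nat_lit 127)) (XT.nd (nat_lit 78) (nat_lit 532) (nat_lit 0) (XT.lf (nat_lit 0) (nat_lit 10560540718) (nat_lit 532) (nat_lit 2540127166) (nat_lit 608) (nat_lit 19204887953) (nat_lit 177) (nat_lit 5) (nat_lit 184) (nat_lit 5) (nat_lit 185) (nat_lit 5) (nat_lit 347) (nat_lit 307) (nat_lit 126)) (XT.lf (nat_lit 0) (nat_lit 973148582) (nat_lit 532) (nat_lit 18786456667) (nat_lit 608) (nat_lit 13160442623) (nat_lit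 170) (nat_lit 5) (nat_lit 177) (nat_lit 5) (nat_lit 178) (nat_lit 5) (nat_lit 348) (nat_lit 307) (nat_lit 125)))) (XT.nd (nat_lit 78) (nat_lit 0) (nat_lit 0) (XT.lf (nat_lit 0) (nat_lit 3775552525) (nat_lit 0) (nat_lit 3775552525) (nat_lit 1596) (nat_lit 990809740) (nat_lit 362) (nat_lit 5) (nat_lit 362) (nat_lit 3) (nat_lit 383) (nat_lit 3) (nat_lit 308) (nat_lit 308) (nat_lit 164)) (XT.nd (nat_lit 78) (nat_lit 0) (nat_lit 0) (XT.lf (nat_lit 76) (nat_lit 1787065155) (nat_lit 0) (nat_lit 13894795729) (nat_lit 1672) (nat_lit 1650827670) (nat_lit 363) (nat_lit 5) (nat_lit 362) (nat_lit 5) (nat_lit 384) (nat_lit 5) (nat_lit 309) (nat_lit 308) (nat_lit 163)) (XT.lf (nat_lit 76) (nat_lit 13519151738) (nat_lit 0) (nat_lit 2862060401) (nat_lit 1672) (nat_lit 1205768057) (nat_lit 363) (nat_lit 5) (nat_lit 362) (nat_lit 5) (nat_lit 384) (nat_lit 5) (nat_lit 310) (nat_lit 308) (nat_lit 162))))) (XT.nd (nat_lit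 234) (nat_lit 0) (nat_lit 76) (XT.nd (nat_lit 78) (nat_lit 1596) (nat_lit 0) (XT.lf (nat_lit 76) (nat_lit 7794617507) (nat_lit 0) (nat_lit 9400680931) (nat_lit 1672) (nat_lit 651739793) (nat_lit 364) (nat_lit 5) (nat_lit 363) (nat_lit 5) (nat_lit 385) (nat_lit 5) (nat_lit 311) (nat_lit 308) (nat_lit 161)) (XT.nd (nat_lit 78) (nat_lit 1672) (nat_lit 0) (XT.lf (nat_lit 76) (nat_lit 1941047512) (nat_lit 0) (nat_lit 16153014024) (nat_lit 1672) (nat_lit 19643752) (nat_lit 365) (nat_lit 5) (nat_lit 364) (nat_lit 5) (nat_lit 386) (nat_lit 5) (nat_lit 312) (nat_lit 308) (nat_lit 160)) (XT.lf (nat_lit 0) (nat_lit 743069536) (nat_lit 1672) (nat_lit 4029445143) (nat_lit 1748) (nat_lit 13613388747) (nat_lit 342) (nat_lit 5) (nat_lit 364) (nat_lit 5) (nat_lit 365) (nat_lit 5) (nat_lit 313) (nat_lit 308) (nat_lit 159)))) (XT.nd (nat_lit 156) (nat_lit 0) (nat_lit 76) (XT.nd (nat_lit 78) (nat_lit 0) (nat_lit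 0) (XT.lf (nat_lit 0) (nat_lit 1618483706) (nat_lit 1672) (nat_lit 10127128382) (nat_lit 1748) (nat_lit 6918862521) (nat_lit 343) (nat_lit 5) (nat_lit 365) (nat_lit 5) (nat_lit 366) (nat_lit 5) (nat_lit 314) (nat_lit 308) (nat_lit 158)) (XT.lf (nat_lit 76) (nat_lit 2580302606) (nat_lit 0) (nat_lit 5156553) (nat_lit 1748) (nat_lit 16364648886) (nat_lit 344) (nat_lit 5) (nat_lit 343) (nat_lit 5) (nat_lit 366) (nat_lit 5) (nat_lit 315) (nat_lit 308) (nat_lit 157))) (XT.nd (nat_lit 78) (nat_lit 0) (nat_lit 76) (XT.lf (nat_lit 0) (nat_lit 3718444383) (nat_lit 1672) (nat_lit 3521311863) (nat_lit 1748) (nat_lit 12001824998) (nat_lit 344) (nat_lit 5) (nat_lit 366) (nat_lit 5) (nat_lit 367) (nat_lit 5) (nat_lit 316) (nat_lit 308) (nat_lit 156)) (XT.lf (nat_lit 0) (nat_lit 4970842571) (nat_lit 1672) (nat_lit 9737748854) (nat_lit 1748) (nat_lit 4831509201) (nat_lit 345) (nat_lit 5) (nat_lit 367) (nat_lit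 5) (nat_lit 368) (nat_lit 5) (nat_lit 317) (nat_lit 308) (nat_lit 155)))))) (XT.nd (nat_lit 468) (nat_lit 4028) (nat_lit 0) (XT.nd (nat_lit 234) (nat_lit 0) (nat_lit 152) (XT.nd (nat_lit 78) (nat_lit 0) (nat_lit 76) (XT.lf (nat_lit 76) (nat_lit 3720109610) (nat_lit 0) (nat_lit 2627316767) (nat_lit 1748) (nat_lit 13498427094) (nat_lit 346) (nat_lit 5) (nat_lit 345) (nat_lit 5) (nat_lit 368) (nat_lit 5) (nat_lit 318) (nat_lit 308) (nat_lit 154)) (XT.nd (nat_lit 78) (nat_lit 0) (nat_lit 76) (XT.lf (nat_lit 0) (nat_lit 7885755668) (nat_lit 1672) (nat_lit 2515679901) (nat_lit 1748) (nat_lit 9756944228) (nat_lit 346) (nat_lit 5) (nat_lit 368) (nat_lit 5) (nat_lit 369) (nat_lit 5) (nat_lit 319) (nat_lit 308) (nat_lit 153)) (XT.lf (nat_lit 0) (nat_lit 9567377775) (nat_lit 1672) (nat_lit 8861286546) (nat_lit 1748) (nat_lit 2049684303) (nat_lit 347) (nat_lit 5) (nat_lit 369) (nat_lit 5) (nat_lit 370) (nat_lit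 5) (nat_lit 320) (nat_lit 308) (nat_lit 152)))) (XT.nd (nat_lit 78) (nat_lit 0) (nat_lit 76) (XT.lf (nat_lit 76) (nat_lit 5394789576) (nat_lit 0) (nat_lit 6017224531) (nat_lit 1748) (nat_lit 9393660387) (nat_lit 348) (nat_lit 5) (nat_lit 347) (nat_lit 5) (nat_lit 370) (nat_lit 5) (nat_lit 321) (nat_lit 308) (nat_lit 151)) (XT.nd (nat_lit 78) (nat_lit 0) (nat_lit 0) (XT.lf (nat_lit 0) (nat_lit 13407424020) (nat_lit 1672) (nat_lit 993134537) (nat_lit 1748) (nat_lit 6740361914) (nat_lit 348) (nat_lit 5) (nat_lit 370) (nat_lit 5) (nat_lit 371) (nat_lit 5) (nat_lit 322) (nat_lit 308) (nat_lit 150)) (XT.lf (nat_lit 76) (nat_lit 13993614602) (nat_lit 0) (nat_lit 1591494746) (nat_lit 1748) (nat_lit 5898674975) (nat_lit 349) (nat_lit 5) (nat_lit 348) (nat_lit 5) (nat_lit 371) (nat_lit 5) (nat_lit 323) (nat_lit 308) (nat_lit 149))))) (XT.nd (nat_lit 234) (nat_lit 2660) (nat_lit 0) (XT.nd (nat_lit 78) (nat_lit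 1672) (nat_lit 0) (XT.lf (nat_lit 76) (nat_lit 7624484582) (nat_lit 0) (nat_lit 10326783263) (nat_lit 1748) (nat_lit 3883211895) (nat_lit 350) (nat_lit 5) (nat_lit 349) (nat_lit 5) (nat_lit 372) (nat_lit 5) (nat_lit 324) (nat_lit 308) (nat_lit 148)) (XT.nd (nat_lit 78) (nat_lit 76) (nat_lit 0) (XT.lf (nat_lit 0) (nat_lit 1078621145) (nat_lit 1672) (nat_lit 19388275934) (nat_lit 1748) (nat_lit 1727237476) (nat_lit 328) (nat_lit 5) (nat_lit 350) (nat_lit 5) (nat_lit 351) (nat_lit 5) (nat_lit 325) (nat_lit 308) (nat_lit 147)) (XT.lf (nat_lit 0) (nat_lit 644818433) (nat_lit 1748) (nat_lit 5622124642) (nat_lit 76) (nat_lit 16294422256) (nat_lit 327) (nat_lit 5) (nat_lit 350) (nat_lit 5) (nat_lit 328) (nat_lit 5) (nat_lit 326) (nat_lit 308) (nat_lit 146)))) (XT.nd (nat_lit 156) (nat_lit 836) (nat_lit 0) (XT.nd (nat_lit 78) (nat_lit 836) (nat_lit 0) (XT.lf (nat_lit 0) (nat_lit 3172296514) (nat_lit 1064)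 (nat_lit 12530921340) (nat_lit 76) (nat_lit 7234019924) (nat_lit 314) (nat_lit 5) (nat_lit 328) (nat_lit 5) (nat_lit 315) (nat_lit 5) (nat_lit 327) (nat_lit 308) (nat_lit 145)) (XT.lf (nat_lit 0) (nat_lit 3668058009) (nat_lit 836) (nat_lit 2203929724) (nat_lit 912) (nat_lit 17450478297) (nat_lit 303) (nat_lit 5) (nat_lit 314) (nat_lit 5) (nat_lit 315) (nat_lit 5) (nat_lit 328) (nat_lit 308) (nat_lit 144))) (XT.nd (nat_lit 78) (nat_lit 836) (nat_lit 0) (XT.lf (nat_lit 0) (nat_lit 8806611122) (nat_lit 912) (nat_lit 3276431120) (nat_lit 76) (nat_lit 11633137249) (nat_lit 303) (nat_lit 5) (nat_lit 315) (nat_lit 5) (nat_lit 304) (nat_lit 5) (nat_lit 329) (nat_lit 308) (nat_lit 143)) (XT.lf (nat_lit 0) (nat_lit 11937869907) (nat_lit 912) (nat_lit 10379807887) (nat_lit 76) (nat_lit 1801861610) (nat_lit 292) (nat_lit 5) (nat_lit 304) (nat_lit 5) (nat_lit 293) (nat_lit 5) (nat_lit 330) (nat_lit 308) (nat_lit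 142))))))) (XT.nd (nat_lit 1014) (nat_lit 2356) (nat_lit 0) (XT.nd (nat_lit 468) (nat_lit 3344) (nat_lit 0) (XT.nd (nat_lit 234) (nat_lit 1520) (nat_lit 0) (XT.nd (nat_lit 78) (nat_lit 760) (nat_lit 0) (XT.lf (nat_lit 0) (nat_lit 6777887536) (nat_lit 760) (nat_lit 8525229952) (nat_lit 836) (nat_lit 9229088381) (nat_lit 282) (nat_lit 5) (nat_lit 292) (nat_lit 5) (nat_lit 293) (nat_lit 5) (nat_lit 331) (nat_lit 308) (nat_lit 141)) (XT.nd (nat_lit 78) (nat_lit 760) (nat_lit 0) (XT.lf (nat_lit 0) (nat_lit 18870066841) (nat_lit 836) (nat_lit 407565659) (nat_lit 76) (nat_lit 5677611523) (nat_lit 282) (nat_lit 5) (nat_lit 293) (nat_lit 5) (nat_lit 283) (nat_lit 5) (nat_lit 332) (nat_lit 308) (nat_lit 140)) (XT.lf (nat_lit 0) (nat_lit 17627194669) (nat_lit 760) (nat_lit 5081548577) (nat_lit 836) (nat_lit 2678942092) (nat_lit 272) (nat_lit 5) (nat_lit 282) (nat_lit 5) (nat_lit 283) (nat_lit 5) (nat_lit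 333) (nat_lit 308) (nat_lit 139)))) (XT.nd (nat_lit 78) (nat_lit 760) (nat_lit 0) (XT.lf (nat_lit 0) (nat_lit 945375413) (nat_lit 760) (nat_lit 15392860531) (nat_lit 76) (nat_lit 9492226836) (nat_lit 262) (nat_lit 5) (nat_lit 272) (nat_lit 5) (nat_lit 263) (nat_lit 5) (nat_lit 334) (nat_lit 308) (nat_lit 138)) (XT.nd (nat_lit 78) (nat_lit 0) (nat_lit 0) (XT.lf (nat_lit 0) (nat_lit 2982681285) (nat_lit 760) (nat_lit 1759351670) (nat_lit 836) (nat_lit 21542142201) (nat_lit 252) (nat_lit 5) (nat_lit 262) (nat_lit 5) (nat_lit 263) (nat_lit 5) (nat_lit 335) (nat_lit 308) (nat_lit 137)) (XT.lf (nat_lit 0) (nat_lit 8837321829) (nat_lit 836) (nat_lit 4722595621) (nat_lit 76) (nat_lit 13187892554) (nat_lit 252) (nat_lit 5) (nat_lit 263) (nat_lit 5) (nat_lit 253) (nat_lit 5) (nat_lit 336) (nat_lit 308) (nat_lit 136))))) (XT.nd (nat_lit 234) (nat_lit 1976) (nat_lit 0) (XT.nd (nat_lit 78) (nat_lit 684) (nat_lit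 0) (XT.lf (nat_lit 0) (nat_lit 13165079126) (nat_lit 760) (nat_lit 12645847947) (nat_lit 76) (nat_lit 1412240193) (nat_lit 243) (nat_lit 5) (nat_lit 253) (nat_lit 5) (nat_lit 244) (nat_lit 5) (nat_lit 337) (nat_lit 308) (nat_lit 135)) (XT.nd (nat_lit 78) (nat_lit 0) (nat_lit 0) (XT.lf (nat_lit 0) (nat_lit 6800592041) (nat_lit 684) (nat_lit 10983108285) (nat_lit 760) (nat_lit 9925869700) (nat_lit 234) (nat_lit 5) (nat_lit 243) (nat_lit 5) (nat_lit 244) (nat_lit 5) (nat_lit 338) (nat_lit 308) (nat_lit 134)) (XT.lf (nat_lit 0) (nat_lit 22649104066) (nat_lit 760) (nat_lit 1240197060) (nat_lit 76) (nat_lit 4319104508) (nat_lit 234) (nat_lit 5) (nat_lit 244) (nat_lit 5) (nat_lit 235) (nat_lit 5) (nat_lit 339) (nat_lit 308) (nat_lit 133)))) (XT.nd (nat_lit 156) (nat_lit 608) (nat_lit 0) (XT.nd (nat_lit 78) (nat_lit 760) (nat_lit 0) (XT.lf (nat_lit 0) (nat_lit 19190623203) (nat_lit 608) (nat_lit 8662178907)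 (nat_lit 684) (nat_lit 865562652) (nat_lit 226) (nat_lit 5) (nat_lit 234) (nat_lit 5) (nat_lit 235) (nat_lit 5) (nat_lit 340) (nat_lit 308) (nat_lit 132)) (XT.lf (nat_lit 0) (nat_lit 4038263824) (nat_lit 760) (nat_lit 18166216428) (nat_lit 76) (nat_lit 7036205283) (nat_lit 216) (nat_lit 5) (nat_lit 226) (nat_lit 5) (nat_lit 217) (nat_lit 5) (nat_lit 341) (nat_lit 308) (nat_lit 131))) (XT.nd (nat_lit 78) (nat_lit 0) (nat_lit 0) (XT.lf (nat_lit 0) (nat_lit 2611635772) (nat_lit 608) (nat_lit 6600241198) (nat_lit 684) (nat_lit 20564000612) (nat_lit 208) (nat_lit 5) (nat_lit 216) (nat_lit 5) (nat_lit 217) (nat_lit 5) (nat_lit 342) (nat_lit 308) (nat_lit 130)) (XT.lf (nat_lit 0) (nat_lit 14720718306) (nat_lit 684) (nat_lit 6131749530) (nat_lit 76) (nat_lit 9471061727) (nat_lit 208) (nat_lit 5) (nat_lit 217) (nat_lit 5) (nat_lit 209) (nat_lit 5) (nat_lit 343) (nat_lit 308) (nat_lit 129)))))) (XT.nd (nat_lit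 37986) (nat_lit 0) (nat_lit 12540) (XT.nd (nat_lit 234) (nat_lit 1140) (nat_lit 0) (XT.nd (nat_lit 78) (nat_lit 608) (nat_lit 0) (XT.lf (nat_lit 0) (nat_lit 15687244898) (nat_lit 608) (nat_lit 4848333075) (nat_lit 684) (nat_lit 10349222504) (nat_lit 200) (nat_lit 5) (nat_lit 208) (nat_lit 5) (nat_lit 209) (nat_lit 5) (nat_lit 344) (nat_lit 308) (nat_lit 128)) (XT.nd (nat_lit 78) (nat_lit 76) (nat_lit 0) (XT.lf (nat_lit 0) (nat_lit 6789811679) (nat_lit 532) (nat_lit 19891400270) (nat_lit 608) (nat_lit 4778575306) (nat_lit 193) (nat_lit 5) (nat_lit 200) (nat_lit 5) (nat_lit 201) (nat_lit 5) (nat_lit 345) (nat_lit 308) (nat_lit 127)) (XT.lf (nat_lit 0) (nat_lit 1077643526) (nat_lit 608) (nat_lit 2450520443) (nat_lit 76) (nat_lit 28521118570) (nat_lit 192) (nat_lit 5) (nat_lit 200) (nat_lit 5) (nat_lit 193) (nat_lit 5) (nat_lit 346) (nat_lit 308) (nat_lit 126)))) (XT.nd (nat_lit 78) (nat_lit 532)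 (nat_lit 0) (XT.lf (nat_lit 0) (nat_lit 7261898372) (nat_lit 684) (nat_lit 12072094566) (nat_lit 76) (nat_lit 13317496563) (nat_lit 184) (nat_lit 5) (nat_lit 193) (nat_lit 5) (nat_lit 185) (nat_lit 5) (nat_lit 347) (nat_lit 308) (nat_lit 125)) (XT.nd (nat_lit 37596) (nat_lit 0) (nat_lit 14060) (XT.lf (nat_lit 0) (nat_lit 11179362929) (nat_lit 532) (nat_lit 2560401823) (nat_lit 608) (nat_lit 19529840108) (nat_lit 177) (nat_lit 5) (nat_lit 184) (nat_lit 5) (nat_lit 185) (nat_lit 5) (nat_lit 348) (nat_lit 308) (nat_lit 124)) (XT.lf (nat_lit 0) (nat_lit 4046772736) (nat_lit 0) (nat_lit 4046772736) (nat_lit 1596) (nat_lit 697975730) (nat_lit 362) (nat_lit 5) (nat_lit 362) (nat_lit 3) (nat_lit 383) (nat_lit 3) (nat_lit 309) (nat_lit 309) (nat_lit 162))))) (XT.nd (nat_lit 234) (nat_lit 1520) (nat_lit 0) (XT.nd (nat_lit 78) (nat_lit 0) (nat_lit 0) (XT.lf (nat_lit 76) (nat_lit 2166563217) (nat_lit 0) (nat_lit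 14599290197) (nat_lit 1672) (nat_lit 1073898681) (nat_lit 363) (nat_lit 5) (nat_lit 362) (nat_lit 5) (nat_lit 384) (nat_lit 5) (nat_lit 310) (nat_lit 309) (nat_lit 161)) (XT.nd (nat_lit 78) (nat_lit 0) (nat_lit 76) (XT.lf (nat_lit 76) (nat_lit 14241120569) (nat_lit 0) (nat_lit 3227194636) (nat_lit 1672) (nat_lit 633733507) (nat_lit 363) (nat_lit 5) (nat_lit 362) (nat_lit 5) (nat_lit 384) (nat_lit 5) (nat_lit 311) (nat_lit 309) (nat_lit 160)) (XT.lf (nat_lit 76) (nat_lit 8353838424) (nat_lit 0) (nat_lit 9935988343) (nat_lit 1672) (nat_lit 80439947) (nat_lit 364) (nat_lit 5) (nat_lit 363) (nat_lit 5) (nat_lit 385) (nat_lit 5) (nat_lit 312) (nat_lit 309) (nat_lit 159)))) (XT.nd (nat_lit 156) (nat_lit 0) (nat_lit 76) (XT.nd (nat_lit 78) (nat_lit 0) (nat_lit 0) (XT.lf (nat_lit 0) (nat_lit 546725433) (nat_lit 1672) (nat_lit 16315888865) (nat_lit 1748) (nat_lit 1782590980) (nat_lit 342) (nat_lit 5) (nat_lit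 364) (nat_lit 5) (nat_lit 365) (nat_lit 5) (nat_lit 313) (nat_lit 309) (nat_lit 158)) (XT.lf (nat_lit 0) (nat_lit 1315549135) (nat_lit 1672) (nat_lit 3818467061) (nat_lit 1748) (nat_lit 13791897539) (nat_lit 342) (nat_lit 5) (nat_lit 364) (nat_lit 5) (nat_lit 365) (nat_lit 5) (nat_lit 314) (nat_lit 309) (nat_lit 157))) (XT.nd (nat_lit 78) (nat_lit 0) (nat_lit 0) (XT.lf (nat_lit 0) (nat_lit 2201958366) (nat_lit 1672) (nat_lit 10091830373) (nat_lit 1748) (nat_lit 6919375063) (nat_lit 343) (nat_lit 5) (nat_lit 365) (nat_lit 5) (nat_lit 366) (nat_lit 5) (nat_lit 315) (nat_lit 309) (nat_lit 156)) (XT.lf (nat_lit 76) (nat_lit 2991321858) (nat_lit 0) (nat_lit 193207044) (nat_lit 1748) (nat_lit 16323121543) (nat_lit 344) (nat_lit 5) (nat_lit 343) (nat_lit 5) (nat_lit 366) (nat_lit 5) (nat_lit 316) (nat_lit 309) (nat_lit 155))))))))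
noncomputable def xc119 : XT := (XT.nd (nat_lit 2028) (nat_lit 1824) (nat_lit 0) (XT.nd (nat_lit 1014) (nat_lit 6612) (nat_lit 0) (XT.nd (nat_lit 468) (nat_lit 3116) (nat_lit 0) (XT.nd (nat_lit 234) (nat_lit 0) (nat_lit 152) (XT.nd (nat_lit 78) (nat_lit 0) (nat_lit 76) (XT.lf (nat_lit 0) (nat_lit 4335129777) (nat_lit 1672) (nat_lit 3291231842) (nat_lit 1748) (nat_lit 12181849157) (nat_lit 344) (nat_lit 5) (nat_lit 366) (nat_lit 5) (nat_lit 367) (nat_lit 5) (nat_lit 317) (nat_lit 309) (nat_lit 154)) (XT.nd (nat_lit 78) (nat_lit 0) (nat_lit 0) (XT.lf (nat_lit 0) (nat_lit 5611477975) (nat_lit 1672) (nat_lit 9688203358) (nat_lit 1748) (nat_lit 4816291855) (nat_lit 345) (nat_lit 5) (nat_lit 367) (nat_lit 5) (nat_lit 368) (nat_lit 5) (nat_lit 318) (nat_lit 309) (nat_lit 153)) (XT.lf (nat_lit 76) (nat_lit 4167847542) (nat_lit 0) (nat_lit 2849378333) (nat_lit 1748) (nat_lit 13413929981) (nat_lit 346)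 (nat_lit 5) (nat_lit 345) (nat_lit 5) (nat_lit 368) (nat_lit 5) (nat_lit 319) (nat_lit 309) (nat_lit 152)))) (XT.nd (nat_lit 78) (nat_lit 0) (nat_lit 76) (XT.lf (nat_lit 0) (nat_lit 8586839682) (nat_lit 1672) (nat_lit 2254123225) (nat_lit 1748) (nat_lit 9912406518) (nat_lit 346) (nat_lit 5) (nat_lit 368) (nat_lit 5) (nat_lit 369) (nat_lit 5) (nat_lit 320) (nat_lit 309) (nat_lit 151)) (XT.nd (nat_lit 78) (nat_lit 0) (nat_lit 0) (XT.lf (nat_lit 0) (nat_lit 10306744349) (nat_lit 1672) (nat_lit 8785256089) (nat_lit 1748) (nat_lit 1991193934) (nat_lit 347) (nat_lit 5) (nat_lit 369) (nat_lit 5) (nat_lit 370) (nat_lit 5) (nat_lit 321) (nat_lit 309) (nat_lit 150)) (XT.lf (nat_lit 76) (nat_lit 5892955898) (nat_lit 0) (nat_lit 6302772400) (nat_lit 1748) (nat_lit 9224844886) (nat_lit 348) (nat_lit 5) (nat_lit 347) (nat_lit 5) (nat_lit 370) (nat_lit 5) (nat_lit 322) (nat_lit 309) (nat_lit 149))))) (XT.nd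 (nat_lit 234) (nat_lit 3420) (nat_lit 0) (XT.nd (nat_lit 78) (nat_lit 0) (nat_lit 0) (XT.lf (nat_lit 0) (nat_lit 14237483474) (nat_lit 1672) (nat_lit 686738173) (nat_lit 1748) (nat_lit 6841938179) (nat_lit 348) (nat_lit 5) (nat_lit 370) (nat_lit 5) (nat_lit 371) (nat_lit 5) (nat_lit 323) (nat_lit 309) (nat_lit 148)) (XT.nd (nat_lit 78) (nat_lit 0) (nat_lit 76) (XT.lf (nat_lit 76) (nat_lit 14744159150) (nat_lit 0) (nat_lit 1726026306) (nat_lit 1748) (nat_lit 5649342985) (nat_lit 349) (nat_lit 5) (nat_lit 348) (nat_lit 5) (nat_lit 371) (nat_lit 5) (nat_lit 324) (nat_lit 309) (nat_lit 147)) (XT.lf (nat_lit 76) (nat_lit 8187770904) (nat_lit 0) (nat_lit 10709022012) (nat_lit 1748) (nat_lit 3584174723) (nat_lit 350) (nat_lit 5) (nat_lit 349) (nat_lit 5) (nat_lit 372) (nat_lit 5) (nat_lit 325) (nat_lit 309) (nat_lit 146)))) (XT.nd (nat_lit 156) (nat_lit 1824) (nat_lit 0) (XT.nd (nat_lit 78) (nat_lit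 76) (nat_lit 0) (XT.lf (nat_lit 0) (nat_lit 1448974364) (nat_lit 1672) (nat_lit 20028800557) (nat_lit 1748) (nat_lit 1373851346) (nat_lit 328) (nat_lit 5) (nat_lit 350) (nat_lit 5) (nat_lit 351) (nat_lit 5) (nat_lit 326) (nat_lit 309) (nat_lit 145)) (XT.lf (nat_lit 0) (nat_lit 1052404676) (nat_lit 1748) (nat_lit 5457102885) (nat_lit 76) (nat_lit 16720558009) (nat_lit 327) (nat_lit 5) (nat_lit 350) (nat_lit 5) (nat_lit 328) (nat_lit 5) (nat_lit 327) (nat_lit 309) (nat_lit 144))) (XT.nd (nat_lit 78) (nat_lit 836) (nat_lit 0) (XT.lf (nat_lit 0) (nat_lit 3646200665) (nat_lit 1064) (nat_lit 12570301113) (nat_lit 76) (nat_lit 7400913491) (nat_lit 314) (nat_lit 5) (nat_lit 328) (nat_lit 5) (nat_lit 315) (nat_lit 5) (nat_lit 328) (nat_lit 309) (nat_lit 143)) (XT.lf (nat_lit 0) (nat_lit 4109187528) (nat_lit 836) (nat_lit 2308813610) (nat_lit 912) (nat_lit 17596387489) (nat_lit 303) (nat_lit 5) (nat_lit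 314) (nat_lit 5) (nat_lit 315) (nat_lit 5) (nat_lit 329) (nat_lit 309) (nat_lit 142)))))) (XT.nd (nat_lit 468) (nat_lit 3496) (nat_lit 0) (XT.nd (nat_lit 234) (nat_lit 1520) (nat_lit 0) (XT.nd (nat_lit 78) (nat_lit 1596) (nat_lit 0) (XT.lf (nat_lit 0) (nat_lit 9429646425) (nat_lit 912) (nat_lit 3045509629) (nat_lit 76) (nat_lit 11944988093) (nat_lit 303) (nat_lit 5) (nat_lit 315) (nat_lit 5) (nat_lit 304) (nat_lit 5) (nat_lit 330) (nat_lit 309) (nat_lit 141)) (XT.nd (nat_lit 78) (nat_lit 760) (nat_lit 0) (XT.lf (nat_lit 0) (nat_lit 12646321409) (nat_lit 912) (nat_lit 10359812276) (nat_lit 76) (nat_lit 1829651622) (nat_lit 292) (nat_lit 5) (nat_lit 304) (nat_lit 5) (nat_lit 293) (nat_lit 5) (nat_lit 331) (nat_lit 309) (nat_lit 140)) (XT.lf (nat_lit 0) (nat_lit 7307237603) (nat_lit 760) (nat_lit 8797202149) (nat_lit 836) (nat_lit 9156563475) (nat_lit 282) (nat_lit 5) (nat_lit 292) (nat_lit 5) (nat_lit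 293) (nat_lit 5) (nat_lit 332) (nat_lit 309) (nat_lit 139)))) (XT.nd (nat_lit 78) (nat_lit 1520) (nat_lit 0) (XT.lf (nat_lit 0) (nat_lit 19768327545) (nat_lit 836) (nat_lit 96212493) (nat_lit 76) (nat_lit 5832403333) (nat_lit 282) (nat_lit 5) (nat_lit 293) (nat_lit 5) (nat_lit 283) (nat_lit 5) (nat_lit 333) (nat_lit 309) (nat_lit 138)) (XT.nd (nat_lit 78) (nat_lit 760) (nat_lit 0) (XT.lf (nat_lit 0) (nat_lit 18474340941) (nat_lit 760) (nat_lit 5240215588) (nat_lit 836) (nat_lit 2427962720) (nat_lit 272) (nat_lit 5) (nat_lit 282) (nat_lit 5) (nat_lit 283) (nat_lit 5) (nat_lit 334) (nat_lit 309) (nat_lit 137)) (XT.lf (nat_lit 0) (nat_lit 1293265533) (nat_lit 760) (nat_lit 15530217053) (nat_lit 76) (nat_lit 9775212591) (nat_lit 262) (nat_lit 5) (nat_lit 272) (nat_lit 5) (nat_lit 263) (nat_lit 5) (nat_lit 335) (nat_lit 309) (nat_lit 136))))) (XT.nd (nat_lit 234) (nat_lit 2052) (nat_lit 0) (XT.nd (nat_lit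 78) (nat_lit 684) (nat_lit 0) (XT.lf (nat_lit 0) (nat_lit 3391327538) (nat_lit 760) (nat_lit 1805260833) (nat_lit 836) (nat_lit 21869583714) (nat_lit 252) (nat_lit 5) (nat_lit 262) (nat_lit 5) (nat_lit 263) (nat_lit 5) (nat_lit 336) (nat_lit 309) (nat_lit 135)) (XT.nd (nat_lit 78) (nat_lit 684) (nat_lit 0) (XT.lf (nat_lit 0) (nat_lit 9405683271) (nat_lit 836) (nat_lit 4548108901) (nat_lit 76) (nat_lit 13590113085) (nat_lit 252) (nat_lit 5) (nat_lit 263) (nat_lit 5) (nat_lit 253) (nat_lit 5) (nat_lit 337) (nat_lit 309) (nat_lit 134)) (XT.lf (nat_lit 0) (nat_lit 13856555283) (nat_lit 760) (nat_lit 12708088222) (nat_lit 76) (nat_lit 1469022080) (nat_lit 243) (nat_lit 5) (nat_lit 253) (nat_lit 5) (nat_lit 244) (nat_lit 5) (nat_lit 338) (nat_lit 309) (nat_lit 133)))) (XT.nd (nat_lit 156) (nat_lit 1368) (nat_lit 0) (XT.nd (nat_lit 78) (nat_lit 0) (nat_lit 0) (XT.lf (nat_lit 0) (nat_lit 7316599824) (nat_lit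 684) (nat_lit 11290524325) (nat_lit 760) (nat_lit 9927676251) (nat_lit 234) (nat_lit 5) (nat_lit 243) (nat_lit 5) (nat_lit 244) (nat_lit 5) (nat_lit 339) (nat_lit 309) (nat_lit 132)) (XT.lf (nat_lit 0) (nat_lit 23610185105) (nat_lit 760) (nat_lit 968758886) (nat_lit 76) (nat_lit 4469830713) (nat_lit 234) (nat_lit 5) (nat_lit 244) (nat_lit 5) (nat_lit 235) (nat_lit 5) (nat_lit 340) (nat_lit 309) (nat_lit 131))) (XT.nd (nat_lit 78) (nat_lit 760) (nat_lit 0) (XT.lf (nat_lit 0) (nat_lit 20069978601) (nat_lit 608) (nat_lit 8893784727) (nat_lit 684) (nat_lit 610401201) (nat_lit 226) (nat_lit 5) (nat_lit 234) (nat_lit 5) (nat_lit 235) (nat_lit 5) (nat_lit 341) (nat_lit 309) (nat_lit 130)) (XT.lf (nat_lit 0) (nat_lit 4430939591) (nat_lit 760) (nat_lit 18403174636) (nat_lit 76) (nat_lit 7278129419) (nat_lit 216) (nat_lit 5) (nat_lit 226) (nat_lit 5) (nat_lit 217) (nat_lit 5) (nat_lit 342) (nat_lit 309)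 (nat_lit 129))))))) (XT.nd (nat_lit 38688) (nat_lit 0) (nat_lit 8436) (XT.nd (nat_lit 38142) (nat_lit 0) (nat_lit 11324) (XT.nd (nat_lit 234) (nat_lit 608) (nat_lit 0) (XT.nd (nat_lit 78) (nat_lit 608) (nat_lit 0) (XT.lf (nat_lit 0) (nat_lit 2993015737) (nat_lit 608) (nat_lit 6760804293) (nat_lit 684) (nat_lit 20909796999) (nat_lit 208) (nat_lit 5) (nat_lit 216) (nat_lit 5) (nat_lit 217) (nat_lit 5) (nat_lit 343) (nat_lit 309) (nat_lit 128)) (XT.nd (nat_lit 78) (nat_lit 608) (nat_lit 0) (XT.lf (nat_lit 0) (nat_lit 15420427102) (nat_lit 684) (nat_lit 6016357686) (nat_lit 76) (nat_lit 9791070330) (nat_lit 208) (nat_lit 5) (nat_lit 217) (nat_lit 5) (nat_lit 209) (nat_lit 5) (nat_lit 344) (nat_lit 309) (nat_lit 127)) (XT.lf (nat_lit 0) (nat_lit 16452350068) (nat_lit 608) (nat_lit 4951777396) (nat_lit 684) (nat_lit 10401955164) (nat_lit 200) (nat_lit 5) (nat_lit 208) (nat_lit 5) (nat_lit 209) (nat_lit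 5) (nat_lit 345) (nat_lit 309) (nat_lit 126)))) (XT.nd (nat_lit 78) (nat_lit 76) (nat_lit 0) (XT.lf (nat_lit 0) (nat_lit 7288124329) (nat_lit 532) (nat_lit 20440829925) (nat_lit 608) (nat_lit 4669474461) (nat_lit 193) (nat_lit 5) (nat_lit 200) (nat_lit 5) (nat_lit 201) (nat_lit 5) (nat_lit 346) (nat_lit 309) (nat_lit 125)) (XT.nd (nat_lit 37752) (nat_lit 0) (nat_lit 12920) (XT.lf (nat_lit 0) (nat_lit 1351863191) (nat_lit 608) (nat_lit 2234588161) (nat_lit 76) (nat_lit 29419275740) (nat_lit 192) (nat_lit 5) (nat_lit 200) (nat_lit 5) (nat_lit 193) (nat_lit 5) (nat_lit 347) (nat_lit 309) (nat_lit 124)) (XT.lf (nat_lit 0) (nat_lit 4317062367) (nat_lit 0) (nat_lit 4317062367) (nat_lit 1596) (nat_lit 414872866) (nat_lit 362) (nat_lit 5) (nat_lit 362) (nat_lit 3) (nat_lit 383) (nat_lit 3) (nat_lit 310) (nat_lit 310) (nat_lit 160))))) (XT.nd (nat_lit 234) (nat_lit 0) (nat_lit 76) (XT.nd (nat_lit 78) (nat_lit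 1596) (nat_lit 0) (XT.lf (nat_lit 76) (nat_lit 2538739025) (nat_lit 0) (nat_lit 15308407177) (nat_lit 1672) (nat_lit 515622834) (nat_lit 363) (nat_lit 5) (nat_lit 362) (nat_lit 5) (nat_lit 384) (nat_lit 5) (nat_lit 311) (nat_lit 310) (nat_lit 159)) (XT.nd (nat_lit 78) (nat_lit 1596) (nat_lit 0) (XT.lf (nat_lit 76) (nat_lit 14966586139) (nat_lit 0) (nat_lit 3587251518) (nat_lit 1672) (nat_lit 79451524) (nat_lit 363) (nat_lit 5) (nat_lit 362) (nat_lit 5) (nat_lit 384) (nat_lit 5) (nat_lit 312) (nat_lit 310) (nat_lit 158)) (XT.lf (nat_lit 0) (nat_lit 467863905) (nat_lit 1672) (nat_lit 10001811749) (nat_lit 1748) (nat_lit 8440154169) (nat_lit 341) (nat_lit 5) (nat_lit 363) (nat_lit 5) (nat_lit 364) (nat_lit 5) (nat_lit 313) (nat_lit 310) (nat_lit 157)))) (XT.nd (nat_lit 156) (nat_lit 0) (nat_lit 76) (XT.nd (nat_lit 78) (nat_lit 0) (nat_lit 0) (XT.lf (nat_lit 0) (nat_lit 1097289830) (nat_lit 1672)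 (nat_lit 16483169963) (nat_lit 1748) (nat_lit 1612871749) (nat_lit 342) (nat_lit 5) (nat_lit 364) (nat_lit 5) (nat_lit 365) (nat_lit 5) (nat_lit 314) (nat_lit 310) (nat_lit 156)) (XT.lf (nat_lit 0) (nat_lit 1873620108) (nat_lit 1672) (nat_lit 3620209842) (nat_lit 1748) (nat_lit 13988958387) (nat_lit 342) (nat_lit 5) (nat_lit 364) (nat_lit 5) (nat_lit 365) (nat_lit 5) (nat_lit 315) (nat_lit 310) (nat_lit 155))) (XT.nd (nat_lit 78) (nat_lit 0) (nat_lit 0) (XT.lf (nat_lit 0) (nat_lit 2772230660) (nat_lit 1672) (nat_lit 10074939832) (nat_lit 1748) (nat_lit 6931788689) (nat_lit 343) (nat_lit 5) (nat_lit 365) (nat_lit 5) (nat_lit 366) (nat_lit 5) (nat_lit 316) (nat_lit 310) (nat_lit 154)) (XT.lf (nat_lit 76) (nat_lit 3395521099) (nat_lit 0) (nat_lit 376113063) (nat_lit 1748) (nat_lit 16310914153) (nat_lit 344) (nat_lit 5) (nat_lit 343) (nat_lit 5) (nat_lit 366) (nat_lit 5) (nat_lit 317) (nat_lit 310)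 (nat_lit 153)))))) (XT.nd (nat_lit 546) (nat_lit 3116) (nat_lit 0) (XT.nd (nat_lit 234) (nat_lit 0) (nat_lit 152) (XT.nd (nat_lit 78) (nat_lit 0) (nat_lit 76) (XT.lf (nat_lit 0) (nat_lit 4941319086) (nat_lit 1672) (nat_lit 3073521086) (nat_lit 1748) (nat_lit 12377608534) (nat_lit 344) (nat_lit 5) (nat_lit 366) (nat_lit 5) (nat_lit 367) (nat_lit 5) (nat_lit 318) (nat_lit 310) (nat_lit 152)) (XT.nd (nat_lit 78) (nat_lit 0) (nat_lit 0) (XT.lf (nat_lit 0) (nat_lit 6243117749) (nat_lit 1672) (nat_lit 9656785209) (nat_lit 1748) (nat_lit 4809811978) (nat_lit 345) (nat_lit 5) (nat_lit 367) (nat_lit 5) (nat_lit 368) (nat_lit 5) (nat_lit 319) (nat_lit 310) (nat_lit 151)) (XT.lf (nat_lit 76) (nat_lit 4609722108) (nat_lit 0) (nat_lit 3069879066) (nat_lit 1748) (nat_lit 13354994383) (nat_lit 346) (nat_lit 5) (nat_lit 345) (nat_lit 5) (nat_lit 368) (nat_lit 5) (nat_lit 320) (nat_lit 310) (nat_lit 150)))) (XT.nd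 (nat_lit 156) (nat_lit 0) (nat_lit 76) (XT.nd (nat_lit 78) (nat_lit 0) (nat_lit 76) (XT.lf (nat_lit 0) (nat_lit 9282291364) (nat_lit 1672) (nat_lit 2004066582) (nat_lit 1748) (nat_lit 10080411161) (nat_lit 346) (nat_lit 5) (nat_lit 368) (nat_lit 5) (nat_lit 369) (nat_lit 5) (nat_lit 321) (nat_lit 310) (nat_lit 149)) (XT.lf (nat_lit 0) (nat_lit 11042325454) (nat_lit 1672) (nat_lit 8726569400) (nat_lit 1748) (nat_lit 1937836249) (nat_lit 347) (nat_lit 5) (nat_lit 369) (nat_lit 5) (nat_lit 370) (nat_lit 5) (nat_lit 322) (nat_lit 310) (nat_lit 148))) (XT.nd (nat_lit 78) (nat_lit 0) (nat_lit 76) (XT.lf (nat_lit 76) (nat_lit 6386760914) (nat_lit 0) (nat_lit 6590857488) (nat_lit 1748) (nat_lit 9076832656) (nat_lit 348) (nat_lit 5) (nat_lit 347) (nat_lit 5) (nat_lit 370) (nat_lit 5) (nat_lit 323) (nat_lit 310) (nat_lit 147)) (XT.lf (nat_lit 0) (nat_lit 15067885133) (nat_lit 1672) (nat_lit 390448623) (nat_lit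 1748) (nat_lit 6952338569) (nat_lit 348) (nat_lit 5) (nat_lit 370) (nat_lit 5) (nat_lit 371) (nat_lit 5) (nat_lit 324) (nat_lit 310) (nat_lit 146))))) (XT.nd (nat_lit 234) (nat_lit 1900) (nat_lit 0) (XT.nd (nat_lit 78) (nat_lit 1520) (nat_lit 0) (XT.lf (nat_lit 76) (nat_lit 15498234429) (nat_lit 0) (nat_lit 1859611900) (nat_lit 1748) (nat_lit 5417001953) (nat_lit 349) (nat_lit 5) (nat_lit 348) (nat_lit 5) (nat_lit 371) (nat_lit 5) (nat_lit 325) (nat_lit 310) (nat_lit 145)) (XT.nd (nat_lit 78) (nat_lit 1596) (nat_lit 0) (XT.lf (nat_lit 76) (nat_lit 8748751174) (nat_lit 0) (nat_lit 11098569844) (nat_lit 1748) (nat_lit 3300019759) (nat_lit 350) (nat_lit 5) (nat_lit 349) (nat_lit 5) (nat_lit 372) (nat_lit 5) (nat_lit 326) (nat_lit 310) (nat_lit 144)) (XT.lf (nat_lit 0) (nat_lit 1811035907) (nat_lit 1672) (nat_lit 20685161176) (nat_lit 1748) (nat_lit 1033123957) (nat_lit 328) (nat_lit 5) (nat_lit 350)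 (nat_lit 5) (nat_lit 351) (nat_lit 5) (nat_lit 327) (nat_lit 310) (nat_lit 143)))) (XT.nd (nat_lit 156) (nat_lit 836) (nat_lit 0) (XT.nd (nat_lit 78) (nat_lit 988) (nat_lit 0) (XT.lf (nat_lit 0) (nat_lit 1449931845) (nat_lit 1748) (nat_lit 5306285388) (nat_lit 76) (nat_lit 17163076894) (nat_lit 327) (nat_lit 5) (nat_lit 350) (nat_lit 5) (nat_lit 328) (nat_lit 5) (nat_lit 328) (nat_lit 310) (nat_lit 142)) (XT.lf (nat_lit 0) (nat_lit 4112580987) (nat_lit 1064) (nat_lit 12630181504) (nat_lit 76) (nat_lit 7575691361) (nat_lit 314) (nat_lit 5) (nat_lit 328) (nat_lit 5) (nat_lit 315) (nat_lit 5) (nat_lit 329) (nat_lit 310) (nat_lit 141))) (XT.nd (nat_lit 78) (nat_lit 0) (nat_lit 0) (XT.lf (nat_lit 0) (nat_lit 4544545139) (nat_lit 836) (nat_lit 2414618686) (nat_lit 912) (nat_lit 17768350037) (nat_lit 303) (nat_lit 5) (nat_lit 314) (nat_lit 5) (nat_lit 315) (nat_lit 5) (nat_lit 330) (nat_lit 310) (nat_lit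 140)) (XT.lf (nat_lit 0) (nat_lit 10050774077) (nat_lit 912) (nat_lit 2826558749) (nat_lit 76) (nat_lit 12268326638) (nat_lit 303) (nat_lit 5) (nat_lit 315) (nat_lit 5) (nat_lit 304) (nat_lit 5) (nat_lit 331) (nat_lit 310) (nat_lit 139))))))))
noncomputable def xc120 : XT := (XT.nd (nat_lit 39780) (nat_lit 0) (nat_lit 1140) (XT.nd (nat_lit 1014) (nat_lit 1140) (nat_lit 0) (XT.nd (nat_lit 468) (nat_lit 3344) (nat_lit 0) (XT.nd (nat_lit 234) (nat_lit 1520) (nat_lit 0) (XT.nd (nat_lit 78) (nat_lit 1520) (nat_lit 0) (XT.lf (nat_lit 0) (nat_lit 13355916920) (nat_lit 912) (nat_lit 10358239930) (nat_lit 76) (nat_lit 1859783100) (nat_lit 292) (nat_lit 5) (nat_lit 304) (nat_lit 5) (nat_lit 293) (nat_lit 5) (nat_lit 332) (nat_lit 310) (nat_lit 138)) (XT.nd (nat_lit 78) (nat_lit 760) (nat_lit 0) (XT.lf (nat_lit 0) (nat_lit 7833753667) (nat_lit 760) (nat_lit 9076402688) (nat_lit 836) (nat_lit 9101919671)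 (nat_lit 282) (nat_lit 5) (nat_lit 292) (nat_lit 5) (nat_lit 293) (nat_lit 5) (nat_lit 333) (nat_lit 310) (nat_lit 137)) (XT.lf (nat_lit 0) (nat_lit 208642831) (nat_lit 760) (nat_lit 20467180618) (nat_lit 836) (nat_lit 5785442574) (nat_lit 272) (nat_lit 5) (nat_lit 282) (nat_lit 5) (nat_lit 283) (nat_lit 5) (nat_lit 334) (nat_lit 310) (nat_lit 136)))) (XT.nd (nat_lit 78) (nat_lit 1520) (nat_lit 0) (XT.lf (nat_lit 0) (nat_lit 19328628132) (nat_lit 760) (nat_lit 5403285524) (nat_lit 836) (nat_lit 2188474676) (nat_lit 272) (nat_lit 5) (nat_lit 282) (nat_lit 5) (nat_lit 283) (nat_lit 5) (nat_lit 335) (nat_lit 310) (nat_lit 135)) (XT.nd (nat_lit 78) (nat_lit 760) (nat_lit 0) (XT.lf (nat_lit 0) (nat_lit 1633250092) (nat_lit 760) (nat_lit 15690317839) (nat_lit 76) (nat_lit 10066790158) (nat_lit 262) (nat_lit 5) (nat_lit 272) (nat_lit 5) (nat_lit 263) (nat_lit 5) (nat_lit 336) (nat_lit 310) (nat_lit 134))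 (XT.lf (nat_lit 0) (nat_lit 3793911755) (nat_lit 760) (nat_lit 1852941717) (nat_lit 836) (nat_lit 22225150203) (nat_lit 252) (nat_lit 5) (nat_lit 262) (nat_lit 5) (nat_lit 263) (nat_lit 5) (nat_lit 337) (nat_lit 310) (nat_lit 133))))) (XT.nd (nat_lit 234) (nat_lit 1976) (nat_lit 0) (XT.nd (nat_lit 78) (nat_lit 1368) (nat_lit 0) (XT.lf (nat_lit 0) (nat_lit 9973688238) (nat_lit 836) (nat_lit 4386536720) (nat_lit 76) (nat_lit 14004022298) (nat_lit 252) (nat_lit 5) (nat_lit 263) (nat_lit 5) (nat_lit 253) (nat_lit 5) (nat_lit 338) (nat_lit 310) (nat_lit 132)) (XT.nd (nat_lit 78) (nat_lit 684) (nat_lit 0) (XT.lf (nat_lit 0) (nat_lit 14551754046) (nat_lit 760) (nat_lit 12790400561) (nat_lit 76) (nat_lit 1526679962) (nat_lit 243) (nat_lit 5) (nat_lit 253) (nat_lit 5) (nat_lit 244) (nat_lit 5) (nat_lit 339) (nat_lit 310) (nat_lit 131)) (XT.lf (nat_lit 0) (nat_lit 7830178338) (nat_lit 684) (nat_lit 11608430169)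 (nat_lit 760) (nat_lit 9946526860) (nat_lit 234) (nat_lit 5) (nat_lit 243) (nat_lit 5) (nat_lit 244) (nat_lit 5) (nat_lit 340) (nat_lit 310) (nat_lit 130)))) (XT.nd (nat_lit 156) (nat_lit 1368) (nat_lit 0) (XT.nd (nat_lit 78) (nat_lit 608) (nat_lit 0) (XT.lf (nat_lit 0) (nat_lit 24583933128) (nat_lit 760) (nat_lit 706895000) (nat_lit 76) (nat_lit 4623864431) (nat_lit 234) (nat_lit 5) (nat_lit 244) (nat_lit 5) (nat_lit 235) (nat_lit 5) (nat_lit 341) (nat_lit 310) (nat_lit 129)) (XT.lf (nat_lit 0) (nat_lit 20958284672) (nat_lit 608) (nat_lit 9133960935) (nat_lit 684) (nat_lit 363722823) (nat_lit 226) (nat_lit 5) (nat_lit 234) (nat_lit 5) (nat_lit 235) (nat_lit 5) (nat_lit 342) (nat_lit 310) (nat_lit 128))) (XT.nd (nat_lit 78) (nat_lit 608) (nat_lit 0) (XT.lf (nat_lit 0) (nat_lit 4819808822) (nat_lit 760) (nat_lit 18664923674) (nat_lit 76) (nat_lit 7525541052) (nat_lit 216) (nat_lit 5) (nat_lit 226)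 (nat_lit 5) (nat_lit 217) (nat_lit 5) (nat_lit 343) (nat_lit 310) (nat_lit 127)) (XT.lf (nat_lit 0) (nat_lit 3368441888) (nat_lit 608) (nat_lit 6928333729) (nat_lit 684) (nat_lit 21281530884) (nat_lit 208) (nat_lit 5) (nat_lit 216) (nat_lit 5) (nat_lit 217) (nat_lit 5) (nat_lit 344) (nat_lit 310) (nat_lit 126)))))) (XT.nd (nat_lit 38220) (nat_lit 0) (nat_lit 11248) (XT.nd (nat_lit 37986) (nat_lit 0) (nat_lit 11172) (XT.nd (nat_lit 78) (nat_lit 1140) (nat_lit 0) (XT.lf (nat_lit 0) (nat_lit 16126311897) (nat_lit 684) (nat_lit 5914687677) (nat_lit 76) (nat_lit 10118619718) (nat_lit 208) (nat_lit 5) (nat_lit 217) (nat_lit 5) (nat_lit 209) (nat_lit 5) (nat_lit 345) (nat_lit 310) (nat_lit 125)) (XT.nd (nat_lit 78) (nat_lit 532) (nat_lit 0) (XT.lf (nat_lit 0) (nat_lit 17223503587) (nat_lit 608) (nat_lit 5060736345) (nat_lit 684) (nat_lit 10471065364) (nat_lit 200) (nat_lit 5) (nat_lit 208) (nat_lit 5)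 (nat_lit 209) (nat_lit 5) (nat_lit 346) (nat_lit 310) (nat_lit 124)) (XT.lf (nat_lit 0) (nat_lit 7784474063) (nat_lit 532) (nat_lit 21009458392) (nat_lit 608) (nat_lit 4571592719) (nat_lit 193) (nat_lit 5) (nat_lit 200) (nat_lit 5) (nat_lit 201) (nat_lit 5) (nat_lit 347) (nat_lit 310) (nat_lit 123)))) (XT.nd (nat_lit 78) (nat_lit 1672) (nat_lit 0) (XT.lf (nat_lit 0) (nat_lit 4586913997) (nat_lit 0) (nat_lit 4586913997) (nat_lit 1596) (nat_lit 140730179) (nat_lit 362) (nat_lit 5) (nat_lit 362) (nat_lit 3) (nat_lit 383) (nat_lit 3) (nat_lit 311) (nat_lit 311) (nat_lit 158)) (XT.nd (nat_lit 78) (nat_lit 0) (nat_lit 0) (XT.lf (nat_lit 0) (nat_lit 25170087) (nat_lit 1672) (nat_lit 15997894228) (nat_lit 1748) (nat_lit 2879107789) (nat_lit 340) (nat_lit 5) (nat_lit 362) (nat_lit 5) (nat_lit 363) (nat_lit 5) (nat_lit 312) (nat_lit 311) (nat_lit 157)) (XT.lf (nat_lit 0) (nat_lit 452535537) (nat_lit 1672)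 (nat_lit 3487426704) (nat_lit 1748) (nat_lit 15241123652) (nat_lit 340) (nat_lit 5) (nat_lit 362) (nat_lit 5) (nat_lit 363) (nat_lit 5) (nat_lit 313) (nat_lit 311) (nat_lit 156))))) (XT.nd (nat_lit 234) (nat_lit 0) (nat_lit 152) (XT.nd (nat_lit 78) (nat_lit 0) (nat_lit 76) (XT.lf (nat_lit 0) (nat_lit 999979204) (nat_lit 1672) (nat_lit 10005352338) (nat_lit 1748) (nat_lit 8460900867) (nat_lit 341) (nat_lit 5) (nat_lit 363) (nat_lit 5) (nat_lit 364) (nat_lit 5) (nat_lit 314) (nat_lit 311) (nat_lit 155)) (XT.nd (nat_lit 78) (nat_lit 0) (nat_lit 0) (XT.lf (nat_lit 0) (nat_lit 1633708038) (nat_lit 1672) (nat_lit 16673964837) (nat_lit 1748) (nat_lit 1450873359) (nat_lit 342) (nat_lit 5) (nat_lit 364) (nat_lit 5) (nat_lit 365) (nat_lit 5) (nat_lit 315) (nat_lit 311) (nat_lit 154)) (XT.lf (nat_lit 0) (nat_lit 2418663191) (nat_lit 1672) (nat_lit 3433961550) (nat_lit 1748) (nat_lit 14204370302) (nat_lit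 342) (nat_lit 5) (nat_lit 364) (nat_lit 5) (nat_lit 365) (nat_lit 5) (nat_lit 316) (nat_lit 311) (nat_lit 153)))) (XT.nd (nat_lit 156) (nat_lit 0) (nat_lit 76) (XT.nd (nat_lit 78) (nat_lit 0) (nat_lit 0) (XT.lf (nat_lit 0) (nat_lit 3330667204) (nat_lit 1672) (nat_lit 10075891531) (nat_lit 1748) (nat_lit 6955778145) (nat_lit 343) (nat_lit 5) (nat_lit 365) (nat_lit 5) (nat_lit 366) (nat_lit 5) (nat_lit 317) (nat_lit 311) (nat_lit 152)) (XT.lf (nat_lit 76) (nat_lit 3793795050) (nat_lit 0) (nat_lit 554339436) (nat_lit 1748) (nat_lit 16327151715) (nat_lit 344) (nat_lit 5) (nat_lit 343) (nat_lit 5) (nat_lit 366) (nat_lit 5) (nat_lit 318) (nat_lit 311) (nat_lit 151))) (XT.nd (nat_lit 78) (nat_lit 0) (nat_lit 76) (XT.lf (nat_lit 0) (nat_lit 5538361954) (nat_lit 1672) (nat_lit 2867444401) (nat_lit 1748) (nat_lit 12588981942) (nat_lit 344) (nat_lit 5) (nat_lit 366) (nat_lit 5) (nat_lit 367) (nat_lit 5)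 (nat_lit 319) (nat_lit 311) (nat_lit 150)) (XT.lf (nat_lit 0) (nat_lit 6867111662) (nat_lit 1672) (nat_lit 9642912321) (nat_lit 1748) (nat_lit 4811803922) (nat_lit 345) (nat_lit 5) (nat_lit 367) (nat_lit 5) (nat_lit 368) (nat_lit 5) (nat_lit 320) (nat_lit 311) (nat_lit 149))))))) (XT.nd (nat_lit 1014) (nat_lit 6384) (nat_lit 0) (XT.nd (nat_lit 468) (nat_lit 4028) (nat_lit 0) (XT.nd (nat_lit 234) (nat_lit 0) (nat_lit 152) (XT.nd (nat_lit 78) (nat_lit 0) (nat_lit 76) (XT.lf (nat_lit 76) (nat_lit 5046665048) (nat_lit 0) (nat_lit 3289244156) (nat_lit 1748) (nat_lit 13320774295) (nat_lit 346) (nat_lit 5) (nat_lit 345) (nat_lit 5) (nat_lit 368) (nat_lit 5) (nat_lit 321) (nat_lit 311) (nat_lit 148)) (XT.nd (nat_lit 78) (nat_lit 0) (nat_lit 76) (XT.lf (nat_lit 0) (nat_lit 9973472418) (nat_lit 1672) (nat_lit 1764744391) (nat_lit 1748) (nat_lit 10260882170) (nat_lit 346) (nat_lit 5) (nat_lit 368) (nat_lit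 5) (nat_lit 369) (nat_lit 5) (nat_lit 322) (nat_lit 311) (nat_lit 147)) (XT.lf (nat_lit 0) (nat_lit 11775498106) (nat_lit 1672) (nat_lit 8684620256) (nat_lit 1748) (nat_lit 1889369863) (nat_lit 347) (nat_lit 5) (nat_lit 369) (nat_lit 5) (nat_lit 370) (nat_lit 5) (nat_lit 323) (nat_lit 311) (nat_lit 146)))) (XT.nd (nat_lit 78) (nat_lit 0) (nat_lit 76) (XT.lf (nat_lit 76) (nat_lit 6877182045) (nat_lit 0) (nat_lit 6881902013) (nat_lit 1748) (nat_lit 8948762882) (nat_lit 348) (nat_lit 5) (nat_lit 347) (nat_lit 5) (nat_lit 370) (nat_lit 5) (nat_lit 324) (nat_lit 311) (nat_lit 145)) (XT.nd (nat_lit 78) (nat_lit 0) (nat_lit 0) (XT.lf (nat_lit 0) (nat_lit 15900049083) (nat_lit 1672) (nat_lit 103461266) (nat_lit 1748) (nat_lit 7071496194) (nat_lit 348) (nat_lit 5) (nat_lit 370) (nat_lit 5) (nat_lit 371) (nat_lit 5) (nat_lit 325) (nat_lit 311) (nat_lit 144)) (XT.lf (nat_lit 76) (nat_lit 16257036211) (nat_lit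 0) (nat_lit 1992509131) (nat_lit 1748) (nat_lit 5200756878) (nat_lit 349) (nat_lit 5) (nat_lit 348) (nat_lit 5) (nat_lit 371) (nat_lit 5) (nat_lit 326) (nat_lit 311) (nat_lit 143))))) (XT.nd (nat_lit 234) (nat_lit 2660) (nat_lit 0) (XT.nd (nat_lit 78) (nat_lit 1672) (nat_lit 0) (XT.lf (nat_lit 76) (nat_lit 9308458637) (nat_lit 0) (nat_lit 11495884721) (nat_lit 1748) (nat_lit 3029824193) (nat_lit 350) (nat_lit 5) (nat_lit 349) (nat_lit 5) (nat_lit 372) (nat_lit 5) (nat_lit 327) (nat_lit 311) (nat_lit 142)) (XT.nd (nat_lit 78) (nat_lit 76) (nat_lit 0) (XT.lf (nat_lit 0) (nat_lit 2165670795) (nat_lit 1672) (nat_lit 21358026882) (nat_lit 1748) (nat_lit 704099833) (nat_lit 328) (nat_lit 5) (nat_lit 350) (nat_lit 5) (nat_lit 351) (nat_lit 5) (nat_lit 328) (nat_lit 311) (nat_lit 141)) (XT.lf (nat_lit 0) (nat_lit 1838377514) (nat_lit 1748) (nat_lit 5168998709) (nat_lit 76) (nat_lit 17622263805) (nat_lit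 327) (nat_lit 5) (nat_lit 350) (nat_lit 5) (nat_lit 328) (nat_lit 5) (nat_lit 329) (nat_lit 311) (nat_lit 140)))) (XT.nd (nat_lit 156) (nat_lit 836) (nat_lit 0) (XT.nd (nat_lit 78) (nat_lit 836) (nat_lit 0) (XT.lf (nat_lit 0) (nat_lit 4572459785) (nat_lit 1064) (nat_lit 12710068527) (nat_lit 76) (nat_lit 7758424884) (nat_lit 314) (nat_lit 5) (nat_lit 328) (nat_lit 5) (nat_lit 315) (nat_lit 5) (nat_lit 330) (nat_lit 311) (nat_lit 139)) (XT.lf (nat_lit 0) (nat_lit 4975048695) (nat_lit 836) (nat_lit 2521500331) (nat_lit 912) (nat_lit 17965903247) (nat_lit 303) (nat_lit 5) (nat_lit 314) (nat_lit 5) (nat_lit 315) (nat_lit 5) (nat_lit 331) (nat_lit 311) (nat_lit 138))) (XT.nd (nat_lit 78) (nat_lit 836) (nat_lit 0) (XT.lf (nat_lit 0) (nat_lit 10671119298) (nat_lit 912) (nat_lit 2618852759) (nat_lit 76) (nat_lit 12603375120) (nat_lit 303) (nat_lit 5) (nat_lit 315) (nat_lit 5) (nat_lit 304) (nat_lit 5)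 (nat_lit 332) (nat_lit 311) (nat_lit 137)) (XT.lf (nat_lit 0) (nat_lit 14067845128) (nat_lit 912) (nat_lit 10374551540) (nat_lit 76) (nat_lit 1892239738) (nat_lit 292) (nat_lit 5) (nat_lit 304) (nat_lit 5) (nat_lit 293) (nat_lit 5) (nat_lit 333) (nat_lit 311) (nat_lit 136)))))) (XT.nd (nat_lit 468) (nat_lit 3344) (nat_lit 0) (XT.nd (nat_lit 234) (nat_lit 1520) (nat_lit 0) (XT.nd (nat_lit 78) (nat_lit 760) (nat_lit 0) (XT.lf (nat_lit 0) (nat_lit 8358424997) (nat_lit 760) (nat_lit 9363101852) (nat_lit 836) (nat_lit 9064542057) (nat_lit 282) (nat_lit 5) (nat_lit 292) (nat_lit 5) (nat_lit 293) (nat_lit 5) (nat_lit 334) (nat_lit 311) (nat_lit 135)) (XT.nd (nat_lit 78) (nat_lit 0) (nat_lit 0) (XT.lf (nat_lit 0) (nat_lit 506219555) (nat_lit 760) (nat_lit 21086888724) (nat_lit 836) (nat_lit 5655775826) (nat_lit 272) (nat_lit 5) (nat_lit 282) (nat_lit 5) (nat_lit 283) (nat_lit 5) (nat_lit 335) (nat_lit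 311) (nat_lit 134)) (XT.lf (nat_lit 0) (nat_lit 20191319441) (nat_lit 760) (nat_lit 5570910971) (nat_lit 836) (nat_lit 1959730834) (nat_lit 272) (nat_lit 5) (nat_lit 282) (nat_lit 5) (nat_lit 283) (nat_lit 5) (nat_lit 336) (nat_lit 311) (nat_lit 133)))) (XT.nd (nat_lit 78) (nat_lit 760) (nat_lit 0) (XT.lf (nat_lit 0) (nat_lit 1966144846) (nat_lit 760) (nat_lit 15872776148) (nat_lit 76) (nat_lit 10367211423) (nat_lit 262) (nat_lit 5) (nat_lit 272) (nat_lit 5) (nat_lit 263) (nat_lit 5) (nat_lit 337) (nat_lit 311) (nat_lit 132)) (XT.nd (nat_lit 78) (nat_lit 0) (nat_lit 0) (XT.lf (nat_lit 0) (nat_lit 4191303800) (nat_lit 760) (nat_lit 1902424831) (nat_lit 836) (nat_lit 22608634822) (nat_lit 252) (nat_lit 5) (nat_lit 262) (nat_lit 5) (nat_lit 263) (nat_lit 5) (nat_lit 338) (nat_lit 311) (nat_lit 131)) (XT.lf (nat_lit 0) (nat_lit 10542325286) (nat_lit 836) (nat_lit 4237224680) (nat_lit 76) (nat_lit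 14429992548) (nat_lit 252) (nat_lit 5) (nat_lit 263) (nat_lit 5) (nat_lit 253) (nat_lit 5) (nat_lit 339) (nat_lit 311) (nat_lit 130))))) (XT.nd (nat_lit 234) (nat_lit 1976) (nat_lit 0) (XT.nd (nat_lit 78) (nat_lit 684) (nat_lit 0) (XT.lf (nat_lit 0) (nat_lit 15251764208) (nat_lit 760) (nat_lit 12892342093) (nat_lit 76) (nat_lit 1585287618) (nat_lit 243) (nat_lit 5) (nat_lit 253) (nat_lit 5) (nat_lit 244) (nat_lit 5) (nat_lit 340) (nat_lit 311) (nat_lit 129)) (XT.nd (nat_lit 78) (nat_lit 0) (nat_lit 0) (XT.lf (nat_lit 0) (nat_lit 8342282781) (nat_lit 684) (nat_lit 11937067761) (nat_lit 760) (nat_lit 9981957563) (nat_lit 234) (nat_lit 5) (nat_lit 243) (nat_lit 5) (nat_lit 244) (nat_lit 5) (nat_lit 341) (nat_lit 311) (nat_lit 128)) (XT.lf (nat_lit 0) (nat_lit 25571656108) (nat_lit 760) (nat_lit 453875578) (nat_lit 76) (nat_lit 4781374592) (nat_lit 234) (nat_lit 5) (nat_lit 244) (nat_lit 5) (nat_lit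 235) (nat_lit 5) (nat_lit 342) (nat_lit 311) (nat_lit 127)))) (XT.nd (nat_lit 156) (nat_lit 608) (nat_lit 0) (XT.nd (nat_lit 78) (nat_lit 760) (nat_lit 0) (XT.lf (nat_lit 0) (nat_lit 21856810489) (nat_lit 608) (nat_lit 9382871521) (nat_lit 684) (nat_lit 124855627) (nat_lit 226) (nat_lit 5) (nat_lit 234) (nat_lit 5) (nat_lit 235) (nat_lit 5) (nat_lit 343) (nat_lit 311) (nat_lit 126)) (XT.lf (nat_lit 0) (nat_lit 5205652066) (nat_lit 760) (nat_lit 18951192243) (nat_lit 76) (nat_lit 7778706427) (nat_lit 216) (nat_lit 5) (nat_lit 226) (nat_lit 5) (nat_lit 217) (nat_lit 5) (nat_lit 344) (nat_lit 311) (nat_lit 125))) (XT.nd (nat_lit 78) (nat_lit 0) (nat_lit 0) (XT.lf (nat_lit 0) (nat_lit 3738734168) (nat_lit 608) (nat_lit 7102915107) (nat_lit 684) (nat_lit 21679086976) (nat_lit 208) (nat_lit 5) (nat_lit 216) (nat_lit 5) (nat_lit 217) (nat_lit 5) (nat_lit 345) (nat_lit 311) (nat_lit 124)) (XT.lf (nat_lit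 0) (nat_lit 16839408430) (nat_lit 684) (nat_lit 5826164748) (nat_lit 76) (nat_lit 10454054339) (nat_lit 208) (nat_lit 5) (nat_lit 217) (nat_lit 5) (nat_lit 209) (nat_lit 5) (nat_lit 346) (nat_lit 311) (nat_lit 123))))))))
noncomputable def xc121 : XT := (XT.nd (nat_lit 2028) (nat_lit 4864) (nat_lit 0) (XT.nd (nat_lit 1014) (nat_lit 5092) (nat_lit 0) (XT.nd (nat_lit 468) (nat_lit 0) (nat_lit 304) (XT.nd (nat_lit 234) (nat_lit 0) (nat_lit 152) (XT.nd (nat_lit 78) (nat_lit 0) (nat_lit 76) (XT.lf (nat_lit 0) (nat_lit 123543585) (nat_lit 1748) (nat_lit 4732432471) (nat_lit 1748) (nat_lit 4732432471) (nat_lit 339) (nat_lit 3) (nat_lit 362) (nat_lit 3) (nat_lit 362) (nat_lit 5) (nat_lit 312) (nat_lit 312) (nat_lit 156)) (XT.nd (nat_lit 78) (nat_lit 0) (nat_lit 0) (XT.lf (nat_lit 0) (nat_lit 543689585) (nat_lit 1672) (nat_lit 16197495033) (nat_lit 1748) (nat_lit 2717166640) (nat_lit 340) (nat_lit 5) (nat_lit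 362) (nat_lit 5) (nat_lit 363) (nat_lit 5) (nat_lit 313) (nat_lit 312) (nat_lit 155)) (XT.lf (nat_lit 0) (nat_lit 968795482) (nat_lit 1672) (nat_lit 3319878610) (nat_lit 1748) (nat_lit 15457275437) (nat_lit 340) (nat_lit 5) (nat_lit 362) (nat_lit 5) (nat_lit 363) (nat_lit 5) (nat_lit 314) (nat_lit 312) (nat_lit 154)))) (XT.nd (nat_lit 78) (nat_lit 0) (nat_lit 76) (XT.lf (nat_lit 0) (nat_lit 1518318087) (nat_lit 1672) (nat_lit 10026020247) (nat_lit 1748) (nat_lit 8495614001) (nat_lit 341) (nat_lit 5) (nat_lit 363) (nat_lit 5) (nat_lit 364) (nat_lit 5) (nat_lit 315) (nat_lit 312) (nat_lit 153)) (XT.nd (nat_lit 78) (nat_lit 0) (nat_lit 0) (XT.lf (nat_lit 0) (nat_lit 2157315861) (nat_lit 1672) (nat_lit 16887917193) (nat_lit 1748) (nat_lit 1296091951) (nat_lit 342) (nat_lit 5) (nat_lit 364) (nat_lit 5) (nat_lit 365) (nat_lit 5) (nat_lit 316) (nat_lit 312) (nat_lit 152)) (XT.lf (nat_lit 0) (nat_lit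 2951996466) (nat_lit 1672) (nat_lit 3259051669) (nat_lit 1748) (nat_lit 14437969752) (nat_lit 342) (nat_lit 5) (nat_lit 364) (nat_lit 5) (nat_lit 365) (nat_lit 5) (nat_lit 317) (nat_lit 312) (nat_lit 151))))) (XT.nd (nat_lit 234) (nat_lit 0) (nat_lit 152) (XT.nd (nat_lit 78) (nat_lit 0) (nat_lit 0) (XT.lf (nat_lit 0) (nat_lit 3878574423) (nat_lit 1672) (nat_lit 10094167433) (nat_lit 1748) (nat_lit 6991047582) (nat_lit 343) (nat_lit 5) (nat_lit 365) (nat_lit 5) (nat_lit 366) (nat_lit 5) (nat_lit 318) (nat_lit 312) (nat_lit 150)) (XT.nd (nat_lit 78) (nat_lit 0) (nat_lit 76) (XT.lf (nat_lit 76) (nat_lit 4187002169) (nat_lit 0) (nat_lit 728329389) (nat_lit 1748) (nat_lit 16371033697) (nat_lit 344) (nat_lit 5) (nat_lit 343) (nat_lit 5) (nat_lit 366) (nat_lit 5) (nat_lit 319) (nat_lit 312) (nat_lit 149)) (XT.lf (nat_lit 0) (nat_lit 6127552962) (nat_lit 1672) (nat_lit 2672308040) (nat_lit 1748) (nat_lit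 12815878616) (nat_lit 344) (nat_lit 5) (nat_lit 366) (nat_lit 5) (nat_lit 367) (nat_lit 5) (nat_lit 320) (nat_lit 312) (nat_lit 148)))) (XT.nd (nat_lit 156) (nat_lit 0) (nat_lit 76) (XT.nd (nat_lit 78) (nat_lit 0) (nat_lit 0) (XT.lf (nat_lit 0) (nat_lit 7484757005) (nat_lit 1672) (nat_lit 9646049777) (nat_lit 1748) (nat_lit 4822024365) (nat_lit 345) (nat_lit 5) (nat_lit 367) (nat_lit 5) (nat_lit 368) (nat_lit 5) (nat_lit 321) (nat_lit 312) (nat_lit 147)) (XT.lf (nat_lit 76) (nat_lit 5479572471) (nat_lit 0) (nat_lit 3507884453) (nat_lit 1748) (nat_lit 13310490916) (nat_lit 346) (nat_lit 5) (nat_lit 345) (nat_lit 5) (nat_lit 368) (nat_lit 5) (nat_lit 322) (nat_lit 312) (nat_lit 146))) (XT.nd (nat_lit 78) (nat_lit 0) (nat_lit 76) (XT.lf (nat_lit 0) (nat_lit 10661697528) (nat_lit 1672) (nat_lit 1535431855) (nat_lit 1748) (nat_lit 10453767240) (nat_lit 346) (nat_lit 5) (nat_lit 368) (nat_lit 5) (nat_lit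 369) (nat_lit 5) (nat_lit 323) (nat_lit 312) (nat_lit 145)) (XT.lf (nat_lit 0) (nat_lit 12507595067) (nat_lit 1672) (nat_lit 8658848914) (nat_lit 1748) (nat_lit 1845568846) (nat_lit 347) (nat_lit 5) (nat_lit 369) (nat_lit 5) (nat_lit 370) (nat_lit 5) (nat_lit 324) (nat_lit 312) (nat_lit 144)))))) (XT.nd (nat_lit 468) (nat_lit 4180) (nat_lit 0) (XT.nd (nat_lit 234) (nat_lit 1520) (nat_lit 0) (XT.nd (nat_lit 78) (nat_lit 0) (nat_lit 76) (XT.lf (nat_lit 76) (nat_lit 7365162418) (nat_lit 0) (nat_lit 7176320994) (nat_lit 1748) (nat_lit 8839834163) (nat_lit 348) (nat_lit 5) (nat_lit 347) (nat_lit 5) (nat_lit 370) (nat_lit 5) (nat_lit 325) (nat_lit 312) (nat_lit 143)) (XT.nd (nat_lit 78) (nat_lit 0) (nat_lit 0) (XT.lf (nat_lit 76) (nat_lit 177314575) (nat_lit 0) (nat_lit 16559193752) (nat_lit 1748) (nat_lit 7023197861) (nat_lit 349) (nat_lit 5) (nat_lit 348) (nat_lit 5) (nat_lit 371) (nat_lit 5) (nat_lit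 326) (nat_lit 312) (nat_lit 142)) (XT.lf (nat_lit 76) (nat_lit 17021733583) (nat_lit 0) (nat_lit 2124966914) (nat_lit 1748) (nat_lit 4999766544) (nat_lit 349) (nat_lit 5) (nat_lit 348) (nat_lit 5) (nat_lit 371) (nat_lit 5) (nat_lit 327) (nat_lit 312) (nat_lit 141)))) (XT.nd (nat_lit 78) (nat_lit 1672) (nat_lit 0) (XT.lf (nat_lit 76) (nat_lit 9867894248) (nat_lit 0) (nat_lit 11901424646) (nat_lit 1748) (nat_lit 2772716130) (nat_lit 350) (nat_lit 5) (nat_lit 349) (nat_lit 5) (nat_lit 372) (nat_lit 5) (nat_lit 328) (nat_lit 312) (nat_lit 140)) (XT.nd (nat_lit 78) (nat_lit 76) (nat_lit 0) (XT.lf (nat_lit 0) (nat_lit 2513706062) (nat_lit 1672) (nat_lit 22048075700) (nat_lit 1748) (nat_lit 385871481) (nat_lit 328) (nat_lit 5) (nat_lit 350) (nat_lit 5) (nat_lit 351) (nat_lit 5) (nat_lit 329) (nat_lit 312) (nat_lit 139)) (XT.lf (nat_lit 0) (nat_lit 2218675142) (nat_lit 1748) (nat_lit 5044612320) (nat_lit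 76) (nat_lit 18098424040) (nat_lit 327) (nat_lit 5) (nat_lit 350) (nat_lit 5) (nat_lit 328) (nat_lit 5) (nat_lit 330) (nat_lit 312) (nat_lit 138))))) (XT.nd (nat_lit 234) (nat_lit 2356) (nat_lit 0) (XT.nd (nat_lit 78) (nat_lit 836) (nat_lit 0) (XT.lf (nat_lit 0) (nat_lit 5026818392) (nat_lit 1064) (nat_lit 12809517043) (nat_lit 76) (nat_lit 7949197031) (nat_lit 314) (nat_lit 5) (nat_lit 328) (nat_lit 5) (nat_lit 315) (nat_lit 5) (nat_lit 331) (nat_lit 312) (nat_lit 137)) (XT.nd (nat_lit 78) (nat_lit 0) (nat_lit 0) (XT.lf (nat_lit 0) (nat_lit 5401580958) (nat_lit 836) (nat_lit 2629611251) (nat_lit 912) (nat_lit 18188641970) (nat_lit 303) (nat_lit 5) (nat_lit 314) (nat_lit 5) (nat_lit 315) (nat_lit 5) (nat_lit 332) (nat_lit 312) (nat_lit 136)) (XT.lf (nat_lit 0) (nat_lit 11291773189) (nat_lit 912) (nat_lit 2421706444) (nat_lit 76) (nat_lit 12950369467) (nat_lit 303) (nat_lit 5) (nat_lit 315) (nat_lit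 5) (nat_lit 304) (nat_lit 5) (nat_lit 333) (nat_lit 312) (nat_lit 135)))) (XT.nd (nat_lit 156) (nat_lit 760) (nat_lit 0) (XT.nd (nat_lit 78) (nat_lit 760) (nat_lit 0) (XT.lf (nat_lit 0) (nat_lit 14783264119) (nat_lit 912) (nat_lit 10408254306) (nat_lit 76) (nat_lit 1927009706) (nat_lit 292) (nat_lit 5) (nat_lit 304) (nat_lit 5) (nat_lit 293) (nat_lit 5) (nat_lit 334) (nat_lit 312) (nat_lit 134)) (XT.lf (nat_lit 0) (nat_lit 8882208871) (nat_lit 760) (nat_lit 9657574965) (nat_lit 836) (nat_lit 9043863365) (nat_lit 282) (nat_lit 5) (nat_lit 292) (nat_lit 5) (nat_lit 293) (nat_lit 5) (nat_lit 335) (nat_lit 312) (nat_lit 133))) (XT.nd (nat_lit 78) (nat_lit 0) (nat_lit 0) (XT.lf (nat_lit 0) (nat_lit 796000769) (nat_lit 760) (nat_lit 21724861290) (nat_lit 836) (nat_lit 5539625720) (nat_lit 272) (nat_lit 5) (nat_lit 282) (nat_lit 5) (nat_lit 283) (nat_lit 5) (nat_lit 336) (nat_lit 312) (nat_lit 132))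 (XT.lf (nat_lit 0) (nat_lit 21063655750) (nat_lit 760) (nat_lit 5743247916) (nat_lit 836) (nat_lit 1741024331) (nat_lit 272) (nat_lit 5) (nat_lit 282) (nat_lit 5) (nat_lit 283) (nat_lit 5) (nat_lit 337) (nat_lit 312) (nat_lit 131))))))) (XT.nd (nat_lit 39000) (nat_lit 0) (nat_lit 10184) (XT.nd (nat_lit 468) (nat_lit 1976) (nat_lit 0) (XT.nd (nat_lit 234) (nat_lit 1368) (nat_lit 0) (XT.nd (nat_lit 78) (nat_lit 760) (nat_lit 0) (XT.lf (nat_lit 0) (nat_lit 2292729579) (nat_lit 760) (nat_lit 16077255006) (nat_lit 76) (nat_lit 10676736164) (nat_lit 262) (nat_lit 5) (nat_lit 272) (nat_lit 5) (nat_lit 263) (nat_lit 5) (nat_lit 338) (nat_lit 312) (nat_lit 130)) (XT.nd (nat_lit 78) (nat_lit 0) (nat_lit 0) (XT.lf (nat_lit 0) (nat_lit 4584339259) (nat_lit 760) (nat_lit 1953742897) (nat_lit 836) (nat_lit 23019884830) (nat_lit 252) (nat_lit 5) (nat_lit 262) (nat_lit 5) (nat_lit 263) (nat_lit 5) (nat_lit 339)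 (nat_lit 312) (nat_lit 129)) (XT.lf (nat_lit 0) (nat_lit 11112555267) (nat_lit 836) (nat_lit 4099558555) (nat_lit 76) (nat_lit 14868406115) (nat_lit 252) (nat_lit 5) (nat_lit 263) (nat_lit 5) (nat_lit 253) (nat_lit 5) (nat_lit 340) (nat_lit 312) (nat_lit 128)))) (XT.nd (nat_lit 78) (nat_lit 684) (nat_lit 0) (XT.lf (nat_lit 0) (nat_lit 15957651134) (nat_lit 760) (nat_lit 13013516649) (nat_lit 76) (nat_lit 1644918315) (nat_lit 243) (nat_lit 5) (nat_lit 253) (nat_lit 5) (nat_lit 244) (nat_lit 5) (nat_lit 341) (nat_lit 312) (nat_lit 127)) (XT.nd (nat_lit 78) (nat_lit 0) (nat_lit 0) (XT.lf (nat_lit 0) (nat_lit 8853837996) (nat_lit 684) (nat_lit 12276690479) (nat_lit 760) (nat_lit 10033546460) (nat_lit 234) (nat_lit 5) (nat_lit 243) (nat_lit 5) (nat_lit 244) (nat_lit 5) (nat_lit 342) (nat_lit 312) (nat_lit 126)) (XT.lf (nat_lit 0) (nat_lit 26574647987) (nat_lit 760) (nat_lit 209007283) (nat_lit 76)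 (nat_lit 4942531193) (nat_lit 234) (nat_lit 5) (nat_lit 244) (nat_lit 5) (nat_lit 235) (nat_lit 5) (nat_lit 343) (nat_lit 312) (nat_lit 125))))) (XT.nd (nat_lit 38220) (nat_lit 0) (nat_lit 9956) (XT.nd (nat_lit 78) (nat_lit 1292) (nat_lit 0) (XT.lf (nat_lit 0) (nat_lit 105438038) (nat_lit 684) (nat_lit 9534545158) (nat_lit 76) (nat_lit 22660660178) (nat_lit 225) (nat_lit 5) (nat_lit 234) (nat_lit 5) (nat_lit 226) (nat_lit 5) (nat_lit 344) (nat_lit 312) (nat_lit 124)) (XT.nd (nat_lit 78) (nat_lit 608) (nat_lit 0) (XT.lf (nat_lit 0) (nat_lit 5589221930) (nat_lit 760) (nat_lit 19261759171) (nat_lit 76) (nat_lit 8037893940) (nat_lit 216) (nat_lit 5) (nat_lit 226) (nat_lit 5) (nat_lit 217) (nat_lit 5) (nat_lit 345) (nat_lit 312) (nat_lit 123)) (XT.lf (nat_lit 0) (nat_lit 4104679794) (nat_lit 608) (nat_lit 7284643683) (nat_lit 684) (nat_lit 22102397812) (nat_lit 208) (nat_lit 5) (nat_lit 216) (nat_lit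 5) (nat_lit 217) (nat_lit 5) (nat_lit 346) (nat_lit 312) (nat_lit 122)))) (XT.nd (nat_lit 156) (nat_lit 0) (nat_lit 76) (XT.nd (nat_lit 78) (nat_lit 0) (nat_lit 76) (XT.lf (nat_lit 0) (nat_lit 378540869) (nat_lit 1748) (nat_lit 4746118231) (nat_lit 1748) (nat_lit 4746118231) (nat_lit 339) (nat_lit 3) (nat_lit 362) (nat_lit 3) (nat_lit 362) (nat_lit 5) (nat_lit 313) (nat_lit 313) (nat_lit 154)) (XT.lf (nat_lit 0) (nat_lit 1048042873) (nat_lit 1672) (nat_lit 16419176297) (nat_lit 1748) (nat_lit 2564621518) (nat_lit 340) (nat_lit 5) (nat_lit 362) (nat_lit 5) (nat_lit 363) (nat_lit 5) (nat_lit 314) (nat_lit 313) (nat_lit 153))) (XT.nd (nat_lit 78) (nat_lit 0) (nat_lit 76) (XT.lf (nat_lit 0) (nat_lit 1471687114) (nat_lit 1672) (nat_lit 3162927797) (nat_lit 1748) (nat_lit 15693750864) (nat_lit 340) (nat_lit 5) (nat_lit 362) (nat_lit 5) (nat_lit 363) (nat_lit 5) (nat_lit 315) (nat_lit 313) (nat_lit 152))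 (XT.lf (nat_lit 0) (nat_lit 2024174451) (nat_lit 1672) (nat_lit 10063352216) (nat_lit 1748) (nat_lit 8543946563) (nat_lit 341) (nat_lit 5) (nat_lit 363) (nat_lit 5) (nat_lit 364) (nat_lit 5) (nat_lit 316) (nat_lit 313) (nat_lit 151)))))) (XT.nd (nat_lit 468) (nat_lit 0) (nat_lit 228) (XT.nd (nat_lit 234) (nat_lit 0) (nat_lit 76) (XT.nd (nat_lit 78) (nat_lit 0) (nat_lit 0) (XT.lf (nat_lit 0) (nat_lit 2669388133) (nat_lit 1672) (nat_lit 17124720993) (nat_lit 1748) (nat_lit 1148050769) (nat_lit 342) (nat_lit 5) (nat_lit 364) (nat_lit 5) (nat_lit 365) (nat_lit 5) (nat_lit 317) (nat_lit 313) (nat_lit 150)) (XT.nd (nat_lit 78) (nat_lit 0) (nat_lit 76) (XT.lf (nat_lit 0) (nat_lit 3474879464) (nat_lit 1672) (nat_lit 3094848738) (nat_lit 1748) (nat_lit 14689629290) (nat_lit 342) (nat_lit 5) (nat_lit 364) (nat_lit 5) (nat_lit 365) (nat_lit 5) (nat_lit 318) (nat_lit 313) (nat_lit 149)) (XT.lf (nat_lit 0)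 (nat_lit 4417202560) (nat_lit 1672) (nat_lit 10129294422) (nat_lit 1748) (nat_lit 7037329196) (nat_lit 343) (nat_lit 5) (nat_lit 365) (nat_lit 5) (nat_lit 366) (nat_lit 5) (nat_lit 319) (nat_lit 313) (nat_lit 148)))) (XT.nd (nat_lit 78) (nat_lit 0) (nat_lit 76) (XT.lf (nat_lit 76) (nat_lit 4575967186) (nat_lit 0) (nat_lit 898505947) (nat_lit 1748) (nat_lit 16441830492) (nat_lit 344) (nat_lit 5) (nat_lit 343) (nat_lit 5) (nat_lit 366) (nat_lit 5) (nat_lit 320) (nat_lit 313) (nat_lit 147)) (XT.nd (nat_lit 78) (nat_lit 0) (nat_lit 76) (XT.lf (nat_lit 0) (nat_lit 6710135466) (nat_lit 1672) (nat_lit 2487457305) (nat_lit 1748) (nat_lit 13058237164) (nat_lit 344) (nat_lit 5) (nat_lit 366) (nat_lit 5) (nat_lit 367) (nat_lit 5) (nat_lit 321) (nat_lit 313) (nat_lit 146)) (XT.lf (nat_lit 0) (nat_lit 8097302347) (nat_lit 1672) (nat_lit 9665707532) (nat_lit 1748) (nat_lit 4840251243) (nat_lit 345) (nat_lit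 5) (nat_lit 367) (nat_lit 5) (nat_lit 368) (nat_lit 5) (nat_lit 322) (nat_lit 313) (nat_lit 145))))) (XT.nd (nat_lit 234) (nat_lit 0) (nat_lit 152) (XT.nd (nat_lit 78) (nat_lit 0) (nat_lit 76) (XT.lf (nat_lit 76) (nat_lit 5909307437) (nat_lit 0) (nat_lit 3726197594) (nat_lit 1748) (nat_lit 13323429353) (nat_lit 346) (nat_lit 5) (nat_lit 345) (nat_lit 5) (nat_lit 368) (nat_lit 5) (nat_lit 323) (nat_lit 313) (nat_lit 144)) (XT.nd (nat_lit 78) (nat_lit 0) (nat_lit 76) (XT.lf (nat_lit 0) (nat_lit 11348237998) (nat_lit 1672) (nat_lit 1315442527) (nat_lit 1748) (nat_lit 10659036968) (nat_lit 346) (nat_lit 5) (nat_lit 368) (nat_lit 5) (nat_lit 369) (nat_lit 5) (nat_lit 324) (nat_lit 313) (nat_lit 143)) (XT.lf (nat_lit 0) (nat_lit 13239908430) (nat_lit 1672) (nat_lit 8648739794) (nat_lit 1748) (nat_lit 1806221883) (nat_lit 347) (nat_lit 5) (nat_lit 369) (nat_lit 5) (nat_lit 370) (nat_lit 5) (nat_lit 325)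 (nat_lit 313) (nat_lit 142)))) (XT.nd (nat_lit 156) (nat_lit 0) (nat_lit 76) (XT.nd (nat_lit 78) (nat_lit 0) (nat_lit 76) (XT.lf (nat_lit 76) (nat_lit 7851613484) (nat_lit 0) (nat_lit 7474523170) (nat_lit 1748) (nat_lit 8749301405) (nat_lit 348) (nat_lit 5) (nat_lit 347) (nat_lit 5) (nat_lit 370) (nat_lit 5) (nat_lit 326) (nat_lit 313) (nat_lit 141)) (XT.lf (nat_lit 76) (nat_lit 451552736) (nat_lit 0) (nat_lit 17126535108) (nat_lit 1748) (nat_lit 6887279195) (nat_lit 349) (nat_lit 5) (nat_lit 348) (nat_lit 5) (nat_lit 371) (nat_lit 5) (nat_lit 327) (nat_lit 313) (nat_lit 140))) (XT.nd (nat_lit 78) (nat_lit 0) (nat_lit 76) (XT.lf (nat_lit 76) (nat_lit 17793471730) (nat_lit 0) (nat_lit 2257226158) (nat_lit 1748) (nat_lit 4813240510) (nat_lit 349) (nat_lit 5) (nat_lit 348) (nat_lit 5) (nat_lit 371) (nat_lit 5) (nat_lit 328) (nat_lit 313) (nat_lit 139)) (XT.lf (nat_lit 76) (nat_lit 10428029343) (nat_lit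 0) (nat_lit 12315648441) (nat_lit 1748) (nat_lit 2527871609) (nat_lit 350) (nat_lit 5) (nat_lit 349) (nat_lit 5) (nat_lit 372) (nat_lit 5) (nat_lit 329) (nat_lit 313) (nat_lit 138))))))))
noncomputable def xc122 : XT := (XT.nd (nat_lit 40170) (nat_lit 0) (nat_lit 76) (XT.nd (nat_lit 1014) (nat_lit 1368) (nat_lit 0) (XT.nd (nat_lit 468) (nat_lit 3724) (nat_lit 0) (XT.nd (nat_lit 234) (nat_lit 1672) (nat_lit 0) (XT.nd (nat_lit 78) (nat_lit 1064) (nat_lit 0) (XT.lf (nat_lit 0) (nat_lit 2855933289) (nat_lit 1672) (nat_lit 22755995502) (nat_lit 1748) (nat_lit 77576435) (nat_lit 328) (nat_lit 5) (nat_lit 350) (nat_lit 5) (nat_lit 351) (nat_lit 5) (nat_lit 330) (nat_lit 313) (nat_lit 137)) (XT.nd (nat_lit 78) (nat_lit 988) (nat_lit 0) (XT.lf (nat_lit 0) (nat_lit 2591716972) (nat_lit 1748) (nat_lit 4932536278) (nat_lit 76) (nat_lit 18591883239) (nat_lit 327) (nat_lit 5) (nat_lit 350) (nat_lit 5) (nat_lit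 328) (nat_lit 5) (nat_lit 331) (nat_lit 313) (nat_lit 136)) (XT.lf (nat_lit 0) (nat_lit 5476600051) (nat_lit 1064) (nat_lit 12928128560) (nat_lit 76) (nat_lit 8148102201) (nat_lit 314) (nat_lit 5) (nat_lit 328) (nat_lit 5) (nat_lit 315) (nat_lit 5) (nat_lit 332) (nat_lit 313) (nat_lit 135)))) (XT.nd (nat_lit 78) (nat_lit 836) (nat_lit 0) (XT.lf (nat_lit 0) (nat_lit 5824992136) (nat_lit 836) (nat_lit 2739101822) (nat_lit 912) (nat_lit 18436216232) (nat_lit 303) (nat_lit 5) (nat_lit 314) (nat_lit 5) (nat_lit 315) (nat_lit 5) (nat_lit 333) (nat_lit 313) (nat_lit 134)) (XT.nd (nat_lit 78) (nat_lit 836) (nat_lit 0) (XT.lf (nat_lit 0) (nat_lit 11913795602) (nat_lit 912) (nat_lit 2234472731) (nat_lit 76) (nat_lit 13309559309) (nat_lit 303) (nat_lit 5) (nat_lit 315) (nat_lit 5) (nat_lit 304) (nat_lit 5) (nat_lit 334) (nat_lit 313) (nat_lit 133)) (XT.lf (nat_lit 0) (nat_lit 15503304259) (nat_lit 912) (nat_lit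 10458899730) (nat_lit 76) (nat_lit 1964085503) (nat_lit 292) (nat_lit 5) (nat_lit 304) (nat_lit 5) (nat_lit 293) (nat_lit 5) (nat_lit 335) (nat_lit 313) (nat_lit 132))))) (XT.nd (nat_lit 234) (nat_lit 2204) (nat_lit 0) (XT.nd (nat_lit 78) (nat_lit 760) (nat_lit 0) (XT.lf (nat_lit 0) (nat_lit 9406033158) (nat_lit 760) (nat_lit 9960102720) (nat_lit 836) (nat_lit 9039361607) (nat_lit 282) (nat_lit 5) (nat_lit 292) (nat_lit 5) (nat_lit 293) (nat_lit 5) (nat_lit 336) (nat_lit 313) (nat_lit 131)) (XT.nd (nat_lit 78) (nat_lit 0) (nat_lit 0) (XT.lf (nat_lit 0) (nat_lit 1078712564) (nat_lit 760) (nat_lit 22381665008) (nat_lit 836) (nat_lit 5436398542) (nat_lit 272) (nat_lit 5) (nat_lit 282) (nat_lit 5) (nat_lit 283) (nat_lit 5) (nat_lit 337) (nat_lit 313) (nat_lit 130)) (XT.lf (nat_lit 0) (nat_lit 21946858405) (nat_lit 760) (nat_lit 5920455916) (nat_lit 836) (nat_lit 1531686178) (nat_lit 272) (nat_lit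 5) (nat_lit 282) (nat_lit 5) (nat_lit 283) (nat_lit 5) (nat_lit 338) (nat_lit 313) (nat_lit 129)))) (XT.nd (nat_lit 156) (nat_lit 684) (nat_lit 0) (XT.nd (nat_lit 78) (nat_lit 760) (nat_lit 0) (XT.lf (nat_lit 0) (nat_lit 2613750497) (nat_lit 760) (nat_lit 16303465176) (nat_lit 76) (nat_lit 10995632271) (nat_lit 262) (nat_lit 5) (nat_lit 272) (nat_lit 5) (nat_lit 263) (nat_lit 5) (nat_lit 339) (nat_lit 313) (nat_lit 128)) (XT.lf (nat_lit 0) (nat_lit 4973821878) (nat_lit 760) (nat_lit 2006930848) (nat_lit 836) (nat_lit 23458799750) (nat_lit 252) (nat_lit 5) (nat_lit 262) (nat_lit 5) (nat_lit 263) (nat_lit 5) (nat_lit 340) (nat_lit 313) (nat_lit 127))) (XT.nd (nat_lit 78) (nat_lit 684) (nat_lit 0) (XT.lf (nat_lit 0) (nat_lit 11685313793) (nat_lit 836) (nat_lit 3972962066) (nat_lit 76) (nat_lit 15319655575) (nat_lit 252) (nat_lit 5) (nat_lit 263) (nat_lit 5) (nat_lit 253) (nat_lit 5) (nat_lit 341)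 (nat_lit 313) (nat_lit 126)) (XT.lf (nat_lit 0) (nat_lit 16670459280) (nat_lit 760) (nat_lit 13153572722) (nat_lit 76) (nat_lit 1705644946) (nat_lit 243) (nat_lit 5) (nat_lit 253) (nat_lit 5) (nat_lit 244) (nat_lit 5) (nat_lit 342) (nat_lit 313) (nat_lit 125)))))) (XT.nd (nat_lit 38610) (nat_lit 0) (nat_lit 8816) (XT.nd (nat_lit 38376) (nat_lit 0) (nat_lit 8664) (XT.nd (nat_lit 78) (nat_lit 684) (nat_lit 0) (XT.lf (nat_lit 0) (nat_lit 9365740941) (nat_lit 684) (nat_lit 12627563242) (nat_lit 760) (nat_lit 10100911766) (nat_lit 234) (nat_lit 5) (nat_lit 243) (nat_lit 5) (nat_lit 244) (nat_lit 5) (nat_lit 343) (nat_lit 313) (nat_lit 124)) (XT.nd (nat_lit 78) (nat_lit 76) (nat_lit 0) (XT.lf (nat_lit 0) (nat_lit 28745998) (nat_lit 608) (nat_lit 27565631956) (nat_lit 684) (nat_lit 5078946196) (nat_lit 226) (nat_lit 5) (nat_lit 234) (nat_lit 5) (nat_lit 235) (nat_lit 5) (nat_lit 344) (nat_lit 313) (nat_lit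 123)) (XT.lf (nat_lit 0) (nat_lit 327615889) (nat_lit 684) (nat_lit 9577788751) (nat_lit 76) (nat_lit 23359689186) (nat_lit 225) (nat_lit 5) (nat_lit 234) (nat_lit 5) (nat_lit 226) (nat_lit 5) (nat_lit 345) (nat_lit 313) (nat_lit 122)))) (XT.nd (nat_lit 78) (nat_lit 0) (nat_lit 76) (XT.lf (nat_lit 0) (nat_lit 626762943) (nat_lit 1748) (nat_lit 4767578775) (nat_lit 1748) (nat_lit 4767578775) (nat_lit 339) (nat_lit 3) (nat_lit 362) (nat_lit 3) (nat_lit 362) (nat_lit 5) (nat_lit 314) (nat_lit 314) (nat_lit 152)) (XT.nd (nat_lit 78) (nat_lit 0) (nat_lit 0) (XT.lf (nat_lit 0) (nat_lit 1539511118) (nat_lit 1672) (nat_lit 16662676661) (nat_lit 1748) (nat_lit 2420936051) (nat_lit 340) (nat_lit 5) (nat_lit 362) (nat_lit 5) (nat_lit 363) (nat_lit 5) (nat_lit 315) (nat_lit 314) (nat_lit 151)) (XT.lf (nat_lit 0) (nat_lit 1962465843) (nat_lit 1672) (nat_lit 3015995316) (nat_lit 1748) (nat_lit 15950365223)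 (nat_lit 340) (nat_lit 5) (nat_lit 362) (nat_lit 5) (nat_lit 363) (nat_lit 5) (nat_lit 316) (nat_lit 314) (nat_lit 150))))) (XT.nd (nat_lit 234) (nat_lit 0) (nat_lit 152) (XT.nd (nat_lit 78) (nat_lit 0) (nat_lit 76) (XT.lf (nat_lit 0) (nat_lit 2518783011) (nat_lit 1672) (nat_lit 10116927174) (nat_lit 1748) (nat_lit 8605585106) (nat_lit 341) (nat_lit 5) (nat_lit 363) (nat_lit 5) (nat_lit 364) (nat_lit 5) (nat_lit 317) (nat_lit 314) (nat_lit 149)) (XT.nd (nat_lit 78) (nat_lit 0) (nat_lit 0) (XT.lf (nat_lit 0) (nat_lit 3171142692) (nat_lit 1672) (nat_lit 17384118466) (nat_lit 1748) (nat_lit 1006298550) (nat_lit 342) (nat_lit 5) (nat_lit 364) (nat_lit 5) (nat_lit 365) (nat_lit 5) (nat_lit 318) (nat_lit 314) (nat_lit 148)) (XT.lf (nat_lit 0) (nat_lit 3988517028) (nat_lit 1672) (nat_lit 2940758125) (nat_lit 1748) (nat_lit 14959256283) (nat_lit 342) (nat_lit 5) (nat_lit 364) (nat_lit 5) (nat_lit 365)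 (nat_lit 5) (nat_lit 319) (nat_lit 314) (nat_lit 147)))) (XT.nd (nat_lit 156) (nat_lit 0) (nat_lit 76) (XT.nd (nat_lit 78) (nat_lit 0) (nat_lit 0) (XT.lf (nat_lit 0) (nat_lit 4947749465) (nat_lit 1672) (nat_lit 10180842183) (nat_lit 1748) (nat_lit 7094381946) (nat_lit 343) (nat_lit 5) (nat_lit 365) (nat_lit 5) (nat_lit 366) (nat_lit 5) (nat_lit 320) (nat_lit 314) (nat_lit 146)) (XT.lf (nat_lit 76) (nat_lit 4961483501) (nat_lit 0) (nat_lit 1065273243) (nat_lit 1748) (nat_lit 16538880094) (nat_lit 344) (nat_lit 5) (nat_lit 343) (nat_lit 5) (nat_lit 366) (nat_lit 5) (nat_lit 321) (nat_lit 314) (nat_lit 145))) (XT.nd (nat_lit 78) (nat_lit 0) (nat_lit 76) (XT.lf (nat_lit 0) (nat_lit 7287305224) (nat_lit 1672) (nat_lit 2312274279) (nat_lit 1748) (nat_lit 13316024612) (nat_lit 344) (nat_lit 5) (nat_lit 366) (nat_lit 5) (nat_lit 367) (nat_lit 5) (nat_lit 322) (nat_lit 314) (nat_lit 144)) (XT.lf (nat_lit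 0) (nat_lit 8705951112) (nat_lit 1672) (nat_lit 9701438265) (nat_lit 1748) (nat_lit 4866282748) (nat_lit 345) (nat_lit 5) (nat_lit 367) (nat_lit 5) (nat_lit 368) (nat_lit 5) (nat_lit 323) (nat_lit 314) (nat_lit 143))))))) (XT.nd (nat_lit 1014) (nat_lit 5016) (nat_lit 0) (XT.nd (nat_lit 468) (nat_lit 4028) (nat_lit 0) (XT.nd (nat_lit 234) (nat_lit 0) (nat_lit 152) (XT.nd (nat_lit 78) (nat_lit 0) (nat_lit 76) (XT.lf (nat_lit 76) (nat_lit 6336702402) (nat_lit 0) (nat_lit 3944569070) (nat_lit 1748) (nat_lit 13358935522) (nat_lit 346) (nat_lit 5) (nat_lit 345) (nat_lit 5) (nat_lit 368) (nat_lit 5) (nat_lit 324) (nat_lit 314) (nat_lit 142)) (XT.nd (nat_lit 78) (nat_lit 0) (nat_lit 76) (XT.lf (nat_lit 0) (nat_lit 12034325202) (nat_lit 1672) (nat_lit 1104126009) (nat_lit 1748) (nat_lit 10876684137) (nat_lit 346) (nat_lit 5) (nat_lit 368) (nat_lit 5) (nat_lit 369) (nat_lit 5) (nat_lit 325) (nat_lit 314)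 (nat_lit 141)) (XT.lf (nat_lit 0) (nat_lit 13973693024) (nat_lit 1672) (nat_lit 8653819305) (nat_lit 1748) (nat_lit 1771131484) (nat_lit 347) (nat_lit 5) (nat_lit 369) (nat_lit 5) (nat_lit 370) (nat_lit 5) (nat_lit 326) (nat_lit 314) (nat_lit 140)))) (XT.nd (nat_lit 78) (nat_lit 0) (nat_lit 76) (XT.lf (nat_lit 76) (nat_lit 8337417514) (nat_lit 0) (nat_lit 7776911892) (nat_lit 1748) (nat_lit 8676472894) (nat_lit 348) (nat_lit 5) (nat_lit 347) (nat_lit 5) (nat_lit 370) (nat_lit 5) (nat_lit 327) (nat_lit 314) (nat_lit 139)) (XT.nd (nat_lit 78) (nat_lit 0) (nat_lit 0) (XT.lf (nat_lit 76) (nat_lit 718581006) (nat_lit 0) (nat_lit 17706845953) (nat_lit 1748) (nat_lit 6767180066) (nat_lit 349) (nat_lit 5) (nat_lit 348) (nat_lit 5) (nat_lit 371) (nat_lit 5) (nat_lit 328) (nat_lit 314) (nat_lit 138)) (XT.lf (nat_lit 76) (nat_lit 18573374609) (nat_lit 0) (nat_lit 2389520410) (nat_lit 1748) (nat_lit 4640436264)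 (nat_lit 349) (nat_lit 5) (nat_lit 348) (nat_lit 5) (nat_lit 371) (nat_lit 5) (nat_lit 329) (nat_lit 314) (nat_lit 137))))) (XT.nd (nat_lit 234) (nat_lit 2660) (nat_lit 0) (XT.nd (nat_lit 78) (nat_lit 1672) (nat_lit 0) (XT.lf (nat_lit 76) (nat_lit 10989808170) (nat_lit 0) (nat_lit 12739016524) (nat_lit 1748) (nat_lit 2294511786) (nat_lit 350) (nat_lit 5) (nat_lit 349) (nat_lit 5) (nat_lit 372) (nat_lit 5) (nat_lit 330) (nat_lit 314) (nat_lit 136)) (XT.nd (nat_lit 78) (nat_lit 0) (nat_lit 0) (XT.lf (nat_lit 0) (nat_lit 218699150) (nat_lit 1748) (nat_lit 23262318160) (nat_lit 76) (nat_lit 2972944265) (nat_lit 327) (nat_lit 5) (nat_lit 350) (nat_lit 5) (nat_lit 328) (nat_lit 5) (nat_lit 331) (nat_lit 314) (nat_lit 135)) (XT.lf (nat_lit 0) (nat_lit 2958356760) (nat_lit 1748) (nat_lit 4832219020) (nat_lit 76) (nat_lit 19102987343) (nat_lit 327) (nat_lit 5) (nat_lit 350) (nat_lit 5) (nat_lit 328) (nat_lit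 5) (nat_lit 332) (nat_lit 314) (nat_lit 134)))) (XT.nd (nat_lit 156) (nat_lit 836) (nat_lit 0) (XT.nd (nat_lit 78) (nat_lit 836) (nat_lit 0) (XT.lf (nat_lit 0) (nat_lit 5922712652) (nat_lit 1064) (nat_lit 13065549196) (nat_lit 76) (nat_lit 8355246048) (nat_lit 314) (nat_lit 5) (nat_lit 328) (nat_lit 5) (nat_lit 315) (nat_lit 5) (nat_lit 333) (nat_lit 314) (nat_lit 133)) (XT.lf (nat_lit 0) (nat_lit 6246102301) (nat_lit 836) (nat_lit 2850120418) (nat_lit 912) (nat_lit 18708329019) (nat_lit 303) (nat_lit 5) (nat_lit 314) (nat_lit 5) (nat_lit 315) (nat_lit 5) (nat_lit 334) (nat_lit 314) (nat_lit 132))) (XT.nd (nat_lit 78) (nat_lit 836) (nat_lit 0) (XT.lf (nat_lit 0) (nat_lit 12538217875) (nat_lit 912) (nat_lit 2056540463) (nat_lit 76) (nat_lit 13681208004) (nat_lit 303) (nat_lit 5) (nat_lit 315) (nat_lit 5) (nat_lit 304) (nat_lit 5) (nat_lit 335) (nat_lit 314) (nat_lit 131)) (XT.lf (nat_lit 0) (nat_lit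 16229070948) (nat_lit 912) (nat_lit 10526081552) (nat_lit 76) (nat_lit 2003463819) (nat_lit 292) (nat_lit 5) (nat_lit 304) (nat_lit 5) (nat_lit 293) (nat_lit 5) (nat_lit 336) (nat_lit 314) (nat_lit 130)))))) (XT.nd (nat_lit 468) (nat_lit 1976) (nat_lit 0) (XT.nd (nat_lit 234) (nat_lit 1520) (nat_lit 0) (XT.nd (nat_lit 78) (nat_lit 760) (nat_lit 0) (XT.lf (nat_lit 0) (nat_lit 9930798770) (nat_lit 760) (nat_lit 10270971507) (nat_lit 836) (nat_lit 9050557859) (nat_lit 282) (nat_lit 5) (nat_lit 292) (nat_lit 5) (nat_lit 293) (nat_lit 5) (nat_lit 337) (nat_lit 314) (nat_lit 129)) (XT.nd (nat_lit 78) (nat_lit 0) (nat_lit 0) (XT.lf (nat_lit 0) (nat_lit 1355047710) (nat_lit 760) (nat_lit 23057882494) (nat_lit 836) (nat_lit 5345540127) (nat_lit 272) (nat_lit 5) (nat_lit 282) (nat_lit 5) (nat_lit 283) (nat_lit 5) (nat_lit 338) (nat_lit 314) (nat_lit 128)) (XT.lf (nat_lit 0) (nat_lit 22842131894) (nat_lit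 760) (nat_lit 6102698269) (nat_lit 836) (nat_lit 1331083004) (nat_lit 272) (nat_lit 5) (nat_lit 282) (nat_lit 5) (nat_lit 283) (nat_lit 5) (nat_lit 339) (nat_lit 314) (nat_lit 127)))) (XT.nd (nat_lit 78) (nat_lit 760) (nat_lit 0) (XT.lf (nat_lit 0) (nat_lit 2929922490) (nat_lit 760) (nat_lit 16551163267) (nat_lit 76) (nat_lit 11324175971) (nat_lit 262) (nat_lit 5) (nat_lit 272) (nat_lit 5) (nat_lit 263) (nat_lit 5) (nat_lit 340) (nat_lit 314) (nat_lit 126)) (XT.nd (nat_lit 78) (nat_lit 0) (nat_lit 0) (XT.lf (nat_lit 0) (nat_lit 5360525875) (nat_lit 760) (nat_lit 2062025817) (nat_lit 836) (nat_lit 23925329672) (nat_lit 252) (nat_lit 5) (nat_lit 262) (nat_lit 5) (nat_lit 263) (nat_lit 5) (nat_lit 341) (nat_lit 314) (nat_lit 125)) (XT.lf (nat_lit 0) (nat_lit 12261513575) (nat_lit 836) (nat_lit 3856894781) (nat_lit 76) (nat_lit 15784144174) (nat_lit 252) (nat_lit 5) (nat_lit 263) (nat_lit 5) (nat_lit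 253) (nat_lit 5) (nat_lit 342) (nat_lit 314) (nat_lit 124))))) (XT.nd (nat_lit 38454) (nat_lit 0) (nat_lit 8588) (XT.nd (nat_lit 78) (nat_lit 1292) (nat_lit 0) (XT.lf (nat_lit 0) (nat_lit 17391214601) (nat_lit 760) (nat_lit 13312201559) (nat_lit 76) (nat_lit 1767540171) (nat_lit 243) (nat_lit 5) (nat_lit 253) (nat_lit 5) (nat_lit 244) (nat_lit 5) (nat_lit 343) (nat_lit 314) (nat_lit 123)) (XT.nd (nat_lit 78) (nat_lit 608) (nat_lit 0) (XT.lf (nat_lit 0) (nat_lit 9878863046) (nat_lit 684) (nat_lit 12989962623) (nat_lit 760) (nat_lit 10183709985) (nat_lit 234) (nat_lit 5) (nat_lit 243) (nat_lit 5) (nat_lit 244) (nat_lit 5) (nat_lit 344) (nat_lit 314) (nat_lit 122)) (XT.lf (nat_lit 0) (nat_lit 262320627) (nat_lit 608) (nat_lit 28370942325) (nat_lit 684) (nat_lit 5015853126) (nat_lit 226) (nat_lit 5) (nat_lit 234) (nat_lit 5) (nat_lit 235) (nat_lit 5) (nat_lit 345) (nat_lit 314) (nat_lit 121)))) (XT.nd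 (nat_lit 156) (nat_lit 0) (nat_lit 76) (XT.nd (nat_lit 78) (nat_lit 0) (nat_lit 76) (XT.lf (nat_lit 0) (nat_lit 868834609) (nat_lit 1748) (nat_lit 4796624610) (nat_lit 1748) (nat_lit 4796624610) (nat_lit 339) (nat_lit 3) (nat_lit 362) (nat_lit 3) (nat_lit 362) (nat_lit 5) (nat_lit 315) (nat_lit 315) (nat_lit 150)) (XT.lf (nat_lit 0) (nat_lit 2019315981) (nat_lit 1672) (nat_lit 16927779957) (nat_lit 1748) (nat_lit 2285604747) (nat_lit 340) (nat_lit 5) (nat_lit 362) (nat_lit 5) (nat_lit 363) (nat_lit 5) (nat_lit 316) (nat_lit 315) (nat_lit 149))) (XT.nd (nat_lit 78) (nat_lit 0) (nat_lit 76) (XT.lf (nat_lit 0) (nat_lit 2442329653) (nat_lit 1672) (nat_lit 2878536336) (nat_lit 1748) (nat_lit 16226973863) (nat_lit 340) (nat_lit 5) (nat_lit 362) (nat_lit 5) (nat_lit 363) (nat_lit 5) (nat_lit 317) (nat_lit 315) (nat_lit 148)) (XT.lf (nat_lit 0) (nat_lit 3003323150) (nat_lit 1672) (nat_lit 10186364286)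 (nat_lit 1748) (nat_lit 8680248224) (nat_lit 341) (nat_lit 5) (nat_lit 363) (nat_lit 5) (nat_lit 364) (nat_lit 5) (nat_lit 318) (nat_lit 315) (nat_lit 147))))))))
noncomputable def xc123 : XT := (XT.nd (nat_lit 40482) (nat_lit 0) (nat_lit 0) (XT.nd (nat_lit 1014) (nat_lit 6840) (nat_lit 0) (XT.nd (nat_lit 468) (nat_lit 0) (nat_lit 228) (XT.nd (nat_lit 234) (nat_lit 0) (nat_lit 76) (XT.nd (nat_lit 78) (nat_lit 0) (nat_lit 0) (XT.lf (nat_lit 0) (nat_lit 3663744139) (nat_lit 1672) (nat_lit 17665898258) (nat_lit 1748) (nat_lit 870408006) (nat_lit 342) (nat_lit 5) (nat_lit 364) (nat_lit 5) (nat_lit 365) (nat_lit 5) (nat_lit 319) (nat_lit 315) (nat_lit 146)) (XT.nd (nat_lit 78) (nat_lit 0) (nat_lit 76) (XT.lf (nat_lit 0) (nat_lit 4494062991) (nat_lit 1672) (nat_lit 2796219935) (nat_lit 1748) (nat_lit 15246791738) (nat_lit 342) (nat_lit 5) (nat_lit 364) (nat_lit 5) (nat_lit 365) (nat_lit 5) (nat_lit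 320) (nat_lit 315) (nat_lit 145)) (XT.lf (nat_lit 0) (nat_lit 5471364178) (nat_lit 1672) (nat_lit 10248421212) (nat_lit 1748) (nat_lit 7161990362) (nat_lit 343) (nat_lit 5) (nat_lit 365) (nat_lit 5) (nat_lit 366) (nat_lit 5) (nat_lit 321) (nat_lit 315) (nat_lit 144)))) (XT.nd (nat_lit 78) (nat_lit 0) (nat_lit 76) (XT.lf (nat_lit 76) (nat_lit 5344315470) (nat_lit 0) (nat_lit 1229017770) (nat_lit 1748) (nat_lit 16661584990) (nat_lit 344) (nat_lit 5) (nat_lit 343) (nat_lit 5) (nat_lit 366) (nat_lit 5) (nat_lit 322) (nat_lit 315) (nat_lit 143)) (XT.nd (nat_lit 78) (nat_lit 0) (nat_lit 76) (XT.lf (nat_lit 0) (nat_lit 7860213846) (nat_lit 1672) (nat_lit 2146175691) (nat_lit 1748) (nat_lit 13589235516) (nat_lit 344) (nat_lit 5) (nat_lit 366) (nat_lit 5) (nat_lit 367) (nat_lit 5) (nat_lit 323) (nat_lit 315) (nat_lit 142)) (XT.lf (nat_lit 0) (nat_lit 9311864959) (nat_lit 1672) (nat_lit 9752835365) (nat_lit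 1748) (nat_lit 4899936390) (nat_lit 345) (nat_lit 5) (nat_lit 367) (nat_lit 5) (nat_lit 368) (nat_lit 5) (nat_lit 324) (nat_lit 315) (nat_lit 141))))) (XT.nd (nat_lit 234) (nat_lit 0) (nat_lit 152) (XT.nd (nat_lit 78) (nat_lit 0) (nat_lit 76) (XT.lf (nat_lit 76) (nat_lit 6762561550) (nat_lit 0) (nat_lit 4163373243) (nat_lit 1748) (nat_lit 13416413258) (nat_lit 346) (nat_lit 5) (nat_lit 345) (nat_lit 5) (nat_lit 368) (nat_lit 5) (nat_lit 325) (nat_lit 315) (nat_lit 140)) (XT.nd (nat_lit 78) (nat_lit 0) (nat_lit 76) (XT.lf (nat_lit 0) (nat_lit 12721153868) (nat_lit 1672) (nat_lit 900865781) (nat_lit 1748) (nat_lit 11106723052) (nat_lit 346) (nat_lit 5) (nat_lit 368) (nat_lit 5) (nat_lit 369) (nat_lit 5) (nat_lit 326) (nat_lit 315) (nat_lit 139)) (XT.lf (nat_lit 0) (nat_lit 14710169666) (nat_lit 1672) (nat_lit 8673653809) (nat_lit 1748) (nat_lit 1740113241) (nat_lit 347) (nat_lit 5) (nat_lit 369)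 (nat_lit 5) (nat_lit 370) (nat_lit 5) (nat_lit 327) (nat_lit 315) (nat_lit 138)))) (XT.nd (nat_lit 156) (nat_lit 0) (nat_lit 76) (XT.nd (nat_lit 78) (nat_lit 0) (nat_lit 76) (XT.lf (nat_lit 76) (nat_lit 8823429968) (nat_lit 0) (nat_lit 8083885972) (nat_lit 1748) (nat_lit 8620707553) (nat_lit 348) (nat_lit 5) (nat_lit 347) (nat_lit 5) (nat_lit 370) (nat_lit 5) (nat_lit 328) (nat_lit 315) (nat_lit 137)) (XT.lf (nat_lit 76) (nat_lit 979069239) (nat_lit 0) (nat_lit 18300747903) (nat_lit 1748) (nat_lit 6662232883) (nat_lit 349) (nat_lit 5) (nat_lit 348) (nat_lit 5) (nat_lit 371) (nat_lit 5) (nat_lit 329) (nat_lit 315) (nat_lit 136))) (XT.nd (nat_lit 78) (nat_lit 0) (nat_lit 76) (XT.lf (nat_lit 76) (nat_lit 19362547500) (nat_lit 0) (nat_lit 2522076480) (nat_lit 1748) (nat_lit 4480656551) (nat_lit 349) (nat_lit 5) (nat_lit 348) (nat_lit 5) (nat_lit 371) (nat_lit 5) (nat_lit 330) (nat_lit 315) (nat_lit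 135)) (XT.lf (nat_lit 76) (nat_lit 11554150306) (nat_lit 0) (nat_lit 13171991647) (nat_lit 1748) (nat_lit 2071900283) (nat_lit 350) (nat_lit 5) (nat_lit 349) (nat_lit 5) (nat_lit 372) (nat_lit 5) (nat_lit 331) (nat_lit 315) (nat_lit 134)))))) (XT.nd (nat_lit 468) (nat_lit 3040) (nat_lit 0) (XT.nd (nat_lit 234) (nat_lit 1672) (nat_lit 0) (XT.nd (nat_lit 78) (nat_lit 988) (nat_lit 0) (XT.lf (nat_lit 0) (nat_lit 505734182) (nat_lit 1748) (nat_lit 23719126203) (nat_lit 76) (nat_lit 3016839008) (nat_lit 327) (nat_lit 5) (nat_lit 350) (nat_lit 5) (nat_lit 328) (nat_lit 5) (nat_lit 332) (nat_lit 315) (nat_lit 133)) (XT.nd (nat_lit 78) (nat_lit 988) (nat_lit 0) (XT.lf (nat_lit 0) (nat_lit 3319412373) (nat_lit 1748) (nat_lit 4743145297) (nat_lit 76) (nat_lit 19632102609) (nat_lit 327) (nat_lit 5) (nat_lit 350) (nat_lit 5) (nat_lit 328) (nat_lit 5) (nat_lit 333) (nat_lit 315) (nat_lit 132)) (XT.lf (nat_lit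 0) (nat_lit 6366031319) (nat_lit 1064) (nat_lit 13221467769) (nat_lit 76) (nat_lit 8570745339) (nat_lit 314) (nat_lit 5) (nat_lit 328) (nat_lit 5) (nat_lit 315) (nat_lit 5) (nat_lit 334) (nat_lit 315) (nat_lit 131)))) (XT.nd (nat_lit 78) (nat_lit 836) (nat_lit 0) (XT.lf (nat_lit 0) (nat_lit 6665703676) (nat_lit 836) (nat_lit 2962813719) (nat_lit 912) (nat_lit 19004734230) (nat_lit 303) (nat_lit 5) (nat_lit 314) (nat_lit 5) (nat_lit 315) (nat_lit 5) (nat_lit 335) (nat_lit 315) (nat_lit 130)) (XT.nd (nat_lit 78) (nat_lit 836) (nat_lit 0) (XT.lf (nat_lit 0) (nat_lit 13166045442) (nat_lit 912) (nat_lit 1887332303) (nat_lit 76) (nat_lit 14065592700) (nat_lit 303) (nat_lit 5) (nat_lit 315) (nat_lit 5) (nat_lit 304) (nat_lit 5) (nat_lit 336) (nat_lit 315) (nat_lit 129)) (XT.lf (nat_lit 0) (nat_lit 16961647254) (nat_lit 912) (nat_lit 10609433828) (nat_lit 76) (nat_lit 2045145404) (nat_lit 292) (nat_lit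 5) (nat_lit 304) (nat_lit 5) (nat_lit 293) (nat_lit 5) (nat_lit 337) (nat_lit 315) (nat_lit 128))))) (XT.nd (nat_lit 234) (nat_lit 1520) (nat_lit 0) (XT.nd (nat_lit 78) (nat_lit 760) (nat_lit 0) (XT.lf (nat_lit 0) (nat_lit 10457382002) (nat_lit 760) (nat_lit 10590473737) (nat_lit 836) (nat_lit 9077014178) (nat_lit 282) (nat_lit 5) (nat_lit 292) (nat_lit 5) (nat_lit 293) (nat_lit 5) (nat_lit 338) (nat_lit 315) (nat_lit 127)) (XT.nd (nat_lit 78) (nat_lit 0) (nat_lit 0) (XT.lf (nat_lit 0) (nat_lit 1625667819) (nat_lit 760) (nat_lit 23754112829) (nat_lit 836) (nat_lit 5266533749) (nat_lit 272) (nat_lit 5) (nat_lit 282) (nat_lit 5) (nat_lit 283) (nat_lit 5) (nat_lit 339) (nat_lit 315) (nat_lit 126)) (XT.lf (nat_lit 0) (nat_lit 23750666411) (nat_lit 760) (nat_lit 6290142188) (nat_lit 836) (nat_lit 1138614929) (nat_lit 272) (nat_lit 5) (nat_lit 282) (nat_lit 5) (nat_lit 283) (nat_lit 5) (nat_lit 340)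 (nat_lit 315) (nat_lit 125)))) (XT.nd (nat_lit 156) (nat_lit 0) (nat_lit 0) (XT.nd (nat_lit 78) (nat_lit 760) (nat_lit 0) (XT.lf (nat_lit 0) (nat_lit 3241931276) (nat_lit 760) (nat_lit 16820149986) (nat_lit 76) (nat_lit 11662652057) (nat_lit 262) (nat_lit 5) (nat_lit 272) (nat_lit 5) (nat_lit 263) (nat_lit 5) (nat_lit 341) (nat_lit 315) (nat_lit 124)) (XT.lf (nat_lit 0) (nat_lit 5745198132) (nat_lit 760) (nat_lit 2119067139) (nat_lit 836) (nat_lit 24419473697) (nat_lit 252) (nat_lit 5) (nat_lit 262) (nat_lit 5) (nat_lit 263) (nat_lit 5) (nat_lit 342) (nat_lit 315) (nat_lit 123))) (XT.nd (nat_lit 38532) (nat_lit 0) (nat_lit 6612) (XT.lf (nat_lit 0) (nat_lit 12842046671) (nat_lit 836) (nat_lit 3750850143) (nat_lit 76) (nat_lit 16262286212) (nat_lit 252) (nat_lit 5) (nat_lit 263) (nat_lit 5) (nat_lit 253) (nat_lit 5) (nat_lit 343) (nat_lit 315) (nat_lit 122)) (XT.lf (nat_lit 0) (nat_lit 1105351885)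 (nat_lit 1748) (nat_lit 4833084826) (nat_lit 1748) (nat_lit 4833084826) (nat_lit 339) (nat_lit 3) (nat_lit 362) (nat_lit 3) (nat_lit 362) (nat_lit 5) (nat_lit 316) (nat_lit 316) (nat_lit 148))))))) (XT.nd (nat_lit 1014) (nat_lit 6688) (nat_lit 0) (XT.nd (nat_lit 468) (nat_lit 0) (nat_lit 228) (XT.nd (nat_lit 234) (nat_lit 0) (nat_lit 152) (XT.nd (nat_lit 78) (nat_lit 0) (nat_lit 0) (XT.lf (nat_lit 0) (nat_lit 2488623455) (nat_lit 1672) (nat_lit 17214313511) (nat_lit 1748) (nat_lit 2158151223) (nat_lit 340) (nat_lit 5) (nat_lit 362) (nat_lit 5) (nat_lit 363) (nat_lit 5) (nat_lit 317) (nat_lit 316) (nat_lit 147)) (XT.nd (nat_lit 78) (nat_lit 0) (nat_lit 76) (XT.lf (nat_lit 0) (nat_lit 2912422838) (nat_lit 1672) (nat_lit 2750038208) (nat_lit 1748) (nat_lit 16523470781) (nat_lit 340) (nat_lit 5) (nat_lit 362) (nat_lit 5) (nat_lit 363) (nat_lit 5) (nat_lit 318) (nat_lit 316) (nat_lit 146)) (XT.lf (nat_lit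 0) (nat_lit 3478922560) (nat_lit 1672) (nat_lit 10271321127) (nat_lit 1748) (nat_lit 8767685141) (nat_lit 341) (nat_lit 5) (nat_lit 363) (nat_lit 5) (nat_lit 364) (nat_lit 5) (nat_lit 319) (nat_lit 316) (nat_lit 145)))) (XT.nd (nat_lit 78) (nat_lit 0) (nat_lit 0) (XT.lf (nat_lit 0) (nat_lit 4148307387) (nat_lit 1672) (nat_lit 17969893717) (nat_lit 1748) (nat_lit 739974388) (nat_lit 342) (nat_lit 5) (nat_lit 364) (nat_lit 5) (nat_lit 365) (nat_lit 5) (nat_lit 320) (nat_lit 316) (nat_lit 144)) (XT.nd (nat_lit 78) (nat_lit 0) (nat_lit 76) (XT.lf (nat_lit 0) (nat_lit 4992623641) (nat_lit 1672) (nat_lit 2660707029) (nat_lit 1748) (nat_lit 15552209221) (nat_lit 342) (nat_lit 5) (nat_lit 364) (nat_lit 5) (nat_lit 365) (nat_lit 5) (nat_lit 321) (nat_lit 316) (nat_lit 143)) (XT.lf (nat_lit 0) (nat_lit 5989150338) (nat_lit 1672) (nat_lit 10331680959) (nat_lit 1748) (nat_lit 7239963427) (nat_lit 343) (nat_lit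 5) (nat_lit 365) (nat_lit 5) (nat_lit 366) (nat_lit 5) (nat_lit 322) (nat_lit 316) (nat_lit 142))))) (XT.nd (nat_lit 234) (nat_lit 0) (nat_lit 152) (XT.nd (nat_lit 78) (nat_lit 0) (nat_lit 76) (XT.lf (nat_lit 76) (nat_lit 5725200560) (nat_lit 0) (nat_lit 1390109559) (nat_lit 1748) (nat_lit 16809409251) (nat_lit 344) (nat_lit 5) (nat_lit 343) (nat_lit 5) (nat_lit 366) (nat_lit 5) (nat_lit 323) (nat_lit 316) (nat_lit 141)) (XT.nd (nat_lit 78) (nat_lit 0) (nat_lit 76) (XT.lf (nat_lit 0) (nat_lit 8429972062) (nat_lit 1672) (nat_lit 1988610904) (nat_lit 1748) (nat_lit 13877891153) (nat_lit 344) (nat_lit 5) (nat_lit 366) (nat_lit 5) (nat_lit 367) (nat_lit 5) (nat_lit 324) (nat_lit 316) (nat_lit 140)) (XT.lf (nat_lit 0) (nat_lit 9916167004) (nat_lit 1672) (nat_lit 9819531041) (nat_lit 1748) (nat_lit 4941048120) (nat_lit 345) (nat_lit 5) (nat_lit 367) (nat_lit 5) (nat_lit 368) (nat_lit 5) (nat_lit 325)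 (nat_lit 316) (nat_lit 139)))) (XT.nd (nat_lit 156) (nat_lit 0) (nat_lit 152) (XT.nd (nat_lit 78) (nat_lit 0) (nat_lit 76) (XT.lf (nat_lit 76) (nat_lit 7187662995) (nat_lit 0) (nat_lit 4382974319) (nat_lit 1748) (nat_lit 13495321595) (nat_lit 346) (nat_lit 5) (nat_lit 345) (nat_lit 5) (nat_lit 368) (nat_lit 5) (nat_lit 326) (nat_lit 316) (nat_lit 138)) (XT.lf (nat_lit 0) (nat_lit 13409885205) (nat_lit 1672) (nat_lit 705077156) (nat_lit 1748) (nat_lit 11349188945) (nat_lit 346) (nat_lit 5) (nat_lit 368) (nat_lit 5) (nat_lit 369) (nat_lit 5) (nat_lit 327) (nat_lit 316) (nat_lit 137))) (XT.nd (nat_lit 78) (nat_lit 0) (nat_lit 0) (XT.lf (nat_lit 0) (nat_lit 15450528249) (nat_lit 1672) (nat_lit 8707847705) (nat_lit 1748) (nat_lit 1712995131) (nat_lit 347) (nat_lit 5) (nat_lit 369) (nat_lit 5) (nat_lit 370) (nat_lit 5) (nat_lit 328) (nat_lit 316) (nat_lit 136)) (XT.lf (nat_lit 76) (nat_lit 9310481749)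 (nat_lit 0) (nat_lit 8395840503) (nat_lit 1748) (nat_lit 8581412362) (nat_lit 348) (nat_lit 5) (nat_lit 347) (nat_lit 5) (nat_lit 370) (nat_lit 5) (nat_lit 329) (nat_lit 316) (nat_lit 135)))))) (XT.nd (nat_lit 546) (nat_lit 3876) (nat_lit 0) (XT.nd (nat_lit 234) (nat_lit 3420) (nat_lit 0) (XT.nd (nat_lit 78) (nat_lit 0) (nat_lit 0) (XT.lf (nat_lit 76) (nat_lit 1233656514) (nat_lit 0) (nat_lit 18908867871) (nat_lit 1748) (nat_lit 6571815598) (nat_lit 349) (nat_lit 5) (nat_lit 348) (nat_lit 5) (nat_lit 371) (nat_lit 5) (nat_lit 330) (nat_lit 316) (nat_lit 134)) (XT.nd (nat_lit 78) (nat_lit 0) (nat_lit 76) (XT.lf (nat_lit 76) (nat_lit 20162079457) (nat_lit 0) (nat_lit 2655115019) (nat_lit 1748) (nat_lit 4333246858) (nat_lit 349) (nat_lit 5) (nat_lit 348) (nat_lit 5) (nat_lit 371) (nat_lit 5) (nat_lit 331) (nat_lit 316) (nat_lit 133)) (XT.lf (nat_lit 76) (nat_lit 12121952956) (nat_lit 0) (nat_lit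 13615039631) (nat_lit 1748) (nat_lit 1859340676) (nat_lit 350) (nat_lit 5) (nat_lit 349) (nat_lit 5) (nat_lit 372) (nat_lit 5) (nat_lit 332) (nat_lit 316) (nat_lit 132)))) (XT.nd (nat_lit 156) (nat_lit 1824) (nat_lit 0) (XT.nd (nat_lit 78) (nat_lit 0) (nat_lit 0) (XT.lf (nat_lit 0) (nat_lit 785279906) (nat_lit 1748) (nat_lit 24203476403) (nat_lit 76) (nat_lit 3064650630) (nat_lit 327) (nat_lit 5) (nat_lit 350) (nat_lit 5) (nat_lit 328) (nat_lit 5) (nat_lit 333) (nat_lit 316) (nat_lit 131)) (XT.lf (nat_lit 0) (nat_lit 3675668238) (nat_lit 1748) (nat_lit 4664834233) (nat_lit 76) (nat_lit 20179615641) (nat_lit 327) (nat_lit 5) (nat_lit 350) (nat_lit 5) (nat_lit 328) (nat_lit 5) (nat_lit 334) (nat_lit 316) (nat_lit 130))) (XT.nd (nat_lit 78) (nat_lit 836) (nat_lit 0) (XT.lf (nat_lit 0) (nat_lit 6807400879) (nat_lit 1064) (nat_lit 13395614015) (nat_lit 76) (nat_lit 8794727826) (nat_lit 314) (nat_lit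 5) (nat_lit 328) (nat_lit 5) (nat_lit 315) (nat_lit 5) (nat_lit 335) (nat_lit 316) (nat_lit 129)) (XT.lf (nat_lit 0) (nat_lit 7084562812) (nat_lit 836) (nat_lit 3077327020) (nat_lit 912) (nat_lit 19325234764) (nat_lit 303) (nat_lit 5) (nat_lit 314) (nat_lit 5) (nat_lit 315) (nat_lit 5) (nat_lit 336) (nat_lit 316) (nat_lit 128))))) (XT.nd (nat_lit 234) (nat_lit 2280) (nat_lit 0) (XT.nd (nat_lit 78) (nat_lit 1596) (nat_lit 0) (XT.lf (nat_lit 0) (nat_lit 13798260314) (nat_lit 912) (nat_lit 1726302754) (nat_lit 76) (nat_lit 14463004401) (nat_lit 303) (nat_lit 5) (nat_lit 315) (nat_lit 5) (nat_lit 304) (nat_lit 5) (nat_lit 337) (nat_lit 316) (nat_lit 127)) (XT.nd (nat_lit 78) (nat_lit 760) (nat_lit 0) (XT.lf (nat_lit 0) (nat_lit 17702096423) (nat_lit 912) (nat_lit 10708629114) (nat_lit 76) (nat_lit 2089134954) (nat_lit 292) (nat_lit 5) (nat_lit 304) (nat_lit 5) (nat_lit 293) (nat_lit 5) (nat_lit 338)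 (nat_lit 316) (nat_lit 126)) (XT.lf (nat_lit 0) (nat_lit 10986636752) (nat_lit 760) (nat_lit 10918908171) (nat_lit 836) (nat_lit 9118331657) (nat_lit 282) (nat_lit 5) (nat_lit 292) (nat_lit 5) (nat_lit 293) (nat_lit 5) (nat_lit 339) (nat_lit 316) (nat_lit 125)))) (XT.nd (nat_lit 156) (nat_lit 1520) (nat_lit 0) (XT.nd (nat_lit 78) (nat_lit 0) (nat_lit 0) (XT.lf (nat_lit 0) (nat_lit 1891205387) (nat_lit 760) (nat_lit 24470972108) (nat_lit 836) (nat_lit 5198898145) (nat_lit 272) (nat_lit 5) (nat_lit 282) (nat_lit 5) (nat_lit 283) (nat_lit 5) (nat_lit 340) (nat_lit 316) (nat_lit 124)) (XT.lf (nat_lit 0) (nat_lit 24673640320) (nat_lit 760) (nat_lit 6482958973) (nat_lit 836) (nat_lit 953713556) (nat_lit 272) (nat_lit 5) (nat_lit 282) (nat_lit 5) (nat_lit 283) (nat_lit 5) (nat_lit 341) (nat_lit 316) (nat_lit 123))) (XT.nd (nat_lit 78) (nat_lit 760) (nat_lit 0) (XT.lf (nat_lit 0) (nat_lit 3550435432)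 (nat_lit 760) (nat_lit 17110268502) (nat_lit 76) (nat_lit 12011354135) (nat_lit 262) (nat_lit 5) (nat_lit 272) (nat_lit 5) (nat_lit 263) (nat_lit 5) (nat_lit 342) (nat_lit 316) (nat_lit 122)) (XT.lf (nat_lit 0) (nat_lit 6128560278) (nat_lit 760) (nat_lit 2178096357) (nat_lit 836) (nat_lit 24941278509) (nat_lit 252) (nat_lit 5) (nat_lit 262) (nat_lit 5) (nat_lit 263) (nat_lit 5) (nat_lit 343) (nat_lit 316) (nat_lit 121))))))))
noncomputable def xc124 : XT := (XT.nd (nat_lit 40482) (nat_lit 0) (nat_lit 1520) (XT.nd (nat_lit 39468) (nat_lit 0) (nat_lit 1520) (XT.nd (nat_lit 38922) (nat_lit 0) (nat_lit 6840) (XT.nd (nat_lit 38688) (nat_lit 0) (nat_lit 6688) (XT.nd (nat_lit 38532) (nat_lit 0) (nat_lit 6612) (XT.lf (nat_lit 0) (nat_lit 13427786617) (nat_lit 836) (nat_lit 3654353608) (nat_lit 76) (nat_lit 16754507436) (nat_lit 252) (nat_lit 5) (nat_lit 263) (nat_lit 5) (nat_lit 253) (nat_lit 5) (nat_lit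 344) (nat_lit 316) (nat_lit 120)) (XT.nd (nat_lit 78) (nat_lit 0) (nat_lit 76) (XT.lf (nat_lit 0) (nat_lit 1336883859) (nat_lit 1748) (nat_lit 4876806260) (nat_lit 1748) (nat_lit 4876806260) (nat_lit 339) (nat_lit 3) (nat_lit 362) (nat_lit 3) (nat_lit 362) (nat_lit 5) (nat_lit 317) (nat_lit 317) (nat_lit 146)) (XT.lf (nat_lit 0) (nat_lit 2948547495) (nat_lit 1672) (nat_lit 17522146589) (nat_lit 1748) (nat_lit 2038126538) (nat_lit 340) (nat_lit 5) (nat_lit 362) (nat_lit 5) (nat_lit 363) (nat_lit 5) (nat_lit 318) (nat_lit 317) (nat_lit 145)))) (XT.nd (nat_lit 78) (nat_lit 0) (nat_lit 76) (XT.lf (nat_lit 0) (nat_lit 3373839538) (nat_lit 1672) (nat_lit 2630018648) (nat_lit 1748) (nat_lit 16839787311) (nat_lit 340) (nat_lit 5) (nat_lit 362) (nat_lit 5) (nat_lit 363) (nat_lit 5) (nat_lit 319) (nat_lit 317) (nat_lit 144)) (XT.nd (nat_lit 78) (nat_lit 0) (nat_lit 76) (XT.lf (nat_lit 0) (nat_lit 3946660692)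 (nat_lit 1672) (nat_lit 10371491973) (nat_lit 1748) (nat_lit 8867674382) (nat_lit 341) (nat_lit 5) (nat_lit 363) (nat_lit 5) (nat_lit 364) (nat_lit 5) (nat_lit 320) (nat_lit 317) (nat_lit 143)) (XT.lf (nat_lit 0) (nat_lit 4625901037) (nat_lit 1672) (nat_lit 18295981301) (nat_lit 1748) (nat_lit 614614135) (nat_lit 342) (nat_lit 5) (nat_lit 364) (nat_lit 5) (nat_lit 365) (nat_lit 5) (nat_lit 321) (nat_lit 317) (nat_lit 142))))) (XT.nd (nat_lit 234) (nat_lit 0) (nat_lit 152) (XT.nd (nat_lit 78) (nat_lit 0) (nat_lit 76) (XT.lf (nat_lit 0) (nat_lit 5485261019) (nat_lit 1672) (nat_lit 2533723165) (nat_lit 1748) (nat_lit 15875513861) (nat_lit 342) (nat_lit 5) (nat_lit 364) (nat_lit 5) (nat_lit 365) (nat_lit 5) (nat_lit 322) (nat_lit 317) (nat_lit 141)) (XT.nd (nat_lit 78) (nat_lit 0) (nat_lit 0) (XT.lf (nat_lit 0) (nat_lit 6502169400) (nat_lit 1672) (nat_lit 10430308088) (nat_lit 1748) (nat_lit 7328133537)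 (nat_lit 343) (nat_lit 5) (nat_lit 365) (nat_lit 5) (nat_lit 366) (nat_lit 5) (nat_lit 323) (nat_lit 317) (nat_lit 140)) (XT.lf (nat_lit 76) (nat_lit 6104851407) (nat_lit 0) (nat_lit 1548903294) (nat_lit 1748) (nat_lit 16981875817) (nat_lit 344) (nat_lit 5) (nat_lit 343) (nat_lit 5) (nat_lit 366) (nat_lit 5) (nat_lit 324) (nat_lit 317) (nat_lit 139)))) (XT.nd (nat_lit 156) (nat_lit 0) (nat_lit 76) (XT.nd (nat_lit 78) (nat_lit 0) (nat_lit 76) (XT.lf (nat_lit 0) (nat_lit 8997652825) (nat_lit 1672) (nat_lit 1839060015) (nat_lit 1748) (nat_lit 14182038776) (nat_lit 344) (nat_lit 5) (nat_lit 366) (nat_lit 5) (nat_lit 367) (nat_lit 5) (nat_lit 325) (nat_lit 317) (nat_lit 138)) (XT.lf (nat_lit 0) (nat_lit 10519944875) (nat_lit 1672) (nat_lit 9901194562) (nat_lit 1748) (nat_lit 4989471513) (nat_lit 345) (nat_lit 5) (nat_lit 367) (nat_lit 5) (nat_lit 368) (nat_lit 5) (nat_lit 326) (nat_lit 317) (nat_lit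 137))) (XT.nd (nat_lit 78) (nat_lit 0) (nat_lit 76) (XT.lf (nat_lit 76) (nat_lit 7612760881) (nat_lit 0) (nat_lit 4603727266) (nat_lit 1748) (nat_lit 13595172230) (nat_lit 346) (nat_lit 5) (nat_lit 345) (nat_lit 5) (nat_lit 368) (nat_lit 5) (nat_lit 327) (nat_lit 317) (nat_lit 136)) (XT.lf (nat_lit 0) (nat_lit 14101649873) (nat_lit 1672) (nat_lit 516205341) (nat_lit 1748) (nat_lit 11604137421) (nat_lit 346) (nat_lit 5) (nat_lit 368) (nat_lit 5) (nat_lit 369) (nat_lit 5) (nat_lit 328) (nat_lit 317) (nat_lit 135)))))) (XT.nd (nat_lit 468) (nat_lit 4180) (nat_lit 0) (XT.nd (nat_lit 234) (nat_lit 1520) (nat_lit 0) (XT.nd (nat_lit 78) (nat_lit 0) (nat_lit 0) (XT.lf (nat_lit 0) (nat_lit 16195930696) (nat_lit 1672) (nat_lit 8756041644) (nat_lit 1748) (nat_lit 1689616856) (nat_lit 347) (nat_lit 5) (nat_lit 369) (nat_lit 5) (nat_lit 370) (nat_lit 5) (nat_lit 329) (nat_lit 317) (nat_lit 134)) (XT.nd (nat_lit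 78) (nat_lit 0) (nat_lit 76) (XT.lf (nat_lit 76) (nat_lit 9799381348) (nat_lit 0) (nat_lit 8713167648) (nat_lit 1748) (nat_lit 8558039936) (nat_lit 348) (nat_lit 5) (nat_lit 347) (nat_lit 5) (nat_lit 370) (nat_lit 5) (nat_lit 330) (nat_lit 317) (nat_lit 133)) (XT.lf (nat_lit 76) (nat_lit 1482953133) (nat_lit 0) (nat_lit 19531838999) (nat_lit 1748) (nat_lit 6495349299) (nat_lit 349) (nat_lit 5) (nat_lit 348) (nat_lit 5) (nat_lit 371) (nat_lit 5) (nat_lit 331) (nat_lit 317) (nat_lit 132)))) (XT.nd (nat_lit 78) (nat_lit 1596) (nat_lit 0) (XT.lf (nat_lit 76) (nat_lit 20973045650) (nat_lit 0) (nat_lit 2788851082) (nat_lit 1748) (nat_lit 4197593033) (nat_lit 349) (nat_lit 5) (nat_lit 348) (nat_lit 5) (nat_lit 371) (nat_lit 5) (nat_lit 332) (nat_lit 317) (nat_lit 131)) (XT.nd (nat_lit 78) (nat_lit 1672) (nat_lit 0) (XT.lf (nat_lit 76) (nat_lit 12694093157) (nat_lit 0) (nat_lit 14068630074) (nat_lit 1748)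 (nat_lit 1656174138) (nat_lit 350) (nat_lit 5) (nat_lit 349) (nat_lit 5) (nat_lit 372) (nat_lit 5) (nat_lit 333) (nat_lit 317) (nat_lit 130)) (XT.lf (nat_lit 0) (nat_lit 1058035871) (nat_lit 1748) (nat_lit 24715400673) (nat_lit 76) (nat_lit 3116347385) (nat_lit 327) (nat_lit 5) (nat_lit 350) (nat_lit 5) (nat_lit 328) (nat_lit 5) (nat_lit 334) (nat_lit 317) (nat_lit 129))))) (XT.nd (nat_lit 234) (nat_lit 2356) (nat_lit 0) (XT.nd (nat_lit 78) (nat_lit 1824) (nat_lit 0) (XT.lf (nat_lit 0) (nat_lit 4027877671) (nat_lit 1748) (nat_lit 4596837491) (nat_lit 76) (nat_lit 20745933466) (nat_lit 327) (nat_lit 5) (nat_lit 350) (nat_lit 5) (nat_lit 328) (nat_lit 5) (nat_lit 335) (nat_lit 317) (nat_lit 128)) (XT.nd (nat_lit 78) (nat_lit 836) (nat_lit 0) (XT.lf (nat_lit 0) (nat_lit 7247638195) (nat_lit 1064) (nat_lit 13587756931) (nat_lit 76) (nat_lit 9027332152) (nat_lit 314) (nat_lit 5) (nat_lit 328) (nat_lit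 5) (nat_lit 315) (nat_lit 5) (nat_lit 336) (nat_lit 317) (nat_lit 127)) (XT.lf (nat_lit 0) (nat_lit 7503422654) (nat_lit 836) (nat_lit 3193804516) (nat_lit 912) (nat_lit 19669680757) (nat_lit 303) (nat_lit 5) (nat_lit 314) (nat_lit 5) (nat_lit 315) (nat_lit 5) (nat_lit 337) (nat_lit 317) (nat_lit 126)))) (XT.nd (nat_lit 156) (nat_lit 1520) (nat_lit 0) (XT.nd (nat_lit 78) (nat_lit 836) (nat_lit 0) (XT.lf (nat_lit 0) (nat_lit 14435823459) (nat_lit 912) (nat_lit 1572936292) (nat_lit 76) (nat_lit 14873748074) (nat_lit 303) (nat_lit 5) (nat_lit 315) (nat_lit 5) (nat_lit 304) (nat_lit 5) (nat_lit 338) (nat_lit 317) (nat_lit 125)) (XT.lf (nat_lit 0) (nat_lit 18451464295) (nat_lit 912) (nat_lit 10823376790) (nat_lit 76) (nat_lit 2135441002) (nat_lit 292) (nat_lit 5) (nat_lit 304) (nat_lit 5) (nat_lit 293) (nat_lit 5) (nat_lit 339) (nat_lit 317) (nat_lit 124))) (XT.nd (nat_lit 78) (nat_lit 760) (nat_lit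 0) (XT.lf (nat_lit 0) (nat_lit 11519396653) (nat_lit 760) (nat_lit 11256580255) (nat_lit 836) (nat_lit 9174148600) (nat_lit 282) (nat_lit 5) (nat_lit 292) (nat_lit 5) (nat_lit 293) (nat_lit 5) (nat_lit 340) (nat_lit 317) (nat_lit 123)) (XT.lf (nat_lit 0) (nat_lit 2152265740) (nat_lit 760) (nat_lit 25209094008) (nat_lit 836) (nat_lit 5142185651) (nat_lit 272) (nat_lit 5) (nat_lit 282) (nat_lit 5) (nat_lit 283) (nat_lit 5) (nat_lit 341) (nat_lit 317) (nat_lit 122))))))) (XT.nd (nat_lit 39702) (nat_lit 0) (nat_lit 760) (XT.nd (nat_lit 39156) (nat_lit 0) (nat_lit 5320) (XT.nd (nat_lit 38922) (nat_lit 0) (nat_lit 5168) (XT.nd (nat_lit 38766) (nat_lit 0) (nat_lit 5092) (XT.lf (nat_lit 0) (nat_lit 25612222531) (nat_lit 760) (nat_lit 6681324185) (nat_lit 836) (nat_lit 775840071) (nat_lit 272) (nat_lit 5) (nat_lit 282) (nat_lit 5) (nat_lit 283) (nat_lit 5) (nat_lit 342) (nat_lit 317) (nat_lit 121)) (XT.nd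 (nat_lit 78) (nat_lit 0) (nat_lit 76) (XT.lf (nat_lit 0) (nat_lit 1563974462) (nat_lit 1748) (nat_lit 4927652712) (nat_lit 1748) (nat_lit 4927652712) (nat_lit 339) (nat_lit 3) (nat_lit 362) (nat_lit 3) (nat_lit 362) (nat_lit 5) (nat_lit 318) (nat_lit 318) (nat_lit 144)) (XT.lf (nat_lit 0) (nat_lit 3400153449) (nat_lit 1672) (nat_lit 17851188941) (nat_lit 1748) (nat_lit 1925107623) (nat_lit 340) (nat_lit 5) (nat_lit 362) (nat_lit 5) (nat_lit 363) (nat_lit 5) (nat_lit 319) (nat_lit 318) (nat_lit 143)))) (XT.nd (nat_lit 78) (nat_lit 0) (nat_lit 76) (XT.lf (nat_lit 0) (nat_lit 3827627083) (nat_lit 1672) (nat_lit 2518024018) (nat_lit 1748) (nat_lit 17175890919) (nat_lit 340) (nat_lit 5) (nat_lit 362) (nat_lit 5) (nat_lit 363) (nat_lit 5) (nat_lit 320) (nat_lit 318) (nat_lit 142)) (XT.nd (nat_lit 78) (nat_lit 0) (nat_lit 76) (XT.lf (nat_lit 0) (nat_lit 4407572017) (nat_lit 1672) (nat_lit 10486606203)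 (nat_lit 1748) (nat_lit 8980022539) (nat_lit 341) (nat_lit 5) (nat_lit 363) (nat_lit 5) (nat_lit 364) (nat_lit 5) (nat_lit 321) (nat_lit 318) (nat_lit 141)) (XT.lf (nat_lit 0) (nat_lit 5097550561) (nat_lit 1672) (nat_lit 18644079114) (nat_lit 1748) (nat_lit 493963592) (nat_lit 342) (nat_lit 5) (nat_lit 364) (nat_lit 5) (nat_lit 365) (nat_lit 5) (nat_lit 322) (nat_lit 318) (nat_lit 140))))) (XT.nd (nat_lit 234) (nat_lit 0) (nat_lit 152) (XT.nd (nat_lit 78) (nat_lit 0) (nat_lit 76) (XT.lf (nat_lit 0) (nat_lit 5972996028) (nat_lit 1672) (nat_lit 2414801243) (nat_lit 1748) (nat_lit 16216741445) (nat_lit 342) (nat_lit 5) (nat_lit 364) (nat_lit 5) (nat_lit 365) (nat_lit 5) (nat_lit 323) (nat_lit 318) (nat_lit 139)) (XT.nd (nat_lit 78) (nat_lit 0) (nat_lit 0) (XT.lf (nat_lit 0) (nat_lit 7011443693) (nat_lit 1672) (nat_lit 10544024852) (nat_lit 1748) (nat_lit 7426355532) (nat_lit 343) (nat_lit 5) (nat_lit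 365) (nat_lit 5) (nat_lit 366) (nat_lit 5) (nat_lit 324) (nat_lit 318) (nat_lit 138)) (XT.lf (nat_lit 76) (nat_lit 6483957766) (nat_lit 0) (nat_lit 1705739369) (nat_lit 1748) (nat_lit 17178563959) (nat_lit 344) (nat_lit 5) (nat_lit 343) (nat_lit 5) (nat_lit 366) (nat_lit 5) (nat_lit 325) (nat_lit 318) (nat_lit 137)))) (XT.nd (nat_lit 156) (nat_lit 0) (nat_lit 76) (XT.nd (nat_lit 78) (nat_lit 0) (nat_lit 76) (XT.lf (nat_lit 0) (nat_lit 9564294260) (nat_lit 1672) (nat_lit 1697032064) (nat_lit 1748) (nat_lit 14501750941) (nat_lit 344) (nat_lit 5) (nat_lit 366) (nat_lit 5) (nat_lit 367) (nat_lit 5) (nat_lit 326) (nat_lit 318) (nat_lit 136)) (XT.lf (nat_lit 0) (nat_lit 11124253619) (nat_lit 1672) (nat_lit 9997530607) (nat_lit 1748) (nat_lit 5045076997) (nat_lit 345) (nat_lit 5) (nat_lit 367) (nat_lit 5) (nat_lit 368) (nat_lit 5) (nat_lit 327) (nat_lit 318) (nat_lit 135))) (XT.nd (nat_lit 78) (nat_lit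 0) (nat_lit 76) (XT.lf (nat_lit 76) (nat_lit 8038587385) (nat_lit 0) (nat_lit 4825978700) (nat_lit 1748) (nat_lit 13715527150) (nat_lit 346) (nat_lit 5) (nat_lit 345) (nat_lit 5) (nat_lit 368) (nat_lit 5) (nat_lit 328) (nat_lit 318) (nat_lit 134)) (XT.lf (nat_lit 0) (nat_lit 14797550828) (nat_lit 1672) (nat_lit 333723617) (nat_lit 1748) (nat_lit 11871643962) (nat_lit 346) (nat_lit 5) (nat_lit 368) (nat_lit 5) (nat_lit 369) (nat_lit 5) (nat_lit 329) (nat_lit 318) (nat_lit 133)))))) (XT.nd (nat_lit 468) (nat_lit 3420) (nat_lit 0) (XT.nd (nat_lit 234) (nat_lit 1520) (nat_lit 0) (XT.nd (nat_lit 78) (nat_lit 0) (nat_lit 0) (XT.lf (nat_lit 0) (nat_lit 16947513773) (nat_lit 1672) (nat_lit 8817910855) (nat_lit 1748) (nat_lit 1669829229) (nat_lit 347) (nat_lit 5) (nat_lit 369) (nat_lit 5) (nat_lit 370) (nat_lit 5) (nat_lit 330) (nat_lit 318) (nat_lit 132)) (XT.nd (nat_lit 78) (nat_lit 0) (nat_lit 76) (XT.lf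 (nat_lit 76) (nat_lit 10290916890) (nat_lit 0) (nat_lit 9036257398) (nat_lit 1748) (nat_lit 8550086255) (nat_lit 348) (nat_lit 5) (nat_lit 347) (nat_lit 5) (nat_lit 370) (nat_lit 5) (nat_lit 331) (nat_lit 318) (nat_lit 131)) (XT.lf (nat_lit 76) (nat_lit 1727542513) (nat_lit 0) (nat_lit 20170301560) (nat_lit 1748) (nat_lit 6432295962) (nat_lit 349) (nat_lit 5) (nat_lit 348) (nat_lit 5) (nat_lit 371) (nat_lit 5) (nat_lit 332) (nat_lit 318) (nat_lit 130)))) (XT.nd (nat_lit 78) (nat_lit 1596) (nat_lit 0) (XT.lf (nat_lit 76) (nat_lit 21796509627) (nat_lit 0) (nat_lit 2923494664) (nat_lit 1748) (nat_lit 4073119061) (nat_lit 349) (nat_lit 5) (nat_lit 348) (nat_lit 5) (nat_lit 371) (nat_lit 5) (nat_lit 333) (nat_lit 318) (nat_lit 129)) (XT.nd (nat_lit 78) (nat_lit 1672) (nat_lit 0) (XT.lf (nat_lit 76) (nat_lit 13271429865) (nat_lit 0) (nat_lit 14533237052) (nat_lit 1748) (nat_lit 1461777208) (nat_lit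 350) (nat_lit 5) (nat_lit 349) (nat_lit 5) (nat_lit 372) (nat_lit 5) (nat_lit 334) (nat_lit 318) (nat_lit 128)) (XT.lf (nat_lit 0) (nat_lit 1324669554) (nat_lit 1748) (nat_lit 25254977481) (nat_lit 76) (nat_lit 3171905143) (nat_lit 327) (nat_lit 5) (nat_lit 350) (nat_lit 5) (nat_lit 328) (nat_lit 5) (nat_lit 335) (nat_lit 318) (nat_lit 127))))) (XT.nd (nat_lit 234) (nat_lit 1596) (nat_lit 0) (XT.nd (nat_lit 78) (nat_lit 1824) (nat_lit 0) (XT.lf (nat_lit 0) (nat_lit 4376765076) (nat_lit 1748) (nat_lit 4538737555) (nat_lit 76) (nat_lit 21331483641) (nat_lit 327) (nat_lit 5) (nat_lit 350) (nat_lit 5) (nat_lit 328) (nat_lit 5) (nat_lit 336) (nat_lit 318) (nat_lit 126)) (XT.nd (nat_lit 78) (nat_lit 836) (nat_lit 0) (XT.lf (nat_lit 0) (nat_lit 7687534388) (nat_lit 1064) (nat_lit 13797703236) (nat_lit 76) (nat_lit 9268707769) (nat_lit 314) (nat_lit 5) (nat_lit 328) (nat_lit 5) (nat_lit 315) (nat_lit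 5) (nat_lit 337) (nat_lit 318) (nat_lit 125)) (XT.lf (nat_lit 0) (nat_lit 7923004509) (nat_lit 836) (nat_lit 3312389588) (nat_lit 912) (nat_lit 20037967946) (nat_lit 303) (nat_lit 5) (nat_lit 314) (nat_lit 5) (nat_lit 315) (nat_lit 5) (nat_lit 338) (nat_lit 318) (nat_lit 124)))) (XT.nd (nat_lit 156) (nat_lit 760) (nat_lit 0) (XT.nd (nat_lit 78) (nat_lit 836) (nat_lit 0) (XT.lf (nat_lit 0) (nat_lit 15079677064) (nat_lit 912) (nat_lit 1426745603) (nat_lit 76) (nat_lit 15298142757) (nat_lit 303) (nat_lit 5) (nat_lit 315) (nat_lit 5) (nat_lit 304) (nat_lit 5) (nat_lit 339) (nat_lit 318) (nat_lit 123)) (XT.lf (nat_lit 0) (nat_lit 19210781604) (nat_lit 912) (nat_lit 10953421484) (nat_lit 76) (nat_lit 2184075822) (nat_lit 292) (nat_lit 5) (nat_lit 304) (nat_lit 5) (nat_lit 293) (nat_lit 5) (nat_lit 340) (nat_lit 318) (nat_lit 122))) (XT.nd (nat_lit 38922) (nat_lit 0) (nat_lit 4332) (XT.lf (nat_lit 0)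 (nat_lit 12056477090) (nat_lit 760) (nat_lit 11603802441) (nat_lit 836) (nat_lit 9244138817) (nat_lit 282) (nat_lit 5) (nat_lit 292) (nat_lit 5) (nat_lit 293) (nat_lit 5) (nat_lit 341) (nat_lit 318) (nat_lit 121)) (XT.lf (nat_lit 0) (nat_lit 1787144131) (nat_lit 1748) (nat_lit 4985504222) (nat_lit 1748) (nat_lit 4985504222) (nat_lit 339) (nat_lit 3) (nat_lit 362) (nat_lit 3) (nat_lit 362) (nat_lit 5) (nat_lit 319) (nat_lit 319) (nat_lit 142))))))))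
noncomputable def xc125 : XT := (XT.nd (nat_lit 40950) (nat_lit 0) (nat_lit 836) (XT.nd (nat_lit 1014) (nat_lit 3648) (nat_lit 0) (XT.nd (nat_lit 468) (nat_lit 0) (nat_lit 228) (XT.nd (nat_lit 234) (nat_lit 0) (nat_lit 152) (XT.nd (nat_lit 78) (nat_lit 0) (nat_lit 0) (XT.lf (nat_lit 0) (nat_lit 3844461313) (nat_lit 1672) (nat_lit 18201389474) (nat_lit 1748) (nat_lit 1818695792) (nat_lit 340) (nat_lit 5) (nat_lit 362) (nat_lit 5) (nat_lit 363) (nat_lit 5) (nat_lit 320) (nat_lit 319) (nat_lit 141)) (XT.nd (nat_lit 78) (nat_lit 0) (nat_lit 76) (XT.lf (nat_lit 0) (nat_lit 4274789159) (nat_lit 1672) (nat_lit 2413627713) (nat_lit 1748) (nat_lit 17531784094) (nat_lit 340) (nat_lit 5) (nat_lit 362) (nat_lit 5) (nat_lit 363) (nat_lit 5) (nat_lit 321) (nat_lit 319) (nat_lit 140)) (XT.lf (nat_lit 0) (nat_lit 4862649121) (nat_lit 1672) (nat_lit 10616426815) (nat_lit 1748) (nat_lit 9104563120) (nat_lit 341)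 (nat_lit 5) (nat_lit 363) (nat_lit 5) (nat_lit 364) (nat_lit 5) (nat_lit 322) (nat_lit 319) (nat_lit 139)))) (XT.nd (nat_lit 78) (nat_lit 0) (nat_lit 0) (XT.lf (nat_lit 0) (nat_lit 5564241329) (nat_lit 1672) (nat_lit 19014145548) (nat_lit 1748) (nat_lit 377677809) (nat_lit 342) (nat_lit 5) (nat_lit 364) (nat_lit 5) (nat_lit 365) (nat_lit 5) (nat_lit 323) (nat_lit 319) (nat_lit 138)) (XT.nd (nat_lit 78) (nat_lit 0) (nat_lit 76) (XT.lf (nat_lit 0) (nat_lit 6456811395) (nat_lit 1672) (nat_lit 2303501649) (nat_lit 1748) (nat_lit 16575957581) (nat_lit 342) (nat_lit 5) (nat_lit 364) (nat_lit 5) (nat_lit 365) (nat_lit 5) (nat_lit 324) (nat_lit 319) (nat_lit 137)) (XT.lf (nat_lit 0) (nat_lit 7517959320) (nat_lit 1672) (nat_lit 10672587583) (nat_lit 1748) (nat_lit 7534505787) (nat_lit 343) (nat_lit 5) (nat_lit 365) (nat_lit 5) (nat_lit 366) (nat_lit 5) (nat_lit 325) (nat_lit 319) (nat_lit 136))))) (XT.nd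 (nat_lit 234) (nat_lit 0) (nat_lit 152) (XT.nd (nat_lit 78) (nat_lit 0) (nat_lit 76) (XT.lf (nat_lit 76) (nat_lit 6863188364) (nat_lit 0) (nat_lit 1860944896) (nat_lit 1748) (nat_lit 17399106916) (nat_lit 344) (nat_lit 5) (nat_lit 343) (nat_lit 5) (nat_lit 366) (nat_lit 5) (nat_lit 326) (nat_lit 319) (nat_lit 135)) (XT.nd (nat_lit 78) (nat_lit 0) (nat_lit 76) (XT.lf (nat_lit 0) (nat_lit 10130902463) (nat_lit 1672) (nat_lit 1562063347) (nat_lit 1748) (nat_lit 14837124897) (nat_lit 344) (nat_lit 5) (nat_lit 366) (nat_lit 5) (nat_lit 367) (nat_lit 5) (nat_lit 327) (nat_lit 319) (nat_lit 134)) (XT.lf (nat_lit 0) (nat_lit 11730118467) (nat_lit 1672) (nat_lit 10108277721) (nat_lit 1748) (nat_lit 5107751147) (nat_lit 345) (nat_lit 5) (nat_lit 367) (nat_lit 5) (nat_lit 368) (nat_lit 5) (nat_lit 328) (nat_lit 319) (nat_lit 133)))) (XT.nd (nat_lit 156) (nat_lit 0) (nat_lit 152) (XT.nd (nat_lit 78) (nat_lit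 0) (nat_lit 76) (XT.lf (nat_lit 76) (nat_lit 8465854608) (nat_lit 0) (nat_lit 5050067718) (nat_lit 1748) (nat_lit 13855996408) (nat_lit 346) (nat_lit 5) (nat_lit 345) (nat_lit 5) (nat_lit 368) (nat_lit 5) (nat_lit 329) (nat_lit 319) (nat_lit 132)) (XT.lf (nat_lit 0) (nat_lit 15498666021) (nat_lit 1672) (nat_lit 157131606) (nat_lit 1748) (nat_lit 12151803478) (nat_lit 346) (nat_lit 5) (nat_lit 368) (nat_lit 5) (nat_lit 369) (nat_lit 5) (nat_lit 330) (nat_lit 319) (nat_lit 131))) (XT.nd (nat_lit 78) (nat_lit 0) (nat_lit 0) (XT.lf (nat_lit 0) (nat_lit 17706391779) (nat_lit 1672) (nat_lit 8893163575) (nat_lit 1748) (nat_lit 1653493592) (nat_lit 347) (nat_lit 5) (nat_lit 369) (nat_lit 5) (nat_lit 370) (nat_lit 5) (nat_lit 331) (nat_lit 319) (nat_lit 130)) (XT.lf (nat_lit 76) (nat_lit 10785858085) (nat_lit 0) (nat_lit 9365498312) (nat_lit 1748) (nat_lit 8557088533) (nat_lit 348) (nat_lit 5) (nat_lit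 347) (nat_lit 5) (nat_lit 370) (nat_lit 5) (nat_lit 332) (nat_lit 319) (nat_lit 129)))))) (XT.nd (nat_lit 468) (nat_lit 1672) (nat_lit 0) (XT.nd (nat_lit 234) (nat_lit 2584) (nat_lit 0) (XT.nd (nat_lit 78) (nat_lit 0) (nat_lit 0) (XT.lf (nat_lit 76) (nat_lit 1967982970) (nat_lit 0) (nat_lit 20824903859) (nat_lit 1748) (nat_lit 6382156333) (nat_lit 349) (nat_lit 5) (nat_lit 348) (nat_lit 5) (nat_lit 371) (nat_lit 5) (nat_lit 333) (nat_lit 319) (nat_lit 128)) (XT.nd (nat_lit 78) (nat_lit 0) (nat_lit 76) (XT.lf (nat_lit 76) (nat_lit 22633525481) (nat_lit 0) (nat_lit 3059251205) (nat_lit 1748) (nat_lit 3959284956) (nat_lit 349) (nat_lit 5) (nat_lit 348) (nat_lit 5) (nat_lit 371) (nat_lit 5) (nat_lit 334) (nat_lit 319) (nat_lit 127)) (XT.lf (nat_lit 76) (nat_lit 13854805973) (nat_lit 0) (nat_lit 15009339806) (nat_lit 1748) (nat_lit 1275559684) (nat_lit 350) (nat_lit 5) (nat_lit 349) (nat_lit 5) (nat_lit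 372) (nat_lit 5) (nat_lit 335) (nat_lit 319) (nat_lit 126)))) (XT.nd (nat_lit 78) (nat_lit 988) (nat_lit 0) (XT.lf (nat_lit 0) (nat_lit 1585818452) (nat_lit 1748) (nat_lit 25822330630) (nat_lit 76) (nat_lit 3231307123) (nat_lit 327) (nat_lit 5) (nat_lit 350) (nat_lit 5) (nat_lit 328) (nat_lit 5) (nat_lit 336) (nat_lit 319) (nat_lit 125)) (XT.nd (nat_lit 78) (nat_lit 988) (nat_lit 0) (XT.lf (nat_lit 0) (nat_lit 4723028039) (nat_lit 1748) (nat_lit 4490146113) (nat_lit 76) (nat_lit 21936714389) (nat_lit 327) (nat_lit 5) (nat_lit 350) (nat_lit 5) (nat_lit 328) (nat_lit 5) (nat_lit 337) (nat_lit 319) (nat_lit 124)) (XT.lf (nat_lit 0) (nat_lit 8127856947) (nat_lit 1064) (nat_lit 14025295939) (nat_lit 76) (nat_lit 9519014881) (nat_lit 314) (nat_lit 5) (nat_lit 328) (nat_lit 5) (nat_lit 315) (nat_lit 5) (nat_lit 338) (nat_lit 319) (nat_lit 123))))) (XT.nd (nat_lit 39156) (nat_lit 0) (nat_lit 3572) (XT.nd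 (nat_lit 78) (nat_lit 836) (nat_lit 0) (XT.lf (nat_lit 0) (nat_lit 8344009919) (nat_lit 836) (nat_lit 3433225067) (nat_lit 912) (nat_lit 20430036164) (nat_lit 303) (nat_lit 5) (nat_lit 314) (nat_lit 5) (nat_lit 315) (nat_lit 5) (nat_lit 339) (nat_lit 319) (nat_lit 122)) (XT.nd (nat_lit 78) (nat_lit 836) (nat_lit 0) (XT.lf (nat_lit 0) (nat_lit 15730746705) (nat_lit 912) (nat_lit 1287269926) (nat_lit 76) (nat_lit 15736521710) (nat_lit 303) (nat_lit 5) (nat_lit 315) (nat_lit 5) (nat_lit 304) (nat_lit 5) (nat_lit 340) (nat_lit 319) (nat_lit 121)) (XT.lf (nat_lit 0) (nat_lit 19981066199) (nat_lit 912) (nat_lit 11098541605) (nat_lit 76) (nat_lit 2235055339) (nat_lit 292) (nat_lit 5) (nat_lit 304) (nat_lit 5) (nat_lit 293) (nat_lit 5) (nat_lit 341) (nat_lit 319) (nat_lit 120)))) (XT.nd (nat_lit 156) (nat_lit 0) (nat_lit 76) (XT.nd (nat_lit 78) (nat_lit 0) (nat_lit 76) (XT.lf (nat_lit 0) (nat_lit 2006891395)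 (nat_lit 1748) (nat_lit 5050256388) (nat_lit 1748) (nat_lit 5050256388) (nat_lit 339) (nat_lit 3) (nat_lit 362) (nat_lit 3) (nat_lit 362) (nat_lit 5) (nat_lit 320) (nat_lit 320) (nat_lit 140)) (XT.lf (nat_lit 0) (nat_lit 4282448806) (nat_lit 1672) (nat_lit 18572735017) (nat_lit 1748) (nat_lit 1718515352) (nat_lit 340) (nat_lit 5) (nat_lit 362) (nat_lit 5) (nat_lit 363) (nat_lit 5) (nat_lit 321) (nat_lit 320) (nat_lit 139))) (XT.nd (nat_lit 78) (nat_lit 0) (nat_lit 76) (XT.lf (nat_lit 0) (nat_lit 4716288807) (nat_lit 1672) (nat_lit 2316428641) (nat_lit 1748) (nat_lit 17907503332) (nat_lit 340) (nat_lit 5) (nat_lit 362) (nat_lit 5) (nat_lit 363) (nat_lit 5) (nat_lit 322) (nat_lit 320) (nat_lit 138)) (XT.lf (nat_lit 0) (nat_lit 5312845630) (nat_lit 1672) (nat_lit 10760749034) (nat_lit 1748) (nat_lit 9241155480) (nat_lit 341) (nat_lit 5) (nat_lit 363) (nat_lit 5) (nat_lit 364) (nat_lit 5) (nat_lit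 323) (nat_lit 320) (nat_lit 137))))))) (XT.nd (nat_lit 1014) (nat_lit 2964) (nat_lit 0) (XT.nd (nat_lit 468) (nat_lit 0) (nat_lit 228) (XT.nd (nat_lit 234) (nat_lit 0) (nat_lit 76) (XT.nd (nat_lit 78) (nat_lit 0) (nat_lit 0) (XT.lf (nat_lit 0) (nat_lit 6026921468) (nat_lit 1672) (nat_lit 19406178040) (nat_lit 1748) (nat_lit 265429397) (nat_lit 342) (nat_lit 5) (nat_lit 364) (nat_lit 5) (nat_lit 365) (nat_lit 5) (nat_lit 324) (nat_lit 320) (nat_lit 136)) (XT.nd (nat_lit 78) (nat_lit 0) (nat_lit 76) (XT.lf (nat_lit 0) (nat_lit 6937654474) (nat_lit 1672) (nat_lit 2199410704) (nat_lit 1748) (nat_lit 16953256943) (nat_lit 342) (nat_lit 5) (nat_lit 364) (nat_lit 5) (nat_lit 365) (nat_lit 5) (nat_lit 325) (nat_lit 320) (nat_lit 135)) (XT.lf (nat_lit 0) (nat_lit 8022668914) (nat_lit 1672) (nat_lit 10815785274) (nat_lit 1748) (nat_lit 7652481378) (nat_lit 343) (nat_lit 5) (nat_lit 365) (nat_lit 5) (nat_lit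 366) (nat_lit 5) (nat_lit 326) (nat_lit 320) (nat_lit 134)))) (XT.nd (nat_lit 78) (nat_lit 0) (nat_lit 76) (XT.lf (nat_lit 76) (nat_lit 7243192662) (nat_lit 0) (nat_lit 2014834650) (nat_lit 1748) (nat_lit 17643189689) (nat_lit 344) (nat_lit 5) (nat_lit 343) (nat_lit 5) (nat_lit 366) (nat_lit 5) (nat_lit 327) (nat_lit 320) (nat_lit 133)) (XT.nd (nat_lit 78) (nat_lit 0) (nat_lit 76) (XT.lf (nat_lit 0) (nat_lit 10698454172) (nat_lit 1672) (nat_lit 1433715822) (nat_lit 1748) (nat_lit 15188282029) (nat_lit 344) (nat_lit 5) (nat_lit 366) (nat_lit 5) (nat_lit 367) (nat_lit 5) (nat_lit 328) (nat_lit 320) (nat_lit 132)) (XT.lf (nat_lit 0) (nat_lit 12338537471) (nat_lit 1672) (nat_lit 10233206887) (nat_lit 1748) (nat_lit 5177396010) (nat_lit 345) (nat_lit 5) (nat_lit 367) (nat_lit 5) (nat_lit 368) (nat_lit 5) (nat_lit 329) (nat_lit 320) (nat_lit 131))))) (XT.nd (nat_lit 234) (nat_lit 0) (nat_lit 152) (XT.nd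 (nat_lit 78) (nat_lit 0) (nat_lit 76) (XT.lf (nat_lit 76) (nat_lit 8895256396) (nat_lit 0) (nat_lit 5276326708) (nat_lit 1748) (nat_lit 14016236055) (nat_lit 346) (nat_lit 5) (nat_lit 345) (nat_lit 5) (nat_lit 368) (nat_lit 5) (nat_lit 330) (nat_lit 320) (nat_lit 130)) (XT.nd (nat_lit 78) (nat_lit 0) (nat_lit 76) (XT.lf (nat_lit 76) (nat_lit 14233015) (nat_lit 0) (nat_lit 16191910384) (nat_lit 1748) (nat_lit 12430589300) (nat_lit 347) (nat_lit 5) (nat_lit 346) (nat_lit 5) (nat_lit 369) (nat_lit 5) (nat_lit 331) (nat_lit 320) (nat_lit 129)) (XT.lf (nat_lit 0) (nat_lit 18473659121) (nat_lit 1672) (nat_lit 8981539587) (nat_lit 1748) (nat_lit 1640481269) (nat_lit 347) (nat_lit 5) (nat_lit 369) (nat_lit 5) (nat_lit 370) (nat_lit 5) (nat_lit 332) (nat_lit 320) (nat_lit 128)))) (XT.nd (nat_lit 156) (nat_lit 0) (nat_lit 76) (XT.nd (nat_lit 78) (nat_lit 0) (nat_lit 76) (XT.lf (nat_lit 76) (nat_lit 11284958088)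 (nat_lit 0) (nat_lit 9701278221) (nat_lit 1748) (nat_lit 8578623217) (nat_lit 348) (nat_lit 5) (nat_lit 347) (nat_lit 5) (nat_lit 370) (nat_lit 5) (nat_lit 333) (nat_lit 320) (nat_lit 127)) (XT.lf (nat_lit 76) (nat_lit 2204809416) (nat_lit 0) (nat_lit 21496303112) (nat_lit 1748) (nat_lit 6344467938) (nat_lit 349) (nat_lit 5) (nat_lit 348) (nat_lit 5) (nat_lit 371) (nat_lit 5) (nat_lit 334) (nat_lit 320) (nat_lit 126))) (XT.nd (nat_lit 78) (nat_lit 0) (nat_lit 76) (XT.lf (nat_lit 76) (nat_lit 23485139941) (nat_lit 0) (nat_lit 3196322078) (nat_lit 1748) (nat_lit 3855584781) (nat_lit 349) (nat_lit 5) (nat_lit 348) (nat_lit 5) (nat_lit 371) (nat_lit 5) (nat_lit 335) (nat_lit 320) (nat_lit 125)) (XT.lf (nat_lit 76) (nat_lit 14445050219) (nat_lit 0) (nat_lit 15497423414) (nat_lit 1748) (nat_lit 1096962642) (nat_lit 350) (nat_lit 5) (nat_lit 349) (nat_lit 5) (nat_lit 372) (nat_lit 5) (nat_lit 336) (nat_lit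 320) (nat_lit 124)))))) (XT.nd (nat_lit 39546) (nat_lit 0) (nat_lit 2812) (XT.nd (nat_lit 234) (nat_lit 836) (nat_lit 0) (XT.nd (nat_lit 78) (nat_lit 988) (nat_lit 0) (XT.lf (nat_lit 0) (nat_lit 1842092044) (nat_lit 1748) (nat_lit 26417628152) (nat_lit 76) (nat_lit 3294543656) (nat_lit 327) (nat_lit 5) (nat_lit 350) (nat_lit 5) (nat_lit 328) (nat_lit 5) (nat_lit 337) (nat_lit 320) (nat_lit 123)) (XT.nd (nat_lit 78) (nat_lit 988) (nat_lit 0) (XT.lf (nat_lit 0) (nat_lit 5067339307) (nat_lit 1748) (nat_lit 4450702538) (nat_lit 76) (nat_lit 22562094771) (nat_lit 327) (nat_lit 5) (nat_lit 350) (nat_lit 5) (nat_lit 328) (nat_lit 5) (nat_lit 338) (nat_lit 320) (nat_lit 122)) (XT.lf (nat_lit 0) (nat_lit 8569351745) (nat_lit 1064) (nat_lit 14270413009) (nat_lit 76) (nat_lit 9778424405) (nat_lit 314) (nat_lit 5) (nat_lit 328) (nat_lit 5) (nat_lit 315) (nat_lit 5) (nat_lit 339) (nat_lit 320) (nat_lit 121))))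 (XT.nd (nat_lit 39156) (nat_lit 0) (nat_lit 2736) (XT.lf (nat_lit 0) (nat_lit 8767122445) (nat_lit 836) (nat_lit 3556453501) (nat_lit 912) (nat_lit 20845867950) (nat_lit 303) (nat_lit 5) (nat_lit 314) (nat_lit 5) (nat_lit 315) (nat_lit 5) (nat_lit 340) (nat_lit 320) (nat_lit 120)) (XT.nd (nat_lit 78) (nat_lit 0) (nat_lit 76) (XT.lf (nat_lit 0) (nat_lit 2223694366) (nat_lit 1748) (nat_lit 5121819729) (nat_lit 1748) (nat_lit 5121819729) (nat_lit 339) (nat_lit 3) (nat_lit 362) (nat_lit 3) (nat_lit 362) (nat_lit 5) (nat_lit 321) (nat_lit 321) (nat_lit 138)) (XT.lf (nat_lit 0) (nat_lit 4715054284) (nat_lit 1672) (nat_lit 18965249200) (nat_lit 1748) (nat_lit 1624212283) (nat_lit 340) (nat_lit 5) (nat_lit 362) (nat_lit 5) (nat_lit 363) (nat_lit 5) (nat_lit 322) (nat_lit 321) (nat_lit 137))))) (XT.nd (nat_lit 234) (nat_lit 0) (nat_lit 152) (XT.nd (nat_lit 78) (nat_lit 0) (nat_lit 76) (XT.lf (nat_lit 0)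 (nat_lit 5153051271) (nat_lit 1672) (nat_lit 2226049785) (nat_lit 1748) (nat_lit 18303118209) (nat_lit 340) (nat_lit 5) (nat_lit 362) (nat_lit 5) (nat_lit 363) (nat_lit 5) (nat_lit 323) (nat_lit 321) (nat_lit 136)) (XT.nd (nat_lit 78) (nat_lit 0) (nat_lit 76) (XT.lf (nat_lit 0) (nat_lit 5759078992) (nat_lit 1672) (nat_lit 10919399023) (nat_lit 1748) (nat_lit 9389683826) (nat_lit 341) (nat_lit 5) (nat_lit 363) (nat_lit 5) (nat_lit 364) (nat_lit 5) (nat_lit 324) (nat_lit 321) (nat_lit 135)) (XT.lf (nat_lit 0) (nat_lit 6486504585) (nat_lit 1672) (nat_lit 19820211930) (nat_lit 1748) (nat_lit 156907459) (nat_lit 342) (nat_lit 5) (nat_lit 364) (nat_lit 5) (nat_lit 365) (nat_lit 5) (nat_lit 325) (nat_lit 321) (nat_lit 134)))) (XT.nd (nat_lit 156) (nat_lit 0) (nat_lit 76) (XT.nd (nat_lit 78) (nat_lit 0) (nat_lit 76) (XT.lf (nat_lit 0) (nat_lit 7416439907) (nat_lit 1672) (nat_lit 2102139190) (nat_lit 1748)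 (nat_lit 17348762593) (nat_lit 342) (nat_lit 5) (nat_lit 364) (nat_lit 5) (nat_lit 365) (nat_lit 5) (nat_lit 326) (nat_lit 321) (nat_lit 133)) (XT.lf (nat_lit 0) (nat_lit 8526494249) (nat_lit 1672) (nat_lit 10973438267) (nat_lit 1748) (nat_lit 7780199300) (nat_lit 343) (nat_lit 5) (nat_lit 365) (nat_lit 5) (nat_lit 366) (nat_lit 5) (nat_lit 327) (nat_lit 321) (nat_lit 132))) (XT.nd (nat_lit 78) (nat_lit 0) (nat_lit 76) (XT.lf (nat_lit 76) (nat_lit 7624602541) (nat_lit 0) (nat_lit 2167711970) (nat_lit 1748) (nat_lit 17910546993) (nat_lit 344) (nat_lit 5) (nat_lit 343) (nat_lit 5) (nat_lit 366) (nat_lit 5) (nat_lit 328) (nat_lit 321) (nat_lit 131)) (XT.lf (nat_lit 0) (nat_lit 11267899300) (nat_lit 1672) (nat_lit 1311575610) (nat_lit 1748) (nat_lit 15555367368) (nat_lit 344) (nat_lit 5) (nat_lit 366) (nat_lit 5) (nat_lit 367) (nat_lit 5) (nat_lit 329) (nat_lit 321) (nat_lit 130))))))))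
noncomputable def xc126 : XT := (XT.nd (nat_lit 41262) (nat_lit 0) (nat_lit 0) (XT.nd (nat_lit 40248) (nat_lit 0) (nat_lit 1064) (XT.nd (nat_lit 468) (nat_lit 1368) (nat_lit 0) (XT.nd (nat_lit 234) (nat_lit 0) (nat_lit 152) (XT.nd (nat_lit 78) (nat_lit 0) (nat_lit 0) (XT.lf (nat_lit 0) (nat_lit 12950484008) (nat_lit 1672) (nat_lit 10372120177) (nat_lit 1748) (nat_lit 5253928493) (nat_lit 345) (nat_lit 5) (nat_lit 367) (nat_lit 5) (nat_lit 368) (nat_lit 5) (nat_lit 330) (nat_lit 321) (nat_lit 129)) (XT.nd (nat_lit 78) (nat_lit 0) (nat_lit 76) (XT.lf (nat_lit 76) (nat_lit 9327470059) (nat_lit 0) (nat_lit 5505082113) (nat_lit 1748) (nat_lit 14195946206) (nat_lit 346) (nat_lit 5) (nat_lit 345) (nat_lit 5) (nat_lit 368) (nat_lit 5) (nat_lit 331) (nat_lit 321) (nat_lit 128)) (XT.lf (nat_lit 76) (nat_lit 182658320) (nat_lit 0) (nat_lit 16739268937) (nat_lit 1748) (nat_lit 12569083464) (nat_lit 347) (nat_lit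 5) (nat_lit 346) (nat_lit 5) (nat_lit 369) (nat_lit 5) (nat_lit 332) (nat_lit 321) (nat_lit 127)))) (XT.nd (nat_lit 78) (nat_lit 0) (nat_lit 0) (XT.lf (nat_lit 0) (nat_lit 19250392780) (nat_lit 1672) (nat_lit 9082808854) (nat_lit 1748) (nat_lit 1630673056) (nat_lit 347) (nat_lit 5) (nat_lit 369) (nat_lit 5) (nat_lit 370) (nat_lit 5) (nat_lit 333) (nat_lit 321) (nat_lit 126)) (XT.nd (nat_lit 78) (nat_lit 0) (nat_lit 76) (XT.lf (nat_lit 76) (nat_lit 11788955281) (nat_lit 0) (nat_lit 10043984926) (nat_lit 1748) (nat_lit 8614304120) (nat_lit 348) (nat_lit 5) (nat_lit 347) (nat_lit 5) (nat_lit 370) (nat_lit 5) (nat_lit 334) (nat_lit 321) (nat_lit 125)) (XT.lf (nat_lit 76) (nat_lit 2438534956) (nat_lit 0) (nat_lit 22185166318) (nat_lit 1748) (nat_lit 6318803216) (nat_lit 349) (nat_lit 5) (nat_lit 348) (nat_lit 5) (nat_lit 371) (nat_lit 5) (nat_lit 335) (nat_lit 321) (nat_lit 124))))) (XT.nd (nat_lit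 234) (nat_lit 0) (nat_lit 0) (XT.nd (nat_lit 78) (nat_lit 1596) (nat_lit 0) (XT.lf (nat_lit 76) (nat_lit 24352394389) (nat_lit 0) (nat_lit 3334905055) (nat_lit 1748) (nat_lit 3761544790) (nat_lit 349) (nat_lit 5) (nat_lit 348) (nat_lit 5) (nat_lit 371) (nat_lit 5) (nat_lit 336) (nat_lit 321) (nat_lit 123)) (XT.nd (nat_lit 78) (nat_lit 1672) (nat_lit 0) (XT.lf (nat_lit 76) (nat_lit 15042979035) (nat_lit 0) (nat_lit 15997979460) (nat_lit 1748) (nat_lit 925456559) (nat_lit 350) (nat_lit 5) (nat_lit 349) (nat_lit 5) (nat_lit 372) (nat_lit 5) (nat_lit 337) (nat_lit 321) (nat_lit 122)) (XT.lf (nat_lit 0) (nat_lit 2094073666) (nat_lit 1748) (nat_lit 27041081309) (nat_lit 76) (nat_lit 3361611956) (nat_lit 327) (nat_lit 5) (nat_lit 350) (nat_lit 5) (nat_lit 328) (nat_lit 5) (nat_lit 338) (nat_lit 321) (nat_lit 121)))) (XT.nd (nat_lit 39390) (nat_lit 0) (nat_lit 988) (XT.nd (nat_lit 39312) (nat_lit 0) (nat_lit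 912) (XT.lf (nat_lit 0) (nat_lit 5410348671) (nat_lit 1748) (nat_lit 4420072461) (nat_lit 76) (nat_lit 23208114887) (nat_lit 327) (nat_lit 5) (nat_lit 350) (nat_lit 5) (nat_lit 328) (nat_lit 5) (nat_lit 339) (nat_lit 321) (nat_lit 120)) (XT.lf (nat_lit 0) (nat_lit 2438012161) (nat_lit 1748) (nat_lit 5200119103) (nat_lit 1748) (nat_lit 5200119103) (nat_lit 339) (nat_lit 3) (nat_lit 362) (nat_lit 3) (nat_lit 362) (nat_lit 5) (nat_lit 322) (nat_lit 322) (nat_lit 136))) (XT.nd (nat_lit 78) (nat_lit 0) (nat_lit 0) (XT.lf (nat_lit 0) (nat_lit 5143179504) (nat_lit 1672) (nat_lit 19378991418) (nat_lit 1748) (nat_lit 1535452999) (nat_lit 340) (nat_lit 5) (nat_lit 362) (nat_lit 5) (nat_lit 363) (nat_lit 5) (nat_lit 323) (nat_lit 322) (nat_lit 135)) (XT.lf (nat_lit 0) (nat_lit 5585966685) (nat_lit 1672) (nat_lit 2142136853) (nat_lit 1748) (nat_lit 18718730539) (nat_lit 340) (nat_lit 5) (nat_lit 362) (nat_lit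 5) (nat_lit 363) (nat_lit 5) (nat_lit 324) (nat_lit 322) (nat_lit 134)))))) (XT.nd (nat_lit 468) (nat_lit 0) (nat_lit 304) (XT.nd (nat_lit 234) (nat_lit 0) (nat_lit 152) (XT.nd (nat_lit 78) (nat_lit 0) (nat_lit 76) (XT.lf (nat_lit 0) (nat_lit 6202233106) (nat_lit 1672) (nat_lit 11092232684) (nat_lit 1748) (nat_lit 9550056292) (nat_lit 341) (nat_lit 5) (nat_lit 363) (nat_lit 5) (nat_lit 364) (nat_lit 5) (nat_lit 325) (nat_lit 322) (nat_lit 133)) (XT.nd (nat_lit 78) (nat_lit 0) (nat_lit 0) (XT.lf (nat_lit 0) (nat_lit 6943872343) (nat_lit 1672) (nat_lit 20256319418) (nat_lit 1748) (nat_lit 51816568) (nat_lit 342) (nat_lit 5) (nat_lit 364) (nat_lit 5) (nat_lit 365) (nat_lit 5) (nat_lit 326) (nat_lit 322) (nat_lit 132)) (XT.lf (nat_lit 0) (nat_lit 7894052153) (nat_lit 1672) (nat_lit 2011320968) (nat_lit 1748) (nat_lit 17762625360) (nat_lit 342) (nat_lit 5) (nat_lit 364) (nat_lit 5) (nat_lit 365) (nat_lit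 5) (nat_lit 327) (nat_lit 322) (nat_lit 131)))) (XT.nd (nat_lit 78) (nat_lit 0) (nat_lit 0) (XT.lf (nat_lit 0) (nat_lit 9030328729) (nat_lit 1672) (nat_lit 11145397034) (nat_lit 1748) (nat_lit 7917595740) (nat_lit 343) (nat_lit 5) (nat_lit 365) (nat_lit 5) (nat_lit 366) (nat_lit 5) (nat_lit 328) (nat_lit 322) (nat_lit 130)) (XT.nd (nat_lit 78) (nat_lit 0) (nat_lit 76) (XT.lf (nat_lit 76) (nat_lit 8008033896) (nat_lit 0) (nat_lit 2319869618) (nat_lit 1748) (nat_lit 18200961351) (nat_lit 344) (nat_lit 5) (nat_lit 343) (nat_lit 5) (nat_lit 366) (nat_lit 5) (nat_lit 329) (nat_lit 322) (nat_lit 129)) (XT.lf (nat_lit 0) (nat_lit 11840163353) (nat_lit 1672) (nat_lit 1195251573) (nat_lit 1748) (nat_lit 15938549154) (nat_lit 344) (nat_lit 5) (nat_lit 366) (nat_lit 5) (nat_lit 367) (nat_lit 5) (nat_lit 330) (nat_lit 322) (nat_lit 128))))) (XT.nd (nat_lit 234) (nat_lit 0) (nat_lit 152) (XT.nd (nat_lit 78)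 (nat_lit 0) (nat_lit 0) (XT.lf (nat_lit 0) (nat_lit 13566909182) (nat_lit 1672) (nat_lit 10524849513) (nat_lit 1748) (nat_lit 5337279784) (nat_lit 345) (nat_lit 5) (nat_lit 367) (nat_lit 5) (nat_lit 368) (nat_lit 5) (nat_lit 331) (nat_lit 322) (nat_lit 127)) (XT.nd (nat_lit 78) (nat_lit 0) (nat_lit 76) (XT.lf (nat_lit 76) (nat_lit 9763158022) (nat_lit 0) (nat_lit 5736655166) (nat_lit 1748) (nat_lit 14394869242) (nat_lit 346) (nat_lit 5) (nat_lit 345) (nat_lit 5) (nat_lit 368) (nat_lit 5) (nat_lit 332) (nat_lit 322) (nat_lit 126)) (XT.lf (nat_lit 76) (nat_lit 346492595) (nat_lit 0) (nat_lit 17299512084) (nat_lit 1748) (nat_lit 12725189322) (nat_lit 347) (nat_lit 5) (nat_lit 346) (nat_lit 5) (nat_lit 369) (nat_lit 5) (nat_lit 333) (nat_lit 322) (nat_lit 125)))) (XT.nd (nat_lit 156) (nat_lit 0) (nat_lit 76) (XT.nd (nat_lit 78) (nat_lit 0) (nat_lit 0) (XT.lf (nat_lit 0) (nat_lit 20037654667) (nat_lit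 1672) (nat_lit 9196770242) (nat_lit 1748) (nat_lit 1623958738) (nat_lit 347) (nat_lit 5) (nat_lit 369) (nat_lit 5) (nat_lit 370) (nat_lit 5) (nat_lit 334) (nat_lit 322) (nat_lit 124)) (XT.lf (nat_lit 76) (nat_lit 12298574971) (nat_lit 0) (nat_lit 10394006856) (nat_lit 1748) (nat_lit 8663780662) (nat_lit 348) (nat_lit 5) (nat_lit 347) (nat_lit 5) (nat_lit 370) (nat_lit 5) (nat_lit 335) (nat_lit 322) (nat_lit 123))) (XT.nd (nat_lit 78) (nat_lit 0) (nat_lit 0) (XT.lf (nat_lit 76) (nat_lit 2669652413) (nat_lit 0) (nat_lit 22892171127) (nat_lit 1748) (nat_lit 6304767764) (nat_lit 349) (nat_lit 5) (nat_lit 348) (nat_lit 5) (nat_lit 371) (nat_lit 5) (nat_lit 336) (nat_lit 322) (nat_lit 122)) (XT.lf (nat_lit 76) (nat_lit 25236326811) (nat_lit 0) (nat_lit 3475194749) (nat_lit 1748) (nat_lit 3676721670) (nat_lit 349) (nat_lit 5) (nat_lit 348) (nat_lit 5) (nat_lit 371) (nat_lit 5) (nat_lit 337) (nat_lit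 322) (nat_lit 121))))))) (XT.nd (nat_lit 40326) (nat_lit 0) (nat_lit 912) (XT.nd (nat_lit 39780) (nat_lit 0) (nat_lit 1064) (XT.nd (nat_lit 39546) (nat_lit 0) (nat_lit 988) (XT.nd (nat_lit 78) (nat_lit 1672) (nat_lit 0) (XT.lf (nat_lit 76) (nat_lit 15649398304) (nat_lit 0) (nat_lit 16511506688) (nat_lit 1748) (nat_lit 760539549) (nat_lit 350) (nat_lit 5) (nat_lit 349) (nat_lit 5) (nat_lit 372) (nat_lit 5) (nat_lit 338) (nat_lit 322) (nat_lit 120)) (XT.nd (nat_lit 39390) (nat_lit 0) (nat_lit 912) (XT.lf (nat_lit 0) (nat_lit 2342322270) (nat_lit 1748) (nat_lit 27692943697) (nat_lit 76) (nat_lit 3432515919) (nat_lit 327) (nat_lit 5) (nat_lit 350) (nat_lit 5) (nat_lit 328) (nat_lit 5) (nat_lit 339) (nat_lit 322) (nat_lit 119)) (XT.lf (nat_lit 0) (nat_lit 2650286248) (nat_lit 1748) (nat_lit 5285093156) (nat_lit 1748) (nat_lit 5285093156) (nat_lit 339) (nat_lit 3) (nat_lit 362) (nat_lit 3) (nat_lit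 362) (nat_lit 5) (nat_lit 323) (nat_lit 323) (nat_lit 134)))) (XT.nd (nat_lit 78) (nat_lit 0) (nat_lit 0) (XT.lf (nat_lit 0) (nat_lit 5567692244) (nat_lit 1672) (nat_lit 19814055893) (nat_lit 1748) (nat_lit 1451923175) (nat_lit 340) (nat_lit 5) (nat_lit 362) (nat_lit 5) (nat_lit 363) (nat_lit 5) (nat_lit 324) (nat_lit 323) (nat_lit 133)) (XT.nd (nat_lit 78) (nat_lit 0) (nat_lit 76) (XT.lf (nat_lit 0) (nat_lit 6015892632) (nat_lit 1672) (nat_lit 2064357009) (nat_lit 1748) (nat_lit 19154473607) (nat_lit 340) (nat_lit 5) (nat_lit 362) (nat_lit 5) (nat_lit 363) (nat_lit 5) (nat_lit 325) (nat_lit 323) (nat_lit 132)) (XT.lf (nat_lit 0) (nat_lit 6643160826) (nat_lit 1672) (nat_lit 11279134541) (nat_lit 1748) (nat_lit 9722204084) (nat_lit 341) (nat_lit 5) (nat_lit 363) (nat_lit 5) (nat_lit 364) (nat_lit 5) (nat_lit 326) (nat_lit 323) (nat_lit 131))))) (XT.nd (nat_lit 234) (nat_lit 0) (nat_lit 152) (XT.nd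 (nat_lit 78) (nat_lit 0) (nat_lit 76) (XT.lf (nat_lit 76) (nat_lit 7349416362) (nat_lit 0) (nat_lit 50790312) (nat_lit 1748) (nat_lit 20664148067) (nat_lit 342) (nat_lit 5) (nat_lit 341) (nat_lit 5) (nat_lit 364) (nat_lit 5) (nat_lit 327) (nat_lit 323) (nat_lit 130)) (XT.nd (nat_lit 78) (nat_lit 0) (nat_lit 76) (XT.lf (nat_lit 0) (nat_lit 8371347889) (nat_lit 1672) (nat_lit 1926611678) (nat_lit 1748) (nat_lit 18195023291) (nat_lit 342) (nat_lit 5) (nat_lit 364) (nat_lit 5) (nat_lit 365) (nat_lit 5) (nat_lit 328) (nat_lit 323) (nat_lit 129)) (XT.lf (nat_lit 0) (nat_lit 9535039752) (nat_lit 1672) (nat_lit 11331541034) (nat_lit 1748) (nat_lit 8064625413) (nat_lit 343) (nat_lit 5) (nat_lit 365) (nat_lit 5) (nat_lit 366) (nat_lit 5) (nat_lit 329) (nat_lit 323) (nat_lit 128)))) (XT.nd (nat_lit 156) (nat_lit 0) (nat_lit 152) (XT.nd (nat_lit 78) (nat_lit 0) (nat_lit 76) (XT.lf (nat_lit 76) (nat_lit 8394088164)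 (nat_lit 0) (nat_lit 2471590591) (nat_lit 1748) (nat_lit 18514261327) (nat_lit 344) (nat_lit 5) (nat_lit 343) (nat_lit 5) (nat_lit 366) (nat_lit 5) (nat_lit 330) (nat_lit 323) (nat_lit 127)) (XT.lf (nat_lit 0) (nat_lit 12416149736) (nat_lit 1672) (nat_lit 1084373985) (nat_lit 1748) (nat_lit 16338018443) (nat_lit 344) (nat_lit 5) (nat_lit 366) (nat_lit 5) (nat_lit 367) (nat_lit 5) (nat_lit 331) (nat_lit 323) (nat_lit 126))) (XT.nd (nat_lit 78) (nat_lit 0) (nat_lit 0) (XT.lf (nat_lit 0) (nat_lit 14188744107) (nat_lit 1672) (nat_lit 10691255504) (nat_lit 1748) (nat_lit 5427394819) (nat_lit 345) (nat_lit 5) (nat_lit 367) (nat_lit 5) (nat_lit 368) (nat_lit 5) (nat_lit 332) (nat_lit 323) (nat_lit 125)) (XT.lf (nat_lit 76) (nat_lit 10202969402) (nat_lit 0) (nat_lit 5971362597) (nat_lit 1748) (nat_lit 14612788135) (nat_lit 346) (nat_lit 5) (nat_lit 345) (nat_lit 5) (nat_lit 368) (nat_lit 5) (nat_lit 333)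 (nat_lit 323) (nat_lit 124)))))) (XT.nd (nat_lit 39936) (nat_lit 0) (nat_lit 76) (XT.nd (nat_lit 234) (nat_lit 532) (nat_lit 0) (XT.nd (nat_lit 78) (nat_lit 0) (nat_lit 76) (XT.lf (nat_lit 76) (nat_lit 506151700) (nat_lit 0) (nat_lit 17873229352) (nat_lit 1748) (nat_lit 12898662746) (nat_lit 347) (nat_lit 5) (nat_lit 346) (nat_lit 5) (nat_lit 369) (nat_lit 5) (nat_lit 334) (nat_lit 323) (nat_lit 123)) (XT.nd (nat_lit 78) (nat_lit 0) (nat_lit 0) (XT.lf (nat_lit 0) (nat_lit 20836493896) (nat_lit 1672) (nat_lit 9323250333) (nat_lit 1748) (nat_lit 1620236640) (nat_lit 347) (nat_lit 5) (nat_lit 369) (nat_lit 5) (nat_lit 370) (nat_lit 5) (nat_lit 335) (nat_lit 323) (nat_lit 122)) (XT.lf (nat_lit 76) (nat_lit 12814531026) (nat_lit 0) (nat_lit 10751733728) (nat_lit 1748) (nat_lit 8726736233) (nat_lit 348) (nat_lit 5) (nat_lit 347) (nat_lit 5) (nat_lit 370) (nat_lit 5) (nat_lit 336) (nat_lit 323) (nat_lit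 121)))) (XT.nd (nat_lit 78) (nat_lit 684) (nat_lit 0) (XT.lf (nat_lit 76) (nat_lit 2898635762) (nat_lit 0) (nat_lit 23618006691) (nat_lit 1748) (nat_lit 6301998696) (nat_lit 349) (nat_lit 5) (nat_lit 348) (nat_lit 5) (nat_lit 371) (nat_lit 5) (nat_lit 337) (nat_lit 323) (nat_lit 120)) (XT.nd (nat_lit 39546) (nat_lit 684) (nat_lit 0) (XT.lf (nat_lit 76) (nat_lit 26137973681) (nat_lit 0) (nat_lit 3617383049) (nat_lit 1748) (nat_lit 3600700892) (nat_lit 349) (nat_lit 5) (nat_lit 348) (nat_lit 5) (nat_lit 371) (nat_lit 5) (nat_lit 338) (nat_lit 323) (nat_lit 119)) (XT.lf (nat_lit 0) (nat_lit 2860941712) (nat_lit 1748) (nat_lit 5376693815) (nat_lit 1748) (nat_lit 5376693815) (nat_lit 339) (nat_lit 3) (nat_lit 362) (nat_lit 3) (nat_lit 362) (nat_lit 5) (nat_lit 324) (nat_lit 324) (nat_lit 132))))) (XT.nd (nat_lit 234) (nat_lit 0) (nat_lit 76) (XT.nd (nat_lit 78) (nat_lit 0) (nat_lit 0) (XT.lf (nat_lit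 0) (nat_lit 5989428785) (nat_lit 1672) (nat_lit 20270570824) (nat_lit 1748) (nat_lit 1373326648) (nat_lit 340) (nat_lit 5) (nat_lit 362) (nat_lit 5) (nat_lit 363) (nat_lit 5) (nat_lit 325) (nat_lit 324) (nat_lit 131)) (XT.nd (nat_lit 78) (nat_lit 0) (nat_lit 76) (XT.lf (nat_lit 0) (nat_lit 6443656570) (nat_lit 1672) (nat_lit 1992397674) (nat_lit 1748) (nat_lit 19610511483) (nat_lit 340) (nat_lit 5) (nat_lit 362) (nat_lit 5) (nat_lit 363) (nat_lit 5) (nat_lit 326) (nat_lit 324) (nat_lit 130)) (XT.lf (nat_lit 0) (nat_lit 7082686329) (nat_lit 1672) (nat_lit 11480016708) (nat_lit 1748) (nat_lit 9906080691) (nat_lit 341) (nat_lit 5) (nat_lit 363) (nat_lit 5) (nat_lit 364) (nat_lit 5) (nat_lit 327) (nat_lit 324) (nat_lit 129)))) (XT.nd (nat_lit 156) (nat_lit 0) (nat_lit 152) (XT.nd (nat_lit 78) (nat_lit 0) (nat_lit 76) (XT.lf (nat_lit 76) (nat_lit 7705160079) (nat_lit 0) (nat_lit 151164668) (nat_lit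 1748) (nat_lit 21045039473) (nat_lit 342) (nat_lit 5) (nat_lit 341) (nat_lit 5) (nat_lit 364) (nat_lit 5) (nat_lit 328) (nat_lit 324) (nat_lit 128)) (XT.lf (nat_lit 0) (nat_lit 8849158296) (nat_lit 1672) (nat_lit 1847687511) (nat_lit 1748) (nat_lit 18646161172) (nat_lit 342) (nat_lit 5) (nat_lit 364) (nat_lit 5) (nat_lit 365) (nat_lit 5) (nat_lit 329) (nat_lit 324) (nat_lit 127))) (XT.nd (nat_lit 78) (nat_lit 0) (nat_lit 0) (XT.lf (nat_lit 0) (nat_lit 10041470963) (nat_lit 1672) (nat_lit 11531777668) (nat_lit 1748) (nat_lit 8221260943) (nat_lit 343) (nat_lit 5) (nat_lit 365) (nat_lit 5) (nat_lit 366) (nat_lit 5) (nat_lit 330) (nat_lit 324) (nat_lit 126)) (XT.lf (nat_lit 76) (nat_lit 8783353783) (nat_lit 0) (nat_lit 2623148888) (nat_lit 1748) (nat_lit 18850319892) (nat_lit 344) (nat_lit 5) (nat_lit 343) (nat_lit 5) (nat_lit 366) (nat_lit 5) (nat_lit 331) (nat_lit 324) (nat_lit 125))))))))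
noncomputable def xc127 : XT := (XT.nd (nat_lit 81432) (nat_lit 0) (nat_lit 0) (XT.nd (nat_lit 40638) (nat_lit 0) (nat_lit 0) (XT.nd (nat_lit 40092) (nat_lit 380) (nat_lit 0) (XT.nd (nat_lit 234) (nat_lit 0) (nat_lit 152) (XT.nd (nat_lit 78) (nat_lit 0) (nat_lit 76) (XT.lf (nat_lit 0) (nat_lit 12996741949) (nat_lit 1672) (nat_lit 978593267) (nat_lit 1748) (nat_lit 16753988777) (nat_lit 344) (nat_lit 5) (nat_lit 366) (nat_lit 5) (nat_lit 367) (nat_lit 5) (nat_lit 332) (nat_lit 324) (nat_lit 124)) (XT.nd (nat_lit 78) (nat_lit 0) (nat_lit 0) (XT.lf (nat_lit 0) (nat_lit 14816902095) (nat_lit 1672) (nat_lit 10871226372) (nat_lit 1748) (nat_lit 5524231784) (nat_lit 345) (nat_lit 5) (nat_lit 367) (nat_lit 5) (nat_lit 368) (nat_lit 5) (nat_lit 333) (nat_lit 324) (nat_lit 123)) (XT.lf (nat_lit 76) (nat_lit 10647541506) (nat_lit 0) (nat_lit 6209517308) (nat_lit 1748) (nat_lit 14849524890) (nat_lit 346)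 (nat_lit 5) (nat_lit 345) (nat_lit 5) (nat_lit 368) (nat_lit 5) (nat_lit 334) (nat_lit 324) (nat_lit 122)))) (XT.nd (nat_lit 78) (nat_lit 0) (nat_lit 76) (XT.lf (nat_lit 76) (nat_lit 662032195) (nat_lit 0) (nat_lit 18461016303) (nat_lit 1748) (nat_lit 13089296626) (nat_lit 347) (nat_lit 5) (nat_lit 346) (nat_lit 5) (nat_lit 369) (nat_lit 5) (nat_lit 335) (nat_lit 324) (nat_lit 121)) (XT.nd (nat_lit 78) (nat_lit 0) (nat_lit 0) (XT.lf (nat_lit 0) (nat_lit 21647948963) (nat_lit 1672) (nat_lit 9462102320) (nat_lit 1748) (nat_lit 1619413198) (nat_lit 347) (nat_lit 5) (nat_lit 369) (nat_lit 5) (nat_lit 370) (nat_lit 5) (nat_lit 336) (nat_lit 324) (nat_lit 120)) (XT.lf (nat_lit 76) (nat_lit 13337527429) (nat_lit 0) (nat_lit 11117557176) (nat_lit 1748) (nat_lit 8802886658) (nat_lit 348) (nat_lit 5) (nat_lit 347) (nat_lit 5) (nat_lit 370) (nat_lit 5) (nat_lit 337) (nat_lit 324) (nat_lit 119))))) (XT.nd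 (nat_lit 234) (nat_lit 0) (nat_lit 152) (XT.nd (nat_lit 78) (nat_lit 0) (nat_lit 76) (XT.lf (nat_lit 0) (nat_lit 3070388472) (nat_lit 1748) (nat_lit 5474885821) (nat_lit 1748) (nat_lit 5474885821) (nat_lit 339) (nat_lit 3) (nat_lit 362) (nat_lit 3) (nat_lit 362) (nat_lit 5) (nat_lit 325) (nat_lit 325) (nat_lit 130)) (XT.nd (nat_lit 78) (nat_lit 0) (nat_lit 0) (XT.lf (nat_lit 0) (nat_lit 6409196268) (nat_lit 1672) (nat_lit 20748697613) (nat_lit 1748) (nat_lit 1299384378) (nat_lit 340) (nat_lit 5) (nat_lit 362) (nat_lit 5) (nat_lit 363) (nat_lit 5) (nat_lit 326) (nat_lit 325) (nat_lit 129)) (XT.lf (nat_lit 0) (nat_lit 6870058131) (nat_lit 1672) (nat_lit 1925965396) (nat_lit 1748) (nat_lit 20087038410) (nat_lit 340) (nat_lit 5) (nat_lit 362) (nat_lit 5) (nat_lit 363) (nat_lit 5) (nat_lit 327) (nat_lit 325) (nat_lit 128)))) (XT.nd (nat_lit 156) (nat_lit 0) (nat_lit 76) (XT.nd (nat_lit 78) (nat_lit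 0) (nat_lit 0) (XT.lf (nat_lit 0) (nat_lit 7521607373) (nat_lit 1672) (nat_lit 11694817936) (nat_lit 1748) (nat_lit 10101661155) (nat_lit 341) (nat_lit 5) (nat_lit 363) (nat_lit 5) (nat_lit 364) (nat_lit 5) (nat_lit 328) (nat_lit 325) (nat_lit 127)) (XT.lf (nat_lit 76) (nat_lit 8063811560) (nat_lit 0) (nat_lit 248875824) (nat_lit 1748) (nat_lit 21451079095) (nat_lit 342) (nat_lit 5) (nat_lit 341) (nat_lit 5) (nat_lit 364) (nat_lit 5) (nat_lit 329) (nat_lit 325) (nat_lit 126))) (XT.nd (nat_lit 78) (nat_lit 0) (nat_lit 76) (XT.lf (nat_lit 0) (nat_lit 9328291232) (nat_lit 1672) (nat_lit 1774244051) (nat_lit 1748) (nat_lit 19116270092) (nat_lit 342) (nat_lit 5) (nat_lit 364) (nat_lit 5) (nat_lit 365) (nat_lit 5) (nat_lit 330) (nat_lit 325) (nat_lit 125)) (XT.lf (nat_lit 0) (nat_lit 10550444396) (nat_lit 1672) (nat_lit 11746041304) (nat_lit 1748) (nat_lit 8387492294) (nat_lit 343) (nat_lit 5) (nat_lit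 365) (nat_lit 5) (nat_lit 366) (nat_lit 5) (nat_lit 331) (nat_lit 325) (nat_lit 124)))))) (XT.nd (nat_lit 40248) (nat_lit 0) (nat_lit 76) (XT.nd (nat_lit 234) (nat_lit 304) (nat_lit 0) (XT.nd (nat_lit 78) (nat_lit 0) (nat_lit 76) (XT.lf (nat_lit 76) (nat_lit 9176407582) (nat_lit 0) (nat_lit 2774810251) (nat_lit 1748) (nat_lit 19209052907) (nat_lit 344) (nat_lit 5) (nat_lit 343) (nat_lit 5) (nat_lit 366) (nat_lit 5) (nat_lit 332) (nat_lit 325) (nat_lit 123)) (XT.nd (nat_lit 78) (nat_lit 0) (nat_lit 76) (XT.lf (nat_lit 0) (nat_lit 13582805695) (nat_lit 1672) (nat_lit 877578797) (nat_lit 1748) (nat_lit 17186695894) (nat_lit 344) (nat_lit 5) (nat_lit 366) (nat_lit 5) (nat_lit 367) (nat_lit 5) (nat_lit 333) (nat_lit 325) (nat_lit 122)) (XT.lf (nat_lit 0) (nat_lit 15452280742) (nat_lit 1672) (nat_lit 11064676957) (nat_lit 1748) (nat_lit 5627761660) (nat_lit 345) (nat_lit 5) (nat_lit 367) (nat_lit 5)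 (nat_lit 368) (nat_lit 5) (nat_lit 334) (nat_lit 325) (nat_lit 121)))) (XT.nd (nat_lit 78) (nat_lit 456) (nat_lit 0) (XT.lf (nat_lit 76) (nat_lit 11097501282) (nat_lit 0) (nat_lit 6451429025) (nat_lit 1748) (nat_lit 15104939105) (nat_lit 346) (nat_lit 5) (nat_lit 345) (nat_lit 5) (nat_lit 368) (nat_lit 5) (nat_lit 335) (nat_lit 325) (nat_lit 120)) (XT.nd (nat_lit 39858) (nat_lit 532) (nat_lit 0) (XT.lf (nat_lit 76) (nat_lit 814512582) (nat_lit 0) (nat_lit 19063475382) (nat_lit 1748) (nat_lit 13296919437) (nat_lit 347) (nat_lit 5) (nat_lit 346) (nat_lit 5) (nat_lit 369) (nat_lit 5) (nat_lit 336) (nat_lit 325) (nat_lit 119)) (XT.lf (nat_lit 0) (nat_lit 3279022428) (nat_lit 1748) (nat_lit 5579646291) (nat_lit 1748) (nat_lit 5579646291) (nat_lit 339) (nat_lit 3) (nat_lit 362) (nat_lit 3) (nat_lit 362) (nat_lit 5) (nat_lit 326) (nat_lit 326) (nat_lit 128))))) (XT.nd (nat_lit 234) (nat_lit 0) (nat_lit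 76) (XT.nd (nat_lit 78) (nat_lit 0) (nat_lit 0) (XT.lf (nat_lit 0) (nat_lit 6827774937) (nat_lit 1672) (nat_lit 21248630183) (nat_lit 1748) (nat_lit 1229833465) (nat_lit 340) (nat_lit 5) (nat_lit 362) (nat_lit 5) (nat_lit 363) (nat_lit 5) (nat_lit 327) (nat_lit 326) (nat_lit 127)) (XT.nd (nat_lit 78) (nat_lit 0) (nat_lit 76) (XT.lf (nat_lit 0) (nat_lit 7295871312) (nat_lit 1672) (nat_lit 1864784787) (nat_lit 1748) (nat_lit 20584278258) (nat_lit 340) (nat_lit 5) (nat_lit 362) (nat_lit 5) (nat_lit 363) (nat_lit 5) (nat_lit 328) (nat_lit 326) (nat_lit 126)) (XT.lf (nat_lit 0) (nat_lit 7960697440) (nat_lit 1672) (nat_lit 11923502730) (nat_lit 1748) (nat_lit 10308941402) (nat_lit 341) (nat_lit 5) (nat_lit 363) (nat_lit 5) (nat_lit 364) (nat_lit 5) (nat_lit 329) (nat_lit 326) (nat_lit 125)))) (XT.nd (nat_lit 156) (nat_lit 0) (nat_lit 152) (XT.nd (nat_lit 78) (nat_lit 0) (nat_lit 76) (XT.lf (nat_lit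 76) (nat_lit 8425903755) (nat_lit 0) (nat_lit 344169618) (nat_lit 1748) (nat_lit 21882233712) (nat_lit 342) (nat_lit 5) (nat_lit 341) (nat_lit 5) (nat_lit 364) (nat_lit 5) (nat_lit 330) (nat_lit 326) (nat_lit 124)) (XT.lf (nat_lit 0) (nat_lit 9809533302) (nat_lit 1672) (nat_lit 1705995186) (nat_lit 1748) (nat_lit 19605607082) (nat_lit 342) (nat_lit 5) (nat_lit 364) (nat_lit 5) (nat_lit 365) (nat_lit 5) (nat_lit 331) (nat_lit 326) (nat_lit 123))) (XT.nd (nat_lit 78) (nat_lit 0) (nat_lit 0) (XT.lf (nat_lit 0) (nat_lit 11062762520) (nat_lit 1672) (nat_lit 11974292376) (nat_lit 1748) (nat_lit 8563326246) (nat_lit 343) (nat_lit 5) (nat_lit 365) (nat_lit 5) (nat_lit 366) (nat_lit 5) (nat_lit 332) (nat_lit 326) (nat_lit 122)) (XT.lf (nat_lit 76) (nat_lit 9573816112) (nat_lit 0) (nat_lit 2926832856) (nat_lit 1748) (nat_lit 19590417735) (nat_lit 344) (nat_lit 5) (nat_lit 343) (nat_lit 5) (nat_lit 366)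 (nat_lit 5) (nat_lit 333) (nat_lit 326) (nat_lit 121))))))) (XT.nd (nat_lit 80886) (nat_lit 0) (nat_lit 0) (XT.nd (nat_lit 40326) (nat_lit 0) (nat_lit 0) (XT.nd (nat_lit 40092) (nat_lit 380) (nat_lit 0) (XT.nd (nat_lit 78) (nat_lit 0) (nat_lit 76) (XT.lf (nat_lit 0) (nat_lit 14175190881) (nat_lit 1672) (nat_lit 781017796) (nat_lit 1748) (nat_lit 17636397492) (nat_lit 344) (nat_lit 5) (nat_lit 366) (nat_lit 5) (nat_lit 367) (nat_lit 5) (nat_lit 334) (nat_lit 326) (nat_lit 120)) (XT.nd (nat_lit 78) (nat_lit 0) (nat_lit 0) (XT.lf (nat_lit 0) (nat_lit 16095763940) (nat_lit 1672) (nat_lit 11271547790) (nat_lit 1748) (nat_lit 5737967799) (nat_lit 345) (nat_lit 5) (nat_lit 367) (nat_lit 5) (nat_lit 368) (nat_lit 5) (nat_lit 335) (nat_lit 326) (nat_lit 119)) (XT.lf (nat_lit 76) (nat_lit 11553466692) (nat_lit 0) (nat_lit 6697404923) (nat_lit 1748) (nat_lit 15378926629) (nat_lit 346) (nat_lit 5) (nat_lit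 345) (nat_lit 5) (nat_lit 368) (nat_lit 5) (nat_lit 336) (nat_lit 326) (nat_lit 118)))) (XT.nd (nat_lit 78) (nat_lit 0) (nat_lit 76) (XT.lf (nat_lit 0) (nat_lit 3487226545) (nat_lit 1748) (nat_lit 5690964321) (nat_lit 1748) (nat_lit 5690964321) (nat_lit 339) (nat_lit 3) (nat_lit 362) (nat_lit 3) (nat_lit 362) (nat_lit 5) (nat_lit 327) (nat_lit 327) (nat_lit 126)) (XT.nd (nat_lit 78) (nat_lit 0) (nat_lit 0) (XT.lf (nat_lit 0) (nat_lit 7245920261) (nat_lit 1672) (nat_lit 21770594360) (nat_lit 1748) (nat_lit 1164426232) (nat_lit 340) (nat_lit 5) (nat_lit 362) (nat_lit 5) (nat_lit 363) (nat_lit 5) (nat_lit 328) (nat_lit 327) (nat_lit 125)) (XT.lf (nat_lit 0) (nat_lit 7721846554) (nat_lit 1672) (nat_lit 1808597525) (nat_lit 1748) (nat_lit 21102484044) (nat_lit 340) (nat_lit 5) (nat_lit 362) (nat_lit 5) (nat_lit 363) (nat_lit 5) (nat_lit 329) (nat_lit 327) (nat_lit 124))))) (XT.nd (nat_lit 234) (nat_lit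 152) (nat_lit 0) (XT.nd (nat_lit 78) (nat_lit 0) (nat_lit 0) (XT.lf (nat_lit 0) (nat_lit 8400707774) (nat_lit 1672) (nat_lit 12166060536) (nat_lit 1748) (nat_lit 10527937622) (nat_lit 341) (nat_lit 5) (nat_lit 363) (nat_lit 5) (nat_lit 364) (nat_lit 5) (nat_lit 330) (nat_lit 327) (nat_lit 123)) (XT.nd (nat_lit 78) (nat_lit 0) (nat_lit 76) (XT.lf (nat_lit 76) (nat_lit 8791960016) (nat_lit 0) (nat_lit 437280567) (nat_lit 1748) (nat_lit 22338514319) (nat_lit 342) (nat_lit 5) (nat_lit 341) (nat_lit 5) (nat_lit 364) (nat_lit 5) (nat_lit 331) (nat_lit 327) (nat_lit 122)) (XT.lf (nat_lit 0) (nat_lit 10293651833) (nat_lit 1672) (nat_lit 1642672086) (nat_lit 1748) (nat_lit 20114454800) (nat_lit 342) (nat_lit 5) (nat_lit 364) (nat_lit 5) (nat_lit 365) (nat_lit 5) (nat_lit 332) (nat_lit 327) (nat_lit 121)))) (XT.nd (nat_lit 156) (nat_lit 304) (nat_lit 0) (XT.nd (nat_lit 78) (nat_lit 0) (nat_lit 0) (XT.lf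 (nat_lit 0) (nat_lit 11579210192) (nat_lit 1672) (nat_lit 12216516560) (nat_lit 1748) (nat_lit 8748785920) (nat_lit 343) (nat_lit 5) (nat_lit 365) (nat_lit 5) (nat_lit 366) (nat_lit 5) (nat_lit 333) (nat_lit 327) (nat_lit 120)) (XT.lf (nat_lit 76) (nat_lit 9976136923) (nat_lit 0) (nat_lit 3079467984) (nat_lit 1748) (nat_lit 19994411953) (nat_lit 344) (nat_lit 5) (nat_lit 343) (nat_lit 5) (nat_lit 366) (nat_lit 5) (nat_lit 334) (nat_lit 327) (nat_lit 119))) (XT.nd (nat_lit 40092) (nat_lit 380) (nat_lit 0) (XT.lf (nat_lit 0) (nat_lit 14774733548) (nat_lit 1672) (nat_lit 688614259) (nat_lit 1748) (nat_lit 18103373026) (nat_lit 344) (nat_lit 5) (nat_lit 366) (nat_lit 5) (nat_lit 367) (nat_lit 5) (nat_lit 335) (nat_lit 327) (nat_lit 118)) (XT.lf (nat_lit 0) (nat_lit 3695371896) (nat_lit 1748) (nat_lit 5808840617) (nat_lit 1748) (nat_lit 5808840617) (nat_lit 339) (nat_lit 3) (nat_lit 362) (nat_lit 3)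 (nat_lit 362) (nat_lit 5) (nat_lit 328) (nat_lit 328) (nat_lit 124)))))) (XT.nd (nat_lit 40716) (nat_lit 0) (nat_lit 0) (XT.nd (nat_lit 234) (nat_lit 76) (nat_lit 0) (XT.nd (nat_lit 78) (nat_lit 0) (nat_lit 0) (XT.lf (nat_lit 0) (nat_lit 7664364958) (nat_lit 1672) (nat_lit 22314847331) (nat_lit 1748) (nat_lit 1102929348) (nat_lit 340) (nat_lit 5) (nat_lit 362) (nat_lit 5) (nat_lit 363) (nat_lit 5) (nat_lit 329) (nat_lit 328) (nat_lit 123)) (XT.nd (nat_lit 78) (nat_lit 0) (nat_lit 76) (XT.lf (nat_lit 0) (nat_lit 8148712717) (nat_lit 1672) (nat_lit 1757161413) (nat_lit 1748) (nat_lit 21641937526) (nat_lit 340) (nat_lit 5) (nat_lit 362) (nat_lit 5) (nat_lit 363) (nat_lit 5) (nat_lit 330) (nat_lit 328) (nat_lit 122)) (XT.lf (nat_lit 0) (nat_lit 8842369323) (nat_lit 1672) (nat_lit 12422505001) (nat_lit 1748) (nat_lit 10758685712) (nat_lit 341) (nat_lit 5) (nat_lit 363) (nat_lit 5) (nat_lit 364) (nat_lit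 5) (nat_lit 331) (nat_lit 328) (nat_lit 121)))) (XT.nd (nat_lit 156) (nat_lit 152) (nat_lit 0) (XT.nd (nat_lit 78) (nat_lit 0) (nat_lit 76) (XT.lf (nat_lit 76) (nat_lit 9162495277) (nat_lit 0) (nat_lit 528432598) (nat_lit 1748) (nat_lit 22819974862) (nat_lit 342) (nat_lit 5) (nat_lit 341) (nat_lit 5) (nat_lit 364) (nat_lit 5) (nat_lit 332) (nat_lit 328) (nat_lit 120)) (XT.lf (nat_lit 0) (nat_lit 10781396756) (nat_lit 1672) (nat_lit 1584022231) (nat_lit 1748) (nat_lit 20643121271) (nat_lit 342) (nat_lit 5) (nat_lit 364) (nat_lit 5) (nat_lit 365) (nat_lit 5) (nat_lit 333) (nat_lit 328) (nat_lit 119))) (XT.nd (nat_lit 40248) (nat_lit 304) (nat_lit 0) (XT.lf (nat_lit 0) (nat_lit 12100556519) (nat_lit 1672) (nat_lit 12472724011) (nat_lit 1748) (nat_lit 8943910338) (nat_lit 343) (nat_lit 5) (nat_lit 365) (nat_lit 5) (nat_lit 366) (nat_lit 5) (nat_lit 334) (nat_lit 328) (nat_lit 118)) (XT.lf (nat_lit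 0) (nat_lit 3903818646) (nat_lit 1748) (nat_lit 5933287159) (nat_lit 1748) (nat_lit 5933287159) (nat_lit 339) (nat_lit 3) (nat_lit 362) (nat_lit 3) (nat_lit 362) (nat_lit 5) (nat_lit 329) (nat_lit 329) (nat_lit 122))))) (XT.nd (nat_lit 234) (nat_lit 76) (nat_lit 0) (XT.nd (nat_lit 78) (nat_lit 0) (nat_lit 0) (XT.lf (nat_lit 0) (nat_lit 8083820923) (nat_lit 1672) (nat_lit 22881677180) (nat_lit 1748) (nat_lit 1045123015) (nat_lit 340) (nat_lit 5) (nat_lit 362) (nat_lit 5) (nat_lit 363) (nat_lit 5) (nat_lit 330) (nat_lit 329) (nat_lit 121)) (XT.nd (nat_lit 78) (nat_lit 0) (nat_lit 76) (XT.lf (nat_lit 0) (nat_lit 8577178969) (nat_lit 1672) (nat_lit 1710249488) (nat_lit 1748) (nat_lit 22202948843) (nat_lit 340) (nat_lit 5) (nat_lit 362) (nat_lit 5) (nat_lit 363) (nat_lit 5) (nat_lit 331) (nat_lit 329) (nat_lit 120)) (XT.lf (nat_lit 0) (nat_lit 9286394588) (nat_lit 1672) (nat_lit 12692873288) (nat_lit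 1748) (nat_lit 11001240761) (nat_lit 341) (nat_lit 5) (nat_lit 363) (nat_lit 5) (nat_lit 364) (nat_lit 5) (nat_lit 332) (nat_lit 329) (nat_lit 119)))) (XT.nd (nat_lit 40482) (nat_lit 0) (nat_lit 76) (XT.nd (nat_lit 40404) (nat_lit 152) (nat_lit 0) (XT.lf (nat_lit 76) (nat_lit 9538017191) (nat_lit 0) (nat_lit 617839741) (nat_lit 1748) (nat_lit 23326711081) (nat_lit 342) (nat_lit 5) (nat_lit 341) (nat_lit 5) (nat_lit 364) (nat_lit 5) (nat_lit 333) (nat_lit 329) (nat_lit 118)) (XT.lf (nat_lit 0) (nat_lit 4112916986) (nat_lit 1748) (nat_lit 6064326894) (nat_lit 1748) (nat_lit 6064326894) (nat_lit 339) (nat_lit 3) (nat_lit 362) (nat_lit 3) (nat_lit 362) (nat_lit 5) (nat_lit 330) (nat_lit 330) (nat_lit 120))) (XT.nd (nat_lit 78) (nat_lit 0) (nat_lit 0) (XT.lf (nat_lit 0) (nat_lit 8504981055) (nat_lit 1672) (nat_lit 23471402478) (nat_lit 1748) (nat_lit 990800192) (nat_lit 340) (nat_lit 5) (nat_lit 362)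 (nat_lit 5) (nat_lit 363) (nat_lit 5) (nat_lit 331) (nat_lit 330) (nat_lit 119)) (XT.lf (nat_lit 0) (nat_lit 9007936576) (nat_lit 1672) (nat_lit 1667649188) (nat_lit 1748) (nat_lit 22785856227) (nat_lit 340) (nat_lit 5) (nat_lit 362) (nat_lit 5) (nat_lit 363) (nat_lit 5) (nat_lit 332) (nat_lit 330) (nat_lit 118))))))))

set_option maxRecDepth 10000000 in
noncomputable def Tp : PT := (PT.nd (nat_lit 5456646) (PT.nd (nat_lit 4887324) (PT.nd (nat_lit 4359420) (PT.nd (nat_lit 3912636) (PT.nd (nat_lit 3547284) pc0 pc1) (PT.nd (nat_lit 243828) pc2 pc3)) (PT.nd (nat_lit 324090) (PT.nd (nat_lit 162396) pc4 pc5) (PT.nd (nat_lit 121680) pc6 pc7))) (PT.nd (nat_lit 325182) (PT.nd (nat_lit 201786) (PT.nd (nat_lit 81744) pc8 pc9) (PT.nd (nat_lit 42510) pc10 pc11)) (PT.nd (nat_lit 160524) (PT.nd (nat_lit 80496) pc12 pc13) (PT.nd (nat_lit 41808) pc14 pc15)))) (PT.nd (nat_lit 365664) (PT.nd (nat_lit 202644) (PT.nd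 (nat_lit 120354) (PT.nd (nat_lit 79014) pc16 pc17) (PT.nd (nat_lit 41184) pc18 pc19)) (PT.nd (nat_lit 81822) (PT.nd (nat_lit 40950) pc20 pc21) (PT.nd (nat_lit 40638) pc22 pc23))) (PT.nd (nat_lit 199524) (PT.nd (nat_lit 80574) (PT.nd (nat_lit 40326) pc24 pc25) (PT.nd (nat_lit 41340) pc26 pc27)) (PT.nd (nat_lit 162006) (PT.nd (nat_lit 45162) pc28 pc29) (PT.nd (nat_lit 121446) pc30 pc31)))))

set_option maxRecDepth 10000000 in
noncomputable def Tx : XT := (XT.nd (nat_lit 8521578) (nat_lit 0) (nat_lit 380) XT.nil (XT.nd (nat_lit 4914936) (nat_lit 0) (nat_lit 0) (XT.nd (nat_lit 2349750) (nat_lit 0) (nat_lit 2280) (XT.nd (nat_lit 1620294) (nat_lit 0) (nat_lit 912) (XT.nd (nat_lit 1133574) (nat_lit 0) (nat_lit 304) (XT.nd (nat_lit 770562) (nat_lit 0) (nat_lit 152) (XT.nd (nat_lit 527280) (nat_lit 0) (nat_lit 76) (XT.nd (nat_lit 364728) (nat_lit 0) (nat_lit 0) (XT.nd (nat_lit 243204) (nat_lit 0) (nat_lit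 0) xc0 xc1) (XT.nd (nat_lit 81588) (nat_lit 0) (nat_lit 0) xc2 xc3)) (XT.nd (nat_lit 122304) (nat_lit 0) (nat_lit 0) (XT.nd (nat_lit 80340) (nat_lit 0) (nat_lit 0) xc4 xc5) (XT.nd (nat_lit 79404) (nat_lit 0) (nat_lit 76) xc6 xc7))) (XT.nd (nat_lit 201318) (nat_lit 0) (nat_lit 76) (XT.nd (nat_lit 82524) (nat_lit 0) (nat_lit 76) (XT.nd (nat_lit 41340) (nat_lit 0) (nat_lit 0) xc8 xc9) (XT.nd (nat_lit 41028) (nat_lit 0) (nat_lit 0) xc10 xc11)) (XT.nd (nat_lit 81120) (nat_lit 0) (nat_lit 76) (XT.nd (nat_lit 40638) (nat_lit 0) (nat_lit 76) xc12 xc13) (XT.nd (nat_lit 40326) (nat_lit 0) (nat_lit 0) xc14 xc15)))) (XT.nd (nat_lit 245934) (nat_lit 0) (nat_lit 228) (XT.nd (nat_lit 123630) (nat_lit 0) (nat_lit 228) (XT.nd (nat_lit 44070) (nat_lit 0) (nat_lit 0) (XT.nd (nat_lit 4056) (nat_lit 304) (nat_lit 0) xc16 xc17) (XT.nd (nat_lit 39858) (nat_lit 0) (nat_lit 228) xc18 xc19)) (XT.nd (nat_lit 78936) (nat_lit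 0) (nat_lit 0) (XT.nd (nat_lit 39546) (nat_lit 0) (nat_lit 0) xc20 xc21) (XT.nd (nat_lit 4056) (nat_lit 836) (nat_lit 0) xc22 xc23))) (XT.nd (nat_lit 121056) (nat_lit 0) (nat_lit 228) (XT.nd (nat_lit 78078) (nat_lit 0) (nat_lit 76) (XT.nd (nat_lit 39078) (nat_lit 0) (nat_lit 76) xc24 xc25) (XT.nd (nat_lit 4056) (nat_lit 1520) (nat_lit 0) xc26 xc27)) (XT.nd (nat_lit 42744) (nat_lit 0) (nat_lit 76) (XT.nd (nat_lit 38688) (nat_lit 0) (nat_lit 988) xc28 xc29) (XT.nd (nat_lit 38532) (nat_lit 0) (nat_lit 0) xc30 xc31))))) (XT.nd (nat_lit 367380) (nat_lit 0) (nat_lit 456) (XT.nd (nat_lit 201864) (nat_lit 0) (nat_lit 304) (XT.nd (nat_lit 84396) (nat_lit 0) (nat_lit 0) (XT.nd (nat_lit 42276) (nat_lit 0) (nat_lit 0) (XT.nd (nat_lit 4056) (nat_lit 1216) (nat_lit 0) xc32 xc33) (XT.nd (nat_lit 38064) (nat_lit 0) (nat_lit 3116) xc34 xc35)) (XT.nd (nat_lit 41964) (nat_lit 0) (nat_lit 0) (XT.nd (nat_lit 37908)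 (nat_lit 0) (nat_lit 836) xc36 xc37) (XT.nd (nat_lit 37752) (nat_lit 0) (nat_lit 152) xc38 xc39))) (XT.nd (nat_lit 83070) (nat_lit 0) (nat_lit 0) (XT.nd (nat_lit 41574) (nat_lit 0) (nat_lit 0) (XT.nd (nat_lit 4056) (nat_lit 4180) (nat_lit 0) xc40 xc41) (XT.nd (nat_lit 4056) (nat_lit 1976) (nat_lit 0) xc42 xc43)) (XT.nd (nat_lit 41262) (nat_lit 0) (nat_lit 152) (XT.nd (nat_lit 4056) (nat_lit 760) (nat_lit 0) xc44 xc45) (XT.nd (nat_lit 4056) (nat_lit 0) (nat_lit 0) xc46 xc47)))) (XT.nd (nat_lit 163722) (nat_lit 0) (nat_lit 380) (XT.nd (nat_lit 81744) (nat_lit 0) (nat_lit 228) (XT.nd (nat_lit 40950) (nat_lit 0) (nat_lit 0) (XT.nd (nat_lit 36894) (nat_lit 0) (nat_lit 7068) xc48 xc49) (XT.nd (nat_lit 36738) (nat_lit 0) (nat_lit 6688) xc50 xc51)) (XT.nd (nat_lit 40872) (nat_lit 0) (nat_lit 152) (XT.nd (nat_lit 36816) (nat_lit 0) (nat_lit 5700) xc52 xc53) (XT.nd (nat_lit 36972) (nat_lit 0) (nat_lit 4484)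 xc54 xc55))) (XT.nd (nat_lit 82368) (nat_lit 0) (nat_lit 152) (XT.nd (nat_lit 41106) (nat_lit 0) (nat_lit 0) (XT.nd (nat_lit 37050) (nat_lit 0) (nat_lit 3344) xc56 xc57) (XT.nd (nat_lit 37128) (nat_lit 0) (nat_lit 2204) xc58 xc59)) (XT.nd (nat_lit 41262) (nat_lit 0) (nat_lit 76) (XT.nd (nat_lit 37206) (nat_lit 0) (nat_lit 836) xc60 xc61) (XT.nd (nat_lit 37284) (nat_lit 0) (nat_lit 152) xc62 xc63)))))) (XT.nd (nat_lit 816426) (nat_lit 0) (nat_lit 3344) (XT.nd (nat_lit 369330) (nat_lit 0) (nat_lit 1140) (XT.nd (nat_lit 166842) (nat_lit 0) (nat_lit 456) (XT.nd (nat_lit 83226) (nat_lit 0) (nat_lit 228) (XT.nd (nat_lit 41574) (nat_lit 0) (nat_lit 0) (XT.nd (nat_lit 4056) (nat_lit 7372) (nat_lit 0) xc64 xc65) (XT.nd (nat_lit 4056) (nat_lit 4332) (nat_lit 0) xc66 xc67)) (XT.nd (nat_lit 41730) (nat_lit 0) (nat_lit 76) (XT.nd (nat_lit 4056) (nat_lit 1748) (nat_lit 0) xc68 xc69) (XT.nd (nat_lit 37752) (nat_lit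 0) (nat_lit 7524) xc70 xc71))) (XT.nd (nat_lit 83928) (nat_lit 0) (nat_lit 228) (XT.nd (nat_lit 41886) (nat_lit 0) (nat_lit 0) (XT.nd (nat_lit 37830) (nat_lit 0) (nat_lit 3192) xc72 xc73) (XT.nd (nat_lit 37908) (nat_lit 0) (nat_lit 456) xc74 xc75)) (XT.nd (nat_lit 76206) (nat_lit 0) (nat_lit 228) (XT.nd (nat_lit 38064) (nat_lit 0) (nat_lit 228) xc76 xc77) (XT.nd (nat_lit 4056) (nat_lit 2128) (nat_lit 0) xc78 xc79)))) (XT.nd (nat_lit 204750) (nat_lit 0) (nat_lit 760) (XT.nd (nat_lit 119262) (nat_lit 0) (nat_lit 532) (XT.nd (nat_lit 42354) (nat_lit 0) (nat_lit 0) (XT.nd (nat_lit 38298) (nat_lit 0) (nat_lit 4256) xc80 xc81) (XT.nd (nat_lit 38376) (nat_lit 0) (nat_lit 304) xc82 xc83)) (XT.nd (nat_lit 42666) (nat_lit 0) (nat_lit 0) (XT.nd (nat_lit 4056) (nat_lit 5244) (nat_lit 0) xc84 xc85) (XT.nd (nat_lit 38688) (nat_lit 0) (nat_lit 5244) xc86 xc87))) (XT.nd (nat_lit 120744) (nat_lit 0) (nat_lit 532)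 (XT.nd (nat_lit 77610) (nat_lit 0) (nat_lit 532) (XT.nd (nat_lit 38766) (nat_lit 0) (nat_lit 76) xc88 xc89) (XT.nd (nat_lit 4056) (nat_lit 3648) (nat_lit 0) xc90 xc91)) (XT.nd (nat_lit 43134) (nat_lit 0) (nat_lit 304) (XT.nd (nat_lit 39078) (nat_lit 0) (nat_lit 1216) xc92 xc93) (XT.nd (nat_lit 39156) (nat_lit 0) (nat_lit 76) xc94 xc95))))) (XT.nd (nat_lit 568620) (nat_lit 0) (nat_lit 3952) (XT.nd (nat_lit 245856) (nat_lit 0) (nat_lit 1292) (XT.nd (nat_lit 122460) (nat_lit 0) (nat_lit 304) (XT.nd (nat_lit 43446) (nat_lit 0) (nat_lit 0) (XT.nd (nat_lit 39390) (nat_lit 0) (nat_lit 912) xc96 xc97) (XT.nd (nat_lit 39468) (nat_lit 0) (nat_lit 304) xc98 xc99)) (XT.nd (nat_lit 79404) (nat_lit 0) (nat_lit 608) (XT.nd (nat_lit 39624) (nat_lit 0) (nat_lit 608) xc100 xc101) (XT.nd (nat_lit 4056) (nat_lit 1064) (nat_lit 0) xc102 xc103))) (XT.nd (nat_lit 160524) (nat_lit 0) (nat_lit 1444) (XT.nd (nat_lit 80028)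 (nat_lit 0) (nat_lit 684) (XT.nd (nat_lit 39936) (nat_lit 0) (nat_lit 304) xc104 xc105) (XT.nd (nat_lit 40170) (nat_lit 0) (nat_lit 380) xc106 xc107)) (XT.nd (nat_lit 80886) (nat_lit 0) (nat_lit 380) (XT.nd (nat_lit 40404) (nat_lit 0) (nat_lit 380) xc108 xc109) (XT.nd (nat_lit 40560) (nat_lit 0) (nat_lit 836) xc110 xc111)))) (XT.nd (nat_lit 367302) (nat_lit 0) (nat_lit 4712) (XT.nd (nat_lit 163878) (nat_lit 0) (nat_lit 1900) (XT.nd (nat_lit 81744) (nat_lit 0) (nat_lit 988) (XT.nd (nat_lit 40794) (nat_lit 0) (nat_lit 988) xc112 xc113) (XT.nd (nat_lit 41028) (nat_lit 0) (nat_lit 456) xc114 xc115)) (XT.nd (nat_lit 82602) (nat_lit 0) (nat_lit 1064) (XT.nd (nat_lit 41262) (nat_lit 0) (nat_lit 608) xc116 xc117) (XT.nd (nat_lit 79014) (nat_lit 0) (nat_lit 1672) xc118 xc119))) (XT.nd (nat_lit 244764) (nat_lit 0) (nat_lit 4484) (XT.nd (nat_lit 121758) (nat_lit 0) (nat_lit 2432) (XT.nd (nat_lit 79716) (nat_lit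 0) (nat_lit 1140) xc120 xc121) (XT.nd (nat_lit 80418) (nat_lit 0) (nat_lit 2052) xc122 xc123)) (XT.nd (nat_lit 202098) (nat_lit 0) (nat_lit 5700) (XT.nd (nat_lit 120042) (nat_lit 0) (nat_lit 3040) xc124 xc125) (XT.nd (nat_lit 122070) (nat_lit 0) (nat_lit 912) xc126 xc127))))))) XT.nil))

set_option maxRecDepth 10000000 in
noncomputable def Te : XT := XT.nil

set_option maxRecDepth 10000000 in
noncomputable def Tz : ZL := (ZL.cons (nat_lit 76) (nat_lit 6) (nat_lit 192971128647140023798) (ZL.cons (nat_lit 228) (nat_lit 3) (nat_lit 95187973938759045042) (ZL.cons (nat_lit 760) (nat_lit 6) (nat_lit 178194260612057043540) (ZL.cons (nat_lit 836) (nat_lit 6) (nat_lit 175941008817902751688) (ZL.cons (nat_lit 912) (nat_lit 3) (nat_lit 87933626414131828123) (ZL.cons (nat_lit 988) (nat_lit 6) (nat_lit 173620159469923831076) (ZL.cons (nat_lit 1064) (nat_lit 6) (nat_lit 171451017057404067214) (ZL.cons (nat_lit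 1140) (nat_lit 3) (nat_lit 85689704650236453296) (ZL.cons (nat_lit 1292) (nat_lit 6) (nat_lit 169216800372508710436) (ZL.cons (nat_lit 1368) (nat_lit 6) (nat_lit 167130443027744671946) (ZL.cons (nat_lit 1444) (nat_lit 3) (nat_lit 83530460466818374507) (ZL.cons (nat_lit 1520) (nat_lit 6) (nat_lit 165118514235491191480) (ZL.cons (nat_lit 1596) (nat_lit 6) (nat_lit 164981494962637712304) (ZL.cons (nat_lit 1672) (nat_lit 6) (nat_lit 162976705485362183670) (ZL.cons (nat_lit 1748) (nat_lit 3) (nat_lit 81454604153308313713) (ZL.cons (nat_lit 1824) (nat_lit 6) (nat_lit 161044800744014485468) (ZL.cons (nat_lit 1900) (nat_lit 6) (nat_lit 160911772323768389178) (ZL.cons (nat_lit 1976) (nat_lit 6) (nat_lit 158987441681680800076) (ZL.cons (nat_lit 2052) (nat_lit 3) (nat_lit 79460955220090130015) (ZL.cons (nat_lit 2128) (nat_lit 6) (nat_lit 157134534926394754456) (ZL.cons (nat_lit 2204) (nat_lit 6) (nat_lit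 157005381120330583298) (ZL.cons (nat_lit 2280) (nat_lit 6) (nat_lit 155351433013172623734) (ZL.cons (nat_lit 2356) (nat_lit 6) (nat_lit 155160509726949587420) (ZL.cons (nat_lit 2432) (nat_lit 3) (nat_lit 77548443581192978154) (ZL.cons (nat_lit 2508) (nat_lit 6) (nat_lit 153385684236489657934) (ZL.cons (nat_lit 2584) (nat_lit 6) (nat_lit 153260292191767161666) (ZL.cons (nat_lit 2660) (nat_lit 6) (nat_lit 151679353830561072568) (ZL.cons (nat_lit 2736) (nat_lit 6) (nat_lit 151493991416752299450) (ZL.cons (nat_lit 2812) (nat_lit 3) (nat_lit 75716110968296717147) (ZL.cons (nat_lit 2888) (nat_lit 6) (nat_lit 149796441467732133376) (ZL.cons (nat_lit 2964) (nat_lit 6) (nat_lit 149674701618486991370) (ZL.cons (nat_lit 3040) (nat_lit 6) (nat_lit 148166159048634704074) (ZL.cons (nat_lit 3116) (nat_lit 6) (nat_lit 147986195540082497164) (ZL.cons (nat_lit 3192) (nat_lit 3) (nat_lit 73963112585498110157) (ZL.cons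 (nat_lit 3268) (nat_lit 6) (nat_lit 146601719640841382722) (ZL.cons (nat_lit 3344) (nat_lit 6) (nat_lit 146365228307719209886) (ZL.cons (nat_lit 3420) (nat_lit 6) (nat_lit 146247034279325868132) (ZL.cons (nat_lit 3496) (nat_lit 6) (nat_lit 144810383542262054820) (ZL.cons (nat_lit 3572) (nat_lit 6) (nat_lit 144635661689298747140) (ZL.cons (nat_lit 3648) (nat_lit 3) (nat_lit 72288719014995841118) (ZL.cons (nat_lit 3724) (nat_lit 6) (nat_lit 143320302641488787850) (ZL.cons (nat_lit 3800) (nat_lit 6) (nat_lit 143090699405447843348) (ZL.cons (nat_lit 3876) (nat_lit 6) (nat_lit 142975947921570812518) (ZL.cons (nat_lit 3952) (nat_lit 6) (nat_lit 141610797460729015190) (ZL.cons (nat_lit 4028) (nat_lit 6) (nat_lit 141441164593774347538) (ZL.cons (nat_lit 4104) (nat_lit 3) (nat_lit 70692318384602190806) (ZL.cons (nat_lit 4180) (nat_lit 6) (nat_lit 140194662736938139420) (ZL.cons (nat_lit 4256) (nat_lit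 6) (nat_lit 139971746973791591358) (ZL.cons (nat_lit 4332) (nat_lit 6) (nat_lit 139860337766143988610) (ZL.cons (nat_lit 4408) (nat_lit 6) (nat_lit 138841057834802000704) (ZL.cons (nat_lit 4484) (nat_lit 6) (nat_lit 138566411104478869722) (ZL.cons (nat_lit 4560) (nat_lit 6) (nat_lit 138401719000639386564) (ZL.cons (nat_lit 4636) (nat_lit 3) (nat_lit 69173418808780874871) (ZL.cons (nat_lit 4712) (nat_lit 6) (nat_lit 137223929022455229766) (ZL.cons (nat_lit 4788) (nat_lit 6) (nat_lit 137007505951439163688) (ZL.cons (nat_lit 4864) (nat_lit 6) (nat_lit 136899341672169646456) (ZL.cons (nat_lit 4940) (nat_lit 6) (nat_lit 135943127685124728506) (ZL.cons (nat_lit 5016) (nat_lit 6) (nat_lit 135676480374131397456) (ZL.cons (nat_lit 5092) (nat_lit 6) (nat_lit 135516585127685297304) (ZL.cons (nat_lit 5168) (nat_lit 3) (nat_lit 67731651115746708447) (ZL.cons (nat_lit 5244) (nat_lit 6) (nat_lit 134722887945687756764)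 (ZL.cons (nat_lit 5320) (nat_lit 6) (nat_lit 134407479236658246130) (ZL.cons (nat_lit 5396) (nat_lit 6) (nat_lit 134197359750234881006) (ZL.cons (nat_lit 5472) (nat_lit 6) (nat_lit 134092345886866417676) (ZL.cons (nat_lit 5548) (nat_lit 6) (nat_lit 133199393703074344820) (ZL.cons (nat_lit 5624) (nat_lit 6) (nat_lit 132940512818614800112) (ZL.cons (nat_lit 5700) (nat_lit 6) (nat_lit 132785274715269071810) (ZL.cons (nat_lit 5776) (nat_lit 3) (nat_lit 66366771874046244445) (ZL.cons (nat_lit 5852) (nat_lit 6) (nat_lit 132051168164661027984) (ZL.cons (nat_lit 5928) (nat_lit 6) (nat_lit 131744946117059561348) (ZL.cons (nat_lit 6004) (nat_lit 6) (nat_lit 131540946615677653462) (ZL.cons (nat_lit 6080) (nat_lit 6) (nat_lit 131438991408523805570) (ZL.cons (nat_lit 6156) (nat_lit 6) (nat_lit 130961799317549779132) (ZL.cons (nat_lit 6232) (nat_lit 6) (nat_lit 130609614975635766934) (ZL.cons (nat_lit 6308)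 (nat_lit 6) (nat_lit 130358274311111937120) (ZL.cons (nat_lit 6384) (nat_lit 6) (nat_lit 130207557705921909644) (ZL.cons (nat_lit 6460) (nat_lit 3) (nat_lit 65078666732972322336) (ZL.cons (nat_lit 6612) (nat_lit 6) (nat_lit 129533527357423726176) (ZL.cons (nat_lit 6688) (nat_lit 6) (nat_lit 129236224398587350800) (ZL.cons (nat_lit 6764) (nat_lit 6) (nat_lit 129038166630255401396) (ZL.cons (nat_lit 6840) (nat_lit 6) (nat_lit 128939180992241956840) (ZL.cons (nat_lit 6916) (nat_lit 6) (nat_lit 128515742991689079034) (ZL.cons (nat_lit 6992) (nat_lit 6) (nat_lit 128173816446141494380) (ZL.cons (nat_lit 7068) (nat_lit 6) (nat_lit 127929796383496999414) (ZL.cons (nat_lit 7144) (nat_lit 6) (nat_lit 127783469582341632930) (ZL.cons (nat_lit 7220) (nat_lit 3) (nat_lit 63867354092152726673) (ZL.cons (nat_lit 7296) (nat_lit 6) (nat_lit 127555372552287008832) (ZL.cons (nat_lit 7372) (nat_lit 6) (nat_lit 127170122136146017106)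 (ZL.cons (nat_lit 7448) (nat_lit 6) (nat_lit 126881478486790312862) (ZL.cons (nat_lit 7524) (nat_lit 6) (nat_lit 126689189391322400816) (ZL.cons (nat_lit 7600) (nat_lit 6) (nat_lit 126593086830144299304) (ZL.cons (nat_lit 7676) (nat_lit 6) (nat_lit 126651576880581144824) (ZL.cons (nat_lit 7752) (nat_lit 6) (nat_lit 126224264454155291866) (ZL.cons (nat_lit 7828) (nat_lit 6) (nat_lit 125892296934206180550) (ZL.cons (nat_lit 7904) (nat_lit 6) (nat_lit 125655384252027059226) (ZL.cons (nat_lit 7980) (nat_lit 6) (nat_lit 125513319396536412152) (ZL.cons (nat_lit 8056) (nat_lit 3) (nat_lit 62732989116697245112) (ZL.cons (nat_lit 8132) (nat_lit 6) (nat_lit 125335416922583113172) (ZL.cons (nat_lit 8208) (nat_lit 6) (nat_lit 124961387392349140624) (ZL.cons (nat_lit 8284) (nat_lit 6) (nat_lit 124681150839576612228) (ZL.cons (nat_lit 8360) (nat_lit 6) (nat_lit 124494462397374755876) (ZL.cons (nat_lit 8436)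 (nat_lit 6) (nat_lit 124401158939920288386) (ZL.cons (nat_lit 8512) (nat_lit 6) (nat_lit 124502802878537816010) (ZL.cons (nat_lit 8588) (nat_lit 6) (nat_lit 124087936445114657800) (ZL.cons (nat_lit 8664) (nat_lit 6) (nat_lit 123765637882057268172) (ZL.cons (nat_lit 8740) (nat_lit 6) (nat_lit 123535625569262004748) (ZL.cons (nat_lit 8816) (nat_lit 6) (nat_lit 123397698525096327980) (ZL.cons (nat_lit 8892) (nat_lit 3) (nat_lit 61675868115391891209) (ZL.cons (nat_lit 8968) (nat_lit 6) (nat_lit 123725694795184797698) (ZL.cons (nat_lit 9044) (nat_lit 6) (nat_lit 123271180882937187386) (ZL.cons (nat_lit 9120) (nat_lit 6) (nat_lit 122908045416690612096) (ZL.cons (nat_lit 9196) (nat_lit 6) (nat_lit 122635971093610487440) (ZL.cons (nat_lit 9272) (nat_lit 6) (nat_lit 122454720178851403600) (ZL.cons (nat_lit 9348) (nat_lit 6) (nat_lit 122364134297827648760) (ZL.cons (nat_lit 9424) (nat_lit 6) (nat_lit 123003413646043458508)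 (ZL.cons (nat_lit 9500) (nat_lit 6) (nat_lit 122510407035908030626) (ZL.cons (nat_lit 9576) (nat_lit 6) (nat_lit 122107624090837003234) (ZL.cons (nat_lit 9652) (nat_lit 6) (nat_lit 121794712864567692916) (ZL.cons (nat_lit 9728) (nat_lit 6) (nat_lit 121571399939523747844) (ZL.cons (nat_lit 9804) (nat_lit 6) (nat_lit 121437490187906585932) (ZL.cons (nat_lit 9880) (nat_lit 3) (nat_lit 60696433300597688327) (ZL.cons (nat_lit 9956) (nat_lit 6) (nat_lit 121804950150180268830) (ZL.cons (nat_lit 10032) (nat_lit 6) (nat_lit 121363674507221423868) (ZL.cons (nat_lit 10108) (nat_lit 6) (nat_lit 121011115802127661448) (ZL.cons (nat_lit 10184) (nat_lit 6) (nat_lit 120746965973894530714) (ZL.cons (nat_lit 10260) (nat_lit 6) (nat_lit 120570994211992507570) (ZL.cons (nat_lit 10336) (nat_lit 6) (nat_lit 120483046754687891220) (ZL.cons (nat_lit 10412) (nat_lit 6) (nat_lit 121154193807115887458) (ZL.cons (nat_lit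 10488) (nat_lit 6) (nat_lit 120675546612809646794) (ZL.cons (nat_lit 10564) (nat_lit 6) (nat_lit 120284495209828066804) (ZL.cons (nat_lit 10640) (nat_lit 6) (nat_lit 119980697902770483968) (ZL.cons (nat_lit 10716) (nat_lit 6) (nat_lit 119763889237679275162) (ZL.cons (nat_lit 10792) (nat_lit 6) (nat_lit 119633879770089797580) (ZL.cons (nat_lit 10868) (nat_lit 3) (nat_lit 59795277949748195254) (ZL.cons (nat_lit 10944) (nat_lit 6) (nat_lit 120557569384667548696) (ZL.cons (nat_lit 11020) (nat_lit 6) (nat_lit 120042639130800729680) (ZL.cons (nat_lit 11096) (nat_lit 6) (nat_lit 119614216176471753988) (ZL.cons (nat_lit 11172) (nat_lit 6) (nat_lit 119271926171526353582) (ZL.cons (nat_lit 11248) (nat_lit 6) (nat_lit 119015470027610692674) (ZL.cons (nat_lit 11324) (nat_lit 6) (nat_lit 118844623656832029430) (ZL.cons (nat_lit 11400) (nat_lit 6) (nat_lit 118759237775953761126) (ZL.cons (nat_lit 11476) (nat_lit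 6) (nat_lit 120014555560524375358) (ZL.cons (nat_lit 11552) (nat_lit 6) (nat_lit 119464399035239519108) (ZL.cons (nat_lit 11628) (nat_lit 6) (nat_lit 118999693021349965064) (ZL.cons (nat_lit 11704) (nat_lit 6) (nat_lit 118620031465057168956) (ZL.cons (nat_lit 11780) (nat_lit 6) (nat_lit 118325082623253690478) (ZL.cons (nat_lit 11856) (nat_lit 6) (nat_lit 118114588773650575132) (ZL.cons (nat_lit 11932) (nat_lit 6) (nat_lit 117988365989583121166) (ZL.cons (nat_lit 12008) (nat_lit 3) (nat_lit 58973151989649129967) (ZL.cons (nat_lit 12084) (nat_lit 6) (nat_lit 119524677856587601560) (ZL.cons (nat_lit 12160) (nat_lit 6) (nat_lit 118940321067790087802) (ZL.cons (nat_lit 12236) (nat_lit 6) (nat_lit 118440388782482496524) (ZL.cons (nat_lit 12312) (nat_lit 6) (nat_lit 118024444166629122064) (ZL.cons (nat_lit 12388) (nat_lit 6) (nat_lit 117692123773478247884) (ZL.cons (nat_lit 12464) (nat_lit 6) (nat_lit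 117443137225987314968) (ZL.cons (nat_lit 12540) (nat_lit 6) (nat_lit 117277266963095408900) (ZL.cons (nat_lit 12616) (nat_lit 6) (nat_lit 117194368049621362006) (ZL.cons (nat_lit 12692) (nat_lit 6) (nat_lit 118469947296247868300) (ZL.cons (nat_lit 12768) (nat_lit 6) (nat_lit 117935814747427619514) (ZL.cons (nat_lit 12844) (nat_lit 6) (nat_lit 117484643860156207820) (ZL.cons (nat_lit 12920) (nat_lit 6) (nat_lit 117116040407444755288) (ZL.cons (nat_lit 12996) (nat_lit 6) (nat_lit 116829682308606426670) (ZL.cons (nat_lit 13072) (nat_lit 6) (nat_lit 116625319347826703032) (ZL.cons (nat_lit 13148) (nat_lit 6) (nat_lit 116502772955528204036) (ZL.cons (nat_lit 13224) (nat_lit 3) (nat_lit 58230968026169509187) (ZL.cons (nat_lit 13300) (nat_lit 6) (nat_lit 116600694684562950272) (ZL.cons (nat_lit 13376) (nat_lit 6) (nat_lit 116652354546737245160) (ZL.cons (nat_lit 13452) (nat_lit 6) (nat_lit 116755719410771229948)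 (ZL.cons (nat_lit 13528) (nat_lit 6) (nat_lit 116910879595478138218) (ZL.cons (nat_lit 13604) (nat_lit 6) (nat_lit 117117970677718393482) (ZL.cons (nat_lit 13680) (nat_lit 6) (nat_lit 117377173610864827030) (ZL.cons (nat_lit 13756) (nat_lit 6) (nat_lit 117688714882917275552) (ZL.cons (nat_lit 13832) (nat_lit 6) (nat_lit 118052866714404716914) (ZL.cons (nat_lit 13908) (nat_lit 6) (nat_lit 117485530026251790934) (ZL.cons (nat_lit 13984) (nat_lit 6) (nat_lit 117000158875467721732) (ZL.cons (nat_lit 14060) (nat_lit 6) (nat_lit 116596329151338231966) (ZL.cons (nat_lit 14136) (nat_lit 6) (nat_lit 116273687992939324996) (ZL.cons (nat_lit 14212) (nat_lit 6) (nat_lit 116031953480812205656) (ZL.cons (nat_lit 14288) (nat_lit 6) (nat_lit 115870914390625889090) (ZL.cons (nat_lit 14364) (nat_lit 6) (nat_lit 115790430008612251326) (ZL.cons (nat_lit 14440) (nat_lit 3) (nat_lit 57900137579438091228) (ZL.cons (nat_lit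 14516) (nat_lit 6) (nat_lit 115826486813082844396) (ZL.cons (nat_lit 14592) (nat_lit 6) (nat_lit 115905144679090001078) (ZL.cons (nat_lit 14668) (nat_lit 6) (nat_lit 116036317487071833516) (ZL.cons (nat_lit 14744) (nat_lit 6) (nat_lit 116220119854045024868) (ZL.cons (nat_lit 14820) (nat_lit 6) (nat_lit 116456712384019551702) (ZL.cons (nat_lit 14896) (nat_lit 6) (nat_lit 116746301808332284968) (ZL.cons (nat_lit 14972) (nat_lit 6) (nat_lit 117089141166286022202) (ZL.cons (nat_lit 15048) (nat_lit 6) (nat_lit 116570565876169275806) (ZL.cons (nat_lit 15124) (nat_lit 6) (nat_lit 116132535888527128532) (ZL.cons (nat_lit 15200) (nat_lit 6) (nat_lit 115774668458710184328) (ZL.cons (nat_lit 15276) (nat_lit 6) (nat_lit 115496650887022486636) (ZL.cons (nat_lit 15352) (nat_lit 6) (nat_lit 115298240245488774368) (ZL.cons (nat_lit 15428) (nat_lit 6) (nat_lit 115179263165587319034) (ZL.cons (nat_lit 15504) (nat_lit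 3) (nat_lit 57569807843381433466) (ZL.cons (nat_lit 15580) (nat_lit 6) (nat_lit 115074828685432256164) (ZL.cons (nat_lit 15656) (nat_lit 6) (nat_lit 115128038343471779898) (ZL.cons (nat_lit 15732) (nat_lit 6) (nat_lit 115234504153426784230) (ZL.cons (nat_lit 15808) (nat_lit 6) (nat_lit 115394319143674899750) (ZL.cons (nat_lit 15884) (nat_lit 6) (nat_lit 115607622958382362672) (ZL.cons (nat_lit 15960) (nat_lit 6) (nat_lit 115874601979523189224) (ZL.cons (nat_lit 16036) (nat_lit 6) (nat_lit 116195489489737211202) (ZL.cons (nat_lit 16112) (nat_lit 6) (nat_lit 115724255362762386734) (ZL.cons (nat_lit 16188) (nat_lit 6) (nat_lit 115332187669432785022) (ZL.cons (nat_lit 16264) (nat_lit 6) (nat_lit 115018943826327050096) (ZL.cons (nat_lit 16340) (nat_lit 6) (nat_lit 114784250125232759476) (ZL.cons (nat_lit 16416) (nat_lit 6) (nat_lit 114627901493983908440) (ZL.cons (nat_lit 16492) (nat_lit 6) (nat_lit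 114549761317271638768) (ZL.cons (nat_lit 16568) (nat_lit 3) (nat_lit 57198361687565125900) (ZL.cons (nat_lit 16644) (nat_lit 6) (nat_lit 114423721378963113594) (ZL.cons (nat_lit 16720) (nat_lit 6) (nat_lit 114504738980950484978) (ZL.cons (nat_lit 16796) (nat_lit 6) (nat_lit 114639846973171772392) (ZL.cons (nat_lit 16872) (nat_lit 6) (nat_lit 114829163411154159482) (ZL.cons (nat_lit 16948) (nat_lit 6) (nat_lit 115072853717027922122) (ZL.cons (nat_lit 17024) (nat_lit 6) (nat_lit 115371130824070037386) (ZL.cons (nat_lit 17100) (nat_lit 6) (nat_lit 114945858991407758480) (ZL.cons (nat_lit 17176) (nat_lit 6) (nat_lit 114598414884789366046) (ZL.cons (nat_lit 17252) (nat_lit 6) (nat_lit 114328494912277038192) (ZL.cons (nat_lit 17328) (nat_lit 6) (nat_lit 114135863221467608804) (ZL.cons (nat_lit 17404) (nat_lit 6) (nat_lit 114020351493407943430) (ZL.cons (nat_lit 17480) (nat_lit 3) (nat_lit 56990929397760062930)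 (ZL.cons (nat_lit 17556) (nat_lit 6) (nat_lit 113791578362973654792) (ZL.cons (nat_lit 17632) (nat_lit 6) (nat_lit 113846384310754364236) (ZL.cons (nat_lit 17708) (nat_lit 6) (nat_lit 113956044095008018702) (ZL.cons (nat_lit 17784) (nat_lit 6) (nat_lit 114120653534963577686) (ZL.cons (nat_lit 17860) (nat_lit 6) (nat_lit 114340356464112264494) (ZL.cons (nat_lit 17936) (nat_lit 6) (nat_lit 114615344855887315846) (ZL.cons (nat_lit 18012) (nat_lit 6) (nat_lit 114234696609936246218) (ZL.cons (nat_lit 18088) (nat_lit 6) (nat_lit 113930576373911260856) (ZL.cons (nat_lit 18164) (nat_lit 6) (nat_lit 113702718411683794234) (ZL.cons (nat_lit 18240) (nat_lit 6) (nat_lit 113550923624063550508) (ZL.cons (nat_lit 18316) (nat_lit 6) (nat_lit 113475059374828337236) (ZL.cons (nat_lit 18392) (nat_lit 3) (nat_lit 56615528468764133531) (ZL.cons (nat_lit 18468) (nat_lit 6) (nat_lit 113258864881476114712) (ZL.cons (nat_lit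 18544) (nat_lit 6) (nat_lit 113342313011523107238) (ZL.cons (nat_lit 18620) (nat_lit 6) (nat_lit 113481474243511033274) (ZL.cons (nat_lit 18696) (nat_lit 6) (nat_lit 113676470174632891976) (ZL.cons (nat_lit 18772) (nat_lit 6) (nat_lit 113927471189682867496) (ZL.cons (nat_lit 18848) (nat_lit 6) (nat_lit 113590146814325204940) (ZL.cons (nat_lit 18924) (nat_lit 6) (nat_lit 113328088588585080810) (ZL.cons (nat_lit 19000) (nat_lit 6) (nat_lit 113141067529546799850) (ZL.cons (nat_lit 19076) (nat_lit 6) (nat_lit 113028920220751008226) (ZL.cons (nat_lit 19152) (nat_lit 3) (nat_lit 56495774334701806262) (ZL.cons (nat_lit 19228) (nat_lit 6) (nat_lit 112741667326624134054) (ZL.cons (nat_lit 19304) (nat_lit 6) (nat_lit 112798117452838264786) (ZL.cons (nat_lit 19380) (nat_lit 6) (nat_lit 112911067030619528882) (ZL.cons (nat_lit 19456) (nat_lit 6) (nat_lit 113080614753773754636) (ZL.cons (nat_lit 19532) (nat_lit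 6) (nat_lit 113306908770796902050) (ZL.cons (nat_lit 19608) (nat_lit 6) (nat_lit 113011646405724100726) (ZL.cons (nat_lit 19684) (nat_lit 6) (nat_lit 112790425083173162258) (ZL.cons (nat_lit 19760) (nat_lit 6) (nat_lit 112643051502959333400) (ZL.cons (nat_lit 19836) (nat_lit 6) (nat_lit 112569396892051359346) (ZL.cons (nat_lit 19912) (nat_lit 3) (nat_lit 56147169863002431139) (ZL.cons (nat_lit 19988) (nat_lit 6) (nat_lit 112322981908271145360) (ZL.cons (nat_lit 20064) (nat_lit 6) (nat_lit 112408933482219547662) (ZL.cons (nat_lit 20140) (nat_lit 6) (nat_lit 112552269551167111476) (ZL.cons (nat_lit 20216) (nat_lit 6) (nat_lit 112753115360222625942) (ZL.cons (nat_lit 20292) (nat_lit 6) (nat_lit 112498689898339010280) (ZL.cons (nat_lit 20368) (nat_lit 6) (nat_lit 112317116054612523914) (ZL.cons (nat_lit 20444) (nat_lit 6) (nat_lit 112208235172286512626) (ZL.cons (nat_lit 20520) (nat_lit 3) (nat_lit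 56085976056362967137) (ZL.cons (nat_lit 20596) (nat_lit 6) (nat_lit 111916491210841059246) (ZL.cons (nat_lit 20672) (nat_lit 6) (nat_lit 111974634840841613898) (ZL.cons (nat_lit 20748) (nat_lit 6) (nat_lit 112090972905956315918) (ZL.cons (nat_lit 20824) (nat_lit 6) (nat_lit 112265607060805168444) (ZL.cons (nat_lit 20900) (nat_lit 6) (nat_lit 112050829077746004884) (ZL.cons (nat_lit 20976) (nat_lit 6) (nat_lit 111907747931907336088) (ZL.cons (nat_lit 21052) (nat_lit 6) (nat_lit 111836238600928720502) (ZL.cons (nat_lit 21128) (nat_lit 3) (nat_lit 55789145087250854158) (ZL.cons (nat_lit 21204) (nat_lit 6) (nat_lit 111607791622235979886) (ZL.cons (nat_lit 21280) (nat_lit 6) (nat_lit 111696321743402834256) (ZL.cons (nat_lit 21356) (nat_lit 6) (nat_lit 111843957894418824988) (ZL.cons (nat_lit 21432) (nat_lit 6) (nat_lit 111667672609247478998) (ZL.cons (nat_lit 21508) (nat_lit 6) (nat_lit 111561963014756205904)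 (ZL.cons (nat_lit 21584) (nat_lit 3) (nat_lit 55763368371669084335) (ZL.cons (nat_lit 21660) (nat_lit 6) (nat_lit 111308083283784446526) (ZL.cons (nat_lit 21736) (nat_lit 6) (nat_lit 111367971222685017814) (ZL.cons (nat_lit 21812) (nat_lit 6) (nat_lit 111487799429753160896) (ZL.cons (nat_lit 21888) (nat_lit 6) (nat_lit 111348885695929210608) (ZL.cons (nat_lit 21964) (nat_lit 6) (nat_lit 111279459160998515866) (ZL.cons (nat_lit 22040) (nat_lit 3) (nat_lit 55537623972207290219) (ZL.cons (nat_lit 22116) (nat_lit 6) (nat_lit 111105634435580880156) (ZL.cons (nat_lit 22192) (nat_lit 6) (nat_lit 111196820460382740156) (ZL.cons (nat_lit 22268) (nat_lit 6) (nat_lit 111094189786119368220) (ZL.cons (nat_lit 22344) (nat_lit 3) (nat_lit 55529994761303355356) (ZL.cons (nat_lit 22420) (nat_lit 6) (nat_lit 110909082155771592420) (ZL.cons (nat_lit 22496) (nat_lit 6) (nat_lit 110970766732839180850) (ZL.cons (nat_lit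 22572) (nat_lit 6) (nat_lit 110903362329993846148) (ZL.cons (nat_lit 22648) (nat_lit 3) (nat_lit 55389071319273320818) (ZL.cons (nat_lit 22724) (nat_lit 6) (nat_lit 110809440724447930348) (ZL.cons (nat_lit 22800) (nat_lit 3) (nat_lit 55388118292557626577) (ZL.cons (nat_lit 22876) (nat_lit 6) (nat_lit 110712701470735637072) (ZL.cons (nat_lit 22952) (nat_lit 1) (nat_lit 18446744073709551617) ZL.nil)))))))))))))))))))))))))))))))))))))))))))))))))))))))))))))))))))))))))))))))))))))))))))))))))))))))))))))))))))))))))))))))))))))))))))))))))))))))))))))))))))))))))))))))))))))))))))))))))))))))))))))))))))))))))))))))))))))))))))))))))))))))))))))))))))))))))))))))))))))))))))))))))))))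

noncomputable def vl : XL := ⟨(nat_lit 0), (nat_lit 76), (nat_lit 426429311), (nat_lit 152), (nat_lit 95705247), (nat_lit 152), (nat_lit 95705247), (nat_lit 1), (nat_lit 4), (nat_lit 2), (nat_lit 5), (nat_lit 2), (nat_lit 4), (nat_lit 0), (nat_lit 0), (nat_lit 0)⟩

noncomputable def cp0 : Nat := (nat_lit 6634231373590236597570090747628528626240508106522490388031280801563130782577786657482722404612338881244722497602764305198714550402763877483868740991055271173898446668486237246950792863432243886453531503008741074405893799521116569661840648510728486054803355412122583064067267653798063832251224342152623360264508882280509142817397056986701308407927761429234934423587406886855484722974050230934932789805567171906090008217101454053429781339395979051980201926680070725451899020403560150583927954062553751263212727144591841486883491311819639844310743161326198407738961928085271082892147236868464011766112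422541610987698160092352598670609685899502439374661535821896085400496281632547065414739547795322494583401177866080608762231252595045004712918604586183779390950279910591485448498381304366939310419787014370779907704327870577762689969293527339375596438624386714655270612828639930937962699664636487594796375380277426440643806791887499418932766141503335436090613693489448428819003048645584133728192313630832170948285535650237231802547354405827235470639518583056811901409806061829411024368322185608681543274425533080955596283988467546159026203592542276230831211758859191719565152123639565903062774936526577672844463146811940960944509768855502877786711181146930867245198608394746247991599120412740045109248638662995173713130312646077653423781331127167895523031238580154936909166580752018841393163071993548704951072636264140852523977589047285585480505458676817104128970048919949902902979334337519378923951199521572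659428503215770202562443959352439103352343634683589144426203161366564574661151481047208735692985777635274972997254811021954847468229813083949198683623579577188424164907510086227400362806904813815906075753904752080146100292119539991640541245587918951428858557100606738886444214998086029863755644001190871568722478538508346937565609512465935898381729971577755536629214518631022354838511138657698756628985626882805766747201586286005673371638112173198897200566286331779058778044189239635914220123452746705054693733278395189572751781257444081070495037671819468269457553012168315447473449924974572789735904471537803584428087970185846192564390959020045621623400265496356978800723793516835394690272731007779853429257593886893666302419261189022094572290870704074463268617043421222182347286443837582516624357392739188265165419666014473630145773972873289473001668047453746197800942018503938878777021789018612668887310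723911726914992116616628611091074147213403780410891079622147999082307980217917186349928075277554411822556938843243161918199517168629294690300608929988630223947130236615714375305070212462469157756305114936860276850012682500079036209965980723504628018511306482111032111771650549910246684663022123421823037843672462138022316861757002400746442477416588884235652290413856826477907751116498987315172027198253874362708418057769942023811887961276239902838615347009829041065115067382775830869805598721285344922450766975604487781297548838762061159392657410188668905028954437406016484062152310926282355706336657937773216685164859782539822490884584062764391420914514918382036927266865478629412681042599461990315021667160901338607281216309206855367026454597843967801814476746516098934655797966933458245141271699837823374205460065292297315214352310123976515386857512331970452796825279195624992392622041411209236104721378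167918783515379046632279805289761889975741839241430346370982897282037705999327585730284874522857113110430932925677242698849625122064629020804111472711817047734070855690825735969878539114415984451619587791115395433823879037899945693540368996621833509459320703607213909586440690923732844908710552569840121317230920664662020099147280940170194098144738156007845554176083603279158729531800159511375479315913404072537174096291686423155389353907053749668051857261530010606620472062561390575866041623823116155170200316183013317018122417066522582272999724107276444757845777421233782176761072565392151396375712516238938816599551881851373223491828093667187419466738530297071155208435421867244605996192386962404001658002131869287319994819249683153581496199252693565952452186874932100018822150352193742954512659392194554796937272962599344071977503930872898646420894549669159505156162553772983360831487977749470157948237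514895811018790001342799101255932925025191154363614583089808710542261165789618679394902627311763820339610534193317206941737927088591612483862391438357971559963926411722693016591569529160036771995706273863779990286544564740946946621848605530235778068146860209210268739393138339140934727519795402868074429365549425000900812036046081422462772431483396752686664710063055929291195870448331379512050755623075535413343436796684017674691230818354543113437549413885747821069257063751527128768303522851395926220029610896838963673547315674584919838301739897909682643344028127295281439433709837065570823520496495533686975619295359887860713878599380157675741137425173768647457546101602384605139436318953751035081907919324674657365019321134611548664879677807816148438399163604916236835507071685395709815176639423099247854216119828708714292765121338653408861887243135414691923798372267152363272858979700960479343435151095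163160882501707732703595873983387104521762673125494867744506179253489765675520457638641883468688833381563666793193184017248640953527430059754642312441109809962506966146782537709667298546413426567110973683217948915499363766654952554635176692283746863205371546091702796653599622141049304807354919648595930130408919216558770773783575636047024857949085146164639020009853414138838797971057194159968059192089577770337238181472078804672591145925389376263419606477925375344152594266487180760600949967099216302843162555446315257618630741610818814350439398200126116569469853310830436358242892402194168032559079747179259514037123797729119589977141774289057252328131281153239602809295509364972489776850019384608969940394609965508222886838262736727557177092487411405928373774449884773821513061883195017037556464124021905197419875121237246056893620233314419565481609982281049826978643565793173754260475487538348489120137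835569507084255252319895816515075187803895369815987156056233800131371603697970045558952060482238261247023910010054904900356159342869952513019795147078993274362601712795505171770519831024012278713551290000431678077995746790499976881808383424585138103368500365460198400375989171271339077549157174517192039467635753386074007564256308107443508614929414297526327517606719191340128731705293823578645085010523544335025188735819966069071795293640906252333719377882508392180564328959598121131046624759441807574888401250610961920547705789965850464221510304388393298888883492457661414589239265781695822738341256295583320558075883095853215068873126541274943794249869543895205850245068241740843539241269544236858343842554813740980585899178150067524201121057657617563534600548414949547107529487495232760647770965214574179141645663126920397262718672404245758147561903934230739841744516801142404040246102589440)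

noncomputable def cp1 : Nat := (nat_lit 126948385918307619283067314879289054936511059870835408719029883667522062720283758602067780512200124096226958156389381646437836351325601658259804468278275666706230409676033114399791213832347340104540920400105714481868436764330927284757388266166437206973078238887731736480224662701275958097790324972399576572824453935213353262746547128313654616140738127303563525098667973980459450792595963823508232585303601773795122238834790535174432198765081699880544406366358866788071962992851164197062773364194718922196678615863464487961527258703861662913689092053903708604195216576841180687720159166744385420540636223001401837488134530740014289124947316154636445849055924301707198361993349478512433432802500305416035884507793962077528580463294014442925955734568554236137802797797807159198592104258577781537296447845299516936390841108858052479819170640795396972373007585971542964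502955333299651826999457169054353202765850786371281248754512814353343382888428330876132610724179996594622878875143055782301530007997013406632956769518464363488508643594676548686914563429355669894660917062120179352611840633555253635424084846561140650941123582324608377763243395505583817900703996083841584672936672903329402069098657000012114575232574876016570528713942790924441800769208205947603729285690744600214575024777816399803678533503726058066317175138486816962250633733863802533301134581568780140479485111414898502014789037359903647141470773008911266451708182338631773295333503964378182288181091780154531573950027138308657563862164480102759867422786821739710251369533532693964406771674985282782641697046570156398458695719140804556274779806009343873118893772325189939926831724449360911946621129239822361944554525279592396869808251067812978321166918404588158459969402152016652706426523530750433302921208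119866222626387691035292281700153170047276924607499828208996589005269505778302236943416412944909183294991652888807273367850872548218037975756014773297953454722487361602901415135895429175400330695971706066010674658342029789906638533605372779960766372725773257910223684638786272356133384375123907110713392531712129858226291048921391397092660277719511547946970085044270845022508920919472990448203444467491397513614593713551943257916329881989709331531061616219786718730654777684926277502472332980997112792756448114736277023313530251654477362568489003417752503521448527507517040288324364957265851173190233009021806886624092963248178393134825484523227660302119774159605671139860499007383370703317975483111633112568450965071142355287101971490875374040873582662208094265072462991804652511327786158355264238855984054733989005205234367736788261996903944946898918194779709338681230523067658656657146835157104799473797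351813184884085106080116416373128951070064732389686462903488419274472594025255104347292487988979447843956928029585568928193812848614545001743253549734880803146392784045169458783787007007225306441287715617781299630997790556621056829292072553319882312355263637394098713384320564362993592126256270243357131031986158408408213177234675622751679096596190529678577334656129459251577609013979634419399462216919791953670604160404395697276727372823038160573415821226973629775949709621601793696823500709762807745890534895735353109337784861392930393305084566150677122023951368423739435860825890637119516560403980613794130257192018660037628196569910589203547414245780100343459347195927282781851126468943183078152251832755454110288193846560699256948176468374633866969051423667160251430418720751662414565770563370763935174774612539093926276753075769313612720834042925321778758118096792158916764505957670358682340258413733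696553644817187304822947797925518411231600581910499371451970306270927910441674740067375316716732421152406767131082866214158834803609237756809404386266270698320658121177327052596832585307882025917800331884494908102266641155785258629977791389223923984420227005848540092554935857675676605566809504622723375467343185535100990344594236367427756709818633074255305536547540660711954993824070754800017383146518720001621122290503942235950862351915324375947996473647676947060374256677330618985438111964705067931649506637138789749918515790956015922473982569685390300639477460322439292172785833139032365717540219741020238105127926508578055175863888035243274861996979734943793142289243903094574290632509753636260055564666384080952206212300433315315991509077265717177315721530335838530520253091562378524399132993916013233256303359395766385097603559845155190489330166876689342111610547015648980284272322110349804221161299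977635678992082714974850716654070498627637780328785301443616832367386359259794744430699989362089392217386553900652741710751920841628812644670390006391339680203212266224189078989888958113131670547932917446321221651618585597348044339682990647382033893892994874749925577748486636961017109815892666441869824700304036485864580058380051070509536241971569580211511283088773884726175171672210464065862052650684521596390734395105687329704970260516721241830187067293596627533512452694719861675426008879358843641556718163286623031503594071194245194841915546536445467645268426141512493786848473058335136510175099388560328843057372115694229007234667108037813553753991840836902114338651743073372934696735301721375821626503621049384693064465401094549872459193168195385741663575446141106431814741254375599755761352368464354362983938617532177319426307795007528067085340932207352359544374104597447645948451434012852955718889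113109192835882682438126996739798772494543735828175819242860382744022160602089648441934897875394096919658103465441357350747980281773589578854237791023469821367386650047399731493463308594577642041408027571599911770313686829301508532856535553633498660050250463818280432564556537085616722380371841889755191075199551699788869795317319615018383876707102572991254908746157666121307842773326459569381879787042451625581938582323650345757825441286920398487183771585853187068990918216250350727815634492612994591603668901460283539247554415800476851073785413468731622259112855363822337034404824025605047847003618767678871215174509612785463469721235005229747795290667209437429647845370073798883107865210046732206756267182534815817225501644595864567653959234176213331467302998608697606562824952831926347881236683539593985978166175846996949466294367029567164504797449425661909889435730703263267833291642248135023274932583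350893427771705120324923555477785175700572854694870305270172673030224468602287668770445103420918989680729291836059804855695251021397732024479843385735182565178057631578759436403761260117300744498046023148806702025268778673434595102825469111444778639433994211599076420658091336212198879469446492135677169932803506450801763281462544415236738632203286493685484481204100755489413221099268076951640942031730394711103995358427838924870827087712212491608401933472007854608707590469824489014434284903204768852835054867666022807021154984090117776021348890234356343274640823860808831972863258847579139155764875701575258285289462291618274716820602835991665997363457999815751412473230633283593432326114250414707674797280675586705952728972513457461434746494410625484997019784495504269893307719148724547283013339458316193574612584459328478341942053026623894091000445940824830333264982347838594758351791389634878616034309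853113972499508420687538632337637703410159374940784246371014823184874080399171696132531095525941378322871351413424725697374786005629753447661711174356182852852362868387193752340704411350536761217284896490595910330058947903344411204032163799857012871418356775274360311608291311671912634802780001806614883016293828520529606919271580860450114980748323594910498736529761873200662295979304512768695725209978366711076815753881157478813449025385871034116612229334152382881727396857243788273476719442219577288392467939960769416763691813036515192246343230444172086024377205188969808399395737454972874700174941101516973955049376826513196774244893312366033784201057146304316225403502307234052772496686869833927352421017253910747089754504746402812288904859013134220574875381545940815472826750793116217423603043557527566326449124660297353125934902834669952926706520048744624089117386724863584268948950641388905227893551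682713464702849255874940064216458655540070850970014276702712039208691467685232960055288595355972416628192370689038847729338583748066248062544904260943212380176405730982666659635514568936864320814851319370427525441289254253615193018814968821646047277256981251364948190646442958521563711367469683550618923154766084055219184208595248998760068386073882774466016600008582920443764047316918815933730500068279705278895143266863432763503340656262010794624700329935339587811622022828016903726515866143116339699942685773558351684536291147283949005626930952486117468446756314478276842773858416067902528021811934570615513721090467560610348083049536490548962004997578713019381730674252913400363897334664731840415652154810008682386035229018148955407503780360523327123696391630443252381401821336707850430752013133162996560972768041486413265206107362967467274425939949034279664384574804684982171565001160715783629733238181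955327890321632778851082558079245345872562006759214243183209004118893200532351633904481174269600458734067204585056243236148209395380149478481484078470458071277164315867666916867492053207331749576196553160686503680630201429458695017148369810496437691526026092638824346254050858324232095655862210547591681323193287215941977224501524442389066675707608866048885059000769935875096898803421748612284558325932504546716645521808208312753595340126557080964599899046749516001602802512888812430495621980919056802748141629530184798211302067243163639885424043261028369873089121591998057430248829375501687596764921819708598548462981375794573197355511385643495881664944393762594220785319650240142591542717441252903965367754621466011129809890242175968516942326990098716294532379719708163622084722564614534625108593381114484085170021729340637348054587555493524035030994904469623143483556521039940407560351250999889080383829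446215576869617550853160807164884443581683832665084424337923760203007701676124287183243649524629982676050671947400541031475240527855088430961922427739267495422114536431873113421836731787320640676852763058541216791222435169927055478140328912310497619941751711869546336863444032284559449900240784792942574380003735449272145880015943652121052795883938010776181003957006136764456641187794924347326447554714316706715086060561504367245479237239205164114012260936479982204905755515295294271715907575847075653914500029277982138447336488125330030914408867725489093147288550615814716496152918559911114335824293511836176666267619516450821183879102458256234499096010275931099591067555791164001802125318836211980848826906648833432843274473729046076769426597458807208790191122129328158149132393919481542507131786891133039752795457080946546427830418441691339047840841129191518219858430982652207488360037294006950034819880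534688401158885296593461974173633143929680802457864651648223890437835342337321661339400242888844683394905691595102884813620532161304743737486437673264216995319477352793987731438543987590258999115959868714733390117167495378699386424962721121239891744052198838465875480291736854332486309988468604710330001471020876500980601472216083647866351600272663334975295808967496090799642289655247828425960288031552853730739424879350422191166986276029388587164819446153966525419665231608548341360830001018548525178197165397341896030043766013106086119791371016678751447073839168121913912821529920932261051922081806637744194284397542072565182929715447717012326801708394513615271414493998293075981516618418033990350113109877611554060814845163419785021770336861273162799006922520956735404901398952833796993232812312466177525259236489771278417857718027819652718645724060528620017785312307978020370732794482090801888992145005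685232679497668938879617966646549064687578790858679317012498896979742206447698602356310532150317440477754494697509400965888922596880899853533928647946148178996102515137316586752121245572885530977241494050012216796473421819025725497451096049488622884080883981763591694561041794448583159199686604561701968545720448872837167531959428995049087284366463000306394257100165378247147807345593407361066018101079923428762205800763001650922089612169833041368433081551655015005799580268637200165580486590343846107718756779165725282306676870561985300604722759220141293859604181458909121300464945351291034257455035174683989169621154658387967070412655033364108450287502971703895948246041548512016128708055651816980154869876453785876874934038226916069687160865089051836972838790536394941363383365982144366384409022603175717579983687269663027511385991692767944839213677004821520426982368430746157801227634685744388982525284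372359863180453196463621765962436631204917918744414992088047466673219011493346294925308790207287594311063632967274291152050091186481350119624466199813670137632073125695757813414710819543973871623714692260104689485143276519899615639481140171123901097242585607737904713125452810056765804083639952849186423164267373765823404508320911520811805777214877270783442509126237442728407307250721662378342737417704512501851146858773992789268421474231537233839110689624464968100043867708625398637750145780950831589992737738418247329762358654890309933311504725615184832116407758637511745145363118450674582536605206292865661603851027941229319968335456267291699105084262071953486795895613136425589972816160039335736466117253712196318242938727138667789835213398200978935257926305699016310346124733539799422273084774600705751748704892572601678617680308557111269509306047684088464320161904669492533512885733109384612967738837163234468490650649733671655917723141867949204868012155344178319066165043154647782581947689415513883545791225840165435356563048197681021168102872180014815305504063421460346986572669926708270618670352719561400200701070537925446380078765478723036910382684599900591620096)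

noncomputable def rc0 : Nat := (nat_lit 126948385918307619283067314879289054936511059870835408719029883667522062720283758602067780512200124096226958156389381646437836351325601658259804468278275666706230409676033114399791213832347340104540920400105714481868436764330927284757388266166437206973078238887731736480224662701275958097790324972399576572824453935213353262746547128313654616140738127303563525098667973980459450792595963823508232585303601773795122238834790535174432198765081699880544406366358866788071962992851164197062773364194718922196678615863464487961527258703861662913689092053903708604195216576841180687720159166744385420540636223001401837488134530740014289124947316154636445849055924301707198361993349478512433432802500305416035884507793962077528580463294014442925955734568554236137802797797807159198592104258577781537296447845299516936390841108858052479819170640795396972373007585971542964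502955333299651826999457169054353202765850786371281248754512814353343382888428330876132610724179996594622878875143055782301530007997013406632956769518464363488508643594676548686914563429355669894660917062120179352611840633555253635424084846561140650941123582324608377763243395505583817900703996083841584672936672903329402069098657000012114575232574876016570528713942790924441800769208205947603729285690744600214575024777816399803678533503726058066317175138486816962250633733863802533301134581568780140479485111414898502014789037359903647141470773008911266451708182338631773295333503964378182288181091780154531573950027138308657563862164480102759867422786821739710251369533532693964406771674985282782641697046570156398458695719140804556274779806009343873118893772325189939926831724449360911946621129239822361944554525279592396869808251067812978321166918404588158459969402152016652706426523530750433302921208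119866222626387691035292281700153170047276924607499828208996589005269505778302236943416412944909183294991652888807273367850872548218037975756014773297953454722487361602901415135895429175400330695971706066010674658342029789906638533605372779960766372725773257910223684638786272356133384375123907110713392531712129858226291048921391397092660277719511547946970085044270845022508920919472990448203444467491397513614593713551943257916329881989709331531061616219786718730654777684926277502472332980997112792756448114736277023313530251654477362568489003417752503521448527507517040288324364957265851173190233009021806886624092963248178393134825484523227660302119774159605671139860499007383370703317975483111633112568450965071142355287101971490875374040873582662208094265072462991804652511327786158355264238855984054733989005205234367736788261996903944946898918194779709338681230523067658656657146835157104799473797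351813184884085106080116416373128951070064732389686462903488419274472594025255104347292487988979447843956928029585568928193812848614545001743253549734880803146392784045169458783787007007225306441287715617781299630997790556621056829292072553319882312355263637394098713384320564362993592126256270243357131031986158408408213177234675622751679096596190529678577334656129459251577609013979634419399462216919791953670604160404395697276727372823038160573415821226973629775949709621601793696823500709762807745890534895735353109337784861392930393305084566150677122023951368423739435860825890637119516560403980613794130257192018660037628196569910589203547414245780100343459347195927282781851126468943183078152251832755454110288193846560699256948176468374633866969051423667160251430418720751662414565770563370763935174774612539093926276753075769313612720834042925321778758118096792158916764505957670358682340258413733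696553644817187304822947797925518411231600581910499371451970306270927910441674740067375316716732421152406767131082866214158834803609237756809404386266270698320658121177327052596832585307882025917800331884494908102266641155785258629977791389223923984420227005848540092554935857675676605566809504622723375467343185535100990344594236367427756709818633074255305536547540660711954993824070754800017383146518720001621122290503942235950862351915324375947996473647676947060374256677330618985438111964705067931649506637138789749918515790956015922473982569685390300639477460322439292172785833139032365717540219741020238105127926508578055175863888035243274861996979734943793142289243903094574290632509753636260055564666384080952206212300433315315991509077265717177315721530335838530520253091562378524399132993916013233256303359395766385097603559845155190489330166876689342111610547015648980284272322110349804221161299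977635678992082714974850716654070498627637780328785301443616832367386359259794744430699989362089392217386553900652741710751920841628812644670390006391339680203212266224189078989888958113131670547932917446321221651618585597348044339682990647382033893892994874749925577748486636961017109815892666441869824700304036485864580058380051070509536241971569580211511283088773884726175171672210464065862052650684521596390734395105687329704970260516721241830187067293596627533512452694719861675426008879358843641556718163286623031503594071194245194841915546536445467645268426141512493786848473058335136510175099388560328843057372115694229007234667108037813553753991840836902114338651743073372934696735301721375821626503621049384693064465401094549872459193168195385741663575446141106431814741254375599755761352368464354362983938617532177319426307795007528067085340932207352359544374104597447645948451434012852955718889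113109192835882682438126996739798772494543735828175819242860382744022160602089648441934897875394096919658103465441357350747980281773589578854237791023469821367386650047399731493463308594577642041408027571599911770313686829301508532856535553633498660050250463818280432564556537085616722380371841889755191075199551699788869795317319615018383876707102572991254908746157666121307842773326459569381879787042451625581938582323650345757825441286920398487183771585853187068990918216250350727815634492612994591603668901460283539247554415800476851073785413468731622259112855363822337034404824025605047847003618767678871215174509612785463469721235005229747795290667209437429647845370073798883107865210046732206756267182534815817225501644595864567653959234176213331467302998608697606562824952831926347881236683539593985978166175846996949466294367029567164504797449425661909889435730703263267833291642248135023274932583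350893427771705120324923555477785175700572854694870305270172673030224468602287668770445103420918989680729291836059804855695251021397732024479843385735182565178057631578759436403761260117300744498046023148806702025268778673434595102825469111444778639433994211599076420658091336212198879469446492135677169932803506450801763281462544415236738632203286493685484481204100755489413221099268076951640942031730394711103995358427838924870827087712212491608401933472007854608707590469824489014434284903204768852835054867666022807021154984090117776021348890234356343274640823860808831972863258847579139155764875701575258285289462291618274716820602835991665997363457999815751412473230633283593432326114250414707674797280675586705952728972513457461434746494410625484997019784495504269893307719148724547283013339458316193574612584459328478341942053026623894091000445940824830333264982347838594758351791389634878616034309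853113972499508420687538632337637703410159374940784246371014823184874080399171696132531095525941378322871351413424725697374786005629753447661711174356182852852362868387193752340704411350536761217284896490595910330058947903344411204032163799857012871418356775274360311608291311671912634802780001806614883016293828520529606919271580860450114980748323594910498736529761873200662295979304512768695725209978366711076815753881157478813449025385871034116612229334152382881727396857243788273476719442219577288392467939960769416763691813036515192246343230444172086024377205188969808399395737454972874700174941101516973955049376826513196774244893312366033784201057146304316225403502307234052772496686869833927352421017253910747089754504746402812288904859013134220574875381545940815472826750793116217423603043557527566326449124660297353125934902834669952926706520048744624089117386724863584268948950641388905227893551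682713464702849255874940064216458655540070850970014276702712039208691467685232960055288595355972416628192370689038847729338583748066248062544904260943212380176405730982666659635514568936864320814851319370427525441289254253615193018814968821646047277256981251364948190646442958521563711367469683550618923154766084055219184208595248998760068386073882774466016600008582920443764047316918815933730500068279705278895143266863432763503340656262010794624700329935339587811622022828016903726515866143116339699942685773558351684536291147283949005626930952486117468446756314478276842773858416067902528021811934570615513721090467560610348083049536490548962004997578713019381730674252913400363897334664731840415652154810008682386035229018148955407503780360523327123696391630443252381401821336707850430752013133162996560972768041486413265206107362967467274425939949034279664384574804684982171565001160715783629733238181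955327890321632778851082558079245345872562006759214243183209004118893200532351633904481174269600458734067204585056243236148209395380149478481484078470458071277164315867666916867492053207331749576196553160686503680630201429458695017148369810496437691526026092638824346254050858324232095655862210547591681323193287215941977224501524442389066675707608866048885059000769935875096898803421748612284558325932504546716645521808208312753595340126557080964599899046749516001602802512888812430495621980919056802748141629530184798211302067243163639885424043261028369873089121591998057430248829375501687596764921819708598548462981375794573197355511385643495881664944393762594220785319650240142591542717441252903965367754621466011129809890242175968516942326990098716294532379719708163622084722564614534625108593381114484085170021729340637348054587555493524035030994904469623143483556521039940407560351250999889080383829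446215576869617550853160807164884443581683832665084424337923760203007701676124287183243649524629982676050671947400541031475240527855088430961922427739267495422114536431873113421836731787320640676852763058541216791222435169927055478140328912310497619941751711869546336863444032284559449900240784792942574380003735449272145880015943652121052795883938010776181003957006136764456641187794924347326447554714316706715086060561504367245479237239205164114012260936479982204905755515295294271715907575847075653914500029277982138447336488125330030914408867725489093147288550615814716496152918559911114335824293511836176666267619516450821183879102458256234499096010275931099591067555791164001802125318836211980848826906648833432843274473729046076769426597458807208790191122129328158149132393919481542507131786891133039752795457080946546427830418441691339047840841129191518219858430982652207488360037294006950034819880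534688401158885296593461974173633143929680802457864651648223890437835342337321661339400242888844683394905691595102884813620532161304743737486437673264216995319477352793987731438543987590258999115959868714733390117167495378699386424962721121239891744052198838465875480291736854332486309988468604710330001471020876500980601472216083647866351600272663334975295808967496090799642289655247828425960288031552853730739424879350422191166986276029388587164819446153966525419665231608548341360830001018548525178197165397341896030043766013106086119791371016678751447073839168121913912821529920932261051922081806637744194284397542072565182929715447717012326801708394513615271414493998293075981516618418033990350113109877611554060814845163419785021770336861273162799006922520956735404901398952833796993232812312466177525259236489771278417857718027819652718645724060528620017785312307978020370732794482090801888992145005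685232679497668938879617966646549064687578790858679317012498896979742206447698602356310532150317440477754494697509400965888922596880899853533928647946148178996102515137316586752121245572885530977241494050012216796473421819025725497451096049488622884080883981763591694561041794448583159199686604561701968545720448872837167531959428995049087284366463000306394257100165378247147807345593407361066018101079923428762205800763001650922089612169833041368433081551655015005799580268637200165580486590343846107718756779165725282306676870561985300604722759220141293859604181458909121300464945351291034257455035174683989169621154658387967070412655033364108450287502971703895948246041548512016128708055651816980154869876453785876874934038226916069687160865089051836972838790536394941363383365982144366384409022603175717579983687269663027511385991692767944839213677004821520426982368430746157801227634685744388982525284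372359863180453196463621765962436631204917918744414992088047466673219011493346294925308790207287594311063632967274291152050091186481350119624466199813670137632073125695757813414710819543973871623714692260104689485143276519899615639481140171123901097242585607737904713125452810056765804083639952849186423164267373765823404508320911520811805777214877270783442509126237442728407307250721662378342737417704512501851146858773992789268421474231537233839110689624464968100043867708625398637750145780950831589992737738418247329762358654890309933311504725615184832116407758637511745145363118450674582536605206292865661603851027941229319968335456267291699105084262071953486795895613136425589972816160039335736466117253712196318242938727138667789835213398200978935257926305699016310346124733539799422273084774600705751748704892572601678617680308557111269509306047684088464320161904669492533512885733109384612967738837163234468490650649733671655917723141867949204868012155344178319066165043154647782581947689415513883545791225840165435356563048197681021168102872180014815305504063421460346986572669926708270618670352719561400200701070537925446380078765478723036910382684599900591620096)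

end Vale.Agent.Lib.P154.PChain.BQ.S7
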